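import Crest.Agent.R339.Var71G

/-!
Row 157, part D (helper68): the one-dimensional Parisi recursion with a general terminal function,
comparison under a bounded tilt of the terminal function, truncated lists.
-/

set_option autoImplicit false

noncomputable section

namespace Crest.Agent.T157.Sc

open MeasureTheory ProbabilityTheory Real
open Crest.Agent.R164.GC Crest.Agent.R339.B Crest.Agent.R339.Var
open Crest.ProbabilityR.InvariantGlass (gaussOp)

/-- the recursion along a list of blocks `(m, d)` with terminal function `F` -/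
def Rec : List (ℝ × ℝ) → (ℝ → ℝ) → ℝ → ℝ
  | [], F => F
  | p :: l, F => gaussOp p.1 p.2 (Rec l F)

/-- the tilted expectation of `φ` at the end of the list -/
def EL : List (ℝ × ℝ) → (ℝ → ℝ) → (ℝ → ℝ) → ℝ → ℝ
  | [], _, φ => φ
  | p :: l, F, φ => tE p.1 p.2 (Rec l F) (EL l F φ)

/-- the blocks before time `t` -/
def cut : List (ℝ × ℝ) → ℝ → List (ℝ × ℝ)
  | [], _ => []
  | p :: l, t => if t ≤ p.2 then [(p.1, t)] else p :: cut l (t - p.2)

/-- exponents in `(0, β]` -/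
def Pos (β : ℝ) (l : List (ℝ × ℝ)) : Prop := ∀ p ∈ l, 0 < p.1 ∧ p.1 ≤ β

theorem Pos.tail {β : ℝ} {p : ℝ × ℝ} {l : List (ℝ × ℝ)} (h : Pos β (p :: l)) : Pos β l :=
  fun q hq => h q (List.mem_cons_of_mem _ hq)

theorem Pos.head {β : ℝ} {p : ℝ × ℝ} {l : List (ℝ × ℝ)} (h : Pos β (p :: l)) :
    0 < p.1 ∧ p.1 ≤ β := h p List.mem_cons_self

theorem pos_of_adm {β : ℝ} : ∀ {l : List (ℝ × ℝ)}, Adm β l → Pos β l
  | [], _ => fun _ h => by simp at h
  | p :: l, h => by
    intro q hq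
    rcases List.mem_cons.1 hq with rfl | hq
    · exact ⟨h.1, h.2.1.trans h.2.2.2.head_le⟩
    · exact pos_of_adm h.2.2.2 q hq

theorem lip1_gaussOp {f : ℝ → ℝ} (hf : Lip1 f) {a : ℝ} (ha : 0 < a) (v : ℝ) :
    Lip1 (gaussOp a v f) := by
  intro x y
  rw [gaussOp_ne ha.ne', gaussOp_ne ha.ne']
  have hy := den_pos hf a (sqrt v) y
  have hx := den_pos hf a (sqrt v) x
  have h1 : H (sqrt v) (fun z => exp (a * f z)) x ≤
      exp (a * |x - y|) * H (sqrt v) (fun z => exp (a * f z)) y := by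
    unfold H
    rw [← integral_const_mul]
    refine integral_mono ((EG.exp_lip hf a).int _ _)
      (((EG.exp_lip hf a).int _ _).const_mul _) fun g => ?_
    show exp (a * f (x + sqrt v * g)) ≤ exp (a * |x - y|) * exp (a * f (y + sqrt v * g))
    rw [← exp_add]
    refine exp_le_exp.2 ?_
    have := hf (x + sqrt v * g) (y + sqrt v * g)
    rw [add_sub_add_right_eq_sub] at this
    nlinarith
  have h2 := log_le_log hx h1
  rw [log_mul (exp_pos _).ne' hy.ne', log_exp] at h2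
  have h3 := mul_le_mul_of_nonneg_left h2 (inv_pos.2 ha).le
  rw [mul_add, ← mul_assoc, inv_mul_cancel₀ ha.ne', one_mul] at h3
  linarith

theorem lip1_rec {β : ℝ} {F : ℝ → ℝ} (hF : Lip1 F) : ∀ {l : List (ℝ × ℝ)}, Pos β l → Lip1 (Rec l F)
  | [], _ => hF
  | _ :: _, h => lip1_gaussOp (lip1_rec hF h.tail) h.head.1 _

theorem EL_BC {β : ℝ} {F : ℝ → ℝ} (hF : Lip1 F) {φ : ℝ → ℝ} {K : ℝ} (hφ : BC φ K) :
    ∀ {l : List (ℝ × ℝ)}, Pos β l → BC (EL l F φ) K
  | [], _ => hφ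
  | _ :: _, h => tE_BC (lip1_rec hF h.tail) _ _ (EL_BC hF hφ h.tail)

theorem EL_mono {β : ℝ} {F : ℝ → ℝ} (hF : Lip1 F) {φ ψ : ℝ → ℝ} {K K' : ℝ} (hφ : BC φ K)
    (hψ : BC ψ K') (h : ∀ x, φ x ≤ ψ x) :
    ∀ {l : List (ℝ × ℝ)}, Pos β l → ∀ x, EL l F φ x ≤ EL l F ψ x
  | [], _ => h
  | _ :: _, hl => fun x => tE_mono (lip1_rec hF hl.tail) _ _ (EL_BC hF hφ hl.tail).eg
      (EL_BC hF hψ hl.tail).eg (EL_mono hF hφ hψ h hl.tail) x

theorem EL_affine {β : ℝ} {F : ℝ → ℝ} (hF : Lip1 F) {φ : ℝ → ℝ} {K : ℝ} (hφ : BC φ K) (a c : ℝ) :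
    ∀ {l : List (ℝ × ℝ)}, Pos β l → ∀ x, EL l F (fun y => a + c * φ y) x = a + c * EL l F φ x
  | [], _ => fun _ => rfl
  | p :: l, hl => fun x => by
    have e : EL l F (fun y => a + c * φ y) = fun x => a + c * EL l F φ x :=
      funext (EL_affine hF hφ a c hl.tail)
    have hL := lip1_rec hF hl.tail
    show tE p.1 p.2 (Rec l F) (EL l F fun y => a + c * φ y) x = a + c * tE p.1 p.2 (Rec l F) (EL l F φ) x
    rw [e, tE_add hL _ _ (EG.const a) ((EL_BC hF hφ hl.tail).eg.const_mul c), tE_const hL,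
      tE_const_mul]

theorem bc_exp {ψ : ℝ → ℝ} {K : ℝ} (hψ : BC ψ K) {β : ℝ} (hβ : 0 ≤ β) :
    BC (fun y => exp (β * ψ y)) (exp (β * K)) :=
  ⟨by have := hψ.cont; fun_prop, fun y => by
    rw [abs_of_pos (exp_pos _)]
    exact exp_le_exp.2 (mul_le_mul_of_nonneg_left (le_of_abs_le (hψ.bd y)) hβ)⟩

theorem EL_exp_pos {β : ℝ} (hβ : 0 ≤ β) {F : ℝ → ℝ} (hF : Lip1 F) {ψ : ℝ → ℝ} {K : ℝ}
    (hψ : BC ψ K) {l : List (ℝ × ℝ)} (hl : Pos β l) (x : ℝ) :
    exp (-(β * K)) ≤ EL l F (fun y => exp (β * ψ y)) x := by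
  have h1 := EL_mono hF (BC.const (exp (-(β * K)))) (bc_exp hψ hβ) (fun y => exp_le_exp.2 (by
    have := neg_le_of_abs_le (hψ.bd y)
    nlinarith)) hl x
  have h2 := EL_affine hF (BC.const 0) (exp (-(β * K))) 0 hl x
  simp only [zero_mul, add_zero] at h2
  rwa [h2] at h1

/-- one step of the comparison -/
theorem step_le {G F E : ℝ → ℝ} (hG : Lip1 G) (hF : Lip1 F) {K c β m : ℝ} (hE : BC E K)
    (hE0 : ∀ x, 0 < E x) (hm : 0 < m) (hmβ : m ≤ β) (h : ∀ x, G x ≤ F x + β⁻¹ * log (E x) + c)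
    (v x : ℝ) : gaussOp m v G x ≤ gaussOp m v F x + β⁻¹ * log (tE m v F E x) + c := by
  have hβ : 0 < β := hm.trans_le hmβ
  set A := tE m v F E x with hA
  have hD := den_pos hF m (sqrt v) x
  have hA0 : 0 < A := by
    rw [hA]; unfold tE
    exact div_pos (H_pos (hE.eg.mul (EG.exp_lip hF m)) (fun y => mul_pos (hE0 y) (exp_pos _)) _ _) hD
  set s := m / β with hs
  have hs0 : 0 ≤ s := by positivity
  have hs1 : s ≤ 1 := (div_le_one hβ).2 hmβ
  -- pointwise bound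
  have hpt : ∀ y, exp (m * G y) ≤
      exp (m * c + s * log A) * (((1 - s) + s / A * E y) * exp (m * F y)) := by
    intro y
    have h1 : m * G y ≤ (m * c + s * log A) + (s * (log (E y) - log A) + m * F y) := by
      have h2 := mul_le_mul_of_nonneg_left (h y) hm.le
      have h3 : m * (β⁻¹ * log (E y)) = s * log (E y) := by rw [hs]; field_simp
      nlinarith
    have h4 : exp (s * (log (E y) - log A)) ≤ (1 - s) + s / A * E y := by
      have h5 := convexOn_exp.2 (Set.mem_univ 0) (Set.mem_univ (log (E y) - log A))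
        (sub_nonneg.2 hs1) hs0 (by ring)
      simp only [smul_eq_mul, mul_zero, zero_add, exp_zero, mul_one] at h5
      rw [exp_sub, exp_log (hE0 y), exp_log hA0] at h5
      calc _ ≤ _ := h5
        _ = _ := by ring
    calc exp (m * G y) ≤ exp ((m * c + s * log A) + (s * (log (E y) - log A) + m * F y)) :=
          exp_le_exp.2 h1
      _ = exp (m * c + s * log A) * (exp (s * (log (E y) - log A)) * exp (m * F y)) := by
          rw [exp_add, exp_add (s * (log (E y) - log A))]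
      _ ≤ _ := by gcongr
  have hEG : EG fun y => (1 - s) + s / A * E y := (EG.const _).add (hE.eg.const_mul _)
  have h6 := H_mono (EG.exp_lip hG m) ((hEG.mul (EG.exp_lip hF m)).const_mul
    (exp (m * c + s * log A))) hpt (sqrt v) x
  rw [H_const_mul] at h6
  have h7 : H (sqrt v) (fun y => ((1 - s) + s / A * E y) * exp (m * F y)) x =
      H (sqrt v) (fun y => exp (m * F y)) x := by
    have h8 : tE m v F (fun y => (1 - s) + s / A * E y) x = 1 := by
      rw [tE_add hF _ _ (EG.const _) (hE.eg.const_mul _), tE_const hF, tE_const_mul, ← hA]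
      field_simp
      ring
    unfold tE at h8
    exact (div_eq_one_iff_eq hD.ne').1 h8
  rw [h7] at h6
  have h9 := log_le_log (den_pos hG m (sqrt v) x) h6
  rw [log_mul (exp_pos _).ne' hD.ne', log_exp] at h9
  rw [gaussOp_ne hm.ne', gaussOp_ne hm.ne']
  have h10 := mul_le_mul_of_nonneg_left h9 (inv_pos.2 hm).le
  have h11 : m⁻¹ * (m * c + s * log A) = c + β⁻¹ * log A := by rw [hs]; field_simp
  rw [mul_add, h11] at h10
  linarith

/-- comparison under a bounded tilt of the terminal function -/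
theorem rec_le_log {β : ℝ} (hβ : 0 < β) {G F ψ : ℝ → ℝ} (hG : Lip1 G) (hF : Lip1 F) {K c : ℝ}
    (hψ : BC ψ K) (h : ∀ x, G x ≤ F x + ψ x + c) :
    ∀ {l : List (ℝ × ℝ)}, Pos β l → ∀ x,
      Rec l G x ≤ Rec l F x + β⁻¹ * log (EL l F (fun y => exp (β * ψ y)) x) + c
  | [], _ => fun x => by
    show G x ≤ F x + β⁻¹ * log (exp (β * ψ x)) + c
    rw [log_exp, ← mul_assoc, inv_mul_cancel₀ hβ.ne', one_mul]
    exact h x
  | p :: l, hl => fun x =>
    step_le (lip1_rec hG hl.tail) (lip1_rec hF hl.tail) (EL_BC hF (bc_exp hψ hβ.le) hl.tail)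
      (fun y => (exp_pos _).trans_le (EL_exp_pos hβ.le hF hψ hl.tail y)) hl.head.1 hl.head.2
      (rec_le_log hβ hG hF hψ h hl.tail) p.2 x

/-- second-order form of the comparison -/
theorem rec_le {β : ℝ} (hβ : 0 < β) {G F ψ : ℝ → ℝ} (hG : Lip1 G) (hF : Lip1 F) {K c : ℝ}
    (hψ : BC ψ K) (hK : β * K ≤ 1) (h : ∀ x, G x ≤ F x + ψ x + c) {l : List (ℝ × ℝ)}
    (hl : Pos β l) (x : ℝ) : Rec l G x ≤ Rec l F x + EL l F ψ x + β * K ^ 2 + c := by
  have h1 := rec_le_log hβ hG hF hψ h hl x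
  have hK0 := hψ.nonneg
  have h2 : EL l F (fun y => exp (β * ψ y)) x ≤
      EL l F (fun y => (1 + (β * K) ^ 2) + β * ψ y) x := by
    refine EL_mono hF (bc_exp hψ hβ.le) ((BC.const _).add (hψ.const_mul β)) (fun y => ?_) hl x
    have h3 : |β * ψ y| ≤ β * K := by
      rw [abs_mul, abs_of_pos hβ]; exact mul_le_mul_of_nonneg_left (hψ.bd y) hβ.le
    have h4 := Real.abs_exp_sub_one_sub_id_le (h3.trans hK)
    have h5 : (β * ψ y) ^ 2 ≤ (β * K) ^ 2 := by
      rw [← sq_abs]; exact pow_le_pow_left₀ (abs_nonneg _) h3 2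
    have := le_of_abs_le h4
    linarith
  rw [EL_affine hF hψ _ _ hl] at h2
  have h3 := (exp_pos _).trans_le (EL_exp_pos hβ.le hF hψ hl x)
  have h4 := (log_le_sub_one_of_pos h3).trans (sub_le_sub_right h2 1)
  have h5 := mul_le_mul_of_nonneg_left h4 (inv_pos.2 hβ).le
  have h6 : β⁻¹ * (1 + (β * K) ^ 2 + β * EL l F ψ x - 1) = EL l F ψ x + β * K ^ 2 := by
    field_simp; ring
  rw [h6] at h5
  linarith

theorem rec_append (l l' : List (ℝ × ℝ)) (F : ℝ → ℝ) : Rec (l ++ l') F = Rec l (Rec l' F) := by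
  induction l with
  | nil => rfl
  | cons p l ih => simp only [List.cons_append, Rec, ih]

theorem EL_append (l l' : List (ℝ × ℝ)) (F φ : ℝ → ℝ) :
    EL (l ++ l') F φ = EL l (Rec l' F) (EL l' F φ) := by
  induction l with
  | nil => rfl
  | cons p l ih => simp only [List.cons_append, EL, ih, rec_append]

theorem rec_phi0 (β : ℝ) : ∀ l : List (ℝ × ℝ), Rec l (phi0 β) = PhiL β l
  | [] => rfl
  | p :: l => by simp only [Rec, PhiL, rec_phi0 β l]

theorem Pos.cut {β : ℝ} : ∀ {l : List (ℝ × ℝ)}, Pos β l → ∀ t, Pos β (cut l t)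
  | [], _, _ => fun _ h => by simp [Sc.cut] at h
  | p :: l, h, t => by
    unfold Sc.cut
    split_ifs
    · intro q hq
      rw [List.mem_singleton.1 hq]
      exact h.head
    · intro q hq
      rcases List.mem_cons.1 hq with rfl | hq
      · exact h.head
      · exact h.tail.cut _ q hq

theorem rec_cut {β : ℝ} (hβ : 0 < β) : ∀ {l : List (ℝ × ℝ)}, Pos β l → ∀ {t : ℝ}, 0 ≤ t →
    Rec (cut l t) (PhiT β l t) = PhiL β l
  | [], _, _, _ => rfl
  | p :: l, h, t, ht => by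
    unfold cut PhiT
    split_ifs with h1
    · show gaussOp p.1 t (gaussOp p.1 (p.2 - t) (PhiL β l)) = gaussOp p.1 p.2 (PhiL β l)
      rw [← gaussOp_semi (PhiL_prof hβ l) h.head.1.ne' ht (sub_nonneg.2 h1), add_sub_cancel]
    · show gaussOp p.1 p.2 (Rec (cut l (t - p.2)) (PhiT β l (t - p.2))) = gaussOp p.1 p.2 (PhiL β l)
      rw [rec_cut hβ h.tail (by linarith)]

theorem EL_cut {β : ℝ} (hβ : 0 < β) : ∀ {l : List (ℝ × ℝ)}, Pos β l → ∀ {t : ℝ}, 0 ≤ t →
    ∀ φ : ℝ → ℝ, EL (cut l t) (PhiT β l t) φ = EX β l t φ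
  | [], _, _, _, _ => rfl
  | p :: l, h, t, ht, φ => by
    unfold cut PhiT EX
    split_ifs with h1
    · rfl
    · show tE p.1 p.2 (Rec (cut l (t - p.2)) (PhiT β l (t - p.2)))
        (EL (cut l (t - p.2)) (PhiT β l (t - p.2)) φ) = _
      rw [rec_cut hβ h.tail (by linarith), EL_cut hβ h.tail (by linarith)]

end Crest.Agent.T157.Sc

end
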