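import Crest.Agent.T157.KbM_24

/-!
# Row 157, part A2, section 2 (helper29): `Kb.atStmt`, `Kb.ballStmt`
-/

set_option autoImplicit false

noncomputable section

namespace Crest.Agent.T157.Kb

open Matrix
open Crest.Agent.T157.E Crest.Agent.T157.Cond Crest.Agent.T157.Tap Crest.Agent.T157.Eig
open Crest.Agent.T157.Qe (Le Mm)

namespace At29

variable {n : ℕ}

lemma q_diag (D u : V n) : u ⬝ᵥ diagonal D *ᵥ u = ∑ i, D i * u i ^ 2 := by
  simp only [dotProduct, mulVec_diagonal]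
  exact Finset.sum_congr rfl fun i _ => by ring

lemma q_vmv (p u : V n) : u ⬝ᵥ vecMulVec p p *ᵥ u = (p ⬝ᵥ u) ^ 2 := by
  simp only [dotProduct, mulVec, vecMulVec_apply, sq, Finset.mul_sum, Finset.sum_mul]
  exact Finset.sum_congr rfl fun i _ => Finset.sum_congr rfl fun j _ => by ring

lemma dot_sq (u : V n) : u ⬝ᵥ u = ∑ i, u i ^ 2 := by simp only [dotProduct, sq]

lemma q_Mm (D e u : V n) (β : ℝ) :
    u ⬝ᵥ Mm D β e *ᵥ u = ∑ i, (D i + 2) * u i ^ 2 - β * (e ⬝ᵥ u) ^ 2 := by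
  simp only [Mm, add_mulVec, sub_mulVec, smul_mulVec, one_mulVec, dotProduct_add, dotProduct_sub,
    dotProduct_smul, smul_eq_mul, q_diag, q_vmv, dot_sq, add_mul, Finset.sum_add_distrib,
    ← Finset.mul_sum]
  ring

lemma ee_sq (hn : 0 < n) (x u : V n) : aS x * (ee x ⬝ᵥ u) ^ 2 = (th x ⬝ᵥ u) ^ 2 / n := by
  have hn' : (n : ℝ) ≠ 0 := by positivity
  have h1 : th x ⬝ᵥ u = len (th x) * (ee x ⬝ᵥ u) := by
    conv_lhs => rw [← len_smul_unitv (th x)]
    rw [smul_dotProduct, smul_eq_mul, ee]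
  have h2 : len (th x) ^ 2 = n * aS x := by
    rw [len, Real.sq_sqrt (by rw [dot_sq]; positivity), dot_sq, aS, avg]
    field_simp
  rw [h1, mul_pow, h2]
  field_simp

lemma q_AT (S : Finset (Fin n)) (x u : V n) (W : Mx n) :
    u ⬝ᵥ AT S x W *ᵥ u = ∑ i, ((if i ∈ S then 1 else Real.cosh (x i) ^ 2) + (1 - aS x)) * u i ^ 2 -
      u ⬝ᵥ W *ᵥ u - 2 * ((th x ⬝ᵥ u) ^ 2 / n) := by
  simp only [AT, add_mulVec, sub_mulVec, smul_mulVec, one_mulVec, dotProduct_add, dotProduct_sub,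
    dotProduct_smul, smul_eq_mul, q_diag, q_vmv, dot_sq, add_mul, Finset.sum_add_distrib,
    ← Finset.mul_sum]
  ring

lemma ph_le (S : Finset (Fin n)) (x : V n) (i : Fin n) :
    1 + phS S x i ≤ if i ∈ S then 1 else Real.cosh (x i) ^ 2 := by
  unfold phS
  split_ifs
  · simp
  · rw [Real.cosh_sq']
    linarith [min_le_left (Real.sinh (x i) ^ 2) 1]

/-- the hypothesis at `k = 1` in quadratic form -/
lemma le_one (hn : 0 < n) {S : Finset (Fin n)} {x : V n} {W : Mx n} {l : ℝ}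
    (h : Le W (Mm (Dk 1 (aS x ^ 2 / (1 - aS x) - l) S x) (2 * 1 * aS x) (ee x))) (u : V n) :
    u ⬝ᵥ W *ᵥ u ≤ ∑ i, (phS S x i + 2 - aS x - l) * u i ^ 2 - 2 * ((th x ⬝ᵥ u) ^ 2 / n) := by
  have hq : 1 - aS x ≠ 0 := (sub_pos.2 (aS_lt_one hn x)).ne'
  have := h u
  rw [q_Mm, mul_assoc, ee_sq hn, mul_one] at this
  refine this.trans_eq ?_
  congr 1
  refine Finset.sum_congr rfl fun i _ => ?_
  congr 1
  simp only [Dk]
  field_simp
  ring

lemma q_NN (B : Mx n) (d u : V n) :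
    u ⬝ᵥ NN B d *ᵥ u = u ⬝ᵥ u - (fun i => d i * u i) ⬝ᵥ B *ᵥ fun i => d i * u i := by
  have e : (fun i => d i * u i) = diagonal d *ᵥ u := by
    ext i
    rw [mulVec_diagonal]
  rw [NN, sub_mulVec, one_mulVec, dotProduct_sub, e, ← mulVec_mulVec, ← mulVec_mulVec,
    dotProduct_mulVec u (diagonal d), ← mulVec_transpose, diagonal_transpose]

lemma dd_sq {p : V n} (hp : Cb p) (i : Fin n) : dd p i ^ 2 = 1 - p i ^ 2 :=
  Real.sq_sqrt (by have := abs_le.1 (hp i); nlinarith)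

lemma q_B1 (hn : 0 < n) (W : Mx n) {p : V n} (hp : Cb p) (v : V n) :
    v ⬝ᵥ B1 W 1 p *ᵥ v = v ⬝ᵥ W *ᵥ v - (1 - p ⬝ᵥ p / n) * (v ⬝ᵥ v) + 2 * ((p ⬝ᵥ v) ^ 2 / n) := by
  have hn' : (n : ℝ) ≠ 0 := by positivity
  have e : (avg fun i => dd p i ^ 2) = 1 - p ⬝ᵥ p / n := by
    simp only [avg, dd_sq hp, Finset.sum_sub_distrib, dot_sq, Finset.sum_const, Finset.card_univ,
      Fintype.card_fin, nsmul_eq_mul]
    field_simp
  simp only [B1, B0, add_mulVec, sub_mulVec, smul_mulVec, one_mulVec, dotProduct_add,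
    dotProduct_sub, dotProduct_smul, smul_eq_mul, q_vmv, e]
  ring

lemma cb_th (x : V n) : Cb (th x) := fun i => (Real.abs_tanh_lt_one (x i)).le

lemma aS_eq (x : V n) : aS x = th x ⬝ᵥ th x / n := by rw [dot_sq, aS, avg]

lemma sech_sq (y : ℝ) : Real.cosh y ^ 2 * (1 - Real.tanh y ^ 2) = 1 := by
  have h := Real.cosh_pos y
  rw [Real.tanh_eq_sinh_div_cosh]
  field_simp
  rw [Real.cosh_sq']
  ring

end At29

open At29

theorem atStmt : AtStmt := by
  intro n S x W hn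
  have hq : 0 < 1 - aS x := sub_pos.2 (aS_lt_one hn x)
  refine ⟨fun l h u => ?_, fun h u => ?_, fun l hl hW h => ?_⟩
  · have h1 := le_one hn h u
    have h2 : ∑ i, (phS S x i + 2 - aS x - l) * u i ^ 2 + l * ∑ i, u i ^ 2 ≤
        ∑ i, ((if i ∈ S then 1 else Real.cosh (x i) ^ 2) + (1 - aS x)) * u i ^ 2 := by
      rw [Finset.mul_sum, ← Finset.sum_add_distrib]
      refine Finset.sum_le_sum fun i _ => ?_
      rw [← add_mul]
      exact mul_le_mul_of_nonneg_right (by linarith [ph_le S x i]) (sq_nonneg _)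
    rw [q_AT, dot_sq]
    linarith
  · have h1 := h u
    rw [q_Mm, mul_assoc, ee_sq hn] at h1
    have h2 : 4 / 5 * ∑ i, (Dk (5 / 4) (aS x ^ 2 / (1 - aS x)) S x i + 2) * u i ^ 2 +
        1 / 5 * ((1 - aS x + 1 / (1 - aS x)) * ∑ i, u i ^ 2) ≤
        ∑ i, ((if i ∈ S then 1 else Real.cosh (x i) ^ 2) + (1 - aS x)) * u i ^ 2 := by
      simp only [Finset.mul_sum, ← Finset.sum_add_distrib]
      refine Finset.sum_le_sum fun i _ => ?_
      have e : 4 / 5 * (Dk (5 / 4) (aS x ^ 2 / (1 - aS x)) S x i + 2) +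
          1 / 5 * (1 - aS x + 1 / (1 - aS x)) = 1 + phS S x i + (1 - aS x) := by
        simp only [Dk]
        field_simp
        ring
      rw [← mul_assoc, ← mul_assoc, ← add_mul, e]
      exact mul_le_mul_of_nonneg_right (by linarith [ph_le S x i]) (sq_nonneg _)
    rw [q_AT]
    simp only [smul_mulVec, sub_mulVec, one_mulVec, dotProduct_smul, dotProduct_sub, smul_eq_mul,
      dot_sq]
    linarith
  · rw [Deg.det_DY]
    refine PosDef.det_pos (PosDef.of_dotProduct_mulVec_pos ?_ fun u hu => ?_)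
    · rw [IsHermitian, conjTranspose_eq_transpose_of_trivial]
      simp only [NN, B1, B0, transpose_sub, transpose_one, transpose_mul, diagonal_transpose,
        transpose_add, transpose_smul, hW, transpose_vecMulVec, Matrix.mul_assoc]
    · rw [star_trivial, q_NN, q_B1 hn W (cb_th x), ← aS_eq]
      have h1 := h fun i => dd (th x) i * u i
      rw [q_AT] at h1
      have e : ∑ i, ((if i ∈ (∅ : Finset (Fin n)) then 1 else Real.cosh (x i) ^ 2) + (1 - aS x)) *
          (dd (th x) i * u i) ^ 2 = u ⬝ᵥ u + (1 - aS x) *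
            ((fun i => dd (th x) i * u i) ⬝ᵥ fun i => dd (th x) i * u i) := by
        simp only [dot_sq, Finset.mul_sum, ← Finset.sum_add_distrib]
        refine Finset.sum_congr rfl fun i _ => ?_
        rw [if_neg (Finset.notMem_empty i), add_mul, mul_pow (dd (th x) i), dd_sq (cb_th x),
          ← mul_assoc, th, sech_sq, one_mul]
      have h2 : 0 < (fun i => dd (th x) i * u i) ⬝ᵥ fun i => dd (th x) i * u i := by
        obtain ⟨i, hi⟩ := Function.ne_iff.1 hu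
        rw [dot_sq]
        refine Finset.sum_pos' (fun _ _ => sq_nonneg _) ⟨i, Finset.mem_univ _, ?_⟩
        have h3 : 0 < dd (th x) i := Real.sqrt_pos.2 (sub_pos.2 (th_sq_lt x i))
        have h4 : u i ≠ 0 := hi
        positivity
      have := mul_pos hl h2
      rw [e] at h1
      linarith

namespace At29

variable {n : ℕ}

lemma cs (a v : V n) : (a ⬝ᵥ v) ^ 2 ≤ (a ⬝ᵥ a) * (v ⬝ᵥ v) := by
  rw [dot_sq, dot_sq]
  exact Finset.sum_mul_sq_le_sq_mul_sq _ _ _

lemma am {r X Y A : ℝ} (hr : 0 < r) (hX : X ^ 2 ≤ r ^ 2 * A) (hY : Y ^ 2 ≤ 4 * A) :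
    X * Y ≤ 2 * r * A := by
  have h1 : r * (X * Y) ≤ r * (2 * r * A) := by
    nlinarith [sq_nonneg (X - r * Y / 2), mul_le_mul_of_nonneg_left hY (sq_nonneg r)]
  exact le_of_mul_le_mul_left h1 hr

lemma site {l r ph p p' : ℝ} (hl : 0 < l) (hl1 : l ≤ 1) (hr : r ≤ l / 12) (hp : |p| ≤ 1)
    (hp' : |p'| ≤ 1) (h0 : 0 ≤ ph) (h1 : ph ≤ 1)
    (h : ph = 0 ∨ ((ph + 1) * (1 - p ^ 2) ≤ 1 ∧ |p' - p| ≤ l / 64)) :
    (ph + 1 - l + 6 * r) * (1 - p' ^ 2) ≤ 1 - l / 16 := by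
  obtain ⟨a1, a2⟩ := abs_le.1 hp
  obtain ⟨b1, b2⟩ := abs_le.1 hp'
  have d0 : 0 ≤ 1 - p' ^ 2 := by nlinarith
  have d1 : 1 - p' ^ 2 ≤ 1 := by nlinarith
  have e : (ph + 1 - l + 6 * r) * (1 - p' ^ 2) ≤ (ph + 1 - l / 2) * (1 - p' ^ 2) :=
    mul_le_mul_of_nonneg_right (by linarith) d0
  refine e.trans ?_
  rcases h with h | ⟨h, h'⟩
  · subst h
    nlinarith
  · by_cases hd : 1 - p' ^ 2 ≤ 1 / 4
    · nlinarith
    · have h2 : p ^ 2 - p' ^ 2 ≤ l / 32 := by
        have h3 : |p' + p| ≤ 2 := abs_le.2 ⟨by linarith, by linarith⟩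
        calc p ^ 2 - p' ^ 2 = -((p' - p) * (p' + p)) := by ring
          _ ≤ |(p' - p) * (p' + p)| := neg_le_abs _
          _ = |p' - p| * |p' + p| := abs_mul _ _
          _ ≤ l / 64 * 2 := mul_le_mul h' h3 (abs_nonneg _) (by positivity)
          _ = l / 32 := by ring
      have h4 : (ph + 1) * (p ^ 2 - p' ^ 2) ≤ l / 16 := by nlinarith
      nlinarith

end At29

theorem ballStmt : BallStmt := by
  intro l hl κ hκ
  refine ⟨l / 16, by positivity, min (l / 12) (Real.sqrt κ * (l / 64)), by positivity,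
    fun n x W hn hlq h p' hp' hd => ?_⟩
  set r := min (l / 12) (Real.sqrt κ * (l / 64)) with hr
  have hr0 : 0 < r := by positivity
  have hr1 : r ≤ l / 12 := min_le_left _ _
  have hr2 : r ^ 2 ≤ κ * (l / 64) ^ 2 := by
    calc r ^ 2 ≤ (Real.sqrt κ * (l / 64)) ^ 2 := pow_le_pow_left₀ hr0.le (min_le_right _ _) 2
      _ = _ := by rw [mul_pow, Real.sq_sqrt hκ.le]
  have hn' : (0 : ℝ) < n := by exact_mod_cast hn
  have hl1 : l ≤ 1 := hlq.trans (aS_lt_one hn x).le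
  have ha : (p' - th x) ⬝ᵥ (p' - th x) ≤ r ^ 2 * n := by
    have h0 : 0 ≤ (p' - th x) ⬝ᵥ (p' - th x) := by rw [dot_sq]; positivity
    calc (p' - th x) ⬝ᵥ (p' - th x) = nrm (p' - th x) ^ 2 := (Real.sq_sqrt h0).symm
      _ ≤ (r * Real.sqrt n) ^ 2 := pow_le_pow_left₀ (Real.sqrt_nonneg _) hd 2
      _ = _ := by rw [mul_pow, Real.sq_sqrt hn'.le]
  have hb : (p' + th x) ⬝ᵥ (p' + th x) ≤ 4 * n := by
    rw [dot_sq]
    calc ∑ i, (p' + th x) i ^ 2 ≤ ∑ _i : Fin n, (4 : ℝ) := Finset.sum_le_sum fun i _ => by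
          have := abs_le.1 (hp' i)
          have := abs_le.1 (cb_th x i)
          rw [Pi.add_apply]
          nlinarith
      _ = 4 * n := by simp [mul_comm]
  have hq : |p' ⬝ᵥ p' / n - aS x| ≤ 2 * r := by
    have e : p' ⬝ᵥ p' / n - aS x = (p' - th x) ⬝ᵥ (p' + th x) / n := by
      rw [aS_eq, sub_dotProduct, dotProduct_add, dotProduct_add, dotProduct_comm (th x) p']
      ring
    have h1 : ((p' - th x) ⬝ᵥ (p' + th x)) ^ 2 ≤ (2 * r * n) ^ 2 := by
      refine (cs _ _).trans ((mul_le_mul ha hb (by rw [dot_sq]; positivity)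
        (by positivity)).trans_eq (by ring))
    rw [e, abs_div, abs_of_pos hn', div_le_iff₀ hn']
    exact abs_le_of_sq_le_sq' h1 (by positivity) |> abs_le.2
  obtain ⟨hq1, hq2⟩ := abs_le.1 hq
  refine ⟨fun u => ?_, ?_⟩
  · set S : Finset (Fin n) := Finset.univ.filter fun i => l / 64 < |p' i - th x i| with hS
    have hc : (S.card : ℝ) ≤ κ * n := by
      have h1 : (S.card : ℝ) * (l / 64) ^ 2 ≤ (p' - th x) ⬝ᵥ (p' - th x) := by
        rw [dot_sq]
        calc (S.card : ℝ) * (l / 64) ^ 2 = ∑ _i ∈ S, (l / 64) ^ 2 := by simp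
          _ ≤ ∑ i ∈ S, (p' - th x) i ^ 2 := Finset.sum_le_sum fun i hi => by
            rw [Pi.sub_apply, ← sq_abs (p' i - th x i)]
            exact pow_le_pow_left₀ (by positivity) (Finset.mem_filter.1 hi).2.le 2
          _ ≤ _ := Finset.sum_le_sum_of_subset_of_nonneg (Finset.subset_univ _)
            fun _ _ _ => sq_nonneg _
      have h2 : (S.card : ℝ) * (l / 64) ^ 2 ≤ κ * n * (l / 64) ^ 2 := by
        nlinarith [mul_le_mul_of_nonneg_right hr2 hn'.le]
      exact le_of_mul_le_mul_right h2 (by positivity)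
    set v : V n := fun i => dd p' i * u i with hv
    have h1 := le_one hn (h S hc) v
    have hv0 : 0 ≤ v ⬝ᵥ v := by rw [dot_sq]; positivity
    have h2 : (p' ⬝ᵥ v) ^ 2 / n - (th x ⬝ᵥ v) ^ 2 / n ≤ 2 * r * (v ⬝ᵥ v) := by
      have e : (p' ⬝ᵥ v) ^ 2 - (th x ⬝ᵥ v) ^ 2 = ((p' - th x) ⬝ᵥ v) * ((p' + th x) ⬝ᵥ v) := by
        rw [sub_dotProduct, add_dotProduct]
        ring
      rw [← sub_div, e, div_le_iff₀ hn']
      refine (am hr0 (A := n * (v ⬝ᵥ v)) ?_ ?_).trans_eq (by ring)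
      · exact (cs _ _).trans ((mul_le_mul_of_nonneg_right ha hv0).trans_eq (by ring))
      · exact (cs _ _).trans ((mul_le_mul_of_nonneg_right hb hv0).trans_eq (by ring))
    have h3 : ∑ i, (phS S x i + 1 - l + 6 * r) * v i ^ 2 ≤ (1 - l / 16) * (u ⬝ᵥ u) := by
      rw [dot_sq, Finset.mul_sum]
      refine Finset.sum_le_sum fun i _ => ?_
      rw [hv, mul_pow, dd_sq hp', ← mul_assoc]
      refine mul_le_mul_of_nonneg_right (site hl hl1 hr1 (cb_th x i) (hp' i) ?_ ?_ ?_) (sq_nonneg _)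
      · unfold phS
        split_ifs
        · exact le_rfl
        · positivity
      · unfold phS
        split_ifs
        · exact zero_le_one
        · exact min_le_right _ _
      · by_cases hi : i ∈ S
        · exact Or.inl (by simp [phS, hi])
        · refine Or.inr ⟨?_, ?_⟩
          · have h4 := ph_le S x i
            rw [if_neg hi] at h4
            calc (phS S x i + 1) * (1 - th x i ^ 2) ≤ Real.cosh (x i) ^ 2 * (1 - th x i ^ 2) :=
                  mul_le_mul_of_nonneg_right (by linarith) (sub_pos.2 (th_sq_lt x i)).le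
              _ = 1 := sech_sq _
          · simpa [hS] using hi
    have e : ∑ i, (phS S x i + 1 - l + 6 * r) * v i ^ 2 =
        ∑ i, (phS S x i + 2 - aS x - l) * v i ^ 2 + (aS x - 1 + 6 * r) * (v ⬝ᵥ v) := by
      rw [dot_sq, Finset.mul_sum, ← Finset.sum_add_distrib]
      exact Finset.sum_congr rfl fun i _ => by ring
    rw [q_NN, q_B1 hn W hp', ← hv]
    nlinarith [mul_le_mul_of_nonneg_right hq2 hv0]
  · have e : avg (DD p') = 1 - p' ⬝ᵥ p' / n := by
      simp only [avg, DD, Finset.sum_sub_distrib, dot_sq, Finset.sum_const, Finset.card_univ,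
        Fintype.card_fin, nsmul_eq_mul]
      field_simp
    rw [e]
    linarith

end Crest.Agent.T157.Kb

end
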