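import Crest.Agent.T157.KbM_24

/-!
# Row 157, A2 section 2 (helper12): `Kb.b1Glue`, `Kb.b1sGlue`

Deterministic case analysis of the core cell and union bounds.
-/

set_option autoImplicit false

noncomputable section

namespace Crest.Agent.T157.Kb

open MeasureTheory Matrix Set Filter Topology
open scoped ENNReal
open Crest.Agent.T157.E Crest.Agent.T157.Cond Crest.Agent.T157.Tap
open Crest.Agent.T157.Conc (ex ex_mono ex_add)

namespace B12

/-! ### real arithmetic -/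

lemma cube {M L s q u : ℝ} (hs : 0 ≤ s) (hq : 0 ≤ q) (hM : 0 ≤ M) (hL : 18 * L ≤ M ^ 3)
    (h : M * s ≤ |u|) : L * (s ^ 2 * s) ≤ q * u ^ 2 / 2 + |u| ^ 3 / 18 := by
  have h1 : (M * s) ^ 3 ≤ |u| ^ 3 := pow_le_pow_left₀ (by positivity) h 3
  have h2 : 18 * L * s ^ 3 ≤ M ^ 3 * s ^ 3 := mul_le_mul_of_nonneg_right hL (by positivity)
  have h3 : 0 ≤ q * u ^ 2 / 2 := by positivity
  rw [mul_pow] at h1
  nlinarith

lemma abs_u {g w u : ℝ} (hg : 0 < g) (hu : u = w / g) : |u| * g = |w| := by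
  rw [hu, abs_div, abs_of_pos hg]; field_simp

lemma step1 {M γ s q w u : ℝ} (hs : 0 < s) (hq : 0 ≤ q) (hM : 0 ≤ M) (hγ : 6 * M * γ ≤ 1)
    (h1 : q ≤ γ * s) (h2 : s ≤ γ) (hw : w < -(s ^ 2 / 2)) (hu : u = w / (q + s ^ 2 + q)) :
    M * s ≤ |u| := by
  have e := abs_u (by positivity) hu
  have hw' : s ^ 2 / 2 ≤ |w| := by rw [abs_of_neg (by nlinarith)]; linarith
  have a0 := abs_nonneg u
  have h3 : q + s ^ 2 + q ≤ 3 * γ * s := by nlinarith
  have h4 : s ^ 2 / 2 ≤ |u| * (3 * γ * s) := by nlinarith [mul_le_mul_of_nonneg_left h3 a0]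
  have h5 : s ≤ 6 * γ * |u| := by
    by_contra hc
    nlinarith [mul_lt_mul_of_pos_right (not_le.1 hc) hs]
  nlinarith [mul_le_mul_of_nonneg_left h5 hM, mul_le_mul_of_nonneg_right hγ a0]

lemma step2 {M B γ s q w u : ℝ} (hs : 0 < s) (hq : 0 ≤ q) (hB0 : 0 ≤ B) (hB : 2 * M ≤ B * γ)
    (h1 : γ * s ≤ q) (hw : w < -(B * (q + s ^ 2) ^ 2)) (hu : u = w / (q + s ^ 2 + q)) :
    M * s ≤ |u| := by
  have e := abs_u (by positivity) hu
  have g0 : 0 < q + s ^ 2 := by positivity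
  have hw' : B * (q + s ^ 2) ^ 2 ≤ |w| := by
    have : 0 ≤ B * (q + s ^ 2) ^ 2 := by positivity
    rw [abs_of_neg (by linarith)]; linarith
  have a0 := abs_nonneg u
  have h4 : B * (q + s ^ 2) * (q + s ^ 2) ≤ 2 * |u| * (q + s ^ 2) := by
    nlinarith [mul_nonneg a0 (sq_nonneg s)]
  have h5 : B * (q + s ^ 2) ≤ 2 * |u| := le_of_mul_le_mul_right h4 g0
  nlinarith [mul_le_mul_of_nonneg_left h1 hB0, mul_le_mul_of_nonneg_right hB hs.le,
    mul_nonneg hB0 (sq_nonneg s)]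

lemma step3 {B g t a : ℝ} (ht : 0 < t) (hg : t ≤ g) (hB : 0 ≤ B)
    (h : (a + t) * a ≤ (2 * B + 1) * g ^ 2) : |a| ≤ (2 * B + 3) * g := by
  by_contra hc
  replace hc := not_le.1 hc
  have g0 : 0 < g := ht.trans_le hg
  have h1 : (|a| - t) * |a| ≤ (a + t) * a := by
    have := neg_abs_le a
    nlinarith [sq_abs a]
  have h2 : (2 * B + 2) * g < |a| - t := by nlinarith
  have h3 : (2 * B + 2) * g * ((2 * B + 3) * g) < (|a| - t) * |a| :=
    mul_lt_mul'' h2 hc (by positivity) (by positivity)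
  nlinarith [mul_nonneg hB (sq_nonneg g), mul_nonneg (mul_nonneg hB hB) (sq_nonneg g), sq_nonneg g]

/-- the normalised equations -/
lemma norm_eq {q t a u R3 R4 h : ℝ} (hq : 0 < q) (ht : 0 < t)
    (hu : u = (R4 + (q + t) * q - t - (a + t) * a) / (q + t + q))
    (h4 : |R4 - q ^ 2| ≤ h * q ^ 2) (h3 : |R3 - a * q| ≤ h * q ^ 2) :
    ∃ T σ U r3 r4 : ℝ, a = T * q ∧ t = σ * q ^ 2 ∧ u = U * q ∧ 0 < σ ∧ |r3| ≤ h ∧ |r4| ≤ h ∧
      R3 - t - u * a = (T * (1 - U) - σ + r3) * q ^ 2 ∧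
      U * (2 + σ * q) = 2 + r4 + σ * q - σ - T ^ 2 - σ * q * T := by
  have q2 : 0 < q ^ 2 := by positivity
  refine ⟨a / q, t / q ^ 2, u / q, (R3 - a * q) / q ^ 2, (R4 - q ^ 2) / q ^ 2, by field_simp,
    by field_simp, by field_simp, by positivity, ?_, ?_, by field_simp; ring, ?_⟩
  · rwa [abs_div, abs_of_pos q2, div_le_iff₀ q2]
  · rwa [abs_div, abs_of_pos q2, div_le_iff₀ q2]
  · rw [eq_div_iff (by positivity)] at hu
    field_simp
    linear_combination hu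

lemma crude {T σ U r3 r4 η : ℝ} (hσ : 0 < σ) (hσ1 : σ ≤ 1 / 100) (h0 : 0 ≤ η) (h1 : η ≤ 1)
    (hT : |η * T| ≤ 1 / 100) (h3 : |r3| ≤ 1 / 100) (h4 : |r4| ≤ 1 / 100) (hU : |U| ≤ 1 / 10)
    (e : U * (2 + η) = 2 + r4 + η - σ - T ^ 2 - η * T) : 1 ≤ (T * (1 - U) - σ + r3) ^ 2 := by
  rw [abs_le] at hT h3 h4 hU
  have a1 : U * (2 + η) ≤ 3 / 10 := by nlinarith
  have a2 : (5 / 4) ^ 2 ≤ T ^ 2 := by nlinarith
  rcases le_total 0 T with h | h
  · have : 5 / 4 ≤ T := by nlinarith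
    have : 1 ≤ T * (1 - U) - σ + r3 := by nlinarith
    nlinarith
  · have : T ≤ -(5 / 4) := by nlinarith
    have : T * (1 - U) - σ + r3 ≤ -1 := by nlinarith
    nlinarith

lemma sharp {K ε k h T σ U r3 r4 η : ℝ} (hK : 1 ≤ K) (hε : ε ≤ 1) (hσ : 0 < σ) (hT : |T| ≤ K)
    (h0 : 0 ≤ η) (h1 : η ≤ h) (h3 : |r3| ≤ h) (h4 : |r4| ≤ h) (hU : |U| ≤ k)
    (hD : |T * (1 - U) - σ + r3| ≤ k) (hk : 40 * K * k ≤ ε) (hh : 32 * K * h ≤ ε)
    (e : U * (2 + η) = 2 + r4 + η - σ - T ^ 2 - η * T) : |1 - σ| ≤ ε * σ ∧ |T - 1| ≤ ε := by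
  have k0 : 0 ≤ k := (abs_nonneg _).trans hU
  have h0' : 0 ≤ h := h0.trans h1
  have b1 : |T * U| ≤ K * k := by rw [abs_mul]; exact mul_le_mul hT hU (abs_nonneg _) (by linarith)
  have b2 : |η * T| ≤ h * K := by
    rw [abs_mul, abs_of_nonneg h0]; exact mul_le_mul h1 hT (abs_nonneg _) h0'
  have c1 : k ≤ K * k := by nlinarith
  have c2 : h ≤ h * K := by nlinarith
  have b3 : |U * η| ≤ k := by
    rw [abs_mul, abs_of_nonneg h0]
    nlinarith [abs_nonneg U, mul_le_mul hU (show η ≤ 1 by nlinarith) h0 k0]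
  rw [abs_le] at b1 b2 b3 h3 h4 hU hD
  obtain ⟨b1, b1'⟩ := b1
  obtain ⟨b2, b2'⟩ := b2
  obtain ⟨b3, b3'⟩ := b3
  obtain ⟨h3, h3'⟩ := h3
  obtain ⟨h4, h4'⟩ := h4
  obtain ⟨hU, hU'⟩ := hU
  obtain ⟨hD, hD'⟩ := hD
  have t1 : -1 ≤ T := by linarith
  have p1 : (T - 1) * (T + 2) ≤ ε / 4 := by linarith
  have p2 : -(ε / 4) ≤ (T - 1) * (T + 2) := by linarith
  have e0 : 0 ≤ ε := by linarith
  have t2 : T - 1 ≤ ε / 4 := by
    by_contra hc
    linarith [mul_nonneg (show 0 ≤ T - 1 by linarith) (show 0 ≤ T + 1 by linarith)]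
  have t3 : -(ε / 4) ≤ T - 1 := by
    by_contra hc
    linarith [mul_nonneg (show 0 ≤ 1 - T by linarith) (show 0 ≤ T + 1 by linarith)]
  have s1 : σ - 1 ≤ ε / 2 := by linarith
  have s2 : -(ε / 2) ≤ σ - 1 := by linarith
  have s3 : ε / 2 ≤ ε * σ := by linarith [mul_nonneg e0 (show 0 ≤ σ - 1 / 2 by linarith)]
  exact ⟨abs_le.2 ⟨by linarith, by linarith⟩, abs_le.2 ⟨by linarith, by linarith⟩⟩

/-- the exponent of the Ramer tilt from below -/
lemma net {k q t u d : ℝ} (hq : 0 < q) (ht : 0 < t) (htq : t ≤ q)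
    (h : k * q ^ 2 ≤ u ^ 2 ∨ k * q ^ 4 ≤ d ^ 2) (hk : 0 ≤ k) :
    k * q ^ 3 / 20 ≤ q * u ^ 2 / 20 + d ^ 2 / (2 * (q + t)) := by
  have p1 : 0 ≤ q * u ^ 2 / 20 := by positivity
  have p2 : 0 ≤ d ^ 2 / (2 * (q + t)) := by positivity
  rcases h with h | h
  · nlinarith [mul_le_mul_of_nonneg_left h hq.le]
  · have : k * q ^ 3 / 20 ≤ d ^ 2 / (2 * (q + t)) := by
      rw [le_div_iff₀ (by positivity)]
      have : 0 ≤ k * q ^ 3 := by positivity
      nlinarith [mul_le_mul_of_nonneg_left htq this, mul_nonneg this hq.le]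
    linarith

lemma md_le {q t a u R3 h : ℝ} (hq : 0 ≤ q) (hq1 : q ≤ 1) (ha : |a| ≤ 1) (hu : |u| ≤ 1)
    (hh : h ≤ 1) (h3 : |R3 - a * q| ≤ h * q ^ 2) : |a + t + (R3 - t - u * a)| ≤ 4 := by
  have b1 : |u * a| ≤ 1 := by rw [abs_mul]; exact mul_le_one₀ hu (abs_nonneg _) ha
  have b2 : |a * q| ≤ 1 := by
    rw [abs_mul, abs_of_nonneg hq]; exact mul_le_one₀ ha hq hq1
  have b3 : h * q ^ 2 ≤ 1 := by nlinarith [mul_le_mul_of_nonneg_right hh (sq_nonneg q)]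
  rw [abs_le] at *
  constructor <;> linarith [b1.1, b1.2, b2.1, b2.2, h3.1, h3.2, ha.1, ha.2]

lemma abs_u_le {B g q w u : ℝ} (hg : 0 < g) (hq : 0 ≤ q) (hu : u = w / (g + q))
    (hw : |w| ≤ B * g ^ 2) : |u| ≤ B * g := by
  have e := abs_u (by positivity) hu
  refine le_of_mul_le_mul_right ?_ hg
  nlinarith [mul_nonneg (abs_nonneg u) hq]

/-- **the deterministic case analysis** -/
lemma cell {L M A c1 γ B B' cR C5 e s t q a u w R3 R4 : ℝ} (hs : 0 < s) (ht : t = s ^ 2)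
    (hq : 0 ≤ q) (hw : w = R4 + (q + t) * q - t - (a + t) * a) (hu : u = w / (q + t + q))
    (M0 : 0 ≤ M) (hM : 18 * L ≤ M ^ 3) (γ0 : 0 < γ) (γ1 : 6 * M * γ ≤ 1) (γ2 : γ ^ 2 ≤ c1)
    (hsγ : s ≤ γ) (A1 : 1 ≤ A) (hAB : A ≤ B) (hB : 2 * M ≤ B * γ) (B1 : 2 * B + 3 ≤ B')
    (B2 : 1 ≤ B' * γ ^ 2) (hq1 : 11 * B' * q ≤ 1) (hq2 : q ≤ cR * (1 / 100) ^ 2) (C1 : 10 ≤ C5)
    (C2 : 2000 * L ≤ C5 ^ 3) (hse : C5 * s ≤ cR * e ^ 2)
    (n3 : ¬ (A * (q + t) ^ 2 ≤ w ∨ (|w| ≤ B * (q + t) ^ 2 ∧ A * (q + t) ^ 2 ≤ R4) ∨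
      (q ^ 2 ≤ c1 * t ∧ -(t / 2) ≤ w ∧ w ≤ A * (q + t) ^ 2)))
    (n4 : ¬ (q ≤ 1 / 2 ∧ w ≤ 0 ∧ L * (t * s) ≤ q * u ^ 2 / 2 + |u| ^ 3 / 18))
    (n5 : ∀ e' : ℝ, e' = 1 / 100 ∨ e' = e → ¬ (t ≤ B' * q ^ 2 ∧ q ≤ cR * e' ^ 2 ∧
      |w| ≤ B' * (q + t) ^ 2 ∧ |a| ≤ B' * (q + t) ∧
      ¬ (|R4 - q ^ 2| ≤ e' * q ^ 2 ∧ |R3 - a * q| ≤ e' * q ^ 2)))
    (n6 : ¬ (q ≤ 1 / 11 ∧ R4 ≤ 11 / 10 * q ^ 2 ∧ |a + t + (R3 - t - u * a)| ≤ 4 ∧
      L * (t * s) ≤ q * u ^ 2 / 20 + (R3 - t - u * a) ^ 2 / (2 * (q + t)))) :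
    t ≤ B' * q ^ 2 ∧ q ^ 2 ≤ C5 ^ 2 * t ∧ |a| ≤ 2 * B' * q ∧ |u| ≤ 2 * B' * q ∧
      |R3 - t - u * a| ≤ 8 * B' ^ 2 * q ^ 2 ∧ |R4 - q ^ 2| ≤ e * q ^ 2 ∧
      |R3 - a * q| ≤ e * q ^ 2 := by
  have t0 : 0 < t := by rw [ht]; positivity
  have g0 : 0 < q + t := by positivity
  have g2 : 0 ≤ (q + t) ^ 2 := sq_nonneg _
  have B5 : 5 ≤ B' := by linarith
  have B0 : 0 ≤ B' := by linarith
  have q11 : q ≤ 1 / 11 := by linarith [mul_le_mul_of_nonneg_right B5 hq]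
  rw [not_or, not_or, not_le] at n3
  obtain ⟨w1, n2, n3⟩ := n3
  have n4' : w ≤ 0 → ¬ M * s ≤ |u| := fun h0 h =>
    n4 ⟨by linarith, h0, by rw [ht]; exact cube hs.le hq M0 hM h⟩
  have s1 : γ * s ≤ q := by
    by_contra hc
    replace hc := (not_le.1 hc).le
    have h1 : q ^ 2 ≤ c1 * t := by
      have := pow_le_pow_left₀ hq hc 2
      rw [mul_pow, ← ht] at this
      exact this.trans (mul_le_mul_of_nonneg_right γ2 t0.le)
    have h2 : w < -(t / 2) := by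
      by_contra h
      exact n3 ⟨h1, not_lt.1 h, w1.le⟩
    exact n4' (by linarith) (step1 hs hq M0 γ1 hc hsγ (ht ▸ h2) (ht ▸ hu))
  have q0 : 0 < q := (mul_pos γ0 hs).trans_le s1
  have qq : 0 < q ^ 2 := by positivity
  have s2 : -(B * (q + t) ^ 2) ≤ w := by
    by_contra hc
    replace hc := not_le.1 hc
    have : 0 ≤ B * (q + t) ^ 2 := mul_nonneg (by linarith) g2
    exact n4' (by linarith) (step2 hs hq (by linarith) hB s1 (ht ▸ hc) (ht ▸ hu))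
  have AB := mul_le_mul_of_nonneg_right hAB g2
  have BB := mul_le_mul_of_nonneg_right (show B ≤ B' by linarith) g2
  have w2 : |w| ≤ B * (q + t) ^ 2 := abs_le.2 ⟨s2, by linarith⟩
  have r1 : R4 < A * (q + t) ^ 2 := not_le.1 fun h => n2 ⟨w2, h⟩
  have a1 : |a| ≤ B' * (q + t) := by
    refine (step3 t0 (by linarith) (by linarith) (B := B) ?_).trans
      (mul_le_mul_of_nonneg_right B1 g0.le)
    linarith [mul_nonneg g0.le t0.le]
  have t1 : t ≤ B' * q ^ 2 := by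
    have h1 := pow_le_pow_left₀ (by positivity) s1 2
    rw [mul_pow, ← ht] at h1
    linarith [mul_le_mul_of_nonneg_right B2 t0.le, mul_le_mul_of_nonneg_left h1 B0]
  have tq : t ≤ q := by linarith [mul_le_mul_of_nonneg_right hq1 hq]
  have Bt := mul_le_mul_of_nonneg_left tq B0
  have a2 : |a| ≤ 2 * B' * q := by linarith
  have u2 : |u| ≤ 2 * B' * q := by linarith [abs_u_le g0 hq hu (w2.trans BB)]
  have n5' : ∀ e' : ℝ, e' = 1 / 100 ∨ e' = e → q ≤ cR * e' ^ 2 →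
      |R4 - q ^ 2| ≤ e' * q ^ 2 ∧ |R3 - a * q| ≤ e' * q ^ 2 := fun e' h h' => by
    by_contra hc
    exact n5 e' h ⟨t1, h', w2.trans BB, a1, hc⟩
  obtain ⟨z4, z3⟩ := n5' _ (Or.inl rfl) hq2
  have s5 : q ≤ C5 * s := by
    by_contra hc
    replace hc := (not_le.1 hc).le
    refine n6 ⟨q11, by linarith [(abs_le.1 z4).2], md_le hq (by linarith) (by linarith)
      (by linarith) (by norm_num) z3, ?_⟩
    have h1 : L * (t * s) ≤ 1 / 100 * q ^ 3 / 20 := by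
      have h := pow_le_pow_left₀ (by positivity) hc 3
      rw [mul_pow] at h
      have := mul_le_mul_of_nonneg_right C2 (show 0 ≤ s ^ 3 by positivity)
      rw [ht]; linarith
    refine h1.trans (net q0 t0 tq ?_ (by norm_num))
    obtain ⟨T, σ, U, r3, r4, ea, et, eu, σ0, h3, h4, ed, ee⟩ := norm_eq q0 t0 (hw ▸ hu) z4 z3
    have σ1 : σ ≤ 1 / 100 := by
      have h := pow_le_pow_left₀ (by positivity) ((mul_le_mul_of_nonneg_right C1 hs.le).trans hc) 2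
      rw [mul_pow, ← ht] at h
      refine le_of_mul_le_mul_right ?_ qq
      linarith
    by_cases hU : |U| ≤ 1 / 10
    · right
      have hT : |σ * q * T| ≤ 1 / 100 := by
        rw [show σ * q * T = σ * a by rw [ea]; ring, abs_mul, abs_of_pos σ0]
        linarith [mul_le_mul_of_nonneg_left (show |a| ≤ 1 by linarith) σ0.le]
      have := crude σ0 σ1 (by positivity)
        (mul_le_one₀ (by linarith) hq (by linarith)) hT h3 h4 hU ee
      rw [ed, mul_pow, ← pow_mul]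
      exact mul_le_mul_of_nonneg_right (by linarith) (by positivity)
    · left
      have h := pow_le_pow_left₀ (by norm_num) (not_le.1 hU).le 2
      rw [sq_abs] at h
      rw [eu, mul_pow]
      exact mul_le_mul_of_nonneg_right (by linarith) qq.le
  obtain ⟨y4, y3⟩ := n5' _ (Or.inr rfl) (s5.trans hse)
  refine ⟨t1, ?_, a2, u2, ?_, y4, y3⟩
  · have := pow_le_pow_left₀ hq s5 2
    rwa [mul_pow, ← ht] at this
  · have b1 : |u * a| ≤ 2 * B' * q * (2 * B' * q) := by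
      rw [abs_mul]; exact mul_le_mul u2 a2 (abs_nonneg _) (by positivity)
    have b2 : |a * q| ≤ 2 * B' * q * q := by
      rw [abs_mul, abs_of_pos q0]; exact mul_le_mul_of_nonneg_right a2 hq
    have b3 : B' * q ^ 2 ≤ B' ^ 2 * q ^ 2 := mul_le_mul_of_nonneg_right
      (by linarith [mul_le_mul_of_nonneg_right B5 B0]) qq.le
    have b4 : q ^ 2 ≤ B' * q ^ 2 := by linarith [mul_le_mul_of_nonneg_right B5 qq.le]
    rw [abs_le] at b1 b2 z3 ⊢
    constructor <;> linarith [b1.1, b1.2, b2.1, b2.2, z3.1, z3.2]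

/-- the sharp cell -/
lemma cellS {K ε e s t q a u R3 R4 : ℝ} (hK : 1 ≤ K) (ε0 : 0 < ε) (ε1 : ε ≤ 1) (hs : 0 < s)
    (ht : t = s ^ 2) (hq : 0 ≤ q) (hu : u = (R4 + (q + t) * q - t - (a + t) * a) / (q + t + q))
    (he : 32000 * K ^ 4 * e ≤ ε) (hsε : 32000 * K ^ 4 * s ≤ ε) (q1 : t ≤ K * q ^ 2)
    (q2 : q ^ 2 ≤ K * t) (a1 : |a| ≤ K * q) (u1 : |u| ≤ K * q) (r4 : |R4 - q ^ 2| ≤ e * q ^ 2)
    (r3 : |R3 - a * q| ≤ e * q ^ 2) (hn : ¬ (|q ^ 2 - t| ≤ ε * t ∧ |a - q| ≤ ε * q)) :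
    q ≤ 1 / 11 ∧ R4 ≤ 11 / 10 * q ^ 2 ∧ |a + t + (R3 - t - u * a)| ≤ 4 ∧
      1 / (32000 * K ^ 4) * ε ^ 2 * (t * s) ≤
        q * u ^ 2 / 20 + (R3 - t - u * a) ^ 2 / (2 * (q + t)) := by
  have t0 : 0 < t := by rw [ht]; positivity
  have K0 : 0 < K := by linarith
  have q0 : 0 < q := by
    rcases hq.eq_or_lt with h | h
    · rw [← h] at q1; linarith
    · exact h
  have qq : 0 < q ^ 2 := by positivity
  have e0 : 0 ≤ e := by
    by_contra hc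
    nlinarith [abs_nonneg (R4 - q ^ 2)]
  have qs : q ≤ K * s := by
    refine pow_le_pow_left₀ hq (le_refl q) 1 |>.trans ?_ |> fun h => (pow_one q) ▸ h
    rw [pow_one]
    refine abs_le_of_sq_le_sq' ?_ (by positivity) |>.2
    rw [mul_pow, ← ht]; nlinarith
  have sq' : s ≤ K * q := by
    refine abs_le_of_sq_le_sq' ?_ (by positivity) |>.2
    rw [mul_pow, ← ht]; nlinarith
  have K2 : K ≤ K ^ 2 := by nlinarith
  have K3 : K ^ 2 ≤ K ^ 3 := pow_le_pow_right₀ hK (by norm_num)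
  have K4 : K ^ 3 ≤ K ^ 4 := pow_le_pow_right₀ hK (by norm_num)
  have h1 : 32 * K * (K * q) ≤ ε := by
    nlinarith [mul_le_mul_of_nonneg_left qs (show 0 ≤ K ^ 2 by positivity),
      mul_le_mul_of_nonneg_right K4 hs.le, mul_pos K0 q0]
  have h2 : 32 * K * e ≤ ε := by
    nlinarith [mul_le_mul_of_nonneg_right (K2.trans (K3.trans K4)) e0, mul_nonneg K0.le e0]
  have Kq : K * q ≤ 1 / 32 := by nlinarith [mul_pos K0 q0]
  have e1 : e ≤ 1 / 32 := by nlinarith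
  have q11 : q ≤ 1 / 32 := by nlinarith
  have tq : t ≤ q := by nlinarith
  refine ⟨by linarith, by nlinarith [(abs_le.1 r4).2], md_le hq (by linarith) (by linarith)
    (by linarith) (by linarith) r3, ?_⟩
  obtain ⟨k, hk⟩ : ∃ k : ℝ, k = ε / (40 * K) := ⟨_, rfl⟩
  have k0 : 0 < k := by rw [hk]; positivity
  have h3 : 1 / (32000 * K ^ 4) * ε ^ 2 * (t * s) ≤ k ^ 2 * q ^ 3 / 20 := by
    have : t * s ≤ K ^ 2 * q ^ 3 := by
      nlinarith [mul_le_mul q1 sq' hs.le (by positivity)]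
    calc _ ≤ 1 / (32000 * K ^ 4) * ε ^ 2 * (K ^ 2 * q ^ 3) := by gcongr
      _ = _ := by rw [hk]; field_simp; norm_num
  refine h3.trans (net q0 t0 tq ?_ (by positivity))
  by_contra hc
  rw [not_or, not_le, not_le] at hc
  obtain ⟨T, σ, U, ρ3, ρ4, ea, et, eu, σ0, g3, g4, ed, ee⟩ := norm_eq q0 t0 hu
    (h := max e (K * q)) (r4.trans (by gcongr; exact le_max_left _ _))
    (r3.trans (by gcongr; exact le_max_left _ _))
  have hU : |U| ≤ k := by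
    refine abs_le_of_sq_le_sq (le_of_mul_le_mul_right ?_ qq) k0.le
    have := hc.1
    rw [eu, mul_pow] at this
    exact this.le
  have hD : |T * (1 - U) - σ + ρ3| ≤ k := by
    refine abs_le_of_sq_le_sq (le_of_mul_le_mul_right ?_ (show 0 < q ^ 4 by positivity)) k0.le
    have := hc.2
    rw [ed, mul_pow, ← pow_mul] at this
    exact this.le
  have hT : |T| ≤ K := by
    rw [ea, abs_mul, abs_of_pos q0] at a1
    exact le_of_mul_le_mul_right a1 q0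
  have hσ : σ ≤ K := le_of_mul_le_mul_right (et ▸ q1) qq
  obtain ⟨z1, z2⟩ := sharp hK ε1 σ0 hT (by positivity)
    ((mul_le_mul_of_nonneg_right hσ hq).trans (le_max_right _ _)) g3 g4 hU hD
    (by rw [hk]; field_simp; rfl) (by rcases max_cases e (K * q) with h | h <;> rw [h.1] <;> assumption) ee
  refine hn ⟨?_, ?_⟩
  · rw [et, show q ^ 2 - σ * q ^ 2 = (1 - σ) * q ^ 2 by ring, abs_mul, abs_of_pos qq, ← mul_assoc]
    exact mul_le_mul_of_nonneg_right z1 qq.le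
  · rw [ea, show T * q - q = (T - 1) * q by ring, abs_mul, abs_of_pos q0]
    exact mul_le_mul_of_nonneg_right z2 hq

lemma ev_small {a : ℝ} (L : ℝ) (ha : 0 < a) : ∀ᶠ c in 𝓝[>] (0 : ℝ), L * c ≤ a :=
  nhdsWithin_le_nhds ((continuous_const.mul continuous_id).continuousAt.eventually
    (p := fun y => y ≤ a) (by simpa using eventually_le_nhds ha))

lemma ex_le {n C C' : ℕ} {R R' : ℝ} (hC : C ≤ C') (hR : R' ≤ R) :
    ex (C * Real.log n - R) ≤ ex (C' * Real.log n - R') :=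
  ex_mono (sub_le_sub (mul_le_mul_of_nonneg_right (by exact_mod_cast hC)
    (Real.log_natCast_nonneg n)) hR)

end B12

open B12

theorem b1sGlue : B1sGlue := by
  intro hI ⟨C, hB⟩ K hK
  refine ⟨1 / (32000 * K ^ 4), by positivity, C + 2, fun n t e ε hn ht hε he hs => ?_⟩
  have n0 : 0 < n := by omega
  have n0' : (0 : ℝ) < n := by exact_mod_cast n0
  have t0 : 0 < t := lt_of_lt_of_le (by positivity) ht
  have s0 : 0 < Real.sqrt t := Real.sqrt_pos.2 t0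
  have K4 : 1 ≤ K ^ 4 := one_le_pow₀ hK
  have p0 : 0 < 32000 * K ^ 4 := by positivity
  rw [one_div_mul_eq_div, le_div_iff₀' p0] at he hs
  have t1 : t ≤ 1 := Real.sqrt_le_one.1 (by nlinarith [hε.2])
  refine (Px_mono t fun x hx => ?_).trans ((hB n t (1 / (32000 * K ^ 4) * ε ^ 2 * n *
    (t * Real.sqrt t)) (by omega) ⟨ht, t1⟩).2.trans (ex_le (by omega) le_rfl))
  obtain ⟨hc, hx⟩ := hx
  obtain ⟨h1, h2, h3, h4⟩ := cellS hK hε.1 hε.2 s0 (Real.sq_sqrt t0.le).symm (aS_nonneg x)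
    (u := uR t x) (by rw [uR, (hI n t x n0 t0).1]; rfl) he hs hc.q1 hc.q2 hc.a1 hc.u1 hc.r4
    hc.r3 hx
  refine ⟨h1, h2, h3, ?_⟩
  have := mul_le_mul_of_nonneg_left h4 n0'.le
  unfold dR ga
  linarith

/-- (B1) with the explicit upper bound `q ≤ C5 √t` -/
theorem b1gen (hI : IdStmt) (hH : HiStmt) (hLg : LgStmt) (hA : EvA) (hB : EvB) (hR : EvR)
    {L C5 : ℝ} (L0 : 0 < L) (C1 : 10 ≤ C5) (C2 : 2000 * L ≤ C5 ^ 3) :
    ∃ K ≥ (1 : ℝ), ∃ c > (0 : ℝ), ∃ C : ℕ, ∀ (n : ℕ) (t e : ℝ), C ≤ n → 1 / (n : ℝ) ≤ t →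
      e ∈ Ioc (0 : ℝ) 1 → Real.sqrt t ≤ c * e ^ 2 →
      Px t {x : V n | ¬ (Co K e t x ∧ aS x ^ 2 ≤ C5 ^ 2 * t)} ≤
        ex (C * Real.log n - L * n * (t * Real.sqrt t)) := by
  obtain ⟨CH, hH⟩ := hH
  obtain ⟨A, A1, c1, c10, hA⟩ := hA
  obtain ⟨CB, hB⟩ := hB
  obtain ⟨M, hM⟩ : ∃ M : ℝ, M = 18 * L + 1 := ⟨_, rfl⟩
  have M1 : 1 ≤ M := by linarith
  obtain ⟨γ, ⟨⟨γ1, γ2⟩, γ3⟩, γ0⟩ := ((((ev_small (6 * M) one_pos).and (ev_small 1 c10)).and
    (ev_small 1 one_pos)).and self_mem_nhdsWithin).exists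
  replace γ0 : 0 < γ := γ0
  obtain ⟨B, hBe⟩ : ∃ B : ℝ, B = A + 2 * M / γ := ⟨_, rfl⟩
  have p1 : 0 ≤ 2 * M / γ := by positivity
  obtain ⟨B', hB'⟩ : ∃ B' : ℝ, B' = 2 * B + 3 + 1 / γ ^ 2 := ⟨_, rfl⟩
  have p2 : 0 ≤ 1 / γ ^ 2 := by positivity
  obtain ⟨qA, qA0, CA, hA⟩ := hA B (by linarith)
  obtain ⟨cR, cR0, CR, hR⟩ := hR B' (by linarith)
  obtain ⟨q1, ⟨⟨q11, q12⟩, q13⟩, q10⟩ := ((((ev_small (11 * B') one_pos).and
    (ev_small 1 qA0)).and (ev_small 1 (show 0 < cR * (1 / 100) ^ 2 by positivity))).and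
    self_mem_nhdsWithin).exists
  obtain ⟨κ, κ0, t0, t00, CL, hLg⟩ := hLg q1 q10
  obtain ⟨c, ⟨⟨⟨⟨⟨⟨⟨k1, k2⟩, k3⟩, k4⟩, k5⟩, k6⟩, k7⟩, k8⟩, c0⟩ :=
    (((((((((ev_small 1 one_pos).and (ev_small 1 t00)).and (ev_small 1 qA0)).and
    (ev_small 1 γ0)).and (ev_small C5 cR0)).and (ev_small L one_half_pos)).and
    (ev_small L κ0)).and (ev_small L (show 0 < cR * (1 / 100) ^ 2 by positivity))).and
    self_mem_nhdsWithin).exists
  replace c0 : 0 < c := c0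
  have K1 : 1 ≤ B' := by linarith
  have K2 : 2 * B' ≤ 8 * B' ^ 2 := by nlinarith
  refine ⟨8 * B' ^ 2 + C5 ^ 2, by nlinarith, c, c0, CH + CL + CA + CB + CR + 7,
    fun n t e hn ht he hs => ?_⟩
  have n0 : 0 < n := by omega
  have n0' : (0 : ℝ) < n := by exact_mod_cast n0
  have t0' : 0 < t := lt_of_lt_of_le (by positivity) ht
  obtain ⟨s, hs'⟩ : ∃ s, s = Real.sqrt t := ⟨_, rfl⟩
  have s0 : 0 < s := hs' ▸ Real.sqrt_pos.2 t0'
  have ts : t = s ^ 2 := hs' ▸ (Real.sq_sqrt t0'.le).symm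
  simp only [← hs'] at hs ⊢
  have e2 : e ^ 2 ≤ 1 := pow_le_one₀ he.1.le he.2
  have sc : s ≤ c := by linarith [mul_le_mul_of_nonneg_left e2 c0.le]
  have t1 : t ≤ s := by linarith [mul_le_mul_of_nonneg_left (show s ≤ 1 by linarith) s0.le]
  have Ls : L * s ≤ L * c := mul_le_mul_of_nonneg_left sc L0.le
  have Lt : L * t ≤ L * s := mul_le_mul_of_nonneg_left t1 L0.le
  have Lts : L * (t * s) ≤ L * t := mul_le_mul_of_nonneg_left
    (by linarith [mul_le_mul_of_nonneg_left (show s ≤ 1 by linarith) t0'.le]) L0.le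
  have up : ∀ y : ℝ, L * (t * s) ≤ y → L * n * (t * s) ≤ n * y := fun y h => by
    linarith [mul_le_mul_of_nonneg_left h n0'.le]
  obtain ⟨C, hC⟩ : ∃ C, C = CH + CL + CA + CB + CR + 6 := ⟨_, rfl⟩
  have E1 := (hH n t (by omega) ⟨ht, by linarith⟩).trans (ex_le (C' := C)
    (R' := L * n * (t * s)) (by omega) (by linarith [up (1 / 2) (by linarith)]))
  have E2 := (hLg n t (by omega) ⟨ht, by linarith⟩).trans (ex_le (C' := C)
    (R' := L * n * (t * s)) (by omega) (by linarith [up κ (by linarith)]))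
  have E3 := (hA n t (by omega) ⟨ht, by linarith⟩).trans (ex_le (C' := C)
    (R' := L * n * (t * s)) (by omega) (up t (by
      linarith [mul_le_mul_of_nonneg_left (show L * s ≤ 1 by linarith) t0'.le])))
  obtain ⟨E4, E6⟩ := hB n t (L * n * (t * s)) (by omega) ⟨ht, by linarith⟩
  replace E4 := E4.trans (ex_le (C' := C) (by omega) le_rfl)
  replace E6 := E6.trans (ex_le (C' := C) (by omega) le_rfl)
  have E5 := (hR n t (1 / 100) (by omega) ht ⟨by norm_num, by norm_num⟩).trans (ex_le (C' := C)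
    (R' := L * n * (t * s)) (by omega) (by
      rw [← hs']
      linarith [up (cR * (1 / 100) ^ 2 * s) (by
        linarith [mul_le_mul_of_nonneg_right (show L * t ≤ cR * (1 / 100) ^ 2 by linarith) s0.le])]))
  have E7 := (hR n t e (by omega) ht he).trans (ex_le (C' := C)
    (R' := L * n * (t * s)) (by omega) (by
      rw [← hs']
      have : L * t ≤ cR * e ^ 2 := by
        linarith [mul_le_mul_of_nonneg_left hs L0.le, mul_le_mul_of_nonneg_right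
          (show L * c ≤ cR by linarith) (sq_nonneg e)]
      linarith [up (cR * e ^ 2 * s) (by linarith [mul_le_mul_of_nonneg_right this s0.le])]))
  have U := (Px_union t _ _).trans (add_le_add E1 ((Px_union t _ _).trans (add_le_add E2
    ((Px_union t _ _).trans (add_le_add E3 ((Px_union t _ _).trans (add_le_add E4
    ((Px_union t _ _).trans (add_le_add E5 ((Px_union t _ _).trans (add_le_add E6 E7)))))))))))
  refine ((Px_mono t fun x hx => ?_).trans U).trans ?_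
  · by_contra hc
    simp only [mem_union, not_or, mem_ofPred_eq] at hc hx
    obtain ⟨n1, n2, n3, n4, n5, n6, n7⟩ := hc
    have q0 := aS_nonneg x
    have qq := (not_le.1 n2).le
    obtain ⟨z1, z2, z3, z4, z5, z6, z7⟩ := cell (L := L) (M := M) (A := A) (c1 := c1) (B := B)
      (B' := B') (cR := cR) (C5 := C5) (e := e) (u := uR t x) (R3 := R3 x) s0 ts q0
      (hI n t x n0 t0').1 rfl (by linarith)
      (by linarith [pow_le_pow_right₀ M1 (show 1 ≤ 3 by norm_num)]) γ0 γ1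
      (by linarith [mul_le_mul_of_nonneg_left γ3 γ0.le]) (by linarith) A1 (by linarith)
      (by rw [hBe, add_mul, div_mul_cancel₀ _ γ0.ne']; linarith [mul_pos (one_pos.trans_le A1) γ0])
      (by linarith)
      (by rw [hB', add_mul, one_div_mul_cancel (by positivity)]
          linarith [mul_nonneg (show 0 ≤ 2 * B + 3 by linarith) (sq_nonneg γ)])
      (by linarith [mul_le_mul_of_nonneg_left qq (show 0 ≤ 11 * B' by linarith)]) (by linarith) C1 C2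
      (by linarith [mul_le_mul_of_nonneg_left hs (show 0 ≤ C5 by linarith),
        mul_le_mul_of_nonneg_right k5 (sq_nonneg e)])
      (fun h => n3 ⟨by linarith, (not_le.1 n1).le, h⟩)
      (fun h => n4 ⟨h.1, h.2.1, up _ h.2.2⟩)
      (fun e' h => by rcases h with h | h <;> rw [h]; exacts [n5, n7])
      (fun h => n6 ⟨h.1, h.2.1, h.2.2.1, up _ h.2.2.2⟩)
    have m1 := mul_nonneg (sq_nonneg C5) q0
    have m2 := mul_nonneg (sq_nonneg C5) (sq_nonneg (aS x))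
    have m3 := mul_le_mul_of_nonneg_right K2 q0
    have m4 := mul_le_mul_of_nonneg_right K2 (sq_nonneg (aS x))
    have m5 := mul_nonneg (sq_nonneg B') t0'.le
    have m6 := mul_nonneg (show 0 ≤ B' by linarith) (sq_nonneg (aS x))
    exact hx ⟨⟨by linarith, by linarith, by linarith, by linarith,
      z5.trans (by linarith), z6, z7⟩, z2⟩
  · refine le_of_eq_of_le ?_ ((ex_sum (k := 7) (by omega) n0 C (L * n * (t * s))).trans_eq ?_)
    · push_cast; ring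
    · rw [hC]; push_cast; ring_nf

theorem b1Glue : B1Glue := by
  intro hI hH hLg hA hB hR L L0
  obtain ⟨K, hK, c, c0, C, h⟩ := b1gen hI hH hLg hA hB hR L0 (C5 := 2000 * L + 10) (by linarith)
    (by linarith [pow_le_pow_right₀ (show 1 ≤ 2000 * L + 10 by linarith) (show 1 ≤ 3 by norm_num)])
  refine ⟨K, hK, c, c0, C, fun n t e hn ht he hs => le_trans (Px_mono t ?_) (h n t e hn ht he hs)⟩
  exact fun x hx hc => hx hc.1

/-- (B1) at level `10 L`, with `q ≤ (L/50) √t` -/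
def B1uStmt : Prop := ∀ L ≥ (50000 : ℝ), ∃ K ≥ (1 : ℝ), ∃ c > (0 : ℝ), ∃ C : ℕ,
  ∀ (n : ℕ) (t e : ℝ), C ≤ n → 1 / (n : ℝ) ≤ t → e ∈ Ioc (0 : ℝ) 1 → Real.sqrt t ≤ c * e ^ 2 →
  Px t {x : V n | ¬ (Co K e t x ∧ aS x ^ 2 ≤ (L / 50) ^ 2 * t)} ≤
    ex (C * Real.log n - 10 * L * n * (t * Real.sqrt t))

theorem b1u (hI : IdStmt) (hH : HiStmt) (hLg : LgStmt) (hA : EvA) (hB : EvB) (hR : EvR) :
    B1uStmt := fun L hL =>
  b1gen hI hH hLg hA hB hR (by linarith) (by linarith)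
    (by nlinarith [mul_le_mul hL hL (by norm_num) (by linarith)])

end Crest.Agent.T157.Kb

end
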