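import Crest.Agent.T157.KbCo_56

/-!
# Row 157, part A2, section 2 (helper56): `Kb.b2Glue : B2Glue`
-/

set_option autoImplicit false

noncomputable section

namespace Crest.Agent.T157.Kb

open MeasureTheory Matrix Set Real
open scoped ENNReal
open Crest.Agent.T157.E Crest.Agent.T157.Cond Crest.Agent.T157.Tap
open Crest.Agent.T157.Conc (ex ex_mono)

namespace B56
open Co56

variable {n : ℕ}

/-- all numbers, with one constant `P` and `κ = 1 / (10⁴ P)` -/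
structure Nb (P κ e q a m v0 v : ℝ) : Prop where
  P1 : 1 ≤ P
  k0 : 0 < κ
  kP : P * κ = 1 / 10 ^ 4
  e0 : 0 < e
  e1 : e ≤ 1 / 10
  q0 : 0 < q
  s : 10 ^ 6 * P ^ 4 * q ≤ e
  a1 : |a| ≤ P * q
  v1 : q ≤ v0
  v3 : v0 ≤ 2 * q
  vp : 0 < v
  w1 : v ≤ 2 * q
  w : |v - q| ≤ P * q ^ 2
  m1 : |gE tanh m v - m| ≤ P * v ^ 2
  m2 : |gE (fun x => tanh x ^ 2) m v - (v + m ^ 2 - 2 * v ^ 2)| ≤ P * v ^ 3
  m3 : |gE (fun x => tanh x ^ 3) m v - 3 * m * v| ≤ P * v ^ 3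
  m4 : |gE (fun x => tanh x ^ 4) m v - (3 * v ^ 2 + 6 * m ^ 2 * v - 20 * v ^ 3)| ≤ P * v ^ 4
  m6 : |gE (fun x => tanh x ^ 6) m v - 15 * v ^ 3| ≤ P * v ^ 4
  m8 : gE (fun x => min (x ^ 8) (x ^ 2)) m v ≤ P * v ^ 4

namespace Nb
variable {P κ e q a m v0 v : ℝ} (h : Nb P κ e q a m v0 v)
include h
lemma v0p : 0 < v0 := h.q0.trans_le h.v1
lemma pw {i j : ℕ} (hj : i ≤ j) : P ^ i ≤ P ^ j := pow_le_pow_right₀ h.P1 hj
lemma s2 : 10 ^ 6 * (P ^ 2 * q) ≤ e := by
  nlinarith [mul_le_mul_of_nonneg_right (h.pw (by norm_num : 2 ≤ 4)) h.q0.le, h.s]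
lemma s1 : 10 ^ 6 * (P * q) ≤ e := by
  have := mul_le_mul_of_nonneg_right (h.pw (by norm_num : 1 ≤ 4)) h.q0.le
  nlinarith [h.s]
lemma q1 : q ≤ 1 / 10 ^ 7 := by
  nlinarith [h.s1, h.e1, mul_le_mul_of_nonneg_right h.P1 h.q0.le]
lemma k1 : κ ≤ 1 / 10 ^ 4 := by nlinarith [h.kP, mul_le_mul_of_nonneg_right h.P1 h.k0.le]
lemma t1 : P * q ^ 4 ≤ e * q ^ 3 / 10 ^ 6 := by
  nlinarith [mul_le_mul_of_nonneg_right h.s1 (pow_pos h.q0 3).le]
lemma t2 : P ^ 2 * q ^ 4 ≤ e * q ^ 3 / 10 ^ 6 := by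
  nlinarith [mul_le_mul_of_nonneg_right h.s2 (pow_pos h.q0 3).le]
lemma pv (j : ℕ) : P * v ^ j ≤ 2 ^ j * (P * q ^ j) := by
  have := mul_le_mul_of_nonneg_left (pow_le_pow_left₀ h.vp.le h.w1 j) (zero_le_one.trans h.P1)
  rw [mul_pow] at this
  linarith
lemma cube : |v ^ 3 - q ^ 3| ≤ 7 * (P * q ^ 4) := by
  have q0 := h.q0
  have vp := h.vp
  rw [show v ^ 3 - q ^ 3 = (v - q) * (v ^ 2 + v * q + q ^ 2) by ring, abs_mul,
    abs_of_pos (by positivity : 0 < v ^ 2 + v * q + q ^ 2)]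
  have h1 : v ^ 2 + v * q + q ^ 2 ≤ 7 * q ^ 2 := by nlinarith [h.w1]
  have := mul_le_mul h.w h1 (by positivity) (by nlinarith [h.P1, sq_nonneg q])
  linarith
lemma z4 : P * v0 ^ 4 ≤ κ * e ^ 2 * q ^ 2 / 20 := by
  have P0 : 0 < P := zero_lt_one.trans_le h.P1
  have q0 := h.q0
  have h1 := mul_le_mul_of_nonneg_left (pow_le_pow_left₀ h.v0p.le h.v3 4) P0.le
  have h2 := pow_le_pow_left₀ (by positivity) h.s1 2
  have h3 := mul_le_mul_of_nonneg_left h2 (mul_nonneg h.k0.le (sq_nonneg q))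
  have e : κ * q ^ 2 * (10 ^ 6 * (P * q)) ^ 2 = 10 ^ 12 * (P * κ) * (P * q ^ 4) := by ring
  rw [e, h.kP] at h3
  have : 0 ≤ P * q ^ 4 := by positivity
  nlinarith
end Nb

/-- what one event has to provide -/
def Req (P κ e q m v0 v k : ℝ) (F : ℝ → ℝ) (x : V n) : Prop :=
  ∃ (b b' : ℝ) (j : ℕ), 0 ≤ k ∧ 0 ≤ b' ∧ j ≤ 8 ∧ k * b ≤ 1 / (64 * v0) ∧
    (∀ y, |F y| ≤ b * (y ^ 2 + v0)) ∧ (∀ y, F y ^ 2 ≤ b' * (y ^ 2 + v0) ^ j) ∧
    2 * (P * (k ^ 2 * b') * v0 ^ j) + κ * e ^ 2 * q ^ 2 / 10 ≤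
      k * (avg (fun i => F (x i)) - gE F m v)

theorem ev (hT : TiltStmt) (hM : MgfStmt) (hD : MomStmt) (hN : NetStmt) {K : ℝ} (hK : 1 ≤ K) :
    ∃ c > (0 : ℝ), ∃ C : ℕ, ∃ P κ : ℝ, ∀ (n : ℕ) (t e : ℝ) (Q : V n → Prop) (k : ℝ → ℝ)
      (F : ℝ → ℝ → ℝ), 2 ≤ n → 1 / (n : ℝ) ≤ t → e ∈ Ioc (0 : ℝ) (1 / 10) → √t ≤ c * e →
      MeasurableSet {x | Q x} → (∀ v, Measurable (F v)) →
      (∀ x m v0 v, Nb P κ e (aS x) (bS x) m v0 v → Q x → Req P κ e (aS x) m v0 v (k v0) (F v) x) →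
      Px t {x | Co K e t x ∧ Q x} ≤ ex (C * Real.log n - c * e ^ 2 * n * t) := by
  obtain ⟨c, hc, C, A, hA, h⟩ := tool hT hM hN hK
  obtain ⟨D, hD1, hD⟩ := hD
  have L1 : 1 ≤ 12 * K := by linarith
  replace hD := hD _ L1
  generalize hL : 12 * K = L at h hD L1
  have hj : ∀ j ≤ 4, D * L ^ j ≤ A * (D * L ^ 4) := fun j hj =>
    (mul_le_mul_of_nonneg_left (pow_le_pow_right₀ L1 hj) (by linarith)).trans
      (le_mul_of_one_le_left (by positivity) hA)
  have hl : ∀ j ≤ 4, L ^ j ≤ A * (D * L ^ 4) := fun j h =>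
    (le_mul_of_one_le_left (by positivity) hD1).trans (hj j h)
  have hAP : A ≤ A * (D * L ^ 4) :=
    le_mul_of_one_le_right (by linarith) (one_le_mul_of_one_le_of_one_le hD1 (one_le_pow₀ L1))
  generalize A * (D * L ^ 4) = P at hj hl hAP
  have P1 : 1 ≤ P := hA.trans hAP
  refine ⟨min c (1 / (10 ^ 6 * P ^ 4 * K)), by positivity, C, P, 1 / (10 ^ 4 * P),
    fun n t e Q k F hn ht he hs hQ hF H => ?_⟩
  have n2 : (2 : ℝ) ≤ n := by exact_mod_cast hn
  have t0 : 0 < t := lt_of_lt_of_le (by positivity) ht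
  have c0 : 0 < min c (1 / (10 ^ 6 * P ^ 4 * K)) := by positivity
  have c2 : 10 ^ 6 * P ^ 4 * (K * min c (1 / (10 ^ 6 * P ^ 4 * K))) ≤ 1 := by
    have := (le_div_iff₀ (by positivity)).1 (min_le_right c (1 / (10 ^ 6 * P ^ 4 * K)))
    linarith
  have c1 := min_le_left c (1 / (10 ^ 6 * P ^ 4 * K))
  generalize min c (1 / (10 ^ 6 * P ^ 4 * K)) = c' at hs c0 c1 c2 ⊢
  refine h n t e _ _ (fun v0 v y => k v0 * F v y) hn ht he.2 (by nlinarith [he.2])
    ((measSet_Co K e t measurable_id).inter hQ) (fun _ v => (hF v).const_mul _)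
    fun x hx => ⟨hx.1, fun m v0 v g => ?_⟩
  have q0 := g.q0
  have hq : 10 ^ 6 * P ^ 4 * aS x ≤ e := by
    have h1 := (Co.le hx.1 hK t0).trans (mul_le_mul_of_nonneg_left hs (by linarith))
    have h2 := mul_le_mul_of_nonneg_left h1 (by positivity : 0 ≤ 10 ^ 6 * P ^ 4)
    have h3 := mul_le_mul_of_nonneg_right c2 he.1.le
    linarith
  have P4 : P ≤ P ^ 4 := le_self_pow₀ P1 (by norm_num)
  have vp := g.vp
  obtain ⟨m1, m2, m3, m4, m6, m8, -⟩ := hD m v vp (by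
    have h1 := mul_le_mul (hl 2 (by norm_num)) g.w1 vp.le (by linarith)
    have h2 := mul_le_mul_of_nonneg_right P4 q0.le
    linarith [he.2]) g.m1
  have l1 : L ≤ P := by simpa using hl 1 (by norm_num)
  have N : Nb P (1 / (10 ^ 4 * P)) e (aS x) (bS x) m v0 v :=
    ⟨P1, by positivity, by field_simp, he.1, he.2, q0, hq, g.a1.trans (by gcongr), g.v1, g.v3, vp, g.w1,
      g.w.trans (by gcongr), m1.trans (by gcongr; simpa using hj 1 (by norm_num)),
      m2.trans (by gcongr; exact hj 2 (by norm_num)), m3.trans (by gcongr; exact hj 3 (by norm_num)),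
      m4.trans (by gcongr; exact hj 4 le_rfl), m6.trans (by gcongr; exact hj 2 (by norm_num)),
      m8.trans (by gcongr; simpa using hj 0 (by norm_num))⟩
  obtain ⟨b, b', j, k0, b0, j8, hb, f1, f2, f3⟩ := H x m v0 v N hx.2
  have v0p := g.v0p
  refine ⟨fun y => ?_, fun hS => red (r := 1 / (10 ^ 4 * P) * e ^ 2 * aS x ^ 2 / 20) (by omega) ?_ ?_⟩
  · rw [abs_mul, abs_of_nonneg k0]
    have h1 := mul_le_mul_of_nonneg_left (f1 y) k0
    have h2 := mul_le_mul_of_nonneg_right hb (by positivity : 0 ≤ y ^ 2 + v0)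
    rw [div_eq_mul_one_div]
    linarith
  · have h1 : c' * t ≤ 1 / (10 ^ 4 * P) * aS x ^ 2 / 20 := by
      have h1 := mul_le_mul_of_nonneg_left hx.1.q1 c0.le
      have h2 : K * c' ≤ 1 / (10 ^ 4 * P) / 20 := by
        rw [div_div, le_div_iff₀ (by positivity)]
        nlinarith [mul_le_mul_of_nonneg_right P4 (by positivity : 0 ≤ K * c'),
          mul_nonneg (by linarith : 0 ≤ P) (by positivity : 0 ≤ K * c')]
      have h3 := mul_le_mul_of_nonneg_right h2 (sq_nonneg (aS x))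
      linarith
    have := mul_le_mul_of_nonneg_left h1 (by positivity : 0 ≤ n * e ^ 2)
    linarith
  · have h1 := hS (k v0 ^ 2 * b') j (by positivity) j8 fun y => by
      rw [mul_pow, mul_assoc]; exact mul_le_mul_of_nonneg_left (f2 y) (sq_nonneg _)
    have h2 : A * (k v0 ^ 2 * b') * v0 ^ j ≤ P * (k v0 ^ 2 * b') * v0 ^ j := by gcongr
    have h3 : A * v0 ^ 4 ≤ P * v0 ^ 4 := by gcongr
    linarith [N.z4]

/-! ### the four events -/

lemma sl {s : ℝ} (hs : |s| = 1) (x : ℝ) : s * x ≤ |x| := by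
  have := le_abs_self (s * x)
  rwa [abs_mul, hs, one_mul] at this

lemma th2 (y : ℝ) : tanh y ^ 2 ≤ y ^ 2 := by
  have := SE.abs_tanh_sub_le y 0
  rw [tanh_zero, sub_zero, sub_zero] at this
  exact sq_le_sq.2 this

lemma th1 (y : ℝ) (j : ℕ) : |tanh y ^ j| ≤ 1 := by
  rw [abs_pow]; exact pow_le_one₀ (abs_nonneg _) (abs_tanh_lt_one y).le

lemma cz {c v v0 : ℝ} (hc : 1 ≤ c) (v0p : 0 < v0) (vp : 0 < v) (hv : v ≤ 2 * v0) (y : ℝ) :
    |tanh y ^ 2 - c * v| ≤ 2 * c * (y ^ 2 + v0) := by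
  have h1 := th2 y
  have h2 := mul_le_mul_of_nonneg_left hv (by linarith : 0 ≤ c)
  have h3 := mul_le_mul_of_nonneg_right hc (sq_nonneg y)
  have h4 : 0 ≤ c * v := by positivity
  have h5 : 0 ≤ c * v0 := by positivity
  rw [abs_le]
  constructor <;> nlinarith [sq_nonneg (tanh y), sq_nonneg y]

lemma avg_cm (s : ℝ) (f : V n) : avg (fun i => s * f i) = s * avg f := by
  simp only [avg, ← Finset.mul_sum, mul_div_assoc]

lemma avg_lin (s c : ℝ) (f g : V n) : avg (fun i => s * (f i - c * g i)) = s * (avg f - c * avg g) := by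
  simp only [avg, ← Finset.mul_sum, Finset.sum_sub_distrib]; ring

lemma gE_lin (s c m v : ℝ) (i j : ℕ) : gE (fun y => s * (tanh y ^ i - c * tanh y ^ j)) m v =
    s * (gE (fun y => tanh y ^ i) m v - c * gE (fun y => tanh y ^ j) m v) := by
  rw [SE.gE_const_mul, SE.gE_sub (C := 1) (C' := |c|) (by fun_prop) (by fun_prop) (fun y => th1 y i)
    (fun y => by rw [abs_mul]; exact mul_le_of_le_one_right (abs_nonneg _) (th1 y j)), SE.gE_const_mul]

variable {P κ e m v0 v : ℝ} {x : V n}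

/-- the numbers for `k = 1 / (64 v0)` -/
lemma num64 {q a d : ℝ} (h : Nb P κ e q a m v0 v) {j : ℕ} (hj : 6 ≤ j) (hd : e * q ^ 3 / 2 ≤ d) :
    2 * (P * ((1 / (64 * v0)) ^ 2 * 1) * v0 ^ j) + κ * e ^ 2 * q ^ 2 / 10 ≤ 1 / (64 * v0) * d := by
  have v0p := h.v0p
  have q0 := h.q0
  have e0 := h.e0
  have P0 : 0 < P := zero_lt_one.trans_le h.P1
  have h1 : v0 ^ j ≤ v0 ^ 6 := pow_le_pow_of_le_one v0p.le (by linarith [h.v3, h.q1]) hj
  have h2 : P * ((1 / (64 * v0)) ^ 2 * 1) * v0 ^ j ≤ P * ((1 / (64 * v0)) ^ 2 * 1) * v0 ^ 6 := by gcongr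
  have e1 : P * ((1 / (64 * v0)) ^ 2 * 1) * v0 ^ 6 = P * v0 ^ 4 / 4096 := by field_simp; norm_num
  have h3 : 1 / (64 * (2 * q)) * (e * q ^ 3 / 2) ≤ 1 / (64 * v0) * d := by
    have := h.v3
    gcongr
  have e2 : 1 / (64 * (2 * q)) * (e * q ^ 3 / 2) = e * q ^ 2 / 256 := by field_simp; norm_num
  have h4 : κ * e ≤ 1 / 10 ^ 4 * (1 / 10) := mul_le_mul h.k1 h.e1 e0.le (by norm_num)
  have h5 := mul_le_mul_of_nonneg_right h4 (by positivity : 0 ≤ e * q ^ 2)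
  have h6 : 0 ≤ P * v0 ^ 4 := by positivity
  have h7 : 0 ≤ e * q ^ 2 := by positivity
  nlinarith [h.z4]

lemma req6 {s : ℝ} (hs : |s| = 1) (h : Nb P κ e (aS x) (bS x) m v0 v)
    (hx : e * aS x ^ 3 < s * (avg (fun i => th x i ^ 6) - 15 * aS x ^ 3)) :
    Req P κ e (aS x) m v0 v (1 / (64 * v0)) (fun y => s * tanh y ^ 6) x := by
  have v0p := h.v0p
  refine ⟨1, 1, 6, by positivity, zero_le_one, by norm_num, by rw [mul_one], fun y => ?_, fun y => ?_,
    num64 h le_rfl ?_⟩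
  · rw [abs_mul, hs, show tanh y ^ 6 = tanh y ^ 4 * tanh y ^ 2 by ring, abs_mul,
      abs_of_nonneg (sq_nonneg (tanh y))]
    have := mul_le_mul (th1 y 4) (th2 y) (sq_nonneg _) zero_le_one
    linarith
  · rw [mul_pow, ← sq_abs s, hs, show (tanh y ^ 6) ^ 2 = (tanh y ^ 2) ^ 6 by ring]
    have := pow_le_pow_left₀ (sq_nonneg _) ((th2 y).trans (le_add_of_nonneg_right v0p.le)) 6
    linarith
  · rw [avg_cm, SE.gE_const_mul]
    have h1 := (sl hs _).trans h.m6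
    have h2 := (sl hs _).trans h.cube
    have h3 := h.pv 4
    have h4 := h.t1
    have h5 := mul_pos h.e0 (pow_pos h.q0 3)
    simp only [th] at hx
    linarith

lemma req8 (h : Nb P κ e (aS x) (bS x) m v0 v)
    (hx : e * aS x ^ 3 < avg fun i => min (x i ^ 8) (x i ^ 2)) :
    Req P κ e (aS x) m v0 v (1 / (64 * v0)) (fun y => min (y ^ 8) (y ^ 2)) x := by
  have v0p := h.v0p
  have p : ∀ y : ℝ, 0 ≤ min (y ^ 8) (y ^ 2) := fun y => le_min (by positivity) (sq_nonneg y)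
  refine ⟨1, 1, 8, by positivity, zero_le_one, le_rfl, by rw [mul_one], fun y => ?_, fun y => ?_,
    num64 h (by norm_num) ?_⟩
  · rw [abs_of_nonneg (p y)]
    linarith [min_le_right (y ^ 8) (y ^ 2)]
  · have h1 := pow_le_pow_left₀ (p y) (min_le_left (y ^ 8) (y ^ 2)) 2
    have h2 := pow_le_pow_left₀ (sq_nonneg y) (le_add_of_nonneg_right v0p.le) 8
    linarith
  · have h3 := h.pv 4
    have h4 := h.t1
    have h5 := mul_pos h.e0 (pow_pos h.q0 3)
    linarith [h.m8]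

lemma req4 {s : ℝ} (hs : |s| = 1) (h : Nb P κ e (aS x) (bS x) m v0 v)
    (hx : e * aS x ^ 3 < s * (avg (fun i => th x i ^ 4) - 3 * aS x ^ 2 + 8 * aS x ^ 3)) :
    Req P κ e (aS x) m v0 v (κ * e / v0) (fun y => s * (tanh y ^ 4 - 6 * v * tanh y ^ 2)) x := by
  have v0p := h.v0p
  have k0 := h.k0
  have e0 := h.e0
  have q0 := h.q0
  have vp := h.vp
  have ke : κ * e ≤ 1 / 10 ^ 4 * (1 / 10) := mul_le_mul h.k1 h.e1 e0.le (by norm_num)
  have f : ∀ y, |s * (tanh y ^ 4 - 6 * v * tanh y ^ 2)| = tanh y ^ 2 * |tanh y ^ 2 - 6 * v| := fun y => by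
    rw [abs_mul, hs, one_mul, ← abs_of_nonneg (sq_nonneg (tanh y)), ← abs_mul,
      abs_of_nonneg (sq_nonneg (tanh y))]
    congr 1; ring
  have c := cz (c := 6) (by norm_num) v0p vp (by linarith [h.w1, h.v1])
  refine ⟨12, 144, 4, by positivity, by norm_num, by norm_num, ?_, fun y => ?_, fun y => ?_, ?_⟩
  · rw [div_mul_eq_mul_div, div_le_div_iff₀ v0p (by positivity)]
    nlinarith
  · rw [f]
    have := mul_le_mul (tanh_sq_lt_one y).le (c y) (abs_nonneg _) zero_le_one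
    linarith
  · rw [← sq_abs, f]
    have := pow_le_pow_left₀ (by positivity) (mul_le_mul ((th2 y).trans
      (le_add_of_nonneg_right v0p.le)) (c y) (abs_nonneg _) (by positivity)) 2
    linarith
  · rw [gE_lin, avg_lin s (6 * v) (fun i => tanh (x i) ^ 4) fun i => tanh (x i) ^ 2]
    change _ ≤ _ * (s * (avg (fun i => th x i ^ 4) - 6 * v * aS x) - _)
    generalize avg (fun i => th x i ^ 4) = A4 at hx ⊢
    generalize aS x = q at *
    have h1 := (sl hs _).trans h.m4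
    have h2 : -(6 * v * (P * v ^ 3)) ≤ 6 * v * (s * (gE (fun x => tanh x ^ 2) m v -
        (v + m ^ 2 - 2 * v ^ 2))) := by
      have := (sl (s := -s) (by rwa [abs_neg]) _).trans h.m2
      nlinarith
    have h3 := (sl (s := -s) (by rwa [abs_neg]) _).trans h.cube
    have h4 : -s * (v - q) ^ 2 ≤ P ^ 2 * q ^ 4 := by
      have h1 := sl (s := -s) (by rwa [abs_neg]) ((v - q) ^ 2)
      have h2 := pow_le_pow_left₀ (abs_nonneg _) h.w 2
      rw [abs_pow] at h1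
      linarith
    have h5 := h.pv 4
    have h6 := mul_pos e0 (pow_pos q0 3)
    have hd : e * q ^ 3 / 2 ≤ s * (A4 - 6 * v * q) - s * (gE (fun y => tanh y ^ 4) m v -
        6 * v * gE (fun y => tanh y ^ 2) m v) := by linarith [h.t1, h.t2]
    have h7 : κ * e / (2 * q) * (e * q ^ 3 / 2) ≤ κ * e / v0 * (s * (A4 - 6 * v * q) -
        s * (gE (fun y => tanh y ^ 4) m v - 6 * v * gE (fun y => tanh y ^ 2) m v)) := by
      have := h.v3
      gcongr
    have e1 : κ * e / (2 * q) * (e * q ^ 3 / 2) = κ * e ^ 2 * q ^ 2 / 4 := by field_simp; norm_num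
    have e2 : P * ((κ * e / v0) ^ 2 * 144) * v0 ^ 4 = 144 * (P * κ) * (κ * e ^ 2 * v0 ^ 2) := by
      field_simp
    have h8 : κ * e ^ 2 * v0 ^ 2 ≤ κ * e ^ 2 * (2 * q) ^ 2 := by
      have := h.v3
      gcongr
    have h9 : 0 ≤ κ * e ^ 2 * q ^ 2 := by positivity
    rw [e2, h.kP]
    linarith

lemma req3 {s : ℝ} (hs : |s| = 1) (h : Nb P κ e (aS x) (bS x) m v0 v)
    (hx : √(aS x ^ 5) < s * (avg (fun i => th x i ^ 3) - 3 * bS x * aS x)) :
    Req P κ e (aS x) m v0 v (κ / √v0) (fun y => s * (tanh y ^ 3 - 3 * v * tanh y ^ 1)) x := by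
  have v0p := h.v0p
  have k0 := h.k0
  have e0 := h.e0
  have q0 := h.q0
  have vp := h.vp
  have w0 : 0 < √v0 := sqrt_pos.2 v0p
  have ww := sq_sqrt v0p.le
  have f : ∀ y, |s * (tanh y ^ 3 - 3 * v * tanh y ^ 1)| = |tanh y| * |tanh y ^ 2 - 3 * v| := fun y => by
    rw [abs_mul, hs, one_mul, ← abs_mul]
    congr 1; ring
  have c := cz (c := 3) (by norm_num) v0p vp (by linarith [h.w1, h.v1])
  have hd : 7 / 10 * (aS x ^ 2 * √v0) ≤ √(aS x ^ 5) := by
    refine le_sqrt_of_sq_le ?_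
    rw [mul_pow, mul_pow, ww]
    nlinarith [mul_le_mul_of_nonneg_left h.v3 (pow_pos q0 4).le, pow_pos q0 5]
  have hw : P ^ 2 * √v0 ≤ 1 / 175 := by
    refine (abs_le_of_sq_le_sq' ?_ (by norm_num)).2
    rw [mul_pow, ww]
    nlinarith [mul_le_mul_of_nonneg_left h.v3 (pow_pos (zero_lt_one.trans_le h.P1) 4).le, h.s, h.e1]
  generalize √v0 = w at *
  have w1 : w ≤ 1 := by nlinarith [mul_le_mul_of_nonneg_right (h.pw (by norm_num : 0 ≤ 2)) w0.le]
  refine ⟨6, 36, 3, by positivity, by norm_num, by norm_num, ?_, fun y => ?_, fun y => ?_, ?_⟩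
  · rw [div_mul_eq_mul_div, div_le_div_iff₀ w0 (by positivity), ← ww]
    nlinarith [mul_le_mul h.k1 w1 w0.le (by norm_num)]
  · rw [f]
    have := mul_le_mul (abs_tanh_lt_one y).le (c y) (abs_nonneg _) zero_le_one
    linarith
  · rw [← sq_abs, f, mul_pow, sq_abs]
    have := mul_le_mul ((th2 y).trans (le_add_of_nonneg_right v0p.le))
      (pow_le_pow_left₀ (abs_nonneg _) (c y) 2) (sq_nonneg _) (by positivity)
    linarith
  · rw [gE_lin, avg_lin s (3 * v) (fun i => tanh (x i) ^ 3) fun i => tanh (x i) ^ 1]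
    simp only [pow_one]
    change _ ≤ _ * (s * (avg (fun i => th x i ^ 3) - 3 * v * bS x) -
      s * (_ - 3 * v * gE tanh m v))
    generalize avg (fun i => th x i ^ 3) = A3 at hx ⊢
    generalize aS x = q at *
    generalize bS x = a at *
    have h1 := (sl hs _).trans h.m3
    have h2 : -(3 * v * (P * v ^ 2)) ≤ 3 * v * (s * (gE tanh m v - m)) := by
      have := (sl (s := -s) (by rwa [abs_neg]) _).trans h.m1
      nlinarith
    have h3 : s * (a * (v - q)) ≤ P ^ 2 * q ^ 3 := by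
      have h1 := sl hs (a * (v - q))
      have h2 := mul_le_mul h.a1 h.w (abs_nonneg _) ((abs_nonneg _).trans h.a1)
      rw [abs_mul] at h1
      linarith
    have h4 := h.pv 3
    have h5 : P * q ^ 3 ≤ P ^ 2 * q ^ 3 :=
      mul_le_mul_of_nonneg_right (le_self_pow₀ h.P1 two_ne_zero) (by positivity)
    have h6 : P ^ 2 * q ^ 3 ≤ q ^ 2 * w / 175 := by
      have h1 : P ^ 2 * q ≤ P ^ 2 * w ^ 2 := mul_le_mul_of_nonneg_left (ww ▸ h.v1) (by positivity)
      have h2 := mul_le_mul_of_nonneg_right hw w0.le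
      have h3 := mul_le_mul_of_nonneg_left (by linarith : P ^ 2 * q ≤ w / 175) (sq_nonneg q)
      linarith
    have hd' : q ^ 2 * w / 2 ≤ s * (A3 - 3 * v * a) - s * (gE (fun y => tanh y ^ 3) m v -
        3 * v * gE tanh m v) := by linarith
    have h7 := mul_le_mul_of_nonneg_left hd' (by positivity : 0 ≤ κ / w)
    have e1 : κ / w * (q ^ 2 * w / 2) = κ * q ^ 2 / 2 := by field_simp
    have e2 : P * ((κ / w) ^ 2 * 36) * v0 ^ 3 = 36 * (P * κ) * (κ * v0 ^ 2) := by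
      rw [← ww]; field_simp
    have h8 : κ * v0 ^ 2 ≤ κ * (2 * q) ^ 2 := by
      have := h.v3
      gcongr
    have h9 : 0 ≤ κ * q ^ 2 := by positivity
    have h10 := mul_le_mul_of_nonneg_right (by nlinarith [h.e1] : e ^ 2 ≤ 1) h9
    rw [e2, h.kP]
    linarith

lemma two {a b : ℝ} (h : ¬ |b| ≤ a) : a < 1 * b ∨ a < -1 * b := by
  rw [not_le, lt_abs] at h
  simpa using h

end B56

open B56 in
theorem b2Glue : B2Glue := by
  intro hT hM hD hN K hK
  obtain ⟨c, hc, C, P, κ, h⟩ := ev hT hM hD hN hK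
  refine ⟨c, hc, C + 7, fun n t e hn ht he hs => ?_⟩
  replace h := fun Q k F => h n t e Q k F (by omega) ht he hs
  have h3 := fun (s : ℝ) (hs : |s| = 1) => h _ _ (fun v y => s * (tanh y ^ 3 - 3 * v * tanh y ^ 1))
    (measurableSet_lt (by fun_prop) (by unfold avg th; fun_prop)) (fun v => by fun_prop)
    fun x m v0 v N hx => req3 hs N hx
  have h4 := fun (s : ℝ) (hs : |s| = 1) => h _ _ (fun v y => s * (tanh y ^ 4 - 6 * v * tanh y ^ 2))
    (measurableSet_lt (by fun_prop) (by unfold avg th; fun_prop)) (fun v => by fun_prop)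
    fun x m v0 v N hx => req4 hs N hx
  have h6 := fun (s : ℝ) (hs : |s| = 1) => h _ _ (fun _ y => s * tanh y ^ 6)
    (measurableSet_lt (by fun_prop) (by unfold avg th; fun_prop)) (fun v => by fun_prop)
    fun x m v0 v N hx => req6 hs N hx
  have h8 := h _ _ (fun _ y => min (y ^ 8) (y ^ 2))
    (measurableSet_lt (by fun_prop) (by unfold avg; fun_prop)) (fun v => by fun_prop)
    fun x m v0 v N hx => req8 N hx
  have m1 : |(-1 : ℝ)| = 1 := by simp
  have u := fun {E F : Set (V n)} {a b : ℝ≥0∞} (h1 : Px t E ≤ a) (h2 : Px t F ≤ b) =>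
    (Px_union t E F).trans (add_le_add h1 h2)
  have H := u (u (u (h3 1 abs_one) (h3 _ m1)) (u (h4 1 abs_one) (h4 _ m1)))
    (u (u (h6 1 abs_one) (h6 _ m1)) h8)
  refine ((Px_mono t fun x hx => ?_).trans H).trans ?_
  · by_contra hc
    simp only [mem_union, mem_ofPred_eq, not_or, not_and] at hc
    obtain ⟨⟨⟨a1, a2⟩, a3, a4⟩, ⟨a5, a6⟩, a7⟩ := hc
    refine hx.2 ⟨?_, ?_, ?_, not_lt.1 (a7 hx.1)⟩
    · rw [← sq_abs]
      refine (le_sqrt (abs_nonneg _) (pow_nonneg (aS_nonneg x) 5)).1 ?_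
      by_contra h
      exact (two h).elim (a1 hx.1) (a2 hx.1)
    · by_contra h
      exact (two h).elim (a3 hx.1) (a4 hx.1)
    · by_contra h
      exact (two h).elim (a5 hx.1) (a6 hx.1)
  · have h1 := ex_sum (k := 7) (n := n) (by omega) (by omega) C (c * e ^ 2 * n * t)
    have h2 : 0 ≤ Real.log n := log_natCast_nonneg n
    refine le_trans (le_of_eq ?_) (h1.trans (ex_mono ?_))
    · push_cast; ring
    · push_cast; linarith

end Crest.Agent.T157.Kb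

end
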