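import Crest.Agent.T157.KbDef_24

/-!
# Row 157, part A2, section 2 (helper24): three sharper forms asked for by sections 0, 4, 5
-/

set_option autoImplicit false

noncomputable section

namespace Crest.Agent.T157.Kb

open MeasureTheory Matrix Set Filter
open scoped ENNReal
open Crest.Agent.T157.E Crest.Agent.T157.Cond Crest.Agent.T157.Tap
open Crest.Agent.T157.Qe (WS)
open Crest.Agent.T157.Conc (ex)

/-- few large sites, thresholds down to `C log (1/t)` -/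
def CntS : Prop := ∀ K ≥ (1 : ℝ), ∃ c > (0 : ℝ), ∃ C : ℕ, ∀ (n : ℕ) (t e l k : ℝ),
  C ≤ n → 1 / (n : ℝ) ≤ t → e ≤ 1 / 10 → Real.sqrt t ≤ c → C * Real.log (1 / t) ≤ l →
  Px t {x : V n | Co K e t x ∧ k ≤ (Finset.univ.filter fun i => l * aS x ≤ th x i ^ 2).card} ≤
    ex (C * Real.log n + C * n * t ^ 2 - c * l * k)

def CntSGlue : Prop := TiltStmt → MgfStmt → MomStmt → NetStmt → CntS

/-- the odd moments at precision `√e' q^{5/2}` -/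
def B3Stmt : Prop := ∀ K ≥ (1 : ℝ), ∃ c > (0 : ℝ), ∃ C : ℕ, ∀ (n : ℕ) (t e e' : ℝ),
  C ≤ n → 1 / (n : ℝ) ≤ t → e ≤ 1 / 10 → e' ∈ Ioc (0 : ℝ) 1 → Real.sqrt t ≤ c * e' →
  Px t {x : V n | Co K e t x ∧ ¬ ((R3 x - bS x * aS x) ^ 2 ≤ e' * aS x ^ 5 ∧
    (avg (fun i => th x i ^ 3) - 3 * bS x * aS x) ^ 2 ≤ e' * aS x ^ 5)} ≤
    ex (C * Real.log n - c * e' * n * t)

def B3Glue : Prop := TiltStmt → MgfStmt → MomStmt → NetStmt → B3Stmt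

/-- `GoodL` with the spectral error `e' n t`, `e'` chosen before `t0` -/
def GoodU : Prop := ∀ L > (0 : ℝ), ∀ Cw ≥ (0 : ℝ), ∃ K ≥ (1 : ℝ), ∃ ε > (0 : ℝ), ∃ e' > (0 : ℝ),
  ∃ t0 > (0 : ℝ), ∀ t2 > (0 : ℝ), ∃ c > (0 : ℝ), ∃ r > (0 : ℝ), ∀ᶠ n : ℕ in atTop,
  ∀ t ∈ Icc t2 t0, ∀ S0 : Set (Mx n),
  (∀ q > (0 : ℝ), t ≤ K * q ^ 2 → q ^ 2 ≤ K * t → WS ε q (e' * n * t) Cw S0) →
  Pl n t {z | z.1 ∈ S0 ∧ BadY 1 c (r * Real.sqrt n) z.1 z.2} ≤ ex (-(L * n * (t * Real.sqrt t)))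

def GoodUGlue : Prop := MeasStmt → AreaStmt → KrStmt → MargStmt → B1Stmt → B2Stmt → PosStmt →
  BallStmt → GoodU

end Crest.Agent.T157.Kb

end
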