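import Crest.Agent.T157.KbB2_56
import Crest.Agent.T157.KbTay_31
import Crest.Agent.T157.KbE_24

/-!
# Row 157, part A2, section 2 (helper56): `Kb.b3Glue : B3Glue`
-/

set_option autoImplicit false

noncomputable section

namespace Crest.Agent.T157.Kb

open MeasureTheory ProbabilityTheory Matrix Set Real
open scoped ENNReal
open Crest.Agent.T157.E Crest.Agent.T157.Cond Crest.Agent.T157.Tap
open Crest.Agent.T157.Conc (ex ex_mono)

namespace B56
open Co56

variable {n : ℕ}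

/-- `ev` with the tolerance of the cell decoupled, and `q ≪ e²` -/
theorem ev2 (hT : TiltStmt) (hM : MgfStmt) (hD : MomStmt) (hN : NetStmt) {K : ℝ} (hK : 1 ≤ K) :
    ∃ c > (0 : ℝ), ∃ C : ℕ, ∃ P κ : ℝ, ∀ (n : ℕ) (t e0 e : ℝ) (Q : V n → Prop) (k : ℝ → ℝ)
      (F : ℝ → ℝ → ℝ), 2 ≤ n → 1 / (n : ℝ) ≤ t → e0 ≤ 1 / 10 → e ∈ Ioc (0 : ℝ) (1 / 10) →
      √t ≤ c * e ^ 2 → MeasurableSet {x | Q x} → (∀ v, Measurable (F v)) →
      (∀ x m v0 v, Nb P κ e (aS x) (bS x) m v0 v → 10 ^ 6 * P ^ 4 * aS x ≤ e ^ 2 →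
        |gE (fun x => x - tanh x) m v - m * v| ≤ P * v ^ 3 → Q x →
        Req P κ e (aS x) m v0 v (k v0) (F v) x) →
      Px t {x | Co K e0 t x ∧ Q x} ≤ ex (C * Real.log n - c * e ^ 2 * n * t) := by
  obtain ⟨c, hc, C, A, hA, h⟩ := tool hT hM hN hK
  obtain ⟨D, hD1, hD⟩ := hD
  have L1 : 1 ≤ 12 * K := by linarith
  replace hD := hD _ L1
  generalize hL : 12 * K = L at h hD L1
  have hj : ∀ j ≤ 4, D * L ^ j ≤ A * (D * L ^ 4) := fun j hj =>
    (mul_le_mul_of_nonneg_left (pow_le_pow_right₀ L1 hj) (by linarith)).trans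
      (le_mul_of_one_le_left (by positivity) hA)
  have hl : ∀ j ≤ 4, L ^ j ≤ A * (D * L ^ 4) := fun j h =>
    (le_mul_of_one_le_left (by positivity) hD1).trans (hj j h)
  have hAP : A ≤ A * (D * L ^ 4) :=
    le_mul_of_one_le_right (by linarith) (one_le_mul_of_one_le_of_one_le hD1 (one_le_pow₀ L1))
  generalize A * (D * L ^ 4) = P at hj hl hAP
  have P1 : 1 ≤ P := hA.trans hAP
  refine ⟨min c (1 / (10 ^ 6 * P ^ 4 * K)), by positivity, C, P, 1 / (10 ^ 4 * P),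
    fun n t e0 e Q k F hn ht he0 he hs hQ hF H => ?_⟩
  have n2 : (2 : ℝ) ≤ n := by exact_mod_cast hn
  have t0 : 0 < t := lt_of_lt_of_le (by positivity) ht
  have c0 : 0 < min c (1 / (10 ^ 6 * P ^ 4 * K)) := by positivity
  have c2 : 10 ^ 6 * P ^ 4 * (K * min c (1 / (10 ^ 6 * P ^ 4 * K))) ≤ 1 := by
    have := (le_div_iff₀ (by positivity)).1 (min_le_right c (1 / (10 ^ 6 * P ^ 4 * K)))
    linarith
  have c1 := min_le_left c (1 / (10 ^ 6 * P ^ 4 * K))
  generalize min c (1 / (10 ^ 6 * P ^ 4 * K)) = c' at hs c0 c1 c2 ⊢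
  have ee : e ^ 2 ≤ e := by nlinarith [he.1, he.2]
  refine h n t e0 _ _ (fun v0 v y => k v0 * F v y) hn ht he0 (by nlinarith [he.2])
    ((measSet_Co K e0 t measurable_id).inter hQ) (fun _ v => (hF v).const_mul _)
    fun x hx => ⟨hx.1, fun m v0 v g => ?_⟩
  have q0 := g.q0
  have hq : 10 ^ 6 * P ^ 4 * aS x ≤ e ^ 2 := by
    have h1 := (Co.le hx.1 hK t0).trans (mul_le_mul_of_nonneg_left hs (by linarith))
    have h2 := mul_le_mul_of_nonneg_left h1 (by positivity : 0 ≤ 10 ^ 6 * P ^ 4)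
    have h3 := mul_le_mul_of_nonneg_right c2 (sq_nonneg e)
    linarith
  have P4 : P ≤ P ^ 4 := le_self_pow₀ P1 (by norm_num)
  have vp := g.vp
  obtain ⟨m1, m2, m3, m4, m6, m8, m7, -⟩ := hD m v vp (by
    have h1 := mul_le_mul (hl 2 (by norm_num)) g.w1 vp.le (by linarith)
    have h2 := mul_le_mul_of_nonneg_right P4 q0.le
    linarith [he.2]) g.m1
  have l1 : L ≤ P := by simpa using hl 1 (by norm_num)
  have N : Nb P (1 / (10 ^ 4 * P)) e (aS x) (bS x) m v0 v :=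
    ⟨P1, by positivity, by field_simp, he.1, he.2, q0, hq.trans ee, g.a1.trans (by gcongr), g.v1, g.v3,
      vp, g.w1, g.w.trans (by gcongr), m1.trans (by gcongr; simpa using hj 1 (by norm_num)),
      m2.trans (by gcongr; exact hj 2 (by norm_num)), m3.trans (by gcongr; exact hj 3 (by norm_num)),
      m4.trans (by gcongr; exact hj 4 le_rfl), m6.trans (by gcongr; exact hj 2 (by norm_num)),
      m8.trans (by gcongr; simpa using hj 0 (by norm_num))⟩
  obtain ⟨b, b', j, k0, b0, j8, hb, f1, f2, f3⟩ := H x m v0 v N hq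
    (m7.trans (by gcongr; exact hj 3 (by norm_num))) hx.2
  have v0p := g.v0p
  refine ⟨fun y => ?_, fun hS => red (r := 1 / (10 ^ 4 * P) * e ^ 2 * aS x ^ 2 / 20) (by omega) ?_ ?_⟩
  · rw [abs_mul, abs_of_nonneg k0]
    have h1 := mul_le_mul_of_nonneg_left (f1 y) k0
    have h2 := mul_le_mul_of_nonneg_right hb (by positivity : 0 ≤ y ^ 2 + v0)
    rw [div_eq_mul_one_div]
    linarith
  · have h1 : c' * t ≤ 1 / (10 ^ 4 * P) * aS x ^ 2 / 20 := by
      have h1 := mul_le_mul_of_nonneg_left hx.1.q1 c0.le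
      have h2 : K * c' ≤ 1 / (10 ^ 4 * P) / 20 := by
        rw [div_div, le_div_iff₀ (by positivity)]
        nlinarith [mul_le_mul_of_nonneg_right P4 (by positivity : 0 ≤ K * c'),
          mul_nonneg (by linarith : 0 ≤ P) (by positivity : 0 ≤ K * c')]
      have h3 := mul_le_mul_of_nonneg_right h2 (sq_nonneg (aS x))
      linarith
    have := mul_le_mul_of_nonneg_left h1 (by positivity : 0 ≤ n * e ^ 2)
    linarith
  · have h1 := hS (k v0 ^ 2 * b') j (by positivity) j8 fun y => by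
      rw [mul_pow, mul_assoc]; exact mul_le_mul_of_nonneg_left (f2 y) (sq_nonneg _)
    have h2 : A * (k v0 ^ 2 * b') * v0 ^ j ≤ P * (k v0 ^ 2 * b') * v0 ^ j := by gcongr
    have h3 : A * v0 ^ 4 ≤ P * v0 ^ 4 := by gcongr
    linarith [N.z4]

variable {P κ e m v0 v : ℝ} {x : V n}

lemma num3 {q a d : ℝ} (h : Nb P κ e q a m v0 v) (hq : 10 ^ 6 * P ^ 4 * q ≤ e ^ 2)
    (hd : e * √(q ^ 5) - 35 * (P ^ 2 * q ^ 3) ≤ d) : κ * e / √v0 * 6 ≤ 1 / (64 * v0) ∧
    2 * (P * ((κ * e / √v0) ^ 2 * 36) * v0 ^ 3) + κ * e ^ 2 * q ^ 2 / 10 ≤ κ * e / √v0 * d := by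
  have v0p := h.v0p
  have k0 := h.k0
  have e0 := h.e0
  have q0 := h.q0
  have w0 : 0 < √v0 := sqrt_pos.2 v0p
  have ww := sq_sqrt v0p.le
  have hd' : 7 / 10 * (q ^ 2 * √v0) ≤ √(q ^ 5) := by
    refine le_sqrt_of_sq_le ?_
    rw [mul_pow, mul_pow, ww]
    nlinarith [mul_le_mul_of_nonneg_left h.v3 (pow_pos q0 4).le, pow_pos q0 5]
  have hw : P ^ 2 * √v0 ≤ e / 175 := by
    refine (abs_le_of_sq_le_sq' ?_ (by positivity)).2
    rw [mul_pow, ww]
    nlinarith [mul_le_mul_of_nonneg_left h.v3 (pow_pos (zero_lt_one.trans_le h.P1) 4).le, sq_nonneg e]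
  generalize √v0 = w at *
  have w1 : w ≤ 1 := by
    nlinarith [mul_le_mul_of_nonneg_right (h.pw (by norm_num : 0 ≤ 2)) w0.le, h.e1]
  have ke : κ * e ≤ 1 / 10 ^ 4 * (1 / 10) := mul_le_mul h.k1 h.e1 e0.le (by norm_num)
  constructor
  · rw [div_mul_eq_mul_div, div_le_div_iff₀ w0 (by positivity), ← ww]
    nlinarith [mul_le_mul ke w1 w0.le (by norm_num)]
  · have h6 : P ^ 2 * q ^ 3 ≤ e * (q ^ 2 * w) / 175 := by
      have h1 : P ^ 2 * q ≤ P ^ 2 * w ^ 2 := mul_le_mul_of_nonneg_left (ww ▸ h.v1) (by positivity)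
      have h2 := mul_le_mul_of_nonneg_right hw w0.le
      have h3 := mul_le_mul_of_nonneg_left (by linarith : P ^ 2 * q ≤ e * w / 175) (sq_nonneg q)
      linarith
    have h5 := mul_le_mul_of_nonneg_left hd' e0.le
    have h7 := mul_le_mul_of_nonneg_left (by linarith : e * (q ^ 2 * w) / 2 ≤ d)
      (by positivity : 0 ≤ κ * e / w)
    have e1 : κ * e / w * (e * (q ^ 2 * w) / 2) = κ * e ^ 2 * q ^ 2 / 2 := by field_simp
    have e2 : P * ((κ * e / w) ^ 2 * 36) * v0 ^ 3 = 36 * (P * κ) * (κ * e ^ 2 * v0 ^ 2) := by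
      rw [← ww]; field_simp
    have h8 : κ * e ^ 2 * v0 ^ 2 ≤ κ * e ^ 2 * (2 * q) ^ 2 := by
      have := h.v3
      gcongr
    have h9 : 0 ≤ κ * e ^ 2 * q ^ 2 := by positivity
    rw [e2, h.kP]
    linarith

lemma err {s q a : ℝ} (hs : |s| = 1) (h : Nb P κ e q a m v0 v) :
    s * (a * (v - q)) ≤ P ^ 2 * q ^ 3 ∧ -(v * (P * v ^ 2)) ≤ v * (s * (gE tanh m v - m)) ∧
      P * v ^ 3 ≤ 8 * (P ^ 2 * q ^ 3) := by
  refine ⟨?_, ?_, ?_⟩
  · have h1 := sl hs (a * (v - q))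
    have h2 := mul_le_mul h.a1 h.w (abs_nonneg _) ((abs_nonneg _).trans h.a1)
    rw [abs_mul] at h1
    linarith
  · have := (sl (s := -s) (by rwa [abs_neg]) _).trans h.m1
    nlinarith [h.vp]
  · have : P * q ^ 3 ≤ P ^ 2 * q ^ 3 :=
      mul_le_mul_of_nonneg_right (le_self_pow₀ h.P1 two_ne_zero) (pow_pos h.q0 3).le
    linarith [h.pv 3]

lemma rq3 {s : ℝ} (hs : |s| = 1) (h : Nb P κ e (aS x) (bS x) m v0 v)
    (hq : 10 ^ 6 * P ^ 4 * aS x ≤ e ^ 2)
    (hx : e * √(aS x ^ 5) < s * (avg (fun i => th x i ^ 3) - 3 * bS x * aS x)) :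
    Req P κ e (aS x) m v0 v (κ * e / √v0) (fun y => s * (tanh y ^ 3 - 3 * v * tanh y ^ 1)) x := by
  have v0p := h.v0p
  have k0 := h.k0
  have e0 := h.e0
  have f : ∀ y, |s * (tanh y ^ 3 - 3 * v * tanh y ^ 1)| = |tanh y| * |tanh y ^ 2 - 3 * v| := fun y => by
    rw [abs_mul, hs, one_mul, ← abs_mul]
    congr 1; ring
  have c := cz (c := 3) (by norm_num) v0p h.vp (by linarith [h.w1, h.v1])
  refine ⟨6, 36, 3, by positivity, by norm_num, by norm_num, (num3 h hq le_rfl).1, fun y => ?_,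
    fun y => ?_, (num3 h hq ?_).2⟩
  · rw [f]
    have := mul_le_mul (abs_tanh_lt_one y).le (c y) (abs_nonneg _) zero_le_one
    linarith
  · rw [← sq_abs, f, mul_pow, sq_abs]
    have := mul_le_mul ((th2 y).trans (le_add_of_nonneg_right v0p.le))
      (pow_le_pow_left₀ (abs_nonneg _) (c y) 2) (sq_nonneg _) (by positivity)
    linarith
  · rw [gE_lin, avg_lin s (3 * v) (fun i => tanh (x i) ^ 3) fun i => tanh (x i) ^ 1]
    simp only [pow_one]
    change _ ≤ s * (avg (fun i => th x i ^ 3) - 3 * v * bS x) - s * (_ - 3 * v * gE tanh m v)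
    obtain ⟨h2, h3, h4⟩ := err hs h
    linarith [(sl hs _).trans h.m3]

lemma gE_r (s m v : ℝ) : gE (fun y => s * (y - tanh y - v * tanh y)) m v =
    s * (gE (fun y => y - tanh y) m v - v * gE tanh m v) := by
  have h1 := SE.integrable_gE meas_tanh SE.abs_tanh_le m √v
  have h2 : Integrable (fun z : ℝ => m + √v * z) (gaussianReal 0 1) :=
    (integrable_const m).add (((memLp_id_gaussianReal 1).integrable le_rfl).const_mul _)
  rw [SE.gE_const_mul, ← SE.gE_const_mul v]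
  exact congrArg _ (integral_sub (h2.sub h1) (h1.const_mul v))

lemma rqR {s : ℝ} (hs : |s| = 1) (h : Nb P κ e (aS x) (bS x) m v0 v)
    (hq : 10 ^ 6 * P ^ 4 * aS x ≤ e ^ 2) (m7 : |gE (fun x => x - tanh x) m v - m * v| ≤ P * v ^ 3)
    (hx : e * √(aS x ^ 5) < s * (R3 x - bS x * aS x)) :
    Req P κ e (aS x) m v0 v (κ * e / √v0) (fun y => s * (y - tanh y - v * tanh y)) x := by
  have v0p := h.v0p
  have k0 := h.k0
  have e0 := h.e0
  have vp := h.vp
  have hv : v ≤ 2 * v0 := by linarith [h.w1, h.v1]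
  refine ⟨6, 36, 3, by positivity, by norm_num, by norm_num, (num3 h hq le_rfl).1, fun y => ?_,
    fun y => ?_, (num3 h hq ?_).2⟩
  · rw [abs_mul, hs, one_mul]
    have h1 : |y - tanh y| ≤ y ^ 2 := by
      rw [← sq_abs y]
      have := abs_nonneg y
      rcases le_total |y| 1 with h | h
      · nlinarith [Tay.t3 y, mul_le_mul_of_nonneg_left h (sq_nonneg |y|), sq_nonneg |y|]
      · nlinarith [Tay.t1' y]
    have h2 : |v * tanh y| ≤ v := by
      rw [abs_mul, abs_of_pos vp]; exact mul_le_of_le_one_right vp.le (SE.abs_tanh_le y)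
    linarith [abs_sub (y - tanh y) (v * tanh y), sq_nonneg y]
  · rw [mul_pow, ← sq_abs s, hs]
    have z1 : y ^ 2 ≤ y ^ 2 + v0 := le_add_of_nonneg_right v0p.le
    have h1 := pow_le_pow_left₀ (sq_nonneg y) z1 3
    have h2 := mul_le_mul (pow_le_pow_left₀ vp.le
      (by linarith [sq_nonneg y] : v ≤ 2 * (y ^ 2 + v0)) 2) ((th2 y).trans z1) (sq_nonneg _) (sq_nonneg _)
    have h3 : 0 ≤ (y ^ 2 + v0) ^ 3 := by positivity
    nlinarith [Tay.r_sq y, sq_nonneg (y - tanh y + v * tanh y)]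
  · rw [gE_r, avg_lin s v (fun i => x i - tanh (x i)) fun i => tanh (x i)]
    change _ ≤ s * (R3 x - v * bS x) - _
    obtain ⟨h2, h3, h4⟩ := err hs h
    have : 0 ≤ P ^ 2 * aS x ^ 3 := mul_nonneg (sq_nonneg P) (pow_pos h.q0 3).le
    linarith [(sl hs _).trans m7]

end B56

open B56 in
theorem b3Glue : B3Glue := by
  intro hT hM hD hN K hK
  obtain ⟨c, hc, C, P, κ, h⟩ := ev2 hT hM hD hN hK
  refine ⟨c / 100, by positivity, C + 4, fun n t e0 e' hn ht he0 he hs => ?_⟩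
  have p := sqrt_pos.2 he.1
  have ee : (√e' / 10) ^ 2 = e' / 100 := by rw [div_pow, sq_sqrt he.1.le]; norm_num
  have e1 : √e' / 10 ≤ 1 / 10 := by linarith [sqrt_le_one.2 he.2]
  replace h := fun Q k F => h n t e0 (√e' / 10) Q k F (by omega) ht he0 ⟨by positivity, e1⟩
    (by rw [ee]; linarith)
  have h3 := fun (s : ℝ) (hs : |s| = 1) => h _ _ (fun v y => s * (tanh y ^ 3 - 3 * v * tanh y ^ 1))
    (measurableSet_lt (by fun_prop) (by unfold avg th; fun_prop)) (fun v => by fun_prop)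
    fun x m v0 v N hq _ hx => rq3 hs N hq hx
  have h4 := fun (s : ℝ) (hs : |s| = 1) => h _ _ (fun v y => s * (y - tanh y - v * tanh y))
    (measurableSet_lt (by fun_prop) (by fun_prop)) (fun v => by fun_prop)
    fun x m v0 v N hq m7 hx => rqR hs N hq m7 hx
  have m1 : |(-1 : ℝ)| = 1 := by simp
  have u := fun {E F : Set (V n)} {a b : ℝ≥0∞} (h1 : Px t E ≤ a) (h2 : Px t F ≤ b) =>
    (Px_union t E F).trans (add_le_add h1 h2)
  have H := u (u (h3 1 abs_one) (h3 _ m1)) (u (h4 1 abs_one) (h4 _ m1))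
  refine ((Px_mono t fun x hx => ?_).trans H).trans ?_
  · by_contra hc
    simp only [mem_union, mem_ofPred_eq, not_or, not_and] at hc
    obtain ⟨⟨a1, a2⟩, a3, a4⟩ := hc
    have g : ∀ b : ℝ, |b| ≤ √e' / 10 * √(aS x ^ 5) → b ^ 2 ≤ e' * aS x ^ 5 := fun b hb => by
      have h1 := pow_le_pow_left₀ (abs_nonneg _) hb 2
      have h2 := pow_nonneg (aS_nonneg x) 5
      rw [sq_abs, mul_pow, ee, sq_sqrt h2] at h1
      nlinarith [mul_nonneg he.1.le h2]
    refine hx.2 ⟨g _ ?_, g _ ?_⟩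
    · by_contra h
      exact (two h).elim (a3 hx.1) (a4 hx.1)
    · by_contra h
      exact (two h).elim (a1 hx.1) (a2 hx.1)
  · have h1 := ex_sum (k := 4) (n := n) (by omega) (by omega) C (c * (√e' / 10) ^ 2 * n * t)
    have h2 : 0 ≤ Real.log n := log_natCast_nonneg n
    refine le_trans (le_of_eq ?_) (h1.trans (ex_mono ?_))
    · push_cast; ring
    · rw [ee]; push_cast; linarith

end Crest.Agent.T157.Kb

end
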