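import Crest.Agent.T157.KbCo_56
import Crest.Agent.T157.KbE_24

/-!
# Row 157, A2, section 2: few large sites (`Kb.CntSGlue`, `Kb.CntGlue`, helper82)
-/

set_option autoImplicit false

noncomputable section

namespace Crest.Agent.T157.Kb

open MeasureTheory ProbabilityTheory Matrix Set Filter
open scoped ENNReal
open Crest.Agent.T157.E Crest.Agent.T157.Cond Crest.Agent.T157.Tap
open Crest.Agent.T157.Conc (ex ex_mono)

namespace Cnt82

lemma tanh_sq_le (x : ℝ) : Real.tanh x ^ 2 ≤ x ^ 2 := by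
  have key : ∀ y : ℝ, 0 ≤ y → Real.tanh y ≤ y := fun y hy => by
    have := (monotone_of_deriv_nonneg (f := fun y => y - Real.tanh y)
      (fun y => ((hasDerivAt_id y).sub (hasDerivAt_tanh y)).differentiableAt)
      (fun y => by
        rw [((hasDerivAt_id' y).fun_sub (hasDerivAt_tanh y)).deriv]
        nlinarith [sq_nonneg (Real.tanh y)])) hy
    simpa using this
  have h := tanh_mul_sub_nonneg x
  rcases le_total 0 x with hx | hx
  · nlinarith [key x hx, sq_nonneg (x - Real.tanh x)]
  · have := key (-x) (by linarith)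
    rw [Real.tanh_neg] at this
    nlinarith [sq_nonneg (x - Real.tanh x)]

/-- the large-site test function -/
def Y (l v x : ℝ) : ℝ := if l * v ≤ 4 * x ^ 2 then l / 256 else 0

lemma meas_Y (l v : ℝ) : Measurable (Y l v) :=
  Measurable.ite (measurableSet_le measurable_const (by fun_prop)) measurable_const measurable_const

lemma int_big {m v : ℝ} (hv : 0 < v) (l : ℝ) : Integrable (fun z => if l * v ≤
    16 * (m + √v * z) ^ 2 then Real.exp ((m + √v * z) ^ 2 / (4 * v)) else 0) (gaussianReal 0 1) := by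
  have h1 : Integrable (fun z : ℝ => Real.exp (3 * m ^ 2 / (4 * v)) * Real.exp (3 / 4 * z ^ 2 / 2))
      (gaussianReal 0 1) := (Dq.integral_exp_sq (a := 3 / 4) (by norm_num)).1.const_mul _
  refine h1.mono' (Measurable.aestronglyMeasurable (Measurable.ite
    (measurableSet_le measurable_const (by fun_prop)) (by fun_prop) measurable_const))
    (Eventually.of_forall fun z => ?_)
  split_ifs
  · rw [Real.norm_eq_abs, abs_of_pos (Real.exp_pos _), ← Real.exp_add]
    refine Real.exp_le_exp.2 ?_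
    have e : √v ^ 2 = v := Real.sq_sqrt hv.le
    have : (m + √v * z) ^ 2 ≤ 3 * m ^ 2 + 3 / 2 * v * z ^ 2 := by
      nlinarith [sq_nonneg (2 * m - √v * z)]
    rw [div_le_iff₀ (by positivity)]
    have e2 : (3 * m ^ 2 / (4 * v) + 3 / 4 * z ^ 2 / 2) * (4 * v) =
        3 * m ^ 2 + 3 / 2 * v * z ^ 2 := by field_simp
    linarith
  · simp only [norm_zero]; positivity

lemma gE_le {m v v0 l B : ℝ} (hv : 0 < v) (_h0 : 0 < v0) (h1 : v ≤ 4 * v0) (hl : 0 ≤ l)
    (hB : gE (fun x => if l * v ≤ 16 * x ^ 2 then Real.exp (x ^ 2 / (4 * v)) else 0) m v ≤ B) :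
    gE (Y l v0) m v ≤ l / 256 * B ∧
      gE (fun x => Y l v0 x ^ 2 * Real.exp (x ^ 2 / (16 * v0))) m v ≤ (l / 256) ^ 2 * B := by
  have key : ∀ (c : ℝ) (f : ℝ → ℝ), 0 ≤ c → (∀ x, 0 ≤ f x) → (∀ x, f x ≤ c *
      if l * v ≤ 16 * x ^ 2 then Real.exp (x ^ 2 / (4 * v)) else 0) → gE f m v ≤ c * B :=
    fun c f hc h0 hf => by
      refine le_trans ?_ (mul_le_mul_of_nonneg_left hB hc)
      unfold gE
      rw [← integral_const_mul]
      exact integral_mono_of_nonneg (Eventually.of_forall fun z => h0 _)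
        ((int_big hv l).const_mul c) (Eventually.of_forall fun z => hf _)
  have imp : ∀ x : ℝ, l * v0 ≤ 4 * x ^ 2 → l * v ≤ 16 * x ^ 2 := fun x h => by
    nlinarith [mul_le_mul_of_nonneg_left h1 hl]
  constructor
  · refine key _ _ (by positivity) (fun x => by unfold Y; split_ifs <;> positivity) fun x => ?_
    unfold Y
    by_cases h : l * v0 ≤ 4 * x ^ 2
    · rw [if_pos h, if_pos (imp x h)]
      exact le_mul_of_one_le_right (by positivity) (Real.one_le_exp (by positivity))
    · rw [if_neg h]; split_ifs <;> positivity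
  · refine key _ _ (by positivity) (fun x => by positivity) fun x => ?_
    unfold Y
    by_cases h : l * v0 ≤ 4 * x ^ 2
    · rw [if_pos h, if_pos (imp x h)]
      refine mul_le_mul_of_nonneg_left (Real.exp_le_exp.2 ?_) (by positivity)
      exact div_le_div_of_nonneg_left (sq_nonneg x) (by positivity) (by linarith)
    · rw [if_neg h]; split_ifs <;> simp; positivity

lemma poly_exp {l : ℝ} (hl : 0 ≤ l) :
    (l / 256 + 2 * (l / 256) ^ 2) * Real.exp (-l / 128) ≤ 5 * Real.exp (-(l / 256)) := by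
  set z := l / 256 with hz
  have h0 : 0 ≤ z := by positivity
  have h1 := Real.quadratic_le_exp_of_nonneg h0
  have e : Real.exp (-l / 128) = Real.exp (-z) * Real.exp (-z) := by
    rw [← Real.exp_add, hz]; congr 1; ring
  have e2 : Real.exp z * Real.exp (-z) = 1 := by rw [← Real.exp_add]; simp
  have h2 : (z + 2 * z ^ 2) * Real.exp (-z) ≤ 5 := by
    have := mul_le_mul_of_nonneg_right (show z + 2 * z ^ 2 ≤ 5 * Real.exp z by nlinarith)
      (Real.exp_pos (-z)).le
    nlinarith
  rw [e, ← mul_assoc]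
  exact mul_le_mul_of_nonneg_right h2 (Real.exp_pos _).le

end Cnt82

open Cnt82 Co56 in
theorem cntSGlue : CntSGlue := by
  rintro hT hM ⟨C', hC', hG⟩ hN K hK
  obtain ⟨c1, hc1, Ct, A, hA, hT⟩ := tool hT hM hN hK
  have hK0 : 0 < K := by linarith
  refine ⟨min (min c1 (1 / 256)) (1 / (288 * K ^ 3)), by positivity,
    Ct + ⌈5 * C' + 16 * A * K ^ 2⌉₊ + 512, fun n t e l k hn ht he hs hl => ?_⟩
  set c := min (min c1 (1 / 256)) (1 / (288 * K ^ 3)) with hc
  have hc0 : 0 < c := by positivity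
  have hcc1 : c ≤ c1 := (min_le_left _ _).trans (min_le_left _ _)
  have hc2 : c ≤ 1 / 256 := (min_le_left _ _).trans (min_le_right _ _)
  have hc3 : c * (288 * K ^ 3) ≤ 1 := by
    rw [← le_div_iff₀ (by positivity)]; exact min_le_right _ _
  have hn2 : 512 ≤ n := le_trans (Nat.le_add_left _ _) hn
  have hnR : (512 : ℝ) ≤ n := by exact_mod_cast hn2
  have ht0 : 0 < t := lt_of_lt_of_le (by positivity) ht
  have ht1 : t ≤ 1 := by
    rw [← Real.sqrt_le_one]; linarith
  have hlt : 0 ≤ Real.log (1 / t) := Real.log_nonneg (one_le_one_div ht0 ht1)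
  have hlog : 0 ≤ Real.log n := Real.log_nonneg (by linarith)
  have a1 : (0 : ℝ) ≤ Ct := Nat.cast_nonneg _
  have a2 : 5 * C' + 16 * A * K ^ 2 ≤ ⌈5 * C' + 16 * A * K ^ 2⌉₊ := Nat.le_ceil _
  have a3 : (0 : ℝ) ≤ ⌈5 * C' + 16 * A * K ^ 2⌉₊ := Nat.cast_nonneg _
  push_cast at hl ⊢
  have hl1 : 512 * Real.log (1 / t) ≤ l := le_trans (mul_le_mul_of_nonneg_right (by linarith) hlt) hl
  have hl0 : 0 ≤ l := by linarith
  have hex : Real.exp (-(l / 256)) ≤ t ^ 2 := by
    rw [one_div, Real.log_inv] at hl1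
    rw [← Real.exp_log (pow_pos ht0 2), Real.log_pow]
    exact Real.exp_le_exp.2 (by push_cast; linarith)
  refine (hT n t e (c * l * k - (5 * C' + 16 * A * K ^ 2) * (n * t ^ 2)) _ (fun v0 _ => Y l v0)
    (by omega) ht he (hs.trans hcc1) ?_ (fun v _ => meas_Y l v) ?_).trans (ex_mono ?_)
  · refine (measSet_Co K e t measurable_id).inter ?_
    refine measurableSet_le (f := fun _ : V n => k) (g := fun x : V n =>
      ((Finset.univ.filter fun i => l * aS x ≤ th x i ^ 2).card : ℝ)) measurable_const ?_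
    simp only [Finset.card_filter, Nat.cast_sum]
    refine Finset.measurable_sum _ fun i _ => ?_
    simp only [Nat.cast_ite, Nat.cast_one, Nat.cast_zero]
    exact Measurable.ite (measurableSet_le (by fun_prop)
      (((measurable_pi_apply i).comp (meas_th measurable_id)).pow_const 2)) measurable_const
      measurable_const
  · rintro x ⟨hx, hk⟩
    refine ⟨hx, fun m v0 v g => ⟨fun y => ?_, fun _ => ?_⟩⟩
    · have := g.v0p
      unfold Y
      split_ifs with h
      · rw [abs_of_nonneg (by positivity), le_div_iff₀ (by positivity)]; linarith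
      · rw [abs_zero]; positivity
    have hq := (Co.le hx hK ht0).trans (mul_le_mul_of_nonneg_left hs hK0.le)
    have hb := (hG (12 * K) (by linarith) m v g.vp (by
      linarith [mul_le_mul_of_nonneg_left (g.w1.trans (by linarith : 2 * aS x ≤ 2 * (K * c)))
        (sq_nonneg K)]) g.m1).2.2.2.2.2.2.2.2 l
    obtain ⟨g1, g2⟩ := gE_le g.vp g.v0p (by linarith [g.w3, g.v0p]) hl0 hb
    have h2 := mul_le_mul_of_nonneg_left ((poly_exp hl0).trans
      (mul_le_mul_of_nonneg_left hex (by norm_num))) (by linarith : 0 ≤ C')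
    have b1 : (l / 256) * (Finset.univ.filter fun i => l * aS x ≤ th x i ^ 2).card ≤
        ∑ i, Y l v0 (x i) := by
      rw [Finset.card_filter, Nat.cast_sum, Finset.mul_sum]
      refine Finset.sum_le_sum fun i _ => ?_
      unfold Y
      by_cases h : l * aS x ≤ th x i ^ 2
      · have e : th x i ^ 2 ≤ x i ^ 2 := tanh_sq_le (x i)
        rw [if_pos h, if_pos (by linarith [mul_le_mul_of_nonneg_left g.v3 hl0, sq_nonneg (x i)])]
        simp
      · rw [if_neg h]; split_ifs <;> simp; positivity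
    have b2 : c * l * k ≤
        (l / 256) * (Finset.univ.filter fun i => l * aS x ≤ th x i ^ 2).card := by
      have := mul_le_mul_of_nonneg_left hk (mul_nonneg hc0.le hl0)
      refine this.trans (mul_le_mul_of_nonneg_right ?_ (Nat.cast_nonneg _))
      linarith [mul_le_mul_of_nonneg_right hc2 hl0]
    have b3 : v0 ^ 4 ≤ 16 * K ^ 2 * t ^ 2 := by
      have e1 := pow_le_pow_left₀ g.v0p.le g.v3 4
      have e2 := pow_le_pow_left₀ (sq_nonneg (aS x)) hx.q2 2
      linarith
    have b4 : gE (Y l v0) m v + 2 * Sv (Y l v0) m v0 v + A * v0 ^ 4 ≤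
        (5 * C' + 16 * A * K ^ 2) * t ^ 2 := by
      have := mul_le_mul_of_nonneg_left b3 (by linarith : 0 ≤ A)
      unfold Sv
      linarith
    have b5 := mul_le_mul_of_nonneg_left b4 (by linarith : (0 : ℝ) ≤ n)
    linarith
  · have b1 : 0 ≤ (n : ℝ) * t ^ 2 := by positivity
    linarith [mul_le_mul_of_nonneg_right a2 b1, mul_nonneg a1 b1, mul_nonneg a3 hlog]

lemma cnt_of_cntS (h : CntS) : CntStmt := fun K hK => by
  obtain ⟨c, hc, C, h⟩ := h K hK
  refine ⟨c, hc, C + 1, fun n t e l k hn ht he hs hl => ?_⟩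
  have hn0 : (1 : ℝ) ≤ n := by exact_mod_cast (by omega : 1 ≤ n)
  have ht0 : 0 < t := lt_of_lt_of_le (by positivity) ht
  have hlog : 0 ≤ Real.log n := Real.log_nonneg hn0
  have h1 : Real.log (1 / t) ≤ Real.log n :=
    Real.log_le_log (by positivity) ((one_div_le ht0 (by linarith)).2 ht)
  push_cast at hl ⊢
  refine (h n t e l k (by omega) ht he hs ?_).trans (ex_mono ?_)
  · linarith [mul_le_mul_of_nonneg_left h1 (Nat.cast_nonneg C : (0 : ℝ) ≤ C)]
  · nlinarith [show 0 ≤ (n : ℝ) * t ^ 2 by positivity]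

theorem cntGlue : CntGlue := fun a b c d => cnt_of_cntS (cntSGlue a b c d)

end Crest.Agent.T157.Kb
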