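import Crest.Agent.T157.QeDef_24

/-!
# Row 157, part A2 (helper24): tools for the quenched edge (Gaussian integrals, forms, projectors)
-/

set_option autoImplicit false

noncomputable section

namespace Crest.Agent.T157.Qe

open Matrix Finset MeasureTheory
open scoped ENNReal
open Crest.Agent.T157.E Crest.Agent.T157.Cond Crest.Agent.T157.Dq
open Crest.Agent.T157.Conc (ex ex_add ex_mono ex_zero)

variable {n : ℕ}

/-! ### forms -/

lemma Le.refl (A : Mx n) : Le A A := fun _ => le_rfl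

lemma Le.trans {A B C : Mx n} (h1 : Le A B) (h2 : Le B C) : Le A C := fun u => (h1 u).trans (h2 u)

lemma qf_add (A B : Mx n) (u v : V n) : u ⬝ᵥ (A + B) *ᵥ v = u ⬝ᵥ A *ᵥ v + u ⬝ᵥ B *ᵥ v := by
  rw [add_mulVec, dotProduct_add]

lemma qf_sub (A B : Mx n) (u v : V n) : u ⬝ᵥ (A - B) *ᵥ v = u ⬝ᵥ A *ᵥ v - u ⬝ᵥ B *ᵥ v := by
  rw [sub_mulVec, dotProduct_sub]

lemma qf_smul (c : ℝ) (A : Mx n) (u v : V n) : u ⬝ᵥ (c • A) *ᵥ v = c * (u ⬝ᵥ A *ᵥ v) := by
  rw [smul_mulVec, dotProduct_smul, smul_eq_mul]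

lemma qf_one (u v : V n) : u ⬝ᵥ (1 : Mx n) *ᵥ v = u ⬝ᵥ v := by rw [one_mulVec]

lemma qf_zero (u v : V n) : u ⬝ᵥ (0 : Mx n) *ᵥ v = 0 := by rw [zero_mulVec, dotProduct_zero]

lemma qf_vmv (a b u v : V n) : u ⬝ᵥ vecMulVec a b *ᵥ v = (u ⬝ᵥ a) * (b ⬝ᵥ v) := by
  rw [vmv_mulVec, dotProduct_smul, smul_eq_mul, mul_comm]

lemma qf_conj (L N : Mx n) (u v : V n) :
    u ⬝ᵥ (Lᵀ * N * L) *ᵥ v = (L *ᵥ u) ⬝ᵥ N *ᵥ (L *ᵥ v) := by
  rw [← mulVec_mulVec, ← mulVec_mulVec, dotProduct_mulVec u, vecMul_transpose]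

lemma qf_proj {P : Mx n} (hP : IsProj P) (N : Mx n) (u v : V n) :
    u ⬝ᵥ (P * N * P) *ᵥ v = (P *ᵥ u) ⬝ᵥ N *ᵥ (P *ᵥ v) := by
  conv_lhs => enter [2, 1, 1, 1]; rw [← hP.symm]
  exact qf_conj P N u v

lemma qf_comm {X : Mx n} (hX : Xᵀ = X) (u v : V n) : u ⬝ᵥ X *ᵥ v = v ⬝ᵥ X *ᵥ u := by
  rw [dot_symm hX, dotProduct_comm]

/-- expansion of a symmetric form -/
lemma qf_expand {X : Mx n} (hX : Xᵀ = X) (a b : ℝ) (u v : V n) :
    (a • u + b • v) ⬝ᵥ X *ᵥ (a • u + b • v) =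
      a ^ 2 * (u ⬝ᵥ X *ᵥ u) + 2 * a * b * (u ⬝ᵥ X *ᵥ v) + b ^ 2 * (v ⬝ᵥ X *ᵥ v) := by
  simp only [mulVec_add, mulVec_smul, add_dotProduct, dotProduct_add, smul_dotProduct,
    dotProduct_smul, smul_eq_mul, qf_comm hX v u]
  ring

lemma qf_add_add {X : Mx n} (hX : Xᵀ = X) (u v : V n) : (u + v) ⬝ᵥ X *ᵥ (u + v) =
    u ⬝ᵥ X *ᵥ u + 2 * (u ⬝ᵥ X *ᵥ v) + v ⬝ᵥ X *ᵥ v := by
  have := qf_expand hX 1 1 u v
  simp only [one_smul] at this
  linarith

/-- `|x|² = |P x|² + |x - P x|²` -/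
lemma dot_split {P : Mx n} (hP : IsProj P) (x : V n) :
    x ⬝ᵥ x = (P *ᵥ x) ⬝ᵥ (P *ᵥ x) + (x - P *ᵥ x) ⬝ᵥ (x - P *ᵥ x) := by
  have h := hP.dot_self x x
  simp only [sub_dotProduct, dotProduct_sub, dotProduct_comm (P *ᵥ x) x]
  linarith

lemma compl_mulVec (P : Mx n) (x : V n) : (1 - P) *ᵥ x = x - P *ᵥ x := by
  rw [sub_mulVec, one_mulVec]

lemma qf_compl {P : Mx n} (hP : IsProj P) (x : V n) :
    x ⬝ᵥ (1 - P) *ᵥ x = (x - P *ᵥ x) ⬝ᵥ (x - P *ᵥ x) := by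
  rw [← hP.compl.dot_self, compl_mulVec]

/-- cross terms of a bounded symmetric form -/
lemma cross {X : Mx n} (hX : Xᵀ = X) {L t : ℝ} (h1 : Le ((-L) • (1 : Mx n)) X)
    (h2 : Le X (L • (1 : Mx n))) (ht : 0 < t) (w v : V n) :
    2 * (w ⬝ᵥ X *ᵥ v) ≤ L * (t * (w ⬝ᵥ w) + v ⬝ᵥ v / t) := by
  have a1 := h2 (t • w + (1 : ℝ) • v)
  have a2 := h1 (t • w + (-1 : ℝ) • v)
  rw [qf_smul, qf_expand hX, qf_expand transpose_one] at a1 a2
  simp only [qf_one] at a1 a2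
  have e : L * (t * (w ⬝ᵥ w) + v ⬝ᵥ v / t) = L * (t ^ 2 * (w ⬝ᵥ w) + v ⬝ᵥ v) / t := by
    field_simp
  rw [e, le_div_iff₀ ht]
  nlinarith

/-- Cauchy-Schwarz for a nonnegative symmetric form -/
lemma qf_cs {X : Mx n} (hX : Xᵀ = X) (h : Le 0 X) (u v : V n) :
    (u ⬝ᵥ X *ᵥ v) ^ 2 ≤ (u ⬝ᵥ X *ᵥ u) * (v ⬝ᵥ X *ᵥ v) := by
  have := discrim_le_zero (a := u ⬝ᵥ X *ᵥ u) (b := 2 * (u ⬝ᵥ X *ᵥ v)) (c := v ⬝ᵥ X *ᵥ v)
    fun t => by
      have a := h (t • u + (1 : ℝ) • v)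
      rw [qf_zero, qf_expand hX] at a
      nlinarith
  rw [discrim] at this
  nlinarith

lemma det_ne_zero {Y : Mx n} {d : ℝ} (hd : 0 < d) (h : Le (d • (1 : Mx n)) Y) : Y.det ≠ 0 := by
  intro h0
  obtain ⟨u, hu, h1⟩ := exists_mulVec_eq_zero_iff.2 h0
  have := h u
  rw [h1, dotProduct_zero, qf_smul, qf_one] at this
  have h2 := dot_self_nonneg u
  exact hu (dotProduct_self_eq_zero.1 (by nlinarith))

lemma measurableSet_le {Ω : Type*} [MeasurableSpace Ω] {A B : Ω → Mx n} (hA : Measurable A)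
    (hB : Measurable B) : MeasurableSet {ω | Le (A ω) (B ω)} := by
  have h : IsClosed {X : Mx n | ∀ u : V n, 0 ≤ u ⬝ᵥ X *ᵥ u} := by
    rw [Set.ofPred_forall]
    exact isClosed_iInter fun u => isClosed_le continuous_const
      (continuous_const.dotProduct (continuous_id.matrix_mulVec continuous_const))
  have h2 : Measurable fun ω => B ω - A ω := by fun_prop
  convert h2 h.measurableSet using 1
  ext ω
  simp only [Le, Set.mem_ofPred_eq, Set.mem_preimage, qf_sub, sub_nonneg]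

/-! ### eigenvalues -/

lemma dg_form {W : Mx n} {a : V n} (h : Dg W a) : ∃ O : Mx n, O * Oᵀ = 1 ∧
    (∀ u : V n, u ⬝ᵥ W *ᵥ u = ∑ i, a i * (Oᵀ *ᵥ u) i ^ 2) ∧
    ∀ u : V n, u ⬝ᵥ u = ∑ i, (Oᵀ *ᵥ u) i ^ 2 := by
  obtain ⟨O, hO, rfl⟩ := h
  have e : ∀ (b u : V n), u ⬝ᵥ (O * diagonal b * Oᵀ) *ᵥ u = ∑ i, b i * (Oᵀ *ᵥ u) i ^ 2 := by
    intro b u
    have := qf_conj Oᵀ (diagonal b) u u
    rw [transpose_transpose] at this
    rw [this]
    exact sum_congr rfl fun i _ => by rw [mulVec_diagonal]; ring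
  refine ⟨O, hO, e a, fun u => ?_⟩
  have := e (fun _ => 1) u
  simpa [hO] using this

lemma dg_le {W : Mx n} {a : V n} (h : Dg W a) {c : ℝ} (hc : ∀ i, a i ≤ c) :
    Le W (c • (1 : Mx n)) := by
  obtain ⟨O, -, h1, h2⟩ := dg_form h
  intro u
  rw [qf_smul, qf_one, h1, h2, mul_sum]
  exact sum_le_sum fun i _ => mul_le_mul_of_nonneg_right (hc i) (sq_nonneg _)

lemma dg_ge {W : Mx n} {a : V n} (h : Dg W a) {c : ℝ} (hc : ∀ i, c ≤ a i) :
    Le (c • (1 : Mx n)) W := by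
  obtain ⟨O, -, h1, h2⟩ := dg_form h
  intro u
  rw [qf_smul, qf_one, h1, h2, mul_sum]
  exact sum_le_sum fun i _ => mul_le_mul_of_nonneg_right (hc i) (sq_nonneg _)

lemma dg_vec {W : Mx n} {a : V n} (h : Dg W a) (i : Fin n) :
    ∃ u : V n, u ⬝ᵥ u = 1 ∧ u ⬝ᵥ W *ᵥ u = a i := by
  obtain ⟨O, hO, h1, h2⟩ := dg_form h
  have hO' : Oᵀ * O = 1 := mul_eq_one_comm.1 hO
  refine ⟨O *ᵥ Pi.single i 1, ?_, ?_⟩
  · rw [h2, mulVec_mulVec, hO', one_mulVec, sum_eq_single i] <;> simp +contextual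
  · rw [h1, mulVec_mulVec, hO', one_mulVec, sum_eq_single i] <;> simp +contextual

lemma le_dg {W : Mx n} {a : V n} (h : Dg W a) {c : ℝ} (hc : Le W (c • (1 : Mx n))) (i : Fin n) :
    a i ≤ c := by
  obtain ⟨u, h1, h2⟩ := dg_vec h i
  have := hc u
  rwa [qf_smul, qf_one, h1, h2, mul_one] at this

lemma ge_dg {W : Mx n} {a : V n} (h : Dg W a) {c : ℝ} (hc : Le (c • (1 : Mx n)) W) (i : Fin n) :
    c ≤ a i := by
  obtain ⟨u, h1, h2⟩ := dg_vec h i
  have := hc u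
  rwa [qf_smul, qf_one, h1, h2, mul_one] at this

lemma dg_symm {W : Mx n} (h : Wᵀ = W) : ∃ a, Dg W a :=
  ⟨_, dg_herm (show W.IsHermitian by rwa [IsHermitian, conjTranspose_eq_transpose_of_trivial])⟩

/-- affine functions of a diagonalised matrix -/
lemma dg_affine {W : Mx n} {a : V n} (h : Dg W a) (s t : ℝ) :
    Dg (s • W + t • (1 : Mx n)) fun i => s * a i + t := by
  obtain ⟨O, hO, rfl⟩ := h
  refine ⟨O, hO, ?_⟩
  have e : (diagonal fun i => s * a i + t) = s • diagonal a + t • (1 : Mx n) := by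
    ext i j; by_cases h : i = j <;> simp [h, one_apply]
  rw [e, Matrix.mul_add, Matrix.add_mul, Matrix.mul_smul, Matrix.smul_mul, Matrix.mul_smul,
    Matrix.smul_mul, Matrix.mul_one, hO]

lemma dg_trace {W : Mx n} {a : V n} (h : Dg W a) : W.trace = ∑ i, a i := by
  obtain ⟨O, hO, rfl⟩ := h
  rw [trace_mul_cycle, mul_eq_one_comm.1 hO, Matrix.one_mul, trace_diagonal]

lemma proj_dg {P : Mx n} (hP : IsProj P) :
    ∃ m, Dg P m ∧ (∀ i, m i = 0 ∨ m i = 1) ∧ ∑ i, m i = P.trace := by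
  obtain ⟨m, hm⟩ := dg_symm hP.symm
  refine ⟨m, hm, fun i => ?_, (dg_trace hm).symm⟩
  obtain ⟨O, hO, h⟩ := hm
  have hO' : Oᵀ * O = 1 := mul_eq_one_comm.1 hO
  have e : Oᵀ * P * O = diagonal m := by
    rw [h]; simp only [← Matrix.mul_assoc, hO', Matrix.one_mul]
    rw [Matrix.mul_assoc, hO', Matrix.mul_one]
  have e2 : diagonal m * diagonal m = diagonal m := by
    rw [← e]
    calc Oᵀ * P * O * (Oᵀ * P * O) = Oᵀ * P * (O * Oᵀ) * P * O := by simp only [Matrix.mul_assoc]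
      _ = Oᵀ * (P * P) * O := by rw [hO]; simp only [Matrix.mul_assoc, Matrix.mul_one]
      _ = _ := by rw [hP.idem]
  have e3 := congrFun (congrFun e2 i) i
  rw [diagonal_mul_diagonal, diagonal_apply_eq, diagonal_apply_eq] at e3
  rcases mul_eq_zero.1 (show m i * (m i - 1) = 0 by linarith) with h | h
  · exact Or.inl h
  · exact Or.inr (by linarith)

/-! ### Gaussian integrals -/

lemma gi_mono {A B : Mx n} (h : Le A B) : Gi B ≤ Gi A :=
  lintegral_mono fun x => ex_mono (by linarith [h x])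

lemma gi_dg {N : Mx n} {b : V n} (h : Dg N b) (hb : ∀ i, 0 < b i) :
    Gi N = ex (-(∑ i, Real.log (b i)) / 2) := by
  have h1 := gauss_cv h hb (G := fun _ => 1) measurable_const
  simp only [mul_one, lintegral_const, measure_univ] at h1
  rw [Gi, h1, ← log_prod_sqrt hb, ex,
    Real.exp_log (prod_pos fun i _ => inv_pos.2 (Real.sqrt_pos.2 (hb i)))]

lemma gi_affine {f : V n → ℝ} (hf : Measurable f) {L : Mx n} (hL : L.det ≠ 0) (c : V n) :
    ∫⁻ x, ex ((x ⬝ᵥ x - f (c + L *ᵥ x)) / 2) ∂gv (Fin n) =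
      ENNReal.ofReal |L.det⁻¹| * ∫⁻ x, ex ((x ⬝ᵥ x - f x) / 2) ∂gv (Fin n) := by
  have e : ∀ (y : V n) (t : ℝ), ENNReal.ofReal (Kr.phi 1 y) * ex ((y ⬝ᵥ y - t) / 2) =
      ENNReal.ofReal (Kr.phi 1 (0 : V n)) * ex (-t / 2) := by
    intro y t
    rw [ex, ex, ← ENNReal.ofReal_mul (Kr.phi_nonneg _ _), ← ENNReal.ofReal_mul (Kr.phi_nonneg _ _)]
    congr 1
    simp only [Kr.phi, mul_assoc, ← Real.exp_add]
    congr 2
    simp only [dotProduct_zero]
    ring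
  rw [Kr.lintegral_gv (by fun_prop), Kr.lintegral_gv (by fun_prop)]
  simp only [e]
  exact Kr.lintegral_affine hL c
    (G := fun y => ENNReal.ofReal (Kr.phi 1 (0 : V n)) * ex (-f y / 2)) (by fun_prop)

lemma gi_congr (N : Mx n) {L : Mx n} (hL : L.det ≠ 0) :
    Gi (Lᵀ * N * L) = ENNReal.ofReal |L.det⁻¹| * Gi N := by
  have := gi_affine (f := fun x => x ⬝ᵥ N *ᵥ x) (by fun_prop) hL 0
  simp only [zero_add, ← qf_conj] at this
  exact this

lemma gi_smul (N : Mx n) {c : ℝ} (hc : 0 < c) :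
    Gi (c • N) = ex (-(n * Real.log c) / 2) * Gi N := by
  have hs : 0 < √c := Real.sqrt_pos.2 hc
  have hd : (√c • (1 : Mx n)).det = √c ^ n := by simp
  have := gi_congr N (L := √c • (1 : Mx n)) (by rw [hd]; positivity)
  rw [hd, transpose_smul, transpose_one, Matrix.smul_mul, Matrix.one_mul, Matrix.mul_smul,
    Matrix.mul_one, smul_smul, Real.mul_self_sqrt hc.le] at this
  rw [this, ex, abs_of_pos (by positivity)]
  congr 2
  rw [← Real.exp_log (show 0 < (√c ^ n)⁻¹ by positivity), Real.log_inv, Real.log_pow,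
    Real.log_sqrt hc.le]
  congr 1; ring

/-- a shifted nonnegative quadratic -/
lemma gi_shift {X R : Mx n} (hX : Xᵀ = X) (hR : Rᵀ = R) (h1 : Le 0 X) (h2 : Le 0 R) {d : ℝ}
    (hd : 0 < d) (h3 : Le (d • (1 : Mx n)) (X + R)) (v : V n) :
    ∫⁻ x, ex ((x ⬝ᵥ x - ((v + x) ⬝ᵥ X *ᵥ (v + x) + x ⬝ᵥ R *ᵥ x)) / 2) ∂gv (Fin n) ≤ Gi (X + R) := by
  have hu : IsUnit (X + R).det := isUnit_iff_ne_zero.2 (det_ne_zero hd h3)
  have hY : (X + R)ᵀ = X + R := by rw [transpose_add, hX, hR]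
  set t := (X + R)⁻¹ *ᵥ (X *ᵥ v) with ht
  have e : (X + R) *ᵥ t = X *ᵥ v := by rw [ht, mulVec_mulVec, mul_nonsing_inv _ hu, one_mulVec]
  have h := gi_affine (f := fun x => x ⬝ᵥ (X + R) *ᵥ x) (by fun_prop) (L := (1 : Mx n))
    (by simp) t
  simp only [one_mulVec, det_one, inv_one, abs_one, ENNReal.ofReal_one, one_mul] at h
  rw [Gi, ← h]
  refine lintegral_mono fun x => ex_mono ?_
  have a1 := h1 ((1 : ℝ) • v + (-1 : ℝ) • t)
  have a2 := h2 t
  rw [qf_zero] at a1 a2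
  rw [qf_expand hX, qf_comm hX v t] at a1
  have a3 : t ⬝ᵥ X *ᵥ t + t ⬝ᵥ R *ᵥ t = t ⬝ᵥ X *ᵥ v := by rw [← qf_add, e]
  rw [qf_add_add hY, qf_add_add hX, qf_comm hY t x, e, qf_add, qf_comm hX v x]
  linarith

/-- removing the off-diagonal blocks -/
lemma gi_shear {N P : Mx n} (hN : Nᵀ = N) (hP : IsProj P) {d κ : ℝ} (hd : 0 < d)
    (h1 : Le (d • P) (P * N * P)) (h2 : Le (κ • (1 - P)) N) :
    Gi N ≤ Gi (P * N * P + κ • (1 - P)) := by
  set F := P * N * P + (1 - P) with hF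
  have hPQ : P * (1 - P) = 0 := by rw [Matrix.mul_sub, hP.idem, Matrix.mul_one, sub_self]
  have hQP : (1 - P) * P = 0 := by rw [Matrix.sub_mul, hP.idem, Matrix.one_mul, sub_self]
  have hu : IsUnit F.det := isUnit_iff_ne_zero.2 (det_ne_zero (lt_min hd one_pos) fun u => by
    have a1 := h1 u
    rw [qf_smul, ← hP.dot_self] at a1
    rw [hF, qf_add, qf_smul, qf_one, qf_compl hP, dot_split hP u]
    nlinarith [dot_self_nonneg (P *ᵥ u), dot_self_nonneg (u - P *ᵥ u), min_le_left d 1,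
      min_le_right d 1])
  have hc : F * P = P * F := by
    rw [hF, Matrix.add_mul, Matrix.mul_add, hPQ, hQP, Matrix.mul_assoc _ P P, hP.idem,
      ← Matrix.mul_assoc P, ← Matrix.mul_assoc P, hP.idem]
  have hc' : P * F⁻¹ = F⁻¹ * P := by
    calc P * F⁻¹ = F⁻¹ * (F * P) * F⁻¹ := by
          rw [← Matrix.mul_assoc, nonsing_inv_mul _ hu, Matrix.one_mul]
      _ = F⁻¹ * P := by
          rw [hc, Matrix.mul_assoc, Matrix.mul_assoc, mul_nonsing_inv _ hu, Matrix.mul_one]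
  set L := 1 + P * F⁻¹ * N * (1 - P) with hL
  have hdet : L.det = 1 := by
    rw [hL, det_one_add_mul_comm, ← Matrix.mul_assoc, ← Matrix.mul_assoc, hQP]; simp
  have h := gi_congr (P * N * P + κ • (1 - P)) (L := L) (by rw [hdet]; exact one_ne_zero)
  rw [hdet, inv_one, abs_one, ENNReal.ofReal_one, one_mul] at h
  rw [← h]
  refine gi_mono fun x => ?_
  set v := (1 - P) *ᵥ x with hv
  set y := (P * F⁻¹ * N) *ᵥ v with hy
  have y1 : P *ᵥ y = y := by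
    rw [hy, mulVec_mulVec, ← Matrix.mul_assoc, ← Matrix.mul_assoc, hP.idem]
  have y2 : (1 - P) *ᵥ y = 0 := by rw [compl_mulVec, y1, sub_self]
  have y3 : P *ᵥ (N *ᵥ y) = P *ᵥ (N *ᵥ v) := by
    have : F *ᵥ y = P *ᵥ (N *ᵥ v) := by
      rw [hy, hc', mulVec_mulVec v F, ← Matrix.mul_assoc, ← Matrix.mul_assoc,
        mul_nonsing_inv _ hu, Matrix.one_mul, mulVec_mulVec v P]
    rwa [hF, add_mulVec, y2, add_zero, ← mulVec_mulVec, y1, ← mulVec_mulVec] at this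
  have l1 : L *ᵥ x = x + y := by rw [hL, add_mulVec, one_mulVec, hy, hv, mulVec_mulVec]
  have v1 : (1 - P) *ᵥ v = v := hP.compl.mulVec_mulVec x
  have a1 := h2 (v - y)
  rw [qf_smul, ← hP.compl.dot_self, mulVec_sub, v1, y2, sub_zero] at a1
  have a2 : (P *ᵥ x + y) ⬝ᵥ N *ᵥ (v - y) = 0 := by
    rw [← y1, ← mulVec_add, ← hP.dot, mulVec_sub, mulVec_sub, y1, y3, sub_self, dotProduct_zero]
  have a3 : x = (P *ᵥ x + y) + (v - y) := by rw [hv, compl_mulVec]; abel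
  have a4 := qf_add_add hN (P *ᵥ x + y) (v - y)
  rw [← a3, a2] at a4
  rw [qf_conj, l1, qf_add, qf_proj hP, qf_smul, ← hP.compl.dot_self, mulVec_add P, mulVec_add (1 - P),
    y1, y2, add_zero, ← hv]
  linarith

/-- changing the weight of the finite-rank block -/
lemma gi_scale {P : Mx n} (hP : IsProj P) (ht : (n : ℝ) - 3 ≤ P.trace) (N : Mx n) {κ K : ℝ}
    (hκ : 0 < κ) (hK : κ ≤ K) : Gi (P * N * P + κ • (1 - P)) ≤
      ex (3 / 2 * Real.log (K / κ)) * Gi (P * N * P + K • (1 - P)) := by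
  obtain ⟨m, hm, h01, hs⟩ := proj_dg hP
  have h1 : 1 ≤ K / κ := (one_le_div hκ).2 hK
  set t := √(K / κ) with htd
  have ht1 : 1 ≤ t := Real.one_le_sqrt.2 h1
  have ht2 : t * t = K / κ := Real.mul_self_sqrt (by linarith)
  have hd := (dg_affine hm (1 - t) t).det
  have hpos : ∀ i, 0 < (1 - t) * m i + t := fun i => by
    rcases h01 i with h | h <;> rw [h] <;> linarith
  have hp : 0 < ∏ i, ((1 - t) * m i + t) := prod_pos fun i _ => hpos i
  have h := gi_congr (P * N * P + κ • (1 - P)) (L := (1 - t) • P + t • (1 : Mx n))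
    (by rw [hd]; exact hp.ne')
  have e : ((1 - t) • P + t • (1 : Mx n))ᵀ * (P * N * P + κ • (1 - P)) *
      ((1 - t) • P + t • (1 : Mx n)) = P * N * P + K • (1 - P) := by
    have hK' : K = t * t * κ := by rw [ht2]; field_simp
    have a1 : P * (P * N * P) = P * N * P := by
      rw [← Matrix.mul_assoc, ← Matrix.mul_assoc, hP.idem]
    have a2 : P * N * P * P = P * N * P := by rw [Matrix.mul_assoc _ P P, hP.idem]
    rw [transpose_add, transpose_smul, transpose_smul, hP.symm, transpose_one, hK']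
    simp only [Matrix.add_mul, Matrix.mul_add, Matrix.smul_mul, Matrix.mul_smul, Matrix.mul_sub,
      Matrix.sub_mul, Matrix.one_mul, Matrix.mul_one, hP.idem, a1, a2, smul_add, smul_sub]
    module
  rw [e, hd, abs_of_pos (inv_pos.2 hp)] at h
  rw [h, ← mul_assoc, ex, ← ENNReal.ofReal_mul (Real.exp_pos _).le]
  refine le_mul_of_one_le_left zero_le (ENNReal.one_le_ofReal.2 ?_)
  rw [← div_eq_mul_inv, one_le_div hp, ← Real.log_le_iff_le_exp hp,
    Real.log_prod fun i _ => (hpos i).ne']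
  have a : ∀ i, Real.log ((1 - t) * m i + t) = (1 - m i) * Real.log t := fun i => by
    rcases h01 i with h | h <;> simp [h]
  simp only [a]
  rw [← sum_mul, sum_sub_distrib, hs, ← ht2, Real.log_mul (by linarith) (by linarith)]
  simp only [sum_const, card_univ, Fintype.card_fin, nsmul_eq_mul, mul_one]
  nlinarith [Real.log_nonneg ht1]

/-- compression with a heavy finite-rank block -/
lemma gi_comp {N P : Mx n} (hn : 0 < n) (hN : Nᵀ = N) (hP : IsProj P) {d K : ℝ} (h0 : Le 0 N)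
    (h1 : Le N (d • (1 : Mx n))) (hK : n * d ≤ K) :
    Gi (P * N * P + K • (1 - P)) ≤ ex (1 / 2) * Gi N := by
  have hn' : (0 : ℝ) < n := by exact_mod_cast hn
  have hc : (0 : ℝ) < n / (n + 1) := by positivity
  refine (gi_mono (A := ((n : ℝ) / (n + 1)) • N) fun x => ?_).trans ?_
  · set w := P *ᵥ x with hw
    set v := x - w with hv
    have a1 := h0 ((1 : ℝ) • w + (-(n : ℝ)) • v)
    have a2 := h1 v
    have a3 := qf_add_add hN w v
    rw [show w + v = x by rw [hv]; abel] at a3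
    rw [qf_zero, qf_expand hN] at a1
    rw [qf_smul, qf_one] at a2
    rw [qf_smul, qf_add, qf_proj hP, qf_smul, qf_compl hP, ← hw, ← hv, a3, div_mul_eq_mul_div,
      div_le_iff₀ (by positivity)]
    have a4 := mul_le_mul_of_nonneg_right hK (dot_self_nonneg v)
    have a5 := mul_le_mul_of_nonneg_left a2 (show (0 : ℝ) ≤ n * (n + 1) by positivity)
    nlinarith
  · rw [gi_smul N hc]
    refine mul_le_mul_left (ex_mono ?_) _
    have := Real.log_le_sub_one_of_pos (show (0 : ℝ) < (n + 1) / n by positivity)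
    rw [show ((n : ℝ) + 1) / n - 1 = 1 / n by field_simp; ring, ← inv_div, Real.log_inv] at this
    have h2 := mul_le_mul_of_nonneg_left this hn'.le
    rw [mul_one_div_cancel hn'.ne'] at h2
    linarith

/-! ### invariance and the three projectors -/

lemma inv_of {P : Mx n} {T : Set (Mx n)} (hT : MeasurableSet T) {Φ : Mx n → Mx n}
    (hΦ : Measurable Φ) (h : ∀ O : Mx n, O * Oᵀ = 1 → O * (1 - P) = 1 - P → ∀ W,
      Φ (O * W * Oᵀ) = O * Φ W * Oᵀ ∧ (W ∈ T → O * W * Oᵀ ∈ T)) :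
    Inv P ((GOE n).restrict T) Φ := by
  intro O hO hQ ξ
  have hO' : Oᵀ * O = 1 := mul_eq_one_comm.1 hO
  have hQ' : Oᵀ * (1 - P) = 1 - P := by
    conv_lhs => rw [← hQ, ← Matrix.mul_assoc, hO', Matrix.one_mul]
  rw [← lintegral_indicator hT, ← lintegral_indicator hT]
  conv_lhs => rw [GOE, ← goe_conj _ O hO]
  rw [lintegral_map ((show Measurable fun W => ex ((O *ᵥ ξ) ⬝ᵥ Φ W *ᵥ (O *ᵥ ξ) / 2) by
    fun_prop).indicator hT) (by fun_prop)]
  refine lintegral_congr fun W => ?_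
  by_cases hW : W ∈ T
  · rw [Set.indicator_of_mem hW, Set.indicator_of_mem ((h O hO hQ W).2 hW), (h O hO hQ W).1,
      ← qf_conj]
    simp only [← Matrix.mul_assoc, hO', Matrix.one_mul]
    rw [Matrix.mul_assoc _ Oᵀ O, hO', Matrix.mul_one]
  · rw [Set.indicator_of_notMem hW, Set.indicator_of_notMem fun h2 => hW ?_]
    have := (h Oᵀ (by rwa [transpose_transpose]) hQ' _).2 h2
    simp only [← Matrix.mul_assoc, hO', Matrix.one_mul, transpose_transpose] at this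
    rwa [Matrix.mul_assoc _ Oᵀ O, hO', Matrix.mul_one] at this

/-- an orthogonal matrix that fixes the kernel of `P` fixes its vectors -/
lemma fix_of {P O : Mx n} (hQ : O * (1 - P) = 1 - P) {x : V n} (hx : P *ᵥ x = 0) : O *ᵥ x = x := by
  have e : (1 - P) *ᵥ x = x := by rw [compl_mulVec, hx, sub_zero]
  conv_lhs => rw [← e, mulVec_mulVec, hQ, e]

lemma conj_vmv (O : Mx n) (a b : V n) :
    O * vecMulVec a b * Oᵀ = vecMulVec (O *ᵥ a) (O *ᵥ b) := by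
  rw [mul_vecMulVec, vmv_mul, transpose_transpose]

variable {e : V n}

lemma R1_mulVec (e x : V n) : R1 e *ᵥ x = x - (e ⬝ᵥ x) • e := by
  rw [R1, compl_mulVec, vmv_mulVec]

lemma R1_e (he : e ⬝ᵥ e = 1) : R1 e *ᵥ e = 0 := by rw [R1_mulVec, he, one_smul, sub_self]

lemma proj_R1 (he : e ⬝ᵥ e = 1) : IsProj (R1 e) :=
  IsProj.compl ⟨transpose_vecMulVec e e, by rw [mul_vecMulVec, vmv_mulVec, he, one_smul]⟩

lemma proj_P2 (he : e ⬝ᵥ e = 1) (c : V n) : IsProj (P2 e c) := (proj_R1 he).nextR c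

lemma proj_P3 (he : e ⬝ᵥ e = 1) (c τ : V n) : IsProj (P3 e c τ) := (proj_P2 he c).nextR τ

lemma trace_nextR (R : Mx n) (v : V n) : R.trace - 1 ≤ (nextR R v).trace := by
  rw [nextR, trace_sub, trace_vecMulVec]
  have := unitv_dot_le (R *ᵥ v)
  rw [dirv]; linarith

lemma trace_R1 (he : e ⬝ᵥ e = 1) : (R1 e).trace = n - 1 := by
  rw [R1, trace_sub, trace_vecMulVec, he, trace_one, Fintype.card_fin]

lemma trace_P2 (he : e ⬝ᵥ e = 1) (c : V n) : (n : ℝ) - 2 ≤ (P2 e c).trace := by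
  have := trace_nextR (R1 e) c
  have := trace_R1 he
  rw [P2]; linarith

lemma trace_P3 (he : e ⬝ᵥ e = 1) (c τ : V n) : (n : ℝ) - 3 ≤ (P3 e c τ).trace := by
  have := trace_nextR (P2 e c) τ
  have := trace_P2 he c
  rw [P3]; linarith

lemma P2_e (he : e ⬝ᵥ e = 1) (c : V n) : P2 e c *ᵥ e = 0 :=
  nextR_mulVec_of (proj_R1 he) c (R1_e he)

lemma P2_c (he : e ⬝ᵥ e = 1) (c : V n) : P2 e c *ᵥ c = 0 := nextR_v (proj_R1 he) c

lemma P3_e (he : e ⬝ᵥ e = 1) (c τ : V n) : P3 e c τ *ᵥ e = 0 :=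
  nextR_mulVec_of (proj_P2 he c) τ (P2_e he c)

lemma P3_c (he : e ⬝ᵥ e = 1) (c τ : V n) : P3 e c τ *ᵥ c = 0 :=
  nextR_mulVec_of (proj_P2 he c) τ (P2_c he c)

lemma P3_τ (he : e ⬝ᵥ e = 1) (c τ : V n) : P3 e c τ *ᵥ τ = 0 := nextR_v (proj_P2 he c) τ

lemma rk2_e (he : e ⬝ᵥ e = 1) (c : V n) : rk2 c e *ᵥ e = c := by
  rw [rk2, sub_mulVec, add_mulVec, smul_mulVec, vmv_mulVec, vmv_mulVec, vmv_mulVec, he, one_smul,
    one_smul, dotProduct_comm c e, add_sub_cancel_right]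

lemma glue_e (he : e ⬝ᵥ e = 1) (c : V n) (W : Mx n) : glue (rk2 c e) (R1 e) W *ᵥ e = c := by
  rw [glue, add_mulVec, rk2_e he, ← mulVec_mulVec, R1_e he, mulVec_zero, add_zero]

/-- equivariance of the glued matrix -/
lemma glue_conj {O : Mx n} (hO : O * Oᵀ = 1) {c : V n} (h1 : O *ᵥ e = e) (h2 : O *ᵥ c = c)
    (W : Mx n) : glue (rk2 c e) (R1 e) (O * W * Oᵀ) = O * glue (rk2 c e) (R1 e) W * Oᵀ := by
  have hO' : Oᵀ * O = 1 := mul_eq_one_comm.1 hO
  have a1 : O * R1 e * Oᵀ = R1 e := by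
    rw [R1, Matrix.mul_sub, Matrix.sub_mul, Matrix.mul_one, hO, conj_vmv, h1]
  have a2 : O * rk2 c e * Oᵀ = rk2 c e := by
    simp only [rk2, Matrix.mul_sub, Matrix.sub_mul, Matrix.mul_add, Matrix.add_mul,
      Matrix.mul_smul, Matrix.smul_mul, conj_vmv, h1, h2]
  rw [glue, glue, Matrix.mul_add, Matrix.add_mul, a2]
  congr 1
  conv_lhs => rw [← a1]
  simp only [Matrix.mul_assoc]
  rw [← Matrix.mul_assoc Oᵀ O, hO', Matrix.one_mul, ← Matrix.mul_assoc Oᵀ O, hO', Matrix.one_mul]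

end Crest.Agent.T157.Qe

end
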