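import Crest.Agent.T157.KbDef_24
import Crest.Agent.T157.QeA_24

/-!
# Row 157, part A2, section 2 (helper77): conditional second moment of the Jacobian
-/

set_option autoImplicit false
set_option linter.all false

noncomputable section

namespace Crest.Agent.T157.Kb

open MeasureTheory Matrix Set Filter
open scoped ENNReal
open Crest.Agent.T157.E Crest.Agent.T157.Cond Crest.Agent.T157.Tap Crest.Agent.T157.Dq
open Crest.Agent.T157.Qe (Le R1 bv Wm qf_add qf_smul qf_one qf_vmv)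
open Crest.Agent.T157.Conc (ex)

namespace Det77

variable {n : ℕ}

/-- the determinant is affine along rank-one directions -/
lemma aff (Y : Mx n) (u v : V n) (t : ℝ) :
    (Y + t • vecMulVec u v).det = Y.det + t * ((Y + vecMulVec u v).det - Y.det) := by
  obtain ⟨A, B, h⟩ : ∃ A B : ℝ, ∀ t : ℝ, (Y + t • vecMulVec u v).det = t * A + B := by
    let M := fromBlocks Y (replicateCol Unit u) (0 : Matrix Unit (Fin n) ℝ) (1 : Matrix Unit Unit ℝ)
    refine ⟨(M.updateRow (.inr ()) (Sum.elim (-v) 0)).det,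
      (M.updateRow (.inr ()) (Sum.elim 0 1)).det, fun t => ?_⟩
    rw [← det_updateRow_smul, ← det_updateRow_add]
    have e : M.updateRow (.inr ()) (t • Sum.elim (-v) (0 : Unit → ℝ) +
        Sum.elim (0 : V n) (1 : Unit → ℝ)) =
        fromBlocks Y (replicateCol Unit u) (replicateRow Unit (-(t • v))) 1 := by
      ext (i | i) (j | j) <;> simp [M, updateRow_apply]
    rw [e, det_fromBlocks_one₂₂]
    congr 1
    ext i j
    simp [vecMulVec_apply, Matrix.mul_apply]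
    ring
  have h0 := h 0
  have h1 := h 1
  rw [zero_smul, add_zero] at h0
  rw [one_smul] at h1
  rw [h, h0, h1]; ring

lemma quad (Y : Mx n) (a e : V n) : ∃ B C : ℝ, ∀ r : ℝ,
    (Y + r • (vecMulVec a e + vecMulVec e a)).det = Y.det + B * r + C * r ^ 2 := by
  refine ⟨(Y + vecMulVec e a).det - Y.det + ((Y + vecMulVec a e).det - Y.det),
    (Y + vecMulVec a e + vecMulVec e a).det - (Y + vecMulVec a e).det -
      ((Y + vecMulVec e a).det - Y.det), fun r => ?_⟩
  rw [smul_add, add_comm (r • _), ← add_assoc, aff, add_right_comm, aff (Y + vecMulVec a e), aff Y]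
  ring

lemma scale_le {G : V n → ℝ≥0∞} (hG : Measurable G) {σ : ℝ} (h0 : σ ≠ 0) (h1 : σ ^ 2 ≤ 1)
    {K : ℝ} (hK : 1 ≤ K * |σ| ^ n) :
    ∫⁻ g, G (σ • g) ∂gv (Fin n) ≤ ENNReal.ofReal K * ∫⁻ g, G g ∂gv (Fin n) := by
  have hd : (σ • (1 : Mx n)).det = σ ^ n := by simp
  have hi : (σ • (1 : Mx n))⁻¹ = σ⁻¹ • (1 : Mx n) := by
    refine Matrix.inv_eq_left_inv ?_
    rw [Matrix.smul_mul, Matrix.mul_smul, smul_smul, inv_mul_cancel₀ h0, Matrix.mul_one, one_smul]
  have h := Kr.lintegral_gv_affine (M := σ • (1 : Mx n)) (by rw [hd]; positivity) 0 hG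
  simp only [smul_mulVec, one_mulVec, hi, hd, zero_add, sub_zero] at h
  have p : 0 < |σ| ^ n := by positivity
  have k0 : 0 ≤ K := by by_contra h; nlinarith
  rw [h, Kr.lintegral_gv hG, ← lintegral_const_mul _ (by fun_prop)]
  refine lintegral_mono fun y => ?_
  rw [← mul_assoc, ← ENNReal.ofReal_mul k0]
  refine mul_le_mul_left (ENNReal.ofReal_le_ofReal (mul_le_mul ?_ ?_ (Kr.phi_nonneg _ _) k0)) _
  · rw [abs_inv, abs_pow, inv_le_iff_one_le_mul₀ p]; exact hK
  · unfold Kr.phi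
    refine mul_le_mul_of_nonneg_left (Real.exp_le_exp.2 ?_) (by positivity)
    rw [smul_dotProduct, dotProduct_smul, smul_eq_mul, smul_eq_mul]
    have a : 1 ≤ σ⁻¹ * σ⁻¹ := by
      rw [← mul_inv, ← sq]; exact (one_le_inv₀ (by positivity)).2 h1
    nlinarith [dot_self_nonneg y]

/-- removing the compression costs a polynomial factor -/
lemma proj (hn : 2 ≤ n) (X : Mx n) (v : V n) :
    ∫⁻ W, ENNReal.ofReal ((X - R1 (unitv v) * W * R1 (unitv v)).det ^ 2) ∂GOE n ≤
      ENNReal.ofReal (24 * n ^ 2) * ∫⁻ W, ENNReal.ofReal ((X - W).det ^ 2) ∂GOE n := by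
  have n2 : (2 : ℝ) ≤ n := by exact_mod_cast hn
  have mf : Measurable fun W : Mx n => ENNReal.ofReal ((X - W).det ^ 2) :=
    (continuous_det_sq X).measurable.ennreal_ofReal
  have h := congrArg (fun μ => ∫⁻ W, ENNReal.ofReal ((X - W).det ^ 2) ∂μ)
    (goe_step0 IsProj.one v (1 / √n))
  simp only [Matrix.one_mul, Matrix.mul_one, Measure.map_id'] at h
  have d1 : dirv 1 v = unitv v := by rw [dirv, one_mulVec]
  have d2 : nextR 1 v = R1 (unitv v) := by rw [nextR, d1, R1]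
  rw [lintegral_map mf (by fun_prop), lintegral_prod_symm _ (by
    exact (mf.comp (by fun_prop)).aemeasurable), d1, d2] at h
  rw [h, ← lintegral_const_mul' _ _ ENNReal.ofReal_ne_top]
  refine lintegral_mono fun W => ?_
  set e := unitv v
  set Y := X - R1 e * W * R1 e
  set G : V n → ℝ≥0∞ := fun ξ =>
    ENNReal.ofReal ((X - ((1 / √n : ℝ) • rk2 (noise 1 v ξ) e + R1 e * W * R1 e)).det ^ 2) with hG
  have mG : Measurable G := mf.comp (by fun_prop)
  set σ : ℝ := 1 - 1 / (2 * n) with hσ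
  have i0 : 0 < 1 / (2 * (n : ℝ)) := by positivity
  have i1 : 1 / (2 * (n : ℝ)) ≤ 1 / 4 := one_div_le_one_div_of_le (by norm_num) (by linarith)
  have s0 : 0 < σ := by linarith
  have s1 : σ ^ 2 ≤ 1 := by nlinarith
  have s2 : 1 ≤ 2 * |σ| ^ n := by
    have := one_add_mul_le_pow (a := -(1 / (2 * (n : ℝ)))) (by linarith) n
    have e : (n : ℝ) * -(1 / (2 * n)) = -(1 / 2) := by field_simp
    rw [e, ← sub_eq_add_neg, ← sub_eq_add_neg] at this
    rw [abs_of_pos s0]; linarith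
  have pt : ∀ ξ, ENNReal.ofReal (Y.det ^ 2) ≤ ENNReal.ofReal (4 * n ^ 2) *
      (G (σ • ξ) + G ((-σ) • ξ) + G ((1 : ℝ) • ξ) + G ((-1 : ℝ) • ξ)) := fun ξ => by
    obtain ⟨B, C, hq⟩ := quad Y
      (-(1 / √n : ℝ) • (noise 1 v ξ - ((e ⬝ᵥ noise 1 v ξ) / 2) • e)) e
    have g : ∀ r : ℝ, G (r • ξ) = ENNReal.ofReal ((Y.det + B * r + C * r ^ 2) ^ 2) := fun r => by
      have e1 : noise 1 v (r • ξ) = r • noise 1 v ξ := by
        simp only [noise, mulVec_smul, dotProduct_smul, smul_eq_mul, smul_add, smul_smul]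
        congr 2; ring
      rw [← hq, hG]
      simp only [e1]
      congr 3
      ext i j
      simp [Y, rk2, vecMulVec_apply]
      ring
    simp only [g]
    rw [← ENNReal.ofReal_add (sq_nonneg _) (sq_nonneg _),
      ← ENNReal.ofReal_add (by positivity) (sq_nonneg _),
      ← ENNReal.ofReal_add (by positivity) (sq_nonneg _), ← ENNReal.ofReal_mul (by positivity)]
    refine ENNReal.ofReal_le_ofReal ?_
    generalize Y.det = A
    have k1 : ∀ a b c d : ℝ, ((a + b) / 2 - (c + d) / 2) ^ 2 ≤ a ^ 2 + b ^ 2 + c ^ 2 + d ^ 2 :=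
      fun a b c d => by
        nlinarith [sq_nonneg (a - b), sq_nonneg (c - d), sq_nonneg (a + c), sq_nonneg (a + d),
          sq_nonneg (b + c), sq_nonneg (b + d)]
    have k2 := k1 (A + B * σ + C * σ ^ 2) (A + B * -σ + C * (-σ) ^ 2)
      (σ ^ 2 * (A + B * 1 + C * 1 ^ 2)) (σ ^ 2 * (A + B * -1 + C * (-1) ^ 2))
    have k3 : ∀ c : ℝ, (σ ^ 2 * c) ^ 2 ≤ c ^ 2 := fun c => by
      rw [mul_pow]
      exact mul_le_of_le_one_left (sq_nonneg _) (pow_le_one₀ (sq_nonneg _) s1)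
    have k4 : 1 ≤ 2 * n * (1 - σ ^ 2) := by
      have : 2 * (n : ℝ) * (1 - σ) = 1 := by rw [hσ]; field_simp; ring
      nlinarith
    have k5 : A ^ 2 ≤ 4 * n ^ 2 * ((1 - σ ^ 2) * A) ^ 2 := by
      have : 1 ≤ (2 * n * (1 - σ ^ 2)) ^ 2 := one_le_pow₀ k4
      nlinarith [sq_nonneg A]
    refine k5.trans (mul_le_mul_of_nonneg_left ?_ (by positivity))
    have := k3 (A + B * 1 + C * 1 ^ 2)
    have := k3 (A + B * -1 + C * (-1) ^ 2)
    nlinarith
  have m : ∀ r : ℝ, Measurable fun ξ => G (r • ξ) := fun r => mG.comp (by fun_prop)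
  calc ENNReal.ofReal (Y.det ^ 2) = ∫⁻ _, ENNReal.ofReal (Y.det ^ 2) ∂gv (Fin n) := by simp
    _ ≤ _ := lintegral_mono pt
    _ ≤ ENNReal.ofReal (4 * n ^ 2) * ((ENNReal.ofReal 2 + ENNReal.ofReal 2 + ENNReal.ofReal 1 +
        ENNReal.ofReal 1) * ∫⁻ ξ, G ξ ∂gv (Fin n)) := by
      rw [lintegral_const_mul' _ _ ENNReal.ofReal_ne_top, lintegral_add_right _ (m _),
        lintegral_add_right _ (m _), lintegral_add_right _ (m _), add_mul, add_mul, add_mul]
      gcongr
      exacts [scale_le mG s0.ne' s1 s2,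
        scale_le mG (neg_ne_zero.2 s0.ne') (by rwa [neg_sq]) (by rwa [abs_neg]),
        scale_le mG one_ne_zero (by simp) (by simp), scale_le mG (by simp) (by simp) (by simp)]
    _ = _ := by
      rw [← mul_assoc, ← ENNReal.ofReal_add (by norm_num) (by norm_num),
        ← ENNReal.ofReal_add (by norm_num) (by norm_num),
        ← ENNReal.ofReal_add (by norm_num) (by norm_num), ← ENNReal.ofReal_mul (by positivity)]
      congr 2; ring

lemma det_add_le {A : Mx n} (h : Le ((1 : ℝ) • 1) A) {t : ℝ} (ht : 0 ≤ t) (u : V n) :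
    (A + t • vecMulVec u u).det ^ 2 ≤ (1 + t * (u ⬝ᵥ u)) ^ 2 * A.det ^ 2 := by
  have hu : IsUnit A.det := isUnit_iff_ne_zero.2 (Qe.det_ne_zero one_pos h)
  have e1 : A *ᵥ A⁻¹ *ᵥ u = u := by rw [mulVec_mulVec, mul_nonsing_inv _ hu, one_mulVec]
  have e : A + vecMulVec u u = A * (1 + vecMulVec (A⁻¹ *ᵥ u) u) := by
    rw [Matrix.mul_add, Matrix.mul_one, mul_vecMulVec, e1]
  have a := h (A⁻¹ *ᵥ u)
  rw [qf_smul, qf_one, one_mul, e1, dotProduct_comm _ u] at a
  have b := dot_self_nonneg (u - A⁻¹ *ᵥ u)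
  simp only [sub_dotProduct, dotProduct_sub, dotProduct_comm (A⁻¹ *ᵥ u) u] at b
  have c := dot_self_nonneg (A⁻¹ *ᵥ u)
  have d : (u ⬝ᵥ A⁻¹ *ᵥ u) ≤ u ⬝ᵥ u := by
    have b' := dot_self_nonneg (u - (2 : ℝ) • (u - A⁻¹ *ᵥ u))
    nlinarith
  rw [aff, e, det_mul, vecMulVec_eq Unit, det_one_add_replicateCol_mul_replicateRow,
    show A.det + t * (A.det * (1 + u ⬝ᵥ A⁻¹ *ᵥ u) - A.det) = (1 + t * (u ⬝ᵥ A⁻¹ *ᵥ u)) * A.det by
      ring, mul_pow]
  have := c.trans a
  gcongr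

/-- second moments of `det (A + χ - N - W)`, uniformly in `A ≥ 1 + 1/n` -/
def PP (χ : ℝ) (N : Mx n) (K : ℝ) : Prop := 0 ≤ K ∧ ∀ A : Mx n, Aᵀ = A →
  Le ((1 + 1 / n : ℝ) • 1) A → ∫ W, (A + χ • 1 - N - W).det ^ 2 ∂GOE n ≤ K * A.det ^ 2

lemma base (hn : 2 ≤ n) (χ : ℝ) : PP χ (0 : Mx n) (Real.exp (n * χ ^ 2) * n ^ 3) := by
  refine ⟨by positivity, fun A hA h => ?_⟩
  have n2 : (2 : ℝ) ≤ n := by exact_mod_cast hn
  obtain ⟨a, ha⟩ := Qe.dg_symm hA
  have a1 := Qe.ge_dg ha h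
  have p1 : (0 : ℝ) < 1 + 1 / n := by positivity
  have hd := Qe.dg_affine ha 1 χ
  have s2 : (1 / √(n : ℝ)) ^ 2 = 1 / n := by rw [div_pow, Real.sq_sqrt (by positivity), one_pow]
  have hS : (1 / √(n : ℝ)) ^ 2 * ∑ i, ((1 * a i + χ - χ) ^ 2)⁻¹ ≤ 1 - 1 / n := by
    have b : ∑ i, ((1 * a i + χ - χ) ^ 2)⁻¹ ≤ ∑ _i : Fin n, ((1 + 1 / n : ℝ) ^ 2)⁻¹ :=
      Finset.sum_le_sum fun i _ => by
        rw [one_mul, add_sub_cancel_right]
        exact inv_anti₀ (by positivity) (pow_le_pow_left₀ p1.le (a1 i) 2)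
    rw [Finset.sum_const, Finset.card_univ, Fintype.card_fin, nsmul_eq_mul] at b
    rw [s2]
    refine (mul_le_mul_of_nonneg_left b (by positivity)).trans ?_
    rw [← sub_nonneg]
    have : 1 - 1 / (n : ℝ) - 1 / n * (n * ((1 + 1 / n : ℝ) ^ 2)⁻¹) =
        (n ^ 2 - n - 1) / (n * (n + 1) ^ 2) := by field_simp; ring
    rw [this]
    exact div_nonneg (by nlinarith) (by positivity)
  have i0 : (0 : ℝ) < 1 / n := by positivity
  have b := det_sq_le (s := 1 / √n) (by positivity) hd (χ := χ)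
    (fun i => by linarith [a1 i]) (by linarith)
  rw [one_smul] at b
  rw [sub_zero]
  refine b.trans ?_
  have e1 : ∏ i, (1 * a i + χ - χ) ^ 2 = A.det ^ 2 := by
    rw [ha.det, ← Finset.prod_pow]; simp
  have e2 : χ ^ 2 / (1 / √(n : ℝ)) ^ 2 = n * χ ^ 2 := by rw [s2]; field_simp
  rw [e1, e2, mul_right_comm]
  gcongr
  rw [← inv_pow]
  refine pow_le_pow_left₀ (inv_nonneg.2 (by linarith)) ?_ 3
  rw [inv_le_comm₀ (by linarith) (by positivity), ← one_div]
  linarith

lemma step {χ K t : ℝ} {N : Mx n} (h : PP χ N K) (ht : 0 ≤ t) (u : V n) {B : ℝ}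
    (hB : 1 + t * (u ⬝ᵥ u) ≤ B) : PP χ (N + t • vecMulVec u u) (10 * B ^ 2 * K) := by
  have k0 := h.1
  refine ⟨by positivity, fun A hA h1 => ?_⟩
  have a1 := h.2 A hA h1
  have a2 := h.2 (A + t • vecMulVec u u)
    (by rw [transpose_add, hA, transpose_smul, transpose_vecMulVec]) fun v => (h1 v).trans (by
      rw [qf_add, qf_smul, qf_vmv, dotProduct_comm u v]
      nlinarith [mul_self_nonneg (v ⬝ᵥ u)])
  have u0 := mul_nonneg ht (dot_self_nonneg u)
  have a3 : (A + t • vecMulVec u u).det ^ 2 ≤ B ^ 2 * A.det ^ 2 :=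
    (det_add_le (fun v => le_trans (by
      rw [qf_smul, qf_smul, qf_one]
      exact mul_le_mul_of_nonneg_right (le_add_of_nonneg_right (by positivity))
        (dot_self_nonneg v)) (h1 v)) ht u).trans (by gcongr)
  have a4 : ∫ W, (A + χ • 1 - (N + t • vecMulVec u u) - W).det ^ 2 ∂GOE n ≤
      ∫ W, (8 * (A + χ • 1 - N - W).det ^ 2 +
        2 * (A + t • vecMulVec u u + χ • 1 - N - W).det ^ 2) ∂GOE n := by
    refine integral_mono (integrable_det_sq _ _) (((integrable_det_sq _ _).const_mul _).add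
      ((integrable_det_sq _ _).const_mul _)) fun W => ?_
    have e1 : A + χ • 1 - (N + t • vecMulVec u u) - W =
        A + χ • 1 - N - W + (-t) • vecMulVec u u := by rw [neg_smul]; abel
    have e2 : A + t • vecMulVec u u + χ • 1 - N - W =
        A + χ • 1 - N - W + t • vecMulVec u u := by abel
    simp only [e1, e2]
    rw [aff _ u u t, aff _ u u (-t)]
    generalize (A + χ • 1 - N - W).det = a
    generalize (A + χ • 1 - N - W + vecMulVec u u).det = b
    nlinarith [sq_nonneg (3 * a + t * (b - a))]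
  rw [integral_add ((integrable_det_sq _ _).const_mul _) ((integrable_det_sq _ _).const_mul _),
    integral_const_mul, integral_const_mul] at a4
  have b1 : 1 ≤ B ^ 2 := one_le_pow₀ (by linarith)
  have b2 := mul_le_mul_of_nonneg_left a3 k0
  have b3 := mul_le_mul_of_nonneg_right b1 (mul_nonneg k0 (sq_nonneg A.det))
  nlinarith

end Det77

open Det77 in
theorem detStmt : DetStmt := by
  refine ⟨34, fun n x c τ hn hx hτ heτ => ?_⟩
  have n2 : (2 : ℝ) ≤ n := by exact_mod_cast hn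
  have n0 : 0 < n := by omega
  have he : ee x ⬝ᵥ ee x = 1 := unitv_dot hx
  set e := ee x with hee
  set p := th x with hp
  set a := c - ((e ⬝ᵥ c) / 2) • e with ha
  have c0 := dot_self_nonneg c
  have D0 : ∀ i, 0 < DD p i := fun i => by
    have := Real.abs_tanh_lt_one (x i)
    have := abs_lt.1 this
    show 0 < 1 - Real.tanh (x i) ^ 2
    nlinarith
  have D1 : ∀ i, DD p i ≤ 1 := fun i => sub_le_self _ (sq_nonneg _)
  have cb : Cb p := fun i => (Real.abs_tanh_lt_one (x i)).le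
  have pp : p ⬝ᵥ p = n * aS x := by
    simp only [aS, avg, dotProduct, sq, ← hp]; field_simp
  have q0 : 0 ≤ aS x := div_nonneg (Finset.sum_nonneg fun _ _ => sq_nonneg _) (by positivity)
  have hχ : (avg fun i => dd p i ^ 2) = 1 - aS x := by
    simp only [Cell.dd_sq cb, avg, aS, DD, Finset.sum_sub_distrib, ← hp, Finset.sum_const,
      Finset.card_univ, Fintype.card_fin, nsmul_eq_mul]
    field_simp
  have q1 : aS x ≤ 1 := by
    have : 0 ≤ avg fun i => dd p i ^ 2 :=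
      div_nonneg (Finset.sum_nonneg fun _ _ => sq_nonneg _) (by positivity)
    linarith
  have na : ∀ s : ℝ, s ^ 2 = 1 → 1 + 1 / 2 * ((a + s • e) ⬝ᵥ (a + s • e)) ≤ 2 * (1 + c ⬝ᵥ c) :=
    fun s hs => by
      simp only [ha, add_dotProduct, dotProduct_add, sub_dotProduct, dotProduct_sub,
        smul_dotProduct, dotProduct_smul, smul_eq_mul, he, dotProduct_comm c e]
      have b := dot_self_nonneg (c - (e ⬝ᵥ c) • e)
      simp only [sub_dotProduct, dotProduct_sub, smul_dotProduct, dotProduct_smul, smul_eq_mul, he,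
        dotProduct_comm c e] at b
      nlinarith [sq_nonneg (e ⬝ᵥ c - s), sq_nonneg (e ⬝ᵥ c + s)]
  have P := step (step (step (base hn (1 - aS x - 1 / n)) (t := 1 / 2) (by norm_num) _
    (na 1 (by norm_num))) (t := 1 / n) (by positivity) τ (B := 2) (by
      rw [one_div, inv_mul_eq_div]
      linarith [div_le_one_of_le₀ hτ (by positivity : (0 : ℝ) ≤ n)])) (t := 2 / n) (by positivity) p
    (B := 3) (by rw [pp]; field_simp; linarith)
  set A0 : Mx n := diagonal fun i => (DD p i)⁻¹ + 1 / n with hA0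
  have l0 : Le ((1 + 1 / n : ℝ) • 1) A0 := Qe.dg_ge (dg_diagonal _) fun i =>
    add_le_add_left ((one_le_inv₀ (D0 i)).2 (D1 i)) _
  have l1 : Le ((1 : ℝ) • 1) A0 := Qe.dg_ge (dg_diagonal _) fun i =>
    ((one_le_inv₀ (D0 i)).2 (D1 i)).trans (le_add_of_nonneg_right (by positivity))
  have b1 := P.2 (A0 + (1 / 2 : ℝ) • vecMulVec (a + (-1 : ℝ) • e) (a + (-1 : ℝ) • e))
    (by rw [transpose_add, transpose_smul, transpose_vecMulVec, hA0, diagonal_transpose])
    fun v => (l0 v).trans (by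
      rw [qf_add, qf_smul, qf_vmv, dotProduct_comm _ v]
      nlinarith [mul_self_nonneg (v ⬝ᵥ (a + (-1 : ℝ) • e))])
  have b2 := det_add_le l1 (t := 1 / 2) (by norm_num) (a + (-1 : ℝ) • e)
  generalize hX : A0 + (1 / 2 : ℝ) • vecMulVec (a + (-1 : ℝ) • e) (a + (-1 : ℝ) • e) +
    (1 - aS x - 1 / n) • (1 : Mx n) - (0 + (1 / 2 : ℝ) • vecMulVec (a + (1 : ℝ) • e)
      (a + (1 : ℝ) • e) + (1 / n : ℝ) • vecMulVec τ τ + (2 / n : ℝ) • vecMulVec p p) = X at b1
  have hR : R1 e * vecMulVec τ τ * R1 e = vecMulVec τ τ := by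
    have r : R1 e *ᵥ τ = τ := by rw [Qe.R1_mulVec, heτ, zero_smul, sub_zero]
    have := Qe.conj_vmv (R1 e) τ τ
    rwa [(Qe.proj_R1 he).symm, r] at this
  have key : ∀ W, Deg.DY (Wm e c τ W) 1 x = (X - R1 e * W * R1 e) * diagonal (DD p) := fun W => by
    have e1 : (1 : Mx n) = (diagonal fun i => (DD p i)⁻¹) * diagonal (DD p) := by
      rw [diagonal_mul_diagonal, ← diagonal_one]
      congr 1; funext i; exact (inv_mul_cancel₀ (D0 i).ne').symm
    rw [Deg.DY, ← hp]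
    conv_lhs => enter [1]; rw [e1]
    rw [← Matrix.sub_mul, B1, B0, hχ, Wm, glue, Matrix.mul_add, Matrix.add_mul, Matrix.mul_smul,
      Matrix.smul_mul, hR, ← hX]
    congr 1
    generalize R1 e * W * R1 e = Z
    ext i j
    by_cases h : i = j
    · subst h
      simp [hA0, ha, rk2, vecMulVec_apply]
      ring
    · simp [hA0, ha, rk2, vecMulVec_apply, h]
      ring
  have b3 : A0.det * (diagonal (DD p)).det ≤ 3 := by
    rw [hA0, det_diagonal, det_diagonal, ← Finset.prod_mul_distrib]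
    refine (Finset.prod_le_prod (g := fun _ => Real.exp (1 / n)) (fun i _ => ?_) fun i _ => ?_).trans ?_
    · have := D0 i; positivity
    · rw [add_mul, inv_mul_cancel₀ (D0 i).ne']
      have := mul_le_of_le_one_right (by positivity : (0 : ℝ) ≤ 1 / n) (D1 i)
      linarith [Real.add_one_le_exp (1 / (n : ℝ))]
    · rw [Finset.prod_const, Finset.card_univ, Fintype.card_fin, ← Real.exp_nat_mul,
        mul_one_div_cancel (by positivity)]
      exact Real.exp_one_lt_three.le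
  have b4 : 0 ≤ A0.det * (diagonal (DD p)).det := by
    rw [hA0, det_diagonal, det_diagonal, ← Finset.prod_mul_distrib]
    exact Finset.prod_nonneg fun i _ => by have := D0 i; positivity
  have b5 : Real.exp (n * (1 - aS x - 1 / n) ^ 2) ≤ 3 * Real.exp (n * (1 - aS x) ^ 2) := by
    have : n * (1 - aS x - 1 / n) ^ 2 = n * (1 - aS x) ^ 2 - 2 * (1 - aS x) + 1 / n := by
      field_simp; ring
    have i1 : 1 / (n : ℝ) ≤ 1 := div_le_one_of_le₀ (by linarith) (by positivity)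
    calc _ ≤ Real.exp (1 + n * (1 - aS x) ^ 2) := Real.exp_le_exp.2 (by linarith)
      _ ≤ _ := by rw [Real.exp_add]; gcongr; exact Real.exp_one_lt_three.le
  simp only [key, det_mul, mul_pow]
  simp only [ENNReal.ofReal_mul (sq_nonneg _)]
  rw [lintegral_mul_const' _ _ ENNReal.ofReal_ne_top]
  refine (mul_le_mul_left (proj hn X p) _).trans ?_
  rw [← ofReal_integral_eq_lintegral_ofReal (integrable_det_sq _ _) (.of_forall fun _ => sq_nonneg _),
    ← ENNReal.ofReal_mul (by positivity), ← ENNReal.ofReal_mul (mul_nonneg (by positivity)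
      (integral_nonneg fun _ => sq_nonneg _)), ex, ← ENNReal.ofReal_mul (by positivity)]
  refine ENNReal.ofReal_le_ofReal ?_
  rw [Real.exp_add, Real.exp_nat_mul, Real.exp_log (by positivity)]
  have b6 := na (-1) (by norm_num)
  have b7 := dot_self_nonneg (a + (-1 : ℝ) • e)
  have b8 : (A0.det * (diagonal (DD p)).det) ^ 2 ≤ 3 ^ 2 := by gcongr
  have b9 : (1 + c ⬝ᵥ c) ^ 4 ≤ (1 + c ⬝ᵥ c) ^ 34 := pow_le_pow_right₀ (by linarith) (by norm_num)
  have b10 : (2 : ℝ) ^ 29 ≤ n ^ 29 := by gcongr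
  generalize Real.exp (n * (1 - aS x) ^ 2) = E at b5 ⊢
  have E0 : 0 ≤ E := by linarith [Real.exp_pos (n * (1 - aS x - 1 / n) ^ 2)]
  calc _ ≤ 24 * n ^ 2 * (10 * 3 ^ 2 * (10 * 2 ^ 2 * (10 * (2 * (1 + c ⬝ᵥ c)) ^ 2 *
        (3 * E * n ^ 3))) * ((2 * (1 + c ⬝ᵥ c)) ^ 2 * A0.det ^ 2)) * (diagonal (DD p)).det ^ 2 := by
        gcongr
        refine b1.trans ?_
        gcongr
        refine b2.trans ?_
        gcongr
    _ = 41472000 * (A0.det * (diagonal (DD p)).det) ^ 2 * n ^ 5 * E * (1 + c ⬝ᵥ c) ^ 4 := by ring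
    _ ≤ 41472000 * 3 ^ 2 * n ^ 5 * E * (1 + c ⬝ᵥ c) ^ 34 := by gcongr
    _ ≤ n ^ 29 * n ^ 5 * E * (1 + c ⬝ᵥ c) ^ 34 := by gcongr; linarith
    _ = _ := by ring

end Crest.Agent.T157.Kb

end
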