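import Crest.Agent.T157.KbM_24

/-!
# Row 157, part A2, section 2 (helper26): `C4Stmt`, `EvAGlue`
-/

set_option autoImplicit false

noncomputable section

namespace Crest.Agent.T157.Kb

open MeasureTheory ProbabilityTheory Matrix Set Filter
open scoped ENNReal NNReal
open Crest.Agent.T157.E Crest.Agent.T157.Cond Crest.Agent.T157.Tap
open Crest.Agent.T157.Conc (ex)

namespace EvA26

theorem tanh_sq_le (y : ℝ) : Real.tanh y ^ 2 ≤ y ^ 2 := by
  nlinarith [tanh_mul_sub_nonneg y, sq_nonneg (y - Real.tanh y)]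

theorem R_le4 (x : ℝ) : Real.tanh x * (x - Real.tanh x) ≤ x ^ 4 := by
  have h := (convex_Icc (-|x|) |x|).norm_image_sub_le_of_norm_hasDerivWithin_le
    (f := fun y => y - Real.tanh y) (f' := fun y => Real.tanh y ^ 2) (C := x ^ 2) (x := 0) (y := x)
    (fun y _ => (((hasDerivAt_id' y).sub (hasDerivAt_tanh y)).congr_deriv (by ring)).hasDerivWithinAt)
    (fun y hy => by
      rw [Real.norm_eq_abs, abs_of_nonneg (sq_nonneg _)]
      refine (tanh_sq_le y).trans ?_
      rw [← sq_abs x]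
      exact sq_le_sq' hy.1 hy.2)
    ⟨by linarith [abs_nonneg x], abs_nonneg x⟩ ⟨neg_abs_le x, le_abs_self x⟩
  simp only [Real.tanh_zero, sub_zero, Real.norm_eq_abs] at h
  have h1 : |Real.tanh x| ≤ |x| := sq_le_sq.1 (tanh_sq_le x)
  calc _ ≤ |Real.tanh x * (x - Real.tanh x)| := le_abs_self _
    _ = |Real.tanh x| * |x - Real.tanh x| := abs_mul _ _
    _ ≤ |x| * (x ^ 2 * |x|) := mul_le_mul h1 h (abs_nonneg _) (abs_nonneg _)
    _ = x ^ 2 * (|x| * |x|) := by ring
    _ = x ^ 4 := by rw [abs_mul_abs_self]; ring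

theorem exp_gR (m : ℝ) {v : ℝ} (hv : 0 < v) (x : ℝ) :
    Real.exp (gR m v 0 x) = (√(2 * Real.pi * v))⁻¹ * Real.exp (-(x - m) ^ 2 / (2 * v)) := by
  have hp : 0 < 2 * Real.pi * v := by positivity
  have e : gR m v 0 x = -Real.log (√(2 * Real.pi * v)) + -(x - m) ^ 2 / (2 * v) := by
    rw [gR, Real.log_sqrt hp.le]; simp; ring
  rw [e, Real.exp_add, Real.exp_neg, Real.exp_log (Real.sqrt_pos.2 hp)]

theorem pt {m v : ℝ} (hv : 0 < v) (hm : m ^ 2 ≤ 3 * v) (x : ℝ) :
    Real.exp (gR m v 0 x + 3 / (2 * v) * (Real.tanh x * (x - Real.tanh x))) ≤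
      gaussianPDFReal m v.toNNReal x +
        12288 * Real.exp 12 * v * gaussianPDFReal 0 (16 * v).toNNReal x := by
  have hp : 0 < 2 * Real.pi * v := by positivity
  have hs := Real.sqrt_pos.2 hp
  set y := 3 / (2 * v) * (Real.tanh x * (x - Real.tanh x)) with hy
  have y0 : 0 ≤ y := mul_nonneg (by positivity) (tanh_mul_sub_nonneg x)
  have y1 : y ≤ 3 / (2 * v) * x ^ 4 := mul_le_mul_of_nonneg_left (R_le4 x) (by positivity)
  have y2 : y ≤ 3 * x ^ 2 / (8 * v) := by
    have : Real.tanh x * (x - Real.tanh x) ≤ x ^ 2 / 4 := by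
      nlinarith [sq_nonneg (x - 2 * Real.tanh x)]
    refine (mul_le_mul_of_nonneg_left this (by positivity)).trans (le_of_eq ?_)
    field_simp; ring
  have y3 : Real.exp y ≤ 1 + y * Real.exp y := by
    have h1 := Real.add_one_le_exp (-y)
    have h2 : Real.exp (-y) * Real.exp y = 1 := by rw [← Real.exp_add]; simp
    nlinarith [Real.exp_pos y]
  have y4 : x ^ 4 ≤ 2048 * v ^ 2 * Real.exp (x ^ 2 / (32 * v)) := by
    have h1 := Real.quadratic_le_exp_of_nonneg (x := x ^ 2 / (32 * v)) (by positivity)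
    have h2 : x ^ 4 = 2048 * v ^ 2 * ((x ^ 2 / (32 * v)) ^ 2 / 2) := by field_simp; ring
    have h3 : 0 ≤ x ^ 2 / (32 * v) := by positivity
    rw [h2]
    exact mul_le_mul_of_nonneg_left (by linarith) (by positivity)
  have y5 : y * Real.exp y ≤ 3072 * v * Real.exp (x ^ 2 / (32 * v) + 3 * x ^ 2 / (8 * v)) := by
    have h1 : y ≤ 3072 * v * Real.exp (x ^ 2 / (32 * v)) := by
      refine y1.trans ((mul_le_mul_of_nonneg_left y4 (by positivity)).trans (le_of_eq ?_))
      field_simp; ring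
    rw [Real.exp_add, ← mul_assoc]
    exact mul_le_mul h1 (Real.exp_le_exp.2 y2) (Real.exp_pos _).le (by positivity)
  have y6 : Real.exp (-(x - m) ^ 2 / (2 * v)) * Real.exp (x ^ 2 / (32 * v) + 3 * x ^ 2 / (8 * v)) ≤
      Real.exp 12 * Real.exp (-(x - 0) ^ 2 / (2 * (16 * v))) := by
    rw [← Real.exp_add, ← Real.exp_add]
    refine Real.exp_le_exp.2 ?_
    have : -(x - m) ^ 2 / (2 * v) + (x ^ 2 / (32 * v) + 3 * x ^ 2 / (8 * v)) -
        (12 + -(x - 0) ^ 2 / (2 * (16 * v))) =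
        (-x ^ 2 / 16 + x * m - m ^ 2 / 2 - 12 * v) / v := by field_simp; ring
    have h2 : (-x ^ 2 / 16 + x * m - m ^ 2 / 2 - 12 * v) / v ≤ 0 :=
      div_nonpos_of_nonpos_of_nonneg (by nlinarith [sq_nonneg (x - 8 * m)]) hv.le
    linarith
  have s4 : √(2 * Real.pi * (16 * v)) = 4 * √(2 * Real.pi * v) := by
    rw [show 2 * Real.pi * (16 * v) = 4 ^ 2 * (2 * Real.pi * v) by ring,
      Real.sqrt_mul (by positivity), Real.sqrt_sq (by norm_num)]
  rw [Real.exp_add, exp_gR m hv, gaussianPDFReal, gaussianPDFReal, Real.coe_toNNReal _ hv.le,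
    Real.coe_toNNReal _ (by positivity), s4]
  have z1 : Real.exp (-(x - m) ^ 2 / (2 * v)) * Real.exp y ≤ Real.exp (-(x - m) ^ 2 / (2 * v)) +
      3072 * v * (Real.exp 12 * Real.exp (-(x - 0) ^ 2 / (2 * (16 * v)))) := by
    have a1 := mul_le_mul_of_nonneg_left (y3.trans (add_le_add le_rfl y5))
      (Real.exp_pos (-(x - m) ^ 2 / (2 * v))).le
    have a2 := mul_le_mul_of_nonneg_left y6 (show 0 ≤ 3072 * v by positivity)
    linarith
  rw [mul_assoc]
  refine (mul_le_mul_of_nonneg_left z1 (inv_pos.2 hs).le).trans (le_of_eq ?_)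
  field_simp
  ring

theorem key {D A B c1 q1 q t a w R : ℝ} (D1 : 1 ≤ D) (hA : A = 2 * D + 3) (B1 : 1 ≤ B)
    (hc : 16 * (D + 1) * c1 = 1) (h1 : q1 ≤ c1) (h2 : A ^ 2 * q1 ≤ 1) (h3 : B ^ 2 * q1 ≤ 1)
    (t0 : 0 < t) (q0 : 0 ≤ q) (ha : a ^ 2 ≤ q) (hq : q ≤ q1) (ht : t ≤ q1)
    (hR : w = R + (q + t) * q - t - (a + t) * a) (hw : w ≤ 3 * (q + t))
    (hh : A * (q + t) ^ 2 ≤ w ∨ (|w| ≤ B * (q + t) ^ 2 ∧ A * (q + t) ^ 2 ≤ R) ∨
      (q ^ 2 ≤ c1 * t ∧ -(t / 2) ≤ w ∧ w ≤ A * (q + t) ^ 2)) :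
    w ^ 2 + 2 * D * (q + t) ^ 2 * (q + t + q) ≤ 3 * (q + t + q) * R := by
  have c0 : c1 ≤ 1 / 32 := by nlinarith
  have c0' : 0 < c1 := by nlinarith
  have hR' : w + t - t ^ 2 / 4 - (q + t) * q ≤ R := by nlinarith [sq_nonneg (a + t / 2)]
  generalize hg : q + t = g at *
  have g0 : 0 < g := by linarith
  have g1 : g ≤ 2 * q1 := by linarith
  have s0 : 0 < g + q := by linarith
  have A0 : 5 ≤ A := by linarith
  have tg : t ≤ g := by linarith
  have qg : q ≤ g := by linarith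
  have t4 : t ^ 2 / 4 ≤ t / 4 * q1 := by nlinarith
  have gg : 2 * g ^ 3 ≤ 2 * g ^ 2 * (g + q) := by nlinarith [mul_nonneg (sq_nonneg g) q0]
  rcases hh with h | ⟨h, h'⟩ | ⟨h, h', h''⟩
  · have w0 : 0 ≤ w := le_trans (by positivity) h
    have a1 : w ^ 2 ≤ 3 * g * w := by nlinarith
    have a2 := mul_le_mul_of_nonneg_left hR' (show 0 ≤ 3 * (g + q) by positivity)
    rcases le_total t q with b | b
    · have b1 : A * g ^ 2 * (g + q) ≤ 3 * q * w := by
        have : A * g ^ 2 * (g + q) ≤ A * g ^ 2 * (3 * q) :=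
          mul_le_mul_of_nonneg_left (by linarith) (by positivity)
        nlinarith [mul_le_mul_of_nonneg_left h (show 0 ≤ 3 * q by positivity)]
      have b2 : -(g ^ 2) ≤ t - t ^ 2 / 4 - g * q := by nlinarith
      have b3 := mul_le_mul_of_nonneg_left b2 (show 0 ≤ 3 * (g + q) by positivity)
      rw [hA] at b1
      nlinarith
    · have b1 : A * g ≤ 1 := by nlinarith
      have b2 : 3 * g / 8 - g ^ 2 ≤ t - t ^ 2 / 4 - g * q := by nlinarith
      have b3 : 2 * D * g ^ 2 ≤ 3 * (3 * g / 8 - g ^ 2) := by rw [hA] at b1; nlinarith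
      have b4 := mul_le_mul_of_nonneg_left (b3.trans (mul_le_mul_of_nonneg_left b2 (by norm_num))) s0.le
      nlinarith [mul_nonneg q0 w0]
  · have a1 : w ^ 2 ≤ (B * g ^ 2) ^ 2 := by rw [← sq_abs]; exact pow_le_pow_left₀ (abs_nonneg _) h 2
    have a2 : B ^ 2 * g ≤ 2 := by nlinarith [sq_nonneg B]
    have a3 : (B * g ^ 2) ^ 2 ≤ 2 * g ^ 3 := by
      have := mul_le_mul_of_nonneg_right a2 (show 0 ≤ g ^ 3 by positivity)
      nlinarith
    have a4 := mul_le_mul_of_nonneg_left h' (show 0 ≤ 3 * (g + q) by positivity)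
    have a5 : (2 + 2 * D) * (g ^ 2 * (g + q)) ≤ 3 * A * (g ^ 2 * (g + q)) :=
      mul_le_mul_of_nonneg_right (by linarith) (by positivity)
    nlinarith
  · have a1 : w ^ 2 ≤ t ^ 2 / 4 + (A * g ^ 2) ^ 2 := by
      rcases le_total 0 w with b | b
      · nlinarith [sq_nonneg t]
      · nlinarith [sq_nonneg (A * g ^ 2)]
    have a2 : A ^ 2 * g ≤ 2 := by nlinarith [sq_nonneg A]
    have a3 : (A * g ^ 2) ^ 2 ≤ 2 * g ^ 3 := by
      have := mul_le_mul_of_nonneg_right a2 (show 0 ≤ g ^ 3 by positivity)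
      nlinarith
    have a4 : g * q ≤ 2 * c1 * t := by rw [← hg]; nlinarith
    have a5 : t / 3 ≤ R := by nlinarith
    have a6 : g ^ 2 ≤ 4 * c1 * t := by rw [← hg]; nlinarith [sq_nonneg (q - t)]
    have a7 : (2 + 2 * D) * g ^ 2 ≤ t / 2 := by
      have := mul_le_mul_of_nonneg_left a6 (show 0 ≤ 2 + 2 * D by linarith)
      nlinarith
    have a8 := mul_le_mul_of_nonneg_right a7 s0.le
    have a9 := mul_le_mul_of_nonneg_left a5 (show 0 ≤ 3 * (g + q) by positivity)
    have a10 : t ^ 2 / 4 ≤ t / 4 * (g + q) := by nlinarith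
    nlinarith [mul_pos t0 s0]

end EvA26

open EvA26

theorem c4Stmt : C4Stmt := by
  refine ⟨12288 * Real.exp 12, fun m v hv _ hm => ?_⟩
  have c0 : 0 ≤ 12288 * Real.exp 12 * v := by positivity
  calc _ ≤ ∫⁻ x, (gaussianPDF m v.toNNReal x +
        ENNReal.ofReal (12288 * Real.exp 12 * v) * gaussianPDF 0 (16 * v).toNNReal x) := by
        refine lintegral_mono fun x => (ENNReal.ofReal_le_ofReal (pt hv hm x)).trans ?_
        rw [gaussianPDF, gaussianPDF, ← ENNReal.ofReal_mul c0]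
        exact ENNReal.ofReal_add_le
    _ = 1 + ENNReal.ofReal (12288 * Real.exp 12 * v) := by
        rw [lintegral_add_left (measurable_gaussianPDF _ _),
          lintegral_const_mul _ (measurable_gaussianPDF _ _),
          lintegral_gaussianPDF_eq_one _ (by simpa using hv),
          lintegral_gaussianPDF_eq_one _ (by simpa using hv), mul_one]
    _ ≤ _ := by
        rw [← ENNReal.ofReal_one, ← ENNReal.ofReal_add zero_le_one c0]
        exact ENNReal.ofReal_le_ofReal (by linarith [Real.add_one_le_exp (12288 * Real.exp 12 * v)])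

theorem evAGlue : EvAGlue := by
  rintro hId ⟨C0, hT⟩ ⟨C4, h4⟩
  set D : ℝ := 2 * |C4| + 1 with hD
  have D1 : 1 ≤ D := by linarith [abs_nonneg C4]
  set c1 : ℝ := 1 / (16 * (D + 1)) with hc1
  have c10 : 0 < c1 := by positivity
  have hc : 16 * (D + 1) * c1 = 1 := by rw [hc1]; field_simp
  have c32 : c1 ≤ 1 / 32 := by nlinarith
  refine ⟨2 * D + 3, by linarith, c1, c10, fun B B1 => ?_⟩
  set q1 : ℝ := min c1 (min (1 / (2 * D + 3) ^ 2) (1 / B ^ 2)) with hq1
  have B0 : 0 < B := by linarith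
  have q10 : 0 < q1 := by positivity
  have h1 : q1 ≤ c1 := min_le_left _ _
  have h2 : (2 * D + 3) ^ 2 * q1 ≤ 1 := by
    have : q1 ≤ 1 / (2 * D + 3) ^ 2 := (min_le_right _ _).trans (min_le_left _ _)
    rwa [le_div_iff₀ (by positivity), mul_comm] at this
  have h3 : B ^ 2 * q1 ≤ 1 := by
    have : q1 ≤ 1 / B ^ 2 := (min_le_right _ _).trans (min_le_right _ _)
    rwa [le_div_iff₀ (by positivity), mul_comm] at this
  refine ⟨q1, q10, C0 + 18, fun n t hn ht => ?_⟩
  have n3 : 3 ≤ n := by omega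
  have n0 : 0 < n := by omega
  have nr : (3 : ℝ) ≤ n := by exact_mod_cast n3
  have t0 : 0 < t := lt_of_lt_of_le (by positivity) ht.1
  have hlog : 1 ≤ Real.log n := by
    rw [Real.le_log_iff_exp_le (by linarith)]
    linarith [Real.exp_one_lt_d9]
  refine (hT n t (n * t - 18) _
    (fun _ v _ y => 3 / (2 * v) * (Real.tanh y * (y - Real.tanh y))) (by omega) ?_
    (fun _ _ _ => by fun_prop) ?_).trans (Conc.ex_mono (by push_cast; linarith))
  · have hm : ∀ {f g : V n → ℝ}, Measurable f → Measurable g → Measurable fun x => f x ≤ g x :=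
      fun hf hg => measurableSet_setOf.1 (measurableSet_le hf hg)
    refine measurableSet_setOf.2 ((hm ?_ ?_).and ((hm ?_ ?_).and ((hm ?_ ?_).or
      (((hm ?_ ?_).and (hm ?_ ?_)).or ((hm ?_ ?_).and ((hm ?_ ?_).and (hm ?_ ?_))))))) <;> fun_prop
  · rintro x ⟨hq, hw, hh⟩
    obtain ⟨i1, i2, -⟩ := hId n t x n0 t0
    have q0 := aS_nonneg x
    have ha := bS_sq_le n0 x
    have g0 : 0 < ga t x := by unfold ga; linarith
    have g1 : ga t x ≤ 1 / 16 := by unfold ga; linarith [ht.2]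
    have tg : t ≤ ga t x := by unfold ga; linarith
    have m2 : mu t x ^ 2 ≤ 2 * ga t x := by
      unfold mu ga; nlinarith [sq_nonneg (bS x - t), ht.2]
    have k := key D1 rfl B1 hc h1 h2 h3 t0 q0 ha hq ht.2 i1 hw hh
    change ww t x ^ 2 + 2 * D * ga t x ^ 2 * (ga t x + aS x) ≤ 3 * (ga t x + aS x) * R4 x at k
    have s0 : 0 < ga t x + aS x := by linarith
    have k1 : Wt t x + D * ga t x ≤ 3 / (2 * ga t x) * R4 x := by
      have e1 : Wt t x + D * ga t x = (ww t x ^ 2 + 2 * D * ga t x ^ 2 * (ga t x + aS x)) /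
          (2 * ga t x * (ga t x + aS x)) := by rw [Wt]; field_simp
      have e2 : 3 / (2 * ga t x) * R4 x = 3 * (ga t x + aS x) * R4 x /
          (2 * ga t x * (ga t x + aS x)) := by field_simp
      rw [e1, e2]
      exact div_le_div_of_nonneg_right k (by positivity)
    have R0 : 0 ≤ R4 x := by
      by_contra hc'
      nlinarith [mul_pos s0 (neg_pos.2 (not_le.1 hc')), sq_nonneg (ww t x),
        mul_pos (mul_pos (show 0 < 2 * D by linarith) (pow_pos g0 2)) s0]
    have R6 : R4 x ≤ 6 * ga t x := by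
      have : aS x ≤ ga t x := by unfold ga; linarith
      nlinarith [sq_nonneg (mu t x - bS x), mul_nonneg g0.le q0]
    refine ⟨mu t x, ga t x, 0, n * Wt t x, ?_, ⟨ht.1.trans tg, by linarith⟩, ⟨by norm_num, by norm_num⟩,
      ?_, fun m0 v0 u0 hcl => ?_⟩
    · exact abs_le_of_sq_le_sq' (by nlinarith) (by norm_num) |> abs_le.2
    · rw [i2 _ g0, div_self g0.ne', Real.log_one]
      exact le_of_eq (by congr 2; ring)
    · obtain ⟨c1', c2, c3, -, -, c6⟩ := hcl
      rw [c6 rfl]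
      have v0p : 0 < v0 := g0.trans_le c2
      have n2 : 2 / (n : ℝ) ≤ 1 := by rw [div_le_one (by linarith)]; linarith
      have v2 : v0 ≤ 2 * ga t x := by nlinarith
      have d1 : |mu t x - m0| ≤ ga t x := by
        refine c1'.trans (div_le_self g0.le (by nlinarith))
      have d2 : (mu t x - m0) ^ 2 ≤ ga t x ^ 2 := by
        rw [← sq_abs]; exact pow_le_pow_left₀ (abs_nonneg _) d1 2
      have m3 : m0 ^ 2 ≤ 3 * v0 := by
        nlinarith [sq_nonneg (mu t x / 2 + 2 * (mu t x - m0))]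
      refine ⟨C4 * v0, h4 m0 v0 v0p (by linarith) m3, ?_⟩
      have e1 : ∑ i, 3 / (2 * v0) * (Real.tanh (x i) * (x i - Real.tanh (x i))) =
          3 / (2 * v0) * (n * R4 x) := by
        rw [← Finset.mul_sum, R4, avg]
        simp only [th]
        field_simp
      rw [e1]
      have b1 : C4 * v0 ≤ 2 * |C4| * ga t x := by
        have := mul_le_mul (le_abs_self C4) v2 v0p.le (abs_nonneg C4)
        linarith
      have b2 : 3 / (2 * ga t x) * (1 - 2 / n) ≤ 3 / (2 * v0) := by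
        rw [div_mul_eq_mul_div, div_le_div_iff₀ (by positivity) (by positivity)]
        have p0 : 0 ≤ 2 / (n : ℝ) := by positivity
        have := mul_le_mul_of_nonneg_left c3 (show 0 ≤ 1 - 2 / (n : ℝ) by linarith)
        nlinarith [mul_nonneg g0.le (mul_nonneg p0 p0)]
      have b3 := mul_le_mul_of_nonneg_right b2 (mul_nonneg (show (0 : ℝ) ≤ n by linarith) R0)
      have b4 : 3 / (2 * ga t x) * (1 - 2 / n) * (n * R4 x) =
          n * (3 / (2 * ga t x) * R4 x) - 3 * (R4 x / ga t x) := by field_simp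
      have b5 : R4 x / ga t x ≤ 6 := by rwa [div_le_iff₀ g0]
      have b6 : Wt t x + C4 * v0 + t ≤ 3 / (2 * ga t x) * R4 x := by rw [hD] at k1; linarith
      have b7 := mul_le_mul_of_nonneg_left b6 (show (0 : ℝ) ≤ n by linarith)
      linarith

end Crest.Agent.T157.Kb

end
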