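import Crest.Agent.T157.KbM_24

/-!
# Row 157, part A2, section 2 (helper22): `Kb.evRGlue`
-/

set_option autoImplicit false

noncomputable section

namespace Crest.Agent.T157.Kb

open MeasureTheory Matrix Set
open scoped ENNReal
open Crest.Agent.T157.E Crest.Agent.T157.Cond Crest.Agent.T157.Tap
open Crest.Agent.T157.Conc (ex)

namespace Ev22

variable {n : ℕ}

lemma th_abs (x : ℝ) : |Real.tanh x| ≤ |x| := by
  have h := tanh_mul_sub_nonneg x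
  exact sq_le_sq.1 (by nlinarith [sq_nonneg (x - Real.tanh x)])

lemma sub_abs (x : ℝ) : |x - Real.tanh x| ≤ |x| := by
  have h := tanh_mul_sub_nonneg x
  exact sq_le_sq.1 (by nlinarith [sq_nonneg (Real.tanh x)])

lemma sub_cube (x : ℝ) : |x - Real.tanh x| ≤ x ^ 2 * |x| := by
  have h := (convex_Icc (-|x|) |x|).norm_image_sub_le_of_norm_hasDerivWithin_le
    (f := fun y => y - Real.tanh y) (f' := fun y => Real.tanh y ^ 2) (C := x ^ 2) (x := 0) (y := x)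
    (fun y _ => (((hasDerivAt_id' y).sub (hasDerivAt_tanh y)).congr_deriv
      (by ring)).hasDerivWithinAt)
    (fun y hy => by
      rw [Real.norm_eq_abs, abs_of_nonneg (sq_nonneg _)]
      exact sq_le_sq.2 ((th_abs y).trans (abs_le.2 hy)))
    ⟨by simp, by simp⟩ ⟨neg_abs_le x, le_abs_self x⟩
  simpa using h

lemma sub_sq6 (x : ℝ) : (x - Real.tanh x) ^ 2 ≤ (x ^ 2) ^ 3 := by
  have h := pow_le_pow_left₀ (abs_nonneg _) (sub_cube x) 2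
  rw [sq_abs, mul_pow, sq_abs] at h
  exact h.trans_eq (by ring)

lemma sub_sq (x : ℝ) : |x - Real.tanh x| ≤ x ^ 2 := by
  have h := mul_le_mul (sub_cube x) (sub_abs x) (abs_nonneg _) (by positivity)
  rw [mul_assoc, abs_mul_abs_self, abs_mul_abs_self] at h
  exact abs_le_of_sq_le_sq (by nlinarith) (sq_nonneg _)

lemma r_abs (x : ℝ) : |Real.tanh x * (x - Real.tanh x)| ≤ x ^ 2 / 4 := by
  rw [abs_of_nonneg (tanh_mul_sub_nonneg x)]
  nlinarith [sq_nonneg (x - 2 * Real.tanh x)]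

lemma r_sq (x : ℝ) : (Real.tanh x * (x - Real.tanh x)) ^ 2 ≤ (x ^ 2) ^ 4 := by
  have h := mul_le_mul (sq_le_sq.2 (th_abs x)) (sub_sq6 x) (sq_nonneg _) (sq_nonneg _)
  rw [mul_pow]
  exact h.trans_eq (by ring)

/-- the body of `TiltStmt` -/
def TB (C : ℕ) : Prop := ∀ (n : ℕ) (t R : ℝ) (E : Set (V n)) (Y : ℝ → ℝ → ℝ → ℝ → ℝ),
  2 ≤ n → MeasurableSet E → (∀ m v u, Measurable (Y m v u)) →
  (∀ x ∈ E, ∃ m v u g : ℝ, |m| ≤ 4 ∧ v ∈ Icc (1 / (n : ℝ)) 20 ∧ u ∈ Icc (-2 : ℝ) (1 / 2) ∧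
    rho t x ≤ Real.exp (∑ i, gR m v u (x i) + g) ∧ ∀ m0 v0 u0, Cl n m v u m0 v0 u0 →
      ∃ Λ : ℝ, ∫⁻ y, ex (gR m0 v0 u0 y + Y m0 v0 u0 y) ≤ ex Λ ∧
        g + n * Λ + R ≤ ∑ i, Y m0 v0 u0 (x i)) →
  Px t E ≤ ex (C * Real.log n - R)

/-- `MgfStmt` at `u = 0`, for `Y = f / v` -/
def MB (C : ℝ) : Prop := ∀ K ≥ (1 : ℝ), ∀ (m v A : ℝ) (j : ℕ) (f : ℝ → ℝ), 0 < v →
  C * K ^ 2 * v ≤ 1 → |m| ≤ K * v → Measurable f → (∀ y, |f y| ≤ y ^ 2 / 64) → 0 ≤ A → j ≤ 8 →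
  (∀ y, f y ^ 2 ≤ A * (y ^ 2) ^ j) →
  ∫⁻ y, ex (gR m v 0 y + f y / v) ≤
    ex (gE f m v / v + 2 * (C * (A / v ^ 2) * v ^ j) + C * K ^ 2 * v ^ 4)

lemma mb_of (h : MgfStmt) : ∃ C ≥ (1 : ℝ), MB C := by
  obtain ⟨C, hC, h⟩ := h
  refine ⟨C, hC, fun K hK m v A j f hv h1 h2 hf h3 hA hj h4 => ?_⟩
  obtain ⟨k1, k2⟩ := h K hK m v 0 (fun y => f y / v) hv h1 h2
    (by rw [abs_zero]; positivity) (by fun_prop) fun y => by
      rw [abs_div, abs_of_pos hv, div_le_div_iff₀ hv (by positivity)]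
      have := h3 y
      nlinarith [mul_le_mul_of_nonneg_right this hv.le, sq_nonneg v]
  have k3 := k2 (A / v ^ 2) j (by positivity) hj fun y => by
    rw [div_pow, div_mul_eq_mul_div]
    refine div_le_div_of_nonneg_right ((h4 y).trans ?_) (by positivity)
    exact mul_le_mul_of_nonneg_left (pow_le_pow_left₀ (sq_nonneg _) (by linarith) j) hA
  simp only [sub_zero, div_one, one_pow] at k1 k3
  refine k1.trans (Conc.ex_mono ?_)
  have e : gE (fun y => f y / v) m v = gE f m v / v := by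
    unfold gE; exact integral_div _ _
  rw [e]; linarith

lemma geo {B Cm q a t γ : ℝ} (hB : 1 ≤ B) (hC : 1 ≤ Cm) (hq0 : 0 ≤ q) (ht0 : 0 < t)
    (eg : γ = q + t) (a1 : t ≤ B * q ^ 2) (a2 : 18 * Cm * B ^ 2 * q ≤ 1) (a4 : |a| ≤ B * γ) :
    γ ≤ 2 * q ∧ q ≤ 1 ∧ |a + t| ≤ 4 ∧ ∀ i m v : ℝ, 0 < i → i ≤ t → |a + t - m| ≤ γ * i * i →
      γ ≤ v → v ≤ γ * (1 + 2 * i) → v ≤ q * (1 + 2 * B * q) ∧ |m| ≤ 3 * B * v ∧
        |m - a| ≤ 2 * B * q ^ 2 ∧ Cm * (3 * B) ^ 2 * v ≤ 1 := by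
  have hBq : 18 * (B * q) ≤ 1 := by
    have k := mul_le_mul_of_nonneg_right hC (sq_nonneg B)
    have : B * q ≤ Cm * B ^ 2 * q := mul_le_mul_of_nonneg_right (by nlinarith) hq0
    linarith
  have hq : 18 * q ≤ 1 := by nlinarith
  have hB2 : 18 * (B * q ^ 2) ≤ q := by nlinarith
  have hγ : γ ≤ 2 * q := by linarith
  have hg : 0 < γ := by linarith
  have hBγ : γ ≤ B * γ := le_mul_of_one_le_left hg.le hB
  have hmu : |a + t| ≤ 2 * (B * γ) := by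
    refine (abs_add_le _ _).trans ?_
    rw [abs_of_pos ht0]; linarith
  have hBγ' : B * γ ≤ B * (2 * q) := mul_le_mul_of_nonneg_left hγ (by linarith)
  refine ⟨hγ, by linarith, by linarith, fun i m v hi0 hi c1 c2 c3 => ?_⟩
  have k0 : γ * i * i ≤ γ * i * 1 := mul_le_mul_of_nonneg_left (by linarith) (by positivity)
  have k1 : γ * i ≤ 2 * q * (B * q ^ 2) := mul_le_mul hγ (hi.trans a1) hi0.le (by linarith)
  have k2 : q * (B * q ^ 2) ≤ 1 / 18 * (B * q ^ 2) :=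
    mul_le_mul_of_nonneg_right (by linarith) (by positivity)
  have k3 : 0 ≤ B * q ^ 2 := by positivity
  have hv1 : v ≤ q + 2 * (B * q ^ 2) := by linarith
  have hBv : B * γ ≤ B * v := mul_le_mul_of_nonneg_left c2 (by linarith)
  refine ⟨by linarith, ?_, ?_, ?_⟩
  · have := abs_sub_abs_le_abs_sub m (a + t)
    rw [abs_sub_comm] at this
    linarith
  · have k := abs_sub_le m (a + t) a
    rw [abs_sub_comm m (a + t), add_sub_cancel_left, abs_of_pos ht0] at k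
    linarith
  · have := mul_le_mul_of_nonneg_left (show v ≤ 2 * q by linarith)
      (show 0 ≤ Cm * (3 * B) ^ 2 by positivity)
    linarith

lemma wt_le {B q γ w : ℝ} (hq0 : 0 ≤ q) (hg : 0 < γ) (hγ : γ ≤ 2 * q) (h : |w| ≤ B * γ ^ 2) :
    w ^ 2 / (2 * γ * (γ + q)) ≤ 2 * B ^ 2 * q ^ 2 := by
  rw [div_le_iff₀ (by positivity)]
  have k1 : w ^ 2 ≤ (B * γ ^ 2) ^ 2 := by
    rw [← sq_abs]; exact pow_le_pow_left₀ (abs_nonneg _) h 2
  have k2 : γ ^ 2 ≤ (2 * q) ^ 2 := pow_le_pow_left₀ hg.le hγ 2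
  have k3 := mul_le_mul_of_nonneg_left k2 (show 0 ≤ B ^ 2 * γ ^ 2 by positivity)
  have k4 : 0 ≤ B ^ 2 * q ^ 2 * γ * q := by positivity
  linarith

/-- one event -/
lemma one (hI : IdStmt) {Ct : ℕ} (hT : TB Ct) {Cm : ℝ} (hC : 1 ≤ Cm) (hM : MB Cm) {B : ℝ}
    (hB : 1 ≤ B) {t r A : ℝ} {j : ℕ} {E : Set (V n)} {f : ℝ → ℝ} (hn : 2 ≤ n)
    (ht : 1 / (n : ℝ) ≤ t) (hE : MeasurableSet E) (hf : Measurable f)
    (h1 : ∀ y, |f y| ≤ y ^ 2 / 64) (hA : 0 ≤ A) (hj : j ≤ 8) (h2 : ∀ y, f y ^ 2 ≤ A * (y ^ 2) ^ j)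
    (hx : ∀ x ∈ E, t ≤ B * aS x ^ 2 ∧ 18 * Cm * B ^ 2 * aS x ≤ 1 ∧ |ww t x| ≤ B * ga t x ^ 2 ∧
      |bS x| ≤ B * ga t x ∧ ∀ m v : ℝ, 0 < v → aS x ≤ v → v ≤ aS x * (1 + 2 * B * aS x) →
        |m| ≤ 3 * B * v → |m - bS x| ≤ 2 * B * aS x ^ 2 →
        v * (2 * B ^ 2 * aS x ^ 2 + Cm * (3 * B) ^ 2 * v ^ 4 + r) + gE f m v +
          2 * (Cm * (A / v) * v ^ j) ≤ avg fun i => f (x i)) :
    Px t E ≤ ex (Ct * Real.log n - n * r) := by
  have hn2 : (2 : ℝ) ≤ n := by exact_mod_cast hn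
  have hn0 : (0 : ℝ) < n := by linarith
  have ht0 : 0 < t := lt_of_lt_of_le (by positivity) ht
  refine hT n t (n * r) E (fun _ v _ y => f y / v) hn hE (fun _ _ _ => by fun_prop) fun x hxE => ?_
  obtain ⟨a1, a2, a3, a4, a5⟩ := hx x hxE
  have hq0 := aS_nonneg x
  have hg := ga_pos ht0 x
  have eg : ga t x = aS x + t := rfl
  obtain ⟨b1, b2, b3, b4⟩ := geo hB hC hq0 ht0 eg a1 a2 a4
  refine ⟨mu t x, ga t x, 0, n * Wt t x, b3, ⟨by linarith, by linarith⟩,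
    ⟨by norm_num, by norm_num⟩, ?_, ?_⟩
  · rw [(hI n t x (by omega) ht0).2.1 (ga t x) hg, div_self hg.ne', Real.log_one]
    exact le_of_eq (by congr 2; ring)
  rintro m v u ⟨c1, c2, c3, -, -, c6⟩
  obtain rfl := c6 rfl
  have hv : 0 < v := by linarith
  obtain ⟨d1, d2, d3, d4⟩ := b4 (1 / n) m v (by positivity) ht
    (c1.trans_eq (by field_simp)) c2 (c3.trans_eq (by field_simp))
  refine ⟨_, hM (3 * B) (by linarith) m v A j f hv d4 d2 hf h1 hA hj h2, ?_⟩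
  have hW : Wt t x ≤ 2 * B ^ 2 * aS x ^ 2 := wt_le hq0 hg b1 a3
  have k := a5 m v hv (by linarith) d1 d2 d3
  have k' : Wt t x + (gE f m v / v + 2 * (Cm * (A / v ^ 2) * v ^ j) + Cm * (3 * B) ^ 2 * v ^ 4) +
      r ≤ (avg fun i => f (x i)) / v := by
    rw [le_div_iff₀ hv]
    have e : (Wt t x + (gE f m v / v + 2 * (Cm * (A / v ^ 2) * v ^ j) +
        Cm * (3 * B) ^ 2 * v ^ 4) + r) * v = v * (Wt t x + Cm * (3 * B) ^ 2 * v ^ 4 + r) +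
        gE f m v + 2 * (Cm * (A / v) * v ^ j) := by field_simp; ring
    rw [e]
    linarith [mul_le_mul_of_nonneg_left hW hv.le]
  have hsum : ∑ i, f (x i) / v = n * ((avg fun i => f (x i)) / v) := by
    rw [← Finset.sum_div, avg]; field_simp
  simp only [hsum]
  linarith [mul_le_mul_of_nonneg_left k' hn0.le]

/-- the numbers -/
lemma num {B Cm Co c e q s : ℝ} (hB : 1 ≤ B) (hC : 1 ≤ Cm) (hO : 1 ≤ Co) (hc0 : 0 < c)
    (hc : 10 ^ 5 * (Cm ^ 2 * Co * B ^ 3) * c = 1) (he : e ∈ Ioc (0 : ℝ) 1) (hq0 : 0 ≤ q)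
    (hq : q ≤ c * e ^ 2) (hs : s ≤ B * q) :
    18 * Cm * B ^ 2 * q ≤ 1 ∧ 10 ^ 5 * (Co * B ^ 3 * q ^ 3) ≤ e * q ^ 2 ∧
    10 ^ 5 * (Cm * q ^ 3) ≤ e * q ^ 2 ∧ 10 ^ 5 * (B ^ 2 * q ^ 3) ≤ e * q ^ 2 ∧
    ∀ v : ℝ, 0 < v → v ≤ q * (1 + 2 * B * q) → v ≤ 2 * q ∧ (3 * B) ^ 2 * v ≤ 1 ∧
      v * (2 * B ^ 2 * q ^ 2 + Cm * (3 * B) ^ 2 * v ^ 4 + c * e ^ 2 * s) ≤
        e / (64 * Cm) * (e * q ^ 2) / 4 := by
  obtain ⟨he0, he1⟩ := he
  have hB0 : 0 ≤ B := by linarith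
  have hC0 : 0 < Cm := by linarith
  -- every monomial below `P = Cm² Co B³`
  have key : ∀ (i k l : ℕ), i ≤ 2 → k ≤ 1 → l ≤ 3 → 10 ^ 5 * (Cm ^ i * Co ^ k * B ^ l) * c ≤ 1 := by
    intro i k l hi hk hl
    rw [← hc]
    have h1 := pow_le_pow_right₀ hC hi
    have h2 := pow_le_pow_right₀ hO hk
    have h3 := pow_le_pow_right₀ hB hl
    rw [pow_one] at h2
    gcongr
  have he2 : e ^ 2 ≤ e := by nlinarith
  have keyq : ∀ (i k l : ℕ), i ≤ 2 → k ≤ 1 → l ≤ 3 →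
      10 ^ 5 * (Cm ^ i * Co ^ k * B ^ l) * q ≤ e ^ 2 := by
    intro i k l hi hk hl
    have h1 := mul_le_mul_of_nonneg_left hq
      (show 0 ≤ 10 ^ 5 * (Cm ^ i * Co ^ k * B ^ l) by positivity)
    have h2 := mul_le_mul_of_nonneg_right (key i k l hi hk hl) (sq_nonneg e)
    linarith
  have key3 : ∀ (i k l : ℕ), i ≤ 2 → k ≤ 1 → l ≤ 3 →
      10 ^ 5 * (Cm ^ i * Co ^ k * B ^ l * q ^ 3) ≤ e ^ 2 * q ^ 2 := by
    intro i k l hi hk hl
    have := mul_le_mul_of_nonneg_right (keyq i k l hi hk hl) (sq_nonneg q)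
    linarith
  have e3 := mul_le_mul_of_nonneg_right he2 (sq_nonneg q)
  have p1 := keyq 1 0 2 (by norm_num) (by norm_num) (by norm_num)
  have p2 := keyq 0 0 1 (by norm_num) (by norm_num) (by norm_num)
  have p3 := keyq 0 0 2 (by norm_num) (by norm_num) (by norm_num)
  have p0 := keyq 0 0 0 (by norm_num) (by norm_num) (by norm_num)
  have p4 := key3 0 1 3 (by norm_num) (by norm_num) (by norm_num)
  have p5 := key3 1 0 0 (by norm_num) (by norm_num) (by norm_num)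
  have p6 := key3 0 0 2 (by norm_num) (by norm_num) (by norm_num)
  have p7 := key3 1 0 2 (by norm_num) (by norm_num) (by norm_num)
  have p8 := key3 2 0 2 (by norm_num) (by norm_num) (by norm_num)
  have p9 := mul_le_mul_of_nonneg_right (key 1 0 1 (by norm_num) (by norm_num) (by norm_num))
    (show 0 ≤ e ^ 2 * q ^ 2 by positivity)
  simp only [pow_zero, pow_one, mul_one, one_mul] at p0 p1 p2 p3 p4 p5 p6 p7 p8 p9
  refine ⟨by linarith, by linarith, by linarith, by linarith, fun v hv hv1 => ?_⟩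
  have hv2 : v ≤ 2 * q := by
    have := mul_le_mul_of_nonneg_left (show 1 + 2 * B * q ≤ 2 by linarith) hq0
    linarith
  refine ⟨hv2, ?_, ?_⟩
  · have := mul_le_mul_of_nonneg_left hv2 (sq_nonneg (3 * B))
    linarith
  have hv4 : v ^ 4 ≤ q ^ 2 := by
    have k1 : v ^ 2 ≤ (2 * q) ^ 2 := pow_le_pow_left₀ hv.le hv2 2
    have k2 : q * q ≤ 1 / 4 * q := mul_le_mul_of_nonneg_right (by linarith) hq0
    have k3 : v ^ 2 ≤ q := by linarith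
    calc v ^ 4 = (v ^ 2) ^ 2 := by ring
      _ ≤ q ^ 2 := pow_le_pow_left₀ (sq_nonneg _) k3 2
  have k1 : 2 * B ^ 2 * q ^ 2 + Cm * (3 * B) ^ 2 * v ^ 4 + c * e ^ 2 * s ≤
      2 * B ^ 2 * q ^ 2 + Cm * (3 * B) ^ 2 * q ^ 2 + c * e ^ 2 * (B * q) := by gcongr
  have k2 := (mul_le_mul_of_nonneg_left k1 hv.le).trans
    (mul_le_mul_of_nonneg_right hv2 (by positivity))
  refine k2.trans ?_
  rw [div_mul_eq_mul_div, div_div, le_div_iff₀ (by positivity)]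
  have : 0 ≤ e ^ 2 * q ^ 2 := by positivity
  linarith

lemma sg_le {σ : ℝ} (hσ : |σ| = 1) (y : ℝ) : σ * y ≤ |y| := by
  have := le_abs_self (σ * y)
  rwa [abs_mul, hσ, one_mul] at this

lemma fin4 {B Cm Co e q v σ g X R l : ℝ} (hB : 1 ≤ B) (hC : 1 ≤ Cm) (hO : 1 ≤ Co) (he : 0 < e)
    (hq : 0 ≤ q) (hv : 0 < v) (hσ : |σ| = 1) (v1 : q ≤ v) (v2 : v ≤ q * (1 + 2 * B * q))
    (v3 : v ≤ 2 * q) (k : |g - v ^ 2| ≤ Co * (3 * B) ^ 2 * v ^ 3)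
    (h : e * q ^ 2 ≤ σ * (R - q ^ 2)) (hl : l ≤ 1 / 64) (hX : X ≤ l * (e * q ^ 2) / 4)
    (n2 : 10 ^ 5 * (Co * B ^ 3 * q ^ 3) ≤ e * q ^ 2) (n3 : 10 ^ 5 * (Cm * q ^ 3) ≤ e * q ^ 2)
    (n4 : 10 ^ 5 * (B ^ 2 * q ^ 3) ≤ e * q ^ 2) :
    X + σ / 16 * g + 2 * (Cm * (1 / 256 / v) * v ^ 4) ≤ σ / 16 * R := by
  have hB0 : 0 ≤ B := by linarith
  have h0 : 0 ≤ e * q ^ 2 := by positivity
  have k0 := mul_le_mul_of_nonneg_right hl h0
  have k1 := sg_le hσ (g - v ^ 2)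
  have k2 := sg_le hσ (v ^ 2 - q ^ 2)
  have k3 : v ^ 3 ≤ (2 * q) ^ 3 := pow_le_pow_left₀ hv.le v3 3
  have k4 := mul_le_mul_of_nonneg_left k3 (show 0 ≤ Cm by linarith)
  have k5 : Co * B ^ 2 * v ^ 3 ≤ Co * B ^ 3 * (2 * q) ^ 3 := by
    have := pow_le_pow_right₀ hB (show 2 ≤ 3 by norm_num)
    gcongr
  have k6 : (v - q) * (v + q) ≤ 2 * B ^ 2 * q ^ 2 * (3 * q) := by
    have : B * q ^ 2 ≤ B ^ 2 * q ^ 2 := mul_le_mul_of_nonneg_right (by nlinarith) (sq_nonneg _)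
    exact mul_le_mul (by linarith) (by linarith) (by linarith) (by positivity)
  rw [abs_of_nonneg (show 0 ≤ v ^ 2 - q ^ 2 by nlinarith)] at k2
  rw [show Cm * (1 / 256 / v) * v ^ 4 = Cm * v ^ 3 / 256 by field_simp]
  linarith

lemma fin3 {B Cm Co e q v m a σ g X R : ℝ} (hB : 1 ≤ B) (hC : 1 ≤ Cm) (hO : 1 ≤ Co) (he : 0 < e)
    (hq : 0 ≤ q) (hv : 0 < v) (hσ : |σ| = 1) (v1 : q ≤ v) (v2 : v ≤ q * (1 + 2 * B * q))
    (v3 : v ≤ 2 * q) (m1 : |m| ≤ 3 * B * v) (m2 : |m - a| ≤ 2 * B * q ^ 2)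
    (k : |g - m * v| ≤ Co * (3 * B) ^ 3 * v ^ 3) (h : e * q ^ 2 ≤ σ * (R - a * q))
    (hX : X ≤ e / (64 * Cm) * (e * q ^ 2) / 4)
    (n2 : 10 ^ 5 * (Co * B ^ 3 * q ^ 3) ≤ e * q ^ 2)
    (n4 : 10 ^ 5 * (B ^ 2 * q ^ 3) ≤ e * q ^ 2) :
    X + e / (64 * Cm) * σ * g + 2 * (Cm * ((e / (64 * Cm)) ^ 2 / v) * v ^ 3) ≤
      e / (64 * Cm) * σ * R := by
  have hB0 : 0 ≤ B := by linarith
  have hC0 : 0 < Cm := by linarith
  have h0 : 0 ≤ e * q ^ 2 := by positivity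
  have k1 := sg_le hσ (g - m * v)
  have k2 := sg_le hσ (m * (v - q))
  have k2' := sg_le hσ ((m - a) * q)
  rw [abs_mul, abs_of_nonneg (sub_nonneg.2 v1)] at k2
  rw [abs_mul, abs_of_nonneg hq] at k2'
  have k3 : v ^ 3 ≤ (2 * q) ^ 3 := pow_le_pow_left₀ hv.le v3 3
  have k4 := mul_le_mul_of_nonneg_left k3 (show 0 ≤ Co * B ^ 3 by positivity)
  have k5 : |m| * (v - q) ≤ 3 * B * (2 * q) * (2 * B * q ^ 2) :=
    mul_le_mul (m1.trans (by gcongr)) (by linarith) (by linarith) (by positivity)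
  have k6 : |m - a| * q ≤ 2 * B ^ 2 * q ^ 2 * q := by
    have : B * q ^ 2 ≤ B ^ 2 * q ^ 2 := mul_le_mul_of_nonneg_right (by nlinarith) (sq_nonneg _)
    exact mul_le_mul_of_nonneg_right (by linarith) hq
  have k7 := mul_le_mul_of_nonneg_left (pow_le_pow_left₀ hv.le v3 2) he.le
  have k8 : e * q ^ 2 / 4 + σ * g + e * v ^ 2 / 32 ≤ σ * R := by linarith
  have k9 := mul_le_mul_of_nonneg_left k8 (show 0 ≤ e / (64 * Cm) by positivity)
  rw [show 2 * (Cm * ((e / (64 * Cm)) ^ 2 / v) * v ^ 3) = e / (64 * Cm) * (e * v ^ 2 / 32) by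
    field_simp; ring]
  linarith

lemma gE_mul (a : ℝ) (f : ℝ → ℝ) (m v : ℝ) : gE (fun y => a * f y) m v = a * gE f m v := by
  unfold gE; exact integral_const_mul _ _

lemma avg_mul (a : ℝ) (f : V n) : avg (fun i => a * f i) = a * avg f := by
  simp only [avg, ← Finset.mul_sum, mul_div_assoc]

end Ev22

open Ev22 in
theorem evRGlue : EvRGlue := by
  rintro hI ⟨Ct, hT⟩ hM ⟨Co, hO, hMo⟩ B hB
  obtain ⟨Cm, hC, hM⟩ := mb_of hM
  have hP : 0 < 10 ^ 5 * (Cm ^ 2 * Co * B ^ 3) := by positivity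
  set c : ℝ := (10 ^ 5 * (Cm ^ 2 * Co * B ^ 3))⁻¹ with hcd
  have hc0 : 0 < c := inv_pos.2 hP
  have hc : 10 ^ 5 * (Cm ^ 2 * Co * B ^ 3) * c = 1 := mul_inv_cancel₀ hP.ne'
  clear_value c
  refine ⟨c, hc0, Ct + 4, fun n t e hn ht he => ?_⟩
  have hn0 : (0 : ℝ) < n := by exact_mod_cast (show 0 < n by omega)
  have ht0 : 0 < t := lt_of_lt_of_le (by positivity) ht
  set G : V n → Prop := fun x => t ≤ B * aS x ^ 2 ∧ aS x ≤ c * e ^ 2 ∧
    |ww t x| ≤ B * ga t x ^ 2 ∧ |bS x| ≤ B * ga t x with hG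
  have mG : ∀ f : V n → ℝ, Measurable f → MeasurableSet {x | G x ∧ e * aS x ^ 2 ≤ f x} := by
    intro f hf
    rw [measurableSet_setOfPred]
    refine Measurable.and (Measurable.and ?_ (Measurable.and ?_ (Measurable.and ?_ ?_))) ?_ <;>
      exact measurableSet_setOfPred.1 (measurableSet_le (by fun_prop) (by fun_prop))
  have hs : ∀ x, G x → Real.sqrt t ≤ B * aS x := fun x hx => by
    have hq := aS_nonneg x
    refine Real.sqrt_le_iff.2 ⟨by positivity, hx.1.trans ?_⟩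
    rw [mul_pow]
    exact mul_le_mul_of_nonneg_right (by nlinarith) (sq_nonneg _)
  have hl0 : 0 < e / (64 * Cm) := by have := he.1; positivity
  have hl1 : e / (64 * Cm) ≤ 1 / 64 := by
    rw [div_le_div_iff₀ (by positivity) (by norm_num)]; linarith [he.2]
  have h4 : ∀ σ : ℝ, |σ| = 1 → Px t {x | G x ∧ e * aS x ^ 2 ≤ σ * (R4 x - aS x ^ 2)} ≤
      ex (Ct * Real.log n - n * (c * e ^ 2 * Real.sqrt t)) := by
    intro σ hσ
    refine one hI hT hC hM hB (A := 1 / 256) (j := 4)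
      (f := fun y => σ / 16 * (Real.tanh y * (y - Real.tanh y))) (by omega) ht
      (mG _ (by fun_prop)) (by fun_prop) (fun y => ?_) (by norm_num) (by norm_num) (fun y => ?_)
      fun x hx => ?_
    · rw [abs_mul, abs_div, hσ, abs_of_pos (show (0 : ℝ) < 16 by norm_num)]
      linarith [r_abs y]
    · rw [mul_pow, div_pow, ← sq_abs σ, hσ]
      linarith [r_sq y]
    have hq0 := aS_nonneg x
    obtain ⟨n1, n2, n3, n4, n5⟩ := num hB hC hO hc0 hc he hq0 hx.1.2.1 (hs x hx.1)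
    refine ⟨hx.1.1, n1, hx.1.2.2.1, hx.1.2.2.2, fun m v hv v1 v2 m1 m2 => ?_⟩
    obtain ⟨n6, n7, n8⟩ := n5 v hv v2
    have k := (hMo (3 * B) (by linarith) m v hv n7 m1).2.2.2.2.2.2.2.1
    rw [gE_mul, avg_mul]
    exact fin4 hB hC hO he.1 hq0 hv hσ v1 v2 n6 k hx.2 hl1 n8 n2 n3 n4
  have h3 : ∀ σ : ℝ, |σ| = 1 → Px t {x | G x ∧ e * aS x ^ 2 ≤ σ * (R3 x - bS x * aS x)} ≤
      ex (Ct * Real.log n - n * (c * e ^ 2 * Real.sqrt t)) := by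
    intro σ hσ
    refine one hI hT hC hM hB (A := (e / (64 * Cm)) ^ 2) (j := 3)
      (f := fun y => e / (64 * Cm) * σ * (y - Real.tanh y)) (by omega) ht
      (mG _ (by fun_prop)) (by fun_prop) (fun y => ?_) (by positivity) (by norm_num) (fun y => ?_)
      fun x hx => ?_
    · rw [abs_mul, abs_mul, hσ, abs_of_pos hl0, mul_one]
      have := mul_le_mul hl1 (sub_sq y) (abs_nonneg _) (by norm_num)
      linarith
    · rw [mul_pow, mul_pow, ← sq_abs σ, hσ, one_pow, mul_one]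
      exact mul_le_mul_of_nonneg_left (sub_sq6 y) (sq_nonneg _)
    have hq0 := aS_nonneg x
    obtain ⟨n1, n2, n3, n4, n5⟩ := num hB hC hO hc0 hc he hq0 hx.1.2.1 (hs x hx.1)
    refine ⟨hx.1.1, n1, hx.1.2.2.1, hx.1.2.2.2, fun m v hv v1 v2 m1 m2 => ?_⟩
    obtain ⟨n6, n7, n8⟩ := n5 v hv v2
    have k := (hMo (3 * B) (by linarith) m v hv n7 m1).2.2.2.2.2.2.1
    rw [gE_mul, avg_mul]
    exact fin3 hB hC hO he.1 hq0 hv hσ v1 v2 n6 m1 m2 k hx.2 n8 n2 n4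
  have hcov : Px t {x : V n | t ≤ B * aS x ^ 2 ∧ aS x ≤ c * e ^ 2 ∧ |ww t x| ≤ B * ga t x ^ 2 ∧
      |bS x| ≤ B * ga t x ∧ ¬ (|R4 x - aS x ^ 2| ≤ e * aS x ^ 2 ∧
        |R3 x - bS x * aS x| ≤ e * aS x ^ 2)} ≤
      ((4 : ℕ) : ℝ≥0∞) * ex (Ct * Real.log n - n * (c * e ^ 2 * Real.sqrt t)) := by
    have a1 := h4 1 abs_one
    have a2 := h4 (-1) (by simp)
    have a3 := h3 1 abs_one
    have a4 := h3 (-1) (by simp)
    refine le_trans (Px_cover t fun x hx => ?_) ((add_le_add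
      ((Px_union t _ _).trans (add_le_add a1 a2))
      ((Px_union t _ _).trans (add_le_add a3 a4))).trans_eq (by push_cast; ring))
    obtain ⟨g1, g2, g3, g4, g5⟩ := hx
    have g : G x := ⟨g1, g2, g3, g4⟩
    rcases not_and_or.1 g5 with h | h
    · rcases lt_abs.1 (not_le.1 h) with h | h
      · exact Or.inl (Or.inl ⟨g, by linarith⟩)
      · exact Or.inl (Or.inr ⟨g, by linarith⟩)
    · rcases lt_abs.1 (not_le.1 h) with h | h
      · exact Or.inr (Or.inl ⟨g, by linarith⟩)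
      · exact Or.inr (Or.inr ⟨g, by linarith⟩)
  refine hcov.trans ((ex_sum (by omega) (by omega) _ _).trans (Conc.ex_mono ?_))
  have := Real.log_natCast_nonneg n
  push_cast
  linarith

end Crest.Agent.T157.Kb

end
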