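import Crest.Agent.T157.KbDef_24
import Crest.Agent.T157.QeA_24
import Crest.Agent.T157.ConcHW_16

/-!
# Row 157, part A2 (helper11): Gaussian tails of the column statistics (`Kb.GnStmt`)
-/

set_option autoImplicit false

noncomputable section

namespace Crest.Agent.T157.Kb

open MeasureTheory ProbabilityTheory Matrix Set
open scoped ENNReal
open Crest.Agent.T157.E Crest.Agent.T157.Cond Crest.Agent.T157.Tap
open Crest.Agent.T157.Qe (Le R1 bv St Dv R1_mulVec proj_R1 R1_e qf_expand qf_comm)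
open Crest.Agent.T157.Conc (ex)

namespace Gn11

variable {n : ℕ}

lemma le_two {S : Set (V n)} {a L : ℝ} (h : (gv (Fin n)).real S ≤ 2 * Real.exp a) (hL : a ≤ -L) :
    gv (Fin n) S ≤ 2 * ex (-L) := by
  rw [← ofReal_measureReal, ex, ← ENNReal.ofReal_ofNat, ← ENNReal.ofReal_mul (by norm_num)]
  exact ENNReal.ofReal_le_ofReal (h.trans (by gcongr))

/-- tail of a linear form -/
lemma lin (a : V n) {v y L : ℝ} (hv : 0 < v) (ha : a ⬝ᵥ a ≤ v) (hL : 0 ≤ L) (h : 2 * v * L ≤ y) :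
    gv (Fin n) {η | ¬ (a ⬝ᵥ η) ^ 2 ≤ y} ≤ 2 * ex (-L) := by
  have hy : 0 ≤ y := le_trans (by positivity) h
  have h1 := Conc.lin_tail (ι := Fin n) Conc.sg1_gauss a (c := v)
    (by simpa [dotProduct, sq] using ha) (Real.sqrt_nonneg y)
  refine le_trans (measure_mono fun η hη => ?_) (le_two h1 ?_)
  · exact Real.sqrt_le_iff.2 ⟨abs_nonneg _, by rw [sq_abs]; exact (not_le.1 hη).le⟩
  · rw [Real.sq_sqrt hy, div_le_iff₀ (by positivity)]; linarith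

lemma gauss_sq : ∫ x, x ^ 2 ∂(gaussianReal 0 1) = 1 := by
  have h := variance_eq_integral (μ := gaussianReal 0 1) (X := fun x : ℝ => x) aemeasurable_id
  rw [variance_fun_id_gaussianReal] at h
  simpa using h.symm

/-- tail of a weighted chi-square sum -/
lemma chi (a : V n) {K v u L : ℝ} (hK : 0 < K) (hv : 0 < v) (ha : ∀ i, |a i| ≤ K)
    (h1 : ∑ i, a i ^ 2 ≤ v) (hu : 0 ≤ u) (h2 : 8 * v * L ≤ u ^ 2) (h3 : 8 * K * L ≤ u) :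
    gv (Fin n) {η | ¬ |∑ i, a i * (η i ^ 2 - 1)| ≤ u} ≤ 2 * ex (-L) := by
  have h4 := ((Conc.subE_chi (ι := Fin n) Conc.sg1_gauss (fun _ => gauss_sq) hK ha).mono
    (v' := 2 * v) (by linarith) le_rfl).tail_abs (by positivity) (by positivity) hu
  refine le_trans (measure_mono fun η hη => (not_le.1 hη).le) (le_two h4 (neg_le_neg (le_min ?_ ?_)))
  · rw [le_div_iff₀ (by positivity)]; linarith
  · rw [show 1 / (4 * K) * u / 2 = u / (8 * K) by field_simp; ring, le_div_iff₀ (by positivity)]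
    linarith

lemma un {A B : Set (V n)} {a b : ℝ≥0∞} (h1 : gv (Fin n) A ≤ a) (h2 : gv (Fin n) B ≤ b) :
    gv (Fin n) (A ∪ B) ≤ a + b := (measure_union_le _ _).trans (add_le_add h1 h2)

/-- the good event -/
structure Ev (C ρ q : ℝ) (D e m τ u η : V n) : Prop where
  y1 : (e ⬝ᵥ η) ^ 2 ≤ ρ ^ 2 * q * n / C
  y2 : |∑ i, (1 : V n) i * (η i ^ 2 - 1)| ≤ ρ * n
  y3 : (m ⬝ᵥ η) ^ 2 ≤ ρ ^ 2 * q * n / C
  y4 : (bv e (diagonal D *ᵥ e) ⬝ᵥ η) ^ 2 ≤ q ^ 3 * n / (4 * C)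
  y5 : (bv e (diagonal D *ᵥ m) ⬝ᵥ η) ^ 2 ≤ ρ ^ 2 * q ^ 3 * n / C
  y6 : |∑ i, D i * (η i ^ 2 - 1)| ≤ ρ * q * n / C
  y7 : |∑ i, (fun j => D j ^ 2) i * (η i ^ 2 - 1)| ≤ ρ * q * n / C
  y8 : (bv e (diagonal D *ᵥ τ) ⬝ᵥ η) ^ 2 ≤ q ^ 3 * n ^ 2 / C
  y9 : (τ ⬝ᵥ η) ^ 2 ≤ q ^ 2 * n ^ 2 / C
  y10 : (bv e u ⬝ᵥ η) ^ 2 ≤ ρ ^ 2 * q * n / C

lemma ev_le {C ρ q L ε : ℝ} {D e m τ u : V n} (hn : 0 < n) (hC : 1 ≤ C) (ρ0 : 0 < ρ) (ρ1 : ρ ≤ 1)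
    (q0 : 0 < q) (q1 : q ≤ 1 / 3) (L0 : 0 ≤ L) (hL : 288 * C ^ 2 * L ≤ ρ ^ 2 * q ^ 2 * n)
    (he : e ⬝ᵥ e = 1) (hD : Dv ε q D) (hm : m ⬝ᵥ m ≤ C * q ^ 2)
    (h4 : bv e (diagonal D *ᵥ e) ⬝ᵥ bv e (diagonal D *ᵥ e) ≤ C * q ^ 2)
    (h5 : (diagonal D *ᵥ m) ⬝ᵥ (diagonal D *ᵥ m) ≤ q ^ 2)
    (h8 : (diagonal D *ᵥ τ) ⬝ᵥ (diagonal D *ᵥ τ) ≤ C * q ^ 2 * n) (h9 : τ ⬝ᵥ τ ≤ n)
    (hu : u ⬝ᵥ u ≤ 1) : gv (Fin n) {η | ¬ Ev C ρ q D e m τ u η} ≤ 20 * ex (-L) := by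
  have C0 : 0 < C := by linarith
  have n0 : (0 : ℝ) < n := by exact_mod_cast hn
  have hP := proj_R1 he
  have a1 : C * L ≤ C ^ 2 * L := by gcongr; nlinarith
  have a2 : L ≤ C * L := le_mul_of_one_le_left L0 hC
  have r1 : ρ ^ 2 ≤ ρ := by nlinarith
  have b1 : ρ ^ 2 * q ^ 2 * n ≤ ρ ^ 2 * q * n := by gcongr; nlinarith
  have b2 : ρ ^ 2 * q * n ≤ ρ * q * n := by gcongr
  have b3 : ρ * q * n ≤ 1 * q * n := by gcongr
  have b4 : ρ ^ 2 * q * n ≤ ρ ^ 2 * 1 * n := by gcongr; linarith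
  have b5 : ρ * q * n ≤ ρ * 1 * n := by gcongr; linarith
  have b6 : ρ ^ 2 * q ^ 2 * n ≤ 1 * q ^ 2 * n := by gcongr; linarith
  have hDa : ∀ i, |D i| ≤ 3 := fun i => abs_le.2 ⟨by linarith [hD.lo i], hD.hi i⟩
  have hD2 : ∀ i, D i ^ 2 ≤ 9 := fun i => by
    have := pow_le_pow_left₀ (abs_nonneg _) (hDa i) 2
    rw [sq_abs] at this; linarith
  have c1 : 2 * C * L ≤ ρ ^ 2 * q * n / C := by rw [le_div_iff₀ C0]; linarith
  have c2 : 72 * L ≤ ρ * q * n / C := by rw [le_div_iff₀ C0]; linarith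
  have c3 : 288 * q ^ 2 * n * L ≤ (ρ * q * n / C) ^ 2 := by
    rw [div_pow, le_div_iff₀ (by positivity)]
    have := mul_le_mul_of_nonneg_left (show 288 * C ^ 2 * L ≤ ρ ^ 2 * n by linarith)
      (show 0 ≤ q ^ 2 * n by positivity)
    linarith
  have c4 : 0 ≤ q ^ 2 * n * L := by positivity
  have t1 := lin e (y := ρ ^ 2 * q * n / C) one_pos he.le L0 (by linarith)
  have t2 := chi (1 : V n) (K := 1) (v := n) (u := ρ * n) (L := L) one_pos n0 (by simp) (by simp)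
    (by positivity) (by
      have := mul_le_mul_of_nonneg_left (show 8 * L ≤ ρ ^ 2 * n by linarith) n0.le
      linarith) (by linarith)
  have t3 := lin m (y := ρ ^ 2 * q * n / C) C0
    (hm.trans (mul_le_of_le_one_right C0.le (by nlinarith))) L0 c1
  have t4 := lin _ (y := q ^ 3 * n / (4 * C)) (by positivity) h4 L0 (by
    rw [le_div_iff₀ (by positivity)]
    have := mul_le_mul_of_nonneg_left (show 8 * C ^ 2 * L ≤ q * n by linarith) (sq_nonneg q)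
    linarith)
  have t5 := lin (bv e (diagonal D *ᵥ m)) (y := ρ ^ 2 * q ^ 3 * n / C) (by positivity)
    ((hP.dot_le _).trans h5) L0 (by
    rw [le_div_iff₀ (by positivity)]
    have := mul_le_mul_of_nonneg_left (show 2 * C * L ≤ ρ ^ 2 * q * n by linarith) (sq_nonneg q)
    linarith)
  have t6 := chi D (K := 3) (u := ρ * q * n / C) (L := L) (by norm_num) (by positivity) hDa hD.m2
    (by positivity) (by linarith) (by linarith)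
  have t7 := chi (fun j => D j ^ 2) (K := 9) (v := 36 * q ^ 2 * n) (u := ρ * q * n / C) (L := L)
    (by norm_num) (by positivity) (fun i => by rw [abs_of_nonneg (sq_nonneg _)]; exact hD2 i) (by
      have h1 : ∑ i, (D i ^ 2) ^ 2 ≤ ∑ i, 9 * D i ^ 2 := Finset.sum_le_sum fun i _ => by
        rw [sq (D i ^ 2)]; exact mul_le_mul_of_nonneg_right (hD2 i) (sq_nonneg _)
      rw [← Finset.mul_sum] at h1
      linarith [hD.m2]) (by positivity) (by linarith) (by linarith)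
  have t8 := lin (bv e (diagonal D *ᵥ τ)) (y := q ^ 3 * n ^ 2 / C) (by positivity)
    ((hP.dot_le _).trans h8) L0 (by
    rw [le_div_iff₀ (by positivity)]
    have := mul_le_mul_of_nonneg_left (show 2 * C ^ 2 * L ≤ q * n by linarith)
      (show 0 ≤ q ^ 2 * n by positivity)
    linarith)
  have t9 := lin τ (y := q ^ 2 * n ^ 2 / C) n0 h9 L0 (by
    rw [le_div_iff₀ (by positivity)]
    have := mul_le_mul_of_nonneg_left (show 2 * C * L ≤ q ^ 2 * n by linarith) n0.le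
    linarith)
  have t10 := lin (bv e u) (y := ρ ^ 2 * q * n / C) one_pos ((hP.dot_le _).trans hu) L0 (by linarith)
  have h := un (un (un (un (un (un (un (un (un t1 t2) t3) t4) t5) t6) t7) t8) t9) t10
  refine le_trans (measure_mono fun η hη => ?_) (h.trans (le_of_eq (by ring)))
  by_contra hc
  simp only [Set.mem_union, Set.mem_ofPred_eq, not_or, not_not] at hc
  obtain ⟨⟨⟨⟨⟨⟨⟨⟨⟨k1, k2⟩, k3⟩, k4⟩, k5⟩, k6⟩, k7⟩, k8⟩, k9⟩, k10⟩ := hc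
  exact hη ⟨k1, k2, k3, k4, k5, k6, k7, k8, k9, k10⟩

lemma add_sq_le (a b : V n) (s : ℝ) :
    (a + s • b) ⬝ᵥ (a + s • b) ≤ 2 * (a ⬝ᵥ a) + 2 * s ^ 2 * (b ⬝ᵥ b) := by
  have := dot_self_nonneg (a - s • b)
  simp only [add_dotProduct, dotProduct_add, sub_dotProduct, dotProduct_sub, smul_dotProduct,
    dotProduct_smul, smul_eq_mul, dotProduct_comm b a] at this ⊢
  linarith

lemma sc {σ2 w X y Y : ℝ} (h0 : 0 ≤ X) (h1 : σ2 ≤ w) (h2 : X ≤ y) (w0 : 0 ≤ w) (h3 : w * y ≤ Y) :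
    σ2 * X ≤ Y := (mul_le_mul h1 h2 h0 w0).trans h3

lemma ab {x y : ℝ} (h : x ^ 2 ≤ y ^ 2) (hy : 0 ≤ y) : -y ≤ x ∧ x ≤ y := abs_le_of_sq_le_sq' h hy

lemma qd_eq (D η : V n) : η ⬝ᵥ diagonal D *ᵥ η = ∑ i, D i * (η i ^ 2 - 1) + ∑ i, D i := by
  rw [← Finset.sum_add_distrib]
  simp only [dotProduct, mulVec_diagonal]
  exact Finset.sum_congr rfl fun i _ => by ring

lemma dd_eq (D η : V n) : (diagonal D *ᵥ η) ⬝ᵥ (diagonal D *ᵥ η) =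
    ∑ i, (fun j => D j ^ 2) i * (η i ^ 2 - 1) + ∑ i, D i ^ 2 := by
  rw [← Finset.sum_add_distrib]
  simp only [dotProduct, mulVec_diagonal]
  exact Finset.sum_congr rfl fun i _ => by ring

lemma nn_eq (η : V n) : η ⬝ᵥ η = ∑ i, (1 : V n) i * (η i ^ 2 - 1) + n := by
  simp [dotProduct, sq]

lemma qd_ge {D : V n} {a : ℝ} (h : ∀ i, -a ≤ D i) (m : V n) :
    -(a * (m ⬝ᵥ m)) ≤ m ⬝ᵥ diagonal D *ᵥ m := by
  simp only [dotProduct, mulVec_diagonal, Finset.mul_sum, ← Finset.sum_neg_distrib]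
  exact Finset.sum_le_sum fun i _ => by
    nlinarith [mul_le_mul_of_nonneg_right (h i) (mul_self_nonneg (m i))]

/-- the scaled forms of the good event -/
lemma scaled {C ρ q r σ σ' ε : ℝ} {D e m τ u η : V n} (hn : 0 < n) (hC : 1 ≤ C) (ρ0 : 0 < ρ)
    (ρ1 : ρ ≤ 1 / 2) (q0 : 0 < q) (q1 : q ≤ 1) (ε0 : 0 ≤ ε) (r1 : q ≤ C * r) (r2 : r ≤ C * q)
    (s1 : σ ^ 2 * n ≤ r) (s2 : r * (1 - r) ≤ σ ^ 2 * n) (s3 : σ' ^ 2 * n ≤ r)
    (he : e ⬝ᵥ e = 1) (hm : e ⬝ᵥ m = 0) (hτ : e ⬝ᵥ τ = 0) (hD : Dv ε q D)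
    (h : Ev C ρ q D e m τ u η) :
    (σ' * (e ⬝ᵥ η)) ^ 2 ≤ (ρ * r) ^ 2 ∧ (σ * (e ⬝ᵥ η)) ^ 2 ≤ (ρ * r) ^ 2 ∧
    (σ * (m ⬝ᵥ bv e η)) ^ 2 ≤ (ρ * r) ^ 2 ∧
    (σ * ((diagonal D *ᵥ e) ⬝ᵥ bv e η)) ^ 2 ≤ (q ^ 2 / 2) ^ 2 ∧
    (σ * ((diagonal D *ᵥ m) ⬝ᵥ bv e η)) ^ 2 ≤ (ρ * q ^ 2) ^ 2 ∧
    (σ * ((diagonal D *ᵥ τ) ⬝ᵥ bv e η)) ^ 2 ≤ q ^ 4 * n ∧ (σ * (τ ⬝ᵥ bv e η)) ^ 2 ≤ q ^ 3 * n ∧
    (σ * (u ⬝ᵥ bv e η)) ^ 2 ≤ (ρ * q) ^ 2 ∧
    σ ^ 2 * (bv e η ⬝ᵥ bv e η) ≤ (1 + ρ) * r ∧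
    (1 - 2 * ρ) * (r * (1 - r)) ≤ σ ^ 2 * (bv e η ⬝ᵥ bv e η) ∧
    -(ρ * q ^ 2) ≤ σ ^ 2 * (η ⬝ᵥ diagonal D *ᵥ η) ∧
    σ ^ 2 * ((diagonal D *ᵥ η) ⬝ᵥ (diagonal D *ᵥ η)) ≤ ρ * q ^ 2 + 4 * C * q ^ 3 := by
  have C0 : 0 < C := by linarith
  have n0 : (0 : ℝ) < n := by exact_mod_cast hn
  have r0 : 0 < r := (mul_pos_iff_of_pos_left C0).1 (lt_of_lt_of_le q0 r1)
  have hP := proj_R1 he
  have hξ : ∀ a : V n, a ⬝ᵥ bv e η = bv e a ⬝ᵥ η := fun a => hP.dot a η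
  have hb : ∀ a : V n, e ⬝ᵥ a = 0 → bv e a = a := fun a ha => by
    rw [bv, R1_mulVec, ha, zero_smul, sub_zero]
  have w1 : σ ^ 2 ≤ r / n := by rwa [le_div_iff₀ n0]
  have w2 : σ' ^ 2 ≤ r / n := by rwa [le_div_iff₀ n0]
  have w3 : σ ^ 2 ≤ C * q / n := by rw [le_div_iff₀ n0]; linarith
  have k1 : r / n * (ρ ^ 2 * q * n / C) ≤ (ρ * r) ^ 2 := by
    calc _ = ρ ^ 2 * r * (q / C) := by field_simp
      _ ≤ ρ ^ 2 * r * r := by gcongr; rwa [div_le_iff₀' C0]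
      _ = _ := by ring
  have hx : bv e η ⬝ᵥ bv e η = η ⬝ᵥ η - (e ⬝ᵥ η) ^ 2 := by
    rw [bv, hP.dot_self, R1_mulVec, dotProduct_sub, dotProduct_smul, dotProduct_comm η e,
      smul_eq_mul, sq]
  have k2 : (e ⬝ᵥ η) ^ 2 ≤ ρ * n := by
    refine h.y1.trans ((div_le_self (by positivity) hC).trans ?_)
    calc ρ ^ 2 * q * n = ρ * (ρ * q) * n := by ring
      _ ≤ ρ * (1 * 1) * n := by gcongr; linarith
      _ = _ := by ring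
  obtain ⟨k3, k4⟩ := abs_le.1 h.y2
  have k5 := nn_eq η
  rw [hξ m, hξ (diagonal D *ᵥ e), hξ (diagonal D *ᵥ m), hξ (diagonal D *ᵥ τ), hξ τ, hξ u, hb m hm,
    hb τ hτ]
  simp only [mul_pow σ, mul_pow σ']
  refine ⟨sc (sq_nonneg _) w2 h.y1 (by positivity) k1, sc (sq_nonneg _) w1 h.y1 (by positivity) k1,
    sc (sq_nonneg _) w1 h.y3 (by positivity) k1,
    sc (sq_nonneg _) w3 h.y4 (by positivity) (le_of_eq (by field_simp; ring)),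
    sc (sq_nonneg _) w3 h.y5 (by positivity) (le_of_eq (by field_simp)),
    sc (sq_nonneg _) w3 h.y8 (by positivity) (le_of_eq (by field_simp)),
    sc (sq_nonneg _) w3 h.y9 (by positivity) (le_of_eq (by field_simp)),
    sc (sq_nonneg _) w3 h.y10 (by positivity) (le_of_eq (by field_simp)),
    sc (y := (1 + ρ) * n) (dot_self_nonneg _) w1 (by rw [hx]; linarith [sq_nonneg (e ⬝ᵥ η)])
      (by positivity) (le_of_eq (by field_simp)), ?_, ?_,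
    sc (y := ρ * q * n / C + 4 * q ^ 2 * n) (dot_self_nonneg _) w3
      (by rw [dd_eq]; linarith [(abs_le.1 h.y7).2, hD.m2]) (by positivity)
      (le_of_eq (by field_simp))⟩
  · calc _ ≤ (1 - 2 * ρ) * (σ ^ 2 * n) := mul_le_mul_of_nonneg_left s2 (by linarith)
      _ = σ ^ 2 * ((1 - 2 * ρ) * n) := by ring
      _ ≤ _ := mul_le_mul_of_nonneg_left (by rw [hx]; linarith) (sq_nonneg _)
  · have j1 : 0 ≤ ∑ i, D i ^ 2 := Finset.sum_nonneg fun i _ => sq_nonneg _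
    have j2 : 0 ≤ ε * q ^ 2 * n := by positivity
    have j3 : -(ρ * q * n / C) ≤ η ⬝ᵥ diagonal D *ᵥ η := by
      rw [qd_eq]; linarith [(abs_le.1 h.y6).1, hD.gap]
    have j4 := mul_le_mul_of_nonneg_left j3 (sq_nonneg σ)
    have j5 : σ ^ 2 * (ρ * q * n / C) ≤ ρ * q ^ 2 :=
      sc (by positivity) w3 le_rfl (by positivity) (le_of_eq (by field_simp))
    linarith

set_option maxHeartbeats 1000000 in
/-- the deterministic step -/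
lemma det {C ρ κ δ q r σ σ' ec β ε : ℝ} {D e m τ u η : V n} (hn : 0 < n) (hC : 1 ≤ C) (ρ0 : 0 < ρ)
    (ρδ : 20 * ρ ≤ δ) (δ1 : δ ≤ 1) (κρ : 100 * C ^ 3 * κ ≤ ρ) (q0 : 0 < q) (qκ : q ≤ κ) (ε0 : 0 ≤ ε)
    (r1 : q ≤ C * r) (r2 : r ≤ C * q)
    (s1 : σ ^ 2 * n ≤ r) (s2 : r * (1 - r) ≤ σ ^ 2 * n) (s3 : σ' ^ 2 * n ≤ r)
    (he : e ⬝ᵥ e = 1) (hm : e ⬝ᵥ m = 0) (hτ : e ⬝ᵥ τ = 0) (hD : Dv ε q D)
    (b0 : 0 ≤ β) (b1 : β ≤ 1) (d1 : (1 - κ) * n ≤ τ ⬝ᵥ τ) (t2 : τ ⬝ᵥ τ ≤ n)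
    (d2 : |2 - ec - r| ≤ κ * r) (d3 : m ⬝ᵥ m ≤ C * q ^ 2)
    (d4 : (diagonal D *ᵥ m) ⬝ᵥ (diagonal D *ᵥ m) ≤ κ * q ^ 2)
    (d5 : 3 * q ^ 2 ≤ e ⬝ᵥ diagonal D *ᵥ e - β + 2 * (e ⬝ᵥ diagonal D *ᵥ m) -
      bv e (diagonal D *ᵥ e) ⬝ᵥ bv e (diagonal D *ᵥ e))
    (d6 : bv e (diagonal D *ᵥ e) ⬝ᵥ bv e (diagonal D *ᵥ e) ≤ C * q ^ 2)
    (d7 : |e ⬝ᵥ diagonal D *ᵥ m| ≤ C * q ^ 2) (d8 : |e ⬝ᵥ diagonal D *ᵥ e| ≤ C * q)
    (u1 : (diagonal D *ᵥ τ) ⬝ᵥ (diagonal D *ᵥ τ) ≤ C * q ^ 2 * n)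
    (u2 : -(C * q ^ 2 * n) ≤ τ ⬝ᵥ diagonal D *ᵥ τ) (u3 : (e ⬝ᵥ diagonal D *ᵥ τ) ^ 2 ≤ C * q ^ 4 * n)
    (u4 : (m ⬝ᵥ diagonal D *ᵥ τ) ^ 2 ≤ C * q ^ 4 * n) (u5 : (m ⬝ᵥ τ) ^ 2 ≤ C * q ^ 3 * n)
    (h : Ev C ρ q D e m τ u η) :
    St (2 * C + 2) δ q D β e (m + σ • bv e η + (ec + σ' * (e ⬝ᵥ η)) • e) τ ∧
      (u ⬝ᵥ bv e (m + σ • bv e η + (ec + σ' * (e ⬝ᵥ η)) • e) - u ⬝ᵥ m) ^ 2 ≤ (ρ * q) ^ 2 := by
  have C0 : 0 < C := by linarith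
  have n0 : (0 : ℝ) < n := by exact_mod_cast hn
  have r0 : 0 < r := (mul_pos_iff_of_pos_left C0).1 (lt_of_lt_of_le q0 r1)
  have κ0 : 0 < κ := lt_of_lt_of_le q0 qκ
  have p1 : ∀ j ≤ 3, C ^ j * κ ≤ ρ / 100 := fun j hj => by
    linarith [mul_le_mul_of_nonneg_right (pow_le_pow_right₀ hC hj) κ0.le]
  have p2 : ∀ j ≤ 3, C ^ j * q ≤ ρ / 100 := fun j hj =>
    (mul_le_mul_of_nonneg_left qκ (by positivity)).trans (p1 j hj)
  have κ1 : κ ≤ ρ / 100 := by simpa using p1 0 (by norm_num)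
  have q1 : C * q ≤ ρ / 100 := by simpa using p2 1 (by norm_num)
  have q2 := p2 2 (by norm_num)
  have q3 := p2 3 (by norm_num)
  obtain ⟨E1, E1', E3, E4, E5, E8, E9, E10, N1, N2, N3, N4⟩ := scaled hn hC ρ0 (by linarith) q0
    (by linarith) ε0 r1 r2 s1 s2 s3 he hm hτ hD h
  have hP := proj_R1 he
  have hDs : (diagonal D)ᵀ = diagonal D := diagonal_transpose D
  obtain ⟨s, hs⟩ : ∃ s, s = e ⬝ᵥ η := ⟨_, rfl⟩
  obtain ⟨ξ, hξ⟩ : ∃ ξ, ξ = bv e η := ⟨_, rfl⟩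
  have eξ : e ⬝ᵥ ξ = 0 := by rw [hξ, bv, hP.dot, R1_e he, zero_dotProduct]
  have ηe : η = (1 : ℝ) • ξ + s • e := by rw [hξ, bv, R1_mulVec, hs, one_smul, sub_add_cancel]
  simp only [← hs, ← hξ] at E1 E1' E3 E4 E5 E8 E9 E10 N1 N2 ⊢
  clear h p1 p2 s1 s2 s3 hs hξ
  have ce : e ⬝ᵥ (m + σ • ξ + (ec + σ' * s) • e) = ec + σ' * s := by
    simp only [dotProduct_add, dotProduct_smul, hm, eξ, he, smul_eq_mul]; ring
  have cb : bv e (m + σ • ξ + (ec + σ' * s) • e) = (1 : ℝ) • m + σ • ξ := by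
    rw [bv, R1_mulVec, ce, add_sub_cancel_right, one_smul]
  have ρr := mul_pos ρ0 r0
  have qq : 0 < q ^ 2 := by positivity
  have ρq := mul_pos ρ0 qq
  obtain ⟨f1, f2⟩ := ab E1 ρr.le
  obtain ⟨f3, f4⟩ := ab E3 ρr.le
  obtain ⟨f5, f6⟩ := ab E4 (by positivity)
  obtain ⟨f7, -⟩ := ab E5 ρq.le
  obtain ⟨g1, g2⟩ := abs_le.1 d2
  obtain ⟨g3, g4⟩ := abs_le.1 d7
  obtain ⟨g5, g6⟩ := abs_le.1 d8
  have κr : κ * r ≤ ρ / 100 * r := by gcongr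
  have ρr1 : ρ * r ≤ 1 / 20 * r := by gcongr; linarith
  have S1 : r / 2 ≤ 2 - (ec + σ' * s) := by linarith
  have eD : e ⬝ᵥ diagonal D *ᵥ ((1 : ℝ) • m + σ • ξ) =
      e ⬝ᵥ diagonal D *ᵥ m + σ * ((diagonal D *ᵥ e) ⬝ᵥ ξ) := by
    rw [one_smul, mulVec_add, mulVec_smul, dotProduct_add, dotProduct_smul, dot_symm hDs e ξ,
      smul_eq_mul]
  have qn : 0 ≤ q ^ 2 * n := by positivity
  have De : (diagonal D *ᵥ e) ⬝ᵥ (diagonal D *ᵥ e) ≤ 2 * C ^ 2 * q ^ 2 := by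
    have i1 : bv e (diagonal D *ᵥ e) ⬝ᵥ bv e (diagonal D *ᵥ e) =
        (diagonal D *ᵥ e) ⬝ᵥ (diagonal D *ᵥ e) - (e ⬝ᵥ diagonal D *ᵥ e) ^ 2 := by
      rw [bv, hP.dot_self, R1_mulVec, dotProduct_sub, dotProduct_smul,
        dotProduct_comm (diagonal D *ᵥ e) e, smul_eq_mul, sq]
    have i2 : (e ⬝ᵥ diagonal D *ᵥ e) ^ 2 ≤ (C * q) ^ 2 := sq_le_sq' g5 g6
    have i3 : C ^ 1 * q ^ 2 ≤ C ^ 2 * q ^ 2 :=
      mul_le_mul_of_nonneg_right (pow_le_pow_right₀ hC (by norm_num)) qq.le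
    linarith
  have σs : (σ * s) ^ 2 ≤ (ρ * (C * q)) ^ 2 := E1'.trans (by gcongr)
  refine ⟨⟨he, hτ, le_trans (by gcongr; linarith) d1, t2, b0, b1, ?_, ?_, ?_, ?_,
    d6.trans (by gcongr; linarith), ?_, ?_, ?_, u1.trans (by gcongr; linarith), ?_,
    u3.trans (by gcongr; linarith), ?_, ?_⟩, ?_⟩
  · rw [ce, div_le_iff₀ (by positivity)]
    linarith [mul_le_mul_of_nonneg_left S1 C0.le]
  · rw [ce]; linarith
  · have i1 : ((1 : ℝ) • m + σ • ξ) ⬝ᵥ ((1 : ℝ) • m + σ • ξ) =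
        m ⬝ᵥ m + 2 * (σ * (m ⬝ᵥ ξ)) + σ ^ 2 * (ξ ⬝ᵥ ξ) := by
      simp only [one_smul, add_dotProduct, dotProduct_add, smul_dotProduct, dotProduct_smul,
        smul_eq_mul, dotProduct_comm ξ m]; ring
    have i2 : C * q ^ 2 ≤ ρ / 100 * r := by
      calc C * q ^ 2 = C * q * q := by ring
        _ ≤ C * q * (C * r) := by gcongr
        _ = C ^ 2 * q * r := by ring
        _ ≤ _ := by gcongr
    have i3 : r * r ≤ ρ / 100 * r := by gcongr; linarith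
    have i4 := mul_nonneg ρr.le r0.le
    have i5 : δ * (r / 2) ≤ δ * (2 - (ec + σ' * s)) := by gcongr; linarith
    have i6 : 20 * ρ * r ≤ δ * r := by gcongr
    have i7 := dot_self_nonneg m
    rw [cb, ce, i1, abs_le]
    constructor <;> linarith
  · rw [cb, eD]; linarith
  · rw [cb, eD, abs_le]
    constructor <;> linarith [mul_pos C0 qq]
  · have i1 := qf_expand hDs 1 s ξ e
    rw [← ηe, qf_comm hDs ξ e, dot_symm hDs e ξ] at i1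
    have i2 := qd_ge hD.lo m
    have i3 : 3 * q * (m ⬝ᵥ m) ≤ 3 * q * (C * q ^ 2) := by gcongr
    have i4 : 2 * (σ * s) * (σ * ((diagonal D *ᵥ e) ⬝ᵥ ξ)) ≤ ρ * (C * q) * q ^ 2 := by
      have j1 : ((σ * s) * (σ * ((diagonal D *ᵥ e) ⬝ᵥ ξ))) ^ 2 ≤ (ρ * (C * q) * (q ^ 2 / 2)) ^ 2 := by
        rw [mul_pow (σ * s), mul_pow (ρ * (C * q))]; gcongr
      linarith [(ab j1 (by positivity)).2]
    have i5 : (σ * s) ^ 2 * (e ⬝ᵥ diagonal D *ᵥ e) ≤ (ρ * (C * q)) ^ 2 * (C * q) :=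
      (mul_le_mul_of_nonneg_left g6 (sq_nonneg _)).trans (by gcongr)
    have i6 : (ρ * (C * q)) ^ 2 * (C * q) ≤ ρ / 100 * q ^ 2 := by
      calc _ = ρ ^ 2 * (C ^ 3 * q) * q ^ 2 := by ring
        _ ≤ 1 ^ 2 * (ρ / 100) * q ^ 2 := by gcongr; linarith
        _ = _ := by ring
    have i7 : ρ * (C * q) * q ^ 2 ≤ 1 * (ρ / 100) * q ^ 2 := by gcongr; linarith
    have i8 := mul_le_mul_of_nonneg_right q1 qq.le
    have i9 := mul_le_mul_of_nonneg_right ρδ qq.le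
    have i10 : σ ^ 2 * (ξ ⬝ᵥ diagonal D *ᵥ ξ) = σ ^ 2 * (η ⬝ᵥ diagonal D *ᵥ η) -
        2 * (σ * s) * (σ * ((diagonal D *ᵥ e) ⬝ᵥ ξ)) - (σ * s) ^ 2 * (e ⬝ᵥ diagonal D *ᵥ e) := by
      rw [i1]; ring
    rw [cb, qf_expand hDs, dot_symm hDs m ξ]
    linarith
  · have i1 := add_sq_le (diagonal D *ᵥ m) (diagonal D *ᵥ ξ) σ
    have i2 := add_sq_le (diagonal D *ᵥ η) (diagonal D *ᵥ e) (-s)
    have i3 : diagonal D *ᵥ η + (-s) • diagonal D *ᵥ e = diagonal D *ᵥ ξ := by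
      conv_lhs => rw [ηe]
      rw [one_smul, mulVec_add, mulVec_smul, neg_smul, add_neg_cancel_right]
    rw [i3] at i2
    have i4 := mul_le_mul_of_nonneg_left i2 (sq_nonneg σ)
    have i5 : (σ * s) ^ 2 * ((diagonal D *ᵥ e) ⬝ᵥ (diagonal D *ᵥ e)) ≤ ρ / 50 * q ^ 2 := by
      calc _ ≤ (ρ * (C * q)) ^ 2 * (2 * C ^ 2 * q ^ 2) :=
            mul_le_mul σs De (dot_self_nonneg _) (sq_nonneg _)
        _ = 2 * ρ ^ 2 * (C ^ 2 * q) * (C ^ 2 * q) * q ^ 2 := by ring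
        _ ≤ 2 * 1 ^ 2 * 1 * (ρ / 100) * q ^ 2 := by gcongr <;> linarith
        _ = _ := by ring
    have i8 := mul_le_mul_of_nonneg_right q1 qq.le
    have i9 := mul_le_mul_of_nonneg_right ρδ qq.le
    have i10 := mul_le_mul_of_nonneg_right κ1 qq.le
    rw [cb, one_smul, mulVec_add, mulVec_smul]
    linarith
  · linarith [mul_nonneg C0.le qn]
  · have i1 : ((1 : ℝ) • m + σ • ξ) ⬝ᵥ diagonal D *ᵥ τ =
        m ⬝ᵥ diagonal D *ᵥ τ + σ * ((diagonal D *ᵥ τ) ⬝ᵥ ξ) := by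
      rw [one_smul, add_dotProduct, smul_dotProduct, dotProduct_comm ξ, smul_eq_mul]
    rw [cb, i1]
    linarith [sq_nonneg (m ⬝ᵥ diagonal D *ᵥ τ - σ * ((diagonal D *ᵥ τ) ⬝ᵥ ξ))]
  · have i1 : ((1 : ℝ) • m + σ • ξ) ⬝ᵥ τ = m ⬝ᵥ τ + σ * (τ ⬝ᵥ ξ) := by
      rw [one_smul, add_dotProduct, smul_dotProduct, dotProduct_comm ξ, smul_eq_mul]
    rw [cb, i1]
    linarith [sq_nonneg (m ⬝ᵥ τ - σ * (τ ⬝ᵥ ξ))]
  · rw [cb, one_smul, dotProduct_add, dotProduct_smul, add_sub_cancel_left, smul_eq_mul]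
    exact E10

lemma ee_unit {x : V n} (h : 0 < aS x) : ee x ⬝ᵥ ee x = 1 := by
  refine unitv_dot fun h0 => ?_
  rw [aS, h0] at h
  simp [avg] at h

lemma e_bv {e : V n} (he : e ⬝ᵥ e = 1) (a : V n) : e ⬝ᵥ bv e a = 0 := by
  rw [bv, (proj_R1 he).dot, R1_e he, zero_dotProduct]

lemma e_mb {x : V n} (he : ee x ⬝ᵥ ee x = 1) (t : ℝ) : ee x ⬝ᵥ mb t x = 0 := by
  simp only [mb, tau, dotProduct_smul, dotProduct_add, e_bv he, smul_zero, add_zero]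

lemma tau_le {x : V n} (he : ee x ⬝ᵥ ee x = 1) : tau x ⬝ᵥ tau x ≤ n :=
  ((proj_R1 he).dot_le _).trans (le_of_eq (by simp [dotProduct]))

end Gn11

open Gn11 in
/-- **the column statistics**, with one more direction `u` -/
theorem gnU : ∀ C ≥ (1 : ℝ), ∃ c > (0 : ℝ), ∀ (n : ℕ) (t δ ε β : ℝ)
    (D x u : V n), 0 < n → 0 < t → δ ∈ Ioc (0 : ℝ) 1 → aS x ≤ c * δ → 0 ≤ ε → Dv ε (aS x) D →
    MD C (c * δ) t D β x → u ⬝ᵥ u ≤ 1 →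
    gv (Fin n) {η | ¬ (St (2 * C + 2) δ (aS x) D β (ee x) (col t x η) (tau x) ∧
      (u ⬝ᵥ bv (ee x) (col t x η) - u ⬝ᵥ mb t x) ^ 2 ≤ (δ / 20 * aS x) ^ 2)} ≤
      20 * ex (-(c * δ ^ 2 * n * aS x ^ 2)) := by
  intro C hC
  have C0 : 0 < C := by linarith
  obtain ⟨c, c0, c1⟩ : ∃ c : ℝ, 0 < c ∧ 115200 * C ^ 3 * c = 1 :=
    ⟨1 / (115200 * C ^ 3), by positivity, by field_simp⟩
  refine ⟨c, c0, fun n t δ ε β D x u hn ht hδ hq hε hD h hu => ?_⟩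
  have n0 : (0 : ℝ) < n := by exact_mod_cast hn
  have δ0 := hδ.1
  have δ1 := hδ.2
  have q0 := h.q0
  have he := ee_unit q0
  have C3 : 1 ≤ C ^ 3 := one_le_pow₀ hC
  have c2 : c ≤ 1 / 115200 := by linarith [mul_le_mul_of_nonneg_right C3 c0.le]
  have c3 : C ^ 2 * c ≤ 1 / 115200 := by
    linarith [mul_le_mul_of_nonneg_right (pow_le_pow_right₀ hC (show 2 ≤ 3 by norm_num)) c0.le]
  have κ1 : c * δ ≤ 1 / 115200 := (mul_le_of_le_one_right c0.le δ1).trans c2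
  have hκ : 100 * C ^ 3 * (c * δ) ≤ δ / 20 := by
    have : 100 * C ^ 3 * (c * δ) = δ / 1152 := by linear_combination δ / 1152 * c1
    linarith
  refine le_trans (measure_mono ?_)
    (ev_le (ρ := δ / 20) (u := u) hn hC (by positivity) (by linarith) q0 (by linarith)
      (by positivity) ?_ he hD h.d3 h.d6
      (h.d4.trans (mul_le_of_le_one_left (sq_nonneg _) (by linarith))) h.u1 (tau_le he) hu)
  · intro η hη hE
    refine hη ?_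
    have g0 : 0 < ga t x := add_pos q0 ht
    have s0 : Real.sqrt (t / (ga t x * n)) ^ 2 * n = t / (aS x + t) := by
      rw [Real.sq_sqrt (by positivity), ga]; field_simp
    refine det hn hC (by positivity) (by linarith) δ1 hκ q0 hq hε (r := t / aS x) ?_ ?_ ?_ ?_ ?_
      he (e_mb he t) (e_bv he _) hD h.b0 h.b1 h.d1 (tau_le he) h.d2 h.d3 h.d4 h.d5 h.d6 h.d7 h.d8
      h.u1 h.u2 h.u3 h.u4 h.u5 hE
    · rw [← mul_div_assoc, le_div_iff₀ q0]; linarith [h.t2]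
    · rw [div_le_iff₀ q0]; linarith [h.t1]
    · rw [s0]; gcongr; linarith
    · rw [s0, le_div_iff₀ (by positivity)]
      have : t / aS x * (1 - t / aS x) * (aS x + t) = t - t * (t / aS x) ^ 2 := by field_simp; ring
      rw [this]
      linarith [mul_nonneg ht.le (sq_nonneg (t / aS x))]
    · rw [Real.sq_sqrt (by positivity)]
      calc _ = 2 * t / (t + 2 * aS x) := by field_simp
        _ ≤ 2 * t / (2 * aS x) := by gcongr; linarith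
        _ = _ := by field_simp
  · calc _ = 288 * (C ^ 2 * c) * (δ ^ 2 * aS x ^ 2 * n) := by ring
      _ ≤ 288 * (1 / 115200) * (δ ^ 2 * aS x ^ 2 * n) := by gcongr
      _ = _ := by ring

/-- **`GnStmt`** -/
theorem gnStmt : GnStmt := by
  intro C hC
  obtain ⟨c, c0, h⟩ := gnU C hC
  refine ⟨2 * C + 2, by linarith, c, c0, fun n t δ ε β D x hn ht hδ hq hε hD hM => ?_⟩
  refine le_trans (measure_mono ?_) (h n t δ ε β D x 0 hn ht hδ hq hε hD hM (by simp))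
  exact fun η hη hE => hη hE.1

end Crest.Agent.T157.Kb

end
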