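import Crest.Agent.T157.KbDef_24

/-!
# Row 157, part A2, section 2 (helper67): the grid lemma and the tilt lemma of `KbDef_24`
-/

set_option autoImplicit false

noncomputable section

namespace Crest.Agent.T157.Kb

open MeasureTheory Set
open scoped ENNReal
open Crest.Agent.T157.Tap
open Crest.Agent.T157.Conc (ex ex_add ex_mono ex_ne_top measurable_ex)

namespace G67

lemma meas_tanh : Measurable Real.tanh := by
  have e : Real.tanh = fun y => Real.sinh y / Real.cosh y :=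
    funext fun y => Real.tanh_eq_sinh_div_cosh y
  rw [e]
  exact Real.continuous_sinh.measurable.div Real.continuous_cosh.measurable

lemma meas_gR (m v u : ℝ) : Measurable (gR m v u) := by
  have := meas_tanh
  unfold gR
  fun_prop

/-- one site: moving to a grid point costs `2 / N` -/
lemma gR_le {N m v u m0 v0 u0 : ℝ} (x : ℝ) (hN : 2 ≤ N) (hv : 1 / N ≤ v)
    (hm : |m - m0| ≤ 1 / N ^ 3) (hv1 : v * (1 + 1 / N) ≤ v0) (hv2 : v0 ≤ v * (1 + 2 / N))
    (hu1 : u - 1 / N ^ 3 ≤ u0) (hu2 : u0 ≤ u) (hu : u ≤ 1 / 2) :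
    gR m v u x ≤ gR m0 v0 u0 x + 2 / N := by
  have hN0 : 0 < N := by linarith
  have hv0 : 0 < v := lt_of_lt_of_le (by positivity) hv
  have h1N : 0 < 1 + 1 / N := by positivity
  have hv00 : 0 < v0 := lt_of_lt_of_le (by positivity) hv1
  set p := Real.tanh x with hp
  have hp1 : p ^ 2 < 1 := Real.tanh_sq_lt_one x
  have hpa : |p| ≤ 1 := by
    rw [← sq_le_one_iff_abs_le_one]; exact hp1.le
  have h3 : (1 - p ^ 2) * Real.log (1 - u) ≤ (1 - p ^ 2) * Real.log (1 - u0) :=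
    mul_le_mul_of_nonneg_left (Real.log_le_log (by linarith) (by linarith)) (by linarith)
  have h2 : Real.log (2 * Real.pi * v0) ≤ Real.log (2 * Real.pi * v) + 2 / N := by
    have hpi := Real.pi_pos
    have e : Real.log (2 * Real.pi * v * (1 + 2 / N)) =
        Real.log (2 * Real.pi * v) + Real.log (1 + 2 / N) :=
      Real.log_mul (by positivity) (by positivity)
    have a : Real.log (2 * Real.pi * v0) ≤ Real.log (2 * Real.pi * v * (1 + 2 / N)) := by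
      refine Real.log_le_log (by positivity) ?_
      rw [mul_assoc (2 * Real.pi)]
      exact mul_le_mul_of_nonneg_left hv2 (by positivity)
    have b : Real.log (1 + 2 / N) ≤ 1 + 2 / N - 1 := Real.log_le_sub_one_of_pos (by positivity)
    linarith
  set A := x - u * p - m with hA
  set d := (u - u0) * p + (m - m0) with hd
  have hAd : x - u0 * p - m0 = A + d := by rw [hA, hd]; ring
  have hda : |d| ≤ 2 / N ^ 3 := by
    have a : |(u - u0) * p| ≤ 1 / N ^ 3 := by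
      rw [abs_mul, abs_of_nonneg (by linarith : 0 ≤ u - u0)]
      calc (u - u0) * |p| ≤ (u - u0) * 1 := mul_le_mul_of_nonneg_left hpa (by linarith)
        _ ≤ 1 / N ^ 3 := by linarith
    calc |d| ≤ |(u - u0) * p| + |m - m0| := abs_add_le _ _
      _ ≤ 1 / N ^ 3 + 1 / N ^ 3 := add_le_add a hm
      _ = 2 / N ^ 3 := by ring
  have hd2 : d ^ 2 ≤ (2 / N ^ 3) ^ 2 := by
    rw [← sq_abs d]; exact pow_le_pow_left₀ (abs_nonneg _) hda 2
  have hsq : (A + d) ^ 2 ≤ (1 + 1 / N) * (A ^ 2 + N * d ^ 2) := by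
    have : (1 + 1 / N) * (A ^ 2 + N * d ^ 2) - (A + d) ^ 2 = (A - N * d) ^ 2 / N := by
      field_simp; ring
    have h : 0 ≤ (A - N * d) ^ 2 / N := by positivity
    linarith
  have h1 : (A + d) ^ 2 / (2 * v0) ≤ A ^ 2 / (2 * v) + 1 / N := by
    have a : (A + d) ^ 2 / (2 * v0) ≤ (1 + 1 / N) * (A ^ 2 + N * d ^ 2) / (2 * (v * (1 + 1 / N))) :=
      div_le_div₀ (by positivity) hsq (by positivity) (by linarith)
    have e : (1 + 1 / N) * (A ^ 2 + N * d ^ 2) / (2 * (v * (1 + 1 / N))) =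
        A ^ 2 / (2 * v) + N * d ^ 2 / (2 * v) := by
      field_simp
    have b : N * d ^ 2 / (2 * v) ≤ N * (2 / N ^ 3) ^ 2 / (2 * (1 / N)) :=
      div_le_div₀ (by positivity) (mul_le_mul_of_nonneg_left hd2 hN0.le) (by positivity)
        (by linarith)
    have c : N * (2 / N ^ 3) ^ 2 / (2 * (1 / N)) = 2 / N ^ 3 * (1 / N) := by
      field_simp
    have c' : 2 / N ^ 3 ≤ 1 := by
      rw [div_le_one (by positivity)]
      have : (2 : ℝ) ^ 3 ≤ N ^ 3 := pow_le_pow_left₀ (by norm_num) hN 3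
      linarith
    have c'' : 2 / N ^ 3 * (1 / N) ≤ 1 * (1 / N) := mul_le_mul_of_nonneg_right c' (by positivity)
    linarith
  unfold gR
  rw [← hp, ← hA, hAd]
  have e2 : 2 / N = 2 * (1 / N) := by ring
  simp only [neg_div]
  linarith

/-- the grid -/
def grid (n : ℕ) : Finset (ℤ × ℤ × ℤ) :=
  (Finset.Icc (-(4 * (n : ℤ) ^ 3)) (4 * (n : ℤ) ^ 3) ×ˢ Finset.Icc (1 : ℤ) (40 * (n : ℤ) ^ 2) ×ˢ
    Finset.Icc (-(4 * (n : ℤ) ^ 3)) (4 * (n : ℤ) ^ 3)).filter
    fun p => (p.2.2 : ℝ) / (n : ℝ) ^ 3 ≤ 1 / 2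

lemma card_grid {n : ℕ} (hn : 2 ≤ n) : (grid n).card ≤ n ^ 20 := by
  refine (Finset.card_filter_le _ _).trans ?_
  rw [Finset.card_product, Finset.card_product, Int.card_Icc, Int.card_Icc]
  have e1 : (4 * (n : ℤ) ^ 3 + 1 - -(4 * (n : ℤ) ^ 3)).toNat = 8 * n ^ 3 + 1 := by
    have : (4 * (n : ℤ) ^ 3 + 1 - -(4 * (n : ℤ) ^ 3)) = ((8 * n ^ 3 + 1 : ℕ) : ℤ) := by
      push_cast; ring
    rw [this, Int.toNat_natCast]
  have e2 : (40 * (n : ℤ) ^ 2 + 1 - 1).toNat = 40 * n ^ 2 := by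
    have : (40 * (n : ℤ) ^ 2 + 1 - 1) = ((40 * n ^ 2 : ℕ) : ℤ) := by
      push_cast; ring
    rw [this, Int.toNat_natCast]
  rw [e1, e2]
  have h3 : 1 ≤ n ^ 3 := Nat.one_le_pow _ _ (by omega)
  have a : 8 * n ^ 3 + 1 ≤ 9 * n ^ 3 := by omega
  have b : 2 ^ 12 ≤ n ^ 12 := Nat.pow_le_pow_left hn 12
  calc (8 * n ^ 3 + 1) * (40 * n ^ 2 * (8 * n ^ 3 + 1))
      ≤ (9 * n ^ 3) * (40 * n ^ 2 * (9 * n ^ 3)) := by gcongr
    _ = 3240 * n ^ 8 := by ring
    _ ≤ n ^ 12 * n ^ 8 := Nat.mul_le_mul_right _ (by omega)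
    _ = n ^ 20 := by ring

lemma floor_mem {n : ℕ} (hn : 2 ≤ n) {m : ℝ} (hm : |m| ≤ 4) :
    ⌊m * (n : ℝ) ^ 3⌋ ∈ Finset.Icc (-(4 * (n : ℤ) ^ 3)) (4 * (n : ℤ) ^ 3) ∧
    m - 1 / (n : ℝ) ^ 3 ≤ (⌊m * (n : ℝ) ^ 3⌋ : ℝ) / (n : ℝ) ^ 3 ∧
    (⌊m * (n : ℝ) ^ 3⌋ : ℝ) / (n : ℝ) ^ 3 ≤ m := by
  have hN : (0 : ℝ) < n := by exact_mod_cast (by omega : 0 < n)
  have h3 : (0 : ℝ) < (n : ℝ) ^ 3 := by positivity
  have h := abs_le.1 hm
  have f1 := Int.floor_le (m * (n : ℝ) ^ 3)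
  have f2 := Int.lt_floor_add_one (m * (n : ℝ) ^ 3)
  refine ⟨Finset.mem_Icc.2 ⟨?_, ?_⟩, ?_, ?_⟩
  · rw [Int.le_floor]; push_cast; nlinarith
  · have : (⌊m * (n : ℝ) ^ 3⌋ : ℝ) ≤ ((4 * (n : ℤ) ^ 3 : ℤ) : ℝ) := by push_cast; nlinarith
    exact_mod_cast this
  · rw [le_div_iff₀ h3, sub_mul, div_mul_cancel₀ _ h3.ne']; linarith
  · rw [div_le_iff₀ h3]; exact f1

lemma exists_grid {n : ℕ} (hn : 2 ≤ n) {m v u : ℝ} (hm : |m| ≤ 4) (hv : v ∈ Icc (1 / (n : ℝ)) 20)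
    (hu : u ∈ Icc (-2 : ℝ) (1 / 2)) : ∃ p ∈ grid n,
    Cl n m v u (p.1 / (n : ℝ) ^ 3) (p.2.1 / (n : ℝ) ^ 2) (p.2.2 / (n : ℝ) ^ 3) ∧
    ∀ x : V n, ∑ i, gR m v u (x i) ≤
      ∑ i, gR (p.1 / (n : ℝ) ^ 3) (p.2.1 / (n : ℝ) ^ 2) (p.2.2 / (n : ℝ) ^ 3) (x i) + 2 := by
  have hN2 : (2 : ℝ) ≤ n := by exact_mod_cast hn
  have hN : (0 : ℝ) < n := by linarith
  have h2 : (0 : ℝ) < (n : ℝ) ^ 2 := by positivity
  have hv0 : 0 < v := lt_of_lt_of_le (by positivity) hv.1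
  obtain ⟨m1, m2, m3⟩ := floor_mem hn hm
  obtain ⟨u1, u2, u3⟩ := floor_mem hn (m := u) (abs_le.2 ⟨by linarith [hu.1], by linarith [hu.2]⟩)
  have c1 := Int.le_ceil (v * (1 + 1 / n) * (n : ℝ) ^ 2)
  have c2 := Int.ceil_lt_add_one (v * (1 + 1 / n) * (n : ℝ) ^ 2)
  set k := ⌈v * (1 + 1 / n) * (n : ℝ) ^ 2⌉ with hk
  have k1 : v * (1 + 1 / n) ≤ k / (n : ℝ) ^ 2 := by rw [le_div_iff₀ h2]; exact c1
  have hvn : 1 ≤ v * n := by have := hv.1; rwa [div_le_iff₀ hN] at this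
  have k2 : k / (n : ℝ) ^ 2 ≤ v * (1 + 2 / n) := by
    rw [div_le_iff₀ h2]
    have e : v * (1 + 2 / n) * (n : ℝ) ^ 2 = v * (1 + 1 / n) * (n : ℝ) ^ 2 + v * n := by
      field_simp; ring
    linarith
  have h33 : 1 / (n : ℝ) ^ 3 ≤ v / (n : ℝ) ^ 2 := by
    have e : 1 / (n : ℝ) ^ 3 = 1 / n / (n : ℝ) ^ 2 := by field_simp
    rw [e]; exact div_le_div_of_nonneg_right hv.1 h2.le
  have hmm : |m - ⌊m * (n : ℝ) ^ 3⌋ / (n : ℝ) ^ 3| ≤ 1 / (n : ℝ) ^ 3 := by
    rw [abs_of_nonneg (by linarith)]; linarith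
  refine ⟨(⌊m * (n : ℝ) ^ 3⌋, k, ⌊u * (n : ℝ) ^ 3⌋), ?_, ⟨hmm.trans h33, ?_, k2, ?_, u3, ?_⟩, ?_⟩
  · refine Finset.mem_filter.2 ⟨Finset.mem_product.2 ⟨m1, Finset.mem_product.2 ⟨?_, u1⟩⟩,
      u3.trans hu.2⟩
    refine Finset.mem_Icc.2 ⟨?_, ?_⟩
    · exact Int.one_le_ceil_iff.2 (by positivity)
    · have a : 2 / (n : ℝ) ≤ 1 := by rw [div_le_one hN]; exact hN2
      have b : v * (1 + 2 / n) ≤ 20 * 2 :=
        mul_le_mul hv.2 (by linarith) (by positivity) (by norm_num)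
      have c : (k : ℝ) ≤ 40 * (n : ℝ) ^ 2 := by
        have := k2.trans b
        rw [div_le_iff₀ h2] at this; linarith
      have : (k : ℝ) ≤ ((40 * (n : ℤ) ^ 2 : ℤ) : ℝ) := by push_cast; exact c
      exact_mod_cast this
  · refine le_trans ?_ k1
    have : 0 ≤ v * (1 / n) := by positivity
    linarith
  · exact le_trans (by linarith) u2
  · intro h; simp [h]
  · intro x
    have := Finset.sum_le_sum (s := Finset.univ) fun i _ =>
      gR_le (x i) hN2 hv.1 hmm k1 k2 u2 u3 hu.2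
    rw [Finset.sum_add_distrib, Finset.sum_const, Finset.card_univ, Fintype.card_fin, nsmul_eq_mul,
      mul_div_cancel₀ _ hN.ne'] at this
    exact this

lemma const_le {n : ℕ} (hn : 2 ≤ n) :
    ex 2 * ((n ^ 20 : ℕ) : ℝ≥0∞) ≤ ex ((23 : ℕ) * Real.log n) := by
  have hN2 : (2 : ℝ) ≤ n := by exact_mod_cast hn
  have hN : (0 : ℝ) < n := by linarith
  have e : ((n ^ 20 : ℕ) : ℝ≥0∞) = ex (20 * Real.log n) := by
    have : Real.exp (20 * Real.log n) = ((n ^ 20 : ℕ) : ℝ) := by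
      rw [mul_comm, Real.exp_mul, Real.exp_log hN]; push_cast
      exact_mod_cast Real.rpow_natCast (n : ℝ) 20
    rw [ex, this, ENNReal.ofReal_natCast]
  rw [e, ← ex_add]
  refine ex_mono ?_
  have := Real.log_le_log (by norm_num) hN2
  have := Real.log_two_gt_d9
  push_cast
  linarith

end G67

open G67 in
/-- **the grid lemma** -/
theorem gridStmt : GridStmt := by
  refine ⟨23, fun n f F b hn hF hb hf => ?_⟩
  have hN : (0 : ℝ) < n := by exact_mod_cast (by omega : 0 < n)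
  let T : ℤ × ℤ × ℤ → V n → ℝ≥0∞ := fun p x =>
    ex (∑ i, gR (p.1 / (n : ℝ) ^ 3) (p.2.1 / (n : ℝ) ^ 2) (p.2.2 / (n : ℝ) ^ 3) (x i)) *
      F (p.1 / (n : ℝ) ^ 3) (p.2.1 / (n : ℝ) ^ 2) (p.2.2 / (n : ℝ) ^ 3) x
  have hT : ∀ p, Measurable (T p) := fun p =>
    (measurable_ex.comp (Finset.measurable_sum _ fun i _ =>
      (meas_gR _ _ _).comp (measurable_pi_apply i))).mul (hF _ _ _)
  have hpt : ∀ x, f x ≤ ex 2 * ∑ p ∈ grid n, T p x := by
    intro x
    by_cases h0 : f x = 0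
    · rw [h0]; exact zero_le
    obtain ⟨m, v, u, hm, hv, hu, H⟩ := hf x h0
    obtain ⟨p, hp, hcl, hle⟩ := exists_grid hn hm hv hu
    refine (H _ _ _ hcl).trans ?_
    calc _ ≤ ex 2 * T p x := by
          simp only [T]
          rw [← mul_assoc, ← ex_add]
          exact mul_le_mul_left (ex_mono (by linarith [hle x])) _
      _ ≤ _ := mul_le_mul_right
          (Finset.single_le_sum (f := fun p => T p x) (fun _ _ => zero_le) hp) _
  calc ∫⁻ x, f x ≤ ∫⁻ x, ex 2 * ∑ p ∈ grid n, T p x := lintegral_mono hpt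
    _ = ex 2 * ∑ p ∈ grid n, ∫⁻ x, T p x := by
        rw [lintegral_const_mul _ (Finset.measurable_sum _ fun p _ => hT p),
          lintegral_finsetSum _ fun p _ => hT p]
    _ ≤ ex 2 * ((grid n).card • b) := by
        refine mul_le_mul_right (Finset.sum_le_card_nsmul _ _ _ fun p hp => ?_) _
        obtain ⟨h1, h2⟩ := Finset.mem_filter.1 hp
        have h3 := (Finset.mem_Icc.1 (Finset.mem_product.1 (Finset.mem_product.1 h1).2).1).1
        have h4 : (1 : ℝ) ≤ p.2.1 := by exact_mod_cast h3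
        exact hb _ _ _ (by positivity) h2
    _ ≤ ex 2 * (((n ^ 20 : ℕ) : ℝ≥0∞) * b) := by
        rw [nsmul_eq_mul]
        exact mul_le_mul_right (mul_le_mul_left (by exact_mod_cast card_grid hn) _) _
    _ ≤ _ := by rw [← mul_assoc]; exact mul_le_mul_left (const_le hn) _

open G67 in
/-- **the tilt lemma** from Chernoff and the grid -/
theorem tiltGlue : TiltGlue := by
  rintro ⟨-, hch⟩ ⟨C, hC⟩
  refine ⟨C, fun n t R E Y hn hE hY H => ?_⟩
  let I : ℝ → ℝ → ℝ → ℝ≥0∞ := fun m v u => ∫⁻ y, ex (gR m v u y + Y m v u y)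
  let L : ℝ → ℝ → ℝ → ℝ := fun m v u => Real.log (I m v u).toReal
  have hI0 : ∀ m v u, 0 < I m v u := fun m v u => by
    have hm : Measurable fun y => ex (gR m v u y + Y m v u y) :=
      measurable_ex.comp ((meas_gR m v u).add (hY m v u))
    refine (lintegral_pos_iff_support hm).2 ?_
    have : Function.support (fun y => ex (gR m v u y + Y m v u y)) = univ :=
      eq_univ_of_forall fun y => (ENNReal.ofReal_pos.2 (Real.exp_pos _)).ne'
    rw [this]; simp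
  have hIL : ∀ m v u, I m v u ≠ ∞ → ex (L m v u) = I m v u := fun m v u h => by
    simp only [L, ex]
    rw [Real.exp_log (ENNReal.toReal_pos (hI0 m v u).ne' h), ENNReal.ofReal_toReal h]
  have hS : ∀ m v u, Measurable fun x : V n => ex (∑ i, Y m v u (x i)) := fun m v u =>
    measurable_ex.comp (Finset.measurable_sum _ fun i _ => (hY m v u).comp (measurable_pi_apply i))
  classical
  let F : ℝ → ℝ → ℝ → V n → ℝ≥0∞ := fun m v u x =>
    if I m v u = ∞ then 0 else ex (∑ i, Y m v u (x i)) * ex (-R - n * L m v u)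
  have key := hC n (E.indicator fun x => ENNReal.ofReal (rho t x)) F (ex (-R)) hn ?_ ?_ ?_
  · rw [lintegral_indicator hE, ← ex_add] at key
    exact key
  · intro m v u
    by_cases h : I m v u = ∞
    · simp only [F, h, if_true]; exact measurable_const
    · simp only [F, h, if_false]; exact (hS m v u).mul_const _
  · intro m v u _ _
    by_cases h : I m v u = ∞
    · simp [F, h, PR]
    · have h1 := hch n m v u (L m v u) (Y m v u) (hY m v u) (hIL m v u h).ge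
      simp only [F, h, if_false, PR] at h1 ⊢
      simp only [← mul_assoc]
      rw [lintegral_mul_const' _ _ (ex_ne_top _)]
      refine (mul_le_mul_left h1 _).trans ?_
      rw [← ex_add]
      exact ex_mono (by linarith)
  · intro x hx
    have hxE : x ∈ E := by
      by_contra h
      exact hx (indicator_of_notMem h _)
    obtain ⟨m, v, u, g, hm, hv, hu, hr, H⟩ := H x hxE
    refine ⟨m, v, u, hm, hv, hu, fun m0 v0 u0 hcl => ?_⟩
    obtain ⟨Λ, h1, h2⟩ := H m0 v0 u0 hcl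
    have h : I m0 v0 u0 ≠ ∞ := ne_top_of_le_ne_top (ex_ne_top _) h1
    have h3 : L m0 v0 u0 ≤ Λ := by
      have h4 : ex (L m0 v0 u0) ≤ ex Λ := (hIL _ _ _ h).le.trans h1
      exact Real.exp_le_exp.1 ((ENNReal.ofReal_le_ofReal_iff (Real.exp_pos _).le).1 h4)
    have h5 : (n : ℝ) * L m0 v0 u0 ≤ n * Λ := mul_le_mul_of_nonneg_left h3 (Nat.cast_nonneg n)
    rw [indicator_of_mem hxE]
    simp only [F, h, if_false]
    rw [← ex_add, ← ex_add]
    exact (ENNReal.ofReal_le_ofReal hr).trans (ex_mono (by linarith))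

end Crest.Agent.T157.Kb

end
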