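import Crest.Agent.T157.KbM_24

/-!
# Row 157, part A2, section 2 (helper91): the tilt lemma without a weight, and `HiGlue`
-/

set_option autoImplicit false

noncomputable section

namespace Crest.Agent.T157.Kb

open MeasureTheory Set
open scoped ENNReal
open Crest.Agent.T157.Tap
open Crest.Agent.T157.Conc (ex)

variable {n : ℕ}

namespace H91

/-- the tilt lemma with `Y = 0` -/
lemma tilt0 (hC : ChStmt) (hT : TiltStmt) : ∃ C : ℕ, ∀ (n : ℕ) (t R : ℝ) (E : Set (V n)),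
    2 ≤ n → MeasurableSet E →
    (∀ x ∈ E, ∃ m v u g : ℝ, |m| ≤ 4 ∧ v ∈ Icc (1 / (n : ℝ)) 20 ∧ u ∈ Icc (-2 : ℝ) (1 / 2) ∧
      rho t x ≤ Real.exp (∑ i, gR m v u (x i) + g) ∧ g + R ≤ 0) →
    Px t E ≤ ex (C * Real.log n - R) := by
  obtain ⟨C, hC'⟩ := hT
  refine ⟨C, fun n t R E hn hE h => hC' n t R E (fun _ _ _ _ => 0) hn hE
    (fun _ _ _ => measurable_const) fun x hx => ?_⟩
  obtain ⟨m, v, u, g, h1, h2, h3, h4, h5⟩ := h x hx
  refine ⟨m, v, u, g, h1, h2, h3, h4, fun m0 v0 u0 hc => ⟨0, ?_, by simpa using h5⟩⟩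
  have hn' : (0 : ℝ) < n := by exact_mod_cast (by omega : 0 < n)
  have hv : 0 < v0 := lt_of_lt_of_le (lt_of_lt_of_le (by positivity) h2.1) hc.2.1
  have hu : u0 < 1 := by linarith [hc.2.2.2.2.1, h3.2]
  simpa only [add_zero, Conc.ex_zero] using hC.1 m0 v0 u0 hv hu

/-- the mixed moment -/
def AA (t : ℝ) (x : V n) : ℝ := avg fun i => th x i * (x i - mu t x)

lemma AA_eq (t : ℝ) (x : V n) : AA t x = ww t x + ga t x * (1 - aS x) := by
  unfold AA ww; ring

lemma AA_sq (t : ℝ) (x : V n) : AA t x ^ 2 ≤ aS x * M2 t x := avg_mul_sq_le _ _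

lemma M2_nonneg (t : ℝ) (x : V n) : 0 ≤ M2 t x :=
  div_nonneg (Finset.sum_nonneg fun _ _ => sq_nonneg _) (Nat.cast_nonneg _)

lemma abs_mu_le (hn : 0 < n) {t : ℝ} (ht : 0 ≤ t) (ht1 : t ≤ 1) (x : V n) : |mu t x| ≤ 4 := by
  have h := abs_le.1 (abs_bS_le hn x)
  unfold mu
  exact abs_le.2 ⟨by linarith [h.1], by linarith [h.2]⟩

/-- change of the Ramer parameter -/
lemma sum_gR (hn : 0 < n) (t v u : ℝ) (hv : 0 < v) (x : V n) :
    ∑ i, gR (mu t x) v 0 (x i) = ∑ i, gR (mu t x) v u (x i) +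
      n * (-(u * AA t x / v) + u ^ 2 * aS x / (2 * v) - (1 - aS x) * Real.log (1 - u)) := by
  have hn' : (n : ℝ) ≠ 0 := by exact_mod_cast hn.ne'
  have h : ∀ i, gR (mu t x) v 0 (x i) = gR (mu t x) v u (x i) +
      (-(u / v) * (th x i * (x i - mu t x)) + (u ^ 2 / (2 * v) + Real.log (1 - u)) * th x i ^ 2 -
        Real.log (1 - u)) := fun i => by
    simp only [gR, th, sub_zero, Real.log_one]
    field_simp
    ring
  simp only [h, Finset.sum_add_distrib, Finset.sum_sub_distrib, ← Finset.mul_sum,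
    Finset.sum_const, Finset.card_univ, Fintype.card_fin, nsmul_eq_mul, AA, aS, avg]
  field_simp
  ring

lemma log_nine : Real.log 9 / 2 ≤ 5 / 4 := by
  have h : (3 : ℝ) ≤ Real.exp (5 / 4) := by
    have := Real.quadratic_le_exp_of_nonneg (show (0 : ℝ) ≤ 5 / 4 by norm_num)
    linarith
  have h2 : Real.log 3 ≤ 5 / 4 := (Real.log_le_iff_le_exp (by norm_num)).2 h
  have e : Real.log 9 = 2 * Real.log 3 := by
    rw [show (9 : ℝ) = 3 ^ 2 by norm_num, Real.log_pow]; norm_num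
  linarith

lemma hi_num {g q w A M : ℝ} (hg : 0 < g) (hq : 0 ≤ q) (hqg : q ≤ g) (hM : 0 ≤ M)
    (hw : 3 * g ≤ w) (hA : w ≤ A) (h : A ^ 2 ≤ q * M) :
    w ^ 2 / (2 * g * (g + q)) - M / (2 * g) + M / (2 * (9 * g)) ≤ -(7 / 4) := by
  have h1 : w ^ 2 ≤ q * M := (pow_le_pow_left₀ (by linarith) hA 2).trans h
  have h2 : 9 * g ≤ M := by
    have : (3 * g) ^ 2 ≤ g * M :=
      (pow_le_pow_left₀ (by linarith) hw 2).trans (h1.trans (mul_le_mul_of_nonneg_right hqg hM))
    nlinarith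
  have h3 : w ^ 2 / (2 * g * (g + q)) ≤ M / (4 * g) := by
    rw [div_le_div_iff₀ (by positivity) (by positivity)]
    have := mul_le_mul_of_nonneg_right hqg hM
    nlinarith [mul_le_mul_of_nonneg_left h1 hg.le, mul_le_mul_of_nonneg_left this hg.le]
  have h4 : 9 ≤ M / g := by rw [le_div_iff₀ hg]; exact h2
  have e : M / (4 * g) - M / (2 * g) + M / (2 * (9 * g)) = -(7 / 36) * (M / g) := by
    field_simp; ring
  linarith

end H91

open H91 in
theorem hiGlue : HiGlue := by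
  intro hI hC hT
  obtain ⟨C, h0⟩ := tilt0 hC hT
  refine ⟨C + 2, fun n t hn ht => ?_⟩
  have hn0 : 0 < n := by omega
  have hn' : (0 : ℝ) < n := by exact_mod_cast hn0
  have ht0 : 0 < t := lt_of_lt_of_le (by positivity) ht.1
  have hl : 0 ≤ Real.log n := Real.log_natCast_nonneg n
  refine (h0 n t (n / 2) _ (by omega) (measurableSet_le (by fun_prop) (by fun_prop))
    fun x hx => ?_).trans (Conc.ex_mono (by push_cast; nlinarith))
  have hg := ga_pos ht0 x
  have hq := aS_nonneg x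
  have hq1 := aS_lt_one hn0 x
  have hg2 : ga t x ≤ 2 := by unfold ga; linarith [ht.2]
  have htg : t ≤ ga t x := by unfold ga; linarith
  have hqg : aS x ≤ ga t x := by unfold ga; linarith
  refine ⟨mu t x, 9 * ga t x, 0, _, abs_mu_le hn0 ht0.le ht.2 x,
    ⟨by linarith [ht.1], by linarith⟩, ⟨by norm_num, by norm_num⟩,
    ((hI n t x hn0 ht0).2.1 (9 * ga t x) (by linarith)).le, ?_⟩
  have hA : ww t x ≤ AA t x := by rw [AA_eq]; nlinarith
  have h1 := hi_num hg hq hqg (M2_nonneg t x) hx hA (AA_sq t x)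
  have e : 9 * ga t x / ga t x = 9 := by field_simp
  rw [e]
  have h2 := log_nine
  have h3 : Wt t x - M2 t x / (2 * ga t x) + M2 t x / (2 * (9 * ga t x)) + Real.log 9 / 2 ≤
      -(1 / 2) := by unfold Wt; linarith
  nlinarith

end Crest.Agent.T157.Kb

end
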