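import Crest.Agent.T157.KbDef_24

/-!
# Row 157, part A2, section 2 (helper10): exact identities, Ramer and Chernoff
-/

set_option autoImplicit false

noncomputable section

namespace Crest.Agent.T157.Kb

open MeasureTheory ProbabilityTheory Matrix Set Filter
open scoped ENNReal
open Crest.Agent.T157.E Crest.Agent.T157.Cond Crest.Agent.T157.Tap
open Crest.Agent.T157.Conc (ex)

variable {n : ℕ}

namespace Id10

lemma aS_nonneg (x : V n) : 0 ≤ aS x :=
  div_nonneg (Finset.sum_nonneg fun _ _ => sq_nonneg _) (Nat.cast_nonneg _)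

lemma ga_pos {t : ℝ} (ht : 0 < t) (x : V n) : 0 < ga t x :=
  add_pos_of_nonneg_of_pos (aS_nonneg x) ht

lemma mul_avg (hn : 0 < n) (f : V n) : ∑ i, f i = n * avg f := by
  rw [avg, mul_div_cancel₀ _ (by positivity)]

lemma avg_px (m : ℝ) (x : V n) :
    avg (fun i => th x i * (x i - m)) = R4 x + aS x - m * bS x := by
  simp only [R4, aS, bS, avg, ← mul_div_assoc, ← add_div, ← sub_div, Finset.mul_sum,
    ← Finset.sum_add_distrib, ← Finset.sum_sub_distrib]
  congr 1
  exact Finset.sum_congr rfl fun i _ => by ring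

lemma rho_eq (hn : 0 < n) {t : ℝ} (ht : 0 < t) (x : V n) : rho t x = Real.exp (n * (Wt t x -
    M2 t x / (2 * ga t x) - Real.log (2 * Real.pi * ga t x) / 2)) := by
  have hg := ga_pos ht x
  have e : (x - mu t x • (1 : V n)) ⬝ᵥ (x - mu t x • (1 : V n)) = n * M2 t x := by
    rw [M2, ← mul_avg hn]
    exact Finset.sum_congr rfl fun i _ => by simp [sq]
  rw [rho, Kr.phi, e, Real.sqrt_eq_rpow, Real.rpow_def_of_pos (by positivity), ← Real.exp_neg,
    ← Real.exp_nat_mul, ← Real.exp_add, ← Real.exp_add, Fintype.card_fin]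
  congr 1
  ring

/-- the sum of the Ramer exponents in terms of the statistics -/
lemma sum_gR (hn : 0 < n) (m y v u : ℝ) (x : V n) : ∑ i, gR (m + y) v u (x i) =
    n * (-(avg (fun i => (x i - m) ^ 2) + u ^ 2 * aS x + y ^ 2 -
      2 * u * (R4 x + aS x - m * bS x) - 2 * y * (R3 x + bS x - m - u * bS x)) / (2 * v) -
      Real.log (2 * Real.pi * v) / 2 + (1 - aS x) * Real.log (1 - u)) := by
  have h : ∀ i, gR (m + y) v u (x i) = -(1 / (2 * v)) * (x i - m) ^ 2 +
      (-(u ^ 2 / (2 * v)) - Real.log (1 - u)) * th x i ^ 2 + u / v * (th x i * (x i - m)) +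
      y / v * (x - th x) i + y * (1 - u) / v * th x i + (-(y ^ 2 / (2 * v)) - y * m / v -
        Real.log (2 * Real.pi * v) / 2 + Real.log (1 - u)) := fun i => by
    simp only [gR, th, Pi.sub_apply]; ring
  simp only [h, Finset.sum_add_distrib, ← Finset.mul_sum, Finset.sum_const, Finset.card_univ,
    Fintype.card_fin, nsmul_eq_mul]
  rw [mul_avg hn, mul_avg hn fun i => th x i ^ 2, mul_avg hn fun i => th x i * (x i - m),
    mul_avg hn (x - th x), mul_avg hn (th x), avg_px]
  simp only [aS, bS, R3]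
  ring

theorem lint_pi_prod {X : Type*} [MeasurableSpace X] (μ : Measure X) [SigmaFinite μ] {k : ℕ}
    (f : Fin k → X → ℝ≥0∞) (hf : ∀ i, Measurable (f i)) :
    ∫⁻ x, ∏ j, f j (x j) ∂(Measure.pi fun _ : Fin k => μ) = ∏ j, ∫⁻ t, f j t ∂μ := by
  induction k with
  | zero => simp [Measure.pi_of_empty (fun _ : Fin 0 => μ) Fin.elim0]
  | succ k ih =>
    have hF : Measurable fun x : Fin (k + 1) → X => ∏ j, f j (x j) :=
      Finset.measurable_prod _ fun i _ => (hf i).comp (measurable_pi_apply i)
    have h3 : Measurable fun y : Fin k → X => ∏ j : Fin k, f j.succ (y j) :=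
      Finset.measurable_prod _ fun (i : Fin k) _ => (hf i.succ).comp (measurable_pi_apply i)
    rw [← (measurePreserving_piFinSuccAbove (fun _ : Fin (k + 1) => μ) 0).symm.lintegral_comp hF,
      Fin.prod_univ_succ, ← ih (fun i => f i.succ) fun i => hf i.succ,
      ← lintegral_prod_mul (hf 0).aemeasurable h3.aemeasurable]
    refine lintegral_congr fun p => ?_
    rw [Fin.prod_univ_succ]
    simp [MeasurableEquiv.piFinSuccAbove, Fin.insertNthEquiv]

@[fun_prop] lemma measurable_gR (m v u : ℝ) : Measurable (gR m v u) := by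
  have := Cell.continuous_tanh.measurable
  unfold gR; fun_prop

lemma ex_sum {ι : Type*} (s : Finset ι) (f : ι → ℝ) : ex (∑ i ∈ s, f i) = ∏ i ∈ s, ex (f i) := by
  simp only [ex]
  rw [Real.exp_sum, ENNReal.ofReal_prod_of_nonneg fun _ _ => (Real.exp_pos _).le]

/-- product formula, site-dependent tilts -/
theorem PR_prod (m v u : ℝ) {f : Fin n → ℝ → ℝ} (hf : ∀ i, Measurable (f i)) :
    PR m v u (fun x : V n => ex (∑ i, f i (x i))) = ∏ i, ∫⁻ x, ex (gR m v u x + f i x) := by
  rw [← lint_pi_prod volume (fun i x => ex (gR m v u x + f i x)) fun i =>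
    Conc.measurable_ex.comp ((measurable_gR m v u).add (hf i))]
  refine lintegral_congr fun x => ?_
  rw [← Conc.ex_add, ← Finset.sum_add_distrib, ex_sum]

end Id10

open Id10

theorem idStmt : IdStmt := by
  intro n t x hn ht
  have hg := ga_pos ht x
  have h1 : ww t x = R4 x + ga t x * aS x - t - mu t x * bS x := by
    rw [ww, avg_px, ga]; ring
  refine ⟨h1, fun v hv => ?_, fun _ y => ?_⟩
  · have := sum_gR hn (mu t x) 0 v 0 x
    rw [add_zero] at this
    rw [this, rho_eq hn ht, Real.log_div hv.ne' hg.ne', Real.log_mul (by positivity) hv.ne',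
      Real.log_mul (by positivity) hg.ne', sub_zero, Real.log_one, M2]
    congr 1
    ring
  · have hq := add_pos_of_pos_of_nonneg hg (aS_nonneg x)
    have e1 : R4 x + aS x - mu t x * bS x = ww t x + ga t x * (1 - aS x) := by rw [h1, ga]; ring
    have e2 : R3 x + bS x - mu t x - uR t x * bS x = dR t x := by rw [dR, mu]; ring
    rw [sum_gR hn, rho_eq hn ht, e1, e2, ← mul_sub, hh, Wt, uR, M2]
    congr 2
    field_simp
    ring

theorem chStmt : ChStmt := by
  refine ⟨fun m v u hv hu => ?_, fun n m v u L f hf h => ?_⟩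
  · have hT : ∀ z, HasDerivAt (fun z => z - u * Real.tanh z) (1 - u * (1 - Real.tanh z ^ 2)) z :=
      fun z => (hasDerivAt_id z).sub ((Cell.hasDerivAt_tanh z).const_mul u)
    have hB : ∀ z, Real.exp ((1 - Real.tanh z ^ 2) * Real.log (1 - u)) ≤
        1 - u * (1 - Real.tanh z ^ 2) := fun z => by
      have := rpow_one_add_le_one_add_mul_self (s := -u) (by linarith)
        (sub_nonneg.2 (Real.tanh_sq_lt_one z).le) (sub_le_self 1 (sq_nonneg (Real.tanh z)))
      rw [← sub_eq_add_neg, Real.rpow_def_of_pos (by linarith), mul_comm] at this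
      linarith
    have hT0 := fun z => (Real.exp_pos _).le.trans (hB z)
    have h := lintegral_image_eq_lintegral_deriv_mul_of_monotoneOn MeasurableSet.univ
      (fun z _ => (hT z).hasDerivWithinAt) ((monotone_of_hasDerivAt_nonneg hT hT0).monotoneOn _)
      (gaussianPDF m v.toNNReal)
    rw [Measure.restrict_univ] at h
    refine le_trans (lintegral_mono fun z => ?_) (h.symm.trans_le
      ((setLIntegral_le_lintegral _ _).trans_eq
        (lintegral_gaussianPDF_eq_one m (Real.toNNReal_pos.2 hv).ne')))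
    rw [gaussianPDF, ← ENNReal.ofReal_mul (hT0 z), gaussianPDFReal, Real.coe_toNNReal _ hv.le,
      Real.sqrt_eq_rpow, Real.rpow_def_of_pos (by positivity), ← Real.exp_neg, ← Real.exp_add]
    refine ENNReal.ofReal_le_ofReal ?_
    rw [gR, Real.exp_add, mul_comm]
    refine mul_le_mul (hB z) (le_of_eq ?_) (Real.exp_pos _).le (hT0 z)
    congr 1
    ring
  · rw [PR_prod m v u fun _ => hf]
    refine (Finset.prod_le_prod' fun i _ => h).trans_eq ?_
    rw [← ex_sum]
    simp

end Crest.Agent.T157.Kb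

end
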