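import Crest.Agent.T157.KbM_24

/-!
# Row 157, part A2, section 2 (helper58): second moment of the Jacobian and `KR ≤ poly Pt^{1/2}`
-/

set_option autoImplicit false

noncomputable section

namespace Crest.Agent.T157.Kb

open MeasureTheory Matrix Set Filter
open scoped ENNReal
open Crest.Agent.T157.E Crest.Agent.T157.Cond Crest.Agent.T157.Tap
open Crest.Agent.T157.Qe (Le R1 bv Wm Mm)
open Crest.Agent.T157.Conc (ex ex_add ex_mono ex_rpow)

namespace Kr58

variable {n : ℕ}

lemma meas_DY {Ω : Type*} [MeasurableSpace Ω] {x : Ω → V n} {W : Ω → Mx n} (hx : Measurable x)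
    (hW : Measurable W) (b : ℝ) : Measurable fun ω => Deg.DY (W ω) b (x ω) := by
  have h0 := meas_th hx
  have h1 : Measurable fun ω => DD (th (x ω)) := by unfold DD; fun_prop
  have h2 : Measurable fun ω => dd (th (x ω)) := by unfold dd; fun_prop
  have h4 : Measurable fun ω => avg fun i => dd (th (x ω)) i ^ 2 := meas_avg (by fun_prop)
  have h3 : Measurable fun ω => B1 (W ω) b (th (x ω)) := by
    refine measurable_mat_iff.2 fun i j => ?_
    have := hW.t157_entry i j
    simp only [B1, B0, Matrix.add_apply, Matrix.sub_apply, Matrix.smul_apply, vecMulVec_apply,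
      smul_eq_mul]
    fun_prop
  have h5 := meas_diag h1
  unfold Deg.DY; fun_prop

lemma meas_det : Measurable fun z : V n × Mx n => (Deg.DY z.2 1 z.1).det :=
  Deg.measurable_det fun i j => (meas_DY measurable_fst measurable_snd 1).t157_entry i j

/-- the normalised integrand -/
def G (z : V n × Mx n) : ℝ≥0∞ := 1 + ENNReal.ofReal ((Deg.DY z.2 1 z.1).det ^ 2 /
  Real.exp (n * (1 - aS z.1) ^ 2 / 2) ^ 2)

lemma meas_G : Measurable (G (n := n)) := by
  have := meas_det (n := n)
  unfold G; fun_prop

lemma ae_th (hn : 0 < n) : ∀ᵐ x : V n, th x ≠ 0 := by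
  have : Nonempty (Fin n) := ⟨⟨0, hn⟩⟩
  have h : ∀ᵐ x : V n, x ∉ ({0} : Set (V n)) := compl_mem_ae_iff.2 (measure_singleton _)
  filter_upwards [h] with x hx h0
  refine hx (funext fun i => ?_)
  have h1 : Real.tanh (x i) = 0 := congrFun h0 i
  rw [Real.tanh_eq_sinh_div_cosh, div_eq_zero_iff] at h1
  exact h1.elim Real.sinh_eq_zero.1 fun h => absurd h (Real.cosh_pos _).ne'

lemma one_add_le {C : ℕ} (hn : 17 ≤ n) :
    1 + ex (C * Real.log n) * ENNReal.ofReal (17 ^ C) ≤ ex ((2 * C + 1 : ℕ) * Real.log n) := by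
  have h17 : (17 : ℝ) ≤ n := by exact_mod_cast hn
  have e : ∀ k : ℕ, ex (k * Real.log n) = ENNReal.ofReal (n ^ k) := fun k => by
    rw [ex, Real.exp_nat_mul, Real.exp_log (by linarith)]
  rw [e, e, ← ENNReal.ofReal_mul (by positivity), ← ENNReal.ofReal_one,
    ← ENNReal.ofReal_add zero_le_one (by positivity)]
  refine ENNReal.ofReal_le_ofReal ?_
  have h1 : (17 : ℝ) ^ C ≤ n ^ C := pow_le_pow_left₀ (by norm_num) h17 C
  have h2 : (1 : ℝ) ≤ n ^ C := one_le_pow₀ (by linarith)
  rw [pow_succ, two_mul, pow_add]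
  nlinarith [mul_le_mul_of_nonneg_left h1 (zero_le_one.trans h2), one_le_mul_of_one_le_of_one_le h2 h2]

lemma er (hM : MargStmt) (hD : DetStmt) (hA : AllStmt) : ErStmt := by
  obtain ⟨C, hD⟩ := hD
  obtain ⟨t0, ht0, C', hA⟩ := hA
  refine ⟨t0, ht0, 2 * C + 1 + C' + 17, fun n t B hn ht hB hb => ?_⟩
  have n0 : 0 < n := by omega
  have n1 : (1 : ℝ) ≤ n := by exact_mod_cast n0
  have t0' : 0 < t := lt_of_lt_of_le (by positivity) ht.1
  change Pt t (B.indicator G) ≤ _
  rw [hM n t _ n0 t0' (meas_G.indicator hB)]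
  have key : ∀ x : V n, th x ≠ 0 → ∀ η,
      ∫⁻ W, B.indicator G (x, Wm (ee x) (col t x η) (tau x) W) ∂GOE n ≤
        ex ((2 * C + 1 : ℕ) * Real.log n) := fun x hx η => by
    have he : ee x ⬝ᵥ ee x = 1 := unitv_dot hx
    by_cases hc : col t x η ⬝ᵥ col t x η ≤ 16
    · have h1 : tau x ⬝ᵥ tau x ≤ n := by
        have := (Qe.proj_R1 he).dot_le (1 : V n)
        simpa [tau, bv] using this
      have h2 : ee x ⬝ᵥ tau x = 0 := by
        simp only [tau, bv, Qe.R1_mulVec, dotProduct_sub, dotProduct_smul, he, smul_eq_mul, mul_one,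
          sub_self]
      have h3 := hD n x (col t x η) (tau x) (by omega) hx h1 h2
      refine (lintegral_mono fun W => indicator_le_self _ _ _).trans ?_
      have e : ∀ W, G (x, W) = 1 + ex (-(n * (1 - aS x) ^ 2)) *
          ENNReal.ofReal ((Deg.DY W 1 x).det ^ 2) := fun W => by
        rw [G, ex, ← ENNReal.ofReal_mul (Real.exp_pos _).le, ← Real.exp_nat_mul, Real.exp_neg]
        congr 2
        rw [div_eq_inv_mul]; congr 3; push_cast; ring
      simp only [e]
      rw [lintegral_add_left measurable_const, lintegral_const_mul' _ _ (Conc.ex_ne_top _),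
        lintegral_const, measure_univ, mul_one]
      refine le_trans (add_le_add le_rfl ((mul_le_mul_right h3 _).trans ?_)) (one_add_le (by omega))
      rw [← mul_assoc, ← ex_add, neg_add_cancel_comm_assoc]
      refine mul_le_mul_right (ENNReal.ofReal_le_ofReal (pow_le_pow_left₀ ?_ (by linarith) C)) _
      linarith [dot_self_nonneg (col t x η)]
    · refine le_of_eq_of_le (lintegral_congr (g := fun _ => 0) fun W => ?_) (by simp)
      refine indicator_of_notMem (fun hW => hc ?_) _
      have := hb _ hW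
      simpa only [Wm, Qe.glue_e he] using this
  calc _ ≤ ∫⁻ x, ENNReal.ofReal (rho t x) * ex ((2 * C + 1 : ℕ) * Real.log n) := by
        refine lintegral_mono_ae ?_
        filter_upwards [ae_th n0] with x hx
        refine mul_le_mul' (ENNReal.ofReal_le_ofReal ?_) ?_
        · have h0 : 0 ≤ rho t x := mul_nonneg (Kr.phi_nonneg _ _) (Real.exp_pos _).le
          have h1 := aS_nonneg x
          have h2 : 0 < ga t x := by unfold ga; linarith
          refine mul_le_of_le_one_left h0 (Real.sqrt_le_one.2 ?_)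
          rw [div_le_one (by linarith)]; linarith
        · exact (lintegral_mono (key x hx)).trans (by simp)
    _ ≤ ex (C' * Real.log n) * ex ((2 * C + 1 : ℕ) * Real.log n) := by
        rw [lintegral_mul_const' _ _ (Conc.ex_ne_top _)]
        have := hA n t (by omega) ht
        rw [Px, Measure.restrict_univ] at this
        exact mul_le_mul_left this _
    _ ≤ _ := by
        rw [← ex_add]
        refine ex_mono ?_
        have := Real.log_nonneg n1
        push_cast; nlinarith

lemma kr (h : ErStmt) : KrStmt := by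
  obtain ⟨t0, ht0, C, h⟩ := h
  refine ⟨t0, ht0, C + 1, fun n t B hn ht hB hb => ?_⟩
  have n1 : (1 : ℝ) ≤ n := by exact_mod_cast (by omega : 1 ≤ n)
  have hE : Pt t (B.indicator G) ≤ _ := h n t B (by omega) ht hB hb
  have md := meas_det (n := n)
  have m1 : Measurable fun z : V n × Mx n => nuW t z * cX z.1 * B.indicator 1 z :=
    ((meas_nuW measurable_id).mul (meas_cX measurable_fst)).mul (measurable_one.indicator hB)
  have m2 : Measurable fun z : V n × Mx n => nuW t z * cX z.1 * B.indicator G z :=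
    ((meas_nuW measurable_id).mul (meas_cX measurable_fst)).mul (meas_G.indicator hB)
  have m3 : Measurable fun z : V n × Mx n =>
      nuW t z * ENNReal.ofReal |(Deg.DY z.2 1 z.1).det| * B.indicator 1 z :=
    ((meas_nuW measurable_id).mul (by fun_prop)).mul (measurable_one.indicator hB)
  have e1 : Pt t (B.indicator 1) = _ := (lintegral_prod _ m1.aemeasurable).symm
  have e2 : Pt t (B.indicator G) = _ := (lintegral_prod _ m2.aemeasurable).symm
  have e3 : KR t (B.indicator 1) = _ := (lintegral_prod _ m3.aemeasurable).symm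
  have H := ENNReal.lintegral_mul_norm_pow_le (μ := (volume : Measure (V n)).prod (GOE n))
    m1.aemeasurable m2.aemeasurable (p := 1 / 2) (q := 1 / 2) (by norm_num) (by norm_num)
    (by norm_num)
  rw [← e1, ← e2] at H
  rw [e3, mul_comm]
  refine le_trans (lintegral_mono fun z => ?_) (H.trans (mul_le_mul_right ?_ _))
  · by_cases hz : z ∈ B
    · simp only [indicator_of_mem hz, Pi.one_apply, mul_one]
      rw [← ENNReal.mul_rpow_of_nonneg _ _ (by norm_num), one_div,
        ENNReal.le_rpow_inv_iff (by norm_num), ENNReal.rpow_two]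
      have hc : ENNReal.ofReal |(Deg.DY z.2 1 z.1).det| ^ 2 ≤ cX z.1 * cX z.1 * G z := by
        refine le_trans (le_of_eq ?_) (mul_le_mul_right le_add_self _)
        rw [cX, ex, ← ENNReal.ofReal_mul (Real.exp_pos _).le, ← ENNReal.ofReal_mul (by positivity),
          ← ENNReal.ofReal_pow (abs_nonneg _), sq_abs]
        congr 1; field_simp
      calc _ = nuW t z ^ 2 * ENNReal.ofReal |(Deg.DY z.2 1 z.1).det| ^ 2 := mul_pow _ _ _
        _ ≤ nuW t z ^ 2 * (cX z.1 * cX z.1 * G z) := mul_le_mul_right hc _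
        _ = _ := by ring
    · simp [indicator_of_notMem hz]
  · refine (ENNReal.rpow_le_rpow hE (by norm_num)).trans ?_
    rw [ex_rpow]
    refine ex_mono ?_
    have := Real.log_nonneg n1
    have := mul_nonneg (Nat.cast_nonneg (α := ℝ) C) this
    push_cast; nlinarith

end Kr58

/-- **task 791** -/
theorem krGlue : KrGlue := fun hM hD hA => ⟨Kr58.er hM hD hA, Kr58.kr (Kr58.er hM hD hA)⟩

end Crest.Agent.T157.Kb
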