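import Crest.Agent.T157.CondB_53

/-!
# Row 157, part E (helper53): Gaussian conditioning, part C — adaptive queries

`IsCond s P X W A R`: under `P`, conditionally on the revealed data `X`, the random matrix `W` is
`A X + R X * W' * R X` with `W'` an independent GOE matrix of parameter `s`.

Closure: `IsCond.init` (start, with a planted shift), `IsCond.relabel` (forget / add functions of
the data), `IsCond.fresh` (independent extra randomness), `IsCond.query` + `IsCond.query_law`
(one more adaptively chosen query `W v(X)`), and the integral forms.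
-/

set_option autoImplicit false
set_option linter.unusedSectionVars false

noncomputable section

namespace Crest.Agent.T157.Cond

open MeasureTheory ProbabilityTheory Matrix
open Crest.Agent.T157.E
open scoped ENNReal

section tools
variable {α β β' γ : Type*} [MeasurableSpace α] [MeasurableSpace β] [MeasurableSpace β']
  [MeasurableSpace γ]

/-- fibrewise equal laws give equal laws -/
lemma prod_map_congr (μ : Measure α) (ν : Measure β) (ν' : Measure β') [SFinite ν] [SFinite ν']
    {f : α × β → γ} {g : α × β' → γ} (hf : Measurable f) (hg : Measurable g)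
    (h : ∀ x, ν.map (fun y => f (x, y)) = ν'.map fun y => g (x, y)) :
    (μ.prod ν).map f = (μ.prod ν').map g := by
  ext S hS
  rw [Measure.map_apply hf hS, Measure.map_apply hg hS, Measure.prod_apply (hf hS),
    Measure.prod_apply (hg hS)]
  refine lintegral_congr fun x => ?_
  have h1 : ν.map (fun y => f (x, y)) S = ν'.map (fun y => g (x, y)) S := by rw [h x]
  rw [Measure.map_apply (by fun_prop) hS, Measure.map_apply (by fun_prop) hS] at h1
  exact h1

lemma map_prod_left (μ : Measure α) (ν : Measure β) [SFinite μ] [SFinite ν] {f : α → γ}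
    (hf : Measurable f) : (μ.map f).prod ν = (μ.prod ν).map fun p => (f p.1, p.2) := by
  have := Measure.map_prod_map μ ν hf measurable_id
  rw [Measure.map_id] at this
  exact this

lemma prod_assoc_map (μ : Measure α) (ν : Measure β) (ξ : Measure β') [SFinite μ] [SFinite ν]
    [SFinite ξ] {f : α × (β × β') → γ} (hf : Measurable f) :
    (μ.prod (ν.prod ξ)).map f = ((μ.prod ν).prod ξ).map fun p => f (p.1.1, (p.1.2, p.2)) := by
  rw [← Measure.prodAssoc_prod, Measure.map_map hf MeasurableEquiv.prodAssoc.measurable]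
  rfl

lemma prod_swap23_map (μ : Measure α) (ν : Measure β) (ξ : Measure β') [SFinite μ] [SFinite ν]
    [SFinite ξ] {f : (α × β) × β' → γ} (hf : Measurable f) :
    ((μ.prod ν).prod ξ).map f = ((μ.prod ξ).prod ν).map fun p => f ((p.1.1, p.2), p.1.2) := by
  have h1 := prod_assoc_map μ ν ξ (f := fun q => f ((q.1, q.2.1), q.2.2)) (by fun_prop)
  have h2 := prod_assoc_map μ ξ ν (f := fun q => f ((q.1, q.2.2), q.2.1)) (by fun_prop)
  refine h1.symm.trans (Eq.trans ?_ h2)
  refine prod_map_congr μ _ _ (by fun_prop) (by fun_prop) fun x => ?_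
  rw [← Measure.prod_swap, Measure.map_map (by fun_prop) measurable_swap]
  rfl

end tools

variable {ι : Type*} [Fintype ι] {Ω 𝒳 𝒴 : Type*} [MeasurableSpace Ω] [MeasurableSpace 𝒳]
  [MeasurableSpace 𝒴]

/-- conditionally on `X`, the matrix `W` is `A X + R X * GOE(s) * R X` -/
structure IsCond (s : ℝ) (P : Measure Ω) (X : Ω → 𝒳) (W : Ω → Matrix ι ι ℝ)
    (A R : 𝒳 → Matrix ι ι ℝ) : Prop where
  mX : Measurable X
  mW : Measurable W
  mA : Measurable A
  mR : Measurable R
  proj : ∀ x, IsProj (R x)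
  law : P.map (fun ω => (X ω, W ω)) =
    ((P.map X).prod (goe ι s)).map fun p => (p.1, glue (A p.1) (R p.1) p.2)

variable {s : ℝ} {P : Measure Ω} [IsProbabilityMeasure P] {X : Ω → 𝒳} {W : Ω → Matrix ι ι ℝ}
  {A R : 𝒳 → Matrix ι ι ℝ}

/-- start: `W = A X + W₀` with `W₀` a GOE matrix independent of `X` -/
theorem IsCond.init [DecidableEq ι] {W₀ : Ω → Matrix ι ι ℝ} (hX : Measurable X)
    (hW₀ : Measurable W₀) (hA : Measurable A)
    (h : P.map (fun ω => (X ω, W₀ ω)) = (P.map X).prod (goe ι s)) :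
    IsCond s P X (fun ω => A (X ω) + W₀ ω) A fun _ => 1 := by
  refine ⟨hX, (hA.comp hX).t157_add hW₀, hA, measurable_const, fun _ => IsProj.one, ?_⟩
  rw [← h, Measure.map_map (by fun_prop) (by fun_prop)]
  congr 1
  funext ω
  simp [glue]

theorem IsCond.init_indep [DecidableEq ι] {W₀ : Ω → Matrix ι ι ℝ} (hX : Measurable X)
    (hW₀ : Measurable W₀) (hA : Measurable A) (hl : P.map W₀ = goe ι s) (hi : IndepFun X W₀ P) :
    IsCond s P X (fun ω => A (X ω) + W₀ ω) A fun _ => 1 :=
  IsCond.init hX hW₀ hA (by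
    rw [(indepFun_iff_map_prod_eq_prod_map_map hX.aemeasurable hW₀.aemeasurable).1 hi, hl])

/-- start on a product space -/
theorem IsCond.init_prod [DecidableEq ι] (μ : Measure 𝒳) [IsProbabilityMeasure μ]
    {Ω' : Type*} [MeasurableSpace Ω'] (ν : Measure Ω') [IsProbabilityMeasure ν]
    {W₀ : Ω' → Matrix ι ι ℝ} (hW₀ : Measurable W₀) (hl : ν.map W₀ = goe ι s) (hA : Measurable A) :
    IsCond s (μ.prod ν) Prod.fst (fun p => A p.1 + W₀ p.2) A fun _ => 1 := by
  refine IsCond.init (W₀ := fun p : 𝒳 × Ω' => W₀ p.2) measurable_fst (hW₀.comp measurable_snd) hA ?_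
  have := Measure.map_prod_map μ ν measurable_id hW₀
  rw [Measure.map_id, hl] at this
  rw [Measure.map_fst_prod, measure_univ, one_smul, this]
  rfl

/-- changing `W` on a null set -/
theorem IsCond.congr (h : IsCond s P X W A R) {W' : Ω → Matrix ι ι ℝ} (hW' : Measurable W')
    (he : ∀ᵐ ω ∂P, W ω = W' ω) : IsCond s P X W' A R := by
  refine ⟨h.mX, hW', h.mA, h.mR, h.proj, ?_⟩
  rw [← h.law]
  exact Measure.map_congr (he.mono fun ω hω => by simp only [hω])

/-- relabelling the data (forgetting what `A`, `R` do not use, or adding functions of the data) -/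
theorem IsCond.relabel (h : IsCond s P X W A R) {f : 𝒳 → 𝒴} (hf : Measurable f)
    {A' R' : 𝒴 → Matrix ι ι ℝ} (hA' : Measurable A') (hR' : Measurable R')
    (hp : ∀ y, IsProj (R' y)) (eA : ∀ x, A' (f x) = A x) (eR : ∀ x, R' (f x) = R x) :
    IsCond s P (fun ω => f (X ω)) W A' R' := by
  have hX := h.mX; have hW := h.mW; have hA := h.mA; have hR := h.mR
  refine ⟨hf.comp hX, hW, hA', hR', hp, ?_⟩
  have h1 : P.map (fun ω => (f (X ω), W ω)) =
      (P.map fun ω => (X ω, W ω)).map fun p => (f p.1, p.2) := by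
    rw [Measure.map_map (by fun_prop) (by fun_prop)]; rfl
  have h2 : (P.map fun ω => f (X ω)) = (P.map X).map f := by
    rw [Measure.map_map hf hX]; rfl
  rw [h1, h2, h.law, map_prod_left _ _ hf, Measure.map_map (by fun_prop) (by fun_prop),
    Measure.map_map (by fun_prop) (by fun_prop)]
  congr 1
  funext p
  simp only [Function.comp, eA, eR]

/-- adding a function of the data to the data -/
theorem IsCond.extend (h : IsCond s P X W A R) {g : 𝒳 → 𝒴} (hg : Measurable g) :
    IsCond s P (fun ω => (X ω, g (X ω))) W (fun y => A y.1) fun y => R y.1 :=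
  h.relabel (f := fun x => (x, g x)) (by fun_prop) (h.mA.comp measurable_fst)
    (h.mR.comp measurable_fst) (fun y => h.proj y.1) (fun _ => rfl) fun _ => rfl

/-- fresh randomness `η`, independent of `(X, W)` -/
theorem IsCond.fresh (h : IsCond s P X W A R) {η : Ω → 𝒴} (hη : Measurable η)
    (hi : P.map (fun ω => ((X ω, W ω), η ω)) = (P.map fun ω => (X ω, W ω)).prod (P.map η)) :
    IsCond s P (fun ω => (X ω, η ω)) W (fun y => A y.1) (fun y => R y.1) ∧
      P.map (fun ω => (X ω, η ω)) = (P.map X).prod (P.map η) := by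
  have hX := h.mX; have hW := h.mW; have hA := h.mA; have hR := h.mR
  have : IsProbabilityMeasure (P.map X) := Measure.isProbabilityMeasure_map hX.aemeasurable
  have : IsProbabilityMeasure (P.map η) := Measure.isProbabilityMeasure_map hη.aemeasurable
  have h3 : P.map (fun ω => (X ω, η ω)) = (P.map X).prod (P.map η) := by
    have e1 : P.map (fun ω => (X ω, η ω)) =
        (P.map fun ω => ((X ω, W ω), η ω)).map fun p => (p.1.1, p.2) := by
      rw [Measure.map_map (by fun_prop) (by fun_prop)]; rfl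
    rw [e1, hi, ← map_prod_left _ _ measurable_fst, Measure.map_map measurable_fst (by fun_prop)]
    rfl
  refine ⟨⟨by fun_prop, hW, hA.comp measurable_fst, hR.comp measurable_fst, fun y => h.proj y.1,
    ?_⟩, h3⟩
  have e2 : P.map (fun ω => ((X ω, η ω), W ω)) =
      (P.map fun ω => ((X ω, W ω), η ω)).map fun p => ((p.1.1, p.2), p.1.2) := by
    rw [Measure.map_map (by fun_prop) (by fun_prop)]; rfl
  rw [e2, hi, h.law, map_prod_left _ _ (by fun_prop), Measure.map_map (by fun_prop) (by fun_prop),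
    prod_swap23_map _ _ _ (by fun_prop), h3]
  rfl

theorem IsCond.fresh_indep (h : IsCond s P X W A R) {η : Ω → 𝒴} (hη : Measurable η)
    (hi : IndepFun (fun ω => (X ω, W ω)) η P) :
    IsCond s P (fun ω => (X ω, η ω)) W (fun y => A y.1) (fun y => R y.1) ∧
      P.map (fun ω => (X ω, η ω)) = (P.map X).prod (P.map η) :=
  h.fresh hη ((indepFun_iff_map_prod_eq_prod_map_map (h.mX.prodMk h.mW).aemeasurable
    hη.aemeasurable).1 hi)

/-- the joint law of the data, the response to one more query and the matrix -/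
theorem IsCond.query_joint (h : IsCond s P X W A R) {v : 𝒳 → ι → ℝ} (hv : Measurable v) :
    P.map (fun ω => ((X ω, W ω *ᵥ v (X ω)), W ω)) =
      (((P.map X).prod (gv ι)).prod (goe ι s)).map fun p =>
        ((p.1.1, resp s (A p.1.1) (R p.1.1) (v p.1.1) p.1.2),
          glue (nextA (A p.1.1) (R p.1.1) (v p.1.1) (resp s (A p.1.1) (R p.1.1) (v p.1.1) p.1.2))
            (nextR (R p.1.1) (v p.1.1)) p.2) := by
  have hX := h.mX; have hW := h.mW; have hA := h.mA; have hR := h.mR
  have e1 : P.map (fun ω => ((X ω, W ω *ᵥ v (X ω)), W ω)) =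
      (P.map fun ω => (X ω, W ω)).map fun p => ((p.1, p.2 *ᵥ v p.1), p.2) := by
    rw [Measure.map_map (by fun_prop) (by fun_prop)]; rfl
  have e2 : ((P.map X).prod (goe ι s)).map (fun p => (p.1, glue (A p.1) (R p.1) p.2)) =
      ((P.map X).prod ((gv ι).prod (goe ι s))).map fun p => (p.1,
        glue (nextA (A p.1) (R p.1) (v p.1) (resp s (A p.1) (R p.1) (v p.1) p.2.1))
          (nextR (R p.1) (v p.1)) p.2.2) := by
    refine prod_map_congr _ _ _ (by fun_prop) (by fun_prop) fun x => ?_
    have := congrArg (Measure.map fun M : Matrix ι ι ℝ => (x, M)) (goe_step (h.proj x) (A x) (v x) s)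
    rw [Measure.map_map (by fun_prop) (by fun_prop),
      Measure.map_map (by fun_prop) (by fun_prop)] at this
    exact this
  rw [e1, h.law, e2, prod_assoc_map _ _ _ (by fun_prop),
    Measure.map_map (by fun_prop) (by fun_prop)]
  congr 1
  funext p
  simp only [Function.comp, glue_step_mulVec (h.proj _)]

/-- **law of the response**: given the data, `W v` is the simulated response `resp` -/
theorem IsCond.query_law (h : IsCond s P X W A R) {v : 𝒳 → ι → ℝ} (hv : Measurable v) :
    P.map (fun ω => (X ω, W ω *ᵥ v (X ω))) =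
      ((P.map X).prod (gv ι)).map fun p => (p.1, resp s (A p.1) (R p.1) (v p.1) p.2) := by
  have hX := h.mX; have hW := h.mW; have hA := h.mA; have hR := h.mR
  have e := congrArg (Measure.map Prod.fst) (h.query_joint hv)
  rw [Measure.map_map measurable_fst (by fun_prop), Measure.map_map measurable_fst (by fun_prop)] at e
  refine e.trans ?_
  have e3 : (Prod.fst ∘ fun p : (𝒳 × (ι → ℝ)) × Matrix ι ι ℝ =>
      ((p.1.1, resp s (A p.1.1) (R p.1.1) (v p.1.1) p.1.2),
        glue (nextA (A p.1.1) (R p.1.1) (v p.1.1) (resp s (A p.1.1) (R p.1.1) (v p.1.1) p.1.2))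
          (nextR (R p.1.1) (v p.1.1)) p.2)) =
      (fun p : 𝒳 × (ι → ℝ) => (p.1, resp s (A p.1) (R p.1) (v p.1) p.2)) ∘ Prod.fst := rfl
  rw [e3, ← Measure.map_map (by fun_prop) measurable_fst, Measure.map_fst_prod, measure_univ,
    one_smul]

/-- **adaptive conditioning**: after one more query the matrix is again conditionally GOE -/
theorem IsCond.query (h : IsCond s P X W A R) {v : 𝒳 → ι → ℝ} (hv : Measurable v) :
    IsCond s P (fun ω => (X ω, W ω *ᵥ v (X ω))) W
      (fun y => nextA (A y.1) (R y.1) (v y.1) y.2) fun y => nextR (R y.1) (v y.1) := by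
  have hX := h.mX; have hW := h.mW; have hA := h.mA; have hR := h.mR
  refine ⟨by fun_prop, hW, by fun_prop, by fun_prop, fun y => (h.proj y.1).nextR _, ?_⟩
  rw [h.query_joint hv, h.query_law hv, map_prod_left ((P.map X).prod (gv ι)) _ (by fun_prop),
    Measure.map_map (by fun_prop) (by fun_prop)]
  rfl

/-! ### integral forms -/

theorem IsCond.lintegral (h : IsCond s P X W A R) {F : 𝒳 × Matrix ι ι ℝ → ℝ≥0∞}
    (hF : Measurable F) : ∫⁻ ω, F (X ω, W ω) ∂P =
      ∫⁻ ω, ∫⁻ W', F (X ω, glue (A (X ω)) (R (X ω)) W') ∂(goe ι s) ∂P := by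
  have hX := h.mX; have hW := h.mW; have hA := h.mA; have hR := h.mR
  have hm : Measurable fun p : 𝒳 × Matrix ι ι ℝ => F (p.1, glue (A p.1) (R p.1) p.2) := by fun_prop
  rw [← lintegral_map hF (by fun_prop), h.law, lintegral_map hF (by fun_prop),
    lintegral_prod _ hm.aemeasurable, lintegral_map hm.lintegral_prod_right' hX]

theorem IsCond.measure (h : IsCond s P X W A R) {S : Set (𝒳 × Matrix ι ι ℝ)}
    (hS : MeasurableSet S) : P {ω | (X ω, W ω) ∈ S} =
      ∫⁻ ω, goe ι s {W' | (X ω, glue (A (X ω)) (R (X ω)) W') ∈ S} ∂P := by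
  have hX := h.mX; have hW := h.mW; have hA := h.mA; have hR := h.mR
  have hm : Measurable fun p : 𝒳 × Matrix ι ι ℝ => (p.1, glue (A p.1) (R p.1) p.2) := by fun_prop
  have e : P {ω | (X ω, W ω) ∈ S} = (P.map fun ω => (X ω, W ω)) S := by
    rw [Measure.map_apply (by fun_prop) hS]; rfl
  rw [e, h.law, Measure.map_apply hm hS, Measure.prod_apply (hm hS),
    lintegral_map (measurable_measure_prodMk_left (hm hS)) hX]
  rfl

theorem IsCond.integral (h : IsCond s P X W A R) {F : 𝒳 × Matrix ι ι ℝ → ℝ}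
    (hF : Measurable F) (hi : Integrable (fun ω => F (X ω, W ω)) P) :
    ∫ ω, F (X ω, W ω) ∂P = ∫ ω, ∫ W', F (X ω, glue (A (X ω)) (R (X ω)) W') ∂(goe ι s) ∂P := by
  have hX := h.mX; have hW := h.mW; have hA := h.mA; have hR := h.mR
  have hT : Measurable fun p : 𝒳 × Matrix ι ι ℝ => (p.1, glue (A p.1) (R p.1) p.2) := by fun_prop
  have hm : Measurable fun p : 𝒳 × Matrix ι ι ℝ => F (p.1, glue (A p.1) (R p.1) p.2) := hF.comp hT
  have hXW : Measurable fun ω => (X ω, W ω) := by fun_prop
  have hi1 : Integrable F (P.map fun ω => (X ω, W ω)) :=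
    (integrable_map_measure hF.aestronglyMeasurable hXW.aemeasurable).2 hi
  rw [h.law, integrable_map_measure hF.aestronglyMeasurable hT.aemeasurable] at hi1
  rw [← integral_map hXW.aemeasurable hF.aestronglyMeasurable, h.law,
    integral_map hT.aemeasurable hF.aestronglyMeasurable,
    integral_prod (fun p : 𝒳 × Matrix ι ι ℝ => F (p.1, glue (A p.1) (R p.1) p.2)) hi1,
    integral_map hX.aemeasurable hm.stronglyMeasurable.integral_prod_right'.aestronglyMeasurable]

theorem IsCond.query_lintegral (h : IsCond s P X W A R) {v : 𝒳 → ι → ℝ} (hv : Measurable v)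
    {F : 𝒳 × (ι → ℝ) → ℝ≥0∞} (hF : Measurable F) : ∫⁻ ω, F (X ω, W ω *ᵥ v (X ω)) ∂P =
      ∫⁻ ω, ∫⁻ ξ, F (X ω, resp s (A (X ω)) (R (X ω)) (v (X ω)) ξ) ∂(gv ι) ∂P := by
  have hX := h.mX; have hW := h.mW; have hA := h.mA; have hR := h.mR
  have hm : Measurable fun p : 𝒳 × (ι → ℝ) => F (p.1, resp s (A p.1) (R p.1) (v p.1) p.2) := by
    fun_prop
  rw [← lintegral_map hF (by fun_prop), h.query_law hv, lintegral_map hF (by fun_prop),
    lintegral_prod _ hm.aemeasurable, lintegral_map hm.lintegral_prod_right' hX]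

theorem IsCond.query_measure (h : IsCond s P X W A R) {v : 𝒳 → ι → ℝ} (hv : Measurable v)
    {S : Set (𝒳 × (ι → ℝ))} (hS : MeasurableSet S) : P {ω | (X ω, W ω *ᵥ v (X ω)) ∈ S} =
      ∫⁻ ω, gv ι {ξ | (X ω, resp s (A (X ω)) (R (X ω)) (v (X ω)) ξ) ∈ S} ∂P := by
  have hX := h.mX; have hW := h.mW; have hA := h.mA; have hR := h.mR
  have hm : Measurable fun p : 𝒳 × (ι → ℝ) => (p.1, resp s (A p.1) (R p.1) (v p.1) p.2) := by
    fun_prop
  have e : P {ω | (X ω, W ω *ᵥ v (X ω)) ∈ S} = (P.map fun ω => (X ω, W ω *ᵥ v (X ω))) S := by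
    rw [Measure.map_apply (by fun_prop) hS]; rfl
  rw [e, h.query_law hv, Measure.map_apply hm hS, Measure.prod_apply (hm hS),
    lintegral_map (measurable_measure_prodMk_left (hm hS)) hX]
  rfl

theorem IsCond.query_integral (h : IsCond s P X W A R) {v : 𝒳 → ι → ℝ} (hv : Measurable v)
    {F : 𝒳 × (ι → ℝ) → ℝ} (hF : Measurable F)
    (hi : Integrable (fun ω => F (X ω, W ω *ᵥ v (X ω))) P) :
    ∫ ω, F (X ω, W ω *ᵥ v (X ω)) ∂P =
      ∫ ω, ∫ ξ, F (X ω, resp s (A (X ω)) (R (X ω)) (v (X ω)) ξ) ∂(gv ι) ∂P := by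
  have hX := h.mX; have hW := h.mW; have hA := h.mA; have hR := h.mR
  have hT : Measurable fun p : 𝒳 × (ι → ℝ) => (p.1, resp s (A p.1) (R p.1) (v p.1) p.2) := by
    fun_prop
  have hm : Measurable fun p : 𝒳 × (ι → ℝ) => F (p.1, resp s (A p.1) (R p.1) (v p.1) p.2) :=
    hF.comp hT
  have hXW : Measurable fun ω => (X ω, W ω *ᵥ v (X ω)) := by fun_prop
  have hi1 : Integrable F (P.map fun ω => (X ω, W ω *ᵥ v (X ω))) :=
    (integrable_map_measure hF.aestronglyMeasurable hXW.aemeasurable).2 hi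
  rw [h.query_law hv, integrable_map_measure hF.aestronglyMeasurable hT.aemeasurable] at hi1
  rw [← integral_map hXW.aemeasurable hF.aestronglyMeasurable, h.query_law hv,
    integral_map hT.aemeasurable hF.aestronglyMeasurable,
    integral_prod (fun p : 𝒳 × (ι → ℝ) => F (p.1, resp s (A p.1) (R p.1) (v p.1) p.2)) hi1,
    integral_map hX.aemeasurable hm.stronglyMeasurable.integral_prod_right'.aestronglyMeasurable]

/-- union bound along good sets -/
lemma lintegral_le_bad_add {f : Ω → ℝ≥0∞} {G : Set Ω} {δ : ℝ≥0∞}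
    (h1 : ∀ ω, f ω ≤ 1) (hG : MeasurableSet G) (h2 : ∀ ω ∈ G, f ω ≤ δ) :
    ∫⁻ ω, f ω ∂P ≤ P Gᶜ + δ := by
  calc ∫⁻ ω, f ω ∂P ≤ ∫⁻ ω, (Gᶜ.indicator 1 ω + δ) ∂P := by
        refine lintegral_mono fun ω => ?_
        by_cases hω : ω ∈ G
        · exact (h2 ω hω).trans le_add_self
        · rw [Set.indicator_of_mem (show ω ∈ Gᶜ from hω)]
          exact (h1 ω).trans le_self_add
    _ = P Gᶜ + δ := by
        rw [lintegral_add_right _ measurable_const, lintegral_indicator_one hG.compl,
          lintegral_const, measure_univ, mul_one]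

/-- bad events of `(X, W)`: enough to bound them for the independent remainder on good data -/
theorem IsCond.bad_le (h : IsCond s P X W A R) {G : Set 𝒳} (hG : MeasurableSet G)
    {S : Set (𝒳 × Matrix ι ι ℝ)} (hS : MeasurableSet S) {δ : ℝ≥0∞}
    (hδ : ∀ x ∈ G, goe ι s {W' | (x, glue (A x) (R x) W') ∈ S} ≤ δ) :
    P {ω | (X ω, W ω) ∈ S} ≤ P {ω | X ω ∉ G} + δ := by
  rw [h.measure hS]
  exact lintegral_le_bad_add (G := X ⁻¹' G) (fun _ => prob_le_one) (h.mX hG)
    fun ω hω => hδ _ hω

/-- bad events of the response: enough to bound them for the simulated response on good data -/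
theorem IsCond.query_bad_le (h : IsCond s P X W A R) {v : 𝒳 → ι → ℝ} (hv : Measurable v)
    {G : Set 𝒳} (hG : MeasurableSet G) {S : Set (𝒳 × (ι → ℝ))} (hS : MeasurableSet S) {δ : ℝ≥0∞}
    (hδ : ∀ x ∈ G, gv ι {ξ | (x, resp s (A x) (R x) (v x) ξ) ∈ S} ≤ δ) :
    P {ω | (X ω, W ω *ᵥ v (X ω)) ∈ S} ≤ P {ω | X ω ∉ G} + δ := by
  rw [h.query_measure hv hS]
  exact lintegral_le_bad_add (G := X ⁻¹' G) (fun _ => prob_le_one) (h.mX hG)
    fun ω hω => hδ _ hω

end Crest.Agent.T157.Cond

end
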