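import Crest.Agent.T157.KrA_53
import Crest.Agent.T157.CondC_53

/-!
# Row 157, part E (helper53): conditioning a GOE matrix on a noisy linear observation

`goe_weighted`: `E_W [φ_v (z - β W p) F(W)] = phiS · E F (s rk2 (postW η) e + P W' P)` where
`e = p/|p|`, `P = 1 - e eᵀ`, `τ = β s |p|`, `phiS` is the density at `z` of `√v g + β W p` and
`postW` the posterior law of `W e / s`.
-/

set_option autoImplicit false
set_option linter.unusedSectionVars false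

noncomputable section

namespace Crest.Agent.T157.Kr

open MeasureTheory ProbabilityTheory Matrix Real
open Crest.Agent.T157.E Crest.Agent.T157.Cond
open scoped ENNReal

variable {ι : Type*} [Fintype ι] [DecidableEq ι]

/-- the matrix acting as `a` on `e^⊥` and as `b` on `e` -/
def blk (e : ι → ℝ) (a b : ℝ) : Matrix ι ι ℝ := a • (1 - vecMulVec e e) + b • vecMulVec e e

lemma blk_mulVec (e : ι → ℝ) (a b : ℝ) (x : ι → ℝ) :
    blk e a b *ᵥ x = a • x + ((b - a) * (e ⬝ᵥ x)) • e := by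
  rw [blk, Matrix.add_mulVec, Matrix.smul_mulVec, Matrix.smul_mulVec, Matrix.sub_mulVec,
    Matrix.one_mulVec, vmv_mulVec, smul_sub, smul_smul, smul_smul, sub_mul, sub_smul]
  abel

lemma blk_smul (e : ι → ℝ) (c a b : ℝ) : c • blk e a b = blk e (c * a) (c * b) := by
  simp only [blk, smul_add, smul_smul]

lemma blk_one (e : ι → ℝ) : blk e 1 1 = 1 := by simp [blk]

@[fun_prop] lemma _root_.Measurable.t157_blk {Ω : Type*} [MeasurableSpace Ω] {e : Ω → ι → ℝ}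
    {a b : Ω → ℝ} (he : Measurable e) (ha : Measurable a) (hb : Measurable b) :
    Measurable fun ω => blk (e ω) (a ω) (b ω) := by
  unfold blk; fun_prop

section unit
variable {e : ι → ℝ} (he : e ⬝ᵥ e = 1)
include he

lemma dot_blk (a b : ℝ) (x : ι → ℝ) : e ⬝ᵥ blk e a b *ᵥ x = b * (e ⬝ᵥ x) := by
  rw [blk_mulVec, dotProduct_add, dotProduct_smul, dotProduct_smul, he, smul_eq_mul, smul_eq_mul]
  ring

lemma blk_mul (a b a' b' : ℝ) : blk e a b * blk e a' b' = blk e (a * a') (b * b') := by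
  refine Matrix.ext_of_mulVec_single fun i => ?_
  rw [← Matrix.mulVec_mulVec, blk_mulVec e a b, dot_blk he, blk_mulVec, blk_mulVec]
  module

lemma blk_inv {a b : ℝ} (ha : a ≠ 0) (hb : b ≠ 0) : (blk e a b)⁻¹ = blk e a⁻¹ b⁻¹ :=
  Matrix.inv_eq_left_inv (by rw [blk_mul he, inv_mul_cancel₀ ha, inv_mul_cancel₀ hb, blk_one])

lemma det_blk {a : ℝ} (ha : a ≠ 0) (b : ℝ) : (blk e a b).det = a ^ Fintype.card ι * (b / a) := by
  have h1 : blk e a b = a • (1 + vecMulVec (((b - a) / a) • e) e) := by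
    rw [blk, Matrix.smul_vecMulVec, smul_add, smul_sub, smul_smul, mul_div_cancel₀ _ ha, sub_smul]
    abel
  rw [h1, Matrix.det_smul, Matrix.vecMulVec_eq Unit,
    Matrix.det_one_add_replicateCol_mul_replicateRow, dotProduct_smul, he, smul_eq_mul]
  congr 1
  field_simp
  ring

lemma blk_dot_blk (a b : ℝ) (x : ι → ℝ) : blk e a b *ᵥ x ⬝ᵥ blk e a b *ᵥ x =
    a ^ 2 * (x ⬝ᵥ x - (e ⬝ᵥ x) ^ 2) + b ^ 2 * (e ⬝ᵥ x) ^ 2 := by
  rw [blk_mulVec]
  simp only [add_dotProduct, dotProduct_add, smul_dotProduct, dotProduct_smul, smul_eq_mul, he,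
    dotProduct_comm x e]
  ring

omit he in
lemma dot_blk' (a b : ℝ) (x y : ι → ℝ) :
    y ⬝ᵥ blk e a b *ᵥ x = a * (y ⬝ᵥ x) + (b - a) * (e ⬝ᵥ x) * (e ⬝ᵥ y) := by
  rw [blk_mulVec, dotProduct_add, dotProduct_smul, dotProduct_smul, smul_eq_mul, smul_eq_mul,
    dotProduct_comm y e]

end unit

/-- density at `z` of `√v g + blk e τ₁ τ₂ ξ` -/
def phiB (v τ₁ τ₂ : ℝ) (e z : ι → ℝ) : ℝ :=
  phi (v + τ₁ ^ 2) z * (Real.sqrt (v + τ₁ ^ 2) / Real.sqrt (v + τ₂ ^ 2)) *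
    Real.exp ((τ₂ ^ 2 - τ₁ ^ 2) * (e ⬝ᵥ z) ^ 2 / (2 * (v + τ₁ ^ 2) * (v + τ₂ ^ 2)))

lemma phiB_nonneg (v τ₁ τ₂ : ℝ) (e z : ι → ℝ) : 0 ≤ phiB v τ₁ τ₂ e z := by
  unfold phiB
  have := phi_nonneg (v + τ₁ ^ 2) z
  positivity

lemma square_completion {e : ι → ℝ} (he : e ⬝ᵥ e = 1) {v : ℝ} (hv : 0 < v) (τ₁ τ₂ : ℝ)
    (z ξ : ι → ℝ) :
    phi 1 ξ * phi v (z - blk e τ₁ τ₂ *ᵥ ξ) = phiB v τ₁ τ₂ e z *
      (|(blk e (Real.sqrt v / Real.sqrt (v + τ₁ ^ 2)) (Real.sqrt v / Real.sqrt (v + τ₂ ^ 2))).det⁻¹| *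
        phi 1 ((blk e (Real.sqrt v / Real.sqrt (v + τ₁ ^ 2))
          (Real.sqrt v / Real.sqrt (v + τ₂ ^ 2)))⁻¹ *ᵥ
            (ξ - blk e (τ₁ / (v + τ₁ ^ 2)) (τ₂ / (v + τ₂ ^ 2)) *ᵥ z))) := by
  have hA : 0 < v + τ₁ ^ 2 := by positivity
  have hB : 0 < v + τ₂ ^ 2 := by positivity
  have sv : 0 < Real.sqrt v := Real.sqrt_pos.2 hv
  have sA : 0 < Real.sqrt (v + τ₁ ^ 2) := Real.sqrt_pos.2 hA
  have sB : 0 < Real.sqrt (v + τ₂ ^ 2) := Real.sqrt_pos.2 hB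
  have s2 : 0 < Real.sqrt (2 * π) := Real.sqrt_pos.2 (by positivity)
  have ha : Real.sqrt v / Real.sqrt (v + τ₁ ^ 2) ≠ 0 := by positivity
  have hb : Real.sqrt v / Real.sqrt (v + τ₂ ^ 2) ≠ 0 := by positivity
  have ia : (Real.sqrt v / Real.sqrt (v + τ₁ ^ 2))⁻¹ ^ 2 = (v + τ₁ ^ 2) / v := by
    rw [inv_div, div_pow, Real.sq_sqrt hA.le, Real.sq_sqrt hv.le]
  have ib : (Real.sqrt v / Real.sqrt (v + τ₂ ^ 2))⁻¹ ^ 2 = (v + τ₂ ^ 2) / v := by
    rw [inv_div, div_pow, Real.sq_sqrt hB.le, Real.sq_sqrt hv.le]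
  rw [blk_inv he ha hb, det_blk he ha, abs_of_pos (by positivity)]
  unfold phiB phi
  rw [blk_dot_blk he, ia, ib]
  simp only [sub_dotProduct, dotProduct_sub, blk_dot_blk he, dot_blk he,
    dotProduct_comm (blk e _ _ *ᵥ _) z, dotProduct_comm (blk e _ _ *ᵥ _) ξ, dot_blk',
    dotProduct_comm z ξ]
  rw [Real.sqrt_mul' (2 * π) hv.le, Real.sqrt_mul' (2 * π) hA.le, mul_one]
  have key : ∀ c₁ c₂ c₃ c₄ c₅ c₆ x₁ x₂ x₃ x₄ x₅ : ℝ, c₁ * c₂ = c₃ * c₄ * (c₅ * c₆) →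
      x₁ + x₂ = x₃ + x₄ + x₅ →
      c₁ * Real.exp x₁ * (c₂ * Real.exp x₂) =
        c₃ * Real.exp x₃ * c₄ * Real.exp x₄ * (c₅ * (c₆ * Real.exp x₅)) := by
    intro c₁ c₂ c₃ c₄ c₅ c₆ x₁ x₂ x₃ x₄ x₅ h1 h2
    calc _ = c₁ * c₂ * Real.exp (x₁ + x₂) := by rw [Real.exp_add]; ring
      _ = _ := by rw [h1, h2, Real.exp_add, Real.exp_add]; ring
  refine key _ _ _ _ _ _ _ _ _ _ _ ?_ ?_
  · simp only [mul_inv, mul_pow, inv_pow, div_pow]
    field_simp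
  · field_simp
    ring

/-- Gaussian tilting by a noisy observation with two-block structure -/
theorem gv_weighted {e : ι → ℝ} (he : e ⬝ᵥ e = 1) {v : ℝ} (hv : 0 < v) (τ₁ τ₂ : ℝ) (z : ι → ℝ)
    {G : (ι → ℝ) → ℝ≥0∞} (hG : Measurable G) :
    ∫⁻ ξ, ENNReal.ofReal (phi v (z - blk e τ₁ τ₂ *ᵥ ξ)) * G ξ ∂(gv ι) =
      ENNReal.ofReal (phiB v τ₁ τ₂ e z) * ∫⁻ η, G (blk e (τ₁ / (v + τ₁ ^ 2)) (τ₂ / (v + τ₂ ^ 2)) *ᵥ z +
        blk e (Real.sqrt v / Real.sqrt (v + τ₁ ^ 2)) (Real.sqrt v / Real.sqrt (v + τ₂ ^ 2)) *ᵥ η)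
          ∂(gv ι) := by
  have ha : Real.sqrt v / Real.sqrt (v + τ₁ ^ 2) ≠ 0 := by positivity
  have hb : Real.sqrt v / Real.sqrt (v + τ₂ ^ 2) ≠ 0 := by positivity
  rw [lintegral_gv (by fun_prop), lintegral_gv_affine (by rw [det_blk he ha]; positivity) _ hG,
    ← lintegral_const_mul _ (by fun_prop)]
  refine lintegral_congr fun ξ => ?_
  rw [← mul_assoc, ← mul_assoc, ← ENNReal.ofReal_mul (phi_nonneg _ _),
    ← ENNReal.ofReal_mul (phiB_nonneg _ _ _ _ _), square_completion he hv]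

/-- density at `z` of `√v g + β W p` (`τ = β s |p|`, `e = p/|p|`): the product density
`N(0, v + τ²)` times a correction in the direction `e` -/
def phiS (v τ : ℝ) (e z : ι → ℝ) : ℝ :=
  phi (v + τ ^ 2) z * (Real.sqrt (v + τ ^ 2) / Real.sqrt (v + 2 * τ ^ 2)) *
    Real.exp (τ ^ 2 * (e ⬝ᵥ z) ^ 2 / (2 * (v + τ ^ 2) * (v + 2 * τ ^ 2)))

lemma phiS_nonneg (v τ : ℝ) (e z : ι → ℝ) : 0 ≤ phiS v τ e z := by
  unfold phiS
  have := phi_nonneg (v + τ ^ 2) z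
  positivity

lemma phiS_le (v τ : ℝ) (e z : ι → ℝ) : phiS v τ e z ≤
    phi (v + τ ^ 2) z * Real.exp (τ ^ 2 * (e ⬝ᵥ z) ^ 2 / (2 * (v + τ ^ 2) * (v + 2 * τ ^ 2))) := by
  unfold phiS
  have h0 := phi_nonneg (v + τ ^ 2) z
  have h1 : Real.sqrt (v + τ ^ 2) / Real.sqrt (v + 2 * τ ^ 2) ≤ 1 :=
    div_le_one_of_le₀ (Real.sqrt_le_sqrt (by nlinarith [sq_nonneg τ])) (Real.sqrt_nonneg _)
  exact mul_le_mul_of_nonneg_right (mul_le_of_le_one_right h0 h1) (Real.exp_pos _).le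

/-- posterior value of `W e / s` given `√v g + β W p = z`, driven by a standard Gaussian `η` -/
def postW (v τ : ℝ) (e z η : ι → ℝ) : ι → ℝ :=
  blk e (τ / (v + τ ^ 2)) (2 * τ / (v + 2 * τ ^ 2)) *ᵥ z +
    blk e (Real.sqrt v / Real.sqrt (v + τ ^ 2))
      (Real.sqrt 2 * Real.sqrt v / Real.sqrt (v + 2 * τ ^ 2)) *ᵥ η

@[fun_prop] lemma _root_.Measurable.t157_postW {Ω : Type*} [MeasurableSpace Ω] {v τ : Ω → ℝ}
    {e z η : Ω → ι → ℝ} (hv : Measurable v) (hτ : Measurable τ) (he : Measurable e)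
    (hz : Measurable z) (hη : Measurable η) :
    Measurable fun ω => postW (v ω) (τ ω) (e ω) (z ω) (η ω) := by
  unfold postW; fun_prop

lemma dirv_one (p : ι → ℝ) : dirv 1 p = unitv p := by rw [dirv, Matrix.one_mulVec]

lemma nextR_one (p : ι → ℝ) : nextR 1 p = 1 - vecMulVec (unitv p) (unitv p) := by
  rw [nextR, dirv_one]

lemma noise_one (p ξ : ι → ℝ) : noise 1 p ξ = blk (unitv p) 1 (Real.sqrt 2) *ᵥ ξ := by
  rw [noise_eq IsProj.one, blk_mulVec, dirv_one, Matrix.one_mulVec, one_smul]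

/-- **conditioning a GOE matrix on `√v g + β W p = z`** -/
theorem goe_weighted {v : ℝ} (hv : 0 < v) (β s : ℝ) (p z : ι → ℝ) {F : Matrix ι ι ℝ → ℝ≥0∞}
    (hF : Measurable F) :
    ∫⁻ W, ENNReal.ofReal (phi v (z - β • W *ᵥ p)) * F W ∂(goe ι s) =
      ENNReal.ofReal (phiS v (β * s * len p) (unitv p) z) *
        ∫⁻ q, F (s • rk2 (postW v (β * s * len p) (unitv p) z q.1) (unitv p) +
          (1 - vecMulVec (unitv p) (unitv p)) * q.2 * (1 - vecMulVec (unitv p) (unitv p)))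
          ∂((gv ι).prod (goe ι s)) := by
  by_cases hp : p = 0
  · subst hp
    have h0 : Real.sqrt v ≠ 0 := (Real.sqrt_pos.2 hv).ne'
    have h1 : len (0 : ι → ℝ) = 0 := len_eq_zero.2 rfl
    simp only [Matrix.mulVec_zero, smul_zero, sub_zero, unitv_zero, rk2_zero_right, h1, mul_zero,
      Matrix.vecMulVec_zero, Matrix.one_mul, Matrix.mul_one, zero_add]
    rw [lintegral_const_mul _ hF, lintegral_prod _ (by fun_prop)]
    simp [phiS, h0]
  have he := unitv_dot hp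
  set e := unitv p with hedef
  set τ := β * s * len p with hτ
  have h2 : Real.sqrt 2 ^ 2 = 2 := Real.sq_sqrt (by norm_num)
  have h := goe_step0 (IsProj.one (ι := ι)) p s
  simp only [Matrix.one_mul, Matrix.mul_one, Measure.map_id', dirv_one, nextR_one, noise_one,
    ← hedef] at h
  have hm : Measurable fun W : Matrix ι ι ℝ => ENNReal.ofReal (phi v (z - β • W *ᵥ p)) * F W := by
    fun_prop
  have hW : ∀ (ξ : ι → ℝ) (W' : Matrix ι ι ℝ),
      β • (s • rk2 (blk e 1 (Real.sqrt 2) *ᵥ ξ) e + (1 - vecMulVec e e) * W' * (1 - vecMulVec e e))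
        *ᵥ p = blk e τ (Real.sqrt 2 * τ) *ᵥ ξ := by
    intro ξ W'
    have h3 := glue_step_mulVec (IsProj.one (ι := ι)) p s 0 W' ξ
    rw [nextA_resp, glue, resp] at h3
    simp only [zero_add, Matrix.zero_mulVec, Matrix.one_mulVec, dirv_one, nextR_one, noise_one,
      ← hedef] at h3
    rw [h3, smul_smul, ← Matrix.smul_mulVec, blk_smul, ← mul_assoc, ← hτ, mul_one, mul_comm τ]
  conv_lhs => rw [h]
  rw [lintegral_map hm (by fun_prop), lintegral_prod_symm _ (by fun_prop),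
    lintegral_prod_symm _ (by fun_prop), ← lintegral_const_mul' _ _ ENNReal.ofReal_ne_top]
  refine lintegral_congr fun W' => ?_
  simp only [hW]
  rw [gv_weighted he hv τ (Real.sqrt 2 * τ) z (G := fun ξ => F (s • rk2 (blk e 1 (Real.sqrt 2) *ᵥ ξ) e +
    (1 - vecMulVec e e) * W' * (1 - vecMulVec e e))) (by fun_prop)]
  have h4 : (Real.sqrt 2 * τ) ^ 2 = 2 * τ ^ 2 := by rw [mul_pow, h2]
  congr 1
  · rw [phiB, phiS, h4]
    congr 4
    ring
  · refine lintegral_congr fun η => ?_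
    rw [Matrix.mulVec_add, Matrix.mulVec_mulVec, Matrix.mulVec_mulVec, blk_mul he, blk_mul he, h4,
      postW, one_mul, one_mul, ← mul_div_assoc, ← mul_div_assoc, ← mul_assoc, ← sq, h2]

/-- the density of `√v g + β W p` -/
theorem goe_density {v : ℝ} (hv : 0 < v) (β s : ℝ) (p z : ι → ℝ) :
    ∫⁻ W, ENNReal.ofReal (phi v (z - β • W *ᵥ p)) ∂(goe ι s) =
      ENNReal.ofReal (phiS v (β * s * len p) (unitv p) z) := by
  have h := goe_weighted hv β s p z (F := fun _ => 1) measurable_const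
  simpa using h

end Crest.Agent.T157.Kr

end
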