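import Crest.Agent.T157.QeDef_24

/-!
# Row 157, part A2 (helper66): the planted form of the quenched edge (`Qe.PtGlue`)

Cameron–Martin shift by `s s' / n`, then conditioning on the column `W p`.
-/

set_option autoImplicit false

noncomputable section

namespace Crest.Agent.T157.Qe

open Matrix Finset MeasureTheory Set
open scoped ENNReal
open Crest.Agent.T157.E Crest.Agent.T157.Cond Crest.Agent.T157.Dq
open Crest.Agent.T157.Conc (ex)

namespace Pt66

variable {n : ℕ}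

lemma measurableSet_le_right (M : Mx n) : MeasurableSet {W : Mx n | Le W M} := by
  have h : {W : Mx n | Le W M} = ⋂ u : V n, {W : Mx n | u ⬝ᵥ W *ᵥ u ≤ u ⬝ᵥ M *ᵥ u} := by
    ext W; simp [Le]
  rw [h]
  refine (isClosed_iInter fun u => isClosed_le ?_ continuous_const).measurableSet
  fun_prop

/-- Cameron–Martin shift -/
lemma cm (s : V n) {G : Mx n → ℝ≥0∞} (hG : Measurable G) :
    ∫⁻ W, ex (s ⬝ᵥ W *ᵥ s / 2) * G W ∂GOE n =
      ex ((1 / Real.sqrt n) ^ 2 * Vq ((1 / 2 : ℝ) • vecMulVec s s) / 2) *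
        ∫⁻ W, G (W + (1 / (n : ℝ)) • vecMulVec s s) ∂GOE n := by
  have h := Kr.goe_cm (1 / Real.sqrt n) ((1 / 2 : ℝ) • vecMulVec s s) hG
  have e1 : ∀ W : Mx n, pair ((1 / 2 : ℝ) • vecMulVec s s) W = s ⬝ᵥ W *ᵥ s / 2 := by
    intro W
    rw [smul_pair, Kr.pair_comm, pair_vecMulVec]; ring
  have e2 : (1 / Real.sqrt n) ^ 2 • ((1 / 2 : ℝ) • vecMulVec s s +
      ((1 / 2 : ℝ) • vecMulVec s s)ᵀ) = (1 / (n : ℝ)) • vecMulVec s s := by
    rw [Matrix.transpose_smul, Matrix.transpose_vecMulVec, ← add_smul, div_pow, one_pow,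
      Real.sq_sqrt (Nat.cast_nonneg n)]
    norm_num
  simp only [e1, e2] at h
  exact h

/-- the planted column -/
def col (p s ξ : V n) : V n :=
  (len p)⁻¹ • resp (1 / Real.sqrt n) 0 1 p ξ + (unitv p ⬝ᵥ s / n) • s

lemma measurable_col (p s : V n) : Measurable (col p s) := by
  unfold col; fun_prop

lemma nextR_one (p : V n) : nextR (1 : Mx n) p = R1 (unitv p) := by
  simp [nextR, R1, dirv]

lemma isProj_R1 (p : V n) : IsProj (R1 (unitv p)) := by
  rw [← nextR_one]; exact IsProj.one.nextR p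

lemma rk2_add (a b e : V n) : rk2 (a + b) e = rk2 a e + rk2 b e := by
  simp only [rk2, Matrix.add_vecMulVec, Matrix.vecMulVec_add, dotProduct_add, add_smul]
  abel

lemma vmv_split (e s : V n) :
    vecMulVec s s = rk2 ((e ⬝ᵥ s) • s) e + vecMulVec (bv e s) (bv e s) := by
  have h : bv e s = s - (e ⬝ᵥ s) • e := by
    rw [bv, R1, Matrix.sub_mulVec, Matrix.one_mulVec, vmv_mulVec]
  rw [h, rk2, dotProduct_smul]
  ext i j
  simp only [Matrix.add_apply, Matrix.sub_apply, Matrix.smul_apply, vecMulVec_apply,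
    Pi.smul_apply, Pi.sub_apply, smul_eq_mul]
  ring

lemma shift_eq (p s ξ : V n) (W : Mx n) :
    glue (nextA 0 1 p (resp (1 / Real.sqrt n) 0 1 p ξ)) (nextR 1 p) W +
      (1 / (n : ℝ)) • vecMulVec s s = Wm (unitv p) (col p s ξ) (bv (unitv p) s) W := by
  have hR := isProj_R1 p
  have hτ : R1 (unitv p) *ᵥ bv (unitv p) s = bv (unitv p) s := hR.mulVec_mulVec s
  have h1 : R1 (unitv p) * vecMulVec (bv (unitv p) s) (bv (unitv p) s) * R1 (unitv p) =
      vecMulVec (bv (unitv p) s) (bv (unitv p) s) := by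
    rw [Matrix.mul_vecMulVec, vmv_mul, hR.symm, hτ]
  have h2 : (unitv p ⬝ᵥ s / n) • s = (1 / (n : ℝ)) • ((unitv p ⬝ᵥ s) • s) := by
    rw [smul_smul]; congr 1; ring
  rw [Wm, glue, glue, nextR_one, col, rk2_add, h2, rk2_smul (1 / (n : ℝ)), Matrix.mul_add,
    Matrix.add_mul, Matrix.mul_smul, Matrix.smul_mul, h1, nextA]
  conv_lhs => rw [vmv_split (unitv p) s]
  simp only [dirv, Matrix.one_mulVec, Matrix.zero_mulVec, sub_zero, zero_add, smul_add]
  abel

lemma Wm_mulVec (p c τ : V n) (W : Mx n) : Wm (unitv p) c τ W *ᵥ p = len p • c := by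
  have h1 := rk2_mulVec_v (IsProj.one (ι := Fin n)) p (w := c) (Matrix.one_mulVec c)
  have h2 := nextR_v (IsProj.one (ι := Fin n)) p
  rw [nextR_one] at h2
  simp only [dirv, Matrix.one_mulVec] at h1
  rw [Wm, glue, Matrix.add_mulVec, ← Matrix.mulVec_mulVec, h2, Matrix.mulVec_zero, add_zero, h1]

lemma measurable_Wm (e τ : V n) : Measurable fun z : V n × Mx n => Wm e z.1 τ z.2 := by
  unfold Wm; fun_prop

lemma goe_eq (p : V n) : GOE n = ((gv (Fin n)).prod (GOE n)).map (fun z : V n × Mx n =>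
      glue (nextA 0 1 p (resp (1 / Real.sqrt n) 0 1 p z.1)) (nextR 1 p) z.2) := by
  have h := goe_step (IsProj.one (ι := Fin n)) 0 p (1 / Real.sqrt n)
  have e1 : (fun W : Mx n => glue 0 1 W) = id := by funext W; simp [glue]
  rw [e1, Measure.map_id] at h
  exact h

lemma lint_step (p : V n) {G : Mx n → ℝ≥0∞} (hG : Measurable G) :
    ∫⁻ W, G W ∂GOE n = ∫⁻ ξ, ∫⁻ W,
      G (glue (nextA 0 1 p (resp (1 / Real.sqrt n) 0 1 p ξ)) (nextR 1 p) W) ∂GOE n ∂gv (Fin n) := by
  have hT : Measurable fun z : V n × Mx n =>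
      glue (nextA 0 1 p (resp (1 / Real.sqrt n) 0 1 p z.1)) (nextR 1 p) z.2 := by fun_prop
  have h2 := lintegral_map (μ := (gv (Fin n)).prod (GOE n)) hG hT
  rw [← goe_eq p] at h2
  exact h2.trans (lintegral_prod _ (hG.comp hT).aemeasurable)

/-- conditioning on the column -/
lemma cond (p s : V n) {G : Mx n → ℝ≥0∞} (hG : Measurable G) :
    ∫⁻ W, G (W + (1 / (n : ℝ)) • vecMulVec s s) ∂GOE n =
      ∫⁻ ξ, ∫⁻ W, G (Wm (unitv p) (col p s ξ) (bv (unitv p) s) W) ∂GOE n ∂gv (Fin n) := by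
  have hG' : Measurable fun W : Mx n => G (W + (1 / (n : ℝ)) • vecMulVec s s) := by fun_prop
  rw [lint_step p hG']
  exact lintegral_congr fun ξ => lintegral_congr fun W => by rw [shift_eq]

/-- planted bound from a conditional bound -/
theorem planted (p s : V n) {A : Set (Mx n)} (hA : MeasurableSet A)
    {F : V n → ℝ≥0∞} (hF : Measurable F) {B : ℝ≥0∞}
    (hB : ∀ c, F (len p • c) ≠ 0 → GOE n {W | Wm (unitv p) c (bv (unitv p) s) W ∈ A} ≤ B) :
    ∫⁻ W in A, ex (s ⬝ᵥ W *ᵥ s / 2) * F (W *ᵥ p) ∂GOE n ≤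
      B * ∫⁻ W, ex (s ⬝ᵥ W *ᵥ s / 2) * F (W *ᵥ p) ∂GOE n := by
  have hFp : Measurable fun W : Mx n => F (W *ᵥ p) := by fun_prop
  have hG : Measurable (A.indicator fun W : Mx n => F (W *ᵥ p)) := hFp.indicator hA
  have e1 : ∫⁻ W in A, ex (s ⬝ᵥ W *ᵥ s / 2) * F (W *ᵥ p) ∂GOE n =
      ∫⁻ W, ex (s ⬝ᵥ W *ᵥ s / 2) * A.indicator (fun W : Mx n => F (W *ᵥ p)) W ∂GOE n := by
    rw [← lintegral_indicator hA]
    refine lintegral_congr fun W => ?_
    by_cases hW : W ∈ A <;> simp [hW]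
  rw [e1, cm s hG, cm s hFp, cond p s hG, cond p s hFp, mul_left_comm]
  refine mul_le_mul_right ?_ _
  have hc : Measurable fun ξ : V n => F (len p • col p s ξ) := by
    have := measurable_col p s
    fun_prop
  simp only [Wm_mulVec, lintegral_const, measure_univ, mul_one]
  rw [← lintegral_const_mul _ hc]
  refine lintegral_mono fun ξ => ?_
  have hm : MeasurableSet {W | Wm (unitv p) (col p s ξ) (bv (unitv p) s) W ∈ A} :=
    ((measurable_Wm (unitv p) (bv (unitv p) s)).comp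
      (measurable_const.prodMk measurable_id)) hA
  have e2 : ∀ W, A.indicator (fun W : Mx n => F (W *ᵥ p))
      (Wm (unitv p) (col p s ξ) (bv (unitv p) s) W) =
      {W | Wm (unitv p) (col p s ξ) (bv (unitv p) s) W ∈ A}.indicator
        (fun _ => F (len p • col p s ξ)) W := by
    intro W
    by_cases hW : Wm (unitv p) (col p s ξ) (bv (unitv p) s) W ∈ A
    · rw [Set.indicator_of_mem hW, Set.indicator_of_mem (by exact hW), Wm_mulVec]
    · rw [Set.indicator_of_notMem hW, Set.indicator_of_notMem (by exact hW)]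
  simp only [e2]
  rw [lintegral_indicator_const hm, mul_comm]
  by_cases h0 : F (len p • col p s ξ) = 0
  · simp [h0]
  · exact mul_le_mul_left (hB _ h0) _

end Pt66

/-- **task 716** -/
theorem ptGlue : PtGlue := by
  intro h C hC Cw hCw
  obtain ⟨ε0, hε0, h⟩ := h C hC Cw hCw
  refine ⟨ε0, hε0, fun ε hε => ?_⟩
  obtain ⟨δ, hδ, q1, hq1, K, h⟩ := h ε hε
  refine ⟨δ, hδ, q1, hq1, K, fun n q E β D p s S F hn hq hnq hE hS hD hp hF hSt => ?_⟩
  refine Pt66.planted p s (hS.meas.inter (Pt66.measurableSet_le_right _).compl) hF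
    fun c hc => ?_
  have hl : len p ≠ 0 := fun h => hp (len_eq_zero.1 h)
  have h1 := hSt _ hc
  rw [smul_smul, inv_mul_cancel₀ hl, one_smul] at h1
  exact h n q E β D (unitv p) c (bv (unitv p) s) S hn hq hnq hE hS hD h1

end Crest.Agent.T157.Qe

end
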