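import Crest.Agent.T157.KbDef_24
import Crest.Agent.T157.QePt_66
import Crest.Agent.T157.KrB_53

/-!
# Row 157, part A2, section 2 (helper47): exact disintegration of `Pt` (`Kb.MargStmt`)

Cameron–Martin shift by `1 1ᵀ / n`, then conditioning of the GOE matrix on the noisy observation.
-/

set_option autoImplicit false

noncomputable section

namespace Crest.Agent.T157.Kb

open MeasureTheory Matrix Set Filter
open scoped ENNReal
open Crest.Agent.T157.E Crest.Agent.T157.Cond Crest.Agent.T157.Tap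
open Crest.Agent.T157.Qe (Le R1 bv Wm)
open Crest.Agent.T157.Conc (ex)

namespace M47

variable {n : ℕ}

lemma bv_eq (e u : V n) : bv e u = u - (e ⬝ᵥ u) • e := by
  rw [bv, R1, Matrix.sub_mulVec, Matrix.one_mulVec, vmv_mulVec]

lemma th_dot (hn : 0 < n) (x : V n) : th x ⬝ᵥ th x = n * aS x := by
  have : (n : ℝ) ≠ 0 := by positivity
  rw [aS, avg, mul_div_cancel₀ _ this]
  simp only [dotProduct, sq]

lemma th_one (hn : 0 < n) (x : V n) : th x ⬝ᵥ (1 : V n) = n * bS x := by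
  have : (n : ℝ) ≠ 0 := by positivity
  rw [bS, avg, mul_div_cancel₀ _ this]
  simp [dotProduct]

lemma avg_DD (hn : 0 < n) (x : V n) : avg (DD (th x)) = 1 - aS x := by
  have : (n : ℝ) ≠ 0 := by positivity
  simp only [avg, DD, aS, Finset.sum_sub_distrib, Finset.sum_const, Finset.card_univ,
    Fintype.card_fin, nsmul_eq_mul, mul_one]
  field_simp

lemma th_y (hn : 0 < n) (t : ℝ) (x : V n) :
    th x ⬝ᵥ (x - mu t x • (1 : V n)) = n * (ww t x + ga t x * (1 - aS x)) := by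
  have : (n : ℝ) ≠ 0 := by positivity
  rw [ww, sub_add_cancel, avg, mul_div_cancel₀ _ this]
  simp [dotProduct]

lemma len_sq' (hn : 0 < n) (x : V n) : len (th x) ^ 2 = n * aS x := by
  rw [len_sq, th_dot hn]

lemma len_pos {x : V n} (hx : th x ≠ 0) : 0 < len (th x) :=
  lt_of_le_of_ne (len_nonneg _) fun h => hx (len_eq_zero.1 h.symm)

lemma aS_pos (hn : 0 < n) {x : V n} (hx : th x ≠ 0) : 0 < aS x := by
  have h1 := len_sq' hn x
  have h2 := pow_pos (len_pos hx) 2
  have h3 : (0 : ℝ) < n := by positivity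
  rw [h1] at h2
  exact (mul_pos_iff_of_pos_left h3).1 h2

/-- almost every point has a nonzero `tanh` -/
lemma ae_th (hn : 0 < n) : ∀ᵐ x : V n, th x ≠ 0 := by
  have : Nonempty (Fin n) := ⟨⟨0, hn⟩⟩
  have h : {x : V n | ¬ th x ≠ 0} ⊆ {0} := by
    intro x hx
    have h1 : th x = 0 := not_not.1 hx
    funext i
    have h2 : Real.tanh (x i) = 0 := congrFun h1 i
    rw [Real.tanh_eq_sinh_div_cosh, div_eq_zero_iff] at h2
    rcases h2 with h2 | h2
    · exact Real.sinh_eq_zero.1 h2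
    · exact absurd h2 (Real.cosh_pos _).ne'
  exact measure_mono_null h (measure_singleton _)

/-- the observed vector -/
def zv (t : ℝ) (x : V n) : V n := x - mu t x • (1 : V n) + (1 - aS x) • th x

lemma Y_shift (hn : 0 < n) (t : ℝ) (x : V n) (W : Mx n) :
    Ymap (W + (1 / (n : ℝ)) • vecMulVec (1 : V n) 1) 1 x - t • (1 : V n) =
      zv t x - (1 : ℝ) • W *ᵥ th x := by
  have : (n : ℝ) ≠ 0 := by positivity
  rw [Ymap, Matrix.add_mulVec, Matrix.smul_mulVec, vmv_mulVec, dotProduct_comm, th_one hn,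
    avg_DD hn, zv, mu, smul_smul, one_div, inv_mul_cancel_left₀ this, one_mul, one_smul, add_smul]
  abel

lemma th_zv (hn : 0 < n) (t : ℝ) (x : V n) :
    th x ⬝ᵥ zv t x = n * (ww t x + (1 - aS x) * (ga t x + aS x)) := by
  rw [zv, dotProduct_add, th_y hn, dotProduct_smul, th_dot hn, smul_eq_mul]
  ring

lemma zv_zv (hn : 0 < n) (t : ℝ) (x : V n) : zv t x ⬝ᵥ zv t x =
    (x - mu t x • (1 : V n)) ⬝ᵥ (x - mu t x • (1 : V n)) +
      2 * (1 - aS x) * (n * (ww t x + ga t x * (1 - aS x))) + (1 - aS x) ^ 2 * (n * aS x) := by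
  rw [← th_y hn, ← th_dot hn, zv]
  generalize x - mu t x • (1 : V n) = y
  simp only [add_dotProduct, dotProduct_add, smul_dotProduct, dotProduct_smul, smul_eq_mul,
    dotProduct_comm y (th x)]
  ring

lemma tau_sq (hn : 0 < n) (x : V n) : (1 * (1 / Real.sqrt n) * len (th x)) ^ 2 = aS x := by
  have h : (0 : ℝ) < n := by positivity
  rw [one_mul, mul_pow, len_sq' hn, div_pow, one_pow, Real.sq_sqrt h.le]
  field_simp

lemma ee_dot (x u : V n) : ee x ⬝ᵥ u = (len (th x))⁻¹ * (th x ⬝ᵥ u) := by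
  rw [ee, unitv, smul_dotProduct, smul_eq_mul]

/-- the density -/
lemma dens (hn : 0 < n) {t : ℝ} (ht : 0 < t) {x : V n} (hx : th x ≠ 0) :
    Real.exp (n * (1 - aS x) ^ 2 / 2) *
      Kr.phiS t (1 * (1 / Real.sqrt n) * len (th x)) (ee x) (zv t x) =
      Real.sqrt (ga t x / (ga t x + aS x)) * rho t x := by
  have h : (0 : ℝ) < n := by positivity
  have hq := aS_pos hn hx
  have hl := len_pos hx
  have e1 : t + aS x = ga t x := by rw [ga]; ring
  have e2 : t + 2 * aS x = ga t x + aS x := by rw [ga]; ring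
  have hg : 0 < ga t x := by rw [← e1]; positivity
  have e3 : (ee x ⬝ᵥ zv t x) ^ 2 =
      n * (ww t x + (1 - aS x) * (ga t x + aS x)) ^ 2 / aS x := by
    rw [ee_dot, th_zv hn, mul_pow, inv_pow, len_sq' hn]
    field_simp
  rw [Kr.phiS, tau_sq hn, e1, e2, e3, rho, Kr.phi, Kr.phi, zv_zv hn, Real.sqrt_div hg.le, Wt]
  have key : ∀ c s x₁ x₂ x₃ x₄ x₅ : ℝ, x₁ + x₂ + x₃ = x₄ + x₅ →
      Real.exp x₁ * (c * Real.exp x₂ * s * Real.exp x₃) = s * (c * Real.exp x₄ * Real.exp x₅) := by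
    intro c s x₁ x₂ x₃ x₄ x₅ h1
    calc _ = c * s * Real.exp (x₁ + x₂ + x₃) := by rw [Real.exp_add, Real.exp_add]; ring
      _ = _ := by rw [h1, Real.exp_add]; ring
  refine key _ _ _ _ _ _ _ ?_
  field_simp
  ring

/-- the posterior column -/
lemma col_eq (hn : 0 < n) {t : ℝ} (ht : 0 < t) {x : V n} (hx : th x ≠ 0) (η : V n) :
    (1 / Real.sqrt n) • Kr.postW t (1 * (1 / Real.sqrt n) * len (th x)) (ee x) (zv t x) η +
      (1 / (n : ℝ)) • ((ee x ⬝ᵥ 1) • (1 : V n)) = col t x η := by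
  have h : (0 : ℝ) < n := by positivity
  have hs : 0 < Real.sqrt n := Real.sqrt_pos.2 h
  have hq := aS_pos hn hx
  have hl := len_pos hx
  have e1 : t + aS x = ga t x := by rw [ga]; ring
  have hg : 0 < ga t x := by rw [← e1]; positivity
  have h2 : 0 < t + 2 * aS x := by positivity
  have hp : th x = len (th x) • ee x := (len_smul_unitv _).symm
  have hl2 := len_sq' hn x
  have hs2 : Real.sqrt n ^ 2 = n := Real.sq_sqrt h.le
  have d1 : ee x ⬝ᵥ (1 : V n) = (len (th x))⁻¹ * (n * bS x) := by rw [ee_dot, th_one hn]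
  have dz : ee x ⬝ᵥ zv t x = (len (th x))⁻¹ * (n * (ww t x + (1 - aS x) * (t + 2 * aS x))) := by
    rw [ee_dot, th_zv hn, ga]; ring
  have dx : ee x ⬝ᵥ x = ee x ⬝ᵥ zv t x + mu t x * (ee x ⬝ᵥ 1) - (1 - aS x) * len (th x) := by
    rw [zv, dotProduct_add, dotProduct_sub, dotProduct_smul, dotProduct_smul, ee,
      unitv_dot_self, smul_eq_mul, smul_eq_mul]
    ring
  have s1 : Real.sqrt (t / (ga t x * n)) = 1 / Real.sqrt n * (Real.sqrt t / Real.sqrt (ga t x)) := by
    rw [Real.sqrt_div ht.le, Real.sqrt_mul hg.le]; field_simp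
  have s2 : Real.sqrt (2 * t / ((t + 2 * aS x) * n)) =
      1 / Real.sqrt n * (Real.sqrt 2 * Real.sqrt t / Real.sqrt (t + 2 * aS x)) := by
    rw [Real.sqrt_div (by positivity), Real.sqrt_mul h2.le, Real.sqrt_mul (by norm_num)]
    field_simp
  have c1 : 1 / Real.sqrt n * (1 * (1 / Real.sqrt n) * len (th x) / ga t x) =
      (len (th x))⁻¹ * (aS x / ga t x) := by
    field_simp
    rw [hs2, hl2]
  have c2 : 1 / Real.sqrt n * (2 * (1 * (1 / Real.sqrt n) * len (th x)) / (t + 2 * aS x)) *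
      (ee x ⬝ᵥ zv t x) + 1 / n * (ee x ⬝ᵥ 1) ^ 2 = ec t x := by
    rw [dz, d1, ec, mul_pow, inv_pow, hl2]
    field_simp
    rw [hs2]; ring
  have c3 : 1 / n * (ee x ⬝ᵥ 1) - (len (th x))⁻¹ * (aS x / ga t x) * mu t x =
      (len (th x))⁻¹ * (t * (bS x - aS x) / ga t x) := by
    rw [d1, mu, ← e1]
    field_simp
    ring
  have hz : zv t x = x - mu t x • (1 : V n) + ((1 - aS x) * len (th x)) • ee x := by
    rw [zv, ← smul_smul, ← hp]
  rw [Kr.postW, tau_sq hn, e1, col, mb, tau, s1, s2, ← c2, Kr.blk_mulVec, Kr.blk_mulVec, bv_eq,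
    bv_eq, bv_eq, dx]
  generalize ee x ⬝ᵥ zv t x = r at *
  rw [hz]
  generalize 1 * (1 / Real.sqrt n) * len (th x) / ga t x = A at *
  generalize 2 * (1 * (1 / Real.sqrt n) * len (th x)) / (t + 2 * aS x) = B at *
  generalize Real.sqrt t / Real.sqrt (ga t x) = A' at *
  generalize Real.sqrt 2 * Real.sqrt t / Real.sqrt (t + 2 * aS x) = B' at *
  generalize ee x ⬝ᵥ (1 : V n) = d at *
  generalize aS x / ga t x = a at *
  generalize t * (bS x - aS x) / ga t x = b at *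
  generalize 1 / Real.sqrt n = s at *
  generalize 1 / (n : ℝ) = m at *
  match_scalars
  · linear_combination c1
  · linear_combination c3 - mu t x * c1
  · linear_combination (-(r + mu t x * d) + (1 - aS x) * len (th x)) * c1 +
      mu t x * d * c1 - d * c3
  · ring

lemma mat_eq (e c : V n) (s : ℝ) (W : Mx n) (he : e ⬝ᵥ e = 1) :
    s • rk2 c e + (1 - vecMulVec e e) * W * (1 - vecMulVec e e) +
      (1 / (n : ℝ)) • vecMulVec (1 : V n) 1 =
      Wm e (s • c + (1 / (n : ℝ)) • ((e ⬝ᵥ 1) • (1 : V n))) (bv e 1) W := by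
  have hτ : R1 e *ᵥ bv e 1 = bv e 1 := by
    have := bv_eq e (bv e 1)
    rw [bv] at this
    rw [this, bv_eq, dotProduct_sub, dotProduct_smul, he, smul_eq_mul, mul_one, sub_self, zero_smul,
      sub_zero]
  have hs : (R1 e)ᵀ = R1 e := by
    rw [R1, Matrix.transpose_sub, Matrix.transpose_one, Matrix.transpose_vecMulVec]
  have h1 : R1 e * vecMulVec (bv e 1) (bv e 1) * R1 e = vecMulVec (bv e 1) (bv e 1) := by
    rw [Matrix.mul_vecMulVec, vmv_mul, hs, hτ]
  rw [Wm, glue, Qe.Pt66.rk2_add, rk2_smul, rk2_smul (1 / (n : ℝ)), Matrix.mul_add, Matrix.add_mul,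
    Matrix.mul_smul, Matrix.smul_mul, h1]
  conv_lhs => rw [Qe.Pt66.vmv_split e 1]
  rw [smul_add, R1]
  abel

lemma Vq_one (hn : 0 < n) :
    (1 / Real.sqrt n) ^ 2 * Vq ((1 / 2 : ℝ) • vecMulVec (1 : V n) 1) / 2 = n / 4 := by
  have h : (0 : ℝ) < n := by positivity
  rw [Vq_eq_sum, div_pow, one_pow, Real.sq_sqrt h.le]
  simp only [Matrix.smul_apply, vecMulVec_apply, Pi.one_apply, smul_eq_mul, Finset.sum_const,
    Finset.card_univ, Fintype.card_fin, nsmul_eq_mul]
  field_simp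
  ring

lemma ex_add (a b : ℝ) : ex (a + b) = ex a * ex b := by
  rw [ex, ex, ex, Real.exp_add, ENNReal.ofReal_mul (Real.exp_pos _).le]

/-- the disintegration at a fixed `x` -/
theorem inner (hn : 0 < n) {t : ℝ} (ht : 0 < t) {x : V n} (hx : th x ≠ 0) {G : Mx n → ℝ≥0∞}
    (hG : Measurable G) : ∫⁻ W, nuW t (x, W) * cX x * G W ∂GOE n =
    ENNReal.ofReal (Real.sqrt (ga t x / (ga t x + aS x)) * rho t x) *
      ∫⁻ η, ∫⁻ W, G (Wm (ee x) (col t x η) (tau x) W) ∂GOE n ∂gv (Fin n) := by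
  have hm : Measurable fun W : Mx n =>
      ENNReal.ofReal (Kr.phi t (Ymap W 1 x - t • (1 : V n))) * G W := by
    unfold Ymap; fun_prop
  have e1 : ∀ W : Mx n, nuW t (x, W) * cX x * G W = (ex (-((n : ℝ) / 4)) * cX x) *
      (ex ((1 : V n) ⬝ᵥ W *ᵥ 1 / 2) *
        (ENNReal.ofReal (Kr.phi t (Ymap W 1 x - t • (1 : V n))) * G W)) := by
    intro W
    rw [nuW, sub_eq_add_neg ((1 : V n) ⬝ᵥ W *ᵥ 1 / 2), ex_add]
    ring
  have hm2 : Measurable fun W : Mx n => ex ((1 : V n) ⬝ᵥ W *ᵥ 1 / 2) *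
      (ENNReal.ofReal (Kr.phi t (Ymap W 1 x - t • (1 : V n))) * G W) := by
    refine Measurable.mul ?_ hm
    unfold ex; fun_prop
  have hG' : Measurable fun W : Mx n => G (W + (1 / (n : ℝ)) • vecMulVec (1 : V n) 1) := by
    fun_prop
  simp only [e1]
  rw [lintegral_const_mul _ hm2, Qe.Pt66.cm 1 hm, Vq_one hn]
  simp only [Y_shift hn]
  rw [Kr.goe_weighted ht 1 (1 / Real.sqrt n) (th x) (zv t x) hG', ← dens hn ht hx,
    ENNReal.ofReal_mul (Real.exp_pos _).le, lintegral_prod _ (by fun_prop)]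
  have e2 : ex (-((n : ℝ) / 4)) * ex ((n : ℝ) / 4) = 1 := by
    rw [← ex_add, neg_add_cancel, ex, Real.exp_zero, ENNReal.ofReal_one]
  have e3 : ∀ (η : V n) (W : Mx n), (1 / Real.sqrt n) • rk2 (Kr.postW t
      (1 * (1 / Real.sqrt n) * len (th x)) (unitv (th x)) (zv t x) η) (unitv (th x)) +
      (1 - vecMulVec (unitv (th x)) (unitv (th x))) * W *
        (1 - vecMulVec (unitv (th x)) (unitv (th x))) + (1 / (n : ℝ)) • vecMulVec (1 : V n) 1 =
      Wm (ee x) (col t x η) (tau x) W := by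
    intro η W
    rw [mat_eq _ _ _ _ (unitv_dot hx), ← col_eq hn ht hx]
    rfl
  simp only [e3]
  have key : ∀ a b c p I : ℝ≥0∞, a * b = 1 → a * c * (b * (p * I)) = c * p * I := by
    intro a b c p I h
    calc _ = a * b * (c * p * I) := by ring
      _ = _ := by rw [h, one_mul]
  exact key _ _ _ _ _ e2

end M47

/-- **task 789** -/
theorem margStmt : MargStmt := by
  intro n t F hn ht hF
  refine lintegral_congr_ae ((M47.ae_th hn).mono fun x hx => ?_)
  exact M47.inner hn ht hx (G := fun W => F (x, W)) (by fun_prop)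

end Crest.Agent.T157.Kb

end
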