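import Crest.Agent.T157.KbDef_24

/-!
# Row 157, part A2, section 2 (helper71): `Kb.MgfStmt`
-/

set_option autoImplicit false

noncomputable section

namespace Crest.Agent.T157.Kb

open MeasureTheory ProbabilityTheory Set Real
open scoped ENNReal NNReal
open Crest.Agent.T157.Tap
open Crest.Agent.T157.Conc (ex ex_add ex_mono measurable_ex lintegral_ex)

namespace Mgf71

lemma hd_tanh (x : ℝ) : HasDerivAt tanh (1 - tanh x ^ 2) x := by
  have hc := (cosh_pos x).ne'
  have h := (hasDerivAt_sinh x).div (hasDerivAt_cosh x) hc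
  have e : tanh = sinh / cosh := funext fun y => tanh_eq_sinh_div_cosh y
  have e2 : 1 - tanh x ^ 2 = (cosh x * cosh x - sinh x * sinh x) / cosh x ^ 2 := by
    rw [tanh_eq_sinh_div_cosh]; field_simp
  rw [e2, e]
  exact h

lemma mvt {f f' : ℝ → ℝ} (h : ∀ y, HasDerivAt f (f' y) y) (h0 : f 0 = 0) (x c : ℝ)
    (hc : ∀ y, |y| ≤ |x| → |f' y| ≤ c) : |f x| ≤ c * |x| := by
  have := (convex_Icc (-|x|) |x|).norm_image_sub_le_of_norm_hasDerivWithin_le (f := f) (f' := f')
    (C := c) (x := 0) (y := x) (fun y _ => (h y).hasDerivWithinAt)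
    (fun y hy => hc y (abs_le.2 hy)) ⟨by simp, abs_nonneg x⟩ ⟨neg_abs_le x, le_abs_self x⟩
  simpa [h0] using this

lemma tanh_sq_le_one (x : ℝ) : tanh x ^ 2 ≤ 1 := by
  rw [← sq_abs]; exact pow_le_one₀ (abs_nonneg _) (abs_tanh_lt_one x).le

lemma abs_tanh_le (x : ℝ) : |tanh x| ≤ |x| := by
  simpa using mvt hd_tanh tanh_zero x 1 fun y _ => by
    rw [abs_le]; constructor <;> nlinarith [tanh_sq_le_one y, sq_nonneg (tanh y)]

lemma hd_r (y : ℝ) : HasDerivAt (fun x => x - tanh x) (tanh y ^ 2) y := by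
  exact ((hasDerivAt_id' y).sub (hd_tanh y)).congr_deriv (by ring)

lemma abs_r_le (x : ℝ) : |x - tanh x| ≤ |x| := by
  simpa using mvt hd_r (by simp) x 1 fun y _ => by
    rw [abs_of_nonneg (sq_nonneg _)]; exact tanh_sq_le_one y

lemma abs_r_le' (x : ℝ) : |x - tanh x| ≤ x ^ 2 * |x| :=
  mvt hd_r (by simp) x _ fun y hy => by
    rw [abs_of_nonneg (sq_nonneg _), ← sq_abs (tanh y), ← sq_abs x]
    exact pow_le_pow_left₀ (abs_nonneg _) ((abs_tanh_le y).trans hy) 2

lemma exp_le (y : ℝ) : exp y ≤ 1 + y + y ^ 2 * exp |y| := by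
  have h1 : exp y - 1 ≤ y * exp y := by
    have := add_one_le_exp (-y)
    have h2 : exp (-y) * exp y = 1 := by rw [← exp_add]; simp
    nlinarith [exp_pos y]
  rcases le_total 0 y with h | h
  · rw [abs_of_nonneg h]; nlinarith [mul_le_mul_of_nonneg_left h1 h]
  · have h3 := add_one_le_exp y
    have h4 : 1 ≤ exp |y| := one_le_exp (abs_nonneg y)
    nlinarith [mul_le_mul_of_nonneg_left h4 (sq_nonneg y),
      mul_le_mul_of_nonneg_left (show 1 - exp y ≤ -y by linarith) (neg_nonneg.2 h)]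

lemma abs_log_le {u : ℝ} (hu : |u| ≤ 1 / 2) : |log (1 - u)| ≤ 2 * |u| := by
  obtain ⟨h1, h2⟩ := abs_le.1 hu
  have h0 : 0 < 1 - u := by linarith
  have a1 := log_le_sub_one_of_pos h0
  have a2 := one_sub_inv_le_log_of_pos h0
  have a3 : (1 - u)⁻¹ ≤ 1 + 2 * |u| := by
    rw [inv_le_iff_one_le_mul₀ h0]
    rcases le_total 0 u with h | h
    · rw [abs_of_nonneg h]; nlinarith
    · rw [abs_of_nonpos h]; nlinarith
  rw [abs_le]
  constructor <;> linarith [neg_abs_le u, abs_nonneg u]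

lemma pow_le_exp {v : ℝ} (hv : 0 < v) (x : ℝ) {j : ℕ} (hj : j ≤ 8) :
    (x ^ 2 + v) ^ j * exp (x ^ 2 / (16 * v)) ≤ 128 ^ 8 * v ^ j * exp (x ^ 2 / (8 * v)) := by
  have hy : 0 ≤ x ^ 2 / v := by positivity
  have h1 : 1 + x ^ 2 / v ≤ 128 * exp (x ^ 2 / v / 128) := by
    have := add_one_le_exp (x ^ 2 / v / 128); linarith
  have h2 : (1 + x ^ 2 / v) ^ j ≤ 128 ^ 8 * exp (x ^ 2 / (16 * v)) := by
    refine (pow_le_pow_right₀ (by linarith) hj).trans ((pow_le_pow_left₀ (by linarith) h1 8).trans_eq ?_)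
    rw [mul_pow, ← exp_nat_mul]; congr 2; push_cast; field_simp; ring
  have h3 : x ^ 2 + v = v * (1 + x ^ 2 / v) := by field_simp; ring
  have h4 : exp (x ^ 2 / (8 * v)) = exp (x ^ 2 / (16 * v)) * exp (x ^ 2 / (16 * v)) := by
    rw [← exp_add]; congr 1; field_simp; ring
  rw [h3, mul_pow, h4]
  have := mul_le_mul_of_nonneg_left h2 (show 0 ≤ v ^ j * exp (x ^ 2 / (16 * v)) by positivity)
  linarith

/-- change of variables -/
lemma chg (m : ℝ) {v : ℝ} (hv : 0 < v) {F : ℝ → ℝ≥0∞} (hF : Measurable F) :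
    ∫⁻ x, ex (-(x - m) ^ 2 / (2 * v) - log (2 * π * v) / 2) * F x =
      ∫⁻ z, F (m + √v * z) ∂gaussianReal 0 1 := by
  have hmap : (gaussianReal 0 1).map (fun z => m + √v * z) = gaussianReal m v.toNNReal := by
    have e : (fun z => m + √v * z) = (fun y => m + y) ∘ fun z => √v * z := rfl
    rw [e, ← Measure.map_map (by fun_prop) (by fun_prop), gaussianReal_map_const_mul,
      gaussianReal_map_const_add]
    congr 1
    · simp
    · ext; simp [hv.le]
  have hv' : v.toNNReal ≠ 0 := by simpa using hv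
  rw [← lintegral_map hF (by fun_prop), hmap, gaussianReal_of_var_ne_zero _ hv',
    lintegral_withDensity_eq_lintegral_mul _ (measurable_gaussianPDF _ _) hF]
  refine lintegral_congr fun x => ?_
  simp only [Pi.mul_apply, gaussianPDF, gaussianPDFReal, ex, Real.coe_toNNReal _ hv.le]
  congr 2
  have hp : 0 < 2 * π * v := by positivity
  rw [exp_sub, ← log_sqrt hp.le, exp_log (by positivity), div_eq_inv_mul]

/-- the dominating function -/
lemma dom {m v v' : ℝ} (hv : 0 < v) (h0 : 0 ≤ v') (h1 : v' ≤ 4 / 3 * v) (h2 : m ^ 2 ≤ 4 / 3 * v)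
    {f : ℝ → ℝ} (hf : Measurable f) {c : ℝ} (hc : 0 ≤ c)
    (h : ∀ x, |f x| ≤ c * exp (x ^ 2 / (8 * v))) :
    Integrable (fun z => f (m + √v' * z)) (gaussianReal 0 1) ∧ gE f m v' ≤ 6 * c := by
  obtain ⟨i1, i2⟩ := Dq.integral_exp_sq (a := 1 / 2) (by norm_num)
  have hb : ∀ z, |f (m + √v' * z)| ≤ c * 3 * exp (1 / 2 * z ^ 2 / 2) := by
    intro z
    refine (h _).trans ?_
    rw [mul_assoc]
    refine mul_le_mul_of_nonneg_left ?_ hc
    have e1 : (m + √v' * z) ^ 2 / (8 * v) ≤ 1 + 1 / 2 * z ^ 2 / 2 := by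
      rw [div_le_iff₀ (by positivity)]
      have e2 : (√v' * z) ^ 2 = v' * z ^ 2 := by rw [mul_pow, sq_sqrt h0]
      nlinarith [sq_nonneg (m - √v' * z / 2), mul_le_mul_of_nonneg_right h1 (sq_nonneg z)]
    refine (exp_le_exp.2 e1).trans ?_
    rw [exp_add]
    exact mul_le_mul_of_nonneg_right (exp_one_lt_d9.le.trans (by norm_num)) (exp_pos _).le
  have hi : Integrable (fun z => f (m + √v' * z)) (gaussianReal 0 1) :=
    (i1.const_mul (c * 3)).mono' (hf.comp (by fun_prop)).aestronglyMeasurable (ae_of_all _ hb)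
  refine ⟨hi, (integral_mono hi (i1.const_mul (c * 3)) fun z => (le_abs_self _).trans (hb z)).trans ?_⟩
  rw [integral_const_mul, i2]
  have : (√(1 - 1 / 2))⁻¹ ≤ 2 := by
    rw [inv_le_comm₀ (by positivity) (by norm_num)]
    exact le_sqrt_of_sq_le (by norm_num)
  nlinarith

/-- the logarithm of the density ratio -/
def S (m v u x : ℝ) : ℝ := -(u * (x - tanh x) * (2 * ((1 - u) * x - m) + u * (x - tanh x))) / (2 * v) -
  tanh x ^ 2 * log (1 - u)

lemma gR_eq (m : ℝ) {v u : ℝ} (hv : 0 < v) (hu : u < 1) (x : ℝ) : gR m v u x =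
    -(x - m / (1 - u)) ^ 2 / (2 * (v / (1 - u) ^ 2)) - log (2 * π * (v / (1 - u) ^ 2)) / 2 +
      S m v u x := by
  have h0 : 0 < 1 - u := by linarith
  have e : log (2 * π * (v / (1 - u) ^ 2)) = log (2 * π * v) - 2 * log (1 - u) := by
    rw [← mul_div_assoc, log_div (by positivity) (by positivity), log_pow]; norm_num
  rw [e, gR, S]
  field_simp
  ring

lemma S_le {m v u : ℝ} (hv : 0 < v) (hm : m ^ 2 ≤ v) (hu : |u| ≤ 1 / 2) (x : ℝ)
    {ρ : ℝ} (hρ : |x - tanh x| ≤ ρ * |x|) (hρ0 : 0 ≤ ρ) :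
    |S m v u x| ≤ |u| * (3 * ρ * (x ^ 2 + v) + 2 * v * x ^ 2) / v := by
  have a1 : |2 * ((1 - u) * x - m) + u * (x - tanh x)| ≤ 4 * |x| + 2 * |m| := by
    have b1 : |(1 - u) * x| ≤ 3 / 2 * |x| := by
      rw [abs_mul]
      exact mul_le_mul_of_nonneg_right ((abs_sub _ _).trans (by rw [abs_one]; linarith)) (abs_nonneg x)
    have b2 : |u * (x - tanh x)| ≤ 1 / 2 * |x| := by
      rw [abs_mul]; exact mul_le_mul hu (abs_r_le x) (abs_nonneg _) (by norm_num)
    refine (abs_add_le _ _).trans ?_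
    rw [abs_mul, abs_two]
    linarith [abs_sub ((1 - u) * x) m, abs_nonneg x]
  have a2 : |tanh x ^ 2 * log (1 - u)| ≤ x ^ 2 * (2 * |u|) := by
    rw [abs_mul, abs_of_nonneg (sq_nonneg _), ← sq_abs (tanh x), ← sq_abs x]
    exact mul_le_mul (pow_le_pow_left₀ (abs_nonneg _) (abs_tanh_le x) 2) (abs_log_le hu)
      (abs_nonneg _) (sq_nonneg _)
  have a3 : |x| * (4 * |x| + 2 * |m|) ≤ 6 * (x ^ 2 + v) := by
    nlinarith [sq_abs x, sq_abs m, sq_nonneg (|x| - |m|), sq_nonneg x]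
  have a4 : |u * (x - tanh x) * (2 * ((1 - u) * x - m) + u * (x - tanh x))| ≤
      |u| * (ρ * (6 * (x ^ 2 + v))) := by
    rw [abs_mul, abs_mul, mul_assoc]
    refine mul_le_mul_of_nonneg_left ?_ (abs_nonneg u)
    refine (mul_le_mul hρ a1 (abs_nonneg _) (by positivity)).trans ?_
    rw [mul_assoc]
    exact mul_le_mul_of_nonneg_left a3 hρ0
  refine (abs_sub _ _).trans ?_
  rw [abs_div, abs_neg, abs_of_pos (show 0 < 2 * v by positivity)]
  have a5 := div_le_div_of_nonneg_right a4 (show 0 ≤ 2 * v by positivity)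
  refine (add_le_add a5 a2).trans_eq ?_
  field_simp
  ring

end Mgf71

open Mgf71 in
theorem mgfStmt (h : ChStmt) : MgfStmt := by
  refine ⟨128 ^ 8 * 1000, by norm_num, fun K hK m v u Y hv hC hm hu hY hb => ?_⟩
  have hK2 : K ≤ K ^ 2 := by nlinarith
  have hKv : K ^ 2 * v ≤ 1 / 1000 := by nlinarith [mul_nonneg (sq_nonneg K) hv.le]
  have hKv' : K * v ≤ 1 / 1000 := (mul_le_mul_of_nonneg_right hK2 hv.le).trans hKv
  have hv1 : v ≤ 1 / 1000 := le_trans (le_mul_of_one_le_left hv.le hK) hKv'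
  have hu1 : |u| ≤ 1 / 1000 := hu.trans hKv'
  obtain ⟨u1, u2⟩ := abs_le.1 hu1
  have sq_le : ∀ a : ℝ, |a| ≤ K * v → a ^ 2 ≤ K ^ 2 * v * v := fun a ha => by
    rw [← sq_abs]
    exact (pow_le_pow_left₀ (abs_nonneg a) ha 2).trans_eq (by ring)
  have hm2 : m ^ 2 ≤ v := (sq_le m hm).trans (by nlinarith)
  have h0 : 0 < 1 - u := by linarith
  have h34 : 3 / 4 ≤ (1 - u) ^ 2 := by nlinarith
  set m' := m / (1 - u) with hm'
  set v' := v / (1 - u) ^ 2 with hv'
  have v0 : 0 < v' := by positivity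
  have v1 : v' ≤ 4 / 3 * v := by rw [hv', div_le_iff₀ (by positivity)]; nlinarith
  have m1 : m' ^ 2 ≤ 4 / 3 * v := by rw [hm', div_pow, div_le_iff₀ (by positivity)]; nlinarith
  have D := fun f hf c hc H => dom (m := m') (f := f) (c := c) hv v0.le v1 m1 hf hc H
  have P : ∀ (f : ℝ → ℝ) (B : ℝ) (j : ℕ), Measurable f → 0 ≤ B → j ≤ 8 →
      (∀ x, f x ^ 2 ≤ B * (x ^ 2 + v) ^ j) →
      Integrable (fun z => f (m' + √v' * z) ^ 2 * exp ((m' + √v' * z) ^ 2 / (16 * v)))
        (gaussianReal 0 1) ∧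
      gE (fun x => f x ^ 2 * exp (x ^ 2 / (16 * v))) m' v' ≤ 6 * (B * (128 ^ 8 * v ^ j)) := by
    intro f B j hf hB hj H
    refine D (fun x => f x ^ 2 * exp (x ^ 2 / (16 * v))) (by fun_prop) _ (by positivity) fun x => ?_
    rw [abs_of_nonneg (by positivity)]
    refine (mul_le_mul_of_nonneg_right (H x) (exp_pos _).le).trans ?_
    rw [mul_assoc, mul_assoc B]
    exact mul_le_mul_of_nonneg_left (pow_le_exp hv x hj) hB
  refine ⟨?_, fun B j hB hj H => (P Y B j hY hB hj H).2.trans ?_⟩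
  swap
  · have : 0 ≤ B * v ^ j := by positivity
    nlinarith
  have hS : Measurable (S m v u) := by
    have : Measurable tanh := (fun x => (hd_tanh x).continuousAt :
      ∀ x, ContinuousAt tanh x) |> continuous_iff_continuousAt.2 |>.measurable
    unfold S; fun_prop
  have s1 : ∀ x, |S m v u x| ≤ (x ^ 2 + v) / (64 * v) := by
    intro x
    refine (S_le hv hm2 (by linarith) x (ρ := 1) (by simpa using abs_r_le x)
      zero_le_one).trans ?_
    rw [div_le_div_iff₀ hv (by positivity)]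
    have b1 : 3 * 1 * (x ^ 2 + v) + 2 * v * x ^ 2 ≤ 4 * (x ^ 2 + v) := by
      nlinarith [mul_le_mul_of_nonneg_right hv1 (sq_nonneg x), sq_nonneg x]
    have b2 := mul_le_mul hu1 b1 (by positivity) (by norm_num)
    nlinarith [mul_le_mul_of_nonneg_right b2 hv.le, mul_nonneg (add_nonneg (sq_nonneg x) hv.le) hv.le]
  have s2 : ∀ x, S m v u x ^ 2 ≤ 25 * K ^ 2 * (x ^ 2 + v) ^ 4 := by
    intro x
    have b0 := S_le hv hm2 (u := u) (by linarith) x (abs_r_le' x) (sq_nonneg x)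
    have b1 : 3 * x ^ 2 * (x ^ 2 + v) + 2 * v * x ^ 2 ≤ 5 * (x ^ 2 + v) ^ 2 := by
      nlinarith [mul_nonneg hv.le (sq_nonneg x), sq_nonneg v, sq_nonneg (x ^ 2)]
    have b2 : |S m v u x| ≤ 5 * K * (x ^ 2 + v) ^ 2 := by
      refine b0.trans ?_
      rw [div_le_iff₀ hv]
      exact (mul_le_mul hu b1 (by positivity) (by positivity)).trans_eq (by ring)
    rw [← sq_abs]
    exact (pow_le_pow_left₀ (abs_nonneg _) b2 2).trans_eq (by ring)
  -- domination by `exp (x²/(8v))`
  have d0 : ∀ x a : ℝ, a ≤ (x ^ 2 + v) / (32 * v) → exp a ≤ 4 / 3 * exp (x ^ 2 / (16 * v)) := by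
    intro x a ha
    have b1 : a ≤ 1 / 32 + x ^ 2 / (16 * v) := by
      refine ha.trans ?_
      have : (x ^ 2 + v) / (32 * v) = 1 / 32 + x ^ 2 / (16 * v) / 2 := by field_simp; ring
      have b2 : 0 ≤ x ^ 2 / (16 * v) := by positivity
      linarith
    refine (exp_le_exp.2 b1).trans ?_
    rw [exp_add]
    refine mul_le_mul_of_nonneg_right ?_ (exp_pos _).le
    have := exp_bound_div_one_sub_of_interval (x := 1 / 32) (by norm_num) (by norm_num)
    linarith
  have d1 : ∀ x : ℝ, 4 / 3 * exp (x ^ 2 / (16 * v)) ≤ 4 / 3 * exp (x ^ 2 / (8 * v)) := fun x =>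
    mul_le_mul_of_nonneg_left (exp_le_exp.2 (div_le_div_of_nonneg_left (sq_nonneg x)
      (by positivity) (by linarith))) (by norm_num)
  have half : ∀ x : ℝ, (x ^ 2 + v) / (64 * v) + (x ^ 2 + v) / (64 * v) = (x ^ 2 + v) / (32 * v) :=
    fun x => by field_simp; ring
  have hpos : ∀ x : ℝ, 0 ≤ (x ^ 2 + v) / (64 * v) := fun x => by positivity
  have iabs : ∀ f : ℝ → ℝ, Measurable f → (∀ x, |f x| ≤ (x ^ 2 + v) / (32 * v)) →
      Integrable (fun z => f (m' + √v' * z)) (gaussianReal 0 1) ∧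
      Integrable (fun z => exp (f (m' + √v' * z))) (gaussianReal 0 1) := fun f hf H =>
    ⟨(D f hf (4 / 3) (by norm_num) fun x => by
        linarith [add_one_le_exp |f x|, d0 x _ (H x), d1 x]).1,
      (D (fun x => exp (f x)) (by fun_prop) (4 / 3) (by norm_num) fun x => by
        rw [abs_of_pos (exp_pos _)]
        linarith [d0 x _ ((le_abs_self _).trans (H x)), d1 x]).1⟩
  have hT : ∀ x, |S m v u x + Y x| ≤ (x ^ 2 + v) / (32 * v) := fun x =>
    (abs_add_le _ _).trans (by linarith [s1 x, hb x, half x])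
  obtain ⟨iS, iS'⟩ := iabs _ hS fun x => by linarith [s1 x, half x, hpos x]
  obtain ⟨iY, -⟩ := iabs _ hY fun x => by linarith [hb x, half x, hpos x]
  obtain ⟨-, iT⟩ := iabs (fun x => S m v u x + Y x) (hS.add hY) hT
  obtain ⟨jS, kS⟩ := P _ (25 * K ^ 2) 4 hS (by positivity) (by norm_num) s2
  obtain ⟨jY, -⟩ := P Y (1 / (64 * v) ^ 2) 2 hY (by positivity) (by norm_num) fun x => by
    rw [← sq_abs]
    exact (pow_le_pow_left₀ (abs_nonneg _) (hb x) 2).trans_eq (by rw [div_pow]; ring)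
  -- the mean of `S`
  have eS : ∫ z, S m v u (m' + √v' * z) ∂gaussianReal 0 1 ≤ 0 := by
    have c1 := h.1 m v u hv (by linarith)
    simp only [gR_eq m hv (show u < 1 by linarith), ex_add] at c1
    rw [chg m' v0 (F := fun x => ex (S m v u x)) (by fun_prop), lintegral_ex iS',
      ENNReal.ofReal_le_one] at c1
    have c2 := integral_mono (iS.add (integrable_const 1)) iS' fun z => add_one_le_exp _
    simp only [Pi.add_apply] at c2
    rw [integral_add iS (integrable_const 1)] at c2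
    simp only [integral_const, probReal_univ, smul_eq_mul, one_mul] at c2
    linarith
  simp only [gR_eq m hv (show u < 1 by linarith), add_assoc _ (S m v u _), ex_add _ (S m v u _ + _)]
  rw [chg m' v0 (F := fun x => ex (S m v u x + Y x)) (by fun_prop), lintegral_ex iT]
  refine ENNReal.ofReal_le_ofReal ?_
  have c3 := integral_mono iT ((((integrable_const 1).add iS).add iY).add
    ((jY.const_mul 2).add (jS.const_mul 4))) fun z => by
      simp only [Pi.add_apply]
      set x := m' + √v' * z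
      have b1 := exp_le (S m v u x + Y x)
      have b2 := d0 x _ (hT x)
      have b3 : (S m v u x + Y x) ^ 2 ≤ 3 / 2 * Y x ^ 2 + 3 * S m v u x ^ 2 := by
        nlinarith [sq_nonneg (Y x - 2 * S m v u x)]
      have b4 := mul_le_mul b3 b2 (exp_pos _).le (by positivity)
      linarith
  simp only [Pi.add_apply] at c3
  rw [integral_add (by exact ((integrable_const 1).add iS).add iY)
    (by exact (jY.const_mul 2).add (jS.const_mul 4)),
    integral_add (by exact (integrable_const 1).add iS) iY, integral_add (integrable_const 1) iS,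
    integral_add (jY.const_mul 2) (jS.const_mul 4), integral_const_mul, integral_const_mul] at c3
  simp only [integral_const, probReal_univ, smul_eq_mul, one_mul] at c3
  refine c3.trans (le_trans ?_ (add_one_le_exp _))
  simp only [gE] at kS ⊢
  have : 0 ≤ K ^ 2 * v ^ 4 := by positivity
  nlinarith

end Crest.Agent.T157.Kb
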