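import Crest.Agent.T157.PlB_37

/-!
# Row 157, part E: the planted model, C (helper37)

Gaussian interpolation of free energies; overlap bounds; `E [-log (Z / E Z)]` for Gaussian couplings.
-/

set_option autoImplicit false
set_option linter.unusedSectionVars false

noncomputable section

namespace Crest.Agent.T157.Pl

open MeasureTheory ProbabilityTheory Matrix Real Set Filter Topology
open Crest.ProbabilityR.SpinGlassDynamics Crest.Agent.T157.E Crest.Agent.T157.SL

section interp
variable {Ω ι : Type*} [Fintype Ω] [Fintype ι] [DecidableEq ι] {c : Ω → ℝ}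

lemma abs_log_sum_le (hc : Wt c) {E : Ω → ℝ} {S : ℝ} (h : ∀ x, |E x| ≤ S) :
    |log (∑ x, c x * exp (E x)) - log (∑ x, c x)| ≤ S := by
  have h1 : (∑ x, c x) * exp (-S) ≤ ∑ x, c x * exp (E x) := by
    rw [Finset.sum_mul]
    exact Finset.sum_le_sum fun x _ => mul_le_mul_of_nonneg_left
      (exp_le_exp.2 (abs_le.1 (h x)).1) (hc.nn x)
  have h2 : ∑ x, c x * exp (E x) ≤ (∑ x, c x) * exp S := by
    rw [Finset.sum_mul]
    exact Finset.sum_le_sum fun x _ => mul_le_mul_of_nonneg_left
      (exp_le_exp.2 (abs_le.1 (h x)).2) (hc.nn x)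
  have h0 := mul_pos hc.pos (exp_pos (-S))
  have h3 := log_le_log h0 h1
  have h4 := log_le_log (h0.trans_le h1) h2
  rw [log_mul hc.pos.ne' (exp_pos _).ne', log_exp] at h3 h4
  exact abs_le.2 ⟨by linarith, by linarith⟩

lemma eg_time {f : ℝ → ℝ} (hf : Continuous f) (s t : ℝ) : EG (Icc s t) fun p : Pt ι => f p.1 := by
  obtain ⟨C, hC⟩ := (isCompact_Icc (a := s) (b := t)).exists_bound_of_continuousOn hf.continuousOn
  exact .time hf.continuousOn C hC

/-- normalised free energy of a Gaussian random weight -/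
def FE (c : Ω → ℝ) (a : Ω → ι → ℝ) : ℝ := ∫ z, log (Zw (post a c 1 z)) ∂gv ι

variable {a a' : ℝ → Ω → ι → ℝ}

lemma eg_expo (ha : ∀ x i, Continuous fun t => a t x i) (s t : ℝ) (x : Ω) :
    EG (Icc s t) fun p : Pt ι => p.2 ⬝ᵥ a p.1 x - 1 / 2 * (a p.1 x ⬝ᵥ a p.1 x) :=
  (EG.sum _ fun i _ => (EG.coord i).mul (eg_time (ha x i) s t)).sub
    ((EG.sum _ fun i _ => (eg_time (ha x i) s t).mul (eg_time (ha x i) s t)).const_mul _)

lemma cont_post (ha : ∀ x i, Continuous fun t => a t x i) (x : Ω) :
    Continuous fun p : Pt ι => post (a p.1) c 1 p.2 x := by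
  have := ha x
  unfold post dotProduct
  fun_prop

lemma eg_logZ (hc : Wt c) (ha : ∀ x i, Continuous fun t => a t x i) (s t : ℝ) :
    EG (Icc s t) fun p : Pt ι => log (Zw (post (a p.1) c 1 p.2)) := by
  refine ((EG.const |log (∑ x, c x)|).add (EG.sum Finset.univ fun x _ =>
    (eg_expo ha s t x).abs)).of_le ((continuous_finsetSum _ fun x _ => cont_post ha x).log
      fun p => (hc.post _ _ _).pos.ne').continuousOn fun p _ => ?_
  have h := abs_log_sum_le hc (E := fun x => p.2 ⬝ᵥ a p.1 x - 1 / 2 * (a p.1 x ⬝ᵥ a p.1 x))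
    fun x => Finset.single_le_sum (f := fun x => |p.2 ⬝ᵥ a p.1 x - 1 / 2 * (a p.1 x ⬝ᵥ a p.1 x)|)
      (fun _ _ => abs_nonneg _) (Finset.mem_univ x)
  refine le_trans ?_ (le_abs_self _)
  have := abs_sub_abs_le_abs_sub (log (Zw (post (a p.1) c 1 p.2))) (log (∑ x, c x))
  simp only [Zw, post] at this ⊢
  linarith

lemma eg_meanT (hc : Wt c) (ha : ∀ x i, Continuous fun t => a t x i) (s t : ℝ)
    {F : Ω → Pt ι → ℝ} (hF : ∀ x, EG (Icc s t) (F x)) :
    EG (Icc s t) fun p : Pt ι => mean (post (a p.1) c 1 p.2) fun x => F x p :=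
  EG.sum _ fun x _ => (EG.of_bdd ((cont_post ha x).div (continuous_finsetSum _ fun y _ =>
    cont_post ha y) fun p => (hc.post _ _ _).pos.ne').continuousOn 1 fun p _ => by
      have := hc.post (a p.1) 1 p.2
      exact (abs_of_nonneg (this.prob_nonneg x)).trans_le (this.prob_le_one x)).mul (hF x)

lemma integrable_logZ (hc : Wt c) (a : Ω → ι → ℝ) :
    Integrable (fun z => log (Zw (post a c 1 z))) (gv ι) :=
  (eg_logZ (a := fun _ => a) hc (fun _ _ => continuous_const) 0 0).int (t := 0) (by simp)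

lemma integrable_meanV_dot (hc : Wt c) (a u v : Ω → ι → ℝ) :
    Integrable (fun z => meanV (post a c 1 z) u ⬝ᵥ meanV (post a c 1 z) v) (gv ι) :=
  (EG.sum Finset.univ fun i _ => (eg_meanT (a := fun _ => a) hc (fun _ _ => continuous_const) 0 0
    fun x => EG.const (u x i)).mul (eg_meanT (a := fun _ => a) hc (fun _ _ => continuous_const) 0 0
      fun x => EG.const (v x i))).int (t := 0) (by simp)

/-- **Gaussian interpolation formula** -/
theorem hasDerivAt_FE (hc : Wt c) (ha : ∀ t x i, HasDerivAt (fun t => a t x i) (a' t x i) t)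
    (ha' : ∀ x i, Continuous fun t => a' t x i) (t : ℝ) :
    HasDerivAt (fun t => FE c (a t))
      (-∫ z, meanV (post (a t) c 1 z) (a' t) ⬝ᵥ meanV (post (a t) c 1 z) (a t) ∂gv ι) t := by
  have hac : ∀ x i, Continuous fun t => a t x i := fun x i =>
    continuous_iff_continuousAt.2 fun t => (ha t x i).continuousAt
  have ht : t ∈ Icc (t - 1) (t + 1) := ⟨by linarith, by linarith⟩
  have e1 := fun i => eg_meanT hc hac (t - 1) (t + 1) fun x => eg_time (ι := ι) (ha' x i) _ _
  have e2 := fun i => eg_meanT hc hac (t - 1) (t + 1) fun x => eg_time (ι := ι) (hac x i) _ _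
  have e3 := fun i => eg_meanT hc hac (t - 1) (t + 1) fun x =>
    (eg_time (ι := ι) (ha' x i) _ _).mul (eg_time (ι := ι) (hac x i) _ _)
  refine ((eg_logZ hc hac (t - 1) (t + 1)).hasDerivAt_int (EG.sum Finset.univ fun i _ =>
    ((EG.coord i).mul (e1 i)).sub (e3 i)) (Icc_mem_nhds (by linarith) (by linarith))
    fun s _ z => ?_).congr_deriv ?_
  · have hd : ∀ x, HasDerivAt (fun s => post (a s) c 1 z x)
        (post (a s) c 1 z x * ∑ i, (z i * a' s x i - a' s x i * a s x i)) s := fun x => by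
      refine ((((HasDerivAt.fun_sum fun i _ => (ha s x i).const_mul (z i)).sub
        ((HasDerivAt.fun_sum fun i _ => (ha s x i).mul (ha s x i)).const_mul (1 / 2))).exp).const_mul
          (c x)).congr_deriv ?_
      simp only [post, dotProduct, mul_assoc, Pi.sub_apply]
      congr 2
      rw [Finset.mul_sum, ← Finset.sum_sub_distrib]
      exact Finset.sum_congr rfl fun i _ => by ring
    refine ((HasDerivAt.fun_sum fun x _ => hd x).log (hc.post _ _ _).pos.ne').congr_deriv ?_
    rw [← mean_eq_div, mean_sum]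
    simp only [mean_sub, mean_const_mul]
  · have st : ∀ i, ∫ z, z i * mean (post (a t) c 1 z) (fun x => a' t x i) ∂gv ι =
        ∫ z, (mean (post (a t) c 1 z) (fun x => a' t x i * a t x i) -
          mean (post (a t) c 1 z) (fun x => a' t x i) *
            mean (post (a t) c 1 z) fun x => a t x i) ∂gv ι := fun i =>
      stein (e1 i) ((e3 i).sub ((e1 i).mul (e2 i))) ht i fun y => by
        have := hasDerivAt_mean (u := fun s => post (a t) c 1 (Function.update y i s))
          (l := fun x => a t x i) (s := y i) (hc.post _ _ _) (fun x => by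
            have h1 : HasDerivAt (fun s => Function.update y i s ⬝ᵥ a t x) (a t x i) (y i) := by
              have := HasDerivAt.fun_sum (u := Finset.univ) fun j _ =>
                (hasDerivAt_pi.1 (hasDerivAt_update y i (y i)) j).mul_const (a t x j)
              simpa [Pi.single_apply, dotProduct] using this
            simpa only [post, mul_assoc] using
              ((h1.sub_const (1 / 2 * (a t x ⬝ᵥ a t x))).exp).const_mul (c x)) fun x => a' t x i
        rw [Function.update_eq_self, (hc.post _ _ _).cov_eq] at this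
        exact this
    have i1 := fun i => ((EG.coord i).mul (e1 i)).int ht
    have i3 := fun i => (e3 i).int ht
    have i2 := fun i => ((e1 i).mul (e2 i)).int ht
    have i4 := fun i => (((EG.coord i).mul (e1 i)).sub (e3 i)).int ht
    simp only at i1 i2 i3 i4 ⊢
    rw [integral_finsetSum _ fun i _ => i4 i]
    simp only [dotProduct, meanV]
    rw [integral_finsetSum _ fun i _ => i2 i, ← Finset.sum_neg_distrib]
    refine Finset.sum_congr rfl fun i _ => ?_
    rw [integral_sub (i1 i) (i3 i), st, integral_sub (i3 i) (i2 i)]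
    ring

end interp

lemma sub_le_of_deriv {F F' B B' : ℝ → ℝ} {s t : ℝ} (hst : s ≤ t)
    (hF : ∀ u ∈ Icc s t, HasDerivAt F (F' u) u) (hB : ∀ u ∈ Icc s t, HasDerivAt B (B' u) u)
    (h : ∀ u ∈ Ioo s t, F' u ≤ B' u) : F t - F s ≤ B t - B s := by
  have hd := fun u hu => (hF u hu).sub (hB u hu)
  have := antitoneOn_of_deriv_nonpos (convex_Icc s t)
    (fun u hu => (hd u hu).continuousAt.continuousWithinAt)
    (fun u hu => (hd u (interior_subset hu)).differentiableAt.differentiableWithinAt)
    (fun u hu => by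
      rw [(hd u (interior_subset hu)).deriv]; exact sub_nonpos.2 (h u (by simpa using hu)))
    (left_mem_Icc.2 hst) (right_mem_Icc.2 hst) hst
  simp only [Pi.sub_apply] at this
  linarith

variable {n : ℕ}

/-! ### sums of independent signs -/

/-- total spin -/
def tot (x : Cube n) : ℝ := ∑ i, spin (x i)

lemma sv_dot_eq_tot (x y : Cube n) : sv x ⬝ᵥ sv y = tot (cmul x y) := sv_dot_eq x y

lemma abs_tot_le (x : Cube n) : |tot x| ≤ n :=
  (Finset.abs_sum_le_sum_abs _ _).trans (by simp [abs_spin])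

lemma sum_overlap (F : ℝ → ℝ) (x : Cube n) : ∑ y, F (sv x ⬝ᵥ sv y) = ∑ y : Cube n, F (tot y) := by
  simp only [sv_dot_eq_tot]; exact Equiv.sum_comp (gauge x) fun y => F (tot y)

lemma sum_exp_tot (u : ℝ) : ∑ x : Cube n, exp (u * tot x) = 2 ^ n * cosh u ^ n := by
  have := Finset.prod_univ_sum (fun _ : Fin n => (Finset.univ : Finset Bool))
    fun _ s => exp (u * spin s)
  simp only [Fintype.piFinset_univ, ← exp_sum, ← Finset.mul_sum] at this
  simp only [tot]
  rw [← this, ← mul_pow, cosh_eq]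
  simp only [Fintype.sum_bool, spin, Finset.prod_const, Finset.card_univ, Fintype.card_fin]
  congr 1
  simp only [if_true, mul_one, Bool.false_eq_true, if_false, mul_neg]
  ring

lemma cosh_le_quartic {r : ℝ} (hr : |r| ≤ 1) : cosh r ≤ exp (r ^ 2 / 2 - r ^ 4 / 20) := by
  have h1 := (abs_le.1 (Real.exp_bound hr (n := 6) (by norm_num))).2
  have h2 := (abs_le.1 (Real.exp_bound (x := -r) (by rwa [abs_neg]) (n := 6) (by norm_num))).2
  have e6 : |r| ^ 6 = r ^ 6 := by rw [← abs_pow, abs_of_nonneg (by positivity)]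
  rw [abs_neg] at h2
  simp only [Finset.sum_range_succ, Finset.range_zero, Finset.sum_empty, Nat.factorial, e6] at h1 h2
  norm_num at h1 h2
  have ht : r ^ 2 ≤ 1 := by rw [← sq_abs]; exact pow_le_one₀ (abs_nonneg _) hr
  have h0 : 0 ≤ r ^ 2 / 2 - r ^ 4 / 20 := by nlinarith [sq_nonneg r]
  refine le_trans ?_ (Real.quadratic_le_exp_of_nonneg h0)
  rw [cosh_eq]
  have h4 : r ^ 6 ≤ r ^ 4 := by nlinarith [sq_nonneg (r ^ 2), sq_nonneg r]
  nlinarith [sq_nonneg (r ^ 4), sq_nonneg (r ^ 2)]

/-- method of types for the total spin -/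
theorem sum_tot_le (F : ℝ → ℝ) {K : ℝ} (hK : 0 ≤ K)
    (h : ∀ r : ℝ, |r| ≤ 1 → F (n * r) ≤ K * exp (n * (r ^ 2 / 2 + r ^ 4 / 20))) :
    ∑ x : Cube n, F (tot x) ≤ 2 ^ n * ((n + 1) * K) := by
  rcases Nat.eq_zero_or_pos n with rfl | hn
  · simpa [tot] using h 0 (by simp)
  have hn' : (0 : ℝ) < n := Nat.cast_pos.2 hn
  set j : Cube n → ℕ := fun x => (Finset.univ.filter fun i => x i = true).card with hj
  have hjn : ∀ x, j x ≤ n := fun x => (Finset.card_filter_le _ _).trans (by simp)
  have htot : ∀ x, tot x = 2 * j x - n := fun x => by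
    have : ∀ s : Bool, spin s = 2 * (if s = true then 1 else 0) - 1 := fun s => by
      cases s <;> norm_num [spin]
    simp only [tot, this, Finset.sum_sub_distrib, ← Finset.mul_sum, Finset.sum_boole, hj]
    simp
  rw [← Finset.sum_fiberwise_of_maps_to (t := Finset.range (n + 1)) (g := j)
    fun x _ => Finset.mem_range.2 (Nat.lt_succ_of_le (hjn x))]
  refine (Finset.sum_le_card_nsmul _ _ (2 ^ n * K) fun k hk => ?_).trans_eq (by simp; ring)
  have hk' : (k : ℝ) ≤ n := Nat.cast_le.2 (Nat.lt_succ_iff.1 (Finset.mem_range.1 hk))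
  set r : ℝ := (2 * k - n) / n with hr
  have hnr : n * r = 2 * k - n := mul_div_cancel₀ _ hn'.ne'
  have hr1 : |r| ≤ 1 := by
    rw [hr, abs_div, abs_of_pos hn', div_le_one hn', abs_le]
    constructor <;> linarith [Nat.cast_nonneg (α := ℝ) k]
  calc _ ≤ ∑ x ∈ Finset.univ.filter fun x => j x = k,
        K * exp (n * (r ^ 2 / 2 + r ^ 4 / 20)) * exp (-(n * r ^ 2)) * exp (r * tot x) :=
        Finset.sum_le_sum fun x hx => by
          rw [htot, (Finset.mem_filter.1 hx).2, ← hnr, mul_assoc, ← exp_add,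
            show -(n * r ^ 2) + r * (n * r) = 0 by ring, exp_zero, mul_one]
          exact h r hr1
    _ ≤ ∑ x : Cube n, K * exp (n * (r ^ 2 / 2 + r ^ 4 / 20)) * exp (-(n * r ^ 2)) * exp (r * tot x) :=
        Finset.sum_le_sum_of_subset_of_nonneg (Finset.filter_subset _ _) fun _ _ _ => by positivity
    _ ≤ K * exp (n * (r ^ 2 / 2 + r ^ 4 / 20)) * exp (-(n * r ^ 2)) *
        (2 ^ n * exp (r ^ 2 / 2 - r ^ 4 / 20) ^ n) := by
        rw [← Finset.mul_sum, sum_exp_tot]
        gcongr
        exact cosh_le_quartic hr1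
    _ = 2 ^ n * K * (exp (n * (r ^ 2 / 2 + r ^ 4 / 20)) * exp (-(n * r ^ 2)) *
        exp (n * (r ^ 2 / 2 - r ^ 4 / 20))) := by rw [exp_nat_mul (r ^ 2 / 2 - r ^ 4 / 20)]; ring
    _ = _ := by
        rw [← exp_add, ← exp_add, show n * (r ^ 2 / 2 + r ^ 4 / 20) + -(n * r ^ 2) +
          n * (r ^ 2 / 2 - r ^ 4 / 20) = 0 by ring, exp_zero, mul_one]

/-- `E exp (a S² / (2 n))` for a sum `S` of `n` independent signs -/
def U (n : ℕ) (a : ℝ) : ℝ := (∑ x : Cube n, exp (a / n * tot x ^ 2 / 2)) / 2 ^ n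

lemma U_pos (n : ℕ) (a : ℝ) : 0 < U n a :=
  div_pos (Finset.sum_pos (fun _ _ => exp_pos _) Finset.univ_nonempty) (by positivity)

lemma U_mono (n : ℕ) {a a' : ℝ} (h : a ≤ a') : U n a ≤ U n a' := by
  unfold U; gcongr

theorem U_le_poly (n : ℕ) (l : ℝ) : U n (1 + l) ≤ (n + 1) * exp (5 / 4 * n * l ^ 2) := by
  rw [U, div_le_iff₀' (by positivity)]
  refine sum_tot_le (fun s => exp ((1 + l) / n * s ^ 2 / 2)) (exp_pos _).le fun r _ => ?_
  rw [← exp_add, exp_le_exp]
  rcases Nat.eq_zero_or_pos n with rfl | hn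
  · simp
  have hn' : (0 : ℝ) < n := Nat.cast_pos.2 hn
  rw [show (1 + l) / n * (n * r) ^ 2 / 2 = n * ((1 + l) * r ^ 2 / 2) by field_simp]
  nlinarith [mul_nonneg hn'.le (sq_nonneg (r ^ 2 - 5 * l))]

theorem U_le_succ (n : ℕ) {a : ℝ} (ha : a ≤ 1) : U n a ≤ n + 1 := by
  simpa using (U_mono n (show a ≤ 1 + 0 by linarith)).trans (U_le_poly n 0)

lemma integral_exp_sq {a : ℝ} (ha : a < 1) : Integrable (fun h : ℝ => exp (a * h ^ 2 / 2))
    (gaussianReal 0 1) ∧ ∫ h, exp (a * h ^ 2 / 2) ∂gaussianReal 0 1 = (√(1 - a))⁻¹ := by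
  have hb : 0 < (1 - a) / 2 := by linarith
  have e : ∀ h : ℝ, gaussianPDFReal 0 1 h * exp (a * h ^ 2 / 2) =
      (√(2 * π))⁻¹ * exp (-((1 - a) / 2) * h ^ 2) := fun h => by
    simp only [gaussianPDFReal, NNReal.coe_one, mul_one, sub_zero, mul_assoc, ← exp_add]
    congr 2; ring
  constructor
  · rw [gaussianReal_of_var_ne_zero _ one_ne_zero, integrable_withDensity_iff_integrable_smul'
      (by fun_prop) (by simp [gaussianPDF])]
    simp only [toReal_gaussianPDF, smul_eq_mul, e]
    exact (integrable_exp_neg_mul_sq hb).const_mul _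
  · rw [integral_gaussianReal_eq_integral_smul one_ne_zero]
    simp only [smul_eq_mul, e]
    rw [integral_const_mul, integral_gaussian, show π / ((1 - a) / 2) = 2 * π / (1 - a) by
      field_simp, sqrt_div (by positivity)]
    have : 0 < √(2 * π) := by positivity
    field_simp

theorem U_le (n : ℕ) {a : ℝ} (h0 : 0 ≤ a) (ha : a < 1) : U n a ≤ (√(1 - a))⁻¹ := by
  have e : ∀ x : Cube n, exp (a / n * tot x ^ 2 / 2) =
      ∫ h, exp (√(a / n) * tot x * h) ∂entryLaw false := fun x => by
    rw [integral_exp_entry, M_false, mul_pow, sq_sqrt (by positivity)]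
  rw [U, div_le_iff₀' (by positivity), ← (integral_exp_sq ha).2, ← integral_const_mul]
  simp only [e]
  rw [← integral_finsetSum _ fun x _ => integrable_exp_entry false _]
  refine integral_mono (integrable_finsetSum _ fun x _ => integrable_exp_entry false _)
    ((integral_exp_sq ha).1.const_mul _) fun h => ?_
  simp only [mul_right_comm _ _ h, sum_exp_tot]
  gcongr
  refine (pow_le_pow_left₀ (cosh_pos _).le (cosh_le_exp_half_sq _) n).trans ?_
  rw [← exp_nat_mul, exp_le_exp, mul_pow, sq_sqrt (by positivity)]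
  rcases Nat.eq_zero_or_pos n with rfl | hn
  · simp; positivity
  · have hn' : (0 : ℝ) < n := Nat.cast_pos.2 hn
    exact le_of_eq (by field_simp)

lemma log_U_le (n : ℕ) {a : ℝ} (h0 : 0 ≤ a) (ha : a < 1) : log (U n a) ≤ -log (1 - a) / 2 := by
  refine (log_le_log (U_pos n a) (U_le n h0 ha)).trans_eq ?_
  rw [log_inv, log_sqrt (by linarith)]; ring

/-! ### two replicas: decoupling the disorder -/

lemma wt_one {Ω : Type*} [Fintype Ω] [Nonempty Ω] : Wt fun _ : Ω => (1 : ℝ) := .of_pos fun _ => one_pos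

lemma post_tau (β : ℝ) (g : Pair n → ℝ) (x : Cube n) : post (fun x => th n β • tau x) (fun _ => 1) 1 g x =
    gibbsWeight n β g x * exp (-(th n β ^ 2 * (n * (n - 1) / 2) / 2)) := by
  rw [post, gibbsWeight_eq, one_mul, ← exp_add, smul_dotProduct, dotProduct_smul (th n β) (tau x),
    tau_dot_self]
  congr 1
  simp only [smul_eq_mul]; ring

lemma log_Zw_post_tau (β : ℝ) (g : Pair n → ℝ) :
    log (Zw (post (fun x => th n β • tau x) (fun _ => 1) 1 g)) =
      log (Zw (gibbsWeight n β g)) - th n β ^ 2 * (n * (n - 1) / 2) / 2 := by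
  simp only [Zw, post_tau, ← Finset.sum_mul]
  exact (log_mul (Z_pos β g).ne' (exp_pos _).ne').trans (by rw [log_exp]; rfl)

lemma integrable_log_Z (β : ℝ) :
    Integrable (fun g => log (Zw (gibbsWeight n β g))) (gv (Pair n)) := by
  refine ((integrable_logZ wt_one fun x : Cube n => th n β • tau x).add
    (integrable_const (th n β ^ 2 * (n * (n - 1) / 2) / 2))).congr (.of_forall fun g => ?_)
  simp only [log_Zw_post_tau, Pi.add_apply, sub_add_cancel]

lemma sum_pair_eq {w w' : Cube n → ℝ} (hw : Wt w) (hw' : Wt w') (f : Cube n → Cube n → ℝ) :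
    ∑ p : Cube n × Cube n, f p.1 p.2 * (w p.1 * w' p.2) =
      Zw w * Zw w' * mean w fun x => mean w' fun y => f x y := by
  rw [mul_comm (Zw w), mul_assoc, Zw_mul_mean hw.pos.ne', Finset.mul_sum, Fintype.sum_prod_type]
  refine Finset.sum_congr rfl fun x _ => ?_
  rw [mul_left_comm, Zw_mul_mean hw'.pos.ne', Finset.mul_sum]
  exact Finset.sum_congr rfl fun y _ => by ring

lemma mean2_pos {w w' : Cube n → ℝ} (hw : Wt w) (hw' : Wt w') {f : Cube n → Cube n → ℝ}
    (hf : ∀ x y, 0 < f x y) : 0 < mean w fun x => mean w' fun y => f x y := by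
  obtain ⟨x, hx⟩ := hw.exists_pos
  obtain ⟨y, hy⟩ := hw'.exists_pos
  exact (hw.mean_pos_iff fun x => hw'.mean_nonneg fun y => (hf x y).le).2
    ⟨x, hx, (hw'.mean_pos_iff fun y => (hf x y).le).2 ⟨y, hy, hf x y⟩⟩

/-- the interpolating features -/
def ft (θ t : ℝ) (p : Cube n × Cube n) : Pair n ⊕ Pair n → ℝ :=
  Sum.elim (θ • (tau p.1 + sin t • tau p.2)) ((θ * cos t) • tau p.2)

/-- their derivative -/
def ft' (θ t : ℝ) (p : Cube n × Cube n) : Pair n ⊕ Pair n → ℝ :=
  Sum.elim ((θ * cos t) • tau p.2) ((-(θ * sin t)) • tau p.2)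

lemma meanV_tau_dot {Ω : Type*} [Fintype Ω] {w : Ω → ℝ} (hw : Wt w) (X Y : Ω → Cube n) :
    -(n / 2 : ℝ) ≤ meanV w (fun p => tau (X p)) ⬝ᵥ meanV w fun p => tau (Y p) := by
  rw [meanV_dot]
  refine hw.le_mean fun q => ?_
  rw [dotProduct_comm, meanV_dot]
  refine hw.le_mean fun p => ?_
  rw [tau_dot]; nlinarith [sq_nonneg (sv (Y q) ⬝ᵥ sv (X p))]

lemma hasDerivAt_ft (θ t : ℝ) (p : Cube n × Cube n) (i : Pair n ⊕ Pair n) :
    HasDerivAt (fun t => ft θ t p i) (ft' θ t p i) t := by
  cases i with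
  | inl i => exact ((((hasDerivAt_sin t).mul_const (tau p.2 i)).const_add (tau p.1 i)).const_mul
      θ).congr_deriv (by simp [ft', mul_assoc])
  | inr i =>
    exact (((hasDerivAt_cos t).const_mul θ).mul_const (tau p.2 i)).congr_deriv (by simp [ft'])

lemma continuous_ft' (θ : ℝ) (p : Cube n × Cube n) (i : Pair n ⊕ Pair n) :
    Continuous fun t => ft' θ t p i := by
  cases i <;> simp only [ft', Sum.elim_inl, Sum.elim_inr, Pi.smul_apply, smul_eq_mul] <;> fun_prop

lemma FE_ft_le (θ : ℝ) {c : Cube n × Cube n → ℝ} (hc : Wt c) :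
    FE c (ft θ (π / 2)) - FE c (ft θ 0) ≤ θ ^ 2 * n / 2 := by
  have := sub_le_of_deriv (s := 0) (t := π / 2) (by positivity)
    (fun u _ => hasDerivAt_FE hc (hasDerivAt_ft θ) (continuous_ft' θ) u)
    (fun u _ => (hasDerivAt_sin u).const_mul (θ ^ 2 * n / 2)) fun u hu => by
      rw [neg_le]
      refine le_trans (le_of_eq (by simp)) (integral_mono (integrable_const
        (-(θ ^ 2 * n / 2 * cos u))) (integrable_meanV_dot hc _ _ _) fun z => ?_)
      have h := meanV_tau_dot (hc.post (ft θ u) 1 z) Prod.snd Prod.fst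
      have hcos : 0 ≤ cos u := (cos_pos_of_mem_Ioo ⟨by linarith [hu.1, pi_pos], hu.2⟩).le
      have e : meanV (post (ft θ u) c 1 z) (ft' θ u) ⬝ᵥ meanV (post (ft θ u) c 1 z) (ft θ u) =
          θ ^ 2 * cos u * (meanV (post (ft θ u) c 1 z) (fun p => tau p.2) ⬝ᵥ
            meanV (post (ft θ u) c 1 z) fun p => tau p.1) := by
        generalize post (ft θ u) c 1 z = w
        simp only [dotProduct, Fintype.sum_sum_type, meanV, ft, ft', Sum.elim_inl, Sum.elim_inr,
          Pi.smul_apply, Pi.add_apply, smul_eq_mul, mean_const_mul, mean_add, Finset.mul_sum,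
          ← Finset.sum_add_distrib]
        exact Finset.sum_congr rfl fun i _ => by ring
      simp only [e]
      nlinarith [mul_nonneg (sq_nonneg θ) hcos]
  simpa using this

lemma continuous_mean2 {α : Type*} [TopologicalSpace α] (β : ℝ) {u v : α → Pair n → ℝ}
    (hu : Continuous u) (hv : Continuous v) (f : Cube n → Cube n → ℝ) : Continuous fun z =>
      mean (gibbsWeight n β (u z)) fun x => mean (gibbsWeight n β (v z)) fun y => f x y :=
  continuous_finsetSum _ fun x _ => ((continuous_prob β x).comp hu).mul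
    (continuous_finsetSum _ fun y _ => ((continuous_prob β y).comp hv).mul continuous_const)

lemma abs_mean2_le {w w' : Cube n → ℝ} (hw : Wt w) (hw' : Wt w') (f : Cube n → Cube n → ℝ) :
    |mean w fun x => mean w' fun y => f x y| ≤ ∑ p : Cube n × Cube n, |f p.1 p.2| :=
  hw.abs_mean_le fun x => hw'.abs_mean_le fun y =>
    Finset.single_le_sum (f := fun p : Cube n × Cube n => |f p.1 p.2|) (fun _ _ => abs_nonneg _)
      (Finset.mem_univ (x, y))

lemma integrable_mean2 (b : Bool) (β : ℝ) (f : Cube n → Cube n → ℝ) :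
    Integrable (fun g => mean (gibbsWeight n β g) fun x => mean (gibbsWeight n β g) fun y => f x y)
      (couplingLaw b n) :=
  (integrable_const _).mono' (continuous_mean2 β continuous_id continuous_id f).aestronglyMeasurable
    (.of_forall fun g => abs_mean2_le (wt_gibbs β g) (wt_gibbs β g) f)

/-- **decoupling inequality** for two replicas (Gaussian couplings, every `β`) -/
theorem integral_log_mean2_le (β : ℝ) {f : Cube n → Cube n → ℝ} (hf : ∀ x y, 0 < f x y) :
    ∫ g, log (mean (gibbsWeight n β g) fun x => mean (gibbsWeight n β g) fun y => f x y)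
        ∂gv (Pair n) ≤
      log ((∑ x, ∑ y, f x y * exp (th n β ^ 2 * (sv x ⬝ᵥ sv y) ^ 2 / 2)) / 4 ^ n) := by
  set θ := th n β with hθ
  set N : ℝ := n * (n - 1) / 2 with hN
  set c : Cube n × Cube n → ℝ := fun p => f p.1 p.2 * exp (θ ^ 2 * (sv p.1 ⬝ᵥ sv p.2) ^ 2 / 2) with hc
  have hc0 : ∀ p, 0 < c p := fun p => mul_pos (hf _ _) (exp_pos _)
  have hw : Wt c := .of_pos hc0
  have key := FE_ft_le θ hw
  have W := fun g => wt_gibbs (n := n) β g
  have m1 := R339.Guerra.mp_comp (Sum.inl : Pair n → Pair n ⊕ Pair n) Sum.inl_injective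
  have m2 := R339.Guerra.mp_comp (Sum.inr : Pair n → Pair n ⊕ Pair n) Sum.inr_injective
  have iZ := integrable_log_Z (n := n) β
  -- the end point `π / 2`
  have e1 : ∀ z : Pair n ⊕ Pair n → ℝ, log (Zw (post (ft θ (π / 2)) c 1 z)) =
      log (mean (gibbsWeight n β fun k => z (.inl k)) fun x =>
        mean (gibbsWeight n β fun k => z (.inl k)) fun y => f x y) +
      2 * log (Zw (gibbsWeight n β fun k => z (.inl k))) + (θ ^ 2 * n / 2 - θ ^ 2 * N) := fun z => by
    have : ∀ p, post (ft θ (π / 2)) c 1 z p = f p.1 p.2 * (gibbsWeight n β (fun k => z (.inl k)) p.1 *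
        gibbsWeight n β (fun k => z (.inl k)) p.2) * exp (θ ^ 2 * n / 2 - θ ^ 2 * N) := fun p => by
      have h1 := tau_dot p.1 p.2
      have h2 := tau_dot_self p.1
      have h3 := tau_dot_self p.2
      have h4 := dotProduct_comm (tau p.2) (tau p.1)
      simp only [post, hc, gibbsWeight_eq, mul_assoc, ← exp_add, ft, sin_pi_div_two, cos_pi_div_two,
        one_smul, mul_zero, zero_smul, sumElim_dotProduct_sumElim, dotProduct_zero, add_zero,
        smul_dotProduct, dotProduct_smul, add_dotProduct, dotProduct_add, smul_eq_mul, ← hθ]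
      congr 2
      rw [← Sum.elim_comp_inl_inr z, sumElim_dotProduct_sumElim, h4, h1, h2, h3]
      simp only [dotProduct_zero, dotProduct_smul, dotProduct_add, smul_eq_mul, Function.comp_def,
        Sum.elim_inl, hN]
      ring
    simp only [Zw, this, ← Finset.sum_mul]
    rw [sum_pair_eq (W _) (W _), log_mul (mul_pos (mul_pos (Z_pos _ _) (Z_pos _ _))
      (mean2_pos (W _) (W _) hf)).ne' (exp_pos _).ne', log_exp, log_mul (mul_pos (Z_pos _ _)
        (Z_pos _ _)).ne' (mean2_pos (W _) (W _) hf).ne', log_mul (Z_pos _ _).ne' (Z_pos _ _).ne']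
    simp only [Zw]; ring
  -- the end point `0`
  have e0 : ∀ z : Pair n ⊕ Pair n → ℝ, log (Zw (post (ft θ 0) c 1 z)) =
      log (mean (gibbsWeight n β fun k => z (.inl k)) fun x =>
        mean (gibbsWeight n β fun k => z (.inr k)) fun y => c (x, y)) +
      (log (Zw (gibbsWeight n β fun k => z (.inl k))) +
        log (Zw (gibbsWeight n β fun k => z (.inr k)))) + -(θ ^ 2 * N) := fun z => by
    have : ∀ p, post (ft θ 0) c 1 z p = c (p.1, p.2) * (gibbsWeight n β (fun k => z (.inl k)) p.1 *
        gibbsWeight n β (fun k => z (.inr k)) p.2) * exp (-(θ ^ 2 * N)) := fun p => by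
      have h2 := tau_dot_self p.1
      have h3 := tau_dot_self p.2
      simp only [post, gibbsWeight_eq, mul_assoc, ← exp_add, ft, sin_zero, cos_zero,
        mul_one, zero_smul, sumElim_dotProduct_sumElim, add_zero,
        smul_dotProduct, dotProduct_smul, smul_eq_mul, ← hθ]
      congr 2
      rw [← Sum.elim_comp_inl_inr z, sumElim_dotProduct_sumElim, h2, h3]
      simp only [dotProduct_smul, smul_eq_mul, Function.comp_def, Sum.elim_inl, Sum.elim_inr, hN]
      ring
    simp only [Zw, this, ← Finset.sum_mul]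
    have hp := mean2_pos (W fun k => z (.inl k)) (W fun k => z (.inr k)) fun x y => hc0 (x, y)
    rw [sum_pair_eq (W _) (W _) fun x y => c (x, y), log_mul (mul_pos (mul_pos (Z_pos _ _) (Z_pos _ _))
      hp).ne' (exp_pos _).ne', log_exp, log_mul (mul_pos (Z_pos _ _)
        (Z_pos _ _)).ne' hp.ne', log_mul (Z_pos _ _).ne' (Z_pos _ _).ne']
    simp only [Zw]; ring
  have i1 := m1.integrable_comp_of_integrable iZ
  have i2 := m2.integrable_comp_of_integrable iZ
  have cX : AEStronglyMeasurable (fun g => log (mean (gibbsWeight n β g) fun x =>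
      mean (gibbsWeight n β g) fun y => f x y)) (gv (Pair n)) :=
    ((continuous_mean2 β (u := fun g => g) (v := fun g => g) continuous_id continuous_id f).log
      fun g => (mean2_pos (W g) (W g) hf).ne').aestronglyMeasurable
  have iX : Integrable (fun z : Pair n ⊕ Pair n → ℝ => log (mean (gibbsWeight n β fun k => z (.inl k))
      fun x => mean (gibbsWeight n β fun k => z (.inl k)) fun y => f x y)) (gv _) :=
    (((integrable_logZ hw (ft θ (π / 2))).sub (i1.const_mul 2)).sub
      (integrable_const (θ ^ 2 * n / 2 - θ ^ 2 * N))).congr (.of_forall fun z => by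
        simp only [Pi.sub_apply, e1, Function.comp_apply]; ring)
  have E1 : FE c (ft θ (π / 2)) = ∫ g, log (mean (gibbsWeight n β g) fun x =>
      mean (gibbsWeight n β g) fun y => f x y) ∂gv (Pair n) +
        2 * ∫ g, log (Zw (gibbsWeight n β g)) ∂gv (Pair n) + (θ ^ 2 * n / 2 - θ ^ 2 * N) := by
    simp only [FE, e1]
    refine (integral_add' (iX.add (i1.const_mul 2)) (integrable_const _)).trans ?_
    rw [integral_add' iX (i1.const_mul 2), integral_const_mul]
    simp only [Function.comp_apply]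
    rw [R339.Guerra.mp_int m1 iZ.1, R339.Guerra.mp_int m1 cX]
    simp
  set m : ℝ := (∑ x, ∑ y, c (x, y)) / 4 ^ n with hm
  have m0 : 0 < m := div_pos (Finset.sum_pos (fun _ _ => Finset.sum_pos (fun _ _ => hc0 _)
    Finset.univ_nonempty) Finset.univ_nonempty) (by positivity)
  have cY := continuous_mean2 (α := Pair n ⊕ Pair n → ℝ) β (u := fun z k => z (.inl k))
    (v := fun z k => z (.inr k)) (by fun_prop) (by fun_prop) fun x y => c (x, y)
  have iY : Integrable _ (gv (Pair n ⊕ Pair n)) := (integrable_const _).mono' cY.aestronglyMeasurable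
    (.of_forall fun z => abs_mean2_le (W _) (W _) fun x y => c (x, y))
  have EY : ∫ z : Pair n ⊕ Pair n → ℝ, (mean (gibbsWeight n β fun k => z (.inl k)) fun x =>
      mean (gibbsWeight n β fun k => z (.inr k)) fun y => c (x, y)) ∂gv _ = m := by
    rw [← R339.Guerra.mp_int R339.Guerra.mp_sum iY.1]
    refine (integral_prod _ (R339.Guerra.mp_sum.integrable_comp_of_integrable iY)).trans ?_
    have : ∀ g : Pair n → ℝ, ∫ g', (mean (gibbsWeight n β g) fun x => mean (gibbsWeight n β g')
        fun y => c (x, y)) ∂couplingLaw false n =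
          mean (gibbsWeight n β g) fun x => (∑ y, c (x, y)) / 2 ^ n := fun g => by
      rw [mean]
      refine (integral_finsetSum _ fun x _ => (integrable_mean false β _).const_mul _).trans
        (Finset.sum_congr rfl fun x _ => ?_)
      rw [integral_const_mul, integral_mean]
    refine (integral_congr_ae (.of_forall this)).trans ((integral_mean false β _).trans ?_)
    rw [hm, ← Finset.sum_div, div_div, ← mul_pow]
    norm_num
  have E0 : FE c (ft θ 0) ≤ log m + 2 * ∫ g, log (Zw (gibbsWeight n β g)) ∂gv (Pair n) - θ ^ 2 * N := by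
    refine (integral_mono (integrable_logZ hw (ft θ 0)) (((iY.div_const m).add (i1.add i2)).add
      (integrable_const (log m - 1 - θ ^ 2 * N))) fun z => ?_).trans_eq ?_
    · have hp := mean2_pos (W fun k => z (.inl k)) (W fun k => z (.inr k)) fun x y => hc0 (x, y)
      have := log_le_sub_one_of_pos (div_pos hp m0)
      rw [log_div hp.ne' m0.ne'] at this
      simp only [e0, Pi.add_apply, Function.comp_apply]
      linarith
    · rw [integral_add' ((iY.div_const m).add (i1.add i2)) (integrable_const _),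
        integral_add' (iY.div_const m) (i1.add i2), integral_add' i1 i2, integral_div, EY,
        div_self m0.ne']
      simp only [Function.comp_apply]
      rw [R339.Guerra.mp_int m1 iZ.1, R339.Guerra.mp_int m2 iZ.1]
      simp; ring
  linarith

/-- exponential moments of the overlap -/
theorem integral_log_exp_overlap (β l : ℝ) :
    ∫ g, log (mean (gibbsWeight n β g) fun x => mean (gibbsWeight n β g) fun y =>
      exp (l / n * (sv x ⬝ᵥ sv y) ^ 2 / 2)) ∂gv (Pair n) ≤ log (U n (l + β ^ 2)) := by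
  refine (integral_log_mean2_le β fun _ _ => exp_pos _).trans_eq (congrArg log ?_)
  have e : ∀ x y : Cube n, exp (l / n * (sv x ⬝ᵥ sv y) ^ 2 / 2) *
      exp (th n β ^ 2 * (sv x ⬝ᵥ sv y) ^ 2 / 2) = exp ((l + β ^ 2) / n * (sv x ⬝ᵥ sv y) ^ 2 / 2) :=
    fun x y => by rw [← exp_add, th_sq]; congr 1; ring
  simp only [e, sum_overlap fun s => exp ((l + β ^ 2) / n * s ^ 2 / 2), Finset.sum_const,
    Finset.card_univ, nsmul_eq_mul, card_cube, U]
  rw [show (4 : ℝ) ^ n = 2 ^ n * 2 ^ n by rw [← mul_pow]; norm_num,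
    mul_div_mul_left _ _ (by positivity)]

lemma mean2_le_log {w w' : Cube n → ℝ} (hw : Wt w) (hw' : Wt w') (u : Cube n → Cube n → ℝ) :
    (mean w fun x => mean w' fun y => u x y) ≤ log (mean w fun x => mean w' fun y => exp (u x y)) := by
  set m := mean w fun x => mean w' fun y => u x y with hm
  rw [le_log_iff_exp_le (mean2_pos hw hw' fun _ _ => exp_pos _)]
  refine le_trans (le_of_eq ?_) (hw.mean_mono fun x => hw'.mean_mono
    (f := fun y => exp m * (u x y - m + 1)) fun y => ?_)
  · simp only [mean_const_mul, mean_add, mean_sub, hw.mean_const, hw'.mean_const, ← hm]; ring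
  · rw [show exp (u x y) = exp m * exp (u x y - m) by rw [← exp_add]; congr 1; ring]
    exact mul_le_mul_of_nonneg_left (add_one_le_exp _) (exp_pos _).le

lemma integrable_log_mean2 (b : Bool) (β : ℝ) {f : Cube n → Cube n → ℝ} (hf : ∀ x y, 0 < f x y) :
    Integrable (fun g => log (mean (gibbsWeight n β g) fun x => mean (gibbsWeight n β g) fun y =>
      f x y)) (couplingLaw b n) := by
  have W := fun g => wt_gibbs (n := n) β g
  refine (integrable_const (∑ p : Cube n × Cube n, (|f p.1 p.2| + |log (f p.1 p.2)|))).mono'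
    ((continuous_mean2 β (u := fun g => g) (v := fun g => g) continuous_id continuous_id f).log
      fun g => (mean2_pos (W g) (W g) hf).ne').aestronglyMeasurable (.of_forall fun g => ?_)
  have h1 := abs_le.1 (abs_mean2_le (W g) (W g) f)
  have h2 := abs_le.1 (abs_mean2_le (W g) (W g) fun x y => log (f x y))
  have h3 := mean2_le_log (W g) (W g) fun x y => log (f x y)
  simp only [exp_log (hf _ _)] at h3
  have h4 := log_le_sub_one_of_pos (mean2_pos (W g) (W g) hf)
  rw [Finset.sum_add_distrib, Real.norm_eq_abs, abs_le]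
  constructor <;> linarith [h1.1, h1.2, h2.1, h2.2]

/-- the mean square of the (unnormalised) overlap -/
def q2 (b : Bool) (n : ℕ) (β : ℝ) : ℝ := ∫ g, (mean (gibbsWeight n β g) fun x =>
  mean (gibbsWeight n β g) fun y => (sv x ⬝ᵥ sv y) ^ 2) ∂couplingLaw b n

theorem q2_le_log (β l : ℝ) : l / n * q2 false n β / 2 ≤ log (U n (l + β ^ 2)) := by
  refine le_trans ?_ (integral_log_exp_overlap β l)
  rw [q2, ← integral_const_mul, ← integral_div]
  refine integral_mono (((integrable_mean2 false β _).const_mul _).div_const _)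
    (integrable_log_mean2 false β fun _ _ => exp_pos _) fun g => ?_
  refine le_trans (le_of_eq ?_) (mean2_le_log (wt_gibbs β g) (wt_gibbs β g) _)
  simp only [mean_div_const, mean_const_mul]

lemma q2_le_sq (b : Bool) (β : ℝ) : q2 b n β ≤ n ^ 2 := by
  refine (integral_mono (integrable_mean2 b β _) (integrable_const ((n : ℝ) ^ 2)) fun g =>
    (wt_gibbs β g).mean_le fun x => (wt_gibbs β g).mean_le fun y => ?_).trans_eq (by simp)
  rw [sv_dot_eq_tot, ← sq_abs]
  exact pow_le_pow_left₀ (abs_nonneg _) (abs_tot_le _) 2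

theorem q2_le {β : ℝ} (h : β ^ 2 < 1) :
    q2 false n β ≤ 2 * n * (log (2 / (1 - β ^ 2)) / (1 - β ^ 2)) := by
  have h0 : 0 < 1 - β ^ 2 := by linarith
  rcases Nat.eq_zero_or_pos n with rfl | hn
  · simpa using q2_le_sq (n := 0) false β
  have hn' : (0 : ℝ) < n := Nat.cast_pos.2 hn
  have h1 := (q2_le_log (n := n) β ((1 - β ^ 2) / 2)).trans (log_U_le n (by nlinarith [sq_nonneg β])
    (by linarith))
  rw [show 1 - ((1 - β ^ 2) / 2 + β ^ 2) = (2 / (1 - β ^ 2))⁻¹ by rw [inv_div]; ring, log_inv,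
    neg_neg, div_le_div_iff_of_pos_right two_pos, div_div, div_mul_eq_mul_div,
    div_le_iff₀ (by positivity)] at h1
  rw [← mul_div_assoc, le_div_iff₀ h0]
  linarith

/-! ### the relative entropy of the null model with respect to the planted model -/

/-- `E [-log (Z / E Z)]` -/
def DD (b : Bool) (n : ℕ) (β : ℝ) : ℝ := -∫ g, log (LR b n β g) ∂couplingLaw b n

lemma log_LR (b : Bool) (β : ℝ) (g : Pair n → ℝ) :
    log (LR b n β g) = log (Zw (gibbsWeight n β g)) - log (EZ b n β) :=
  log_div (Z_pos β g).ne' (EZ_pos b n β).ne'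

lemma log_EZ_false (n : ℕ) (β : ℝ) :
    log (EZ false n β) = n * log 2 + th n β ^ 2 * (n * (n - 1) / 2) / 2 := by
  rw [EZ, log_mul (by positivity) (pow_pos (M_pos _ _) _).ne', log_pow, log_pow, M_false, log_exp,
    card_pair]
  ring

lemma DD_false_eq (n : ℕ) (β : ℝ) :
    DD false n β = n * log 2 - FE (fun _ => 1) fun x : Cube n => th n β • tau x := by
  simp only [DD, FE, log_LR, log_Zw_post_tau, log_EZ_false]
  rw [integral_sub (integrable_log_Z β) (integrable_const _)]
  erw [integral_sub (integrable_log_Z β) (integrable_const _)]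
  simp only [integral_const, probReal_univ, smul_eq_mul, one_mul]
  ring

lemma DD_zero (n : ℕ) : DD false n 0 = 0 := by
  simp [DD, LR, EZ, th, M_zero, Zw, gibbsWeight]

theorem hasDerivAt_DD (n : ℕ) (β : ℝ) :
    HasDerivAt (DD false n) (β / n * (q2 false n β - n) / 2) β := by
  have h := (hasDerivAt_FE (a := fun t (x : Cube n) => th n t • tau x)
    (a' := fun _ x => th n 1 • tau x) wt_one (fun t x i =>
      ((hasDerivAt_id' t).div_const √n).mul_const (tau x i)) (fun _ _ => continuous_const) β).const_sub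
        (n * log 2)
  rw [show DD false n = _ from funext (DD_false_eq n)]
  refine h.congr_deriv ?_
  have e : ∀ g : Pair n → ℝ, meanV (post (fun x : Cube n => th n β • tau x) (fun _ => 1) 1 g)
      (fun x => th n 1 • tau x) ⬝ᵥ meanV (post (fun x : Cube n => th n β • tau x) (fun _ => 1) 1 g)
        (fun x => th n β • tau x) = β / n * ((mean (gibbsWeight n β g) fun x =>
          mean (gibbsWeight n β g) fun y => (sv x ⬝ᵥ sv y) ^ 2) - n) / 2 := fun g => by
    have e1 : ∀ f, mean (post (fun x : Cube n => th n β • tau x) (fun _ => 1) 1 g) f =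
        mean (gibbsWeight n β g) f := fun f => by
      rw [mean, mean, show post (fun x : Cube n => th n β • tau x) (fun _ => 1) 1 g = _ from
        funext (post_tau β g), prob_smul _ (exp_pos _).ne']
    have e2 : th n β * th n 1 = β / n := by
      rw [th, th, div_mul_div_comm, mul_one, mul_self_sqrt (Nat.cast_nonneg n)]
    rw [meanV_dot, e1]
    simp only [dotProduct_comm (meanV _ _), meanV_dot, e1, smul_dotProduct, dotProduct_smul,
      smul_eq_mul, tau_dot, ← mul_assoc, e2, mean_const_mul, mean_div_const, mean_sub,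
      (wt_gibbs β g).mean_const]
    ring
  simp only [e, neg_neg]
  rw [integral_div, integral_const_mul]
  erw [integral_sub (integrable_mean2 false β _) (integrable_const _)]
  simp [q2]

/-- high temperature: the relative entropy is bounded -/
theorem DD_false_le (n : ℕ) {β : ℝ} (h0 : 0 ≤ β) (h1 : β < 1) :
    DD false n β ≤ log (2 / (1 - β ^ 2)) ^ 2 / 4 := by
  have hp : ∀ u ∈ Icc 0 β, 0 < 1 - u ^ 2 := fun u hu => by nlinarith [hu.1, hu.2]
  have := sub_le_of_deriv h0 (fun u _ => hasDerivAt_DD n u)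
    (B := fun u => log (2 / (1 - u ^ 2)) ^ 2 / 4)
    (B' := fun u => u * (log (2 / (1 - u ^ 2)) / (1 - u ^ 2))) (fun u hu => by
      have := hp u hu
      refine ((((hasDerivAt_const u 2).div ((hasDerivAt_pow 2 u).const_sub 1) this.ne').log
        (div_pos two_pos this).ne').pow 2 |>.div_const 4).congr_deriv ?_
      simp only [Pi.div_apply]
      field_simp
      ring) fun u hu => by
      have h2 := hp u (Ioo_subset_Icc_self hu)
      have h3 := q2_le (n := n) (β := u) (by linarith)
      rcases Nat.eq_zero_or_pos n with rfl | hn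
      · simpa using mul_nonneg hu.1.le (div_nonneg (log_nonneg (by
          rw [le_div_iff₀ h2]; nlinarith [sq_nonneg u])) h2.le)
      have hn' : (0 : ℝ) < n := Nat.cast_pos.2 hn
      rw [div_mul_eq_mul_div, div_div, div_le_iff₀ (by positivity)]
      nlinarith [mul_le_mul_of_nonneg_left h3 hu.1.le, mul_pos hu.1 hn']
  rw [DD_zero] at this
  nlinarith [sq_nonneg (log (2 / (1 - 0 ^ 2 : ℝ)))]

lemma DD_false_sub_le (n : ℕ) {s t : ℝ} (h0 : 0 ≤ s) (hst : s ≤ t) :
    DD false n t - DD false n s ≤ n * (t ^ 2 - s ^ 2) / 4 := by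
  have := sub_le_of_deriv hst (fun u _ => hasDerivAt_DD n u) (B := fun u => n * u ^ 2 / 4)
    (B' := fun u => n * u / 2) (fun u _ =>
      (((hasDerivAt_pow 2 u).const_mul (n : ℝ)).div_const 4).congr_deriv (by simp; ring))
    fun u hu => by
      have h3 := q2_le_sq (n := n) false u
      have hu0 := h0.trans hu.1.le
      rcases Nat.eq_zero_or_pos n with rfl | hn
      · simp
      have hn' : (0 : ℝ) < n := Nat.cast_pos.2 hn
      rw [div_le_div_iff_of_pos_right two_pos, div_mul_eq_mul_div, div_le_iff₀ hn']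
      nlinarith [mul_le_mul_of_nonneg_left h3 hu0, mul_nonneg hu0 hn'.le]
  linarith

/-- up to the critical temperature: the relative entropy is `O(log² n)` -/
theorem DD_false_le_crit (n : ℕ) {β : ℝ} (h0 : 0 ≤ β) (h1 : β ≤ 1) :
    DD false n β ≤ log (2 * n) ^ 2 / 4 + 1 / 4 := by
  rcases Nat.eq_zero_or_pos n with rfl | hn
  · simpa [DD_zero] using (DD_false_sub_le 0 le_rfl h0).trans (by simp : _ ≤ (4 : ℝ)⁻¹)
  have hn' : (1 : ℝ) ≤ n := Nat.one_le_cast.2 hn
  have hi : (n : ℝ)⁻¹ ≤ 1 := inv_le_one_of_one_le₀ hn'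
  have hi0 : 0 < (n : ℝ)⁻¹ := by positivity
  have hs : √(1 - (n : ℝ)⁻¹) ^ 2 = 1 - (n : ℝ)⁻¹ := sq_sqrt (by linarith)
  have hs1 : √(1 - (n : ℝ)⁻¹) < 1 := by rw [sqrt_lt' one_pos]; linarith
  rcases le_total β (√(1 - (n : ℝ)⁻¹)) with h | h
  · have h2 : (n : ℝ)⁻¹ ≤ 1 - β ^ 2 := by nlinarith [pow_le_pow_left₀ h0 h 2]
    refine (DD_false_le n h0 (h.trans_lt hs1)).trans (le_add_of_le_of_nonneg ?_ (by norm_num))
    have h3 : 0 < 1 - β ^ 2 := hi0.trans_le h2
    gcongr
    · exact log_nonneg (by rw [le_div_iff₀ h3]; nlinarith [sq_nonneg β])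
    · rw [div_eq_mul_inv]
      gcongr
      exact inv_le_of_inv_le₀ (by positivity) h2
  · have h2 := DD_false_le n (sqrt_nonneg _) hs1
    have h3 := DD_false_sub_le n (sqrt_nonneg _) h
    rw [hs, sub_sub_cancel, div_inv_eq_mul] at h2
    rw [hs] at h3
    have h4 : n * (n : ℝ)⁻¹ = 1 := mul_inv_cancel₀ (by positivity)
    nlinarith [pow_le_one₀ (n := 2) h0 h1]

end Crest.Agent.T157.Pl

end
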