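import Crest.Agent.R339.GTools

/-!
# Row 157: formal Itô calculus for functions of `(t, y)` (helper23)

`Ito d I G a b` says `dG = a dt + b · dB` when `dy = d dt + dB`.
-/

set_option autoImplicit false
set_option linter.unusedSectionVars false

noncomputable section

namespace Crest.Agent.T157.SL

open MeasureTheory ProbabilityTheory Filter Topology Set Real
open Crest.Agent.R339.Guerra (γ mp_int mp_update integrable_exp_abs integrable_pdf_mul hasDerivAt_pdf
  integrable_exp_abs1)

/-- the standard Gaussian vector -/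
abbrev Gs (ι : Type*) [Fintype ι] : Measure (ι → ℝ) := Measure.pi fun _ : ι => gaussianReal 0 1

/-- space-time points -/
abbrev Pt (ι : Type*) : Type _ := ℝ × (ι → ℝ)

variable {ι : Type*} [Fintype ι] [DecidableEq ι] {I J : Set ℝ} {F G H a a' : Pt ι → ℝ}
  {b b' d d' : ι → Pt ι → ℝ}

theorem int_exp (c : ℝ) : Integrable (fun z : ι → ℝ => exp (c * ‖z‖)) (Gs ι) :=
  (integrable_exp_abs |c|).mono' (by fun_prop) (.of_forall fun z => by
    rw [norm_of_nonneg (exp_pos _).le, exp_le_exp]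
    refine (mul_le_mul_of_nonneg_right (le_abs_self c) (norm_nonneg _)).trans ?_
    gcongr
    exact (pi_norm_le_iff_of_nonneg (by positivity)).2 fun i =>
      Finset.single_le_sum (f := fun j => |z j|) (fun _ _ => abs_nonneg _) (Finset.mem_univ i))

/-- continuous, of exponential growth in space, uniformly for times in `I` -/
structure EG (I : Set ℝ) (G : Pt ι → ℝ) : Prop where
  cont : ContinuousOn G (I ×ˢ univ)
  bd : ∃ C c : ℝ, 0 ≤ C ∧ 0 ≤ c ∧ ∀ p : Pt ι, p.1 ∈ I → |G p| ≤ C * exp (c * ‖p.2‖)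

namespace EG

theorem mono (h : EG I G) (hJ : J ⊆ I) : EG J G :=
  ⟨h.cont.mono (prod_mono hJ le_rfl), h.bd.imp fun _ => .imp fun _ h => ⟨h.1, h.2.1, fun p hp =>
    h.2.2 p (hJ hp)⟩⟩

theorem congr (h : EG I G) (e : ∀ p : Pt ι, p.1 ∈ I → H p = G p) : EG I H :=
  ⟨h.cont.congr fun p hp => e p hp.1, h.bd.imp fun _ => .imp fun _ h => ⟨h.1, h.2.1, fun p hp =>
    e p hp ▸ h.2.2 p hp⟩⟩

theorem of_le (h : EG I G) (hc : ContinuousOn H (I ×ˢ univ))
    (e : ∀ p : Pt ι, p.1 ∈ I → |H p| ≤ |G p|) : EG I H :=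
  ⟨hc, h.bd.imp fun _ => .imp fun _ h => ⟨h.1, h.2.1, fun p hp => (e p hp).trans (h.2.2 p hp)⟩⟩

theorem of_bdd (hc : ContinuousOn H (I ×ˢ univ)) (C : ℝ) (e : ∀ p : Pt ι, p.1 ∈ I → |H p| ≤ C) :
    EG I H := ⟨hc, |C|, 0, abs_nonneg _, le_rfl, fun p hp => by
      simpa using (e p hp).trans (le_abs_self C)⟩

theorem const (c : ℝ) : EG I fun _ : Pt ι => c := of_bdd continuousOn_const |c| fun _ _ => le_rfl

theorem time {f : ℝ → ℝ} (hf : ContinuousOn f I) (C : ℝ) (h : ∀ t ∈ I, |f t| ≤ C) :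
    EG I fun p : Pt ι => f p.1 :=
  of_bdd (hf.comp continuousOn_fst fun _ hp => hp.1) C fun p hp => h p.1 hp

theorem coord (i : ι) : EG I fun p : Pt ι => p.2 i :=
  ⟨by fun_prop, 1, 1, zero_le_one, zero_le_one, fun p _ => by
    have := add_one_le_exp ‖p.2‖
    have := norm_le_pi_norm p.2 i
    simp only [one_mul, Real.norm_eq_abs] at *
    linarith⟩

theorem mul (h : EG I G) (h' : EG I H) : EG I fun p => G p * H p := by
  obtain ⟨C, c, h1, h2, h3⟩ := h.bd
  obtain ⟨C', c', h1', h2', h3'⟩ := h'.bd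
  refine ⟨h.cont.mul h'.cont, C * C', c + c', by positivity, by positivity, fun p hp => ?_⟩
  rw [abs_mul, add_mul, exp_add, mul_mul_mul_comm]
  exact mul_le_mul (h3 p hp) (h3' p hp) (abs_nonneg _) (by positivity)

theorem add (h : EG I G) (h' : EG I H) : EG I fun p => G p + H p := by
  obtain ⟨C, c, h1, h2, h3⟩ := h.bd
  obtain ⟨C', c', h1', h2', h3'⟩ := h'.bd
  refine ⟨h.cont.add h'.cont, C + C', c + c', by positivity, by positivity, fun p hp => ?_⟩
  rw [add_mul C]
  refine (abs_add_le _ _).trans (add_le_add ((h3 p hp).trans ?_) ((h3' p hp).trans ?_)) <;>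
  gcongr <;> linarith

theorem const_mul (c : ℝ) (h : EG I G) : EG I fun p => c * G p := (const c).mul h

theorem div_const (h : EG I G) (c : ℝ) : EG I fun p => G p / c := h.mul (const c⁻¹)

theorem neg (h : EG I G) : EG I fun p => -G p := by simpa using h.const_mul (-1)

theorem sub (h : EG I G) (h' : EG I H) : EG I fun p => G p - H p := by
  simpa [sub_eq_add_neg] using h.add h'.neg

theorem sum {κ : Type*} (s : Finset κ) {G : κ → Pt ι → ℝ} (h : ∀ k ∈ s, EG I (G k)) :
    EG I fun p => ∑ k ∈ s, G k p := by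
  classical
  induction s using Finset.induction_on with
  | empty => simpa using const 0
  | insert k s hk ih =>
    simpa [Finset.sum_insert hk] using (h k (by simp)).add (ih fun j hj => h j (by simp [hj]))

theorem prod {κ : Type*} (s : Finset κ) {G : κ → Pt ι → ℝ} (h : ∀ k ∈ s, EG I (G k)) :
    EG I fun p => ∏ k ∈ s, G k p := by
  classical
  induction s using Finset.induction_on with
  | empty => simpa using const 1
  | insert k s hk ih =>
    simpa [Finset.prod_insert hk] using (h k (by simp)).mul (ih fun j hj => h j (by simp [hj]))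

theorem pow (h : EG I G) (k : ℕ) : EG I fun p => G p ^ k := by
  simpa using prod (Finset.range k) fun _ _ => h

theorem abs (h : EG I G) : EG I fun p => |G p| := h.of_le h.cont.abs fun _ _ => (abs_abs _).le

/-- the exponential of a function of linear growth -/
theorem exp (hc : ContinuousOn G (I ×ˢ univ)) (C c : ℝ)
    (h : ∀ p : Pt ι, p.1 ∈ I → G p ≤ C + c * ‖p.2‖) : EG I fun p => exp (G p) :=
  ⟨hc.rexp, Real.exp C, |c|, (exp_pos _).le, abs_nonneg _, fun p hp => by
    rw [abs_of_pos (exp_pos _), ← exp_add, exp_le_exp]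
    exact (h p hp).trans (by gcongr; exact le_abs_self c)⟩

/-- substitution of a map of linear growth -/
theorem comp {κ : Type*} [Fintype κ] (h : EG I G) {φ : Pt κ → Pt ι} (hφ : ContinuousOn φ (J ×ˢ univ))
    (h1 : ∀ p : Pt κ, p.1 ∈ J → (φ p).1 ∈ I) (A B : ℝ)
    (h2 : ∀ p : Pt κ, p.1 ∈ J → ‖(φ p).2‖ ≤ A + B * ‖p.2‖) : EG J fun p => G (φ p) := by
  obtain ⟨C, c, c1, c2, c3⟩ := h.bd
  refine ⟨h.cont.comp hφ fun p hp => ⟨h1 p hp.1, trivial⟩, C * Real.exp (c * A), c * |B|,
    by positivity, by positivity, fun p hp => (c3 _ (h1 p hp)).trans ?_⟩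
  rw [mul_assoc, ← exp_add, mul_assoc, ← mul_add]
  gcongr
  exact (h2 p hp).trans (by gcongr; exact le_abs_self B)

theorem cont_at (h : EG I G) {t : ℝ} (ht : t ∈ I) : Continuous fun z => G (t, z) :=
  continuousOn_univ.1 (h.cont.comp (by fun_prop) fun _ _ => ⟨ht, trivial⟩)

theorem int (h : EG I G) {t : ℝ} (ht : t ∈ I) : Integrable (fun z => G (t, z)) (Gs ι) := by
  obtain ⟨C, c, -, -, c3⟩ := h.bd
  exact ((int_exp c).const_mul C).mono' (h.cont_at ht).aestronglyMeasurable
    (.of_forall fun z => c3 (t, z) ht)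

theorem continuousOn_int (h : EG I G) : ContinuousOn (fun t => ∫ z, G (t, z) ∂Gs ι) I := by
  obtain ⟨C, c, -, -, c3⟩ := h.bd
  exact continuousOn_of_dominated (fun t ht => (h.cont_at ht).aestronglyMeasurable)
    (fun t ht => .of_forall fun z => c3 (t, z) ht) ((int_exp c).const_mul C)
    (.of_forall fun z => h.cont.comp (by fun_prop) fun _ ht => ⟨ht, trivial⟩)

theorem hasDerivAt_int (h : EG I G) (h' : EG I H) {t : ℝ} (ht : I ∈ 𝓝 t)
    (hd : ∀ s ∈ I, ∀ z, HasDerivAt (fun s => G (s, z)) (H (s, z)) s) :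
    HasDerivAt (fun t => ∫ z, G (t, z) ∂Gs ι) (∫ z, H (t, z) ∂Gs ι) t := by
  obtain ⟨C, c, -, -, c3⟩ := h'.bd
  exact (hasDerivAt_integral_of_dominated_loc_of_deriv_le (F := fun s z => G (s, z))
    (F' := fun s z => H (s, z)) ht
    (mem_of_superset ht fun s hs => (h.cont_at hs).aestronglyMeasurable)
    (h.int (mem_of_mem_nhds ht)) (h'.cont_at (mem_of_mem_nhds ht)).aestronglyMeasurable
    (.of_forall fun z s hs => c3 (s, z) hs) ((int_exp c).const_mul C)
    (.of_forall fun z s hs => hd s hs z)).2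

/-- the substitution `y = y₀ + t v + √t z` -/
theorem path (h : EG I G) (v : ι → ℝ) (T : ℝ) (hT : ∀ t ∈ I, |t| ≤ T) :
    EG I fun p => G (p.1, p.1 • v + √p.1 • p.2) :=
  h.comp (by fun_prop) (fun _ hp => hp) (T * ‖v‖) (√T) fun p hp => by
    refine (norm_add_le _ _).trans ?_
    rw [norm_smul, norm_smul, Real.norm_eq_abs, norm_of_nonneg (sqrt_nonneg _)]
    gcongr
    exacts [hT _ hp, (le_abs_self _).trans (hT _ hp)]

end EG

/-! ### Gaussian integration by parts -/

theorem stein1 {f f' : ℝ → ℝ} (hf : ∀ x, HasDerivAt f (f' x) x) (h1 : Integrable f γ)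
    (h2 : Integrable f' γ) (h3 : Integrable (fun x => x * f x) γ) :
    ∫ x, x * f x ∂γ = ∫ x, f' x ∂γ := by
  rw [integral_gaussianReal_eq_integral_smul (by norm_num),
    integral_gaussianReal_eq_integral_smul (by norm_num)]
  have h := integral_mul_deriv_eq_deriv_mul_of_integrable (A := ℝ)
    (u := f) (v := gaussianPDFReal 0 1) (u' := f') (v' := fun x => -(x * gaussianPDFReal 0 1 x))
    (fun x _ => hf x) (fun x _ => hasDerivAt_pdf x)
    ((integrable_pdf_mul h3).neg.congr (ae_of_all _ fun x => by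
      simp only [Pi.neg_apply, Pi.mul_apply]; ring))
    ((integrable_pdf_mul h2).congr (ae_of_all _ fun x => by simp only [Pi.mul_apply]; ring))
    ((integrable_pdf_mul h1).congr (ae_of_all _ fun x => by simp only [Pi.mul_apply]; ring))
  have h1 : ∫ x, gaussianPDFReal 0 1 x • (x * f x) = - ∫ x, f x * -(x * gaussianPDFReal 0 1 x) := by
    rw [← integral_neg]; congr 1; ext x; simp only [smul_eq_mul]; ring
  rw [h1, h, neg_neg]
  simp only [smul_eq_mul, mul_comm]

theorem EG.int_upd (h : EG I G) {t : ℝ} (ht : t ∈ I) (y : ι → ℝ) (i : ι) :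
    Integrable (fun s => G (t, Function.update y i s)) γ := by
  obtain ⟨C, c, c1, c2, c3⟩ := h.bd
  refine ((integrable_exp_abs1 c).const_mul (C * Real.exp (c * ‖y‖))).mono'
    ((h.cont_at ht).comp (by fun_prop)).aestronglyMeasurable (.of_forall fun s => (c3 _ ht).trans ?_)
  rw [mul_assoc, ← exp_add, ← mul_add]
  gcongr
  refine (pi_norm_le_iff_of_nonneg (by positivity)).2 fun j => ?_
  rcases eq_or_ne j i with rfl | hj
  · simp
  · simpa [hj] using (norm_le_pi_norm y j).trans (le_add_of_nonneg_right (abs_nonneg s))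

/-- Stein's identity -/
theorem stein (h : EG I G) (h' : EG I H) {t : ℝ} (ht : t ∈ I) (i : ι)
    (hd : ∀ y : ι → ℝ, HasDerivAt (fun s => G (t, Function.update y i s)) (H (t, y)) (y i)) :
    ∫ z, z i * G (t, z) ∂Gs ι = ∫ z, H (t, z) ∂Gs ι := by
  have h1 := ((EG.coord i).mul h).int ht
  have h2 := h'.int ht
  have hmp := mp_update (ι := ι) i
  have e1 : Integrable (fun p : (ι → ℝ) × ℝ => Function.update p.1 i p.2 i *
      G (t, Function.update p.1 i p.2)) ((Gs ι).prod γ) := hmp.integrable_comp_of_integrable h1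
  have e2 : Integrable (fun p : (ι → ℝ) × ℝ => H (t, Function.update p.1 i p.2)) ((Gs ι).prod γ) :=
    hmp.integrable_comp_of_integrable h2
  rw [← mp_int hmp h1.aestronglyMeasurable, ← mp_int hmp h2.aestronglyMeasurable,
    integral_prod _ e1, integral_prod _ e2]
  congr 1
  ext y
  have := ((EG.coord i).mul h).int_upd ht y i
  simp only [Function.update_self] at this ⊢
  exact stein1 (f := fun s => G (t, Function.update y i s)) (f' := fun s => H (t, Function.update y i s))
    (fun s => by simpa using hd (Function.update y i s)) (h.int_upd ht y i) (h'.int_upd ht y i) this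

/-! ### the Itô calculus -/

/-- `G` is differentiable with time derivative `g` and gradient `b` -/
def Df (I : Set ℝ) (G g : Pt ι → ℝ) (b : ι → Pt ι → ℝ) : Prop :=
  ∀ (c : ℝ → Pt ι) (c' : Pt ι) (s : ℝ), HasDerivAt c c' s → (c s).1 ∈ I →
    HasDerivAt (fun s => G (c s)) (g (c s) * c'.1 + ∑ i, b i (c s) * c'.2 i) s

/-- partial derivative in the direction `i` -/
def Dp (I : Set ℝ) (i : ι) (G h : Pt ι → ℝ) : Prop :=
  ∀ p : Pt ι, p.1 ∈ I → HasDerivAt (fun s => G (p.1, Function.update p.2 i s)) (h p) (p.2 i)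

theorem Df.dp {g : Pt ι → ℝ} (h : Df I G g b) (i : ι) : Dp I i G (b i) := fun p hp => by
  have := h (fun s => (p.1, Function.update p.2 i s)) (0, Pi.single i 1) (p.2 i)
    ((hasDerivAt_const _ _).prodMk (hasDerivAt_update _ _ _)) hp
  simpa [Pi.single_apply] using this

theorem Df.dt {g : Pt ι → ℝ} (h : Df I G g b) (p : Pt ι) (hp : p.1 ∈ I) :
    HasDerivAt (fun s => G (s, p.2)) (g p) p.1 := by
  simpa using h (fun s => (s, p.2)) (1, 0) p.1 ((hasDerivAt_id' _).prodMk (hasDerivAt_const _ _)) hp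

/-- `dG = a dt + b · dB` if `dy = d dt + dB` -/
def Ito (d : ι → Pt ι → ℝ) (I : Set ℝ) (G a : Pt ι → ℝ) (b : ι → Pt ι → ℝ) : Prop :=
  ∃ (g : Pt ι → ℝ) (h : ι → Pt ι → ℝ), EG I G ∧ EG I g ∧ (∀ i, EG I (b i)) ∧ (∀ i, EG I (h i)) ∧
    Df I G g b ∧ (∀ i, Dp I i (b i) (h i)) ∧
    ∀ p : Pt ι, p.1 ∈ I → a p = g p + ∑ i, (d i p * b i p + h i p / 2)

namespace Ito

theorem eg (h : Ito d I G a b) : EG I G := h.choose_spec.choose_spec.1

theorem eg_b (h : Ito d I G a b) (i : ι) : EG I (b i) := h.choose_spec.choose_spec.2.2.1 i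

theorem dp (h : Ito d I G a b) (i : ι) : Dp I i G (b i) := h.choose_spec.choose_spec.2.2.2.2.1.dp i

theorem eg_a (h : Ito d I G a b) (hd : ∀ i, EG I (d i)) : EG I a := by
  obtain ⟨g, k, -, h2, h3, h4, -, -, h7⟩ := h
  exact (h2.add (.sum _ fun i _ => ((hd i).mul (h3 i)).add ((h4 i).div_const 2))).congr h7

theorem mono (h : Ito d I G a b) (hJ : J ⊆ I) : Ito d J G a b := by
  obtain ⟨g, k, h1, h2, h3, h4, h5, h6, h7⟩ := h
  exact ⟨g, k, h1.mono hJ, h2.mono hJ, fun i => (h3 i).mono hJ, fun i => (h4 i).mono hJ,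
    fun c c' s hc hs => h5 c c' s hc (hJ hs), fun i p hp => h6 i p (hJ hp), fun p hp => h7 p (hJ hp)⟩

theorem congr (h : Ito d I G a b) (ea : ∀ p : Pt ι, p.1 ∈ I → a' p = a p)
    (eb : ∀ i (p : Pt ι), p.1 ∈ I → b' i p = b i p) : Ito d I G a' b' := by
  obtain ⟨g, k, h1, h2, h3, h4, h5, h6, h7⟩ := h
  refine ⟨g, k, h1, h2, fun i => (h3 i).congr (eb i), h4, fun c c' s hc hs => ?_, fun i p hp => ?_,
    fun p hp => ?_⟩
  · simpa only [eb _ _ hs] using h5 c c' s hc hs
  · simpa only [show ∀ s, b' i (p.1, Function.update p.2 i s) = _ from fun s => eb i _ hp]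
      using h6 i p hp
  · simp only [ea p hp, eb _ p hp, h7 p hp]

theorem congr_fun (h : Ito d I G a b) (hI : IsOpen I) (e : ∀ p : Pt ι, p.1 ∈ I → H p = G p) :
    Ito d I H a b := by
  obtain ⟨g, k, h1, h2, h3, h4, h5, h6, h7⟩ := h
  exact ⟨g, k, h1.congr e, h2, h3, h4, fun c c' s hc hs => (h5 c c' s hc hs).congr_of_eventuallyEq
    ((hc.continuousAt.fst.eventually (hI.mem_nhds hs)).mono fun r hr => e _ hr), h6, h7⟩

/-- change of drift (Girsanov) -/
theorem drift (h : Ito d I G a b) (d' : ι → Pt ι → ℝ) :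
    Ito d' I G (fun p => a p + ∑ i, (d' i p - d i p) * b i p) b := by
  obtain ⟨g, k, h1, h2, h3, h4, h5, h6, h7⟩ := h
  refine ⟨g, k, h1, h2, h3, h4, h5, h6, fun p hp => ?_⟩
  beta_reduce
  rw [h7 p hp, add_assoc, ← Finset.sum_add_distrib]
  exact congrArg _ (Finset.sum_congr rfl fun i _ => by ring)

theorem unique (h : Ito d I G a b) (h' : Ito d I G a' b') (p : Pt ι) (hp : p.1 ∈ I) :
    a p = a' p ∧ ∀ i, b i p = b' i p := by
  have e : ∀ i (p : Pt ι), p.1 ∈ I → b i p = b' i p := fun i p hp =>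
    (h.dp i p hp).unique (h'.dp i p hp)
  obtain ⟨g, k, -, -, -, -, h5, h6, h7⟩ := h
  obtain ⟨g', k', -, -, -, -, h5', h6', h7'⟩ := h'
  refine ⟨?_, fun i => e i p hp⟩
  rw [h7 p hp, h7' p hp, (h5.dt p hp).unique (h5'.dt p hp)]
  refine congrArg _ (Finset.sum_congr rfl fun i _ => ?_)
  rw [e i p hp, (h6 i p hp).unique (by
    simpa only [show ∀ s, b i (p.1, Function.update p.2 i s) = _ from fun s => e i _ hp]
      using h6' i p hp)]

theorem time {f f' : ℝ → ℝ} (hf : ∀ t ∈ I, HasDerivAt f (f' t) t) (h1 : EG I fun p : Pt ι => f p.1)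
    (h2 : EG I fun p : Pt ι => f' p.1) :
    Ito d I (fun p => f p.1) (fun p => f' p.1) fun _ _ => 0 :=
  ⟨_, fun _ _ => 0, h1, h2, fun _ => .const 0, fun _ => .const 0, fun c c' s hc hs =>
    ((hf _ hs).comp s hc.fst).congr_deriv (by simp), fun _ _ _ => hasDerivAt_const _ _, fun p _ => by simp⟩

theorem const (c : ℝ) : Ito d I (fun _ => c) (fun _ => 0) fun _ _ => 0 :=
  time (f := fun _ => c) (f' := fun _ => 0) (fun _ _ => hasDerivAt_const _ _) (.const c) (.const 0)

theorem coord (j : ι) : Ito d I (fun p => p.2 j) (d j) fun i _ => if i = j then 1 else 0 :=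
  ⟨fun _ => 0, fun _ _ => 0, .coord j, .const 0, fun _ => .const _, fun _ => .const 0,
    fun c c' s hc _ => by simpa using hasDerivAt_pi.1 hc.snd j, fun _ _ _ => hasDerivAt_const _ _,
    fun p _ => by simp⟩

theorem add (h : Ito d I G a b) (h' : Ito d I H a' b') :
    Ito d I (fun p => G p + H p) (fun p => a p + a' p) fun i p => b i p + b' i p := by
  obtain ⟨g, k, h1, h2, h3, h4, h5, h6, h7⟩ := h
  obtain ⟨g', k', h1', h2', h3', h4', h5', h6', h7'⟩ := h'
  refine ⟨_, _, h1.add h1', h2.add h2', fun i => (h3 i).add (h3' i), fun i => (h4 i).add (h4' i),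
    fun c c' s hc hs => ((h5 c c' s hc hs).add (h5' c c' s hc hs)).congr_deriv ?_,
    fun i p hp => (h6 i p hp).add (h6' i p hp), fun p hp => ?_⟩
  · simp only [add_mul, Finset.sum_add_distrib]; ring
  · simp only [h7 p hp, h7' p hp, mul_add, add_div, Finset.sum_add_distrib]; ring

theorem mul (h : Ito d I G a b) (h' : Ito d I H a' b') :
    Ito d I (fun p => G p * H p) (fun p => a p * H p + G p * a' p + ∑ i, b i p * b' i p)
      fun i p => b i p * H p + G p * b' i p := by
  obtain ⟨g, k, h1, h2, h3, h4, h5, h6, h7⟩ := h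
  obtain ⟨g', k', h1', h2', h3', h4', h5', h6', h7'⟩ := h'
  refine ⟨fun p => g p * H p + G p * g' p, fun i p => k i p * H p + b i p * b' i p +
    (b i p * b' i p + G p * k' i p), h1.mul h1', (h2.mul h1').add (h1.mul h2'),
    fun i => ((h3 i).mul h1').add (h1.mul (h3' i)), fun i => (((h4 i).mul h1').add
      ((h3 i).mul (h3' i))).add (((h3 i).mul (h3' i)).add (h1.mul (h4' i))),
    fun c c' s hc hs => ((h5 c c' s hc hs).mul (h5' c c' s hc hs)).congr_deriv ?_,
    fun i p hp => ?_, fun p hp => ?_⟩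
  · simp only [add_mul, mul_add, Finset.sum_add_distrib, Finset.sum_mul, Finset.mul_sum]
    simp only [mul_assoc, mul_comm, mul_left_comm]
    ring
  · exact (((h6 i p hp).mul (h5'.dp i p hp)).add ((h5.dp i p hp).mul (h6' i p hp))).congr_deriv
      (by simp)
  · simp only [h7 p hp, h7' p hp, add_mul, mul_add, Finset.sum_mul, Finset.mul_sum, add_assoc,
      ← Finset.sum_add_distrib]
    rw [add_left_comm (∑ _, _), ← Finset.sum_add_distrib]
    exact congrArg _ (congrArg _ (Finset.sum_congr rfl fun i _ => by ring))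

/-- Itô's formula -/
theorem comp (h : Ito d I G a b) {φ φ' φ'' : ℝ → ℝ}
    (d1 : ∀ p : Pt ι, p.1 ∈ I → HasDerivAt φ (φ' (G p)) (G p))
    (d2 : ∀ p : Pt ι, p.1 ∈ I → HasDerivAt φ' (φ'' (G p)) (G p)) (e0 : EG I fun p => φ (G p))
    (e1 : EG I fun p => φ' (G p)) (e2 : EG I fun p => φ'' (G p)) :
    Ito d I (fun p => φ (G p)) (fun p => φ' (G p) * a p + φ'' (G p) * (∑ i, b i p ^ 2) / 2)
      fun i p => φ' (G p) * b i p := by
  obtain ⟨g, k, h1, h2, h3, h4, h5, h6, h7⟩ := h
  refine ⟨fun p => φ' (G p) * g p, fun i p => φ'' (G p) * b i p * b i p + φ' (G p) * k i p, e0,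
    e1.mul h2, fun i => e1.mul (h3 i), fun i => ((e2.mul (h3 i)).mul (h3 i)).add (e1.mul (h4 i)),
    fun c c' s hc hs => ((d1 _ hs).comp s (h5 c c' s hc hs)).congr_deriv ?_, fun i p hp => ?_,
    fun p hp => ?_⟩
  · simp only [mul_add, Finset.mul_sum, mul_assoc]
  · have := (show HasDerivAt φ' (φ'' (G p)) (G (p.1, Function.update p.2 i (p.2 i))) by
      simpa using d2 p hp).comp (p.2 i) (h5.dp i p hp)
    exact (this.mul (h6 i p hp)).congr_deriv (by simp)
  · simp only [h7 p hp, mul_add, Finset.mul_sum, Finset.sum_div, add_assoc, ← Finset.sum_add_distrib]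
    exact congrArg _ (Finset.sum_congr rfl fun i _ => by ring)

theorem const_mul (c : ℝ) (h : Ito d I G a b) :
    Ito d I (fun p => c * G p) (fun p => c * a p) fun i p => c * b i p :=
  ((const c).mul h).congr (fun _ _ => by simp) fun _ _ _ => by simp

theorem neg (h : Ito d I G a b) : Ito d I (fun p => -G p) (fun p => -a p) fun i p => -b i p := by
  simpa using h.const_mul (-1)

theorem sub (h : Ito d I G a b) (h' : Ito d I H a' b') :
    Ito d I (fun p => G p - H p) (fun p => a p - a' p) fun i p => b i p - b' i p := by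
  simpa [sub_eq_add_neg] using h.add h'.neg

theorem sum {κ : Type*} (s : Finset κ) {G a : κ → Pt ι → ℝ} {b : κ → ι → Pt ι → ℝ}
    (h : ∀ k ∈ s, Ito d I (G k) (a k) (b k)) :
    Ito d I (fun p => ∑ k ∈ s, G k p) (fun p => ∑ k ∈ s, a k p) fun i p => ∑ k ∈ s, b k i p := by
  classical
  induction s using Finset.induction_on with
  | empty => simpa using const 0
  | insert k s hk ih =>
    simpa [Finset.sum_insert hk] using (h k (by simp)).add (ih fun j hj => h j (by simp [hj]))

theorem exp (h : Ito d I G a b) (e : EG I fun p => exp (G p)) :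
    Ito d I (fun p => Real.exp (G p)) (fun p => Real.exp (G p) * (a p + (∑ i, b i p ^ 2) / 2))
      fun i p => Real.exp (G p) * b i p :=
  (h.comp (fun _ _ => hasDerivAt_exp _) (fun _ _ => hasDerivAt_exp _) e e e).congr
    (fun _ _ => by ring) fun _ _ _ => rfl

theorem inv (h : Ito d I G a b) (h0 : ∀ p : Pt ι, p.1 ∈ I → G p ≠ 0) (e : EG I fun p => (G p)⁻¹) :
    Ito d I (fun p => (G p)⁻¹) (fun p => -a p / G p ^ 2 + (∑ i, b i p ^ 2) / G p ^ 3)
      fun i p => -b i p / G p ^ 2 :=
  (h.comp (φ := fun x => x⁻¹) (φ' := fun x => -(x⁻¹) ^ 2) (φ'' := fun x => 2 * (x⁻¹) ^ 3)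
    (fun p hp => by simpa using hasDerivAt_inv (h0 p hp))
    (fun p hp => ((hasDerivAt_inv (h0 p hp)).pow 2).neg.congr_deriv (by field_simp; ring))
    e (e.pow 2).neg ((e.pow 3).const_mul 2)).congr (fun _ _ => by ring) fun _ _ _ => by ring

theorem log (h : Ito d I G a b) (h0 : ∀ p : Pt ι, p.1 ∈ I → G p ≠ 0) (e : EG I fun p => (G p)⁻¹) :
    Ito d I (fun p => Real.log (G p)) (fun p => a p / G p - (∑ i, b i p ^ 2) / (2 * G p ^ 2))
      fun i p => b i p / G p :=
  (h.comp (φ := Real.log) (φ' := fun x => x⁻¹) (φ'' := fun x => -(x⁻¹) ^ 2)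
    (fun p hp => hasDerivAt_log (h0 p hp)) (fun p hp => by simpa using hasDerivAt_inv (h0 p hp))
    ((h.eg.abs.add e.abs).of_le (h.eg.cont.log fun p hp => h0 p hp.1) fun p hp => by
      have h1 := abs_pos.2 (h0 p hp)
      have h2 := log_le_sub_one_of_pos h1
      have h3 := log_le_sub_one_of_pos (inv_pos.2 h1)
      rw [log_inv, log_abs] at h3
      rw [log_abs] at h2
      have := inv_pos.2 h1
      rw [abs_inv, abs_of_pos (add_pos h1 this), abs_le]
      constructor <;> linarith)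
    e (e.pow 2).neg).congr (fun _ _ => by ring) fun _ _ _ => by ring

theorem pow (h : Ito d I G a b) (k : ℕ) :
    Ito d I (fun p => G p ^ k) (fun p => k * G p ^ (k - 1) * a p +
      k * ((k - 1 : ℕ) * G p ^ (k - 1 - 1)) * (∑ i, b i p ^ 2) / 2) fun i p => k * G p ^ (k - 1) * b i p :=
  h.comp (φ := fun x => x ^ k) (φ' := fun x => k * x ^ (k - 1))
    (φ'' := fun x => k * ((k - 1 : ℕ) * x ^ (k - 1 - 1))) (fun _ _ => hasDerivAt_pow _ _)
    (fun _ _ => (hasDerivAt_pow _ _).const_mul _) (h.eg.pow _) ((h.eg.pow _).const_mul _)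
    (((h.eg.pow _).const_mul _).const_mul _)

/-- the derivative of the expectation along `y = t v + √t z` -/
theorem hasDerivAt_int (h : Ito d I G a b) (v : ι → ℝ) {t : ℝ} (ht : 0 < t) (hI : I ∈ 𝓝 t) :
    HasDerivAt (fun t => ∫ z, G (t, t • v + √t • z) ∂Gs ι) (∫ z, (a (t, t • v + √t • z) +
      ∑ i, (v i - d i (t, t • v + √t • z)) * b i (t, t • v + √t • z)) ∂Gs ι) t := by
  have hJ : I ∩ Ioo (t / 2) (2 * t) ∈ 𝓝 t := inter_mem hI (Ioo_mem_nhds (by linarith) (by linarith))
  obtain ⟨g, k, h1, h2, h3, h4, h5, h6, h7⟩ := h.mono (inter_subset_left (t := Ioo (t / 2) (2 * t)))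
  set J := I ∩ Ioo (t / 2) (2 * t)
  have tJ := mem_of_mem_nhds hJ
  have p0 : ∀ s ∈ J, 0 < s := fun s hs => (half_pos ht).trans hs.2.1
  have hT : ∀ s ∈ J, |s| ≤ 2 * t := fun s hs => (abs_of_pos (p0 s hs)).trans_le hs.2.2.le
  have hs : EG J fun p : Pt ι => 1 / (2 * √p.1) := .time (f := fun s => 1 / (2 * √s))
    (continuousOn_const.div (by fun_prop) fun s hs => by have := p0 s hs; positivity)
    (1 / (2 * √(t / 2))) fun s hs => by
      have := p0 s hs
      rw [abs_of_pos (by positivity)]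
      gcongr
      exact hs.2.1.le
  have e1 := fun i => ((h3 i).path v _ hT).mul ((EG.const (v i)).add (hs.mul (.coord i)))
  refine ((h1.path v _ hT).hasDerivAt_int ((h2.path v _ hT).add (.sum Finset.univ fun i _ => e1 i)) hJ
    fun s hs z => ?_).congr_deriv ?_
  · exact (h5 (fun s => (s, s • v + √s • z)) (1, v + (1 / (2 * √s)) • z) s
      ((hasDerivAt_id' s).prodMk ((((hasDerivAt_id' s).smul_const v).add
          ((hasDerivAt_sqrt (p0 s hs).ne').smul_const z)).congr_deriv (by simp))) hs).congr_deriv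
        (by simp)
  have i2 := (h2.path v _ hT).int tJ
  have i3 := fun i => ((h3 i).path v _ hT).int tJ
  have i4 := fun i => ((h4 i).path v _ hT).int tJ
  have e2 : ∀ i, ∫ z, b i (t, t • v + √t • z) * (v i + 1 / (2 * √t) * z i) ∂Gs ι =
      ∫ z, (v i * b i (t, t • v + √t • z) + k i (t, t • v + √t • z) / 2) ∂Gs ι := fun i => by
    have e3 := stein ((h3 i).path v _ hT) (((h4 i).path v _ hT).mul
      (.time (f := fun s => √s) (by fun_prop) (√(2 * t)) fun s hs => by
        rw [abs_of_nonneg (sqrt_nonneg _)]; exact sqrt_le_sqrt hs.2.2.le)) tJ i fun y => by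
      have e : ∀ s, t • v + √t • Function.update y i s =
          Function.update (t • v + √t • y) i (t * v i + √t * s) := fun s => by
        ext j; rcases eq_or_ne j i with rfl | hj <;> simp [*]
      simp only [e]
      exact ((h6 i (t, t • v + √t • y) tJ).comp (y i)
        (((hasDerivAt_id' (y i)).const_mul √t).const_add (t * v i))).congr_deriv
        (congrArg _ (mul_one _))
    have i5 := ((EG.coord i).mul ((h3 i).path v _ hT)).int tJ
    simp only at e3 i5
    have : ∀ z : ι → ℝ, b i (t, t • v + √t • z) * (v i + 1 / (2 * √t) * z i) =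
        v i * b i (t, t • v + √t • z) + 1 / (2 * √t) * (z i * b i (t, t • v + √t • z)) :=
      fun z => by ring
    simp only [this]
    rw [integral_add ((i3 i).const_mul _) (i5.const_mul _), integral_add ((i3 i).const_mul _)
      ((i4 i).div_const _), integral_const_mul (1 / _), e3, integral_mul_const, integral_div]
    have := sqrt_pos.2 ht
    field_simp
  have i6 : ∀ i, Integrable (fun z => v i * b i (t, t • v + √t • z) + k i (t, t • v + √t • z) / 2)
      (Gs ι) := fun i => ((i3 i).const_mul (v i)).add ((i4 i).div_const 2)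
  simp only at i2 ⊢
  rw [integral_add i2 (integrable_finsetSum _ fun i _ => (e1 i).int tJ),
    integral_finsetSum _ fun i _ => (e1 i).int tJ]
  simp only [e2]
  rw [← integral_finsetSum _ fun i _ => i6 i, ← integral_add i2 (integrable_finsetSum _ fun i _ => i6 i)]
  refine integral_congr_ae (.of_forall fun z => ?_)
  simp only [h7 (t, t • v + √t • z) tJ, add_assoc, ← Finset.sum_add_distrib]
  exact congrArg _ (Finset.sum_congr rfl fun i _ => by ring)

end Ito

end Crest.Agent.T157.SL
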