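import Crest.Agent.T157.KbTay_31
import Crest.Agent.T157.PlC_37
import Crest.Agent.T157.SLA_23

/-!
# Row 157, part A2, section 2 (helper31): Gaussian means, `Kb.MomStmt`
-/

set_option autoImplicit false

noncomputable section

namespace Crest.Agent.T157.Kb

open MeasureTheory ProbabilityTheory Set Real
open Crest.Agent.T157.Tap (gE)

namespace Mom31

variable {m v : ℝ}

theorem int_z (k : ℕ) : Integrable (fun t : ℝ => t ^ k) (gaussianReal 0 1) := by
  have h : MemLp id (k : ENNReal) (gaussianReal 0 1) :=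
    memLp_id_gaussianReal' _ (ENNReal.natCast_ne_top k)
  refine h.integrable_norm_pow'.mono' (by fun_prop) (ae_of_all _ fun t => ?_)
  simp [norm_pow]

theorem int_zx (m s : ℝ) (k j : ℕ) :
    Integrable (fun z : ℝ => z ^ j * (m + s * z) ^ k) (gaussianReal 0 1) := by
  induction k generalizing j with
  | zero => simpa using int_z j
  | succ k ih =>
    refine (((ih j).const_mul m).add ((ih (j + 1)).const_mul s)).congr (ae_of_all _ fun z => ?_)
    simp only [Pi.add_apply]; ring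

theorem int_x (m s : ℝ) (k : ℕ) : Integrable (fun z : ℝ => (m + s * z) ^ k) (gaussianReal 0 1) := by
  simpa using int_zx m s k 0

/-- the moments of `m + √v Z` -/
def mo (m v : ℝ) (k : ℕ) : ℝ := gE (fun x => x ^ k) m v

theorem mo_zero : mo m v 0 = 1 := by simp [mo, gE]

theorem stein (k : ℕ) : ∫ z, z * (m + √v * z) ^ (k + 1) ∂gaussianReal 0 1 = (k + 1) * √v * mo m v k := by
  rw [SL.stein1 (f' := fun z => (k + 1) * √v * (m + √v * z) ^ k) (fun z =>
    ((((hasDerivAt_id' z).const_mul √v).const_add m).fun_pow (k + 1)).congr_deriv (by simp; ring))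
    (int_x _ _ _) ((int_x _ _ _).const_mul _) (by simpa using int_zx m (√v) (k + 1) 1),
    integral_const_mul]
  rfl

theorem mo_one : mo m v 1 = m := by
  simp only [mo, gE, pow_one]
  rw [integral_add (integrable_const _) ((by simpa using int_z 1 : Integrable (fun z : ℝ => z) _).const_mul _),
    integral_const_mul]
  simp

theorem mo_rec (hv : 0 ≤ v) (k : ℕ) : mo m v (k + 2) = m * mo m v (k + 1) + (k + 1) * v * mo m v k := by
  have e : ∀ z : ℝ, (m + √v * z) ^ (k + 2) =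
      m * (m + √v * z) ^ (k + 1) + √v * (z * (m + √v * z) ^ (k + 1)) := fun z => by ring
  have h : mo m v (k + 2) = m * mo m v (k + 1) + √v * ((k + 1) * √v * mo m v k) := by
    rw [← stein, mo, gE]
    simp only [e]
    rw [integral_add ((int_x _ _ _).const_mul _)
      ((by simpa using int_zx m (√v) (k + 1) 1 : Integrable (fun z : ℝ => z * _) _).const_mul _),
      integral_const_mul, integral_const_mul]
    rfl
  rw [h]
  linear_combination (k + 1) * mo m v k * mul_self_sqrt hv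

theorem mo_all (hv : 0 ≤ v) : mo m v 2 = m ^ 2 + v ∧ mo m v 3 = m ^ 3 + 3 * m * v ∧
    mo m v 4 = m ^ 4 + 6 * m ^ 2 * v + 3 * v ^ 2 ∧ mo m v 5 = m ^ 5 + 10 * m ^ 3 * v + 15 * m * v ^ 2 ∧
    mo m v 6 = m ^ 6 + 15 * m ^ 4 * v + 45 * m ^ 2 * v ^ 2 + 15 * v ^ 3 ∧
    mo m v 8 = m ^ 8 + 28 * m ^ 6 * v + 210 * m ^ 4 * v ^ 2 + 420 * m ^ 2 * v ^ 3 + 105 * v ^ 4 := by
  have h2 : mo m v 2 = m ^ 2 + v := by rw [mo_rec hv 0, mo_one, mo_zero]; push_cast; ring
  have h3 : mo m v 3 = m ^ 3 + 3 * m * v := by rw [mo_rec hv 1, h2, mo_one]; push_cast; ring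
  have h4 : mo m v 4 = m ^ 4 + 6 * m ^ 2 * v + 3 * v ^ 2 := by
    rw [mo_rec hv 2, h3, h2]; push_cast; ring
  have h5 : mo m v 5 = m ^ 5 + 10 * m ^ 3 * v + 15 * m * v ^ 2 := by
    rw [mo_rec hv 3, h4, h3]; push_cast; ring
  have h6 : mo m v 6 = m ^ 6 + 15 * m ^ 4 * v + 45 * m ^ 2 * v ^ 2 + 15 * v ^ 3 := by
    rw [mo_rec hv 4, h5, h4]; push_cast; ring
  refine ⟨h2, h3, h4, h5, h6, ?_⟩
  rw [mo_rec hv 6, mo_rec hv 5, h6, h5]; push_cast; ring

/-- polynomials -/
theorem gE_poly (a b c : ℝ) (i j k : ℕ) : Integrable (fun z : ℝ =>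
      a * (m + √v * z) ^ i + b * (m + √v * z) ^ j + c * (m + √v * z) ^ k) (gaussianReal 0 1) ∧
    gE (fun x => a * x ^ i + b * x ^ j + c * x ^ k) m v = a * mo m v i + b * mo m v j + c * mo m v k := by
  have i1 := (int_x m (√v) i).const_mul a
  have i2 := (int_x m (√v) j).const_mul b
  have i3 := (int_x m (√v) k).const_mul c
  have i12 : Integrable (fun z : ℝ => a * (m + √v * z) ^ i + b * (m + √v * z) ^ j) (gaussianReal 0 1) :=
    i1.add i2
  refine ⟨i12.add i3, ?_⟩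
  rw [gE, integral_add i12 i3, integral_add i1 i2, integral_const_mul, integral_const_mul,
    integral_const_mul]
  rfl

/-- approximation by a polynomial -/
theorem gE_approx {f : ℝ → ℝ} (hf : Measurable f) (a b : ℝ) (i j : ℕ) (c d : ℝ)
    (h : ∀ x, |f x - (a * x ^ i + b * x ^ j)| ≤ c * x ^ 6 + d * x ^ 8) :
    |gE f m v - (a * mo m v i + b * mo m v j)| ≤ c * mo m v 6 + d * mo m v 8 := by
  obtain ⟨i1, e1⟩ := gE_poly (m := m) (v := v) a b 0 i j 0
  obtain ⟨i2, e2⟩ := gE_poly (m := m) (v := v) c d 0 6 8 0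
  simp only [zero_mul, add_zero] at i1 e1 i2 e2
  have i3 : Integrable (fun z : ℝ => f (m + √v * z) - (a * (m + √v * z) ^ i + b * (m + √v * z) ^ j))
      (gaussianReal 0 1) :=
    i2.mono' (Measurable.aestronglyMeasurable (by fun_prop)) (ae_of_all _ fun z => h _)
  have i4 : Integrable (fun z : ℝ => f (m + √v * z)) (gaussianReal 0 1) :=
    (i3.add i1).congr (ae_of_all _ fun z => by simp)
  rw [← e1, ← e2, gE, gE, gE, ← integral_sub i4 i1]
  exact norm_integral_le_of_norm_le (f := fun z : ℝ =>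
    f (m + √v * z) - (a * (m + √v * z) ^ i + b * (m + √v * z) ^ j)) i2 (ae_of_all _ fun z => h _)

theorem tail (hv : 0 < v) (hm : m ^ 2 ≤ v) (l : ℝ) :
    gE (fun x => if l * v ≤ 16 * x ^ 2 then exp (x ^ 2 / (4 * v)) else 0) m v ≤
      exp 3 * (√(1 - 7 / 8))⁻¹ * exp (-l / 128) := by
  obtain ⟨i1, e1⟩ := Pl.integral_exp_sq (a := 7 / 8) (by norm_num)
  rw [← e1, mul_right_comm, ← integral_const_mul]
  refine integral_mono_of_nonneg (ae_of_all _ fun z => ?_) (i1.const_mul _) (ae_of_all _ fun z => ?_)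
  · dsimp only; split_ifs <;> positivity
  · dsimp only
    split_ifs with h
    · rw [← exp_add, ← exp_add, exp_le_exp, div_le_iff₀ (by positivity)]
      have e : (√v * z) ^ 2 = v * z ^ 2 := by rw [mul_pow, sq_sqrt hv.le]
      nlinarith [sq_nonneg (6 * m - √v * z)]
    · positivity

end Mom31

open Mom31 Tay

/-- **task 797** -/
theorem momStmt : MomStmt := by
  refine ⟨max 3000 (exp 3 * (√(1 - 7 / 8))⁻¹), le_max_of_le_left (by norm_num), ?_⟩
  intro K hK m v hv hKv hm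
  set C := max 3000 (exp 3 * (√(1 - 7 / 8))⁻¹) with hC
  have C0 : 3000 ≤ C := le_max_left _ _
  obtain ⟨h2, h3, h4, h5, h6, h8⟩ := mo_all (m := m) hv.le
  have K2 : 1 ≤ K ^ 2 := one_le_pow₀ hK
  have v1 : v ≤ 1 := (le_mul_of_one_le_left hv.le K2).trans hKv
  have m2 : m ^ 2 ≤ K ^ 2 * v ^ 2 := by
    rw [← sq_abs, ← mul_pow]; exact pow_le_pow_left₀ (abs_nonneg _) hm 2
  have mv : m ^ 2 ≤ v := m2.trans (by linarith [mul_le_mul_of_nonneg_right hKv hv.le])
  have m0 := sq_nonneg m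
  have v2 : 0 < v ^ 2 := by positivity
  have v3 : 0 < v ^ 3 := by positivity
  have v4 : 0 < v ^ 4 := by positivity
  have p4' : 0 ≤ m ^ 4 := by positivity
  have p6' : 0 ≤ m ^ 6 := by positivity
  have p2v : 0 ≤ m ^ 2 * v := by positivity
  have p4v : 0 ≤ m ^ 4 * v := by positivity
  have p2vv : 0 ≤ m ^ 2 * v ^ 2 := by positivity
  have m4 : m ^ 4 ≤ m ^ 2 * v := by linarith [mul_le_mul_of_nonneg_left mv m0]
  have m4' : m ^ 4 ≤ K ^ 4 * v ^ 4 := by linarith [pow_le_pow_left₀ m0 m2 2]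
  have d2 : m ^ 4 ≤ v ^ 2 := by linarith [pow_le_pow_left₀ m0 mv 2]
  have d3 : m ^ 6 ≤ v ^ 3 := by linarith [pow_le_pow_left₀ m0 mv 3]
  have m6 : m ^ 6 ≤ m ^ 2 * v ^ 2 := by linarith [mul_le_mul_of_nonneg_left d2 m0]
  have v43 : v ^ 4 ≤ v ^ 3 := pow_le_pow_of_le_one hv.le v1 (by norm_num)
  have a1 : m ^ 2 * v ≤ K ^ 2 * v ^ 3 := by linarith [mul_le_mul_of_nonneg_right m2 hv.le]
  have a2 : m ^ 2 * v ^ 2 ≤ K ^ 2 * v ^ 4 := by linarith [mul_le_mul_of_nonneg_right m2 v2.le]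
  have a3 : m ^ 2 * v ^ 2 ≤ v ^ 3 := by linarith [mul_le_mul_of_nonneg_right mv v2.le]
  have a4 : m ^ 4 * v ≤ m ^ 2 * v ^ 2 := by linarith [mul_le_mul_of_nonneg_right m4 hv.le]
  have a5 : m ^ 2 * v ≤ v ^ 2 := by linarith [mul_le_mul_of_nonneg_right mv hv.le]
  have M6 : mo m v 6 ≤ 76 * v ^ 3 := by rw [h6]; linarith
  have M8 : mo m v 8 ≤ 764 * v ^ 4 := by
    rw [h8]
    linarith [pow_le_pow_left₀ m0 mv 4, mul_le_mul_of_nonneg_right d3 hv.le,
      mul_le_mul_of_nonneg_right d2 v2.le, mul_le_mul_of_nonneg_right mv v3.le]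
  have K0 : 0 < K := by linarith
  have K3 : K ≤ K ^ 3 := by linarith [mul_le_mul_of_nonneg_left K2 K0.le]
  have K24 : K ^ 2 ≤ K ^ 4 := pow_le_pow_right₀ hK (by norm_num)
  have c3 : |m ^ 3| ≤ K ^ 3 * v ^ 3 := by
    rw [abs_pow, ← mul_pow]; exact pow_le_pow_left₀ (abs_nonneg _) hm 3
  have c5 : |mo m v 5| ≤ 26 * (K ^ 3 * v ^ 3) := by
    have e : mo m v 5 = m * (m ^ 4 + 10 * (m ^ 2 * v) + 15 * v ^ 2) := by rw [h5]; ring
    have b : m ^ 4 + 10 * (m ^ 2 * v) + 15 * v ^ 2 ≤ 26 * v ^ 2 := by linarith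
    rw [e, abs_mul, abs_of_nonneg (a := _ + 15 * v ^ 2) (by positivity)]
    refine (mul_le_mul hm b (by positivity) (by positivity)).trans ?_
    linarith [mul_le_mul_of_nonneg_right K3 v3.le]
  have mt : Measurable tanh := (continuous_iff_continuousAt.2 fun x => (hasDerivAt_tanh x).continuousAt).measurable
  have q2 := abs_le.1 (gE_approx (m := m) (v := v) (f := fun x => tanh x ^ 2) (by fun_prop) 1 (-2 / 3) 2 4 1 0
    fun x => (le_of_eq (by congr 1; ring)).trans ((p2 x).trans_eq (by ring)))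
  have q3 := abs_le.1 (gE_approx (m := m) (v := v) (f := fun x => tanh x ^ 3) (by fun_prop) 1 (-1) 3 5
    (1 / 2) (1 / 2) fun x => (le_of_eq (by congr 1; ring)).trans ((p3 x).trans
      ((abs7 x).trans_eq (by ring))))
  have q4 := abs_le.1 (gE_approx (m := m) (v := v) (f := fun x => tanh x ^ 4) (by fun_prop) 1 (-4 / 3) 4 6 0 3
    fun x => (le_of_eq (by congr 1; ring)).trans ((p4 x).trans_eq (by ring)))
  have q6 := abs_le.1 (gE_approx (m := m) (v := v) (f := fun x => tanh x ^ 6) (by fun_prop) 1 0 6 0 0 2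
    fun x => (le_of_eq (by congr 1; ring)).trans ((p6 x).trans_eq (by ring)))
  have q7 := abs_le.1 (gE_approx (m := m) (v := v) (f := fun x => x - tanh x) (by fun_prop) (1 / 3) (-2 / 15)
    3 5 (1 / 14) (1 / 14) fun x => (le_of_eq (by congr 1; ring)).trans ((t7 x).trans
      (by linarith [abs7 x])))
  have q8 := abs_le.1 (gE_approx (m := m) (v := v) (f := fun x => tanh x * (x - tanh x)) (by fun_prop) (1 / 3) 0
    4 0 1 0 fun x => (le_of_eq (by congr 1; ring)).trans ((pr x).trans_eq (by ring)))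
  have kv3 : v ^ 3 ≤ K ^ 3 * v ^ 3 := le_mul_of_one_le_left v3.le (one_le_pow₀ hK)
  have kv2 : v ^ 3 ≤ K ^ 2 * v ^ 3 := le_mul_of_one_le_left v3.le K2
  have kv4 : v ^ 4 ≤ K ^ 2 * v ^ 4 := le_mul_of_one_le_left v4.le K2
  have kv4' : K ^ 2 * v ^ 4 ≤ K ^ 4 * v ^ 4 := mul_le_mul_of_nonneg_right K24 v4.le
  have fin : ∀ {x y : ℝ}, 0 ≤ y → |x| ≤ 3000 * y → |x| ≤ C * y := fun hy h =>
    h.trans (mul_le_mul_of_nonneg_right C0 hy)
  have c3' := abs_le.1 c3
  have c5' := abs_le.1 c5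
  rw [h3] at q3 q7
  rw [h2] at q2
  rw [h4] at q2 q4 q8
  have r7 : |gE (fun x => x - tanh x) m v - m * v| ≤ 100 * (K ^ 3 * v ^ 3) := by
    rw [abs_le]; constructor <;> linarith
  refine ⟨?_, ?_, ?_, ?_, ?_, ?_, ?_, ?_, fun l => (tail hv mv l).trans ?_⟩
  · have e : gE (fun x => x - tanh x) m v = m - gE tanh m v := by
      have i1 : Integrable (fun z : ℝ => tanh (m + √v * z)) (gaussianReal 0 1) :=
        (integrable_const (1 : ℝ)).mono' (Measurable.aestronglyMeasurable (by fun_prop))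
          (ae_of_all _ fun z => (abs_tanh_lt_one _).le)
      have := mo_one (m := m) (v := v)
      simp only [mo, gE, pow_one] at this
      rw [gE, gE, integral_sub (by simpa using int_x m (√v) 1) i1, this]
    have b1 : K ^ 3 * v ^ 3 ≤ K * v ^ 2 := by
      linarith [mul_le_mul_of_nonneg_left hKv (show 0 ≤ K * v ^ 2 by positivity)]
    have b2 : |m * v| ≤ K * v ^ 2 := by
      rw [abs_mul, abs_of_pos hv]; linarith [mul_le_mul_of_nonneg_right hm hv.le]
    have b3 := abs_le.1 b2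
    have b4 := abs_le.1 r7
    rw [e] at b4
    rw [mul_assoc C]
    refine fin (by positivity) (abs_le.2 ⟨?_, ?_⟩) <;> linarith
  · rw [mul_assoc C]
    refine fin (by positivity) (abs_le.2 ⟨?_, ?_⟩) <;> linarith
  · rw [mul_assoc C]
    refine fin (by positivity) (abs_le.2 ⟨?_, ?_⟩) <;> linarith
  · rw [mul_assoc C]
    refine fin (by positivity) (abs_le.2 ⟨?_, ?_⟩) <;> linarith
  · rw [mul_assoc C]
    refine fin (by positivity) (abs_le.2 ⟨?_, ?_⟩) <;> linarith
  · refine le_trans (integral_mono_of_nonneg (ae_of_all _ fun z => ?_) (int_x m (√v) 8)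
      (ae_of_all _ fun z => min_le_left _ _)) (M8.trans ?_)
    · exact le_min (by positivity) (by positivity)
    · exact mul_le_mul_of_nonneg_right (by linarith) v4.le
  · rw [mul_assoc C]
    exact fin (by positivity) (r7.trans (by linarith))
  · rw [mul_assoc C]
    refine fin (by positivity) (abs_le.2 ⟨?_, ?_⟩) <;> linarith
  · exact mul_le_mul_of_nonneg_right (le_max_right _ _) (exp_pos _).le

end Crest.Agent.T157.Kb

end
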