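import Crest.Agent.T157.KbM_24

/-!
# Row 157, part A2, section 2 (helper34): `Kb.netGlue`
-/

set_option autoImplicit false

noncomputable section

namespace Crest.Agent.T157.Kb

open MeasureTheory Matrix Set
open scoped ENNReal
open Crest.Agent.T157.E Crest.Agent.T157.Cond Crest.Agent.T157.Tap
open Crest.Agent.T157.Conc (ex)

namespace Net34

variable {n : ℕ} {t : ℝ} {x : V n}

lemma hh_neg {u : ℝ} (h0 : u ≤ 0) (h2 : -2 ≤ u) : |u| ^ 3 / 9 ≤ hh u := by
  have h := Real.le_log_one_add_of_nonneg (neg_nonneg.2 h0)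
  rw [abs_of_nonpos h0, hh, sub_eq_add_neg]
  refine le_trans ?_ (add_le_add_left (add_le_add_left h _) _)
  have p : 0 < -u + 2 := by linarith
  have e : 2 * -u / (-u + 2) + u + u ^ 2 / 2 = (-u) ^ 3 / (2 * (-u + 2)) := by field_simp; ring
  rw [e]
  exact div_le_div_of_nonneg_left (pow_nonneg (neg_nonneg.2 h0) 3) (by positivity) (by linarith)

lemma hh_pos {u : ℝ} (h0 : 0 ≤ u) (h1 : u ≤ 1 / 10) : -(2 / 5 * u ^ 3) ≤ hh u := by
  have h := neg_le_of_abs_le (Real.abs_log_sub_add_sum_range_le (x := u)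
    (by rw [abs_of_nonneg h0]; linarith) 4)
  rw [abs_of_nonneg h0] at h
  simp only [Finset.sum_range_succ, Finset.sum_range_zero] at h
  norm_num at h
  have h3 : 0 ≤ u ^ 3 := by positivity
  have h4 : u ^ 4 ≤ u ^ 3 / 10 := by rw [pow_succ]; nlinarith
  have h5 : u ^ 5 / (1 - u) ≤ u ^ 3 / 50 := by
    rw [div_le_iff₀ (by linarith), show u ^ 5 = u ^ 3 * u ^ 2 by ring]
    nlinarith [mul_le_mul_of_nonneg_left (show u ^ 2 ≤ (1 - u) / 50 by nlinarith) h3]
  rw [hh]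
  linarith

/-- the exponent of the Ramer tilt when `R4` is not large -/
lemma core (t0 : 0 < t) (t1 : t ≤ 1)
    (h : ww t x = R4 x + ga t x * aS x - t - mu t x * bS x) (hu : -2 ≤ uR t x)
    (hq : aS x ≤ 1 / 11) (h4 : R4 x ≤ 11 / 10 * aS x ^ 2) :
    uR t x ≤ 1 / 2 ∧
      aS x * uR t x ^ 2 / 20 ≤ aS x * uR t x ^ 2 / 2 + (1 - aS x) * hh (uR t x) := by
  have q0 := aS_nonneg x
  have h1 : uR t x ≤ 21 / 20 * aS x := by
    rw [uR, div_le_iff₀ (by have := ga_pos t0 x; positivity), h, ga, mu]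
    nlinarith [sq_nonneg (bS x + t / 2), mul_nonneg q0 t0.le]
  refine ⟨by linarith, ?_⟩
  have h2 := mul_nonneg q0 (sq_nonneg (uR t x))
  rcases le_total (uR t x) 0 with h0 | h0
  · have := (show 0 ≤ |uR t x| ^ 3 / 9 by positivity).trans (hh_neg h0 hu)
    linarith [mul_nonneg (show 0 ≤ 1 - aS x by linarith) this]
  · have h3 := mul_le_mul_of_nonneg_left (hh_pos h0 (by linarith)) (show 0 ≤ 1 - aS x by linarith)
    have h5 : uR t x ^ 3 ≤ 21 / 20 * aS x * uR t x ^ 2 := by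
      rw [pow_succ']; exact mul_le_mul_of_nonneg_right h1 (sq_nonneg _)
    linarith [mul_nonneg q0 (pow_nonneg h0 3)]

lemma co_size {K e : ℝ} (hK : 1 ≤ K) (t0 : 0 < t) (hc : Real.sqrt t ≤ 1 / (12 * K ^ 2))
    (he : e ≤ 1 / 10) (h : Co K e t x) : t ≤ 1 ∧ aS x ≤ 1 / 11 ∧ R4 x ≤ 11 / 10 * aS x ^ 2 ∧
      |mu t x + dR t x| ≤ 3 * K * ga t x ∧ 3 * K * ga t x ≤ 1 / 2 := by
  have q0 := aS_nonneg x
  set c := 1 / (12 * K ^ 2) with hcd
  have c0 : 0 < c := by positivity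
  have c1 : K * (K * c) = 1 / 12 := by rw [hcd]; field_simp
  have c2 : K * c ≤ 1 / 12 := c1 ▸ le_mul_of_one_le_left (by positivity) hK
  have c3 : c ≤ K * c := le_mul_of_one_le_left c0.le hK
  have t2 : t ≤ c ^ 2 := (Real.sqrt_le_left c0.le).1 hc
  have t3 : t ≤ K * c := by nlinarith
  have q1 : aS x ≤ K * c := by
    refine le_of_abs_le (abs_le_of_sq_le_sq ?_ (by positivity))
    calc _ ≤ K * c ^ 2 := h.q2.trans (by gcongr)
      _ ≤ _ := by rw [mul_pow]; gcongr; exact le_self_pow₀ hK two_ne_zero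
  refine ⟨by linarith, by linarith, ?_, ?_, ?_⟩
  · linarith [le_of_abs_le h.r4, mul_le_mul_of_nonneg_right he (sq_nonneg (aS x))]
  · have h1 : aS x ^ 2 ≤ aS x := by nlinarith
    have h2 := mul_le_mul_of_nonneg_left h1 (zero_le_one.trans hK)
    have h3 : t ≤ K * t := le_mul_of_one_le_left t0.le hK
    have h4 := abs_add_le (bS x) t
    rw [abs_of_pos t0] at h4
    rw [mu, ga]
    linarith [abs_add_le (bS x + t) (dR t x), h.a1, h.d1,
      mul_nonneg (zero_le_one.trans hK) q0]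
  · rw [ga]
    linarith [mul_le_mul_of_nonneg_left (add_le_add q1 t3) (zero_le_one.trans hK)]

lemma rho_le (hI : IdStmt) (hn : 0 < n) (t0 : 0 < t) (t1 : t ≤ 1) (hq : aS x ≤ 1 / 11)
    (h4 : R4 x ≤ 11 / 10 * aS x ^ 2) : uR t x ∈ Icc (-2 : ℝ) (1 / 2) ∧
    rho t x ≤ Real.exp (∑ i, gR (mu t x + dR t x) (ga t x) (uR t x) (x i) -
      n * (aS x * uR t x ^ 2 / 20 + dR t x ^ 2 / (2 * ga t x))) := by
  obtain ⟨i1, -, i3⟩ := hI n t x hn t0
  have hu := uR_ge hn t0 x i1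
  obtain ⟨h1, h2⟩ := core t0 t1 i1 hu hq h4
  refine ⟨⟨hu, h1⟩, (i3 (by linarith) (dR t x)).trans_le (Real.exp_le_exp.2 (sub_le_sub_left
    (mul_le_mul_of_nonneg_left (add_le_add h2 (le_of_eq (by ring))) (Nat.cast_nonneg n)) _))⟩

/-- the tilt lemma without a test function -/
lemma tilt0 (hC : ChStmt) (hT : TiltStmt) : ∃ C : ℕ, ∀ (n : ℕ) (t R : ℝ) (E : Set (V n)), 2 ≤ n →
    t ∈ Icc (1 / (n : ℝ)) 1 → MeasurableSet E →
    (∀ x ∈ E, ∃ m : ℝ, |m| ≤ 4 ∧ uR t x ∈ Icc (-2 : ℝ) (1 / 2) ∧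
      rho t x ≤ Real.exp (∑ i, gR m (ga t x) (uR t x) (x i) - R)) →
    Px t E ≤ ex (C * Real.log n - R) := by
  obtain ⟨C, hT⟩ := hT
  refine ⟨C, fun n t R E hn ht hE h => hT n t R E (fun _ _ _ _ => 0) hn hE
    (fun _ _ _ => measurable_const) fun x hx => ?_⟩
  obtain ⟨m, h1, h2, h3⟩ := h x hx
  have t0 : 0 < t := lt_of_lt_of_le (by positivity) ht.1
  have := aS_nonneg x
  have := aS_lt_one (by omega : 0 < n) x
  refine ⟨m, ga t x, uR t x, -R, h1, ⟨by rw [ga]; linarith [ht.1], by rw [ga]; linarith [ht.2]⟩, h2,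
    h3, fun m0 v0 u0 hc => ⟨0, ?_, by simp⟩⟩
  simp only [add_zero, Conc.ex_zero]
  exact hC.1 m0 v0 u0 ((ga_pos t0 x).trans_le hc.2.1) (by linarith [hc.2.2.2.2.1, h2.2])

lemma evB (hI : IdStmt) (hC : ChStmt) (hT : TiltStmt) : EvB := by
  obtain ⟨C, hT⟩ := tilt0 hC hT
  refine ⟨C, fun n t R hn ht => ?_⟩
  have n0 : 0 < n := by omega
  have t0 : 0 < t := lt_of_lt_of_le (by positivity) ht.1
  refine ⟨hT n t R _ hn ht ?_ fun x hx => ?_, hT n t R _ hn ht ?_ fun x hx => ?_⟩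
  · simp only [ofPred_and]
    refine MeasurableSet.inter ?_ (MeasurableSet.inter ?_ ?_) <;>
      exact measurableSet_le (by fun_prop) (by fun_prop)
  · obtain ⟨h1, h2, h3⟩ := hx
    obtain ⟨i1, -, i3⟩ := hI n t x n0 t0
    have hu := uR_ge n0 t0 x i1
    have u0 : uR t x ≤ 0 := div_nonpos_of_nonpos_of_nonneg h2
      (add_nonneg (ga_pos t0 x).le (aS_nonneg x))
    refine ⟨mu t x, ?_, ⟨hu, by linarith⟩, ?_⟩
    · have := abs_add_le (bS x) t
      rw [abs_of_pos t0] at this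
      rw [mu]
      linarith [abs_bS_le n0 x, ht.2]
    · rw [i3 (by linarith) 0, add_zero, zero_mul, zero_div, add_zero]
      refine Real.exp_le_exp.2 (sub_le_sub_left (h3.trans (mul_le_mul_of_nonneg_left
        (add_le_add le_rfl ?_) (Nat.cast_nonneg n))) _)
      have := mul_le_mul (show 1 / 2 ≤ 1 - aS x by linarith) (hh_neg u0 hu) (by positivity)
        (by linarith)
      linarith
  · simp only [ofPred_and]
    refine MeasurableSet.inter ?_ (MeasurableSet.inter ?_ (MeasurableSet.inter ?_ ?_)) <;>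
      exact measurableSet_le (by fun_prop) (by fun_prop)
  · obtain ⟨h1, h2, h3, h4⟩ := hx
    obtain ⟨r1, r2⟩ := rho_le hI n0 t0 ht.2 h1 h2
    exact ⟨_, h3, r1, r2.trans (Real.exp_le_exp.2 (sub_le_sub_left h4 _))⟩

lemma net (hI : IdStmt) : NetStmt := fun K hK => ⟨1 / (12 * K ^ 2), by positivity,
  fun n t e x hn t0 hc he h => by
    obtain ⟨a1, a2, a3, a4, a5⟩ := co_size hK t0 hc he h
    exact ⟨a4, a5, (rho_le hI hn t0 a1 a2 a3).2⟩⟩

lemma all (hE : EvB) (hB : B1Stmt) : AllStmt := by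
  obtain ⟨C, hE⟩ := hE
  obtain ⟨K, hK, c, c0, C', hB⟩ := hB 1 one_pos
  set s := min (c * (1 / 10) ^ 2) (1 / (12 * K ^ 2)) with hs
  have s0 : 0 < s := by positivity
  refine ⟨min (s ^ 2) 1, by positivity, C + C' + 2, fun n t hn ht => ?_⟩
  have n0 : 0 < n := by omega
  have t0 : 0 < t := lt_of_lt_of_le (by positivity) ht.1
  have t1 : Real.sqrt t ≤ s := (Real.sqrt_le_left s0.le).2 (ht.2.trans (min_le_left _ _))
  have l0 : 0 ≤ Real.log n := Real.log_natCast_nonneg n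
  have h1 := hB n t (1 / 10) (by omega) ht.1 ⟨by norm_num, by norm_num⟩ (t1.trans (min_le_left _ _))
  have h2 := (hE n t 0 (by omega) ⟨ht.1, ht.2.trans (min_le_right _ _)⟩).2
  refine (Px_cover t fun x _ => ?_).trans ((add_le_add h1 h2).trans ?_)
  · by_cases h : Co K (1 / 10) t x
    · obtain ⟨-, a2, a3, a4, a5⟩ := co_size hK t0 (t1.trans (min_le_right _ _)) le_rfl h
      have := aS_nonneg x
      have := ga_pos t0 x
      exact .inr ⟨a2, a3, by linarith, by positivity⟩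
    · exact .inl h
  · have h3 := ex_sum (k := 2) (show 2 ≤ n by omega) n0 (C + C') 0
    have p1 : 0 ≤ (C : ℝ) * Real.log n := by positivity
    have p2 : 0 ≤ (C' : ℝ) * Real.log n := by positivity
    have p3 : 0 ≤ 1 * n * (t * Real.sqrt t) := by positivity
    rw [Nat.cast_ofNat, two_mul] at h3
    refine (add_le_add (Conc.ex_mono ?_) (Conc.ex_mono ?_)).trans (h3.trans (Conc.ex_mono ?_))
    · linarith
    · linarith
    · push_cast; linarith

end Net34

theorem netGlue : NetGlue := fun hI hC hT =>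
  ⟨Net34.net hI, Net34.evB hI hC hT, Net34.all (Net34.evB hI hC hT)⟩

end Crest.Agent.T157.Kb

end
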