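import Crest.Agent.T157.KbId_10

/-!
# Row 157, part A2, section 2 (helper10): positivity of the Hessian as a first-moment event
-/

set_option autoImplicit false

noncomputable section

namespace Crest.Agent.T157.Kb

open MeasureTheory Matrix Set Filter
open scoped ENNReal
open Crest.Agent.T157.E Crest.Agent.T157.Cond Crest.Agent.T157.Tap
open Crest.Agent.T157.Qe (Le Wm Mm St)
open Crest.Agent.T157.Conc (ex)

variable {n : ℕ}

lemma MD.mono {C e e' t β : ℝ} {D x : V n} (h : MD C e t D β x) (ht : 0 ≤ t) (he : e ≤ e') :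
    MD C e' t D β x :=
  { h with
    d1 := (mul_le_mul_of_nonneg_right (sub_le_sub_left he 1) (Nat.cast_nonneg n)).trans h.d1
    d2 := h.d2.trans (mul_le_mul_of_nonneg_right he (div_nonneg ht h.q0.le))
    d4 := h.d4.trans (mul_le_mul_of_nonneg_right he (sq_nonneg _)) }

/-- a uniform bound of the conditional probability bounds `Pt` -/
lemma Pt_le (hM : MargStmt) (hn : 0 < n) {t : ℝ} (ht : 0 < t) {B : Set (V n × Mx n)}
    (hB : MeasurableSet B) {b b' : ℝ≥0∞} (hb : b + b' ≠ ∞) {G : V n → V n → Prop}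
    (h1 : ∀ z ∈ B, gv (Fin n) {η | ¬ G z.1 η} ≤ b)
    (h2 : ∀ z ∈ B, ∀ η, G z.1 η →
      GOE n {W | (z.1, Wm (ee z.1) (col t z.1 η) (tau z.1) W) ∈ B} ≤ b') :
    Pt t (B.indicator 1) ≤ Px t (univ : Set (V n)) * (b + b') := by
  rw [hM n t _ hn ht (measurable_one.indicator hB), Px, Measure.restrict_univ,
    ← lintegral_mul_const' _ _ hb]
  refine lintegral_mono fun x => mul_le_mul' (ENNReal.ofReal_le_ofReal (mul_le_of_le_one_left
    (mul_nonneg (Kr.phi_nonneg _ _) (Real.exp_pos _).le) (Real.sqrt_le_one.2 (div_le_one_of_le₀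
      (le_add_of_nonneg_right (Id10.aS_nonneg x))
      (add_nonneg (Id10.ga_pos ht x).le (Id10.aS_nonneg x)))))) ?_
  by_cases hx : ∃ W, (x, W) ∈ B
  · obtain ⟨W0, h0⟩ := hx
    have key : ∀ η, ∫⁻ W, B.indicator 1 (x, Wm (ee x) (col t x η) (tau x) W) ∂GOE n ≤
        {η | ¬ G x η}.indicator 1 η + b' := fun η => by
      refine (lintegral_indicator_one_le
        {W | (x, Wm (ee x) (col t x η) (tau x) W) ∈ B}).trans ?_
      by_cases hG : G x η
      · exact (h2 _ h0 η hG).trans le_add_self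
      · rw [indicator_of_mem (show η ∈ {η | ¬ G x η} from hG)]
        exact prob_le_one.trans le_self_add
    refine (lintegral_mono key).trans ?_
    rw [lintegral_add_right _ measurable_const, lintegral_const, measure_univ, mul_one]
    exact add_le_add ((lintegral_indicator_one_le _).trans (h1 _ h0)) le_rfl
  · simp only [indicator_of_notMem fun h => hx ⟨_, h⟩, lintegral_zero, zero_le]

theorem posGlue : PosGlue := by
  intro hM ⟨t0, ht0, Ca, hA⟩ hX hG hC K hK Cw hCw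
  obtain ⟨C, hC1, cx, hcx, hX⟩ := hX K hK
  obtain ⟨C', hC', cg, hcg, hG⟩ := hG C hC1
  obtain ⟨k0, hk0, K0, hC⟩ := hC C' hC' Cw hCw
  obtain ⟨m, hm, m1, m2, m3, m4, m5, m6, m7⟩ : ∃ m > (0 : ℝ), m ≤ 1 / 64 ∧ m ≤ cx ∧ m ≤ k0 ∧
      m ≤ 1 / k0 ∧ m ≤ t0 ∧ m ≤ cg * k0 ∧ m ≤ cg * k0 ^ 2 :=
    ⟨min (min (min (1 / 64) cx) (min k0 (1 / k0))) (min t0 (min (cg * k0) (cg * k0 ^ 2))),
      by positivity, by simp, by simp, by simp, by simp, by simp, by simp, by simp⟩
  obtain ⟨c, hc, c1, c2, c3⟩ : ∃ c > (0 : ℝ), c ≤ m ∧ K * c ≤ m ∧ C * c ≤ m := by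
    have h : m / (K * C) * (K * C) = m := div_mul_cancel₀ _ (by positivity)
    have h0 : 0 < m / (K * C) := by positivity
    have h1 := mul_le_mul_of_nonneg_left hK h0.le
    have h2 := mul_le_mul_of_nonneg_left hC1 h0.le
    exact ⟨_, h0, by nlinarith, by nlinarith, by nlinarith⟩
  refine ⟨c, hc, Ca + K0 + 21, fun n t ε E S0 B k d0 S hn ht ⟨e0, e1⟩ hs hne hE hB hW hz => ?_⟩
  have n0 : 0 < n := by omega
  have n1 : (21 : ℝ) ≤ n := by exact_mod_cast (by omega : 21 ≤ n)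
  have t0' : 0 < t := lt_of_lt_of_le (by positivity) ht
  have e2 : ε ≤ 1 := by linarith
  have e9 : ε ^ 9 ≤ ε := pow_le_of_le_one e0.le e2 (by norm_num)
  have p9 : 0 < ε ^ 9 := by positivity
  have hs1 : Real.sqrt t ≤ c * (c * ε ^ 9) := hs.trans_eq (by ring)
  have ce : c * ε ^ 9 ≤ 1 := mul_le_one₀ (by linarith) p9.le (by linarith)
  have ht1 : t ≤ (c * (c * ε ^ 9)) ^ 2 := (Real.sqrt_le_left (by positivity)).1 hs1
  have ht2 : t ≤ t0 := by
    have : c * (c * ε ^ 9) ≤ c := mul_le_of_le_one_right hc.le ce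
    have := pow_le_pow_left₀ (by positivity) this 2
    linarith [mul_le_of_le_one_left hc.le (by linarith : c ≤ 1)]
  have hl : 0 ≤ Real.log n := Real.log_natCast_nonneg n
  have dv := fun z h => hX n t _ ε _ _ _ z.1 n0 t0' (mul_pos hc p9)
    (hs1.trans (mul_le_mul_of_nonneg_right (by linarith) (by positivity)))
    (by rw [← mul_assoc]; exact (mul_le_of_le_one_left p9.le (by linarith)).trans e9)
    (by linarith) (hz z h).2.1 (hz z h).2.2.1 (hz z h).2.2.2.1
  have hq : ∀ z ∈ B, aS z.1 ≤ m * ε ^ 9 := fun z h => by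
    refine (pow_le_pow_iff_left₀ (Id10.aS_nonneg _) (by positivity) two_ne_zero).1
      ((hz z h).2.1.q2.trans ((mul_le_mul_of_nonneg_left ht1 (by linarith)).trans ?_))
    have h1 : K * c * (c * c * c) ≤ m * m := mul_le_mul c2
      ((mul_le_of_le_one_left hc.le (mul_le_one₀ (by linarith) hc.le (by linarith))).trans c1)
      (by positivity) hm.le
    calc _ = K * c * (c * c * c) * (ε ^ 9) ^ 2 := by ring
      _ ≤ m * m * (ε ^ 9) ^ 2 := by gcongr
      _ = _ := by ring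
  have hR : ∀ z ∈ B, c * ε ^ 18 * n * t ≤ m * (ε ^ 18 * n * aS z.1 ^ 2) := fun z h =>
    calc _ ≤ c * ε ^ 18 * n * (K * aS z.1 ^ 2) := by gcongr; exact (hz z h).2.1.q1
      _ = K * c * (ε ^ 18 * n * aS z.1 ^ 2) := by ring
      _ ≤ _ := by gcongr
  set R := K0 * Real.log n + E / 2 - c * ε ^ 18 * n * t with hRd
  refine (Pt_le hM n0 t0' hB (b := 20 * ex R) (b' := ex R)
    (by have := Conc.ex_ne_top R; finiteness)
    (G := fun x η => St C' (k0 * ε ^ 9) (aS x) (Dk (k x) (d0 x) (S x) x) (2 * k x * aS x) (ee x)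
      (col t x η) (tau x)) (fun z h => ?_) fun z h η hη => ?_).trans ?_
  · refine (hG n t _ ε _ _ _ n0 t0' ⟨by positivity, ?_⟩ ((hq z h).trans ?_) e0.le (dv z h).1
      ((dv z h).2.mono t0'.le ?_)).trans (mul_le_mul_right (Conc.ex_mono ?_) _)
    · rw [mul_comm, ← le_div_iff₀ hk0]; linarith
    · rw [← mul_assoc]; gcongr
    · rw [← mul_assoc, ← mul_assoc]; exact mul_le_mul_of_nonneg_right (c3.trans m6) p9.le
    · have : m * (ε ^ 18 * n * aS z.1 ^ 2) ≤ cg * k0 ^ 2 * (ε ^ 18 * n * aS z.1 ^ 2) := by gcongr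
      have h2 : 0 ≤ K0 * Real.log n := by positivity
      linarith [hR z h]
  · have q0 := (dv z h).2.q0
    have co := (hz z h).2.1
    refine (measure_mono fun W hW => ?_).trans ((hC n ε _ E _ _ _ _ _ S0 (by omega)
      ⟨e0, by linarith⟩ ⟨q0, (hq z h).trans (by gcongr)⟩ ?_ hE (hW _ q0 co.q1 co.q2) (dv z h).1
      hη).trans (Conc.ex_mono ?_))
    · exact ⟨(hz _ hW).1, (hz _ hW).2.2.2.2⟩
    · refine (one_le_sq_iff₀ (by positivity)).1 (le_of_mul_le_mul_left ?_ (by linarith : 0 < K))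
      linarith [mul_le_mul_of_nonneg_left co.q1 (sq_nonneg (n * ε))]
    · have : m * (ε ^ 18 * n * aS z.1 ^ 2) ≤ 1 / 64 * (ε ^ 9 * n * aS z.1 ^ 2) := by
        gcongr ?_ * (?_ * _ * _)
        exact pow_le_pow_of_le_one e0.le e2 (by norm_num)
      linarith [hR z h]
  · have h21 : 20 * ex R + ex R ≤ ex (Real.log n + R) := by
      rw [Conc.ex_add, ← add_one_mul]
      refine mul_le_mul_left ?_ _
      rw [ex, Real.exp_log (by linarith), ENNReal.ofReal_natCast]
      exact_mod_cast (by omega : 20 + 1 ≤ n)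
    refine (mul_le_mul' (hA n t (by omega) ⟨ht, ht2⟩) h21).trans ?_
    rw [← Conc.ex_add]
    refine Conc.ex_mono ?_
    push_cast
    linarith

end Crest.Agent.T157.Kb

end
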