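import Crest.Agent.T157.QeA_24

/-!
# Row 157, part A2 (helper54): `Qe.loStmt : LoStmt`
-/

set_option autoImplicit false

noncomputable section

namespace Crest.Agent.T157.Qe

open Matrix Finset MeasureTheory Set
open scoped ENNReal
open Crest.Agent.T157.E Crest.Agent.T157.Cond Crest.Agent.T157.Dq
open Crest.Agent.T157.Conc (ex ex_add ex_mono ex_zero)

namespace Lo54

variable {n : ℕ}

/-! ### the scalar estimate -/

lemma one_log {q d : ℝ} (q0 : 0 < q) (q1 : q ≤ 1 / 100) (hd : -(3 * q) ≤ d) :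
    Real.log (1 + 4 * q + d) ≤ Real.log (1 + 1 * d) + (4 * q * (1 - d + 2 * d ^ 2) -
      8 * q ^ 2 * (1 - 2 * d) + 43 * q ^ 3) := by
  have h1 : 97 / 100 ≤ 1 + d := by linarith
  have h0 : 0 < 1 + d := by linarith
  set t := (1 + d)⁻¹ with ht
  have t0 : 0 < t := inv_pos.2 h0
  have t1 : t * (1 + d) = 1 := inv_mul_cancel₀ h0.ne'
  have t2 : t ≤ 100 / 97 := by nlinarith
  have e : 1 + 4 * q + d = (1 + 1 * d) * (1 + 4 * q * t) := by linear_combination (-4 * q) * t1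
  rw [e, Real.log_mul (by linarith) (by positivity)]
  have h := log_one_add_le (u := 4 * q * t) (by positivity)
  have a1 : t ≤ 1 - d + 2 * d ^ 2 := by
    have : t = 1 - d + d ^ 2 * t := by linear_combination (1 - d) * t1
    nlinarith [sq_nonneg d]
  have a2 : 1 - 2 * d ≤ t ^ 2 := by
    have e2 : t ^ 2 * (1 + d) ^ 2 = 1 := by rw [← mul_pow, t1, one_pow]
    have : (1 - 2 * d) * (1 + d) ^ 2 ≤ 1 := by nlinarith [sq_nonneg d, mul_nonneg (sq_nonneg d) h0.le]
    by_contra hc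
    have := mul_lt_mul_of_pos_right (not_le.1 hc) (pow_pos h0 2)
    linarith
  have a3 : t ^ 3 ≤ 2 := (pow_le_pow_left₀ t0.le t2 3).trans (by norm_num)
  have b1 := mul_le_mul_of_nonneg_left a1 (show 0 ≤ 4 * q by positivity)
  have b2 := mul_le_mul_of_nonneg_left a2 (show 0 ≤ 8 * q ^ 2 by positivity)
  have b3 := mul_le_mul_of_nonneg_left a3 (show 0 ≤ 64 / 3 * q ^ 3 by positivity)
  have : 0 < q ^ 3 := by positivity
  nlinarith

lemma sum_log {ε q : ℝ} {D : V n} (e0 : 0 < ε) (q0 : 0 < q) (q1 : q ≤ 1 / 100) (h : Dv ε q D) :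
    ∑ i, Real.log (1 + 4 * q + D i) ≤ 2 * GG D 1 + (4 * q - 8 * q ^ 2 + 80 * q ^ 3) * n := by
  have h1 := sum_le_sum fun i (_ : i ∈ Finset.univ) => one_log q0 q1 (h.lo i)
  have e : ∀ i, 4 * q * (1 - D i + 2 * D i ^ 2) - 8 * q ^ 2 * (1 - 2 * D i) + 43 * q ^ 3 =
      (4 * q - 8 * q ^ 2 + 43 * q ^ 3) + ((16 * q ^ 2 - 4 * q) * D i + 8 * q * D i ^ 2) :=
    fun i => by ring
  simp only [e, sum_add_distrib, ← mul_sum, sum_const, card_univ, Fintype.card_fin,
    nsmul_eq_mul] at h1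
  have g1 := h.gap
  have g2 := h.m2
  have g3 : 0 ≤ ∑ i, D i ^ 2 := sum_nonneg fun i _ => sq_nonneg _
  have g4 : 0 ≤ ε * q ^ 2 * n := by positivity
  have g5 : (16 * q ^ 2 - 4 * q) * ∑ i, D i ≤ 0 :=
    mul_nonpos_of_nonpos_of_nonneg (by nlinarith) (by linarith)
  have g6 := mul_le_mul_of_nonneg_left g2 (show 0 ≤ 8 * q by positivity)
  have g7 : 0 ≤ q ^ 3 * n := by positivity
  simp only [GG]
  nlinarith

/-! ### entries of the GOE -/

lemma tail_entry (hn : 0 < n) (i j : Fin n) (c : ℝ) (hc : c ^ 2 = 1) :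
    GOE n {W | 2 < c * W i j} ≤ ex (-n) := by
  have n0 : (0 : ℝ) < n := by exact_mod_cast hn
  have h := Kr.goe_cm (1 / Real.sqrt n) (single i j (c * n) : Mx n) (F := fun _ => 1)
    measurable_const
  simp only [mul_one, lintegral_const, measure_univ] at h
  have e1 : ∀ W : Mx n, pair (single i j (c * n) : Mx n) W = n * (c * W i j) := fun W => by
    simp only [pair, single_apply, ite_and, ite_mul, zero_mul]
    rw [Finset.sum_eq_single i (fun a _ ha => by simp [Ne.symm ha]) (by simp),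
      Finset.sum_eq_single j (fun a _ ha => by simp [Ne.symm ha]) (by simp)]
    simp only [if_true]; ring
  have e2 : Vq (single i j (c * n) : Mx n) ≤ 2 * (n : ℝ) ^ 2 := by
    rw [Vq_eq_sum]
    have a : ∀ k l, ((single i j (c * n) : Mx n) k l + (single i j (c * n) : Mx n) l k) ^ 2 ≤
        2 * (single i j (c * n) : Mx n) k l ^ 2 + 2 * (single i j (c * n) : Mx n) l k ^ 2 :=
      fun k l => by nlinarith [sq_nonneg ((single i j (c * n) : Mx n) k l -
        (single i j (c * n) : Mx n) l k)]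
    have b : ∑ k, ∑ l, (single i j (c * n) : Mx n) k l ^ 2 = (n : ℝ) ^ 2 := by
      rw [Finset.sum_eq_single i (fun a _ ha => by simp [Ne.symm ha]) (by simp),
        Finset.sum_eq_single j (fun a _ ha => by simp [Ne.symm ha]) (by simp)]
      simp only [single_apply_same, mul_pow, hc, one_mul]
    have b' : ∑ k, ∑ l, (single i j (c * n) : Mx n) l k ^ 2 = (n : ℝ) ^ 2 := by
      rw [sum_comm]; exact b
    have := sum_le_sum fun k (_ : k ∈ Finset.univ) => sum_le_sum fun l (_ : l ∈ Finset.univ) => a k l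
    simp only [sum_add_distrib, ← mul_sum, b, b'] at this
    linarith
  simp only [e1] at h
  have hm := mul_meas_ge_le_lintegral₀ (μ := GOE n)
    (f := fun W : Mx n => ENNReal.ofReal (Real.exp (n * (c * W i j))))
    (Measurable.aemeasurable (by fun_prop)) (ex (2 * n))
  rw [h] at hm
  have h3 : ENNReal.ofReal (Real.exp ((1 / √(n : ℝ)) ^ 2 * Vq (single i j (c * n) : Mx n) / 2)) ≤
      ex (2 * n) * ex (-n) := by
    rw [← ex_add]
    refine ex_mono ?_
    rw [div_pow, Real.sq_sqrt n0.le, one_pow, div_le_iff₀ two_pos, div_mul_eq_mul_div,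
      div_le_iff₀ n0]
    nlinarith
  have h4 := (ENNReal.mul_le_mul_iff_right (a := ex (2 * n))
    (ENNReal.ofReal_pos.2 (Real.exp_pos _)).ne' ENNReal.ofReal_ne_top).1 (hm.trans h3)
  refine (measure_mono fun W hW => ?_).trans h4
  have hW' : 2 < c * W i j := hW
  exact ex_mono (by nlinarith)

/-- symmetric with bounded entries -/
def Ent (W : Mx n) : Prop := Wᵀ = W ∧ ∀ i j, |W i j| ≤ 2

lemma prob_ent (hn : 0 < n) : GOE n {W | ¬ Ent W} ≤ (2 * n ^ 2 : ℕ) * ex (-n) := by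
  have hs : {W : Mx n | ¬ Ent W} ⊆ {W | ¬ Wᵀ = W} ∪
      ⋃ p : Fin n × Fin n × Bool, {W | 2 < (if p.2.2 then 1 else -1 : ℝ) * W p.1 p.2.1} := by
    intro W hW
    by_contra hc
    simp only [Set.mem_union, Set.mem_iUnion, not_or, not_exists, Set.mem_ofPred_eq, not_not,
      not_lt] at hc
    refine hW ⟨hc.1, fun i j => abs_le.2 ⟨?_, ?_⟩⟩
    · have := hc.2 (i, j, false); simp at this; linarith
    · have := hc.2 (i, j, true); simpa using this
  refine (measure_mono hs).trans ((measure_union_le _ _).trans ?_)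
  rw [show GOE n {W | ¬ Wᵀ = W} = 0 from ae_iff.1 (goe_ae_symm _), zero_add]
  refine (measure_iUnion_fintype_le _ _).trans ((sum_le_sum fun p _ =>
    tail_entry hn p.1 p.2.1 _ (by split_ifs <;> norm_num)).trans (le_of_eq ?_))
  rw [sum_const, card_univ, nsmul_eq_mul]
  simp only [Fintype.card_prod, Fintype.card_fin, Fintype.card_bool]
  congr 2; ring

lemma ent_form {W : Mx n} (h : Ent W) (u v : V n) {t : ℝ} (ht : 0 < t) :
    2 * |u ⬝ᵥ W *ᵥ v| ≤ 2 * n * (t * (u ⬝ᵥ u) + (v ⬝ᵥ v) / t) := by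
  have h1 : |u ⬝ᵥ W *ᵥ v| ≤ ∑ i, ∑ j, (t * (u i * u i) + v j * v j / t) := by
    simp only [dotProduct, mulVec, mul_sum]
    refine (abs_sum_le_sum_abs _ _).trans (sum_le_sum fun i _ =>
      (abs_sum_le_sum_abs _ _).trans (sum_le_sum fun j _ => ?_))
    rw [abs_mul, abs_mul]
    have a := h.2 i j
    have b : 2 * (|u i| * |v j|) ≤ t * (u i * u i) + v j * v j / t := by
      rw [← abs_mul_abs_self (u i), ← abs_mul_abs_self (v j)]
      have : 0 ≤ (t * |u i| - |v j|) ^ 2 / t := by positivity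
      have e : (t * |u i| - |v j|) ^ 2 / t =
          t * (|u i| * |u i|) + |v j| * |v j| / t - 2 * (|u i| * |v j|) := by field_simp; ring
      linarith
    have : 0 ≤ |u i| * |v j| := by positivity
    nlinarith
  simp only [sum_add_distrib, sum_const, card_univ, Fintype.card_fin, nsmul_eq_mul, ← mul_sum,
    ← sum_div] at h1
  simp only [dotProduct] at h1 ⊢
  nlinarith

/-! ### log-determinants -/

lemma ex_le {a b : ℝ} (h : ex a ≤ ex b) : a ≤ b :=
  Real.exp_le_exp.1 ((ENNReal.ofReal_le_ofReal_iff (Real.exp_pos _).le).1 h)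

lemma ld_mono {A B : Mx n} {a b : V n} (hA : Dg A a) (hB : Dg B b) (ha : ∀ i, 0 < a i)
    (h : Le A B) : (∀ i, 0 < b i) ∧ ∑ i, Real.log (a i) ≤ ∑ i, Real.log (b i) := by
  have hb : ∀ i, 0 < b i := fun i => by
    obtain ⟨k, -, hk⟩ := Finset.exists_min_image Finset.univ a ⟨i, Finset.mem_univ i⟩
    exact (ha k).trans_le (ge_dg hB ((dg_ge hA fun l => hk l (Finset.mem_univ l)).trans h) i)
  have := gi_mono h
  rw [gi_dg hA ha, gi_dg hB hb] at this
  exact ⟨hb, by linarith [ex_le this]⟩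

/-- the comparison matrix -/
def MK (P : Mx n) (q : ℝ) (D : V n) : Mx n :=
  P * diagonal (fun i => 1 + 4 * q + D i) * P + ((n : ℝ) ^ 5) • (1 - P)

lemma qf_diag (d u : V n) : u ⬝ᵥ diagonal d *ᵥ u = ∑ i, d i * u i ^ 2 :=
  sum_congr rfl fun i _ => by rw [mulVec_diagonal]; ring

lemma dot_sq (u : V n) : u ⬝ᵥ u = ∑ i, u i ^ 2 := sum_congr rfl fun i _ => by ring

lemma MK_symm {P : Mx n} (hP : IsProj P) (q : ℝ) (D : V n) : (MK P q D)ᵀ = MK P q D := by
  simp only [MK, transpose_add, transpose_mul, transpose_smul, transpose_sub, transpose_one,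
    hP.symm, diagonal_transpose, Matrix.mul_assoc]

lemma MK_spec {P : Mx n} (hP : IsProj P) (ht : (n : ℝ) - 3 ≤ P.trace) (hn : 8 ≤ n) {q : ℝ}
    (q0 : 0 < q) (q1 : q ≤ 1) {D m : V n} (hD : ∀ i, -(3 * q) ≤ D i) (hm : Dg (MK P q D) m) :
    (∀ i, 1 + q ≤ m i) ∧
      ∑ i, Real.log (m i) ≤ ∑ i, Real.log (1 + 4 * q + D i) + 15 * Real.log n := by
  have n8 : (8 : ℝ) ≤ n := by exact_mod_cast hn
  have hK : (2 : ℝ) ≤ (n : ℝ) ^ 5 := le_trans (by norm_num) (pow_le_pow_left₀ (by norm_num) n8 5)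
  set N : Mx n := diagonal fun i => 1 + 4 * q + D i with hN
  have hN1 : Le ((1 + q) • (1 : Mx n)) N := dg_ge (dg_diagonal _) fun i => by linarith [hD i]
  have h1 : ∀ i, 1 + q ≤ m i := ge_dg hm fun u => by
    have a := hN1 (P *ᵥ u)
    have b : 0 ≤ (u - P *ᵥ u) ⬝ᵥ (u - P *ᵥ u) := by rw [dot_sq]; positivity
    rw [qf_smul, qf_one] at a
    rw [MK, qf_add, qf_proj hP, qf_smul, qf_smul, qf_one, qf_compl hP, dot_split hP u]
    nlinarith
  refine ⟨h1, ?_⟩
  have h2 := gi_shear (N := N) (diagonal_transpose _) hP (d := 1 + q) (κ := 1) (by linarith)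
    (fun u => by
      have a := hN1 (P *ᵥ u)
      rw [qf_smul, qf_one, hP.dot_self] at a
      rw [qf_smul, qf_proj hP]; exact a)
    (fun u => by
      have a := hN1 u
      have b : 0 ≤ (P *ᵥ u) ⬝ᵥ (P *ᵥ u) := by rw [dot_sq]; positivity
      have c : 0 ≤ u ⬝ᵥ u := by rw [dot_sq]; positivity
      rw [qf_smul, qf_one] at a
      rw [qf_smul, qf_compl hP]
      nlinarith [dot_split hP u])
  have h3 := h2.trans (gi_scale hP ht N one_pos (K := (n : ℝ) ^ 5) (by linarith))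
  change _ ≤ _ * Gi (MK P q D) at h3
  rw [gi_dg (dg_diagonal _) fun i => by linarith [hD i], gi_dg hm fun i => by linarith [h1 i],
    ← ex_add, div_one, Real.log_pow] at h3
  have := ex_le h3
  push_cast at this
  linarith

/-- comparison of the forms -/
lemma cmp {P B W W' : Mx n} (hP : IsProj P) (hn : 8 ≤ n) {q r σ : ℝ} (q1 : q ≤ 1 / 4) {D : V n}
    (hBD : P * B * P = P * diagonal D * P) (hW' : Ent W') (hWW : P * W * P = P * W' * P)
    (hX : (B + (2 : ℝ) • (1 : Mx n) - W)ᵀ = B + (2 : ℝ) • (1 : Mx n) - W)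
    (h1 : Le ((-10 : ℝ) • (1 : Mx n)) (B + (2 : ℝ) • (1 : Mx n) - W))
    (h2 : Le (B + (2 : ℝ) • (1 : Mx n) - W) ((10 : ℝ) • (1 : Mx n))) (hσ : r + 2 / n ≤ σ) :
    Le (B + (2 : ℝ) • (1 : Mx n) - W + r • (1 : Mx n))
      (MK P q D + (1 - 4 * q) • (1 : Mx n) - W' + σ • (1 : Mx n)) := by
  intro u
  have n8 : (8 : ℝ) ≤ n := by exact_mod_cast hn
  have n0 : (0 : ℝ) < n := by linarith
  set X := B + (2 : ℝ) • (1 : Mx n) - W with hXd
  set w := P *ᵥ u with hw
  set v := u - P *ᵥ u with hv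
  have huv : u = w + v := by simp [hw, hv]
  have w0 : 0 ≤ w ⬝ᵥ w := by rw [dot_sq]; positivity
  have v0 : 0 ≤ v ⬝ᵥ v := by rw [dot_sq]; positivity
  have s0 : u ⬝ᵥ u = w ⬝ᵥ w + v ⬝ᵥ v := dot_split hP u
  have a1 : u ⬝ᵥ X *ᵥ u = w ⬝ᵥ X *ᵥ w + 2 * (w ⬝ᵥ X *ᵥ v) + v ⬝ᵥ X *ᵥ v := by
    conv_lhs => rw [huv]
    exact qf_add_add hX w v
  have a2 : u ⬝ᵥ W' *ᵥ u = w ⬝ᵥ W' *ᵥ w + 2 * (w ⬝ᵥ W' *ᵥ v) + v ⬝ᵥ W' *ᵥ v := by
    conv_lhs => rw [huv]
    exact qf_add_add hW'.1 w v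
  have a3 : w ⬝ᵥ X *ᵥ w = w ⬝ᵥ diagonal D *ᵥ w + 2 * (w ⬝ᵥ w) - w ⬝ᵥ W' *ᵥ w := by
    rw [hXd, qf_sub, qf_add, qf_smul, qf_one, hw, ← qf_proj hP B, ← qf_proj hP W, hBD, hWW,
      qf_proj hP, qf_proj hP]
  have a4 : u ⬝ᵥ MK P q D *ᵥ u =
      (1 + 4 * q) * (w ⬝ᵥ w) + w ⬝ᵥ diagonal D *ᵥ w + (n : ℝ) ^ 5 * (v ⬝ᵥ v) := by
    rw [MK, qf_add, qf_proj hP, qf_smul, qf_compl hP, ← hw, ← hv, qf_diag, qf_diag, dot_sq w,
      mul_sum, ← sum_add_distrib]
    congr 1
    exact sum_congr rfl fun i _ => by ring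
  have b1 := cross hX h1 h2 (t := 1 / (10 * n)) (by positivity) w v
  have b2 := ent_form hW' w v (t := 1 / (2 * n ^ 2)) (by positivity)
  have b3 := ent_form hW' v v one_pos
  have b4 := h2 v
  rw [qf_smul, qf_one] at b4
  have c1 : 10 * (1 / (10 * (n : ℝ)) * (w ⬝ᵥ w) + v ⬝ᵥ v / (1 / (10 * n))) =
      1 / n * (w ⬝ᵥ w) + 100 * n * (v ⬝ᵥ v) := by field_simp; ring
  have c2 : 2 * (n : ℝ) * (1 / (2 * n ^ 2) * (w ⬝ᵥ w) + v ⬝ᵥ v / (1 / (2 * n ^ 2))) =
      1 / n * (w ⬝ᵥ w) + 4 * n ^ 3 * (v ⬝ᵥ v) := by field_simp; ring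
  rw [c1] at b1
  rw [c2] at b2
  rw [div_one, one_mul] at b3
  have d1 := le_abs_self (w ⬝ᵥ W' *ᵥ v)
  have d2 := le_abs_self (v ⬝ᵥ W' *ᵥ v)
  have hK : 4 * (n : ℝ) ^ 3 + 102 * n + 10 ≤ (n : ℝ) ^ 5 := by
    have e1 : (64 : ℝ) ≤ (n : ℝ) ^ 2 := by nlinarith
    have e2 : 64 * (n : ℝ) ≤ (n : ℝ) ^ 3 := by nlinarith
    have e3 : 64 * (n : ℝ) ^ 3 ≤ (n : ℝ) ^ 5 := by nlinarith [pow_pos n0 3]
    linarith
  have d3 := mul_le_mul_of_nonneg_right hK v0
  have d4 := mul_le_mul_of_nonneg_right hσ (add_nonneg w0 v0)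
  have d5 : 0 ≤ 2 / (n : ℝ) * (v ⬝ᵥ v) := by positivity
  have d6 : 0 ≤ (1 - 4 * q) * (v ⬝ᵥ v) := mul_nonneg (by linarith) v0
  have d7 : 2 / (n : ℝ) * (w ⬝ᵥ w) = 2 * (1 / n * (w ⬝ᵥ w)) := by ring
  rw [qf_add, qf_add, qf_sub (MK P q D + _), qf_add, qf_smul, qf_smul, qf_smul, qf_one, a1, a2,
    a3, a4, s0]
  nlinarith

lemma sq_aux {d w r u l : ℝ} (d0 : 0 < d) (d1 : d ≤ 1 / 10) (r0 : 0 ≤ r) (w1 : w ≤ 1)
    (h : w + 3 * d ≤ u) (hl : l = -(u + r)) :
    (w + r + 3 * d) ^ 2 ≤ l ^ 2 - u ^ 2 + w ^ 2 + 8 * d := by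
  have a : 0 ≤ r * (u - w - 3 * d) := mul_nonneg r0 (by linarith)
  rw [hl]
  nlinarith

end Lo54

set_option maxHeartbeats 800000 in
open Lo54 in
/-- **lower bound of the quartic integral** -/
theorem loStmt : LoStmt := by
  refine ⟨17, fun n ε q y P B D hp y0 y1 hP ht hD hB hBD hB1 hB2 => ?_⟩
  obtain ⟨hn, e0, e1, q0, q1, nq⟩ := hp
  have n8 : (8 : ℝ) ≤ n := by exact_mod_cast hn
  have n0 : (0 : ℝ) < n := by linarith
  have : Nonempty (Fin n) := ⟨⟨0, by omega⟩⟩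
  have q2 : q ≤ 1 / 100 := by
    have : ε ^ 3 ≤ 1 := pow_le_one₀ e0.le (by linarith)
    linarith
  have nq' : 1 / (n : ℝ) ≤ q / 100 := by
    rw [div_le_iff₀ n0]; nlinarith [mul_pos n0 q0]
  have l1 : 1 ≤ Real.log n := by
    rw [Real.le_log_iff_exp_le n0]; linarith [Real.exp_one_lt_d9]
  set s : ℝ := 1 / √(n : ℝ) with hs
  have sq0 : 0 < √(n : ℝ) := Real.sqrt_pos.2 n0
  have s0 : 0 < s := by positivity
  have s2 : s ^ 2 = 1 / n := by rw [hs, div_pow, Real.sq_sqrt n0.le, one_pow]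
  obtain ⟨m0, hm0⟩ := dg_symm (MK_symm hP q D)
  obtain ⟨m1, m2⟩ := MK_spec hP ht hn q0 (by linarith) hD.lo hm0
  set w : ℝ := 1 - 4 * q with hw
  set M : Mx n := MK P q D + w • (1 : Mx n) with hM
  have hm : Dg M fun i => m0 i + w := by simpa using dg_affine hm0 1 w
  have hS : Sk 2 s (fun i => m0 i + w) w ≤ 1 - q := by
    have a : ∀ i, ((m0 i + w - w) ^ 2)⁻¹ ≤ 1 - q := fun i => by
      have b := m1 i
      rw [add_sub_cancel_right, inv_le_iff_one_le_mul₀ (pow_pos (by linarith) 2)]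
      have c : (1 + q) ^ 2 ≤ m0 i ^ 2 := pow_le_pow_left₀ (by linarith) b 2
      nlinarith [mul_le_mul_of_nonneg_left c (show 0 ≤ 1 - q by linarith), mul_pos q0 q0]
    have b := sum_le_sum fun i (_ : i ∈ Finset.univ) => a i
    rw [sum_const, card_univ, Fintype.card_fin, nsmul_eq_mul] at b
    rw [Sk, s2, one_div, inv_mul_le_iff₀ n0]; exact b
  refine ⟨{W' | Ent W' ∧ ∀ j ∈ range (8 * n), GoodD s M (fun i => m0 i + w) (-(j / n)) w y W'},
    ?_, ?_⟩
  · have hs : {W' : Mx n | Ent W' ∧ ∀ j ∈ range (8 * n),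
        GoodD s M (fun i => m0 i + w) (-(j / n)) w y W'}ᶜ ⊆ {W | ¬ Ent W} ∪
        ⋃ j ∈ range (8 * n), {W | ¬ GoodD s M (fun i => m0 i + w) (-(j / n)) w y W} := by
      intro W hW
      by_contra hc
      simp only [Set.mem_union, Set.mem_iUnion, not_or, not_exists, Set.mem_ofPred_eq,
        not_not] at hc
      exact hW hc
    have b1 := prob_ent (n := n) (by omega)
    have b2 : GOE n (⋃ j ∈ range (8 * n),
        {W | ¬ GoodD s M (fun i => m0 i + w) (-(j / n)) w y W}) ≤ (8 * n : ℕ) * ex (-y) := by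
      refine (measure_biUnion_finset_le _ _).trans ((sum_le_sum (g := fun _ => ex (-y))
        fun j _ => ?_).trans (le_of_eq ?_))
      · exact ENNReal.le_ofReal_iff_toReal_le (measure_ne_top _ _) (Real.exp_pos _).le |>.2
          (prob_goodD s0.ne' hm (fun i => by linarith [m1 i]) (by linarith) _ y)
      · rw [sum_const, card_range, nsmul_eq_mul]
    refine (measure_mono hs).trans ((measure_union_le _ _).trans ((add_le_add
      (b1.trans (mul_le_mul_right (ex_mono (by linarith : -(n : ℝ) ≤ -y)) _)) b2).trans ?_))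
    rw [← add_mul, ← Nat.cast_add, sub_eq_add_neg, ex_add]
    refine mul_le_mul_left ?_ _
    rw [ex, ← ENNReal.ofReal_natCast, Real.exp_nat_mul, Real.exp_log n0]
    refine ENNReal.ofReal_le_ofReal ?_
    have : (n : ℝ) ^ 3 ≤ (n : ℝ) ^ 17 := pow_le_pow_right₀ (by linarith) (by norm_num)
    push_cast
    nlinarith
  · rintro W' ⟨hE, hG⟩ W hWW ⟨b, hb, hb'⟩ hnot
    have u1 : 1 ≤ uu ε := by unfold uu; linarith
    have u2 : uu ε ≤ 2 := by unfold uu; linarith
    set u0 := uu ε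
    have hX : (B + (2 : ℝ) • (1 : Mx n) - W)ᵀ = B + (2 : ℝ) • (1 : Mx n) - W := by
      rw [transpose_sub, transpose_add, transpose_smul, transpose_one, hB, hb.symm]
    have w1 := dg_le hb fun i => (hb' i).2
    have w2 := dg_ge hb fun i => (hb' i).1
    have x1 : Le ((-3 : ℝ) • (1 : Mx n)) (B + (2 : ℝ) • (1 : Mx n) - W) := fun u => by
      have a := hB1 u
      have c := w1 u
      simp only [qf_sub, qf_add, qf_smul, qf_one] at a c ⊢
      linarith
    have x2 : Le (B + (2 : ℝ) • (1 : Mx n) - W) ((10 : ℝ) • (1 : Mx n)) := fun u => by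
      have a := hB2 u
      have c := w2 u
      simp only [qf_sub, qf_add, qf_smul, qf_one] at a c ⊢
      linarith
    obtain ⟨x, hx⟩ := dg_symm hX
    have hA : Dg (B + (2 - u0) • (1 : Mx n) - W) fun i => x i - u0 := by
      convert hx.sub u0 using 1
      rw [sub_smul]; abel
    have x3 := ge_dg hx x1
    obtain ⟨i0, hi0⟩ : ∃ i, x i < 0 := by
      by_contra hc
      refine hnot fun u => ?_
      have := dg_ge hx (c := 0) (fun i => not_lt.1 fun h => hc ⟨i, h⟩) u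
      simp only [qf_sub, qf_add, qf_smul, qf_one] at this ⊢
      linarith
    obtain ⟨l, h1, h2, -, h4⟩ := II_lower hA s0 (α := 5) (Λ := 8) (by norm_num)
      (fun i => by linarith [x3 i]) (by
        rw [Fintype.card_fin, Real.sqrt_mul (by norm_num), hs, div_mul_eq_mul_div, one_mul,
          add_div, mul_div_assoc, div_self sq0.ne']
        have a : 1 / √(n : ℝ) ≤ 1 := by
          rw [div_le_one sq0]; exact Real.one_le_sqrt.2 (by linarith)
        have c : √2 ≤ 2 := Real.sqrt_le_iff.2 ⟨by norm_num, by norm_num⟩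
        linarith)
    refine le_trans ?_ h4
    set r := -u0 - l with hr
    have r0 : 0 < r := by linarith [h1 i0]
    have r1 : r ≤ 7 := by linarith
    set j := ⌈r * n⌉₊ + 2 with hj
    have j1 : r + 2 / n ≤ (j : ℝ) / n := by
      rw [le_div_iff₀ n0, add_mul, div_mul_cancel₀ _ n0.ne', hj]
      push_cast; linarith [Nat.le_ceil (r * n)]
    have j2 : (j : ℝ) / n ≤ r + 3 * (1 / n) := by
      rw [div_le_iff₀ n0, add_mul, mul_assoc, div_mul_cancel₀ _ n0.ne', hj]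
      push_cast; linarith [Nat.ceil_lt_add_one (mul_pos r0 n0).le]
    have j3 : j < 8 * n := by
      have : ⌈r * n⌉₊ ≤ 7 * n := Nat.ceil_le.2 (by push_cast; nlinarith)
      omega
    have hc := cmp (q := q) hP hn (by linarith) hBD hE hWW hX
      (fun u => le_trans (by
        simp only [qf_smul, qf_one]
        have : 0 ≤ u ⬝ᵥ u := by rw [dot_sq]; positivity
        linarith) (x1 u)) x2 j1
    obtain ⟨a', ha'⟩ := dg_symm (W := M - W') (by
      rw [hM, transpose_sub, transpose_add, transpose_smul, transpose_one, MK_symm hP, hE.1])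
    have k1 : Dg (B + (2 : ℝ) • (1 : Mx n) - W + r • (1 : Mx n)) fun i => x i - u0 - l := by
      have := dg_affine hx 1 r
      simp only [one_smul, one_mul] at this
      convert this using 2; rw [hr]; ring
    have k2 : Dg (M - W' + ((j : ℝ) / n) • (1 : Mx n)) fun i => a' i - -((j : ℝ) / n) := by
      have := dg_affine ha' 1 ((j : ℝ) / n)
      simp only [one_smul, one_mul] at this
      convert this using 2; ring
    have hpos : ∀ i, 0 < x i - u0 - l := fun i => sub_pos.2 (h1 i)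
    obtain ⟨k3, k4⟩ := ld_mono k1 k2 hpos hc
    have k5 := (hG j (mem_range.2 j3)).up (fun i => by linarith [m1 i]) (by linarith) ha'
      fun i => sub_pos.1 (k3 i)
    have k6 : -Real.log n ≤ Real.log (1 - Sk 2 s (fun i => m0 i + w) w) := by
      rw [← Real.log_inv]
      exact Real.log_le_log (by positivity) (by rw [← one_div]; linarith)
    have k7 := sum_log e0 q0 q2 hD
    simp only [psi, add_sub_cancel_right, s2] at k5
    have k8 : (w - -((j : ℝ) / n)) ^ 2 / (2 * (1 / n)) ≤ n * (w + r + 3 * (1 / n)) ^ 2 / 2 := by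
      have a : (w - -((j : ℝ) / n)) ^ 2 ≤ (w + r + 3 * (1 / n)) ^ 2 :=
        pow_le_pow_left₀ (by have : 0 ≤ (j : ℝ) / n := by positivity
                             linarith) (by linarith) 2
      rw [show (w - -((j : ℝ) / n)) ^ 2 / (2 * (1 / n)) = n * (w - -((j : ℝ) / n)) ^ 2 / 2 by
        field_simp]
      gcongr
    have k9 : (w + r + 3 * (1 / n)) ^ 2 ≤ l ^ 2 - u0 ^ 2 + w ^ 2 + 8 * (1 / n) :=
      sq_aux (by positivity) (by linarith) r0.le (by linarith) (by linarith) (by rw [hr]; ring)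
    have k10 : (n : ℝ) * (w + r + 3 * (1 / n)) ^ 2 ≤ n * (l ^ 2 - u0 ^ 2 + w ^ 2) + 8 := by
      have := mul_le_mul_of_nonneg_left k9 n0.le
      rwa [mul_add, mul_left_comm, mul_one_div_cancel n0.ne', mul_one] at this
    have p1 : 0 < ∏ i, (√(x i - u0 - l))⁻¹ :=
      prod_pos fun i _ => inv_pos.2 (Real.sqrt_pos.2 (hpos i))
    have k11 : -(6 * Real.log n) ≤ Real.log (s / (256 * n * 8)) := by
      rw [show -(6 * Real.log n) = Real.log (((n : ℝ) ^ 6)⁻¹) by
        rw [Real.log_inv, Real.log_pow]; norm_num]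
      refine Real.log_le_log (by positivity) ?_
      rw [hs, div_div, one_div]
      refine inv_anti₀ (by positivity) ?_
      have a : √(n : ℝ) ≤ n := Real.sqrt_le_iff.2 ⟨n0.le, by nlinarith⟩
      have c : (2048 : ℝ) ≤ (n : ℝ) ^ 4 :=
        le_trans (by norm_num) (pow_le_pow_left₀ (by norm_num) n8 4)
      calc √(n : ℝ) * (256 * n * 8) = 2048 * (√(n : ℝ) * n) := by ring
        _ ≤ (n : ℝ) ^ 4 * (n * n) := by gcongr
        _ = (n : ℝ) ^ 6 := by ring
    refine ENNReal.ofReal_le_ofReal ?_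
    rw [Fintype.card_fin, ← Real.le_log_iff_exp_le (by positivity),
      Real.log_mul (by positivity) p1.ne', Real.log_mul (by positivity) (by positivity),
      Real.log_exp, log_prod_sqrt hpos, s2,
      show l ^ 2 / (4 * (1 / (n : ℝ))) = n * l ^ 2 / 4 by field_simp]
    have k12 : 0 ≤ q ^ 3 * n := by positivity
    have k13 : (n : ℝ) * (l ^ 2 - u0 ^ 2 + w ^ 2) =
        n * l ^ 2 - n * u0 ^ 2 + n - 8 * (q * n) + 16 * (q ^ 2 * n) := by rw [hw]; ring
    have k14 : (4 * q - 8 * q ^ 2 + 80 * q ^ 3) * n =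
        4 * (q * n) - 8 * (q ^ 2 * n) + 80 * (q ^ 3 * n) := by ring
    have k15 : (n : ℝ) * (u0 ^ 2 / 4 - 1 / 4) = n * u0 ^ 2 / 4 - n / 4 := by ring
    have k16 : 200 * q ^ 3 * n = 200 * (q ^ 3 * n) := by ring
    rw [k13] at k10
    rw [k14] at k7
    rw [k15, k16, Nat.cast_ofNat]
    clear_value r j w s
    linarith only [k4, k5, k6, k7, k8, k10, k11, k12, m2, l1]

end Crest.Agent.T157.Qe

end
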