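import Crest.Agent.T157.QeNum_43

/-!
# Row 157, part A2 (helper43): the 3 x 3 criterion, uniform form
-/

set_option autoImplicit false

noncomputable section

namespace Crest.Agent.T157.Qe

open Matrix Finset Set
open Crest.Agent.T157.Cond

theorem St.mono43 {n : ℕ} {C δ δ' q β : ℝ} {D e c τ : V n} (s : St C δ q D β e c τ)
    (hC : 0 < C) (hq : 0 ≤ q) (h : δ ≤ δ') : St C δ' q D β e c τ := by
  have h1 := mul_le_mul_of_nonneg_right h (Nat.cast_nonneg (α := ℝ) n)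
  have h2 := mul_le_mul_of_nonneg_right h ((div_nonneg hq hC.le).trans s.s1)
  have h3 := mul_le_mul_of_nonneg_right h (sq_nonneg q)
  exact ⟨s.unit, s.orth, by linarith [s.t1], s.t2, s.b0, s.b1, s.s1, s.s2, s.s3.trans h2, s.e1,
    s.e2, s.e3, by linarith [s.v1], s.v2.trans h3, s.u1, s.u2, s.u3, s.u4, s.u5⟩

open Nm43 in
/-- **the 3 x 3 criterion, uniform in `ε`** -/
theorem numU : ∀ C ≥ (1 : ℝ), ∃ k > (0 : ℝ), ∀ (n : ℕ) (ε q β : ℝ) (D e c τ : V n), 0 < n →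
    ε ∈ Ioc 0 k → q ∈ Ioc 0 (k * ε ^ 9) → (∀ i, -(3 * q) ≤ D i) →
    St C (k * ε ^ 9) q D β e c τ → FS ε q e c τ ∧
      Le ((ε * q ^ 2) • (1 - P3 e c τ)) (diagonal D - β • vecMulVec e e +
        (Sg (zz (gg ε q)) e c + Tm ε q τ) + (uu ε)⁻¹ • P3 e c τ) := by
  intro C hC
  have hC0 : 0 < C := by linarith
  obtain ⟨k, hk, k1⟩ : ∃ k : ℝ, 0 < k ∧ 512 * C ^ 2 * (200 * C ^ 3 * k) = 1 :=
    ⟨1 / (512 * C ^ 2 * (200 * C ^ 3)), by positivity, by field_simp⟩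
  refine ⟨k, hk, fun n ε q β D e c τ hn hε hq hD s => ?_⟩
  have he := hε.1
  have hC2 : 1 ≤ C ^ 2 := one_le_pow₀ hC
  have hC3 : 1 ≤ C ^ 3 := one_le_pow₀ hC
  have k2 : k ≤ 200 * C ^ 3 * k := by linarith [mul_le_mul_of_nonneg_right hC3 hk.le]
  have e1 : 500 * C ^ 2 * ε ≤ 1 := by
    linarith [mul_le_mul_of_nonneg_left (hε.2.trans k2) (by positivity : 0 ≤ 512 * C ^ 2),
      mul_pos (by positivity : 0 < C ^ 2) he]
  have e2 : ε ≤ 1 := by linarith [mul_le_mul_of_nonneg_right hC2 he.le]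
  have e9 : 0 < ε ^ 9 := by positivity
  have h9 : 512 * C ^ 2 * (200 * C ^ 3 * (k * ε ^ 9)) ≤ ε ^ 9 := le_of_eq (by
    linear_combination ε ^ 9 * k1)
  have hd : 0 < 200 * C ^ 3 * (k * ε ^ 9) := by positivity
  have h : Sm C ε (200 * C ^ 3 * (k * ε ^ 9)) q := by
    refine ⟨hC, he, e1, hd, ?_, hq.1, mul_le_mul_of_nonneg_left hq.2 (by positivity)⟩
    have : ε ^ 9 ≤ ε := pow_le_of_le_one he.le e2 (by norm_num)
    linarith [mul_le_mul_of_nonneg_right hC2 hd.le]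
  have s' := s.mono43 hC0 hq.1.le (δ' := 200 * C ^ 3 * (k * ε ^ 9))
    (by linarith [mul_le_mul_of_nonneg_right k2 e9.le])
  exact ⟨fs h h9 hn s', le_main h hn hD s'⟩

end Crest.Agent.T157.Qe

end
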