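import Crest.Agent.T157.Qs_98

/-!
# Row 157, part A2 (helper98): the quenched spherical bound (QS), second part

* `shell` : a function of `w ∈ ran P` which is almost increasing in `|w|` is bounded by its
  Gaussian integral;
* `qs`, `qs_const` : the bound of `∫ exp((v+w)·W(v+w)/2) dμ`;
* `inv_goe`, `Refl.conj_glue` : the invariance hypothesis for a conditioned GOE matrix on an invariant event.
-/

set_option autoImplicit false
set_option maxHeartbeats 400000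
set_option linter.unusedSectionVars false

noncomputable section

namespace Crest.Agent.T157.Qs

open Matrix Finset MeasureTheory ProbabilityTheory
open scoped ENNReal NNReal
open Crest.Agent.T157.E Crest.Agent.T157.Cond Crest.Agent.T157.Dq
open Crest.Agent.T157.Conc (ex ex_add ex_mono ex_zero)

variable {ι : Type*} [Fintype ι] [DecidableEq ι]

lemma gauss_quad_le {B : Matrix ι ι ℝ} (h : PD B) {b : ι → ℝ} {κ : ℝ}
    (hκ : ∀ x, 2 * (b ⬝ᵥ x) - x ⬝ᵥ B *ᵥ x ≤ κ) :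
    ∫⁻ x, ex (b ⬝ᵥ x + (x ⬝ᵥ x - x ⬝ᵥ B *ᵥ x) / 2) ∂gv ι ≤ ex (κ / 2 - Real.log B.det / 2) := by
  obtain ⟨c, hc⟩ := h.exists_solve b
  rw [gauss_quad h hc]
  have := hκ c
  rw [hc, dotProduct_comm c b] at this
  exact ex_mono (by linarith)

lemma chi_tail {P : Matrix ι ι ℝ} (hP : IsProj P) {m : ℕ} (hm : P.trace = m) {t : ℝ} (ht : 0 < t)
    (c : ℝ) {S : Set (ι → ℝ)} (hS : ∀ g ∈ S, 0 ≤ c + (1 - t) * (P *ᵥ g ⬝ᵥ P *ᵥ g) / 2) :
    gv ι S ≤ ex (c - m * Real.log t / 2) := by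
  have hB : PD ((1 : ℝ) • (1 - P) + t • (P * 1 * P)) := pd_split hP transpose_one
    (fun x _ hx => by
      rw [one_mulVec]
      exact lt_of_le_of_ne (dot_self_nonneg x) fun h => hx (dotProduct_self_eq_zero.1 h.symm))
    one_pos ht
  have hd : ((1 : ℝ) • (1 - P) + t • (P * 1 * P)).det = t ^ m := by
    rw [Matrix.mul_one, hP.idem, (det_proj hP hm 1 t).1, one_pow, one_mul]
  have h1 := gauss_det hB
  rw [hd, Real.log_pow] at h1
  have h2 : ex (c - m * Real.log t / 2) = ex c * ex (-(m * Real.log t) / 2) := by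
    rw [← ex_add]; congr 1; ring
  rw [h2, ← h1, ← lintegral_const_mul _ (by fun_prop)]
  refine meas_le_lintegral₀ (by fun_prop) fun g hg => ?_
  rw [← ex_add, ← ex_zero, quad_split hP, one_mulVec]
  exact ex_mono (by have := hS g hg; linarith)

lemma ex_quarter : ex (-(3 / 2)) ≤ 4⁻¹ := by
  have h1 : (4 : ℝ) ≤ Real.exp (3 / 2) := by
    have := Real.add_one_le_exp (1 / 2 : ℝ)
    have h2 := Real.exp_one_gt_d9
    rw [show (3 / 2 : ℝ) = 1 + 1 / 2 by norm_num, Real.exp_add]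
    nlinarith
  rw [ex, Real.exp_neg, ← ENNReal.ofReal_ofNat, ← ENNReal.ofReal_inv_of_pos (by norm_num)]
  exact ENNReal.ofReal_le_ofReal (inv_anti₀ (by norm_num) h1)

/-- the window `m/100 ≤ |P g|² ≤ 12 m` has mass at least one half -/
lemma window {P : Matrix ι ι ℝ} (hP : IsProj P) {m : ℕ} (hm : P.trace = m) (h1 : 1 ≤ m) :
    2⁻¹ ≤ gv ι {g | (m : ℝ) / 100 ≤ P *ᵥ g ⬝ᵥ P *ᵥ g ∧ P *ᵥ g ⬝ᵥ P *ᵥ g ≤ 12 * m} := by
  have m1 : (1 : ℝ) ≤ m := by exact_mod_cast h1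
  have hl : gv ι {g | P *ᵥ g ⬝ᵥ P *ᵥ g < (m : ℝ) / 100} ≤ 4⁻¹ := by
    refine (chi_tail hP hm (t := 101) (by norm_num) (m / 2) fun g hg => ?_).trans
      ((ex_mono ?_).trans ex_quarter)
    · simp only [Set.mem_setOf_eq] at hg; linarith
    · have : 4 ≤ Real.log 101 := by
        rw [Real.le_log_iff_exp_le (by norm_num), show (4 : ℝ) = (4 : ℕ) * 1 by norm_num,
          Real.exp_nat_mul]
        exact (pow_le_pow_left₀ (Real.exp_pos _).le Real.exp_one_lt_d9.le 4).trans (by norm_num)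
      nlinarith
  have hh : gv ι {g | 12 * (m : ℝ) < P *ᵥ g ⬝ᵥ P *ᵥ g} ≤ 4⁻¹ := by
    refine (chi_tail hP hm (t := 2⁻¹) (by norm_num) (-3 * m) fun g hg => ?_).trans
      ((ex_mono ?_).trans ex_quarter)
    · simp only [Set.mem_setOf_eq] at hg; linarith
    · have := Real.log_two_lt_d9
      rw [Real.log_inv]
      nlinarith
  have h2 : (1 : ℝ≥0∞) ≤ gv ι {g | (m : ℝ) / 100 ≤ P *ᵥ g ⬝ᵥ P *ᵥ g ∧ P *ᵥ g ⬝ᵥ P *ᵥ g ≤ 12 * m} +
      (4⁻¹ + 4⁻¹) := by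
    rw [← measure_univ (μ := gv ι)]
    refine le_trans (measure_mono fun g _ => ?_) ((measure_union_le _ _).trans
      (add_le_add le_rfl ((measure_union_le _ _).trans (add_le_add hl hh))))
    simp only [Set.mem_union, Set.mem_setOf_eq]
    by_cases a : (m : ℝ) / 100 ≤ P *ᵥ g ⬝ᵥ P *ᵥ g
    · by_cases b : P *ᵥ g ⬝ᵥ P *ᵥ g ≤ 12 * m
      · exact Or.inl ⟨a, b⟩
      · exact Or.inr (Or.inr (not_le.1 b))
    · exact Or.inr (Or.inl (not_le.1 a))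
  have h3 : (4⁻¹ + 4⁻¹ : ℝ≥0∞) = 2⁻¹ := by
    rw [← two_mul, show (4 : ℝ≥0∞) = 2 * 2 by norm_num, ENNReal.mul_inv (by simp) (by simp),
      ← mul_assoc, ENNReal.mul_inv_cancel (by simp) (by simp), one_mul]
  rw [h3, ← ENNReal.inv_two_add_inv_two] at h2
  exact (ENNReal.add_le_add_iff_right (by simp)).1 h2

/-- **the shell lemma** -/
theorem shell {P : Matrix ι ι ℝ} (hP : IsProj P) {m : ℕ} (hm : P.trace = m) (h1 : 1 ≤ m)
    (Φ : (ι → ℝ) → ℝ≥0∞) (φ A : ℝ≥0∞) {r K z : ℝ} (hr : 0 < r) (hK : 0 ≤ K + z)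
    (hΦ : ∀ w, P *ᵥ w = w → r ≤ w ⬝ᵥ w → φ ≤ ex (K * (w ⬝ᵥ w - r) / 2) * Φ w)
    (hI : ∀ a : ℝ, 0 < a → ∫⁻ g, Φ ((√a)⁻¹ • P *ᵥ g) *
      ex ((P *ᵥ g ⬝ᵥ P *ᵥ g - z * (P *ᵥ g ⬝ᵥ P *ᵥ g) / a) / 2) ∂gv ι ≤ ex (m * Real.log a / 2) * A)
    {N : ℕ} (hN1 : 1 ≤ N) (hN : 600 * r * (K + z) ≤ N) :
    φ ≤ 2 * N * ex (1 + z * r / 2 - m / 2 + m * Real.log (m / r) / 2) * A := by
  have m1 : (1 : ℝ) ≤ m := by exact_mod_cast h1
  have N1 : (1 : ℝ) ≤ N := by exact_mod_cast hN1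
  set h : ℝ := 12 * m / N with hh
  have h0 : 0 < h := by positivity
  set S : ℕ → Set (ι → ℝ) := fun j => {g | (m : ℝ) / 100 + j * h ≤ P *ᵥ g ⬝ᵥ P *ᵥ g ∧
    P *ᵥ g ⬝ᵥ P *ᵥ g ≤ m / 100 + j * h + h} with hS
  have key : ∀ j, φ * gv ι (S j) ≤ ex (1 + z * r / 2 - m / 2 + m * Real.log (m / r) / 2) * A := by
    intro j
    set x : ℝ := m / 100 + j * h with hx
    have x1 : (m : ℝ) / 100 ≤ x := le_add_of_nonneg_right (by positivity)
    have x0 : 0 < x := lt_of_lt_of_le (by positivity) x1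
    have a0 : 0 < x / r := by positivity
    have mq : Measurable fun g : ι → ℝ => P *ᵥ g ⬝ᵥ P *ᵥ g := by fun_prop
    have hms : MeasurableSet (S j) :=
      (measurableSet_le measurable_const mq).inter (measurableSet_le mq measurable_const)
    have e1 : ex (1 + z * r / 2 - x / 2) * (ex (m * Real.log (x / r) / 2) * A) ≤
        ex (1 + z * r / 2 - m / 2 + m * Real.log (m / r) / 2) * A := by
      rw [← mul_assoc, ← ex_add]
      refine mul_le_mul_left (ex_mono ?_) _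
      have := Real.log_le_sub_one_of_pos (show 0 < x / m by positivity)
      have e : Real.log (x / r) = Real.log (m / r) + Real.log (x / m) := by
        rw [← Real.log_mul (by positivity) (by positivity)]; congr 1; field_simp
      have e' : (m : ℝ) * (x / m - 1) = x - m := by field_simp
      rw [e]
      nlinarith [mul_le_mul_of_nonneg_left this (by positivity : (0 : ℝ) ≤ m)]
    refine le_trans ?_ ((mul_le_mul_right (hI _ a0) _).trans e1)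
    rw [← lintegral_indicator_const hms, ← lintegral_const_mul' _ _ (Conc.ex_ne_top _)]
    refine lintegral_mono fun g => ?_
    by_cases hg : g ∈ S j
    swap
    · simp [hg]
    rw [Set.indicator_of_mem hg]
    obtain ⟨g1, g2⟩ := hg
    set q := P *ᵥ g ⬝ᵥ P *ᵥ g with hq
    have hw : ((√(x / r))⁻¹ • P *ᵥ g) ⬝ᵥ ((√(x / r))⁻¹ • P *ᵥ g) = q / (x / r) := by
      rw [smul_dotProduct, dotProduct_smul, smul_eq_mul, smul_eq_mul, ← mul_assoc, ← mul_inv,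
        Real.mul_self_sqrt a0.le, ← hq, div_eq_inv_mul q]
    have r1 : r ≤ q / (x / r) := by rw [le_div_iff₀ a0, mul_div_cancel₀ _ hr.ne']; exact g1
    have r2 : q / (x / r) - r ≤ 1200 * r / N := by
      have : q / (x / r) - r = (q - x) * r / x := by field_simp
      rw [this, div_le_div_iff₀ x0 (by positivity)]
      have h3 : (q - x) * N ≤ 12 * m := by
        have : q - x ≤ 12 * m / N := by linarith
        rwa [le_div_iff₀ (by positivity)] at this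
      nlinarith [mul_le_mul_of_nonneg_left h3 hr.le, mul_le_mul_of_nonneg_left x1 hr.le]
    have r3 : (K + z) * (q / (x / r) - r) ≤ 2 := by
      refine (mul_le_mul_of_nonneg_left r2 hK).trans ?_
      rw [← mul_div_assoc, div_le_iff₀ (by positivity)]
      linarith
    refine (hΦ _ (by rw [mulVec_smul, hP.mulVec_mulVec]) (hw ▸ r1)).trans ?_
    rw [hw, mul_comm (Φ _), ← mul_assoc, ← ex_add]
    refine mul_le_mul_left (ex_mono ?_) _
    rw [mul_div_assoc z q]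
    linarith
  have cov : {g | (m : ℝ) / 100 ≤ P *ᵥ g ⬝ᵥ P *ᵥ g ∧ P *ᵥ g ⬝ᵥ P *ᵥ g ≤ 12 * m} ⊆
      ⋃ j ∈ range N, S j := fun g hg => by
    obtain ⟨g1, g2⟩ := hg
    set q := P *ᵥ g ⬝ᵥ P *ᵥ g with hq
    have u0 : 0 ≤ (q - m / 100) / h := div_nonneg (by linarith) h0.le
    have f1 := Nat.floor_le u0
    have f2 := Nat.lt_floor_add_one ((q - m / 100) / h)
    rw [le_div_iff₀ h0] at f1
    rw [div_lt_iff₀ h0] at f2
    refine Set.mem_biUnion (s := (range N : Set ℕ)) (x := ⌊(q - m / 100) / h⌋₊) ?_ ⟨?_, ?_⟩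
    · rw [coe_range, Set.mem_Iio, Nat.floor_lt u0, div_lt_iff₀ h0, hh, mul_div_cancel₀ _ (by positivity)]
      linarith
    · linarith
    · linarith
  have h2 : φ * 2⁻¹ ≤ N * (ex (1 + z * r / 2 - m / 2 + m * Real.log (m / r) / 2) * A) :=
    calc φ * 2⁻¹ ≤ φ * ∑ j ∈ range N, gv ι (S j) := mul_le_mul_right
          ((window hP hm h1).trans ((measure_mono cov).trans (measure_biUnion_finset_le _ _))) _
      _ ≤ _ := by
        rw [mul_sum]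
        refine (sum_le_card_nsmul _ _ _ fun j _ => key j).trans ?_
        rw [card_range, nsmul_eq_mul]
  calc φ = 2 * (φ * 2⁻¹) := by
        rw [mul_comm φ, ← mul_assoc, ENNReal.mul_inv_cancel (by simp) (by simp), one_mul]
    _ ≤ 2 * (N * (ex (1 + z * r / 2 - m / 2 + m * Real.log (m / r) / 2) * A)) :=
        mul_le_mul_right h2 _
    _ = _ := by simp only [mul_assoc]

/-- reflections of `ran P` -/
structure Refl (P O : Matrix ι ι ℝ) : Prop where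
  symm : Oᵀ = O
  inv : O * O = 1
  fix : ∀ x, P *ᵥ x = 0 → O *ᵥ x = x

lemma exists_refl {P : Matrix ι ι ℝ} (hP : IsProj P) {w w' : ι → ℝ} (hw : P *ᵥ w = w)
    (hw' : P *ᵥ w' = w') (h : w ⬝ᵥ w = w' ⬝ᵥ w') : ∃ O, Refl P O ∧ O *ᵥ w = w' := by
  by_cases h0 : w = w'
  · exact ⟨1, ⟨transpose_one, Matrix.mul_one _, fun x _ => one_mulVec x⟩, by rw [one_mulVec, h0]⟩
  set a := w - w' with ha
  have a0 : a ⬝ᵥ a ≠ 0 := fun h => h0 (sub_eq_zero.1 (dotProduct_self_eq_zero.1 h))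
  have hv : ∀ x, (1 - (2 / (a ⬝ᵥ a)) • vecMulVec a a) *ᵥ x = x - (2 / (a ⬝ᵥ a) * (a ⬝ᵥ x)) • a :=
    fun x => by
      rw [sub_mulVec, one_mulVec, smul_mulVec, vecMulVec_mulVec]
      ext i; simp [mul_comm, mul_left_comm, mul_assoc]
  refine ⟨1 - (2 / (a ⬝ᵥ a)) • vecMulVec a a, ⟨by simp [transpose_vecMulVec], ?_, fun x hx => ?_⟩, ?_⟩
  · refine ext_iff_mulVec.2 fun x => ?_
    rw [← mulVec_mulVec, hv, hv, one_mulVec, dotProduct_sub a x, dotProduct_smul, smul_eq_mul, sub_sub,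
      ← add_smul]
    have : 2 / (a ⬝ᵥ a) * (a ⬝ᵥ x) + 2 / (a ⬝ᵥ a) * (a ⬝ᵥ x - 2 / (a ⬝ᵥ a) * (a ⬝ᵥ x) * (a ⬝ᵥ a)) = 0 := by
      field_simp; ring
    rw [this, zero_smul, sub_zero]
  · have : a ⬝ᵥ x = 0 := by
      have h1 : P *ᵥ a = a := by rw [ha, mulVec_sub, hw, hw']
      rw [← h1, ← hP.dot, hx, dotProduct_zero]
    rw [hv, this, mul_zero, zero_smul, sub_zero]
  · have : a ⬝ᵥ a = 2 * (a ⬝ᵥ w) := by
      simp only [ha, sub_dotProduct, dotProduct_sub, dotProduct_comm w' w]; linarith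
    have h2 : 2 / (a ⬝ᵥ a) * (a ⬝ᵥ w) = 1 := by
      rw [div_mul_eq_mul_div, ← this, div_self a0]
    rw [hv, h2, one_smul, ha, sub_sub_cancel]

lemma ex_cosh {A B y c k : ℝ} (hc : 1 ≤ c) (h : A ≤ k + B) :
    ex (A + y) + ex (A - y) ≤ ex k * (ex (B + c * y) + ex (B - c * y)) := by
  have e : ∀ A y : ℝ, ex (A + y) + ex (A - y) = ENNReal.ofReal (Real.exp A * (2 * Real.cosh y)) :=
    fun A y => by
      rw [ex, ex, ← ENNReal.ofReal_add (Real.exp_pos _).le (Real.exp_pos _).le, Real.cosh_eq,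
        sub_eq_add_neg, Real.exp_add, Real.exp_add]
      congr 1; ring
  rw [e, e, ex, ← ENNReal.ofReal_mul (Real.exp_pos _).le, ← mul_assoc (Real.exp k), ← Real.exp_add]
  refine ENNReal.ofReal_le_ofReal (mul_le_mul (Real.exp_le_exp.2 h) ?_ (by positivity)
    (Real.exp_pos _).le)
  refine mul_le_mul_of_nonneg_left (Real.cosh_le_cosh.2 ?_) (by norm_num)
  rw [abs_mul, abs_of_nonneg (by linarith : 0 ≤ c)]
  nlinarith [abs_nonneg y]

section main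
variable {Ω : Type*} [MeasurableSpace Ω]

/-- the Laplace transform of the quadratic form -/
def Lap (μ : Measure Ω) (W : Ω → Matrix ι ι ℝ) (x : ι → ℝ) : ℝ≥0∞ :=
  ∫⁻ ω, ex (x ⬝ᵥ W ω *ᵥ x / 2) ∂μ

/-- invariance under the reflections of `ran P` -/
def Inv (P : Matrix ι ι ℝ) (μ : Measure Ω) (W : Ω → Matrix ι ι ℝ) : Prop :=
  ∀ O, Refl P O → ∀ x, Lap μ W (O *ᵥ x) = Lap μ W x

lemma lap_mono {P : Matrix ι ι ℝ} (hP : IsProj P) {μ : Measure Ω} {W : Ω → Matrix ι ι ℝ}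
    (hW : Measurable W) (hi : Inv P μ W) {K : ℝ}
    (hK : ∀ᵐ ω ∂μ, (W ω)ᵀ = W ω ∧ ∀ x, P *ᵥ x = x → -K * (x ⬝ᵥ x) ≤ x ⬝ᵥ W ω *ᵥ x)
    {v w w' : ι → ℝ} (hv : P *ᵥ v = 0) (hw : P *ᵥ w = w) (hw' : P *ᵥ w' = w') (h0 : 0 < w ⬝ᵥ w)
    (h : w ⬝ᵥ w ≤ w' ⬝ᵥ w') :
    Lap μ W (v + w) ≤ ex (K * (w' ⬝ᵥ w' - w ⬝ᵥ w) / 2) * Lap μ W (v + w') := by
  have eq : ∀ a b, P *ᵥ a = a → P *ᵥ b = b → a ⬝ᵥ a = b ⬝ᵥ b →
      Lap μ W (v + b) = Lap μ W (v + a) := fun a b ha hb hab => by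
    obtain ⟨O, hO, e⟩ := exists_refl hP ha hb hab
    rw [← hi O hO (v + a), mulVec_add, hO.fix v hv, e]
  set c := √(w' ⬝ᵥ w' / (w ⬝ᵥ w)) with hc
  have c1 : 1 ≤ c := Real.le_sqrt_of_sq_le (by rw [one_pow, one_le_div h0]; exact h)
  have c2 : c * c * (w ⬝ᵥ w) = w' ⬝ᵥ w' := by
    rw [hc, Real.mul_self_sqrt (div_nonneg (h0.le.trans h) h0.le), div_mul_cancel₀ _ h0.ne']
  have p : ∀ s : ℝ, P *ᵥ (s • w) = s • w := fun s => by rw [mulVec_smul, hw]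
  have d : ∀ s : ℝ, (s • w) ⬝ᵥ (s • w) = s * s * (w ⬝ᵥ w) := fun s => by
    rw [smul_dotProduct, dotProduct_smul, smul_eq_mul, smul_eq_mul, mul_assoc]
  have e1 := eq w ((-1 : ℝ) • w) hw (p _) (by rw [d]; ring)
  have e2 := eq w' (c • w) hw' (p _) (by rw [d, c2])
  have e3 := eq w' ((-c) • w) hw' (p _) (by rw [d, ← c2]; ring)
  have key : Lap μ W (v + w) + Lap μ W (v + (-1 : ℝ) • w) ≤
      ex (K * (w' ⬝ᵥ w' - w ⬝ᵥ w) / 2) * (Lap μ W (v + c • w) + Lap μ W (v + (-c) • w)) := by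
    unfold Lap
    rw [← lintegral_add_left (by fun_prop), ← lintegral_add_left (by fun_prop),
      ← lintegral_const_mul' _ _ (Conc.ex_ne_top _)]
    refine lintegral_mono_ae (hK.mono fun ω hω => ?_)
    have q : ∀ s : ℝ, (v + s • w) ⬝ᵥ W ω *ᵥ (v + s • w) / 2 =
        (v ⬝ᵥ W ω *ᵥ v + s * s * (w ⬝ᵥ W ω *ᵥ w)) / 2 + s * (v ⬝ᵥ W ω *ᵥ w) := fun s => by
      have : w ⬝ᵥ W ω *ᵥ v = v ⬝ᵥ W ω *ᵥ w := by rw [dot_symm hω.1, dotProduct_comm]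
      simp only [mulVec_add, mulVec_smul, add_dotProduct, dotProduct_add, smul_dotProduct,
        dotProduct_smul, smul_eq_mul, this]
      ring
    have q1 := q 1
    rw [one_smul] at q1
    rw [q1, q, q, q]
    have := @ex_cosh ((v ⬝ᵥ W ω *ᵥ v + w ⬝ᵥ W ω *ᵥ w) / 2)
      ((v ⬝ᵥ W ω *ᵥ v + c * c * (w ⬝ᵥ W ω *ᵥ w)) / 2) (v ⬝ᵥ W ω *ᵥ w) c
      (K * (w' ⬝ᵥ w' - w ⬝ᵥ w) / 2) c1 (by
        rw [← c2]
        nlinarith [mul_le_mul_of_nonneg_left (hω.2 w hw) (show 0 ≤ c * c - 1 by nlinarith)])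
    convert this using 3 <;> ring
  rw [e1, e2, e3, ← two_mul, ← two_mul, mul_left_comm] at key
  exact (ENNReal.mul_le_mul_iff_right (by norm_num) (by norm_num)).1 key

/-- **(QS)** -/
theorem qs {P : Matrix ι ι ℝ} (hP : IsProj P) {m : ℕ} (hm : P.trace = m) (h1 : 1 ≤ m)
    {μ : Measure Ω} [SFinite μ] {W : Ω → Matrix ι ι ℝ} (hW : Measurable W) (hi : Inv P μ W)
    {K z : ℝ} (hKz : 0 ≤ K + z) {v w : ι → ℝ} (hv : P *ᵥ v = 0) (hw : P *ᵥ w = w) (h0 : 0 < w ⬝ᵥ w)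
    (κ : Ω → ℝ)
    (hK : ∀ᵐ ω ∂μ, (W ω)ᵀ = W ω ∧ ∀ x, P *ᵥ x = x → -K * (x ⬝ᵥ x) ≤ x ⬝ᵥ W ω *ᵥ x ∧
      (x ≠ 0 → x ⬝ᵥ W ω *ᵥ x < z * (x ⬝ᵥ x)) ∧ (v + x) ⬝ᵥ W ω *ᵥ (v + x) - z * (x ⬝ᵥ x) ≤ κ ω)
    {N : ℕ} (hN1 : 1 ≤ N) (hN : 600 * (w ⬝ᵥ w) * (K + z) ≤ N) :
    Lap μ W (v + w) ≤
      2 * N * ex (1 + z * (w ⬝ᵥ w) / 2 - m / 2 + m * Real.log (m / (w ⬝ᵥ w)) / 2) *
        ∫⁻ ω, ex (κ ω / 2 - Real.log (cp P (z • 1 - W ω)).det / 2) ∂μ := by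
  refine shell hP hm h1 (fun w' => Lap μ W (v + w')) _ _ h0 hKz (fun w' hw' h => lap_mono hP hW hi
    (hK.mono fun ω hω => ⟨hω.1, fun x hx => (hω.2 x hx).1⟩) hv hw hw' h0 h) (fun a ha => ?_) hN1 hN
  unfold Lap
  simp_rw [← lintegral_mul_const' _ _ (Conc.ex_ne_top _)]
  rw [lintegral_lintegral_swap (by
    refine Measurable.aemeasurable ?_
    unfold Function.uncurry; fun_prop), ← lintegral_const_mul' _ _ (Conc.ex_ne_top _)]
  refine lintegral_mono_ae (hK.mono fun ω hω => ?_)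
  have hM : (z • (1 : Matrix ι ι ℝ) - W ω)ᵀ = z • 1 - W ω := by simp [hω.1]
  have hq : ∀ x, x ⬝ᵥ (z • (1 : Matrix ι ι ℝ) - W ω) *ᵥ x = z * (x ⬝ᵥ x) - x ⬝ᵥ W ω *ᵥ x :=
    fun x => by rw [sub_mulVec, smul_mulVec, one_mulVec, dotProduct_sub, dotProduct_smul, smul_eq_mul]
  have hp : ∀ x, P *ᵥ x = x → x ≠ 0 → 0 < x ⬝ᵥ (z • (1 : Matrix ι ι ℝ) - W ω) *ᵥ x :=
    fun x hx h => by rw [hq]; exact sub_pos.2 ((hω.2 x hx).2.1 h)
  have hB := pd_split hP hM hp one_pos (inv_pos.2 ha)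
  have hd := det_split hP hm (z • 1 - W ω) 1 a⁻¹
  rw [one_pow, one_mul] at hd
  set s := (√a)⁻¹ with hs
  have ss : s * s = a⁻¹ := by rw [hs, ← mul_inv, Real.mul_self_sqrt ha.le]
  have q : ∀ g, (v + s • P *ᵥ g) ⬝ᵥ W ω *ᵥ (v + s • P *ᵥ g) = v ⬝ᵥ W ω *ᵥ v +
      2 * ((s • P *ᵥ (W ω *ᵥ v)) ⬝ᵥ g) + a⁻¹ * (P *ᵥ g ⬝ᵥ W ω *ᵥ (P *ᵥ g)) := fun g => by
    have e1 : v ⬝ᵥ W ω *ᵥ (P *ᵥ g) = P *ᵥ (W ω *ᵥ v) ⬝ᵥ g := by rw [dot_symm hω.1, hP.dot]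
    have e2 : P *ᵥ g ⬝ᵥ W ω *ᵥ v = P *ᵥ (W ω *ᵥ v) ⬝ᵥ g := by rw [dotProduct_comm, hP.dot]
    simp only [mulVec_add, mulVec_smul, add_dotProduct, dotProduct_add, smul_dotProduct,
      dotProduct_smul, smul_eq_mul, e1, e2, ← ss]
    ring
  have h2 := gauss_quad_le hB (b := s • P *ᵥ (W ω *ᵥ v)) (κ := κ ω - v ⬝ᵥ W ω *ᵥ v) fun x => by
    have h3 := (hω.2 (s • P *ᵥ x) (by rw [mulVec_smul, hP.mulVec_mulVec])).2.2
    have h4 := hP.dot_le x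
    rw [q, smul_dotProduct s (P *ᵥ x), dotProduct_smul, smul_eq_mul, smul_eq_mul,
      ← mul_assoc s s, ss] at h3
    rw [quad_split hP, hq]
    linarith
  rw [hd, Real.log_mul (by positivity) (pd_cp hP hM hp).det_pos.ne', Real.log_pow, Real.log_inv]
    at h2
  have h5 := mul_le_mul_right h2 (ex (v ⬝ᵥ W ω *ᵥ v / 2))
  rw [← lintegral_const_mul' _ _ (Conc.ex_ne_top _), ← ex_add] at h5
  rw [← ex_add]
  refine le_trans (le_of_eq (lintegral_congr fun g => ?_)) (h5.trans (le_of_eq ?_))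
  · rw [← ex_add, ← ex_add, q, quad_split hP, hq]
    congr 1
    ring
  · congr 1
    ring

/-- **(QS)** with constants: `e^L ≤ det (z - W)`, `k = dim ker P` -/
theorem qs_const {P : Matrix ι ι ℝ} (hP : IsProj P) {m : ℕ} (hm : P.trace = m) (h1 : 1 ≤ m)
    {μ : Measure Ω} [SFinite μ] {W : Ω → Matrix ι ι ℝ} (hW : Measurable W) (hi : Inv P μ W)
    {K z κ L : ℝ} (hKz : 0 < K + z) {v w : ι → ℝ} (hv : P *ᵥ v = 0) (hw : P *ᵥ w = w)
    (h0 : 0 < w ⬝ᵥ w)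
    (hK : ∀ᵐ ω ∂μ, (W ω)ᵀ = W ω ∧ (∀ x, -K * (x ⬝ᵥ x) ≤ x ⬝ᵥ W ω *ᵥ x ∧
      (x ≠ 0 → x ⬝ᵥ W ω *ᵥ x < z * (x ⬝ᵥ x))) ∧ L ≤ Real.log (z • 1 - W ω).det ∧
      ∀ x, P *ᵥ x = x → (v + x) ⬝ᵥ W ω *ᵥ (v + x) - z * (x ⬝ᵥ x) ≤ κ)
    {N : ℕ} (hN1 : 1 ≤ N) (hN : 600 * (w ⬝ᵥ w) * (K + z) ≤ N) :
    Lap μ W (v + w) ≤
      2 * N * ex (1 + z * (w ⬝ᵥ w) / 2 - m / 2 + m * Real.log (m / (w ⬝ᵥ w)) / 2 + κ / 2 - L / 2 +
        (Fintype.card ι - m : ℕ) * Real.log (K + z) / 2) * μ Set.univ := by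
  refine (qs hP hm h1 hW hi hKz.le hv hw h0 (fun _ => κ) (hK.mono fun ω hω =>
    ⟨hω.1, fun x hx => ⟨(hω.2.1 x).1, (hω.2.1 x).2, hω.2.2.2 x hx⟩⟩) hN1 hN).trans ?_
  have : ∫⁻ ω, ex (κ / 2 - Real.log (cp P (z • 1 - W ω)).det / 2) ∂μ ≤
      ex (κ / 2 - L / 2 + (Fintype.card ι - m : ℕ) * Real.log (K + z) / 2) * μ Set.univ := by
    rw [← lintegral_const]
    refine lintegral_mono_ae (hK.mono fun ω hω => ex_mono ?_)
    have hM : (z • (1 : Matrix ι ι ℝ) - W ω)ᵀ = z • 1 - W ω := by simp [hω.1]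
    have hq : ∀ x, x ⬝ᵥ (z • (1 : Matrix ι ι ℝ) - W ω) *ᵥ x = z * (x ⬝ᵥ x) - x ⬝ᵥ W ω *ᵥ x :=
      fun x => by
        rw [sub_mulVec, smul_mulVec, one_mulVec, dotProduct_sub, dotProduct_smul, smul_eq_mul]
    have hB : PD (z • (1 : Matrix ι ι ℝ) - W ω) :=
      ⟨hM, fun x h => by rw [hq]; exact sub_pos.2 ((hω.2.1 x).2 h)⟩
    have h2 := det_pinch hP hm hB hKz fun x _ => by rw [hq]; have := (hω.2.1 x).1; linarith
    have h3 := Real.log_le_log hB.det_pos h2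
    rw [Real.log_mul (by positivity) (pd_cp hP hM fun x _ => hB.pos x).det_pos.ne',
      Real.log_pow] at h3
    have := hω.2.2.1
    linarith
  refine (mul_le_mul_right this _).trans (le_of_eq ?_)
  rw [← mul_assoc, mul_assoc (2 * (N : ℝ≥0∞)), ← ex_add]
  congr 3
  ring

end main

lemma Refl.conj_glue {P O A : Matrix ι ι ℝ} (hP : IsProj P) (hO : Refl P O) (hA : O * A * O = A)
    (W : Matrix ι ι ℝ) : O * glue A P W * O = glue A P (O * W * O) := by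
  have h1 : O * (1 - P) = 1 - P := ext_iff_mulVec.2 fun x => by
    rw [← mulVec_mulVec]
    exact hO.fix _ (by rw [sub_mulVec, one_mulVec, mulVec_sub, hP.mulVec_mulVec, sub_self])
  have h2 : (1 - P) * O = 1 - P := by
    simpa [hO.symm, hP.symm] using congrArg transpose h1
  have h3 : O * P = P * O := by
    rw [Matrix.mul_sub, Matrix.mul_one] at h1
    rw [Matrix.sub_mul, Matrix.one_mul, ← h1] at h2
    exact (sub_right_injective h2).symm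
  rw [glue, glue, Matrix.mul_add, Matrix.add_mul, hA]
  congr 1
  calc O * (P * W * P) * O = O * P * W * (P * O) := by simp only [Matrix.mul_assoc]
    _ = P * O * W * (O * P) := by rw [h3]
    _ = _ := by simp only [Matrix.mul_assoc]

/-- an equivariant function `F` of a GOE matrix, on an invariant event -/
theorem inv_goe {P : Matrix ι ι ℝ} (s : ℝ) {E : Set (Matrix ι ι ℝ)} (hE : MeasurableSet E)
    {F : Matrix ι ι ℝ → Matrix ι ι ℝ} (hF : Measurable F)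
    (h : ∀ O, Refl P O → ∀ W, (O * W * O ∈ E ↔ W ∈ E) ∧ (W ∈ E → F (O * W * O) = O * F W * O)) :
    Inv P ((goe ι s).restrict E) F := fun O hO x => by
  have h1 := goe_conj s O (by rw [hO.symm, hO.inv])
  rw [hO.symm] at h1
  unfold Lap
  rw [← lintegral_indicator hE, ← lintegral_indicator hE]
  conv_rhs => rw [← h1]
  rw [lintegral_map (Measurable.indicator (by fun_prop) hE) (by fun_prop)]
  refine lintegral_congr fun W => ?_
  by_cases hW : W ∈ E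
  · rw [Set.indicator_of_mem hW, Set.indicator_of_mem ((h O hO W).1.2 hW), (h O hO W).2 hW,
      ← mulVec_mulVec, ← mulVec_mulVec, dot_symm hO.symm x]
  · rw [Set.indicator_of_notMem hW, Set.indicator_of_notMem fun h' => hW ((h O hO W).1.1 h')]

end Crest.Agent.T157.Qs
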