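import Crest.Agent.T157.QeDef_24
import Crest.Agent.T157.QsB_98

/-!
# Row 157, part A2 (helper98): `Qe.qsStmt : QsStmt`
-/

set_option autoImplicit false
set_option maxHeartbeats 400000

noncomputable section

namespace Crest.Agent.T157.Qe

open Matrix Finset MeasureTheory Set
open scoped ENNReal
open Crest.Agent.T157.E Crest.Agent.T157.Cond Crest.Agent.T157.Dq
open Crest.Agent.T157.Conc (ex ex_add ex_mono)

namespace Qs98

variable {ι : Type*} [Fintype ι] [DecidableEq ι]

lemma trace_nat {P : Matrix ι ι ℝ} (hP : IsProj P) : ∃ m : ℕ, P.trace = m := by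
  have h : IsIdempotentElem (toLin' P) := by
    rw [IsIdempotentElem, Module.End.mul_eq_comp, ← Matrix.toLin'_mul, hP.idem]
  refine ⟨Module.finrank ℝ (LinearMap.range (toLin' P)), ?_⟩
  rw [← Matrix.trace_toLin'_eq]
  exact (LinearMap.IsIdempotentElem.isProj_range _ h).trace

lemma quad {W : Matrix ι ι ℝ} {a : ι → ℝ} (h : Dg W a) (x : ι → ℝ) : ∃ y : ι → ℝ,
    x ⬝ᵥ x = ∑ i, y i * y i ∧ x ⬝ᵥ W *ᵥ x = ∑ i, a i * (y i * y i) := by
  obtain ⟨O, hO, rfl⟩ := h
  refine ⟨Oᵀ *ᵥ x, ?_, ?_⟩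
  · change _ = Oᵀ *ᵥ x ⬝ᵥ Oᵀ *ᵥ x
    rw [dotProduct_mulVec, vecMul_transpose, mulVec_mulVec, hO, one_mulVec]
  · rw [← mulVec_mulVec, ← mulVec_mulVec, dotProduct_mulVec, ← mulVec_transpose]
    simp only [dotProduct, mulVec_diagonal]
    exact sum_congr rfl fun i _ => by ring

lemma logdet {W : Matrix ι ι ℝ} {a : ι → ℝ} (h : Dg W a) {z : ℝ} (hz : ∀ i, a i < z) :
    Real.log (z • (1 : Matrix ι ι ℝ) - W).det = ∑ i, Real.log (z - a i) := by
  have : Dg (z • (1 : Matrix ι ι ℝ) - W) fun i => z - a i := by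
    obtain ⟨O, hO, rfl⟩ := h
    refine ⟨O, hO, ?_⟩
    have : (diagonal fun i => z - a i) = z • (1 : Matrix ι ι ℝ) - diagonal a := by
      ext i j
      by_cases hij : i = j
      · subst hij; simp
      · simp [hij, one_apply_ne hij]
    rw [this, Matrix.mul_sub, Matrix.sub_mul, Matrix.mul_smul, Matrix.smul_mul, Matrix.mul_one, hO]
  rw [this.det, Real.log_prod fun i _ => (sub_pos.2 (hz i)).ne']

end Qs98

open Qs98

theorem qsStmt : QsStmt := by
  refine ⟨130, fun n P S ν Φ g0 E ξ n8 hQ hg hu => ?_⟩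
  have hP := hQ.proj
  haveI := hQ.fin
  obtain ⟨m, hm⟩ := trace_nat hP
  have n8' : (8 : ℝ) ≤ n := by exact_mod_cast n8
  have mn : m ≤ n := by simpa using (Qs.det_proj hP hm 1 1).2
  have m3 : (n : ℝ) - 3 ≤ m := hm ▸ hQ.tr
  have mn' : (m : ℝ) ≤ n := by exact_mod_cast mn
  have m1 : 1 ≤ m := by
    have : (1 : ℝ) ≤ m := by linarith
    exact_mod_cast this
  set w := P *ᵥ ξ with hw
  set v := ξ - w with hv
  set u := w ⬝ᵥ w / n with hu'
  have hr : w ⬝ᵥ w = n * u := by rw [hu']; field_simp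
  have u0 : 0 < u := by linarith [hu.1]
  set g := min u g0 with hg'
  have g1 : 1 / 64 ≤ g := le_min hu.1 (by linarith [hg.1])
  have g2 : g ≤ g0 := min_le_right _ _
  have g00 : 0 < g0 := by linarith [hg.1]
  have gp : 0 < g := by linarith
  have z1 : zz g0 ≤ zz g := by
    have : zz g - zz g0 = (g0 - g) * (1 - g * g0) / (g * g0) := by unfold zz; field_simp; ring
    have h2 : 0 ≤ (g0 - g) * (1 - g * g0) / (g * g0) :=
      div_nonneg (mul_nonneg (by linarith) (by nlinarith [hg.2])) (by positivity)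
    linarith
  have z2 : zz g ≤ 65 := by
    have : 1 / g ≤ 64 := by rw [div_le_iff₀ gp]; linarith
    unfold zz; linarith [hg.2]
  have z0 : 0 < zz g := by unfold zz; positivity
  have pv : P *ᵥ v = 0 := by rw [hv, mulVec_sub, hw, hP.mulVec_mulVec, sub_self]
  have hi : Qs.Inv P ν Φ := fun O hO x => hQ.inv O (by rw [hO.symm, hO.inv])
    (ext_iff_mulVec.2 fun y => by
      rw [← mulVec_mulVec]
      exact hO.fix _ (by rw [sub_mulVec, one_mulVec, mulVec_sub, hP.mulVec_mulVec, sub_self])) x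
  have key := Qs.qs_const hP hm m1 hQ.meas hi (K := 4) (z := zz g)
    (κ := v ⬝ᵥ (zz g0 • (1 : Mx n) - S) *ᵥ v) (L := n * ell g - E) (by linarith) pv
    (hP.mulVec_mulVec ξ) (by rw [← hw, hr]; positivity) (hQ.ae.mono fun W hW => by
      obtain ⟨⟨a, ha, h1, h2⟩, h3⟩ := hW
      refine ⟨ha.symm, fun x => ?_, ?_, fun x hx => ?_⟩
      · obtain ⟨y, e1, e2⟩ := quad ha x
        refine ⟨?_, fun h0 => ?_⟩
        · rw [e1, e2, mul_sum]
          exact sum_le_sum fun i _ => mul_le_mul_of_nonneg_right (h1 i).1 (mul_self_nonneg _)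
        · have h4 : ∃ i, y i ≠ 0 := by
            by_contra h
            push Not at h
            exact h0 (dotProduct_self_eq_zero.1 (by rw [e1]; simp [h]))
          obtain ⟨i, hi⟩ := h4
          rw [e1, e2, mul_sum]
          exact sum_lt_sum (fun i _ => mul_le_mul_of_nonneg_right ((h1 i).2.le.trans z1)
            (mul_self_nonneg _)) ⟨i, mem_univ _, mul_lt_mul_of_pos_right ((h1 i).2.trans_le z1)
              (mul_self_pos.2 hi)⟩
      · rw [logdet ha fun i => (h1 i).2.trans_le z1]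
        exact h2 g ⟨g1, g2⟩
      · have h4 := h3 (v + x)
        have sx : S *ᵥ x = 0 := by rw [← hx, mulVec_mulVec, hQ.zero, zero_mulVec]
        have xs : x ⬝ᵥ S *ᵥ v = 0 := by rw [dot_symm hQ.symm, sx, zero_dotProduct]
        have xv : x ⬝ᵥ v = 0 := by rw [← hx, ← hP.dot, pv, dotProduct_zero]
        rw [add_mulVec, dotProduct_add, mulVec_add S, sx, add_zero, add_dotProduct v x (S *ᵥ v), xs,
          smul_mulVec, one_mulVec, dotProduct_smul, add_dotProduct v x (v + x), dotProduct_add v,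
          dotProduct_add x, dotProduct_comm v x, xv, smul_eq_mul] at h4
        rw [sub_mulVec, smul_mulVec, one_mulVec, dotProduct_sub, dotProduct_smul, smul_eq_mul]
        nlinarith [mul_le_mul_of_nonneg_right z1 (dot_self_nonneg x)])
    (N := 414000 * n) (by omega) (by
      rw [← hw, hr]
      push_cast
      have : u * (4 + zz g) ≤ 10 * 69 := mul_le_mul hu.2 (by linarith) (by linarith) (by norm_num)
      nlinarith)
  rw [← hw, show v + w = ξ by rw [hv, sub_add_cancel]] at key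
  refine key.trans ?_
  rw [mul_comm (ν univ)]
  refine mul_le_mul_left ?_ _
  have l1 : 1 ≤ Real.log n := by
    rw [Real.le_log_iff_exp_le (by linarith)]
    linarith [Real.exp_one_lt_d9]
  have hN : (2 : ℝ≥0∞) * ((414000 * n : ℕ) : ℝ≥0∞) ≤ ex (8 * Real.log n) := by
    rw [ex, show (8 : ℝ) * Real.log n = Real.log ((n : ℝ) ^ 8) by rw [Real.log_pow]; norm_num,
      Real.exp_log (by positivity), ← Nat.cast_pow, ENNReal.ofReal_natCast]
    have : 8 ^ 7 ≤ n ^ 7 := Nat.pow_le_pow_left n8 7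
    have h2 : 2 * (414000 * n) ≤ n ^ 8 := by rw [pow_succ]; nlinarith
    exact_mod_cast h2
  refine (mul_le_mul_left hN _).trans ?_
  rw [← ex_add]
  refine ex_mono ?_
  have e1 : ((Fintype.card (Fin n) - m : ℕ) : ℝ) = n - m := by
    rw [Fintype.card_fin, Nat.cast_sub mn]
  have a1 : (n - m) * Real.log (4 + zz g) ≤ 3 * 68 := by
    have := Real.log_le_sub_one_of_pos (show 0 < 4 + zz g by linarith)
    exact mul_le_mul (by linarith) (by linarith) (Real.log_nonneg (by linarith)) (by norm_num)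
  have a2 : m * Real.log (m / (n * u)) ≤ -(n * Real.log u) + 27 := by
    have m0 : (0 : ℝ) < m := by linarith
    have b1 : Real.log (m / (n * u)) = Real.log (m / n) - Real.log u := by
      rw [← Real.log_div (by positivity) u0.ne', div_div]
    have b2 : Real.log (m / n) ≤ 0 :=
      Real.log_nonpos (by positivity) ((div_le_one (by linarith)).2 mn')
    have b3 := Real.log_le_sub_one_of_pos u0
    have b4 : (n - m) * Real.log u ≤ 27 := by nlinarith [hu.2]
    rw [b1]
    nlinarith [mul_nonpos_of_nonneg_of_nonpos m0.le b2]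
  rw [e1, hr, Jb, ← hg']
  push_cast
  nlinarith

end Crest.Agent.T157.Qe
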