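import Crest.Agent.T157.QeDef_24

/-!
# Row 157, part A2 (helper61): the tilt bound `Qe.TiGlue`

Cameron–Martin for the planted direction, an exponential Chebyshev bound for `τ·(z₀-W)⁻¹τ`
and the spherical integral bound `QsStmt` for `Φ = W + λ (z₀-W)⁻¹`.
-/

set_option autoImplicit false

noncomputable section

namespace Crest.Agent.T157.Qe

open Matrix Finset MeasureTheory Set
open scoped ENNReal
open Crest.Agent.T157.E Crest.Agent.T157.Cond Crest.Agent.T157.Dq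
open Crest.Agent.T157.Conc (ex ex_add ex_mono ex_zero ex_ne_top measurable_ex)

namespace Ti61

variable {n : ℕ}

lemma psd_cs {Y : Mx n} (hY : Yᵀ = Y) (h : ∀ u : V n, 0 ≤ u ⬝ᵥ Y *ᵥ u) (x u : V n) :
    (x ⬝ᵥ Y *ᵥ u) ^ 2 ≤ (x ⬝ᵥ Y *ᵥ x) * (u ⬝ᵥ Y *ᵥ u) := by
  have e : u ⬝ᵥ Y *ᵥ x = x ⬝ᵥ Y *ᵥ u := by rw [dot_symm hY, dotProduct_comm]
  have h1 : ∀ t : ℝ, 0 ≤ (u ⬝ᵥ Y *ᵥ u) * (t * t) + (2 * (x ⬝ᵥ Y *ᵥ u)) * t + x ⬝ᵥ Y *ᵥ x := by
    intro t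
    have := h (x + t • u)
    simp only [mulVec_add, mulVec_smul, add_dotProduct, dotProduct_add, smul_dotProduct,
      dotProduct_smul, smul_eq_mul, e] at this
    linarith
  have := discrim_le_zero h1
  rw [discrim] at this
  nlinarith

lemma quad_conj (O : Mx n) (m : V n) (u : V n) :
    u ⬝ᵥ (O * diagonal m * Oᵀ) *ᵥ u = ∑ i, m i * (Oᵀ *ᵥ u) i ^ 2 := by
  rw [← mulVec_mulVec, ← mulVec_mulVec, dotProduct_mulVec, ← mulVec_transpose]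
  simp only [dotProduct, mulVec_diagonal]
  exact sum_congr rfl fun i _ => by ring

lemma dot_conj {O : Mx n} (hO : O * Oᵀ = 1) (u : V n) :
    u ⬝ᵥ u = ∑ i, (Oᵀ *ᵥ u) i ^ 2 := by
  have := quad_conj O (fun _ => 1) u
  simpa [hO] using this

lemma dg_le {X : Mx n} {a : V n} (h : Dg X a) {k : ℝ} (hk : ∀ i, a i ≤ k) (u : V n) :
    u ⬝ᵥ X *ᵥ u ≤ k * (u ⬝ᵥ u) := by
  obtain ⟨O, hO, rfl⟩ := h
  rw [quad_conj, dot_conj hO, mul_sum]
  exact sum_le_sum fun i _ => mul_le_mul_of_nonneg_right (hk i) (sq_nonneg _)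

lemma conj_sub {O : Mx n} (hO : O * Oᵀ = 1) (z : ℝ) (X : Mx n) :
    z • (1 : Mx n) - O * X * Oᵀ = O * (z • (1 : Mx n) - X) * Oᵀ := by
  rw [Matrix.mul_sub, Matrix.sub_mul, Matrix.mul_smul, Matrix.smul_mul, Matrix.mul_one, hO]

lemma conj_inv {O : Mx n} (hO : O * Oᵀ = 1) (Y : Mx n) : (O * Y * Oᵀ)⁻¹ = O * Y⁻¹ * Oᵀ := by
  have h1 : O⁻¹ = Oᵀ := Matrix.inv_eq_right_inv hO
  have h2 : Oᵀ⁻¹ = O := Matrix.inv_eq_left_inv hO
  rw [Matrix.mul_inv_rev, Matrix.mul_inv_rev, h1, h2, Matrix.mul_assoc]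

/-- the tilted matrix -/
def Ph (z l : ℝ) (X : Mx n) : Mx n := X + l • (z • (1 : Mx n) - X)⁻¹

lemma Ph_conj {O : Mx n} (hO : O * Oᵀ = 1) (z l : ℝ) (X : Mx n) :
    Ph z l (O * X * Oᵀ) = O * Ph z l X * Oᵀ := by
  rw [Ph, Ph, conj_sub hO, conj_inv hO, Matrix.mul_add, Matrix.add_mul, Matrix.mul_smul,
    Matrix.smul_mul]

lemma diag_sub (z : ℝ) (a : V n) :
    z • (1 : Mx n) - diagonal a = diagonal fun i => z - a i := by
  rw [smul_one_eq_diagonal, diagonal_sub]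

lemma diag_mul {z : ℝ} {a : V n} (h : ∀ i, a i < z) :
    (z • (1 : Mx n) - diagonal a) * diagonal (fun i => (z - a i)⁻¹) = 1 := by
  rw [diag_sub, diagonal_mul_diagonal, ← diagonal_one]
  congr 1; funext i
  exact mul_inv_cancel₀ (sub_pos.2 (h i)).ne'

lemma dg_inv {X : Mx n} {a : V n} (h : Dg X a) {z : ℝ} (hz : ∀ i, a i < z) :
    Dg (z • (1 : Mx n) - X)⁻¹ (fun i => (z - a i)⁻¹) ∧
      (z • (1 : Mx n) - X) * (z • (1 : Mx n) - X)⁻¹ = 1 := by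
  obtain ⟨O, hO, rfl⟩ := h
  have h1 := Matrix.inv_eq_right_inv (diag_mul hz)
  have h2 : Oᵀ * O = 1 := mul_eq_one_comm.1 hO
  refine ⟨⟨O, hO, by rw [conj_sub hO, conj_inv hO, h1]⟩, ?_⟩
  rw [conj_sub hO, conj_inv hO, h1]
  calc O * (z • 1 - diagonal a) * Oᵀ * (O * diagonal (fun i => (z - a i)⁻¹) * Oᵀ)
      = O * ((z • 1 - diagonal a) * (Oᵀ * O) * diagonal (fun i => (z - a i)⁻¹)) * Oᵀ := by
        simp only [Matrix.mul_assoc]
    _ = 1 := by rw [h2, Matrix.mul_one, diag_mul hz, Matrix.mul_one, hO]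

lemma dg_Ph {X : Mx n} {a : V n} (h : Dg X a) {z : ℝ} (hz : ∀ i, a i < z) (l : ℝ) :
    Dg (Ph z l X) fun i => a i + l * (z - a i)⁻¹ := by
  obtain ⟨O, hO, rfl⟩ := h
  refine ⟨O, hO, ?_⟩
  rw [Ph_conj hO, Ph, Matrix.inv_eq_right_inv (diag_mul hz), ← diagonal_smul, diagonal_add]
  rfl

lemma measurable_Ph (z l : ℝ) : Measurable (Ph (n := n) z l) := by
  have hc : Continuous fun X : Mx n => z • (1 : Mx n) - X := continuous_const.sub continuous_id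
  have h : Measurable fun X : Mx n => (z • (1 : Mx n) - X)⁻¹ := by
    simp only [Matrix.inv_def, Ring.inverse_eq_inv']
    exact Measurable.t157_smul hc.matrix_det.measurable.inv hc.matrix_adjugate.measurable
  unfold Ph; fun_prop

/-- the matrix with prescribed column -/
def W0 (e c : V n) (W : Mx n) : Mx n := glue (rk2 c e) (R1 e) W

lemma measurable_W0 (e c : V n) : Measurable (W0 e c) := by unfold W0; fun_prop

lemma conj_vmv (O : Mx n) (u v : V n) :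
    O * vecMulVec u v * Oᵀ = vecMulVec (O *ᵥ u) (O *ᵥ v) := by
  rw [Matrix.mul_vecMulVec, vmv_mul, transpose_transpose]

lemma W0_conj {O : Mx n} (hO : O * Oᵀ = 1) {e c : V n} (he : O *ᵥ e = e) (hc : O *ᵥ c = c)
    (W : Mx n) : W0 e c (O * W * Oᵀ) = O * W0 e c W * Oᵀ := by
  have h2 : Oᵀ * O = 1 := mul_eq_one_comm.1 hO
  have h3 : O * R1 e * Oᵀ = R1 e := by
    rw [R1, Matrix.mul_sub, Matrix.sub_mul, Matrix.mul_one, hO, conj_vmv, he]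
  have h4 : O * rk2 c e * Oᵀ = rk2 c e := by
    simp only [rk2, Matrix.mul_sub, Matrix.sub_mul, Matrix.mul_add, Matrix.add_mul,
      Matrix.mul_smul, Matrix.smul_mul, conj_vmv, he, hc]
  rw [W0, W0, glue, glue, Matrix.mul_add, Matrix.add_mul, h4]
  congr 1
  conv_lhs => rw [← h3]
  calc O * R1 e * Oᵀ * (O * W * Oᵀ) * (O * R1 e * Oᵀ)
      = O * (R1 e * (Oᵀ * O) * W * (Oᵀ * O) * R1 e) * Oᵀ := by simp only [Matrix.mul_assoc]
    _ = _ := by rw [h2, Matrix.mul_one, Matrix.mul_one]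

section unit
variable {e : V n} (he : e ⬝ᵥ e = 1)
include he

lemma R1_e : R1 e *ᵥ e = 0 := by
  rw [R1, sub_mulVec, one_mulVec, vmv_mulVec, he, one_smul, sub_self]

lemma proj_R1 : IsProj (R1 e) := by
  refine IsProj.compl ⟨transpose_vecMulVec _ _, ?_⟩
  rw [Matrix.mul_vecMulVec, vmv_mulVec, he, one_smul]

lemma W0_e (c : V n) (W : Mx n) : W0 e c W *ᵥ e = c := by
  rw [W0, glue, add_mulVec, ← mulVec_mulVec, R1_e he, mulVec_zero, add_zero, rk2, sub_mulVec,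
    add_mulVec, smul_mulVec, vmv_mulVec, vmv_mulVec, vmv_mulVec, he, one_smul, one_smul,
    dotProduct_comm c e, add_sub_cancel_right]

lemma P2_e (c : V n) : P2 e c *ᵥ e = 0 := nextR_mulVec_of (proj_R1 he) c (R1_e he)

lemma P2_c (c : V n) : P2 e c *ᵥ c = 0 := nextR_v (proj_R1 he) c

lemma tr_P2 (c : V n) : (n : ℝ) - 3 ≤ (P2 e c).trace := by
  have := unitv_dot_le (R1 e *ᵥ c)
  rw [P2, nextR, trace_sub, trace_vecMulVec, dirv, R1, trace_sub, trace_vecMulVec, he, trace_one,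
    Fintype.card_fin]
  rw [R1] at this
  linarith

lemma e_e3 (c : V n) : e ⬝ᵥ unitv (bv e c) = 0 := by
  have := R_dirv (proj_R1 he) c
  rw [dirv] at this
  rw [bv, ← this, (proj_R1 he).dot, R1_e he, zero_dotProduct]

lemma c_e3 (c : V n) : (c ⬝ᵥ unitv (bv e c)) ^ 2 = bv e c ⬝ᵥ bv e c := by
  have := dirv_dot_v (proj_R1 he) c
  rw [dirv] at this
  rw [dotProduct_comm, bv, this, len_sq]

end unit

lemma R1_of {e τ : V n} (h : e ⬝ᵥ τ = 0) : R1 e *ᵥ τ = τ := by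
  rw [R1, sub_mulVec, one_mulVec, vmv_mulVec, h, zero_smul, sub_zero]

lemma quad_W0 {e τ : V n} (he : e ⬝ᵥ e = 1) (h : e ⬝ᵥ τ = 0) (c : V n) (W : Mx n) :
    τ ⬝ᵥ W0 e c W *ᵥ τ = τ ⬝ᵥ W *ᵥ τ := by
  rw [W0, glue, add_mulVec, dotProduct_add, ← mulVec_mulVec, ← mulVec_mulVec, R1_of h,
    (proj_R1 he).dot, R1_of h, rk2, sub_mulVec, add_mulVec, smul_mulVec, vmv_mulVec, vmv_mulVec,
    vmv_mulVec, h]
  simp [dotProduct_comm τ e, h]

lemma quad_vmv (k : ℝ) (x u : V n) : u ⬝ᵥ (k • vecMulVec x x) *ᵥ u = k * (x ⬝ᵥ u) ^ 2 := by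
  rw [smul_mulVec, vmv_mulVec, dotProduct_smul, dotProduct_smul, dotProduct_comm u x]
  simp only [smul_eq_mul]; ring

lemma quad_one (z : ℝ) (u : V n) : u ⬝ᵥ (z • (1 : Mx n)) *ᵥ u = z * (u ⬝ᵥ u) := by
  rw [smul_mulVec, one_mulVec, dotProduct_smul, smul_eq_mul]

lemma zz_eq {g : ℝ} (hg : 0 < g) : zz g = 2 + (1 - g) ^ 2 / g := by
  unfold zz; field_simp; ring

lemma zz_anti {g g' : ℝ} (h0 : 0 < g) (h : g ≤ g') (h1 : g' ≤ 1) : zz g' ≤ zz g := by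
  have h2 : 0 < g' := h0.trans_le h
  have : zz g - zz g' = (g' - g) * (1 - g * g') / (g * g') := by unfold zz; field_simp; ring
  have h3 : 0 ≤ (g' - g) * (1 - g * g') / (g * g') :=
    div_nonneg (mul_nonneg (by linarith) (by nlinarith)) (by positivity)
  linarith

lemma Jb_le {g u : ℝ} (hg : 9 / 10 ≤ g) (hg1 : g ≤ 1) (hu : 0 < u) (hu1 : u ≤ 1) :
    Jb g u ≤ u ^ 2 / 4 + (1 - g) ^ 3 := by
  have h3 : 0 ≤ (1 - g) ^ 3 := pow_nonneg (by linarith) 3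
  rcases le_total u g with h | h
  · have : Jb g u = u ^ 2 / 4 := by
      simp only [Jb, min_eq_left h, zz, ell]; field_simp; ring
    linarith
  · have hg0 : 0 < g := by linarith
    obtain ⟨y, hy⟩ : ∃ y, y = u / g - 1 := ⟨_, rfl⟩
    have hy0 : 0 ≤ y := by rw [hy, sub_nonneg, le_div_iff₀ hg0]; linarith
    have hu' : u = g * (1 + y) := by rw [hy]; field_simp; ring
    have hl : Real.log u = Real.log g + Real.log (1 + y) := by
      rw [hu', Real.log_mul hg0.ne' (by linarith)]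
    have h1 := Real.le_log_one_add_of_nonneg hy0
    have h2 : y - y ^ 2 / 2 ≤ 2 * y / (y + 2) := by
      rw [le_div_iff₀ (by linarith)]; nlinarith [mul_nonneg hy0 (mul_nonneg hy0 hy0)]
    have h4 : Jb g u = u ^ 2 / 4 - (g * y) ^ 2 / 4 + y / 2 - Real.log (1 + y) / 2 := by
      simp only [Jb, min_eq_right h, zz, ell, hl]
      rw [hu']; field_simp; ring
    have h5 : g * y ≤ 1 - g := by nlinarith
    have h6 : y ≤ 10 / 9 * (1 - g) := by nlinarith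
    have h7 : y ^ 2 ≤ (10 / 9 * (1 - g)) ^ 2 := pow_le_pow_left₀ hy0 h6 2
    have h8 : y ^ 2 * (1 - g ^ 2) ≤ (10 / 9 * (1 - g)) ^ 2 * (2 * (1 - g)) :=
      mul_le_mul h7 (by nlinarith) (by nlinarith) (by positivity)
    rw [h4]; nlinarith

lemma log_sub_ge {x y d : ℝ} (hd : 0 < d) (hx : d ≤ x) (hy : 0 ≤ y) (hyd : y ≤ d / 2) :
    Real.log x - 2 * (y / d) ≤ Real.log (x - y) := by
  have hx0 : 0 < x := hd.trans_le hx
  have h1 : 0 < x - y := by linarith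
  have h2 := Real.log_le_sub_one_of_pos (div_pos hx0 h1)
  rw [Real.log_div hx0.ne' h1.ne'] at h2
  have h3 : x / (x - y) - 1 ≤ 2 * (y / d) := by
    rw [show x / (x - y) - 1 = y / (x - y) by field_simp; ring,
      show 2 * (y / d) = y / (d / 2) by field_simp]
    exact div_le_div_of_nonneg_left hy (by linarith) (by linarith)
  linarith

section main
variable {ε q E Cw : ℝ} {e c τ : V n} {S : Set (Mx n)}

lemma consts (hp : Par n ε q) : 0 < ε ^ 2 * q ∧ ε ^ 2 * q ≤ 1 / 100 ∧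
    2 + ε ^ 4 * q ^ 2 ≤ zz (gg ε q) ∧
    zz (gg ε q) + 2 * (ε ^ 4 * q ^ 2) ≤ zz (gg ε (2 * q)) := by
  have h0 := hp.e0
  have h1 := hp.e1
  have h2 := hp.q0
  have h3 := hp.q1
  have h4 : ε ^ 3 ≤ 1 := pow_le_one₀ h0.le (by linarith)
  have h5 : ε ^ 2 ≤ 1 := pow_le_one₀ h0.le (by linarith)
  have hx : 0 < ε ^ 2 * q := by positivity
  have hx1 : ε ^ 2 * q ≤ 1 / 100 := by nlinarith
  obtain ⟨x, hxe⟩ : ∃ x, x = ε ^ 2 * q := ⟨_, rfl⟩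
  have e1 : gg ε q = 1 - x := by rw [gg, hxe]
  have e2 : gg ε (2 * q) = 1 - 2 * x := by rw [gg, hxe]; ring
  have e3 : ε ^ 4 * q ^ 2 = x ^ 2 := by rw [hxe]; ring
  rw [← hxe] at hx hx1 ⊢
  rw [e1, e2, e3, zz_eq (by linarith), zz_eq (by linarith)]
  have a1 : x ^ 2 ≤ (1 - (1 - x)) ^ 2 / (1 - x) := by
    rw [le_div_iff₀ (by linarith)]; nlinarith [mul_pos hx (mul_pos hx hx)]
  have a2 : (1 - (1 - x)) ^ 2 / (1 - x) ≤ 2 * x ^ 2 := by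
    rw [div_le_iff₀ (by linarith)]; nlinarith [mul_pos hx hx]
  have a3 : 4 * x ^ 2 ≤ (1 - (1 - 2 * x)) ^ 2 / (1 - 2 * x) := by
    rw [le_div_iff₀ (by linarith)]; nlinarith [mul_pos hx (mul_pos hx hx)]
  exact ⟨hx, hx1, by linarith, by linarith⟩

lemma psd_of {X : Mx n} {a : V n} (h : Dg X a) {z : ℝ} (hz : ∀ i, a i ≤ z) (u : V n) :
    0 ≤ u ⬝ᵥ (z • (1 : Mx n) - X) *ᵥ u := by
  rw [sub_mulVec, dotProduct_sub, quad_one]
  linarith [dg_le h hz u]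

lemma symm_of {X : Mx n} {a : V n} (h : Dg X a) (z : ℝ) :
    (z • (1 : Mx n) - X)ᵀ = z • (1 : Mx n) - X := by
  rw [transpose_sub, transpose_smul, transpose_one, h.symm]

lemma ae_ok (hp : Par n ε q) (hW : WS ε q E Cw S) (hF : FS ε q e c τ) {X : Mx n} (hX : X ∈ S)
    (hc : X *ᵥ e = c) :
    Sp (gg ε (2 * q)) (E + ε ^ 6 * q ^ 3 * Cw * n / 4)
        (Ph (zz (gg ε q)) ((ε ^ 4 * q ^ 2 / 2) ^ 2 / 2) X) ∧
      Le (Ph (zz (gg ε q)) ((ε ^ 4 * q ^ 2 / 2) ^ 2 / 2) X + Sg (zz (gg ε q)) e c)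
        (zz (gg ε (2 * q)) • (1 : Mx n)) := by
  obtain ⟨hx, hx1, hz0, hz1⟩ := consts hp
  obtain ⟨a, hd, ha, hl, hs⟩ := hW.sp X hX
  have h0 := hp.e0
  have h2 := hp.q0
  obtain ⟨b, hb⟩ : ∃ b, b = ε ^ 4 * q ^ 2 / 2 := ⟨_, rfl⟩
  obtain ⟨z, hz⟩ : ∃ z, z = zz (gg ε q) := ⟨_, rfl⟩
  have hpos := hF.pos
  rw [← hz] at hz0 hz1 hs hpos ⊢
  rw [← hb] at ha ⊢
  have hb0 : 0 < b := by rw [hb]; positivity
  have hab : ∀ i, b ≤ z - a i := fun i => by linarith [(ha i).2]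
  have haz : ∀ i, a i < z := fun i => by linarith [hab i]
  have hinv : ∀ i, (z - a i)⁻¹ ≤ b⁻¹ := fun i => inv_anti₀ hb0 (hab i)
  have hinv0 : ∀ i, 0 < (z - a i)⁻¹ := fun i => inv_pos.2 (by linarith [hab i])
  have hlam : ∀ i, b ^ 2 / 2 * (z - a i)⁻¹ ≤ b / 2 := fun i => by
    calc b ^ 2 / 2 * (z - a i)⁻¹ ≤ b ^ 2 / 2 * b⁻¹ := mul_le_mul_of_nonneg_left (hinv i) (by positivity)
      _ = b / 2 := by field_simp
  have hlam0 : ∀ i, 0 ≤ b ^ 2 / 2 * (z - a i)⁻¹ := fun i => by have := hinv0 i; positivity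
  refine ⟨⟨_, dg_Ph hd haz _, fun i => ⟨by linarith [(ha i).1, hlam0 i],
    by linarith [hlam i, haz i]⟩, fun g hg => ?_⟩, fun u => ?_⟩
  · have hg1 : gg ε (2 * q) ≤ gg ε q := by unfold gg; nlinarith
    have hzg : zz (gg ε (2 * q)) ≤ zz g := zz_anti (by linarith [hg.1]) hg.2 (by unfold gg; nlinarith)
    have h3 := hl g ⟨hg.1, hg.2.trans hg1⟩
    have h4 : ∀ i, Real.log (zz g - a i) - b ^ 2 * ((z - a i) ^ 2)⁻¹ ≤
        Real.log (zz g - (a i + b ^ 2 / 2 * (z - a i)⁻¹)) := fun i => by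
      have := log_sub_ge (x := zz g - a i) (y := b ^ 2 / 2 * (z - a i)⁻¹) (d := z - a i)
        (by linarith [haz i]) (by linarith) (hlam0 i) (by linarith [hlam i, hab i])
      have h5 : z - a i ≠ 0 := by linarith [haz i] |> fun h : 0 < z - a i => h.ne'
      rw [show 2 * (b ^ 2 / 2 * (z - a i)⁻¹ / (z - a i)) = b ^ 2 * ((z - a i) ^ 2)⁻¹ by
        field_simp, sub_sub] at this
      exact this
    have h5 := sum_le_sum fun i (_ : i ∈ (univ : Finset (Fin n))) => h4 i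
    rw [sum_sub_distrib, ← mul_sum] at h5
    have h6 : b ^ 2 * ∑ i, ((z - a i) ^ 2)⁻¹ ≤ ε ^ 6 * q ^ 3 * Cw * n / 4 := by
      calc _ ≤ b ^ 2 * (Cw * n / (ε ^ 2 * q)) := by gcongr
        _ = _ := by rw [hb]; field_simp; ring
    linarith
  · have hY := psd_cs (symm_of hd z) (psd_of hd fun i => (haz i).le) u e
    have hYe : (z • (1 : Mx n) - X) *ᵥ e = z • e - c := by
      rw [sub_mulVec, smul_mulVec, one_mulVec, hc]
    have hee : e ⬝ᵥ (z • e - c) = z - e ⬝ᵥ c := by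
      rw [dotProduct_sub, dotProduct_smul, hF.unit, smul_eq_mul, mul_one]
    rw [hYe, hee, sub_mulVec, dotProduct_sub u (_ *ᵥ u), quad_one] at hY
    have h7 := dg_le (dg_inv hd haz).1 hinv u
    have h8 : (z - e ⬝ᵥ c)⁻¹ * ((z • e - c) ⬝ᵥ u) ^ 2 ≤ z * (u ⬝ᵥ u) - u ⬝ᵥ X *ᵥ u := by
      rw [inv_mul_le_iff₀ hpos, dotProduct_comm, mul_comm]; exact hY
    have h9 : b ^ 2 / 2 * (u ⬝ᵥ (z • (1 : Mx n) - X)⁻¹ *ᵥ u) ≤ b / 2 * (u ⬝ᵥ u) := by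
      calc _ ≤ b ^ 2 / 2 * (b⁻¹ * (u ⬝ᵥ u)) := by gcongr
        _ = _ := by field_simp
    have h10 := dot_self_nonneg u
    rw [Ph, Sg, add_mulVec, add_mulVec, dotProduct_add, dotProduct_add, quad_vmv, quad_one,
      smul_mulVec, dotProduct_smul, smul_eq_mul]
    nlinarith

lemma gain (hp : Par n ε q) (hW : WS ε q E Cw S) (hF : FS ε q e c τ) {X : Mx n} (hX : X ∈ S)
    (h : ¬ Le (X + Tm ε q τ) (zz (gg ε q) • (1 : Mx n))) :
    ε / q ^ 2 * (τ ⬝ᵥ τ) ≤ τ ⬝ᵥ (zz (gg ε q) • (1 : Mx n) - X)⁻¹ *ᵥ τ := by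
  obtain ⟨hx, hx1, hz0, hz1⟩ := consts hp
  obtain ⟨a, hd, ha, -, -⟩ := hW.sp X hX
  have h0 := hp.e0
  have h2 := hp.q0
  have hn : (8 : ℝ) ≤ n := by exact_mod_cast hp.n8
  have ht : 0 < τ ⬝ᵥ τ := by linarith [hF.t1]
  obtain ⟨z, hz⟩ : ∃ z, z = zz (gg ε q) := ⟨_, rfl⟩
  rw [← hz] at hz0 h ⊢
  have hb0 : 0 < ε ^ 4 * q ^ 2 := by positivity
  have haz : ∀ i, a i < z := fun i => by linarith [(ha i).2]
  obtain ⟨u, hu⟩ := not_forall.1 h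
  rw [not_le, add_mulVec, dotProduct_add, Tm, quad_vmv, quad_one] at hu
  have hY := psd_cs (symm_of hd z) (psd_of hd fun i => (haz i).le) u
    ((z • (1 : Mx n) - X)⁻¹ *ᵥ τ)
  have h3 := psd_of hd (fun i => (haz i).le) u
  rw [mulVec_mulVec, (dg_inv hd haz).2, one_mulVec, dotProduct_comm u τ,
    dotProduct_comm (_ *ᵥ τ) τ] at hY
  rw [sub_mulVec, dotProduct_sub, quad_one] at hY h3
  obtain ⟨y, hy⟩ : ∃ y, y = z * (u ⬝ᵥ u) - u ⬝ᵥ X *ᵥ u := ⟨_, rfl⟩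
  obtain ⟨G, hG⟩ : ∃ G, G = τ ⬝ᵥ (z • (1 : Mx n) - X)⁻¹ *ᵥ τ := ⟨_, rfl⟩
  rw [← hy] at hY h3
  rw [← hG] at hY ⊢
  have hk : 0 < q ^ 2 / ε / (τ ⬝ᵥ τ) := by positivity
  have h4 : y < q ^ 2 / ε / (τ ⬝ᵥ τ) * (y * G) := by
    have := mul_le_mul_of_nonneg_left hY hk.le
    linarith
  have h5 : 1 ≤ q ^ 2 / ε / (τ ⬝ᵥ τ) * G := by
    by_contra h6
    rw [not_le] at h6
    nlinarith [mul_nonneg h3 (sub_pos.2 h6).le]
  calc ε / q ^ 2 * (τ ⬝ᵥ τ) = ε / q ^ 2 * (τ ⬝ᵥ τ) * 1 := (mul_one _).symm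
    _ ≤ ε / q ^ 2 * (τ ⬝ᵥ τ) * (q ^ 2 / ε / (τ ⬝ᵥ τ) * G) := by gcongr
    _ = G := by field_simp

lemma inv_ok (hS : MeasurableSet S) (hi : ∀ O W : Mx n, O * Oᵀ = 1 → W ∈ S → O * W * Oᵀ ∈ S)
    (he : e ⬝ᵥ e = 1) (z l : ℝ) :
    Inv (P2 e c) ((GOE n).restrict (W0 e c ⁻¹' S)) fun W => Ph z l (W0 e c W) := by
  intro O hO hP ξ
  have h2 : Oᵀ * O = 1 := mul_eq_one_comm.1 hO
  have h3 : Oᵀ * Oᵀᵀ = 1 := by rw [transpose_transpose, h2]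
  have fx : ∀ x : V n, P2 e c *ᵥ x = 0 → Oᵀ *ᵥ x = x := fun x hx => by
    have h4 : O *ᵥ x = x := by
      have := congrArg (fun M : Mx n => M *ᵥ x) hP
      simpa only [← mulVec_mulVec, sub_mulVec, one_mulVec, hx, sub_zero] using this
    conv_lhs => rw [← h4]
    rw [mulVec_mulVec, h2, one_mulVec]
  have hW := W0_conj h3 (fx e (P2_e he c)) (fx c (P2_c he c))
  have hT : MeasurePreserving (fun W : Mx n => Oᵀ * W * Oᵀᵀ) (GOE n) (GOE n) :=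
    ⟨by fun_prop, goe_conj _ _ h3⟩
  have hm := measurable_W0 e c
  have hm2 := measurable_Ph (n := n) z l
  have key := hT.setLIntegral_comp_preimage (hm hS)
    (f := fun W => ex (ξ ⬝ᵥ Ph z l (W0 e c W) *ᵥ ξ / 2)) (by fun_prop)
  have hs : (fun W : Mx n => Oᵀ * W * Oᵀᵀ) ⁻¹' (W0 e c ⁻¹' S) = W0 e c ⁻¹' S := by
    ext W
    simp only [Set.mem_preimage, hW]
    refine ⟨fun h => ?_, fun h => hi _ _ h3 h⟩
    have := hi O _ hO h
    rwa [transpose_transpose, ← Matrix.mul_assoc, ← Matrix.mul_assoc, hO, Matrix.one_mul,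
      Matrix.mul_assoc, hO, Matrix.mul_one] at this
  rw [hs] at key
  rw [← key]
  refine lintegral_congr fun W => ?_
  rw [hW, Ph_conj h3, transpose_transpose, ← mulVec_mulVec, ← mulVec_mulVec,
    dotProduct_mulVec ξ, ← mulVec_transpose, transpose_transpose]

lemma qd (hp : Par n ε q) (hW : WS ε q E Cw S) (hF : FS ε q e c τ) :
    QD (P2 e c) (Sg (zz (gg ε q)) e c) ((GOE n).restrict (W0 e c ⁻¹' S))
      (fun W => Ph (zz (gg ε q)) ((ε ^ 4 * q ^ 2 / 2) ^ 2 / 2) (W0 e c W)) (gg ε (2 * q))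
      (E + ε ^ 6 * q ^ 3 * Cw * n / 4) where
  proj := (proj_R1 hF.unit).nextR c
  tr := tr_P2 hF.unit c
  fin := inferInstance
  meas := (measurable_Ph _ _).comp (measurable_W0 e c)
  inv := inv_ok hW.meas hW.inv hF.unit _ _
  symm := by rw [Sg, transpose_smul, transpose_vecMulVec]
  zero := by
    have h : (P2 e c)ᵀ = P2 e c := ((proj_R1 hF.unit).nextR c).symm
    rw [Sg, Matrix.smul_mul, vmv_mul, h, mulVec_sub, mulVec_smul, P2_e hF.unit, P2_c hF.unit]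
    simp
  nonneg := fun u => by
    have := inv_pos.2 hF.pos
    rw [Sg, quad_vmv, zero_mulVec, dotProduct_zero]; positivity
  ae := (ae_restrict_iff' (measurable_W0 e c hW.meas)).2
    (ae_of_all _ fun W h => ae_ok hp hW hF h (W0_e hF.unit c W))

lemma proj_tau (hF : FS ε q e c τ) :
    (P2 e c *ᵥ τ) ⬝ᵥ (P2 e c *ᵥ τ) = τ ⬝ᵥ τ - (unitv (bv e c) ⬝ᵥ τ) ^ 2 ∧ ∀ z z' : ℝ,
    (τ - P2 e c *ᵥ τ) ⬝ᵥ (z' • (1 : Mx n) - Sg z e c) *ᵥ (τ - P2 e c *ᵥ τ) =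
      (unitv (bv e c) ⬝ᵥ τ) ^ 2 * (z' - bv e c ⬝ᵥ bv e c / (z - e ⬝ᵥ c)) := by
  have h1 : P2 e c *ᵥ τ = τ - (unitv (bv e c) ⬝ᵥ τ) • unitv (bv e c) := by
    rw [P2, nextR, sub_mulVec, R1_of hF.orth, vmv_mulVec]; rfl
  constructor
  · have hP : IsProj (P2 e c) := (proj_R1 hF.unit).nextR c
    rw [hP.dot_self, h1, dotProduct_sub, dotProduct_smul, dotProduct_comm τ (unitv _), smul_eq_mul,
      sq]
  · intro z z'
    have h2 := e_e3 hF.unit c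
    have h3 := c_e3 hF.unit c
    rw [h1, sub_sub_cancel, sub_mulVec, dotProduct_sub, quad_one, Sg, quad_vmv]
    simp only [dotProduct_smul, smul_dotProduct, sub_dotProduct, smul_eq_mul, h2]
    rcases unitv_cases (bv e c) with h | h
    · rw [h, ← h3]; ring
    · rw [h]; simp

end main

end Ti61

set_option maxHeartbeats 800000 in
open Ti61 in
/-- **the tilt bound** -/
theorem tiGlue : TiGlue := by
  rintro ⟨C, hC⟩
  refine ⟨C, fun n ε q E Cw e c τ S hp hCw hq hW hF => ?_⟩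
  obtain ⟨hx, hx1, -, -⟩ := consts hp
  have h0 := hp.e0
  have h2 := hp.q0
  have hn : (8 : ℝ) ≤ n := by exact_mod_cast hp.n8
  have hn0 : (0 : ℝ) < n := by linarith
  obtain ⟨p1, p2⟩ := proj_tau hF
  have t1 := hF.t1
  have t2 := hF.t2
  have w1 := hF.w1
  have w2 := hF.w2
  have hq1 := hC n _ _ _ _ _ _ τ hp.n8 (qd hp hW hF)
    ⟨by unfold gg; nlinarith, by unfold gg; nlinarith⟩
    ⟨by rw [p1, le_div_iff₀ hn0]; linarith,
      by rw [p1, div_le_iff₀ hn0]; nlinarith [sq_nonneg (unitv (bv e c) ⬝ᵥ τ)]⟩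
  rw [p1, p2] at hq1
  obtain ⟨z, hz⟩ : ∃ z, z = zz (gg ε q) := ⟨_, rfl⟩
  obtain ⟨l, hl⟩ : ∃ l, l = (ε ^ 4 * q ^ 2 / 2) ^ 2 / 2 := ⟨_, rfl⟩
  obtain ⟨w, hw⟩ : ∃ w, w = (unitv (bv e c) ⬝ᵥ τ) ^ 2 := ⟨_, rfl⟩
  obtain ⟨T, hT⟩ : ∃ T, T = τ ⬝ᵥ τ := ⟨_, rfl⟩
  have hw0 : 0 ≤ w := by rw [hw]; positivity
  have hl0 : 0 ≤ l := by rw [hl]; positivity
  have hgain := fun X => gain (X := X) hp hW hF
  rw [← hz, ← hl, ← hw, ← hT] at hq1
  rw [← hz, ← hw, ← hT] at w2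
  rw [← hz, ← hT] at hgain
  rw [← hw] at w1
  rw [← hT] at t1 t2
  rw [← hz]
  have hm := measurable_W0 e c
  have hm2 := measurable_Ph (n := n) z l
  have hS : MeasurableSet (W0 e c ⁻¹' S) := hm hW.meas
  -- the test function
  obtain ⟨f, hf⟩ : ∃ f : Mx n → ℝ≥0∞, f = (W0 e c ⁻¹' S).indicator fun W =>
    ex (τ ⬝ᵥ Ph z l (W0 e c W) *ᵥ τ / 2 - τ ⬝ᵥ W *ᵥ τ / 2 - l * (ε / q ^ 2 * T) / 2) := ⟨_, rfl⟩
  have hfm : Measurable f := by
    rw [hf]; exact Measurable.indicator (by fun_prop) hS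
  have hs2 : (1 / Real.sqrt n) ^ 2 = 1 / (n : ℝ) := by
    rw [div_pow, Real.sq_sqrt hn0.le, one_pow]
  have hcm := Kr.goe_cm (1 / Real.sqrt n) ((1 / 2 : ℝ) • vecMulVec τ τ) hfm
  have e1 : (1 / 2 : ℝ) • vecMulVec τ τ + ((1 / 2 : ℝ) • vecMulVec τ τ)ᵀ = vecMulVec τ τ := by
    rw [transpose_smul, transpose_vecMulVec, ← add_smul]; norm_num
  have e2 : Vq ((1 / 2 : ℝ) • vecMulVec τ τ) = T ^ 2 / 2 := by
    rw [Vq, e1, trace_mul_vmv, vmv_mulVec, dotProduct_smul, ← hT, smul_eq_mul, sq]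
  have e3 : ∀ W : Mx n, pair ((1 / 2 : ℝ) • vecMulVec τ τ) W = τ ⬝ᵥ W *ᵥ τ / 2 := fun W => by
    rw [smul_pair, Kr.pair_comm, pair_vecMulVec]; ring
  simp only [e1, e2, e3, hs2] at hcm
  have s1 : GOE n {W | Wm e c τ W ∈ S ∧ ¬ Le (Wm e c τ W + Tm ε q τ) (z • (1 : Mx n))} ≤
      ∫⁻ W, f (W + (1 / (n : ℝ)) • vecMulVec τ τ) ∂GOE n := by
    have := mul_meas_ge_le_lintegral₀ (μ := GOE n)
      (f := fun W => f (W + (1 / (n : ℝ)) • vecMulVec τ τ)) (hfm.comp (by fun_prop)).aemeasurable 1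
    rw [one_mul] at this
    refine le_trans (measure_mono fun W hW' => ?_) this
    have h3 := mul_le_mul_of_nonneg_left (hgain _ hW'.1 hW'.2) hl0
    have h4 : W + (1 / (n : ℝ)) • vecMulVec τ τ ∈ W0 e c ⁻¹' S := hW'.1
    simp only [Set.mem_ofPred_eq, hf, Set.indicator_of_mem h4]
    rw [← ex_zero]
    refine ex_mono ?_
    rw [Ph, add_mulVec, dotProduct_add, quad_W0 hF.unit hF.orth, smul_mulVec, dotProduct_smul,
      smul_eq_mul]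
    have h5 : Wm e c τ W = W0 e c (W + (1 / (n : ℝ)) • vecMulVec τ τ) := rfl
    rw [h5] at h3
    linarith
  have s2 : ∫⁻ W, ENNReal.ofReal (Real.exp (τ ⬝ᵥ W *ᵥ τ / 2)) * f W ∂GOE n =
      ex (-(l * (ε / q ^ 2 * T) / 2)) * ∫⁻ W in W0 e c ⁻¹' S,
        ex (τ ⬝ᵥ Ph z l (W0 e c W) *ᵥ τ / 2) ∂GOE n := by
    rw [← lintegral_const_mul' _ _ (ex_ne_top _), ← lintegral_indicator hS]
    refine lintegral_congr fun W => ?_
    by_cases h : W ∈ W0 e c ⁻¹' S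
    · rw [hf, Set.indicator_of_mem h, Set.indicator_of_mem h, ← ex_add]
      change ex _ * ex _ = _
      rw [← ex_add]; congr 1; ring
    · rw [hf, Set.indicator_of_notMem h, Set.indicator_of_notMem h, mul_zero]
  have s3 : (GOE n).restrict (W0 e c ⁻¹' S) Set.univ ≤ 1 := by
    rw [Measure.restrict_apply_univ]; exact prob_le_one
  have s4 : ∫⁻ W, f (W + (1 / (n : ℝ)) • vecMulVec τ τ) ∂GOE n =
      ex (-(1 / n * (T ^ 2 / 2) / 2)) *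
        ∫⁻ W, ENNReal.ofReal (Real.exp (τ ⬝ᵥ W *ᵥ τ / 2)) * f W ∂GOE n := by
    rw [hcm, ← mul_assoc]
    change _ = ex _ * ex _ * _
    rw [← ex_add, neg_add_cancel, ex_zero, one_mul]
  refine s1.trans ?_
  rw [s4, s2]
  refine (mul_le_mul_right (mul_le_mul_right (hq1.trans (mul_le_mul_left s3 _)) _) _).trans ?_
  rw [one_mul, ← ex_add, ← ex_add]
  refine ex_mono ?_
  obtain ⟨u, hu⟩ : ∃ u, u = (T - w) / n := ⟨_, rfl⟩
  rw [← hu] at w2 ⊢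
  have hTu : T = n * u + w := by rw [hu]; field_simp; ring
  have hu0 : 0 < u := by rw [hu]; exact div_pos (by linarith) hn0
  have hu1 : u ≤ 1 := by rw [hu, div_le_one hn0]; linarith
  have hJ := Jb_le (g := gg ε (2 * q)) (by unfold gg; nlinarith) (by unfold gg; nlinarith) hu0 hu1
  have hJ' := mul_le_mul_of_nonneg_left hJ hn0.le
  obtain ⟨A, hA⟩ : ∃ A, A = ε ^ 6 * q ^ 2 * n := ⟨_, rfl⟩
  have hA0 : 0 < A := by rw [hA]; positivity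
  have a1 : ε ^ 9 * q ^ 2 * n = A * ε ^ 3 := by rw [hA]; ring
  have a2 : n * (u ^ 2 / 4 + (1 - gg ε (2 * q)) ^ 3) = n * u ^ 2 / 4 + 8 * (A * q) := by
    rw [hA, gg]; ring
  have a3 : ε ^ 6 * q ^ 3 * Cw * n / 4 = A * (Cw * q) / 4 := by rw [hA]; ring
  have a4 : l * (ε / q ^ 2 * T) / 2 = ε ^ 9 * q ^ 2 * T / 16 := by rw [hl]; field_simp; ring
  have a5 : ε ^ 9 * q ^ 2 * (n / 2) ≤ ε ^ 9 * q ^ 2 * T := by gcongr
  have a6 : n * u ^ 2 / 4 + u * w / 2 ≤ 1 / n * (T ^ 2 / 2) / 2 := by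
    have : 1 / n * (T ^ 2 / 2) / 2 = n * u ^ 2 / 4 + u * w / 2 + w ^ 2 / (4 * n) := by
      rw [hTu]; field_simp; ring
    have h5 : 0 ≤ w ^ 2 / (4 * n) := by positivity
    linarith
  have a7 : A * q ≤ A * (ε ^ 3 / 10 ^ 6) := mul_le_mul_of_nonneg_left hp.q1 hA0.le
  have a8 : A * (Cw * q) ≤ A * (ε ^ 3 / 1100) :=
    mul_le_mul_of_nonneg_left (by nlinarith) hA0.le
  have a9 : 0 < A * ε ^ 3 := by positivity
  rw [a2] at hJ'
  have a10 : w * (zz (gg ε (2 * q)) - bv e c ⬝ᵥ bv e c / (z - e ⬝ᵥ c)) - u * w ≤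
      A * ε ^ 3 / 64 := by rw [← a1]; linarith
  have a11 : A * ε ^ 3 / 2 ≤ ε ^ 9 * q ^ 2 * T := by rw [← a1]; linarith
  rw [a3, a4, a1]
  linarith

end Crest.Agent.T157.Qe

end
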