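import Crest.Agent.T157.QeDef_24

/-!
# Row 157, part A2 (helper91): scalar estimates for `Qe.UpGlue`
-/

set_option autoImplicit false

noncomputable section

namespace Crest.Agent.T157.Qe.Up91

open Finset Set

/-- the exponent of the spherical integral, with the crude value off `[1/64, 10]` -/
def Jt (g0 u : ℝ) : ℝ := if u ∈ Icc (1 / 64 : ℝ) 10 then Jb g0 u else zz g0 * u / 2

lemma log_cubic {u : ℝ} (h0 : 0 < u) (h1 : u ≤ 1) :
    Real.log u ≤ -(1 - u) - (1 - u) ^ 2 / 2 - (1 - u) ^ 3 / 3 := by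
  have hd : ∀ x : ℝ, x < 1 → HasDerivAt (fun x => -x - x ^ 2 / 2 - x ^ 3 / 3 - Real.log (1 - x))
      (x ^ 3 / (1 - x)) x := fun x hx => by
    have h := ((((hasDerivAt_id' x).neg.sub ((hasDerivAt_pow 2 x).div_const 2)).sub
      ((hasDerivAt_pow 3 x).div_const 3))).sub
      (((hasDerivAt_id' x).const_sub 1).log (by linarith))
    refine h.congr_deriv ?_
    have : 1 - x ≠ 0 := by linarith
    field_simp
    norm_num
    ring
  have hm : MonotoneOn (fun x => -x - x ^ 2 / 2 - x ^ 3 / 3 - Real.log (1 - x)) (Ico 0 1) := by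
    refine monotoneOn_of_deriv_nonneg (convex_Ico 0 1)
      (fun x hx => (hd x hx.2).continuousAt.continuousWithinAt)
      (fun x hx => (hd x (interior_subset hx).2).differentiableAt.differentiableWithinAt)
      fun x hx => ?_
    have hx0 := interior_subset hx
    rw [(hd x hx0.2).deriv]
    exact div_nonneg (pow_nonneg hx0.1 3) (by linarith [hx0.2])
  have := hm (a := 0) (b := 1 - u) ⟨le_rfl, one_pos⟩ ⟨by linarith, by linarith⟩ (by linarith)
  simp only [sub_sub_cancel] at this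
  norm_num at this
  linarith

/-- `Br u + 1/4` -/
def Bq (g0 u : ℝ) : ℝ := Jb g0 u - u + 3 / 4 + Real.log u / 2

lemma Bq_lo {g0 u : ℝ} (h0 : 0 < u) (h1 : u ≤ g0) (hg : g0 ≤ 1) : Bq g0 u ≤ -(1 - u) ^ 3 / 6 := by
  have h := log_cubic h0 (h1.trans hg)
  have e : Bq g0 u = u ^ 2 / 4 - u + 3 / 4 + Real.log u / 2 := by
    simp only [Bq, Jb, min_eq_left h1, zz, ell]
    field_simp
    ring
  rw [e]; nlinarith

lemma Bq_hi {g0 u : ℝ} (h0 : 0 < g0) (h1 : g0 ≤ u) : Bq g0 u ≤ (zz g0 - 2) * u / 2 := by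
  have h := Real.log_le_sub_one_of_pos h0
  simp only [Bq, Jb, min_eq_right h1, ell]
  nlinarith [sq_nonneg (g0 - 1)]

variable {n : ℕ} {ε q : ℝ}

lemma _root_.Crest.Agent.T157.Qe.Par.q_le (h : Par n ε q) : q ≤ ε / 10 ^ 10 := by
  have h1 := h.q1
  have h2 := h.e0
  have h3 := h.e1
  have : ε ^ 3 ≤ ε / 10 ^ 4 := by nlinarith [mul_pos h2 h2, mul_le_mul h3 h3 h2.le (by norm_num)]
  linarith

lemma _root_.Crest.Agent.T157.Qe.Par.gg_mem (h : Par n ε q) : gg ε q ∈ Icc (1 / 2 : ℝ) 1 := by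
  have h1 := h.q_le
  have h2 := h.e0
  have h3 := h.e1
  have h4 := h.q0
  have h5 : ε ^ 2 ≤ 1 := by nlinarith
  have h6 : ε ^ 2 * q ≤ q := by nlinarith
  have h7 : 0 ≤ ε ^ 2 * q := by positivity
  simp only [gg]
  constructor <;> linarith

lemma _root_.Crest.Agent.T157.Qe.Par.eta (h : Par n ε q) :
    0 ≤ zz (gg ε q) - 2 ∧ zz (gg ε q) - 2 ≤ ε ^ 2 * q ^ 2 / 5000 := by
  obtain ⟨h1, h2⟩ := h.gg_mem
  have h3 := h.e0
  have h4 := h.e1
  have h5 := h.q0
  have g0 : 0 < gg ε q := by linarith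
  have e : zz (gg ε q) - 2 = (ε ^ 2 * q) ^ 2 / gg ε q := by
    have : ε ^ 2 * q = 1 - gg ε q := by simp [gg]
    rw [this, zz]; field_simp; ring
  rw [e]
  refine ⟨by positivity, ?_⟩
  rw [div_le_iff₀ g0]
  have h6 : ε ^ 2 ≤ 1 / 10000 := by nlinarith
  have h7 : 0 ≤ ε ^ 2 * q ^ 2 := by positivity
  nlinarith [mul_le_mul_of_nonneg_left h6 h7, mul_le_mul_of_nonneg_left h1 h7]

/-- the cells -/
def aa (ε q : ℝ) (j : ℕ) : ℝ := uu ε - j * (ε * q / 2048)

lemma cell (h : Par n ε q) {u : ℝ} (h0 : 1 / 64 ≤ u) (h1 : u ≤ uu ε) :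
    ∃ j : ℕ, j ≤ 4096 * n ∧ u ≤ aa ε q j ∧ aa ε q j ≤ u + ε * q / 2048 := by
  have hρ : 0 < ε * q / 2048 := by have := h.e0; have := h.q0; positivity
  have hy : 0 ≤ (uu ε - u) / (ε * q / 2048) := div_nonneg (by linarith) hρ.le
  have f1 := Nat.floor_le hy
  have f2 := Nat.lt_floor_add_one ((uu ε - u) / (ε * q / 2048))
  rw [le_div_iff₀ hρ] at f1
  rw [div_lt_iff₀ hρ] at f2
  refine ⟨⌊(uu ε - u) / (ε * q / 2048)⌋₊, ?_, by simp only [aa]; linarith,
    by simp only [aa]; linarith⟩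
  refine Nat.floor_le_of_le ?_
  rw [div_le_iff₀ hρ]
  have := h.nq
  have := h.e1
  push_cast
  simp only [uu]
  nlinarith

/-- the gain of one cell -/
def Ps (ε q u v a : ℝ) : ℝ := -(u + v - uu ε) ^ 2 / 4 - ε * q ^ 2 / 4 * v + u / (2 * a) - u +
  Jt (gg ε q) u + Real.log a / 2 + 1 / 4

lemma mesh {u a ρ : ℝ} (h0 : 1 / 64 ≤ u) (h1 : u ≤ a) (h2 : a ≤ u + ρ) :
    u / a - 1 - Real.log u + Real.log a ≤ (64 * ρ) ^ 2 := by
  have u0 : 0 < u := by linarith
  have a0 : 0 < a := by linarith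
  have h := Real.log_le_sub_one_of_pos (div_pos a0 u0)
  rw [Real.log_div a0.ne' u0.ne'] at h
  have e : u / a - 1 + (a / u - 1) = (a - u) ^ 2 / (a * u) := by field_simp; ring
  have h3 : (a - u) ^ 2 / (a * u) ≤ (64 * ρ) ^ 2 := by
    rw [div_le_iff₀ (mul_pos a0 u0)]
    have h4 : (a - u) ^ 2 ≤ ρ ^ 2 := by nlinarith
    have h5 : 1 ≤ 64 ^ 2 * (a * u) := by nlinarith
    nlinarith [mul_le_mul_of_nonneg_left h5 (sq_nonneg ρ)]
  linarith

lemma ovr {u a : ℝ} (h0 : 1 ≤ a) (h1 : a ≤ u) :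
    u / a - 1 - Real.log u + Real.log a ≤ (u - a) ^ 2 / 2 := by
  have a0 : 0 < a := by linarith
  have u0 : 0 < u := by linarith
  set t := u / a - 1 with ht
  have t0 : 0 ≤ t := by rw [ht, sub_nonneg, le_div_iff₀ a0]; linarith
  have h := Real.le_log_one_add_of_nonneg t0
  rw [show 1 + t = u / a by rw [ht]; ring, Real.log_div u0.ne' a0.ne'] at h
  have h2 : t - t ^ 2 / 2 ≤ 2 * t / (t + 2) := by
    rw [le_div_iff₀ (by linarith)]; nlinarith [pow_nonneg t0 3]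
  have h3 : t ≤ u - a := by
    rw [ht, sub_le_iff_le_add, div_le_iff₀ a0]; nlinarith
  nlinarith

set_option maxHeartbeats 1600000 in
/-- **every point has a good cell** -/
theorem exists_cell (h : Par n ε q) {u v : ℝ} (hu : 0 ≤ u) (hv : 0 ≤ v) (γ : ℝ → ℝ)
    (γ1 : ∀ a, 1 / 64 ≤ a → a ≤ 1 → γ a ≤ 2 * (1 - a) * q ^ 2)
    (γ2 : ∀ a, 1 ≤ a → a ≤ uu ε → γ a ≤ -((a - 1) * (ε * q ^ 2) / 4)) :
    ∃ j : ℕ, j ≤ 4096 * n ∧ 1 / 64 ≤ aa ε q j ∧
      Ps ε q u v (aa ε q j) + γ (aa ε q j) ≤ -(ε ^ 2 * q ^ 2 / 256) := by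
  have e0 := h.e0
  have e1 := h.e1
  have q0 := h.q0
  have q1 := h.q_le
  obtain ⟨g1, g2⟩ := h.gg_mem
  obtain ⟨η0, η1⟩ := h.eta
  have hu0 : uu ε = 1 + ε / 16 := rfl
  have m0 : 0 ≤ ε * q ^ 2 / 4 * v := by positivity
  have eq1 : ε * q ≤ 1 / 10 ^ 10 := by nlinarith
  have eq0 : 0 < ε * q := mul_pos e0 q0
  have x1 : ε ^ 2 * q ^ 2 ≤ ε ^ 2 / 10 ^ 10 := by
    have : q ^ 2 ≤ 1 / 10 ^ 10 := by nlinarith
    nlinarith [mul_le_mul_of_nonneg_left this (sq_nonneg ε)]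
  have x0 : 0 < ε ^ 2 * q ^ 2 := by positivity
  have ee : ε ^ 2 ≤ 1 / 10 ^ 4 := by nlinarith
  have ale : ∀ j : ℕ, aa ε q j ≤ uu ε := fun j => by
    have : 0 ≤ (j : ℝ) * (ε * q / 2048) := by positivity
    simp only [aa]; linarith
  have a00 : aa ε q 0 = uu ε := by simp [aa]
  rcases lt_or_ge u (1 / 64) with c1 | c1
  · obtain ⟨j, j1, j2, j3⟩ := cell h (u := 1 / 64) le_rfl (by linarith)
    refine ⟨j, j1, j2, ?_⟩
    set a := aa ε q j
    have a1 : a ≤ 1 / 32 := by linarith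
    have l1 : Real.log a ≤ -3 := by
      have := Real.log_le_log (by linarith) a1
      rw [show (1 / 32 : ℝ) = (2 ^ 5)⁻¹ by norm_num, Real.log_inv, Real.log_pow] at this
      have := Real.log_two_gt_d9
      push_cast at *
      linarith
    have l2 : u / (2 * a) ≤ 1 / 2 := by rw [div_le_iff₀ (by linarith)]; linarith
    have l3 := γ1 a j2 (by linarith)
    have l4 : 2 * (1 - a) * q ^ 2 ≤ 1 / 10 := by nlinarith
    have l5 : (zz (gg ε q) - 2) * u ≤ 1 / 10 := by nlinarith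
    simp only [Ps, Jt, if_neg (fun hh : u ∈ Icc (1 / 64 : ℝ) 10 => absurd hh.1 (not_le.2 c1))]
    nlinarith [sq_nonneg (u + v - uu ε)]
  rcases lt_or_ge 10 u with c2 | c2
  · refine ⟨0, Nat.zero_le _, by rw [a00]; linarith, ?_⟩
    rw [a00]
    have l1 := Real.log_le_sub_one_of_pos (show 0 < uu ε by linarith)
    have l2 : u / (2 * uu ε) ≤ u / 2 := by gcongr; linarith
    have l3 := γ2 (uu ε) (by linarith) le_rfl
    have l4 : 0 ≤ (uu ε - 1) * (ε * q ^ 2) / 4 := by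
      rw [hu0, add_sub_cancel_left]; positivity
    have l5 : (zz (gg ε q) - 2) * u ≤ u / 10 := by nlinarith
    have l6 : (u - 2) ^ 2 ≤ (u + v - uu ε) ^ 2 := by nlinarith
    simp only [Ps, Jt, if_neg (fun hh : u ∈ Icc (1 / 64 : ℝ) 10 => absurd hh.2 (not_le.2 c2))]
    nlinarith
  have eP : ∀ a, Ps ε q u v a = -(u + v - uu ε) ^ 2 / 4 - ε * q ^ 2 / 4 * v + Bq (gg ε q) u +
      (u / a - 1 - Real.log u + Real.log a) / 2 := fun a => by
    simp only [Ps, Jt, if_pos (show u ∈ Icc (1 / 64 : ℝ) 10 from ⟨c1, c2⟩), Bq]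
    rw [show u / (2 * a) = u / a / 2 by rw [div_div, mul_comm]]
    ring
  rcases le_total (uu ε) u with c3 | c3
  · refine ⟨0, Nat.zero_le _, by rw [a00]; linarith, ?_⟩
    rw [a00, eP]
    have l1 := ovr (a := uu ε) (by linarith) c3
    have l2 := Bq_hi (g0 := gg ε q) (u := u) (by linarith) (by linarith)
    have l3 := γ2 (uu ε) (by linarith) le_rfl
    have l4 : (uu ε - 1) * (ε * q ^ 2) / 4 = ε ^ 2 * q ^ 2 / 64 := by rw [hu0]; ring
    have l5 : (zz (gg ε q) - 2) * u ≤ ε ^ 2 * q ^ 2 / 500 := by nlinarith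
    have l6 : (u - uu ε) ^ 2 ≤ (u + v - uu ε) ^ 2 := by nlinarith
    linarith
  obtain ⟨j, j1, j2, j3⟩ := cell h c1 c3
  refine ⟨j, j1, c1.trans j2, ?_⟩
  have a2 := ale j
  set a := aa ε q j
  have l1 := mesh c1 j2 j3
  have l2 : (64 * (ε * q / 2048)) ^ 2 = ε ^ 2 * q ^ 2 / 1024 := by ring
  have q3 : q ^ 3 ≤ ε ^ 2 * q ^ 2 / 10 ^ 6 := by
    have h1 := h.q1
    have : q ≤ ε ^ 2 / 10 ^ 6 := by nlinarith [pow_pos e0 2]
    nlinarith [mul_le_mul_of_nonneg_left this (sq_nonneg q)]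
  have l5 : (zz (gg ε q) - 2) * u ≤ ε ^ 2 * q ^ 2 / 2500 := by nlinarith
  have key : Bq (gg ε q) u + γ a ≤ ε ^ 2 * q ^ 2 / 1000 - max (u - 1) 0 * (ε * q ^ 2) / 4 := by
    rcases le_total 1 u with c4 | c4
    · have b1 := Bq_hi (g0 := gg ε q) (u := u) (by linarith) (by linarith)
      have b2 := γ2 a (by linarith) a2
      have b3 : (u - 1) * (ε * q ^ 2) ≤ (a - 1) * (ε * q ^ 2) := by gcongr
      rw [max_eq_left (by linarith)]
      linarith
    · have b2 : γ a ≤ 2 * (1 - u) * q ^ 2 := by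
        rcases le_total a 1 with c5 | c5
        · exact (γ1 a (c1.trans j2) c5).trans (by gcongr)
        · have b3 : 0 ≤ (a - 1) * (ε * q ^ 2) / 4 := by
            have : 0 ≤ a - 1 := by linarith
            positivity
          have b4 : 0 ≤ 2 * (1 - u) * q ^ 2 := by
            have : 0 ≤ 1 - u := by linarith
            positivity
          linarith [γ2 a c5 a2]
      rw [max_eq_right (by linarith)]
      rcases le_total u (gg ε q) with c6 | c6
      · have b1 := Bq_lo (by linarith) c6 g2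
        have b3 : 2 * (1 - u) * q ^ 2 - (1 - u) ^ 3 / 6 ≤ 3 * q ^ 3 := by
          have h0 : 0 ≤ 1 - u := by linarith
          nlinarith [mul_nonneg (sq_nonneg (1 - u - 2 * q)) (show 0 ≤ 1 - u + 4 * q by linarith),
            pow_pos q0 3]
        linarith
      · have b1 := Bq_hi (g0 := gg ε q) (u := u) (by linarith) c6
        have b3 : 1 - u ≤ q := by
          have : ε ^ 2 * q ≤ q := by nlinarith
          simp only [gg] at c6; linarith
        have b4 : 2 * (1 - u) * q ^ 2 ≤ 2 * q ^ 3 := by nlinarith [sq_nonneg q]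
        linarith
  rw [eP]
  have m1 : u - 1 ≤ max (u - 1) 0 := le_max_left _ _
  have m2 : 0 ≤ max (u - 1) 0 := le_max_right _ _
  have m3 : 0 ≤ max (u - 1) 0 * (ε * q ^ 2) := by positivity
  rcases le_total (ε / 32) (uu ε - u - v) with c7 | c7
  · have : (ε / 32) ^ 2 ≤ (u + v - uu ε) ^ 2 := by nlinarith
    nlinarith
  · have b1 : ε / 32 ≤ v + max (u - 1) 0 := by linarith
    have b2 : ε / 32 * (ε * q ^ 2) ≤ (v + max (u - 1) 0) * (ε * q ^ 2) := by gcongr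
    nlinarith [sq_nonneg (u + v - uu ε)]

/-- comparison of the log-determinants -/
lemma GG_sub {D : V n} (hD : Dv ε q D) (h : Par n ε q) {a : ℝ} (a0 : 0 < a) (a1 : a ≤ uu ε) :
    (∀ i, 0 < 1 + a * D i) ∧
    GG D 1 - GG D a ≤ (1 - a) / 2 * ∑ i, (D i - a / (1 + a * D i) * D i ^ 2) := by
  have e0 := h.e0
  have e1 := h.e1
  have q0 := h.q0
  have q1 := h.q_le
  have hu0 : uu ε = 1 + ε / 16 := rfl
  have p : ∀ b, 0 < b → b ≤ 2 → ∀ i, 0 < 1 + b * D i := fun b b0 b1 i => by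
    have := hD.lo i
    nlinarith
  have pa := p a a0 (by linarith)
  refine ⟨pa, ?_⟩
  simp only [GG]
  rw [← sub_div, ← sum_sub_distrib, mul_sum, sum_div]
  refine sum_le_sum fun i _ => ?_
  have p1 := p 1 one_pos (by norm_num) i
  have p2 := pa i
  have l := Real.log_le_sub_one_of_pos (div_pos p1 p2)
  rw [Real.log_div p1.ne' p2.ne'] at l
  have e : (1 + 1 * D i) / (1 + a * D i) - 1 = (1 - a) * (D i - a / (1 + a * D i) * D i ^ 2) := by
    have := p2.ne'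
    rw [div_sub_one this, div_mul_eq_mul_div, sub_div' this, ← mul_div_assoc]
    congr 1; ring
  linarith

lemma GG_lo {D : V n} (hD : Dv ε q D) (h : Par n ε q) {a : ℝ} (a0 : 0 < a) (a1 : a ≤ 1) :
    GG D 1 - GG D a ≤ n * (2 * (1 - a) * q ^ 2) := by
  have e0 := h.e0
  obtain ⟨p, h1⟩ := GG_sub hD h a0 (by simp only [uu]; linarith)
  have h2 : ∑ i, (D i - a / (1 + a * D i) * D i ^ 2) ≤ ∑ i, D i := sum_le_sum fun i _ => by
    have := p i
    have : 0 ≤ a / (1 + a * D i) * D i ^ 2 := by positivity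
    linarith
  have h3 := mul_le_mul_of_nonneg_left (h2.trans hD.m1) (show 0 ≤ (1 - a) / 2 by linarith)
  linarith

lemma GG_hi {D : V n} (hD : Dv ε q D) (h : Par n ε q) {a : ℝ} (a0 : 1 ≤ a) (a1 : a ≤ uu ε) :
    GG D 1 - GG D a ≤ n * -((a - 1) * (ε * q ^ 2) / 4) := by
  have e0 := h.e0
  have e1 := h.e1
  have q0 := h.q0
  have q1 := h.q_le
  have hu0 : uu ε = 1 + ε / 16 := rfl
  obtain ⟨p, h1⟩ := GG_sub hD h (by linarith) a1
  have h2 : ∑ i, (D i - (1 + ε / 8) * D i ^ 2) ≤ ∑ i, (D i - a / (1 + a * D i) * D i ^ 2) :=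
    sum_le_sum fun i _ => by
      have h3 : a / (1 + a * D i) ≤ 1 + ε / 8 := by
        rw [div_le_iff₀ (p i)]
        have h4 := hD.lo i
        have h5 : -(6 * q) ≤ a * D i := by nlinarith
        nlinarith
      nlinarith [mul_le_mul_of_nonneg_right h3 (sq_nonneg (D i))]
  rw [sum_sub_distrib, ← mul_sum] at h2
  have h3 := hD.gap
  have h4 := mul_le_mul_of_nonneg_left hD.m2 (show 0 ≤ ε / 8 by linarith)
  have h5 : ε * q ^ 2 * n / 2 ≤ ∑ i, (D i - a / (1 + a * D i) * D i ^ 2) := by linarith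
  have h6 := mul_le_mul_of_nonneg_left h5 (show 0 ≤ (a - 1) / 2 by linarith)
  linarith

end Crest.Agent.T157.Qe.Up91

end
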