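import Crest.Agent.T157.QeA_24
import Crest.Agent.T157.QeUpA_91

/-!
# Row 157, part A2 (helper91): `Qe.UpGlue`, the upper bound of the quartic integral
-/

set_option autoImplicit false

noncomputable section

namespace Crest.Agent.T157.Qe.Up91

open Matrix Finset MeasureTheory Set
open scoped ENNReal
open Crest.Agent.T157.E Crest.Agent.T157.Cond Crest.Agent.T157.Dq
open Crest.Agent.T157.Conc (ex ex_add ex_mono ex_zero)

variable {n : ℕ} {ε q : ℝ}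

/-- the matrix of a cell -/
def NN (ε q a : ℝ) (P S B : Mx n) : Mx n :=
  B + S + a⁻¹ • P - (zz (gg ε q) - 2 + ε * q ^ 2 / 2) • (1 - P)

lemma gi_NN (h : Par n ε q) {P S B : Mx n} {D : V n} (hP : IsProj P)
    (ht : (n : ℝ) - 3 ≤ P.trace) (hS : Sᵀ = S) (h0 : S * P = 0) (hD : Dv ε q D) (hB : Bᵀ = B)
    (hBD : P * B * P = P * diagonal D * P)
    (hL : Le ((ε * q ^ 2) • (1 - P)) (B + S + (uu ε)⁻¹ • P)) {a : ℝ} (a0 : 1 / 64 ≤ a)
    (a1 : a ≤ uu ε) :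
    Gi (NN ε q a P S B) ≤ ex (10 * Real.log n + (n * Real.log a / 2 - GG D a)) := by
  have e0 := h.e0
  have e1 := h.e1
  have q0 := h.q0
  have q1 := h.q_le
  obtain ⟨η0, η1⟩ := h.eta
  have hu0 : uu ε = 1 + ε / 16 := rfl
  have n8 : (8 : ℝ) ≤ n := by exact_mod_cast h.n8
  have ap : 0 < a := by linarith
  have i1 : a⁻¹ ≤ 64 := by rw [inv_le_comm₀ ap (by norm_num)]; linarith
  have i2 : (uu ε)⁻¹ ≤ a⁻¹ := inv_anti₀ ap a1
  have i3 : 3 / 4 ≤ (uu ε)⁻¹ := by rw [le_inv_comm₀ (by norm_num) (by linarith)]; linarith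
  set b : V n := fun i => D i + a⁻¹ with hb
  have b1 : ∀ i, 1 / 2 ≤ b i := fun i => by have := hD.lo i; simp only [hb]; linarith
  have b2 : ∀ i, b i ≤ 67 := fun i => by have := hD.hi i; simp only [hb]; linarith
  have hd := dg_diagonal b
  have hN : (NN ε q a P S B)ᵀ = NN ε q a P S B := by
    simp only [NN, transpose_sub, transpose_add, transpose_smul, hB, hS, hP.symm, transpose_one]
  have hPNP : P * NN ε q a P S B * P = P * diagonal b * P := by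
    have e1 : diagonal b = diagonal D + a⁻¹ • (1 : Mx n) := by
      ext i j; by_cases hij : i = j <;> simp [hb, hij, one_apply]
    have e2 : P * S * P = 0 := by rw [Matrix.mul_assoc, h0, Matrix.mul_zero]
    have e3 : P * (1 - P) = 0 := by rw [Matrix.mul_sub, hP.idem, Matrix.mul_one, sub_self]
    rw [e1, NN]
    simp only [Matrix.mul_sub P (B + S + a⁻¹ • P), Matrix.mul_add, Matrix.add_mul,
      Matrix.mul_smul, Matrix.smul_mul, e3, smul_zero, sub_zero, e2, hBD, add_zero,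
      Matrix.mul_one, hP.idem]
  have k0 : 0 < ε * q ^ 2 / 4 := by positivity
  have s1 := gi_shear hN hP (d := 1 / 2) (κ := ε * q ^ 2 / 4) (by norm_num)
    (fun x => by
      have := dg_ge hd b1 (P *ᵥ x)
      rw [qf_smul, qf_one] at this
      rw [hPNP, qf_proj hP, qf_smul, ← hP.dot_self]
      exact this)
    (fun x => by
      have l1 := hL x
      have l2 : 0 ≤ x ⬝ᵥ P *ᵥ x := by rw [← hP.dot_self]; exact dot_self_nonneg _
      have l3 : 0 ≤ x ⬝ᵥ (1 - P) *ᵥ x := by rw [qf_compl hP]; exact dot_self_nonneg _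
      have l4 := mul_le_mul_of_nonneg_right i2 l2
      have l5 : zz (gg ε q) - 2 ≤ ε * q ^ 2 / 4 := by nlinarith
      have l6 := mul_le_mul_of_nonneg_right l5 l3
      simp only [NN, qf_add, qf_smul, qf_sub (B + S + a⁻¹ • P)] at l1 ⊢
      linarith)
  have eq1 : ε * q ≤ 1 := by nlinarith
  have k1 : ε * q ^ 2 / 4 ≤ n * 67 := by nlinarith
  have s2 := gi_scale hP ht (diagonal b) k0 k1
  have s3 := gi_comp (N := diagonal b) (P := P) (by have := h.n8; omega) (diagonal_transpose b) hP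
    (d := 67) (K := n * 67) (fun x => by
      have := dg_ge hd (c := 0) (fun i => by linarith [b1 i]) x
      simpa using this) (dg_le hd b2) le_rfl
  rw [hPNP] at s1
  rw [gi_dg hd fun i => by linarith [b1 i]] at s3
  refine s1.trans (s2.trans ((mul_le_mul_right s3 _).trans ?_))
  rw [← ex_add, ← ex_add]
  refine ex_mono ?_
  have p := (GG_sub hD h ap a1).1
  have l1 : ∑ i, Real.log (b i) = 2 * GG D a - n * Real.log a := by
    have : ∀ i, Real.log (b i) = Real.log (1 + a * D i) - Real.log a := fun i => by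
      rw [← Real.log_div (p i).ne' ap.ne']
      congr 1; simp only [hb]; field_simp; ring
    simp only [this, sum_sub_distrib, sum_const, card_univ, Fintype.card_fin, nsmul_eq_mul, GG]
    ring
  have l2 : n * 67 / (ε * q ^ 2 / 4) ≤ (n : ℝ) ^ 6 := by
    rw [div_le_iff₀ k0]
    have m1 := h.nq
    have m2 : 1 ≤ n * q := by nlinarith
    have m3 : 1 ≤ (n : ℝ) ^ 2 * (ε * q ^ 2) := by nlinarith
    have m4 : (512 : ℝ) ≤ (n : ℝ) ^ 3 := by
      have := pow_le_pow_left₀ (by norm_num) n8 3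
      linarith
    have m5 : 512 * (n : ℝ) ≤ (n : ℝ) ^ 4 := by nlinarith
    calc (n : ℝ) * 67 ≤ (n : ℝ) ^ 4 * 1 / 4 := by linarith
      _ ≤ (n : ℝ) ^ 4 * ((n : ℝ) ^ 2 * (ε * q ^ 2)) / 4 := by gcongr
      _ = _ := by ring
  have l3 := Real.log_le_log (by positivity) l2
  rw [Real.log_pow] at l3
  have l4 : 1 / 2 ≤ Real.log n := by
    have := Real.one_sub_inv_le_log_of_pos (show (0 : ℝ) < n by linarith)
    have : (n : ℝ)⁻¹ ≤ 1 / 2 := by rw [inv_le_comm₀ (by linarith) (by norm_num)]; linarith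
    linarith
  push_cast at l3
  linarith

/-- (QS) with the crude bound off `[1/64, 10]` -/
lemma inner {C : ℕ} {E : ℝ} {P S : Mx n} {ν : Measure (Mx n)} {Φ : Mx n → Mx n} {g0 : ℝ}
    (hn : 8 ≤ n) (hE : 0 ≤ E) (hQ : QD P S ν Φ g0 E) (x : V n)
    (hs : (P *ᵥ x) ⬝ᵥ (P *ᵥ x) / n ∈ Icc (1 / 64 : ℝ) 10 →
      ∫⁻ W, ex (x ⬝ᵥ Φ W *ᵥ x / 2) ∂ν ≤ ν univ * ex (C * Real.log n +
        (x - P *ᵥ x) ⬝ᵥ (zz g0 • (1 : Mx n) - S) *ᵥ (x - P *ᵥ x) / 2 +
        n * Jb g0 ((P *ᵥ x) ⬝ᵥ (P *ᵥ x) / n) + E / 2)) :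
    ∫⁻ W, ex (x ⬝ᵥ Φ W *ᵥ x / 2) ∂ν ≤ ν univ * ex (C * Real.log n + E / 2 +
      (zz g0 * ((x - P *ᵥ x) ⬝ᵥ (x - P *ᵥ x)) - x ⬝ᵥ S *ᵥ x) / 2 +
      n * Jt g0 ((P *ᵥ x) ⬝ᵥ (P *ᵥ x) / n)) := by
  have n8 : (8 : ℝ) ≤ n := by exact_mod_cast hn
  by_cases hu : (P *ᵥ x) ⬝ᵥ (P *ᵥ x) / n ∈ Icc (1 / 64 : ℝ) 10
  · refine (hs hu).trans (mul_le_mul_right (ex_mono (le_of_eq ?_)) _)
    have e1 : S *ᵥ (P *ᵥ x) = 0 := by rw [mulVec_mulVec, hQ.zero, zero_mulVec]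
    have e2 : (x - P *ᵥ x) ⬝ᵥ S *ᵥ (x - P *ᵥ x) = x ⬝ᵥ S *ᵥ x := by
      rw [mulVec_sub, e1, sub_zero, sub_dotProduct, qf_comm hQ.symm (P *ᵥ x), e1,
        dotProduct_zero, sub_zero]
    rw [qf_sub, qf_smul, qf_one, e2, Jt, if_pos hu]
    ring
  · have l0 : 0 ≤ Real.log n := Real.log_nonneg (by linarith)
    have l1 : 0 ≤ (C : ℝ) * Real.log n := by positivity
    rw [mul_comm, ← lintegral_const]
    refine lintegral_mono_ae (hQ.ae.mono fun W hW => ex_mono ?_)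
    have l2 := hW.2 x
    rw [qf_add, qf_smul, qf_one, dot_split hQ.proj x] at l2
    have e : (n : ℝ) * (zz g0 * ((P *ᵥ x) ⬝ᵥ (P *ᵥ x) / n) / 2) =
        zz g0 * ((P *ᵥ x) ⬝ᵥ (P *ᵥ x)) / 2 := by
      have : (n : ℝ) ≠ 0 := by linarith
      field_simp
    rw [Jt, if_neg hu, e]
    linarith

end Crest.Agent.T157.Qe.Up91

namespace Crest.Agent.T157.Qe

open Matrix Finset MeasureTheory Set Up91
open scoped ENNReal
open Crest.Agent.T157.E Crest.Agent.T157.Cond Crest.Agent.T157.Dq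
open Crest.Agent.T157.Conc (ex ex_add ex_mono ex_zero)

/-- **the upper bound** -/
theorem upGlue : UpGlue := by
  rintro ⟨C, hC⟩
  refine ⟨C + 16, fun n ε q E P S B ν Φ D h hE hQ hD hB hBD hL => ?_⟩
  have := hQ.fin
  have hΦ := hQ.meas
  have n8 : (8 : ℝ) ≤ n := by exact_mod_cast h.n8
  have n0 : (n : ℝ) ≠ 0 := by linarith
  set K : ℝ := C * Real.log n + E / 2 + n * (uu ε ^ 2 / 4 - 1 / 4) - GG D 1 -
    ε ^ 2 * q ^ 2 * n / 256 with hK
  set A : Finset ℕ := (range (4096 * n + 1)).filter fun j => 1 / 64 ≤ aa ε q j with hA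
  have ale : ∀ j : ℕ, aa ε q j ≤ uu ε := fun j => by
    have := h.e0
    have := h.q0
    have : 0 ≤ (j : ℝ) * (ε * q / 2048) := by positivity
    simp only [aa]; linarith
  have pt : ∀ x : V n, ∫⁻ W, ex ((x ⬝ᵥ x - x ⬝ᵥ (B + (2 - uu ε) • (1 : Mx n) - Φ W) *ᵥ x) / 2 -
      (1 / Real.sqrt n) ^ 2 * (x ⬝ᵥ x) ^ 2 / 4) ∂ν ≤
      ∑ j ∈ A, ν univ * ex (K - (n * Real.log (aa ε q j) / 2 - GG D (aa ε q j))) *
        ex ((x ⬝ᵥ x - x ⬝ᵥ NN ε q (aa ε q j) P S B *ᵥ x) / 2) := fun x => by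
    have e : ∀ W, ex ((x ⬝ᵥ x - x ⬝ᵥ (B + (2 - uu ε) • (1 : Mx n) - Φ W) *ᵥ x) / 2 -
        (1 / Real.sqrt n) ^ 2 * (x ⬝ᵥ x) ^ 2 / 4) =
        ex ((x ⬝ᵥ x - x ⬝ᵥ B *ᵥ x - (2 - uu ε) * (x ⬝ᵥ x)) / 2 - (x ⬝ᵥ x) ^ 2 / (4 * n)) *
          ex (x ⬝ᵥ Φ W *ᵥ x / 2) := fun W => by
      rw [← ex_add, qf_sub, qf_add, qf_smul, qf_one, div_pow, Real.sq_sqrt (by linarith)]
      congr 1; field_simp; ring
    simp only [e]
    rw [lintegral_const_mul _ (by fun_prop)]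
    have i1 := Up91.inner h.n8 hE hQ x (hC n P S ν Φ _ E x h.n8 hQ h.gg_mem)
    set w := (P *ᵥ x) ⬝ᵥ (P *ᵥ x) with hw
    set v := (x - P *ᵥ x) ⬝ᵥ (x - P *ᵥ x) with hv
    obtain ⟨j, j1, j2, j3⟩ := exists_cell h (u := w / n) (v := v / n)
      (div_nonneg (dot_self_nonneg _) (by linarith)) (div_nonneg (dot_self_nonneg _) (by linarith))
      (fun a => (GG D 1 - GG D a) / n)
      (fun a a0 a1 => by
        rw [div_le_iff₀' (by linarith)]; exact GG_lo hD h (by linarith) a1)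
      (fun a a0 a1 => by rw [div_le_iff₀' (by linarith)]; exact GG_hi hD h a0 a1)
    refine (mul_le_mul_right i1 _).trans (le_trans ?_ (single_le_sum
      (f := fun j => ν univ * ex (K - (n * Real.log (aa ε q j) / 2 - GG D (aa ε q j))) *
        ex ((x ⬝ᵥ x - x ⬝ᵥ NN ε q (aa ε q j) P S B *ᵥ x) / 2)) (fun _ _ => zero_le)
      (show j ∈ A from mem_filter.2 ⟨mem_range.2 (by omega), j2⟩)))
    rw [mul_left_comm, mul_assoc, ← ex_add, ← ex_add]
    refine mul_le_mul_right (ex_mono ?_) _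
    set a := aa ε q j
    have a0 : a ≠ 0 := by linarith
    have e1 : x ⬝ᵥ x = w + v := dot_split hQ.proj x
    have e2 : x ⬝ᵥ NN ε q a P S B *ᵥ x = x ⬝ᵥ B *ᵥ x + x ⬝ᵥ S *ᵥ x + a⁻¹ * w -
        (zz (gg ε q) - 2 + ε * q ^ 2 / 2) * v := by
      rw [NN, qf_sub, qf_add, qf_add, qf_smul, qf_smul, qf_compl hQ.proj, hw, hQ.proj.dot_self]
    have j4 := mul_le_mul_of_nonneg_left j3 (show (0 : ℝ) ≤ n by linarith)
    have e3 : n * (Ps ε q (w / n) (v / n) a + (GG D 1 - GG D a) / n) =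
        -((w + v) ^ 2 / (4 * n)) + uu ε * (w + v) / 2 - n * (uu ε ^ 2 / 4) - ε * q ^ 2 / 4 * v +
          a⁻¹ * w / 2 - w + n * Jt (gg ε q) (w / n) + n * Real.log a / 2 + n / 4 +
          (GG D 1 - GG D a) := by
      simp only [Ps]; field_simp; ring
    rw [e3] at j4
    rw [e2, e1, hK]
    linarith
  unfold II
  rw [lintegral_lintegral_swap (by fun_prop)]
  refine (lintegral_mono pt).trans ?_
  rw [lintegral_finsetSum _ fun j _ => by fun_prop]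
  have cb : ∀ j ∈ A, ∫⁻ x, ν univ * ex (K - (n * Real.log (aa ε q j) / 2 - GG D (aa ε q j))) *
      ex ((x ⬝ᵥ x - x ⬝ᵥ NN ε q (aa ε q j) P S B *ᵥ x) / 2) ∂gv (Fin n) ≤
      ν univ * ex (K + 10 * Real.log n) := fun j hj => by
    rw [lintegral_const_mul _ (by fun_prop), mul_assoc]
    refine mul_le_mul_right ((mul_le_mul_right (gi_NN h hQ.proj hQ.tr hQ.symm hQ.zero hD hB hBD hL
      (mem_filter.1 hj).2 (ale j)) _).trans ?_) _
    rw [← ex_add]
    exact ex_mono (le_of_eq (by ring))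
  refine (sum_le_card_nsmul _ _ _ cb).trans ?_
  have c1 : (A.card : ℝ) ≤ (n : ℝ) ^ 6 := by
    have c2 : A.card ≤ 4096 * n + 1 := (card_filter_le _ _).trans (card_range _).le
    have c3 : (A.card : ℝ) ≤ 4096 * n + 1 := by exact_mod_cast c2
    have c4 : (8 : ℝ) ^ 5 ≤ (n : ℝ) ^ 5 := pow_le_pow_left₀ (by norm_num) n8 5
    nlinarith
  have c2 : (A.card : ℝ≥0∞) ≤ ex (6 * Real.log n) := by
    rw [ex, show 6 * Real.log n = Real.log ((n : ℝ) ^ 6) by rw [Real.log_pow]; norm_num,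
      Real.exp_log (by positivity), ← ENNReal.ofReal_natCast]
    exact ENNReal.ofReal_le_ofReal c1
  rw [nsmul_eq_mul]
  refine (mul_le_mul_left c2 _).trans ?_
  rw [mul_left_comm, ← ex_add]
  refine mul_le_mul_right (ex_mono (le_of_eq ?_)) _
  rw [hK]; push_cast; ring

end Crest.Agent.T157.Qe

end
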