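import Crest.Agent.T157.KbDef_24
import Crest.Agent.T157.QeCore_78
import Crest.Agent.T157.QeNumU_43
import Crest.Agent.T157.QeQs_98
import Crest.Agent.T157.QeUp_91
import Crest.Agent.T157.QeLo_54
import Crest.Agent.T157.QeTi_61

/-!
# Row 157, part A2 (helper24): `Kb.coreU`, the conditional form of (3q) uniformly in `ε`

The proof is helper78's `Qe.coreGlue` with the uniform criterion `Qe.numU` of helper43.
-/

set_option autoImplicit false

noncomputable section

namespace Crest.Agent.T157.Qe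

open Matrix Finset MeasureTheory Set
open scoped ENNReal
open Crest.Agent.T157.E Crest.Agent.T157.Cond Crest.Agent.T157.Dq
open Crest.Agent.T157.Conc (ex ex_add ex_mono ex_ne_top ex_zero measurable_ex)
open Core78

set_option maxHeartbeats 800000 in
theorem coreU24 : Kb.CoreU := by
  obtain ⟨Cu, hU⟩ := upGlue qsStmt
  obtain ⟨Cl, hL⟩ := loStmt
  obtain ⟨Ct, hT⟩ := tiGlue qsStmt
  intro C hC Cw hCw
  obtain ⟨k0, hk0', hN⟩ := numU C hC
  refine ⟨min k0 (min (1 / 100) (1 / (1100 * (1 + Cw)))),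
    lt_min hk0' (lt_min (by norm_num) (by positivity)), Cu + Cl + Ct + 1, ?_⟩
  intro n ε q E β D e c τ S hn hε hq hnq hE hS hD hst0
  have he0 : 0 < ε := hε.1
  have hq0' : 0 < q := hq.1
  have m1 := min_le_left k0 (min (1 / 100) (1 / (1100 * (1 + Cw))))
  have m2 := (min_le_right k0 _).trans (min_le_left (1 / 100 : ℝ) (1 / (1100 * (1 + Cw))))
  have m3 := (min_le_right k0 _).trans (min_le_right (1 / 100 : ℝ) (1 / (1100 * (1 + Cw))))
  have he1 : ε ≤ 1 / 100 := hε.2.trans m2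
  have e9 : 0 < ε ^ 9 := by positivity
  have e6 : ε ^ 9 ≤ ε ^ 3 / 10 ^ 6 := by
    have h6 : ε ^ 6 ≤ (1 / 100) ^ 6 := pow_le_pow_left₀ he0.le he1 6
    have := mul_le_mul_of_nonneg_left h6 (by positivity : 0 ≤ ε ^ 3)
    have h3 : 0 ≤ ε ^ 3 := by positivity
    rw [show ε ^ 9 = ε ^ 3 * ε ^ 6 by ring]
    linarith
  have hq1 : q ≤ ε ^ 3 / 10 ^ 6 := by
    have := mul_le_mul_of_nonneg_right m2 e9.le
    linarith [hq.2]
  have hq2 : 1100 * (1 + Cw) * q ≤ ε ^ 3 := by
    have h1 := hq.2.trans (mul_le_mul_of_nonneg_right m3 e9.le)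
    rw [div_mul_eq_mul_div, one_mul, le_div_iff₀ (by positivity)] at h1
    have h3 : 0 ≤ ε ^ 3 := by positivity
    linarith
  have hP : Par n ε q := ⟨hn, he0, he1, hq0', hq1, hnq⟩
  have hst : St C (k0 * ε ^ 9) q D β e c τ :=
    hst0.mono43 (by linarith) hq0'.le (mul_le_mul_of_nonneg_right m1 e9.le)
  obtain ⟨hF, hle⟩ := hN n ε q β D e c τ (by omega) ⟨he0, hε.2.trans m1⟩
    ⟨hq0', hq.2.trans (mul_le_mul_of_nonneg_right m1 e9.le)⟩ hD.lo hst
  have he := hst.unit
  have hn8 : (8 : ℝ) ≤ n := by exact_mod_cast hn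
  have hlog : Real.log 8 ≤ Real.log n := Real.log_le_log (by norm_num) hn8
  have hlog0 : 0 ≤ Real.log n := Real.log_nonneg (by linarith)
  obtain ⟨hq3, hx1, h4, hy1, f1, f2⟩ := nums he0 he1 hq0' hq1 (Nat.cast_nonneg (α := ℝ) n)
  have hgap := zz_gap (ε := ε) (q := q) (by positivity) hx1
  set z := zz (gg ε q) with hz
  set k := q ^ 2 / ε / (τ ⬝ᵥ τ) with hk
  have hk0 : 0 ≤ k := div_nonneg (by positivity) (dot_self_nonneg τ)
  set P := P3 e c τ with hPd
  set B : Mx n := diagonal D - β • vecMulVec e e with hB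
  have hPp : IsProj P := proj3 he c τ
  have hBs : Bᵀ = B := by
    rw [hB, Matrix.transpose_sub, Matrix.transpose_smul, Matrix.transpose_vecMulVec,
      Matrix.diagonal_transpose]
  have hPB : P * B * P = P * diagonal D * P := by
    rw [hB, Matrix.mul_sub, Matrix.mul_smul, vmv_zl (p3_e he c τ), smul_zero, sub_zero]
  have hEm := meas_Ev z k e c τ hS.meas
  have hQ : QD P (Sg z e c + Tm ε q τ) ((GOE n).restrict (Ev z k e c τ S)) (Wm e c τ)
      (gg ε q) E := by
    refine ⟨hPp, tr3 he c τ, inferInstance, meas_wm e c τ, inv_Ev he c τ hS.meas hS.inv, ?_, ?_,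
      ?_, ?_⟩
    · simp only [Sg, Tm, Matrix.transpose_add, Matrix.transpose_smul, Matrix.transpose_vecMulVec]
    · have : P *ᵥ (z • e - c) = 0 := by
        rw [Matrix.mulVec_sub, Matrix.mulVec_smul, p3_e he, p3_c he, smul_zero, sub_zero]
      rw [Sg, Tm, Matrix.add_mul, Matrix.smul_mul, Matrix.smul_mul, vmv_zr hPp.symm this,
        vmv_zr hPp.symm (p3_t he c τ), smul_zero, smul_zero, add_zero]
    · intro u
      rw [Matrix.zero_mulVec, dotProduct_zero, Sg, Tm, Matrix.add_mulVec, dotProduct_add,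
        Matrix.smul_mulVec, Matrix.smul_mulVec, dotProduct_smul, dotProduct_smul, Core78.qf_vmv, Core78.qf_vmv,
        smul_eq_mul, smul_eq_mul]
      exact add_nonneg (mul_nonneg (inv_nonneg.2 hF.pos.le) (sq_nonneg _))
        (mul_nonneg hk0 (sq_nonneg _))
    · refine (ae_restrict_mem hEm).mono fun W hW => ?_
      obtain ⟨a, ha, ha1, ha2, -⟩ := hS.sp _ hW.1
      exact ⟨⟨a, ha, fun i => ⟨(ha1 i).1, (ha1 i).2.trans_lt hgap⟩, ha2⟩,
        le_sg ha.symm he hst.orth (wm_e he c τ W) hF.pos hW.2⟩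
  have hup := hU n ε q E P _ B _ _ D hP hE hQ hD hBs hPB hle
  set y := ε ^ 2 * q ^ 2 * n / 256 with hy
  have hy0 : 0 ≤ y := by positivity
  have hB1 : Le ((-2 : ℝ) • (1 : Mx n)) B := by
    intro u
    rw [Core78.qf_one, hB, Matrix.sub_mulVec, dotProduct_sub, Matrix.smul_mulVec, dotProduct_smul,
      Core78.qf_vmv, qf_diag, smul_eq_mul]
    have h1 : ∑ i, -1 * u i ^ 2 ≤ ∑ i, D i * u i ^ 2 := Finset.sum_le_sum fun i _ =>
      mul_le_mul_of_nonneg_right (by linarith [hD.lo i]) (sq_nonneg _)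
    rw [← Finset.mul_sum, ← dot_sq] at h1
    have h2 := unit_cs he u
    have h3 := mul_le_mul_of_nonneg_right hst.b1 (sq_nonneg (e ⬝ᵥ u))
    linarith
  have hB2 : Le B ((4 : ℝ) • (1 : Mx n)) := by
    intro u
    rw [Core78.qf_one, hB, Matrix.sub_mulVec, dotProduct_sub, Matrix.smul_mulVec, dotProduct_smul,
      Core78.qf_vmv, qf_diag, smul_eq_mul]
    have h1 : ∑ i, D i * u i ^ 2 ≤ ∑ i, 3 * u i ^ 2 := Finset.sum_le_sum fun i _ =>
      mul_le_mul_of_nonneg_right (hD.hi i) (sq_nonneg _)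
    rw [← Finset.mul_sum, ← dot_sq] at h1
    have h2 := mul_nonneg hst.b0 (sq_nonneg (e ⬝ᵥ u))
    have h3 := dot_self_nonneg u
    linarith
  obtain ⟨G, hG, hlo⟩ := hL n ε q y P B D hP hy0 hy1 hPp (tr3 he c τ) hD hBs hPB hB1 hB2
  have hti := hT n ε q E Cw e c τ S hP hCw hq2 hS hF
  set lb := n * (uu ε ^ 2 / 4 - 1 / 4) - GG D 1 - 200 * q ^ 3 * n - y / 4 - Cl * Real.log n
    with hlb
  have hI : Measurable fun W => II (1 / Real.sqrt n) (B + (2 - uu ε) • (1 : Mx n) - Wm e c τ W) :=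
    (measurable_II _ _).comp (meas_wm e c τ)
  have hν : (GOE n).restrict (Ev z k e c τ S) univ ≤ 1 := by
    rw [Measure.restrict_apply_univ]; exact prob_le_one
  have hmk := markov (a := lb) hI (hup.trans (mul_le_of_le_one_left' hν))
  rw [Measure.restrict_apply' hEm] at hmk
  have hsub : {W | Wm e c τ W ∈ S ∧ ¬ Le (Wm e c τ W) (Mm D β e)} ⊆
      ({W | Wm e c τ W ∈ S ∧ ¬ Le (Wm e c τ W + Tm ε q τ) (z • (1 : Mx n))} ∪ Gᶜ) ∪
      ({W | ex lb ≤ II (1 / Real.sqrt n) (B + (2 - uu ε) • (1 : Mx n) - Wm e c τ W)} ∩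
        Ev z k e c τ S) := by
    rintro W ⟨h1, h2⟩
    by_cases h3 : Le (Wm e c τ W + Tm ε q τ) (z • (1 : Mx n))
    · by_cases h4' : W ∈ G
      · right
        obtain ⟨a, ha, ha1, -⟩ := hS.sp _ h1
        exact ⟨hlo W h4' _ (p_wm he c τ W)
          ⟨a, ha, fun i => ⟨(ha1 i).1, by linarith [(ha1 i).2]⟩⟩ h2, h1, h3⟩
      · exact Or.inl (Or.inr h4')
    · exact Or.inl (Or.inl ⟨h1, h3⟩)
  have c1 : 0 ≤ (Cu : ℝ) * Real.log n := by positivity
  have c2 : 0 ≤ (Cl : ℝ) * Real.log n := by positivity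
  have c3 : 0 ≤ (Ct : ℝ) * Real.log n := by positivity
  set x := (Cu + Cl + Ct : ℝ) * Real.log n + E / 2 - ε ^ 9 * q ^ 2 * n / 64 with hx
  have g1 := hti.trans (ex_mono (v := x) (by rw [hx]; linarith))
  have g2 := hG.trans (ex_mono (v := x) (by rw [hx, hy]; linarith))
  have g3 := hmk.trans (ex_mono (v := x) (by rw [hx, hlb, hy]; linarith))
  refine (measure_mono hsub).trans ((measure_union_le _ _).trans ?_)
  refine (add_le_add ((measure_union_le _ _).trans (add_le_add g1 g2)) g3).trans ?_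
  refine (three hlog).trans (ex_mono ?_)
  rw [hx]; push_cast; linarith


end Crest.Agent.T157.Qe

namespace Crest.Agent.T157.Kb

theorem numU : NumU := Qe.numU

theorem coreU : CoreU := Qe.coreU24

end Crest.Agent.T157.Kb

end
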