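import Crest.Agent.T157.KbXdB_75

/-!
# Row 157, part A2 (helper75): `Kb.xdStmt : XdStmt`
-/

set_option autoImplicit false

noncomputable section

namespace Crest.Agent.T157.Kb

open Matrix Filter Real
open Crest.Agent.T157.Tap Crest.Agent.T157.Cond
open Crest.Agent.T157.Qe (bv R1 Dv)

namespace Xd75

variable {K : ℝ} {n : ℕ}

lemma dD (hn : 0 < n) (D u v : V n) :
    u ⬝ᵥ diagonal D *ᵥ v = n * avg fun j => D j * (u j * v j) := by
  rw [dot_eq hn]; congr 2; funext j; rw [mulVec_diagonal]; ring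

lemma dDD (hn : 0 < n) (D u : V n) :
    (diagonal D *ᵥ u) ⬝ᵥ (diagonal D *ᵥ u) = n * avg fun j => D j ^ 2 * u j ^ 2 := by
  rw [dot_eq hn]; congr 2; funext j; rw [mulVec_diagonal]; ring

lemma bv_eq (e c : V n) : bv e c = c - (e ⬝ᵥ c) • e := by
  rw [bv, R1, sub_mulVec, one_mulVec, vecMulVec_mulVec, op_smul_eq_smul]

lemma avg3 (a b c : ℝ) (f g h : V n) :
    avg (fun j => a * f j + b * g j + c * h j) = a * avg f + b * avg g + c * avg h := by
  rw [avg_add, avg_add, avg_mul, avg_mul, avg_mul]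

namespace In
variable (i : In K)

def sg : ℝ := (len i.p)⁻¹
def ta : V i.n := fun j => 1 - i.al * i.p j
def m : V i.n := fun j => i.r j - i.q * i.rh * i.p j + i.q ^ 2 * i.la * i.ta j
def B0 : ℝ := 1 - i.q * i.al ^ 2
def E2 : ℝ := 2 * i.k + i.q * U2 i
def t3 : ℝ := avg (fun j => i.D j ^ 2 * i.p j ^ 2) / i.q ^ 3
def B1 : ℝ := 2 * (avg (fun j => i.D j ^ 2) / i.q ^ 2) + 2 * (i.q * i.al ^ 2) * i.t3
def B2 : ℝ := avg i.D / i.q ^ 2 - 2 * i.al * HH i - i.al ^ 2 * i.E2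
def B3 : ℝ := 3 * i.gm ^ 2 * (avg (fun j => i.r j ^ 2) / i.q ^ 3 + i.rh ^ 2 + i.q * i.la ^ 2 * i.B0)
def B4 : ℝ := 3 * i.gm ^ 2 * (avg (fun j => i.D j ^ 2 * i.r j ^ 2) / i.q ^ 3 +
  (i.q * i.rh) ^ 2 * i.t3 + i.q * (i.q * i.la) ^ 2 * i.B1)
def B5 : ℝ := i.gm * ((R3 i.x - bS i.x * i.q) / i.q ^ 2 - i.al * (i.rh - 1) + i.la * i.B0)
def B6 : ℝ := i.t3 - i.E2 ^ 2
def B7 : ℝ := i.gm * (avg (fun j => i.D j * (i.p j * i.r j)) / i.q ^ 3 - i.rh * i.E2 +
  i.q * (i.la * HH i))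
def B8 : ℝ := i.q * (uR i.t i.x / i.q) - (i.rh - 1) * (i.q ^ 2 / i.t) - i.q * (1 - i.al)

lemma n0 : (0 : ℝ) < i.n := by exact_mod_cast i.hn
lemma pp : avg (fun j => i.p j ^ 2) = i.q := rfl
lemma p1 : avg i.p = i.q * i.al := by rw [al, mul_div_cancel₀ _ i.qn]; rfl
lemma pr : avg (fun j => i.p j * i.r j) = i.q ^ 2 * i.rh := by
  rw [rh, mul_div_cancel₀ _ (q2 i).ne']; rfl

lemma sg2 : i.sg * i.sg * i.n = 1 / i.q := by
  have := i.qn
  have := i.n0
  rw [sg, ← mul_inv, ← sq, len_sq, dot_eq i.hn]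
  simp only [← sq, pp]
  field_simp

lemma ee_eq : ee i.x = i.sg • i.p := rfl

lemma bv_ee (v : V i.n) : bv (ee i.x) v = v - (avg (fun j => i.p j * v j) / i.q) • i.p := by
  rw [bv_eq, ee_eq, smul_dotProduct, smul_smul, dot_eq i.hn, smul_eq_mul]
  congr 2
  linear_combination (avg fun j => i.p j * v j) * i.sg2

lemma tau_eq : tau i.x = i.ta := by
  rw [tau, bv_ee]
  simp only [Pi.one_apply, mul_one]
  rfl

lemma mb_eq : mb i.t i.x = (i.sg * i.gm) • i.m := by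
  have h : avg (fun j => i.p j * i.x j) = i.q ^ 2 * i.rh + i.q := by
    rw [← pr, ← pp, ← avg_add]; congr 1; funext j; ring
  have := i.qn
  have : ga i.t i.x ≠ 0 := (add_pos i.q0 i.ht).ne'
  rw [mb, bv_ee, tau_eq, h, mul_smul]
  congr 1
  funext j
  simp only [Pi.add_apply, Pi.smul_apply, Pi.sub_apply, smul_eq_mul, m, gm, la, al]
  field_simp
  ring

lemma ta2 : avg (fun j => i.ta j ^ 2) = i.B0 := by
  have := avg3 1 (-2 * i.al) (i.al ^ 2) (fun _ => 1) i.p fun j => i.p j ^ 2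
  rw [avg_const i.hn, p1, pp] at this
  rw [B0]
  refine Eq.trans (congrArg avg (funext fun j => ?_)) (this.trans (by ring))
  rw [ta]; ring

lemma Dp2 : avg (fun j => i.D j * i.p j ^ 2) = i.q ^ 2 * i.E2 := by
  have := i.qn
  rw [E2, U2]; field_simp; ring

lemma Dpt : avg (fun j => i.D j * (i.p j * i.ta j)) = i.q ^ 2 * HH i := by
  rw [HH, mul_div_cancel₀ _ (q2 i).ne', ← avg_mul, ← avg_sub]
  congr 1; funext j; rw [ta]; ring

lemma Dt2 : avg (fun j => i.D j ^ 2 * i.ta j ^ 2) ≤ i.q ^ 2 * i.B1 := by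
  have := i.qn
  refine (avg_mono (g := fun j => 2 * i.D j ^ 2 + 2 * i.al ^ 2 * (i.D j ^ 2 * i.p j ^ 2))
    fun j => ?_).trans_eq ?_
  · rw [ta]; nlinarith [mul_nonneg (sq_nonneg (i.D j)) (sq_nonneg (1 + i.al * i.p j))]
  · rw [avg_add, avg_mul, avg_mul, B1, t3]; field_simp

lemma m2 (w : V i.n) : avg (fun j => w j ^ 2 * i.m j ^ 2) ≤
    3 * avg (fun j => w j ^ 2 * i.r j ^ 2) +
      3 * (i.q * i.rh) ^ 2 * avg (fun j => w j ^ 2 * i.p j ^ 2) +
      3 * (i.q ^ 2 * i.la) ^ 2 * avg fun j => w j ^ 2 * i.ta j ^ 2 := by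
  rw [← avg3]
  refine avg_mono fun j => ?_
  rw [m]
  generalize i.q * i.rh = a
  generalize i.q ^ 2 * i.la = b
  nlinarith [mul_nonneg (sq_nonneg (w j)) (sq_nonneg (i.r j + a * i.p j)),
    mul_nonneg (sq_nonneg (w j)) (sq_nonneg (i.r j - b * i.ta j)),
    mul_nonneg (sq_nonneg (w j)) (sq_nonneg (a * i.p j + b * i.ta j))]

lemma d1 : tau i.x ⬝ᵥ tau i.x = i.B0 * i.n := by
  rw [tau_eq, dot_eq i.hn, mul_comm, ← ta2]; simp only [sq]

lemma d2 : 2 - ec i.t i.x - i.t / i.q = i.B8 * (i.t / i.q) := by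
  have h : ww i.t i.x = R4 i.x + (i.q + i.t) * i.q - i.t - (bS i.x + i.t) * bS i.x := by
    have := avg3 1 1 (-(bS i.x + i.t)) (fun j => i.p j * i.r j) (fun j => i.p j ^ 2) i.p
    rw [ww, ga, show avg (fun j => th i.x j * (i.x j - Kb.mu i.t i.x)) = _ from
      Eq.trans (congrArg avg (funext fun j => by rw [Kb.mu]; ring)) this]
    change 1 * R4 i.x + 1 * i.q + _ * bS i.x - _ = _
    ring
  have := i.qn
  have := i.ht.ne'
  have : i.t + 2 * i.q ≠ 0 := by linarith [i.q0, i.ht]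
  rw [ec, B8, uR, ga, h, rh, al, show aS i.x + i.t + aS i.x = i.t + 2 * i.q by ring]
  field_simp
  ring

lemma d3 : mb i.t i.x ⬝ᵥ mb i.t i.x ≤ i.B3 * i.q ^ 2 := by
  have := i.qn
  have h := mul_le_mul_of_nonneg_left (i.m2 fun _ => 1) (div_nonneg (sq_nonneg i.gm) i.q0.le)
  simp only [one_pow, one_mul, pp, ta2] at h
  rw [mb_eq, smul_dotProduct, dotProduct_smul, dot_eq i.hn, smul_eq_mul, smul_eq_mul]
  simp only [← sq]
  refine (le_of_eq ?_).trans (h.trans_eq (by rw [B3]; field_simp))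
  linear_combination i.gm ^ 2 * (avg fun j => i.m j ^ 2) * i.sg2

lemma d4 : (diagonal i.D *ᵥ mb i.t i.x) ⬝ᵥ (diagonal i.D *ᵥ mb i.t i.x) ≤ i.B4 * i.q ^ 2 := by
  have := i.qn
  have h := mul_le_mul_of_nonneg_left ((i.m2 i.D).trans (add_le_add_right
    (mul_le_mul_of_nonneg_left i.Dt2 (by positivity)) _)) (div_nonneg (sq_nonneg i.gm) i.q0.le)
  rw [mb_eq, mulVec_smul, smul_dotProduct, dotProduct_smul, dDD i.hn, smul_eq_mul, smul_eq_mul]
  refine (le_of_eq ?_).trans (h.trans_eq (by rw [B4, t3]; field_simp))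
  linear_combination i.gm ^ 2 * (avg fun j => i.D j ^ 2 * i.m j ^ 2) * i.sg2

lemma d8 : ee i.x ⬝ᵥ diagonal i.D *ᵥ ee i.x = i.E2 * i.q := by
  have := i.qn
  rw [ee_eq, mulVec_smul, smul_dotProduct, dotProduct_smul, dD i.hn, smul_eq_mul, smul_eq_mul]
  simp only [← sq]
  rw [Dp2, ← mul_assoc, ← mul_assoc, sg2]; field_simp

lemma d7 : ee i.x ⬝ᵥ diagonal i.D *ᵥ mb i.t i.x = i.B7 * i.q ^ 2 := by
  have := i.qn
  have h := avg3 1 (-(i.q * i.rh)) (i.q ^ 2 * i.la) (fun j => i.D j * (i.p j * i.r j))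
    (fun j => i.D j * i.p j ^ 2) fun j => i.D j * (i.p j * i.ta j)
  rw [ee_eq, mb_eq, mulVec_smul, smul_dotProduct, dotProduct_smul, dD i.hn, smul_eq_mul, smul_eq_mul,
    show avg (fun j => i.D j * (i.p j * i.m j)) = _ from
      Eq.trans (congrArg avg (funext fun j => by rw [m]; ring)) h, Dp2, Dpt,
    show ∀ y, i.sg * (i.sg * i.gm * (i.n * y)) = i.sg * i.sg * i.n * (i.gm * y) from
      fun y => by ring, sg2, B7]
  field_simp
  ring

lemma d6 : bv (ee i.x) (diagonal i.D *ᵥ ee i.x) ⬝ᵥ bv (ee i.x) (diagonal i.D *ᵥ ee i.x) =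
    i.B6 * i.q ^ 2 := by
  have := i.qn
  have e1 : ee i.x ⬝ᵥ ee i.x = 1 := by
    rw [ee_eq, smul_dotProduct, dotProduct_smul, dot_eq i.hn, smul_eq_mul, smul_eq_mul]
    simp only [← sq]
    rw [pp, ← mul_assoc, ← mul_assoc, sg2]; field_simp
  have e2 : (diagonal i.D *ᵥ ee i.x) ⬝ᵥ (diagonal i.D *ᵥ ee i.x) = i.t3 * i.q ^ 2 := by
    rw [ee_eq, mulVec_smul, smul_dotProduct, dotProduct_smul, dDD i.hn, smul_eq_mul, smul_eq_mul,
      ← mul_assoc, ← mul_assoc, sg2, t3]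
    field_simp
  rw [bv_eq, sub_dotProduct, dotProduct_sub, dotProduct_sub, smul_dotProduct, smul_dotProduct,
    dotProduct_smul, dotProduct_smul, dotProduct_comm (diagonal i.D *ᵥ ee i.x) (ee i.x), e1, e2, d8,
    B6]
  simp only [smul_eq_mul]
  ring

lemma u1 : (diagonal i.D *ᵥ tau i.x) ⬝ᵥ (diagonal i.D *ᵥ tau i.x) ≤ i.B1 * i.q ^ 2 * i.n := by
  rw [tau_eq, dDD i.hn]
  linarith [mul_le_mul_of_nonneg_left i.Dt2 i.n0.le]

lemma u2 : tau i.x ⬝ᵥ diagonal i.D *ᵥ tau i.x = i.B2 * (i.q ^ 2 * i.n) := by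
  have := i.qn
  have h := avg3 1 (-(2 * i.al)) (-i.al ^ 2) i.D (fun j => i.D j * (i.p j * i.ta j))
    fun j => i.D j * i.p j ^ 2
  rw [tau_eq, dD i.hn, show avg (fun j => i.D j * (i.ta j * i.ta j)) = _ from
    Eq.trans (congrArg avg (funext fun j => by rw [ta]; ring)) h, Dp2, Dpt, B2]
  field_simp
  ring

lemma u3 : (ee i.x ⬝ᵥ diagonal i.D *ᵥ tau i.x) ^ 2 = HH i ^ 2 / i.q * (i.q ^ 4 * i.n) := by
  rw [ee_eq, tau_eq, smul_dotProduct, dD i.hn, Dpt, smul_eq_mul]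
  linear_combination i.n * i.q ^ 4 * HH i ^ 2 * i.sg2

lemma u5 : (mb i.t i.x ⬝ᵥ tau i.x) ^ 2 = i.B5 ^ 2 * (i.q ^ 3 * i.n) := by
  have := i.qn
  have h := avg3 1 (-(i.q * i.rh)) (i.q ^ 2 * i.la) (fun j => i.r j * i.ta j)
    (fun j => i.p j * i.ta j) fun j => i.ta j ^ 2
  have a : avg (fun j => i.r j * i.ta j) = R3 i.x - i.al * (i.q ^ 2 * i.rh) := by
    rw [← pr, ← avg_mul, show R3 i.x = avg i.r from rfl, ← avg_sub]
    congr 1; funext j; rw [ta]; ring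
  have b : avg (fun j => i.p j * i.ta j) = 0 := by
    have : avg (fun j => i.p j * i.ta j) = avg i.p - i.al * i.q := by
      rw [← pp, ← avg_mul, ← avg_sub]
      congr 1; funext j; rw [ta]; ring
    rw [this, p1]; ring
  have c : i.gm * avg (fun j => i.m j * i.ta j) = i.q ^ 2 * i.B5 := by
    rw [show avg (fun j => i.m j * i.ta j) = _ from
      Eq.trans (congrArg avg (funext fun j => by rw [m]; ring)) h, a, b, ta2, B5,
      show bS i.x = i.q * i.al from i.p1]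
    field_simp
    ring
  rw [mb_eq, tau_eq, smul_dotProduct, dot_eq i.hn, smul_eq_mul,
    show ∀ y, (i.sg * i.gm * (i.n * y)) ^ 2 = i.sg * i.sg * i.n * (i.n * (i.gm * y) ^ 2) from
      fun y => by ring, sg2, c]
  field_simp

end In

lemma aB0 : AP (K := K) In.B0 fun _ => 1 :=
  ((cst 1).sub (aq.mul aal.sq)).congr (fun _ => rfl) fun _ => by ring
lemma aE2 : AP (K := K) In.E2 fun i => 2 * i.k :=
  (((cst 2).mul ak).add (aq.mul T2)).congr (fun _ => rfl) fun _ => by ring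
lemma aB1 : AP (K := K) In.B1 fun i => 4 * i.k ^ 2 :=
  (((cst 2).mul T1).add (((cst 2).mul (aq.mul aal.sq)).mul T3)).congr (fun _ => rfl)
    fun _ => by ring
lemma aB2 : ∃ g, AP (K := K) In.B2 g :=
  ⟨_, (T0.sub (((cst 2).mul aal).mul T6)).sub (aal.sq.mul aE2)⟩
lemma aB3 : ∃ g, AP (K := K) In.B3 g :=
  ⟨_, ((cst 3).mul agm.sq).mul ((A6.add arh.sq).add ((aq.mul ala.sq).mul aB0))⟩
lemma aB4 : AP (K := K) In.B4 fun _ => 0 :=
  (((cst 3).mul agm.sq).mul ((T5.add ((aq.mul arh).sq.mul T3)).add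
    ((aq.mul (aq.mul ala).sq).mul aB1))).congr (fun _ => rfl) fun _ => by ring
lemma aB5 : ∃ g, AP (K := K) (fun i => i.B5 ^ 2) g :=
  ⟨_, (agm.mul ((ar3.sub (aal.mul (arh.sub (cst 1)))).add (ala.mul aB0))).sq⟩
lemma aB6 : AP (K := K) In.B6 fun i => 6 * i.k ^ 2 :=
  (T3.sub aE2.sq).congr (fun _ => rfl) fun _ => by ring
lemma aB7 : AP (K := K) In.B7 fun i => 2 * i.k :=
  (agm.mul ((T4.sub (arh.mul aE2)).add (aq.mul (ala.mul T6)))).congr (fun _ => rfl)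
    fun _ => by ring
lemma aB8 : AP (K := K) In.B8 fun _ => 0 :=
  (((aq.mul aup).sub ((arh.sub (cst 1)).mul as2)).sub (aq.mul ((cst 1).sub aal))).congr
    (fun _ => rfl) fun _ => by ring

end Xd75

open Xd75 in
/-- **the statistics of the mean column** -/
theorem xdStmt : XdStmt := fun K hK => by
  have h0 : ∀ i : In K, 0 ≤ i.e := fun i => i.he.le
  obtain ⟨_, g2⟩ := aB2 (K := K)
  obtain ⟨_, g3⟩ := aB3 (K := K)
  obtain ⟨_, g5⟩ := aB5 (K := K)
  obtain ⟨_, g7⟩ := T7 (K := K)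
  have key : ∀ᶠ C : ℝ in atTop, (4 ≤ C ∧ K ≤ C) ∧ ∀ i : In K, C * i.e ≤ i.ε → i.ε ≤ 1 / 4 →
      Dv i.ε i.q i.D ∧ MD C (C * i.e) i.t i.D (2 * i.k * i.q) i.x := by
    filter_upwards [eventually_ge_atTop 4, eventually_ge_atTop K, T0.ev h0, T1.ev h0,
      (T0.sub T1).ev h0, aB0.ev h0, aB8.ev h0, g3.ev h0, aB4.ev h0,
      ((T2.add ((cst 2).mul aB7)).sub aB6).ev h0, aB6.ev h0, aB7.ev h0, aE2.ev h0, aB1.ev h0,
      g2.ev h0, g7.ev h0, (g3.mul aB1).ev h0, g5.ev h0]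
      with C c4 cK t0 t1 t01 b0 b8 b3 b4 b5 b6 b7 e2 b1 b2 b9 b31 b55
    refine ⟨⟨c4, cK⟩, fun i hε ε4 => ?_⟩
    have q0 := i.q0
    have qq := q2 i
    have n0 := i.n0
    have k1 := i.ad.k1
    have k2 := i.ad.k2
    have qe : i.q ≤ 1 / 16 := by nlinarith [i.qe, i.he]
    have de1 : 2 * i.k * (i.k - 1) + 2 * i.ε ≤ i.de := (le_div_iff₀ qq).2 i.ad.d1
    have de2 : i.de ≤ 9 / 8 := (div_le_iff₀ qq).2 i.ad.d2
    have s0 : ∑ j, i.D j = avg i.D / i.q ^ 2 * (i.q ^ 2 * i.n) := by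
      rw [sum_eq i.hn]; field_simp
    have s1 : ∑ j, i.D j ^ 2 = avg (fun j => i.D j ^ 2) / i.q ^ 2 * (i.q ^ 2 * i.n) := by
      rw [sum_eq i.hn]; field_simp
    have qn := mul_pos qq n0
    have v : i.q / (1 - i.q) ≤ 2 * i.q := by rw [div_le_iff₀ (by linarith)]; nlinarith
    have v0 : 0 ≤ i.q / (1 - i.q) := div_nonneg q0.le (by linarith)
    have le : ∀ {a b w : ℝ}, 0 ≤ w → |a| ≤ b → a * w ≤ b * w := fun hw h =>
      mul_le_mul_of_nonneg_right ((le_abs_self _).trans h) hw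
    have ab : ∀ {a b w : ℝ}, 0 ≤ w → |a| ≤ b → |a * w| ≤ b * w := fun hw h => by
      rw [abs_mul, abs_of_nonneg hw]; exact mul_le_mul_of_nonneg_right h hw
    refine ⟨⟨fun j => ?_, fun j => ?_, ?_, ?_, ?_⟩, q0, ?_, ?_, by positivity, by nlinarith, ?_, ?_,
      i.d3.trans (le qq.le (b3 i).1), i.d4.trans (le qq.le (by simpa using (b4 i).2)), ?_,
      i.d6.trans_le (le qq.le (b6 i).1), by rw [i.d7]; exact ab qq.le (b7 i).1,
      by rw [i.d8]; exact ab q0.le (e2 i).1,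
      i.u1.trans (mul_le_mul_of_nonneg_right (le qq.le (b1 i).1) n0.le), ?_,
      by rw [i.u3, mul_assoc]; exact le (by positivity) (b9 i).1, ?_,
      by rw [i.u5, mul_assoc]; exact le (by positivity) (b55 i).1⟩
    · have := (pw i.S i.x j).f0
      have := d0_nn i
      simp only [Dk]; nlinarith
    · have := (pw i.S i.x j).f1
      have := i.ad.d2
      simp only [Dk]; nlinarith
    · rw [s0, mul_assoc]
      exact mul_le_mul_of_nonneg_right (by linarith [(abs_le.1 (t0 i).2).2]) qn.le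
    · rw [s1, mul_assoc]
      exact mul_le_mul_of_nonneg_right (by nlinarith [(abs_le.1 (t1 i).2).2]) qn.le
    · rw [s0, s1, ← sub_mul, mul_assoc]
      exact mul_le_mul_of_nonneg_right (by linarith [(abs_le.1 (t01 i).2).1]) qn.le
    · exact i.co.q1.trans (mul_le_mul_of_nonneg_right cK qq.le)
    · exact i.co.q2.trans (mul_le_mul_of_nonneg_right cK i.ht.le)
    · rw [i.d1]
      exact mul_le_mul_of_nonneg_right (by linarith [(abs_le.1 (b0 i).2).1]) n0.le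
    · rw [i.d2]
      exact ab (div_pos i.ht q0).le (by simpa using (b8 i).2)
    · rw [i.d8, i.d7, i.d6, In.E2]
      have : 3 ≤ U2 i + 2 * i.B7 - i.B6 := by nlinarith [(abs_le.1 (b5 i).2).1, i.ε0]
      nlinarith [mul_le_mul_of_nonneg_right this qq.le]
    · rw [i.u2, mul_assoc, ← neg_mul]
      exact mul_le_mul_of_nonneg_right (abs_le.1 (b2 i).1).1 qn.le
    · have a := Finset.sum_mul_sq_le_sq_mul_sq Finset.univ (mb i.t i.x) (diagonal i.D *ᵥ tau i.x)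
      simp only [sq (mb _ _ _), sq ((_ *ᵥ _) _)] at a
      have b := mul_le_mul i.d3 i.u1 (dot_self_nonneg _) ((dot_self_nonneg _).trans i.d3)
      refine a.trans (b.trans ?_)
      have := le (by positivity : 0 ≤ i.q ^ 4 * i.n) (b31 i).1
      linarith
  obtain ⟨C, ⟨c4, cK⟩, h⟩ := key.exists
  refine ⟨C, by linarith, 1 / C, by positivity, fun n t e ε k d0 S x hn ht he h1 h2 h3 co xm ad => ?_⟩
  have ε4 : ε ≤ 1 / 4 := h3.trans (one_div_le_one_div_of_le (by norm_num) c4)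
  have a : t ≤ (1 / C * e) ^ 2 := by
    rw [← Real.sq_sqrt ht.le]; exact pow_le_pow_left₀ (Real.sqrt_nonneg _) h1 2
  have b : K * (1 / C * e) ^ 2 ≤ e ^ 2 := by
    rw [mul_pow, ← mul_assoc]
    refine mul_le_of_le_one_left (sq_nonneg _) ?_
    rw [one_div, inv_pow, ← div_eq_mul_inv, div_le_one (by positivity)]
    nlinarith
  exact h ⟨n, t, e, ε, k, d0, S, x, hn, ht, he, by nlinarith, by nlinarith,
    abs_le_of_sq_le_sq' ((co.q2.trans (mul_le_mul_of_nonneg_left a (by linarith))).trans b) he.le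
      |>.2, co, xm, ad⟩ h2 ε4

end Crest.Agent.T157.Kb

end
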