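import Crest.Agent.T157.ChainDec_22

/-!
Row 157, part E (helper22): Poissonisation.  Comparison of the discrete-time and the
continuous-time distance to equilibrium of a finite reversible chain, in both directions.
-/

set_option autoImplicit false

namespace Crest.Agent.T157.Chain22

open Finset Matrix

theorem poi_succ (t : ℝ) (k : ℕ) : poi t (k + 1) * ((k + 1 : ℕ) : ℝ) = t * poi t k := by
  rw [poi, poi, Nat.factorial_succ]
  push_cast
  field_simp
  ring

theorem hasSum_poi_id (t : ℝ) : HasSum (fun k : ℕ => poi t k * (k : ℝ)) t := by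
  rw [← hasSum_nat_add_iff' 1]
  simp only [poi_succ]
  simpa using (hasSum_poi t).mul_left t

theorem hasSum_poi_sq (t : ℝ) : HasSum (fun k : ℕ => poi t k * (k : ℝ) ^ 2) (t ^ 2 + t) := by
  rw [← hasSum_nat_add_iff' 1]
  have e : (fun k : ℕ => poi t (k + 1) * ((k + 1 : ℕ) : ℝ) ^ 2) =
      fun k => t * (poi t k * (k : ℝ)) + t * poi t k := by
    funext k
    rw [sq, ← mul_assoc, poi_succ]
    push_cast; ring
  rw [e]
  have h := ((hasSum_poi_id t).mul_left t).add ((hasSum_poi t).mul_left t)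
  simpa [sq] using h

/-- variance of the Poisson law -/
theorem hasSum_poi_var (t : ℝ) : HasSum (fun k : ℕ => poi t k * ((k : ℝ) - t) ^ 2) t := by
  have h := ((hasSum_poi_sq t).sub ((hasSum_poi_id t).mul_left (2 * t))).add
    ((hasSum_poi t).mul_left (t ^ 2))
  have e : (fun k : ℕ => poi t k * ((k : ℝ) - t) ^ 2) =
      fun k => poi t k * (k : ℝ) ^ 2 - 2 * t * (poi t k * (k : ℝ)) + t ^ 2 * poi t k := by
    funext k; ring
  have e2 : t ^ 2 + t - 2 * t * t + t ^ 2 * 1 = t := by ring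
  rw [e]; rwa [e2] at h

/-- Chebyshev: any finite set of integers at distance `≥ r` from the mean -/
theorem sum_poi_far_le {t r : ℝ} (ht : 0 ≤ t) (hr : 0 < r) (s : Finset ℕ)
    (hs : ∀ j ∈ s, r ≤ |(j : ℝ) - t|) : ∑ j ∈ s, poi t j ≤ t / r ^ 2 := by
  rw [le_div_iff₀ (by positivity), sum_mul]
  refine le_trans (sum_le_sum fun j hj => ?_) (sum_le_hasSum s
    (fun j _ => mul_nonneg (poi_nonneg ht j) (sq_nonneg _)) (hasSum_poi_var t))
  refine mul_le_mul_of_nonneg_left ?_ (poi_nonneg ht j)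
  rw [← sq_abs ((j : ℝ) - t)]
  exact pow_le_pow_left₀ hr.le (hs j hj) 2

/-- the largest Poisson weight -/
theorem poi_le {a : ℝ} (ha : 0 < a) (m : ℕ) : poi a m ≤ 1 / Real.sqrt a := by
  have hs : 0 < Real.sqrt a := Real.sqrt_pos.2 ha
  have hss : Real.sqrt a * Real.sqrt a = a := Real.mul_self_sqrt ha.le
  have tel : ∀ m : ℕ, a * poi a m = ∑ i ∈ range (m + 1), poi a i * (a - i) := by
    intro m
    induction m with
    | zero => simp [mul_comm]
    | succ m ih => rw [sum_range_succ, ← ih, ← poi_succ a m]; ring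
  have h1 : ∑ i ∈ range (m + 1), poi a i * (a - i) ≤
      ∑ i ∈ range (m + 1), (poi a i * ((i : ℝ) - a) ^ 2 / (2 * Real.sqrt a) +
        Real.sqrt a / 2 * poi a i) := by
    refine sum_le_sum fun i _ => ?_
    have h0 := poi_nonneg ha.le i
    have : a - i ≤ ((i : ℝ) - a) ^ 2 / (2 * Real.sqrt a) + Real.sqrt a / 2 := by
      rw [div_add_div _ _ (by positivity) (by norm_num), le_div_iff₀ (by positivity)]
      nlinarith [sq_nonneg ((i : ℝ) - a + Real.sqrt a)]
    calc poi a i * (a - i) ≤ poi a i * (((i : ℝ) - a) ^ 2 / (2 * Real.sqrt a) + Real.sqrt a / 2) :=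
          mul_le_mul_of_nonneg_left this h0
      _ = _ := by ring
  have h2 : ∑ i ∈ range (m + 1), (poi a i * ((i : ℝ) - a) ^ 2 / (2 * Real.sqrt a) +
        Real.sqrt a / 2 * poi a i) ≤ a / (2 * Real.sqrt a) + Real.sqrt a / 2 * 1 :=
    sum_le_hasSum _ (fun i _ => by have := poi_nonneg ha.le i; positivity)
      (((hasSum_poi_var a).div_const _).add ((hasSum_poi a).mul_left _))
  have h3 : a / (2 * Real.sqrt a) + Real.sqrt a / 2 * 1 = a * (1 / Real.sqrt a) := by
    field_simp; nlinarith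
  have h4 : a * poi a m ≤ a * (1 / Real.sqrt a) := by rw [tel, ← h3]; exact h1.trans h2
  exact le_of_mul_le_mul_left h4 ha

theorem factorial_le_stirling {k : ℕ} (hk : 1 ≤ k) :
    (k.factorial : ℝ) * Real.exp k ≤ Real.exp 1 * Real.sqrt k * (k : ℝ) ^ k := by
  obtain ⟨m, rfl⟩ : ∃ m, k = m + 1 := ⟨k - 1, by omega⟩
  have h := Stirling.stirlingSeq'_antitone (Nat.zero_le m)
  simp only [Function.comp, Nat.succ_eq_add_one, zero_add, Stirling.stirlingSeq_one] at h
  rw [Stirling.stirlingSeq, div_le_div_iff₀ (by positivity) (by positivity), div_pow,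
    ← Real.exp_nat_mul, mul_one, Real.sqrt_mul (by norm_num)] at h
  have h2 : 0 < Real.sqrt 2 := by positivity
  have h3 := Real.exp_pos ((m + 1 : ℕ) : ℝ)
  have h4 := mul_le_mul_of_nonneg_right h h3.le
  have e : Real.exp 1 * (Real.sqrt 2 * Real.sqrt ((m + 1 : ℕ) : ℝ) *
      (((m + 1 : ℕ) : ℝ) ^ (m + 1) / Real.exp ((m + 1 : ℕ) : ℝ))) * Real.exp ((m + 1 : ℕ) : ℝ) =
      (Real.exp 1 * Real.sqrt ((m + 1 : ℕ) : ℝ) * ((m + 1 : ℕ) : ℝ) ^ (m + 1)) * Real.sqrt 2 := by
    field_simp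
  rw [e, mul_right_comm] at h4
  exact le_of_mul_le_mul_right h4 h2

/-- binomial weights are dominated by the Poisson weights of the same mean -/
theorem binom_le_poi {α : ℝ} (h0 : 0 < α) (h1 : α ≤ 1) {k j : ℕ} (hk : 1 ≤ k) (hj : j ≤ k) :
    (1 - α) ^ j * α ^ (k - j) * (k.choose j : ℝ) ≤
      Real.exp 1 / Real.sqrt α * poi ((1 - α) * k) j := by
  have hk0 : (0 : ℝ) < k := by exact_mod_cast hk
  have hp : 0 ≤ 1 - α := by linarith
  have hc : (k.choose j : ℝ) * j.factorial * (k - j).factorial = k.factorial := by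
    exact_mod_cast Nat.choose_mul_factorial_mul_factorial hj
  have hkk : (k : ℝ) ^ k = (k : ℝ) ^ j * (k : ℝ) ^ (k - j) := by
    rw [← pow_add, Nat.add_sub_cancel' hj]
  have he : Real.exp k * (Real.exp (-((1 - α) * k)) * Real.exp (-(α * k))) = 1 := by
    rw [← Real.exp_add, ← Real.exp_add, Real.exp_eq_one_iff]; ring
  have e : (1 - α) ^ j * α ^ (k - j) * (k.choose j : ℝ) =
      (k.factorial * Real.exp k / (k : ℝ) ^ k) * (poi (α * k) (k - j) * poi ((1 - α) * k) j) := by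
    rw [poi, poi, ← hc, hkk, mul_pow, mul_pow]
    have a1 : (j.factorial : ℝ) ≠ 0 := by positivity
    have a2 : ((k - j).factorial : ℝ) ≠ 0 := by positivity
    have a3 : (k : ℝ) ^ j ≠ 0 := by positivity
    have a4 : (k : ℝ) ^ (k - j) ≠ 0 := by positivity
    calc (1 - α) ^ j * α ^ (k - j) * (k.choose j : ℝ)
        = (1 - α) ^ j * α ^ (k - j) * (k.choose j : ℝ) *
          (Real.exp k * (Real.exp (-((1 - α) * k)) * Real.exp (-(α * k)))) := by rw [he, mul_one]
      _ = _ := by field_simp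
  have b1 : k.factorial * Real.exp k / (k : ℝ) ^ k ≤ Real.exp 1 * Real.sqrt k := by
    rw [div_le_iff₀ (by positivity)]; exact factorial_le_stirling hk
  have b2 := poi_le (a := α * k) (by positivity) (k - j)
  have b3 := poi_nonneg (t := (1 - α) * k) (by positivity) j
  have b4 := poi_nonneg (t := α * k) (by positivity) (k - j)
  rw [e, ← mul_assoc]
  refine mul_le_mul_of_nonneg_right ?_ b3
  refine (mul_le_mul b1 b2 b4 (by positivity)).trans (le_of_eq ?_)
  rw [Real.sqrt_mul h0.le]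
  have := Real.sqrt_pos.2 hk0
  have := Real.sqrt_pos.2 h0
  field_simp

variable {Ω : Type*} [Fintype Ω] [DecidableEq Ω]

namespace RC

variable (c : RC Ω)

/-- convexity of the distance along the Poisson mixture -/
theorem tv_H_le_tsum (x : Ω) {t : ℝ} (ht : 0 ≤ t) {u : ℕ → ℝ} {U : ℝ}
    (hu : ∀ j, tv ((c.P ^ j) x) c.π ≤ u j) (hU : HasSum (fun j => poi t j * u j) U) :
    tv (c.H t x) c.π ≤ U := by
  classical
  set s : Ω → ℝ := fun y => if c.π y ≤ c.H t x y then 1 else 0 with hs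
  have hs0 : ∀ y, 0 ≤ s y := fun y => by simp only [hs]; split_ifs <;> norm_num
  have hs1 : ∀ y, s y ≤ 1 := fun y => by simp only [hs]; split_ifs <;> norm_num
  have e1 : tv (c.H t x) c.π = mean (c.H t x) s - mean c.π s := by
    have a1 : ∀ y, |c.H t x y - c.π y| = 2 * (c.H t x y * s y - c.π y * s y) -
        (c.H t x y - c.π y) := fun y => by
      simp only [hs]; split_ifs with h
      · rw [abs_of_nonneg (by linarith)]; ring
      · rw [abs_of_nonpos (by linarith)]; ring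
    simp only [tv, a1, sum_sub_distrib, ← mul_sum, H_row, c.sum1, mean]
    ring
  have h1 := (c.hasSum_H_mulVec t s x).sub ((hasSum_poi t).mul_right (mean c.π s))
  rw [one_mul] at h1
  rw [e1]
  refine hasSum_le (fun j => ?_) h1 hU
  rw [← mul_sub]
  exact mul_le_mul_of_nonneg_left
    ((mean_sub_le_tv ((c.pow j).isP_row x) c.isP hs0 hs1).trans (hu j)) (poi_nonneg ht j)

/-- continuous time is at least as mixed as any earlier discrete time, up to a Poisson tail -/
theorem tv_H_le_tv_pow (x : Ω) {t : ℝ} {k : ℕ} (hk : (k : ℝ) < t) :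
    tv (c.H t x) c.π ≤ tv ((c.P ^ k) x) c.π + t / (t - k) ^ 2 := by
  have ht : 0 ≤ t := (Nat.cast_nonneg k).trans hk.le
  have h1 : HasSum (fun j => poi t j * (if j ∈ range k then (1 : ℝ) else 0))
      (∑ j ∈ range k, poi t j) := by
    have := hasSum_sum_of_ne_finset_zero (L := SummationFilter.unconditional ℕ) (s := range k)
      (f := fun j => poi t j * (if j ∈ range k then (1 : ℝ) else 0)) fun j hj => by simp only [hj]; simp
    rwa [sum_congr rfl (g := poi t) fun j hj => by simp only [hj]; simp] at this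
  have h2 := ((hasSum_poi t).mul_right (tv ((c.P ^ k) x) c.π)).add h1
  simp only [← mul_add, one_mul] at h2
  refine (c.tv_H_le_tsum x ht (fun j => ?_) h2).trans ?_
  · split_ifs with hj
    · linarith [tv_le_one ((c.pow j).isP_row x) c.isP, tv_nonneg ((c.P ^ k) x) c.π,
        show tv ((c.pow j).P x) c.π = tv ((c.P ^ j) x) c.π from rfl]
    · rw [add_zero]; exact c.tv_pow_anti x (by simpa using hj)
  · gcongr
    refine sum_poi_far_le ht (by linarith) _ fun j hj => ?_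
    have : (j : ℝ) ≤ k := by exact_mod_cast (mem_range.1 hj).le
    rw [abs_of_nonpos (by linarith)]; linarith

theorem pow_eigen {ψ : Ω → ℝ} {a : ℝ} (h : c.P *ᵥ ψ = a • ψ) (k : ℕ) :
    (c.P ^ k) *ᵥ ψ = a ^ k • ψ := by
  induction k with
  | zero => simp
  | succ k ih => rw [pow_succ, ← mulVec_mulVec, h, mulVec_smul, ih, smul_smul, pow_succ']

theorem H_eigen {ψ : Ω → ℝ} {a : ℝ} (h : c.P *ᵥ ψ = a • ψ) (t : ℝ) :
    c.H t *ᵥ ψ = Real.exp (-(t * (1 - a))) • ψ := by
  funext x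
  have h1 := c.hasSum_H_mulVec t ψ x
  simp only [c.pow_eigen h, Pi.smul_apply, smul_eq_mul, ← mul_assoc] at h1
  exact h1.unique ((hasSum_poi_pow t a).mul_right (ψ x))

/-- removing the holding probability `α` -/
noncomputable def unlazy {α : ℝ} (h1 : α < 1) (hl : ∀ x, α ≤ c.P x x) : RC Ω where
  π := c.π
  P := (1 - α)⁻¹ • (c.P - α • (1 : Matrix Ω Ω ℝ))
  pos := c.pos
  sum1 := c.sum1
  nn x y := by
    rw [Matrix.smul_apply, Matrix.sub_apply, Matrix.smul_apply, one_apply, smul_eq_mul, smul_eq_mul]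
    refine mul_nonneg (inv_nonneg.2 (by linarith)) ?_
    split_ifs with h
    · subst h; linarith [hl x]
    · linarith [c.nn x y]
  row x := by
    simp only [Matrix.smul_apply, Matrix.sub_apply, one_apply, smul_eq_mul, ← mul_sum,
      sum_sub_distrib, c.row,
      sum_ite_eq, mem_univ, if_true, mul_one]
    exact inv_mul_cancel₀ (by linarith)
  rev x y := by
    simp only [Matrix.smul_apply, Matrix.sub_apply, one_apply, smul_eq_mul]
    by_cases h : x = y
    · subst h; rfl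
    · rw [if_neg h, if_neg (Ne.symm h), mul_zero, sub_zero, sub_zero, mul_left_comm, c.rev x y,
        mul_left_comm]

theorem P_eq_unlazy {α : ℝ} (h1 : α < 1) (hl : ∀ x, α ≤ c.P x x) :
    c.P = (1 - α) • (c.unlazy h1 hl).P + α • (1 : Matrix Ω Ω ℝ) := by
  change c.P = (1 - α) • ((1 - α)⁻¹ • (c.P - α • (1 : Matrix Ω Ω ℝ))) + α • 1
  rw [smul_smul, mul_inv_cancel₀ (by linarith), one_smul, sub_add_cancel]

theorem H_eq_unlazy {α : ℝ} (h1 : α < 1) (hl : ∀ x, α ≤ c.P x x) (t : ℝ) :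
    c.H t = (c.unlazy h1 hl).H ((1 - α) * t) := by
  ext x y
  rw [H_spec, c.kernel_spec (K := (c.unlazy h1 hl).H ((1 - α) * t))
    (a := fun j => Real.exp (-(t * (1 - c.ev j)))) ?_ x y]
  intro j
  have h : (c.unlazy h1 hl).P *ᵥ c.φ j = ((1 - α)⁻¹ * (c.ev j - α)) • c.φ j := by
    change ((1 - α)⁻¹ • (c.P - α • (1 : Matrix Ω Ω ℝ))) *ᵥ c.φ j = _
    rw [smul_mulVec, sub_mulVec, smul_mulVec, one_mulVec, P_φ, ← sub_smul, smul_smul]
  rw [(c.unlazy h1 hl).H_eigen h]
  congr 3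
  have : 1 - α ≠ 0 := by linarith
  field_simp
  ring

/-- **a lazy chain at step `k` is dominated by the continuous-time chain at time `k`** -/
theorem pow_le_H {α : ℝ} (h0 : 0 < α) (h1 : α < 1) (hl : ∀ x, α ≤ c.P x x) {k : ℕ} (hk : 1 ≤ k)
    (x y : Ω) : (c.P ^ k) x y ≤ Real.exp 1 / Real.sqrt α * c.H k x y := by
  set q := c.unlazy h1 hl with hq
  have hc : Commute ((1 - α) • q.P) (α • (1 : Matrix Ω Ω ℝ)) :=
    ((Commute.one_right _).smul_right α)
  have e : (c.P ^ k) x y =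
      ∑ j ∈ range (k + 1), (1 - α) ^ j * α ^ (k - j) * (k.choose j : ℝ) * (q.P ^ j) x y := by
    rw [c.P_eq_unlazy h1 hl, hc.add_pow, Matrix.sum_apply]
    refine sum_congr rfl fun j _ => ?_
    rw [smul_pow, smul_pow, one_pow, ← nsmul_eq_mul', smul_mul_assoc, mul_smul_comm, mul_one,
      ← Nat.cast_smul_eq_nsmul ℝ]
    simp only [Matrix.smul_apply, smul_eq_mul]
    ring
  rw [e, c.H_eq_unlazy h1 hl, ← hq]
  have hp : 0 ≤ (1 - α) * k := mul_nonneg (by linarith) (Nat.cast_nonneg k)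
  refine le_trans (sum_le_sum fun j hj => mul_le_mul_of_nonneg_right
    (binom_le_poi h0 h1.le hk (Nat.lt_succ_iff.1 (mem_range.1 hj))) (q.pow_nn j x y)) ?_
  simp only [mul_assoc, ← mul_sum]
  refine mul_le_mul_of_nonneg_left ?_ (by positivity)
  exact sum_le_hasSum _ (fun j _ => mul_nonneg (poi_nonneg hp j) (q.pow_nn j x y))
    (q.hasSum_H _ x y)

/-- worst-start mixing at time `t` forces the spectral contraction `2 η` at time `t` -/
theorem ev_le_of_tv {t η : ℝ} (ht : 0 ≤ t) (h : ∀ x, tv (c.H t x) c.π ≤ η) {g : Ω → ℝ}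
    (hg : mean c.π g = 0) {j : Ω} (hj : ip c.π g (c.φ j) ≠ 0) :
    Real.exp (-(t * (1 - c.ev j))) ≤ 2 * η := by
  have h1 : c.φ j - (mean c.π (c.φ j)) • (fun _ => (1 : ℝ)) ≠ 0 := by
    intro hz
    apply hj
    have : c.φ j = (mean c.π (c.φ j)) • fun _ => (1 : ℝ) := sub_eq_zero.1 hz
    rw [this, ip_smul_right, ip_one, hg, mul_zero]
  have h2 : mean c.π (c.φ j - (mean c.π (c.φ j)) • fun _ => (1 : ℝ)) = 0 := by
    rw [mean_sub, mean_smul, c.isP.mean_const, mul_one, sub_self]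
  have h3 : c.H t *ᵥ (c.φ j - (mean c.π (c.φ j)) • fun _ => (1 : ℝ)) =
      Real.exp (-(t * (1 - c.ev j))) • (c.φ j - (mean c.π (c.φ j)) • fun _ => (1 : ℝ)) := by
    by_cases h1 : c.ev j = 1
    · rw [mulVec_sub, mulVec_smul, H_φ, H_const, h1]; simp
    · rw [c.mean_φ h1, zero_smul, sub_zero, H_φ]
  obtain ⟨x, hx⟩ := (c.heat t ht).exists_tv_ge_of_eigen h1 h2 h3
  rw [abs_of_pos (Real.exp_pos _)] at hx
  have := h x
  rw [heat_P, heat_π] at hx
  linarith

theorem var_mulVec_spec {K : Matrix Ω Ω ℝ} {a : Ω → ℝ} (h : ∀ j, K *ᵥ c.φ j = a j • c.φ j)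
    (h1 : ∀ b : ℝ, K *ᵥ (fun _ => b) = fun _ => b) (hm : ∀ f, mean c.π (K *ᵥ f) = mean c.π f)
    (f : Ω → ℝ) : var c.π (K *ᵥ f) =
      ∑ j, a j ^ 2 * ip c.π (f - fun _ => mean c.π f) (c.φ j) ^ 2 := by
  rw [var_eq_ip, hm, ← h1 (mean c.π f), ← mulVec_sub, h1, c.parseval]
  refine sum_congr rfl fun j _ => ?_
  rw [ip_comm, c.ip_mulVec_spec h]
  simp only [ip_φ_φ, ite_mul, one_mul, zero_mul, mul_ite, mul_zero, sum_ite_eq, mem_univ, if_true]
  ring

theorem var_spec (f : Ω → ℝ) :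
    var c.π f = ∑ j, ip c.π (f - fun _ => mean c.π f) (c.φ j) ^ 2 := by
  rw [var_eq_ip, c.parseval]; simp only [sq]

variable {c} in
/-- `L²` contraction of `P^m` deduced from worst-start mixing at time `t` -/
theorem PSD.var_pow_le_of_tv (hp : c.PSD) {t η θ : ℝ} (ht : 0 ≤ t) (hθ : 0 ≤ θ)
    (h : ∀ x, tv (c.H t x) c.π ≤ η) {m : ℕ} (hm : θ * t ≤ m) (f : Ω → ℝ) :
    var c.π ((c.P ^ m) *ᵥ f) ≤ ((2 * η) ^ θ) ^ 2 * var c.π f := by
  rw [c.var_mulVec_spec (c.pow_φ m) (c.pow m).P_const (c.pow m).mean_P, var_spec, mul_sum]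
  refine sum_le_sum fun j _ => ?_
  by_cases hj : ip c.π (f - fun _ => mean c.π f) (c.φ j) = 0
  · simp [hj]
  refine mul_le_mul_of_nonneg_right ?_ (sq_nonneg _)
  have h1 := c.ev_le_of_tv ht h (by rw [mean_sub, c.isP.mean_const, sub_self]) hj
  have h2 := hp.ev_nonneg j
  have h3 := c.ev_le_one j
  refine pow_le_pow_left₀ (pow_nonneg h2 m) ?_ 2
  calc c.ev j ^ m ≤ Real.exp (-(1 - c.ev j)) ^ m :=
        pow_le_pow_left₀ h2 (by linarith [Real.add_one_le_exp (-(1 - c.ev j))]) m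
    _ = Real.exp (m * -(1 - c.ev j)) := (Real.exp_nat_mul _ m).symm
    _ ≤ Real.exp (-(t * (1 - c.ev j)) * θ) := Real.exp_le_exp.2 (by nlinarith)
    _ = Real.exp (-(t * (1 - c.ev j))) ^ θ := Real.exp_mul _ _
    _ ≤ (2 * η) ^ θ := Real.rpow_le_rpow (Real.exp_pos _).le h1 hθ

omit [DecidableEq Ω] in
/-- a law dominated by `C` times a law close to `π` is close to `π` after an `L²` contraction -/
theorem tv_vecMul_le_of_dom {μ ν : Ω → ℝ} (hμ : IsP μ) {C ρ : ℝ} (hC : 0 ≤ C)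
    (hρ : 0 ≤ ρ) (hd : ∀ y, μ y ≤ C * ν y)
    (hv : ∀ f, var c.π (c.P *ᵥ f) ≤ ρ ^ 2 * var c.π f) :
    tv (μ ᵥ* c.P) c.π ≤ ρ * Real.sqrt C / 2 + 2 * C * tv ν c.π := by
  set f : Ω → ℝ := fun y => min (μ y / c.π y) C with hf
  have hf0 : ∀ y, 0 ≤ f y := fun y => le_min (div_nonneg (hμ.nn y) (c.pos y).le) hC
  have hfC : ∀ y, f y ≤ C := fun y => min_le_right _ _
  have hle : ∀ y, c.π y * f y ≤ μ y := fun y => by
    have := c.pos y
    calc c.π y * f y ≤ c.π y * (μ y / c.π y) :=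
          mul_le_mul_of_nonneg_left (min_le_left _ _) this.le
      _ = μ y := by field_simp
  have hge : ∀ y, μ y - c.π y * f y ≤ C * |ν y - c.π y| := fun y => by
    have hy := c.pos y
    rcases le_total (μ y / c.π y) C with h | h
    · have : c.π y * f y = μ y := by simp only [hf, min_eq_left h]; field_simp
      rw [this, sub_self]; positivity
    · have : f y = C := min_eq_right h
      rw [this]
      nlinarith [hd y, mul_le_mul_of_nonneg_left (le_abs_self (ν y - c.π y)) hC]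
  set m := mean c.π f with hm
  have hm1 : 1 - m = ∑ y, (μ y - c.π y * f y) := by rw [sum_sub_distrib, hμ.sum1]; rfl
  have hm2 : 1 - m ≤ 2 * C * tv ν c.π := by
    rw [hm1]
    refine (sum_le_sum fun y _ => hge y).trans (le_of_eq ?_)
    rw [← mul_sum, tv]; ring
  have hm3 : 0 ≤ 1 - m := by rw [hm1]; exact sum_nonneg fun y _ => sub_nonneg.2 (hle y)
  have t1 : tv (μ ᵥ* c.P) ((fun y => c.π y * f y) ᵥ* c.P) ≤ (1 - m) / 2 := by
    refine (c.tv_vecMul_le _ _).trans (le_of_eq ?_)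
    rw [tv, hm1, sum_congr rfl fun y _ => abs_of_nonneg (sub_nonneg.2 (hle y))]; ring
  have t3 : tv (fun y => c.π y * m) c.π = (1 - m) / 2 := by
    have : ∀ y, |c.π y * m - c.π y| = c.π y * (1 - m) := fun y => by
      rw [abs_sub_comm, ← mul_one_sub, abs_of_nonneg (mul_nonneg (c.pos y).le hm3)]
    simp only [tv, this, ← sum_mul, c.sum1]; ring
  have t2 : tv ((fun y => c.π y * f y) ᵥ* c.P) (fun y => c.π y * m) ≤ ρ * Real.sqrt C / 2 := by
    rw [vecMul_dens]
    have e : 2 * tv (fun y => c.π y * (c.P *ᵥ f) y) (fun y => c.π y * m) =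
        mean c.π fun y => |(c.P *ᵥ f) y - m| := by
      rw [tv, ← mul_assoc]
      norm_num
      refine sum_congr rfl fun y _ => ?_
      rw [← mul_sub, abs_mul, abs_of_nonneg (c.pos y).le]
    have a1 := c.isP.mean_sq_le fun y => |(c.P *ᵥ f) y - m|
    have a2 : ip c.π (fun y => |(c.P *ᵥ f) y - m|) (fun y => |(c.P *ᵥ f) y - m|) =
        var c.π (c.P *ᵥ f) := by
      simp only [ip, var, abs_mul_abs_self, sq, mean_P, hm]
    have a3 : var c.π f ≤ C := by
      rw [c.isP.var_eq]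
      have : ip c.π f f ≤ C * m := by
        rw [hm, ← mean_smul]
        exact c.isP.mean_mono (f := fun x => f x * f x) fun y =>
          mul_le_mul_of_nonneg_right (hfC y) (hf0 y)
      nlinarith [sq_nonneg (mean c.π f)]
    have a4 : (mean c.π fun y => |(c.P *ᵥ f) y - m|) ^ 2 ≤ (ρ * Real.sqrt C) ^ 2 := by
      rw [mul_pow, Real.sq_sqrt hC]
      exact a1.trans (a2 ▸ (hv f).trans (mul_le_mul_of_nonneg_left a3 (sq_nonneg _)))
    have a5 := abs_le_of_sq_le_sq' a4 (by positivity)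
    linarith [a5.2]
  have := tv_triangle (μ ᵥ* c.P) ((fun y => c.π y * f y) ᵥ* c.P) c.π
  have := tv_triangle ((fun y => c.π y * f y) ᵥ* c.P) (fun y => c.π y * m) c.π
  linarith

variable {c} in
/-- **De-Poissonisation**: for a lazy positive semidefinite chain, worst-start mixing at time `t`
implies mixing after `(1 + θ)(t + 1)` steps. -/
theorem PSD.tv_pow_le_of_tv_H (hp : c.PSD) {α : ℝ} (h0 : 0 < α) (h1 : α < 1)
    (hl : ∀ x, α ≤ c.P x x) {t η θ : ℝ} (ht : 0 < t) (hθ : 0 ≤ θ)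
    (h : ∀ x, tv (c.H t x) c.π ≤ η) {K : ℕ} (hK : (1 + θ) * t + 1 ≤ K) (x : Ω) :
    tv ((c.P ^ K) x) c.π ≤
      (2 * η) ^ θ * Real.sqrt (Real.exp 1 / Real.sqrt α) / 2 + 2 * (Real.exp 1 / Real.sqrt α) * η := by
  set k := ⌈t⌉₊ with hk
  have hk1 : 1 ≤ k := Nat.one_le_iff_ne_zero.2 (Nat.ceil_pos.2 ht).ne'
  have hk2 : t ≤ k := Nat.le_ceil t
  have hk3 : (k : ℝ) < t + 1 := Nat.ceil_lt_add_one ht.le
  have hkK : k ≤ K := by
    have : (k : ℝ) ≤ K := by nlinarith
    exact_mod_cast this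
  have hm : θ * t ≤ ((K - k : ℕ) : ℝ) := by rw [Nat.cast_sub hkK]; linarith
  have hη : 0 ≤ η := (tv_nonneg _ _).trans (h x)
  have h2 := (c.pow (K - k)).tv_vecMul_le_of_dom ((c.pow k).isP_row x)
    (ν := c.H k x) (C := Real.exp 1 / Real.sqrt α)
    (ρ := (2 * η) ^ θ) (by positivity) (by positivity) (c.pow_le_H h0 h1 hl hk1 x)
    (hp.var_pow_le_of_tv ht.le hθ h hm)
  have e : (c.P ^ K) x = (c.P ^ k) x ᵥ* c.P ^ (K - k) := by
    funext y
    conv_lhs => rw [← Nat.add_sub_cancel' hkK, pow_add, mul_apply]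
    rfl
  rw [e]
  refine h2.trans ?_
  have h3 : tv (c.H k x) c.π ≤ η := (c.tv_H_anti x hk2).trans (h x)
  gcongr
  exact h3

end RC

end Crest.Agent.T157.Chain22
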