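import Mathlib
import Crest.Prelude.Def_SpinGlassPaths

/-!
# Row 157, part E: common definitions (helper39)

* finite spaces with a weight `w : Ω → ℝ` (not normalised): `Zw prob mean var cov ent kl mass`, `tv`;
* the cube, spin vector `sv`, heat-bath objects of a general weight: `siteM dir dir2 hb hbPow hbCt`
  (the Prelude objects are the case `w = gibbsWeight n β g`, by `rfl`);
* tilts: `tilt w y` (external field), `post φ w s y` (posterior of the Gaussian channel
  `y = s φ(X) + B_s`), `mag`, `covM`;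
* the coupling matrix `Jmat`, the GOE completion `Wmat`, Ising weights `ising A h`.
-/

set_option autoImplicit false

noncomputable section

namespace Crest.Agent.T157.E

open MeasureTheory ProbabilityTheory Matrix
open Crest.ProbabilityR.SpinGlassDynamics

/-- standard Gaussian vector -/
abbrev gv (ι : Type*) [Fintype ι] : Measure (ι → ℝ) := Measure.pi fun _ : ι => gaussianReal 0 1

/-- fair coin on `±1` -/
abbrev coin : Measure ℝ :=
  (1 / 2 : ENNReal) • Measure.dirac (1 : ℝ) + (1 / 2 : ENNReal) • Measure.dirac (-1 : ℝ)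

/-- entry law: Gaussian (`false`) or `±1` (`true`) -/
def entryLaw (b : Bool) : Measure ℝ := if b then coin else gaussianReal 0 1

instance (b : Bool) : IsProbabilityMeasure (entryLaw b) := by
  cases b
  · simp only [entryLaw, Bool.false_eq_true, if_false]; infer_instance
  · simp only [entryLaw, if_true]
    constructor
    simp [ENNReal.inv_two_add_inv_two]

lemma couplingLaw_eq (b : Bool) (n : ℕ) :
    couplingLaw b n = Measure.pi fun _ : Pair n => entryLaw b := by
  cases b
  · simp only [couplingLaw, entryLaw, disorderLaw, Bool.false_eq_true, if_false]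
  · simp only [couplingLaw, entryLaw, if_true]

lemma disorderLaw_eq (n : ℕ) : disorderLaw n = gv (Pair n) := rfl

instance (b : Bool) (n : ℕ) : IsProbabilityMeasure (couplingLaw b n) := by
  rw [couplingLaw_eq]; infer_instance

instance (n : ℕ) : IsProbabilityMeasure (disorderLaw n) := by
  rw [disorderLaw_eq]; infer_instance

section finite
variable {Ω : Type*} [Fintype Ω]

/-- total weight -/
def Zw (w : Ω → ℝ) : ℝ := ∑ x, w x
/-- normalised weight -/
def prob (w : Ω → ℝ) (x : Ω) : ℝ := w x / ∑ y, w y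
/-- expectation -/
def mean (w f : Ω → ℝ) : ℝ := ∑ x, prob w x * f x
/-- variance -/
def var (w f : Ω → ℝ) : ℝ := ∑ x, prob w x * (f x - mean w f) ^ 2
/-- covariance -/
def cov (w f g : Ω → ℝ) : ℝ := ∑ x, prob w x * ((f x - mean w f) * (g x - mean w g))
/-- entropy functional of a nonnegative function -/
def ent (w f : Ω → ℝ) : ℝ :=
  (∑ x, prob w x * (f x * Real.log (f x))) - mean w f * Real.log (mean w f)
/-- relative entropy of the law of the weight `v` with respect to the law of the weight `w` -/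
def kl (v w : Ω → ℝ) : ℝ := ∑ x, prob v x * Real.log (prob v x / prob w x)
/-- total variation distance of two probability vectors -/
def tv (p q : Ω → ℝ) : ℝ := (1 / 2) * ∑ x, |p x - q x|
/-- probability of a set -/
def mass (w : Ω → ℝ) (A : Set Ω) : ℝ :=
  haveI := Classical.decPred (· ∈ A)
  ∑ x ∈ Finset.univ.filter (· ∈ A), prob w x

/-- posterior weight after observing `y = s φ(X) + B_s`, `X ∼ w` -/
def post {ι : Type*} [Fintype ι] (φ : Ω → ι → ℝ) (w : Ω → ℝ) (s : ℝ) (y : ι → ℝ) (x : Ω) : ℝ :=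
  w x * Real.exp (y ⬝ᵥ φ x - s / 2 * (φ x ⬝ᵥ φ x))

/-- mean vector of a feature map -/
def meanV {ι : Type*} (w : Ω → ℝ) (φ : Ω → ι → ℝ) : ι → ℝ := fun i => mean w fun x => φ x i
/-- covariance vector of an observable with a feature map -/
def covV {ι : Type*} (w f : Ω → ℝ) (φ : Ω → ι → ℝ) : ι → ℝ := fun i => cov w f fun x => φ x i
/-- covariance matrix of a feature map -/
def covMat {ι : Type*} (w : Ω → ℝ) (φ : Ω → ι → ℝ) : Matrix ι ι ℝ :=
  fun i j => cov w (fun x => φ x i) fun x => φ x j

/-- expectation of `F (X, y_s)` along the channel `y_s = s φ(X) + √s G`, `X ∼ v`, `G` standard -/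
def slE {ι : Type*} [Fintype ι] (φ : Ω → ι → ℝ) (v : Ω → ℝ) (s : ℝ)
    (F : Ω → (ι → ℝ) → ℝ) : ℝ :=
  ∑ x, prob v x * ∫ g, F x (s • φ x + Real.sqrt s • g) ∂(gv ι)

end finite

/-- the discrete cube -/
abbrev Cube (n : ℕ) : Type := Fin n → Bool

variable {n : ℕ}

/-- spin vector -/
def sv (x : Cube n) : Fin n → ℝ := fun i => spin (x i)

/-- conditional mean given the spins off `i` -/
def siteM (w f : Cube n → ℝ) (i : Fin n) (x : Cube n) : ℝ :=
  (w (Function.update x i true) * f (Function.update x i true) +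
      w (Function.update x i false) * f (Function.update x i false)) /
    (w (Function.update x i true) + w (Function.update x i false))

/-- heat-bath Dirichlet form (rate one per site) -/
def dir (w f : Cube n → ℝ) : ℝ := ∑ i : Fin n, ∑ x, prob w x * (f x - siteM w f i x) ^ 2

/-- bilinear heat-bath Dirichlet form -/
def dir2 (w f g : Cube n → ℝ) : ℝ :=
  ∑ i : Fin n, ∑ x, prob w x * ((f x - siteM w f i x) * (g x - siteM w g i x))

/-- generator (rate one per site) -/
def gen (w f : Cube n → ℝ) (x : Cube n) : ℝ := ∑ i : Fin n, (siteM w f i x - f x)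

/-- one-step heat-bath kernel -/
def hb (w : Cube n → ℝ) (x y : Cube n) : ℝ :=
  (1 / n) * ∑ i : Fin n,
    if (∀ j : Fin n, j ≠ i → y j = x j) then
      w y / (w (Function.update x i true) + w (Function.update x i false))
    else 0

/-- `k`-step kernel -/
def hbPow (w : Cube n → ℝ) : ℕ → Cube n → Cube n → ℝ
  | 0, x, y => if x = y then 1 else 0
  | k + 1, x, y => ∑ z : Cube n, hbPow w k x z * hb w z y

/-- continuous-time kernel -/
def hbCt (w : Cube n → ℝ) (t : ℝ) (x y : Cube n) : ℝ :=
  ∑' k : ℕ, Real.exp (-(n * t)) * (n * t) ^ k / (Nat.factorial k : ℝ) * hbPow w k x y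

/-- tilt by an external field -/
def tilt (w : Cube n → ℝ) (y : Fin n → ℝ) (x : Cube n) : ℝ := w x * Real.exp (y ⬝ᵥ sv x)

/-- magnetisation vector -/
def mag (w : Cube n → ℝ) : Fin n → ℝ := meanV w sv

/-- covariance matrix of the spins -/
def covM (w : Cube n → ℝ) : Matrix (Fin n) (Fin n) ℝ := covMat w sv

/-- Ising weight `exp (σ·Aσ/2 + h·σ)` -/
def ising (A : Matrix (Fin n) (Fin n) ℝ) (h : Fin n → ℝ) (x : Cube n) : ℝ :=
  Real.exp (1 / 2 * (sv x ⬝ᵥ A *ᵥ sv x) + h ⬝ᵥ sv x)

/-- the coupling matrix: symmetric, zero diagonal, entries `g / √n` -/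
def Jmat (n : ℕ) (g : Pair n → ℝ) : Matrix (Fin n) (Fin n) ℝ := fun i j =>
  if h : i < j then g ⟨(i, j), h⟩ / Real.sqrt n
  else if h' : j < i then g ⟨(j, i), h'⟩ / Real.sqrt n else 0

/-- GOE completion: `Jmat` plus the diagonal `√(2/n) d`; for `(g, d) ∼ gv × gv` it is a GOE matrix
with off-diagonal variance `1/n` (spectral edge `2`) -/
def Wmat (n : ℕ) (g : Pair n → ℝ) (d : Fin n → ℝ) : Matrix (Fin n) (Fin n) ℝ :=
  Jmat n g + diagonal fun i => Real.sqrt 2 * d i / Real.sqrt n

/-! ### bridges to the Prelude (all by unfolding) -/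

section bridge
variable (β : ℝ) (g : Pair n → ℝ)

lemma gibbsProb_eq (x : Cube n) : gibbsProb n β g x = prob (gibbsWeight n β g) x := rfl
lemma gibbsMean_eq (f : Cube n → ℝ) : gibbsMean n β g f = mean (gibbsWeight n β g) f := rfl
lemma gibbsVar_eq (f : Cube n → ℝ) : gibbsVar n β g f = var (gibbsWeight n β g) f := rfl
lemma gibbsEnt_eq (f : Cube n → ℝ) : gibbsEnt n β g f = ent (gibbsWeight n β g) f := rfl
lemma gibbsMass_eq (A : Set (Cube n)) : gibbsMass n β g A = mass (gibbsWeight n β g) A := rfl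
lemma siteMean_eq (f : Cube n → ℝ) (i : Fin n) (x : Cube n) :
    siteMean n β g f i x = siteM (gibbsWeight n β g) f i x := rfl
lemma dirichletForm_eq (f : Cube n → ℝ) : dirichletForm n β g f = dir (gibbsWeight n β g) f := rfl
lemma heatBathKernel_eq (x y : Cube n) : heatBathKernel n β g x y = hb (gibbsWeight n β g) x y := rfl
lemma kernelPow_eq (k : ℕ) (x y : Cube n) :
    kernelPow n β g k x y = hbPow (gibbsWeight n β g) k x y := by
  induction k generalizing y with
  | zero => rfl
  | succ k ih => simp only [kernelPow, hbPow, ih, heatBathKernel_eq]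
lemma ctKernel_eq (t : ℝ) (x y : Cube n) : ctKernel n β g t x y = hbCt (gibbsWeight n β g) t x y := by
  simp only [ctKernel, hbCt, kernelPow_eq]
lemma stateTV_eq (t : ℝ) (x : Cube n) :
    stateTV n β g t x = tv (hbCt (gibbsWeight n β g) t x) (prob (gibbsWeight n β g)) := by
  simp only [stateTV, tv, ctKernel_eq, gibbsProb_eq]
lemma stateTVdisc_eq (k : ℕ) (x : Cube n) :
    stateTVdisc n β g k x = tv (hbPow (gibbsWeight n β g) k x) (prob (gibbsWeight n β g)) := by
  simp only [stateTVdisc, tv, kernelPow_eq, gibbsProb_eq]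
lemma gibbsWeight_pos (x : Cube n) : 0 < gibbsWeight n β g x := Real.exp_pos _

end bridge

/-! ### first facts -/

lemma spin_sq (b : Bool) : spin b ^ 2 = 1 := by cases b <;> simp [spin]
lemma spin_mul_self (b : Bool) : spin b * spin b = 1 := by cases b <;> simp [spin]
lemma abs_spin (b : Bool) : |spin b| = 1 := by cases b <;> simp [spin]
lemma spin_not (b : Bool) : spin (!b) = -spin b := by cases b <;> simp [spin]

lemma sv_dot_self (x : Cube n) : sv x ⬝ᵥ sv x = n := by
  simp [dotProduct, sv, spin_mul_self]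

lemma Jmat_apply_lt (g : Pair n → ℝ) {i j : Fin n} (h : i < j) :
    Jmat n g i j = g ⟨(i, j), h⟩ / Real.sqrt n := by simp [Jmat, h]

lemma Jmat_apply_gt (g : Pair n → ℝ) {i j : Fin n} (h : j < i) :
    Jmat n g i j = g ⟨(j, i), h⟩ / Real.sqrt n := by simp [Jmat, h, not_lt.2 h.le]

lemma Jmat_diag (g : Pair n → ℝ) (i : Fin n) : Jmat n g i i = 0 := by simp [Jmat]

lemma Jmat_symm (g : Pair n → ℝ) (i j : Fin n) : Jmat n g i j = Jmat n g j i := by
  rcases lt_trichotomy i j with h | h | h
  · rw [Jmat_apply_lt g h, Jmat_apply_gt g h]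
  · rw [h]
  · rw [Jmat_apply_gt g h, Jmat_apply_lt g h]

lemma Jmat_transpose (g : Pair n → ℝ) : (Jmat n g)ᵀ = Jmat n g := by
  ext i j; exact Jmat_symm g j i

lemma Jmat_isHermitian (g : Pair n → ℝ) : (Jmat n g).IsHermitian := by
  ext i j; simpa using Jmat_symm g j i

lemma Wmat_transpose (g : Pair n → ℝ) (d : Fin n → ℝ) : (Wmat n g d)ᵀ = Wmat n g d := by
  rw [Wmat, transpose_add, Jmat_transpose, diagonal_transpose]

lemma Wmat_isHermitian (g : Pair n → ℝ) (d : Fin n → ℝ) : (Wmat n g d).IsHermitian := by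
  have := Wmat_transpose g d
  ext i j
  simpa using congrFun (congrFun this i) j

/-- sums over ordered pairs of a symmetric function vanishing on the diagonal -/
lemma sum_sum_eq_two_mul_pair (F : Fin n → Fin n → ℝ) (hs : ∀ i j, F i j = F j i)
    (hd : ∀ i, F i i = 0) : ∑ i, ∑ j, F i j = 2 * ∑ p : Pair n, F p.1.1 p.1.2 := by
  classical
  have h1 : ∑ p : Pair n, F p.1.1 p.1.2 =
      ∑ p : Fin n × Fin n, if p.1 < p.2 then F p.1 p.2 else 0 := by
    rw [← Finset.sum_filter]
    exact (Finset.sum_subtype (Finset.univ.filter fun p : Fin n × Fin n => p.1 < p.2)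
      (by simp) (fun p : Fin n × Fin n => F p.1 p.2)).symm
  have h2 : ∑ p : Fin n × Fin n, (if p.1 < p.2 then F p.1 p.2 else 0) =
      ∑ p : Fin n × Fin n, if p.2 < p.1 then F p.1 p.2 else 0 := by
    rw [← Equiv.sum_comp (Equiv.prodComm (Fin n) (Fin n))]
    refine Finset.sum_congr rfl fun p _ => ?_
    simp only [Equiv.prodComm_apply, Prod.fst_swap, Prod.snd_swap]
    rw [hs p.2 p.1]
  rw [two_mul, h1]
  nth_rewrite 2 [h2]
  rw [← Finset.sum_add_distrib, ← Fintype.sum_prod_type']
  refine Finset.sum_congr rfl fun p _ => ?_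
  rcases lt_trichotomy p.1 p.2 with h | h | h
  · simp [h, not_lt.2 h.le]
  · simp [h, hd]
  · simp [h, not_lt.2 h.le]

/-- quadratic form of `Jmat` -/
lemma dot_Jmat (g : Pair n → ℝ) (u : Fin n → ℝ) :
    u ⬝ᵥ Jmat n g *ᵥ u = 2 * ∑ p : Pair n, g p / Real.sqrt n * u p.1.1 * u p.1.2 := by
  have h := sum_sum_eq_two_mul_pair (fun i j => u i * (Jmat n g i j * u j))
    (fun i j => by rw [Jmat_symm g i j]; ring) (fun i => by simp [Jmat_diag])
  simp only [dotProduct, mulVec, Finset.mul_sum] at h ⊢
  rw [h]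
  refine Finset.sum_congr rfl fun p _ => ?_
  rw [Jmat_apply_lt g p.2]
  ring

/-- the SK weight is the Ising weight of `β J` -/
lemma gibbsWeight_eq_ising (β : ℝ) (g : Pair n → ℝ) :
    gibbsWeight n β g = ising (β • Jmat n g) 0 := by
  funext x
  rw [gibbsWeight, ising, smul_mulVec, dotProduct_smul, dot_Jmat, zero_dotProduct, add_zero,
    smul_eq_mul]
  congr 1
  rw [Finset.mul_sum, Finset.mul_sum, Finset.mul_sum]
  refine Finset.sum_congr rfl fun p _ => ?_
  simp only [sv]
  ring

lemma tilt_ising (A : Matrix (Fin n) (Fin n) ℝ) (h y : Fin n → ℝ) :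
    tilt (ising A h) y = ising A (h + y) := by
  funext x
  rw [tilt, ising, ising, ← Real.exp_add, add_dotProduct, add_assoc]

lemma tilt_tilt (w : Cube n → ℝ) (y z : Fin n → ℝ) : tilt (tilt w y) z = tilt w (y + z) := by
  funext x
  rw [tilt, tilt, tilt, mul_assoc, ← Real.exp_add, add_dotProduct]

lemma tilt_zero (w : Cube n → ℝ) : tilt w 0 = w := by
  funext x; simp [tilt]

/-- scaling a weight does not change the law -/
lemma prob_smul {Ω : Type*} [Fintype Ω] (w : Ω → ℝ) {c : ℝ} (hc : c ≠ 0) :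
    prob (fun x => w x * c) = prob w := by
  funext x
  rw [prob, prob, ← Finset.sum_mul, mul_div_mul_right _ _ hc]

/-- on the cube the posterior is the tilt -/
lemma prob_post_sv (w : Cube n → ℝ) (s : ℝ) (y : Fin n → ℝ) :
    prob (post sv w s y) = prob (tilt w y) := by
  rw [← prob_smul (tilt w y) (Real.exp_pos (-(s / 2 * n))).ne']
  congr 1
  funext x
  rw [post, tilt, sv_dot_self, mul_assoc, ← Real.exp_add, sub_eq_add_neg]

end Crest.Agent.T157.E

end
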