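import Crest.Agent.T157.EigN_84
import Crest.Agent.T157.EDef_39

/-!
# Row 157, part E: nets and the crude operator norm bound for sub-Gaussian entries (helper84)

* `exists_half_net`, `exists_net`: nets of the Euclidean unit ball of `ι → ℝ`;
* `opn_le_of_net`: the operator norm is at most `4` times the largest value of the bilinear form
  on half-nets;
* `subG_dot`: linear forms of independent sub-Gaussian variables;
* `opn_Jmat_tail`: `P(K < opn (Jmat n g)) ≤ exp (-n (K²/64 - 4))` for any product of laws with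
  `1`-sub-Gaussian mgf; `opn_Jmat_18`, `subG_entryLaw`, `opn_coupling`.
-/

set_option autoImplicit false
set_option linter.unusedSectionVars false

noncomputable section

namespace Crest.Agent.T157.Nrm

open Matrix Finset MeasureTheory ProbabilityTheory
open Crest.ProbabilityR.SpinGlassDynamics Crest.Agent.T157.E Crest.Agent.T157.Eig
open scoped NNReal

variable {ι κ : Type*} [Fintype ι] [DecidableEq ι] [Fintype κ] [DecidableEq κ]

/-- a `1/2`-net of the unit ball with at most `5 ^ d` points -/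
lemma exists_half_net (ι : Type*) [Fintype ι] [DecidableEq ι] :
    ∃ N : Finset (ι → ℝ), N.card ≤ 5 ^ Fintype.card ι ∧ (∀ c ∈ N, nrm c ≤ 1) ∧
      ∀ v, nrm v ≤ 1 → ∃ c ∈ N, nrm (v - c) ≤ 1 / 2 := by
  classical
  set P : Finset (ι → ℝ) → Prop := fun S => (∀ c ∈ S, nrm c ≤ 1) ∧
    ∀ c ∈ S, ∀ e ∈ S, c ≠ e → 1 / 2 ≤ nrm (c - e) with hP
  have hcard : ∀ S, P S → S.card ≤ 5 ^ Fintype.card ι := by
    intro S hS
    let φ : (ι → ℝ) → EuclideanSpace ℝ ι := fun c => WithLp.toLp 2 ((2 : ℝ) • c)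
    have hinj : Function.Injective φ := fun a b hab =>
      smul_right_injective (ι → ℝ) (two_ne_zero : (2 : ℝ) ≠ 0) (WithLp.toLp_injective 2 hab)
    have h := Besicovitch.card_le_of_separated (S.image φ) ?_ ?_
    · rwa [card_image_of_injective _ hinj, finrank_euclideanSpace] at h
    · intro c hc
      obtain ⟨a, ha, rfl⟩ := mem_image.1 hc
      rw [← nrm_eq_norm, nrm_smul, abs_two]
      linarith [hS.1 a ha]
    · intro c hc e he hce
      obtain ⟨a, ha, rfl⟩ := mem_image.1 hc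
      obtain ⟨b, hb, rfl⟩ := mem_image.1 he
      have := hS.2 a ha b hb fun h => hce (by rw [h])
      rw [← WithLp.toLp_sub, ← smul_sub, ← nrm_eq_norm, nrm_smul, abs_two]
      linarith
  have hex : ∃ S, P S ∧ ∀ S', P S' → S'.card ≤ S.card := by
    set A : Set ℕ := {n | ∃ S, P S ∧ S.card = n} with hA
    have hne : A.Nonempty := ⟨0, ∅, ⟨by simp, by simp⟩, by simp⟩
    have hbdd : BddAbove A := ⟨5 ^ Fintype.card ι, by
      rintro n ⟨S, hS, rfl⟩
      exact hcard S hS⟩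
    obtain ⟨S, hS, hSn⟩ := Nat.sSup_mem hne hbdd
    exact ⟨S, hS, fun S' hS' => hSn ▸ le_csSup hbdd ⟨S', hS', rfl⟩⟩
  obtain ⟨S, hS, hmax⟩ := hex
  refine ⟨S, hcard S hS, hS.1, fun v hv => ?_⟩
  by_contra hcon
  push Not at hcon
  have hvS : v ∉ S := fun hvS => by
    have := hcon v hvS
    simp at this
    linarith
  have hP' : P (insert v S) := by
    refine ⟨fun c hc => ?_, fun c hc e he hce => ?_⟩
    · rcases mem_insert.1 hc with rfl | hc
      · exact hv
      · exact hS.1 c hc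
    · rcases mem_insert.1 hc with rfl | hc'
      · rcases mem_insert.1 he with rfl | he'
        · exact absurd rfl hce
        · exact (hcon e he').le
      · rcases mem_insert.1 he with rfl | he'
        · rw [← nrm_neg, neg_sub]
          exact (hcon c hc').le
        · exact hS.2 c hc' e he' hce
  have := hmax _ hP'
  rw [card_insert_of_notMem hvS] at this
  omega

/-- a `2⁻ᵏ`-net of the unit ball with at most `5 ^ (k d)` points, inside the ball of radius `2` -/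
lemma exists_net (ι : Type*) [Fintype ι] [DecidableEq ι] (k : ℕ) :
    ∃ N : Finset (ι → ℝ), N.card ≤ (5 ^ k) ^ Fintype.card ι ∧
      ∀ v, nrm v ≤ 1 → ∃ c ∈ N, nrm (v - c) ≤ (1 / 2) ^ k := by
  classical
  obtain ⟨H, hH, -, hH2⟩ := exists_half_net ι
  induction k with
  | zero => exact ⟨{0}, by simp, fun v hv => ⟨0, by simp, by simpa using hv⟩⟩
  | succ k ih =>
    obtain ⟨N, hN, hN2⟩ := ih
    refine ⟨(N ×ˢ H).image fun q => q.1 + ((1 / 2 : ℝ) ^ k) • q.2, ?_, fun v hv => ?_⟩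
    · refine card_image_le.trans ?_
      rw [card_product, pow_succ, mul_pow]
      exact Nat.mul_le_mul hN hH
    · obtain ⟨c, hc, hvc⟩ := hN2 v hv
      have hw : nrm ((2 : ℝ) ^ k • (v - c)) ≤ 1 := by
        rw [nrm_smul, abs_of_nonneg (by positivity)]
        calc (2 : ℝ) ^ k * nrm (v - c) ≤ 2 ^ k * (1 / 2) ^ k := by gcongr
          _ = 1 := by rw [← mul_pow]; norm_num
      obtain ⟨e, he, hwe⟩ := hH2 _ hw
      refine ⟨c + ((1 / 2 : ℝ) ^ k) • e, mem_image.2 ⟨(c, e), by simp [hc, he], rfl⟩, ?_⟩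
      have e1 : v - (c + ((1 / 2 : ℝ) ^ k) • e) =
          ((1 / 2 : ℝ) ^ k) • ((2 : ℝ) ^ k • (v - c) - e) := by
        rw [smul_sub, smul_smul, ← mul_pow]
        norm_num
        abel
      rw [e1, nrm_smul, abs_of_nonneg (by positivity), pow_succ]
      gcongr

/-- a norm is controlled by a half-net -/
lemma nrm_le_of_net {N : Finset (ι → ℝ)} (hN : ∀ v, nrm v ≤ 1 → ∃ c ∈ N, nrm (v - c) ≤ 1 / 2)
    {w : ι → ℝ} {M : ℝ} (h : ∀ c ∈ N, c ⬝ᵥ w ≤ M) : nrm w ≤ 2 * M := by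
  by_cases hw : w = 0
  · obtain ⟨c, hc, -⟩ := hN 0 (by simp)
    have := h c hc
    rw [hw] at this ⊢
    simp only [dotProduct_zero] at this
    simpa using this
  have hp := nrm_pos hw
  obtain ⟨c, hc, hvc⟩ := hN ((nrm w)⁻¹ • w) (by
    rw [nrm_smul, abs_of_pos (inv_pos.2 hp), inv_mul_cancel₀ hp.ne'])
  have h1 : ((nrm w)⁻¹ • w) ⬝ᵥ w = nrm w := by
    rw [smul_dotProduct, ← nrm_mul_self, smul_eq_mul, ← mul_assoc, inv_mul_cancel₀ hp.ne', one_mul]
  have h2 := dot_le ((nrm w)⁻¹ • w - c) w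
  rw [sub_dotProduct, h1] at h2
  have h3 := mul_le_mul_of_nonneg_right hvc hp.le
  linarith [h c hc]

lemma opn_le_of_net' {N : Finset (κ → ℝ)} (hN : ∀ v, nrm v ≤ 1 → ∃ c ∈ N, nrm (v - c) ≤ 1 / 2)
    {A : Matrix ι κ ℝ} {M : ℝ} (h : ∀ d ∈ N, nrm (A *ᵥ d) ≤ M) : opn A ≤ 2 * M := by
  have hM : 0 ≤ M := by
    obtain ⟨c, hc, -⟩ := hN 0 (by simp)
    exact (nrm_nonneg _).trans (h c hc)
  have h0 := opn_nonneg A
  suffices opn A ≤ M + opn A / 2 by linarith
  refine opn_le_of_nrm (by linarith) fun v => ?_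
  by_cases hv : v = 0
  · simp [hv]
  have hp := nrm_pos hv
  obtain ⟨c, hc, hvc⟩ := hN ((nrm v)⁻¹ • v) (by
    rw [nrm_smul, abs_of_pos (inv_pos.2 hp), inv_mul_cancel₀ hp.ne'])
  have e : A *ᵥ v = nrm v • (A *ᵥ c + A *ᵥ ((nrm v)⁻¹ • v - c)) := by
    rw [← mulVec_add, add_sub_cancel, ← mulVec_smul, smul_smul, mul_inv_cancel₀ hp.ne', one_smul]
  rw [e, nrm_smul, abs_of_pos hp, mul_comm]
  refine mul_le_mul_of_nonneg_right ((nrm_add_le _ _).trans ?_) hp.le
  have := nrm_mulVec_le A ((nrm v)⁻¹ • v - c)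
  nlinarith [h c hc]

/-- the operator norm from the bilinear form on two half-nets -/
lemma opn_le_of_net {N : Finset (ι → ℝ)} {N' : Finset (κ → ℝ)}
    (hN : ∀ v, nrm v ≤ 1 → ∃ c ∈ N, nrm (v - c) ≤ 1 / 2)
    (hN' : ∀ v, nrm v ≤ 1 → ∃ c ∈ N', nrm (v - c) ≤ 1 / 2)
    {A : Matrix ι κ ℝ} {M : ℝ} (h : ∀ c ∈ N, ∀ d ∈ N', c ⬝ᵥ A *ᵥ d ≤ M) : opn A ≤ 4 * M := by
  have := opn_le_of_net' hN' (A := A) (M := 2 * M) fun d hd =>
    nrm_le_of_net hN fun c hc => h c hc d hd
  linarith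

lemma subG_mono {Ω : Type*} [MeasurableSpace Ω] {μ : Measure Ω} {X : Ω → ℝ} {c c' : ℝ≥0}
    (h : HasSubgaussianMGF X c μ) (hc : (c : ℝ) ≤ c') : HasSubgaussianMGF X c' μ :=
  ⟨h.integrable_exp_mul, fun t => (h.mgf_le t).trans (Real.exp_le_exp.2 (by
    have := mul_le_mul_of_nonneg_right hc (sq_nonneg t); linarith))⟩

/-- linear forms of independent `1`-sub-Gaussian variables -/
lemma subG_dot {σ : Type*} [Fintype σ] (ν : σ → Measure ℝ) [∀ p, IsProbabilityMeasure (ν p)]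
    (hν : ∀ p, HasSubgaussianMGF id 1 (ν p)) (a : σ → ℝ) {c : ℝ≥0} (hc : ∑ p, a p ^ 2 ≤ c) :
    HasSubgaussianMGF (fun g : σ → ℝ => ∑ p, a p * g p) c (Measure.pi ν) := by
  have hi : iIndepFun (fun p (g : σ → ℝ) => a p * g p) (Measure.pi ν) :=
    iIndepFun_pi (X := fun p x => a p * x) fun p => (measurable_id.const_mul (a p)).aemeasurable
  have h1 : ∀ p ∈ univ, HasSubgaussianMGF (fun g : σ → ℝ => a p * g p)
      (⟨a p ^ 2, sq_nonneg _⟩ * 1) (Measure.pi ν) := by
    intro p _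
    have h2 : HasSubgaussianMGF (fun g : σ → ℝ => g p) 1 (Measure.pi ν) := by
      rw [← HasSubgaussianMGF.id_map_iff (measurable_pi_apply p).aemeasurable,
        (measurePreserving_eval ν p).map_eq]
      exact hν p
    exact h2.const_mul (a p)
  refine subG_mono (HasSubgaussianMGF.sum_of_iIndepFun hi h1) ?_
  rw [NNReal.coe_sum]
  simp only [mul_one]
  exact hc

variable {n : ℕ}

/-- bilinear form of `Jmat` -/
lemma bil_Jmat (g : Pair n → ℝ) (u v : Fin n → ℝ) :
    u ⬝ᵥ Jmat n g *ᵥ v =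
      ∑ p : Pair n, (u p.1.1 * v p.1.2 + u p.1.2 * v p.1.1) / Real.sqrt n * g p := by
  have h := sum_sum_eq_two_mul_pair (fun i j => Jmat n g i j * (u i * v j + u j * v i))
    (fun i j => by rw [Jmat_symm g i j]; ring) (fun i => by simp [Jmat_diag])
  have h1 : ∑ i, ∑ j, Jmat n g i j * (u i * v j) = u ⬝ᵥ Jmat n g *ᵥ v := by
    simp only [dotProduct, mulVec, mul_sum]
    exact sum_congr rfl fun i _ => sum_congr rfl fun j _ => by ring
  have h2 : ∑ i, ∑ j, Jmat n g i j * (u j * v i) = u ⬝ᵥ Jmat n g *ᵥ v := by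
    rw [sum_comm, ← h1]
    exact sum_congr rfl fun i _ => sum_congr rfl fun j _ => by rw [Jmat_symm g j i]
  simp only [mul_add, sum_add_distrib] at h
  rw [h1, h2, ← mul_add, ← sum_add_distrib, ← two_mul, mul_right_inj' two_ne_zero] at h
  rw [h]
  refine sum_congr rfl fun p _ => ?_
  rw [Jmat_apply_lt g p.2]
  ring

lemma sum_pair_le (F : Fin n → Fin n → ℝ) (hs : ∀ i j, F i j = F j i) (h0 : ∀ i, 0 ≤ F i i) :
    2 * ∑ p : Pair n, F p.1.1 p.1.2 ≤ ∑ i, ∑ j, F i j := by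
  have h := sum_sum_eq_two_mul_pair (fun i j => if i = j then 0 else F i j)
    (fun i j => by
      by_cases hij : i = j
      · simp [hij]
      · rw [if_neg hij, if_neg (Ne.symm hij), hs]) (fun i => by simp)
  have h5 : ∑ p : Pair n, (if p.1.1 = p.1.2 then 0 else F p.1.1 p.1.2) =
      ∑ p : Pair n, F p.1.1 p.1.2 := sum_congr rfl fun p _ => if_neg (ne_of_lt p.2)
  rw [← h5, ← h]
  refine sum_le_sum fun i _ => sum_le_sum fun j _ => ?_
  split_ifs with hij
  · subst hij; exact h0 i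
  · exact le_rfl

lemma sum_pair_sq_le (u v : Fin n → ℝ) :
    ∑ p : Pair n, (u p.1.1 * v p.1.2 + u p.1.2 * v p.1.1) ^ 2 ≤ 2 * ((u ⬝ᵥ u) * (v ⬝ᵥ v)) := by
  have h := sum_pair_le (fun i j => (u i * v j + u j * v i) ^ 2) (fun i j => by ring)
    (fun i => sq_nonneg _)
  have h1 : ∑ i, ∑ j, (u i * v j + u j * v i) ^ 2 ≤
      ∑ i, ∑ j, (2 * (u i * u i * (v j * v j)) + 2 * (u j * u j * (v i * v i))) :=
    sum_le_sum fun i _ => sum_le_sum fun j _ => by nlinarith [sq_nonneg (u i * v j - u j * v i)]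
  have h2 : ∑ i, ∑ j, u i * u i * (v j * v j) = (u ⬝ᵥ u) * (v ⬝ᵥ v) := by
    simp only [dotProduct, sum_mul_sum]
  have h3 : ∑ i, ∑ j, u j * u j * (v i * v i) = (u ⬝ᵥ u) * (v ⬝ᵥ v) := by rw [sum_comm, h2]
  simp only [sum_add_distrib, ← mul_sum] at h1
  simp only [← mul_sum] at h2
  rw [h2, h3] at h1
  linarith

lemma subG_bil_Jmat (ν : Pair n → Measure ℝ) [∀ p, IsProbabilityMeasure (ν p)]
    (hν : ∀ p, HasSubgaussianMGF id 1 (ν p)) {u v : Fin n → ℝ} {c : ℝ≥0}
    (hc : 2 * ((u ⬝ᵥ u) * (v ⬝ᵥ v)) / n ≤ c) :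
    HasSubgaussianMGF (fun g => u ⬝ᵥ Jmat n g *ᵥ v) c (Measure.pi ν) := by
  simp only [bil_Jmat]
  refine subG_dot ν hν _ (le_trans ?_ hc)
  simp only [div_pow, Real.sq_sqrt (Nat.cast_nonneg n), ← sum_div]
  exact div_le_div_of_nonneg_right (sum_pair_sq_le u v) (Nat.cast_nonneg n)

/-- **crude operator norm bound** for any product of `1`-sub-Gaussian laws -/
theorem opn_Jmat_tail (ν : Pair n → Measure ℝ) [∀ p, IsProbabilityMeasure (ν p)]
    (hν : ∀ p, HasSubgaussianMGF id 1 (ν p)) {K : ℝ} (hK : 0 ≤ K) :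
    (Measure.pi ν).real {g | K < opn (Jmat n g)} ≤ Real.exp (-(n * (K ^ 2 / 64 - 4))) := by
  rcases Nat.eq_zero_or_pos n with rfl | hn
  · simp
  have hn' : (0 : ℝ) < n := Nat.cast_pos.2 hn
  obtain ⟨N, hNc, hN1, hN⟩ := exists_half_net (Fin n)
  have hsub : {g | K < opn (Jmat n g)} ⊆
      ⋃ q ∈ N ×ˢ N, {g : Pair n → ℝ | K / 4 ≤ q.1 ⬝ᵥ Jmat n g *ᵥ q.2} := by
    intro g hg
    by_contra hc
    simp only [Set.mem_iUnion, not_exists, Set.mem_ofPred_eq, not_le, mem_product] at hc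
    have := opn_le_of_net hN hN (A := Jmat n g) (M := K / 4) fun c hc' d hd =>
      (hc (c, d) ⟨hc', hd⟩).le
    have hg' : K < opn (Jmat n g) := hg
    linarith
  have h1 : ∀ q ∈ N ×ˢ N, (Measure.pi ν).real {g : Pair n → ℝ | K / 4 ≤ q.1 ⬝ᵥ Jmat n g *ᵥ q.2} ≤
      Real.exp (-(n * (K ^ 2 / 64))) := by
    intro q hq
    rw [mem_product] at hq
    have a1 := (nrm_le_iff zero_le_one).1 (hN1 _ hq.1)
    have a2 := (nrm_le_iff zero_le_one).1 (hN1 _ hq.2)
    have := (subG_bil_Jmat ν hν (u := q.1) (v := q.2) (c := NNReal.mk (2 / n) (by positivity)) (by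
      rw [NNReal.coe_mk]
      refine div_le_div_of_nonneg_right ?_ hn'.le
      nlinarith [dot_self_nonneg q.1, dot_self_nonneg q.2])).measure_ge_le
      (ε := K / 4) (by positivity)
    refine this.trans (le_of_eq ?_)
    rw [NNReal.coe_mk]
    congr 1
    field_simp
    ring
  refine (measureReal_mono hsub (measure_ne_top _ _)).trans
    ((measureReal_biUnion_finset_le _ _).trans ((sum_le_sum h1).trans ?_))
  rw [sum_const, card_product, nsmul_eq_mul]
  have h5 : ((N.card * N.card : ℕ) : ℝ) ≤ Real.exp (n * 4) := by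
    have h6 : (N.card : ℝ) ≤ 5 ^ n := by simpa using (Nat.cast_le (α := ℝ)).2 hNc
    have h7 : (5 : ℝ) ≤ Real.exp 2 := by
      have := Real.quadratic_le_exp_of_nonneg (x := 2) (by norm_num)
      linarith
    have h8 : (5 : ℝ) ^ n ≤ Real.exp (n * 2) := by
      rw [Real.exp_nat_mul]; exact pow_le_pow_left₀ (by norm_num) h7 n
    rw [show (n : ℝ) * 4 = n * 2 + n * 2 by ring, Real.exp_add]
    push_cast
    exact mul_le_mul (h6.trans h8) (h6.trans h8) (Nat.cast_nonneg _) (Real.exp_pos _).le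
  refine (mul_le_mul_of_nonneg_right h5 (Real.exp_pos _).le).trans (le_of_eq ?_)
  rw [← Real.exp_add]
  congr 1
  ring

theorem opn_Jmat_18 (ν : Pair n → Measure ℝ) [∀ p, IsProbabilityMeasure (ν p)]
    (hν : ∀ p, HasSubgaussianMGF id 1 (ν p)) :
    (Measure.pi ν).real {g | 18 < opn (Jmat n g)} ≤ Real.exp (-n) := by
  refine (opn_Jmat_tail ν hν (by norm_num)).trans (Real.exp_le_exp.2 ?_)
  have : (0 : ℝ) ≤ n := Nat.cast_nonneg n
  nlinarith

lemma subG_gauss : HasSubgaussianMGF id 1 (gaussianReal 0 1) :=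
  ⟨fun t => integrable_exp_mul_gaussianReal t, fun t => by
    rw [mgf_id_gaussianReal]; simp⟩

lemma subG_coin : HasSubgaussianMGF id 1 coin := by
  have hi : ∀ f : ℝ → ℝ, Integrable f coin := fun f =>
    ((integrable_dirac enorm_lt_top).smul_measure (by simp)).add_measure
      ((integrable_dirac enorm_lt_top).smul_measure (by simp))
  refine ⟨fun t => hi _, fun t => ?_⟩
  rw [mgf, integral_add_measure ((integrable_dirac enorm_lt_top).smul_measure (by simp))
    ((integrable_dirac enorm_lt_top).smul_measure (by simp))]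
  simp only [integral_smul_measure, integral_dirac, id, mul_one, mul_neg, NNReal.coe_one, one_mul]
  have := Real.cosh_le_exp_half_sq t
  rw [Real.cosh_eq] at this
  norm_num
  linarith

lemma subG_entryLaw (b : Bool) : HasSubgaussianMGF id 1 (entryLaw b) := by
  cases b
  · exact subG_gauss
  · exact subG_coin

theorem opn_coupling (b : Bool) {K : ℝ} (hK : 0 ≤ K) :
    (couplingLaw b n).real {g | K < opn (Jmat n g)} ≤ Real.exp (-(n * (K ^ 2 / 64 - 4))) := by
  rw [couplingLaw_eq]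
  exact opn_Jmat_tail _ (fun _ => subG_entryLaw b) hK

end Crest.Agent.T157.Nrm

end
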