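import Mathlib
import Crest.Agent.T157.EDef_39

/-!
# Row 157: top of the chain (helper97, architect)

* `Whp μ P`: the (outer) measure of the bad event tends to `0`; calculus of `Whp`.
* `R29 … R34`: the six frozen statements, verbatim.
* `Poin`, `Lsi`, `Slow`: functional inequalities of a weight on the cube.
* top-level inputs `LsiHi`, `LsiCrit`, `SlowCrit`, `CutUp`, `CutLow`, `CutoffStmt`, and the glue
  statements `G29`, `G30`.
-/

set_option autoImplicit false

noncomputable section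

namespace Crest.Agent.T157.Top

open MeasureTheory ProbabilityTheory Filter Topology
open Crest.ProbabilityR.SpinGlassDynamics
open Crest.Agent.T157.E

/-! ### with high probability (outer measure, no measurability needed) -/

section whp
variable {X : ℕ → Type*} [∀ n, MeasurableSpace (X n)]

/-- the bad event has vanishing outer measure -/
def Whp (μ : ∀ n, Measure (X n)) (P : ∀ n, X n → Prop) : Prop :=
  Tendsto (fun n => μ n {g | ¬ P n g}) atTop (𝓝 0)

variable {μ : ∀ n, Measure (X n)} {P Q : ∀ n, X n → Prop}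

theorem Whp.mono (h : Whp μ P) (hPQ : ∀ᶠ n in atTop, ∀ g, P n g → Q n g) : Whp μ Q := by
  refine tendsto_of_tendsto_of_tendsto_of_le_of_le' tendsto_const_nhds h
    (Eventually.of_forall fun n => zero_le) ?_
  filter_upwards [hPQ] with n hn
  exact measure_mono fun g hg hP => hg (hn g hP)

theorem Whp.imp (h : Whp μ P) (hPQ : ∀ n g, P n g → Q n g) : Whp μ Q :=
  h.mono (Eventually.of_forall hPQ)

theorem Whp.and (h : Whp μ P) (h' : Whp μ Q) : Whp μ fun n g => P n g ∧ Q n g := by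
  have h0 : Tendsto (fun n => μ n {g | ¬ P n g} + μ n {g | ¬ Q n g}) atTop (𝓝 0) := by
    simpa using Tendsto.add h h'
  refine tendsto_of_tendsto_of_tendsto_of_le_of_le tendsto_const_nhds h0
    (fun n => zero_le) fun n => ?_
  refine le_trans (measure_mono ?_) (measure_union_le _ _)
  intro g hg
  by_cases hP : P n g
  · exact Or.inr fun hQ => hg ⟨hP, hQ⟩
  · exact Or.inl hP

theorem whp_of_eventually (h : ∀ᶠ n in atTop, ∀ g, P n g) : Whp μ P := by
  refine tendsto_const_nhds.congr' ?_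
  filter_upwards [h] with n hn
  have : {g | ¬ P n g} = ∅ := by ext g; simp [hn g]
  rw [this, measure_empty]

theorem whp_true : Whp μ fun _ _ => True := whp_of_eventually (Eventually.of_forall fun _ _ => trivial)

theorem Whp.finset {ι : Type*} (s : Finset ι) {R : ι → ∀ n, X n → Prop}
    (h : ∀ i ∈ s, Whp μ (R i)) : Whp μ fun n g => ∀ i ∈ s, R i n g := by
  classical
  induction s using Finset.induction_on with
  | empty => exact whp_true.imp fun n g _ i hi => by simp at hi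
  | insert a s ha ih =>
    refine ((h a (Finset.mem_insert_self _ _)).and
      (ih fun i hi => h i (Finset.mem_insert_of_mem hi))).imp fun n g hg i hi => ?_
    rcases Finset.mem_insert.1 hi with rfl | hi
    · exact hg.1
    · exact hg.2 i hi

theorem Whp.fintype {ι : Type*} [Fintype ι] {R : ι → ∀ n, X n → Prop}
    (h : ∀ i, Whp μ (R i)) : Whp μ fun n g => ∀ i, R i n g :=
  (Whp.finset Finset.univ fun i _ => h i).imp fun _ _ hg i => hg i (Finset.mem_univ i)

/-- the good event has outer measure tending to `1` -/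
theorem Whp.one [∀ n, IsProbabilityMeasure (μ n)] (h : Whp μ P) :
    Tendsto (fun n => μ n {g | P n g}) atTop (𝓝 1) := by
  have h1 : Tendsto (fun n => 1 - μ n {g | ¬ P n g}) atTop (𝓝 1) := by
    have := ENNReal.Tendsto.sub (tendsto_const_nhds (x := (1 : ENNReal))) h
      (Or.inl ENNReal.one_ne_top)
    simpa using this
  refine tendsto_of_tendsto_of_tendsto_of_le_of_le h1 tendsto_const_nhds (fun n => ?_)
    fun n => prob_le_one
  refine tsub_le_iff_right.2 ?_
  calc (1 : ENNReal) = μ n Set.univ := measure_univ.symm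
    _ ≤ μ n ({g | P n g} ∪ {g | ¬ P n g}) := measure_mono fun g _ => by
        by_cases hP : P n g
        · exact Or.inl hP
        · exact Or.inr hP
    _ ≤ _ := measure_union_le _ _

/-- any event incompatible with a `Whp` event has vanishing measure -/
theorem Whp.zero (h : Whp μ P) {B : ∀ n, Set (X n)}
    (hB : ∀ᶠ n in atTop, ∀ g, P n g → g ∉ B n) : Tendsto (fun n => μ n (B n)) atTop (𝓝 0) := by
  have := h.mono (Q := fun n g => g ∉ B n) hB
  simpa [Whp] using this

theorem whp_iff : Whp μ P ↔ ∀ ε : ℝ, 0 < ε → ∀ᶠ n in atTop, μ n {g | ¬ P n g} ≤ ENNReal.ofReal ε := by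
  rw [Whp, ENNReal.tendsto_nhds_zero]
  constructor
  · intro h ε hε
    exact h _ (ENNReal.ofReal_pos.2 hε)
  · intro h ε hε
    rcases eq_or_ne ε ⊤ with rfl | hne
    · exact Eventually.of_forall fun _ => le_top
    · filter_upwards [h ε.toReal (ENNReal.toReal_pos hε.ne' hne)] with n hn
      rwa [ENNReal.ofReal_toReal hne] at hn

/-- from a real bound on the bad event -/
theorem whp_of_real_le [∀ n, IsFiniteMeasure (μ n)] {a : ℕ → ℝ} (ha : Tendsto a atTop (𝓝 0))
    (h : ∀ᶠ n in atTop, (μ n).real {g | ¬ P n g} ≤ a n) : Whp μ P := by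
  refine whp_iff.2 fun ε hε => ?_
  filter_upwards [h, ha.eventually (gt_mem_nhds hε)] with n hn hn'
  rw [← ENNReal.ofReal_toReal (measure_ne_top (μ n) {g | ¬ P n g})]
  exact ENNReal.ofReal_le_ofReal (le_trans hn hn'.le)

theorem Whp.real [∀ n, IsFiniteMeasure (μ n)] (h : Whp μ P) :
    Tendsto (fun n => (μ n).real {g | ¬ P n g}) atTop (𝓝 0) := by
  have := (ENNReal.tendsto_toReal ENNReal.zero_ne_top).comp h
  simpa [Function.comp_def, Measure.real] using this

/-- a property that holds up to an arbitrarily small limiting probability holds whp -/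
theorem whp_of_approx (h : ∀ ε : ℝ, 0 < ε → ∃ R : ∀ n, X n → Prop,
    (∀ᶠ n in atTop, μ n {g | ¬ R n g} ≤ ENNReal.ofReal ε) ∧
      Whp μ fun n g => R n g → P n g) : Whp μ P := by
  refine whp_iff.2 fun ε hε => ?_
  obtain ⟨R, h1, h2⟩ := h (ε / 2) (by positivity)
  filter_upwards [h1, whp_iff.1 h2 (ε / 2) (by positivity)] with n h1 h2
  calc μ n {g | ¬ P n g} ≤ μ n ({g | ¬ R n g} ∪ {g | ¬ (R n g → P n g)}) :=
        measure_mono fun g hg => by
          by_cases hR : R n g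
          · exact Or.inr fun h => hg (h hR)
          · exact Or.inl hR
    _ ≤ _ := measure_union_le _ _
    _ ≤ ENNReal.ofReal (ε / 2) + ENNReal.ofReal (ε / 2) := add_le_add h1 h2
    _ = ENNReal.ofReal ε := by
        rw [← ENNReal.ofReal_add (by positivity) (by positivity), add_halves]

/-- transport along measure-preserving maps (pull-back of the good event) -/
theorem Whp.comp {Y : ℕ → Type*} [∀ n, MeasurableSpace (Y n)] {ν : ∀ n, Measure (Y n)}
    {T : ∀ n, Y n → X n} (hT : ∀ n, MeasurePreserving (T n) (ν n) (μ n)) (h : Whp μ P) :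
    Whp ν fun n y => P n (T n y) := by
  refine tendsto_of_tendsto_of_tendsto_of_le_of_le tendsto_const_nhds h
    (fun n => zero_le) fun n => ?_
  exact (hT n).measure_preimage_le {g | ¬ P n g}

/-- an event depending only on the first coordinate of a product space -/
theorem Whp.of_prod_fst {Y : ℕ → Type*} [∀ n, MeasurableSpace (Y n)] {ν : ∀ n, Measure (Y n)}
    [∀ n, IsProbabilityMeasure (ν n)] [∀ n, SFinite (μ n)]
    (h : Whp (fun n => (μ n).prod (ν n)) fun n z => P n z.1) : Whp μ P := by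
  refine h.congr fun n => ?_
  have : {z : X n × Y n | ¬ P n z.1} = {g | ¬ P n g} ×ˢ Set.univ := by ext z; simp
  rw [this, Measure.prod_prod, measure_univ, mul_one]

end whp

/-! ### functional inequalities -/

variable {n : ℕ}

/-- Poincare inequality with constant `C` -/
def Poin (w : Cube n → ℝ) (C : ℝ) : Prop := ∀ f : Cube n → ℝ, var w f ≤ C * dir w f

/-- logarithmic Sobolev inequality with constant `K` -/
def Lsi (w : Cube n → ℝ) (K : ℝ) : Prop :=
  ∀ f : Cube n → ℝ, ent w (fun x => f x ^ 2) ≤ K * dir w f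

/-- a slow observable: relaxation time at least `K` -/
def Slow (w : Cube n → ℝ) (K : ℝ) : Prop :=
  ∃ f : Cube n → ℝ, 0 < var w f ∧ K * dir w f ≤ var w f

/-! ### the six statements, verbatim -/

def R29 : Prop := ∀ (δ : ℝ) (_ : 0 < δ) (ε : ℝ) (_ : 0 < ε) (_ : ε < 1 / 2),
    Filter.Tendsto (fun n : ℕ => disorderLaw n
      {g | (((∃ k : ℕ, (k : ℝ) ≤ (n : ℝ) ^ (5 / 3 + δ) ∧ worstTV n 1 g k ≤ ε) ∧
          (∀ k : ℕ, (k : ℝ) < (n : ℝ) ^ (5 / 3 - δ) → ε < worstTV n 1 g k)) ∧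
        ((∃ t : ℝ, 0 ≤ t ∧ t ≤ (n : ℝ) ^ (2 / 3 + δ) ∧ ∀ x, stateTV n 1 g t x ≤ ε) ∧
          (∀ t : ℝ, 0 ≤ t → t < (n : ℝ) ^ (2 / 3 - δ) → ∃ x, ε < stateTV n 1 g t x))) ∧
        (((∀ f : (Fin n → Bool) → ℝ, gibbsVar n 1 g f ≤ (n : ℝ) ^ (2 / 3 + δ) * dirichletForm n 1 g f) ∧
          (∃ f : (Fin n → Bool) → ℝ, 0 < gibbsVar n 1 g f ∧
            (n : ℝ) ^ (2 / 3 - δ) * dirichletForm n 1 g f ≤ gibbsVar n 1 g f)) ∧
        ((∀ f : (Fin n → Bool) → ℝ, gibbsEnt n 1 g (fun x => f x ^ 2) ≤ (n : ℝ) ^ (2 / 3 + δ) * dirichletForm n 1 g f) ∧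
          (∃ f : (Fin n → Bool) → ℝ, 0 < gibbsEnt n 1 g (fun x => f x ^ 2) ∧
            (n : ℝ) ^ (2 / 3 - δ) * dirichletForm n 1 g f ≤ gibbsEnt n 1 g (fun x => f x ^ 2))))})
      Filter.atTop (nhds 1)

def R30 : Prop := ∀ (β : ℝ) (_ : 0 ≤ β) (_ : β < 1),
    ∃ lam : ℝ, 0 < lam ∧ lam ≤ (1 - β) ^ 2 ∧ (β = 0 → lam = 1) ∧
      ∀ ε : ℝ, 0 < ε → ε < 1 → ∀ η : ℝ, 0 < η →
        Filter.Tendsto (fun n : ℕ => disorderLaw n
            {g | ∀ x, stateTV n β g ((1 - ε) * (Real.log n / (2 * lam))) x ≤ 1 - η})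
          Filter.atTop (nhds 0) ∧
        Filter.Tendsto (fun n : ℕ => disorderLaw n
            {g | ∃ x, η ≤ stateTV n β g ((1 + ε) * (Real.log n / (2 * lam))) x})
          Filter.atTop (nhds 0) ∧
        Filter.Tendsto (fun n : ℕ => disorderLaw n
            {g | worstTV n β g ⌊(1 - ε) * n * (Real.log n / (2 * lam))⌋₊ ≤ 1 - η})
          Filter.atTop (nhds 0) ∧
        Filter.Tendsto (fun n : ℕ => disorderLaw n
            {g | η ≤ worstTV n β g ⌈(1 + ε) * n * (Real.log n / (2 * lam))⌉₊})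
          Filter.atTop (nhds 0)

def R31 : Prop := ∀ (β : ℝ) (_ : 1 < β) (η : ℝ) (_ : 0 < η),
    Filter.Tendsto (fun n : ℕ => disorderLaw n
        {g | η ≤ gibbsMass n β g
          {x | stateTV n β g (Real.exp ((n : ℝ) ^ (1 / 10000 : ℝ))) x ≤ 1 / 4}})
      Filter.atTop (nhds 0) ∧
    Filter.Tendsto (fun n : ℕ => disorderLaw n
        {g | η ≤ gibbsMass n β g
          {x | stateTVdisc n β g ⌊Real.exp ((n : ℝ) ^ (1 / 10000 : ℝ))⌋₊ x ≤ 1 / 4}})
      Filter.atTop (nhds 0) ∧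
    Filter.Tendsto (fun n : ℕ => disorderLaw n
        {g | gibbsMass n β g
          {x | ∃ t : ℝ, 0 ≤ t ∧ t ≤ Real.exp ((n : ℝ) ^ (1 - 1 / 40000000 : ℝ)) ∧
            stateTV n β g t x ≤ 1 / 4} ≤ 1 - η})
      Filter.atTop (nhds 0)

def R32 : Prop :=
    ∃ Q : MeasureTheory.Measure Path, MeasureTheory.IsProbabilityMeasure Q ∧
      (¬ ∃ f : Path, Q = MeasureTheory.Measure.dirac f) ∧
      (∀ᶠ f in MeasureTheory.ae Q, (∀ s, 0 ≤ f s) ∧ (∃ s, f s ≠ 0) ∧
        (∀ s s', s ≤ s' → f s' ≤ f s) ∧ Filter.Tendsto (fun s => f s) Filter.atTop (nhds 0)) ∧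
      ∀ (b : Bool) (F : BoundedContinuousFunction Path ℝ),
        Filter.Tendsto (fun n : ℕ => ∫ g, F (toPath n g) ∂(couplingLaw b n))
          Filter.atTop (nhds (∫ f, F f ∂Q))

def R33 : Prop :=
    ∃ Q : MeasureTheory.Measure PathPair, MeasureTheory.IsProbabilityMeasure Q ∧
      (∀ (b : Bool) (F : BoundedContinuousFunction PathPair ℝ),
        Filter.Tendsto (fun n : ℕ => ∫ g, F (toPathPair n g) ∂(couplingLaw b n))
          Filter.atTop (nhds (∫ p, F p ∂Q))) ∧
      ∀ (a b ε : ℝ), 0 < a → a ≤ b → 0 < ε →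
        Filter.Tendsto (fun s : Set.Ioi (0 : ℝ) => Q {p | ∃ t : Set.Ioi (0 : ℝ),
            a ≤ (t : ℝ) ∧ (t : ℝ) ≤ b ∧ ε < |p.2 (s, t) - p.1 t|})
          Filter.atTop (nhds 0)

def R34 : Prop := ∀ (β : ℝ) (_ : 0 < β) (_ : β < 1),
    ∃ C : ℝ, Filter.Tendsto (fun n : ℕ => disorderLaw n
        {g | ∀ f : (Fin n → Bool) → ℝ, gibbsVar n β g f ≤ C * dirichletForm n β g f})
      Filter.atTop (nhds 1)

/-! ### top-level inputs -/

/-- (A) Poincare inequality `O(1)` in the whole high-temperature phase -/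
def PoinHi : Prop := ∀ β : ℝ, 0 ≤ β → β < 1 → ∃ C : ℝ,
  Whp disorderLaw fun n g => Poin (gibbsWeight n β g) C

/-- (A) logarithmic Sobolev inequality `O(1)` in the whole high-temperature phase -/
def LsiHi : Prop := ∀ β : ℝ, 0 ≤ β → β < 1 → ∃ K : ℝ,
  Whp disorderLaw fun n g => Lsi (gibbsWeight n β g) K

/-- (A) logarithmic Sobolev inequality at criticality -/
def LsiCrit : Prop := ∀ δ : ℝ, 0 < δ →
  Whp disorderLaw fun n g => Lsi (gibbsWeight n 1 g) ((n : ℝ) ^ (2 / 3 + δ))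

/-- (A) a slow observable at criticality -/
def SlowCrit : Prop := ∀ δ : ℝ, 0 < δ →
  Whp disorderLaw fun n g => Slow (gibbsWeight n 1 g) ((n : ℝ) ^ (2 / 3 - δ))

/-- (A) a direction of large variance at criticality (implies `SlowCrit`) -/
def SoftCrit : Prop := ∀ δ : ℝ, 0 < δ →
  Whp disorderLaw fun n g => ∃ v : Fin n → ℝ, v ⬝ᵥ v = 1 ∧
    (n : ℝ) ^ (2 / 3 - δ) ≤ var (gibbsWeight n 1 g) fun x => v ⬝ᵥ sv x

/-- (B) continuous-time upper bound with rate `lam` -/
def CutUp (β lam : ℝ) : Prop := ∀ ε : ℝ, 0 < ε → ∀ η : ℝ, 0 < η →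
  Whp disorderLaw fun n g => ∀ x, stateTV n β g ((1 + ε) * (Real.log n / (2 * lam))) x < η

/-- (B) continuous-time lower bound with rate `lam` -/
def CutLow (β lam : ℝ) : Prop := ∀ ε : ℝ, 0 < ε → ε < 1 → ∀ η : ℝ, 0 < η →
  Whp disorderLaw fun n g => ∃ x, 1 - η < stateTV n β g ((1 - ε) * (Real.log n / (2 * lam))) x

/-- (B) cutoff in continuous time for `0 < β < 1` -/
def CutoffStmt : Prop := ∀ β : ℝ, 0 < β → β < 1 →
  ∃ lam : ℝ, 0 < lam ∧ lam ≤ (1 - β) ^ 2 ∧ CutUp β lam ∧ CutLow β lam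

/-- (B) the product chain `β = 0` -/
def Cut0Stmt : Prop := CutUp 0 1 ∧ CutLow 0 1

/-! ### glue statements -/

def GPoin : Prop := LsiHi → PoinHi
def GSlow : Prop := SoftCrit → SlowCrit
def G29 : Prop := LsiCrit → SlowCrit → R29
def G30 : Prop := PoinHi → CutoffStmt → Cut0Stmt → R30

theorem r34_of (h : PoinHi) : R34 := fun β hβ hβ1 => by
  obtain ⟨C, hC⟩ := h β hβ.le hβ1
  exact ⟨C, hC.one⟩

end Crest.Agent.T157.Top

end
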