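import Crest.Agent.T157.ChainHB_22
import Crest.Agent.T157.ChainPoi_22
import Crest.Agent.T157.NrmS_84
import Crest.Agent.T157.Top_97

/-!
Row 157 (helper22): the glue `G29 : LsiCrit → SlowCrit → R29` and
`CutoffStmt → Cut0Stmt → R30` (Poissonisation in both directions), with the bounds on the smallest
Gibbs probability and on the holding probability of the heat-bath chain of an Ising weight.
-/

set_option autoImplicit false

noncomputable section

namespace Crest.Agent.T157.Chain22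

open Finset Matrix Filter Topology MeasureTheory
open Crest.ProbabilityR.SpinGlassDynamics
open Crest.Agent.T157.E (Cube prob siteM dir dir2 gen hb hbPow hbCt ising sv Jmat)
open Crest.Agent.T157.Eig (opn)
open Crest.Agent.T157.Top (Whp)

variable {n : ℕ}

/-- smallest probability of a weight with bounded logarithm -/
theorem log_inv_prob_le {w : Cube n → ℝ} (hw : ∀ x, 0 < w x) {M : ℝ}
    (hM : ∀ x, |Real.log (w x)| ≤ M) (x : Cube n) : Real.log (1 / prob w x) ≤ n + 2 * M := by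
  have h1 : ∀ y, w y ≤ Real.exp M := fun y => by
    rw [← Real.exp_log (hw y)]; exact Real.exp_le_exp.2 (abs_le.1 (hM y)).2
  have h2 : ∑ y, w y ≤ Real.exp (n + M) := by
    refine (sum_le_sum fun y _ => h1 y).trans ?_
    rw [sum_const, card_univ, nsmul_eq_mul, Real.exp_add]
    refine mul_le_mul_of_nonneg_right ?_ (Real.exp_pos _).le
    simp only [Fintype.card_pi, Fintype.card_bool, prod_const, card_univ, Fintype.card_fin]
    push_cast
    rw [← mul_one (n : ℝ), Real.exp_nat_mul]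
    exact pow_le_pow_left₀ (by norm_num) (by linarith [Real.add_one_le_exp 1]) n
  have h3 := sum_w_pos hw
  rw [prob, one_div_div, Real.log_div h3.ne' (hw x).ne']
  have h4 := Real.log_le_log h3 h2
  rw [Real.log_exp] at h4
  linarith [(abs_le.1 (hM x)).1]

theorem ising_pos' (A : Matrix (Fin n) (Fin n) ℝ) (h : Fin n → ℝ) (x : Cube n) :
    0 < ising A h x := Real.exp_pos _

theorem abs_log_ising_le (A : Matrix (Fin n) (Fin n) ℝ) (h : Fin n → ℝ) (x : Cube n) :
    |Real.log (ising A h x)| ≤ opn A * n / 2 + ∑ i, |h i| := by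
  rw [ising, Real.log_exp]
  refine (abs_add_le _ _).trans (add_le_add ?_ ?_)
  · have := Eig.abs_quad_le A (sv x)
    rw [E.sv_dot_self] at this
    rw [abs_mul, abs_of_pos (by norm_num : (0 : ℝ) < 1 / 2)]
    linarith
  · refine (abs_sum_le_sum_abs _ _).trans (le_of_eq (sum_congr rfl fun i _ => ?_))
    rw [abs_mul, sv, E.abs_spin, mul_one]

theorem log_inv_prob_gibbs_le {β K : ℝ} {g : Pair n → ℝ} (hK : opn (Jmat n g) ≤ K) (x : Cube n) :
    Real.log (1 / prob (gibbsWeight n β g) x) ≤ n * (1 + |β| * K) := by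
  rw [E.gibbsWeight_eq_ising]
  refine (log_inv_prob_le (ising_pos' _ _) (abs_log_ising_le _ _) x).trans ?_
  rw [Eig.opn_smul]
  have h1 : |β| * opn (Jmat n g) ≤ |β| * K := mul_le_mul_of_nonneg_left hK (abs_nonneg _)
  have h2 : (0 : ℝ) ≤ n := Nat.cast_nonneg n
  simp only [Pi.zero_apply, abs_zero, sum_const_zero, add_zero]
  nlinarith

theorem sv_update (x : Cube n) (i : Fin n) (b : Bool) :
    sv (Function.update x i b) = sv x + (spin b - spin (x i)) • (Pi.single i 1 : Fin n → ℝ) := by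
  funext j
  by_cases hj : j = i
  · subst hj; simp [sv]
  · simp [sv, hj]

/-- change of the Ising weight under a single-site update -/
theorem ising_update {A : Matrix (Fin n) (Fin n) ℝ} (hA : Aᵀ = A) (hd : ∀ i, A i i = 0)
    (h : Fin n → ℝ) (x : Cube n) (i : Fin n) (b : Bool) :
    ising A h (Function.update x i b) =
      ising A h x * Real.exp ((spin b - spin (x i)) * ((A *ᵥ sv x) i + h i)) := by
  rw [ising, ising, ← Real.exp_add, sv_update]
  congr 1
  set d := spin b - spin (x i)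
  have e1 : sv x ⬝ᵥ A *ᵥ (Pi.single i 1 : Fin n → ℝ) = (A *ᵥ sv x) i := by
    rw [dotProduct_mulVec, ← mulVec_transpose, hA, dotProduct_single, mul_one]
  have e2 : (Pi.single i 1 : Fin n → ℝ) ⬝ᵥ A *ᵥ (Pi.single i 1 : Fin n → ℝ) = 0 := by
    simp [hd]
  simp only [mulVec_add, mulVec_smul, add_dotProduct, dotProduct_add, smul_dotProduct,
    dotProduct_smul, smul_eq_mul, e1, e2, single_dotProduct, dotProduct_single, one_mul, mul_one]
  ring

theorem sk_diag_ge {A : Matrix (Fin n) (Fin n) ℝ} (hA : Aᵀ = A) (hd : ∀ i, A i i = 0)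
    (h : Fin n → ℝ) (x : Cube n) (i : Fin n) :
    Real.exp (-(2 * |(A *ᵥ sv x) i + h i|)) / 2 ≤ sk (ising A h) i x x := by
  rw [sk, if_pos fun _ _ => rfl, ising_update hA hd, ising_update hA hd, ← mul_add,
    div_mul_eq_div_div, div_self (ising_pos' A h x).ne', Real.exp_neg, inv_eq_one_div, div_div]
  set a := (A *ᵥ sv x) i + h i
  have key : ∀ b : Bool, Real.exp ((spin b - spin (x i)) * a) ≤ Real.exp (2 * |a|) := fun b => by
    refine Real.exp_le_exp.2 ((le_abs_self _).trans ?_)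
    rw [abs_mul]
    refine mul_le_mul_of_nonneg_right ((abs_sub _ _).trans ?_) (abs_nonneg _)
    rw [E.abs_spin, E.abs_spin]; norm_num
  refine one_div_le_one_div_of_le (by positivity) ?_
  linarith [key true, key false]

/-- the holding probability of the heat-bath chain of an Ising weight without field -/
theorem hb_diag_ge (hn : 0 < n) {A : Matrix (Fin n) (Fin n) ℝ} (hA : Aᵀ = A) (hd : ∀ i, A i i = 0)
    {K : ℝ} (hK : opn A ≤ K) (x : Cube n) :
    Real.exp (-(1 + K ^ 2)) / 2 ≤ hb (ising A 0) x x := by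
  have hn' : (0 : ℝ) < n := by exact_mod_cast hn
  have h1 : ∑ i, (A *ᵥ sv x) i ^ 2 ≤ K ^ 2 * n := by
    have := Eig.mulVec_dot_le A (sv x)
    rw [E.sv_dot_self] at this
    simp only [dotProduct, ← sq] at this
    refine this.trans (mul_le_mul_of_nonneg_right ?_ hn'.le)
    exact pow_le_pow_left₀ (Eig.opn_nonneg A) hK 2
  have h2 : ∀ i, Real.exp (-(1 + K ^ 2)) / 2 * (1 + (K ^ 2 - (A *ᵥ sv x) i ^ 2)) ≤
      sk (ising A 0) i x x := fun i => by
    refine le_trans ?_ (sk_diag_ge hA hd 0 x i)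
    rw [Pi.zero_apply, add_zero]
    set a := (A *ᵥ sv x) i
    have b1 := Real.add_one_le_exp (K ^ 2 - a ^ 2)
    have b2 : Real.exp (-(1 + K ^ 2)) * Real.exp (K ^ 2 - a ^ 2) ≤ Real.exp (-(2 * |a|)) := by
      rw [← Real.exp_add, Real.exp_le_exp]
      nlinarith [sq_nonneg (|a| - 1), sq_abs a]
    nlinarith [Real.exp_pos (-(1 + K ^ 2))]
  rw [hb_eq]
  have h3 := sum_le_sum fun i (_ : i ∈ univ) => h2 i
  rw [← mul_sum, sum_add_distrib, sum_sub_distrib] at h3
  simp only [sum_const, card_univ, Fintype.card_fin, nsmul_eq_mul, mul_one] at h3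
  rw [one_div, ← div_eq_inv_mul, le_div_iff₀ hn']
  refine le_trans (mul_le_mul_of_nonneg_left ?_ (by positivity)) h3
  linarith

theorem hb_gibbs_diag_ge (hn : 0 < n) {β K : ℝ} {g : Pair n → ℝ} (hK : opn (Jmat n g) ≤ K)
    (x : Cube n) : Real.exp (-(1 + (|β| * K) ^ 2)) / 2 ≤ hb (gibbsWeight n β g) x x := by
  rw [E.gibbsWeight_eq_ising]
  refine hb_diag_ge hn (by rw [transpose_smul, E.Jmat_transpose])
    (fun i => by simp [E.Jmat_diag]) ?_ x
  rw [Eig.opn_smul]
  exact mul_le_mul_of_nonneg_left hK (abs_nonneg _)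

/-- `‖J‖ ≤ 18` with high probability, both coupling laws -/
theorem whp_opn (b : Bool) : Whp (couplingLaw b) fun n g => opn (Jmat n g) ≤ 18 := by
  refine Top.whp_of_real_le (a := fun n => Real.exp (-n))
    (Real.tendsto_exp_neg_atTop_nhds_zero.comp tendsto_natCast_atTop_atTop)
    (Eventually.of_forall fun n => ?_)
  simp only [not_le]
  refine (Nrm.opn_coupling b (by norm_num)).trans (Real.exp_le_exp.2 ?_)
  have : (0 : ℝ) ≤ n := Nat.cast_nonneg n
  nlinarith

theorem whp_opn' : Whp disorderLaw fun n g => opn (Jmat n g) ≤ 18 := whp_opn false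

theorem worstTV_le_iff (β : ℝ) (g : Pair n → ℝ) (k : ℕ) (a : ℝ) :
    worstTV n β g k ≤ a ↔ ∀ x, stateTVdisc n β g k x ≤ a :=
  ciSup_le_iff (Finite.bddAbove_range _)

theorem le_worstTV (β : ℝ) (g : Pair n → ℝ) (k : ℕ) (x : Cube n) :
    stateTVdisc n β g k x ≤ worstTV n β g k :=
  (worstTV_le_iff β g k _).1 le_rfl x

theorem stateTV_eq_H (hn : 0 < n) (β : ℝ) (g : Pair n → ℝ) (t : ℝ) (x : Cube n) :
    stateTV n β g t x = tv ((hbRC hn (E.gibbsWeight_pos β g)).H (n * t) x)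
      (hbRC hn (E.gibbsWeight_pos β g)).π := by
  rw [E.stateTV_eq, hbCt_eq' hn (E.gibbsWeight_pos β g)]; rfl

theorem stateTVdisc_eq_P (hn : 0 < n) (β : ℝ) (g : Pair n → ℝ) (k : ℕ) (x : Cube n) :
    stateTVdisc n β g k x = tv (((hbRC hn (E.gibbsWeight_pos β g)).P ^ k) x)
      (hbRC hn (E.gibbsWeight_pos β g)).π := by
  rw [E.stateTVdisc_eq, hbPow_eq' hn (E.gibbsWeight_pos β g)]; rfl

theorem tendsto_exp_neg_rpow_mul {a : ℝ} (ha : 0 < a) (c : ℝ) :
    Tendsto (fun n : ℕ => Real.exp (-((n : ℝ) ^ a / 2)) * (n * c)) atTop (𝓝 0) := by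
  have h1 : Tendsto (fun n : ℕ => (n : ℝ) ^ a) atTop atTop :=
    (tendsto_rpow_atTop ha).comp tendsto_natCast_atTop_atTop
  have h3 := ((tendsto_rpow_mul_exp_neg_mul_atTop_nhds_zero (1 / a) (1 / 2)
    (by norm_num)).comp h1).const_mul c
  rw [mul_zero] at h3
  refine h3.congr fun n => ?_
  have e1 : ((n : ℝ) ^ a) ^ (1 / a) = n := by
    rw [← Real.rpow_mul (Nat.cast_nonneg n), mul_one_div_cancel ha.ne', Real.rpow_one]
  simp only [Function.comp, e1]
  rw [show -(1 / 2) * (n : ℝ) ^ a = -((n : ℝ) ^ a / 2) by ring]; ring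

/-- **S0229 from the log-Sobolev upper bound and a slow observable.** -/
theorem g29 : Top.G29 := by
  intro hL hS δ hδ ε hε hε'
  refine (((hL (δ / 2) (by positivity)).and (hS (δ / 2) (by positivity))).and whp_opn').mono
    ?_ |>.one
  have ev1 := (tendsto_exp_neg_rpow_mul (a := δ / 2) (by positivity) 19).eventually
    (gt_mem_nhds (show (0 : ℝ) < ε ^ 2 by positivity))
  have ev2 := ((tendsto_rpow_neg_atTop (y := δ / 2) (by positivity)).comp
    tendsto_natCast_atTop_atTop).eventually (gt_mem_nhds (show (0 : ℝ) < 1 - 2 * ε by linarith))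
  have ev3 := ((tendsto_rpow_atTop (y := δ / 2) (by positivity)).comp
    tendsto_natCast_atTop_atTop).eventually_ge_atTop 2
  filter_upwards [ev1, ev2, ev3, eventually_ge_atTop 1] with n e1 e2 e3 hn1
  rintro g ⟨⟨hl, f, hf0, hf⟩, hop⟩
  simp only [Function.comp] at e2 e3
  have hn : 0 < n := hn1
  have hN : (1 : ℝ) ≤ n := by exact_mod_cast hn1
  have hN0 : (0 : ℝ) < n := by linarith
  have hw := E.gibbsWeight_pos (n := n) 1 g
  set c := hbRC hn hw with hc
  set C := (n : ℝ) ^ (2 / 3 + δ / 2) with hC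
  set K := (n : ℝ) ^ (2 / 3 - δ / 2) with hK
  set u := (n : ℝ) ^ (δ / 2) with hu
  have hC0 : 0 < C := by positivity
  have hK0 : 0 < K := by positivity
  have hu0 : 0 < u := by positivity
  have hlsi : c.LSI (C * n) := (lsi_iff hn hw C).1 hl
  have hf' : K * n * c.D f f ≤ var c.π f := by
    rw [dir_eq_D hn hw, ← mul_assoc] at hf; exact hf
  have hlog : ∀ x, Real.log (1 / c.π x) ≤ n * 19 := fun x => by
    have := log_inv_prob_gibbs_le (β := 1) hop x
    norm_num at this ⊢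
    exact this
  have p1 : (n : ℝ) ^ (2 / 3 + δ) = C * u := by
    rw [hC, hu, ← Real.rpow_add hN0]; congr 1; ring
  have p2 : (n : ℝ) ^ (5 / 3 + δ) = C * n * u := by
    rw [mul_right_comm, ← p1, ← Real.rpow_add_one hN0.ne']; congr 1; ring
  have p3 : (n : ℝ) ^ (2 / 3 - δ) = K * (n : ℝ) ^ (-(δ / 2)) := by
    rw [hK, ← Real.rpow_add hN0]; congr 1; ring
  have p4 : (n : ℝ) ^ (5 / 3 - δ) = K * n * (n : ℝ) ^ (-(δ / 2)) := by
    rw [mul_right_comm, ← p3, ← Real.rpow_add_one hN0.ne']; congr 1; ring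
  have hC1 : 1 ≤ C := Real.one_le_rpow hN (by positivity)
  have hCle : C ≤ (n : ℝ) ^ (2 / 3 + δ) := by rw [p1]; nlinarith
  have hv1 : (n : ℝ) ^ (-(δ / 2)) ≤ 1 := Real.rpow_le_one_of_one_le_of_nonpos hN (by linarith)
  have hKle : (n : ℝ) ^ (2 / 3 - δ) ≤ K := by rw [p3]; nlinarith
  have fin : ∀ (a s : ℝ) (x : Cube n), u / 2 ≤ s → 0 ≤ a →
      a ^ 2 ≤ Real.exp (-s) * Real.log (1 / c.π x) → a ≤ ε := fun a s x hs ha h => by
    refine (pow_le_pow_iff_left₀ ha hε.le two_ne_zero).1 (h.trans (le_trans ?_ e1.le))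
    refine mul_le_mul (Real.exp_le_exp.2 (by linarith)) (hlog x) ?_ (Real.exp_pos _).le
    exact Real.log_nonneg (one_le_one_div (c.pos x) (c.isP.le_one x))
  have dn : ∀ f : Cube n → ℝ, 0 ≤ dir (gibbsWeight n 1 g) f := fun f => by
    rw [dir_eq_D hn hw]; exact mul_nonneg hN0.le (c.D_nonneg f)
  refine ⟨⟨⟨⟨⌊(n : ℝ) ^ (5 / 3 + δ)⌋₊, Nat.floor_le (by positivity), ?_⟩, ?_⟩,
    ⟨(n : ℝ) ^ (2 / 3 + δ), by positivity, le_rfl, ?_⟩, ?_⟩, ⟨?_, f, hf0, ?_⟩, ?_, ?_⟩
  · refine (worstTV_le_iff _ _ _ _).2 fun x => ?_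
    rw [stateTVdisc_eq_P hn]
    refine fin _ _ x ?_ (tv_nonneg _ _) (hlsi.tv_pow_sq_le (hbRC_psd hn hw) (by positivity) x _)
    have := Nat.lt_floor_add_one ((n : ℝ) ^ (5 / 3 + δ))
    rw [le_div_iff₀ (by positivity)]
    rw [p2] at this ⊢
    have h5 : 1 ≤ C * n := one_le_mul_of_one_le_of_one_le hC1 hN
    nlinarith
  · intro k hk
    by_cases hKn : 1 ≤ K * n
    · obtain ⟨x, hx⟩ := c.exists_tv_pow_ge hKn hf0 hf' k
      refine lt_of_lt_of_le ?_ (le_worstTV 1 g k x)
      rw [stateTVdisc_eq_P hn]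
      refine lt_of_lt_of_le ?_ hx
      have : (k : ℝ) / (K * n) ≤ (n : ℝ) ^ (-(δ / 2)) := by
        rw [div_le_iff₀ (by positivity)]; rw [p4] at hk; linarith
      linarith
    · have hk0 : k = 0 := by
        have : (k : ℝ) < 1 := by rw [p4] at hk; nlinarith [mul_pos hK0 hN0]
        exact_mod_cast Nat.lt_one_iff.1 (by exact_mod_cast this)
      subst hk0
      obtain ⟨x, hx⟩ := c.exists_tv_H_ge (mul_pos hK0 hN0) hf0 hf' le_rfl
      refine lt_of_lt_of_le ?_ (le_worstTV 1 g 0 x)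
      rw [stateTVdisc_eq_P hn, pow_zero]
      rw [RC.H_zero] at hx
      refine lt_of_lt_of_le ?_ hx
      simpa using hε'
  · intro x
    rw [stateTV_eq_H hn]
    refine fin _ _ x ?_ (tv_nonneg _ _) (hlsi.tv_H_sq_le (by positivity) x (by positivity))
    rw [p1]
    have : 4 / (C * n) * (n * (C * u)) = 4 * u := by field_simp
    rw [this]; linarith
  · intro t ht0 ht
    obtain ⟨x, hx⟩ := c.exists_tv_H_ge (mul_pos hK0 hN0) hf0 hf' (t := n * t) (by positivity)
    refine ⟨x, ?_⟩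
    rw [stateTV_eq_H hn]
    refine lt_of_lt_of_le ?_ hx
    have h6 : n * t / (K * n) ≤ (n : ℝ) ^ (-(δ / 2)) := by
      rw [div_le_iff₀ (by positivity)]; rw [p3] at ht; nlinarith
    have h7 := Real.add_one_le_exp (-(n * t / (K * n)))
    linarith
  · intro f
    exact ((poinc_iff hn hw C).2 hlsi.poinc f).trans
      (mul_le_mul_of_nonneg_right hCle (dn f))
  · exact (mul_le_mul_of_nonneg_right hKle (dn f)).trans hf
  · intro f
    exact (hl f).trans (mul_le_mul_of_nonneg_right hCle (dn f))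
  · obtain ⟨f', h1, h2⟩ := c.exists_ent_test hf0 hf'
    refine ⟨f', h1, (mul_le_mul_of_nonneg_right hKle (dn f')).trans ?_⟩
    rw [dir_eq_D hn hw, ← mul_assoc]; exact h2

theorem tendsto_nlog {lam : ℝ} (hl : 0 < lam) :
    Tendsto (fun n : ℕ => (n : ℝ) * (Real.log n / (2 * lam))) atTop atTop :=
  tendsto_natCast_atTop_atTop.atTop_mul_atTop₀
    ((Real.tendsto_log_atTop.comp tendsto_natCast_atTop_atTop).atTop_div_const (by positivity))

/-- discrete-time lower bound from the continuous-time one -/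
theorem disc_low {β lam : ℝ} (hl : 0 < lam) (h : Top.CutLow β lam) {ε : ℝ} (hε : 0 < ε)
    (hε1 : ε < 1) {η : ℝ} (hη : 0 < η) : Whp disorderLaw fun n g =>
      1 - η < worstTV n β g ⌊(1 - ε) * n * (Real.log n / (2 * lam))⌋₊ := by
  refine (h (ε / 2) (by positivity) (by linarith) (η / 2) (by positivity)).mono ?_
  filter_upwards [(tendsto_nlog hl).eventually_ge_atTop (8 / (ε ^ 2 * η) + 1),
    eventually_ge_atTop 1] with n hT hn1
  rintro g ⟨x, hx⟩
  have hn : 0 < n := hn1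
  set T := (n : ℝ) * (Real.log n / (2 * lam)) with hTd
  have hT0 : 0 < T := lt_of_lt_of_le (by positivity) hT
  set k := ⌊(1 - ε) * n * (Real.log n / (2 * lam))⌋₊ with hk
  have hk1 : (k : ℝ) ≤ (1 - ε) * T := by
    rw [hk, mul_assoc]; exact Nat.floor_le (mul_nonneg (by linarith) hT0.le)
  refine lt_of_lt_of_le ?_ (le_worstTV β g k x)
  rw [stateTVdisc_eq_P hn]
  rw [stateTV_eq_H hn, mul_left_comm, ← hTd] at hx
  have h1 := (hbRC hn (E.gibbsWeight_pos β g)).tv_H_le_tv_pow x (t := (1 - ε / 2) * T) (k := k)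
    (by nlinarith [mul_pos hε hT0])
  have h2 : (1 - ε / 2) * T / ((1 - ε / 2) * T - k) ^ 2 ≤ η / 2 := by
    have a1 : ε / 2 * T ≤ (1 - ε / 2) * T - k := by linarith
    have a2 : (ε / 2 * T) ^ 2 ≤ ((1 - ε / 2) * T - k) ^ 2 := pow_le_pow_left₀ (by positivity) a1 2
    rw [div_le_iff₀ (lt_of_lt_of_le (by positivity) a2)]
    have a3 : 8 ≤ T * (ε ^ 2 * η) := by
      rw [← div_le_iff₀ (by positivity)]; linarith
    nlinarith [mul_le_mul_of_nonneg_left a2 hη.le, mul_pos hε hT0,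
      mul_le_mul_of_nonneg_left a3 hT0.le]
  linarith

theorem exists_small {A B θ η : ℝ} (hθ : 0 < θ) (hη : 0 < η) :
    ∃ η' : ℝ, 0 < η' ∧ (2 * η') ^ θ * A / 2 + B * η' < η := by
  have hc : Continuous fun u : ℝ => (2 * u) ^ θ * A / 2 + B * u :=
    ((((continuous_const.mul continuous_id).rpow_const fun _ => Or.inr hθ.le).mul
      continuous_const).div_const 2).add (continuous_const.mul continuous_id)
  have h1 := (hc.tendsto 0).mono_left (nhdsWithin_le_nhds (s := Set.Ioi 0))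
  simp only [mul_zero, Real.zero_rpow hθ.ne', zero_mul, zero_div, add_zero] at h1
  obtain ⟨u, hu1, hu2⟩ := ((h1.eventually (gt_mem_nhds hη)).and self_mem_nhdsWithin).exists
  exact ⟨u, hu2, hu1⟩

/-- discrete-time upper bound from the continuous-time one -/
theorem disc_up {β lam : ℝ} (hl : 0 < lam) (h : Top.CutUp β lam) {ε : ℝ} (hε : 0 < ε)
    {η : ℝ} (hη : 0 < η) : Whp disorderLaw fun n g =>
      worstTV n β g ⌈(1 + ε) * n * (Real.log n / (2 * lam))⌉₊ < η := by
  set α := Real.exp (-(1 + (|β| * 18) ^ 2)) / 2 with hα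
  have hα0 : 0 < α := by positivity
  have hα1 : α < 1 := by
    have : Real.exp (-(1 + (|β| * 18) ^ 2)) ≤ 1 :=
      Real.exp_le_one_iff.2 (by nlinarith [sq_nonneg (|β| * 18)])
    linarith
  set θ := ε / (4 + 2 * ε) with hθ
  have hθ0 : 0 < θ := by positivity
  obtain ⟨η', h0, h1⟩ := exists_small (A := Real.sqrt (Real.exp 1 / Real.sqrt α))
    (B := 2 * (Real.exp 1 / Real.sqrt α)) hθ0 hη
  refine ((h (ε / 2) (by positivity) η' h0).and whp_opn').mono ?_
  filter_upwards [(tendsto_nlog hl).eventually_ge_atTop (4 / ε), eventually_ge_atTop 1]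
    with n hT hn1
  rintro g ⟨hx, hop⟩
  have hn : 0 < n := hn1
  set T := (n : ℝ) * (Real.log n / (2 * lam)) with hTd
  have hT0 : 0 < T := lt_of_lt_of_le (by positivity) hT
  refine lt_of_le_of_lt ((worstTV_le_iff _ _ _ _).2 fun x => ?_) h1
  rw [stateTVdisc_eq_P hn]
  refine (hbRC_psd hn (E.gibbsWeight_pos β g)).tv_pow_le_of_tv_H hα0 hα1
    (hb_gibbs_diag_ge hn hop) (t := (1 + ε / 2) * T) (by positivity) hθ0.le (fun y => ?_) ?_ x
  · have := (hx y).le
    rwa [stateTV_eq_H hn, mul_left_comm, ← hTd] at this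
  · refine le_trans ?_ (Nat.le_ceil _)
    have a1 : (1 + θ) * ((1 + ε / 2) * T) = (1 + 3 / 4 * ε) * T := by
      rw [hθ]; field_simp; ring
    have a2 : 4 ≤ T * ε := by rwa [← div_le_iff₀ hε]
    rw [a1, mul_assoc, ← hTd]
    nlinarith

theorem r30_of_cut {β lam : ℝ} (hl : 0 < lam) (hu : Top.CutUp β lam) (hlow : Top.CutLow β lam)
    (ε : ℝ) (hε : 0 < ε) (hε1 : ε < 1) (η : ℝ) (hη : 0 < η) :
    Tendsto (fun n : ℕ => disorderLaw n
        {g | ∀ x, stateTV n β g ((1 - ε) * (Real.log n / (2 * lam))) x ≤ 1 - η}) atTop (nhds 0) ∧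
      Tendsto (fun n : ℕ => disorderLaw n
        {g | ∃ x, η ≤ stateTV n β g ((1 + ε) * (Real.log n / (2 * lam))) x}) atTop (nhds 0) ∧
      Tendsto (fun n : ℕ => disorderLaw n
        {g | worstTV n β g ⌊(1 - ε) * n * (Real.log n / (2 * lam))⌋₊ ≤ 1 - η}) atTop (nhds 0) ∧
      Tendsto (fun n : ℕ => disorderLaw n
        {g | η ≤ worstTV n β g ⌈(1 + ε) * n * (Real.log n / (2 * lam))⌉₊}) atTop (nhds 0) := by
  refine ⟨(hlow ε hε hε1 η hη).zero (Eventually.of_forall ?_),
    (hu ε hε η hη).zero (Eventually.of_forall ?_),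
    (disc_low hl hlow hε hε1 hη).zero (Eventually.of_forall ?_),
    (disc_up hl hu hε hη).zero (Eventually.of_forall ?_)⟩
  · rintro n g ⟨x, hx⟩ h; exact absurd (h x) (not_le.2 hx)
  · rintro n g h ⟨x, hx⟩; exact absurd (h x) (not_lt.2 hx)
  · intro n g h h'; exact absurd h' (not_le.2 h)
  · intro n g h h'; exact absurd h (not_lt.2 h')

/-- **S0230 from the continuous-time cutoff** (no Poincaré inequality needed) -/
theorem r30_of (h : Top.CutoffStmt) (h0 : Top.Cut0Stmt) : Top.R30 := by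
  intro β hβ hβ1
  rcases eq_or_lt_of_le hβ with rfl | hβ0
  · exact ⟨1, one_pos, by norm_num, fun _ => rfl, r30_of_cut one_pos h0.1 h0.2⟩
  · obtain ⟨lam, h1, h2, h3, h4⟩ := h β hβ0 hβ1
    exact ⟨lam, h1, h2, fun e => absurd e hβ0.ne', r30_of_cut h1 h3 h4⟩

theorem g30 : Top.G30 := fun _ h h0 => r30_of h h0

end Crest.Agent.T157.Chain22

end
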