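import Crest.Agent.T157.GlueB_34
import Crest.Agent.T157.LpDef_17
import Crest.Agent.T157.TopL_59

/-!
Row 157, part A (helper34): final assembly at high temperature.
Covariance bounds along the localisation, the frozen regime and the small-set Poincare inequality
give approximate tensorisation with constant `O(1)` for all `β < 1`, and the control of the entropy
left at any positive time for `β = 1`.
-/

set_option autoImplicit false
set_option linter.unusedSectionVars false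

noncomputable section

namespace Crest.Agent.T157.Glue

open MeasureTheory Set Real Matrix Filter Topology
open Crest.ProbabilityR.SpinGlassDynamics
open Crest.Agent.T157.E Crest.Agent.T157.SL Crest.Agent.T157.Tap Crest.Agent.T157.Top
open Crest.Agent.T157.Eig (nrm opn)

variable {n : ℕ} {w : Cube n → ℝ}

/-- small-set Poincare inequality at every exponential scale -/
def SspStmt : Prop := ∀ β ∈ Ioc (0 : ℝ) 1, ∀ ε > (0 : ℝ), ∃ C ≥ (0 : ℝ),
  Whp disorderLaw fun n g => SSP (gibbsWeight n β g) ε C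

/-- the entropy left at time `t0` of the localisation by an external field -/
def TailStmt : Prop := ∀ β ∈ Ioc (0 : ℝ) 1, ∀ t0 ≥ (0 : ℝ), (β < 1 ∨ 0 < t0) → ∃ K ≥ (0 : ℝ),
  ∃ c > (0 : ℝ), Whp disorderLaw fun n g => Tail (gibbsWeight n β g) t0 K (exp (-(c * n)))

/-- tight approximate tensorisation in the high-temperature phase -/
def AtTight : Prop := ∀ β : ℝ, 0 ≤ β → β < 1 → ∃ K > (0 : ℝ),
  Whp disorderLaw fun n g => Ent.AT (gibbsWeight n β g) K 0

theorem ssp_of_lp (h : Lp.LpStmt) : SspStmt := fun β hβ ε hε => by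
  obtain ⟨K, hK, h⟩ := h β hβ (ε / 2) (by positivity)
  refine ⟨K / (ε / 2), by positivity, h.imp fun n g hg => ?_⟩
  simpa only [mul_div_cancel₀ ε two_ne_zero] using
    ssp_of_dlsi (gibbsWeight_pos β g) (by positivity) hg

theorem ssp_of_top (h : Top.LpStmt) (β : ℝ) (h0 : 0 ≤ β) (h1 : β ≤ 1) (ε : ℝ) (hε : 0 < ε) :
    ∃ C ≥ (0 : ℝ), Whp disorderLaw fun n g => SSP (gibbsWeight n β g) ε C := by
  obtain ⟨κ, hκ, h⟩ := h β h0 h1 (ε / 2) (by positivity)
  refine ⟨1 / κ, by positivity, h.mono ((eventually_gt_atTop 0).mono fun n hn g hg f hf => ?_)⟩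
  have hw := gibbsWeight_pos β g
  set w := gibbsWeight n β g
  have hW := Wt.of_pos hw
  rcases (hW.mean_nonneg (f := fun x => f x ^ 2) fun _ => sq_nonneg _).eq_or_lt with e | e
  · rw [← e, mul_zero]; exact mul_nonneg (by positivity) (Ent.dir_nonneg hw f)
  set m := mean w fun x => f x ^ 2
  have s0 := sqrt_pos.2 e
  have h2 : mean w (fun x => (|f x| / √m) ^ 2) = 1 := by
    simp only [div_pow, sq_abs, sq_sqrt e.le, mean_div_const]; exact div_self e.ne'
  have h3 := Ent.ent_ge_of_supp hW.isP (f := fun x => (|f x| / √m) ^ 2) (fun _ => sq_nonneg _)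
    (p := fun x => f x ≠ 0) (fun x hx h => hx (by simp [h])) hf
  rw [one_div, log_inv, log_exp, neg_neg] at h3
  change _ * mean w _ ≤ ent w _ at h3
  rw [h2] at h3
  have h4 : κ * n < dir w fun x => |f x| / √m := not_le.1 fun h => by
    have := hg _ (fun x => by positivity) h2 h
    have : (0 : ℝ) < ε * n := by positivity
    linarith
  have h5 : m * dir w (fun x => |f x| / √m) ≤ dir w f := by
    refine le_of_eq_of_le ?_ (dir_le_of_abs hw (f := fun x => |f x|) fun x y =>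
      abs_abs_sub_abs_le _ _)
    simp only [dir, Finset.mul_sum]
    refine Finset.sum_congr rfl fun i _ => Finset.sum_congr rfl fun x _ => ?_
    have : siteM w (fun x => |f x| / √m) i x = siteM w (fun x => |f x|) i x / √m := by
      simp only [siteM]; ring
    rw [this, ← sub_div, div_pow, sq_sqrt e.le]
    field_simp
  rw [one_div, ← div_eq_inv_mul, le_div_iff₀ hκ]
  nlinarith [mul_le_mul_of_nonneg_left h4.le e.le]

theorem sspStmt_of_top (h : Top.LpStmt) : SspStmt := fun β hβ => ssp_of_top h β hβ.1.le hβ.2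

theorem ssp_prob (hw : ∑ y, w y ≠ 0) (ε C : ℝ) : SSP (prob w) ε C ↔ SSP w ε C := by
  simp only [SSP, GoeT.mean_prob hw, GoeT.dir_prob hw]

theorem tail_prob (hw : ∑ y, w y ≠ 0) (t K δ : ℝ) : Tail (prob w) t K δ ↔ Tail w t K δ := by
  simp only [Tail, ex, pw, GoeT.slE_prob hw, GoeT.ent_congr_prob (GoeT.prob_post_prob hw sv _ _),
    GoeT.entS_prob hw, GoeT.var_prob hw]

theorem whp_opn : Whp GOE fun _ W => opn W ≤ 3 := by
  refine whp_of_real_le (a := fun n => 2 * exp (-(n * 1 ^ 2 / 4))) ?_ (.of_forall fun n => ?_)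
  · simpa using (tendsto_exp_neg_atTop_nhds_zero.comp ((tendsto_natCast_atTop_atTop (R := ℝ)
      ).atTop_div_const (r := 4) four_pos)).const_mul 2
  · exact (measureReal_mono fun W hW => by
      simp only [mem_ofPred_eq, not_le] at hW ⊢; linarith).trans (Nrm.goe_opn_tail_n zero_le_one)

theorem whp_symm : Whp GOE fun _ W => Wᵀ = W :=
  tendsto_const_nhds.congr fun n => (ae_iff.1 (Cond.goe_ae_symm (ι := Fin n) _)).symm

theorem ev_small (A : ℝ) {κ : ℝ} (hκ : 0 < κ) :
    ∀ᶠ n : ℕ in atTop, A * n * exp (-(κ * n)) ≤ exp (-(κ / 2 * n)) := by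
  have h := ((tendsto_pow_mul_exp_neg_atTop_nhds_zero 1).comp
    ((tendsto_natCast_atTop_atTop (R := ℝ)).const_mul_atTop (half_pos hκ))).const_mul (A / (κ / 2))
  filter_upwards [h.eventually_le_const (u := 1) (by simp)] with n hn
  have e : exp (-(κ * n)) = exp (-(κ / 2 * n)) * exp (-(κ / 2 * n)) := by
    rw [← exp_add]; congr 1; ring
  rw [e, ← mul_assoc]
  refine mul_le_of_le_one_left (exp_pos _).le (le_of_eq_of_le ?_ hn)
  simp only [Function.comp_apply, pow_one]
  field_simp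

theorem tail_of (hS : SspStmt) (hU : UFStmt) (hF : FrzStmt) (hZ : FrozStmt) (hC : CovStmt) :
    TailStmt := fun β hβ t0 h0 ht => by
  have hβ' : β ∈ Icc (0 : ℝ) 1 := ⟨hβ.1.le, hβ.2⟩
  obtain ⟨K₀, hU⟩ := hU β hβ' (1 / 2) (by norm_num)
  obtain ⟨ε, hε, hF⟩ := hF
  obtain ⟨η, hη, T0, M, hZ⟩ := hZ ε hε K₀
  obtain ⟨T, hT0, hT1, hT2, hT3⟩ : ∃ T, T0 ≤ T ∧ t0 ≤ T ∧ 48 ≤ η * T ∧ 16 ≤ η ^ 2 * T :=
    ⟨max (max T0 t0) (max (48 / η) (16 / η ^ 2)), by simp, by simp,
      (div_le_iff₀' hη).1 (by simp), (div_le_iff₀' (pow_pos hη 2)).1 (by simp)⟩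
  obtain ⟨K, ρ, hρ, κ, hκ, hC⟩ := hC β hβ t0 h0 ht T
  obtain ⟨C, C0, hS⟩ := hS β hβ (κ / 2) (by positivity)
  set K₁ := max K (4 / ρ)
  have k1 : 4 / ρ ≤ K₁ := le_max_right _ _
  have K0 : 0 < K₁ := lt_of_lt_of_le (by positivity) k1
  set a := exp ((T - t0) * K₁)
  set b := exp (6 * max M 0 + 2)
  set k := min (1 / 2) (κ / 2)
  have k0 : 0 < k := lt_min (by norm_num) (half_pos hκ)
  have T0' := sub_nonneg.2 hT1
  refine ⟨a * (b + (T - t0) * (32 * C)), by positivity, k / 2, by positivity, ?_⟩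
  refine ((GoeT.transfer β (fun n w => SSP w (κ / 2) C → Tail w t0 (a * (b + (T - t0) * (32 * C)))
    (exp (-(k / 2 * n)))) (fun n w hw => by
      rw [ssp_prob (GoeT.sum_pos hw).ne', tail_prob (GoeT.sum_pos hw).ne']) ?_).and hS).imp
    fun n g h => h.1 h.2
  refine ((((hU.and hF).and hC).and whp_opn).and whp_symm).mono ?_
  filter_upwards [eventually_gt_atTop 0, ev_small (a * (b * 96 + (T - t0) * 32)) k0] with n hn hn' W
    ⟨⟨⟨⟨h1, h2⟩, h3⟩, h4⟩, h5⟩ h6
  have hw : ∀ x, 0 < ising (β • W) 0 x := fun _ => exp_pos _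
  have e := tail_end (J := β • W) (by rw [transpose_smul, h5]) (by
      rw [Eig.opn_smul, abs_of_pos hβ.1]; nlinarith [hβ.1, hβ.2, Eig.opn_nonneg W])
    (le_max_right M 0) (h0.trans hT1) hT2 hT3 fun t ht σ y hy u => by
      rw [smul_smul]
      exact ((hZ n W β hn h5 hβ' h4 h2 h1 T hT0 _ ⟨mul_nonneg (sub_nonneg.2 ht.2) hβ'.1,
        mul_le_of_le_one_left hβ'.1 (sub_le_self _ ht.1)⟩ σ y hy).2 u).trans
        (mul_le_mul_of_nonneg_right (le_max_left _ _) (dot_self_nonneg u))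
  refine (e.back hw h0 hT1 K0 ((div_le_iff₀ hρ).1 k1) C0 h6 fun r hr => le_trans ?_
    (h3 r (Ioo_subset_Icc_self hr))).mono hw le_rfl (le_trans ?_ hn')
  · have := isProb_law (φ := sv) (s := r) (Wt.of_pos hw)
    exact measureReal_mono fun y hy h => hy fun v hv u => (h v hv u).trans
      (mul_le_mul_of_nonneg_right (le_max_left _ _) (dot_self_nonneg u))
  · have e1 : exp (-(n / 2 : ℝ)) ≤ exp (-(k * n)) := exp_le_exp.2 (by
      linarith [mul_le_mul_of_nonneg_right (min_le_left (1 / 2) (κ / 2)) (n.cast_nonneg (α := ℝ))])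
    have e2 : exp (-(κ / 2 * n)) ≤ exp (-(k * n)) := exp_le_exp.2 (by
      linarith [mul_le_mul_of_nonneg_right (min_le_right (1 / 2) (κ / 2)) (n.cast_nonneg (α := ℝ))])
    calc _ ≤ a * (b * (96 * n * exp (-(k * n))) + (T - t0) * (32 * n * exp (-(k * n)))) := by gcongr
      _ = _ := by ring

theorem atTight_of (h : TailStmt) : AtTight := fun β h0 h1 => by
  rcases h0.eq_or_lt with rfl | h0
  · refine ⟨1, one_pos, whp_of_eventually (.of_forall fun n g => ?_)⟩
    rw [gibbsWeight_eq_ising, zero_smul, ← diagonal_zero]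
    exact (Ent.isProd_ising _ _).at
  obtain ⟨K, K0, c, hc, h⟩ := h β ⟨h0, h1.le⟩ 0 le_rfl (Or.inl h1)
  have := (tendsto_exp_neg_atTop_nhds_zero.comp ((tendsto_natCast_atTop_atTop (R := ℝ)
    ).const_mul_atTop hc)).eventually_le_const (u := 1 / 2) (by norm_num)
  refine ⟨2 * K + 1, by positivity, h.mono (this.mono fun n hn g hg => ?_)⟩
  exact (hg.at (gibbsWeight_pos β g) hn).mono (gibbsWeight_pos β g) (by linarith) le_rfl

theorem AtTight.atHi (h : AtTight) : AtHi := fun β h0 h1 => by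
  obtain ⟨K, -, h⟩ := h β h0 h1
  exact ⟨1, K, one_pos, h.imp fun n g hg => hg.mono (gibbsWeight_pos β g) le_rfl (exp_pos _).le⟩

theorem AtTight.poinHi (h : AtTight) : PoinHi := fun β h0 h1 => by
  obtain ⟨K, K0, h⟩ := h β h0 h1
  exact ⟨K, h.imp fun n g hg => hg.poinc (gibbsWeight_pos β g) K0.le⟩

/-- **part A at high temperature** -/
theorem atTight (hL : Lp.LpStmt) (hU : UFStmt) (hF : FrzStmt) (hZ : FrozStmt) (hC : CovStmt) :
    AtTight := atTight_of (tail_of (ssp_of_lp hL) hU hF hZ hC)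

theorem hi_of (hS : SspStmt) (hU : UFStmt) (hF : FrzStmt) (hZ : FrozStmt) (hC : CovStmt) :
    PoinHi ∧ AtHi ∧ LsiHiLog ∧ R34 :=
  have h := atTight_of (tail_of hS hU hF hZ hC)
  ⟨h.poinHi, h.atHi, TopL.lsiHiLog h.poinHi h.atHi hC, r34_of h.poinHi⟩

theorem r34_of_lp (hL : Lp.LpStmt) (hU : UFStmt) (hF : FrzStmt) (hZ : FrozStmt) (hC : CovStmt) :
    R34 := (hi_of (ssp_of_lp hL) hU hF hZ hC).2.2.2

end Crest.Agent.T157.Glue

end
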