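import Crest.Agent.T157.RecB_77

/-!
# Row 157, part C2 (helper77): the recovery sequence at fixed `n`
-/

set_option autoImplicit false
set_option linter.unusedSectionVars false

noncomputable section

namespace Crest.Agent.T157.Rec

open MeasureTheory ProbabilityTheory Filter Topology Set Real Matrix Function
open Crest.Agent.T157.E Crest.Agent.T157.SL

section
variable {Ω κ : Type*} [Fintype Ω] [Fintype κ] {u : Ω → ℝ}

theorem mean_sq_le (hu : Wt u) (f : Ω → ℝ) : mean u f ^ 2 ≤ mean u fun x => f x ^ 2 := by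
  simp only [sq (f _)]; exact hu.isP.mean_sq_le f

theorem mean_sub_sq (hu : Wt u) (f : Ω → ℝ) (c : ℝ) :
    mean u (fun x => (f x - c) ^ 2) = var u f + (mean u f - c) ^ 2 := by
  have : ∀ x, (f x - c) ^ 2 = (f x - mean u f) ^ 2 + (2 * (mean u f - c) * f x +
      ((mean u f - c) ^ 2 - 2 * (mean u f - c) * mean u f)) := fun x => by ring
  simp only [this, mean_add, mean_const_mul, hu.mean_const]
  rw [var, mean]; ring

theorem meanV_sq_le (hu : Wt u) (ψ : Ω → κ → ℝ) :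
    meanV u ψ ⬝ᵥ meanV u ψ ≤ mean u fun x => ψ x ⬝ᵥ ψ x := by
  simp only [dotProduct, mean_sum, ← sq]
  exact Finset.sum_le_sum fun k _ => mean_sq_le hu _

theorem mulVec_meanV {κ' : Type*} (Q : Matrix κ' κ ℝ) (u : Ω → ℝ) (ψ : Ω → κ → ℝ) :
    Q *ᵥ meanV u ψ = meanV u fun x => Q *ᵥ ψ x := by
  classical
  ext k; exact meanV_dot u ψ (Q k)

theorem mulVec_covV {κ' : Type*} (Q : Matrix κ' κ ℝ) (u f : Ω → ℝ) (ψ : Ω → κ → ℝ) :
    Q *ᵥ covV u f ψ = covV u f fun x => Q *ᵥ ψ x := by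
  classical
  ext k; exact covV_dot u f ψ (Q k)

theorem mean_dot_sub (hu : Wt u) (ψ : Ω → κ → ℝ) (c : κ → ℝ) :
    mean u (fun x => (ψ x - c) ⬝ᵥ (ψ x - c)) =
      ∑ k, var u (fun x => ψ x k) + (meanV u ψ - c) ⬝ᵥ (meanV u ψ - c) := by
  simp only [dotProduct, mean_sum, ← sq, Pi.sub_apply, mean_sub_sq hu, Finset.sum_add_distrib, meanV]

theorem dot_add_le {η : ℝ} (hη : 0 < η) (a b : κ → ℝ) :
    (a + b) ⬝ᵥ (a + b) ≤ (1 + η) * (a ⬝ᵥ a) + (1 + η⁻¹) * (b ⬝ᵥ b) := by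
  simp only [dotProduct, ← sq, Finset.mul_sum, ← Finset.sum_add_distrib]
  exact Finset.sum_le_sum fun k _ => add_sq_le hη _ _

theorem mg_dot {ι : Type*} [Fintype ι] [DecidableEq ι] {U V : (ι → ℝ) → κ → ℝ}
    (hU : ∀ k, MG fun y => U y k) (hV : ∀ k, MG fun y => V y k) : MG fun y => U y ⬝ᵥ V y :=
  .sum _ fun k _ => (hU k).mul (hV k)

theorem mg_mulVec {ι κ' : Type*} [Fintype ι] [DecidableEq ι] (Q : Matrix κ' κ ℝ) {V : (ι → ℝ) → κ → ℝ}
    (hV : ∀ k, MG fun y => V y k) (k : κ') : MG fun y => (Q *ᵥ V y) k :=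
  mg_dot (U := fun _ => Q k) (fun _ => .const _) hV

/-- a covariance bound off the range of `P` bounds the covariance vectors -/
theorem covV_proj_le [DecidableEq κ] (hu : Wt u) (Q : Matrix κ κ ℝ) (ψ : Ω → κ → ℝ) {θ : ℝ} (h0 : 0 ≤ θ)
    (h : ∀ a, (Qᵀ *ᵥ a) ⬝ᵥ covMat u ψ *ᵥ (Qᵀ *ᵥ a) ≤ θ * (a ⬝ᵥ a)) (f : Ω → ℝ) :
    (Q *ᵥ covV u f ψ) ⬝ᵥ (Q *ᵥ covV u f ψ) ≤ θ * var u f := by
  rw [mulVec_covV]
  refine hu.covV_sq_le f h0 fun a => le_of_eq_of_le ?_ (h a)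
  rw [covMat_quad, covMat_quad]
  simp only [mulVec_transpose, ← dotProduct_mulVec]

end

variable {n : ℕ} {u w : Cube n → ℝ} {s t l d G η : ℝ} {P : Matrix (Fin n) (Fin n) ℝ}

/-- the one-field estimate on the good event -/
theorem good_le (hu : ∀ x, 0 < u x) (hd : 0 ≤ d) (hG : 0 ≤ G) (hl : 0 ≤ l) (hη : 0 < η)
    (hP : ∀ a, (P *ᵥ a) ⬝ᵥ (P *ᵥ a) ≤ a ⬝ᵥ a) {Φ : Cube n → Fin n → ℝ}
    (hD : ∀ a, dir u (fun x => (P *ᵥ a) ⬝ᵥ Φ x) + l * mean u (fun x => ((P *ᵥ a) ⬝ᵥ (Φ x - sv x)) ^ 2)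
      ≤ d * ((P *ᵥ a) ⬝ᵥ (P *ᵥ a)))
    (hPo : ∀ f, var u f ≤ G * dir u f) (f : Cube n → ℝ) :
    dir u (fun x => f x + (P *ᵥ meanV u (grad f)) ⬝ᵥ (Φ x - sv x)) +
      l * mean u (fun x => ((P *ᵥ meanV u (grad f)) ⬝ᵥ (Φ x - sv x)) ^ 2) ≤
      mean u fun x => (1 + η) * d * (grad f x ⬝ᵥ grad f x) + (1 + η⁻¹) *
        (G * ∑ i, grad (fun x => grad f x i) x ⬝ᵥ grad (fun x => grad f x i) x +
          ((1 - P) *ᵥ grad f x) ⬝ᵥ ((1 - P) *ᵥ grad f x)) := by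
  have hU := Wt.of_pos hu
  set V := meanV u (grad f) with hV
  have h1 := dir_add_le hu (fun x => (P *ᵥ V) ⬝ᵥ Φ x) (fun x => f x - (P *ᵥ V) ⬝ᵥ sv x) hη
  have e1 : (fun x => f x + (P *ᵥ V) ⬝ᵥ (Φ x - sv x)) =
      fun x => (P *ᵥ V) ⬝ᵥ Φ x + (f x - (P *ᵥ V) ⬝ᵥ sv x) := by
    ext x; rw [dotProduct_sub]; ring
  have h2 := dir_le_grad hu fun x => f x - (P *ᵥ V) ⬝ᵥ sv x
  simp only [grad_sub, grad_lin, mean_dot_sub hU, ← hV] at h2
  have h3 : ∑ i, var u (fun x => grad f x i) ≤ G * mean u fun x =>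
      ∑ i, grad (fun x => grad f x i) x ⬝ᵥ grad (fun x => grad f x i) x := by
    rw [mean_sum, Finset.mul_sum]
    exact Finset.sum_le_sum fun i _ => (hPo _).trans (mul_le_mul_of_nonneg_left (dir_le_grad hu _) hG)
  have h4 : (V - P *ᵥ V) ⬝ᵥ (V - P *ᵥ V) ≤
      mean u fun x => ((1 - P) *ᵥ grad f x) ⬝ᵥ ((1 - P) *ᵥ grad f x) := by
    have := meanV_sq_le hU fun x => (1 - P) *ᵥ grad f x
    rwa [← mulVec_meanV, sub_mulVec, one_mulVec] at this
  have h5 := mul_le_mul_of_nonneg_left ((hP V).trans (meanV_sq_le hU (grad f))) hd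
  have h6 := hD V
  have h7 := mul_nonneg (mul_nonneg hη.le hl)
    (hU.mean_nonneg (f := fun x => ((P *ᵥ V) ⬝ᵥ (Φ x - sv x)) ^ 2) fun x => sq_nonneg _)
  have h8 : 0 ≤ 1 + η⁻¹ := by positivity
  rw [e1]
  simp only [mean_add, mean_const_mul]
  nlinarith [mul_le_mul_of_nonneg_left (h6.trans h5) (show 0 ≤ 1 + η by positivity),
    mul_le_mul_of_nonneg_left (h2.trans (add_le_add h3 h4)) h8]

/-- the hypotheses at the macroscopic time `t`: off the bad event `A`, test functions `Φ` for the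
linear observables in the range of `P` and a Poincaré inequality -/
structure RecHyp (w : Cube n → ℝ) (t l d G : ℝ) (P : Matrix (Fin n) (Fin n) ℝ)
    (Φ : (Fin n → ℝ) → Cube n → Fin n → ℝ) (A : Set (Fin n → ℝ)) : Prop where
  mg : ∀ x i, MG fun y => Φ y x i
  meas : MeasurableSet A
  p1 : ∀ a, (P *ᵥ a) ⬝ᵥ (P *ᵥ a) ≤ a ⬝ᵥ a
  dl : ∀ y ∉ A, ∀ a, dir (post sv w t y) (fun x => (P *ᵥ a) ⬝ᵥ Φ y x) +
    l * mean (post sv w t y) (fun x => ((P *ᵥ a) ⬝ᵥ (Φ y x - sv x)) ^ 2) ≤ d * ((P *ᵥ a) ⬝ᵥ (P *ᵥ a))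
  po : ∀ y ∉ A, ∀ f, var (post sv w t y) f ≤ G * dir (post sv w t y) f

variable {Φ : (Fin n → ℝ) → Cube n → Fin n → ℝ} {A : Set (Fin n → ℝ)}

/-- the corrector -/
def crr (w : Cube n → ℝ) (t : ℝ) (P : Matrix (Fin n) (Fin n) ℝ)
    (Φ : (Fin n → ℝ) → Cube n → Fin n → ℝ) (A : Set (Fin n → ℝ)) (f : Cube n → ℝ) (x : Cube n) :
    (Fin n → ℝ) → ℝ :=
  Aᶜ.indicator fun y => (P *ᵥ meanV (post sv w t y) (grad f)) ⬝ᵥ (Φ y x - sv x)

theorem RecHyp.mg_crr (h : RecHyp w t l d G P Φ A) (hw : ∀ x, 0 < w x) (f : Cube n → ℝ) (x : Cube n) :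
    MG (crr w t P Φ A f x) :=
  MG.indicator (mg_dot (mg_mulVec P fun i => mg_pm (Wt.of_pos hw) t fun x => grad f x i)
    fun i => (h.mg x i).sub (.const (sv x i))) h.meas.compl

/-- the mean penalised energy of the corrected function -/
theorem RecHyp.energy (h : RecHyp w t l d G P Φ A) (hw : ∀ x, 0 < w x) (ht : 0 ≤ t) (hd : 0 ≤ d)
    (hG : 0 ≤ G) (hl : 0 ≤ l) (hη : 0 < η) (f : Cube n → ℝ) :
    (slE sv w t fun _ y => dir (post sv w t y) fun x => f x + crr w t P Φ A f x y) +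
      l * (slE sv w t fun x y => crr w t P Φ A f x y ^ 2) ≤
      mean w fun x => (1 + η) * d * (grad f x ⬝ᵥ grad f x) + (1 + η⁻¹) *
        (G * ∑ i, grad (fun x => grad f x i) x ⬝ᵥ grad (fun x => grad f x i) x +
          ((1 - P) *ᵥ grad f x) ⬝ᵥ ((1 - P) *ᵥ grad f x)) + grad f x ⬝ᵥ grad f x * px sv t A x := by
  have hW := Wt.of_pos hw
  have m := h.mg_crr hw f
  have m1 := mg_dir (φ := sv) (t := t) hw fun x => (MG.const (f x)).add (m x)
  have m2 := (mg_mean (φ := sv) hW t fun x => mg_sq (m x)).const_mul l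
  rw [bayes hW ht (.of_mg fun x => mg_sq (m x)), ← slE_const_mul,
    ← slE_add (.of_mg fun _ => m1) (.of_mg fun _ => m2), mean_add, ← slE_mean (φ := sv) hW ht,
    ← slE_indicator_mean hW ht h.meas, ← slE_add (.of_mg fun _ => mg_pm hW t _)
      (.of_mg fun _ => (mg_pm hW t _).indicator h.meas)]
  refine slE_mono hW (.of_mg fun _ => m1.add m2)
    (.of_mg fun _ => (mg_pm hW t _).add ((mg_pm hW t _).indicator h.meas)) fun _ y => ?_
  have hp := post_pos hw sv t y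
  by_cases hy : y ∈ A
  · simp only [crr, indicator_of_notMem (show y ∉ Aᶜ from fun h => h hy), indicator_of_mem hy,
      add_zero, ne_eq, OfNat.ofNat_ne_zero, not_false_eq_true, zero_pow,
      (hW.post sv t y).mean_const, mul_zero]
    refine (dir_le_grad hp f).trans (le_add_of_nonneg_left ((hW.post sv t y).mean_nonneg fun x => ?_))
    have := dot_self_nonneg (grad f x)
    have := dot_self_nonneg ((1 - P) *ᵥ grad f x)
    have := Finset.sum_nonneg fun i (_ : i ∈ Finset.univ) =>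
      dot_self_nonneg (grad (fun x => grad f x i) x)
    positivity
  · simp only [crr, indicator_of_mem (show y ∈ Aᶜ from hy), indicator_of_notMem hy, add_zero]
    exact good_le hp hd hG hl hη h.p1 (h.dl y hy) (h.po y hy) f

/-- the recovery function -/
def rcv (w : Cube n → ℝ) (t : ℝ) (P : Matrix (Fin n) (Fin n) ℝ)
    (Φ : (Fin n → ℝ) → Cube n → Fin n → ℝ) (A : Set (Fin n → ℝ)) (f : Cube n → ℝ) : Cube n → ℝ :=
  Pm sv t fun x y => f x + crr w t P Φ A f x y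

theorem RecHyp.rcv_le (h : RecHyp w t l d G P Φ A) (hw : ∀ x, 0 < w x) (ht : 0 ≤ t) (hl : 0 < l)
    (hη : 0 < η) (f : Cube n → ℝ) {X : ℝ}
    (hX : (slE sv w t fun _ y => dir (post sv w t y) fun x => f x + crr w t P Φ A f x y) +
      l * (slE sv w t fun x y => crr w t P Φ A f x y ^ 2) ≤ X) :
    dir w (rcv w t P Φ A f) ≤ ((1 + η) * exp (4 * t) + (1 + η⁻¹) * (exp (4 * t) - 1) / l) * X ∧
      mean w (fun x => (rcv w t P Φ A f x - f x) ^ 2) ≤ X / l := by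
  have hW := Wt.of_pos hw
  have m := fun x => (MG.const (f x)).add (h.mg_crr hw f x)
  have h1 := shift_sv hw ht m f hη
  have h2 := mean_Pm_sub_sq_le (φ := sv) (t := t) hW m f
  simp only [add_sub_cancel_left, ← dir_post_sv w _ t] at h1 h2
  have h3 : 0 ≤ slE sv w t fun _ y => dir (post sv w t y) fun x => f x + crr w t P Φ A f x y :=
    slE_nonneg hW fun _ y => Ent.dir_nonneg (post_pos hw sv t y) _
  have h4 : 0 ≤ slE sv w t fun x y => crr w t P Φ A f x y ^ 2 := slE_nonneg hW fun _ _ => sq_nonneg _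
  have h5 : (slE sv w t fun x y => crr w t P Φ A f x y ^ 2) ≤ X / l := by
    rw [le_div_iff₀ hl]; linarith
  have h6 := one_le_exp (show 0 ≤ 4 * t by positivity)
  refine ⟨h1.trans ?_, h2.trans h5⟩
  rw [add_mul ((1 + η) * exp (4 * t)), div_mul_eq_mul_div, mul_div_assoc]
  refine add_le_add (mul_le_mul_of_nonneg_left (by nlinarith) (by positivity))
    (mul_le_mul_of_nonneg_left h5 (mul_nonneg (by positivity) (by linarith)))

/-- the part of the gradient of `T_s g` off the range of `P` -/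
theorem mean_proj_grad_Tm_le (hw : Wt w) (hs : 0 ≤ s) {Q : Matrix (Fin n) (Fin n) ℝ}
    (hQ : ∀ a, (Q *ᵥ a) ⬝ᵥ (Q *ᵥ a) ≤ a ⬝ᵥ a) {θ : (Fin n → ℝ) → ℝ} (mθ : MG θ) (g : Cube n → ℝ)
    (hθ : ∀ y, (Q *ᵥ covV (post sv w s y) g sv) ⬝ᵥ (Q *ᵥ covV (post sv w s y) g sv) ≤
      θ y * var (post sv w s y) g) :
    mean w (fun x => (Q *ᵥ grad (Tm w s g) x) ⬝ᵥ (Q *ᵥ grad (Tm w s g) x)) ≤
      2 * s ^ 2 * (slE sv w s fun _ y => θ y * var (post sv w s y) g) +
        2 * ((exp (4 * s) - 1) / 4 - s) * slE sv w s fun _ y => mean (post sv w s y) g ^ 2 := by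
  rw [slE_eq_Pm, slE_eq_Pm, ← mean_const_mul, ← mean_const_mul, ← mean_add]
  refine hw.mean_mono fun x => ?_
  set c : Fin n → ℝ := fun i => Pm sv s (fun _ y => covV (post sv w s y) g sv i) x with hc
  have mc : ∀ i, MG fun y => covV (post sv w s y) g sv i := fun i => mg_pcov hw s g _
  have mq : ∀ i, MG fun y => (Q *ᵥ covV (post sv w s y) g sv) i := mg_mulVec Q mc
  have h1 := dot_add_le one_pos (Q *ᵥ (s • c)) (Q *ᵥ (grad (Tm w s g) x - s • c))
  rw [← mulVec_add, add_sub_cancel, mulVec_smul, smul_dotProduct, dotProduct_smul] at h1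
  have h2 := (hQ (grad (Tm w s g) x - s • c)).trans
    (le_of_eq_of_le (by simp only [dotProduct, sq]; rfl) (grad_Tm_sub_sq_le hw hs g x))
  have h3 : (Q *ᵥ c) ⬝ᵥ (Q *ᵥ c) ≤ Pm sv s (fun _ y => θ y * var (post sv w s y) g) x := by
    refine le_trans ?_ (Pm_mono (fun _ => MG.sum Finset.univ fun i _ => (mq i).mul (mq i))
      (fun _ => mθ.mul (mg_pvar hw s g)) hθ)
    rw [Pm_sum _ fun i _ _ => (mq i).mul (mq i)]
    refine Finset.sum_le_sum fun i _ => ?_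
    have e : (Q *ᵥ c) i = Pm sv s (fun _ y => (Q *ᵥ covV (post sv w s y) g sv) i) x := by
      simp only [mulVec, dotProduct]
      rw [Pm_sum _ fun j _ _ => (mc j).const_mul _]
      exact Finset.sum_congr rfl fun j _ => (Pm_mul (fun _ => Q i j) _ x).symm
    simpa only [e, sq] using Pm_sq_le (φ := sv) (t := s) (fun _ => mq i) x
  simp only [smul_eq_mul, inv_one] at h1
  nlinarith [mul_le_mul_of_nonneg_left h3 (sq_nonneg s)]

/-- **recovery**: for a bounded vector observable `g` there is `f` close to `g` whose heat-bath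
energy is bounded by `d s ⟨g, (1 - T_s) g⟩` up to small errors -/
theorem RecHyp.recovery {κ : Type*} [Fintype κ] (h : RecHyp w t l d G P Φ A) (hw : ∀ x, 0 < w x)
    (hs : 0 ≤ s) (ht : 0 ≤ t) (hl : 0 < l) (hd : 0 ≤ d) (hG : 0 ≤ G) (hη : 0 < η)
    (hQ : ∀ a, ((1 - P) *ᵥ a) ⬝ᵥ ((1 - P) *ᵥ a) ≤ a ⬝ᵥ a) {θ : (Fin n → ℝ) → ℝ} (mθ : MG θ)
    (θ0 : ∀ y, 0 ≤ θ y) (hθ : ∀ y f, ((1 - P) *ᵥ covV (post sv w s y) f sv) ⬝ᵥ
      ((1 - P) *ᵥ covV (post sv w s y) f sv) ≤ θ y * var (post sv w s y) f)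
    (g : κ → Cube n → ℝ) {M : ℝ} (hg : ∀ x, ∑ k, g k x ^ 2 ≤ M) {X : ℝ}
    (hX : (1 + η) * d * ((exp (4 * s) - 1) / 4) * ∑ k, (slE sv w s fun _ y => var (post sv w s y) (g k)) +
      M * ((1 + η⁻¹) * (2 * G * ((exp (4 * s) - 1) / 4) ^ 2 + 2 * s ^ 2 * (slE sv w s fun _ => θ) +
        2 * ((exp (4 * s) - 1) / 4 - s)) + (exp (4 * s) - 1) / 4 * (law sv w t).real A) ≤ X) :
    ∑ k, dir w (rcv w t P Φ A (Tm w s (g k))) ≤
      ((1 + η) * exp (4 * t) + (1 + η⁻¹) * (exp (4 * t) - 1) / l) * X ∧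
    ∑ k, mean w (fun x => (rcv w t P Φ A (Tm w s (g k)) x - g k x) ^ 2) ≤
      2 * ∑ k, (slE sv w s fun _ y => var (post sv w s y) (g k)) + 2 * (X / l) := by
  have hW := Wt.of_pos hw
  have H := fun k => h.rcv_le hw ht hl hη _ (h.energy hw ht hd hG hl.le hη (Tm w s (g k)))
  set v := (exp (4 * s) - 1) / 4 with hv
  have v0 : 0 ≤ v := vs_nonneg hs
  have v1 : 0 ≤ v - s := by have := add_one_le_exp (4 * s); rw [hv]; linarith
  have mp := fun k => mg_pm (φ := sv) hW s (g k)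
  have q1 : ∀ y, ∑ k, mean (post sv w s y) (g k) ^ 2 ≤ M := fun y =>
    (Finset.sum_le_sum fun k _ => mean_sq_le (hW.post sv s y) (g k)).trans
      (by rw [← mean_sum]; exact (hW.post sv s y).mean_le hg)
  have q2 : ∀ x, ∑ k, Pm sv s (fun _ y => mean (post sv w s y) (g k) ^ 2) x ≤ M := fun x => by
    rw [← Pm_sum _ fun k _ _ => mg_sq (mp k)]
    exact Pm_le (fun _ => .sum _ fun k _ => mg_sq (mp k)) q1
  have q3 : ∀ y, ∑ k, var (post sv w s y) (g k) ≤ M := fun y =>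
    (Finset.sum_le_sum fun k _ => (hW.post sv s y).var_le_mean (g k) 0).trans
      (by rw [← mean_sum]; exact (hW.post sv s y).mean_le (by simpa only [sub_zero] using hg))
  have b1 := Finset.sum_le_sum fun k (_ : k ∈ Finset.univ) => mean_grad_Tm_le hW hs (g k)
  have b2 : ∑ k, mean w (fun x => ∑ i, grad (fun x => grad (Tm w s (g k)) x i) x ⬝ᵥ
      grad (fun x => grad (Tm w s (g k)) x i) x) ≤ 2 * v ^ 2 * M := by
    rw [← mean_sum]
    refine hW.mean_le fun x => (Finset.sum_le_sum fun k _ => grad_grad_Pm_sq_le hs (mp k) x).trans ?_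
    rw [← Finset.mul_sum]
    exact mul_le_mul_of_nonneg_left (q2 x) (by positivity)
  have b3 : ∑ k, mean w (fun x => ((1 - P) *ᵥ grad (Tm w s (g k)) x) ⬝ᵥ
      ((1 - P) *ᵥ grad (Tm w s (g k)) x)) ≤ 2 * s ^ 2 * (M * slE sv w s fun _ => θ) + 2 * (v - s) * M := by
    refine (Finset.sum_le_sum fun k _ =>
      mean_proj_grad_Tm_le hW hs hQ mθ (g k) fun y => hθ y _).trans ?_
    rw [Finset.sum_add_distrib, ← Finset.mul_sum, ← Finset.mul_sum]
    refine add_le_add (mul_le_mul_of_nonneg_left ?_ (by positivity))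
      (mul_le_mul_of_nonneg_left ?_ (by positivity))
    · rw [← slE_sum _ fun k _ => .of_mg fun _ => mθ.mul (mg_pvar hW s _), ← slE_const_mul]
      refine slE_mono hW (.of_mg fun _ => .sum _ fun k _ => mθ.mul (mg_pvar hW s _))
        (.of_mg fun _ => mθ.const_mul _) fun _ y => ?_
      rw [← Finset.mul_sum, mul_comm M]
      exact mul_le_mul_of_nonneg_left (q3 y) (θ0 y)
    · simp only [slE_eq_Pm, ← mean_sum]
      exact hW.mean_le q2
  have b4 : ∑ k, mean w (fun x => grad (Tm w s (g k)) x ⬝ᵥ grad (Tm w s (g k)) x * px sv t A x) ≤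
      v * M * (law sv w t).real A := by
    rw [← mean_sum]
    simp only [← Finset.sum_mul]
    refine mean_px_le hW h.meas fun x => (Finset.sum_le_sum fun k _ =>
      grad_Pm_sq_le hs (mp k) 0 x).trans ?_
    simp only [sub_zero, ← Finset.mul_sum]
    exact mul_le_mul_of_nonneg_left (q2 x) v0
  have key : ∑ k, mean w (fun x => (1 + η) * d * (grad (Tm w s (g k)) x ⬝ᵥ grad (Tm w s (g k)) x) +
      (1 + η⁻¹) * (G * ∑ i, grad (fun x => grad (Tm w s (g k)) x i) x ⬝ᵥ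
        grad (fun x => grad (Tm w s (g k)) x i) x + ((1 - P) *ᵥ grad (Tm w s (g k)) x) ⬝ᵥ
          ((1 - P) *ᵥ grad (Tm w s (g k)) x)) +
      grad (Tm w s (g k)) x ⬝ᵥ grad (Tm w s (g k)) x * px sv t A x) ≤ X := by
    simp only [mean_add, mean_const_mul, Finset.sum_add_distrib, ← Finset.mul_sum]
    rw [← Finset.mul_sum, ← hv] at b1
    have c1 := mul_le_mul_of_nonneg_left b1 (show 0 ≤ (1 + η) * d by positivity)
    have c2 := mul_le_mul_of_nonneg_left (add_le_add (mul_le_mul_of_nonneg_left b2 hG) b3)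
      (show 0 ≤ 1 + η⁻¹ by positivity)
    refine le_trans ?_ hX
    linarith
  have h6 := one_le_exp (show 0 ≤ 4 * t by positivity)
  constructor
  · refine (Finset.sum_le_sum fun k _ => (H k).1).trans ?_
    rw [← Finset.mul_sum]
    exact mul_le_mul_of_nonneg_left key (add_nonneg (by positivity)
      (div_nonneg (mul_nonneg (by positivity) (by linarith)) hl.le))
  · refine le_trans ?_ (add_le_add (mul_le_mul_of_nonneg_left (Finset.sum_le_sum fun k _ =>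
      mean_Tm_sub_sq_le hW hs (g k)) zero_le_two) (mul_le_mul_of_nonneg_left
        ((Finset.sum_le_sum fun k _ => (H k).2).trans (by
          rw [← Finset.sum_div]; exact div_le_div_of_nonneg_right key hl.le)) zero_le_two))
    simp only [Finset.mul_sum, ← Finset.sum_add_distrib, ← mean_const_mul, ← mean_add]
    refine Finset.sum_le_sum fun k _ => hW.mean_mono fun x => ?_
    nlinarith [sq_nonneg (rcv w t P Φ A (Tm w s (g k)) x - 2 * Tm w s (g k) x + g k x)]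

end Crest.Agent.T157.Rec

end
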