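import Crest.Agent.T157.ChainSp_22
import Crest.Agent.T157.EntB_34

/-!
# Row 157, part C: deterministic bounds for two-time correlations (helper90)

For a reversible chain `c`, a vector observable `a` and a start law `ν`:
`AA c a t = ∑ᵢ ⟨aᵢ, H_t aᵢ⟩`, `BB c a ν s t = E_ν [a(X_s) · a(X_{s+t})]`.  An entropy bound `EC c t C`
for all point starts and exponential moments `XX c a θ` of the overlap of two independent samples
control the size and the modulus of continuity of `BB` and its distance to `AA`.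
Also: resolvent variational formula.
-/

set_option autoImplicit false
set_option linter.unusedSectionVars false

noncomputable section

namespace Crest.Agent.T157.Soft

open Finset Matrix
open Crest.Agent.T157.Chain22 Crest.Agent.T157.Ent

variable {Ω ι : Type*} [Fintype Ω] [DecidableEq Ω] [Fintype ι] (c : RC Ω) (a : ι → Ω → ℝ)

/-- overlap -/
def rr (x y : Ω) : ℝ := ∑ i, a i x * a i y
/-- conditional two-time overlap -/
def Gt (t : ℝ) (x : Ω) : ℝ := ∑ y, c.H t x y * rr a x y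
/-- conditional absolute two-time overlap -/
def Gb (t : ℝ) (x : Ω) : ℝ := ∑ y, c.H t x y * |rr a x y|
/-- stationary autocorrelation -/
def AA (t : ℝ) : ℝ := ∑ i, ip c.π (a i) (c.H t *ᵥ a i)
/-- two-time autocorrelation from the start law `ν` -/
def BB (ν : Ω → ℝ) (s t : ℝ) : ℝ := ∑ y, (ν ᵥ* c.H s) y * Gt c a t y
/-- exponential moment of the overlap of two independent samples -/
def XX (θ : ℝ) : ℝ := ∑ x, ∑ y, c.π x * c.π y * Real.exp (θ * |rr a x y|)
/-- entropy bound at time `t` for all point starts -/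
def EC (t C : ℝ) : Prop := ∀ x, kl (c.H t x) c.π ≤ C
/-- density at time `s` -/
def dens (ν : Ω → ℝ) (s : ℝ) (y : Ω) : ℝ := (ν ᵥ* c.H s) y / c.π y

variable {c a}

lemma isP_H {t : ℝ} (ht : 0 ≤ t) (x : Ω) : IsP (c.H t x) := (c.heat t ht).isP_row x

lemma ip_Gt (φ : Ω → ℝ) (t : ℝ) :
    ip c.π φ (Gt c a t) = ∑ i, ip c.π (fun x => φ x * a i x) (c.H t *ᵥ a i) := by
  simp only [ip, Gt, rr, mulVec, dotProduct, mul_sum]
  rw [sum_comm' (s' := fun _ => univ) (t' := univ) (by simp)]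
  conv_rhs => rw [sum_comm]
  rw [sum_comm]
  refine sum_congr rfl fun x _ => ?_
  rw [sum_comm]
  exact sum_congr rfl fun i _ => sum_congr rfl fun y _ => by ring

lemma AA_eq (t : ℝ) : AA c a t = mean c.π (Gt c a t) := by
  rw [← ip_one, ip_comm, ip_Gt]; simp only [one_mul, AA]

lemma quad_le (φ : Ω → ℝ) {K t : ℝ} (ht : 0 ≤ t) (hφ : ∀ x, |φ x| ≤ K) :
    ∑ i, ip c.π (fun x => φ x * a i x) (c.H t *ᵥ fun x => φ x * a i x) ≤
      K ^ 2 * mean c.π (Gb c a t) := by
  have e : ∑ i, ip c.π (fun x => φ x * a i x) (c.H t *ᵥ fun x => φ x * a i x) =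
      ∑ x, ∑ y, c.π x * (c.H t x y * (φ x * φ y * rr a x y)) := by
    simp only [ip, rr, mulVec, dotProduct, mul_sum]
    rw [sum_comm]
    refine sum_congr rfl fun x _ => ?_
    rw [sum_comm]
    exact sum_congr rfl fun y _ => sum_congr rfl fun i _ => by ring
  rw [e, mean, mul_sum]
  refine sum_le_sum fun x _ => ?_
  rw [Gb, mul_sum, mul_sum]
  refine sum_le_sum fun y _ => ?_
  rw [mul_left_comm (K ^ 2), mul_left_comm (K ^ 2)]
  refine mul_le_mul_of_nonneg_left (mul_le_mul_of_nonneg_left ?_ (c.H_nn ht x y)) (c.pos x).le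
  refine (le_abs_self _).trans ?_
  rw [abs_mul, abs_mul, sq]
  exact mul_le_mul_of_nonneg_right (mul_le_mul (hφ x) (hφ y) (abs_nonneg _)
    ((abs_nonneg _).trans (hφ x))) (abs_nonneg _)

lemma abs_Gt_le {t : ℝ} (ht : 0 ≤ t) (x : Ω) : |Gt c a t x| ≤ Gb c a t x :=
  (abs_sum_le_sum_abs _ _).trans (le_of_eq (sum_congr rfl fun y _ => by
    rw [abs_mul, abs_of_nonneg (c.H_nn ht x y)]))

lemma Gb_nonneg {t : ℝ} (ht : 0 ≤ t) (x : Ω) : 0 ≤ Gb c a t x :=
  (abs_nonneg _).trans (abs_Gt_le ht x)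

lemma EC.nonneg {t C : ℝ} (h : EC c t C) (ht : 0 ≤ t) : 0 ≤ C := by
  obtain ⟨x⟩ := c.nonempty
  exact (kl_nonneg (isP_H ht x) c.isP (AC.of_pos _ c.pos)).trans (h x)

lemma EC.kl_le {t C : ℝ} (h : EC c t C) (ht : 0 ≤ t) {ν : Ω → ℝ} (hν : IsP ν) :
    kl (ν ᵥ* c.H t) c.π ≤ C := by
  refine (kl_mix_left_le hν (N := c.H t) (c.H_nn ht) c.isP.nn fun _ => AC.of_pos _ c.pos).trans ?_
  exact (hν.mean_mono h).trans_eq (hν.mean_const C)

lemma EC.mono {t t' C : ℝ} (h : EC c t C) (ht : 0 ≤ t) (htt : t ≤ t') : EC c t' C := fun x => by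
  have e : c.H t' x = c.H (t' - t) x ᵥ* c.H t := by
    funext y
    conv_lhs => rw [← sub_add_cancel t' t, c.H_add, mul_apply]
    rfl
  rw [e]
  exact h.kl_le ht (isP_H (sub_nonneg.2 htt) x)

lemma EC.le {t C C' : ℝ} (h : EC c t C) (hC : C ≤ C') : EC c t C' := fun x => (h x).trans hC

/-- exponential moments of the conditional overlap -/
lemma EC.exp_Gb {t C : ℝ} (h : EC c t C) (ht : 0 ≤ t) (θ : ℝ) :
    mean c.π (fun x => Real.exp (θ * Gb c a t x)) ≤ Real.exp C * XX c a θ := by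
  rw [mean, XX, mul_sum]
  refine sum_le_sum fun x _ => ?_
  have h1 := mean_le_kl (isP_H (c := c) ht x) c.isP (AC.of_pos _ c.pos) fun y => θ * |rr a x y|
  have hpos : 0 < mean c.π fun y => Real.exp (θ * |rr a x y|) :=
    haveI := c.nonempty
    sum_pos (fun y _ => mul_pos (c.pos y) (Real.exp_pos _)) univ_nonempty
  have e1 : mean (c.H t x) (fun y => θ * |rr a x y|) = θ * Gb c a t x := by
    rw [mean, Gb, mul_sum]; exact sum_congr rfl fun y _ => by ring
  have e2 : ∑ y, c.π x * c.π y * Real.exp (θ * |rr a x y|) =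
      c.π x * mean c.π fun y => Real.exp (θ * |rr a x y|) := by
    rw [mean, mul_sum]; exact sum_congr rfl fun y _ => by ring
  rw [e2, mul_left_comm]
  refine mul_le_mul_of_nonneg_left ?_ (c.pos x).le
  rw [← Real.exp_log hpos, ← Real.exp_add, ← e1]
  exact Real.exp_le_exp.2 (h1.trans (by linarith [h x]))

lemma EC.mean_Gb {t C : ℝ} (h : EC c t C) (ht : 0 ≤ t) :
    mean c.π (Gb c a t) ≤ Real.exp C * XX c a 1 :=
  (c.isP.mean_mono fun x => by
    rw [one_mul]; linarith [Real.add_one_le_exp (Gb c a t x)]).trans (h.exp_Gb ht 1)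

lemma EC.ip_Gt_le {t C : ℝ} (h : EC c t C) (ht : 0 ≤ t) :
    ip c.π (Gt c a t) (Gt c a t) ≤ 2 * (Real.exp C * XX c a 1) := by
  refine le_trans ?_ (mul_le_mul_of_nonneg_left (h.exp_Gb (a := a) ht 1) zero_le_two)
  rw [ip_eq_mean, ← mean_const_mul]
  refine c.isP.mean_mono fun x => ?_
  have h1 := abs_Gt_le (c := c) (a := a) ht x
  have h2 := Real.quadratic_le_exp_of_nonneg (Gb_nonneg (c := c) (a := a) ht x)
  have h3 := Gb_nonneg (c := c) (a := a) ht x
  rw [one_mul, ← abs_mul_abs_self]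
  nlinarith [abs_nonneg (Gt c a t x)]

lemma AA_nonneg (t : ℝ) : 0 ≤ AA c a t := sum_nonneg fun i _ => c.ip_H_self_nonneg t (a i)

lemma EC.AA_le {t C : ℝ} (h : EC c t C) (ht : 0 ≤ t) : AA c a t ≤ Real.exp C * XX c a 1 := by
  rw [AA_eq]
  exact (c.isP.mean_mono fun x => (le_abs_self _).trans (abs_Gt_le ht x)).trans (h.mean_Gb ht)

lemma XX_nonneg (θ : ℝ) : 0 ≤ XX c a θ :=
  sum_nonneg fun x _ => sum_nonneg fun y _ =>
    mul_nonneg (mul_pos (c.pos x) (c.pos y)).le (Real.exp_pos _).le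

/-! ### densities -/

lemma isP_vecMul {ν : Ω → ℝ} (hν : IsP ν) {s : ℝ} (hs : 0 ≤ s) : IsP (ν ᵥ* c.H s) :=
  isP_mix hν (K := c.H s) (isP_H hs)

lemma pi_mul_dens (ν : Ω → ℝ) (s : ℝ) : (fun y => c.π y * dens c ν s y) = ν ᵥ* c.H s :=
  funext fun y => mul_div_cancel₀ _ (c.pos y).ne'

lemma dens_nonneg {ν : Ω → ℝ} (hν : IsP ν) {s : ℝ} (hs : 0 ≤ s) (y : Ω) : 0 ≤ dens c ν s y :=
  div_nonneg ((isP_vecMul hν hs).nn y) (c.pos y).le

lemma mean_dens' {ν : Ω → ℝ} (hν : IsP ν) {s : ℝ} (hs : 0 ≤ s) : mean c.π (dens c ν s) = 1 := by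
  rw [← (isP_vecMul (c := c) hν hs).sum1, ← pi_mul_dens]; rfl

lemma dens_add (ν : Ω → ℝ) (s : ℝ) {u : ℝ} (hu : 0 ≤ u) :
    dens c ν (s + u) = c.H u *ᵥ dens c ν s := by
  funext y
  have h := congrFun ((c.heat u hu).vecMul_dens (dens c ν s)) y
  rw [RC.heat_π, RC.heat_P, pi_mul_dens, vecMul_vecMul, ← c.H_add] at h
  rw [dens, h, mul_div_cancel_left₀ _ (c.pos y).ne']

lemma BB_eq (ν : Ω → ℝ) (s t : ℝ) : BB c a ν s t = ip c.π (dens c ν s) (Gt c a t) := by
  rw [BB, ← pi_mul_dens]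
  exact sum_congr rfl fun y _ => mul_assoc _ _ _

lemma EC.ent_dens {s C : ℝ} (h : EC c s C) (hs : 0 ≤ s) {ν : Ω → ℝ} (hν : IsP ν) :
    ent c.π (dens c ν s) ≤ C := by
  rw [ent_eq_kl (mean_dens' hν hs), pi_mul_dens]
  exact h.kl_le hs hν

/-- the part of a density of bounded entropy above a high level has small mass -/
lemma mean_excess_le {π f : Ω → ℝ} (hπ : IsP π) (hf : ∀ x, 0 ≤ f x) (h1 : mean π f = 1) {K : ℝ}
    (hK : 1 < K) : mean π (fun x => f x - min (f x) K) ≤ (ent π f + 1) / Real.log K := by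
  have hl : 0 < Real.log K := Real.log_pos hK
  rw [le_div_iff₀ hl, mul_comm, ← mean_const_mul, ent, h1, Real.log_one, mul_zero, sub_zero]
  have : (∑ x, π x * (f x * Real.log (f x))) + 1 = mean π fun x => f x * Real.log (f x) + 1 := by
    simp only [mean, mul_add, sum_add_distrib, mul_one, hπ.sum1]
  rw [this]
  refine hπ.mean_mono fun x => ?_
  rcases le_total (f x) K with h | h
  · rw [min_eq_left h, sub_self, mul_zero]
    rcases eq_or_lt_of_le (hf x) with h0 | h0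
    · rw [← h0]; simp
    · have := Real.one_sub_inv_le_log_of_pos h0
      have h2 : f x * (1 - (f x)⁻¹) = f x - 1 := by field_simp
      nlinarith [mul_le_mul_of_nonneg_left this h0.le]
  · rw [min_eq_right h]
    have := Real.log_le_log (by linarith) h
    nlinarith [hf x]

/-- a small part of a density of bounded entropy sees little of a variable with exponential
moments -/
lemma ip_small_le {π f h Y : Ω → ℝ} (hπ : IsP π) (hf : ∀ x, 0 ≤ f x) (h1 : mean π f = 1)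
    (hh : ∀ x, 0 ≤ h x) (hhf : ∀ x, h x ≤ f x) {θ Z : ℝ} (hθ : 0 < θ)
    (hZ : mean π (fun x => Real.exp (θ * Y x)) ≤ Z) :
    ip π h Y ≤ (mean π h * Z + (ent π f + 1)) / θ := by
  have key := hπ.mean_mul_le_ent hf fun x => max (θ * Y x - Z) 0
  have e1 : mean π (fun x => Real.exp (max (θ * Y x - Z) 0)) ≤ 2 := by
    have : mean π (fun x => Real.exp (max (θ * Y x - Z) 0)) ≤
        mean π fun x => 1 + Real.exp (-Z) * Real.exp (θ * Y x) := by
      refine hπ.mean_mono fun x => ?_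
      rw [← Real.exp_add]
      rcases le_total (θ * Y x - Z) 0 with h | h
      · rw [max_eq_right h, Real.exp_zero]; linarith [Real.exp_pos (-Z + θ * Y x)]
      · rw [max_eq_left h, neg_add_eq_sub]; linarith
    refine this.trans ?_
    have e : (mean π fun x => 1 + Real.exp (-Z) * Real.exp (θ * Y x)) =
        1 + Real.exp (-Z) * mean π fun x => Real.exp (θ * Y x) := by
      simp only [mean, mul_add, sum_add_distrib, mul_one, hπ.sum1, mul_sum, mul_left_comm]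
    have e' : Real.exp (-Z) * Z ≤ 1 := by
      rw [Real.exp_neg, inv_mul_le_iff₀ (Real.exp_pos _)]; linarith [Real.add_one_le_exp Z]
    rw [e]
    nlinarith [Real.exp_pos (-Z)]
  have e2 : Real.log (mean π fun x => Real.exp (max (θ * Y x - Z) 0)) ≤ 1 := by
    have h0 : 1 ≤ mean π fun x => Real.exp (max (θ * Y x - Z) 0) :=
      (hπ.mean_const 1).ge.trans (hπ.mean_mono fun x => Real.one_le_exp (le_max_right _ _))
    linarith [Real.log_le_sub_one_of_pos (lt_of_lt_of_le one_pos h0)]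
  rw [h1, one_mul] at key
  rw [le_div_iff₀ hθ]
  have e3 : ip π h Y * θ ≤ mean π h * Z + ip π f fun x => max (θ * Y x - Z) 0 := by
    rw [ip, mean, ip, sum_mul, sum_mul, ← sum_add_distrib]
    refine sum_le_sum fun x _ => ?_
    have p1 : h x * (θ * Y x - Z) ≤ f x * max (θ * Y x - Z) 0 :=
      (mul_le_mul_of_nonneg_left (le_max_left _ _) (hh x)).trans
        (mul_le_mul_of_nonneg_right (hhf x) (le_max_right _ _))
    nlinarith [mul_le_mul_of_nonneg_left p1 (hπ.nn x)]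
  linarith

lemma abs_ip_le {π h G Y : Ω → ℝ} (hπ : IsP π) (hh : ∀ x, 0 ≤ h x) (hG : ∀ x, |G x| ≤ Y x) :
    |ip π h G| ≤ ip π h Y :=
  (abs_sum_le_sum_abs _ _).trans (sum_le_sum fun x _ => by
    rw [abs_mul, abs_mul, abs_of_nonneg (hπ.nn x), abs_of_nonneg (hh x)]
    exact mul_le_mul_of_nonneg_left (mul_le_mul_of_nonneg_left (hG x) (hh x)) (hπ.nn x))

/-! ### Lipschitz bounds -/

lemma exp_lip {lam b s t : ℝ} (hl : 0 ≤ lam) (hb : 0 < b) (hs : b ≤ s) (ht : b ≤ t) :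
    |Real.exp (-(s * lam)) - Real.exp (-(t * lam))| ≤
      2 / b * |s - t| * Real.exp (-(b / 2 * lam)) := by
  wlog hst : s ≤ t generalizing s t
  · rw [abs_sub_comm, abs_sub_comm s]; exact this ht hs (le_of_not_ge hst)
  have h0 : Real.exp (-(t * lam)) ≤ Real.exp (-(s * lam)) := Real.exp_le_exp.2 (by nlinarith)
  rw [abs_of_nonneg (sub_nonneg.2 h0), abs_sub_comm, abs_of_nonneg (sub_nonneg.2 hst)]
  have h1 : Real.exp (-(s * lam)) - Real.exp (-(t * lam)) ≤
      Real.exp (-(s * lam)) * lam * (t - s) := by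
    have e : Real.exp (-(t * lam)) = Real.exp (-(s * lam)) * Real.exp (-((t - s) * lam)) := by
      rw [← Real.exp_add]; congr 1; ring
    have := Real.add_one_le_exp (-((t - s) * lam))
    rw [e]
    nlinarith [Real.exp_pos (-(s * lam))]
  have e1 : Real.exp (-(s * lam)) ≤ Real.exp (-(b / 2 * lam)) * Real.exp (-(b / 2 * lam)) := by
    rw [← Real.exp_add]; exact Real.exp_le_exp.2 (by nlinarith)
  have e2 : Real.exp (-(b / 2 * lam)) * (b / 2 * lam) ≤ 1 := by
    rw [Real.exp_neg, inv_mul_le_iff₀ (Real.exp_pos _)]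
    linarith [Real.add_one_le_exp (b / 2 * lam)]
  have e3 : Real.exp (-(b / 2 * lam)) * lam ≤ 2 / b := by
    rw [le_div_iff₀ hb]; nlinarith
  have h3 : 0 ≤ t - s := sub_nonneg.2 hst
  calc _ ≤ Real.exp (-(s * lam)) * lam * (t - s) := h1
    _ ≤ Real.exp (-(b / 2 * lam)) * Real.exp (-(b / 2 * lam)) * lam * (t - s) := by gcongr
    _ = Real.exp (-(b / 2 * lam)) * lam * (t - s) * Real.exp (-(b / 2 * lam)) := by ring
    _ ≤ _ := by gcongr

lemma ip_H_lip (f g : Ω → ℝ) {b s t : ℝ} (hb : 0 < b) (hs : b ≤ s) (ht : b ≤ t) :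
    |ip c.π f (c.H s *ᵥ g) - ip c.π f (c.H t *ᵥ g)| ≤
      |s - t| / b * (ip c.π f (c.H (b / 2) *ᵥ f) + ip c.π g (c.H (b / 2) *ᵥ g)) := by
  simp only [RC.ip_H_spec]
  rw [← sum_sub_distrib, ← sum_add_distrib, mul_sum]
  refine (abs_sum_le_sum_abs _ _).trans (sum_le_sum fun j _ => ?_)
  rw [← sub_mul, abs_mul]
  have h1 := exp_lip (sub_nonneg.2 (c.ev_le_one j)) hb hs ht
  have h2 : |ip c.π f (c.φ j) * ip c.π g (c.φ j)| ≤
      (ip c.π f (c.φ j) * ip c.π f (c.φ j) + ip c.π g (c.φ j) * ip c.π g (c.φ j)) / 2 := by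
    rw [abs_le]
    constructor <;> nlinarith [sq_nonneg (ip c.π f (c.φ j) + ip c.π g (c.φ j)),
      sq_nonneg (ip c.π f (c.φ j) - ip c.π g (c.φ j))]
  refine (mul_le_mul h1 h2 (abs_nonneg _) ((abs_nonneg _).trans h1)).trans (le_of_eq ?_)
  ring

lemma ip_H_le_self (f : Ω → ℝ) {t : ℝ} (ht : 0 ≤ t) : ip c.π f (c.H t *ᵥ f) ≤ ip c.π f f := by
  have := c.ip_H_self_anti f ht
  simpa only [RC.H_zero, one_mulVec] using this

lemma abs_H_le {u : Ω → ℝ} {K t : ℝ} (ht : 0 ≤ t) (hu : ∀ x, |u x| ≤ K) (x : Ω) :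
    |(c.H t *ᵥ u) x| ≤ K := (isP_H ht x).abs_mean_le hu

lemma ip_self_le {π u : Ω → ℝ} (hπ : IsP π) {K : ℝ} (hu : ∀ x, |u x| ≤ K) : ip π u u ≤ K ^ 2 := by
  rw [ip_eq_mean, ← hπ.mean_const (K ^ 2)]
  refine hπ.mean_mono fun x => ?_
  rw [← abs_mul_abs_self, sq]
  exact mul_self_le_mul_self (abs_nonneg _) (hu x)

/-- Lipschitz bound for bounded initial data -/
lemma EC.lip {b C K s t s' t' : ℝ} (hb : 0 < b) (h : EC c (b / 2) C) {u : Ω → ℝ}
    (hu : ∀ x, |u x| ≤ K) (hs : b ≤ s) (hs' : b ≤ s') (ht : b ≤ t) (ht' : b ≤ t') :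
    |ip c.π (c.H s *ᵥ u) (Gt c a t) - ip c.π (c.H s' *ᵥ u) (Gt c a t')| ≤
      (|s - s'| + |t - t'|) / b * ((K ^ 2 + 2) * (1 + Real.exp C * XX c a 1)) := by
  have hb2 : 0 ≤ b / 2 := by positivity
  set Z := Real.exp C * XX c a 1 with hZ
  have hZ0 : 0 ≤ Z := mul_nonneg (Real.exp_pos _).le (XX_nonneg 1)
  have e1 : |ip c.π (c.H s *ᵥ u) (Gt c a t) - ip c.π (c.H s' *ᵥ u) (Gt c a t)| ≤
      |s - s'| / b * ((K ^ 2 + 2) * (1 + Z)) := by
    rw [ip_comm, ip_comm c.π (c.H s' *ᵥ u)]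
    refine (ip_H_lip _ _ hb hs hs').trans (mul_le_mul_of_nonneg_left ?_ (by positivity))
    have p1 := (ip_H_le_self (c := c) (Gt c a t) hb2).trans
      ((h.mono hb2 (by linarith)).ip_Gt_le (a := a) (t := t) (by linarith))
    have p2 := (ip_H_le_self (c := c) u hb2).trans (ip_self_le c.isP hu)
    nlinarith [sq_nonneg K]
  have e2 : |ip c.π (c.H s' *ᵥ u) (Gt c a t) - ip c.π (c.H s' *ᵥ u) (Gt c a t')| ≤
      |t - t'| / b * ((K ^ 2 + 2) * (1 + Z)) := by
    rw [ip_Gt, ip_Gt, ← sum_sub_distrib]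
    refine (abs_sum_le_sum_abs _ _).trans ((sum_le_sum fun i _ => ip_H_lip _ _ hb ht ht').trans ?_)
    rw [← mul_sum, sum_add_distrib]
    refine mul_le_mul_of_nonneg_left ?_ (by positivity)
    have p1 := quad_le (c := c) (a := a) (c.H s' *ᵥ u) hb2 (abs_H_le (by linarith) hu)
    have p2 : mean c.π (Gb c a (b / 2)) ≤ Z := h.mean_Gb hb2
    have p3 : AA c a (b / 2) ≤ Z := h.AA_le hb2
    have p4 := mul_le_mul_of_nonneg_left p2 (sq_nonneg K)
    rw [AA] at p3
    nlinarith [sq_nonneg K]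
  refine (abs_sub_le _ _ _).trans ((add_le_add e1 e2).trans (le_of_eq (by ring)))

/-! ### size, modulus, merging -/

variable {ν : Ω → ℝ}

theorem EC.BB_size {b C s t : ℝ} (h : EC c b C) (hb : 0 ≤ b) (hν : IsP ν) (hs : b ≤ s) (ht : b ≤ t) :
    |BB c a ν s t| ≤ C + Real.exp C * XX c a 1 := by
  rw [BB_eq]
  refine (abs_ip_le c.isP (dens_nonneg hν (hb.trans hs)) (abs_Gt_le (hb.trans ht))).trans ?_
  refine (c.isP.mean_mul_le_ent (dens_nonneg hν (hb.trans hs)) _).trans ?_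
  rw [mean_dens' hν (hb.trans hs), one_mul]
  have h1 := (h.mono hb ht).exp_Gb (a := a) (hb.trans ht) 1
  simp only [one_mul] at h1
  have h2 := Real.log_le_self (x := mean c.π fun x => Real.exp (Gb c a t x))
    (c.isP.mean_nonneg fun x => (Real.exp_pos _).le)
  linarith [(h.mono hb hs).ent_dens (hb.trans hs) hν]

/-- splitting of the density at time `b` at the level `K` -/
lemma EC.split {b C K θ s t : ℝ} (h : EC c b C) (hb : 0 ≤ b) (hν : IsP ν) (hK : 1 < K) (hθ : 0 < θ)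
    (hs : 0 ≤ s) (ht : b ≤ t) :
    |BB c a ν (b + s) t - ip c.π (c.H s *ᵥ fun x => min (dens c ν b x) K) (Gt c a t)| ≤
      ((C + 1) / Real.log K * (1 + Real.exp C * XX c a θ) + (C + 1)) / θ := by
  set u : Ω → ℝ := fun x => min (dens c ν b x) K with hu
  have hC := h.nonneg hb
  have hZ0 : 0 ≤ Real.exp C * XX c a θ := mul_nonneg (Real.exp_pos _).le (XX_nonneg θ)
  have hh : ∀ x, 0 ≤ (c.H s *ᵥ (dens c ν b - u)) x :=
    (c.heat s hs).P_nonneg fun x => sub_nonneg.2 (min_le_left _ _)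
  have hu0 : ∀ x, 0 ≤ (c.H s *ᵥ u) x :=
    (c.heat s hs).P_nonneg fun x => le_min (dens_nonneg hν hb x) (by linarith)
  rw [BB_eq, dens_add ν b hs, ← ip_sub_left, ← mulVec_sub]
  refine (abs_ip_le c.isP hh (abs_Gt_le (hb.trans ht))).trans ?_
  refine (ip_small_le c.isP (dens_nonneg hν (add_nonneg hb hs)) (mean_dens' hν (add_nonneg hb hs)) hh
    (fun x => ?_) hθ (Z := 1 + Real.exp C * XX c a θ)
    (((h.mono hb ht).exp_Gb (hb.trans ht) θ).trans (by linarith))).trans ?_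
  · rw [dens_add ν b hs, mulVec_sub, Pi.sub_apply]; linarith [hu0 x]
  have e1 : mean c.π (c.H s *ᵥ (dens c ν b - u)) ≤ (C + 1) / Real.log K := by
    rw [c.mean_H]
    refine (mean_excess_le c.isP (dens_nonneg hν hb) (mean_dens' hν hb) hK).trans ?_
    have := h.ent_dens hb hν
    have hl : 0 < Real.log K := Real.log_pos hK
    gcongr
  have e2 := (h.mono hb (le_add_of_nonneg_right hs)).ent_dens (add_nonneg hb hs) hν
  gcongr

theorem EC.BB_mod {b C K θ s t s' t' : ℝ} (hb : 0 < b) (h : EC c (b / 2) C) (hν : IsP ν)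
    (hK : 1 < K) (hθ : 0 < θ) (hs : 2 * b ≤ s) (hs' : 2 * b ≤ s') (ht : b ≤ t) (ht' : b ≤ t') :
    |BB c a ν s t - BB c a ν s' t'| ≤
      2 * (((C + 1) / Real.log K * (1 + Real.exp C * XX c a θ) + (C + 1)) / θ) +
      (|s - s'| + |t - t'|) / b * ((K ^ 2 + 2) * (1 + Real.exp C * XX c a 1)) := by
  have h' : EC c b C := h.mono (by positivity) (by linarith)
  have e1 := h'.split (a := a) hb.le hν hK hθ (s := s - b) (by linarith) ht
  have e2 := h'.split (a := a) hb.le hν hK hθ (s := s' - b) (by linarith) ht'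
  have e3 := h.lip (a := a) hb (u := fun x => min (dens c ν b x) K) (K := K) (fun x => by
    rw [abs_of_nonneg (le_min (dens_nonneg hν hb.le x) (by linarith))]; exact min_le_right _ _)
    (s := s - b) (s' := s' - b) (by linarith) (by linarith) ht ht'
  rw [add_sub_cancel] at e1 e2
  rw [sub_sub_sub_cancel_right] at e3
  have e4 := abs_le.1 e1
  have e5 := abs_le.1 e2
  have e6 := abs_le.1 e3
  rw [abs_le]
  constructor <;> linarith [e4.1, e4.2, e5.1, e5.2, e6.1, e6.2]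

lemma var_H_anti (u : Ω → ℝ) {s s' : ℝ} (h : s ≤ s') :
    var c.π (c.H s' *ᵥ u) ≤ var c.π (c.H s *ᵥ u) := by
  have := (c.heat (s' - s) (sub_nonneg.2 h)).var_P_le (c.H s *ᵥ u)
  rwa [RC.heat_π, RC.heat_P, mulVec_mulVec, ← c.H_add, sub_add_cancel] at this

theorem EC.BB_merge {b C K θ κ ε s s₁ t : ℝ} (h : EC c b C) (hb : 0 ≤ b) (hν : IsP ν) (hK : 1 < K)
    (hθ : 0 < θ) (hκ : 0 < κ) (hs₁ : 0 ≤ s₁) (hs : b + s₁ ≤ s) (ht : b ≤ t)
    (hmix : ∀ u : Ω → ℝ, (∀ x, |u x| ≤ 1) → var c.π (c.H s₁ *ᵥ u) ≤ ε) :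
    |BB c a ν s t - AA c a t| ≤
      ((C + 1) / Real.log K * (1 + Real.exp C * XX c a θ) + (C + 1)) / θ +
      (K ^ 2 * ε / κ + ((C + 1) / Real.log K + κ) * (Real.exp C * XX c a 1)) := by
  set u : Ω → ℝ := fun x => min (dens c ν b x) K with hu
  set Z := Real.exp C * XX c a 1 with hZ
  have hK0 : 0 < K := by linarith
  have e1 := h.split (a := a) hb hν hK hθ (s := s - b) (by linarith) ht
  rw [add_sub_cancel, ← hu] at e1
  set v := c.H (s - b) *ᵥ u with hv
  have hvar : var c.π v ≤ K ^ 2 * ε := by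
    have p1 := hmix (K⁻¹ • u) fun x => by
      rw [Pi.smul_apply, smul_eq_mul, abs_mul, abs_of_pos (inv_pos.2 hK0),
        abs_of_nonneg (le_min (dens_nonneg hν hb x) hK0.le), inv_mul_le_iff₀ hK0, mul_one]
      exact min_le_right _ _
    rw [mulVec_smul, var_smul, inv_pow, inv_mul_le_iff₀ (by positivity)] at p1
    exact (var_H_anti u (by linarith)).trans p1
  have hm : mean c.π v = 1 - mean c.π fun x => dens c ν b x - u x := by
    rw [hv, c.mean_H, mean_sub', mean_dens' hν hb]; ring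
  have hm0 : 0 ≤ mean c.π fun x => dens c ν b x - u x :=
    c.isP.mean_nonneg fun x => sub_nonneg.2 (min_le_left _ _)
  have hm1 : (mean c.π fun x => dens c ν b x - u x) ≤ (C + 1) / Real.log K := by
    refine (mean_excess_le c.isP (dens_nonneg hν hb) (mean_dens' hν hb) hK).trans ?_
    have := h.ent_dens hb hν
    have hl : 0 < Real.log K := Real.log_pos hK
    gcongr
  have hA0 : 0 ≤ AA c a t := AA_nonneg t
  have hA1 : AA c a t ≤ Z := (h.mono hb ht).AA_le (hb.trans ht)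
  have hG : ip c.π (Gt c a t) (Gt c a t) ≤ 2 * Z := (h.mono hb ht).ip_Gt_le (hb.trans ht)
  have e2 : ip c.π v (Gt c a t) = ip c.π (fun x => v x - mean c.π v) (Gt c a t) +
      mean c.π v * AA c a t := by
    rw [AA_eq]
    simp only [ip, mean, mul_sum, ← sum_add_distrib]
    exact sum_congr rfl fun x _ => by ring
  have e3 : |ip c.π (fun x => v x - mean c.π v) (Gt c a t)| ≤ K ^ 2 * ε / κ + κ * Z := by
    have p1 := c.isP.ip_sq_le (fun x => v x - mean c.π v) (Gt c a t)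
    have p6 : (ip c.π (fun x => v x - mean c.π v) fun x => v x - mean c.π v) = var c.π v := by
      simp only [ip, var, sq]
    rw [p6] at p1
    have p0 := c.isP.var_nonneg v
    have p2 : var c.π v * ip c.π (Gt c a t) (Gt c a t) ≤ K ^ 2 * ε * (2 * Z) :=
      mul_le_mul hvar hG (c.isP.ip_self_nonneg _) (p0.trans hvar)
    have p3 : 0 ≤ K ^ 2 * ε / κ := div_nonneg (p0.trans hvar) hκ.le
    have p4 : 0 ≤ κ * Z := mul_nonneg hκ.le (hA0.trans hA1)
    refine abs_le_of_sq_le_sq' ?_ (add_nonneg p3 p4) |> abs_le.2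
    have p5 : K ^ 2 * ε * (2 * Z) = 2 * (K ^ 2 * ε / κ) * (κ * Z) := by field_simp
    nlinarith [sq_nonneg (K ^ 2 * ε / κ), sq_nonneg (κ * Z)]
  have e4 : (mean c.π fun x => dens c ν b x - u x) * AA c a t ≤ (C + 1) / Real.log K * Z :=
    mul_le_mul hm1 hA1 hA0 (hm0.trans hm1)
  have e5 := mul_nonneg hm0 hA0
  have e6 := abs_le.1 e1
  have e7 := abs_le.1 e3
  have e8 : mean c.π v * AA c a t =
      AA c a t - (mean c.π fun x => dens c ν b x - u x) * AA c a t := by rw [hm]; ring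
  rw [e2, e8] at e6
  rw [abs_le, add_mul]
  constructor <;> linarith [e6.1, e6.2, e7.1, e7.2]

/-- a centred observable seen from a start of bounded entropy after mixing -/
lemma EC.pair_le {b C K θ κ ε s₁ : ℝ} (h : EC c b C) (hb : 0 ≤ b) (hν : IsP ν) (hK : 1 < K)
    (hθ : 0 < θ) (hκ : 0 < κ) (hs₁ : 0 ≤ s₁)
    (hmix : ∀ u : Ω → ℝ, (∀ x, |u x| ≤ 1) → var c.π (c.H s₁ *ᵥ u) ≤ ε) {Y : Ω → ℝ}
    (hY : mean c.π Y = 0) :
    ip c.π (dens c ν (b + s₁)) Y ≤
      ((C + 1) / Real.log K * (mean c.π fun x => Real.exp (θ * |Y x|)) + (C + 1)) / θ +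
      (K ^ 2 * ε / κ + κ * mean c.π fun x => Real.exp (1 * |Y x|)) := by
  set u : Ω → ℝ := fun x => min (dens c ν b x) K with hu
  have hK0 : 0 < K := by linarith
  have hC := h.nonneg hb
  have hl : 0 < Real.log K := Real.log_pos hK
  have hh : ∀ x, 0 ≤ (c.H s₁ *ᵥ (dens c ν b - u)) x :=
    (c.heat s₁ hs₁).P_nonneg fun x => sub_nonneg.2 (min_le_left _ _)
  have hu0 : ∀ x, 0 ≤ (c.H s₁ *ᵥ u) x :=
    (c.heat s₁ hs₁).P_nonneg fun x => le_min (dens_nonneg hν hb x) hK0.le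
  have e0 : ip c.π (dens c ν (b + s₁)) Y =
      ip c.π (c.H s₁ *ᵥ (dens c ν b - u)) Y + ip c.π (c.H s₁ *ᵥ u) Y := by
    rw [dens_add ν b hs₁, mulVec_sub, ip_sub_left]; ring
  rw [e0]
  refine add_le_add ?_ ?_
  · refine (le_abs_self _).trans ((abs_ip_le c.isP hh fun x => le_rfl).trans ?_)
    refine (ip_small_le c.isP (dens_nonneg hν (add_nonneg hb hs₁)) (mean_dens' hν (add_nonneg hb hs₁))
      hh (fun x => ?_) hθ le_rfl).trans ?_
    · rw [dens_add ν b hs₁, mulVec_sub, Pi.sub_apply]; linarith [hu0 x]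
    have e1 : mean c.π (c.H s₁ *ᵥ (dens c ν b - u)) ≤ (C + 1) / Real.log K := by
      rw [c.mean_H]
      refine (mean_excess_le c.isP (dens_nonneg hν hb) (mean_dens' hν hb) hK).trans ?_
      have := h.ent_dens hb hν
      gcongr
    have e2 := (h.mono hb (le_add_of_nonneg_right hs₁)).ent_dens (add_nonneg hb hs₁) hν
    have e3 : 0 ≤ mean c.π fun x => Real.exp (θ * |Y x|) :=
      c.isP.mean_nonneg fun x => (Real.exp_pos _).le
    gcongr
  · set v := c.H s₁ *ᵥ u with hv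
    set Z := mean c.π fun x => Real.exp (1 * |Y x|) with hZ
    have hvar : var c.π v ≤ K ^ 2 * ε := by
      have p1 := hmix (K⁻¹ • u) fun x => by
        rw [Pi.smul_apply, smul_eq_mul, abs_mul, abs_of_pos (inv_pos.2 hK0),
          abs_of_nonneg (le_min (dens_nonneg hν hb x) hK0.le), inv_mul_le_iff₀ hK0, mul_one]
        exact min_le_right _ _
      rwa [mulVec_smul, var_smul, inv_pow, inv_mul_le_iff₀ (by positivity)] at p1
    have hG : ip c.π Y Y ≤ 2 * Z := by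
      rw [hZ, ip_eq_mean, ← mean_const_mul]
      refine c.isP.mean_mono fun x => ?_
      have h2 := Real.quadratic_le_exp_of_nonneg (abs_nonneg (Y x))
      rw [one_mul, ← abs_mul_abs_self]
      nlinarith [abs_nonneg (Y x)]
    have e2 : ip c.π v Y = ip c.π (fun x => v x - mean c.π v) Y + mean c.π v * mean c.π Y := by
      simp only [ip, mean, mul_sum, ← sum_add_distrib]
      exact sum_congr rfl fun x _ => by ring
    rw [e2, hY, mul_zero, add_zero]
    have p1 := c.isP.ip_sq_le (fun x => v x - mean c.π v) Y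
    have p6 : (ip c.π (fun x => v x - mean c.π v) fun x => v x - mean c.π v) = var c.π v := by
      simp only [ip, var, sq]
    rw [p6] at p1
    have p0 := c.isP.var_nonneg v
    have p2 : var c.π v * ip c.π Y Y ≤ K ^ 2 * ε * (2 * Z) :=
      mul_le_mul hvar hG (c.isP.ip_self_nonneg _) (p0.trans hvar)
    have p3 : 0 ≤ K ^ 2 * ε / κ := div_nonneg (p0.trans hvar) hκ.le
    have p4 : 0 ≤ κ * Z := mul_nonneg hκ.le (c.isP.mean_nonneg fun x => (Real.exp_pos _).le)
    refine (abs_le_of_sq_le_sq' ?_ (add_nonneg p3 p4)).2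
    have p5 : K ^ 2 * ε * (2 * Z) = 2 * (K ^ 2 * ε / κ) * (κ * Z) := by field_simp
    nlinarith [sq_nonneg (K ^ 2 * ε / κ), sq_nonneg (κ * Z)]

/-- decay of the stationary autocorrelation of a centred vector observable -/
theorem EC.AA_decay {b C K θ κ ε s₁ : ℝ} (h : EC c b C) (hb : 0 ≤ b) (hK : 1 < K)
    (hθ : 0 < θ) (hκ : 0 < κ) (hs₁ : 0 ≤ s₁)
    (hmix : ∀ u : Ω → ℝ, (∀ x, |u x| ≤ 1) → var c.π (c.H s₁ *ᵥ u) ≤ ε)
    (ha : ∀ i, mean c.π (a i) = 0) :
    AA c a (b + s₁) ≤ ((C + 1) / Real.log K * XX c a θ + (C + 1)) / θ +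
      (K ^ 2 * ε / κ + κ * XX c a 1) := by
  have hX : ∀ θ, XX c a θ = mean c.π fun x => mean c.π fun y => Real.exp (θ * |rr a x y|) := by
    intro θ
    simp only [XX, mean, mul_sum, mul_assoc]
  have key : ∀ x, Gt c a (b + s₁) x ≤
      ((C + 1) / Real.log K * (mean c.π fun y => Real.exp (θ * |rr a x y|)) + (C + 1)) / θ +
      (K ^ 2 * ε / κ + κ * mean c.π fun y => Real.exp (1 * |rr a x y|)) := fun x => by
    have hν : IsP (Pi.single x 1 : Ω → ℝ) :=
      ⟨fun y => by by_cases h : y = x <;> simp [h], by simp⟩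
    have hY : mean c.π (rr a x) = 0 := by
      have : mean c.π (rr a x) = ∑ i, a i x * mean c.π (a i) := by
        simp only [mean, rr, mul_sum]
        rw [sum_comm]
        exact sum_congr rfl fun i _ => sum_congr rfl fun y _ => by ring
      simp [this, ha]
    refine le_trans (le_of_eq ?_) (h.pair_le hb hν hK hθ hκ hs₁ hmix hY)
    refine sum_congr rfl fun y _ => ?_
    rw [← mul_assoc, congrFun (pi_mul_dens (c := c) (Pi.single x 1) (b + s₁)) y, single_one_vecMul]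
    rfl
  rw [AA_eq]
  refine (c.isP.mean_mono key).trans (le_of_eq ?_)
  rw [hX, hX]
  have lin : ∀ (F G : Ω → ℝ) (p q r k : ℝ), mean c.π (fun x => (p * F x + q) / θ + (r + k * G x)) =
      (p * mean c.π F + q) / θ + (r + k * mean c.π G) := by
    intro F G p q r k
    have e : ∀ x, c.π x * ((p * F x + q) / θ + (r + k * G x)) =
        p / θ * (c.π x * F x) + k * (c.π x * G x) + (q / θ + r) * c.π x := fun x => by ring
    simp only [mean, e, sum_add_distrib, ← mul_sum, c.sum1]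
    ring
  exact lin _ _ _ _ _ _

/-! ### the resolvent -/

/-- `⟨f, (α + τ (1 - P))⁻¹ g⟩` -/
def res (c : RC Ω) (α τ : ℝ) (f g : Ω → ℝ) : ℝ :=
  ∑ j, ip c.π f (c.φ j) * ip c.π g (c.φ j) / (α + τ * (1 - c.ev j))

/-- `(α + τ (1 - P))⁻¹ g` -/
def resV (c : RC Ω) (α τ : ℝ) (g : Ω → ℝ) : Ω → ℝ :=
  ∑ j, (ip c.π g (c.φ j) / (α + τ * (1 - c.ev j))) • c.φ j

lemma ip_resV_φ (α τ : ℝ) (g : Ω → ℝ) (j : Ω) :
    ip c.π (resV c α τ g) (c.φ j) = ip c.π g (c.φ j) / (α + τ * (1 - c.ev j)) := by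
  simp only [resV, ip_sum_left, ip_smul_left, RC.ip_φ_φ, mul_ite, mul_one, mul_zero, sum_ite_eq',
    mem_univ, if_true]

lemma ip_resV (α τ : ℝ) (f g : Ω → ℝ) : ip c.π f (resV c α τ g) = res c α τ f g := by
  rw [c.parseval, res]
  exact sum_congr rfl fun j _ => by rw [ip_resV_φ, mul_div_assoc]

lemma den_pos' {α τ : ℝ} (hα : 0 < α) (hτ : 0 ≤ τ) (j : Ω) : 0 < α + τ * (1 - c.ev j) :=
  add_pos_of_pos_of_nonneg hα (mul_nonneg hτ (sub_nonneg.2 (c.ev_le_one j)))

/-- the resolvent equation in weak form -/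
lemma resV_weak {α τ : ℝ} (hα : 0 < α) (hτ : 0 ≤ τ) (f g : Ω → ℝ) :
    α * ip c.π f (resV c α τ g) + τ * c.D f (resV c α τ g) = ip c.π f g := by
  rw [c.parseval f g, c.parseval f, c.D_spec, mul_sum, mul_sum, ← sum_add_distrib]
  refine sum_congr rfl fun j _ => ?_
  have := (den_pos' (c := c) hα hτ j).ne'
  rw [ip_resV_φ]
  field_simp

/-- variational lower bound for the resolvent, with the exact defect -/
lemma res_var {α τ : ℝ} (hα : 0 < α) (hτ : 0 ≤ τ) (f g : Ω → ℝ) :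
    2 * ip c.π f g - α * ip c.π g g - τ * c.D g g = res c α τ f f -
      (α * ip c.π (g - resV c α τ f) (g - resV c α τ f) +
        τ * c.D (g - resV c α τ f) (g - resV c α τ f)) := by
  rw [c.parseval f g, c.parseval g g, c.parseval (g - _), c.D_spec, c.D_spec, res]
  simp only [mul_sum, ← sum_sub_distrib, ← sum_add_distrib]
  refine sum_congr rfl fun j _ => ?_
  have := (den_pos' (c := c) hα hτ j).ne'
  rw [ip_sub_left, ip_resV_φ]
  field_simp
  ring

lemma res_ge {α τ : ℝ} (hα : 0 < α) (hτ : 0 ≤ τ) (f g : Ω → ℝ) :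
    2 * ip c.π f g - α * ip c.π g g - τ * c.D g g ≤ res c α τ f f := by
  rw [res_var hα hτ]
  have h1 := mul_nonneg hα.le (c.isP.ip_self_nonneg (g - resV c α τ f))
  have h2 := mul_nonneg hτ (c.D_nonneg (g - resV c α τ f))
  linarith

lemma res_eq {α τ : ℝ} (hα : 0 < α) (hτ : 0 ≤ τ) (f : Ω → ℝ) :
    2 * ip c.π f (resV c α τ f) - α * ip c.π (resV c α τ f) (resV c α τ f) -
      τ * c.D (resV c α τ f) (resV c α τ f) = res c α τ f f := by
  rw [res_var hα hτ, sub_self]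
  simp [ip, RC.D]

/-- the semigroup is controlled by the resolvent -/
lemma ip_H_le_res {α τ s : ℝ} (hα : 0 < α) (hτ : 0 ≤ τ) (hs : 0 < s) (f : Ω → ℝ) :
    ip c.π f (c.H (τ * s) *ᵥ f) ≤ (α + 1 / s) * res c α τ f f := by
  rw [c.ip_H_spec, res, mul_sum]
  refine sum_le_sum fun j _ => ?_
  have h1 := den_pos' (c := c) hα hτ j
  have hj : 0 ≤ τ * (1 - c.ev j) := mul_nonneg hτ (sub_nonneg.2 (c.ev_le_one j))
  rw [mul_assoc τ, mul_left_comm τ s, mul_div_assoc', le_div_iff₀ h1, mul_right_comm]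
  refine mul_le_mul_of_nonneg_right ?_ (mul_self_nonneg _)
  set l := τ * (1 - c.ev j)
  have e1 : Real.exp (-(s * l)) ≤ 1 := Real.exp_le_one_iff.2 (by nlinarith)
  have e2 : Real.exp (-(s * l)) * (s * l) ≤ 1 := by
    rw [Real.exp_neg, inv_mul_le_iff₀ (Real.exp_pos _)]
    linarith [Real.add_one_le_exp (s * l)]
  have e3 : Real.exp (-(s * l)) * l ≤ 1 / s := by
    rw [le_div_iff₀ hs]; nlinarith
  nlinarith

end Crest.Agent.T157.Soft

end
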