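import Crest.Agent.T157.ChainDec_22
import Crest.Agent.T157.EDef_39

/-!
Row 157, part E (helper22): the heat-bath chain of a positive weight on the cube is a positive
semidefinite reversible chain `hbRC`; dictionary between `EDef_39` and `Chain*_22`.
-/

set_option autoImplicit false

noncomputable section

namespace Crest.Agent.T157.Chain22

open Finset Matrix
open Crest.Agent.T157.E (Cube prob siteM dir dir2 gen hb hbPow hbCt)

section dict

variable {Ω : Type*} [Fintype Ω]

theorem emean_eq (w f : Ω → ℝ) : E.mean w f = mean (prob w) f := rfl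
theorem evar_eq (w f : Ω → ℝ) : E.var w f = var (prob w) f := rfl
theorem eent_eq (w f : Ω → ℝ) : E.ent w f = ent (prob w) f := rfl
theorem etv_eq (p q : Ω → ℝ) : E.tv p q = tv p q := rfl

theorem sum_w_pos [Nonempty Ω] {w : Ω → ℝ} (hw : ∀ x, 0 < w x) : 0 < ∑ x, w x :=
  sum_pos (fun x _ => hw x) univ_nonempty

theorem prob_pos' {w : Ω → ℝ} (hw : ∀ x, 0 < w x) (x : Ω) : 0 < prob w x :=
  haveI : Nonempty Ω := ⟨x⟩
  div_pos (hw x) (sum_w_pos hw)

theorem isP_prob' [Nonempty Ω] {w : Ω → ℝ} (hw : ∀ x, 0 < w x) : IsP (prob w) :=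
  ⟨fun x => (prob_pos' hw x).le, by
    simp only [prob]; rw [← sum_div, div_self (sum_w_pos hw).ne']⟩

theorem ecov_eq [Nonempty Ω] {w : Ω → ℝ} (hw : ∀ x, 0 < w x) (f g : Ω → ℝ) :
    E.cov w f g = ip (prob w) f g - mean (prob w) f * mean (prob w) g := by
  have h1 := (isP_prob' hw).sum1
  have : ∀ x, prob w x * ((f x - E.mean w f) * (g x - E.mean w g)) =
      prob w x * (f x * g x) - E.mean w g * (prob w x * f x) - E.mean w f * (prob w x * g x) +
        E.mean w f * E.mean w g * prob w x := fun x => by ring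
  simp only [E.cov, this, sum_add_distrib, sum_sub_distrib, ← mul_sum, h1]
  simp only [ip, mean, E.mean]; ring

end dict

variable {n : ℕ}

/-- single-site heat-bath kernel -/
def sk (w : Cube n → ℝ) (i : Fin n) : Matrix (Cube n) (Cube n) ℝ := fun x y =>
  if (∀ j : Fin n, j ≠ i → y j = x j) then
    w y / (w (Function.update x i true) + w (Function.update x i false))
  else 0

theorem sum_ite_site (x : Cube n) (i : Fin n) (F : Cube n → ℝ) :
    ∑ y, (if (∀ j : Fin n, j ≠ i → y j = x j) then F y else 0) =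
      F (Function.update x i true) + F (Function.update x i false) := by
  rw [← sum_filter]
  have : univ.filter (fun y : Cube n => ∀ j : Fin n, j ≠ i → y j = x j) =
      {Function.update x i true, Function.update x i false} := by
    ext y
    simp only [mem_filter, mem_univ, true_and, mem_insert, mem_singleton]
    constructor
    · intro h
      have hy : y = Function.update x i (y i) := Function.eq_update_iff.2 ⟨rfl, h⟩
      rcases Bool.eq_false_or_eq_true (y i) with hb | hb
      · left; rw [hy, hb]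
      · right; rw [hy, hb]
    · rintro (rfl | rfl) j hj <;> exact Function.update_of_ne hj _ _
  rw [this, sum_pair]
  intro h
  have := congrFun h i
  simp at this

theorem update_eq_of_agree {x y : Cube n} {i : Fin n} (h : ∀ j : Fin n, j ≠ i → y j = x j)
    (b : Bool) : Function.update y i b = Function.update x i b := by
  funext j
  by_cases hj : j = i
  · subst hj; simp
  · rw [Function.update_of_ne hj, Function.update_of_ne hj, h j hj]

theorem sk_mulVec (w : Cube n → ℝ) (i : Fin n) (f : Cube n → ℝ) : sk w i *ᵥ f = siteM w f i := by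
  funext x
  simp only [mulVec, dotProduct, sk, ite_mul, zero_mul]
  rw [sum_ite_site x i fun y =>
    w y / (w (Function.update x i true) + w (Function.update x i false)) * f y, siteM]
  ring

theorem siteM_update (w f : Cube n → ℝ) (i : Fin n) (x : Cube n) (b : Bool) :
    siteM w f i (Function.update x i b) = siteM w f i x := by
  simp only [siteM, Function.update_idem]

theorem hb_eq (w : Cube n → ℝ) (x y : Cube n) : hb w x y = (1 / n) * ∑ i, sk w i x y := rfl

theorem hb_mulVec (w f : Cube n → ℝ) (x : Cube n) :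
    (Matrix.of (hb w) *ᵥ f) x = (1 / n) * ∑ i, siteM w f i x := by
  simp only [← sk_mulVec, mulVec, dotProduct, of_apply, hb_eq, mul_sum, sum_mul]
  rw [sum_comm]
  exact sum_congr rfl fun i _ => sum_congr rfl fun y _ => by ring

variable {w : Cube n → ℝ}

theorem den_pos (hw : ∀ x, 0 < w x) (i : Fin n) (x : Cube n) :
    0 < w (Function.update x i true) + w (Function.update x i false) := add_pos (hw _) (hw _)

theorem siteM_const (hw : ∀ x, 0 < w x) (a : ℝ) (i : Fin n) (x : Cube n) :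
    siteM w (fun _ => a) i x = a := by
  have := den_pos hw i x
  rw [siteM]; field_simp

theorem siteM_idem (hw : ∀ x, 0 < w x) (f : Cube n → ℝ) (i : Fin n) :
    siteM w (siteM w f i) i = siteM w f i := by
  funext x
  have := den_pos hw i x
  conv_lhs => rw [siteM, siteM_update, siteM_update]
  field_simp

/-- the single-site chain -/
def siteRC (hw : ∀ x, 0 < w x) (i : Fin n) : RC (Cube n) where
  π := prob w
  P := sk w i
  pos := prob_pos' hw
  sum1 := (isP_prob' hw).sum1
  nn x y := by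
    unfold sk; split_ifs
    · exact (div_pos (hw y) (den_pos hw i x)).le
    · exact le_rfl
  row x := by
    have := congrFun (sk_mulVec w i fun _ => 1) x
    rw [siteM_const hw] at this
    simpa [mulVec, dotProduct] using this
  rev x y := by
    unfold sk
    by_cases h : ∀ j : Fin n, j ≠ i → y j = x j
    · rw [if_pos h, if_pos fun j hj => (h j hj).symm, update_eq_of_agree h, update_eq_of_agree h,
        prob, prob]
      ring
    · rw [if_neg h, if_neg fun h' => h fun j hj => (h' j hj).symm]; simp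

@[simp] theorem siteRC_π (hw : ∀ x, 0 < w x) (i : Fin n) : (siteRC hw i).π = prob w := rfl
@[simp] theorem siteRC_P (hw : ∀ x, 0 < w x) (i : Fin n) : (siteRC hw i).P = sk w i := rfl

theorem ip_siteM_symm (hw : ∀ x, 0 < w x) (i : Fin n) (f g : Cube n → ℝ) :
    ip (prob w) f (siteM w g i) = ip (prob w) (siteM w f i) g := by
  have := (siteRC hw i).ip_P_symm f g
  rwa [siteRC_π, siteRC_P, sk_mulVec, sk_mulVec] at this

theorem mean_siteM (hw : ∀ x, 0 < w x) (i : Fin n) (f : Cube n → ℝ) :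
    mean (prob w) (siteM w f i) = mean (prob w) f := by
  have := (siteRC hw i).mean_P f
  rwa [siteRC_π, siteRC_P, sk_mulVec] at this

theorem ip_siteM_siteM (hw : ∀ x, 0 < w x) (i : Fin n) (f g : Cube n → ℝ) :
    ip (prob w) (siteM w f i) (siteM w g i) = ip (prob w) f (siteM w g i) := by
  rw [← ip_siteM_symm hw, siteM_idem hw]

theorem site_D (hw : ∀ x, 0 < w x) (i : Fin n) (f g : Cube n → ℝ) :
    (siteRC hw i).D f g = ∑ x, prob w x * ((f x - siteM w f i x) * (g x - siteM w g i x)) := by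
  change _ = ip (prob w) (f - siteM w f i) (g - siteM w g i)
  rw [RC.D, siteRC_π, siteRC_P, sk_mulVec, ip_sub_left, ip_sub_right (prob w) (siteM w f i),
    ip_siteM_siteM hw, ← ip_siteM_symm hw, sub_self, sub_zero]

theorem dir2_eq_sum (hw : ∀ x, 0 < w x) (f g : Cube n → ℝ) :
    dir2 w f g = ∑ i, (siteRC hw i).D f g := by
  simp only [site_D, dir2]

theorem dir_eq_dir2' (w f : Cube n → ℝ) : dir w f = dir2 w f f := by
  simp only [dir, dir2, sq]

theorem dir2_eq_gen (hw : ∀ x, 0 < w x) (f g : Cube n → ℝ) :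
    dir2 w f g = -ip (prob w) f (gen w g) := by
  rw [dir2_eq_sum hw]
  have : gen w g = ∑ i, (siteM w g i - g) := by
    funext x; simp only [gen, Finset.sum_apply, Pi.sub_apply]
  rw [this, ip_sum_right, ← sum_neg_distrib]
  refine sum_congr rfl fun i _ => ?_
  rw [RC.D, siteRC_π, siteRC_P, sk_mulVec, ip_sub_right, ip_sub_right, neg_sub]

/-- the heat-bath chain (uniform site) -/
def hbRC (hn : 0 < n) (hw : ∀ x, 0 < w x) : RC (Cube n) where
  π := prob w
  P := Matrix.of (hb w)
  pos := prob_pos' hw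
  sum1 := (isP_prob' hw).sum1
  nn x y := by
    rw [of_apply, hb_eq]
    exact mul_nonneg (by positivity) (sum_nonneg fun i _ => (siteRC hw i).nn x y)
  row x := by
    simp only [of_apply, hb_eq, ← mul_sum]
    rw [sum_comm]
    have : ∀ i, ∑ y, sk w i x y = 1 := fun i => (siteRC hw i).row x
    have hn' : (n : ℝ) ≠ 0 := by exact_mod_cast hn.ne'
    simp [this, hn']
  rev x y := by
    simp only [of_apply, hb_eq]
    rw [mul_left_comm, mul_left_comm (prob w y)]
    congr 1
    rw [mul_sum, mul_sum]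
    exact sum_congr rfl fun i _ => (siteRC hw i).rev x y

section
variable (hn : 0 < n) (hw : ∀ x, 0 < w x)

@[simp] theorem hbRC_π : (hbRC hn hw).π = prob w := rfl
theorem hbRC_P (x y : Cube n) : (hbRC hn hw).P x y = hb w x y := rfl

theorem hbRC_mulVec (f : Cube n → ℝ) :
    (hbRC hn hw).P *ᵥ f = (1 / n : ℝ) • ∑ i, siteM w f i := by
  funext x
  rw [Pi.smul_apply, Finset.sum_apply, smul_eq_mul]
  exact hb_mulVec w f x

theorem gen_eq (f : Cube n → ℝ) (x : Cube n) :
    gen w f x = n * (((hbRC hn hw).P *ᵥ f) x - f x) := by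
  have hn' : (n : ℝ) ≠ 0 := by exact_mod_cast hn.ne'
  rw [hbRC_mulVec, Pi.smul_apply, Finset.sum_apply, smul_eq_mul, gen, sum_sub_distrib]
  simp only [sum_const, card_univ, Fintype.card_fin, nsmul_eq_mul]
  field_simp

theorem dir2_eq_D (f g : Cube n → ℝ) : dir2 w f g = n * (hbRC hn hw).D f g := by
  rw [dir2_eq_gen hw, RC.D, hbRC_π, ← ip_smul_right, ip, ip, ← sum_neg_distrib]
  refine sum_congr rfl fun x _ => ?_
  rw [gen_eq hn hw]
  simp only [Pi.smul_apply, Pi.sub_apply, smul_eq_mul]; ring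

theorem dir_eq_D (f : Cube n → ℝ) : dir w f = n * (hbRC hn hw).D f f := by
  rw [dir_eq_dir2', dir2_eq_D hn hw]

theorem hbRC_psd : (hbRC hn hw).PSD := fun f => by
  rw [hbRC_mulVec, hbRC_π, ip_smul_right, ip_sum_right]
  refine mul_nonneg (by positivity) (sum_nonneg fun i _ => ?_)
  rw [← ip_siteM_siteM hw]
  exact (isP_prob' hw).ip_self_nonneg _

theorem hbPow_eq (k : ℕ) (x y : Cube n) : hbPow w k x y = ((hbRC hn hw).P ^ k) x y := by
  induction k generalizing y with
  | zero => rw [pow_zero, one_apply]; rfl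
  | succ k ih => rw [pow_succ, mul_apply]; simp only [hbPow, ih, hbRC_P]

theorem hbPow_eq' (k : ℕ) (x : Cube n) : hbPow w k x = ((hbRC hn hw).P ^ k) x :=
  funext (hbPow_eq hn hw k x)

theorem hbCt_eq (t : ℝ) (x y : Cube n) : hbCt w t x y = (hbRC hn hw).H (n * t) x y := by
  simp only [hbCt, RC.H, poi, hbPow_eq hn hw]

theorem hbCt_eq' (t : ℝ) (x : Cube n) : hbCt w t x = (hbRC hn hw).H (n * t) x :=
  funext (hbCt_eq hn hw t x)

theorem lsi_iff (C : ℝ) :
    (∀ f : Cube n → ℝ, E.ent w (fun x => f x ^ 2) ≤ C * dir w f) ↔ (hbRC hn hw).LSI (C * n) := by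
  simp only [RC.LSI, dir_eq_D hn hw, mul_assoc, eent_eq, hbRC_π]

theorem poinc_iff (C : ℝ) :
    (∀ f : Cube n → ℝ, E.var w f ≤ C * dir w f) ↔ (hbRC hn hw).Poinc (C * n) := by
  simp only [RC.Poinc, dir_eq_D hn hw, mul_assoc, evar_eq, hbRC_π]

end

/-! ### The semigroup `P_t` acting on functions (rate one per site), all `n` -/

/-- `P_t f` -/
def sg (w : Cube n → ℝ) (t : ℝ) (f : Cube n → ℝ) : Cube n → ℝ := fun x => ∑ y, hbCt w t x y * f y

theorem sg_eq (hn : 0 < n) (hw : ∀ x, 0 < w x) (t : ℝ) (f : Cube n → ℝ) :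
    sg w t f = (hbRC hn hw).H (n * t) *ᵥ f := by
  funext x; simp only [sg, hbCt_eq hn hw, mulVec, dotProduct]

theorem sg_zero (hn : 0 < n) (hw : ∀ x, 0 < w x) (f : Cube n → ℝ) : sg w 0 f = f := by
  rw [sg_eq hn hw, mul_zero, RC.H_zero, one_mulVec]

theorem sg_add (hn : 0 < n) (hw : ∀ x, 0 < w x) (s t : ℝ) (f : Cube n → ℝ) :
    sg w (s + t) f = sg w s (sg w t f) := by
  rw [sg_eq hn hw, sg_eq hn hw, sg_eq hn hw, mul_add, RC.H_add, mulVec_mulVec]

theorem hbCt_add (hn : 0 < n) (hw : ∀ x, 0 < w x) (s t : ℝ) (x y : Cube n) :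
    hbCt w (s + t) x y = ∑ z, hbCt w s x z * hbCt w t z y := by
  simp only [hbCt_eq hn hw, mul_add, RC.H_add, mul_apply]

theorem hbCt_rev (hn : 0 < n) (hw : ∀ x, 0 < w x) (t : ℝ) (x y : Cube n) :
    prob w x * hbCt w t x y = prob w y * hbCt w t y x := by
  simp only [hbCt_eq hn hw]; exact (hbRC hn hw).H_rev _ x y

theorem isP_hbCt (hn : 0 < n) (hw : ∀ x, 0 < w x) {t : ℝ} (ht : 0 ≤ t) (x : Cube n) :
    IsP (hbCt w t x) := by
  rw [hbCt_eq' hn hw]
  exact ((hbRC hn hw).heat (n * t) (by positivity)).isP_row x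

theorem isP_hbPow (hn : 0 < n) (hw : ∀ x, 0 < w x) (k : ℕ) (x : Cube n) :
    IsP (hbPow w k x) := by
  rw [hbPow_eq' hn hw]
  exact ((hbRC hn hw).pow k).isP_row x

theorem hasDerivAt_sg (hn : 0 < n) (hw : ∀ x, 0 < w x) (f : Cube n → ℝ) (x : Cube n) (t : ℝ) :
    HasDerivAt (fun s => sg w s f x) (gen w (sg w t f) x) t := by
  simp only [sg_eq hn hw]
  have h := ((hbRC hn hw).hasDerivAt_H_mulVec f x (n * t)).comp t
    ((hasDerivAt_id t).const_mul (n : ℝ))
  refine HasDerivAt.congr_deriv h ?_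
  rw [gen_eq hn hw]; ring

theorem ip_sg_symm (hn : 0 < n) (hw : ∀ x, 0 < w x) (t : ℝ) (f g : Cube n → ℝ) :
    ip (prob w) f (sg w t g) = ip (prob w) (sg w t f) g := by
  rw [sg_eq hn hw, sg_eq hn hw]; exact (hbRC hn hw).ip_H_symm _ f g

theorem mean_sg (hn : 0 < n) (hw : ∀ x, 0 < w x) (t : ℝ) (f : Cube n → ℝ) :
    mean (prob w) (sg w t f) = mean (prob w) f := by
  rw [sg_eq hn hw]; exact (hbRC hn hw).mean_H _ f

/-- entropy decay along `P_t` under an LSI for `dir` -/
theorem ent_sg_le (hn : 0 < n) (hw : ∀ x, 0 < w x) {C : ℝ} (hC : 0 < C)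
    (h : ∀ f : Cube n → ℝ, E.ent w (fun x => f x ^ 2) ≤ C * dir w f) {f : Cube n → ℝ}
    (hf : ∀ x, 0 ≤ f x) {t : ℝ} (ht : 0 ≤ t) :
    E.ent w (sg w t f) ≤ Real.exp (-(4 / C * t)) * E.ent w f := by
  have hn' : (0 : ℝ) < n := by exact_mod_cast hn
  have h1 := ((lsi_iff hn hw C).1 h).ent_H_le (by positivity) hf (t := n * t) (by positivity)
  have e : 4 / (C * n) * (n * t) = 4 / C * t := by field_simp
  rw [e] at h1
  rw [sg_eq hn hw]; exact h1

/-- variance decay along `P_t` under a Poincaré inequality for `dir` -/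
theorem var_sg_le (hn : 0 < n) (hw : ∀ x, 0 < w x) {C : ℝ} (hC : 0 < C)
    (h : ∀ f : Cube n → ℝ, E.var w f ≤ C * dir w f) (f : Cube n → ℝ) {t : ℝ} (ht : 0 ≤ t) :
    E.var w (sg w t f) ≤ Real.exp (-(2 / C * t)) * E.var w f := by
  have hn' : (0 : ℝ) < n := by exact_mod_cast hn
  have h1 := ((poinc_iff hn hw C).1 h).var_H_le (by positivity) f (t := n * t) (by positivity)
  have e : 2 / (C * n) * (n * t) = 2 / C * t := by field_simp
  rw [e] at h1
  rw [sg_eq hn hw]; exact h1

theorem tv_hbCt_anti (hn : 0 < n) (hw : ∀ x, 0 < w x) (x : Cube n) {s t : ℝ} (hst : s ≤ t) :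
    E.tv (hbCt w t x) (prob w) ≤ E.tv (hbCt w s x) (prob w) := by
  rw [hbCt_eq' hn hw, hbCt_eq' hn hw]
  exact (hbRC hn hw).tv_H_anti x (mul_le_mul_of_nonneg_left hst (Nat.cast_nonneg n))

theorem tv_hbPow_anti (hn : 0 < n) (hw : ∀ x, 0 < w x) (x : Cube n) {k l : ℕ} (hkl : k ≤ l) :
    E.tv (hbPow w l x) (prob w) ≤ E.tv (hbPow w k x) (prob w) := by
  rw [hbPow_eq' hn hw, hbPow_eq' hn hw]
  exact (hbRC hn hw).tv_pow_anti x hkl

end Crest.Agent.T157.Chain22

end
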