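import Crest.Agent.T157.Top_97
import Crest.Agent.T157.ChainHB_22

/-!
# Row 157 (helper50): the glue statements `GPoin` and `GSlow`
-/

set_option autoImplicit false

noncomputable section

namespace Crest.Agent.T157.TopA

open MeasureTheory Filter Topology Finset Matrix
open Crest.ProbabilityR.SpinGlassDynamics
open Crest.Agent.T157.E Crest.Agent.T157.Top

variable {n : ℕ} {w : Cube n → ℝ}

theorem lsi_poin (hn : 0 < n) (hw : ∀ x, 0 < w x) {K : ℝ} (h : Lsi w K) : Poin w K :=
  (Chain22.poinc_iff hn hw K).2 ((Chain22.lsi_iff hn hw K).1 h).poinc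

theorem gibbsWeight_pos (β : ℝ) (g : Pair n → ℝ) (x : Cube n) : 0 < gibbsWeight n β g x :=
  Real.exp_pos _

theorem gPoin : GPoin := fun h β hβ hβ1 => by
  obtain ⟨K, hK⟩ := h β hβ hβ1
  refine ⟨K, hK.mono ?_⟩
  filter_upwards [eventually_gt_atTop 0] with n hn g hg
  exact lsi_poin hn (gibbsWeight_pos β g) hg

theorem spin_sq (b : Bool) : spin b ^ 2 = 1 := by cases b <;> simp [spin]

theorem dot_update (v : Fin n → ℝ) (x : Cube n) (i : Fin n) (b : Bool) :
    v ⬝ᵥ sv (Function.update x i b) = v ⬝ᵥ sv x - v i * spin (x i) + v i * spin b := by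
  have h : sv (Function.update x i b) = sv x + Pi.single i (spin b - spin (x i)) := by
    funext j
    by_cases hj : j = i
    · subst hj; simp [sv]
    · simp [sv, Function.update_of_ne hj, Pi.single_eq_of_ne hj]
  rw [h, dotProduct_add, dotProduct_single]; ring

theorem lin_sub_siteM (hw : ∀ x, 0 < w x) (v : Fin n → ℝ) (i : Fin n) (x : Cube n) :
    v ⬝ᵥ sv x - siteM w (fun x => v ⬝ᵥ sv x) i x =
      v i * (spin (x i) - siteM w (fun x => spin (x i)) i x) := by
  have := Chain22.den_pos hw i x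
  simp only [siteM, dot_update, Function.update_self]
  field_simp
  ring

theorem site_var_le (hw : ∀ x, 0 < w x) (i : Fin n) :
    ∑ x, prob w x * (spin (x i) - siteM w (fun x => spin (x i)) i x) ^ 2 ≤ 1 := by
  have h1 := Chain22.ip_siteM_siteM hw i (fun x => spin (x i)) (fun x => spin (x i))
  have h2 := (Chain22.isP_prob' hw).sum1
  simp only [Chain22.ip] at h1
  have h3 : 0 ≤ ∑ x, prob w x *
      (siteM w (fun x => spin (x i)) i x * siteM w (fun x => spin (x i)) i x) :=
    sum_nonneg fun x _ => mul_nonneg (Chain22.prob_pos' hw x).le (mul_self_nonneg _)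
  have e : ∀ x : Cube n, prob w x * (spin (x i) - siteM w (fun x => spin (x i)) i x) ^ 2 =
      prob w x - 2 * (prob w x * (spin (x i) * siteM w (fun x => spin (x i)) i x)) +
      prob w x * (siteM w (fun x => spin (x i)) i x * siteM w (fun x => spin (x i)) i x) := by
    intro x
    have := spin_sq (x i)
    linear_combination prob w x * this
  simp only [e, sum_add_distrib, sum_sub_distrib, ← mul_sum]
  linarith

/-- the Dirichlet form of a linear observable -/
theorem dir_lin_le (hw : ∀ x, 0 < w x) (v : Fin n → ℝ) :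
    dir w (fun x => v ⬝ᵥ sv x) ≤ v ⬝ᵥ v := by
  unfold dir
  rw [dotProduct]
  refine sum_le_sum fun i _ => ?_
  have e : ∀ x : Cube n, prob w x * (v ⬝ᵥ sv x - siteM w (fun x => v ⬝ᵥ sv x) i x) ^ 2 =
      v i * v i * (prob w x * (spin (x i) - siteM w (fun x => spin (x i)) i x) ^ 2) := by
    intro x; rw [lin_sub_siteM hw]; ring
  simp only [e, ← mul_sum]
  exact mul_le_of_le_one_right (mul_self_nonneg _) (site_var_le hw i)

theorem slow_of_soft (hw : ∀ x, 0 < w x) {K : ℝ} (hK : 0 < K) {v : Fin n → ℝ} (hv : v ⬝ᵥ v = 1)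
    (h : K ≤ var w fun x => v ⬝ᵥ sv x) : Slow w K := by
  refine ⟨fun x => v ⬝ᵥ sv x, hK.trans_le h, le_trans ?_ h⟩
  exact mul_le_of_le_one_right hK.le (hv ▸ dir_lin_le hw v)

theorem gSlow : GSlow := fun h δ hδ => by
  refine (h δ hδ).mono ?_
  filter_upwards [eventually_gt_atTop 0] with n hn g hg
  obtain ⟨v, hv, hg⟩ := hg
  exact slow_of_soft (gibbsWeight_pos 1 g) (Real.rpow_pos_of_pos (by exact_mod_cast hn) _) hv hg

end Crest.Agent.T157.TopA

end
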