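import Crest.Agent.T157.StDef_87
import Crest.Agent.T157.PathQ_90

/-!
# Row 157, part C: weak Poincaré inequality `Soft.WPStmt`, definitions and leaves (helper93)

* `CrudeStmt`: the non-sharp output of the transport argument at channel time `K / n^{2/3}`;
* `SphWPStmt`: weak Poincaré inequality of the spherical model for `C¹` observables;
* its three leaves: `ChartStmt` (one-coordinate charts of the sphere), `LocStmt` (local Poincaré
  inequality of the Gaussian reference, by rotation), `MassStmt` (the charts carry the mass);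
* `WPGlue`: smoothing through the Gaussian channel and `CloseStmt` give `Soft.WPStmt`.
-/

set_option autoImplicit false

noncomputable section

namespace Crest.Agent.T157.Wp

open MeasureTheory ProbabilityTheory Matrix Filter Topology Finset Real
open scoped ENNReal
open Crest.ProbabilityR.SpinGlassDynamics Crest.Agent.T157.E Crest.Agent.T157.St

/-- expected posterior variance at channel time `s` -/
def eV (n : ℕ) (g : Pair n → ℝ) (s : ℝ) (u : Cube n → ℝ) : ℝ :=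
  slE sv (gibbsWeight n 1 g) s fun _ y => var (post sv (gibbsWeight n 1 g) s y) u

/-- expected squared posterior covariance with the spins at channel time `s` -/
def eC (n : ℕ) (g : Pair n → ℝ) (s : ℝ) (u : Cube n → ℝ) : ℝ :=
  slE sv (gibbsWeight n 1 g) s fun _ y =>
    covV (post sv (gibbsWeight n 1 g) s y) u sv ⬝ᵥ covV (post sv (gibbsWeight n 1 g) s y) u sv

/-- **crude transport bound** at time `s = K / N`, `N = n^{2/3}` (`C` and `K` may depend on `δ`) -/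
def CrudeStmt : Prop := ∀ δ ε : ℝ, 0 < δ → 0 < ε → ∃ C K : ℝ, 0 < K ∧ ∀ᶠ n in atTop,
  disorderLaw n {g | ∃ u : Cube n → ℝ, (∀ x, |u x| ≤ 1) ∧
    C * (Soft.N23 n * dirichletForm n 1 g u) + δ <
      eV n g (K / Soft.N23 n) u + K ^ 2 / Soft.N23 n * eC n g (K / Soft.N23 n) u} ≤
    ENNReal.ofReal ε

section abs
variable {ι : Type*} [Fintype ι]

/-- a bounded `C¹` observable `F` with gradient `V` -/
structure HG (F : (ι → ℝ) → ℝ) (V : (ι → ℝ) → ι → ℝ) : Prop where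
  bdd : ∀ x, |F x| ≤ 1
  cF : Continuous F
  cV : Continuous V
  der : ∀ (x : ℝ → ι → ℝ) (x' : ι → ℝ) (θ : ℝ), HasDerivAt x x' θ →
    HasDerivAt (fun s => F (x s)) (V (x θ) ⬝ᵥ x') θ

/-- spherical law with precisions `a` (`nuD n η t = nuA (fun k => η k) t` by `rfl`) -/
def nuA (a : ι → ℝ) (t : ℝ) : Measure (ι → ℝ) :=
  (sphR ι √t).tilted fun x => -(1 / 2) * ∑ k, a k * x k ^ 2

/-- the room left for the coordinate `i` -/
def qq (t : ℝ) (i : ι) (b : ι → ℝ) : ℝ := t - (b ⬝ᵥ b - b i ^ 2)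

variable [DecidableEq ι]

/-- the chart of the half sphere `x i > 0` -/
def lift (t : ℝ) (i : ι) (b : ι → ℝ) : ι → ℝ := Function.update b i √(qq t i b)

/-- weighted length off the coordinate `i` -/
def UU (c : ι → ℝ) (i : ι) (b : ι → ℝ) : ℝ := ∑ k ∈ univ.erase i, c k * b k ^ 2

/-- the good region of the chart -/
def GG (c : ι → ℝ) (t : ℝ) (i : ι) (r R ρ : ℝ) : Set (ι → ℝ) :=
  {b | r ≤ qq t i b ∧ qq t i b ≤ R ∧ UU c i b ≤ ρ}

end abs

lemma nuD_eq (n : ℕ) (η : ℕ → ℝ) (t : ℝ) : nuD n η t = nuA (fun k : Fin n => η k) t := rfl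

/-- disintegration of the spherical law in a one-coordinate chart -/
def ChartStmt : Prop := ∀ (ι : Type) [Fintype ι] [DecidableEq ι] [Nonempty ι] (a : ι → ℝ)
  (w t : ℝ), 0 < t → (∀ k, 0 < w + a k) → ∃ Z : ℝ, 0 < Z ∧
    (∀ F : (ι → ℝ) → ℝ, Continuous F →
      Tendsto (fun ε => (∫ x in shell t ε, F x ∂gs 0 fun k => 1 / (w + a k)) / ε) (𝓝[>] 0)
        (𝓝 (Z * ∫ x, F x ∂nuA a t))) ∧
    ∀ (i : ι) (r : ℝ), 0 < r → ∀ Φ : (ι → ℝ) → ℝ≥0∞, Measurable Φ →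
      ENNReal.ofReal Z * ∫⁻ x in {x | r ≤ x i}, Φ x ∂nuA a t =
        ∫⁻ b in {b | r ≤ √(qq t i b)}, Φ (lift t i b) * ENNReal.ofReal
          (gaussianPDFReal 0 (1 / (w + a i)).toNNReal √(qq t i b) / (2 * √(qq t i b)))
          ∂gs 0 fun k => 1 / (w + a k)

/-- local Poincaré inequality in the chart, for the Gaussian reference -/
def LocStmt : Prop := ∀ (ι : Type) [Fintype ι] [DecidableEq ι] (c : ι → ℝ) (t : ℝ) (i : ι)
  (r R ρ : ℝ), (∀ k, 0 < c k) → (∀ k, c k ≤ 1) → 0 < r → 0 ≤ ρ → 32 * ρ ≤ r ^ 2 →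
    gs 0 c (GG c t i r R ρ)ᶜ ≤ ENNReal.ofReal (1 / 4) →
    ∀ (F : (ι → ℝ) → ℝ) (V : (ι → ℝ) → ι → ℝ), HG F V → ∃ m : ℝ, |m| ≤ 1 ∧
      ∫⁻ b in GG c t i r R ρ, ENNReal.ofReal ((F (lift t i b) - m) ^ 2) ∂gs 0 c ≤
        ENNReal.ofReal (64 * (1 + 4 * ρ / r)) *
          ∫⁻ b in GG c t i (r / 2) (R + r / 2) (2 * ρ),
            ENNReal.ofReal (V (lift t i b) ⬝ᵥ V (lift t i b)) ∂gs 0 c

/-- the charts of the first two coordinates carry the mass, on the sphere and for the reference -/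
def MassStmt : Prop := ∀ L C w₁ κ : ℝ, 0 ≤ L → 0 < κ → ∃ w₀ w r R ρ : ℝ, w₁ ≤ w₀ ∧ w₁ ≤ w ∧
  0 < r ∧ r ≤ R ∧ 0 ≤ ρ ∧ 32 * ρ ≤ r ^ 2 ∧ ∀ᶠ n in atTop, ∀ (η : ℕ → ℝ) (t : ℝ), 0 < t →
    Gd n η t L w₀ C → Gd n η t L w C → ∀ i : Fin n, (i : ℕ) ≤ 1 →
      nuD n η t (GG (cw n η w) t i r R ρ)ᶜ ≤ ENNReal.ofReal κ ∧
      gs 0 (cw n η w) (GG (cw n η w) t i r R ρ)ᶜ ≤ ENNReal.ofReal (1 / 4)

/-- **weak Poincaré inequality of the spherical model** -/
def SphWPStmt : Prop := ∀ L C w₁ κ : ℝ, 0 ≤ L → 0 < κ → ∃ w₀ w β : ℝ, w₁ ≤ w₀ ∧ w₁ ≤ w ∧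
  0 ≤ β ∧ ∀ᶠ n in atTop, ∀ (η : ℕ → ℝ) (t : ℝ), 0 < t → Gd n η t L w₀ C → Gd n η t L w C →
    ∀ (F : (Fin n → ℝ) → ℝ) (V : (Fin n → ℝ) → Fin n → ℝ), HG F V → ∃ m : ℝ, |m| ≤ 1 ∧
      ∫ x, (F x - m) ^ 2 ∂nuD n η t ≤ β * ∫ x, V x ⬝ᵥ V x ∂nuD n η t + κ

def SphWPGlue : Prop := ChartStmt → LocStmt → MassStmt → SphWPStmt
def WPGlue : Prop := GoodStmt → CloseStmt → SphWPStmt → CrudeStmt → Soft.WPStmt

end Crest.Agent.T157.Wp

end
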