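import Crest.Agent.T157.TrDef_64
import Crest.Agent.T157.Glue_34
import Crest.Agent.T157.WpDef_93
import Crest.Agent.T157.RecC_77

/-!
# Row 157, part C1 (helper64): asymptotic glue, crude form domination and (I1)
-/

set_option autoImplicit false
set_option linter.unusedSectionVars false

noncomputable section

namespace Crest.Agent.T157.Tr

open MeasureTheory ProbabilityTheory Filter Topology Set Real Matrix
open Crest.ProbabilityR.SpinGlassDynamics
open Crest.Agent.T157.SL Crest.Agent.T157.E Crest.Agent.T157.Eig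
open Crest.Agent.T157.Soft (N23 N23_pos)

section gen
variable {Ω : Type*} [Fintype Ω] {ι : Type} [Fintype ι] [DecidableEq ι]
variable {φ : Ω → ι → ℝ} {w : Ω → ℝ} {ε ε' p : ℝ → ℝ} {s0 s t1 ρ C C' z z' : ℝ}

theorem HC.mono (h : HC φ w ε p s0 t1 ρ C z) (h1 : s0 ≤ s) (h2 : s ≤ t1) (hC : C ≤ C')
    (hz : z ≤ z') : HC φ w ε p s t1 ρ C' z' :=
  ⟨h.ha.mono h1 h2 le_rfl, h2, h.C1.trans hC, h.tC.trans hC, h.εC.trans hC,
    ((h.ha.eps_le le_rfl h1 h2 le_rfl le_rfl).trans h.iC).trans hC, h.ρz.trans hz⟩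

theorem pb_anti (hw : Wt w) (m : ℕ) {r : ℝ} (h : ε r ≤ ε' r) : pb φ w ε' m r ≤ pb φ w ε m r := by
  refine ex_mono hw (mg_pb hw ε' m r) (mg_pb hw ε m r) fun y => ?_
  refine mul_le_mul_of_nonneg_right ?_ (pow_nonneg (by linarith [nx_nonneg (φ := φ) (w := w) (r, y)]) m)
  rcases ig_cases (φ := φ) (w := w) (ε := ε) (r, y) with j | j
  · rcases ig_cases (φ := φ) (w := w) (ε := ε') (r, y) with k | k
    · rw [j.2, k.2]
    · exact absurd (j.1.trans (by simpa using h)) (not_le.2 k.1)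
  · rw [j.2]
    linarith [ig_nonneg (φ := φ) (w := w) (ε := ε') (r, y)]

theorem mg_QX (hw : Wt w) (Q : Matrix ι ι ℝ) (r : ℝ) : MG fun y => opn (Q * Xp φ w (r, y)) := by
  refine ((mg_nx (φ := φ) hw r).const_mul (opn Q)).of_le ?_ fun y => ?_
  · exact (continuous_opn.comp (continuous_const.matrix_mul
      ((cont_X hw).comp (continuous_const.prodMk continuous_id)))).measurable
  · rw [abs_of_nonneg (opn_nonneg _), abs_of_nonneg (mul_nonneg (opn_nonneg _) (nx_nonneg _))]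
    exact opn_mul_le _ _

theorem law_BH_le (hw : Wt w) (P : Matrix ι ι ℝ) {θ r o : ℝ} (hθ : 0 < θ)
    (h : ex φ w (fun q => opn ((1 - P) * Xp φ w q)) r ≤ θ * o) :
    (law φ w r).real (BH φ w P θ r) ≤ o := by
  have m := mg_QX (φ := φ) hw (1 - P) r
  refine le_of_mul_le_mul_left (le_trans ?_ h) hθ
  rw [← ex_ind hw (meas_BH hw P θ r), ← ex_const_mul]
  refine ex_mono hw ((mg_ind (meas_BH hw P θ r)).const_mul _) m fun y => ?_
  rcases ind_cases (BH φ w P θ r) y with j | j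
  · simp only [j.2, mul_one]; exact le_of_lt j.1
  · simp only [j.2, mul_zero]; exact opn_nonneg _

end gen

variable {n : ℕ} {w : Cube n → ℝ} {N e e' K K' t t0 t1 C C' G δ c : ℝ}

theorem HS.mono (h : HS w N e K t0 t1 C) (hN : 0 < N) (hK : K ≤ K') (h0 : K' / N ≤ t0)
    (hC : C ≤ C') (he : e ≤ e') : HS w N e' K' t0 t1 C' := by
  obtain ⟨ε, p, ρ, h1, h2, h3, h4⟩ := h
  have k : K / N ≤ K' / N := by gcongr
  exact ⟨ε, p, ρ, h1.mono k (h0.trans h2) hC (by gcongr), h2,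
    fun r hr => (h3 r ⟨k.trans hr.1, hr.2⟩).trans he,
    ((h1.ha.eps_le le_rfl k h0 le_rfl h2).trans h4).trans he⟩

theorem P1.mono (h : P1 w t G δ) (hw : ∀ x, 0 < w x) {G' δ' : ℝ} (hG : G ≤ G') (hδ : δ ≤ δ') :
    P1 w t G' δ' := fun κ _ f b hb => (h κ f b hb).trans (add_le_add
  (mul_le_mul_of_nonneg_right hG (Finset.sum_nonneg fun _ _ => Ent.dir_nonneg hw _))
  (mul_le_mul_of_nonneg_right hδ (sq_nonneg b)))

theorem var_sqrt_le {Ω : Type*} [Fintype Ω] {u F : Ω → ℝ} (hu : Wt u) (hF : ∀ x, 1 / 4 ≤ F x) :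
    var u (fun x => √(F x)) ≤ var u F := by
  have m : 1 / 4 ≤ mean u F := by simpa [hu.mean_const] using hu.mean_mono (f := fun _ => 1 / 4) hF
  have h1 := Rec.mean_sub_sq hu (fun x => √(F x)) √(mean u F)
  have h2 : mean u (fun x => (√(F x) - √(mean u F)) ^ 2) ≤ mean u fun x => (F x - mean u F) ^ 2 := by
    refine hu.mean_mono fun x => ?_
    have a1 : 1 / 2 ≤ √(F x) := le_sqrt_of_sq_le (by linarith [hF x])
    have a2 : 1 / 2 ≤ √(mean u F) := le_sqrt_of_sq_le (by linarith)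
    have a3 : F x - mean u F = (√(F x) - √(mean u F)) * (√(F x) + √(mean u F)) := by
      have := sq_sqrt (show 0 ≤ F x by linarith [hF x])
      have := sq_sqrt (show 0 ≤ mean u F by linarith)
      nlinarith
    rw [a3, mul_pow]
    exact le_mul_of_one_le_right (sq_nonneg _) (one_le_pow₀ (by linarith))
  have h3 : mean u (fun x => (F x - mean u F) ^ 2) = var u F := rfl
  nlinarith [sq_nonneg (mean u (fun x => √(F x)) - √(mean u F))]

/-- linearisation of the entropy inequality -/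
theorem tail_var (hw : ∀ x, 0 < w x) (h : Glue.Tail w t K δ) (hK : 0 ≤ K) (hδ : 0 ≤ δ)
    (f : Cube n → ℝ) :
    ex sv w (fun q => var (pw sv w q) f) t ≤ 3 * K * dir w f + 3 * δ * var w f := by
  have hW := Wt.of_pos hw
  obtain ⟨M, hM⟩ := Ent.exists_abs_le f
  set a := 1 / (2 * (|M| + 1)) with ha
  have a0 : 0 < a := by positivity
  have b : ∀ x, |a * f x| ≤ 1 / 2 := fun x => by
    rw [abs_mul, abs_of_pos a0, ha, div_mul_eq_mul_div, div_le_div_iff₀ (by positivity) two_pos]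
    linarith [hM x, le_abs_self M]
  have b1 : ∀ x, 1 / 2 ≤ 1 + a * f x := fun x => by linarith [(abs_le.1 (b x)).1]
  have b2 : ∀ x, 1 + a * f x ≤ 3 / 2 := fun x => by linarith [(abs_le.1 (b x)).2]
  have h1 := h (fun x => 1 + a * f x) fun x => by linarith [b1 x]
  have h2 : ∑ i, Ent.entS w (fun x => 1 + a * f x) i ≤ a ^ 2 * dir w f := by
    rw [Ent.dir_eq_sum, Finset.mul_sum]
    refine Finset.sum_le_sum fun i _ => ?_
    have := Ent.entS_le_dirS_of_ge hw (by norm_num) b1 i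
    rw [Ent.dirS_lin hw] at this
    linarith
  have h3 : var w (fun x => √(1 + a * f x)) ≤ a ^ 2 * var w f :=
    (var_sqrt_le hW fun x => by linarith [b1 x]).trans_eq (Ent.var_lin (Chain22.isP_prob' hw) f a)
  have h4 : a ^ 2 * ex sv w (fun q => var (pw sv w q) f) t ≤
      3 * ex sv w (fun q => ent (pw sv w q) fun x => 1 + a * f x) t := by
    rw [← ex_const_mul, ← ex_const_mul]
    refine ex_mono hW ((mg_var hW f t).const_mul _)
      (((eg_ent (I := univ) hW _).mg trivial).const_mul _) fun y => ?_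
    have hp : Chain22.IsP (prob (pw sv w (t, y))) :=
      Chain22.isP_prob' fun x => mul_pos (hw x) (exp_pos _)
    have k1 := Ent.var_le_ent_of_le hp (fun x => by linarith [b1 x]) b2
    rw [Ent.var_lin hp] at k1
    change a ^ 2 * Chain22.var (prob (pw sv w (t, y))) f ≤
      3 * Chain22.ent (prob (pw sv w (t, y))) fun x => 1 + a * f x
    linarith
  refine le_of_mul_le_mul_left ?_ (pow_pos a0 2)
  nlinarith [mul_le_mul_of_nonneg_left h2 hK, mul_le_mul_of_nonneg_left h3 hδ]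

theorem p1_of_tail (hw : ∀ x, 0 < w x) (h : Glue.Tail w t K δ) (hK : 0 ≤ K) (hδ : 0 ≤ δ) :
    P1 w t (3 * K) (3 * δ) := fun κ _ f b hb => by
  have h1 := Finset.sum_le_sum fun a (_ : a ∈ Finset.univ) => tail_var hw h hK hδ (f a)
  rw [Finset.sum_add_distrib, ← Finset.mul_sum, ← Finset.mul_sum] at h1
  have h2 := mul_le_mul_of_nonneg_left (sum_var_le (Wt.of_pos hw) hb) (show 0 ≤ 3 * δ by positivity)
  exact h1.trans (by linarith)

theorem tendsto_N23 : Tendsto N23 atTop atTop :=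
  (tendsto_rpow_atTop (by norm_num)).comp tendsto_natCast_atTop_atTop

theorem ev_div_le (K : ℝ) (ht : 0 < t) : ∀ᶠ n in atTop, 0 < N23 n ∧ K / N23 n ≤ t :=
  (tendsto_N23.eventually_gt_atTop 0).and
    ((tendsto_const_nhds.div_atTop tendsto_N23).eventually (ge_mem_nhds ht))

theorem p1Stmt_of_tail (h : Glue.TailStmt) : P1Stmt disorderLaw := fun t ε ht hε => by
  obtain ⟨K, K0, c, c0, h⟩ := h 1 ⟨one_pos, le_rfl⟩ t ht.le (.inr ht)
  refine ⟨3 * K, fun e he => (off_of_whp h hε).mono ?_⟩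
  have l : Tendsto (fun n : ℕ => exp (-(c / 2 * n))) atTop (𝓝 0) :=
    tendsto_exp_neg_atTop_nhds_zero.comp (tendsto_natCast_atTop_atTop.const_mul_atTop (half_pos c0))
  filter_upwards [Glue.ev_small 3 c0, l.eventually (ge_mem_nhds he), eventually_ge_atTop 1]
    with n h1 h2 hn g hg
  refine (p1_of_tail (gibbsWeight_pos 1 g) hg K0 (exp_pos _).le).mono (gibbsWeight_pos 1 g) le_rfl ?_
  have n1 : (1 : ℝ) ≤ n := by exact_mod_cast hn
  have h3 : N23 n ≤ n := by
    simpa using rpow_le_rpow_of_exponent_le n1 (show (2 / 3 : ℝ) ≤ 1 by norm_num)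
  rw [le_div_iff₀ (N23_pos hn)]
  nlinarith [exp_pos (-(c * n))]

variable {μ : ∀ n, Measure (Pair n → ℝ)}

theorem ap_of (hA : AStmt μ) (hP : P1Stmt μ) : APStmt μ := fun ε hε => by
  obtain ⟨t1, C, t1p, C1, hA⟩ := hA (ε / 2) (half_pos hε)
  obtain ⟨G, hP⟩ := hP t1 (ε / 2) t1p (half_pos hε)
  refine ⟨t1, max C G, t1p, le_max_of_le_left C1, fun e he => ?_⟩
  obtain ⟨t0, K, t0p, Kp, hA⟩ := hA e he
  refine ⟨t0, K, t0p, Kp, ((hA.and (hP e he) (half_pos hε).le (half_pos hε).le).le (by linarith)).mono ?_⟩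
  filter_upwards [ev_div_le K t0p] with n hn g hg
  exact ⟨hg.1.mono hn.1 le_rfl hn.2 (le_max_left _ _) le_rfl,
    hg.2.mono (gibbsWeight_pos 1 g) (le_max_right _ _) le_rfl⟩

theorem exists_sq {κ : Type*} [Fintype κ] {f : κ → Cube n → ℝ} {B : ℝ} (h : ∀ x, ∑ a, f a x ^ 2 ≤ B) :
    ∃ b : ℝ, 0 ≤ b ∧ B = b ^ 2 :=
  ⟨√B, sqrt_nonneg _, (sq_sqrt ((Finset.sum_nonneg fun _ _ => sq_nonneg _).trans (h default))).symm⟩

theorem P1.le (h : P1 w t C (e / N)) (hN : 0 < N) (he : 0 ≤ e) {κ : Type} [Fintype κ]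
    {f : κ → Cube n → ℝ} {b : ℝ} (hb : ∀ x, ∑ a, f a x ^ 2 ≤ b ^ 2) :
    Ph sv w f t ≤ C * ∑ a, dir w (f a) + (b * √(e / N)) ^ 2 := by
  rw [mul_pow, sq_sqrt (by positivity), mul_comm (b ^ 2)]
  exact h κ f b hb

theorem crudeV_of (h : APStmt μ) : CrudeV μ := fun ε hε => by
  obtain ⟨t1, C, t1p, C1, h⟩ := h ε hε
  have G1 := one_le_Gam (C := C) (by linarith)
  have Γ0 : 0 < Gam C ^ 2 + C ^ 2 := by positivity
  refine ⟨t1, Gam C ^ 2 + C ^ 2, t1p, Γ0, fun e he => ?_⟩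
  obtain ⟨t0, K, t0p, Kp, h⟩ := h (e / (Gam C ^ 2 + C ^ 2)) (by positivity)
  refine ⟨K, Kp, h.mono ?_⟩
  filter_upwards [eventually_ge_atTop 1] with n hn g hg κ _ f B hB s hs
  obtain ⟨⟨ε, p, ρ, h1, -⟩, h2⟩ := hg
  obtain ⟨b, b0, rfl⟩ := exists_sq hB
  have N0 := N23_pos hn
  have hW := Wt.of_pos (gibbsWeight_pos 1 g)
  have E0 : 0 ≤ ∑ a, dir (gibbsWeight n 1 g) (f a) :=
    Finset.sum_nonneg fun _ _ => Ent.dir_nonneg (gibbsWeight_pos 1 g) _
  have k1 := h1.psi_le hW b0 hB E0 (h2.le N0 (by positivity) hB) hs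
  have k2 := h1.Ph_le hW b0 hB E0 (h2.le N0 (by positivity) hB) hs
  have k3 : N23 n * ((Gam C ^ 2 + C ^ 2) * (∑ a, dir (gibbsWeight n 1 g) (f a) +
      (b * √(e / (Gam C ^ 2 + C ^ 2) / N23 n)) ^ 2)) =
      (Gam C ^ 2 + C ^ 2) * (N23 n * ∑ a, dir (gibbsWeight n 1 g) (f a)) + e * b ^ 2 := by
    rw [mul_pow, sq_sqrt (by positivity)]; field_simp
  rw [← k3]
  exact ⟨mul_le_mul_of_nonneg_left (k1.trans (mul_le_mul_of_nonneg_right
    (by nlinarith) (by positivity))) N0.le, mul_le_mul_of_nonneg_left k2 N0.le⟩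

/-- the input of the weak Poincaré inequality -/
theorem crude_of (h : CrudeV disorderLaw) : Wp.CrudeStmt := fun δ ε hδ hε => by
  obtain ⟨t1, Γ, t1p, Γp, h⟩ := h ε hε
  obtain ⟨K, Kp, h⟩ := h (δ / 2) (half_pos hδ)
  refine ⟨2 * Γ, max K 1, lt_max_of_lt_left Kp, ?_⟩
  filter_upwards [h, ev_div_le (max K 1) t1p] with n h1 hn
  refine le_trans (measure_mono fun g hg => ?_) h1
  intro hp
  obtain ⟨u, hu, hg⟩ := hg
  have k := hp Unit (fun _ => u) 1 (fun x => by simpa [sq_le_one_iff_abs_le_one] using hu x)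
    (max K 1 / N23 n) ⟨div_le_div_of_nonneg_right (le_max_left _ _) hn.1.le, hn.2⟩
  have e1 : Ph sv (gibbsWeight n 1 g) (fun _ : Unit => u) (max K 1 / N23 n) =
      Wp.eV n g (max K 1 / N23 n) u := by simp only [Ph, Finset.univ_unique, Finset.sum_singleton]; rfl
  have e2 : psi sv (gibbsWeight n 1 g) (fun _ : Unit => u) (max K 1 / N23 n) =
      Wp.eC n g (max K 1 / N23 n) u := by
    simp only [psi, dd, Finset.univ_unique, Finset.sum_singleton]; rfl
  have v0 := Ph_nonneg (φ := sv) (g := fun _ : Unit => u) (Wt.of_pos (gibbsWeight_pos 1 g))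
    (max K 1 / N23 n)
  simp only [Finset.univ_unique, Finset.sum_singleton, e1, e2] at k v0
  rw [dirichletForm_eq] at hg
  have e3 : N23 n * ((max K 1 / N23 n) ^ 2 * Wp.eC n g (max K 1 / N23 n) u) =
      max K 1 ^ 2 / N23 n * Wp.eC n g (max K 1 / N23 n) u := by have := hn.1; field_simp
  have e4 : N23 n * (max K 1 / N23 n * Wp.eV n g (max K 1 / N23 n) u) =
      max K 1 * Wp.eV n g (max K 1 / N23 n) u := by have := hn.1; field_simp
  rw [e3, e4] at k
  nlinarith [k.1, k.2, mul_le_mul_of_nonneg_right (le_max_right K 1) v0]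

/-- **(I1)** from the static inputs -/
theorem i1_of (hA : APStmt disorderLaw) (hH : HStmt) {k : ℝ} (hk : 0 < k) (hD : DStar k) :
    I1Stmt k := fun e ε he hε => by
  have ε3 : 0 < ε / 3 := by positivity
  obtain ⟨t1, C, t1p, C1, hA⟩ := hA (ε / 3) ε3
  set η := min (1 / 2) (e / (4 * (1 + k))) with hη
  have η0 : 0 < η := by positivity
  have η1 : η ≤ 1 / 2 := min_le_left _ _
  have η2 : 4 * (1 + k) * η ≤ e := by
    have := min_le_right (1 / 2) (e / (4 * (1 + k)))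
    rwa [le_div_iff₀ (by positivity), mul_comm] at this
  obtain ⟨δ, M, C', δ0, M1, C0, hc⟩ := i1_core C1 η0
  set d := min δ (e / (2 * (k * C'))) with hd
  have d0 : 0 < d := by positivity
  have d2 : 2 * (k * C') * d ≤ e := by
    have := min_le_right δ (e / (2 * (k * C')))
    rwa [le_div_iff₀ (by positivity), mul_comm] at this
  obtain ⟨t0, K0, t0p, K0p, hA⟩ := hA d d0
  refine ⟨K0, K0p, fun K hK => ?_⟩
  have Kp : 0 < K := K0p.trans_le hK
  have M0 : 0 < M := by linarith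
  obtain ⟨L, Lp, hH⟩ := hH (M * (M * K)) (δ * (d / (M * K))) (ε / 3) (by positivity) ε3
  obtain ⟨τ, τp, hD⟩ := hD t0 η (d / (M * K)) L (ε / 3) t0p η0 (by positivity) Lp ε3
  refine Off.of_fst (ν := fun n => gv (Fin n))
    ((((hA.fst.and hH ε3.le ε3.le).and hD (by positivity) ε3.le).le (by linarith)).mono ?_)
  filter_upwards [ev_div_le K t0p, ev_div_le K δ0, ev_div_le (M * (M * K)) τp]
    with n n1 n2 n3 q hq κ _ f B hB
  obtain ⟨⟨⟨h1, h2⟩, h3⟩, h4⟩ := hq
  obtain ⟨b, b0, rfl⟩ := exists_sq hB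
  have N0 := n1.1
  obtain ⟨ε, p, ρ, a1, a2, a3, a4⟩ := h1.mono N0 hK n1.2 le_rfl le_rfl
  obtain ⟨t, ht, a5⟩ := h4 κ f b b0 hB
  have hw := gibbsWeight_pos 1 q.1
  have hW := Wt.of_pos hw
  have E0 : 0 ≤ ∑ a, dir (gibbsWeight n 1 q.1) (f a) :=
    Finset.sum_nonneg fun _ _ => Ent.dir_nonneg hw _
  have e1 : M * (M * (K / N23 n)) = M * (M * K) / N23 n := by ring
  have k1 := hc sv _ ε p _ t0 t1 ρ _ δ (d / (M * K)) (Pw (Wmat n q.1 q.2) (L / N23 n)) hW a1 a2 n2.2
    (fun r hr => (a3 r hr).trans (min_le_left _ _)) (a4.trans (min_le_left _ _))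
    (opn_one_sub_Pw_le (Wmat_isHermitian _ _) _) δ0.le le_rfl
    (fun r hr => law_BH_le hW _ δ0 (h3 r ⟨(div_pos Kp N0).le.trans hr.1, e1 ▸ hr.2⟩))
    (by rw [sq_sqrt (by positivity)]; exact le_of_eq (by field_simp)) f b _ _ t b0 hB E0
    (h2.le N0 d0.le hB) ⟨e1 ▸ n3.2.trans ht.1, ht.2⟩ a5 (by positivity)
  have k2 := mul_le_mul_of_nonneg_left k1 (mul_pos hk N0).le
  rw [mul_pow, sq_sqrt (by positivity)] at k2
  set E := ∑ a, dir (gibbsWeight n 1 q.1) (f a)
  have e2 : k * N23 n * (K / N23 n * Ph sv (gibbsWeight n 1 q.1) f (K / N23 n)) =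
      k * K * Ph sv (gibbsWeight n 1 q.1) f (K / N23 n) := by field_simp
  have e3 : k * N23 n * ((1 + η) * (((1 + η) * E + η * b ^ 2 / N23 n) / k) + η * E +
      C' * (b ^ 2 * (d / N23 n))) =
      ((1 + η) ^ 2 + k * η) * (N23 n * E) + ((1 + η) * η + k * C' * d) * b ^ 2 := by
    field_simp; ring
  rw [e2, e3] at k2
  have kη : 0 ≤ k * η := by positivity
  refine k2.trans (add_le_add (mul_le_mul_of_nonneg_right (by nlinarith) (by positivity))
    (mul_le_mul_of_nonneg_right (by nlinarith) (by positivity)))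

/-! ### the power form of (A#) -/

theorem int_rpow {a b γ : ℝ} (hN : 0 < N) (ha : 0 < a) (hab : a ≤ b) (hγ : γ ≠ 0) :
    ∫ u in a..b, (N * u) ^ γ / u = (N * b) ^ γ / γ - (N * a) ^ γ / γ := by
  have p : ∀ u ∈ Icc a b, 0 < u := fun u hu => ha.trans_le hu.1
  refine intervalIntegral.integral_eq_sub_of_hasDerivAt (f := fun u => (N * u) ^ γ / γ)
    (fun u hu => ?_) (ContinuousOn.intervalIntegrable_of_Icc hab ?_)
  · rw [uIcc_of_le hab] at hu
    have h0 := mul_pos hN (p u hu)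
    have := (((hasDerivAt_id u).const_mul N).rpow_const (p := γ) (.inl h0.ne')).div_const γ
    refine this.congr_deriv ?_
    have := (p u hu).ne'
    simp only [id, rpow_sub_one h0.ne']
    field_simp
  · exact ((continuousOn_const.mul continuousOn_id).rpow_const fun u hu =>
      .inl (mul_pos hN (p u hu)).ne').div continuousOn_id fun u hu => (p u hu).ne'

theorem int_rpow_neg {a b γ : ℝ} (hN : 0 < N) (ha : 0 < a) (hab : a ≤ b) (hγ : 0 < γ) :
    ∫ u in a..b, (N * u) ^ (-γ) / u ≤ (N * a) ^ (-γ) / γ := by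
  rw [int_rpow hN ha hab (neg_ne_zero.2 hγ.ne'), div_neg, div_neg]
  have : 0 ≤ (N * b) ^ (-γ) / γ := by have := ha.trans_le hab; positivity
  linarith

theorem int_eps_le {a b : ℝ} (hN : 0 < N) (ha : 0 < a) (hab : a ≤ b) (hc : 0 < c) (hC : 0 ≤ C) :
    ∫ u in a..b, C * (u ^ c + (N * u) ^ (-c)) / u ≤ C * (b ^ c + (N * a) ^ (-c)) / c := by
  have p : ∀ u ∈ Icc a b, 0 < u := fun u hu => ha.trans_le hu.1
  have i : ∀ N γ : ℝ, 0 < N → IntervalIntegrable (fun u => (N * u) ^ γ / u) volume a b :=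
    fun N γ hN => ContinuousOn.intervalIntegrable_of_Icc hab
      (((continuousOn_const.mul continuousOn_id).rpow_const fun u hu =>
        .inl (mul_pos hN (p u hu)).ne').div continuousOn_id fun u hu => (p u hu).ne')
  have h1 := int_rpow one_pos ha hab hc.ne'
  have h2 := int_rpow_neg hN ha hab hc
  have h3 : 0 ≤ (1 * a) ^ c / c := by positivity
  have e : ∀ u : ℝ, C * (u ^ c + (N * u) ^ (-c)) / u = C * ((1 * u) ^ c / u + (N * u) ^ (-c) / u) :=
    fun u => by rw [one_mul]; ring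
  simp only [e]
  rw [intervalIntegral.integral_const_mul, intervalIntegral.integral_add (i 1 c one_pos) (i N _ hN),
    mul_div_assoc, add_div]
  rw [one_mul b] at h1
  exact mul_le_mul_of_nonneg_left (by linarith) hC

theorem CovB.mono (hw : Wt w) (h : CovB w N C c K t1) (hN : 0 < N) (hK : 0 < K) (hC : C ≤ C')
    (hK' : K ≤ K') : CovB w N C' c K' t1 := fun r hr => by
  have k : K / N ≤ K' / N := by gcongr
  have r0 : 0 < r := (div_pos hK hN).trans_le (k.trans hr.1)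
  refine (pb_anti hw 3 ?_).trans ((h r ⟨k.trans hr.1, hr.2⟩).trans ?_) <;>
    exact mul_le_mul_of_nonneg_right hC (by positivity)

theorem CovB.hs (h : CovB w N C c K t1) (hN : 0 < N) (hK : 1 ≤ K) (hC : 0 ≤ C) (hc : 0 < c)
    (h0 : K / N ≤ t0) (h1 : t0 ≤ t1) (hC' : 1 + t1 + C * (t1 ^ c + 1) * (1 + 1 / c) ≤ C')
    (e1 : C * (t0 ^ c + K ^ (-c)) * (1 + 1 / c) ≤ e) (e2 : C * K ^ (-c) * (1 + 2 / c) ^ 2 ≤ e) :
    HS w N e K t0 t1 C' := by
  have s0 : 0 < K / N := by positivity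
  have p : ∀ u ∈ Icc (K / N) t1, 0 < u := fun u hu => s0.trans_le hu.1
  have t0p := s0.trans_le h0
  have t1p := t0p.trans_le h1
  have eK : N * (K / N) = K := by field_simp
  have K1 : K ^ (-c) ≤ 1 := rpow_le_one_of_one_le_of_nonpos hK (by linarith)
  have K0 : 0 < K ^ (-c) := by positivity
  have q : ∀ u, K / N ≤ u → (N * u) ^ (-c) ≤ K ^ (-c) := fun u hu =>
    rpow_le_rpow_of_nonpos (by linarith) (by rwa [div_le_iff₀' hN] at hu) (by linarith)
  have c1 : ∀ γ : ℝ, ContinuousOn (fun u => (N * u) ^ γ) (Icc (K / N) t1) := fun γ =>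
    (continuousOn_const.mul continuousOn_id).rpow_const fun u hu => .inl (mul_pos hN (p u hu)).ne'
  have b1 : ∀ t, K / N ≤ t → ∀ r ∈ Icc (K / N) t, C * (r ^ c + (N * r) ^ (-c)) ≤
      C * (t ^ c + K ^ (-c)) := fun t ht r hr => mul_le_mul_of_nonneg_left
    (add_le_add (rpow_le_rpow (s0.le.trans hr.1) hr.2 hc.le) (q r hr.1)) hC
  have b2 : ∀ t, K / N ≤ t → ∫ u in K / N..t, C * (u ^ c + (N * u) ^ (-c)) / u ≤
      C * (t ^ c + K ^ (-c)) * (1 / c) := fun t ht => by
    simpa only [eK, mul_one_div] using int_eps_le hN s0 ht hc hC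
  have x0 : 0 ≤ C * (t0 ^ c + K ^ (-c)) := by positivity
  have x1 : 0 ≤ C * (t1 ^ c + 1) := by positivity
  have x2 : C * (t1 ^ c + K ^ (-c)) ≤ C * (t1 ^ c + 1) := by gcongr
  have ic : 0 < 1 / c := by positivity
  have e0 : 0 ≤ e := le_trans (by positivity) e2
  refine ⟨fun r => C * (r ^ c + (N * r) ^ (-c)), fun r => C * (N * r) ^ (-(1 + c)), √(e / N),
    ⟨⟨s0, continuousOn_const.mul ((continuousOn_id.rpow_const fun u hu => .inl (p u hu).ne').add
      (c1 _)), fun r hr => by have := p r hr; positivity, continuousOn_const.mul (c1 _), h,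
      sqrt_nonneg _, fun r hr => ?_, ?_⟩, h0.trans h1, by nlinarith, by nlinarith,
      (b1 t1 (h0.trans h1) t1 ⟨h0.trans h1, le_rfl⟩).trans (by nlinarith),
      (b2 t1 (h0.trans h1)).trans (by nlinarith), le_rfl⟩, h1,
    fun r hr => (b1 t0 h0 r hr).trans (by nlinarith), (b2 t0 h0).trans (by nlinarith)⟩
  · have r0 := p r hr
    have : r * (C * (N * r) ^ (-(1 + c))) = C * (N * r) ^ (-c) / N := by
      rw [neg_add, rpow_add (by positivity), rpow_neg_one]; field_simp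
    rw [this, sq_sqrt (by positivity)]
    refine div_le_div_of_nonneg_right (le_trans ?_ e2) hN.le
    exact (mul_le_mul_of_nonneg_left (q r hr.1) hC).trans
      (le_mul_of_one_le_right (by positivity) (one_le_pow₀ (by have : 0 < 2 / c := by positivity
                                                               linarith)))
  · have e3 : ∫ u in K / N..t1, √(C * (N * u) ^ (-(1 + c)) / u) =
        ∫ u in K / N..t1, √(C / N) * ((N * u) ^ (-(c / 2)) / u) := by
      refine intervalIntegral.integral_congr fun u hu => ?_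
      rw [uIcc_of_le (h0.trans h1)] at hu
      have u0 := p u hu
      have : C * (N * u) ^ (-(1 + c)) / u = C / N * ((N * u) ^ (-(c / 2)) / u) ^ 2 := by
        rw [div_pow, ← rpow_natCast ((N * u) ^ _), ← rpow_mul (by positivity), neg_add,
          rpow_add (by positivity), rpow_neg_one, show -(c / 2) * ((2 : ℕ) : ℝ) = -c by push_cast; ring]
        field_simp
      simp only [this]
      rw [sqrt_mul (by positivity), sqrt_sq (by positivity)]
    rw [e3, intervalIntegral.integral_const_mul]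
    have h2 := int_rpow_neg hN s0 (h0.trans h1) (half_pos hc)
    rw [eK] at h2
    refine (mul_le_mul_of_nonneg_left h2 (sqrt_nonneg _)).trans (le_sqrt_of_sq_le ?_)
    rw [mul_pow, sq_sqrt (by positivity), div_pow, ← rpow_natCast (K ^ _), ← rpow_mul (by positivity),
      show -(c / 2) * ((2 : ℕ) : ℝ) = -c by push_cast; ring]
    have : C / N * (K ^ (-c) / (c / 2) ^ 2) = C * K ^ (-c) * (2 / c) ^ 2 / N := by field_simp
    rw [this]
    refine div_le_div_of_nonneg_right (le_trans ?_ e2) hN.le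
    gcongr
    linarith

theorem aStmt_of_sharp (h : ASharp μ) : AStmt μ := fun ε hε => by
  obtain ⟨C, c, K, t1, c0, K0, t1p, h⟩ := h ε hε
  set C₁ := max C 0 with hC
  have C0 : 0 ≤ C₁ := le_max_right _ _
  refine ⟨t1, 1 + t1 + C₁ * (t1 ^ c + 1) * (1 + 1 / c), t1p, by
    have : 0 ≤ C₁ * (t1 ^ c + 1) * (1 + 1 / c) := by positivity
    linarith, fun e he => ?_⟩
  have l1 : Tendsto (fun K : ℝ => K ^ (-c)) atTop (𝓝 0) := tendsto_rpow_neg_atTop c0
  have l2 : Tendsto (fun t : ℝ => t ^ c) (𝓝[>] 0) (𝓝 0) := by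
    have := (continuousAt_rpow_const 0 c (.inr c0.le)).tendsto.mono_left
      (nhdsWithin_le_nhds (s := Ioi 0))
    rwa [zero_rpow c0.ne'] at this
  have l3 := (l1.const_mul C₁).mul_const (1 + 1 / c)
  have l4 := (l1.const_mul C₁).mul_const ((1 + 2 / c) ^ 2)
  have l5 := (l2.const_mul C₁).mul_const (1 + 1 / c)
  rw [mul_zero, zero_mul] at l3 l4 l5
  obtain ⟨K', a1, a2, a3, a4⟩ := ((eventually_ge_atTop K).and ((eventually_ge_atTop 1).and
    ((l3.eventually (ge_mem_nhds (half_pos he))).and (l4.eventually (ge_mem_nhds he))))).exists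
  obtain ⟨t0, a5, a6⟩ := ((l5.eventually (ge_mem_nhds (half_pos he))).and
    (Ioc_mem_nhdsGT t1p)).exists
  refine ⟨t0, K', a6.1, by linarith, h.mono ?_⟩
  filter_upwards [ev_div_le K' a6.1] with n hn g hg
  exact (hg.mono (Wt.of_pos (gibbsWeight_pos 1 g)) hn.1 K0 (le_max_left C 0) a1).hs hn.1 a2 C0 c0
    hn.2 a6.2 le_rfl (by linarith) a4

theorem crudeStmt_of (hA : AStmt disorderLaw) (hT : Glue.TailStmt) : Wp.CrudeStmt :=
  crude_of (crudeV_of (ap_of hA (p1Stmt_of_tail hT)))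

end Crest.Agent.T157.Tr

end
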