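import Crest.Agent.R339.Kahane

/-!
# Row 157, part E: Gaussian interpolation and the Sudakov–Fernique inequality (helper84)

* `kahane_gen`: Gaussian comparison under the hypothesis `∑ (Cov A - Cov B) a b * H a b ≤ 0`
  (the proof is the one of `R339.Guerra.kahane`); `kahane_two`: two different index sets;
* `smax β m h = β⁻¹ log ∑ exp (β (h a + m a))` and its derivatives;
* `sudakov_smax`, `sudakov`: Sudakov–Fernique with deterministic shifts.
-/

set_option autoImplicit false
set_option linter.unusedSectionVars false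

noncomputable section

namespace Crest.Agent.T157.Sf

open MeasureTheory ProbabilityTheory Real Crest.Agent.R339.Guerra

variable {I ι κ : Type*} [Fintype I] [Fintype ι] [Fintype κ]

/-- Gaussian interpolation inequality, general form -/
theorem kahane_gen [DecidableEq ι] {F : (I → ℝ) → ℝ} {P : I → (I → ℝ) → ℝ}
    {H : I → I → (I → ℝ) → ℝ} {c : ℝ}
    (hF : ∀ h, HasFDerivAt F (dual fun a => P a h) h)
    (hP : ∀ a h, HasFDerivAt (P a) (dual fun b => H a b h) h)
    (hHc : ∀ a b, Continuous (H a b)) (hc : 0 ≤ c)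
    (hPb : ∀ a h, |P a h| ≤ c) (hHb : ∀ a b h, |H a b h| ≤ c)
    (A B : I → ι → ℝ) (hAB : ∀ a b j, A a j * B b j = 0)
    (hsum : ∀ h, ∑ a, ∑ b, (∑ j, A a j * A b j - ∑ j, B a j * B b j) * H a b h ≤ 0) :
    ∫ g, F (lin A g) ∂(G ι) ≤ ∫ g, F (lin B g) ∂(G ι) := by
  classical
  set M : ℝ → I → ι → ℝ := fun θ a j => sin θ * A a j + cos θ * B a j with hM
  set M' : ℝ → I → ι → ℝ := fun θ a j => cos θ * A a j - sin θ * B a j with hM'
  have hFc : Continuous F := continuous_iff_continuousAt.2 fun h => (hF h).continuousAt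
  have hPc : ∀ a, Continuous (P a) := fun a =>
    continuous_iff_continuousAt.2 fun h => (hP a h).continuousAt
  have hMd : ∀ g θ, HasDerivAt (fun θ => lin (M θ) g) (lin (M' θ) g) θ := by
    intro g θ
    rw [hasDerivAt_pi]
    intro a
    unfold lin
    refine HasDerivAt.fun_sum fun j _ => ?_
    have h1 := ((hasDerivAt_sin θ).mul_const (A a j)).add ((hasDerivAt_cos θ).mul_const (B a j))
    have h2 := h1.mul_const (g j)
    refine h2.congr_deriv ?_
    simp only [hM']; ring
  -- the bound
  set bd : (ι → ℝ) → ℝ := fun g => c * ∑ a, ∑ j, (|A a j| + |B a j|) * |g j| with hbd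
  have hbdi : Integrable bd (G ι) := by
    refine Integrable.const_mul ?_ _
    refine integrable_finsetSum _ fun a _ => integrable_finsetSum _ fun j _ => ?_
    exact (integrable_coord j).abs.const_mul _
  have hM'b : ∀ θ g a, |lin (M' θ) g a| ≤ ∑ j, (|A a j| + |B a j|) * |g j| := by
    intro θ g a
    unfold lin
    refine (Finset.abs_sum_le_sum_abs _ _).trans (Finset.sum_le_sum fun j _ => ?_)
    rw [abs_mul]
    refine mul_le_mul_of_nonneg_right ?_ (abs_nonneg _)
    simp only [hM']
    refine (abs_sub _ _).trans ?_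
    rw [abs_mul, abs_mul]
    have h1 := abs_cos_le_one θ
    have h2 := abs_sin_le_one θ
    have h3 := abs_nonneg (A a j)
    have h4 := abs_nonneg (B a j)
    nlinarith
  have hderiv : ∀ θ, HasDerivAt (fun θ => ∫ g, F (lin (M θ) g) ∂(G ι))
      (∫ g, ∑ a, P a (lin (M θ) g) * lin (M' θ) g a ∂(G ι)) θ := by
    intro θ
    refine (hasDerivAt_integral_of_dominated_loc_of_deriv_le (𝕜 := ℝ) (μ := G ι)
      (F := fun θ g => F (lin (M θ) g))
      (F' := fun θ g => ∑ a, P a (lin (M θ) g) * lin (M' θ) g a) (x₀ := θ)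
      (bound := bd) Filter.univ_mem ?_ ?_ ?_ ?_ hbdi ?_).2
    · exact Filter.Eventually.of_forall fun θ' =>
        (hFc.comp (continuous_lin _)).aestronglyMeasurable
    · exact integrable_comp_lin hF hc hPb _
    · have hcc : Continuous fun g : ι → ℝ => ∑ a, P a (lin (M θ) g) * lin (M' θ) g a :=
        continuous_finsetSum _ fun a _ => ((hPc a).comp (continuous_lin _)).mul
          ((continuous_apply a).comp (continuous_lin _))
      exact hcc.aestronglyMeasurable
    · refine Filter.Eventually.of_forall fun g θ' _ => ?_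
      rw [Real.norm_eq_abs, hbd]
      simp only
      rw [Finset.mul_sum]
      refine (Finset.abs_sum_le_sum_abs _ _).trans (Finset.sum_le_sum fun a _ => ?_)
      rw [abs_mul]
      exact mul_le_mul (hPb a _) (hM'b θ' g a) (abs_nonneg _) hc
    · refine Filter.Eventually.of_forall fun g θ' _ => ?_
      have := (hF (lin (M θ') g)).comp_hasDerivAt θ' (hMd g θ')
      refine this.congr_deriv ?_
      rw [dual_apply]
  have hstein : ∀ θ a j, ∫ g, g j * P a (lin (M θ) g) ∂(G ι) =
      ∫ g, ∑ b, H a b (lin (M θ) g) * M θ b j ∂(G ι) := by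
    intro θ a j
    refine steinG j (C := c) (C' := ∑ b, c * |M θ b j|)
      ((hPc a).comp (continuous_lin _)) ?_ ?_ (fun g => hPb a _) ?_
    · refine Continuous.measurable ?_
      refine continuous_finsetSum _ fun b _ => ?_
      exact ((hHc a b).comp (continuous_lin _)).mul continuous_const
    · intro g
      have h1 := hasDerivAt_lin_update (M θ) g j (g j)
      have h2 : HasFDerivAt (P a) (dual fun b => H a b (lin (M θ) g))
          (lin (M θ) (Function.update g j (g j))) := by
        rw [Function.update_eq_self]; exact hP a _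
      have h3 := h2.comp_hasDerivAt (g j) h1
      refine h3.congr_deriv ?_
      rw [dual_apply]
    · intro g
      refine (Finset.abs_sum_le_sum_abs _ _).trans (Finset.sum_le_sum fun b _ => ?_)
      rw [abs_mul]
      exact mul_le_mul_of_nonneg_right (hHb a b _) (abs_nonneg _)
  have hiH : ∀ θ a b, Integrable (fun g => H a b (lin (M θ) g)) (G ι) := fun θ a b =>
    (integrable_const c).mono' ((hHc a b).comp (continuous_lin _)).aestronglyMeasurable
      (Filter.Eventually.of_forall fun g => hHb a b _)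
  have hiP : ∀ θ a j, Integrable (fun g => g j * P a (lin (M θ) g)) (G ι) := by
    intro θ a j
    refine ((integrable_coord j).norm.const_mul c).mono' ?_
      (Filter.Eventually.of_forall fun x => ?_)
    · exact ((continuous_apply j).mul ((hPc a).comp (continuous_lin _))).aestronglyMeasurable
    · rw [Real.norm_eq_abs, abs_mul, Real.norm_eq_abs, mul_comm]
      exact mul_le_mul_of_nonneg_right (hPb a _) (abs_nonneg _)
  have hval : ∀ θ, ∫ g, ∑ a, P a (lin (M θ) g) * lin (M' θ) g a ∂(G ι) =
      sin θ * cos θ * ∑ a, ∑ b, (∑ j, A a j * A b j - ∑ j, B a j * B b j) *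
        ∫ g, H a b (lin (M θ) g) ∂(G ι) := by
    intro θ
    have e1 : ∀ g, ∑ a, P a (lin (M θ) g) * lin (M' θ) g a =
        ∑ a, ∑ j, M' θ a j * (g j * P a (lin (M θ) g)) := by
      intro g
      refine Finset.sum_congr rfl fun a _ => ?_
      simp only [lin, Finset.mul_sum]
      refine Finset.sum_congr rfl fun j _ => by ring
    simp only [e1]
    rw [integral_finsetSum _ fun a _ => integrable_finsetSum _ fun j _ =>
      (hiP θ a j).const_mul _]
    rw [Finset.mul_sum]
    refine Finset.sum_congr rfl fun a _ => ?_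
    rw [integral_finsetSum _ fun j _ => (hiP θ a j).const_mul _]
    have e2 : ∀ j, ∫ g, M' θ a j * (g j * P a (lin (M θ) g)) ∂(G ι) =
        ∑ b, M' θ a j * M θ b j * ∫ g, H a b (lin (M θ) g) ∂(G ι) := by
      intro j
      rw [integral_const_mul, hstein, integral_finsetSum _ fun b _ => (hiH θ a b).mul_const _,
        Finset.mul_sum]
      refine Finset.sum_congr rfl fun b _ => ?_
      rw [integral_mul_const]; ring
    simp only [e2]
    rw [Finset.sum_comm, Finset.mul_sum]
    refine Finset.sum_congr rfl fun b _ => ?_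
    rw [← Finset.sum_mul, ← mul_assoc]
    congr 1
    rw [← Finset.sum_sub_distrib, Finset.mul_sum]
    refine Finset.sum_congr rfl fun j _ => ?_
    have h1 := hAB a b j
    have h2 := hAB b a j
    simp only [hM, hM']
    have h3 : (cos θ * A a j - sin θ * B a j) * (sin θ * A b j + cos θ * B b j) =
        sin θ * cos θ * (A a j * A b j - B a j * B b j) + cos θ ^ 2 * (A a j * B b j) -
          sin θ ^ 2 * (A b j * B a j) := by ring
    rw [h3, h1, h2]; ring
  have hnp : ∀ θ, 0 ≤ sin θ * cos θ →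
      ∫ g, ∑ a, P a (lin (M θ) g) * lin (M' θ) g a ∂(G ι) ≤ 0 := by
    intro θ hθ
    rw [hval]
    refine mul_nonpos_of_nonneg_of_nonpos hθ ?_
    have e : ∑ a, ∑ b, (∑ j, A a j * A b j - ∑ j, B a j * B b j) *
        ∫ g, H a b (lin (M θ) g) ∂(G ι) =
        ∫ g, ∑ a, ∑ b, (∑ j, A a j * A b j - ∑ j, B a j * B b j) * H a b (lin (M θ) g) ∂(G ι) := by
      rw [integral_finsetSum _ fun a _ => integrable_finsetSum _ fun b _ =>
        (hiH θ a b).const_mul _]
      refine Finset.sum_congr rfl fun a _ => ?_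
      rw [integral_finsetSum _ fun b _ => (hiH θ a b).const_mul _]
      exact Finset.sum_congr rfl fun b _ => (integral_const_mul _ _).symm
    rw [e]
    exact integral_nonpos fun g => hsum _
  have hanti : AntitoneOn (fun θ => ∫ g, F (lin (M θ) g) ∂(G ι)) (Set.Icc 0 (π / 2)) := by
    refine antitoneOn_of_deriv_nonpos (convex_Icc _ _)
      (continuous_iff_continuousAt.2 fun θ => (hderiv θ).continuousAt).continuousOn
      (fun θ _ => (hderiv θ).differentiableAt.differentiableWithinAt) ?_
    intro θ hθ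
    rw [interior_Icc] at hθ
    rw [(hderiv θ).deriv]
    refine hnp θ (mul_nonneg ?_ ?_)
    · exact (sin_pos_of_pos_of_lt_pi hθ.1 (by linarith [hθ.2, pi_pos])).le
    · exact (cos_pos_of_mem_Ioo ⟨by linarith [hθ.1, pi_pos], hθ.2⟩).le
  have h := hanti (Set.left_mem_Icc.2 (by positivity)) (Set.right_mem_Icc.2 (by positivity))
    (by positivity : (0:ℝ) ≤ π / 2)
  have e1 : M (π / 2) = A := by
    ext a j; simp [hM]
  have e0 : M 0 = B := by
    ext a j; simp [hM]
  simp only [e1, e0] at h
  exact h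

/-- two different Gaussian vectors -/
theorem kahane_two {F : (I → ℝ) → ℝ} {P : I → (I → ℝ) → ℝ}
    {H : I → I → (I → ℝ) → ℝ} {c : ℝ}
    (hF : ∀ h, HasFDerivAt F (dual fun a => P a h) h)
    (hP : ∀ a h, HasFDerivAt (P a) (dual fun b => H a b h) h)
    (hHc : ∀ a b, Continuous (H a b)) (hc : 0 ≤ c)
    (hPb : ∀ a h, |P a h| ≤ c) (hHb : ∀ a b h, |H a b h| ≤ c)
    (A : I → ι → ℝ) (B : I → κ → ℝ)
    (hsum : ∀ h, ∑ a, ∑ b, (∑ j, A a j * A b j - ∑ j, B a j * B b j) * H a b h ≤ 0) :
    ∫ g, F (lin A g) ∂(G ι) ≤ ∫ g, F (lin B g) ∂(G κ) := by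
  classical
  have hFc : Continuous F := continuous_iff_continuousAt.2 fun h => (hF h).continuousAt
  have h := kahane_gen (ι := ι ⊕ κ) hF hP hHc hc hPb hHb
    (fun a => Sum.elim (A a) 0) (fun a => Sum.elim 0 (B a))
    (fun a b j => by cases j <;> simp) (by simpa using hsum)
  have e1 := mp_int (mp_comp (Sum.inl : ι → ι ⊕ κ) Sum.inl_injective) (f := fun g => F (lin A g))
    (hFc.comp (continuous_lin A)).aestronglyMeasurable
  have e2 := mp_int (mp_comp (Sum.inr : κ → ι ⊕ κ) Sum.inr_injective) (f := fun g => F (lin B g))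
    (hFc.comp (continuous_lin B)).aestronglyMeasurable
  rw [← e1, ← e2]
  convert h using 4
  · funext a; simp [lin]
  · funext a; simp [lin]

section smax
variable [Nonempty I] (β : ℝ) (m : I → ℝ)

/-- partition function -/
def Zs (h : I → ℝ) : ℝ := ∑ a, exp (β * (h a + m a))
/-- soft maximum -/
def smax (h : I → ℝ) : ℝ := β⁻¹ * log (Zs β m h)
/-- Gibbs weights -/
def pw (a : I) (h : I → ℝ) : ℝ := exp (β * (h a + m a)) / Zs β m h

/-- Hessian of the soft maximum -/
def hw [DecidableEq I] (a b : I) (h : I → ℝ) : ℝ :=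
  β * ((if a = b then pw β m a h else 0) - pw β m a h * pw β m b h)

lemma Zs_pos (h : I → ℝ) : 0 < Zs β m h :=
  Finset.sum_pos (fun _ _ => exp_pos _) Finset.univ_nonempty

lemma pw_nonneg (a : I) (h : I → ℝ) : 0 ≤ pw β m a h :=
  div_nonneg (exp_pos _).le (Zs_pos β m h).le

lemma sum_pw (h : I → ℝ) : ∑ a, pw β m a h = 1 := by
  simp only [pw]
  rw [← Finset.sum_div]
  exact div_self (Zs_pos β m h).ne'

lemma pw_le_one (a : I) (h : I → ℝ) : pw β m a h ≤ 1 := by
  rw [← sum_pw β m h]
  exact Finset.single_le_sum (f := fun a => pw β m a h) (fun b _ => pw_nonneg β m b h)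
    (Finset.mem_univ a)

lemma hasFDerivAt_ex (a : I) (h : I → ℝ) :
    HasFDerivAt (fun h : I → ℝ => exp (β * (h a + m a)))
      ((β * exp (β * (h a + m a))) • (ContinuousLinearMap.proj a : (I → ℝ) →L[ℝ] ℝ)) h := by
  have := (((hasFDerivAt_apply (𝕜 := ℝ) a h).add_const (m a)).const_mul β).exp
  refine this.congr_fderiv ?_
  ext v
  simp only [smul_apply, ContinuousLinearMap.proj_apply, smul_eq_mul]
  ring

lemma hasFDerivAt_Zs (h : I → ℝ) :
    HasFDerivAt (Zs β m) (dual fun a => β * exp (β * (h a + m a))) h :=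
  HasFDerivAt.fun_sum fun a _ => hasFDerivAt_ex β m a h

lemma hasFDerivAt_smax (hβ : β ≠ 0) (h : I → ℝ) :
    HasFDerivAt (smax β m) (dual fun a => pw β m a h) h := by
  have := ((hasFDerivAt_Zs β m h).log (Zs_pos β m h).ne').const_mul β⁻¹
  refine this.congr_fderiv ?_
  ext v
  simp only [smul_apply, dual_apply, smul_eq_mul, pw, Finset.mul_sum]
  refine Finset.sum_congr rfl fun a _ => ?_
  field_simp

lemma hasFDerivAt_pw [DecidableEq I] (a : I) (h : I → ℝ) :
    HasFDerivAt (pw β m a) (dual fun b => hw β m a b h) h := by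
  have hZ := (Zs_pos β m h).ne'
  have := (hasFDerivAt_ex β m a h).mul
    ((hasDerivAt_inv hZ).comp_hasFDerivAt h (hasFDerivAt_Zs β m h))
  refine (this.congr_fderiv ?_).congr_of_eventuallyEq (Filter.Eventually.of_forall fun x => ?_)
  · ext v
    simp only [add_apply, smul_apply, dual_apply,
      smul_eq_mul, ContinuousLinearMap.proj_apply, hw, mul_sub, sub_mul, Finset.sum_sub_distrib,
      mul_ite, mul_zero, ite_mul, zero_mul, Finset.sum_ite_eq, Finset.mem_univ, if_true, pw,
      Function.comp_apply]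
    have : ∑ b, β * (exp (β * (h a + m a)) / Zs β m h * (exp (β * (h b + m b)) / Zs β m h)) * v b =
        exp (β * (h a + m a)) / Zs β m h ^ 2 * ∑ b, β * exp (β * (h b + m b)) * v b := by
      rw [Finset.mul_sum]
      refine Finset.sum_congr rfl fun b _ => ?_
      field_simp
    rw [this]
    field_simp
    ring
  · simp [pw, div_eq_mul_inv]

lemma continuous_pw (a : I) : Continuous (pw β m a) := by
  classical
  exact continuous_iff_continuousAt.2 fun h => (hasFDerivAt_pw β m a h).continuousAt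

lemma continuous_hw [DecidableEq I] (a b : I) : Continuous (hw β m a b) := by
  unfold hw
  refine continuous_const.mul (Continuous.sub ?_ ((continuous_pw β m a).mul (continuous_pw β m b)))
  split_ifs
  · exact continuous_pw β m a
  · exact continuous_const

lemma abs_hw_le [DecidableEq I] (a b : I) (h : I → ℝ) : |hw β m a b h| ≤ |β| := by
  have h1 := pw_nonneg β m a h
  have h2 := pw_nonneg β m b h
  have h3 := pw_le_one β m a h
  have h4 := pw_le_one β m b h
  rw [hw, abs_mul]
  refine mul_le_of_le_one_right (abs_nonneg _) (abs_le.2 ⟨?_, ?_⟩) <;> split_ifs <;> nlinarith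

/-- the Hessian against a symmetric-increment form -/
lemma sum_hw [DecidableEq I] (C : I → I → ℝ) (h : I → ℝ) : ∑ a, ∑ b, C a b * hw β m a b h =
    β / 2 * ∑ a, ∑ b, (C a a + C b b - 2 * C a b) * (pw β m a h * pw β m b h) := by
  have h1 : ∑ a, ∑ b, C a a * (pw β m a h * pw β m b h) = ∑ a, C a a * pw β m a h := by
    refine Finset.sum_congr rfl fun a _ => ?_
    rw [← Finset.mul_sum, ← Finset.mul_sum, sum_pw, mul_one]
  have h2 : ∑ a, ∑ b, C b b * (pw β m a h * pw β m b h) = ∑ a, C a a * pw β m a h := by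
    rw [Finset.sum_comm, ← h1]
    exact Finset.sum_congr rfl fun a _ => Finset.sum_congr rfl fun b _ => by ring
  have h3 : ∑ a, ∑ b, C a b * hw β m a b h =
      β * (∑ a, C a a * pw β m a h - ∑ a, ∑ b, C a b * (pw β m a h * pw β m b h)) := by
    rw [← Finset.sum_sub_distrib, Finset.mul_sum]
    refine Finset.sum_congr rfl fun a _ => ?_
    simp only [hw, mul_sub, mul_ite, mul_zero, Finset.sum_sub_distrib, Finset.sum_ite_eq,
      Finset.mem_univ, if_true, Finset.mul_sum]
    congr 1
    · ring
    · exact Finset.sum_congr rfl fun b _ => by ring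
  simp only [sub_mul, add_mul, Finset.sum_sub_distrib, Finset.sum_add_distrib, mul_assoc,
    ← Finset.mul_sum] at h1 h2 h3 ⊢
  rw [h3, h1, h2]
  ring

lemma le_smax (hβ : 0 < β) (h : I → ℝ) (a : I) : h a + m a ≤ smax β m h := by
  rw [smax, le_inv_mul_iff₀ hβ, le_log_iff_exp_le (Zs_pos β m h)]
  exact Finset.single_le_sum (f := fun a => exp (β * (h a + m a))) (fun b _ => (exp_pos _).le)
    (Finset.mem_univ a)

lemma smax_le (hβ : 0 < β) (h : I → ℝ) {x : ℝ} (hx : ∀ a, h a + m a ≤ x) :
    smax β m h ≤ x + log (Fintype.card I) / β := by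
  have hc : (0 : ℝ) < Fintype.card I := Nat.cast_pos.2 Fintype.card_pos
  rw [smax, inv_mul_le_iff₀ hβ, log_le_iff_le_exp (Zs_pos β m h), mul_add,
    mul_div_cancel₀ _ hβ.ne', exp_add, exp_log hc]
  calc Zs β m h ≤ ∑ _a : I, exp (β * x) :=
        Finset.sum_le_sum fun a _ => exp_le_exp.2 (mul_le_mul_of_nonneg_left (hx a) hβ.le)
    _ = _ := by simp [mul_comm]

lemma integrable_smax (hβ : β ≠ 0) (A : I → ι → ℝ) :
    Integrable (fun g => smax β m (lin A g)) (G ι) :=
  integrable_comp_lin (hasFDerivAt_smax β m hβ) zero_le_one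
    (fun a h => by rw [abs_of_nonneg (pw_nonneg β m a h)]; exact pw_le_one β m a h) A

/-- **Sudakov–Fernique** for the soft maximum (free energies) -/
theorem sudakov_smax (hβ : 0 < β) (A : I → ι → ℝ) (B : I → κ → ℝ)
    (hinc : ∀ a b, ∑ j, (A a j - A b j) ^ 2 ≤ ∑ j, (B a j - B b j) ^ 2) :
    ∫ g, smax β m (lin A g) ∂(G ι) ≤ ∫ g, smax β m (lin B g) ∂(G κ) := by
  classical
  refine kahane_two (c := 1 + |β|) (hasFDerivAt_smax β m hβ.ne') (hasFDerivAt_pw β m)
    (continuous_hw β m) (by positivity) (fun a h => ?_) (fun a b h => ?_) A B fun h => ?_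
  · rw [abs_of_nonneg (pw_nonneg β m a h)]
    linarith [pw_le_one β m a h, abs_nonneg β]
  · linarith [abs_hw_le β m a b h]
  · rw [sum_hw]
    refine mul_nonpos_of_nonneg_of_nonpos (by positivity)
      (Finset.sum_nonpos fun a _ => Finset.sum_nonpos fun b _ => ?_)
    refine mul_nonpos_of_nonpos_of_nonneg ?_ (mul_nonneg (pw_nonneg β m a h) (pw_nonneg β m b h))
    have := hinc a b
    simp only [sub_sq, Finset.sum_add_distrib, Finset.sum_sub_distrib, mul_assoc,
      ← Finset.mul_sum] at this
    simp only [sq] at this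
    linarith

end smax

/-- the maximum of a shifted vector -/
def mx [Nonempty I] (m h : I → ℝ) : ℝ := Finset.univ.sup' Finset.univ_nonempty fun a => h a + m a

lemma le_mx [Nonempty I] (m h : I → ℝ) (a : I) : h a + m a ≤ mx m h :=
  Finset.le_sup' (fun a => h a + m a) (Finset.mem_univ a)

lemma mx_le [Nonempty I] {m h : I → ℝ} {x : ℝ} (hx : ∀ a, h a + m a ≤ x) : mx m h ≤ x :=
  Finset.sup'_le _ _ fun a _ => hx a

lemma continuous_mx [Nonempty I] (m : I → ℝ) : Continuous (mx m) :=
  Continuous.finset_sup'_apply _ fun a _ => (continuous_apply a).add continuous_const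

lemma integrable_mx [Nonempty I] (m : I → ℝ) (A : I → ι → ℝ) :
    Integrable (fun g => mx m (lin A g)) (G ι) := by
  have h1 := integrable_smax 1 m one_ne_zero A
  refine (h1.abs.add (integrable_const |log (Fintype.card I)|)).mono'
    ((continuous_mx m).comp (continuous_lin A)).aestronglyMeasurable
    (Filter.Eventually.of_forall fun g => ?_)
  have h2 : mx m (lin A g) ≤ smax 1 m (lin A g) := mx_le (le_smax 1 m one_pos _)
  have h3 := smax_le 1 m one_pos (lin A g) (le_mx m (lin A g))
  rw [div_one] at h3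
  rw [Real.norm_eq_abs, Pi.add_apply, abs_le]
  constructor
  · linarith [neg_abs_le (smax 1 m (lin A g)), le_abs_self (log (Fintype.card I : ℝ))]
  · linarith [le_abs_self (smax 1 m (lin A g)), abs_nonneg (log (Fintype.card I : ℝ))]

/-- **Sudakov–Fernique** with deterministic shifts -/
theorem sudakov [Nonempty I] (m : I → ℝ) (A : I → ι → ℝ) (B : I → κ → ℝ)
    (hinc : ∀ a b, ∑ j, (A a j - A b j) ^ 2 ≤ ∑ j, (B a j - B b j) ^ 2) :
    ∫ g, mx m (lin A g) ∂(G ι) ≤ ∫ g, mx m (lin B g) ∂(G κ) := by
  have hL : 0 ≤ log (Fintype.card I : ℝ) := log_natCast_nonneg _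
  refine le_of_forall_pos_le_add fun ε hε => ?_
  set β := (log (Fintype.card I : ℝ) + 1) / ε with hβ
  have hβ0 : 0 < β := by positivity
  have h1 : ∫ g, mx m (lin A g) ∂(G ι) ≤ ∫ g, smax β m (lin A g) ∂(G ι) :=
    integral_mono (integrable_mx m A) (integrable_smax β m hβ0.ne' A) fun g =>
      mx_le (le_smax β m hβ0 _)
  have h2 : ∫ g, smax β m (lin B g) ∂(G κ) ≤ ∫ g, (mx m (lin B g) + ε) ∂(G κ) := by
    refine integral_mono (integrable_smax β m hβ0.ne' B)
      ((integrable_mx m B).add (integrable_const ε)) fun g => ?_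
    refine (smax_le β m hβ0 (lin B g) (le_mx m (lin B g))).trans ?_
    have : log (Fintype.card I : ℝ) / β ≤ ε := by
      rw [div_le_iff₀ hβ0, hβ, mul_div_cancel₀ _ hε.ne']; linarith
    linarith
  rw [integral_add (integrable_mx m B) (integrable_const ε)] at h2
  simp only [integral_const, probReal_univ, one_smul] at h2
  exact h1.trans ((sudakov_smax β m hβ0 A B hinc).trans h2)

end Crest.Agent.T157.Sf

end
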