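import Crest.Agent.T157.NrmS_84
import Crest.Agent.T157.Sf_84
import Crest.Agent.T157.CondA_53
import Crest.Agent.T157.ConcT_16

/-!
# Row 157, part E: sharp operator norm bounds for GOE and for the SK coupling matrix (helper84)

* `goe_sf`: `E λ_max (D + W) ≤ E sup_{|u| = 1} (u·Du + 2 s u·g)` (Sudakov–Fernique);
* `E_lam_symG`, `E_lam_goe`, `E_lam_Jmat`: `E λ_max ≤ 2 |s| √N`, resp. `≤ 2`;
* Lipschitz constants of the eigenvalues and of the norm as functions of the entries;
* tails `goe_lam_tail`, `goe_opn_tail`, `Wmat_opn_tail`, `Jmat_lam_tail`, `Jmat_opn_tail`: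
  `P(2 + t ≤ ‖J‖) ≤ 2 exp (-n t² / 4)`.
-/

set_option autoImplicit false
set_option linter.unusedSectionVars false

noncomputable section

namespace Crest.Agent.T157.Nrm

open Matrix Finset MeasureTheory ProbabilityTheory
open Crest.ProbabilityR.SpinGlassDynamics Crest.Agent.T157.E Crest.Agent.T157.Eig
open Crest.Agent.T157.Cond Crest.Agent.T157.Sf
open Crest.Agent.T157.Conc (en ELip)
open Crest.Agent.R339.Guerra (lin mp_int integral_coord integrable_coord)

variable {ι : Type*} [Fintype ι] [DecidableEq ι]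

lemma en_eq_nrm (x : ι → ℝ) : en x = nrm x := by rw [Conc.en_eq_norm, nrm_eq_norm]

lemma symG_herm (s : ℝ) (x : ι × ι → ℝ) : (symG s x).IsHermitian := herm_iff.2 (symG_transpose s x)

lemma symG_sub (s : ℝ) (x y : ι × ι → ℝ) : symG s x - symG s y = symG s (x - y) := by
  ext i j; simp [symG]; ring

lemma continuous_symG (s : ℝ) : Continuous (symG (ι := ι) s) := by
  refine continuous_pi fun i => continuous_pi fun j => ?_
  simp only [symG, of_apply]; fun_prop

lemma quad_symG (s : ℝ) (x : ι × ι → ℝ) (u : ι → ℝ) :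
    u ⬝ᵥ symG s x *ᵥ u = ∑ p : ι × ι, √2 * s * (u p.1 * u p.2) * x p := by
  have h2 : √2 * √2 = 2 := Real.mul_self_sqrt (by norm_num)
  have h0 : √2 ≠ 0 := by positivity
  have e1 : ∑ i, ∑ j, u i * u j * x (j, i) = ∑ i, ∑ j, u i * u j * x (i, j) := by
    rw [sum_comm]; exact sum_congr rfl fun i _ => sum_congr rfl fun j _ => by ring
  have e2 : u ⬝ᵥ symG s x *ᵥ u =
      s / √2 * (∑ i, ∑ j, u i * u j * x (i, j) + ∑ i, ∑ j, u i * u j * x (j, i)) := by
    simp only [dotProduct, mulVec, symG, of_apply, mul_sum, ← sum_add_distrib]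
    exact sum_congr rfl fun i _ => sum_congr rfl fun j _ => by ring
  rw [e2, e1, Fintype.sum_prod_type, ← two_mul, ← mul_assoc, mul_sum]
  refine sum_congr rfl fun i _ => ?_
  rw [mul_sum]
  refine sum_congr rfl fun j _ => ?_
  have : s / √2 * 2 = √2 * s := by
    rw [div_mul_eq_mul_div, div_eq_iff h0, mul_right_comm, h2, mul_comm]
  rw [this]; ring

lemma opn_symG_le (s : ℝ) (x : ι × ι → ℝ) : opn (symG s x) ≤ √2 * |s| * en x := by
  refine (opn_le_sqrt_frob _).trans (Real.sqrt_le_iff.2 ⟨by have := Conc.en_nonneg x; positivity, ?_⟩)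
  have h2 : √2 ^ 2 = 2 := Real.sq_sqrt (by norm_num)
  rw [mul_pow, mul_pow, h2, sq_abs, Conc.en_sq, Fintype.sum_prod_type]
  have e1 : ∑ i, ∑ j, x (j, i) ^ 2 = ∑ i, ∑ j, x (i, j) ^ 2 := sum_comm
  calc ∑ i, ∑ j, symG s x i j ^ 2 ≤ ∑ i, ∑ j, s ^ 2 * (x (i, j) ^ 2 + x (j, i) ^ 2) := by
        refine sum_le_sum fun i _ => sum_le_sum fun j _ => ?_
        simp only [symG, of_apply, mul_pow, div_pow, h2]
        nlinarith [mul_nonneg (sq_nonneg s) (sq_nonneg (x (i, j) - x (j, i)))]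
    _ = _ := by
        simp only [← mul_sum, sum_add_distrib, e1]; ring

lemma elip_lam_symG {D : Matrix ι ι ℝ} (hD : D.IsHermitian) (s : ℝ) (k : ℕ) :
    ELip (√2 * |s|) fun x => lam (D + symG s x) k := fun x y => by
  refine (abs_lam_sub_le (hD.add (symG_herm s x)) (hD.add (symG_herm s y)) k).trans ?_
  rw [add_sub_add_left_eq_sub, symG_sub]
  exact opn_symG_le s _

lemma elip_opn_symG (D : Matrix ι ι ℝ) (s : ℝ) :
    ELip (√2 * |s|) fun x => opn (D + symG s x) := fun x y => by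
  refine (abs_opn_sub_le _ _).trans ?_
  rw [add_sub_add_left_eq_sub, symG_sub]
  exact opn_symG_le s _

/-- Sudakov–Fernique for GOE quadratic forms on a finite family of unit vectors -/
theorem goe_sf_fin {I : Type*} [Fintype I] [Nonempty I] (s : ℝ) (u : I → ι → ℝ)
    (hu : ∀ a, u a ⬝ᵥ u a = 1) (m : I → ℝ) :
    ∫ x, mx m (fun a => u a ⬝ᵥ symG s x *ᵥ u a) ∂(gv (ι × ι)) ≤
      ∫ g, mx m (fun a => 2 * s * (u a ⬝ᵥ g)) ∂(gv ι) := by
  have h := sudakov m (fun a (p : ι × ι) => √2 * s * (u a p.1 * u a p.2))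
    (fun a i => 2 * s * u a i) (fun a b => by
      have h2 : √2 ^ 2 = 2 := Real.sq_sqrt (by norm_num)
      have e1 : ∀ v w : ι → ℝ, ∑ p : ι × ι, v p.1 * v p.2 * (w p.1 * w p.2) = (v ⬝ᵥ w) ^ 2 := by
        intro v w
        rw [sq, dotProduct, sum_mul_sum, Fintype.sum_prod_type]
        exact sum_congr rfl fun i _ => sum_congr rfl fun j _ => by ring
      have e2 : ∑ p : ι × ι, (√2 * s * (u a p.1 * u a p.2) - √2 * s * (u b p.1 * u b p.2)) ^ 2 =
          2 * s ^ 2 * ((u a ⬝ᵥ u a) ^ 2 + (u b ⬝ᵥ u b) ^ 2 - 2 * (u a ⬝ᵥ u b) ^ 2) := by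
        simp only [← e1, mul_sum, ← sum_add_distrib, ← sum_sub_distrib]
        refine sum_congr rfl fun p _ => ?_
        rw [← mul_sub, mul_pow, mul_pow, h2]; ring
      have e3 : ∑ i, (2 * s * u a i - 2 * s * u b i) ^ 2 =
          4 * s ^ 2 * (u a ⬝ᵥ u a + u b ⬝ᵥ u b - 2 * (u a ⬝ᵥ u b)) := by
        simp only [dotProduct, mul_sum, ← sum_add_distrib, ← sum_sub_distrib]
        exact sum_congr rfl fun i _ => by ring
      rw [e2, e3, hu, hu]
      nlinarith [mul_nonneg (sq_nonneg s) (sq_nonneg (1 - u a ⬝ᵥ u b))])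
  convert h using 4
  · funext a; rw [quad_symG]; rfl
  · funext a; simp only [lin, dotProduct, mul_sum, mul_assoc]

/-- finite nets of the unit sphere -/
lemma exists_sphere_net (ι : Type*) [Fintype ι] [DecidableEq ι] {ε : ℝ} (hε : 0 < ε) :
    ∃ N : Finset (ι → ℝ), (∀ c ∈ N, c ⬝ᵥ c = 1) ∧ ∀ v, v ⬝ᵥ v = 1 → ∃ c ∈ N, nrm (v - c) ≤ ε := by
  classical
  obtain ⟨t, ht, hf, hc⟩ := (isCompact_sphere (0 : EuclideanSpace ℝ ι) 1).finite_cover_balls hε
  refine ⟨hf.toFinset.image fun x => x.ofLp, fun c hc => ?_, fun v hv => ?_⟩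
  · obtain ⟨x, hx, rfl⟩ := mem_image.1 hc
    have := ht (hf.mem_toFinset.1 hx)
    rw [mem_sphere_zero_iff_norm, norm_eq_nrm] at this
    rw [← nrm_sq, this, one_pow]
  · have hv' : (WithLp.toLp 2 v : EuclideanSpace ℝ ι) ∈ Metric.sphere 0 1 := by
      rw [mem_sphere_zero_iff_norm, ← nrm_eq_norm, nrm, hv, Real.sqrt_one]
    obtain ⟨x, hx, hvx⟩ := Set.mem_iUnion₂.1 (hc hv')
    refine ⟨x.ofLp, mem_image.2 ⟨x, hf.mem_toFinset.2 hx, rfl⟩, ?_⟩
    rw [Metric.mem_ball, dist_eq_norm, norm_eq_nrm] at hvx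
    exact hvx.le

lemma quad_sub_le (A : Matrix ι ι ℝ) {v c : ι → ℝ} (hv : v ⬝ᵥ v = 1) (hc : c ⬝ᵥ c = 1) :
    v ⬝ᵥ A *ᵥ v ≤ c ⬝ᵥ A *ᵥ c + 2 * opn A * nrm (v - c) := by
  have h1 := (le_abs_self _).trans (abs_bil_le A (v - c) v)
  have h2 := (le_abs_self _).trans (abs_bil_le A c (v - c))
  rw [sub_dotProduct, show nrm v = 1 by rw [nrm, hv, Real.sqrt_one]] at h1
  rw [mulVec_sub, dotProduct_sub, show nrm c = 1 by rw [nrm, hc, Real.sqrt_one]] at h2
  linarith

/-- **Sudakov–Fernique bound for the top eigenvalue of a deformed GOE matrix** -/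
theorem goe_sf [Nonempty ι] {D : Matrix ι ι ℝ} (hD : D.IsHermitian) (s : ℝ) {φ : (ι → ℝ) → ℝ}
    (hφ : Integrable φ (gv ι))
    (h : ∀ g u : ι → ℝ, u ⬝ᵥ u = 1 → u ⬝ᵥ D *ᵥ u + 2 * s * (u ⬝ᵥ g) ≤ φ g) :
    ∫ x, lam (D + symG s x) 0 ∂(gv (ι × ι)) ≤ ∫ g, φ g ∂(gv ι) := by
  have hi := (elip_opn_symG D s).integrable
  set C := ∫ x, opn (D + symG s x) ∂(gv (ι × ι)) with hC
  have hC0 : 0 ≤ C := integral_nonneg fun x => opn_nonneg _
  refine le_of_forall_pos_le_add fun ε hε => ?_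
  obtain ⟨N, hN1, hN⟩ := exists_sphere_net ι (ε := ε / (2 * C + 1)) (by positivity)
  have hcard : 0 < Fintype.card ι := Fintype.card_pos
  have : Nonempty N := by
    obtain ⟨c, hc, -⟩ := hN _ (vec_dot_self hD hcard)
    exact ⟨⟨c, hc⟩⟩
  have h1 := goe_sf_fin s (fun a : N => a.1) (fun a => hN1 _ a.2) fun a => a.1 ⬝ᵥ D *ᵥ a.1
  have i1 : Integrable (fun x => mx (fun a : N => a.1 ⬝ᵥ D *ᵥ a.1)
      (fun a : N => a.1 ⬝ᵥ symG s x *ᵥ a.1)) (gv (ι × ι)) := by
    have := integrable_mx (fun a : N => a.1 ⬝ᵥ D *ᵥ a.1)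
      (fun (a : N) (p : ι × ι) => √2 * s * (a.1 p.1 * a.1 p.2))
    convert this using 3
    funext a; rw [quad_symG]; rfl
  have i2 : Integrable (fun g => mx (fun a : N => a.1 ⬝ᵥ D *ᵥ a.1)
      (fun a : N => 2 * s * (a.1 ⬝ᵥ g))) (gv ι) := by
    have := integrable_mx (fun a : N => a.1 ⬝ᵥ D *ᵥ a.1) (fun (a : N) i => 2 * s * a.1 i)
    convert this using 3
    funext a; simp only [lin, dotProduct, mul_sum, mul_assoc]
  have h2 : ∫ g, mx (fun a : N => a.1 ⬝ᵥ D *ᵥ a.1) (fun a : N => 2 * s * (a.1 ⬝ᵥ g)) ∂(gv ι) ≤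
      ∫ g, φ g ∂(gv ι) :=
    integral_mono i2 hφ fun g => mx_le fun a => by linarith [h g a.1 (hN1 _ a.2)]
  have h3 : ∫ x, lam (D + symG s x) 0 ∂(gv (ι × ι)) ≤
      ∫ x, (mx (fun a : N => a.1 ⬝ᵥ D *ᵥ a.1) (fun a : N => a.1 ⬝ᵥ symG s x *ᵥ a.1) +
        2 * (ε / (2 * C + 1)) * opn (D + symG s x)) ∂(gv (ι × ι)) := by
    refine integral_mono (elip_lam_symG hD s 0).integrable (i1.add (hi.const_mul _)) fun x => ?_
    refine lam_zero_le_of_unit (hD.add (symG_herm s x)) hcard fun v hv => ?_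
    obtain ⟨c, hc, hvc⟩ := hN v hv
    have a1 := quad_sub_le (D + symG s x) hv (hN1 c hc)
    have a2 := le_mx (fun a : N => a.1 ⬝ᵥ D *ᵥ a.1) (fun a : N => a.1 ⬝ᵥ symG s x *ᵥ a.1) ⟨c, hc⟩
    have a3 := mul_le_mul_of_nonneg_left hvc (opn_nonneg (D + symG s x))
    rw [add_mulVec (D) _ c, dotProduct_add] at a1
    simp only at a2 ⊢
    linarith
  rw [integral_add i1 (hi.const_mul _), integral_const_mul, ← hC] at h3
  have h4 : 2 * (ε / (2 * C + 1)) * C ≤ ε := by
    rw [show 2 * (ε / (2 * C + 1)) * C = ε * (2 * C / (2 * C + 1)) by ring]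
    exact mul_le_of_le_one_right hε.le ((div_le_one (by positivity)).2 (by linarith))
  linarith

lemma integrable_sq_coord (i : ι) : Integrable (fun g : ι → ℝ => g i * g i) (gv ι) := by
  have h : Integrable (fun x : ℝ => x * x) (gaussianReal 0 1) := by
    have := (memLp_id_gaussianReal (μ := 0) (v := 1) 2).integrable_sq
    simpa [sq] using this
  exact (measurePreserving_eval (fun _ : ι => gaussianReal 0 1) i).integrable_comp_of_integrable h

lemma integral_sq_coord (i : ι) : ∫ g : ι → ℝ, g i * g i ∂(gv ι) = 1 := by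
  have h := mp_int (measurePreserving_eval (fun _ : ι => gaussianReal 0 1) i)
    (f := fun x : ℝ => x * x) (by fun_prop)
  refine h.trans ?_
  have := variance_id_gaussianReal (μ := 0) (v := 1)
  rw [variance_eq_integral measurable_id.aemeasurable] at this
  simpa [sq] using this

lemma integrable_dot_self : Integrable (fun g : ι → ℝ => g ⬝ᵥ g) (gv ι) :=
  integrable_finsetSum _ fun i _ => integrable_sq_coord i

lemma integral_dot_self : ∫ g : ι → ℝ, g ⬝ᵥ g ∂(gv ι) = Fintype.card ι := by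
  simp only [dotProduct]
  rw [integral_finsetSum _ fun i _ => integrable_sq_coord i]
  simp [integral_sq_coord]

lemma integrable_nrm : Integrable (nrm : (ι → ℝ) → ℝ) (gv ι) := by
  have := (Conc.elip_en (ι := ι)).integrable
  rwa [show (en : (ι → ℝ) → ℝ) = nrm from funext en_eq_nrm] at this

lemma integral_nrm_le : ∫ g : ι → ℝ, nrm g ∂(gv ι) ≤ √(Fintype.card ι) := by
  rcases Nat.eq_zero_or_pos (Fintype.card ι) with h | h
  · have : IsEmpty ι := Fintype.card_eq_zero_iff.1 h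
    simp [nrm, dotProduct]
  have hc : (0 : ℝ) < Fintype.card ι := Nat.cast_pos.2 h
  set r := √(Fintype.card ι : ℝ) with hr
  have hr0 : 0 < r := Real.sqrt_pos.2 hc
  have hr2 : r * r = Fintype.card ι := Real.mul_self_sqrt hc.le
  calc ∫ g : ι → ℝ, nrm g ∂(gv ι) ≤ ∫ g : ι → ℝ, (g ⬝ᵥ g / (2 * r) + r / 2) ∂(gv ι) := by
        refine integral_mono integrable_nrm ((integrable_dot_self.div_const _).add
          (integrable_const _)) fun g => ?_
        simp only
        rw [← nrm_sq, div_add' _ _ _ (by positivity), le_div_iff₀ (by positivity)]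
        nlinarith [sq_nonneg (nrm g - r)]
    _ = r := by
        rw [integral_add (integrable_dot_self.div_const _) (integrable_const _), integral_div,
          integral_dot_self, ← hr2]
        simp only [integral_const, probReal_univ, one_smul]
        field_simp
        ring

theorem E_lam_symG (s : ℝ) :
    ∫ x, lam (symG (ι := ι) s x) 0 ∂(gv (ι × ι)) ≤ 2 * |s| * √(Fintype.card ι) := by
  rcases isEmpty_or_nonempty ι with h | h
  · simp [lam_of_le]
  have := goe_sf (ι := ι) (D := 0) isHermitian_zero s (φ := fun g => 2 * |s| * nrm g)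
    (integrable_nrm.const_mul _) fun g u hu => by
      have h1 := abs_dot_le u g
      rw [show nrm u = 1 by rw [nrm, hu, Real.sqrt_one], one_mul] at h1
      have h2 : s * (u ⬝ᵥ g) ≤ |s| * nrm g :=
        (le_abs_self _).trans (by rw [abs_mul]; exact mul_le_mul_of_nonneg_left h1 (abs_nonneg s))
      simp only [zero_mulVec, dotProduct_zero]
      linarith
  simp only [zero_add, integral_const_mul] at this
  exact this.trans (mul_le_mul_of_nonneg_left integral_nrm_le (by positivity))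

/-- `lam` is measurable on all matrices -/
lemma measurable_lam' (k : ℕ) : Measurable fun W : Matrix ι ι ℝ => lam W k := by
  classical
  have e : (fun W : Matrix ι ι ℝ => lam W k) =
      fun W => if Wᵀ = W then lam (symP W) k else 0 := by
    funext W
    split_ifs with h
    · rw [symP_of_herm (herm_iff.2 h)]
    · rw [lam, dif_neg]; exact fun h' => h (herm_iff.1 h'.1)
  rw [e]
  refine Measurable.ite measurableSet_symm ?_ measurable_const
  refine measurable_lam (F := fun W : Matrix ι ι ℝ => symP W) (fun i j => ?_)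
    (fun W => symP_herm W) k
  exact ((measurable_id.t157_entry i j).add (measurable_id.t157_entry j i)).div_const 2

lemma measurable_opn' {κ : Type*} [Fintype κ] [DecidableEq κ] :
    Measurable (opn : Matrix ι κ ℝ → ℝ) := continuous_opn.measurable

theorem E_lam_goe (s : ℝ) : ∫ W, lam W 0 ∂(goe ι s) ≤ 2 * |s| * √(Fintype.card ι) := by
  rw [goe, integral_map (measurable_symG s).aemeasurable (measurable_lam' 0).aestronglyMeasurable]
  exact E_lam_symG s

lemma integrable_lam_goe (s : ℝ) (k : ℕ) : Integrable (fun W => lam W k) (goe ι s) := by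
  rw [goe, integrable_map_measure (measurable_lam' k).aestronglyMeasurable
    (measurable_symG s).aemeasurable]
  have := (elip_lam_symG (ι := ι) (D := 0) isHermitian_zero s k).integrable
  simp only [zero_add] at this
  exact this

/-- upper tail of the top eigenvalue of a deformed GOE matrix above any bound of its mean -/
theorem symG_lam_tail {D : Matrix ι ι ℝ} (hD : D.IsHermitian) (s : ℝ) (k : ℕ) {M t : ℝ}
    (hM : ∫ x, lam (D + symG s x) k ∂(gv (ι × ι)) ≤ M) (ht : 0 ≤ t) :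
    (gv (ι × ι)).real {x | M + t ≤ lam (D + symG s x) k} ≤ Real.exp (-t ^ 2 / (4 * s ^ 2)) := by
  have h := Conc.tail_lip (elip_lam_symG hD s k) ht
  rw [mul_pow, Real.sq_sqrt (by norm_num), sq_abs, ← mul_assoc,
    show (2 : ℝ) * 2 = 4 by norm_num] at h
  refine (measureReal_mono (fun x hx => ?_) (measure_ne_top _ _)).trans h
  simp only [Set.mem_ofPred_eq] at hx ⊢
  linarith

theorem goe_lam_tail (s : ℝ) {t : ℝ} (ht : 0 ≤ t) :
    (goe ι s).real {W | 2 * |s| * √(Fintype.card ι) + t ≤ lam W 0} ≤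
      Real.exp (-t ^ 2 / (4 * s ^ 2)) := by
  rw [goe, map_measureReal_apply (measurable_symG s)
    (measurableSet_le measurable_const (measurable_lam' 0))]
  simpa using symG_lam_tail (D := 0) isHermitian_zero s 0 (by simpa using E_lam_symG s) ht

theorem goe_opn_tail (s : ℝ) {t : ℝ} (ht : 0 ≤ t) :
    (goe ι s).real {W | 2 * |s| * √(Fintype.card ι) + t ≤ opn W} ≤
      2 * Real.exp (-t ^ 2 / (4 * s ^ 2)) := by
  set M := 2 * |s| * √(Fintype.card ι) + t
  have h1 := goe_lam_tail (ι := ι) s ht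
  have h2 : (goe ι s).real {W | M ≤ lam (-W) 0} ≤ Real.exp (-t ^ 2 / (4 * s ^ 2)) := by
    have hm : Measurable fun W : Matrix ι ι ℝ => -W := continuous_neg.measurable
    rw [← goe_neg, map_measureReal_apply hm
      (measurableSet_le measurable_const (measurable_lam' 0))] at h1
    exact h1
  have h3 : (goe ι s).real {W | M ≤ opn W} ≤
      (goe ι s).real ({W | M ≤ lam W 0} ∪ {W | M ≤ lam (-W) 0}) := by
    refine ENNReal.toReal_mono (measure_ne_top _ _) (measure_mono_ae ?_)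
    filter_upwards [goe_ae_symm (ι := ι) s] with W hW h
    have h : M ≤ opn W := h
    rw [opn_eq_max (herm_iff.2 hW), le_max_iff] at h
    exact h
  linarith [measureReal_union_le (μ := goe ι s) {W | M ≤ lam W 0} {W | M ≤ lam (-W) 0}]

variable {n : ℕ}

lemma two_mul_le (n : ℕ) : 2 * |1 / √(n : ℝ)| * √(Fintype.card (Fin n)) ≤ 2 := by
  rw [Fintype.card_fin, abs_of_nonneg (by positivity), mul_assoc, one_div, inv_mul_eq_div]
  have : √(n : ℝ) / √n ≤ 1 := div_self_le_one _
  linarith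

lemma exp_goe (n : ℕ) (t : ℝ) : -t ^ 2 / (4 * (1 / √(n : ℝ)) ^ 2) = -(n * t ^ 2 / 4) := by
  rw [div_pow, Real.sq_sqrt (Nat.cast_nonneg n)]
  rcases Nat.eq_zero_or_pos n with rfl | h
  · simp
  · have : (n : ℝ) ≠ 0 := Nat.cast_ne_zero.2 h.ne'
    field_simp

theorem goe_lam_tail_n {t : ℝ} (ht : 0 ≤ t) :
    (goe (Fin n) (1 / √n)).real {W | 2 + t ≤ lam W 0} ≤ Real.exp (-(n * t ^ 2 / 4)) := by
  rw [← exp_goe]
  refine (measureReal_mono (fun W hW => ?_) (measure_ne_top _ _)).trans (goe_lam_tail _ ht)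
  simp only [Set.mem_ofPred_eq] at hW ⊢
  linarith [two_mul_le n]

theorem goe_opn_tail_n {t : ℝ} (ht : 0 ≤ t) :
    (goe (Fin n) (1 / √n)).real {W | 2 + t ≤ opn W} ≤ 2 * Real.exp (-(n * t ^ 2 / 4)) := by
  rw [← exp_goe]
  refine (measureReal_mono (fun W hW => ?_) (measure_ne_top _ _)).trans (goe_opn_tail _ ht)
  simp only [Set.mem_ofPred_eq] at hW ⊢
  linarith [two_mul_le n]

theorem Wmat_opn_tail {t : ℝ} (ht : 0 ≤ t) :
    ((disorderLaw n).prod (gv (Fin n))).real {p | 2 + t ≤ opn (Wmat n p.1 p.2)} ≤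
      2 * Real.exp (-(n * t ^ 2 / 4)) := by
  have := goe_opn_tail_n (n := n) ht
  rwa [← goe_Wmat, map_measureReal_apply measurable_Wmat
    (measurableSet_le measurable_const measurable_opn')] at this

/-! ### the zero-diagonal matrix -/

lemma Jmat_sub (g g' : Pair n → ℝ) : Jmat n g - Jmat n g' = Jmat n (g - g') := by
  ext i j
  simp only [Jmat, Matrix.sub_apply, Pi.sub_apply]
  split_ifs <;> ring

lemma Jmat_add (g g' : Pair n → ℝ) : Jmat n (g + g') = Jmat n g + Jmat n g' := by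
  ext i j
  simp only [Jmat, Matrix.add_apply, Pi.add_apply]
  split_ifs <;> ring

lemma Jmat_smul (c : ℝ) (g : Pair n → ℝ) : Jmat n (c • g) = c • Jmat n g := by
  ext i j
  simp only [Jmat, Matrix.smul_apply, Pi.smul_apply, smul_eq_mul]
  split_ifs <;> ring

lemma Jmat_neg (g : Pair n → ℝ) : Jmat n (-g) = -Jmat n g := by
  rw [← neg_one_smul ℝ g, Jmat_smul, neg_one_smul]

lemma frob_Jmat (g : Pair n → ℝ) : ∑ i, ∑ j, Jmat n g i j ^ 2 = 2 / n * ∑ p, g p ^ 2 := by
  rw [sum_sum_eq_two_mul_pair (fun i j => Jmat n g i j ^ 2) (fun i j => by rw [Jmat_symm])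
    (fun i => by simp [Jmat_diag]), div_mul_eq_mul_div, mul_div_assoc, sum_div]
  congr 1
  refine sum_congr rfl fun p _ => ?_
  rw [Jmat_apply_lt g p.2, div_pow, Real.sq_sqrt (Nat.cast_nonneg n)]

lemma opn_Jmat_le (g : Pair n → ℝ) : opn (Jmat n g) ≤ √(2 / n) * en g := by
  refine (opn_le_sqrt_frob _).trans (le_of_eq ?_)
  rw [frob_Jmat, Real.sqrt_mul (by positivity), en]

lemma elip_lam_Jmat {D : Matrix (Fin n) (Fin n) ℝ} (hD : D.IsHermitian) (c : ℝ) (k : ℕ) :
    ELip (|c| * √(2 / n)) fun g => lam (D + c • Jmat n g) k := fun x y => by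
  refine (abs_lam_sub_le (hD.add (herm_smul (Jmat_isHermitian x) c))
    (hD.add (herm_smul (Jmat_isHermitian y) c)) k).trans ?_
  rw [add_sub_add_left_eq_sub, ← smul_sub, Jmat_sub, opn_smul, mul_assoc]
  exact mul_le_mul_of_nonneg_left (opn_Jmat_le _) (abs_nonneg c)

lemma elip_opn_Jmat : ELip (√(2 / n)) fun g => opn (Jmat n g) := fun x y => by
  refine (abs_opn_sub_le _ _).trans ?_
  rw [Jmat_sub]
  exact opn_Jmat_le _

lemma convexOn_opn_Jmat : ConvexOn ℝ Set.univ fun g => opn (Jmat n g) := by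
  refine ⟨convex_univ, fun x _ y _ a b ha hb _ => ?_⟩
  simp only [smul_eq_mul]
  rw [Jmat_add, Jmat_smul, Jmat_smul]
  refine (opn_add_le _ _).trans ?_
  rw [opn_smul, opn_smul, abs_of_nonneg ha, abs_of_nonneg hb]

lemma convexOn_lam_Jmat {D : Matrix (Fin n) (Fin n) ℝ} (hD : D.IsHermitian) (c : ℝ) :
    ConvexOn ℝ Set.univ fun g => lam (D + c • Jmat n g) 0 := by
  refine ⟨convex_univ, fun x _ y _ a b ha hb hab => ?_⟩
  simp only [smul_eq_mul]
  refine le_trans (le_of_eq ?_) (lam_zero_convex (hD.add (herm_smul (Jmat_isHermitian x) c))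
    (hD.add (herm_smul (Jmat_isHermitian y) c)) ha hb)
  congr 1
  rw [Jmat_add, Jmat_smul, Jmat_smul]
  calc D + c • (a • Jmat n x + b • Jmat n y) = (a + b) • D + c • (a • Jmat n x + b • Jmat n y) := by
        rw [hab, one_smul]
    _ = _ := by module

/-- removing the Gaussian diagonal does not increase the mean of the top eigenvalue -/
theorem E_lam_Jmat_le {D : Matrix (Fin n) (Fin n) ℝ} (hD : D.IsHermitian) (c : ℝ) :
    ∫ g, lam (D + c • Jmat n g) 0 ∂(disorderLaw n) ≤
      ∫ x, lam (D + symG (c * (1 / √n)) x) 0 ∂(gv (Fin n × Fin n)) := by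
  rcases Nat.eq_zero_or_pos n with rfl | hn
  · simp [lam_of_le]
  have hcard : 0 < Fintype.card (Fin n) := by simpa using hn
  have hm1 : Measurable fun W : Matrix (Fin n) (Fin n) ℝ => lam (D + W) 0 :=
    (measurable_lam' 0).comp (measurable_const.t157_add measurable_id)
  have hm2 : Measurable fun W : Matrix (Fin n) (Fin n) ℝ => c • W :=
    measurable_const.t157_smul measurable_id
  have mp1 : MeasurePreserving (symG (c * (1 / √n))) (gv (Fin n × Fin n))
      (goe (Fin n) (c * (1 / √n))) := ⟨measurable_symG _, rfl⟩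
  have mp2 : MeasurePreserving (fun p : (Pair n → ℝ) × (Fin n → ℝ) => c • Wmat n p.1 p.2)
      ((disorderLaw n).prod (gv (Fin n))) (goe (Fin n) (c * (1 / √n))) :=
    (MeasurePreserving.mk hm2 (goe_smul _ c)).comp mp_Wmat
  have hi : Integrable (fun W => lam (D + W) 0) (goe (Fin n) (c * (1 / √n))) :=
    (mp1.integrable_comp hm1.aestronglyMeasurable).1 (elip_lam_symG hD _ 0).integrable
  have hi2 : Integrable (fun p : (Pair n → ℝ) × (Fin n → ℝ) => lam (D + c • Wmat n p.1 p.2) 0)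
      ((disorderLaw n).prod (gv (Fin n))) := mp2.integrable_comp_of_integrable hi
  rw [mp_int mp1 hm1.aestronglyMeasurable, ← mp_int mp2 hm1.aestronglyMeasurable,
    integral_prod _ hi2]
  refine integral_mono_ae (elip_lam_Jmat hD c 0).integrable hi2.integral_prod_left ?_
  filter_upwards [hi2.prod_right_ae] with g hg
  have hA := hD.add (herm_smul (Jmat_isHermitian g) c)
  set v := vec (D + c • Jmat n g) 0
  have hv : v ⬝ᵥ v = 1 := vec_dot_self hA hcard
  have e : ∀ d, v ⬝ᵥ (D + c • Wmat n g d) *ᵥ v =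
      lam (D + c • Jmat n g) 0 + ∑ i, c * (√2 / √n) * (v i * v i) * d i := by
    intro d
    rw [← quad_vec hA hcard, Wmat, smul_add, ← add_assoc, add_mulVec, dotProduct_add]
    congr 1
    rw [smul_mulVec, dotProduct_smul, smul_eq_mul, dotProduct, mul_sum]
    refine sum_congr rfl fun i _ => ?_
    rw [mulVec_diagonal]; ring
  have i3 : Integrable (fun d : Fin n → ℝ => ∑ i, c * (√2 / √n) * (v i * v i) * d i) (gv (Fin n)) :=
    integrable_finsetSum _ fun i _ => (integrable_coord i).const_mul _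
  calc lam (D + c • Jmat n g) 0
      = ∫ d, (lam (D + c • Jmat n g) 0 + ∑ i, c * (√2 / √n) * (v i * v i) * d i) ∂(gv (Fin n)) := by
        rw [integral_add (integrable_const _) i3,
          integral_finsetSum _ fun i _ => (integrable_coord i).const_mul _]
        simp [integral_const_mul, integral_coord]
    _ ≤ _ := by
        refine integral_mono ((integrable_const _).add i3) hg fun d => ?_
        simp only
        rw [← e]
        exact quad_le_of_unit (hD.add (herm_smul (Wmat_isHermitian g d) c)) hv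

theorem E_lam_Jmat (c : ℝ) : ∫ g, lam (c • Jmat n g) 0 ∂(disorderLaw n) ≤ 2 * |c| := by
  have h1 := E_lam_Jmat_le (n := n) (D := 0) isHermitian_zero c
  simp only [zero_add] at h1
  refine h1.trans ((E_lam_symG _).trans ?_)
  rw [abs_mul]
  nlinarith [two_mul_le n, abs_nonneg c]

/-- upper tail of an eigenvalue of `D + c J` above any bound of its mean -/
theorem Jmat_lam_tail' {D : Matrix (Fin n) (Fin n) ℝ} (hD : D.IsHermitian) (c : ℝ) (k : ℕ)
    {M t : ℝ} (hM : ∫ g, lam (D + c • Jmat n g) k ∂(disorderLaw n) ≤ M) (ht : 0 ≤ t) :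
    (disorderLaw n).real {g | M + t ≤ lam (D + c • Jmat n g) k} ≤
      Real.exp (-(n * t ^ 2 / (4 * c ^ 2))) := by
  have h := Conc.tail_lip (elip_lam_Jmat hD c k) ht
  have e : -t ^ 2 / (2 * (|c| * √(2 / (n : ℝ))) ^ 2) = -(n * t ^ 2 / (4 * c ^ 2)) := by
    rw [mul_pow, Real.sq_sqrt (by positivity), sq_abs]
    rcases Nat.eq_zero_or_pos n with rfl | h
    · simp
    · have : (n : ℝ) ≠ 0 := Nat.cast_ne_zero.2 h.ne'
      by_cases hc : c = 0
      · simp [hc]
      · field_simp; ring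
  rw [e] at h
  refine (measureReal_mono (fun x hx => ?_) (measure_ne_top _ _)).trans h
  simp only [Set.mem_ofPred_eq] at hx ⊢
  rw [disorderLaw_eq] at hM
  linarith

theorem Jmat_lam_tail {t : ℝ} (ht : 0 ≤ t) :
    (disorderLaw n).real {g | 2 + t ≤ lam (Jmat n g) 0} ≤ Real.exp (-(n * t ^ 2 / 4)) := by
  simpa using Jmat_lam_tail' (n := n) (D := 0) isHermitian_zero 1 0 (M := 2)
    (by simpa using E_lam_Jmat (n := n) 1) ht

theorem Jmat_lam_neg_tail {t : ℝ} (ht : 0 ≤ t) :
    (disorderLaw n).real {g | 2 + t ≤ lam (-Jmat n g) 0} ≤ Real.exp (-(n * t ^ 2 / 4)) := by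
  simpa using Jmat_lam_tail' (n := n) (D := 0) isHermitian_zero (-1) 0 (M := 2)
    (by simpa using E_lam_Jmat (n := n) (-1)) ht

/-- **sharp norm bound for the SK coupling matrix** -/
theorem Jmat_opn_tail {t : ℝ} (ht : 0 ≤ t) :
    (disorderLaw n).real {g | 2 + t ≤ opn (Jmat n g)} ≤ 2 * Real.exp (-(n * t ^ 2 / 4)) := by
  have h3 : {g | 2 + t ≤ opn (Jmat n g)} ⊆
      {g | 2 + t ≤ lam (Jmat n g) 0} ∪ {g | 2 + t ≤ lam (-Jmat n g) 0} := fun g h => by
    have h : 2 + t ≤ opn (Jmat n g) := h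
    rw [opn_eq_max (Jmat_isHermitian g), le_max_iff] at h
    exact h
  have := (measureReal_mono (μ := disorderLaw n) h3 (measure_ne_top _ _)).trans
    (measureReal_union_le _ _)
  linarith [Jmat_lam_tail (n := n) ht, Jmat_lam_neg_tail (n := n) ht]

end Crest.Agent.T157.Nrm

end
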