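import Crest.Agent.T157.TapDef_29

/-!
# Row 157, part A: algebra of `N, G, R` and derivatives of the TAP map (helper29)
-/

set_option autoImplicit false

noncomputable section

namespace Crest.Agent.T157.Tap

open Matrix Filter Set Topology
open Crest.Agent.T157.E Crest.Agent.T157.Eig

variable {n : ℕ} {B J : Mx n} {d p : V n} {c b : ℝ}

lemma th_lt (x : V n) (i : Fin n) : |th x i| < 1 := abs_lt.2 ⟨Real.neg_one_lt_tanh _, Real.tanh_lt_one _⟩
lemma cb_th (x : V n) : Cb (th x) := fun i => (th_lt x i).le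
lemma Cb.sq_le (h : Cb p) (i : Fin n) : p i ^ 2 ≤ 1 := by
  have := h i; rw [← sq_abs]; nlinarith [abs_nonneg (p i)]
lemma Cb.DD_nonneg (h : Cb p) (i : Fin n) : 0 ≤ DD p i := sub_nonneg.2 (h.sq_le i)
lemma DD_le (p : V n) (i : Fin n) : DD p i ≤ 1 := by simp [DD, sq_nonneg]
lemma Cb.dd_sq (h : Cb p) (i : Fin n) : dd p i ^ 2 = DD p i := Real.sq_sqrt (h.DD_nonneg i)
lemma Cb.dd_mul (h : Cb p) (i : Fin n) : dd p i * dd p i = DD p i := by rw [← sq, h.dd_sq]
lemma ub_dd (p : V n) : Ub (dd p) := fun i =>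
  ⟨Real.sqrt_nonneg _, Real.sqrt_le_one.2 (by simp [sq_nonneg])⟩
lemma Ub.abs_le (h : Ub d) (i : Fin n) : |d i| ≤ 1 := by rw [abs_of_nonneg (h i).1]; exact (h i).2
lemma Cb.dot_le (h : Cb p) : p ⬝ᵥ p ≤ n := by
  simpa [dotProduct, sq] using Finset.sum_le_sum (s := Finset.univ) fun i _ => h.sq_le i
lemma Cb.nrm_le (h : Cb p) : nrm p ≤ √n := Real.sqrt_le_sqrt h.dot_le
lemma avg_nonneg {f : V n} (h : ∀ i, 0 ≤ f i) : 0 ≤ avg f :=
  div_nonneg (Finset.sum_nonneg fun i _ => h i) (Nat.cast_nonneg _)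
lemma avg_le_one {f : V n} (h : ∀ i, f i ≤ 1) : avg f ≤ 1 := by
  refine div_le_one_of_le₀ ?_ (Nat.cast_nonneg _)
  simpa using Finset.sum_le_sum (s := Finset.univ) fun i _ => h i
lemma Cb.B1_eq (h : Cb p) (J : Mx n) (b : ℝ) :
    B1 J b p = J - (b * avg (DD p)) • (1 : Mx n) + (2 * b / n) • vecMulVec p p := by
  simp only [B1, B0, h.dd_sq]

lemma B0_symm (hJ : Jᵀ = J) (b : ℝ) (d : V n) : (B0 J b d)ᵀ = B0 J b d := by
  simp [B0, transpose_sub, transpose_smul, hJ]
lemma B1_symm (hJ : Jᵀ = J) (b : ℝ) (p : V n) : (B1 J b p)ᵀ = B1 J b p := by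
  simp [B1, transpose_add, transpose_smul, B0_symm hJ, transpose_vecMulVec]
lemma NN_symm (hB : Bᵀ = B) (d : V n) : (NN B d)ᵀ = NN B d := by
  simp [NN, transpose_sub, transpose_mul, hB, Matrix.mul_assoc]
lemma GG_symm (hB : Bᵀ = B) (d : V n) : (GG B d)ᵀ = GG B d := by
  simp [GG, transpose_mul, transpose_nonsing_inv, NN_symm hB, Matrix.mul_assoc]

lemma opn_B1_le {K : ℝ} (hJ : opn J ≤ K) (hb : b ∈ Icc (0 : ℝ) 1) (hp : Cb p) :
    opn (B1 J b p) ≤ K + 3 := by
  rw [hp.B1_eq]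
  have h0 := avg_nonneg hp.DD_nonneg
  have h1 := avg_le_one (DD_le p)
  have h2 : opn ((b * avg (DD p)) • (1 : Mx n)) ≤ 1 := by
    rw [opn_smul, abs_of_nonneg (mul_nonneg hb.1 h0)]
    exact mul_le_one₀ (mul_le_one₀ hb.2 h0 h1) (opn_nonneg _) opn_one_le
  have h3 : opn ((2 * b / n) • vecMulVec p p) ≤ 2 := by
    have hb0 := hb.1
    rw [opn_smul, abs_of_nonneg (by positivity)]
    have h4 := (opn_vecMulVec_le p p).trans ((nrm_mul_self p).trans_le hp.dot_le)
    rcases Nat.eq_zero_or_pos n with rfl | hn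
    · simp
    · have : (0 : ℝ) < n := by exact_mod_cast hn
      calc 2 * b / n * opn (vecMulVec p p) ≤ 2 * b / n * n := by gcongr
        _ = 2 * b := by field_simp
        _ ≤ 2 := by linarith [hb.2]
  linarith [opn_add_le (J - (b * avg (DD p)) • (1 : Mx n)) ((2 * b / n) • vecMulVec p p),
    opn_sub_le J ((b * avg (DD p)) • (1 : Mx n))]

lemma Pos.nrm_le {M : Mx n} (h : Pos c M) (u : V n) : c * nrm u ≤ nrm (M *ᵥ u) := by
  rcases (nrm_nonneg u).eq_or_lt with h0 | h0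
  · rw [← h0, mul_zero]; exact nrm_nonneg _
  · have := (h u).trans (dot_le u (M *ᵥ u))
    rw [← nrm_mul_self, ← mul_assoc, mul_comm (nrm u)] at this
    exact le_of_mul_le_mul_right this h0

lemma Pos.isUnit_det {M : Mx n} (h : Pos c M) (hc : 0 < c) : IsUnit M.det := by
  rw [← Matrix.isUnit_iff_isUnit_det, ← Matrix.mulVec_injective_iff_isUnit]
  intro u v huv
  have h1 := h.nrm_le (u - v)
  rw [mulVec_sub, huv, sub_self, nrm_eq_zero.2 rfl] at h1
  have := nrm_nonneg (u - v)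
  exact sub_eq_zero.1 (nrm_eq_zero.1 (by nlinarith))

lemma Pos.opn_inv_le {M : Mx n} (h : Pos c M) (hc : 0 < c) : opn M⁻¹ ≤ 1 / c := by
  refine opn_le_of_nrm (by positivity) fun v => ?_
  have := h.nrm_le (M⁻¹ *ᵥ v)
  rw [mulVec_mulVec, mul_nonsing_inv _ (h.isUnit_det hc), one_mulVec] at this
  rw [one_div, ← div_eq_inv_mul, le_div_iff₀ hc]; linarith

lemma opn_GG_le (h : Pos c (NN B d)) (hc : 0 < c) (hd : ∀ i, |d i| ≤ 1) : opn (GG B d) ≤ 1 / c := by
  have h1 := opn_diagonal_le zero_le_one hd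
  have h2 := h.opn_inv_le hc
  have h3 := opn_nonneg (NN B d)⁻¹
  have h4 := opn_nonneg (diagonal d)
  calc opn (GG B d) ≤ opn (diagonal d) * opn (NN B d)⁻¹ * opn (diagonal d) :=
        (opn_mul_le _ _).trans (mul_le_mul_of_nonneg_right (opn_mul_le _ _) h4)
    _ ≤ 1 * (1 / c) * 1 := by gcongr
    _ = _ := by ring

lemma GG_eq (h : IsUnit (NN B d).det) :
    GG B d = diagonal (fun i => d i * d i) * RR B d := by
  have h1 := mul_nonsing_inv _ h
  have h2 : (NN B d)⁻¹ = 1 + diagonal d * B * diagonal d * (NN B d)⁻¹ := by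
    rw [← h1]; nth_rewrite 2 [NN]; rw [Matrix.sub_mul, Matrix.one_mul, sub_add_cancel]
  rw [RR, ← diagonal_mul_diagonal, Matrix.mul_add, Matrix.mul_one]
  nth_rewrite 1 [GG, h2]
  simp only [GG, Matrix.mul_add, Matrix.add_mul, Matrix.mul_one, Matrix.mul_assoc]

lemma sub_mul_RR (h : IsUnit (NN B d).det) :
    (1 - B * diagonal fun i => d i * d i) * RR B d = 1 := by
  rw [Matrix.sub_mul, Matrix.one_mul, Matrix.mul_assoc, ← GG_eq h, RR, add_sub_cancel_right]

lemma RR_mul_sub (h : IsUnit (NN B d).det) :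
    RR B d * (1 - B * diagonal fun i => d i * d i) = 1 := mul_eq_one_comm.1 (sub_mul_RR h)

lemma RRT_mul_sub (hB : Bᵀ = B) (h : IsUnit (NN B d).det) :
    (RR B d)ᵀ * (1 - (diagonal fun i => d i * d i) * B) = 1 := by
  have := congrArg transpose (sub_mul_RR h)
  simpa [transpose_mul, transpose_sub, hB] using this

lemma GG_eq' (hB : Bᵀ = B) (h : IsUnit (NN B d).det) :
    GG B d = (RR B d)ᵀ * diagonal fun i => d i * d i := by
  rw [← GG_symm hB, GG_eq h, transpose_mul, diagonal_transpose]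

lemma sub_mul_GG (h : IsUnit (NN B d).det) :
    (1 - (diagonal fun i => d i * d i) * B) * GG B d = diagonal fun i => d i * d i := by
  rw [Matrix.sub_mul, Matrix.one_mul, Matrix.mul_assoc]
  nth_rewrite 1 [GG_eq h]
  rw [RR, Matrix.mul_add, Matrix.mul_one, add_sub_cancel_right]

/-! ### calculus -/

lemma hasDerivAt_tanh' (x : ℝ) : HasDerivAt Real.tanh (1 - Real.tanh x ^ 2) x := by
  have h := (Real.hasDerivAt_sinh x).div (Real.hasDerivAt_cosh x) (Real.cosh_pos x).ne'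
  have e : Real.tanh = fun y => Real.sinh y / Real.cosh y := funext Real.tanh_eq_sinh_div_cosh
  rw [e]
  refine h.congr_deriv ?_
  have := (Real.cosh_pos x).ne'
  field_simp

lemma continuous_tanh' : Continuous Real.tanh :=
  continuous_iff_continuousAt.2 fun x => (hasDerivAt_tanh' x).continuousAt

lemma continuous_th : Continuous (th : V n → V n) :=
  continuous_pi fun i => continuous_tanh'.comp (continuous_apply i)

lemma hasDerivAt_th {x : ℝ → V n} {x' : V n} {s : ℝ} (hx : HasDerivAt x x' s) :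
    HasDerivAt (fun s => th (x s)) (fun i => DD (th (x s)) i * x' i) s :=
  hasDerivAt_pi.2 fun i => (hasDerivAt_tanh' _).comp s (hasDerivAt_pi.1 hx i)

lemma hasDerivAt_avgDD {p : ℝ → V n} {p' : V n} {s : ℝ} (hp : HasDerivAt p p' s) :
    HasDerivAt (fun s => avg (DD (p s))) (-(2 / n * (p s ⬝ᵥ p'))) s := by
  have h := (HasDerivAt.fun_sum (u := Finset.univ) fun i _ =>
    ((hasDerivAt_pi.1 hp i).pow 2).const_sub 1).div_const (n : ℝ)
  refine h.congr_deriv ?_
  simp only [dotProduct, Finset.sum_neg_distrib, Finset.mul_sum, neg_div, Finset.sum_div]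
  exact congrArg _ (Finset.sum_congr rfl fun i _ => by simp; ring)

lemma hasDerivAt_mulVec (M : Mx n) {p : ℝ → V n} {p' : V n} {s : ℝ} (hp : HasDerivAt p p' s) :
    HasDerivAt (fun s => M *ᵥ p s) (M *ᵥ p') s :=
  hasDerivAt_pi.2 fun i => by
    simpa only [mulVec, dotProduct] using HasDerivAt.fun_sum (u := Finset.univ)
      fun j _ => (hasDerivAt_pi.1 hp j).const_mul (M i j)

/-- derivative of the time-dependent TAP map along a curve -/
lemma hasDerivAt_Ymap (J0 S : Mx n) {b : ℝ → ℝ} {b1 : ℝ} {t : ℝ → ℝ} {x : ℝ → V n} {t' s : ℝ}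
    {x' : V n} (hb : HasDerivAt b b1 (t s)) (ht : HasDerivAt t t' s) (hx : HasDerivAt x x' s) :
    HasDerivAt (fun s => Ymap (J0 - t s • S) (b (t s)) (x s))
      (t' • (S *ᵥ th (x s) + (b1 * avg (DD (th (x s)))) • th (x s)) +
        (1 - B1 (J0 - t s • S) (b (t s)) (th (x s)) *
          diagonal fun i => dd (th (x s)) i * dd (th (x s)) i) *ᵥ x') s := by
  have hp := hasDerivAt_th hx
  have h := (hx.sub ((hasDerivAt_mulVec J0 hp).sub (ht.smul (hasDerivAt_mulVec S hp)))).add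
    (((hb.comp s ht).mul (hasDerivAt_avgDD hp)).smul hp)
  have e : (fun s => Ymap (J0 - t s • S) (b (t s)) (x s)) = fun s => x s -
      (J0 *ᵥ th (x s) - t s • S *ᵥ th (x s)) + (b (t s) * avg (DD (th (x s)))) • th (x s) := by
    funext s; simp only [Ymap, sub_mulVec, smul_mulVec]
  rw [e]
  refine h.congr_deriv ?_
  have e2 : (diagonal fun i => dd (th (x s)) i * dd (th (x s)) i) *ᵥ x' =
      fun i => DD (th (x s)) i * x' i := by
    funext i; rw [mulVec_diagonal, (cb_th _).dd_mul]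
  rw [sub_mulVec, one_mulVec, ← mulVec_mulVec, e2, (cb_th _).B1_eq]
  simp only [add_mulVec, sub_mulVec, smul_mulVec, one_mulVec, Cond.vmv_mulVec, Function.comp]
  ext i
  simp only [Pi.add_apply, Pi.sub_apply, Pi.smul_apply, Pi.mul_apply, smul_eq_mul, Function.comp]
  ring

/-- differentiation of a linear system -/
lemma hasDerivAt_linsys {M : ℝ → Mx n} {M' L : Mx n} {r w : ℝ → V n} {r' : V n} {s : ℝ}
    (hM : ∀ i j, HasDerivAt (fun s => M s i j) (M' i j) s) (hr : HasDerivAt r r' s)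
    (hw : ContinuousAt w s) (e : ∀ᶠ s' in 𝓝 s, M s' *ᵥ w s' = r s') (hL : L * M s = 1) :
    HasDerivAt w (L *ᵥ (r' - M' *ᵥ w s)) s := by
  rw [hasDerivAt_iff_tendsto_slope]
  have h1 : Tendsto (fun s' => (Matrix.of fun i j => slope (fun s => M s i j) s s')) (𝓝[≠] s)
      (𝓝 M') := tendsto_pi_nhds.2 fun i => tendsto_pi_nhds.2 fun j =>
    hasDerivAt_iff_tendsto_slope.1 (hM i j)
  have h2 : Tendsto w (𝓝[≠] s) (𝓝 (w s)) := hw.tendsto.mono_left nhdsWithin_le_nhds
  have h3 := hasDerivAt_iff_tendsto_slope.1 hr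
  have hc : Continuous fun q : V n × Mx n × V n => L *ᵥ (q.1 - q.2.1 *ᵥ q.2.2) := by fun_prop
  have h4 := (hc.tendsto (r', M', w s)).comp (h3.prodMk_nhds (h1.prodMk_nhds h2))
  refine h4.congr' ?_
  filter_upwards [e.filter_mono nhdsWithin_le_nhds] with s' hs'
  have e0 := e.self_of_nhds
  have e1 : (Matrix.of fun i j => slope (fun s => M s i j) s s') = (s' - s)⁻¹ • (M s' - M s) := by
    ext i j; simp [slope]
  simp only [Function.comp, e1]
  simp only [slope, vsub_eq_sub, smul_mulVec, ← smul_sub, mulVec_smul]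
  congr 1
  rw [← hs', ← e0, sub_mulVec, show M s' *ᵥ w s' - M s *ᵥ w s - (M s' *ᵥ w s' - M s *ᵥ w s') =
    M s *ᵥ (w s' - w s) by rw [mulVec_sub]; abel, mulVec_mulVec, hL, one_mulVec]

end Crest.Agent.T157.Tap
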