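import Crest.Agent.T157.TapDef_29
import Crest.Agent.T157.NrmG_84

/-!
# Row 157, part A: scalar Gaussian calculus and Hoeffding bounds (helper6)

`seStmt : SEStmt` (Nishimori identities, state-evolution fixed point, strong monotonicity) and
`hoefStmt : HoefStmt`.
-/

set_option autoImplicit false

noncomputable section

namespace Crest.Agent.T157.Tap

open MeasureTheory ProbabilityTheory Matrix Filter Set Topology
open Crest.Agent.T157.E Crest.Agent.T157.Eig
open Crest.Agent.R339.Guerra (stein1 integrable_id_γ)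

namespace SE

/-! ### `tanh` -/

lemma hasDerivAt_tanh (x : ℝ) : HasDerivAt Real.tanh (1 - Real.tanh x ^ 2) x := by
  have hc := (Real.cosh_pos x).ne'
  have h := (Real.hasDerivAt_sinh x).div (Real.hasDerivAt_cosh x) hc
  have e : Real.tanh = Real.sinh / Real.cosh := funext fun y => Real.tanh_eq_sinh_div_cosh y
  rw [e]
  refine h.congr_deriv ?_
  simp only [Pi.div_apply]
  field_simp

@[fun_prop] lemma continuous_tanh : Continuous Real.tanh :=
  continuous_iff_continuousAt.2 fun x => (hasDerivAt_tanh x).continuousAt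

@[fun_prop] lemma measurable_tanh : Measurable Real.tanh := continuous_tanh.measurable

lemma abs_tanh_le (x : ℝ) : |Real.tanh x| ≤ 1 := (Real.abs_tanh_lt_one x).le

lemma tanh_sq_le (x : ℝ) : Real.tanh x ^ 2 ≤ 1 := (Real.tanh_sq_lt_one x).le

lemma abs_tanh_pow_le (k : ℕ) (x : ℝ) : |Real.tanh x ^ k| ≤ 1 := by
  rw [abs_pow]; exact pow_le_one₀ (abs_nonneg _) (abs_tanh_le x)

lemma monotone_tanh : Monotone Real.tanh :=
  monotone_of_hasDerivAt_nonneg hasDerivAt_tanh fun x => sub_nonneg.2 (tanh_sq_le x)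

lemma tanh_pos {x : ℝ} (hx : 0 < x) : 0 < Real.tanh x := by
  rw [Real.tanh_eq_sinh_div_cosh]; exact div_pos (Real.sinh_pos_iff.2 hx) (Real.cosh_pos x)

lemma abs_tanh_sub_le (x y : ℝ) : |Real.tanh x - Real.tanh y| ≤ |x - y| := by
  have h : Monotone fun x => x - Real.tanh x :=
    monotone_of_hasDerivAt_nonneg (fun x => (hasDerivAt_id' x).sub (hasDerivAt_tanh x))
      fun x => by simp only [Pi.zero_apply]; nlinarith [sq_nonneg (Real.tanh x)]
  rcases le_total x y with hxy | hxy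
  · have h1 := h hxy
    have h2 := monotone_tanh hxy
    rw [abs_of_nonpos (by linarith), abs_of_nonpos (by linarith)]
    simp only at h1; linarith
  · have h1 := h hxy
    have h2 := monotone_tanh hxy
    rw [abs_of_nonneg (by linarith), abs_of_nonneg (by linarith)]
    simp only at h1; linarith

/-! ### the Gaussian average -/

lemma integrable_gE {f : ℝ → ℝ} (hf : Measurable f) {C : ℝ} (hC : ∀ x, |f x| ≤ C) (m c : ℝ) :
    Integrable (fun z => f (m + c * z)) (gaussianReal 0 1) :=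
  (integrable_const C).mono' (hf.comp (by fun_prop)).aestronglyMeasurable
    (Eventually.of_forall fun _ => hC _)

lemma gE_const (c m v : ℝ) : gE (fun _ => c) m v = c := by simp [gE]

lemma gE_const_mul (c : ℝ) (f : ℝ → ℝ) (m v : ℝ) : gE (fun x => c * f x) m v = c * gE f m v :=
  integral_const_mul _ _

lemma gE_add {f g : ℝ → ℝ} (hf : Measurable f) (hg : Measurable g) {C C' : ℝ}
    (hC : ∀ x, |f x| ≤ C) (hC' : ∀ x, |g x| ≤ C') (m v : ℝ) :
    gE (fun x => f x + g x) m v = gE f m v + gE g m v :=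
  integral_add (integrable_gE hf hC _ _) (integrable_gE hg hC' _ _)

lemma gE_sub {f g : ℝ → ℝ} (hf : Measurable f) (hg : Measurable g) {C C' : ℝ}
    (hC : ∀ x, |f x| ≤ C) (hC' : ∀ x, |g x| ≤ C') (m v : ℝ) :
    gE (fun x => f x - g x) m v = gE f m v - gE g m v :=
  integral_sub (integrable_gE hf hC _ _) (integrable_gE hg hC' _ _)

lemma gE_mono {f g : ℝ → ℝ} (hf : Measurable f) (hg : Measurable g) {C C' : ℝ}
    (hC : ∀ x, |f x| ≤ C) (hC' : ∀ x, |g x| ≤ C') (h : ∀ x, f x ≤ g x) (m v : ℝ) :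
    gE f m v ≤ gE g m v :=
  integral_mono (integrable_gE hf hC _ _) (integrable_gE hg hC' _ _) fun _ => h _

lemma gE_nonneg {f : ℝ → ℝ} (h : ∀ x, 0 ≤ f x) (m v : ℝ) : 0 ≤ gE f m v :=
  integral_nonneg fun _ => h _

lemma abs_gE_le {f : ℝ → ℝ} {C : ℝ} (hC : ∀ x, |f x| ≤ C) (m v : ℝ) : |gE f m v| ≤ C := by
  have := norm_integral_le_of_norm_le_const (μ := gaussianReal 0 1)
    (f := fun z => f (m + Real.sqrt v * z)) (C := C) (Eventually.of_forall fun _ => hC _)
  simpa [gE] using this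

lemma continuous_gE {X : Type*} [TopologicalSpace X] [FirstCountableTopology X] {f : ℝ → ℝ}
    (hf : Continuous f) {C : ℝ} (hC : ∀ x, |f x| ≤ C) {m v : X → ℝ} (hm : Continuous m)
    (hv : Continuous v) : Continuous fun x => gE f (m x) (v x) :=
  continuous_of_dominated (bound := fun _ => C)
    (fun _ => (hf.comp (by fun_prop)).aestronglyMeasurable)
    (fun _ => Eventually.of_forall fun _ => hC _) (integrable_const C)
    (Eventually.of_forall fun _ => hf.comp (by fun_prop))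

/-- Stein's identity -/
lemma stein {f f' : ℝ → ℝ} (hf : ∀ x, HasDerivAt f (f' x) x) (hm : Measurable f') {C C' : ℝ}
    (hC : ∀ x, |f x| ≤ C) (hC' : ∀ x, |f' x| ≤ C') (m c : ℝ) :
    ∫ z, z * f (m + c * z) ∂gaussianReal 0 1 = c * ∫ z, f' (m + c * z) ∂gaussianReal 0 1 := by
  rw [← integral_const_mul]
  refine stein1 (f := fun z => f (m + c * z)) (f' := fun z => c * f' (m + c * z)) (C := C)
    (C' := |c| * C') (fun z => ?_) (by fun_prop) (fun _ => hC _) fun z => ?_
  · have h := (hf (m + c * z)).comp z (((hasDerivAt_id' z).const_mul c).const_add m)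
    rw [mul_one, mul_comm] at h
    exact h
  · rw [abs_mul]; exact mul_le_mul_of_nonneg_left (hC' _) (abs_nonneg c)

/-- **Nishimori symmetry** -/
theorem nishimori0 {f : ℝ → ℝ} (hf : ∀ x, f (-x) = -f x) {γ : ℝ} (hγ : 0 ≤ γ) :
    gE (fun x => f x * (1 - Real.tanh x)) γ γ = 0 := by
  set c := Real.sqrt γ with hc
  have hc2 : γ = c * c := (Real.mul_self_sqrt hγ).symm
  set H : ℝ → ℝ := fun w => (Real.sqrt (2 * Real.pi))⁻¹ * Real.exp (-(c * c) / 2) *
    (Real.exp (-w ^ 2 / 2) * (f (c * w) / Real.cosh (c * w))) with hH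
  have h1 : gE (fun x => f x * (1 - Real.tanh x)) γ γ = ∫ z, H (z + c) := by
    rw [gE, integral_gaussianReal_eq_integral_smul one_ne_zero]
    refine integral_congr_ae (Eventually.of_forall fun z => ?_)
    have e1 : γ + c * z = c * (z + c) := by rw [hc2]; ring
    have e2 : 1 - Real.tanh (c * (z + c)) = Real.exp (-(c * (z + c))) / Real.cosh (c * (z + c)) := by
      rw [Real.tanh_eq_sinh_div_cosh, ← Real.cosh_sub_sinh, sub_div,
        div_self (Real.cosh_pos _).ne']
    have e3 : Real.exp (-z ^ 2 / 2) * Real.exp (-(c * (z + c))) =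
        Real.exp (-(c * c) / 2) * Real.exp (-(z + c) ^ 2 / 2) := by
      rw [← Real.exp_add, ← Real.exp_add]; congr 1; ring
    simp only [hH, ← hc, e1, e2, gaussianPDFReal, smul_eq_mul, NNReal.coe_one, mul_one, sub_zero]
    linear_combination ((Real.sqrt (2 * Real.pi))⁻¹ * f (c * (z + c)) / Real.cosh (c * (z + c))) * e3
  have h2 : ∫ w, H (-w) = -∫ w, H w := by
    rw [← integral_neg]
    refine integral_congr_ae (Eventually.of_forall fun w => ?_)
    simp only [hH, mul_neg, hf, Real.cosh_neg, neg_sq]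
    ring
  rw [integral_neg_eq_self] at h2
  rw [h1, integral_add_right_eq_self]
  linarith

theorem nishimori {f : ℝ → ℝ} (hf : ∀ x, f (-x) = -f x) (hm : Measurable f) {C : ℝ}
    (hC : ∀ x, |f x| ≤ C) {γ : ℝ} (hγ : 0 ≤ γ) :
    gE f γ γ = gE (fun x => f x * Real.tanh x) γ γ := by
  have h := nishimori0 hf hγ
  simp only [mul_sub, mul_one] at h
  rw [gE_sub (C' := C) hm (by fun_prop) hC fun x => ?_] at h
  · linarith
  · rw [abs_mul]; exact (mul_le_of_le_one_right (abs_nonneg _) (abs_tanh_le x)).trans (hC x)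

/-- derivative of the Gaussian average along a line in the `(mean, variance)` plane -/
theorem hasDerivAt_gE {φ φ1 φ2 : ℝ → ℝ} (h1 : ∀ x, HasDerivAt φ (φ1 x) x)
    (h2 : ∀ x, HasDerivAt φ1 (φ2 x) x) (hm : Measurable φ2) {C : ℝ} (b0 : ∀ x, |φ x| ≤ C)
    (b1 : ∀ x, |φ1 x| ≤ C) (b2 : ∀ x, |φ2 x| ≤ C) (m0 m1 v0 v1 : ℝ) {τ : ℝ}
    (hv : 0 < v0 + τ * v1) :
    HasDerivAt (fun τ => gE φ (m0 + τ * m1) (v0 + τ * v1))
      (m1 * gE φ1 (m0 + τ * m1) (v0 + τ * v1) + v1 / 2 * gE φ2 (m0 + τ * m1) (v0 + τ * v1)) τ := by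
  have c0 : Continuous φ := continuous_iff_continuousAt.2 fun x => (h1 x).continuousAt
  have c1 : Continuous φ1 := continuous_iff_continuousAt.2 fun x => (h2 x).continuousAt
  have hC : 0 ≤ C := (abs_nonneg _).trans (b0 0)
  set σ := Real.sqrt (v0 + τ * v1) with hσ
  have hσ0 : 0 < σ := Real.sqrt_pos.2 hv
  have hs : {t : ℝ | (v0 + τ * v1) / 4 < v0 + t * v1} ∈ 𝓝 τ :=
    (isOpen_lt continuous_const (by fun_prop)).mem_nhds (by simp only [mem_ofPred_eq]; linarith)
  have key := hasDerivAt_integral_of_dominated_loc_of_deriv_le (μ := gaussianReal 0 1)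
    (F := fun t z => φ (m0 + t * m1 + Real.sqrt (v0 + t * v1) * z))
    (F' := fun t z => φ1 (m0 + t * m1 + Real.sqrt (v0 + t * v1) * z) *
      (m1 + v1 / (2 * Real.sqrt (v0 + t * v1)) * z))
    (bound := fun z => C * (|m1| + |v1| / σ * |z|)) hs
    (Eventually.of_forall fun t => (c0.comp (by fun_prop)).aestronglyMeasurable)
    (integrable_gE c0.measurable b0 _ _) (Continuous.aestronglyMeasurable (by fun_prop))
    (Eventually.of_forall fun z t ht => ?_)
    (((integrable_const _).add (integrable_id_γ.abs.const_mul _)).const_mul _)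
    (Eventually.of_forall fun z t ht => ?_)
  · refine key.2.congr_deriv (Eq.symm ?_)
    have i1 := integrable_gE c1.measurable b1 (m0 + τ * m1) σ
    have i2 : Integrable (fun z => z * φ1 (m0 + τ * m1 + σ * z)) (gaussianReal 0 1) :=
      integrable_id_γ.mul_bdd (c := C) i1.aestronglyMeasurable (Eventually.of_forall fun _ => b1 _)
    have e : (fun z => φ1 (m0 + τ * m1 + σ * z) * (m1 + v1 / (2 * σ) * z)) = fun z =>
        m1 * φ1 (m0 + τ * m1 + σ * z) + v1 / (2 * σ) * (z * φ1 (m0 + τ * m1 + σ * z)) := by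
      funext z; ring
    rw [← hσ, e, integral_add (i1.const_mul _) (i2.const_mul _), integral_const_mul,
      integral_const_mul, stein h2 hm b1 b2, gE, gE, ← hσ]
    field_simp
  · have ht' : (v0 + τ * v1) / 4 < v0 + t * v1 := ht
    have h3 : σ ≤ 2 * Real.sqrt (v0 + t * v1) := by
      rw [hσ, show (2 : ℝ) = Real.sqrt 4 by
        rw [show (4 : ℝ) = 2 ^ 2 by norm_num, Real.sqrt_sq (by norm_num)],
        ← Real.sqrt_mul (by norm_num)]
      exact Real.sqrt_le_sqrt (by linarith)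
    rw [Real.norm_eq_abs, abs_mul]
    refine mul_le_mul (b1 _) ((abs_add_le _ _).trans (add_le_add le_rfl ?_)) (abs_nonneg _) hC
    rw [abs_mul, abs_div, abs_of_pos (hσ0.trans_le h3)]
    exact mul_le_mul_of_nonneg_right (div_le_div_of_nonneg_left (abs_nonneg _) hσ0 h3)
      (abs_nonneg _)
  · have ht' : (v0 + τ * v1) / 4 < v0 + t * v1 := ht
    have h3 : HasDerivAt (fun t => v0 + t * v1) v1 t := by
      simpa using ((hasDerivAt_id' t).mul_const v1).const_add v0
    have h4 : HasDerivAt (fun t => m0 + t * m1) m1 t := by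
      simpa using ((hasDerivAt_id' t).mul_const m1).const_add m0
    exact (h1 _).comp t (h4.add ((h3.sqrt (by linarith)).mul_const z))

lemma gauss_pos {A : Set ℝ} (hA : volume A ≠ 0) : 0 < (gaussianReal 0 1).real A :=
  ENNReal.toReal_pos (fun h => hA (gaussianReal_absolutelyContinuous' 0 one_ne_zero h))
    (measure_ne_top _ _)

theorem lower {t0 : ℝ} (ht : 0 < t0) :
    ∃ a > (0 : ℝ), ∀ m : ℝ, ∀ v ≥ t0, a ≤ gE (fun x => Real.tanh x ^ 2) m v := by
  have h1 := gauss_pos (A := Ici 1) (by simp)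
  have h2 := gauss_pos (A := Iic (-1)) (by simp)
  have h3 := tanh_pos (Real.sqrt_pos.2 ht)
  refine ⟨Real.tanh (Real.sqrt t0) ^ 2 * min _ _, mul_pos (pow_pos h3 2) (lt_min h1 h2),
    fun m v hv => ?_⟩
  have h4 := mul_meas_ge_le_integral_of_nonneg (μ := gaussianReal 0 1)
    (f := fun z => Real.tanh (m + Real.sqrt v * z) ^ 2) (Eventually.of_forall fun _ => sq_nonneg _)
    (integrable_gE (f := fun x => Real.tanh x ^ 2) (by fun_prop) (abs_tanh_pow_le 2) _ _)
    (Real.tanh (Real.sqrt t0) ^ 2)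
  refine le_trans (mul_le_mul_of_nonneg_left ?_ (sq_nonneg _)) h4
  have h5 : Real.sqrt t0 ≤ Real.sqrt v := Real.sqrt_le_sqrt hv
  have h6 := Real.sqrt_nonneg v
  rcases le_total 0 m with hm | hm
  · refine (min_le_left _ _).trans (measureReal_mono fun z hz => ?_)
    have hz' : 1 ≤ z := hz
    exact pow_le_pow_left₀ h3.le (monotone_tanh (by nlinarith)) 2
  · refine (min_le_right _ _).trans (measureReal_mono fun z hz => ?_)
    have hz' : z ≤ -1 := hz
    have h7 : Real.tanh (Real.sqrt t0) ≤ Real.tanh (-(m + Real.sqrt v * z)) :=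
      monotone_tanh (by nlinarith)
    have h8 := pow_le_pow_left₀ h3.le h7 2
    rwa [Real.tanh_neg, neg_sq] at h8

theorem exists_isQ (β s : ℝ) : ∃ q, IsQ β s q := by
  have hc : Continuous fun q : ℝ =>
      q - gE (fun x => Real.tanh x ^ 2) (s + β ^ 2 * q) (s + β ^ 2 * q) :=
    continuous_id.sub (continuous_gE (by fun_prop) (abs_tanh_pow_le 2) (by fun_prop) (by fun_prop))
  have h0 := gE_nonneg (f := fun x => Real.tanh x ^ 2) (fun _ => sq_nonneg _) (s + β ^ 2 * 0)
    (s + β ^ 2 * 0)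
  have h1 := (le_abs_self _).trans (abs_gE_le (abs_tanh_pow_le 2) (s + β ^ 2 * 1) (s + β ^ 2 * 1))
  obtain ⟨q, hq, h⟩ := intermediate_value_Icc zero_le_one hc.continuousOn
    (show (0 : ℝ) ∈ Icc _ _ from ⟨by linarith, by linarith⟩)
  exact ⟨q, hq, sub_eq_zero.1 h⟩

lemma nish1 {γ : ℝ} (hγ : 0 ≤ γ) : gE Real.tanh γ γ = gE (fun x => Real.tanh x ^ 2) γ γ := by
  rw [nishimori Real.tanh_neg measurable_tanh abs_tanh_le hγ]; simp only [sq]

lemma nish3 {γ : ℝ} (hγ : 0 ≤ γ) :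
    gE (fun x => Real.tanh x ^ 3) γ γ = gE (fun x => Real.tanh x ^ 4) γ γ := by
  rw [nishimori (f := fun x => Real.tanh x ^ 3) (fun x => by rw [Real.tanh_neg]; ring)
    (by fun_prop) (abs_tanh_pow_le 3) hγ]
  simp only [← pow_succ]

/-- the increment of `x Ψ₁ + 2 y Ψ₂` along a segment -/
lemma incr {b a0 m0 v0 x y : ℝ} (hb : b ∈ Icc (0 : ℝ) 1)
    (h : ∀ τ ∈ Icc (0 : ℝ) 1, 0 < v0 + τ * (b * x) ∧
      a0 ≤ gE (fun x => Real.tanh x ^ 2) (m0 + τ * (b * y)) (v0 + τ * (b * x))) :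
    x * (gE (fun x => Real.tanh x ^ 2) (m0 + b * y) (v0 + b * x) -
        gE (fun x => Real.tanh x ^ 2) m0 v0) +
      2 * y * (gE Real.tanh (m0 + b * y) (v0 + b * x) - gE Real.tanh m0 v0) ≤
      (1 - a0) * (x ^ 2 + 2 * y ^ 2) := by
  set φ : ℝ → ℝ := fun u => x * Real.tanh u ^ 2 + 2 * y * Real.tanh u with hφ
  set φ1 : ℝ → ℝ := fun u => (2 * x * Real.tanh u + 2 * y) * (1 - Real.tanh u ^ 2) with hφ1
  set φ2 : ℝ → ℝ := fun u => (2 * x * (1 - 3 * Real.tanh u ^ 2) - 4 * y * Real.tanh u) *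
    (1 - Real.tanh u ^ 2) with hφ2
  have d1 : ∀ u, HasDerivAt φ (φ1 u) u := fun u => by
    have := (((hasDerivAt_tanh u).fun_pow 2).const_mul x).add
      ((hasDerivAt_tanh u).const_mul (2 * y))
    refine this.congr_deriv ?_
    simp only [hφ1]; push_cast; ring
  have d2 : ∀ u, HasDerivAt φ1 (φ2 u) u := fun u => by
    have := (((hasDerivAt_tanh u).const_mul (2 * x)).add_const (2 * y)).mul
      (((hasDerivAt_tanh u).fun_pow 2).const_sub 1)
    refine this.congr_deriv ?_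
    simp only [hφ2]; push_cast; ring
  have hD : ∀ u, |1 - Real.tanh u ^ 2| ≤ 1 := fun u => by
    rw [abs_le]; constructor <;> nlinarith [tanh_sq_le u, sq_nonneg (Real.tanh u)]
  have hx := abs_nonneg x
  have hy := abs_nonneg y
  have e1 : ∀ c t : ℝ, |t| ≤ 1 → |c * t| ≤ |c| := fun c t ht => by
    rw [abs_mul]; exact mul_le_of_le_one_right (abs_nonneg _) ht
  have e2 : |2 * x| = 2 * |x| := by rw [abs_mul, abs_two]
  have e3 : |2 * y| = 2 * |y| := by rw [abs_mul, abs_two]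
  have b0 : ∀ u, |φ u| ≤ 4 * (|x| + |y|) := fun u => by
    have := abs_add_le (x * Real.tanh u ^ 2) (2 * y * Real.tanh u)
    have := e1 x _ (abs_tanh_pow_le 2 u)
    have := e1 (2 * y) _ (abs_tanh_le u)
    simp only [hφ]; linarith
  have b1 : ∀ u, |φ1 u| ≤ 4 * (|x| + |y|) := fun u => by
    have := abs_add_le (2 * x * Real.tanh u) (2 * y)
    have := e1 (2 * x) _ (abs_tanh_le u)
    have := e1 (2 * x * Real.tanh u + 2 * y) _ (hD u)
    simp only [hφ1]; linarith
  have b2 : ∀ u, |φ2 u| ≤ 4 * (|x| + |y|) := fun u => by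
    have h1 : |(1 - 3 * Real.tanh u ^ 2) / 2| ≤ 1 := by
      rw [abs_le]; constructor <;> nlinarith [tanh_sq_le u, sq_nonneg (Real.tanh u)]
    have h2 := abs_sub (4 * x * ((1 - 3 * Real.tanh u ^ 2) / 2)) (4 * y * Real.tanh u)
    have h3 := e1 (4 * x) _ h1
    have h4 := e1 (4 * y) _ (abs_tanh_le u)
    have h5 := e1 (4 * x * ((1 - 3 * Real.tanh u ^ 2) / 2) - 4 * y * Real.tanh u) _ (hD u)
    rw [abs_mul 4 x, abs_of_pos (by norm_num : (0 : ℝ) < 4)] at h3
    rw [abs_mul 4 y, abs_of_pos (by norm_num : (0 : ℝ) < 4)] at h4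
    rw [show φ2 u = (4 * x * ((1 - 3 * Real.tanh u ^ 2) / 2) - 4 * y * Real.tanh u) *
      (1 - Real.tanh u ^ 2) by simp only [hφ2]; ring]
    linarith
  have m1 : Measurable φ1 := by simp only [hφ1]; fun_prop
  have m2 : Measurable φ2 := by simp only [hφ2]; fun_prop
  have hd := fun τ (hτ : τ ∈ Icc (0 : ℝ) 1) =>
    hasDerivAt_gE d1 d2 m2 b0 b1 b2 m0 (b * y) v0 (b * x) (h τ hτ).1
  have hS : 0 ≤ x ^ 2 + 2 * y ^ 2 := by positivity
  have key := (convex_Icc (0 : ℝ) 1).image_sub_le_mul_sub_of_deriv_le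
    (f := fun τ => gE φ (m0 + τ * (b * y)) (v0 + τ * (b * x))) (C := (1 - a0) * (x ^ 2 + 2 * y ^ 2))
    (fun τ hτ => (hd τ hτ).continuousAt.continuousWithinAt)
    (fun τ hτ => (hd τ (interior_subset hτ)).differentiableAt.differentiableWithinAt)
    (fun τ hτ => ?_) 0 ⟨le_rfl, zero_le_one⟩ 1 ⟨zero_le_one, le_rfl⟩ zero_le_one
  · have e : ∀ m v, gE φ m v = x * gE (fun x => Real.tanh x ^ 2) m v + 2 * y * gE Real.tanh m v :=
      fun m v => by
        rw [← gE_const_mul, ← gE_const_mul]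
        exact gE_add (by fun_prop) (by fun_prop) (fun u => e1 x _ (abs_tanh_pow_le 2 u))
          (fun u => e1 (2 * y) _ (abs_tanh_le u)) m v
    simp only [one_mul, zero_mul, add_zero, sub_zero, mul_one, e] at key
    linarith
  · have hτ' := interior_subset hτ
    rw [(hd τ hτ').deriv]
    set m := m0 + τ * (b * y)
    set v := v0 + τ * (b * x)
    have i1 := integrable_gE m1 b1 m (Real.sqrt v)
    have i2 := integrable_gE m2 b2 m (Real.sqrt v)
    have i3 := integrable_gE (f := fun x => Real.tanh x ^ 2) (by fun_prop) (abs_tanh_pow_le 2) m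
      (Real.sqrt v)
    have h1 : b * y * gE φ1 m v + b * x / 2 * gE φ2 m v ≤
        (x ^ 2 + 2 * y ^ 2) * (1 - gE (fun x => Real.tanh x ^ 2) m v) := by
      have h2 : 1 - gE (fun x => Real.tanh x ^ 2) m v =
          ∫ z, (1 - Real.tanh (m + Real.sqrt v * z) ^ 2) ∂gaussianReal 0 1 := by
        rw [integral_sub (integrable_const _) i3]; simp [gE]
      rw [h2, gE, gE, ← integral_const_mul, ← integral_const_mul, ← integral_const_mul,
        ← integral_add (i1.const_mul _) (i2.const_mul _)]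
      refine integral_mono ((i1.const_mul _).add (i2.const_mul _))
        (((integrable_const _).sub i3).const_mul _) fun z => ?_
      simp only [hφ1, hφ2]
      set t := Real.tanh (m + Real.sqrt v * z)
      have h3 : 0 ≤ 1 - t ^ 2 := sub_nonneg.2 (tanh_sq_le _)
      have h4 : b * (x ^ 2 * (1 - 3 * t ^ 2) + 2 * y ^ 2) ≤ x ^ 2 + 2 * y ^ 2 := by
        have h5 : b * (x ^ 2 * (1 - 3 * t ^ 2) + 2 * y ^ 2) ≤ b * (x ^ 2 + 2 * y ^ 2) :=
          mul_le_mul_of_nonneg_left (by nlinarith [mul_nonneg (sq_nonneg x) (sq_nonneg t)]) hb.1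
        exact h5.trans (mul_le_of_le_one_left hS hb.2)
      have h5 := mul_le_mul_of_nonneg_right h4 h3
      linarith
    have h2 := mul_le_mul_of_nonneg_left (sub_le_sub_left (h τ hτ').2 1) hS
    linarith

end SE

open SE in
theorem seStmt : SEStmt := by
  refine ⟨fun γ hγ => ⟨nish1 hγ, nish3 hγ⟩, fun t0 ht => lower ht, fun β hβ s hs => ?_⟩
  obtain ⟨q, hq⟩ := exists_isQ β s
  obtain ⟨a0, ha0, hl⟩ := lower hs
  refine ⟨q, hq, a0 / 4, by positivity, fun a ha b => ?_⟩
  have hb : β ^ 2 ∈ Icc (0 : ℝ) 1 := ⟨sq_nonneg _, pow_le_one₀ hβ.1 hβ.2⟩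
  have h := incr (b := β ^ 2) (a0 := a0) (m0 := s + β ^ 2 * q) (v0 := s + β ^ 2 * q) (x := a - q)
    (y := b - q) hb fun τ hτ => ?_
  · have h0 : 0 ≤ s + β ^ 2 * q := by have := mul_nonneg hb.1 hq.1.1; linarith
    rw [nish1 h0, ← hq.2, show s + β ^ 2 * q + β ^ 2 * (b - q) = s + β ^ 2 * b by ring,
      show s + β ^ 2 * q + β ^ 2 * (a - q) = s + β ^ 2 * a by ring] at h
    set P1 := gE (fun x => Real.tanh x ^ 2) (s + β ^ 2 * b) (s + β ^ 2 * a)
    set P2 := gE Real.tanh (s + β ^ 2 * b) (s + β ^ 2 * a)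
    have h1 : a0 * ((a - q) ^ 2 + 2 * (b - q) ^ 2) ≤
        (a - q) * (a - P1) + 2 * ((b - q) * (b - P2)) := by linarith
    have h2 := le_abs_self ((a - q) * (a - P1))
    have h3 := le_abs_self ((b - q) * (b - P2))
    rw [abs_mul] at h2 h3
    rw [← sq_abs (a - q), ← sq_abs (b - q)] at h1
    have p1 := abs_nonneg (a - q)
    have p2 := abs_nonneg (b - q)
    have p3 := abs_nonneg (a - P1)
    have p4 := abs_nonneg (b - P2)
    generalize |a - q| = X at *
    generalize |b - q| = Y at *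
    generalize |a - P1| = A at *
    generalize |b - P2| = B at *
    rcases (add_nonneg p1 p2).eq_or_lt with h4 | h4
    · rw [← h4, mul_zero]; positivity
    · refine le_of_mul_le_mul_left ?_ h4
      have h5 : 0 ≤ a0 * (X - Y) ^ 2 := by positivity
      have h6 : 0 ≤ a0 * Y ^ 2 := by positivity
      nlinarith [mul_nonneg p1 p3, mul_nonneg p1 p4, mul_nonneg p2 p3, mul_nonneg p2 p4]
  · have h1 : s ≤ s + β ^ 2 * q + τ * (β ^ 2 * (a - q)) := by
      have := mul_nonneg hb.1 (add_nonneg (mul_nonneg (sub_nonneg.2 hτ.2) hq.1.1)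
        (mul_nonneg hτ.1 ha.1))
      linarith
    exact ⟨hs.trans_le h1, hl _ _ h1⟩

namespace SE

/-! ### Hoeffding -/

theorem hoeff_pi {α : Type*} [MeasurableSpace α] (μ : Measure α) [IsProbabilityMeasure μ] {n : ℕ}
    (hn : 0 < n) {f : α → ℝ} (hf : Measurable f) (hb : ∀ x, |f x| ≤ 1) {t : ℝ} (ht : 0 ≤ t) :
    (Measure.pi fun _ : Fin n => μ).real {ω | t ≤ avg (fun i => f (ω i)) - ∫ x, f x ∂μ} ≤
      Real.exp (-n * t ^ 2 / 2) := by
  have hn' : (0 : ℝ) < n := by exact_mod_cast hn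
  have h1 : HasSubgaussianMGF (fun x => f x - ∫ x, f x ∂μ) 1 μ := by
    have := hasSubgaussianMGF_of_mem_Icc (μ := μ) (X := f) (a := -1) (b := 1) hf.aemeasurable
      (Eventually.of_forall fun x => abs_le.1 (hb x))
    convert this using 1
    ext; norm_num
  have h2 : ∀ i : Fin n, HasSubgaussianMGF (fun ω : Fin n → α => f (ω i) - ∫ x, f x ∂μ) 1
      (Measure.pi fun _ : Fin n => μ) := fun i => by
    have hi := measurePreserving_eval (fun _ : Fin n => μ) i
    exact HasSubgaussianMGF.of_map (Y := Function.eval i) (X := fun x => f x - ∫ x, f x ∂μ)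
      hi.measurable.aemeasurable (by rw [hi.map_eq]; exact h1)
  have h3 := HasSubgaussianMGF.measure_sum_ge_le_of_iIndepFun
    (iIndepFun_pi (μ := fun _ : Fin n => μ) (X := fun _ x => f x - ∫ x, f x ∂μ)
      fun _ => (hf.sub_const _).aemeasurable) (c := fun _ => 1) (s := Finset.univ)
    (fun i _ => h2 i) (ε := n * t) (by positivity)
  refine le_trans (measureReal_mono fun ω hω => ?_) (h3.trans (le_of_eq ?_))
  · have h4 : t ≤ (∑ i, f (ω i)) / n - ∫ x, f x ∂μ := hω
    change n * t ≤ ∑ i, (f (ω i) - ∫ x, f x ∂μ)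
    rw [Finset.sum_sub_distrib, Finset.sum_const, Finset.card_univ, Fintype.card_fin, nsmul_eq_mul]
    have h5 := mul_le_mul_of_nonneg_left h4 hn'.le
    rwa [mul_sub, mul_div_cancel₀ _ hn'.ne'] at h5
  · congr 1
    simp only [Finset.sum_const, Finset.card_univ, Fintype.card_fin, nsmul_eq_mul, mul_one,
      NNReal.coe_natCast]
    field_simp

theorem hoeff_pi_abs {α : Type*} [MeasurableSpace α] (μ : Measure α) [IsProbabilityMeasure μ]
    {n : ℕ} (hn : 0 < n) {f : α → ℝ} (hf : Measurable f) (hb : ∀ x, |f x| ≤ 1) {t : ℝ}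
    (ht : 0 ≤ t) :
    (Measure.pi fun _ : Fin n => μ).real {ω | t ≤ |avg (fun i => f (ω i)) - ∫ x, f x ∂μ|} ≤
      2 * Real.exp (-n * t ^ 2 / 2) := by
  have h1 := hoeff_pi μ hn hf hb ht
  have h2 := hoeff_pi μ hn (f := fun x => -f x) hf.neg (fun x => by rw [abs_neg]; exact hb x) ht
  refine le_trans (measureReal_mono fun ω hω => ?_) ((measureReal_union_le _ _).trans
    ((add_le_add h1 h2).trans (le_of_eq (two_mul _).symm)))
  have h3 : t ≤ |avg (fun i => f (ω i)) - ∫ x, f x ∂μ| := hω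
  rcases le_abs.1 h3 with h | h
  · exact Or.inl h
  · refine Or.inr ?_
    change t ≤ (∑ i, -f (ω i)) / n - ∫ x, -f x ∂μ
    rw [Finset.sum_neg_distrib, integral_neg, neg_div]
    rw [avg] at h
    linarith

lemma map_lin (c d : ℝ) :
    ((gaussianReal 0 1).prod (gaussianReal 0 1)).map (fun p : ℝ × ℝ => c * p.1 + d * p.2) =
      (gaussianReal 0 1).map fun z => Real.sqrt (c ^ 2 + d ^ 2) * z := by
  have h1 := gaussianReal_conv_gaussianReal (m₁ := c * 0) (m₂ := d * 0)
    (v₁ := NNReal.mk (c ^ 2) (sq_nonneg _) * 1) (v₂ := NNReal.mk (d ^ 2) (sq_nonneg _) * 1)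
  rw [← gaussianReal_map_const_mul, ← gaussianReal_map_const_mul, Measure.conv,
    Measure.map_prod_map _ _ (by fun_prop) (by fun_prop),
    Measure.map_map (by fun_prop) (by fun_prop)] at h1
  rw [gaussianReal_map_const_mul]
  refine h1.trans ?_
  congr 1
  · simp
  · ext
    simp [Real.sq_sqrt (add_nonneg (sq_nonneg c) (sq_nonneg d))]

lemma integral_lin {f : ℝ → ℝ} (hf : Measurable f) (m c d : ℝ) :
    ∫ p : ℝ × ℝ, f (m + c * p.1 + d * p.2) ∂(gaussianReal 0 1).prod (gaussianReal 0 1) =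
      gE f m (c ^ 2 + d ^ 2) := by
  have hg : Measurable fun u => f (m + u) := hf.comp (by fun_prop)
  have h1 := integral_map (μ := (gaussianReal 0 1).prod (gaussianReal 0 1))
    (φ := fun p : ℝ × ℝ => c * p.1 + d * p.2) (f := fun u => f (m + u)) (by fun_prop)
    hg.aestronglyMeasurable
  rw [map_lin, integral_map (by fun_prop) hg.aestronglyMeasurable] at h1
  simp only [add_assoc]
  exact h1.symm

/-- Hoeffding's inequality in the reference model -/
theorem hoeff_xv {n : ℕ} (hn : 0 < n) (β b0 : ℝ) {s a0 : ℝ} (hs : 0 ≤ s) (ha : 0 ≤ a0)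
    {f : ℝ → ℝ} (hf : Measurable f) (hb : ∀ x, |f x| ≤ 1) {t : ℝ} (ht : 0 ≤ t) :
    ((gv (Fin n)).prod (gv (Fin n))).real {z | t ≤ |avg (fun i => f (xv β s a0 b0 z.1 z.2 i)) -
      gE f (s + β ^ 2 * b0) (s + β ^ 2 * a0)|} ≤ 2 * Real.exp (-n * t ^ 2 / 2) := by
  have h1 := hoeff_pi_abs ((gaussianReal 0 1).prod (gaussianReal 0 1)) hn
    (f := fun p : ℝ × ℝ => f (s + β ^ 2 * b0 + Real.sqrt s * p.1 + β * Real.sqrt a0 * p.2))
    (hf.comp (by fun_prop)) (fun _ => hb _) ht
  rw [integral_lin hf, Real.sq_sqrt hs, mul_pow, Real.sq_sqrt ha] at h1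
  have h2 := measurePreserving_arrowProdEquivProdArrow ℝ ℝ (Fin n) (fun _ => gaussianReal 0 1)
    fun _ => gaussianReal 0 1
  refine le_trans (le_of_eq ?_) h1
  rw [Measure.real, Measure.real, ← h2.measure_preimage_equiv]
  rfl

theorem nrm_tail (n : ℕ) :
    (gv (Fin n)).real {g | 2 * Real.sqrt n < nrm g} ≤ Real.exp (-n / 2) := by
  have h1 := Conc.tail_lip (ι := Fin n) Conc.elip_en (Real.sqrt_nonneg n)
  have h2 := Nrm.integral_nrm_le (ι := Fin n)
  rw [Fintype.card_fin] at h2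
  rw [Real.sq_sqrt (Nat.cast_nonneg n), one_pow, mul_one] at h1
  refine le_trans (measureReal_mono fun g hg => ?_) h1
  have h3 : 2 * Real.sqrt n < nrm g := hg
  simp only [Nrm.en_eq_nrm, mem_ofPred_eq]
  linarith

lemma nrm_th_sub_le {n : ℕ} (x y : V n) : nrm (th x - th y) ≤ nrm (x - y) :=
  Real.sqrt_le_sqrt (Finset.sum_le_sum fun i _ => by
    rw [← sq, ← sq]; exact sq_le_sq.2 (abs_tanh_sub_le _ _))

lemma aS_eq {n : ℕ} (x : V n) : aS x = nrm (th x) ^ 2 / n := by
  rw [nrm_sq]; simp only [aS, avg, dotProduct, sq]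

lemma avg_DD_mem {n : ℕ} (x : V n) : avg (DD (th x)) ∈ Icc (0 : ℝ) 1 := by
  refine ⟨div_nonneg (Finset.sum_nonneg fun i _ => sub_nonneg.2 (tanh_sq_le _)) (Nat.cast_nonneg _),
    div_le_one_of_le₀ ?_ (Nat.cast_nonneg _)⟩
  calc ∑ i, DD (th x) i ≤ ∑ _i : Fin n, (1 : ℝ) :=
        Finset.sum_le_sum fun i _ => sub_le_self _ (sq_nonneg _)
    _ = n := by simp

lemma nrm_sub_Ymap_le {n : ℕ} {J : Mx n} {b : ℝ} (hJ : opn J ≤ 3) (hb : b ∈ Icc (0 : ℝ) 1)
    (x : V n) : nrm (Ymap J b x - x) ≤ 4 * nrm (th x) := by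
  have h1 : Ymap J b x - x = (b * avg (DD (th x))) • th x - J *ᵥ th x := by
    rw [Ymap]; abel
  have h2 := (nrm_mulVec_le J (th x)).trans (mul_le_mul_of_nonneg_right hJ (nrm_nonneg _))
  have h3 := avg_DD_mem x
  have h4 : |b * avg (DD (th x))| ≤ 1 := by
    rw [abs_of_nonneg (mul_nonneg hb.1 h3.1)]; exact mul_le_one₀ hb.2 h3.1 h3.2
  have h5 := mul_le_of_le_one_left (nrm_nonneg (th x)) h4
  rw [h1]
  refine (nrm_sub_le _ _).trans ?_
  rw [nrm_smul]
  linarith

lemma aS_Ymap_le {n : ℕ} {J : Mx n} {b : ℝ} (hJ : opn J ≤ 3) (hb : b ∈ Icc (0 : ℝ) 1)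
    (x : V n) : aS (Ymap J b x) ≤ 25 * aS x := by
  have h1 := (nrm_th_sub_le (Ymap J b x) x).trans (nrm_sub_Ymap_le hJ hb x)
  have h2 := nrm_add_le (th (Ymap J b x) - th x) (th x)
  rw [sub_add_cancel] at h2
  have h3 := pow_le_pow_left₀ (nrm_nonneg _)
    (show nrm (th (Ymap J b x)) ≤ 5 * nrm (th x) by linarith) 2
  rw [aS_eq, aS_eq, ← mul_div_assoc]
  exact div_le_div_of_nonneg_right (by linarith) (Nat.cast_nonneg _)

lemma le_ofReal {Ω : Type*} [MeasurableSpace Ω] {μ : Measure Ω} [IsFiniteMeasure μ] {A : Set Ω}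
    {c : ℝ} (h : μ.real A ≤ c) : μ A ≤ ENNReal.ofReal c := by
  rw [← ofReal_measureReal]; exact ENNReal.ofReal_le_ofReal h

end SE

open SE in
theorem hoefStmt : HoefStmt := by
  refine ⟨fun n β s a0 b0 t hn hs ha ht => le_ofReal ?_, fun s hs => ?_⟩
  · have h1 := hoeff_xv hn β b0 hs ha (f := fun x => Real.tanh x ^ 2) (by fun_prop)
      (abs_tanh_pow_le 2) ht
    have h2 := hoeff_xv hn β b0 hs ha measurable_tanh abs_tanh_le ht
    exact (measureReal_union_le _ _).trans ((add_le_add h1 h2).trans (le_of_eq (by ring)))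
  obtain ⟨a, ha, hl⟩ := lower hs
  have ha1 : a ≤ 1 := (hl 0 s le_rfl).trans ((le_abs_self _).trans
    (abs_gE_le (abs_tanh_pow_le 2) _ _))
  refine ⟨a / 50, by positivity, a ^ 2 / 8, by positivity, fun n hn => le_ofReal ?_⟩
  have hn' : (0 : ℝ) ≤ n := Nat.cast_nonneg n
  have h1 := nrm_tail n
  have h2 := hoeff_pi (gaussianReal 0 1) hn (f := fun z => -Real.tanh (s + Real.sqrt s * z) ^ 2)
    (by fun_prop) (fun z => by rw [abs_neg]; exact abs_tanh_pow_le 2 _) (t := a / 2)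
    (by positivity)
  refine le_trans (measureReal_mono fun g hg => ?_) ((measureReal_union_le _ _).trans
    ((add_le_add h1 h2).trans ?_))
  · rcases hg with hg | ⟨J, b, x, hJ, hb, hx, hax⟩
    · exact Or.inl hg
    refine Or.inr ?_
    have h3 := aS_Ymap_le hJ hb x
    rw [hx] at h3
    have h4 : aS (s • (1 : V n) + Real.sqrt s • g) =
        (∑ i, Real.tanh (s + Real.sqrt s * g i) ^ 2) / n := by simp [aS, avg, th]
    have h5 := hl s s le_rfl
    change a / 2 ≤ (∑ i, -Real.tanh (s + Real.sqrt s * g i) ^ 2) / n -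
      ∫ z, -Real.tanh (s + Real.sqrt s * z) ^ 2 ∂gaussianReal 0 1
    rw [Finset.sum_neg_distrib, integral_neg, neg_div, ← h4]
    rw [gE] at h5
    linarith
  · have h3 : Real.exp (-n / 2) ≤ Real.exp (-(a ^ 2 / 8) * n) :=
      Real.exp_le_exp.2 (by nlinarith [mul_nonneg hn' (sub_nonneg.2 (pow_le_one₀ ha.le ha1 (n := 2)))])
    have h4 : -n * (a / 2) ^ 2 / 2 = -(a ^ 2 / 8) * n := by ring
    rw [h4]
    linarith

end Crest.Agent.T157.Tap

end
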