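import Crest.Agent.T157.LpG0_17
import Crest.Agent.T157.TapSE_6
import Crest.Agent.T157.TapAlg_29
import Crest.Agent.T157.PlE_37

/-!
# Row 157, part A: `Lp.BadStmt` and `Lp.ZwStmt` (helper80)
-/

set_option autoImplicit false

noncomputable section

namespace Crest.Agent.T157.Lp

open MeasureTheory ProbabilityTheory Matrix Filter Set Topology
open Crest.Agent.T157.E Crest.Agent.T157.Eig Crest.Agent.T157.Tap

namespace Bad80

variable {n : ℕ}

lemma tendsto_exp_neg {κ : ℝ} (hκ : 0 < κ) :
    Tendsto (fun n : ℕ => Real.exp (-κ * n)) atTop (𝓝 0) :=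
  Real.tendsto_exp_atBot.comp (tendsto_natCast_atTop_atTop.const_mul_atTop_of_neg (by linarith))

/-- Markov's inequality for the partition function -/
lemma markov_LRW (β : ℝ) {η : ℝ} (hη : 0 < η) : (GOE n).real {W | η ≤ Pl.LRW n β W} ≤ η⁻¹ := by
  have hA : MeasurableSet {W : Mx n | η ≤ Pl.LRW n β W} :=
    measurableSet_le measurable_const (Pl.measurable_LRW β)
  set F : Mx n → ℝ := {W : Mx n | η ≤ Pl.LRW n β W}.indicator fun W => (Pl.LRW n β W)⁻¹ with hF
  have hm : Measurable F := (Pl.measurable_LRW β).inv.indicator hA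
  have hb : ∀ W, ‖F W‖ ≤ η⁻¹ := fun W => by
    by_cases h : W ∈ {W : Mx n | η ≤ Pl.LRW n β W}
    · rw [hF, indicator_of_mem h, Real.norm_of_nonneg (inv_pos.2 (Pl.LRW_pos _ _)).le]
      exact inv_anti₀ hη h
    · rw [hF, indicator_of_notMem h, norm_zero]; positivity
  have h := Pl.plantedW (n := n) β (F := fun _ => F) (fun _ => hm) fun σ =>
    (integrable_const η⁻¹).mono' (hm.comp (by fun_prop)).aestronglyMeasurable
      (.of_forall fun W => hb _)
  have e : (fun W => Pl.LRW n β W * mean (ising (β • W) 0) fun _ => F W) =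
      {W : Mx n | η ≤ Pl.LRW n β W}.indicator 1 := by
    funext W
    rw [(Pl.wt_ising _ _).mean_const]
    by_cases h : W ∈ {W : Mx n | η ≤ Pl.LRW n β W}
    · rw [hF, indicator_of_mem h, indicator_of_mem h, mul_inv_cancel₀ (Pl.LRW_pos _ _).ne']; rfl
    · rw [hF, indicator_of_notMem h, indicator_of_notMem h, mul_zero]
  rw [e, integral_indicator_one hA] at h
  rw [h, div_le_iff₀ (by positivity), ← Pl.card_cube, mul_comm, ← nsmul_eq_mul, ← Finset.card_univ,
    ← Finset.sum_const]
  refine Finset.sum_le_sum fun σ _ => (le_abs_self _).trans ?_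
  simpa using norm_integral_le_of_norm_le_const (μ := GOE n) (.of_forall fun W => hb
    (W + (β / n) • vecMulVec (sv σ) (sv σ)))

lemma px_le {s : ℝ} {A : Set (V n)} (hA : MeasurableSet A) (σ : Cube n) {B : Set (V n)}
    (hB : MeasurableSet B) (h : ∀ g, s • sv σ + √s • g ∈ A → sv σ * g ∈ B) :
    SL.px sv s A σ ≤ (gv (Fin n)).real B := by
  have h1 : MeasurePreserving (fun g => sv σ * g) (gv (Fin n)) (gv (Fin n)) :=
    Pl.mp_sign_law false (Pl.isSign_sv σ)
  rw [SL.px, map_measureReal_apply (by fun_prop) hA,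
    ← h1.measureReal_preimage hB.nullMeasurableSet]
  exact measureReal_mono h

end Bad80

open Bad80

theorem zwStmt : ZwStmt := by
  intro β _ ε hε
  refine Top.whp_of_real_le (tendsto_exp_neg hε) (.of_forall fun n => ?_)
  refine le_trans (measureReal_mono fun W hW => ?_) ((markov_LRW (n := n) β
    (Real.exp_pos (ε * n))).trans_eq (by rw [← Real.exp_neg, neg_mul]))
  have h := (Real.lt_log_iff_exp_lt (Pl.wt_ising _ _).pos).1 (not_le.1 hW)
  rw [mem_ofPred_eq, Pl.LRW, le_div_iff₀ (by positivity)]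
  refine le_trans (le_of_eq ?_) h.le
  rw [mul_add, Real.exp_add, Real.exp_add, Real.exp_nat_mul, Real.exp_log two_pos, mul_comm]
  congr 3; ring

theorem badStmt : BadStmt := by
  intro t0 ht0
  obtain ⟨a, ha, hl⟩ := SE.lower ht0
  have ha1 : a ≤ 1 := (hl 0 t0 le_rfl).trans ((le_abs_self _).trans
    (SE.abs_gE_le (SE.abs_tanh_pow_le 2) _ _))
  refine ⟨a / 2, ⟨by positivity, by linarith⟩, fun T => ⟨|T| + 2 * √|T| + 1, by positivity,
    fun ε hε => ?_⟩⟩
  have h0 := ((tendsto_exp_neg (κ := 1 / 2) (by norm_num)).add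
    (tendsto_exp_neg (κ := a ^ 2 / 8) (by positivity))).eventually
      (gt_mem_nhds (by simpa using hε : (0 : ℝ) + 0 < ε))
  filter_upwards [h0, eventually_gt_atTop 0] with n hn hn0 v hv s hs
  have hn' : (0 : ℝ) < n := by exact_mod_cast hn0
  have hs0 : 0 < s := ht0.trans_le hs.1
  have hsT : s ≤ |T| := hs.2.trans (le_abs_self T)
  have hA : MeasurableSet {y : V n | ¬ (nrm y ≤ (|T| + 2 * √|T| + 1) * √n ∧
      a / 2 * n ≤ th y ⬝ᵥ th y)} :=
    ((measurableSet_le continuous_nrm.measurable measurable_const).inter (measurableSet_le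
      measurable_const (continuous_th.dotProduct continuous_th).measurable)).compl
  have h1 := SE.nrm_tail n
  have h2 := SE.hoeff_pi (gaussianReal 0 1) hn0 (f := fun z => -Real.tanh (s + √s * z) ^ 2)
    (by fun_prop) (fun z => by rw [abs_neg]; exact SE.abs_tanh_pow_le 2 _) (t := a / 2)
    (by positivity)
  rw [SL.law_real hv hA]
  refine hv.mean_le fun σ => (px_le hA σ (B := {g | 2 * √n < nrm g} ∪ {ω | a / 2 ≤
    avg (fun i => -Real.tanh (s + √s * ω i) ^ 2) -
      ∫ z, -Real.tanh (s + √s * z) ^ 2 ∂gaussianReal 0 1}) ((measurableSet_lt measurable_const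
        continuous_nrm.measurable).union (measurableSet_le measurable_const
          (by unfold avg; fun_prop))) fun g hg => ?_).trans ((measureReal_union_le _ _).trans
      ((add_le_add h1 h2).trans (le_trans (le_of_eq ?_) hn.le)))
  · have hσ := Pl.isSign_sv σ
    rcases not_and_or.1 hg with hg | hg
    · refine Or.inl (show 2 * √n < nrm (sv σ * g) from lt_of_not_ge fun hc => hg ?_)
      have e : nrm (sv σ * g) = nrm g := by
        unfold nrm; congr 1
        exact Finset.sum_congr rfl fun i _ => by rcases hσ i with e | e <;> simp [e]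
      have h3 : nrm (sv σ) ≤ √n := Cb.nrm_le fun i => by rcases hσ i with e | e <;> simp [e]
      have h4 : √s ≤ √|T| := Real.sqrt_le_sqrt hsT
      rw [e] at hc
      refine (nrm_add_le _ _).trans ?_
      rw [nrm_smul, nrm_smul, abs_of_pos hs0, abs_of_nonneg (Real.sqrt_nonneg _)]
      have h5 := nrm_nonneg g
      have h6 := nrm_nonneg (sv σ)
      calc _ ≤ |T| * √n + √|T| * (2 * √n) := by gcongr
        _ ≤ _ := by nlinarith [Real.sqrt_nonneg (n : ℝ)]
    · refine Or.inr ?_
      have e : th (s • sv σ + √s • g) ⬝ᵥ th (s • sv σ + √s • g) =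
          ∑ i, Real.tanh (s + √s * (sv σ * g) i) ^ 2 := Finset.sum_congr rfl fun i _ => by
        rcases hσ i with e | e
        · simp [th, e, sq]
        · have : -s + √s * g i = -(s + -(√s * g i)) := by ring
          simp only [th, e, sq, Pi.add_apply, Pi.smul_apply, smul_eq_mul, Pi.mul_apply, mul_neg,
            mul_one, neg_mul, one_mul, this, Real.tanh_neg, neg_neg]
      have h5 := hl s s hs.1
      rw [e, not_le, ← div_lt_iff₀ hn'] at hg
      change a / 2 ≤ (∑ i, -Real.tanh (s + √s * (sv σ * g) i) ^ 2) / n -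
        ∫ z, -Real.tanh (s + √s * z) ^ 2 ∂gaussianReal 0 1
      rw [Finset.sum_neg_distrib, integral_neg, neg_div]
      rw [gE] at h5
      linarith
  · congr 2 <;> ring

end Crest.Agent.T157.Lp
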