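import Crest.Agent.T157.LpG1_17

/-!
# Row 157, part A: the grid of times and the iteration of the step (helper6)
-/

set_option autoImplicit false

noncomputable section

namespace Crest.Agent.T157.Lp

open MeasureTheory ProbabilityTheory Matrix Filter Set
open Crest.ProbabilityR.SpinGlassDynamics
open Crest.Agent.T157.E Crest.Agent.T157.Eig Crest.Agent.T157.Tap Crest.Agent.T157.Lp.G1

variable {n : ℕ} {J : Mx n} {b : ℝ} {v : Cube n → ℝ}

namespace Ch6

theorem frob_eq (v : Cube n → ℝ) (s : ℝ) (y : V n) : frob (tilt v y) = ∑ i,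
    covV (SL.pw sv v (s, y)) (fun x => sv x i) sv ⬝ᵥ covV (SL.pw sv v (s, y)) (fun x => sv x i) sv := by
  simp only [frob, SL.pw, SL.covV_post_sv, dotProduct, sq]
  rfl

theorem frob_nonneg (v : Cube n → ℝ) : 0 ≤ frob v :=
  Finset.sum_nonneg fun _ _ => Finset.sum_nonneg fun _ _ => sq_nonneg _

theorem mg_frob (hv : SL.Wt v) : SL.MG fun y => frob (tilt v y) := by
  simp only [frob_eq v 0]
  exact .sum _ fun i _ => (SL.eg_covV_dot (I := univ) hv _ _).mg (mem_univ 0)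

theorem cov_mem {w : Cube n → ℝ} (hw : SL.Wt w) (i : Fin n) :
    cov w (fun x => sv x i) (fun x => sv x i) ∈ Icc (0 : ℝ) 1 := by
  rw [← SL.var_eq_cov]
  refine ⟨hw.var_nonneg _, (hw.var_le_mean _ 0).trans (hw.mean_le fun x => ?_)⟩
  rw [sub_zero, ← sq_abs]
  exact pow_le_one₀ (abs_nonneg _) (cb_sv x i)

theorem chain {K e : ℝ} (hK : 1 ≤ K) (he : 0 ≤ e) : ∀ (M : ℕ) (d x : ℕ → ℝ), d M ≤ e →
    (∀ j < M, d j ≤ K * d (j + 1) + e) → (∀ j < M, x (j + 1) ≤ x j + (K * d (j + 1) + e)) →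
    d 0 ≤ (K + 1) ^ M * e ∧ x M ≤ x 0 + M * ((K + 1) ^ M * e)
  | 0, d, x, h0, _, _ => by simpa using h0
  | M + 1, d, x, h0, h1, h2 => by
    obtain ⟨i1, i2⟩ := chain hK he M (fun j => d (j + 1)) (fun j => x (j + 1)) h0
      (fun j hj => h1 (j + 1) (by omega)) fun j hj => h2 (j + 1) (by omega)
    have a1 : e ≤ (K + 1) ^ M * e := le_mul_of_one_le_left he (one_le_pow₀ (by linarith))
    have a2 := mul_le_mul_of_nonneg_left i1 (show 0 ≤ K by linarith)
    have a3 : K * d 1 + e ≤ (K + 1) ^ (M + 1) * e := by rw [pow_succ]; simp only [zero_add] at a2; nlinarith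
    have a4 : (K + 1) ^ M * e ≤ (K + 1) ^ (M + 1) * e := by rw [pow_succ]; nlinarith
    have a5 := mul_le_mul_of_nonneg_left a4 (Nat.cast_nonneg (α := ℝ) M)
    have b1 := h1 0 (by omega)
    have b2 := h2 0 (by omega)
    simp only [zero_add] at b1 b2 i2
    refine ⟨b1.trans a3, ?_⟩
    push_cast
    linarith

/-- the transition operator -/
def Qo (v : Cube n → ℝ) (h : ℝ) (F : V n → ℝ) (y : V n) : ℝ :=
  slE sv (tilt v y) h fun _ z => F (y + z)

theorem Qo_eq (v : Cube n → ℝ) (s h : ℝ) (F : V n → ℝ) (y : V n) :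
    Qo v h F y = slE sv (post sv v s y) h fun _ z => F (y + z) := by
  simp only [Qo, SL.slE_eq_mean, SL.mean_post_sv]

theorem mg_Qo (hv : SL.Wt v) (h : ℝ) {F : V n → ℝ} (hF : SL.MG F) : SL.MG (Qo v h F) := by
  rw [funext (Qo_eq v 0 h F)]
  exact SL.mg_mean (φ := sv) hv 0 fun x => hF.conv (h • sv x) (Real.sqrt h)

theorem markov (hv : SL.Wt v) {s h : ℝ} (hs : 0 ≤ s) (hh : 0 ≤ h) {F : V n → ℝ} (hF : SL.MG F) :
    slE sv v (s + h) (fun _ y => F y) = slE sv v s fun _ y => Qo v h F y := by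
  simp only [Qo_eq v s]
  exact SL.markov hv hs hh fun _ => hF

theorem Qo_Xi_le (hJ : opn J ≤ 3) (hb : b ∈ Icc (0 : ℝ) 1) (hv : SL.Wt v) {h : ℝ}
    (hh : h ∈ Icc (0 : ℝ) 1) (y : V n) :
    Qo v h (Xi J b v) y ≤ Xi J b v y + 9 * n + 2 * nrm y * Real.sqrt n := by
  have hw := hv.tilt y
  have m : SL.MG fun z : V n => (Xi J b v y + 7 * n + 2 * nrm y * Real.sqrt n) + z ⬝ᵥ z :=
    (SL.MG.const _).add mg_dot
  refine (SL.slE_mono hw (.of_mg fun _ => mg_shift (mg_Xi hJ hb hv) y) (.of_mg fun _ => m)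
    fun _ z => ?_).trans ?_
  · have h1 := Xi_sub_le hJ hb hv y z
    have h2 := sq_sqrt_n (n := n)
    have h3 := nrm_mul_self z
    nlinarith [sq_nonneg (nrm z - Real.sqrt n)]
  · rw [SL.slE_add (.of_mg fun _ => SL.MG.const _) (.of_mg fun _ => mg_dot), slE_const hw,
      slE_normsq hw hh.1]
    have : h ^ 2 + h ≤ 2 := by nlinarith [hh.1, hh.2]
    nlinarith [mul_le_mul_of_nonneg_right this (Nat.cast_nonneg (α := ℝ) n)]

/-- one step, `W ≥ 1` on bad parents -/
theorem step (hJ : opn J ≤ 3) (hb : b ∈ Icc (0 : ℝ) 1) (hv : SL.Wt v) {κ0 R h0 K σ δ' s h l p : ℝ}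
    (hS : StepP J b κ0 R h0 K σ δ') (hK : 0 ≤ K) (hσ : 0 ≤ σ) (hs : 0 ≤ s) (hh : h ∈ Icc 0 h0)
    (h1 : h ≤ 1) (hl : 0 < l) {W : V n → ℝ} (mW : SL.MG W) (W0 : ∀ y, 0 ≤ W y)
    (W1 : ∀ y, W y < 1 → nrm y ≤ R * Real.sqrt n ∧ κ0 * n ≤ th y ⬝ᵥ th y ∧
      frob (tilt v y) ≤ δ' ^ 2 * (n : ℝ) ^ 2) (hp : slE sv v s (fun _ y => W y) ≤ p) :
    slE sv v s (fun _ y => Dv J b v y) ≤
      K * slE sv v (s + h) (fun _ y => Dv J b v y) + (K * σ + 4 * p) * n ∧
    slE sv v (s + h) (fun _ y => Xi J b v y) ≤ slE sv v s (fun _ y => Xi J b v y) +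
      (K * slE sv v (s + h) (fun _ y => Dv J b v y) +
        (K * σ + (9 + 1 / l) * p + l * (s ^ 2 + s)) * n) := by
  have n0 : (0 : ℝ) ≤ n := Nat.cast_nonneg n
  have mD := mg_Dv J b hv
  have mX := mg_Xi hJ hb hv
  have mQ := mg_Qo hv h mD
  have Q0 : ∀ y, 0 ≤ K * (Qo v h (Dv J b v) y + σ * n) := fun y => mul_nonneg hK (add_nonneg
    (SL.slE_nonneg (hv.tilt y) fun _ _ => Dv_nonneg _ _ _ _) (by positivity))
  have mK : SL.MG fun y => K * (Qo v h (Dv J b v) y + σ * n) := (mQ.add (.const _)).const_mul K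
  have eK : slE sv v s (fun _ y => K * (Qo v h (Dv J b v) y + σ * n)) =
      K * (slE sv v (s + h) (fun _ y => Dv J b v y) + σ * n) := by
    rw [SL.slE_const_mul, SL.slE_add (.of_mg fun _ => mQ) (.of_mg fun _ => .const _), slE_const hv,
      markov hv hs hh.1 mD]
  constructor
  · refine (SL.slE_mono hv (.of_mg fun _ => mD) (.of_mg fun _ => mK.add (mW.const_mul (4 * n)))
      fun _ y => ?_).trans ?_
    · rcases lt_or_ge (W y) 1 with hy | hy
      · obtain ⟨a1, a2, a3⟩ := W1 y hy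
        exact (hS v hv y a1 a2 a3 h hh).1.trans (le_add_of_nonneg_right (mul_nonneg (by positivity) (W0 y)))
      · nlinarith [Dv_le J b hv y, Q0 y, mul_le_mul_of_nonneg_left hy n0]
    · rw [SL.slE_add (.of_mg fun _ => mK) (.of_mg fun _ => mW.const_mul _), eK, SL.slE_const_mul]
      nlinarith [mul_le_mul_of_nonneg_left hp n0]
  · have l1 : 0 < 1 / l := by positivity
    rw [markov hv hs hh.1 mX]
    refine (SL.slE_mono hv (.of_mg fun _ => mg_Qo hv h mX) (.of_mg fun _ => (mX.add mK).add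
      ((mW.const_mul ((9 + 1 / l) * n)).add (mg_dot.const_mul l))) fun _ y => ?_).trans ?_
    · have y0 := mul_nonneg hl.le (dot_self_nonneg y)
      rcases lt_or_ge (W y) 1 with hy | hy
      · obtain ⟨a1, a2, a3⟩ := W1 y hy
        exact (hS v hv y a1 a2 a3 h hh).2.trans (le_add_of_nonneg_right
          (add_nonneg (mul_nonneg (by positivity) (W0 y)) y0))
      · have a1 := Qo_Xi_le hJ hb hv ⟨hh.1, h1⟩ y
        have a2 : 2 * nrm y * Real.sqrt n ≤ l * (y ⬝ᵥ y) + 1 / l * n := by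
          have e : l * (y ⬝ᵥ y) + 1 / l * n - 2 * nrm y * Real.sqrt n =
              1 / l * (l * nrm y - Real.sqrt n) ^ 2 := by
            rw [← nrm_mul_self y, sub_sq, Real.sq_sqrt n0]; field_simp; ring
          nlinarith [mul_nonneg l1.le (sq_nonneg (l * nrm y - Real.sqrt n))]
        have a3 := mul_le_mul_of_nonneg_left hy (show 0 ≤ (9 + 1 / l) * n by positivity)
        linarith [Q0 y]
    · rw [SL.slE_add (.of_mg fun _ => mX.add mK) (.of_mg fun _ => (mW.const_mul _).add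
        (mg_dot.const_mul l)), SL.slE_add (.of_mg fun _ => mX) (.of_mg fun _ => mK), eK,
        SL.slE_add (.of_mg fun _ => mW.const_mul _) (.of_mg fun _ => mg_dot.const_mul l),
        SL.slE_const_mul, SL.slE_const_mul, slE_normsq hv hs]
      nlinarith [mul_le_mul_of_nonneg_left hp (show 0 ≤ (9 + 1 / l) * n by positivity)]

end Ch6

open Ch6

theorem gridStmt : GridStmt := by
  intro n v a h hv ha hh
  refine ⟨mg_frob hv, ?_⟩
  obtain ⟨s, hs, e⟩ := exists_hasDerivAt_eq_slope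
    (fun s => ∑ i, SL.ex sv v (fun p => cov (SL.pw sv v p) (fun x => sv x i) fun x => sv x i) s)
    (fun s => -slE sv v s fun _ y => frob (tilt v y)) (show a < a + h by linarith)
    (continuousOn_finsetSum _ fun i _ => (SL.eg_cov hv _ _).continuousOn_ex) fun s hs => by
      refine (HasDerivAt.fun_sum fun i _ =>
        SL.hasDerivAt_ex_cov hv _ _ (ha.trans_lt hs.1)).congr_deriv ?_
      rw [Finset.sum_neg_distrib, ← SL.ex_sum _ fun i _ =>
        (SL.eg_covV_dot (I := univ) hv _ _).mg (mem_univ s)]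
      simp only [frob_eq v s, SL.ex]
  refine ⟨s, Ioo_subset_Icc_self hs, ?_⟩
  have b1 : 0 ≤ ∑ i, SL.ex sv v (fun p => cov (SL.pw sv v p) (fun x => sv x i) fun x => sv x i) (a + h) :=
    Finset.sum_nonneg fun i _ => SL.ex_nonneg hv fun y => (cov_mem (hv.post _ _ _) i).1
  have b2 : ∑ i, SL.ex sv v (fun p => cov (SL.pw sv v p) (fun x => sv x i) fun x => sv x i) a ≤ n :=
    (Finset.sum_le_card_nsmul _ _ 1 fun i _ => (SL.ex_mono (H := fun _ => 1) hv
      ((SL.eg_cov (I := univ) hv _ _).mg (mem_univ a)) (.const 1)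
      fun y => (cov_mem (hv.post _ _ _) i).2).trans_eq (SL.ex_const hv 1 a)).trans_eq (by simp)
  rw [add_sub_cancel_left, neg_eq_iff_eq_neg, ← neg_div] at e
  rw [e]
  exact div_le_div_of_nonneg_right (by linarith) hh.le

theorem chainGlue : ChainGlue := by
  intro hG t0 ht0 T hT h0 hh0 K hK τ hτ
  obtain ⟨h1, p1, a1, a2, a3⟩ : ∃ h1 > (0 : ℝ), 2 * h1 ≤ h0 ∧ h1 ≤ t0 ∧ 2 * h1 ≤ 1 :=
    ⟨min h0 (min t0 1) / 2, by positivity, by linarith [min_le_left h0 (min t0 1)],
      by linarith [(min_le_right h0 _).trans (min_le_left t0 1)],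
      by linarith [(min_le_right h0 _).trans (min_le_right t0 1)]⟩
  obtain ⟨M, M1, M2⟩ : ∃ M : ℕ, T ≤ t0 + M * h1 ∧ t0 + M * h1 ≤ T + h1 := by
    have q : 0 ≤ (T - t0) / h1 := div_nonneg (by linarith) p1.le
    have q1 := (div_le_iff₀ p1).1 (Nat.le_ceil ((T - t0) / h1))
    have q2 := mul_le_mul_of_nonneg_right (Nat.ceil_lt_add_one q).le p1.le
    rw [add_mul, div_mul_cancel₀ _ p1.ne'] at q2
    exact ⟨⌈(T - t0) / h1⌉₊, by linarith, by linarith⟩
  have T0 : 0 < T := by linarith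
  have K0 : 0 < K := by linarith
  obtain ⟨η, η0, hη⟩ : ∃ η > (0 : ℝ), (M + 1) * ((K + 1) ^ M * η) = τ :=
    ⟨τ / ((M + 1) * (K + 1) ^ M), by positivity, by field_simp⟩
  obtain ⟨l, l0, hl⟩ : ∃ l > (0 : ℝ), l * ((T + 1) ^ 2 + (T + 1)) = η / 3 :=
    ⟨η / 3 / ((T + 1) ^ 2 + (T + 1)), by positivity, by field_simp⟩
  obtain ⟨ε, ε0, hε⟩ : ∃ ε > (0 : ℝ), (9 + 1 / l) * (2 * ε) = η / 3 :=
    ⟨η / 3 / (9 + 1 / l) / 2, by positivity, by field_simp⟩
  obtain ⟨σ, σ0, hσ⟩ : ∃ σ > (0 : ℝ), K * σ = η / 3 := ⟨η / 3 / K, by positivity, by field_simp⟩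
  refine ⟨σ, σ0, ε, ε0, fun δ' δ0 => ?_⟩
  filter_upwards [eventually_gt_atTop 0, tendsto_natCast_atTop_atTop.eventually_ge_atTop
    (1 / (h1 * δ' ^ 2 * ε))] with n hn hn1 J b κ0 R hJ hb hS v hv hB hL
  have n0 : (0 : ℝ) < n := by positivity
  choose s hs hf using fun j : ℕ => (hG n v (t0 + j * h1) h1 hv (by positivity) p1).2
  have sl : ∀ j, t0 ≤ s j := fun j => le_trans (le_add_of_nonneg_right (by positivity)) (hs j).1
  have su : ∀ j ≤ M, s j ≤ T + 1 := fun j hj => by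
    have := mul_le_mul_of_nonneg_right (Nat.cast_le (α := ℝ).2 hj) p1.le
    linarith [(hs j).2]
  set A := {y : V n | ¬ (nrm y ≤ R * Real.sqrt n ∧ κ0 * n ≤ th y ⬝ᵥ th y)} with hA
  have mA : MeasurableSet A := ((isClosed_le continuous_nrm continuous_const).inter
    (isClosed_le continuous_const (continuous_th.dotProduct continuous_th))).measurableSet.compl
  have c0 : 0 < 1 / (δ' ^ 2 * (n : ℝ) ^ 2) := by positivity
  have m1 := (SL.MG.const (ι := Fin n) 1).indicator mA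
  have m2 := (mg_frob hv).const_mul (1 / (δ' ^ 2 * (n : ℝ) ^ 2))
  have key := fun j (hj : j < M) => step (s := s j) (h := s (j + 1) - s j) (p := 2 * ε) hJ hb hv hS
    K0.le σ0.le (ht0.le.trans (sl j))
    (by have := hs j; have := hs (j + 1); simp only [mem_Icc] at *; push_cast at *
        constructor <;> linarith)
    (by have := hs j; have := hs (j + 1); simp only [mem_Icc] at *; push_cast at *; linarith) l0
    (m1.add m2) (fun y => add_nonneg (indicator_nonneg (fun _ _ => zero_le_one) y)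
      (mul_nonneg c0.le (frob_nonneg _)))
    (fun y hy => by
      have b1 := mul_nonneg c0.le (frob_nonneg (tilt v y))
      by_cases hy' : y ∈ A
      · rw [indicator_of_mem hy'] at hy; linarith
      · rw [indicator_of_notMem hy', zero_add, one_div, inv_mul_lt_iff₀ (by positivity), mul_one] at hy
        have := not_not.1 hy'
        exact ⟨this.1, this.2, hy.le⟩)
    (by
      rw [SL.slE_add (.of_mg fun _ => m1) (.of_mg fun _ => m2), SL.slE_const_mul, slE_ind hv _ _ mA]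
      have b1 := hB (s j) ⟨sl j, su j hj.le⟩
      have b2 := mul_le_mul_of_nonneg_left (hf j) c0.le
      have b3 : 1 / (δ' ^ 2 * (n : ℝ) ^ 2) * (n / h1) ≤ ε := by
        rw [div_le_iff₀ (by positivity)] at hn1
        rw [div_mul_div_comm, div_le_iff₀ (by positivity)]
        nlinarith [mul_le_mul_of_nonneg_left hn1 n0.le]
      linarith)
  simp only [add_sub_cancel] at key
  have sM : s M ∈ Icc T (T + 1) := ⟨M1.trans (hs M).1, su M le_rfl⟩
  have l1 : 0 < 1 / l := by positivity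
  obtain ⟨r1, r2⟩ := chain hK (show 0 ≤ η * n by positivity) M
    (fun j => slE sv v (s j) fun _ y => Dv J b v y) (fun j => slE sv v (s j) fun _ y => Xi J b v y)
    ((hL _ sM).trans (mul_le_mul_of_nonneg_right (by nlinarith) n0.le))
    (fun j hj => (key j hj).1.trans (add_le_add le_rfl (mul_le_mul_of_nonneg_right (by nlinarith) n0.le)))
    fun j hj => (key j hj).2.trans (add_le_add le_rfl (add_le_add le_rfl (mul_le_mul_of_nonneg_right (by
      have b1 := su j hj.le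
      have b2 := ht0.le.trans (sl j)
      have b3 : s j ^ 2 + s j ≤ (T + 1) ^ 2 + (T + 1) := by nlinarith
      linarith [mul_le_mul_of_nonneg_left b3 l0.le]) n0.le)))
  have z : 0 ≤ (K + 1) ^ M * (η * n) := by positivity
  have z1 : τ * n = (M + 1) * ((K + 1) ^ M * (η * n)) := by rw [← hη]; ring
  refine ⟨s 0, ⟨sl 0, by have := (hs 0).2; simp at this; linarith⟩, s M, sM, ?_, ?_⟩
  · nlinarith [mul_nonneg (Nat.cast_nonneg (α := ℝ) M) z]
  · linarith

end Crest.Agent.T157.Lp
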