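import Crest.Agent.T157.ConcL_16

/-!
# Row 157, part E (helper16): Gaussian Poincare and log-Sobolev inequalities, user forms
-/

set_option autoImplicit false

noncomputable section

namespace Crest.Agent.T157.Conc

open MeasureTheory ProbabilityTheory Set Filter Topology
open scoped ENNReal NNReal

variable {ι : Type*} [Fintype ι]

lemma ELip.comp {L c : ℝ} {F : (ι → ℝ) → ℝ} (h : ELip L F) {φ : ℝ → ℝ} (hc : 0 ≤ c)
    (hφ : ∀ u v, |φ u - φ v| ≤ c * |u - v|) : ELip (c * L) fun x => φ (F x) := fun x y =>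
  (hφ _ _).trans (by rw [mul_assoc]; exact mul_le_mul_of_nonneg_left (h x y) hc)

lemma lip_of_deriv {φ φ' : ℝ → ℝ} {c : ℝ} (hφ : ∀ u, HasDerivAt φ (φ' u) u) (hc : ∀ u, |φ' u| ≤ c)
    (u v : ℝ) : |φ u - φ v| ≤ c * |u - v| :=
  Convex.norm_image_sub_le_of_norm_hasDerivWithin_le (s := univ)
    (fun x _ => (hφ x).hasDerivWithinAt) (fun x _ => hc x) convex_univ (mem_univ v) (mem_univ u)

lemma abs_pow_le_exp_abs (x : ℝ) (p : ℕ) : |x| ^ p ≤ p.factorial * Real.exp |x| := by
  have h1 := Real.pow_div_factorial_le_exp |x| (abs_nonneg _) p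
  have hf : (0:ℝ) < p.factorial := by exact_mod_cast p.factorial_pos
  rw [div_le_iff₀ hf] at h1
  linarith

lemma ELip.abs_comp {L : ℝ} {F : (ι → ℝ) → ℝ} (h : ELip L F) : ELip L fun x => |F x| :=
  fun x y => (abs_abs_sub_abs_le_abs_sub _ _).trans (h x y)

lemma ELip.integrable_pow_exp {L : ℝ} {F : (ι → ℝ) → ℝ} (h : ELip L F) (p : ℕ) :
    Integrable (fun x => |F x| ^ p * Real.exp |F x|) (gv ι) := by
  have hc := h.continuous
  refine ((h.abs_comp.integrable_exp 2).const_mul p.factorial).mono' (by fun_prop)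
    (ae_of_all _ fun x => ?_)
  rw [Real.norm_of_nonneg (by positivity), two_mul, Real.exp_add, ← mul_assoc]
  exact mul_le_mul_of_nonneg_right (abs_pow_le_exp_abs _ p) (Real.exp_pos _).le

lemma ELip.integrable_pow {L : ℝ} {F : (ι → ℝ) → ℝ} (h : ELip L F) (p : ℕ) :
    Integrable (fun x => F x ^ p) (gv ι) := by
  have hc := h.continuous
  refine (h.integrable_pow_exp p).mono' (by fun_prop) (ae_of_all _ fun x => ?_)
  rw [Real.norm_eq_abs, abs_pow]
  exact le_mul_of_one_le_right (by positivity) (Real.one_le_exp (abs_nonneg _))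

lemma abs_exp_sub_le (y : ℝ) (n : ℕ) :
    |Real.exp y - ∑ m ∈ Finset.range n, y ^ m / m.factorial| ≤ |y| ^ n * Real.exp |y| := by
  have h := Complex.norm_exp_sub_sum_le_norm_mul_exp (y : ℂ) n
  rw [Complex.norm_real, Real.norm_eq_abs] at h
  refine le_trans (le_of_eq ?_) h
  rw [← Real.norm_eq_abs, ← Complex.norm_real]
  push_cast; rfl

variable [DecidableEq ι]

lemma ELip.integrable_gr2_mul {L : ℝ} {F : (ι → ℝ) → ℝ} (h : ELip L F) {u : (ι → ℝ) → ℝ}
    (hu : Integrable u (gv ι)) : Integrable (fun x => gr2 F x * u x) (gv ι) :=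
  hu.bdd_mul (c := L ^ 2) (measurable_gr2 F).aestronglyMeasurable (ae_of_all _ fun x => by
    rw [Real.norm_of_nonneg (gr2_nonneg _ _)]; exact h.gr2_le x)

lemma ELip.integrable_gr2 {L : ℝ} {F : (ι → ℝ) → ℝ} (h : ELip L F) : Integrable (gr2 F) (gv ι) := by
  simpa using h.integrable_gr2_mul (integrable_const (1:ℝ))

lemma poincare_zero {L : ℝ} {f : (ι → ℝ) → ℝ} (h : ELip L f) (h0 : ∫ x, f x ∂gv ι = 0) :
    ∫ x, f x ^ 2 ∂gv ι ≤ ∫ x, gr2 f x ∂gv ι := by
  have hc := h.continuous
  set V := ∫ x, f x ^ 2 ∂gv ι with hV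
  set D := ∫ x, gr2 f x ∂gv ι with hD
  set B := ∫ x, |f x| ^ 3 * Real.exp |f x| ∂gv ι with hB
  set C := ∫ x, gr2 f x * (|f x| ^ 1 * Real.exp |f x|) ∂gv ι with hC
  have i1 := h.integrable
  have i2 := h.integrable_pow 2
  have i3 := h.integrable_pow_exp 3
  have i4 := h.integrable_gr2_mul (h.integrable_pow_exp 1)
  have key : ∀ ε : ℝ, 0 < ε → ε ≤ 1 →
      V - ε * B - (1 + ε ^ 2 * (V / 2 + ε * B)) * (V / 2 + ε * B) ≤ 1 / 2 * (D + ε * C) := by
    intro ε hε hε1
    have hl := lsi_exp (h.const_mul ε)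
    have he : ∀ x, Real.exp |ε * f x| ≤ Real.exp |f x| := fun x => Real.exp_le_exp.2 (by
      rw [abs_mul, abs_of_pos hε]; exact mul_le_of_le_one_left (abs_nonneg _) hε1)
    have hp : ∀ x (n : ℕ), |ε * f x| ^ n * Real.exp |ε * f x| ≤
        ε ^ n * (|f x| ^ n * Real.exp |f x|) := fun x n => by
      rw [← mul_assoc, ← mul_pow]
      refine mul_le_mul (le_of_eq ?_) (he x) (Real.exp_pos _).le (by positivity)
      rw [abs_mul, abs_of_pos hε]
    have j0 := h.integrable_exp ε
    have j1 : Integrable (fun x => ε * f x * Real.exp (ε * f x)) (gv ι) := by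
      simpa only [mul_assoc] using (h.integrable_mul_exp ε).const_mul ε
    have a1 : ε ^ 2 * V - ε ^ 3 * B ≤ ∫ x, ε * f x * Real.exp (ε * f x) ∂gv ι := by
      have k1 : Integrable (fun x => ε * f x + ε ^ 2 * f x ^ 2) (gv ι) :=
        (i1.const_mul _).add (i2.const_mul _)
      have k2 : Integrable (fun x => ε * f x + ε ^ 2 * f x ^ 2 -
        ε ^ 3 * (|f x| ^ 3 * Real.exp |f x|)) (gv ι) := k1.sub (i3.const_mul _)
      have := integral_mono k2 j1 fun x => by
        have b1 := abs_exp_sub_le (ε * f x) 2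
        have b2 := hp x 3
        simp only [Finset.sum_range_succ, Finset.sum_range_zero, Nat.factorial] at b1
        norm_num only [pow_zero, pow_one, Nat.cast_one, div_one, zero_add, Nat.succ_eq_add_one,
          mul_one] at b1
        have b3 := mul_le_mul_of_nonneg_left b1 (abs_nonneg (ε * f x))
        rw [← abs_mul] at b3
        have b4 := (neg_le_abs _).trans b3
        simp only
        nlinarith
      rwa [integral_sub k1 (i3.const_mul _), integral_add (i1.const_mul _) (i2.const_mul _),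
        integral_const_mul, integral_const_mul, integral_const_mul, h0, mul_zero, zero_add] at this
    have a2 : ∫ x, Real.exp (ε * f x) ∂gv ι ≤ 1 + ε ^ 2 * (V / 2 + ε * B) := by
      have k0 : Integrable (fun x => 1 + ε * f x) (gv ι) := (integrable_const _).add (i1.const_mul _)
      have k1 : Integrable (fun x => 1 + ε * f x + ε ^ 2 / 2 * f x ^ 2) (gv ι) :=
        k0.add (i2.const_mul _)
      have k2 : Integrable (fun x => 1 + ε * f x + ε ^ 2 / 2 * f x ^ 2 +
        ε ^ 3 * (|f x| ^ 3 * Real.exp |f x|)) (gv ι) := k1.add (i3.const_mul _)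
      have := integral_mono j0 k2 fun x => by
        have b1 := abs_exp_sub_le (ε * f x) 3
        have b2 := hp x 3
        simp only [Finset.sum_range_succ, Finset.sum_range_zero, Nat.factorial] at b1
        norm_num only [pow_zero, pow_one, Nat.cast_one, div_one, zero_add, Nat.succ_eq_add_one,
          mul_one, Nat.cast_ofNat] at b1
        have b4 := (le_abs_self _).trans b1
        simp only
        nlinarith
      rw [integral_add k1 (i3.const_mul _), integral_add k0 (i2.const_mul _),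
        integral_add (integrable_const _) (i1.const_mul _),
        integral_const_mul, integral_const_mul, integral_const_mul, h0] at this
      simp only [integral_const, probReal_univ, smul_eq_mul, mul_one] at this
      linarith
    have a3 : 1 ≤ ∫ x, Real.exp (ε * f x) ∂gv ι := by
      have := exp_integral_le (i1.const_mul ε) j0
      rwa [integral_const_mul, h0, mul_zero, Real.exp_zero] at this
    have a4 : ∫ x, gr2 (fun x => ε * f x) x * Real.exp (ε * f x) ∂gv ι ≤ ε ^ 2 * (D + ε * C) := by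
      have k1 : Integrable (fun x => gr2 f x + ε * (gr2 f x * (|f x| ^ 1 * Real.exp |f x|))) (gv ι) :=
        h.integrable_gr2.add (i4.const_mul _)
      have := integral_mono_ae ((h.const_mul ε).integrable_gr2_mul j0) (k1.const_mul (ε ^ 2)) (by
        filter_upwards [h.ae_differentiable] with x hx
        have b0 := gr2_comp hx (φ := fun u => ε * u) (d := ε)
          (by simpa using (hasDerivAt_id (f x)).const_mul ε)
        have b1 := abs_exp_sub_le (ε * f x) 1
        have b2 := hp x 1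
        simp only [Finset.sum_range_succ, Finset.sum_range_zero, Nat.factorial] at b1
        norm_num only [pow_zero, Nat.cast_one, div_one, zero_add] at b1
        have b4 := ((le_abs_self _).trans b1).trans b2
        rw [b0, mul_assoc]
        refine mul_le_mul_of_nonneg_left ?_ (sq_nonneg _)
        nlinarith [mul_le_mul_of_nonneg_left b4 (gr2_nonneg f x)])
      rwa [integral_const_mul, integral_add h.integrable_gr2 (i4.const_mul _), integral_const_mul]
        at this
    set M := ∫ x, Real.exp (ε * f x) ∂gv ι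
    have a5 : M * Real.log M ≤ (1 + ε ^ 2 * (V / 2 + ε * B)) * (ε ^ 2 * (V / 2 + ε * B)) := by
      have := Real.log_le_sub_one_of_pos (by linarith : 0 < M)
      exact mul_le_mul a2 (by linarith) (Real.log_nonneg a3) (by linarith)
    refine le_of_mul_le_mul_left ?_ (pow_pos hε 2)
    nlinarith
  have hcont : ContinuousAt (fun ε : ℝ => 1 / 2 * (D + ε * C) -
      (V - ε * B - (1 + ε ^ 2 * (V / 2 + ε * B)) * (V / 2 + ε * B))) 0 := by fun_prop
  have := ge_of_tendsto (hcont.tendsto.mono_left (nhdsWithin_le_nhds (s := Ioi 0))) (b := 0) (by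
    filter_upwards [Ioc_mem_nhdsGT (zero_lt_one : (0:ℝ) < 1)] with ε hε
    linarith [key ε hε.1 hε.2])
  norm_num at this
  linarith

lemma gr2_sub_const (f : (ι → ℝ) → ℝ) (c : ℝ) : gr2 (fun x => f x - c) = gr2 f := by
  ext x; simp only [gr2, grad, fderiv_sub_const]

/-- **Gaussian Poincare inequality** -/
theorem poincare {L : ℝ} {f : (ι → ℝ) → ℝ} (h : ELip L f) :
    ∫ x, (f x - ∫ y, f y ∂gv ι) ^ 2 ∂gv ι ≤ ∫ x, gr2 f x ∂gv ι := by
  have := poincare_zero (h.sub_const (∫ y, f y ∂gv ι)) (by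
    rw [integral_sub h.integrable (integrable_const _)]; simp)
  rwa [gr2_sub_const] at this

/-- **Gaussian logarithmic Sobolev inequality** -/
theorem lsi_sq {L : ℝ} {f : (ι → ℝ) → ℝ} (h : ELip L f) :
    ∫ x, f x ^ 2 * Real.log (f x ^ 2) ∂gv ι -
      (∫ x, f x ^ 2 ∂gv ι) * Real.log (∫ x, f x ^ 2 ∂gv ι) ≤ 2 * ∫ x, gr2 f x ∂gv ι := by
  have hc := h.continuous
  have i2 := h.integrable_pow 2
  have i4 := h.integrable_pow 4
  have key : ∀ ε : ℝ, 0 < ε → ∫ x, (f x ^ 2 + ε) * Real.log (f x ^ 2 + ε) ∂gv ι -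
      (∫ x, f x ^ 2 ∂gv ι + ε) * Real.log (∫ x, f x ^ 2 ∂gv ι + ε) ≤ 2 * ∫ x, gr2 f x ∂gv ι := by
    intro ε hε
    have hd : ∀ u : ℝ, HasDerivAt (fun u => Real.log (u ^ 2 + ε)) (2 * u / (u ^ 2 + ε)) u :=
      fun u => by
        simpa using ((hasDerivAt_pow 2 u).add_const ε).log (by positivity)
    have hs : 0 < Real.sqrt ε := Real.sqrt_pos.2 hε
    have hg := h.comp (φ := fun u => Real.log (u ^ 2 + ε)) (c := (Real.sqrt ε)⁻¹) (by positivity)
      (lip_of_deriv hd fun u => by
        rw [abs_div, abs_of_pos (by positivity : 0 < u ^ 2 + ε), div_le_iff₀ (by positivity),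
          inv_mul_eq_div, le_div_iff₀ hs, abs_mul, abs_two]
        nlinarith [sq_nonneg (|u| - Real.sqrt ε), sq_abs u, Real.sq_sqrt hε.le])
    have hl := lsi_exp hg
    have e : ∀ x, Real.exp (Real.log (f x ^ 2 + ε)) = f x ^ 2 + ε := fun x =>
      Real.exp_log (by positivity)
    simp only [e] at hl
    rw [integral_add i2 (integrable_const _)] at hl
    simp only [integral_const, probReal_univ, smul_eq_mul, one_mul] at hl
    have a1 := integral_mono_ae (hg.integrable_gr2_mul (i2.add (integrable_const ε)))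
      (h.integrable_gr2.const_mul 4) (by
        filter_upwards [h.ae_differentiable] with x hx
        rw [gr2_comp hx (hd (f x)), mul_right_comm]
        refine mul_le_mul_of_nonneg_right ?_ (gr2_nonneg _ _)
        have hp : 0 < f x ^ 2 + ε := by positivity
        simp only [Pi.add_apply]
        rw [div_pow, div_mul_eq_mul_div, div_le_iff₀ (by positivity)]
        nlinarith [mul_nonneg hp.le hε.le])
    rw [integral_const_mul] at a1
    simp only [Pi.add_apply] at a1
    simp only [mul_comm (Real.log _)] at hl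
    linarith
  have h1 : Tendsto (fun ε : ℝ => ∫ x, (f x ^ 2 + ε) * Real.log (f x ^ 2 + ε) ∂gv ι) (𝓝[>] 0)
      (𝓝 (∫ x, f x ^ 2 * Real.log (f x ^ 2) ∂gv ι)) := by
    refine tendsto_integral_filter_of_dominated_convergence (fun x => 2 * f x ^ 4 + 3) ?_ ?_
      ((i4.const_mul _).add (integrable_const _)) (ae_of_all _ fun x => ?_)
    · exact Eventually.of_forall fun ε => Measurable.aestronglyMeasurable (by fun_prop)
    · filter_upwards [Ioc_mem_nhdsGT (zero_lt_one : (0:ℝ) < 1)] with ε hε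
      refine ae_of_all _ fun x => ?_
      have hp : 0 < f x ^ 2 + ε := by linarith [sq_nonneg (f x), hε.1]
      have b1 := mul_le_mul_of_nonneg_left (Real.log_le_sub_one_of_pos hp) hp.le
      have b2 := mul_le_mul_of_nonneg_left (Real.one_sub_inv_le_log_of_pos hp) hp.le
      rw [mul_sub, mul_inv_cancel₀ hp.ne'] at b2
      rw [Real.norm_eq_abs, abs_le]
      constructor <;> nlinarith [sq_nonneg (f x ^ 2 - 1), sq_nonneg (f x), hε.1, hε.2,
        mul_le_mul_of_nonneg_left hε.2 (sq_nonneg (f x)), sq_nonneg (f x ^ 2)]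
    · have : ContinuousAt (fun ε : ℝ => (f x ^ 2 + ε) * Real.log (f x ^ 2 + ε)) 0 :=
        (Real.continuous_mul_log.comp (by fun_prop : Continuous fun ε : ℝ => f x ^ 2 + ε)).continuousAt
      simpa using this.tendsto.mono_left nhdsWithin_le_nhds
  have h2 : Tendsto (fun ε : ℝ => (∫ x, f x ^ 2 ∂gv ι + ε) * Real.log (∫ x, f x ^ 2 ∂gv ι + ε))
      (𝓝[>] 0) (𝓝 ((∫ x, f x ^ 2 ∂gv ι) * Real.log (∫ x, f x ^ 2 ∂gv ι))) := by
    have : ContinuousAt (fun ε : ℝ =>
        (∫ x, f x ^ 2 ∂gv ι + ε) * Real.log (∫ x, f x ^ 2 ∂gv ι + ε)) 0 :=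
      (Real.continuous_mul_log.comp
        (by fun_prop : Continuous fun ε : ℝ => ∫ x, f x ^ 2 ∂gv ι + ε)).continuousAt
    simpa using this.tendsto.mono_left nhdsWithin_le_nhds
  refine le_of_tendsto (h1.sub h2) ?_
  filter_upwards [self_mem_nhdsWithin] with ε hε
  exact key ε hε

lemma ELip.gr2_ae_eq {L : ℝ} {f : (ι → ℝ) → ℝ} (h : ELip L f) {D : ι → (ι → ℝ) → ℝ}
    (hD : ∀ x i, HasDerivAt (fun t => f (Function.update x i t)) (D i x) (x i)) :
    gr2 f =ᵐ[gv ι] fun x => ∑ i, D i x ^ 2 := by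
  filter_upwards [h.ae_differentiable] with x hx
  exact Finset.sum_congr rfl fun i _ => by rw [grad_eq_of_partial hx (hD x i)]

/-- Poincare inequality from a Lipschitz bound and coordinate derivatives -/
theorem poincare_partial {L : ℝ} {f : (ι → ℝ) → ℝ} (h : ELip L f) {D : ι → (ι → ℝ) → ℝ}
    (hD : ∀ x i, HasDerivAt (fun t => f (Function.update x i t)) (D i x) (x i)) :
    ∫ x, (f x - ∫ y, f y ∂gv ι) ^ 2 ∂gv ι ≤ ∫ x, ∑ i, D i x ^ 2 ∂gv ι := by
  rw [← integral_congr_ae (h.gr2_ae_eq hD)]; exact poincare h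

theorem lsi_sq_partial {L : ℝ} {f : (ι → ℝ) → ℝ} (h : ELip L f) {D : ι → (ι → ℝ) → ℝ}
    (hD : ∀ x i, HasDerivAt (fun t => f (Function.update x i t)) (D i x) (x i)) :
    ∫ x, f x ^ 2 * Real.log (f x ^ 2) ∂gv ι -
      (∫ x, f x ^ 2 ∂gv ι) * Real.log (∫ x, f x ^ 2 ∂gv ι) ≤ 2 * ∫ x, ∑ i, D i x ^ 2 ∂gv ι := by
  rw [← integral_congr_ae (h.gr2_ae_eq hD)]; exact lsi_sq h

/-- complex-valued Poincare inequality -/
theorem poincare_complex {L : ℝ} {f : (ι → ℝ) → ℂ} (h : ∀ x y, ‖f x - f y‖ ≤ L * en (x - y))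
    {D : ι → (ι → ℝ) → ℂ}
    (hD : ∀ x i, HasDerivAt (fun t : ℝ => f (Function.update x i t)) (D i x) (x i)) :
    ∫ x, ‖f x - ∫ y, f y ∂gv ι‖ ^ 2 ∂gv ι ≤ ∫ x, ∑ i, ‖D i x‖ ^ 2 ∂gv ι := by
  have h1 : ELip L fun x => (f x).re := fun x y => by
    rw [← Complex.sub_re]; exact (Complex.abs_re_le_norm _).trans (h x y)
  have h2 : ELip L fun x => (f x).im := fun x y => by
    rw [← Complex.sub_im]; exact (Complex.abs_im_le_norm _).trans (h x y)
  have d1 : ∀ x i, HasDerivAt (fun t => (f (Function.update x i t)).re) (D i x).re (x i) :=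
    fun x i => Complex.reCLM.hasFDerivAt.comp_hasDerivAt _ (hD x i)
  have d2 : ∀ x i, HasDerivAt (fun t => (f (Function.update x i t)).im) (D i x).im (x i) :=
    fun x i => Complex.imCLM.hasFDerivAt.comp_hasDerivAt _ (hD x i)
  have hf : Integrable f (gv ι) := by
    have := (h1.integrable.ofReal (𝕜 := ℂ)).add ((h2.integrable.ofReal (𝕜 := ℂ)).mul_const Complex.I)
    refine this.congr (ae_of_all _ fun x => ?_)
    simp
  have p1 := poincare_partial h1 d1
  have p2 := poincare_partial h2 d2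
  have j1 := h1.integrable_gr2.congr (h1.gr2_ae_eq d1)
  have j2 := h2.integrable_gr2.congr (h2.gr2_ae_eq d2)
  have e1 : (∫ y, f y ∂gv ι).re = ∫ y, (f y).re ∂gv ι := (integral_re hf).symm
  have e2 : (∫ y, f y ∂gv ι).im = ∫ y, (f y).im ∂gv ι := (integral_im hf).symm
  simp only [Complex.sq_norm, Complex.normSq_apply, ← sq, Complex.sub_re, Complex.sub_im, e1, e2,
    Finset.sum_add_distrib]
  rw [integral_add ((h1.sub_const _).integrable_pow 2) ((h2.sub_const _).integrable_pow 2),
    integral_add j1 j2]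
  exact add_le_add p1 p2

end Crest.Agent.T157.Conc
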