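import Crest.Agent.T157.KrR_53
import Crest.Agent.T157.ConcP_16

/-!
# Row 157, part E (helper53): a contraction of independent Gaussians stays near its mean

`far_mean`: if `0 ≤ ψ' ≤ 1` then `avg ψ' ≤ 1 - k` and `avg (ψ - Eψ)² ≥ 1 - k/4` hold together with
probability at most `exp (-n k² / 200)`; `cell_int` adds the weight `exp (κ n S²)`.
-/

set_option autoImplicit false
set_option linter.unusedSectionVars false

noncomputable section

namespace Crest.Agent.T157.Kr

open MeasureTheory ProbabilityTheory Real Filter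
open Crest.Agent.T157.E
open Crest.Agent.T157.Conc hiding gv
open scoped ENNReal

universe u

variable {ι : Type u} [Fintype ι] {ψ ψ' : ι → ℝ → ℝ}

lemma integral_eval {f : ℝ → ℝ} (hf : Measurable f) (i : ι) :
    ∫ z, f (z i) ∂(gv ι) = ∫ x, f x ∂(gaussianReal 0 1) := by
  have hi := measurePreserving_eval (fun _ : ι => gaussianReal 0 1) i
  rw [← hi.map_eq, integral_map hi.measurable.aemeasurable hf.aestronglyMeasurable]

theorem hoeff_site {f : ι → ℝ → ℝ} (hf : ∀ i, Measurable (f i)) (hb : ∀ i x, |f i x| ≤ 1) {t : ℝ}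
    (ht : 0 ≤ t) :
    (gv ι).real {z | t ≤ ∑ i, (f i (z i) - ∫ x, f i x ∂(gaussianReal 0 1))} ≤
      exp (-t ^ 2 / (2 * Fintype.card ι)) := by
  have h1 : ∀ i, HasSubgaussianMGF (fun x => f i x - ∫ x, f i x ∂(gaussianReal 0 1)) 1
      (gaussianReal 0 1) := fun i => by
    have := hasSubgaussianMGF_of_mem_Icc (μ := gaussianReal 0 1) (X := f i) (a := -1) (b := 1)
      (hf i).aemeasurable (Eventually.of_forall fun x => abs_le.1 (hb i x))
    convert this using 1
    ext; norm_num
  have h2 : ∀ i, HasSubgaussianMGF (fun ω : ι → ℝ => f i (ω i) - ∫ x, f i x ∂(gaussianReal 0 1)) 1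
      (gv ι) := fun i => by
    have hi := measurePreserving_eval (fun _ : ι => gaussianReal 0 1) i
    exact HasSubgaussianMGF.of_map (Y := Function.eval i)
      (X := fun x => f i x - ∫ x, f i x ∂(gaussianReal 0 1))
      hi.measurable.aemeasurable (by rw [hi.map_eq]; exact h1 i)
  have h3 := HasSubgaussianMGF.measure_sum_ge_le_of_iIndepFun
    (iIndepFun_pi (μ := fun _ : ι => gaussianReal 0 1)
      (X := fun i x => f i x - ∫ x, f i x ∂(gaussianReal 0 1))
      fun i => ((hf i).sub_const _).aemeasurable) (c := fun _ => 1) (s := Finset.univ)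
    (fun i _ => h2 i) ht
  simpa using h3

lemma Slope.lip (h : Slope ψ ψ') (i : ι) (x y : ℝ) : |ψ i x - ψ i y| ≤ |x - y| := by
  have := Convex.norm_image_sub_le_of_norm_hasDerivWithin_le (f := ψ i) (f' := ψ' i) (C := 1)
    (s := Set.univ) (fun z _ => (h.hd i z).hasDerivWithinAt)
    (fun z _ => by rw [Real.norm_of_nonneg (h.h0 i z)]; exact h.h1 i z) convex_univ
    (Set.mem_univ y) (Set.mem_univ x)
  simpa using this

lemma Slope.elip (h : Slope ψ ψ') (i : ι) : ELip 1 fun z : ι → ℝ => ψ i (z i) := fun x y => by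
  rw [one_mul]
  exact (h.lip i _ _).trans (abs_le_en (x - y) i)

lemma Slope.var_le (h : Slope ψ ψ') (i : ι) :
    ∫ z, (ψ i (z i) - ∫ x, ψ i x ∂(gaussianReal 0 1)) ^ 2 ∂(gv ι) ≤
      ∫ x, ψ' i x ∂(gaussianReal 0 1) := by
  classical
  have h1 := poincare_partial (h.elip i) (D := fun j z => if j = i then ψ' i (z i) else 0)
    (fun x j => by
      split_ifs with hj
      · subst hj
        simpa using h.hd j (x j)
      · simpa [Function.update_of_ne (Ne.symm hj)] using hasDerivAt_const (x j) (ψ i (x i)))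
  rw [integral_eval (h.measurable i)] at h1
  refine h1.trans ?_
  rw [← integral_eval (h.measurable' i) i]
  have hm := h.measurable' i
  refine integral_mono_of_nonneg (ae_of_all _ fun z => Finset.sum_nonneg fun _ _ => sq_nonneg _)
    ((integrable_const (1 : ℝ)).mono' (hm.comp (measurable_pi_apply i)).aestronglyMeasurable (ae_of_all _ fun z => by
      rw [Real.norm_of_nonneg (h.h0 i _)]; exact h.h1 i _)) (ae_of_all _ fun z => ?_)
  have a0 := h.h0 i (z i)
  have a1 := h.h1 i (z i)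
  simp only [ite_pow, ne_eq, OfNat.ofNat_ne_zero, not_false_eq_true, zero_pow, Finset.sum_ite_eq',
    Finset.mem_univ, if_true]
  nlinarith

/-- `avg (ψ - E ψ)² ≥ 1 - k / 4` -/
def Far (ψ : ι → ℝ → ℝ) (k : ℝ) : Set (ι → ℝ) :=
  {z | Fintype.card ι * (1 - k / 4) ≤ ∑ i, (ψ i (z i) - ∫ x, ψ i x ∂(gaussianReal 0 1)) ^ 2}

lemma Slope.measurableSet_Far (h : Slope ψ ψ') (k : ℝ) : MeasurableSet (Far ψ k) := by
  have := h.measurable
  exact measurableSet_le measurable_const (by fun_prop)

theorem far_mean [Nonempty ι] (h : Slope ψ ψ') {k : ℝ} (hk : 0 < k) (hk1 : k ≤ 1) :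
    (gv ι).real (Adm ψ ψ' k ∩ Far ψ k) ≤ exp (-(k ^ 2 / 200 * Fintype.card ι)) := by
  have hn : (0 : ℝ) < Fintype.card ι := by exact_mod_cast Fintype.card_pos
  set n : ℝ := (Fintype.card ι : ℝ) with hndef
  rcases le_total (n * (1 - k / 2)) (∑ i, ∫ x, ψ' i x ∂(gaussianReal 0 1)) with hm | hm
  · have h1 := hoeff_site (f := fun i x => -ψ' i x) (fun i => (h.measurable' i).neg)
      (fun i x => by rw [abs_neg, abs_of_nonneg (h.h0 i x)]; exact h.h1 i x)
      (t := n * (k / 2)) (by positivity)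
    refine (measureReal_mono fun z hz => ?_).trans (h1.trans (exp_le_exp.2 ?_))
    · have := hz.1.1
      simp only [Set.mem_ofPred_eq, integral_neg, Finset.sum_sub_distrib, Finset.sum_neg_distrib]
      linarith
    · rw [← hndef, div_le_iff₀ (by positivity)]
      nlinarith [mul_pos (mul_pos hn hn) (mul_pos hk hk)]
  · set μ : ι → ℝ := fun i => ∫ x, ψ i x ∂(gaussianReal 0 1) with hμ
    set F : (ι → ℝ) → ℝ := fun z => en fun i => ψ i (z i) - μ i with hF
    have hL : ELip 1 F := fun x y => by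
      rw [one_mul]
      refine (abs_en_sub_le _ _).trans (Real.sqrt_le_sqrt (Finset.sum_le_sum fun i _ => ?_))
      have := h.lip i (x i) (y i)
      simp only [Pi.sub_apply, sub_sub_sub_cancel_right]
      exact sq_le_sq.2 this
    have h2 : ∫ z, F z ^ 2 ∂(gv ι) ≤ n * (1 - k / 2) := by
      simp only [hF, en_sq]
      rw [integral_finsetSum _ fun i _ => ((h.elip i).sub_const _).integrable_pow 2]
      exact (Finset.sum_le_sum fun i _ => h.var_le i).trans hm
    have h3 : (∫ z, F z ∂(gv ι)) ^ 2 ≤ ∫ z, F z ^ 2 ∂(gv ι) := by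
      have a := integral_nonneg (μ := gv ι) (f := fun z => (F z - ∫ z, F z ∂(gv ι)) ^ 2)
        fun z => sq_nonneg _
      simp only [sub_sq] at a
      have i1 : Integrable (fun z => F z ^ 2) (gv ι) := hL.integrable_pow 2
      have i2 : Integrable (fun z => 2 * F z * ∫ z, F z ∂(gv ι)) (gv ι) :=
        (hL.integrable.const_mul 2).mul_const _
      have i3 : Integrable (fun z => F z ^ 2 - 2 * F z * ∫ z, F z ∂(gv ι)) (gv ι) := i1.sub i2
      rw [integral_add i3 (integrable_const _), integral_sub i1 i2, integral_mul_const,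
        integral_const_mul, integral_const] at a
      simp only [probReal_univ, smul_eq_mul, one_mul] at a
      linarith
    have hr : 0 < √n := sqrt_pos.2 hn
    have hrr : √n ^ 2 = n := sq_sqrt hn.le
    have h4 : ∫ z, F z ∂(gv ι) ≤ √n * (1 - k / 4) :=
      (abs_le_of_sq_le_sq' (by rw [mul_pow, hrr]; nlinarith [mul_pos hn (mul_pos hk hk)])
        (mul_nonneg hr.le (by linarith))).2
    have h5 := tail_lip hL (t := √n * (k / 10)) (by positivity)
    refine (measureReal_mono fun z hz => ?_).trans (h5.trans (le_of_eq ?_))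
    · have a : n * (1 - k / 4) ≤ F z ^ 2 := by rw [hF, en_sq]; exact hz.2
      have b : √n * (1 - k / 7) ≤ F z :=
        (abs_le_of_sq_le_sq' (by rw [mul_pow, hrr]; nlinarith [mul_pos hn hk]) (en_nonneg _)).2
      have c := mul_pos hr hk
      simp only [Set.mem_ofPred_eq]
      linarith
    · rw [mul_pow, hrr]
      congr 1
      ring

/-- the weighted integral over one cell of the single-child model -/
theorem cell_int {k : ℝ} (hk : 0 < k) (hk1 : k ≤ 1) : ∃ C c : ℝ, 0 ≤ C ∧ 0 < c ∧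
    ∀ {ι : Type u} [Fintype ι] [Nonempty ι] {ψ ψ' : ι → ℝ → ℝ}, Slope ψ ψ' →
      ∫⁻ z in Adm ψ ψ' k ∩ Far ψ k,
        ENNReal.ofReal (exp ((1 + k / 24) / 4 * Fintype.card ι * Sd ψ ψ' z ^ 2)) ∂(gv ι) ≤
        ENNReal.ofReal (C * exp (-(c * Fintype.card ι))) := by
  obtain ⟨C, c, hC, hc, h⟩ := ramer_int.{u} (κ := (1 + k / 24) / 4) (δ := k / 15) hk hk1
    (by positivity) (by linarith) (by positivity)
  refine ⟨C + 1, min c (k ^ 2 / 400), by positivity, lt_min hc (by positivity), ?_⟩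
  intro ι _ _ ψ ψ' hψ
  have hn : (0 : ℝ) < Fintype.card ι := by exact_mod_cast Fintype.card_pos
  have h1 := h hψ
  have h2 := far_mean hψ hk hk1
  set n : ℝ := (Fintype.card ι : ℝ) with hndef
  have hS := hψ.measurable_Sd
  have hsub : Adm ψ ψ' k ∩ Far ψ k ⊆ (Adm ψ ψ' k ∩ {z | k / 15 ≤ |Sd ψ ψ' z|}) ∪
      ((Adm ψ ψ' k ∩ Far ψ k) ∩ {z | |Sd ψ ψ' z| ≤ k / 15}) := fun z hz =>
    (le_total (k / 15) |Sd ψ ψ' z|).imp (fun h => ⟨hz.1, h⟩) fun h => ⟨hz, h⟩
  have h3 : ∫⁻ z in (Adm ψ ψ' k ∩ Far ψ k) ∩ {z | |Sd ψ ψ' z| ≤ k / 15},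
      ENNReal.ofReal (exp ((1 + k / 24) / 4 * n * Sd ψ ψ' z ^ 2)) ∂(gv ι) ≤
      ENNReal.ofReal (exp (-(k ^ 2 / 400 * n))) := by
    refine (setLIntegral_mono' (((hψ.measurableSet_Adm k).inter (hψ.measurableSet_Far k)).inter
      (measurableSet_le (by fun_prop) measurable_const))
      (g := fun _ => ENNReal.ofReal (exp (k ^ 2 / 400 * n))) fun z hz => ?_).trans ?_
    · refine ENNReal.ofReal_le_ofReal (exp_le_exp.2 ?_)
      have a : Sd ψ ψ' z ^ 2 ≤ (k / 15) ^ 2 := by
        rw [← sq_abs]; exact pow_le_pow_left₀ (abs_nonneg _) hz.2 2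
      have b : (1 + k / 24) / 4 * Sd ψ ψ' z ^ 2 ≤ 1 / 2 * (k / 15) ^ 2 :=
        mul_le_mul (by linarith) a (sq_nonneg _) (by norm_num)
      nlinarith [mul_le_mul_of_nonneg_left b hn.le, mul_pos hn (mul_pos hk hk)]
    · rw [setLIntegral_const]
      refine (mul_le_mul_right (measure_mono Set.inter_subset_left) _).trans ?_
      rw [← ofReal_measureReal, ← ENNReal.ofReal_mul (exp_pos _).le]
      refine ENNReal.ofReal_le_ofReal ((mul_le_mul_of_nonneg_left h2 (exp_pos _).le).trans_eq ?_)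
      rw [← exp_add]
      congr 1
      ring
  refine (lintegral_mono_set hsub).trans ((lintegral_union_le _ _ _).trans
    ((add_le_add h1 h3).trans ?_))
  rw [← ENNReal.ofReal_add (by positivity) (exp_pos _).le, add_mul, one_mul]
  refine ENNReal.ofReal_le_ofReal (add_le_add (mul_le_mul_of_nonneg_left ?_ hC) ?_) <;>
    refine exp_le_exp.2 (neg_le_neg (mul_le_mul_of_nonneg_right ?_ hn.le))
  · exact min_le_left _ _
  · exact min_le_right _ _

end Crest.Agent.T157.Kr

end
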