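import Crest.Agent.T157.KrB_53

/-!
# Row 157, part E (helper53): Kac–Rice bound for an arbitrary Borel bad set

The event `∃ x, (θ, x) ∈ B ∧ Y θ x = c θ + √v g` is only analytic; the bound holds for its outer
measure by outer regularity of the Kac–Rice measure.
-/

set_option autoImplicit false
set_option linter.unusedSectionVars false

noncomputable section

namespace Crest.Agent.T157.Kr

open MeasureTheory ProbabilityTheory Matrix Real
open Crest.Agent.T157.E Crest.Agent.T157.Cond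
open scoped ENNReal

variable {ι : Type*} [Fintype ι] [DecidableEq ι]

instance instPMMatrix {m n : Type*} [Finite m] [Finite n] :
    TopologicalSpace.PseudoMetrizableSpace (Matrix m n ℝ) :=
  (inferInstance : TopologicalSpace.PseudoMetrizableSpace (m → n → ℝ))

/-- **Kac–Rice bound**, Borel bad set, continuous data; no measurability of the event needed -/
theorem kacRice_borel {Θ : Type*} [TopologicalSpace Θ] [SecondCountableTopology Θ]
    [TopologicalSpace.PseudoMetrizableSpace Θ] [MeasurableSpace Θ] [BorelSpace Θ]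
    (μ : Measure Θ) [IsFiniteMeasure μ]
    {Y : Θ → (ι → ℝ) → ι → ℝ} {D : Θ → (ι → ℝ) → Matrix ι ι ℝ} {c : Θ → ι → ℝ}
    {B : Set (Θ × (ι → ℝ))} (hB : MeasurableSet B)
    (hYc : Continuous fun p : Θ × (ι → ℝ) => Y p.1 p.2)
    (hDc : Continuous fun p : Θ × (ι → ℝ) => (D p.1 p.2).det) (hc : Continuous c)
    (hY : ∀ θ x, HasJac (Y θ) (D θ x) x) {v : ℝ} (hv : 0 < v) :
    (μ.prod (gv ι)) {q | ∃ x, (q.1, x) ∈ B ∧ Y q.1 x = c q.1 + Real.sqrt v • q.2} ≤
      ∫⁻ x, ∫⁻ θ, B.indicator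
        (fun p => ENNReal.ofReal (|(D p.1 p.2).det| * phi v (Y p.1 p.2 - c p.1))) (θ, x) ∂μ := by
  set f : Θ × (ι → ℝ) → ℝ := fun p => |(D p.1 p.2).det| * phi v (Y p.1 p.2 - c p.1) with hf
  have hfc : Continuous f := by
    have : Continuous fun p : Θ × (ι → ℝ) => Y p.1 p.2 - c p.1 := hYc.sub (hc.comp continuous_fst)
    refine hDc.abs.mul ?_
    unfold phi
    fun_prop
  have hfm : Measurable fun p => ENNReal.ofReal (f p) := hfc.measurable.ennreal_ofReal
  set ν : Measure (Θ × (ι → ℝ)) := (μ.prod volume).withDensity fun p => ENNReal.ofReal (f p)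
    with hν
  have hloc : IsLocallyFiniteMeasure ν := IsLocallyFiniteMeasure.withDensity_ofReal hfc
  have hval : ∀ U : Set (Θ × (ι → ℝ)), MeasurableSet U → ν U =
      ∫⁻ x, ∫⁻ θ, U.indicator (fun p => ENNReal.ofReal (f p)) (θ, x) ∂μ := by
    intro U hU
    rw [hν, withDensity_apply _ hU, ← lintegral_indicator hU,
      lintegral_prod_symm _ (hfm.indicator hU).aemeasurable]
  rw [← hval B hB, Set.measure_eq_iInf_isOpen B ν]
  refine le_iInf fun U => le_iInf fun hBU => le_iInf fun hU => ?_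
  rw [hval U hU.measurableSet]
  have hE : MeasurableSet
      {q : Θ × (ι → ℝ) | ∃ x, (q.1, x) ∈ U ∧ Y q.1 x = c q.1 + Real.sqrt v • q.2} := by
    let _ : PseudoMetricSpace (Θ × (ι → ℝ)) := TopologicalSpace.pseudoMetrizableSpacePseudoMetric _
    obtain ⟨F, hF, -, hFU, -⟩ := hU.exists_iUnion_isClosed
    have : {q : Θ × (ι → ℝ) | ∃ x, (q.1, x) ∈ U ∧ Y q.1 x = c q.1 + Real.sqrt v • q.2} =
        ⋃ k, {q : Θ × (ι → ℝ) | ∃ x, (q.1, x) ∈ F k ∧ Y q.1 x = c q.1 + Real.sqrt v • q.2} := by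
      ext q
      simp only [← hFU, Set.mem_ofPred_eq, Set.mem_iUnion]
      exact ⟨fun ⟨x, ⟨k, hk⟩, h⟩ => ⟨k, x, hk, h⟩, fun ⟨k, x, hk, h⟩ => ⟨x, ⟨k, hk⟩, h⟩⟩
    rw [this]
    exact MeasurableSet.iUnion fun k =>
      (kacRice_closed μ (hF k) hYc hDc.measurable hc (fun p _ => hY p.1 p.2) hv).1
  refine (measure_mono ?_).trans (kacRice μ hU.measurableSet hYc.measurable hDc.measurable
    hc.measurable (fun p _ => hY p.1 p.2) hv hE fun q hq => hq)
  rintro q ⟨x, hx, h⟩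
  exact ⟨x, hBU hx, h⟩

/-- the response `W e / s` of a GOE matrix to a unit vector, as a tilted shifted standard
Gaussian: `E G(noise) = E [2^{-1/2} exp((ζ-m)²/4 - m²/2) G(Z + m e)]`, `ζ = e·Z` -/
theorem lintegral_noise {e : ι → ℝ} (he : e ⬝ᵥ e = 1) (m : ℝ) {G : (ι → ℝ) → ℝ≥0∞}
    (hG : Measurable G) :
    ∫⁻ ξ, G (blk e 1 (Real.sqrt 2) *ᵥ ξ) ∂(gv ι) =
      ∫⁻ Z, ENNReal.ofReal ((Real.sqrt 2)⁻¹ *
        Real.exp ((e ⬝ᵥ Z - m) ^ 2 / 4 - m ^ 2 / 2)) * G (Z + m • e) ∂(gv ι) := by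
  have h2 : (0 : ℝ) < Real.sqrt 2 := by positivity
  have hsq : Real.sqrt 2 ^ 2 = 2 := Real.sq_sqrt (by norm_num)
  have hd : (blk e 1 (Real.sqrt 2)).det = Real.sqrt 2 := by
    rw [det_blk he one_ne_zero]; simp
  have h := lintegral_gv_affine (M := blk e 1 (Real.sqrt 2)) (by rw [hd]; exact h2.ne') 0 hG
  simp only [zero_add, sub_zero] at h
  rw [h, lintegral_gv (by fun_prop), ← lintegral_add_right_eq_self _ (m • e)]
  refine lintegral_congr fun Z => ?_
  rw [← mul_assoc, ← ENNReal.ofReal_mul (phi_nonneg _ _), hd, blk_inv he one_ne_zero h2.ne',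
    abs_of_pos (inv_pos.2 h2)]
  congr 2
  unfold phi
  rw [blk_dot_blk he, inv_pow (Real.sqrt 2), hsq]
  simp only [add_dotProduct, dotProduct_add, dotProduct_smul, smul_dotProduct, he, smul_eq_mul,
    dotProduct_comm Z e]
  have key : ∀ c₁ c₂ x₁ x₂ x₃ : ℝ, x₁ = x₂ + x₃ →
      c₂ * (c₁ * Real.exp x₁) = c₁ * Real.exp x₂ * (c₂ * Real.exp x₃) := by
    intro c₁ c₂ x₁ x₂ x₃ h1
    rw [h1, Real.exp_add]; ring
  refine key _ _ _ _ _ ?_
  ring

/-- a GOE matrix rebuilt from the tilted response to the vector `p` -/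
theorem goe_tilt {p : ι → ℝ} (hp : p ≠ 0) (s m : ℝ) {F : Matrix ι ι ℝ → ℝ≥0∞}
    (hF : Measurable F) :
    ∫⁻ W, F W ∂(goe ι s) = ∫⁻ Z, ENNReal.ofReal ((Real.sqrt 2)⁻¹ *
        Real.exp ((unitv p ⬝ᵥ Z - m) ^ 2 / 4 - m ^ 2 / 2)) *
      ∫⁻ W', F (rk2 (s • (Z + m • unitv p)) (unitv p) + nextR 1 p * W' * nextR 1 p) ∂(goe ι s)
        ∂(gv ι) := by
  have h := goe_step0 (IsProj.one (ι := ι)) p s
  simp only [Matrix.one_mul, Matrix.mul_one, Measure.map_id', dirv_one, noise_one] at h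
  conv_lhs => rw [h]
  rw [lintegral_map hF (by fun_prop), lintegral_prod _ (by fun_prop)]
  have hG : Measurable fun y : ι → ℝ =>
      ∫⁻ W', F (rk2 (s • y) (unitv p) + nextR 1 p * W' * nextR 1 p) ∂(goe ι s) :=
    Measurable.lintegral_prod_right' (f := fun q : (ι → ℝ) × Matrix ι ι ℝ =>
      F (rk2 (s • q.1) (unitv p) + nextR 1 p * q.2 * nextR 1 p)) (by fun_prop)
  have h3 := lintegral_noise (unitv_dot hp) m hG
  simp only [rk2_smul] at h3 ⊢
  exact h3

end Crest.Agent.T157.Kr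

end
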