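import Crest.Agent.T157.TapDef_29
import Crest.Agent.T157.KrO_53

/-!
# Row 157, part A (helper53): the Kac–Rice bound of one cell, `Tap.CellStmt`
-/

set_option autoImplicit false

noncomputable section

namespace Crest.Agent.T157.Tap.Cell

open MeasureTheory ProbabilityTheory Matrix Filter Set
open Crest.Agent.T157.E Crest.Agent.T157.Eig Crest.Agent.T157.Cond Crest.Agent.T157.Kr
open scoped ENNReal

variable {n : ℕ}

lemma hasDerivAt_tanh (t : ℝ) : HasDerivAt Real.tanh (1 - Real.tanh t ^ 2) t := by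
  have hc := (Real.cosh_pos t).ne'
  have h := (Real.hasDerivAt_sinh t).div (Real.hasDerivAt_cosh t) hc
  have e : Real.tanh = Real.sinh / Real.cosh := by
    funext u; simp [Real.tanh_eq_sinh_div_cosh]
  rw [e]
  refine h.congr_deriv ?_
  simp only [Pi.div_apply]
  field_simp

@[fun_prop] lemma continuous_tanh : Continuous Real.tanh :=
  continuous_iff_continuousAt.2 fun t => (hasDerivAt_tanh t).continuousAt

lemma abs_th_le (x : V n) : Cb (th x) := fun i => (Real.abs_tanh_lt_one (x i)).le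

section cont
variable {X : Type*} [TopologicalSpace X]

@[fun_prop] lemma _root_.Continuous.t157c_th {x : X → V n} (h : Continuous x) :
    Continuous fun a => th (x a) := by unfold th; fun_prop
@[fun_prop] lemma _root_.Continuous.t157c_avg {x : X → V n} (h : Continuous x) :
    Continuous fun a => avg (x a) := by unfold avg; fun_prop
@[fun_prop] lemma _root_.Continuous.t157c_DD {x : X → V n} (h : Continuous x) :
    Continuous fun a => DD (x a) := by unfold DD; fun_prop
@[fun_prop] lemma _root_.Continuous.t157c_dd {x : X → V n} (h : Continuous x) :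
    Continuous fun a => dd (x a) := by unfold dd; fun_prop
@[fun_prop] lemma _root_.Continuous.t157c_aS {x : X → V n} (h : Continuous x) :
    Continuous fun a => aS (x a) := by unfold aS avg th; fun_prop
@[fun_prop] lemma _root_.Continuous.t157c_bS {x : X → V n} (h : Continuous x) :
    Continuous fun a => bS (x a) := by unfold bS; fun_prop
@[fun_prop] lemma _root_.Continuous.t157c_nrm {x : X → V n} (h : Continuous x) :
    Continuous fun a => nrm (x a) := by unfold nrm; fun_prop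
@[fun_prop] lemma _root_.Continuous.t157c_plW (β : ℝ) {W : X → Mx n} {x : X → V n}
    (hW : Continuous W) (h : Continuous x) : Continuous fun a => plW β (W a) (x a) := by
  unfold plW; fun_prop
@[fun_prop] lemma _root_.Continuous.t157c_Ymap (b : ℝ) {W : X → Mx n} {x : X → V n}
    (hW : Continuous W) (h : Continuous x) : Continuous fun a => Ymap (W a) b (x a) := by
  unfold Ymap; fun_prop
@[fun_prop] lemma _root_.Continuous.t157c_B1 (b : ℝ) {W : X → Mx n} {x : X → V n}
    (hW : Continuous W) (h : Continuous x) : Continuous fun a => B1 (W a) b (x a) := by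
  unfold B1 B0 avg dd; fun_prop
@[fun_prop] lemma _root_.Continuous.t157c_NN {W : X → Mx n} {x : X → V n}
    (hW : Continuous W) (h : Continuous x) : Continuous fun a => NN (W a) (x a) := by
  unfold NN; fun_prop
@[fun_prop] lemma _root_.Continuous.t157c_xv (β s a0 b0 : ℝ) {g Z : X → V n}
    (hg : Continuous g) (hZ : Continuous Z) : Continuous fun a => xv β s a0 b0 (g a) (Z a) := by
  unfold xv; fun_prop

end cont

section meas
variable {Ω : Type*} [MeasurableSpace Ω]

@[fun_prop] lemma _root_.Measurable.t157c_th {x : Ω → V n} (h : Measurable x) :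
    Measurable fun a => th (x a) :=
  (Continuous.t157c_th (n := n) continuous_id).measurable.comp h
@[fun_prop] lemma _root_.Measurable.t157c_aS {x : Ω → V n} (h : Measurable x) :
    Measurable fun a => aS (x a) :=
  (Continuous.t157c_aS (n := n) continuous_id).measurable.comp h
@[fun_prop] lemma _root_.Measurable.t157c_bS {x : Ω → V n} (h : Measurable x) :
    Measurable fun a => bS (x a) :=
  (Continuous.t157c_bS (n := n) continuous_id).measurable.comp h
@[fun_prop] lemma _root_.Measurable.t157c_xv (β s a0 b0 : ℝ) {g Z : Ω → V n}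
    (hg : Measurable g) (hZ : Measurable Z) : Measurable fun a => xv β s a0 b0 (g a) (Z a) := by
  unfold xv; fun_prop
@[fun_prop] lemma _root_.Measurable.t157c_SW (β : ℝ) {W : Ω → Mx n} {x : Ω → V n}
    (hW : Measurable W) (h : Measurable x) : Measurable fun a => SW β (W a) (x a) := by
  unfold SW; fun_prop
@[fun_prop] lemma _root_.Measurable.t157c_SS (β : ℝ) {x Z : Ω → V n}
    (h : Measurable x) (hZ : Measurable Z) : Measurable fun a => SS β (x a) (Z a) := by
  have : Measurable fun a => avg fun i => Z a i * th (x a) i := by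
    have h1 : Measurable fun a => th (x a) := by fun_prop
    unfold avg; fun_prop
  unfold SS; fun_prop
@[fun_prop] lemma _root_.Measurable.t157c_glueW (β : ℝ) {x Z : Ω → V n} {W : Ω → Mx n}
    (h : Measurable x) (hZ : Measurable Z) (hW : Measurable W) :
    Measurable fun a => glueW β (x a) (Z a) (W a) := by
  unfold glueW; fun_prop

end meas

lemma dd_sq {p : V n} (hp : Cb p) (i : Fin n) : dd p i ^ 2 = DD p i :=
  Real.sq_sqrt (by have := sq_abs (p i); have := abs_nonneg (p i); have := hp i; nlinarith)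

lemma hasJac_th (x : V n) : HasJac th (diagonal (DD (th x))) x :=
  hasJac_coord (f := fun _ => Real.tanh) fun i => hasDerivAt_tanh (x i)

lemma avg_DD (p : V n) : avg (DD p) = (n - p ⬝ᵥ p) / n := by
  simp [avg, DD, Finset.sum_sub_distrib, dotProduct, sq]

/-- `DY = 1 - B₁ D` -/
theorem hasJac_Ymap (J : Mx n) (b : ℝ) (x : V n) :
    HasJac (Ymap J b) (1 - B1 J b (th x) * diagonal (DD (th x))) x := by
  have ht := hasJac_th x
  have hg : HasGrad (fun y : V n => b * ((n - th y ⬝ᵥ th y) / n)) _ x :=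
    (ht.dot ht).comp (g := fun t : ℝ => b * ((n - t) / n)) (g' := b * (-1 / n))
      ((((hasDerivAt_id _).const_sub (n : ℝ)).div_const (n : ℝ)).const_mul b)
  have h := (hasJac_id.sub (ht.mulVec J)).add (hg.smul ht)
  have e : Ymap J b = fun y => y - J *ᵥ th y + (b * ((n - th y ⬝ᵥ th y) / n)) • th y := by
    funext y; rw [Ymap, avg_DD]
  rw [e]
  refine h.congr ?_
  have hd : (fun i => dd (th x) i ^ 2) = DD (th x) := funext (dd_sq (abs_th_le x))
  rw [B1, B0, hd, avg_DD]
  ext i j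
  simp only [Matrix.add_apply, Matrix.sub_apply, Matrix.mul_diagonal, Matrix.smul_apply,
    vecMulVec_apply, Pi.smul_apply, Pi.add_apply, Matrix.diagonal_transpose,
    Matrix.mulVec_diagonal, smul_eq_mul, Matrix.one_apply, Matrix.diagonal_apply]
  split_ifs with hij
  · subst hij; ring
  · ring

lemma det_jac (B : Mx n) {p : V n} (hp : Cb p) :
    (1 - B * diagonal (DD p)).det = (NN B (dd p)).det := by
  have : diagonal (DD p) = diagonal (dd p) * diagonal (dd p) := by
    rw [Matrix.diagonal_mul_diagonal]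
    congr 1
    funext i
    rw [← dd_sq hp, sq]
  rw [this, ← Matrix.mul_assoc, Matrix.det_one_sub_mul_comm, NN, Matrix.mul_assoc]

lemma dot_th (x : V n) (hn : 0 < n) : th x ⬝ᵥ th x = n * aS x := by
  have : (n : ℝ) ≠ 0 := by positivity
  simp only [aS, avg, dotProduct, sq]
  field_simp

lemma avg_DD_th (x : V n) (hn : 0 < n) : avg (DD (th x)) = 1 - aS x := by
  have : (n : ℝ) ≠ 0 := by positivity
  rw [avg_DD, dot_th x hn]
  field_simp

lemma aS_nonneg (x : V n) : 0 ≤ aS x :=
  div_nonneg (Finset.sum_nonneg fun _ _ => sq_nonneg _) (Nat.cast_nonneg _)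

lemma aS_le_one (x : V n) : aS x ≤ 1 := by
  refine div_le_one_of_le₀ ?_ (Nat.cast_nonneg _)
  calc ∑ i, th x i ^ 2 ≤ ∑ _i : Fin n, (1 : ℝ) :=
        Finset.sum_le_sum fun i _ => (sq_le_one_iff_abs_le_one _).2 (abs_th_le x i)
    _ = n := by simp

lemma abs_bS_le (x : V n) : |bS x| ≤ 1 := by
  rw [bS, avg, abs_div, Nat.abs_cast]
  refine div_le_one_of_le₀ ((Finset.abs_sum_le_sum_abs _ _).trans ?_) (Nat.cast_nonneg _)
  calc ∑ i, |th x i| ≤ ∑ _i : Fin n, (1 : ℝ) := Finset.sum_le_sum fun i _ => abs_th_le x i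
    _ = n := by simp

lemma nrm_one : nrm (1 : V n) = Real.sqrt n := by simp [nrm, dotProduct]

lemma len_th (x : V n) (hn : 0 < n) : len (th x) = Real.sqrt n * Real.sqrt (aS x) := by
  rw [len, dot_th x hn, Real.sqrt_mul (Nat.cast_nonneg _)]

section pos
variable {x : V n} (hn : 0 < n) (ha : 0 < aS x) (β : ℝ)
include hn ha

lemma th_ne : th x ≠ 0 := by
  intro h
  have := dot_th x hn
  rw [h, dotProduct_zero] at this
  have : (0 : ℝ) < n * aS x := by positivity
  linarith

lemma shift_eq : (β * (1 - aS x) * Real.sqrt n) • unitv (th x) =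
    (β * (1 - aS x) / Real.sqrt (aS x)) • th x := by
  have h1 : 0 < Real.sqrt n := by positivity
  have h2 : 0 < Real.sqrt (aS x) := by positivity
  rw [unitv, len_th x hn, smul_smul]
  congr 1
  field_simp

lemma glueW_mulVec (Z : V n) (W' : Mx n) :
    glueW β x Z W' *ᵥ th x = Real.sqrt (aS x) • Z + (β * (1 - aS x)) • th x := by
  have h1 : 0 < Real.sqrt n := by positivity
  have h2 : 0 < Real.sqrt (aS x) := by positivity
  have h3 := rk2_mulVec_v (IsProj.one (ι := Fin n)) (th x)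
    (w := (1 / Real.sqrt n) • (Z + (β * (1 - aS x) / Real.sqrt (aS x)) • th x))
    (Matrix.one_mulVec _)
  rw [dirv_one, Matrix.one_mulVec] at h3
  rw [glueW, Matrix.add_mulVec, ← Matrix.mulVec_mulVec, nextR_v IsProj.one, Matrix.mulVec_zero,
    add_zero, h3, len_th x hn, smul_smul, smul_add, smul_smul]
  congr 2 <;> field_simp

lemma tilt_eq (Z : V n) :
    unitv (th x) ⬝ᵥ Z - β * (1 - aS x) * Real.sqrt n = Real.sqrt n * SS β x Z := by
  have h1 : 0 < Real.sqrt n := by positivity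
  have h2 : 0 < Real.sqrt (aS x) := by positivity
  have h3 : (n : ℝ) = Real.sqrt n * Real.sqrt n := (Real.mul_self_sqrt (Nat.cast_nonneg _)).symm
  have h4 : (∑ i, Z i * th x i) = th x ⬝ᵥ Z := by rw [dotProduct_comm]; rfl
  rw [unitv, len_th x hn, smul_dotProduct, smul_eq_mul, SS, avg, h4]
  set r := Real.sqrt n
  rw [h3]
  field_simp

lemma SW_glueW (Z : V n) (W' : Mx n) : SW β (glueW β x Z W') x = SS β x Z := by
  have h0 : (0 : ℝ) < n := by positivity
  have h2 : 0 < Real.sqrt (aS x) := by positivity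
  have h3 : aS x = Real.sqrt (aS x) * Real.sqrt (aS x) := (Real.mul_self_sqrt ha.le).symm
  have h4 : (∑ i, Z i * th x i) = th x ⬝ᵥ Z := by rw [dotProduct_comm]; rfl
  rw [SW, glueW_mulVec hn ha, dotProduct_add, dotProduct_smul, dotProduct_smul, dot_th x hn, SS,
    avg, h4, smul_eq_mul, smul_eq_mul]
  set r := Real.sqrt (aS x)
  rw [h3]
  field_simp
  ring

omit ha in
lemma plW_mulVec (W : Mx n) : plW β W 1 *ᵥ th x = W *ᵥ th x + (β * bS x) • (1 : V n) := by
  have h0 : (0 : ℝ) < n := by positivity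
  rw [plW, Matrix.add_mulVec, Matrix.smul_mulVec, vmv_mulVec, smul_smul]
  congr 2
  simp only [bS, avg, dotProduct, Pi.one_apply, one_mul]
  field_simp

lemma Ymap_glueW (s : ℝ) (Z : V n) (W' : Mx n) :
    Ymap (β • plW β (glueW β x Z W') 1) (β ^ 2) x - s • (1 : V n) =
      x - ((s + β ^ 2 * bS x) • (1 : V n) + (β * Real.sqrt (aS x)) • Z) := by
  rw [Ymap, Matrix.smul_mulVec, plW_mulVec hn, glueW_mulVec hn ha, avg_DD_th x hn]
  module

end pos

/-- comparison of Gaussian densities at nearby points -/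
lemma phi_le_shift {s : ℝ} (hs : 0 < s) {u d : V n} {A E : ℝ} (hu : nrm u ≤ A) (hd : nrm d ≤ E) :
    phi s u ≤ phi s (u + d) * Real.exp ((2 * A * E + E ^ 2) / (2 * s)) := by
  have h1 : nrm (u + d) ≤ nrm u + E := (nrm_add_le u d).trans (by linarith)
  have h2 := nrm_nonneg (u + d)
  have h3 := nrm_nonneg u
  have h4 := (nrm_nonneg d).trans hd
  have h5 : nrm (u + d) ^ 2 ≤ nrm u ^ 2 + (2 * A * E + E ^ 2) := by nlinarith
  rw [nrm_sq, nrm_sq] at h5
  rw [phi, phi, mul_assoc _ (Real.exp _) (Real.exp _), ← Real.exp_add]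
  refine mul_le_mul_of_nonneg_left (Real.exp_le_exp.2 ?_) (by positivity)
  rw [← add_div]
  exact div_le_div_of_nonneg_right (by linarith) (by positivity)

/-- the Kac–Rice bad set -/
def Bs (β s ε a0 b0 S0 : ℝ) (B : Set (Mx n × V n)) : Set (Mx n × V n) :=
  {q | nrm (plW β q.1 1 *ᵥ th q.2) ≤ 3 * nrm (th q.2) ∧
    |(NN (B1 (β • plW β q.1 1) (β ^ 2) (th q.2)) (dd (th q.2))).det| ≤
      Real.exp (n * (β ^ 2 * (1 - aS q.2) ^ 2 / 2 + ε)) ∧
    nrm (Ymap (β • plW β q.1 1) (β ^ 2) q.2 - s • (1 : V n)) ≤ 2 * Real.sqrt s * Real.sqrt n ∧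
    |aS q.2 - a0| ≤ ε ∧ |bS q.2 - b0| ≤ ε ∧ |SW β q.1 q.2 - S0| ≤ ε ∧ q ∈ B}

/-- the cell in the variables `((x, Z), W')` -/
def Hs (β ε a0 b0 S0 : ℝ) (B : Set (Mx n × V n)) : Set ((V n × V n) × Mx n) :=
  {r | |aS r.1.1 - a0| ≤ ε ∧ |bS r.1.1 - b0| ≤ ε ∧ |SS β r.1.1 r.1.2 - S0| ≤ ε ∧
    (glueW β r.1.1 r.1.2 r.2, r.1.1) ∈ B}

lemma measurableSet_Bs (β s ε a0 b0 S0 : ℝ) {B : Set (Mx n × V n)} (hB : MeasurableSet B) :
    MeasurableSet (Bs β s ε a0 b0 S0 B) := by
  simp only [Bs, Set.ofPred_and]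
  refine MeasurableSet.inter (isClosed_le ?_ ?_).measurableSet
    (MeasurableSet.inter (isClosed_le ?_ ?_).measurableSet
    (MeasurableSet.inter (isClosed_le ?_ ?_).measurableSet
    (MeasurableSet.inter (measurableSet_le ?_ ?_)
    (MeasurableSet.inter (measurableSet_le ?_ ?_)
    (MeasurableSet.inter (measurableSet_le ?_ ?_) hB))))) <;> fun_prop

lemma measurableSet_Hs (β ε a0 b0 S0 : ℝ) {B : Set (Mx n × V n)} (hB : MeasurableSet B) :
    MeasurableSet (Hs β ε a0 b0 S0 B) := by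
  have h : Measurable fun r : (V n × V n) × Mx n => (glueW β r.1.1 r.1.2 r.2, r.1.1) := by fun_prop
  simp only [Hs, Set.ofPred_and]
  refine MeasurableSet.inter (measurableSet_le ?_ ?_)
    (MeasurableSet.inter (measurableSet_le ?_ ?_)
    (MeasurableSet.inter (measurableSet_le ?_ ?_) (h hB))) <;> fun_prop

/-- the constant of `CellStmt` -/
def cC (s am : ℝ) : ℝ := 7 + (4 * Real.sqrt s * (1 + 10 / am) + (1 + 10 / am) ^ 2) / (2 * s)

lemma point_le {β s am ε a0 b0 S0 : ℝ} {B : Set (Mx n × V n)} (hn : 0 < n) (hβ : β ∈ Icc (0 : ℝ) 1)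
    (hs : 0 < s) (hε : 0 < ε) (hε' : ε ≤ am / 2) (ha0 : a0 ∈ Icc am 1) (hS0 : |S0| ≤ 10)
    {x Z : V n} {W' : Mx n} (h : (glueW β x Z W', x) ∈ Bs β s ε a0 b0 S0 B) :
    ((x, Z), W') ∈ Hs β ε a0 b0 S0 B ∧
    (Real.sqrt 2)⁻¹ * Real.exp ((unitv (th x) ⬝ᵥ Z - β * (1 - aS x) * Real.sqrt n) ^ 2 / 4 -
        (β * (1 - aS x) * Real.sqrt n) ^ 2 / 2) *
      (|(NN (B1 (β • plW β (glueW β x Z W') 1) (β ^ 2) (th x)) (dd (th x))).det| *
        phi s (Ymap (β • plW β (glueW β x Z W') 1) (β ^ 2) x - s • (1 : V n))) ≤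
    Real.exp (n * (S0 ^ 2 / 4 + cC s am * ε)) *
      phi s (x - ((s + β ^ 2 * b0) • (1 : V n) + (β * Real.sqrt a0) • Z)) := by
  obtain ⟨h1, h2, h3, h4, h5, h6, h7⟩ := h
  simp only at h1 h2 h3 h4 h5 h6 h7
  obtain ⟨hβ0, hβ1⟩ := hβ
  have ham : 0 < am := by linarith
  have haa : am / 2 ≤ aS x := by have := (abs_le.1 h4).1; linarith [ha0.1]
  have ha : 0 < aS x := by linarith
  have ha1 := aS_le_one x
  have hN : (0 : ℝ) < n := by positivity
  have hr : 0 < Real.sqrt n := by positivity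
  have hrr : Real.sqrt n ^ 2 = n := Real.sq_sqrt hN.le
  rw [SW_glueW hn ha] at h6
  refine ⟨⟨h4, h5, h6, h7⟩, ?_⟩
  rw [Ymap_glueW hn ha] at h3 ⊢
  rw [tilt_eq hn ha]
  set a := aS x with hadef
  set r := Real.sqrt n
  have hp : nrm (th x) ≤ r := by
    have : nrm (th x) = r * Real.sqrt a := len_th x hn
    rw [this]
    exact mul_le_of_le_one_right hr.le (Real.sqrt_le_one.2 ha1)
  have hsa : 0 < Real.sqrt a := Real.sqrt_pos.2 ha
  have hZ : Real.sqrt a * nrm Z ≤ 5 * r := by
    have e1 : Real.sqrt a • Z = plW β (glueW β x Z W') 1 *ᵥ th x -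
        ((β * bS x) • (1 : V n) + (β * (1 - a)) • th x) := by
      rw [plW_mulVec hn, glueW_mulVec hn ha]; module
    have e2 := nrm_smul (Real.sqrt a) Z
    rw [abs_of_pos hsa, e1] at e2
    have e3 := nrm_sub_le (plW β (glueW β x Z W') 1 *ᵥ th x)
      ((β * bS x) • (1 : V n) + (β * (1 - a)) • th x)
    have e4 := nrm_add_le ((β * bS x) • (1 : V n)) ((β * (1 - a)) • th x)
    rw [nrm_smul, nrm_smul, nrm_one] at e4
    have e5 : |β * bS x| ≤ 1 := by
      rw [abs_mul, abs_of_nonneg hβ0]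
      exact mul_le_one₀ hβ1 (abs_nonneg _) (abs_bS_le x)
    have e6 : |β * (1 - a)| ≤ 1 := by
      rw [abs_of_nonneg (mul_nonneg hβ0 (by linarith))]
      exact mul_le_one₀ hβ1 (by linarith) (by linarith)
    have e7 := mul_le_of_le_one_left hr.le e5
    have e8 := mul_le_of_le_one_left (nrm_nonneg (th x)) e6
    linarith
  set k := 1 + 10 / am with hk
  have hd : nrm ((β ^ 2 * (bS x - b0)) • (1 : V n) + (β * (Real.sqrt a - Real.sqrt a0)) • Z) ≤
      k * ε * r := by
    refine (nrm_add_le _ _).trans ?_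
    rw [nrm_smul, nrm_smul, nrm_one, abs_mul, abs_mul, abs_of_nonneg hβ0,
      abs_of_nonneg (sq_nonneg β)]
    have e1 : β ^ 2 * |bS x - b0| ≤ ε :=
      (mul_le_of_le_one_left (abs_nonneg _) (pow_le_one₀ hβ0 hβ1)).trans h5
    have e2 : |Real.sqrt a - Real.sqrt a0| * Real.sqrt a ≤ ε := by
      have h0 : 0 ≤ a0 := ham.le.trans ha0.1
      have : a - a0 = (Real.sqrt a - Real.sqrt a0) * (Real.sqrt a + Real.sqrt a0) := by
        have := Real.mul_self_sqrt ha.le
        have := Real.mul_self_sqrt h0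
        nlinarith
      rw [this, abs_mul, abs_of_pos (by positivity : 0 < Real.sqrt a + Real.sqrt a0)] at h4
      refine le_trans (mul_le_mul_of_nonneg_left ?_ (abs_nonneg _)) h4
      linarith [Real.sqrt_nonneg a0]
    have e3 : |Real.sqrt a - Real.sqrt a0| * nrm Z ≤ 10 / am * ε * r := by
      have e4 : a * (|Real.sqrt a - Real.sqrt a0| * nrm Z) ≤ ε * (5 * r) := by
        calc _ = (|Real.sqrt a - Real.sqrt a0| * Real.sqrt a) * (Real.sqrt a * nrm Z) := by
              have := Real.mul_self_sqrt ha.le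
              linear_combination (-(|Real.sqrt a - Real.sqrt a0| * nrm Z)) * this
          _ ≤ _ := mul_le_mul e2 hZ (mul_nonneg hsa.le (nrm_nonneg _)) hε.le
      have e5 : 0 ≤ |Real.sqrt a - Real.sqrt a0| * nrm Z :=
        mul_nonneg (abs_nonneg _) (nrm_nonneg _)
      rw [div_mul_eq_mul_div, div_mul_eq_mul_div, le_div_iff₀ ham]
      nlinarith
    have e6 : β * |Real.sqrt a - Real.sqrt a0| * nrm Z ≤ 10 / am * ε * r := by
      rw [mul_assoc]
      exact (mul_le_of_le_one_left (mul_nonneg (abs_nonneg _) (nrm_nonneg _)) hβ1).trans e3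
    have e7 := mul_le_mul_of_nonneg_right e1 hr.le
    rw [hk]
    linarith
  have hphi := phi_le_shift hs h3 hd
  have e0 : x - ((s + β ^ 2 * bS x) • (1 : V n) + (β * Real.sqrt a) • Z) +
      ((β ^ 2 * (bS x - b0)) • (1 : V n) + (β * (Real.sqrt a - Real.sqrt a0)) • Z) =
      x - ((s + β ^ 2 * b0) • (1 : V n) + (β * Real.sqrt a0) • Z) := by module
  rw [e0] at hphi
  have hk0 : 0 < k := by positivity
  have hε1 : ε ≤ 1 := by linarith [ha0.1, ha0.2]
  have hSS : SS β x Z ^ 2 / 4 ≤ S0 ^ 2 / 4 + 6 * ε := by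
    have e1 := abs_le.1 h6
    have e2 := abs_le.1 hS0
    nlinarith
  have hE : (2 * (2 * Real.sqrt s * r) * (k * ε * r) + (k * ε * r) ^ 2) / (2 * s) ≤
      n * ((4 * Real.sqrt s * k + k ^ 2) / (2 * s) * ε) := by
    rw [← hrr, div_mul_eq_mul_div, ← mul_div_assoc]
    refine div_le_div_of_nonneg_right ?_ (by positivity)
    have : (k * r) ^ 2 * (ε * ε) ≤ (k * r) ^ 2 * ε :=
      mul_le_mul_of_nonneg_left (mul_le_of_le_one_left hε.le hε1) (sq_nonneg _)
    nlinarith
  have h2' : (Real.sqrt 2)⁻¹ ≤ 1 := inv_le_one_of_one_le₀ (Real.one_le_sqrt.2 (by norm_num))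
  have hφ := phi_nonneg s (x - ((s + β ^ 2 * b0) • (1 : V n) + (β * Real.sqrt a0) • Z))
  calc _ ≤ 1 * Real.exp ((r * SS β x Z) ^ 2 / 4 - (β * (1 - a) * r) ^ 2 / 2) *
        (Real.exp (n * (β ^ 2 * (1 - a) ^ 2 / 2 + ε)) *
          (phi s (x - ((s + β ^ 2 * b0) • (1 : V n) + (β * Real.sqrt a0) • Z)) *
            Real.exp (n * ((4 * Real.sqrt s * k + k ^ 2) / (2 * s) * ε)))) := by
        refine mul_le_mul (mul_le_mul_of_nonneg_right h2' (Real.exp_pos _).le)
          (mul_le_mul h2 (hphi.trans (mul_le_mul_of_nonneg_left (Real.exp_le_exp.2 hE) hφ))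
            (phi_nonneg _ _) (Real.exp_pos _).le)
          (mul_nonneg (abs_nonneg _) (phi_nonneg _ _)) (by positivity)
    _ = Real.exp ((r * SS β x Z) ^ 2 / 4 - (β * (1 - a) * r) ^ 2 / 2 +
          n * (β ^ 2 * (1 - a) ^ 2 / 2 + ε) + n * ((4 * Real.sqrt s * k + k ^ 2) / (2 * s) * ε)) *
          phi s (x - ((s + β ^ 2 * b0) • (1 : V n) + (β * Real.sqrt a0) • Z)) := by
        rw [Real.exp_add, Real.exp_add]; ring
    _ ≤ _ := by
        refine mul_le_mul_of_nonneg_right (Real.exp_le_exp.2 ?_) hφ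
        rw [cC, ← hk, mul_pow, mul_pow, hrr]
        have := mul_le_mul_of_nonneg_left hSS hN.le
        nlinarith

end Crest.Agent.T157.Tap.Cell

namespace Crest.Agent.T157.Tap

open MeasureTheory ProbabilityTheory Matrix Filter Set
open Crest.Agent.T157.E Crest.Agent.T157.Eig Crest.Agent.T157.Cond Crest.Agent.T157.Kr
open scoped ENNReal
open Cell

/-- **Kac–Rice bound of one cell** -/
theorem cellStmt : CellStmt := by
  intro β hβ s hs am ham
  refine ⟨cC s am, fun n ε c' a0 b0 S0 B hn hε hε' ha0 hS0 hB => ?_⟩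
  have hBs := measurableSet_Bs β s ε a0 b0 S0 hB
  have hHs := measurableSet_Hs β ε a0 b0 S0 hB
  have hKR := kacRice_borel (GOE n) (Y := fun W x => Ymap (β • plW β W 1) (β ^ 2) x)
    (D := fun W x => 1 - B1 (β • plW β W 1) (β ^ 2) (th x) * diagonal (DD (th x)))
    (c := fun _ => s • (1 : V n)) hBs (by fun_prop) (by fun_prop) continuous_const
    (fun W x => hasJac_Ymap _ _ x) hs
  simp only [det_jac _ (abs_th_le _)] at hKR
  refine (measure_mono ?_).trans (hKR.trans ?_)
  · rintro z ⟨h1, h2, h3, x, h4, h5, h6, h7, h8, h9⟩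
    refine ⟨x, ⟨?_, ?_, ?_, h6, h7, h8, h9⟩, h4⟩
    · exact (nrm_mulVec_le _ _).trans (mul_le_mul_of_nonneg_right h1 (nrm_nonneg _))
    · have := h2 (th x) (abs_th_le x) h5
      rwa [avg_DD_th x hn] at this
    · simp only
      rw [h4, add_sub_cancel_left, nrm_smul, abs_of_nonneg (Real.sqrt_nonneg _), mul_comm 2,
        mul_assoc]
      exact mul_le_mul_of_nonneg_left h3 (Real.sqrt_nonneg _)
  set K := ENNReal.ofReal (Real.exp (n * (S0 ^ 2 / 4 + cC s am * ε))) with hK
  set c : V n → V n := fun Z => (s + β ^ 2 * b0) • (1 : V n) + (β * Real.sqrt a0) • Z with hc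
  set H : V n × V n → ℝ≥0∞ := fun y => ∫⁻ W', (Hs β ε a0 b0 S0 B).indicator 1 (y, W') ∂(GOE n)
    with hH
  have hHm : Measurable H := (measurable_one.indicator hHs).lintegral_prod_right'
  have hcm : Measurable c := by rw [hc]; fun_prop
  have hxv : ∀ g Z : V n, xv β s a0 b0 g Z = c Z + Real.sqrt s • g := by
    intro g Z; funext i; simp [xv, hc]; ring
  have hT : (((gv (Fin n)).prod (gv (Fin n))).prod (GOE n))
      {z | |aS (xv β s a0 b0 z.1.1 z.1.2) - a0| ≤ ε ∧ |bS (xv β s a0 b0 z.1.1 z.1.2) - b0| ≤ ε ∧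
        |SS β (xv β s a0 b0 z.1.1 z.1.2) z.1.2 - S0| ≤ ε ∧
        (glueW β (xv β s a0 b0 z.1.1 z.1.2) z.1.2 z.2, xv β s a0 b0 z.1.1 z.1.2) ∈ B} =
      ∫⁻ x, ∫⁻ Z, ENNReal.ofReal (phi s (x - c Z)) * H (x, Z) ∂(gv (Fin n)) := by
    have hm : Measurable fun z : (V n × V n) × Mx n =>
        ((xv β s a0 b0 z.1.1 z.1.2, z.1.2), z.2) := by fun_prop
    have e1 := lintegral_indicator_one (μ := ((gv (Fin n)).prod (gv (Fin n))).prod (GOE n)) (hm hHs)
    refine (e1.symm.trans ?_)
    rw [lintegral_prod _ (measurable_one.indicator (hm hHs)).aemeasurable]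
    have e2 : ∀ y : V n × V n, ∫⁻ W', ((fun z : (V n × V n) × Mx n =>
        ((xv β s a0 b0 z.1.1 z.1.2, z.1.2), z.2)) ⁻¹' Hs β ε a0 b0 S0 B).indicator 1 (y, W')
          ∂(GOE n) = H (c y.2 + Real.sqrt s • y.1, y.2) := by
      intro y
      rw [← hxv]
      rfl
    simp only [e2]
    rw [lintegral_prod_symm _ (by fun_prop)]
    conv_rhs => rw [lintegral_lintegral_swap (by fun_prop)]
    exact lintegral_congr fun Z =>
      lintegral_gv_scale hs (c Z) (G := fun x => H (x, Z)) (by fun_prop)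
  rw [hT, ← lintegral_const_mul' _ _ ENNReal.ofReal_ne_top]
  refine lintegral_mono fun x => ?_
  by_cases hx : |aS x - a0| ≤ ε
  swap
  · refine le_of_eq_of_le ?_ zero_le
    refine (lintegral_congr fun W => ?_).trans lintegral_zero
    exact Set.indicator_of_notMem (fun h => hx h.2.2.2.1) _
  have ha : 0 < aS x := by have := (abs_le.1 hx).1; linarith [ha0.1]
  have hFm : Measurable fun W : Mx n => (Bs β s ε a0 b0 S0 B).indicator
      (fun p : Mx n × V n => ENNReal.ofReal
        (|(NN (B1 (β • plW β p.1 1) (β ^ 2) (th p.2)) (dd (th p.2))).det| *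
          phi s (Ymap (β • plW β p.1 1) (β ^ 2) p.2 - s • (1 : V n)))) (W, x) := by
    refine (Measurable.indicator ?_ hBs).comp measurable_prodMk_right
    have h1 : Continuous fun p : Mx n × V n =>
      |(NN (B1 (β • plW β p.1 1) (β ^ 2) (th p.2)) (dd (th p.2))).det| := by fun_prop
    have h2 : Continuous fun p : Mx n × V n =>
      Ymap (β • plW β p.1 1) (β ^ 2) p.2 - s • (1 : V n) := by fun_prop
    exact (h1.measurable.mul (measurable_const.t157_phi h2.measurable)).ennreal_ofReal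
  simp only
  rw [goe_tilt (th_ne hn ha) _ (β * (1 - aS x) * Real.sqrt n) hFm,
    ← lintegral_const_mul' _ _ ENNReal.ofReal_ne_top]
  refine lintegral_mono fun Z => ?_
  simp only [hH]
  rw [← lintegral_const_mul' _ _ ENNReal.ofReal_ne_top,
    ← lintegral_const_mul' _ _ ENNReal.ofReal_ne_top,
    ← lintegral_const_mul' _ _ ENNReal.ofReal_ne_top]
  refine lintegral_mono fun W' => ?_
  simp only [shift_eq hn ha]
  change _ * (Bs β s ε a0 b0 S0 B).indicator _ (glueW β x Z W', x) ≤ _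
  by_cases hq : (glueW β x Z W', x) ∈ Bs β s ε a0 b0 S0 B
  · obtain ⟨h1, h2⟩ := point_le hn hβ hs hε hε' ha0 hS0 hq
    rw [Set.indicator_of_mem hq, Set.indicator_of_mem h1, Pi.one_apply, mul_one,
      ← ENNReal.ofReal_mul (by positivity), ← ENNReal.ofReal_mul (Real.exp_pos _).le]
    exact ENNReal.ofReal_le_ofReal h2
  · rw [Set.indicator_of_notMem hq, mul_zero]
    exact zero_le

end Crest.Agent.T157.Tap

end
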