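import Crest.Agent.T157.LpMulti_53
import Crest.Agent.T157.KrN_53
import Crest.Agent.T157.TapCell_53
import Crest.Agent.T157.TapSE_6

/-!
# Row 157, part A (helper53): negative complexity of one child, `Lp.ChildStmt`
-/

set_option autoImplicit false
set_option linter.unusedSectionVars false

noncomputable section

namespace Crest.Agent.T157.Lp.Chi

open MeasureTheory ProbabilityTheory Matrix Filter Set
open Crest.Agent.T157.E Crest.Agent.T157.Eig Crest.Agent.T157.Cond Crest.Agent.T157.Tap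
open Crest.Agent.T157.Kr Crest.Agent.T157.Tap.Cell Crest.Agent.T157.Lp.Multi
open scoped ENNReal

variable {n : ℕ}

/-- site functions of the reference model -/
def ps (β γ : ℝ) (m p0 : V n) (i : Fin n) (z : ℝ) : ℝ :=
  β / Real.sqrt γ * (Real.tanh (m i + Real.sqrt γ * z) - p0 i)
def ps' (β γ : ℝ) (m : V n) (i : Fin n) (z : ℝ) : ℝ :=
  β * (1 - Real.tanh (m i + Real.sqrt γ * z) ^ 2)

lemma slope_ps {β γ : ℝ} (hβ : β ∈ Ioc (0 : ℝ) 1) (hγ : 0 < γ) (m p0 : V n) :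
    Slope (ps β γ m p0) (ps' β γ m) := by
  have hs : Real.sqrt γ ≠ 0 := (Real.sqrt_pos.2 hγ).ne'
  refine ⟨fun i z => ?_, fun i z => mul_nonneg hβ.1.le (sub_nonneg.2 (SE.tanh_sq_le _)),
    fun i z => mul_le_one₀ hβ.2 (sub_nonneg.2 (SE.tanh_sq_le _)) (sub_le_self _ (sq_nonneg _))⟩
  have h1 : HasDerivAt (fun z => m i + Real.sqrt γ * z) (Real.sqrt γ * 1) z :=
    ((hasDerivAt_id z).const_mul _).const_add _
  have h2 := (((hasDerivAt_tanh _).comp z h1).sub_const (p0 i)).const_mul (β / Real.sqrt γ)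
  refine HasDerivAt.congr_deriv h2 ?_
  rw [ps']
  field_simp

lemma int_ps (β γ : ℝ) (m p0 : V n) (i : Fin n) :
    ∫ x, ps β γ m p0 i x ∂(gaussianReal 0 1) = β / Real.sqrt γ * (gE Real.tanh (m i) γ - p0 i) := by
  simp only [ps]
  rw [integral_const_mul, integral_sub (SE.integrable_gE continuous_tanh.measurable SE.abs_tanh_le
    _ _) (integrable_const _)]
  simp [gE]

lemma gE_lip (m v m' v' : ℝ) : |gE Real.tanh m v - gE Real.tanh m' v'| ≤
    |m - m'| + |Real.sqrt v - Real.sqrt v'| := by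
  have h1 : ∫ x : ℝ, x ^ 2 ∂gaussianReal 0 1 = 1 := by
    have := variance_fun_id_gaussianReal (μ := 0) (v := 1)
    rw [variance_eq_integral (by fun_prop)] at this
    simpa using this
  have h2 : Integrable (fun x : ℝ => x ^ 2) (gaussianReal 0 1) :=
    (memLp_id_gaussianReal 2).integrable_sq
  have i1 := SE.integrable_gE continuous_tanh.measurable SE.abs_tanh_le m (Real.sqrt v)
  have i2 := SE.integrable_gE continuous_tanh.measurable SE.abs_tanh_le m' (Real.sqrt v')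
  have i3 : Integrable (fun x : ℝ => |Real.sqrt v - Real.sqrt v'| / 2 * x ^ 2) (gaussianReal 0 1) :=
    h2.const_mul _
  rw [gE, gE, ← integral_sub i1 i2]
  refine abs_integral_le_integral_abs.trans ((integral_mono (i1.sub i2).abs
    ((integrable_const (|m - m'| + |Real.sqrt v - Real.sqrt v'| / 2)).add i3) fun z => ?_).trans_eq
    ?_)
  · refine (SE.abs_tanh_sub_le _ _).trans ?_
    rw [show m + Real.sqrt v * z - (m' + Real.sqrt v' * z) =
      (m - m') + (Real.sqrt v - Real.sqrt v') * z by ring]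
    refine (abs_add_le _ _).trans ?_
    have : |z| ≤ (1 + z ^ 2) / 2 := by nlinarith [sq_nonneg (|z| - 1), sq_abs z]
    have := mul_le_mul_of_nonneg_left this (abs_nonneg (Real.sqrt v - Real.sqrt v'))
    simp only [abs_mul, Pi.add_apply]
    linarith
  · simp only [Pi.add_apply]
    rw [integral_add (integrable_const _) i3, integral_const_mul, h1]
    simp only [integral_const, probReal_univ, smul_eq_mul]
    ring

lemma nrm_le_of_abs {u : V n} {a : ℝ} (ha : 0 ≤ a) (h : ∀ i, |u i| ≤ a) :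
    nrm u ≤ a * Real.sqrt n := by
  rw [nrm_le_iff (by positivity), mul_pow, Real.sq_sqrt (Nat.cast_nonneg _)]
  calc u ⬝ᵥ u ≤ ∑ _i : Fin n, a ^ 2 := Finset.sum_le_sum fun i _ => by
        rw [← sq, ← sq_abs]; exact pow_le_pow_left₀ (abs_nonneg _) (h i) 2
    _ = _ := by simp [mul_comm]

/-- the exact Kac–Rice weight -/
lemma weight_eq {β τ e : ℝ} {v d : V n} (hn : 0 < n) (hτ : 0 < τ) (hv : 0 < v ⬝ᵥ v) :
    n * (β ^ 2 * e ^ 2 / 2) + -((d + (β ^ 2 * e) • v) ⬝ᵥ (d + (β ^ 2 * e) • v)) /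
        (2 * (τ + β ^ 2 * (v ⬝ᵥ v / n))) +
      β ^ 2 * (v ⬝ᵥ v / n) * (unitv v ⬝ᵥ (d + (β ^ 2 * e) • v)) ^ 2 /
        (2 * (τ + β ^ 2 * (v ⬝ᵥ v / n)) * (τ + 2 * (β ^ 2 * (v ⬝ᵥ v / n)))) =
    -(d ⬝ᵥ d) / (2 * (τ + β ^ 2 * (v ⬝ᵥ v / n))) +
      n * (β * (d ⬝ᵥ v) / (n * (τ + β ^ 2 * (v ⬝ᵥ v / n))) - β * e) ^ 2 *
        ((τ + β ^ 2 * (v ⬝ᵥ v / n)) / (2 * (τ + 2 * (β ^ 2 * (v ⬝ᵥ v / n))))) := by
  have hN : (0 : ℝ) < n := by positivity
  have h1 : (unitv v ⬝ᵥ (d + (β ^ 2 * e) • v)) ^ 2 =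
      (d ⬝ᵥ v + β ^ 2 * e * (v ⬝ᵥ v)) ^ 2 / (v ⬝ᵥ v) := by
    rw [unitv, smul_dotProduct, smul_eq_mul, mul_pow, inv_pow, len_sq, dotProduct_add,
      dotProduct_smul, smul_eq_mul, dotProduct_comm v d, inv_mul_eq_div]
  rw [h1]
  simp only [add_dotProduct, dotProduct_add, dotProduct_smul, smul_dotProduct, smul_eq_mul,
    dotProduct_comm v d]
  obtain ⟨ρ, hρ⟩ : ∃ ρ, v ⬝ᵥ v = n * ρ := ⟨v ⬝ᵥ v / n, by field_simp⟩
  have hρ0 : 0 < ρ := by rw [hρ] at hv; exact (mul_pos_iff_of_pos_left hN).1 hv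
  rw [hρ, mul_div_cancel_left₀ _ hN.ne']
  obtain ⟨G, hG⟩ : ∃ G, G = τ + β ^ 2 * ρ := ⟨_, rfl⟩
  obtain ⟨H, hH⟩ : ∃ H, H = τ + 2 * (β ^ 2 * ρ) := ⟨_, rfl⟩
  have h4 : G ≠ 0 := by rw [hG]; positivity
  have h5 : H ≠ 0 := by rw [hH]; positivity
  rw [← hG, ← hH]
  have h6 : H = G + β ^ 2 * ρ := by rw [hG, hH]; ring
  field_simp
  rw [h6]
  ring

/-- comparison of Gaussian densities with nearby variances -/
lemma phi_var_le {γ γ0 τ ε : ℝ} (hτ : 0 < τ) (h1 : τ ≤ γ) (h2 : γ ≤ γ0) (h3 : γ0 ≤ γ + ε)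
    (d : V n) : (Real.sqrt (2 * Real.pi * γ))⁻¹ ^ n * Real.exp (-(d ⬝ᵥ d) / (2 * γ)) ≤
      Real.exp (n * (ε / τ)) * phi γ0 d := by
  have hγ : 0 < γ := by linarith
  have hγ0 : 0 < γ0 := by linarith
  have hε : 0 ≤ ε := by linarith
  rw [phi, Fintype.card_fin, ← mul_assoc, Real.exp_nat_mul, ← mul_pow]
  refine mul_le_mul (pow_le_pow_left₀ (by positivity) ?_ n) (Real.exp_le_exp.2 ?_)
    (Real.exp_pos _).le (by positivity)
  · rw [← div_eq_mul_inv, le_div_iff₀ (by positivity), inv_mul_eq_div, div_le_iff₀ (by positivity)]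
    refine Real.sqrt_le_iff.2 ⟨by positivity, ?_⟩
    rw [mul_pow, Real.sq_sqrt (by positivity)]
    have a : 1 + ε / τ ≤ Real.exp (ε / τ) := by linarith [Real.add_one_le_exp (ε / τ)]
    have b : ε ≤ ε / τ * γ := by rw [div_mul_eq_mul_div, le_div_iff₀ hτ]; nlinarith
    have c : 0 ≤ ε / τ := by positivity
    have d1 : Real.exp (ε / τ) ≤ Real.exp (ε / τ) ^ 2 := by nlinarith
    have d : γ0 ≤ Real.exp (ε / τ) ^ 2 * γ := by
      nlinarith [mul_le_mul_of_nonneg_right (a.trans d1) hγ.le]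
    nlinarith [Real.pi_pos]
  · rw [neg_div, neg_div, neg_le_neg_iff]
    exact div_le_div_of_nonneg_left (Cond.dot_self_nonneg d) (by positivity) (by linarith)

/-- the constant in front of the mesh of the cells -/
def cE (A k : ℝ) : ℝ :=
  (Real.sqrt (5 * |A|) + 4) + (1 + 200 / k) * (2 * (Real.sqrt (5 * |A|) + 2) + 2) ^ 2

section point
variable {β τ A k1 k u e0 γ0 : ℝ} {c p0 x : V n} (hn : 0 < n) (hβ : β ∈ Ioc (0 : ℝ) 1)
  (hτ : τ ∈ Ioc (0 : ℝ) 1) (hk : 0 < k) (hk1 : k ≤ 1) (hkk : k ≤ k1) (hu0 : 0 < u) (hu : u ≤ k / 90)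
  (hp0 : Cb p0) (h : Child (β ^ 2) τ A k1 (200 / (k * β ^ 2)) (k / 20) c p0 x)
  (he : |avg (DD (th x)) - e0| ≤ u * τ ^ 2) (hγ1 : gam (β ^ 2) τ p0 x ≤ γ0)
  (hγ2 : γ0 ≤ gam (β ^ 2) τ p0 x + u * τ ^ 2)

omit hn in
include hp0 in
lemma nrm_v : nrm (th x - p0) ≤ 2 * Real.sqrt n := nrm_le_of_abs two_pos.le fun i =>
  (abs_sub _ _).trans (by linarith [abs_th_le x i, hp0 i])

include hn hβ hk h in
lemma tau_le : τ ≤ k / 200 * (β ^ 2 * ((th x - p0) ⬝ᵥ (th x - p0) / n)) := by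
  have hN : (0 : ℝ) < n := by positivity
  have hb := hβ.1
  have h1 := mul_le_mul_of_nonneg_left h.2.1 (by positivity : 0 ≤ k / 200 * β ^ 2 / n)
  calc τ = k / 200 * β ^ 2 / n * (200 / (k * β ^ 2) * τ * n) := by field_simp
    _ ≤ _ := h1
    _ = _ := by ring

include hn hβ hp0 in
lemma y_le : β ^ 2 * ((th x - p0) ⬝ᵥ (th x - p0) / n) ≤ 4 := by
  have hN : (0 : ℝ) < n := by positivity
  have h1 := (nrm_le_iff (by positivity)).1 (nrm_v (x := x) hp0)
  rw [mul_pow, Real.sq_sqrt hN.le] at h1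
  exact (mul_le_of_le_one_left (div_nonneg (Cond.dot_self_nonneg _) hN.le)
    (pow_le_one₀ hβ.1.le hβ.2)).trans ((div_le_iff₀ hN).2 (by linarith))

lemma back {γ0 : ℝ} (hγ : 0 < γ0) (m x : V n) (i : Fin n) :
    m i + Real.sqrt γ0 * ((Real.sqrt γ0)⁻¹ • (x - m)) i = x i := by
  have hs : Real.sqrt γ0 ≠ 0 := (Real.sqrt_pos.2 hγ).ne'
  simp only [Pi.smul_apply, Pi.sub_apply, smul_eq_mul]
  field_simp
  ring

include hn hβ hτ hk hk1 hkk hu0 hu hp0 h he hγ1 hγ2

lemma point_mem : (Real.sqrt γ0)⁻¹ • (x - (c - (β ^ 2 * e0) • p0)) ∈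
    Adm (ps β γ0 (c - (β ^ 2 * e0) • p0) p0) (ps' β γ0 (c - (β ^ 2 * e0) • p0)) k ∩
      Far (ps β γ0 (c - (β ^ 2 * e0) • p0) p0) k := by
  have hN : (0 : ℝ) < n := by positivity
  have hy := tau_le hn hβ hk h
  have hv := nrm_v (x := x) hp0
  obtain ⟨h1, -, -, h4⟩ := h
  obtain ⟨hτ0, hτ1⟩ := hτ
  have hb1 : β ^ 2 ≤ 1 := pow_le_one₀ hβ.1.le hβ.2
  rw [gam] at hγ1 hγ2 h4
  have hyv : β ^ 2 * ((th x - p0) ⬝ᵥ (th x - p0)) =
    n * (β ^ 2 * ((th x - p0) ⬝ᵥ (th x - p0) / n)) := by field_simp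
  generalize β ^ 2 * ((th x - p0) ⬝ᵥ (th x - p0) / n) = y at *
  have hy0 : 0 < y := by nlinarith
  have hγ : 0 < γ0 := by linarith
  have hsq : (β / Real.sqrt γ0) ^ 2 = β ^ 2 / γ0 := by rw [div_pow, Real.sq_sqrt hγ.le]
  refine ⟨⟨?_, ?_⟩, ?_⟩
  · simp only [ps', back hγ, Fintype.card_fin, ← Finset.mul_sum]
    have e1 : ∑ i, (1 - Real.tanh (x i) ^ 2) = n * avg (DD (th x)) := by
      rw [avg, mul_div_cancel₀ _ hN.ne']; rfl
    have e2 : 0 ≤ avg (DD (th x)) := by rw [avg_DD_th x hn]; linarith [aS_le_one x]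
    rw [e1]
    refine (mul_le_of_le_one_left (by positivity) hβ.2).trans ?_
    exact mul_le_mul_of_nonneg_left (by linarith) hN.le
  · simp only [ps, back hγ, Fintype.card_fin, mul_pow, ← Finset.mul_sum, hsq]
    have e1 : ∑ i, (Real.tanh (x i) - p0 i) ^ 2 = (th x - p0) ⬝ᵥ (th x - p0) := by
      simp only [dotProduct, sq]; rfl
    rw [e1, div_mul_eq_mul_div, hyv, div_le_iff₀ hγ]
    exact mul_le_mul_of_nonneg_left (by linarith) hN.le
  · set r0 := rv (β ^ 2) e0 γ0 c p0 with hr0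
    set r := rv (β ^ 2) (avg (DD (th x))) (τ + y) c p0 with hr
    have e1 : ∑ i, (ps β γ0 (c - (β ^ 2 * e0) • p0) p0 i
        (((Real.sqrt γ0)⁻¹ • (x - (c - (β ^ 2 * e0) • p0))) i) -
        ∫ x, ps β γ0 (c - (β ^ 2 * e0) • p0) p0 i x ∂(gaussianReal 0 1)) ^ 2 =
        β ^ 2 / γ0 * ((th x - p0 - r0) ⬝ᵥ (th x - p0 - r0)) := by
      simp only [int_ps]
      simp only [ps, back hγ, ← mul_sub, mul_pow, hsq, ← Finset.mul_sum]
      congr 1
      exact Finset.sum_congr rfl fun i _ => sq _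
    have e2 : nrm (r0 - r) ≤ 2 * (u * τ) * Real.sqrt n := by
      refine nrm_le_of_abs (by positivity) fun i => ?_
      simp only [hr0, hr, rv, Pi.sub_apply, sub_sub_sub_cancel_right]
      refine (gE_lip _ _ _ _).trans ?_
      have a1 : |c i - β ^ 2 * e0 * p0 i - (c i - β ^ 2 * avg (DD (th x)) * p0 i)| ≤ u * τ := by
        rw [show c i - β ^ 2 * e0 * p0 i - (c i - β ^ 2 * avg (DD (th x)) * p0 i) =
          β ^ 2 * p0 i * (avg (DD (th x)) - e0) by ring, abs_mul, abs_mul, abs_of_nonneg (sq_nonneg β)]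
        refine (mul_le_of_le_one_left (abs_nonneg _)
          (mul_le_one₀ hb1 (abs_nonneg _) (hp0 i))).trans (he.trans ?_)
        exact mul_le_mul_of_nonneg_left (by nlinarith) hu0.le
      have a2 : |Real.sqrt γ0 - Real.sqrt (τ + y)| ≤ u * τ := by
        have b1 : Real.sqrt (τ + y) ≤ Real.sqrt γ0 := Real.sqrt_le_sqrt hγ1
        have b2 : τ ≤ Real.sqrt (τ + y) := Real.le_sqrt_of_sq_le (by nlinarith)
        rw [abs_of_nonneg (by linarith), sub_le_iff_le_add]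
        refine Real.sqrt_le_iff.2 ⟨by positivity, ?_⟩
        have b3 := Real.sq_sqrt (by positivity : 0 ≤ τ + y)
        have b4 := mul_le_mul_of_nonneg_left b2 (by positivity : 0 ≤ u * τ)
        nlinarith [sq_nonneg (u * τ)]
      linarith
    have e3 : (th x - p0) ⬝ᵥ r0 ≤ k / 20 * (τ + y) * n + 4 * (u * τ) * n := by
      have a1 := abs_dot_le' (th x - p0) (r0 - r)
      have a2 := mul_le_mul hv e2 (nrm_nonneg _) (by positivity)
      have a3 := Real.mul_self_sqrt hN.le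
      have a4 := le_abs_self ((th x - p0) ⬝ᵥ (r0 - r))
      have a5 := le_abs_self ((th x - p0) ⬝ᵥ r)
      rw [dotProduct_sub] at a4
      have a6 : 2 * Real.sqrt n * (2 * (u * τ) * Real.sqrt n) = 4 * (u * τ) * n := by
        linear_combination 4 * (u * τ) * a3
      rw [dotProduct_sub] at a1
      linarith
    simp only [Far, Set.mem_ofPred_eq, Fintype.card_fin]
    rw [e1, div_mul_eq_mul_div, le_div_iff₀ hγ]
    have e4 : (th x - p0 - r0) ⬝ᵥ (th x - p0 - r0) =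
        (th x - p0) ⬝ᵥ (th x - p0) - 2 * ((th x - p0) ⬝ᵥ r0) + r0 ⬝ᵥ r0 := by
      rw [sub_dotProduct (th x - p0), dotProduct_sub (th x - p0) (th x - p0),
        dotProduct_sub r0 (th x - p0), dotProduct_comm r0 (th x - p0)]
      ring
    have e5 : β ^ 2 * ((th x - p0) ⬝ᵥ r0) ≤ k / 20 * (τ + y) * n + 4 * (u * τ) * n :=
      (mul_le_mul_of_nonneg_left e3 (sq_nonneg β)).trans
        (mul_le_of_le_one_left (by positivity) hb1)
    have e6 := mul_nonneg (sq_nonneg β) (Cond.dot_self_nonneg r0)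
    have e7 : (1 - k / 4) * γ0 ≤ y - k / 10 * (τ + y) - 8 * (u * τ) := by
      have a1 : u * τ ^ 2 ≤ u * τ := mul_le_mul_of_nonneg_left (by nlinarith) hu0.le
      have a2 : u * τ ≤ k / 90 * τ := mul_le_mul_of_nonneg_right hu hτ0.le
      have a3 : (1 - k / 4) * γ0 ≤ (1 - k / 4) * (τ + y + u * τ) :=
        mul_le_mul_of_nonneg_left (by linarith) (by linarith)
      have a4 : 0 ≤ k * (u * τ) := by positivity
      have a5 : 0 ≤ k * τ := by positivity
      have a6 : 0 ≤ k * y := by positivity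
      nlinarith
    have e8 := mul_le_mul_of_nonneg_left e7 hN.le
    rw [e4]
    nlinarith

lemma point_le : jac (β ^ 2) x *
    phiS τ (β * (1 / Real.sqrt n) * len (th x - p0)) (unitv (th x - p0)) (Xc (β ^ 2) c x) ≤
    Real.exp (n * (cE A k * u)) * (phi γ0 (x - (c - (β ^ 2 * e0) • p0)) *
      Real.exp ((1 + k / 24) / 4 * Fintype.card (Fin n) *
        Sd (ps β γ0 (c - (β ^ 2 * e0) • p0) p0) (ps' β γ0 (c - (β ^ 2 * e0) • p0))
          ((Real.sqrt γ0)⁻¹ • (x - (c - (β ^ 2 * e0) • p0))) ^ 2)) := by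
  have hN : (0 : ℝ) < n := by positivity
  have hy := tau_le hn hβ hk h
  have hy4 := y_le (x := x) hn hβ hp0
  have hv := nrm_v (x := x) hp0
  obtain ⟨-, -, h3, -⟩ := h
  obtain ⟨hτ0, hτ1⟩ := hτ
  have hb1 : β ^ 2 ≤ 1 := pow_le_one₀ hβ.1.le hβ.2
  rw [gam] at hγ1 hγ2 h3
  set e := avg (DD (th x)) with hedef
  have he0 : 0 ≤ e := by rw [hedef, avg_DD_th x hn]; linarith [aS_le_one x]
  have he1 : e ≤ 1 := by rw [hedef, avg_DD_th x hn]; linarith [aS_nonneg x]
  set v := th x - p0 with hvdef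
  set d := x - (c - (β ^ 2 * e) • p0) with hd
  set Δ := (β ^ 2 * (e0 - e)) • p0 with hΔ
  have hX : Xc (β ^ 2) c x = d + (β ^ 2 * e) • v := by rw [Xc, hd, hvdef, ← hedef]; module
  have hm : x - (c - (β ^ 2 * e0) • p0) = d + Δ := by rw [hd, hΔ]; module
  have hvv : 0 < v ⬝ᵥ v := by
    refine lt_of_le_of_ne (Cond.dot_self_nonneg v) fun h0 => ?_
    rw [← h0] at hy
    simp only [zero_div, mul_zero] at hy
    linarith
  have hw := weight_eq (β := β) (e := e) (d := d) hn hτ0 hvv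
  have h0 : (β * (1 / Real.sqrt n) * len v) ^ 2 = β ^ 2 * (v ⬝ᵥ v / n) := by
    rw [mul_pow, mul_pow, len_sq, div_pow, Real.sq_sqrt hN.le]; ring
  have hγ : 0 < γ0 := by
    have : 0 ≤ β ^ 2 * (v ⬝ᵥ v / n) := by positivity
    linarith
  have hS0 : Sd (ps β γ0 (c - (β ^ 2 * e0) • p0) p0) (ps' β γ0 (c - (β ^ 2 * e0) • p0))
      ((Real.sqrt γ0)⁻¹ • (x - (c - (β ^ 2 * e0) • p0))) =
      β * ((d + Δ) ⬝ᵥ v) / (n * γ0) - β * e := by
    have a1 : ∀ i, ((Real.sqrt γ0)⁻¹ • (x - (c - (β ^ 2 * e0) • p0))) i *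
        (β / Real.sqrt γ0 * (Real.tanh (x i) - p0 i)) = β / γ0 * ((d + Δ) i * v i) := by
      intro i
      have hs : Real.sqrt γ0 ≠ 0 := (Real.sqrt_pos.2 hγ).ne'
      rw [hm, Pi.smul_apply, smul_eq_mul, show Real.tanh (x i) - p0 i = v i from rfl]
      conv_rhs => rw [← Real.mul_self_sqrt hγ.le]
      field_simp
    simp only [Sd, ps, ps', back hγ, a1, Finset.sum_sub_distrib, ← Finset.mul_sum,
      Fintype.card_fin]
    rw [hedef, avg_DD]
    simp only [dotProduct, th, sq, Finset.sum_const, Finset.card_univ, Fintype.card_fin,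
      nsmul_eq_mul, mul_one]
    field_simp
  rw [hS0, hm, jac, phiS, h0, phi, Fintype.card_fin, ← hedef, hX]
  rw [hX] at h3
  generalize β ^ 2 * (v ⬝ᵥ v / n) = y at *
  have hy0 : 0 < y := by nlinarith
  set r := Real.sqrt n with hr
  have hr0 : 0 < r := Real.sqrt_pos.2 hN
  have hrr : r * r = n := Real.mul_self_sqrt hN.le
  set R := Real.sqrt (5 * |A|) + 2 with hR
  have hR0 : 0 < R := by positivity
  have huτ : u * τ ^ 2 ≤ u * τ := mul_le_mul_of_nonneg_left (by nlinarith) hu0.le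
  have huτ' : u * τ ≤ u := mul_le_of_le_one_right hu0.le hτ1
  have hu1 : u ≤ 1 := by linarith
  have hdn : nrm d ≤ R * r := by
    have a1 : nrm (d + (β ^ 2 * e) • v) ≤ Real.sqrt (5 * |A|) * r := by
      rw [nrm_le_iff (by positivity), mul_pow, Real.sq_sqrt (by positivity), sq r, hrr]
      refine h3.trans (mul_le_mul_of_nonneg_right ?_ hN.le)
      have := mul_le_mul (le_abs_self A) (by linarith : τ + y ≤ 5) (by linarith) (abs_nonneg A)
      linarith
    have a2 := nrm_sub_le (d + (β ^ 2 * e) • v) ((β ^ 2 * e) • v)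
    rw [add_sub_cancel_right, nrm_smul, abs_of_nonneg (by positivity)] at a2
    have a3 := mul_le_of_le_one_left (nrm_nonneg v) (mul_le_one₀ hb1 he0 he1)
    rw [hR]
    linarith
  have hΔn : nrm Δ ≤ u * τ ^ 2 * r := nrm_le_of_abs (by positivity) fun i => by
    rw [hΔ, Pi.smul_apply, smul_eq_mul, mul_right_comm, abs_mul, abs_mul,
      abs_of_nonneg (sq_nonneg β), abs_sub_comm]
    exact (mul_le_of_le_one_left (abs_nonneg _) (mul_le_one₀ hb1 (abs_nonneg _) (hp0 i))).trans he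
  have p1 := phi_var_le hτ0 (by linarith : τ ≤ τ + y) hγ1 hγ2 d
  have p2 := phi_le_shift hγ hdn hΔn
  have q1 : (n : ℝ) * (u * τ ^ 2 / τ) ≤ n * u := mul_le_mul_of_nonneg_left
    ((div_le_iff₀ hτ0).2 huτ) hN.le
  have q2 : (2 * (R * r) * (u * τ ^ 2 * r) + (u * τ ^ 2 * r) ^ 2) / (2 * γ0) ≤ n * ((R + 1) * u) := by
    rw [div_le_iff₀ (by positivity)]
    have a1 : u * τ ^ 2 ≤ u * γ0 := huτ.trans (mul_le_mul_of_nonneg_left (by linarith) hu0.le)
    have a2 : (u * τ ^ 2) ^ 2 ≤ u * γ0 :=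
      (pow_le_of_le_one (by positivity) (by linarith) two_ne_zero).trans a1
    calc _ = n * (2 * R * (u * τ ^ 2) + (u * τ ^ 2) ^ 2) := by rw [← hrr]; ring
      _ ≤ n * (2 * R * (u * γ0) + 2 * (u * γ0)) := by
          have : 0 ≤ u * γ0 := by positivity
          gcongr
          linarith
      _ = _ := by ring
  set S := β * (d ⬝ᵥ v) / (n * (τ + y)) - β * e with hS
  set S0 := β * ((d + Δ) ⬝ᵥ v) / (n * γ0) - β * e with hS0'
  have q3 : |S - S0| ≤ (2 * R + 2) * u := by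
    have g0 : 0 < τ + y := by linarith
    have a1 : S - S0 = β * ((d ⬝ᵥ v) / n * ((γ0 - (τ + y)) / ((τ + y) * γ0)) - (Δ ⬝ᵥ v) / n / γ0) := by
      rw [hS, hS0', add_dotProduct]; field_simp; ring
    have a2 : |d ⬝ᵥ v| / n ≤ 2 * R := by
      rw [div_le_iff₀ hN, ← hrr]
      exact (abs_dot_le' d v).trans ((mul_le_mul hdn hv (nrm_nonneg _) (by positivity)).trans_eq
        (by ring))
    have a3 : |Δ ⬝ᵥ v| / n ≤ 2 * (u * τ ^ 2) := by
      rw [div_le_iff₀ hN, ← hrr]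
      exact (abs_dot_le' Δ v).trans ((mul_le_mul hΔn hv (nrm_nonneg _) (by positivity)).trans_eq
        (by ring))
    have a4 : (γ0 - (τ + y)) / ((τ + y) * γ0) ≤ u := by
      rw [div_le_iff₀ (by positivity)]
      have : τ ^ 2 ≤ (τ + y) * γ0 := by nlinarith
      nlinarith
    have a5 : |Δ ⬝ᵥ v| / n / γ0 ≤ 2 * u := by
      rw [div_le_iff₀ hγ]
      have : u * τ ≤ u * γ0 := mul_le_mul_of_nonneg_left (by linarith) hu0.le
      linarith
    have a6 : 0 ≤ (γ0 - (τ + y)) / ((τ + y) * γ0) := div_nonneg (by linarith) (by positivity)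
    rw [a1, abs_mul, abs_of_pos hβ.1]
    refine (mul_le_of_le_one_left (abs_nonneg _) hβ.2).trans ((abs_sub _ _).trans ?_)
    rw [abs_mul, abs_div, abs_div, abs_div, abs_div, Nat.abs_cast, ← abs_div, abs_of_nonneg a6,
      abs_of_pos hγ]
    have := mul_le_mul a2 a4 a6 (by positivity)
    linarith
  have q4 : S ^ 2 * ((τ + y) / (2 * (τ + 2 * y))) ≤
      (1 + k / 24) / 4 * S0 ^ 2 + (1 + 200 / k) * (2 * R + 2) ^ 2 * u := by
    have a1 : S ^ 2 ≤ (1 + k / 200) * S0 ^ 2 + (1 + 200 / k) * (S - S0) ^ 2 := by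
      have b1 : 0 ≤ 200 / k * (k / 200 * S0 - (S - S0)) ^ 2 := by positivity
      have b2 : 200 / k * (k / 200 * S0 - (S - S0)) ^ 2 =
          k / 200 * S0 ^ 2 - 2 * S0 * (S - S0) + 200 / k * (S - S0) ^ 2 := by field_simp; ring
      nlinarith
    have a2 : (S - S0) ^ 2 ≤ (2 * R + 2) ^ 2 * u := by
      rw [← sq_abs]
      refine (pow_le_pow_left₀ (abs_nonneg _) q3 2).trans ?_
      rw [mul_pow]
      exact mul_le_mul_of_nonneg_left (by nlinarith) (sq_nonneg _)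
    have a3 : (τ + y) / (2 * (τ + 2 * y)) ≤ 1 := (div_le_one (by positivity)).2 (by linarith)
    have a4 : (1 + k / 200) * ((τ + y) / (2 * (τ + 2 * y))) ≤ (1 + k / 24) / 4 := by
      rw [← mul_div_assoc, div_le_div_iff₀ (by positivity) (by norm_num)]
      have b1 : 0 ≤ k * τ := by positivity
      have b2 : 0 ≤ k * y := by positivity
      nlinarith
    have a5 : 0 ≤ (τ + y) / (2 * (τ + 2 * y)) := by positivity
    have a6 := mul_le_mul_of_nonneg_left a2 (by positivity : 0 ≤ 1 + 200 / k)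
    have a7 := mul_le_mul_of_nonneg_right a4 (sq_nonneg S0)
    have a8 := mul_le_of_le_one_right (by positivity : 0 ≤ (1 + 200 / k) * (S - S0) ^ 2) a3
    have a9 := mul_le_mul_of_nonneg_right a1 a5
    nlinarith
  have q5 : Real.sqrt (τ + y) / Real.sqrt (τ + 2 * y) ≤ 1 :=
    div_le_one_of_le₀ (Real.sqrt_le_sqrt (by linarith)) (Real.sqrt_nonneg _)
  have hφ := phi_nonneg γ0 (d + Δ)
  calc _ ≤ Real.exp (n * (β ^ 2 * e ^ 2 / 2)) * ((Real.sqrt (2 * Real.pi * (τ + y)))⁻¹ ^ n *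
        Real.exp (-((d + (β ^ 2 * e) • v) ⬝ᵥ (d + (β ^ 2 * e) • v)) / (2 * (τ + y))) * 1 *
        Real.exp (y * (unitv v ⬝ᵥ (d + (β ^ 2 * e) • v)) ^ 2 / (2 * (τ + y) * (τ + 2 * y)))) := by
        gcongr
    _ = (Real.sqrt (2 * Real.pi * (τ + y)))⁻¹ ^ n * Real.exp (-(d ⬝ᵥ d) / (2 * (τ + y))) *
        Real.exp (n * S ^ 2 * ((τ + y) / (2 * (τ + 2 * y)))) := by
        rw [mul_assoc _ (Real.exp _) (Real.exp (n * S ^ 2 * _)), ← Real.exp_add, ← hw,
          Real.exp_add, Real.exp_add]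
        ring
    _ ≤ (Real.exp (n * u) * (phi γ0 (d + Δ) * Real.exp (n * ((R + 1) * u)))) *
        Real.exp (n * ((1 + k / 24) / 4 * S0 ^ 2 + (1 + 200 / k) * (2 * R + 2) ^ 2 * u)) := by
        refine mul_le_mul (p1.trans (mul_le_mul (Real.exp_le_exp.2 q1) (p2.trans
          (mul_le_mul_of_nonneg_left (Real.exp_le_exp.2 q2) hφ)) (phi_nonneg _ _)
          (Real.exp_pos _).le)) (Real.exp_le_exp.2 ?_) (Real.exp_pos _).le (by positivity)
        rw [mul_assoc]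
        exact mul_le_mul_of_nonneg_left q4 hN.le
    _ = _ := by
        have : (n : ℝ) * (cE A k * u) = n * u + n * ((R + 1) * u) +
            n * ((1 + 200 / k) * (2 * R + 2) ^ 2 * u) := by rw [cE, hR]; ring
        rw [this, mul_add (n : ℝ) (_ * S0 ^ 2), Real.exp_add, Real.exp_add, Real.exp_add,
          show (1 + k / 24) / 4 * (n : ℝ) * S0 ^ 2 = n * ((1 + k / 24) / 4 * S0 ^ 2) by ring]
        ring

end point

lemma setLIntegral_le_of_le {α : Type*} [MeasurableSpace α] (μ : Measure α) {S : Set α}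
    {f g : α → ℝ≥0∞} (hf : Measurable f) (hg : Measurable g) (h : ∀ x ∈ S, f x ≤ g x) :
    ∫⁻ x in S, f x ∂μ ≤ ∫⁻ x, g x ∂μ :=
  (lintegral_mono_set (t := {x | f x ≤ g x}) h).trans
    ((setLIntegral_mono' (measurableSet_le hf hg) fun _ hx => hx).trans
      (setLIntegral_le_lintegral _ _))

lemma grid {ε t : ℝ} (hε : 0 < ε) (h0 : 0 ≤ t) (h4 : t ≤ 4) :
    ∃ i ∈ Finset.range (⌈4 / ε⌉₊ + 1), t ≤ i * ε ∧ i * ε ≤ t + ε := by
  refine ⟨⌈t / ε⌉₊, Finset.mem_range.2 (Nat.lt_succ_of_le (Nat.ceil_le_ceil (by gcongr))),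
    (div_le_iff₀ hε).1 (Nat.le_ceil _), ?_⟩
  have := mul_le_mul_of_nonneg_right (Nat.ceil_lt_add_one (div_nonneg h0 hε.le)).le hε.le
  rwa [add_mul, div_mul_cancel₀ _ hε.ne', one_mul] at this

end Crest.Agent.T157.Lp.Chi

namespace Crest.Agent.T157.Lp

open MeasureTheory ProbabilityTheory Matrix Filter Set
open Crest.Agent.T157.E Crest.Agent.T157.Eig Crest.Agent.T157.Cond Crest.Agent.T157.Tap
open Crest.Agent.T157.Kr Crest.Agent.T157.Tap.Cell Chi
open scoped ENNReal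

theorem childStmt : ChildStmt := by
  intro β hβ k1 hk1 A
  set k := min k1 1 with hkdef
  have hk : 0 < k := lt_min hk1 one_pos
  have hk' : k ≤ 1 := min_le_right _ _
  obtain ⟨C, c1, hC, hc1, hcell⟩ := cell_int.{0} hk hk'
  have hb : 0 < β ^ 2 := pow_pos hβ.1 2
  refine ⟨c1 / 4, by positivity, k / 20, by positivity, 200 / (k * β ^ 2), by positivity,
    fun τ hτ => ?_⟩
  have hE : 0 < cE A k := by unfold cE; positivity
  set u := min (k / 90) (c1 / 2 / cE A k) with hu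
  have hu0 : 0 < u := lt_min (by positivity) (by positivity)
  have hu1 : cE A k * u ≤ c1 / 2 := by
    rw [mul_comm]; exact (le_div_iff₀ hE).1 (min_le_right _ _)
  have hτ0 := hτ.1
  have hε : 0 < u * τ ^ 2 := by positivity
  set I := Finset.range (⌈4 / (u * τ ^ 2)⌉₊ + 1) with hI
  have hev : Tendsto (fun n : ℕ => Real.exp (c1 / 4 * n)) atTop atTop :=
    Real.tendsto_exp_atTop.comp (tendsto_natCast_atTop_atTop.const_mul_atTop (by positivity))
  filter_upwards [hev.eventually_ge_atTop (((I ×ˢ I).card : ℝ) * C), eventually_gt_atTop 0]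
    with n hn1 hn c p0 hp0
  have : Nonempty (Fin n) := ⟨⟨0, hn⟩⟩
  set m : ℕ → V n := fun i => c - (β ^ 2 * (i * (u * τ ^ 2))) • p0 with hm
  set g : ℕ → ℝ := fun j => τ + j * (u * τ ^ 2) with hg
  have hg0 : ∀ j, 0 < g j := fun j => by simp only [hg]; positivity
  set H : ℕ × ℕ → V n → ℝ≥0∞ := fun q => (Adm (ps β (g q.2) (m q.1) p0) (ps' β (g q.2) (m q.1)) k ∩
    Far (ps β (g q.2) (m q.1) p0) k).indicator fun z => ENNReal.ofReal (Real.exp ((1 + k / 24) / 4 *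
      Fintype.card (Fin n) * Sd (ps β (g q.2) (m q.1) p0) (ps' β (g q.2) (m q.1)) z ^ 2)) with hH
  have hsl : ∀ q : ℕ × ℕ, Slope (ps β (g q.2) (m q.1) p0) (ps' β (g q.2) (m q.1)) := fun q =>
    slope_ps hβ (hg0 _) _ _
  have hms := fun q : ℕ × ℕ => ((hsl q).measurableSet_Adm k).inter ((hsl q).measurableSet_Far k)
  have hHm : ∀ q, Measurable (H q) := fun q => by
    have := (hsl q).measurable_Sd
    exact Measurable.indicator (by fun_prop) (hms q)
  set G : ℕ × ℕ → V n → ℝ≥0∞ := fun q x => ENNReal.ofReal (Real.exp (n * (cE A k * u))) *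
    (ENNReal.ofReal (phi (g q.2) (x - m q.1)) * H q ((Real.sqrt (g q.2))⁻¹ • (x - m q.1))) with hG
  have hGm : ∀ q, Measurable (G q) := fun q => by
    have := hHm q
    simp only [hG]
    fun_prop
  have hGi : ∀ q, ∫⁻ x, G q x ≤ ENNReal.ofReal (C * Real.exp (-(c1 / 2 * n))) := by
    intro q
    have h1 := lintegral_gv_scale (hg0 q.2) (m q.1)
      (G := fun x => H q ((Real.sqrt (g q.2))⁻¹ • (x - m q.1))) (by have := hHm q; fun_prop)
    simp only [add_sub_cancel_left, smul_smul,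
      inv_mul_cancel₀ (Real.sqrt_pos.2 (hg0 q.2)).ne', one_smul] at h1
    simp only [hG]
    rw [lintegral_const_mul' _ _ ENNReal.ofReal_ne_top, ← h1]
    simp only [hH]
    rw [lintegral_indicator (hms q)]
    refine (mul_le_mul_right (hcell (hsl q)) _).trans ?_
    rw [← ENNReal.ofReal_mul (Real.exp_pos _).le, mul_left_comm, ← Real.exp_add, Fintype.card_fin]
    refine ENNReal.ofReal_le_ofReal (mul_le_mul_of_nonneg_left (Real.exp_le_exp.2 ?_) hC)
    have := mul_le_mul_of_nonneg_left hu1 (Nat.cast_nonneg n)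
    linarith
  refine (setLIntegral_le_of_le volume (g := fun x => ∑ q ∈ I ×ˢ I, G q x) ?_
    (Finset.measurable_sum _ fun q _ => hGm q) fun x hx => ?_).trans ?_
  · have h1 : Measurable fun x : V n => avg (DD (th x)) :=
      (by fun_prop : Continuous fun x : V n => avg (DD (th x))).measurable
    unfold jac phiS Xc
    fun_prop
  · obtain ⟨i, hi, hi1, hi2⟩ := grid hε (t := avg (DD (th x)))
      (by rw [avg_DD_th x hn]; linarith [aS_le_one x])
      (by rw [avg_DD_th x hn]; linarith [aS_nonneg x])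
    obtain ⟨j, hj, hj1, hj2⟩ := grid hε (t := β ^ 2 * ((th x - p0) ⬝ᵥ (th x - p0) / n))
      (mul_nonneg hb.le (div_nonneg (Cond.dot_self_nonneg _) (Nat.cast_nonneg _)))
      (y_le hn hβ hp0)
    have he : |avg (DD (th x)) - i * (u * τ ^ 2)| ≤ u * τ ^ 2 := abs_le.2 ⟨by linarith, by linarith⟩
    have hγ1 : gam (β ^ 2) τ p0 x ≤ g j := by simp only [gam, hg]; linarith
    have hγ2 : g j ≤ gam (β ^ 2) τ p0 x + u * τ ^ 2 := by simp only [gam, hg]; linarith
    have h1 := point_mem hn hβ hτ hk hk' (min_le_left _ _) hu0 (min_le_left _ _) hp0 hx he hγ1 hγ2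
    have h2 := point_le hn hβ hτ hk hk' (min_le_left _ _) hu0 (min_le_left _ _) hp0 hx he hγ1 hγ2
    refine le_trans ?_ (Finset.single_le_sum (f := fun q => G q x) (fun _ _ => zero_le)
      (Finset.mk_mem_product hi hj))
    simp only [hG, hH, hm]
    rw [Set.indicator_of_mem h1, ← ENNReal.ofReal_mul (phi_nonneg _ _),
      ← ENNReal.ofReal_mul (Real.exp_pos _).le]
    exact ENNReal.ofReal_le_ofReal h2
  · rw [lintegral_finsetSum _ fun q _ => hGm q]
    refine (Finset.sum_le_sum fun q _ => hGi q).trans ?_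
    rw [Finset.sum_const, nsmul_eq_mul, ← ENNReal.ofReal_natCast,
      ← ENNReal.ofReal_mul (Nat.cast_nonneg _), ← mul_assoc]
    refine ENNReal.ofReal_le_ofReal ((mul_le_mul_of_nonneg_right hn1 (Real.exp_pos _).le).trans_eq ?_)
    rw [← Real.exp_add]
    congr 1
    ring

end Crest.Agent.T157.Lp

end
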