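import Crest.Agent.T157.LpG1_17

/-!
# Row 157, part A: the end of the chain (helper10)

`Lp.EndGlue`: the frozen regime for a general prior.
-/

set_option autoImplicit false

noncomputable section

namespace Crest.Agent.T157.Lp

open MeasureTheory ProbabilityTheory Matrix Filter Set
open Crest.ProbabilityR.SpinGlassDynamics
open Crest.Agent.T157.E Crest.Agent.T157.Eig Crest.Agent.T157.Tap Crest.Agent.T157.Tap.Froz10

namespace End10

variable {n : ℕ}

/-- one site of a product law: the shift of the mean is bounded by the Dirichlet form -/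
theorem site_le {u : Cube n → ℝ} (hu : ∀ x, 0 < u x) (f : Cube n → ℝ) (i : Fin n) {t : ℝ}
    (ht : ∀ x, u (Function.update x i true) * (1 - t) = u (Function.update x i false) * (1 + t)) :
    mean u (fun x => f x ^ 2 * (sv x i - t)) ^ 2 ≤
      (∑ x, SL.edge (prob u) i x * (SL.incr f i x * SL.incr f i x)) *
        (2 * mean u fun x => f x ^ 2) := by
  have hW := SL.Wt.of_pos hu
  have hp : ∀ x, 0 < prob u x := fun x => div_pos (hu x) hW.pos
  have ht' : ∀ x, prob u (Function.update x i true) * (1 - t) =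
      prob u (Function.update x i false) * (1 + t) := fun x => by
    simp only [prob, div_mul_eq_mul_div, ht x]
  have e1 : mean u (fun x => f x ^ 2 * (sv x i - t)) = ∑ x, SL.edge (prob u) i x *
      (SL.incr f i x * (f (Function.update x i true) + f (Function.update x i false))) := by
    rw [mean, SL.sum_flip i, Finset.sum_div]
    refine Finset.sum_congr rfl fun x _ => ?_
    have h1 := hp (Function.update x i true)
    have h2 := hp (Function.update x i false)
    have h3 := ht' x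
    simp only [SL.edge, SL.incr, sv, Function.update_self, spin, if_true, Bool.false_eq_true,
      if_false]
    generalize prob u (Function.update x i true) = a at *
    generalize prob u (Function.update x i false) = b at *
    have h4 : t = (a - b) / (a + b) := by rw [eq_div_iff (by positivity)]; linarith
    rw [h4]
    field_simp
    ring
  have e2 : 2 * mean u (fun x => f x ^ 2) = ∑ x, (prob u (Function.update x i true) *
      f (Function.update x i true) ^ 2 + prob u (Function.update x i false) *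
      f (Function.update x i false) ^ 2) := by
    rw [mean, SL.sum_flip i]; ring
  rw [e1, e2]
  refine Finset.sum_sq_le_sum_mul_sum_of_sq_le_mul _ (fun x _ => ?_) (fun x _ => ?_) fun x _ => ?_
  · have h1 := hp (Function.update x i true)
    have h2 := hp (Function.update x i false)
    exact mul_nonneg (by rw [SL.edge]; positivity) (mul_self_nonneg _)
  · have h1 := hp (Function.update x i true)
    have h2 := hp (Function.update x i false)
    positivity
  · have h1 := hp (Function.update x i true)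
    have h2 := hp (Function.update x i false)
    simp only [SL.edge]
    generalize prob u (Function.update x i true) = a at *
    generalize prob u (Function.update x i false) = b at *
    generalize f (Function.update x i true) = p
    generalize f (Function.update x i false) = q
    generalize SL.incr f i x = d
    have h3 : a * b / (a + b) * (p + q) ^ 2 ≤ a * p ^ 2 + b * q ^ 2 := by
      rw [div_mul_eq_mul_div, div_le_iff₀ (by positivity)]
      nlinarith [sq_nonneg (a * p - b * q)]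
    have h4 : 0 ≤ a * b / (a + b) * (d * d) := mul_nonneg (by positivity) (mul_self_nonneg d)
    calc _ = a * b / (a + b) * (d * d) * (a * b / (a + b) * (p + q) ^ 2) := by ring
      _ ≤ _ := mul_le_mul_of_nonneg_left h3 h4

/-- the mean of `u f²` against the mean of the product law `u` -/
theorem shift_le {u : Cube n → ℝ} (hu : ∀ x, 0 < u x) (f : Cube n → ℝ) {c : ℝ} (hc : 0 < c)
    (h0 : 0 < mean u fun x => f x ^ 2) {t : V n} (ht : ∀ i x, u (Function.update x i true) *
      (1 - t i) = u (Function.update x i false) * (1 + t i)) :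
    mean u (fun x => c * f x ^ 2) * nrm (mag (fun x => u x * (c * f x ^ 2)) - t) ^ 2 ≤
      4 * c * dir u f := by
  have hW := SL.Wt.of_pos hu
  set M := mean u fun x => f x ^ 2 with hM
  have e : ∀ i, (mag (fun x => u x * (c * f x ^ 2)) - t) i =
      mean u (fun x => f x ^ 2 * (sv x i - t i)) / M := fun i => by
    simp only [Pi.sub_apply, mag, meanV, SL.mean_mul_weight _ _ _ hW.pos.ne', mul_assoc,
      SL.mean_const_mul, mul_sub, SL.mean_sub, SL.mean_mul_const, ← hM]
    field_simp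
  rw [nrm_sq, SL.mean_const_mul, ← hM, SL.dir_eq_dir2, SL.dir2_eq hu, dotProduct, Finset.mul_sum,
    Finset.sum_div, Finset.mul_sum]
  refine Finset.sum_le_sum fun i _ => ?_
  have h := site_le hu f i (ht i)
  rw [e, ← hM] at *
  rw [← sq, div_pow, show c * M * (mean u (fun x => f x ^ 2 * (sv x i - t i)) ^ 2 / M ^ 2) =
    c * (mean u (fun x => f x ^ 2 * (sv x i - t i)) ^ 2 / M) by field_simp, mul_comm 4 c, mul_assoc]
  refine mul_le_mul_of_nonneg_left ?_ hc.le
  rw [div_le_iff₀ h0]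
  linarith

theorem dot_upd (a : V n) (x : Cube n) (i : Fin n) (b : Bool) :
    a ⬝ᵥ sv (Function.update x i b) = a ⬝ᵥ sv x - a i * spin (x i) + a i * spin b := by
  have h : sv (Function.update x i b) = sv x + Pi.single i (spin b - spin (x i)) := by
    funext j
    by_cases hj : j = i
    · subst hj; simp [sv]
    · simp [sv, Function.update_of_ne hj, Pi.single_eq_of_ne hj]
  rw [h, dotProduct_add, dotProduct_single]; ring

theorem post_ising {J Q : Mx n} (hQ : Qᵀ * Q = (1 : ℝ) • J + (3 : ℝ) • (1 : Mx n)) (y z : V n)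
    (x : Cube n) : post (fun σ => Q *ᵥ sv σ) (ising J y) 1 z x =
      Real.exp ((y + Qᵀ *ᵥ z) ⬝ᵥ sv x - 3 * n / 2) := by
  have e1 : (Q *ᵥ sv x) ⬝ᵥ (Q *ᵥ sv x) = sv x ⬝ᵥ J *ᵥ sv x + 3 * n := by
    rw [dotProduct_mulVec, ← mulVec_transpose, mulVec_mulVec, hQ, dotProduct_comm]
    simp [add_mulVec, smul_mulVec, sv_dot_self]
  have e2 : z ⬝ᵥ (Q *ᵥ sv x) = (Qᵀ *ᵥ z) ⬝ᵥ sv x := by
    rw [dotProduct_mulVec, ← mulVec_transpose]
  rw [post, ising, ← Real.exp_add, e1, e2, add_dotProduct]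
  congr 1; ring

theorem post_ratio {J Q : Mx n} (hQ : Qᵀ * Q = (1 : ℝ) • J + (3 : ℝ) • (1 : Mx n)) (y z : V n)
    (i : Fin n) (x : Cube n) :
    post (fun σ => Q *ᵥ sv σ) (ising J y) 1 z (Function.update x i true) *
        (1 - th (y + Qᵀ *ᵥ z) i) =
      post (fun σ => Q *ᵥ sv σ) (ising J y) 1 z (Function.update x i false) *
        (1 + th (y + Qᵀ *ᵥ z) i) := by
  rw [post_ising hQ, post_ising hQ, dot_upd, dot_upd, th]
  generalize (y + Qᵀ *ᵥ z) i = a
  generalize (y + Qᵀ *ᵥ z) ⬝ᵥ sv x - a * spin (x i) = s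
  simp only [spin, if_true, Bool.false_eq_true, if_false, mul_one, mul_neg]
  rw [show s + a - 3 * (n : ℝ) / 2 = (s - 3 * n / 2) + a by ring,
    show s + -a - 3 * (n : ℝ) / 2 = (s - 3 * n / 2) + -a by ring, Real.exp_add, Real.exp_add,
    Real.tanh_eq_sinh_div_cosh, Real.sinh_eq, Real.cosh_eq, Real.exp_neg]
  field_simp
  ring

/-- the terminal error -/
def psi (Q : Mx n) (y : V n) (v : Cube n → ℝ) (z : V n) : ℝ :=
  nrm (mag (post (fun σ => Q *ᵥ sv σ) v 1 z) - th (y + Qᵀ *ᵥ z)) ^ 2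

theorem mg_psi (Q : Mx n) (y : V n) {v : Cube n → ℝ} (hv : SL.Wt v) : SL.MG (psi Q y v) := by
  have h1 : Continuous fun z : V n => mag (post (fun σ => Q *ᵥ sv σ) v 1 z) :=
    continuous_pi fun i => continuous_finsetSum _ fun x _ =>
      ((SL.cont_prob hv (fun σ => Q *ᵥ sv σ) x).comp (Continuous.prodMk_right (1 : ℝ))).mul
        continuous_const
  have h2 : Continuous fun z : V n => th (y + Qᵀ *ᵥ z) :=
    G1.continuous_th.comp (by unfold mulVec dotProduct; fun_prop)
  refine .of_bdd ((continuous_nrm.comp (h1.sub h2)).pow 2).measurable (4 * n) fun z => ?_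
  rw [psi, abs_of_nonneg (sq_nonneg _)]
  refine (pow_le_pow_left₀ (nrm_nonneg _) (G1.nrm_sub_cb (G1.cb_mag (hv.post _ _ _)) (cb_th _)) 2).trans_eq ?_
  rw [mul_pow, Real.sq_sqrt (Nat.cast_nonneg n)]; norm_num

theorem slE_psi_le {J Q : Mx n} (hQ : Qᵀ * Q = (1 : ℝ) • J + (3 : ℝ) • (1 : Mx n)) (y : V n)
    {v : Cube n → ℝ} (hv : SL.Wt v) :
    slE (fun σ => Q *ᵥ sv σ) v 1 (fun _ z => psi Q y v z) ≤ 4 * fis (ising J y) v := by
  set w := ising J y with hw
  have hw0 : ∀ x, 0 < w x := fun _ => Real.exp_pos _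
  have hW := SL.Wt.of_pos hw0
  set f : Cube n → ℝ := fun σ => Real.sqrt (prob v σ / prob w σ) with hf
  set c := (∑ x, v x) / ∑ x, w x with hc
  have hc0 : 0 < c := div_pos hv.pos hW.pos
  have hf2 : ∀ x, f x ^ 2 = prob v x / prob w x := fun x =>
    Real.sq_sqrt (div_nonneg (hv.prob_nonneg x) (hW.prob_nonneg x))
  have ev : v = fun x => w x * (c * f x ^ 2) := funext fun x => by
    have h1 := hw0 x
    have h2 := hW.pos
    have h3 := hv.pos
    rw [hf2, hc, prob, prob]; field_simp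
  have h1 : mean w (fun x => f x ^ 2) = 1 := by
    rw [mean, ← hv.sum_prob]
    exact Finset.sum_congr rfl fun x _ => by
      rw [hf2]; exact mul_div_cancel₀ _ (div_pos (hw0 x) hW.pos).ne'
  have hm := mg_psi Q y hv
  have h2 := SL.ex_mul_weight (φ := fun σ => Q *ᵥ sv σ) (G := fun p => psi Q y v p.2) hW zero_le_one
    (fun x => c * f x ^ 2) hm
  rw [← ev, SL.mean_const_mul, h1, mul_one] at h2
  refine le_of_eq_of_le h2 ?_
  rw [div_le_iff₀ hc0]
  refine (SL.ex_mono (H := fun p => 4 * c * dir (SL.pw (fun σ => Q *ᵥ sv σ) w p) f) hW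
    (((SL.eg_mean hW _).mg (mem_univ 1)).mul hm)
    (((SL.eg_dir hw0 f).mg (mem_univ 1)).const_mul _) fun z => ?_).trans ?_
  · have h3 := shift_le (u := post (fun σ => Q *ᵥ sv σ) w 1 z)
      (fun x => mul_pos (hw0 x) (Real.exp_pos _)) f hc0
      (hW.mean_post_pos (fun x => sq_nonneg _) (by rw [h1]; exact one_pos) _ _ _)
      (post_ratio hQ y z)
    rw [← SL.post_mul, ← ev] at h3
    exact h3
  · rw [SL.ex_const_mul]
    have h3 := SL.ex_dir_le (φ := fun σ => Q *ᵥ sv σ) hw0 zero_le_one f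
    have e : fis w v = dir w f := rfl
    rw [e]
    nlinarith

theorem fis_nonneg {w : Cube n → ℝ} (hw : ∀ x, 0 < w x) (v : Cube n → ℝ) : 0 ≤ fis w v := by
  rw [fis, dir]
  exact Finset.sum_nonneg fun _ _ => Finset.sum_nonneg fun x _ =>
    mul_nonneg ((SL.Wt.of_pos hw).prob_nonneg x) (sq_nonneg _)

end End10

open End10

theorem endGlue : EndGlue := by
  intro hEx hErr hWin ε hε K
  obtain ⟨Ke, hKe⟩ := hErr (1 / 2) (by norm_num) 6
  obtain ⟨K', hK'0, hK'⟩ := hWin (1 / 2) (by norm_num) 64 (by norm_num)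
  set r := min (ε / 2) (3 / 32) with hrdef
  have hr0 : 0 < r := by positivity
  have hr1 : 2 * r ≤ ε := by linarith [min_le_left (ε / 2) (3 / 32)]
  have hr2 : r ≤ 3 / 32 := min_le_right _ _
  set ω := 4 * |K| + |Ke| with hω
  refine ⟨r / 8, by positivity, 400 / r, 49 * K' * (ω ^ 2 + 6), by positivity, ?_⟩
  intro n W β hn hW hβ hWn hF hU T hT σ y hy v hv
  have hn' : (0 : ℝ) < n := by exact_mod_cast hn
  have hsym : ∀ a : ℝ, (a • W)ᵀ = a • W := fun a => by rw [transpose_smul, hW]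
  have hop : ∀ a ∈ Icc (0 : ℝ) 1, opn (a • W) ≤ 3 := fun a ha => by
    rw [opn_smul, abs_of_nonneg ha.1]
    exact (mul_le_of_le_one_left (opn_nonneg W) ha.2).trans hWn
  have hsq : ∀ a ∈ Icc (0 : ℝ) 1, a ^ 2 ∈ Icc (0 : ℝ) 1 := fun a ha =>
    ⟨sq_nonneg a, pow_le_one₀ ha.1 ha.2⟩
  have hθt : ∀ t ∈ Icc (0 : ℝ) 1, (1 - 1 * t) * β ∈ Icc 0 β := fun t ht =>
    ⟨mul_nonneg (by linarith [ht.2]) hβ.1, mul_le_of_le_one_left hβ.1 (by linarith [ht.1])⟩
  have hθt1 : ∀ t ∈ Icc (0 : ℝ) 1, (1 - 1 * t) * β ∈ Icc (0 : ℝ) 1 := fun t ht =>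
    ⟨(hθt t ht).1, (hθt t ht).2.trans hβ.2⟩
  obtain ⟨Q, hQ⟩ := exists_root (hsym β) (hop β hβ)
  have hS : opn ((1 : ℝ) • β • W + (3 : ℝ) • (1 : Mx n)) ≤ 6 := by
    refine (opn_add_le _ _).trans ?_
    rw [one_smul, opn_smul 3]
    have := opn_one_le (ι := Fin n)
    have := hop β hβ
    norm_num
    linarith
  have hQ2 : opn Q ^ 2 ≤ 6 := by rw [sq, ← opn_transpose_mul_self, hQ]; exact hS
  have hQ1 : opn Q ≤ 5 / 2 := by nlinarith [opn_nonneg Q]
  have hball : ∀ a ∈ Icc (0 : ℝ) 1, ∀ x : V n, nrm (Ymap (a • W) (a ^ 2) x - y) ≤ 41 * Real.sqrt n →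
      nrm (th x - sv σ) < r * Real.sqrt n := fun a ha x hx => by
    refine ball_of_near hn hr0 hT σ ?_
    have h1 := nrm_sub_le_of_sol (hop a ha) (hsq a ha) x
    have h2 := G1.nrm_tri x (Ymap (a • W) (a ^ 2) x) (T • sv σ)
    have h3 := G1.nrm_tri (Ymap (a • W) (a ^ 2) x) y (T • sv σ)
    linarith
  have eY : ∀ (J : Mx n) (b : ℝ) (p x : V n), YE J b 0 p x = Ymap J b x := fun J b p x => by
    rw [YE, zero_mulVec, add_zero]
  obtain ⟨x, hx⟩ := (hEx n _ (β ^ 2) (hsym β)).1 y
  have hb : nrm (th x - sv σ) < r * Real.sqrt n :=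
    hball β hβ x (by rw [hx, sub_self, nrm_zero]; positivity)
  have h := (hK' n (β • W) Q 0 (β ^ 2) 1 3 1 (r * Real.sqrt n) (8 * Real.sqrt n)
    (Real.exp (-(2 * n))) ω y (sv σ) v (psi Q y v) hn (hsym β)
    ((hop β hβ).trans (by norm_num)) transpose_zero (by rw [opn_zero]; norm_num) (hsq β hβ)
    ⟨zero_le_one, le_rfl⟩ zero_le_one le_rfl (by norm_num) hQ (by positivity)
    (by rw [mul_pow, Real.sq_sqrt hn'.le]; linarith)
    (by rw [mul_pow, Real.sq_sqrt hn'.le]; linarith) (G1.cb_sv σ) hv (by positivity)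
    (fun t ht p hp hpr => by
      rw [smul_smul, ← mul_pow, sub_zero]; exact good hn hF hr1 hr2 (hθt1 t ht) σ p hp hpr)
    (fun t ht z hz => by
      simp only [eY]
      rw [smul_smul, ← mul_pow]
      obtain ⟨x', hx'⟩ := (hEx n _ (((1 - 1 * t) * β) ^ 2) (hsym ((1 - 1 * t) * β))).1
        (y + Qᵀ *ᵥ z)
      refine ⟨x', hball _ (hθt1 t ht) x' ?_, hx'⟩
      rw [hx', add_sub_cancel_left]
      have h2 := nrm_mulVec_le Qᵀ z
      rw [opn_transpose] at h2
      have h3 := mul_le_mul hQ1 hz (nrm_nonneg z) (by norm_num)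
      have h4 := Real.sqrt_nonneg n
      linarith)
    (fun t ht p hp hpr => by
      rw [smul_smul (1 - 1 * t), ← mul_pow, sub_zero]
      have hg := good hn hF hr1 hr2 (hθt1 t ht) σ p hp hpr
      have h1 := hKe n _ ((1 : ℝ) • β • W + (3 : ℝ) • (1 : Mx n)) _
        (3 + 2 * 1 * (1 - 1 * t) * β ^ 2 * avg (DD p)) p (hsym _)
        ((hop _ (hθt1 t ht)).trans (by norm_num)) hS (hsq _ (hθt1 t ht)) hp hg.1
      have h2 := hU _ (hθt t ht) (dd p) (ub_dd p) (by rw [dd_sq hp]; exact hg.2) h1.1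
      refine h1.2.trans ?_
      have e : 3 + 2 * 1 * (1 - 1 * t) * β ^ 2 * avg (DD p) =
          β * (2 * ((1 - 1 * t) * β) * avg fun i => dd p i ^ 2) + 3 * 1 := by
        rw [dd_sq hp]; ring
      rw [one_smul, e, err_lin]
      refine (add_le_add_left (nrm_add_le _ _) _).trans ?_
      rw [nrm_smul, nrm_smul, abs_of_nonneg hβ.1, abs_of_pos (by norm_num : (0 : ℝ) < 3)]
      have h3 := mul_le_mul hβ.2 (h2.2.trans (le_abs_self K)) (nrm_nonneg _) zero_le_one
      linarith [h2.1, le_abs_self K, le_abs_self Ke])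
    (mg_psi Q y hv) (fun _ => sq_nonneg _)
    (fun z _ x' _ hx' => by
      have e : x' = y + Qᵀ *ᵥ z := by simpa [YE, Ymap] using hx'
      rw [e]; exact le_rfl)
    (fun t ht => exit_le (fun σ' => (mulVec_dot_le Q _).trans (by
      rw [sv_dot_self]; exact mul_le_mul_of_nonneg_right hQ2 hn'.le)) hv ht)
    x hb (by rw [eY, hx])).1
  have h0 : (n : ℝ) * Real.exp (-(2 * n)) ≤ 1 := by
    rw [Real.exp_neg, ← div_eq_mul_inv, div_le_one (Real.exp_pos _)]
    linarith [Real.add_one_le_exp (2 * (n : ℝ))]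
  have h1 := slE_psi_le hQ y hv
  have h2 := fis_nonneg (w := ising (β • W) y) (fun _ => Real.exp_pos _) v
  have h3 : dfc (β • W) (β ^ 2) y (mag v) ≤ 7 * nrm (mag v - th x) := by
    have a1 := G1.nrm_tri (mag v) (th x) (th (cav (β • W) (β ^ 2) y (mag v)))
    have a2 := SE.nrm_th_sub_le x (cav (β • W) (β ^ 2) y (mag v))
    have a3 := G1.cav_lip (hop β hβ) (hsq β hβ) (Ymap (β • W) (β ^ 2) x) y (cb_th x) (G1.cb_mag hv)
    rw [G1.cav_Ymap, hx, sub_self, nrm_zero, G1.nrm_sub_comm (th x)] at a3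
    rw [dfc]
    linarith
  refine (pow_le_pow_left₀ (G1.dfc_nonneg _ _ _ _) h3 2).trans ?_
  have h4 : K' * (slE (fun σ => Q *ᵥ sv σ) v 1 (fun _ z => psi Q y v z) + ω ^ 2 + 1 +
      n * Real.exp (-(2 * n))) ≤ K' * ((ω ^ 2 + 6) * (fis (ising (β • W) y) v + 1)) :=
    mul_le_mul_of_nonneg_left (by nlinarith [mul_nonneg (sq_nonneg ω) h2]) hK'0.le
  nlinarith

end Crest.Agent.T157.Lp

end
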