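import Crest.Agent.T157.TapAlg_29

/-!
# Row 157, part A: existence of TAP solutions, the rank-one error, Lipschitz ⇒ covariance (helper80)
-/

set_option autoImplicit false

noncomputable section

namespace Crest.Agent.T157.Tap

open Matrix Filter Set Topology
open Crest.Agent.T157.E Crest.Agent.T157.Eig

namespace Ex80

variable {n : ℕ}

lemma hasDerivAt_artanh {t : ℝ} (ht : |t| < 1) : HasDerivAt Real.artanh (1 / (1 - t ^ 2)) t := by
  obtain ⟨h1, h2⟩ := abs_lt.1 ht
  have ha : (0 : ℝ) < 1 + t := by linarith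
  have hb : (0 : ℝ) < 1 - t := by linarith
  have h := (((((hasDerivAt_id t).const_add 1).div ((hasDerivAt_id t).const_sub 1) hb.ne').log
    (div_pos ha hb).ne').const_mul (1 / 2 : ℝ))
  refine (h.congr_of_eventuallyEq ?_).congr_deriv ?_
  · filter_upwards [Ioo_mem_nhds h1 h2] with s hs
    rw [Real.artanh_eq_half_log (Ioo_subset_Icc_self hs)]; rfl
  · have : 1 - t ^ 2 = (1 + t) * (1 - t) := by ring
    rw [this]; simp only [id, Pi.div_apply]; field_simp; ring

/-- the entropy function -/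
def hh (t : ℝ) : ℝ := t * Real.artanh t + 1 / 2 * Real.log (1 - t ^ 2)

lemma one_sub_sq_pos {t : ℝ} (ht : |t| < 1) : 0 < 1 - t ^ 2 := by
  rw [← sq_abs]; nlinarith [abs_nonneg t]

lemma hasDerivAt_hh {t : ℝ} (ht : |t| < 1) : HasDerivAt hh (Real.artanh t) t := by
  have hp := one_sub_sq_pos ht
  have h := ((hasDerivAt_id t).mul (hasDerivAt_artanh ht)).add
    (((((hasDerivAt_id t).pow 2).const_sub 1).log hp.ne').const_mul (1 / 2 : ℝ))
  refine h.congr_deriv ?_
  simp only [id, Pi.pow_apply]; field_simp; ring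

/-- `x = atanh p` -/
def ath (p : V n) : V n := fun i => Real.artanh (p i)

/-- open cube -/
def Oc (p : V n) : Prop := ∀ i, |p i| < 1

lemma th_ath {p : V n} (h : Oc p) : th (ath p) = p :=
  funext fun i => Real.tanh_artanh (abs_lt.1 (h i))

lemma ath_th (x : V n) : ath (th x) = x := funext fun _ => Real.artanh_tanh _

lemma Oc.seg {p q : V n} (hp : Oc p) (hq : Oc q) {s : ℝ} (hs : s ∈ Icc (0 : ℝ) 1) :
    Oc (p + s • (q - p)) := fun i => by
  have h := (convex_Ioo (𝕜 := ℝ) (-1 : ℝ) 1).add_smul_sub_mem (abs_lt.1 (hp i)) (abs_lt.1 (hq i)) hs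
  exact abs_lt.2 h

lemma hasDerivAt_line (p v : V n) (s : ℝ) : HasDerivAt (fun s : ℝ => p + s • v) v s := by
  simpa using ((hasDerivAt_id s).smul_const v).const_add p

lemma hasDerivAt_dot {f : ℝ → V n} {f' : V n} {s : ℝ} (h : HasDerivAt f f' s) (v : V n) :
    HasDerivAt (fun s => v ⬝ᵥ f s) (v ⬝ᵥ f') s := by
  simpa only [dotProduct] using HasDerivAt.fun_sum (u := Finset.univ)
    fun j _ => (hasDerivAt_pi.1 h j).const_mul (v j)

lemma convex_ball (p0 : V n) (r : ℝ) : Convex ℝ {p : V n | nrm (p - p0) ≤ r} := by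
  intro p hp q hq a b ha hb hab
  have e : a • p + b • q - p0 = a • (p - p0) + b • (q - p0) := by
    rw [smul_sub, smul_sub, sub_add_sub_comm, ← add_smul, hab, one_smul]
  simp only [mem_ofPred_eq] at *
  rw [e]
  refine (nrm_add_le _ _).trans ?_
  rw [nrm_smul, nrm_smul, abs_of_nonneg ha, abs_of_nonneg hb]
  calc _ ≤ a * r + b * r := by gcongr
    _ = r := by rw [← add_mul, hab, one_mul]

/-- strong monotonicity of the TAP map on a good ball -/
lemma mono {J : Mx n} {b c r : ℝ} {p0 p q : V n} (hc : 0 < c) (hG : GoodB J b c r p0) (hp : Oc p)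
    (hq : Oc q) (hpr : nrm (p - p0) ≤ r) (hqr : nrm (q - p0) ≤ r) :
    c * ((q - p) ⬝ᵥ (q - p)) ≤ (q - p) ⬝ᵥ (Ymap J b (ath q) - Ymap J b (ath p)) := by
  set v := q - p with hv
  have key : ∀ s ∈ Icc (0 : ℝ) 1, ∃ g', c * (v ⬝ᵥ v) ≤ g' ∧
      HasDerivAt (fun s : ℝ => v ⬝ᵥ Ymap J b (ath (p + s • v))) g' s := by
    intro s hs
    have ho : Oc (p + s • v) := hp.seg hq hs
    set P := p + s • v with hP
    have hD : ∀ i, 0 < DD P i := fun i => one_sub_sq_pos (ho i)
    have hx : HasDerivAt (fun s : ℝ => ath (p + s • v)) (fun i => 1 / DD P i * v i) s :=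
      hasDerivAt_pi.2 fun i =>
        (hasDerivAt_artanh (ho i)).comp s (hasDerivAt_pi.1 (hasDerivAt_line p v s) i)
    have h := hasDerivAt_Ymap J 0 (b := fun _ => b) (t := fun _ => 0) (hasDerivAt_const _ b)
      (hasDerivAt_const s 0) hx
    simp only [smul_zero, sub_zero, zero_smul, zero_add, ← hP, th_ath ho] at h
    refine ⟨_, ?_, hasDerivAt_dot h v⟩
    have hcb : Cb P := fun i => (ho i).le
    have hd : ∀ i, dd P i ≠ 0 := fun i => (Real.sqrt_pos.2 (hD i)).ne'
    have hpos := (hG P hcb ((convex_ball p0 r).add_smul_sub_mem hpr hqr hs)).1 fun i => v i / dd P i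
    have e1 : diagonal (dd P) *ᵥ (fun i => v i / dd P i) = v := by
      funext i; rw [mulVec_diagonal, mul_div_cancel₀ _ (hd i)]
    have e2 : (diagonal fun i => dd P i * dd P i) *ᵥ (fun i => 1 / DD P i * v i) = v := by
      funext i; rw [mulVec_diagonal, hcb.dd_mul]; field_simp [(hD i).ne']
    have e3 : ((fun i => v i / dd P i) ⬝ᵥ fun i => v i / dd P i) =
        v ⬝ᵥ fun i => 1 / DD P i * v i := by
      refine Finset.sum_congr rfl fun i _ => ?_
      rw [div_mul_div_comm, hcb.dd_mul]; ring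
    have e4 : v ⬝ᵥ v ≤ v ⬝ᵥ fun i => 1 / DD P i * v i := by
      refine Finset.sum_le_sum fun i _ => ?_
      have : 1 ≤ 1 / DD P i := one_le_one_div (hD i) (DD_le P i)
      nlinarith [mul_self_nonneg (v i)]
    rw [NN, sub_mulVec, one_mulVec, ← mulVec_mulVec, ← mulVec_mulVec, e1, dotProduct_sub,
      dotProduct_mulVec, ← mulVec_transpose, diagonal_transpose, e1, e3] at hpos
    rw [sub_mulVec, one_mulVec, ← mulVec_mulVec, e2, dotProduct_sub v (fun i => 1 / DD P i * v i)]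
    exact (mul_le_mul_of_nonneg_left e4 hc.le).trans hpos
  choose! g' hg using key
  obtain ⟨s, hs, he⟩ := exists_hasDerivAt_eq_slope (fun s : ℝ => v ⬝ᵥ Ymap J b (ath (p + s • v)))
    g' zero_lt_one (fun s hs => (hg s hs).2.continuousAt.continuousWithinAt)
    fun s hs => (hg s (Ioo_subset_Icc_self hs)).2
  have := (hg s (Ioo_subset_Icc_self hs)).1
  rw [he] at this
  simpa [hv, dotProduct_sub] using this

/-- the TAP free energy -/
def FF (J : Mx n) (b : ℝ) (y p : V n) : ℝ :=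
  ∑ i, hh (p i) - 1 / 2 * (p ⬝ᵥ J *ᵥ p) - n * b / 4 * avg (DD p) ^ 2 - y ⬝ᵥ p

lemma hasDerivAt_FF {J : Mx n} (hJ : Jᵀ = J) (b : ℝ) (y v : V n) {p : V n} (hp : Oc p) :
    HasDerivAt (fun s : ℝ => FF J b y (p + s • v)) (v ⬝ᵥ (Ymap J b (ath p) - y)) 0 := by
  have hl := hasDerivAt_line p v 0
  have h1 : HasDerivAt (fun s : ℝ => ∑ i, hh ((p + s • v) i)) (∑ i, Real.artanh (p i) * v i) 0 :=
    HasDerivAt.fun_sum fun i _ => by
      have := HasDerivAt.comp (h₂ := hh) (h₂' := Real.artanh (p i)) 0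
        (by simpa using hasDerivAt_hh (hp i)) (hasDerivAt_pi.1 hl i)
      exact this
  have h2 : HasDerivAt (fun s : ℝ => (p + s • v) ⬝ᵥ J *ᵥ (p + s • v))
      (v ⬝ᵥ J *ᵥ p + p ⬝ᵥ J *ᵥ v) 0 := by
    have := HasDerivAt.fun_sum (u := Finset.univ) fun i _ =>
      (hasDerivAt_pi.1 hl i).mul (hasDerivAt_pi.1 (hasDerivAt_mulVec J hl) i)
    simpa [dotProduct, Finset.sum_add_distrib] using this
  have h := ((h1.sub (h2.const_mul (1 / 2))).sub
    (((hasDerivAt_avgDD hl).pow 2).const_mul (n * b / 4))).sub (hasDerivAt_dot hl y)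
  refine h.congr_deriv ?_
  have e : p ⬝ᵥ J *ᵥ v = v ⬝ᵥ J *ᵥ p := by
    rw [dotProduct_mulVec, ← mulVec_transpose, hJ, dotProduct_comm]
  have e2 : ∑ i, Real.artanh (p i) * v i = v ⬝ᵥ ath p := dotProduct_comm (ath p) v
  rw [Ymap, th_ath hp, e, e2, dotProduct_sub, dotProduct_add, dotProduct_sub, dotProduct_smul,
    dotProduct_comm y, dotProduct_comm v p]
  simp only [zero_smul, add_zero, smul_eq_mul]
  rcases Nat.eq_zero_or_pos n with rfl | hn
  · simp [dotProduct]
  · have : (n : ℝ) ≠ 0 := by positivity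
    field_simp; ring

lemma continuousAt_FF (J : Mx n) (b : ℝ) (y : V n) {p : V n} (hp : Oc p) :
    ContinuousAt (FF J b y) p := by
  have h1 : ContinuousAt (fun p : V n => ∑ i, hh (p i)) p :=
    tendsto_finsetSum _ fun i _ => ContinuousAt.comp (f := fun p : V n => p i)
      (hasDerivAt_hh (hp i)).continuousAt (continuous_apply i).continuousAt
  have h2 : Continuous fun p : V n => avg (DD p) := by unfold avg DD; fun_prop
  exact ((h1.sub (by fun_prop)).sub ((h2.pow 2).const_mul _).continuousAt).sub (by fun_prop)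

/-- variational inequality on a compact convex set -/
lemma vi {J : Mx n} (hJ : Jᵀ = J) (b : ℝ) (y : V n) {K : Set (V n)} (hK : IsCompact K)
    (hc : Convex ℝ K) (hne : K.Nonempty) (ho : ∀ p ∈ K, Oc p) :
    ∃ p ∈ K, ∀ q ∈ K, 0 ≤ (q - p) ⬝ᵥ (Ymap J b (ath p) - y) := by
  obtain ⟨p, hp, hmin⟩ := hK.exists_isMinOn hne
    fun p hp => (continuousAt_FF J b y (ho p hp)).continuousWithinAt
  refine ⟨p, hp, fun q hq => ?_⟩
  have h := (hasDerivAt_FF hJ b y (q - p) (ho p hp)).tendsto_slope_zero_right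
  refine ge_of_tendsto h ?_
  filter_upwards [Ioo_mem_nhdsGT zero_lt_one] with s hs
  have := hmin (hc.add_smul_sub_mem hp hq (Ioo_subset_Icc_self hs))
  simp only [zero_add, zero_smul, add_zero, smul_eq_mul]
  exact mul_nonneg (inv_nonneg.2 hs.1.le) (sub_nonneg.2 this)

/-- the core existence lemma -/
lemma core {J : Mx n} (hJ : Jᵀ = J) (b : ℝ) (y x0 : V n) {C : Set (V n)} (hC : IsClosed C)
    (hc : Convex ℝ C) (h0 : th x0 ∈ C) :
    ∃ p ∈ C, Oc p ∧ 0 ≤ (th x0 - p) ⬝ᵥ (Ymap J b (ath p) - y) ∧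
      ∀ ε > (0 : ℝ), (∀ q, nrm (q - p) ≤ ε → q ∈ C) → Ymap J b (ath p) = y := by
  set M := opn J * √n + |b| + nrm y + nrm x0 + 1 with hM
  have hJ0 : 0 ≤ opn J * √n := mul_nonneg (opn_nonneg _) (Real.sqrt_nonneg _)
  have hy0 := nrm_nonneg y
  have hx0 := nrm_nonneg x0
  have hb0 := abs_nonneg b
  have hmono : Monotone Real.tanh := monotone_of_deriv_nonneg
    (fun x => (hasDerivAt_tanh' x).differentiableAt) fun x => by
      rw [(hasDerivAt_tanh' x).deriv]
      exact (one_sub_sq_pos (abs_lt.2 ⟨Real.neg_one_lt_tanh _, Real.tanh_lt_one _⟩)).le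
  set lo : V n := fun _ => Real.tanh (-M)
  set hi : V n := fun _ => Real.tanh M
  have hoc : ∀ p ∈ C ∩ Icc lo hi, Oc p := fun p hp i =>
    abs_lt.2 ⟨(Real.neg_one_lt_tanh _).trans_le (hp.2.1 i), (hp.2.2 i).trans_lt (Real.tanh_lt_one _)⟩
  have hx : th x0 ∈ C ∩ Icc lo hi := ⟨h0, fun i => hmono (by
      linarith [(abs_le.1 (abs_apply_le_nrm x0 i)).1]), fun i => hmono (by
      linarith [(abs_le.1 (abs_apply_le_nrm x0 i)).2])⟩
  obtain ⟨p, hp, hvi⟩ := vi hJ b y (isCompact_Icc.inter_left hC) (hc.inter (convex_Icc _ _))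
    ⟨_, hx⟩ hoc
  have hop := hoc p hp
  have hcb : Cb p := fun i => (hop i).le
  refine ⟨p, hp.1, hop, hvi _ hx, fun ε hε hball => ?_⟩
  funext i
  set G := Ymap J b (ath p) i - y i with hG
  have step : ∀ t : ℝ, |t| ≤ ε → lo i ≤ p i + t → p i + t ≤ hi i → 0 ≤ t * G := by
    intro t ht h1 h2
    have hq : p + t • (Pi.single i 1 : V n) ∈ C ∩ Icc lo hi := by
      refine ⟨hball _ (by rw [add_sub_cancel_left, nrm_smul, nrm_single, mul_one]; exact ht),
        fun j => ?_, fun j => ?_⟩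
      · by_cases hj : j = i
        · subst hj; simpa using h1
        · simpa [hj] using hp.2.1 j
      · by_cases hj : j = i
        · subst hj; simpa using h2
        · simpa [hj] using hp.2.2 j
    have := hvi _ hq
    rwa [add_sub_cancel_left, smul_dotProduct, single_dotProduct, one_mul] at this
  have hrest : |G - Real.artanh (p i)| < M := by
    have e : G - Real.artanh (p i) = -(J *ᵥ p) i + b * avg (DD p) * p i - y i := by
      simp only [hG, Ymap, th_ath hop, Pi.add_apply, Pi.sub_apply, Pi.smul_apply, smul_eq_mul, ath]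
      ring
    have h1 : |(J *ᵥ p) i| ≤ opn J * √n := (abs_apply_le_nrm _ i).trans
      ((nrm_mulVec_le _ _).trans (mul_le_mul_of_nonneg_left hcb.nrm_le (opn_nonneg _)))
    have h2 : |b * avg (DD p) * p i| ≤ |b| := by
      rw [abs_mul, abs_mul, abs_of_nonneg (avg_nonneg hcb.DD_nonneg), mul_assoc]
      exact mul_le_of_le_one_right hb0
        (mul_le_one₀ (avg_le_one (DD_le p)) (abs_nonneg _) (hcb i))
    have h3 := abs_apply_le_nrm y i
    rw [e, abs_lt]
    constructor <;> linarith [abs_le.1 h1, abs_le.1 h2, abs_le.1 h3]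
  have hlo : lo i ≤ p i := hp.2.1 i
  have hhi : p i ≤ hi i := hp.2.2 i
  rcases lt_trichotomy G 0 with h | h | h
  · have h1 : p i < hi i := hhi.lt_of_ne fun e => by
      rw [e, Real.artanh_tanh] at hrest; linarith [(abs_lt.1 hrest).1]
    have h2 : 0 < min ε (hi i - p i) := lt_min hε (by linarith)
    have := step _ ((abs_of_pos h2).trans_le (min_le_left _ _)) (by linarith)
      (by linarith [min_le_right ε (hi i - p i)])
    nlinarith
  · exact sub_eq_zero.1 h
  · have h1 : lo i < p i := hlo.lt_of_ne fun e => by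
      rw [← e, Real.artanh_tanh] at hrest; linarith [(abs_lt.1 hrest).2]
    have h2 : 0 < min ε (p i - lo i) := lt_min hε (by linarith)
    have := step (-min ε (p i - lo i)) (by rw [abs_neg, abs_of_pos h2]; exact min_le_left _ _)
      (by linarith [min_le_right ε (p i - lo i)]) (by linarith)
    nlinarith

lemma le_of_sq {c a L : ℝ} (ha : 0 ≤ a) (hL : 0 ≤ L) (h : c * (a * a) ≤ a * L) : c * a ≤ L := by
  rcases ha.eq_or_lt with h0 | h0
  · rw [← h0, mul_zero]; exact hL
  · exact le_of_mul_le_mul_left (by linarith) h0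

lemma sq_le_exp_add (t : ℝ) : t ^ 2 ≤ Real.exp t + Real.exp (-t) := by
  have h1 : |t / 2| ≤ |Real.sinh (t / 2)| := by
    rw [Real.abs_sinh]; exact Real.self_le_sinh_iff.2 (abs_nonneg _)
  have h2 := sq_le_sq.2 h1
  have h3 := Real.cosh_two_mul (t / 2)
  rw [Real.cosh_sq, show 2 * (t / 2) = t by ring, Real.cosh_eq] at h3
  nlinarith

/-- Jensen for the tilted measure -/
lemma mean_exp_le {w : Cube n → ℝ} (hw : SL.Wt w) (u : V n) :
    mean w (fun x => Real.exp (u ⬝ᵥ sv x)) ≤ Real.exp (u ⬝ᵥ mag (tilt w u)) := by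
  set a := u ⬝ᵥ mag (tilt w u) with ha
  have hZ : 0 < mean w fun x => Real.exp (u ⬝ᵥ sv x) := by
    obtain ⟨x, hx⟩ := hw.exists_pos
    exact (hw.mean_pos_iff fun x => (Real.exp_pos _).le).2 ⟨x, hx, Real.exp_pos _⟩
  have e : a * mean w (fun x => Real.exp (u ⬝ᵥ sv x)) =
      mean w fun x => Real.exp (u ⬝ᵥ sv x) * (u ⬝ᵥ sv x) := by
    rw [ha, mag, SL.meanV_dot, ← eq_div_iff hZ.ne']
    exact SL.mean_mul_weight w _ _ hw.pos.ne'
  have h := hw.mean_le (f := fun x => (1 + a) * Real.exp (u ⬝ᵥ sv x) -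
      Real.exp (u ⬝ᵥ sv x) * (u ⬝ᵥ sv x)) (c := Real.exp a) fun x => by
    have h1 := Real.add_one_le_exp (a - u ⬝ᵥ sv x)
    have h2 : Real.exp a = Real.exp (a - u ⬝ᵥ sv x) * Real.exp (u ⬝ᵥ sv x) := by
      rw [← Real.exp_add, sub_add_cancel]
    rw [h2]
    nlinarith [Real.exp_pos (u ⬝ᵥ sv x)]
  rw [SL.mean_sub, SL.mean_const_mul] at h
  linarith

lemma nrm_mul_le (α β : V n) : nrm (fun i => α i * β i) ≤ nrm α * nrm β := by
  have e : (fun i => α i * β i) = diagonal α *ᵥ β := funext fun i => (mulVec_diagonal _ _ _).symm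
  rw [e]
  exact (nrm_mulVec_le _ _).trans (mul_le_mul_of_nonneg_right
    (opn_diagonal_le (nrm_nonneg _) (abs_apply_le_nrm α)) (nrm_nonneg _))

/-- diagonal and trace of a sandwiched rank-one matrix -/
lemma rk_le {b L1 L2 : ℝ} {p : V n} (hb : b ∈ Icc (0 : ℝ) 1) (hp : Cb p) {X Y : Mx n}
    (hX : opn X ≤ L1) (hY : opn Y ≤ L2) :
    nrm (fun i => (X * ((2 * b / n) • vecMulVec p p) * Y) i i) ≤ 2 * (L1 * L2) ∧
    nrm (fun _ : Fin n => b / n * (X * ((2 * b / n) • vecMulVec p p) * Y).trace) ≤ 2 * (L1 * L2) := by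
  rcases Nat.eq_zero_or_pos n with rfl | hn
  · have := (opn_nonneg _).trans hX
    have := (opn_nonneg _).trans hY
    simp only [nrm, dotProduct, Finset.univ_eq_empty, Finset.sum_empty, Real.sqrt_zero]
    constructor <;> positivity
  have hn' : (1 : ℝ) ≤ n := by exact_mod_cast hn
  have hb0 := hb.1
  have e : X * ((2 * b / n) • vecMulVec p p) * Y = (2 * b / n) • vecMulVec (X *ᵥ p) (Yᵀ *ᵥ p) := by
    rw [Matrix.mul_smul, Matrix.smul_mul, mul_vecMulVec, vecMulVec_mul, mulVec_transpose]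
  have h1 : 2 * b / n * (nrm (X *ᵥ p) * nrm (Yᵀ *ᵥ p)) ≤ 2 * (L1 * L2) := by
    have a1 := (nrm_mulVec_le X p).trans (mul_le_mul hX hp.nrm_le (nrm_nonneg _)
      ((opn_nonneg _).trans hX))
    have a2 := (nrm_mulVec_le Yᵀ p).trans (mul_le_mul ((opn_transpose Y).trans_le hY) hp.nrm_le
      (nrm_nonneg _) ((opn_nonneg _).trans hY))
    have a3 := (opn_nonneg _).trans hX
    have a4 := (opn_nonneg _).trans hY
    have a5 := nrm_nonneg (Yᵀ *ᵥ p)
    have a6 := nrm_nonneg (X *ᵥ p)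
    calc _ ≤ 2 * 1 / n * (L1 * √n * (L2 * √n)) := by gcongr; exact hb.2
      _ = 2 * (L1 * L2) * (√n * √n / n) := by ring
      _ = _ := by rw [Real.mul_self_sqrt (by positivity), div_self (by positivity), mul_one]
  rw [e]
  constructor
  · have e2 : (fun i => ((2 * b / n) • vecMulVec (X *ᵥ p) (Yᵀ *ᵥ p)) i i) =
        (2 * b / n) • fun i => (X *ᵥ p) i * (Yᵀ *ᵥ p) i := rfl
    rw [e2, nrm_smul, abs_of_nonneg (by positivity)]
    exact (mul_le_mul_of_nonneg_left (nrm_mul_le _ _) (by positivity)).trans h1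
  · set t := ((2 * b / n) • vecMulVec (X *ᵥ p) (Yᵀ *ᵥ p)).trace with ht
    have h2 : |t| ≤ 2 * (L1 * L2) := by
      rw [ht, trace_smul, trace_vecMulVec, smul_eq_mul, abs_mul, abs_of_nonneg (by positivity)]
      exact (mul_le_mul_of_nonneg_left (abs_dot_le _ _) (by positivity)).trans h1
    have e2 : (fun _ : Fin n => b / n * t) = (b / n * t) • (1 : V n) := by funext i; simp
    have h3 : nrm (1 : V n) ≤ n := (Cb.nrm_le fun i => by simp).trans
      (Real.sqrt_le_iff.2 ⟨by positivity, by nlinarith⟩)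
    have h4 := nrm_nonneg (1 : V n)
    rw [e2, nrm_smul, abs_mul, abs_of_nonneg (by positivity)]
    calc b / n * |t| * nrm (1 : V n) ≤ 1 / n * |t| * n := by gcongr; exact hb.2
      _ = |t| := by field_simp
      _ ≤ _ := h2

end Ex80

open Ex80

theorem exStmt : ExStmt := by
  intro n J b hJ
  refine ⟨fun y => ?_, fun c r p0 hc hG => ⟨fun x x' hx hx' => ?_, fun x0 y h => ?_⟩⟩
  · obtain ⟨p, -, -, -, h⟩ := core hJ b y 0 isClosed_univ convex_univ (mem_univ _)
    exact ⟨_, h 1 one_pos fun _ _ => mem_univ _⟩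
  · have h := mono hc hG (th_lt x') (th_lt x) hx' hx
    rw [ath_th, ath_th, ← nrm_mul_self] at h
    exact le_of_sq (nrm_nonneg _) (nrm_nonneg _) (h.trans (dot_le _ _))
  · have h1 : 0 ≤ nrm (y - Ymap J b x0) / c := div_nonneg (nrm_nonneg _) hc.le
    have h0 : nrm (th x0 - p0) ≤ r := by linarith
    obtain ⟨p, hp, hop, hvi, hfin⟩ := core hJ b y x0 (C := {p | nrm (p - p0) ≤ r})
      (isClosed_le (continuous_nrm.comp (by fun_prop)) continuous_const) (convex_ball p0 r) h0
    have h2 := mono hc hG hop (th_lt x0) hp h0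
    rw [ath_th, ← nrm_mul_self] at h2
    have h3 : c * nrm (th x0 - p) ≤ nrm (y - Ymap J b x0) := by
      refine le_of_sq (nrm_nonneg _) (nrm_nonneg _) ?_
      have h4 := dot_le (th x0 - p) (Ymap J b x0 - y)
      rw [← neg_sub y, nrm_neg, neg_sub] at h4
      simp only [dotProduct_sub] at h2 h4 hvi
      linarith
    have h4 : nrm (p - p0) < r := by
      have h5 := nrm_sub_le (th x0 - p0) (th x0 - p)
      rw [show th x0 - p0 - (th x0 - p) = p - p0 by abel] at h5
      have : nrm (th x0 - p) ≤ nrm (y - Ymap J b x0) / c := by rw [le_div_iff₀ hc]; linarith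
      linarith
    refine ⟨ath p, hfin (r - nrm (p - p0)) (by linarith) fun q hq => ?_, by rwa [th_ath hop]⟩
    have h5 := nrm_add_le (q - p) (p - p0)
    rw [sub_add_sub_cancel] at h5
    exact le_trans h5 (by linarith)

theorem lipCovStmt : LipCovStmt := by
  intro n w A hw hA u
  have hW := SL.Wt.of_pos hw
  have key : ∀ e : V n, nrm e ≤ 1 →
      mean w (fun x => Real.exp (e ⬝ᵥ sv x - e ⬝ᵥ mag w)) ≤ Real.exp A := fun e he => by
    have h1 := (dot_le e _).trans (mul_le_mul he (hA e he) (nrm_nonneg _) zero_le_one)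
    rw [dotProduct_sub] at h1
    simp only [Real.exp_sub, SL.mean_div_const]
    rw [div_le_iff₀ (Real.exp_pos _), ← Real.exp_add]
    exact (mean_exp_le hW e).trans (Real.exp_le_exp.2 (by linarith))
  have unit : ∀ e : V n, nrm e ≤ 1 → e ⬝ᵥ covM w *ᵥ e ≤ 2 * Real.exp A := fun e he => by
    have h1 := key e he
    have h2 := key (-e) (by rwa [nrm_neg])
    rw [covM, SL.covMat_quad, SL.cov_eq_mean, ← SL.meanV_dot]
    refine le_trans (hW.mean_mono (g := fun x => Real.exp (e ⬝ᵥ sv x - e ⬝ᵥ mag w) +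
      Real.exp ((-e) ⬝ᵥ sv x - (-e) ⬝ᵥ mag w)) fun x => ?_) (by rw [SL.mean_add]; linarith)
    have := sq_le_exp_add (e ⬝ᵥ sv x - e ⬝ᵥ mag w)
    rw [neg_dotProduct, neg_dotProduct, neg_sub_neg, ← sq, ← neg_sub (e ⬝ᵥ sv x)]
    exact this
  rcases eq_or_ne u 0 with rfl | hu
  · simp
  · have h0 := nrm_pos hu
    have h := unit ((nrm u)⁻¹ • u) (by
      rw [nrm_smul, abs_of_pos (inv_pos.2 h0), inv_mul_cancel₀ h0.ne'])
    rw [mulVec_smul, smul_dotProduct, dotProduct_smul, smul_eq_mul, smul_eq_mul,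
      inv_mul_le_iff₀ h0, inv_mul_le_iff₀ h0] at h
    rw [← nrm_mul_self]; linarith

theorem errStmt : ErrStmt := by
  intro c hc K
  refine ⟨8 * (1 + (K + 5) * (1 / c) + 1 / c + K) ^ 4, fun n J S b k p hJ hK hS hb hp h1 => ?_⟩
  set L := 1 + (K + 5) * (1 / c) + 1 / c + K with hL
  set d := dd p
  set E : Mx n := (2 * b / n) • vecMulVec p p with hE
  have hK0 : 0 ≤ K := (opn_nonneg _).trans hK
  have hc' : 0 < 1 / c := by positivity
  have hB : B1 J b p = B0 J b d + E := rfl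
  have h0 : Pos c (NN (B0 J b d) d) := fun u => by
    refine (h1 u).trans ?_
    have hb0 := hb.1
    have : 0 ≤ u ⬝ᵥ (diagonal d * E * diagonal d) *ᵥ u := by
      rw [← mulVec_mulVec, ← mulVec_mulVec, dotProduct_mulVec, ← mulVec_transpose,
        diagonal_transpose, hE, smul_mulVec, Cond.vmv_mulVec, dotProduct_smul, dotProduct_smul,
        dotProduct_comm _ p, smul_eq_mul, smul_eq_mul]
      exact mul_nonneg (by positivity) (mul_self_nonneg _)
    simp only [NN, hB, Matrix.mul_add, Matrix.add_mul, sub_mulVec, add_mulVec, dotProduct_sub,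
      dotProduct_add] at this ⊢
    linarith
  refine ⟨h0, ?_⟩
  have u0 := h0.isUnit_det hc
  have u1 := h1.isUnit_det hc
  have g0 := opn_GG_le h0 hc (ub_dd p).abs_le
  have g1 := opn_GG_le h1 hc (ub_dd p).abs_le
  have b1 := opn_B1_le hK hb hp
  have b0 : opn (B0 J b d) ≤ K + 5 := by
    have h2 := avg_nonneg (f := fun i => d i ^ 2) fun i => sq_nonneg _
    have h3 := avg_le_one (f := fun i => d i ^ 2) fun i => (hp.dd_sq i).trans_le (DD_le p i)
    have h4 : opn ((b * avg fun i => d i ^ 2) • (1 : Mx n)) ≤ 1 := by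
      rw [opn_smul, abs_of_nonneg (mul_nonneg hb.1 h2)]
      exact mul_le_one₀ (mul_le_one₀ hb.2 h2 h3) (opn_nonneg _) opn_one_le
    exact (opn_sub_le J _).trans (by linarith)
  have rr : ∀ B : Mx n, opn B ≤ K + 5 → opn (GG B d) ≤ 1 / c → opn (RR B d) ≤ L := fun B hB hG => by
    have := (opn_mul_le B (GG B d)).trans (mul_le_mul hB hG (opn_nonneg _) (by linarith))
    exact (opn_add_le 1 _).trans (by linarith [opn_one_le (ι := Fin n)])
  have r0 := rr _ b0 g0
  have r1 := rr _ (b1.trans (by linarith)) g1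
  have hp5 : 0 ≤ (K + 5) * (1 / c) := by positivity
  replace g0 : opn (GG (B0 J b d) d) ≤ L := by linarith
  replace g1 : opn (GG (B1 J b p) d) ≤ L := by linarith
  replace hS : opn S ≤ L := by linarith
  have hL0 : 0 ≤ L := by linarith
  have eR : RR (B1 J b p) d = RR (B0 J b d) d + RR (B1 J b p) d * E * GG (B0 J b d) d := by
    have a1 := RR_mul_sub u1
    have a0 := sub_mul_RR u0
    rw [GG_eq u0]
    calc RR (B1 J b p) d = RR (B1 J b p) d * ((1 - B0 J b d * diagonal fun i => d i * d i) *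
          RR (B0 J b d) d) := by rw [a0, Matrix.mul_one]
      _ = RR (B1 J b p) d * (1 - B1 J b p * diagonal fun i => d i * d i) * RR (B0 J b d) d +
          RR (B1 J b p) d * E * ((diagonal fun i => d i * d i) * RR (B0 J b d) d) := by
        rw [hB]; noncomm_ring
      _ = _ := by rw [a1, Matrix.one_mul]
  have eG : GG (B1 J b p) d = GG (B0 J b d) d + GG (B1 J b p) d * E * GG (B0 J b d) d := by
    nth_rewrite 1 [GG_eq u1, eR]
    rw [Matrix.mul_add, ← GG_eq u0, ← Matrix.mul_assoc, ← Matrix.mul_assoc, ← GG_eq u1]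
  have hET : Eᵀ = E := by rw [hE, transpose_smul, transpose_vecMulVec]
  unfold err
  generalize GG (B0 J b d) d = G0 at *
  generalize GG (B1 J b p) d = G1 at *
  generalize RR (B0 J b d) d = R0 at *
  generalize RR (B1 J b p) d = R1 at *
  have m3 : ∀ X Y Z : Mx n, opn X ≤ L → opn Y ≤ L → opn Z ≤ L → opn (X * Y * Z) ≤ L ^ 3 :=
    fun X Y Z hX hY hZ => by
      have := opn_nonneg Y
      have := opn_nonneg Z
      calc _ ≤ opn X * opn Y * opn Z :=
            (opn_mul_le _ _).trans (mul_le_mul_of_nonneg_right (opn_mul_le _ _) this)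
        _ ≤ L * L * L := by gcongr
        _ = _ := by ring
  have r1' : opn R1ᵀ ≤ L := (opn_transpose _).trans_le r1
  have t1 := (rk_le hb hp g1 (m3 _ _ _ g0 hS g1)).2
  have t2 := (rk_le hb hp (m3 _ _ _ g0 hS g1) g0).2
  have t3 := (rk_le hb hp r1 (m3 _ _ _ g0 hS r1')).1
  have t4 := (rk_le hb hp (m3 _ _ _ r0 hS ((opn_transpose _).trans_le g0)) r1').1
  rw [← hE] at t1 t2 t3 t4
  have e1 : G1 * S * G1 = G0 * S * G0 + G1 * E * (G0 * S * G1) + G0 * S * G1 * E * G0 := by
    calc G1 * S * G1 = (G0 + G1 * E * G0) * S * G1 := by rw [← eG]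
      _ = G0 * S * G1 + G1 * E * (G0 * S * G1) := by noncomm_ring
      _ = G0 * S * (G0 + G1 * E * G0) + G1 * E * (G0 * S * G1) := by rw [← eG]
      _ = _ := by noncomm_ring
  have e2 : R1 * S * R1ᵀ = R0 * S * R0ᵀ + R1 * E * (G0 * S * R1ᵀ) + R0 * S * G0ᵀ * E * R1ᵀ := by
    have eT : R1ᵀ = R0ᵀ + G0ᵀ * E * R1ᵀ := by
      nth_rewrite 1 [eR]
      rw [transpose_add, transpose_mul, transpose_mul, hET, Matrix.mul_assoc]
    calc R1 * S * R1ᵀ = (R0 + R1 * E * G0) * S * R1ᵀ := by rw [← eR]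
      _ = R0 * S * R1ᵀ + R1 * E * (G0 * S * R1ᵀ) := by noncomm_ring
      _ = R0 * S * (R0ᵀ + G0ᵀ * E * R1ᵀ) + R1 * E * (G0 * S * R1ᵀ) := by rw [← eT]
      _ = _ := by noncomm_ring
  have e3 : (fun i => k + b / n * (G1 * S * G1).trace - (R1 * S * R1ᵀ) i i) =
      (fun i => k + b / n * (G0 * S * G0).trace - (R0 * S * R0ᵀ) i i) +
      (((fun _ : Fin n => b / n * (G1 * E * (G0 * S * G1)).trace) +
        fun _ : Fin n => b / n * (G0 * S * G1 * E * G0).trace) -
      ((fun i => (R1 * E * (G0 * S * R1ᵀ)) i i) + fun i => (R0 * S * G0ᵀ * E * R1ᵀ) i i)) := by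
    funext i
    rw [e1, e2]
    simp only [trace_add, Pi.add_apply, Pi.sub_apply, Matrix.add_apply]
    ring
  rw [e3]
  refine (nrm_add_le _ _).trans (add_le_add_right ((nrm_sub_le _ _).trans ?_) _)
  refine (add_le_add (nrm_add_le _ _) (nrm_add_le _ _)).trans ?_
  nlinarith

end Crest.Agent.T157.Tap
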