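import Crest.Agent.T157.LpDef_17
import Crest.Agent.T157.TapEx_80

/-!
# Row 157, part A: existence, inverse Lipschitz bound and concavity for the penalised TAP functional
(helper80)
-/

set_option autoImplicit false

noncomputable section

namespace Crest.Agent.T157.Lp

open Matrix Filter Set Topology
open Crest.Agent.T157.E Crest.Agent.T157.Eig Crest.Agent.T157.Tap Crest.Agent.T157.Tap.Ex80

namespace Ex80

variable {n : ℕ}

lemma YE_eq (J E : Mx n) (b : ℝ) (p0 x : V n) : YE J b E p0 x = Ymap (J - E) b x - E *ᵥ p0 := by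
  simp only [YE, Ymap, sub_mulVec, mulVec_sub]; abel

lemma B1_sub (J E : Mx n) (b : ℝ) (p : V n) : B1 (J - E) b p = B1 J b p - E := by
  simp only [B1, B0]; abel

lemma goodE_iff (J E : Mx n) (b c r : ℝ) (p0 : V n) :
    GoodE J b E c r p0 ↔ GoodB (J - E) b c r p0 := by
  simp only [GoodE, GoodB, B1_sub]

lemma hb2_eq (t : ℝ) : hb2 t = Real.log 2 - hh (Real.tanh t) := by
  have hc := Real.cosh_pos t
  have e : 1 - Real.tanh t ^ 2 = (Real.cosh t ^ 2)⁻¹ := by
    rw [Real.tanh_eq_sinh_div_cosh]; field_simp; exact Real.cosh_sq_sub_sinh_sq t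
  rw [hb2, hh, Real.artanh_tanh, e, Real.log_inv, Real.log_pow, Real.log_mul two_ne_zero hc.ne']
  push_cast; ring

lemma Phi_eq (J : Mx n) (b : ℝ) (y x : V n) : Phi J b y x = n * Real.log 2 - FF J b y (th x) := by
  simp only [Phi, FF, hb2_eq, Finset.sum_sub_distrib, Finset.sum_const, Finset.card_univ,
    Fintype.card_fin, nsmul_eq_mul, th]
  ring

lemma PhiE_eq (J : Mx n) {E : Mx n} (hE : Eᵀ = E) (b : ℝ) (p0 y x : V n) :
    PhiE J b E p0 y x = Phi (J - E) b (y + E *ᵥ p0) x - 1 / 2 * (p0 ⬝ᵥ E *ᵥ p0) := by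
  have e : p0 ⬝ᵥ E *ᵥ th x = th x ⬝ᵥ E *ᵥ p0 := by
    rw [dotProduct_mulVec, ← mulVec_transpose, hE, dotProduct_comm]
  simp only [PhiE, Phi, sub_mulVec, mulVec_sub, dotProduct_sub, sub_dotProduct, add_dotProduct, e,
    dotProduct_comm (E *ᵥ p0)]
  ring

/-- convexity of the TAP free energy on a good ball -/
lemma FF_convex {J : Mx n} (hJ : Jᵀ = J) {b c r : ℝ} {p0 p q : V n} (hc : 0 < c)
    (hG : GoodB J b c r p0) (hp : Oc p) (hq : Oc q) (hpr : nrm (p - p0) ≤ r)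
    (hqr : nrm (q - p0) ≤ r) (y : V n) :
    FF J b y p + (q - p) ⬝ᵥ (Ymap J b (ath p) - y) ≤ FF J b y q := by
  set v := q - p with hv
  have key : ∀ s ∈ Icc (0 : ℝ) 1, HasDerivAt (fun s : ℝ => FF J b y (p + s • v))
      (v ⬝ᵥ (Ymap J b (ath (p + s • v)) - y)) s := fun s hs => by
    have h := hasDerivAt_FF hJ b y v (hp.seg hq hs)
    rw [← sub_self s] at h
    have h' := h.comp_sub_const s s
    simpa only [← hv, sub_smul, add_assoc, add_sub_cancel] using h'
  obtain ⟨s, hs, he⟩ := exists_hasDerivAt_eq_slope _ _ zero_lt_one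
    (fun s hs => (key s hs).continuousAt.continuousWithinAt)
    fun s hs => key s (Ioo_subset_Icc_self hs)
  have hs' := Ioo_subset_Icc_self hs
  have hm := mono hc hG hp (hp.seg hq hs') hpr ((Tap.Ex80.convex_ball p0 r).add_smul_sub_mem hpr hqr hs')
  rw [← hv, add_sub_cancel_left, ← nrm_mul_self, smul_dotProduct, smul_eq_mul] at hm
  have h0 := nonneg_of_mul_nonneg_right
    ((mul_nonneg hc.le (mul_self_nonneg _)).trans hm) hs.1
  simp only [one_smul, zero_smul, add_zero, sub_zero, div_one, hv, add_sub_cancel] at he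
  simp only [dotProduct_sub, ← hv] at h0 he ⊢
  linarith

lemma Phi_concave {J : Mx n} (hJ : Jᵀ = J) {b c r : ℝ} {p0 x x' : V n} (hc : 0 < c)
    (hG : GoodB J b c r p0) (hx : nrm (th x - p0) ≤ r) (hx' : nrm (th x' - p0) ≤ r) (y : V n) :
    Phi J b y x ≤ Phi J b y x' + (y - Ymap J b x') ⬝ᵥ (th x - th x') := by
  have h := FF_convex hJ hc hG (th_lt x') (th_lt x) hx' hx y
  rw [ath_th, dotProduct_comm, ← neg_sub y, neg_dotProduct] at h
  rw [Phi_eq, Phi_eq]; linarith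

end Ex80

open Ex80

theorem exEStmt : ExEStmt := by
  intro n J E b c r p0 hJ hE hc hG
  have hJE : (J - E)ᵀ = J - E := by rw [transpose_sub, hJ, hE]
  rw [goodE_iff] at hG
  obtain ⟨h1, h2⟩ := (exStmt n (J - E) b hJE).2 c r p0 hc hG
  refine ⟨fun x x' hx hx' => ⟨?_, fun y => ?_⟩, fun x0 y h => ?_⟩
  · rw [YE_eq, YE_eq, sub_sub_sub_cancel_right]; exact h1 x x' hx hx'
  · have := Phi_concave hJE hc hG hx hx' (y + E *ᵥ p0)
    rw [PhiE_eq J hE, PhiE_eq J hE, YE_eq,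
      show y - (Ymap (J - E) b x' - E *ᵥ p0) = y + E *ᵥ p0 - Ymap (J - E) b x' by abel]
    linarith
  · rw [YE_eq, show y - (Ymap (J - E) b x0 - E *ᵥ p0) = y + E *ᵥ p0 - Ymap (J - E) b x0 by abel] at h
    obtain ⟨x, hx, hr⟩ := h2 x0 _ h
    exact ⟨x, by rw [YE_eq, hx, add_sub_cancel_right], hr⟩

end Crest.Agent.T157.Lp
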