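import Crest.Agent.T157.TapDef_29
import Crest.Agent.T157.ConcHW_16

/-!
# Row 157, part A: the frozen regime (helper10)

One application of the window lemma with the Hubbard-Stratonovich driver `Qᵀ Q = θ W + 3`.
-/

set_option autoImplicit false

noncomputable section

namespace Crest.Agent.T157.Tap

open MeasureTheory ProbabilityTheory Matrix Filter Set
open Crest.ProbabilityR.SpinGlassDynamics
open Crest.Agent.T157.E Crest.Agent.T157.Eig

namespace Froz10

variable {n : ℕ}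

theorem gv_normsq_tail (n : ℕ) :
    (gv (Fin n)).real {g | 10 * (n : ℝ) ≤ g ⬝ᵥ g} ≤ Real.exp (-(2 * n)) := by
  have h := Conc.normsq_tail (ι := Fin n) Conc.sg1_gauss (B := (1 : Mx n)) one_pos
    (fun y => by simp) (8 * n)
  have e1 : Conc.fro (1 : Mx n) = n := by simp [Conc.fro, one_apply]
  have e2 : -(8 * (n : ℝ) / (4 * 1 ^ 2)) = -(2 * n) := by ring
  rw [e1, e2] at h
  refine le_trans (le_of_eq ?_) h
  congr 1
  ext g
  simp only [mem_ofPred_eq, one_mulVec, Conc.en_sq]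
  simp only [dotProduct, sq]
  constructor <;> intro <;> linarith

theorem dot_add_le (u v : V n) : (u + v) ⬝ᵥ (u + v) ≤ 2 * (u ⬝ᵥ u) + 2 * (v ⬝ᵥ v) := by
  simp only [dotProduct, Pi.add_apply, Finset.mul_sum, ← Finset.sum_add_distrib]
  exact Finset.sum_le_sum fun i _ => by nlinarith [sq_nonneg (u i - v i)]

theorem exit_le {φ : Cube n → V n} (hφ : ∀ σ, φ σ ⬝ᵥ φ σ ≤ 6 * n) {w : Cube n → ℝ} (hw : SL.Wt w)
    {t : ℝ} (ht : t ∈ Icc (0 : ℝ) 1) :
    (SL.law φ w t).real {z | (8 * Real.sqrt n) ^ 2 ≤ 2 * (z ⬝ᵥ z)} ≤ Real.exp (-(2 * n)) := by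
  have hA : MeasurableSet {z : V n | (8 * Real.sqrt n) ^ 2 ≤ 2 * (z ⬝ᵥ z)} :=
    measurableSet_le measurable_const (by unfold dotProduct; fun_prop)
  rw [SL.law_real hw hA]
  refine hw.mean_le fun σ => ?_
  rw [SL.px, map_measureReal_apply (by fun_prop) hA]
  refine le_trans (measureReal_mono fun g hg => ?_) (gv_normsq_tail n)
  simp only [mem_preimage, mem_ofPred_eq] at hg ⊢
  have h1 := dot_add_le (t • φ σ) (Real.sqrt t • g)
  simp only [smul_dotProduct, dotProduct_smul, smul_eq_mul] at h1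
  rw [← mul_assoc (Real.sqrt t), Real.mul_self_sqrt ht.1] at h1
  rw [mul_pow, Real.sq_sqrt (Nat.cast_nonneg n)] at hg
  simp only [add_dotProduct, dotProduct_add, smul_dotProduct, dotProduct_smul, smul_eq_mul] at hg h1
  have h2 := dot_self_nonneg g
  have h3 := dot_self_nonneg (φ σ)
  have h4 : t * (t * (φ σ ⬝ᵥ φ σ)) ≤ 6 * n := by
    have : t * t ≤ 1 := mul_le_one₀ ht.2 ht.1 ht.2
    nlinarith [hφ σ]
  have h5 : t * (g ⬝ᵥ g) ≤ g ⬝ᵥ g := mul_le_of_le_one_left h2 ht.2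
  linarith

theorem sum_prod_cube (F : Fin n → Bool → ℝ) :
    ∑ y : Cube n, ∏ i, F i (y i) = ∏ i, (F i true + F i false) := by
  have := Finset.prod_univ_sum (fun _ : Fin n => (Finset.univ : Finset Bool)) F
  rw [Fintype.piFinset_univ] at this
  rw [← this]
  exact Finset.prod_congr rfl fun i _ => by simp

theorem mag_ising_zero (y : V n) : mag (ising 0 y) = th y := by
  funext i
  have e : ∀ x : Cube n, ising 0 y x = ∏ j, Real.exp (y j * spin (x j)) := fun x => by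
    simp [ising, dotProduct, sv, Real.exp_sum]
  have e1 : ∀ x : Cube n, (∏ j, Real.exp (y j * spin (x j))) * spin (x i) =
      ∏ j, (Real.exp (y j * spin (x j)) * if j = i then spin (x j) else 1) := fun x => by
    rw [Finset.prod_mul_distrib, Finset.prod_ite_eq']; simp
  simp only [mag, meanV, mean, prob, e, sv, div_mul_eq_mul_div, ← Finset.sum_div, e1]
  rw [sum_prod_cube fun j b => Real.exp (y j * spin b) * if j = i then spin b else 1,
    sum_prod_cube fun j b => Real.exp (y j * spin b), ← Finset.prod_div_distrib,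
    Finset.prod_eq_single i]
  · simp [spin, th, Real.tanh_eq_sinh_div_cosh, Real.sinh_eq, Real.cosh_eq, sub_eq_add_neg]
    field_simp
  · intro j _ hj
    simp only [hj, if_false, mul_one]
    exact div_self (by positivity)
  · simp

theorem abs_tanh_le (x : ℝ) : |Real.tanh x| ≤ 1 :=
  abs_le.2 ⟨(Real.neg_one_lt_tanh x).le, (Real.tanh_lt_one x).le⟩

theorem cb_th (x : V n) : Cb (th x) := fun i => abs_tanh_le (x i)

theorem one_sub_tanh_sq {T : ℝ} (hT : 0 < T) (x : ℝ) :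
    (Real.tanh x - 1) ^ 2 ≤ (4 + 16 * (x - T) ^ 2) / T ^ 2 := by
  have h0 := Real.tanh_lt_one x
  have h1 := Real.neg_one_lt_tanh x
  rw [le_div_iff₀ (by positivity)]
  rcases le_total (T / 2) x with h | h
  · have h2 : (1 - Real.tanh x) * T ≤ 2 := by
      have e : 1 - Real.tanh x = 2 / (Real.exp (2 * x) + 1) := by
        rw [Real.tanh_eq_sinh_div_cosh, Real.sinh_eq, Real.cosh_eq, two_mul, Real.exp_add,
          Real.exp_neg]
        field_simp
        ring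
      have := Real.add_one_le_exp (2 * x)
      rw [e, div_mul_eq_mul_div, div_le_iff₀ (by positivity)]
      linarith
    have h3 : 0 ≤ (1 - Real.tanh x) * T := mul_nonneg (by linarith) hT.le
    nlinarith [sq_nonneg (x - T)]
  · have h2 : T ^ 2 ≤ 4 * (x - T) ^ 2 := by nlinarith
    have h3 : (Real.tanh x - 1) ^ 2 ≤ 4 := by nlinarith
    nlinarith [mul_le_mul h3 h2 (sq_nonneg _) (by norm_num)]

theorem tanh_sub_spin_sq {T : ℝ} (hT : 0 < T) (x : ℝ) (b : Bool) :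
    (Real.tanh x - spin b) ^ 2 ≤ (4 + 16 * (x - T * spin b) ^ 2) / T ^ 2 := by
  cases b
  · have := one_sub_tanh_sq hT (-x)
    rw [Real.tanh_neg] at this
    simp only [spin, Bool.false_eq_true, if_false]
    convert this using 1 <;> ring
  · simpa [spin] using one_sub_tanh_sq hT x

theorem nrm_le_sqrt {p : V n} (hp : Cb p) : nrm p ≤ Real.sqrt n := by
  refine Real.sqrt_le_sqrt ?_
  refine (Finset.sum_le_card_nsmul _ _ 1 fun i _ => ?_).trans_eq (by simp)
  have := abs_le.1 (hp i)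
  nlinarith

theorem DD_nonneg {p : V n} (hp : Cb p) (i : Fin n) : 0 ≤ DD p i := by
  have := abs_le.1 (hp i)
  simp only [DD]; nlinarith

theorem avg_DD_nonneg {p : V n} (hp : Cb p) : 0 ≤ avg (DD p) :=
  div_nonneg (Finset.sum_nonneg fun i _ => DD_nonneg hp i) (Nat.cast_nonneg n)

theorem avg_DD_le (p : V n) : avg (DD p) ≤ 1 := by
  refine div_le_one_of_le₀ ?_ (Nat.cast_nonneg n)
  refine (Finset.sum_le_card_nsmul _ _ 1 fun i _ => ?_).trans_eq (by simp)
  simp only [DD]; nlinarith [sq_nonneg (p i)]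

theorem dd_sq {p : V n} (hp : Cb p) : (fun i => dd p i ^ 2) = DD p :=
  funext fun i => Real.sq_sqrt (DD_nonneg hp i)

theorem ub_dd (p : V n) : Ub (dd p) := fun i =>
  ⟨Real.sqrt_nonneg _, Real.sqrt_le_one.2 (by nlinarith [sq_nonneg (p i)])⟩

/-- every TAP solution is close to the field -/
theorem nrm_sub_le_of_sol {J : Mx n} {b : ℝ} (hJ : opn J ≤ 3) (hb : b ∈ Icc (0 : ℝ) 1) (x : V n) :
    nrm (x - Ymap J b x) ≤ 4 * Real.sqrt n := by
  have e : x - Ymap J b x = J *ᵥ th x - (b * avg (DD (th x))) • th x := by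
    rw [Ymap]; abel
  have h1 := nrm_le_sqrt (cb_th x)
  have h0 := nrm_nonneg (th x)
  have h2 := nrm_mulVec_le J (th x)
  have h3 : |b * avg (DD (th x))| ≤ 1 := by
    rw [abs_of_nonneg (mul_nonneg hb.1 (avg_DD_nonneg (cb_th x)))]
    exact mul_le_one₀ hb.2 (avg_DD_nonneg (cb_th x)) (avg_DD_le _)
  have h4 := nrm_sub_le (J *ᵥ th x) ((b * avg (DD (th x))) • th x)
  rw [nrm_smul] at h4
  rw [e]
  nlinarith [mul_le_mul_of_nonneg_right hJ h0, mul_le_mul_of_nonneg_right h3 h0]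

theorem ball_of_near (hn : 0 < n) {r T : ℝ} (hr : 0 < r) (hT : 400 / r ≤ T) (σ : Cube n) {x : V n}
    (hx : nrm (x - T • sv σ) ≤ (r / 8 * T + 45) * Real.sqrt n) :
    nrm (th x - sv σ) < r * Real.sqrt n := by
  have hn' : (0 : ℝ) < n := by exact_mod_cast hn
  have hT0 : 0 < T := lt_of_lt_of_le (by positivity) hT
  have hrT : 400 ≤ r * T := by rwa [div_le_iff₀' hr] at hT
  rw [nrm_le_iff (by positivity), mul_pow, Real.sq_sqrt hn'.le] at hx
  refine lt_of_pow_lt_pow_left₀ 2 (by positivity) ?_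
  rw [nrm_sq, mul_pow, Real.sq_sqrt hn'.le]
  have h1 : (th x - sv σ) ⬝ᵥ (th x - sv σ) ≤
      (4 * n + 16 * ((x - T • sv σ) ⬝ᵥ (x - T • sv σ))) / T ^ 2 := by
    refine (Finset.sum_le_sum fun i _ => ?_ : _ ≤ ∑ i, (4 + 16 * (x i - T * spin (σ i)) ^ 2) / T ^ 2).trans_eq ?_
    · rw [← sq]; exact tanh_sub_spin_sq hT0 (x i) (σ i)
    · rw [← Finset.sum_div, Finset.sum_add_distrib, ← Finset.mul_sum]
      simp [dotProduct, sv, sq, mul_comm]
  refine h1.trans_lt ?_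
  rw [div_lt_iff₀ (by positivity)]
  have h2 : 4 + 16 * (r / 8 * T + 45) ^ 2 < r ^ 2 * T ^ 2 := by nlinarith
  nlinarith [mul_lt_mul_of_pos_right h2 hn']

theorem avg_DD_ball (hn : 0 < n) {r : ℝ} (σ : Cube n) {p : V n} (hp : Cb p)
    (h : nrm (p - sv σ) ≤ r * Real.sqrt n) : avg (DD p) ≤ 2 * r := by
  have hn' : (0 : ℝ) < n := by exact_mod_cast hn
  have h1 : ∑ i, DD p i = -((p - sv σ) ⬝ᵥ (p + sv σ)) := by
    simp only [dotProduct, ← Finset.sum_neg_distrib, DD, Pi.sub_apply, Pi.add_apply, sv]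
    exact Finset.sum_congr rfl fun i _ => by have := spin_sq (σ i); nlinarith
  have h2 := abs_dot_le (p - sv σ) (p + sv σ)
  have h3 := nrm_add_le p (sv σ)
  have h4 := nrm_le_sqrt hp
  have h5 : nrm (sv σ) ≤ Real.sqrt n := nrm_le_sqrt fun i => (abs_spin _).le
  have h6 : nrm (p - sv σ) * nrm (p + sv σ) ≤ r * Real.sqrt n * (2 * Real.sqrt n) :=
    mul_le_mul h (by linarith) (nrm_nonneg _) ((nrm_nonneg _).trans h)
  have h7 : r * Real.sqrt n * (2 * Real.sqrt n) = 2 * r * n := by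
    rw [show r * Real.sqrt n * (2 * Real.sqrt n) = 2 * r * (Real.sqrt n * Real.sqrt n) by ring,
      Real.mul_self_sqrt hn'.le]
  rw [avg, div_le_iff₀ hn', h1]
  linarith [neg_abs_le ((p - sv σ) ⬝ᵥ (p + sv σ))]

theorem quad_NN (B : Mx n) (d u : V n) :
    u ⬝ᵥ NN B d *ᵥ u = u ⬝ᵥ u - (diagonal d *ᵥ u) ⬝ᵥ B *ᵥ (diagonal d *ᵥ u) := by
  rw [NN, sub_mulVec, one_mulVec, dotProduct_sub, ← mulVec_mulVec, ← mulVec_mulVec,
    dotProduct_mulVec u (diagonal d), ← mulVec_transpose, diagonal_transpose]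

theorem good (hn : 0 < n) {W : Mx n} {ε r θ : ℝ} (hF : Frz W ε) (hrε : 2 * r ≤ ε)
    (hr : r ≤ 3 / 32) (hθ : θ ∈ Icc (0 : ℝ) 1) (σ : Cube n) :
    GoodB (θ • W) (θ ^ 2) (1 / 2) (r * Real.sqrt n) (sv σ) := fun p hp h => by
  have hn' : (0 : ℝ) < n := by exact_mod_cast hn
  have ha := avg_DD_ball hn σ hp h
  have ha0 := avg_DD_nonneg hp
  have hθ2 : θ ^ 2 ≤ 1 := pow_le_one₀ hθ.1 hθ.2
  refine ⟨fun u => ?_, by nlinarith⟩
  have hu := dot_self_nonneg u
  set v := diagonal (dd p) *ᵥ u with hv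
  have h1 : v ⬝ᵥ W *ᵥ v ≤ 1 / 8 * (u ⬝ᵥ u) := by
    have e : v ⬝ᵥ W *ᵥ v = u ⬝ᵥ (diagonal (dd p) * W * diagonal (dd p)) *ᵥ u := by
      rw [← mulVec_mulVec, ← mulVec_mulVec, dotProduct_mulVec u (diagonal _), ← mulVec_transpose,
        diagonal_transpose]
    rw [e]
    exact ((le_abs_self _).trans (abs_quad_le _ u)).trans (mul_le_mul_of_nonneg_right
      (hF _ (ub_dd p) (by rw [dd_sq hp]; linarith)) hu)
  have h2 : (p ⬝ᵥ v) ^ 2 ≤ n * (2 * r) * (u ⬝ᵥ u) := by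
    have e : p ⬝ᵥ v = (fun i => p i * dd p i) ⬝ᵥ u := by
      simp only [hv, dotProduct, mulVec_diagonal, mul_assoc]
    rw [e]
    refine (dot_sq_le _ _).trans (mul_le_mul_of_nonneg_right ?_ hu)
    rw [avg, div_le_iff₀' hn'] at ha
    refine le_trans (Finset.sum_le_sum fun i _ => ?_) ha
    have e1 := congrFun (dd_sq hp) i
    have e2 := DD_nonneg hp i
    have e3 : p i ^ 2 ≤ 1 := by have := abs_le.1 (hp i); nlinarith
    nlinarith [mul_le_mul_of_nonneg_right e3 e2]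
  have h3 : v ⬝ᵥ vecMulVec p p *ᵥ v = (p ⬝ᵥ v) ^ 2 := by
    rw [vecMulVec_mulVec, op_smul_eq_smul, dotProduct_smul, smul_eq_mul, dotProduct_comm v p, sq]
  rw [quad_NN, ← hv, B1, B0, dd_sq hp]
  simp only [add_mulVec, sub_mulVec, smul_mulVec, one_mulVec, dotProduct_add, dotProduct_sub,
    dotProduct_smul, smul_eq_mul, h3]
  have h4 : θ * (v ⬝ᵥ W *ᵥ v) ≤ 1 / 8 * (u ⬝ᵥ u) :=
    (mul_le_mul_of_nonneg_left h1 hθ.1).trans (mul_le_of_le_one_left (by positivity) hθ.2)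
  have h5 : 0 ≤ θ ^ 2 * avg (DD p) * (v ⬝ᵥ v) := mul_nonneg (by positivity) (dot_self_nonneg v)
  have h6 : 2 * θ ^ 2 / n * (p ⬝ᵥ v) ^ 2 ≤ 3 / 8 * (u ⬝ᵥ u) := by
    rw [div_mul_eq_mul_div, div_le_iff₀ hn']
    have h7 := mul_le_of_le_one_left (sq_nonneg (p ⬝ᵥ v)) hθ2
    have h8 : n * (2 * r) * (u ⬝ᵥ u) ≤ n * (3 / 16) * (u ⬝ᵥ u) := by gcongr; linarith
    nlinarith
  linarith

theorem err_lin (B : Mx n) (d : V n) (b a c k l : ℝ) (S S' : Mx n) :
    err B d b (a • S + c • S') (a * k + c * l) = a • err B d b S k + c • err B d b S' l := by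
  funext i
  simp only [err, Matrix.mul_add, Matrix.add_mul, Matrix.mul_smul, Matrix.smul_mul, trace_add,
    trace_smul, Matrix.add_apply, Matrix.smul_apply, Pi.add_apply, Pi.smul_apply, smul_eq_mul]
  ring

open scoped MatrixOrder in
theorem exists_root {A : Mx n} (hA : Aᵀ = A) (h : opn A ≤ 3) :
    ∃ Q : Mx n, Qᵀ * Q = (1 : ℝ) • A + (3 : ℝ) • (1 : Mx n) := by
  have hP : ((1 : ℝ) • A + (3 : ℝ) • (1 : Mx n)).PosSemidef := by
    refine PosSemidef.of_dotProduct_mulVec_nonneg ?_ fun u => ?_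
    · rw [herm_iff]; simp [hA]
    · have h1 := abs_quad_le A u
      have h2 := mul_le_mul_of_nonneg_right h (dot_self_nonneg u)
      simp only [star_trivial, add_mulVec, smul_mulVec, one_mulVec, dotProduct_add,
        dotProduct_smul, smul_eq_mul]
      linarith [neg_abs_le (u ⬝ᵥ A *ᵥ u)]
  obtain ⟨Q, hQ⟩ := CStarAlgebra.nonneg_iff_eq_star_mul_self.mp hP.nonneg
  exact ⟨Q, by rw [hQ, star_eq_conjTranspose, conjTranspose_eq_transpose_of_trivial]⟩

end Froz10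

open Froz10

theorem frozGlue : FrozGlue := by
  intro hEx hErr hLip hWin ε hε K
  obtain ⟨Ke, hKe⟩ := hErr (1 / 2) (by norm_num) 6
  obtain ⟨K', hK'0, hK'⟩ := hWin (1 / 2) (by norm_num) (4 * |K| + |Ke| + 3) (by positivity)
  set r := min (ε / 2) (3 / 32) with hrdef
  have hr0 : 0 < r := by positivity
  have hr1 : 2 * r ≤ ε := by linarith [min_le_left (ε / 2) (3 / 32)]
  have hr2 : r ≤ 3 / 32 := min_le_right _ _
  set M0 := Real.exp K' * (2 * K') with hM0
  have hM00 : 0 ≤ M0 := by positivity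
  refine ⟨r / 8, by positivity, 400 / r, max M0 (2 * Real.exp (2 * Real.sqrt M0 + 2)), ?_⟩
  intro n W β hn hW hβ hWn hF hU T hT θ hθ σ y hy
  have hn' : (0 : ℝ) < n := by exact_mod_cast hn
  have hn1 : (1 : ℝ) ≤ n := by exact_mod_cast hn
  have hs1 : 1 ≤ Real.sqrt n := Real.one_le_sqrt.2 hn1
  have hsym : ∀ a : ℝ, (a • W)ᵀ = a • W := fun a => by rw [transpose_smul, hW]
  have hop : ∀ a ∈ Icc (0 : ℝ) 1, opn (a • W) ≤ 3 := fun a ha => by
    rw [opn_smul, abs_of_nonneg ha.1]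
    exact (mul_le_of_le_one_left (opn_nonneg W) ha.2).trans hWn
  have hsq : ∀ a ∈ Icc (0 : ℝ) 1, a ^ 2 ∈ Icc (0 : ℝ) 1 := fun a ha =>
    ⟨sq_nonneg a, pow_le_one₀ ha.1 ha.2⟩
  have hθ1 : θ ∈ Icc (0 : ℝ) 1 := ⟨hθ.1, hθ.2.trans hβ.2⟩
  have hθt : ∀ t ∈ Icc (0 : ℝ) 1, (1 - 1 * t) * θ ∈ Icc 0 β := fun t ht =>
    ⟨mul_nonneg (by linarith [ht.2]) hθ.1,
      (mul_le_of_le_one_left hθ.1 (by linarith [ht.1])).trans hθ.2⟩
  have hθt1 : ∀ t ∈ Icc (0 : ℝ) 1, (1 - 1 * t) * θ ∈ Icc (0 : ℝ) 1 := fun t ht =>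
    ⟨(hθt t ht).1, (hθt t ht).2.trans hβ.2⟩
  obtain ⟨Q, hQ⟩ := exists_root (hsym θ) (hop θ hθ1)
  have hS : opn ((1 : ℝ) • θ • W + (3 : ℝ) • (1 : Mx n)) ≤ 6 := by
    refine (opn_add_le _ _).trans ?_
    rw [one_smul, opn_smul 3]
    have := opn_one_le (ι := Fin n)
    have := hop θ hθ1
    norm_num
    linarith
  have hQ2 : opn Q ^ 2 ≤ 6 := by rw [sq, ← opn_transpose_mul_self, hQ]; exact hS
  have hQ1 : opn Q ≤ 5 / 2 := by nlinarith [opn_nonneg Q]
  -- every solution near the strong field lies in the ball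
  have hball : ∀ a ∈ Icc (0 : ℝ) 1, ∀ x : V n, nrm (Ymap (a • W) (a ^ 2) x - y) ≤ 41 * Real.sqrt n →
      nrm (th x - sv σ) < r * Real.sqrt n := fun a ha x hx => by
    refine ball_of_near hn hr0 hT σ ?_
    have h1 := nrm_sub_le_of_sol (hop a ha) (hsq a ha) x
    have e : x - T • sv σ = (x - Ymap (a • W) (a ^ 2) x) + ((Ymap (a • W) (a ^ 2) x - y) +
      (y - T • sv σ)) := by abel
    have h2 := nrm_add_le (x - Ymap (a • W) (a ^ 2) x) ((Ymap (a • W) (a ^ 2) x - y) +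
      (y - T • sv σ))
    have h3 := nrm_add_le (Ymap (a • W) (a ^ 2) x - y) (y - T • sv σ)
    rw [e]
    linarith
  have key : ∀ v : V n, nrm v ≤ 1 → ∀ x, Ymap (θ • W) (θ ^ 2) x = y + v →
      nrm (th x - sv σ) < r * Real.sqrt n ∧ nrm (mag (ising (θ • W) (y + v)) - th x) ^ 2 ≤ M0 := by
    intro v hv x hx
    have hb : nrm (th x - sv σ) < r * Real.sqrt n :=
      hball θ hθ1 x (by rw [hx, add_sub_cancel_left]; linarith)
    refine ⟨hb, ?_⟩
    have hwt : SL.Wt (ising (θ • W) (y + v)) := SL.Wt.of_pos fun _ => Real.exp_pos _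
    have h := hK' n (θ • W) Q (θ ^ 2) 1 3 1 (r * Real.sqrt n) (8 * Real.sqrt n)
      (Real.exp (-(2 * n))) (y + v) (sv σ) (fun _ => 0) hn (hsym θ)
      ((hop θ hθ1).trans (by linarith [abs_nonneg K, abs_nonneg Ke])) (hsq θ hθ1)
      ⟨zero_le_one, le_rfl⟩ zero_le_one (by norm_num)
      (by rw [abs_of_pos (by norm_num : (0 : ℝ) < 3)]; linarith [abs_nonneg K, abs_nonneg Ke]) hQ
      (by positivity)
      (by rw [mul_pow, Real.sq_sqrt hn'.le]; nlinarith [abs_nonneg K, abs_nonneg Ke])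
      (fun t ht => by
        rw [smul_smul, ← mul_pow]; exact good hn hF hr1 hr2 (hθt1 t ht) σ)
      (fun t ht z hz => by
        rw [smul_smul, ← mul_pow]
        obtain ⟨x', hx'⟩ := (hEx n _ (((1 - 1 * t) * θ) ^ 2) (hsym ((1 - 1 * t) * θ))).1
          (y + v + Qᵀ *ᵥ z)
        refine ⟨x', hball _ (hθt1 t ht) x' ?_, hx'⟩
        rw [hx', add_assoc, add_sub_cancel_left]
        have h1 := nrm_add_le v (Qᵀ *ᵥ z)
        have h2 := nrm_mulVec_le Qᵀ z
        rw [opn_transpose] at h2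
        have h3 := mul_le_mul hQ1 hz (nrm_nonneg z) (by norm_num)
        linarith)
      (fun t ht p hp hpr => by
        rw [smul_smul (1 - 1 * t), ← mul_pow]
        have hg := good hn hF hr1 hr2 (hθt1 t ht) σ p hp hpr
        have h1 := hKe n _ ((1 : ℝ) • θ • W + (3 : ℝ) • (1 : Mx n)) _
          (3 + 2 * 1 * (1 - 1 * t) * θ ^ 2 * avg (DD p)) p (hsym _)
          ((hop _ (hθt1 t ht)).trans (by norm_num)) hS (hsq _ (hθt1 t ht)) hp hg.1
        have h2 := hU _ (hθt t ht) (dd p) (ub_dd p) (by rw [dd_sq hp]; exact hg.2) h1.1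
        refine h1.2.trans ?_
        have e : 3 + 2 * 1 * (1 - 1 * t) * θ ^ 2 * avg (DD p) =
            θ * (2 * ((1 - 1 * t) * θ) * avg fun i => dd p i ^ 2) + 3 * 1 := by
          rw [dd_sq hp]; ring
        rw [one_smul, e, err_lin]
        refine (add_le_add_left (nrm_add_le _ _) _).trans ?_
        rw [nrm_smul, nrm_smul, abs_of_nonneg hθ.1, abs_of_pos (by norm_num : (0 : ℝ) < 3)]
        have h3 := mul_le_mul hθ1.2 (h2.2.trans (le_abs_self K)) (nrm_nonneg _) zero_le_one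
        linarith [h2.1, le_abs_self K, le_abs_self Ke])
      (SL.MG.const 0) (fun _ => le_rfl)
      (fun z _ x' _ hx' => by
        have e : x' = y + v + Qᵀ *ᵥ z := by simpa [Ymap] using hx'
        simp [mag_ising_zero, e])
      (fun t ht => exit_le (fun σ' => (mulVec_dot_le Q _).trans (by
        rw [sv_dot_self]; exact mul_le_mul_of_nonneg_right hQ2 hn'.le)) hwt ht)
      x hb hx
    refine h.trans ?_
    have h0 : (n : ℝ) * Real.exp (-(2 * n)) ≤ 1 := by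
      rw [Real.exp_neg, ← div_eq_mul_inv, div_le_one (Real.exp_pos _)]
      linarith [Real.add_one_le_exp (2 * (n : ℝ))]
    simp only [slE, integral_zero, mul_zero, Finset.sum_const_zero, mul_one, zero_add]
    rw [hM0]
    refine mul_le_mul_of_nonneg_left ?_ (Real.exp_pos _).le
    nlinarith [mul_le_mul_of_nonneg_left h0 hK'0.le]
  have key0 : ∀ x, Ymap (θ • W) (θ ^ 2) x = y →
      nrm (th x - sv σ) < r * Real.sqrt n ∧ nrm (mag (ising (θ • W) y) - th x) ^ 2 ≤ M0 := by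
    simpa using key 0 (by simp)
  refine ⟨fun x hx => (key0 x hx).2.trans (le_max_left _ _), fun u => ?_⟩
  refine (hLip n (ising (θ • W) y) (2 * Real.sqrt M0 + 2) (fun _ => Real.exp_pos _) (fun v hv => ?_) u).trans
    (mul_le_mul_of_nonneg_right (le_max_right _ _) (dot_self_nonneg u))
  obtain ⟨x, hx⟩ := (hEx n _ (θ ^ 2) (hsym θ)).1 y
  obtain ⟨x', hx'⟩ := (hEx n _ (θ ^ 2) (hsym θ)).1 (y + v)
  have h1 := key0 x hx
  have h2 := key v hv x' hx'
  have h3 := ((hEx n _ (θ ^ 2) (hsym θ)).2 (1 / 2) _ _ (by norm_num)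
    (good hn hF hr1 hr2 hθ1 σ)).1 x' x h2.1.le h1.1.le
  rw [hx, hx', add_sub_cancel_left] at h3
  have h4 := Real.le_sqrt_of_sq_le h1.2
  have h5 := Real.le_sqrt_of_sq_le h2.2
  rw [tilt_ising]
  have e : mag (ising (θ • W) (y + v)) - mag (ising (θ • W) y) =
      (mag (ising (θ • W) (y + v)) - th x') + ((th x' - th x) - (mag (ising (θ • W) y) - th x)) := by
    abel
  have h6 := nrm_add_le (mag (ising (θ • W) (y + v)) - th x')
    ((th x' - th x) - (mag (ising (θ • W) y) - th x))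
  have h7 := nrm_sub_le (th x' - th x) (mag (ising (θ • W) y) - th x)
  rw [e]
  linarith

end Crest.Agent.T157.Tap

end
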