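import Crest.Agent.T157.LpG1_17
import Crest.Agent.T157.TapFroz_10

/-!
# Row 157, part A (helper23): `Lp.FisStmt` and `Lp.LastGlue`
-/

set_option autoImplicit false

noncomputable section

namespace Crest.Agent.T157.Lp

open MeasureTheory ProbabilityTheory Matrix Filter Set
open Crest.Agent.T157.E Crest.Agent.T157.Eig Crest.Agent.T157.Tap

variable {n : ℕ}

namespace Fis23

lemma dir_nonneg {u : Cube n → ℝ} (hu : SL.Wt u) (f : Cube n → ℝ) : 0 ≤ dir u f :=
  Finset.sum_nonneg fun _ _ => Finset.sum_nonneg fun x _ =>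
    mul_nonneg (hu.prob_nonneg x) (sq_nonneg _)

lemma dir_div (u f : Cube n → ℝ) (c : ℝ) : dir u (fun x => f x / c) = dir u f / c ^ 2 := by
  simp only [dir, Finset.sum_div, siteM]
  refine Finset.sum_congr rfl fun i _ => Finset.sum_congr rfl fun x _ => ?_
  ring

lemma dir_le {u : Cube n → ℝ} (hu : ∀ x, 0 < u x) (f : Cube n → ℝ) :
    dir u f ≤ n * mean u fun x => f x ^ 2 := by
  have hp : ∀ x, 0 < prob u x := fun x => div_pos (hu x) (SL.Wt.of_pos hu).pos
  rw [SL.dir_eq_dir2, SL.dir2_eq hu, Finset.sum_div]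
  refine (Finset.sum_le_card_nsmul _ _ (mean u fun x => f x ^ 2) fun i _ => ?_).trans (by simp)
  rw [mean, SL.sum_flip i fun x => prob u x * f x ^ 2]
  refine div_le_div_of_nonneg_right (Finset.sum_le_sum fun x _ => ?_) zero_le_two
  have h1 := hp (Function.update x i true)
  have h2 := hp (Function.update x i false)
  rw [SL.edge, SL.incr, div_mul_eq_mul_div, div_le_iff₀ (by positivity)]
  nlinarith [sq_nonneg (prob u (Function.update x i true) * f (Function.update x i true) +
    prob u (Function.update x i false) * f (Function.update x i false))]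

lemma fis_mul {u g : Cube n → ℝ} (hu : ∀ x, 0 < u x) (h0 : 0 < mean u g) :
    fis u (fun x => u x * g x) = dir u (fun x => √(g x)) / mean u g := by
  have hw := SL.Wt.of_pos hu
  have e : (fun σ => √(prob (fun x => u x * g x) σ / prob u σ)) = fun σ => √(g σ) / √(mean u g) := by
    funext σ
    have hp : prob u σ ≠ 0 := (div_pos (hu σ) hw.pos).ne'
    rw [SL.prob_mul_weight _ _ hw.pos.ne', ← Real.sqrt_div' _ h0.le]
    congr 1; field_simp
  rw [fis, e, dir_div, Real.sq_sqrt h0.le]

end Fis23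

open Fis23 G1

theorem fisStmt : FisStmt := fun n w v t hw hv ht => by
  have hW := SL.Wt.of_pos hw
  obtain ⟨g, hg⟩ : ∃ g : Cube n → ℝ, g = fun x => v x / w x := ⟨_, rfl⟩
  have g0 : ∀ x, 0 ≤ g x := fun x => hg ▸ div_nonneg (hv.nn x) (hw x).le
  have ev : v = fun x => w x * g x := funext fun x => by rw [hg, mul_div_cancel₀ _ (hw x).ne']
  have m0 : 0 < mean w g := by
    obtain ⟨x, hx⟩ := hv.exists_pos
    exact (hW.mean_pos_iff g0).2 ⟨x, hw x, hg ▸ div_pos hx (hw x)⟩
  have tp : ∀ y x, 0 < tilt w y x := fun y x => mul_pos (hw x) (Real.exp_pos _)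
  have m1 : ∀ y, 0 < mean (tilt w y) g := fun y => by
    rw [← SL.mean_post_sv w t]; exact hW.mean_post_pos g0 m0 _ _ _
  have e : ∀ y, fis (tilt w y) (tilt v y) =
      dir (tilt w y) (fun x => √(g x)) / mean (tilt w y) g := fun y => by
    rw [← fis_mul (tp y) (m1 y)]
    congr 1; funext x; rw [ev]; simp only [tilt]; ring
  have md : SL.MG fun y => dir (tilt w y) fun x => √(g x) := by
    simpa only [SL.pw, SL.dir_post_sv] using
      (SL.eg_dir (φ := sv) (I := {0}) hw fun x => √(g x)).mg (t := 0) rfl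
  have mg : SL.MG fun y => fis (tilt w y) (tilt v y) := by
    simp only [e]
    refine .of_bdd (md.meas.div (continuous_mean_tilt hW g).measurable) n fun y => ?_
    rw [abs_of_nonneg (div_nonneg (dir_nonneg (hW.tilt y) _) (m1 y).le), div_le_iff₀ (m1 y)]
    simpa only [Real.sq_sqrt (g0 _)] using dir_le (tp y) fun x => √(g x)
  refine ⟨mg, ?_⟩
  have h1 := SL.slE_mul_weight' (φ := sv) hW ht g (.of_mg fun _ => mg)
  rw [← ev] at h1
  have h2 := SL.ex_dir_le (φ := sv) hw ht fun x => √(g x)
  have h3 := fis_mul hw m0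
  rw [← ev] at h3
  rw [h1, h3]
  refine div_le_div_of_nonneg_right (le_trans (le_of_eq ?_) h2) m0.le
  simp only [SL.ex, SL.pw, SL.dir_post_sv, SL.mean_post_sv, e, mul_div_cancel₀ _ (m1 _).ne']

theorem lastGlue : LastGlue := fun hF η hη => by
  refine ⟨10 / η ^ 2, fun M hM τ hτ => ?_⟩
  filter_upwards [(tendsto_natCast_atTop_atTop (R := ℝ)).eventually_ge_atTop ((M + 4) / τ)] with
    n hn J b T0 hE T h0 h2 v hv
  have hT : 0 < T := lt_of_lt_of_le (by positivity) h2
  have hw : ∀ x, 0 < ising J 0 x := fun x => Real.exp_pos _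
  obtain ⟨mg, hle⟩ := hF n (ising J 0) v T hw hv hT.le
  have hA : ∀ σ : Cube n, MeasurableSet {y : V n | η * T * √n < nrm (y - T • sv σ)} := fun σ =>
    measurableSet_lt measurable_const (continuous_nrm.measurable.comp (by fun_prop))
  have m1 : ∀ σ : Cube n, SL.MG ({y : V n | η * T * √n < nrm (y - T • sv σ)}.indicator
    fun _ => (4 * n : ℝ)) := fun σ => (SL.MG.const _).indicator (hA σ)
  have m2 := (mg.add (.const 1)).const_mul M
  have k1 := SL.slE_mono (φ := sv) (s := T) hv (.of_mg fun _ => mg_Dv J b hv)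
    (.of_mg fun σ => m2.add (m1 σ)) fun σ y => by
      have f0 : 0 ≤ fis (tilt (ising J 0) y) (tilt v y) := dir_nonneg ((SL.Wt.of_pos hw).tilt y) _
      by_cases hy : η * T * √n < nrm (y - T • sv σ)
      · rw [indicator_of_mem (by exact hy)]
        linarith [Dv_le J b hv y, mul_nonneg hM (add_nonneg f0 zero_le_one)]
      · rw [indicator_of_notMem (by exact hy), add_zero, ← ising_eq_tilt]
        exact hE T h0 σ y (not_lt.1 hy) _ (hv.tilt y)
  rw [SL.slE_add (.of_mg fun _ => m2) (.of_mg m1), SL.slE_const_mul,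
    SL.slE_add (.of_mg fun _ => mg) (.of_mg fun _ => .const 1), slE_const hv] at k1
  have k2 : slE sv v T (fun σ => {y : V n | η * T * √n < nrm (y - T • sv σ)}.indicator
      fun _ => (4 * n : ℝ)) ≤ 4 := by
    rw [SL.slE_eq_mean]
    refine hv.mean_le fun σ => ?_
    have hB : MeasurableSet {g : V n | 10 * (n : ℝ) ≤ g ⬝ᵥ g} :=
      measurableSet_le measurable_const (by fun_prop)
    refine (integral_mono ((m1 σ).affine _ _).int ((SL.MG.const (4 * n : ℝ)).indicator hB).int
      fun z => ?_).trans ?_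
    · by_cases hz : 10 * (n : ℝ) ≤ z ⬝ᵥ z
      · rw [indicator_of_mem (s := {g : V n | 10 * (n : ℝ) ≤ g ⬝ᵥ g}) hz]
        exact indicator_le' (fun _ _ => le_rfl) (fun _ _ => by positivity) _
      · rw [indicator_of_notMem (s := {g : V n | 10 * (n : ℝ) ≤ g ⬝ᵥ g}) hz]
        refine (indicator_of_notMem ?_ _).le
        rw [mem_ofPred_eq, not_lt, add_sub_cancel_left, nrm_le_iff (by positivity), smul_dotProduct, dotProduct_smul,
          smul_eq_mul, smul_eq_mul, ← mul_assoc, Real.mul_self_sqrt hT.le, mul_pow, mul_pow,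
          Real.sq_sqrt (Nat.cast_nonneg _)]
        rw [div_le_iff₀ (by positivity)] at h2
        have a1 := mul_le_mul_of_nonneg_left (not_le.1 hz).le hT.le
        have a2 := mul_le_mul_of_nonneg_left h2 (show 0 ≤ T * n by positivity)
        linarith
    · rw [integral_indicator_const _ hB, smul_eq_mul]
      have a1 := Froz10.gv_normsq_tail n
      have a2 : Real.exp (-(2 * n)) * (n : ℝ) ≤ 1 := by
        rw [Real.exp_neg, inv_mul_le_iff₀ (Real.exp_pos _)]
        linarith [Real.add_one_le_exp (2 * (n:ℝ)), Nat.cast_nonneg (α := ℝ) n]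
      linarith [mul_le_mul_of_nonneg_right a1 (Nat.cast_nonneg (α := ℝ) n)]
  rw [div_le_iff₀ hτ] at hn
  linarith [mul_le_mul_of_nonneg_left hle hM]

theorem lastStmt : LastStmt := lastGlue fisStmt

end Crest.Agent.T157.Lp
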