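import Crest.Agent.T157.LpKsB_99

/-!
# Row 157, part A: `Lp.KsTop` (greedy choice, nets, parameters) (helper99)
-/

set_option autoImplicit false

noncomputable section

namespace Crest.Agent.T157.Lp.K99

open MeasureTheory ProbabilityTheory Matrix Filter Set Topology
open Crest.Agent.T157.E Crest.Agent.T157.Eig Crest.Agent.T157.Cond Crest.Agent.T157.Tap
open scoped ENNReal

variable {n : ℕ}

/-- a maximal chain -/
lemma greedy {X : Type*} [Inhabited X] (P : X → Prop) (Q : X → X → Prop) (k : ℕ)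
    (h : ¬ ∃ x : Fin k → X, (∀ a, P (x a)) ∧ ∀ a a', a < a' → Q (x a) (x a')) :
    ∃ x : Fin k → X, ∀ z, P z → ∃ a, P (x a) ∧ ¬ Q (x a) z := by
  induction k with
  | zero => exact absurd ⟨Fin.elim0, fun a => a.elim0, fun a => a.elim0⟩ h
  | succ k ih =>
    by_cases hk : ∃ x : Fin k → X, (∀ a, P (x a)) ∧ ∀ a a', a < a' → Q (x a) (x a')
    · obtain ⟨x, h1, h2⟩ := hk
      refine ⟨Fin.snoc (α := fun _ => X) x default, fun z hz => ?_⟩
      by_contra hc
      push Not at hc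
      refine h ⟨Fin.snoc (α := fun _ => X) x z, fun a => ?_, fun a a' haa => ?_⟩
      · refine Fin.lastCases ?_ (fun i => ?_) a
        · simpa using hz
        · simpa using h1 i
      · revert haa
        refine Fin.lastCases ?_ (fun i => ?_) a
        · intro haa
          exact absurd haa (not_lt.2 (Fin.le_last _))
        · refine Fin.lastCases ?_ (fun i' => ?_) a'
          · intro _
            have := hc i.castSucc (by simpa using h1 i)
            simpa using this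
          · intro haa
            simpa using h2 i i' (Fin.castSucc_lt_castSucc_iff.1 haa)
    · obtain ⟨x, hx⟩ := ih hk
      refine ⟨Fin.snoc (α := fun _ => X) x default, fun z hz => ?_⟩
      obtain ⟨a, h1, h2⟩ := hx z hz
      exact ⟨a.castSucc, by simpa using h1, by simpa using h2⟩

lemma exists_grid {m v : ℝ} (hm : 0 < m) (hv : 0 ≤ v) {G : ℕ} (hG : v ≤ G * m) :
    ∃ i : Fin (G + 1), |v - i * m| ≤ m := by
  have h0 : 0 ≤ v / m := by positivity
  have h1 : ⌊v / m⌋₊ ≤ G := Nat.floor_le_of_le ((div_le_iff₀ hm).2 hG)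
  refine ⟨⟨⌊v / m⌋₊, Nat.lt_succ_of_le h1⟩, ?_⟩
  have h2 := Nat.floor_le h0
  have h3 := Nat.lt_floor_add_one (v / m)
  rw [le_div_iff₀ hm] at h2
  rw [div_lt_iff₀ hm] at h3
  simp only
  rw [abs_le]
  constructor <;> nlinarith

lemma nrm_mono {u v : V n} (h : ∀ i, |u i| ≤ |v i|) : nrm u ≤ nrm v :=
  Real.sqrt_le_sqrt (Finset.sum_le_sum fun i _ => by
    rw [← abs_mul_abs_self (u i), ← abs_mul_abs_self (v i)]
    exact mul_self_le_mul_self (abs_nonneg _) (h i))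

/-- projection onto the cube -/
def clamp (q : V n) : V n := fun i => max (-1) (min 1 (q i))

lemma cb_clamp (q : V n) : Cb (clamp q) := fun i =>
  abs_le.2 ⟨le_max_left _ _, max_le (by norm_num) (min_le_left _ _)⟩

lemma nrm_sub_clamp {p : V n} (hp : Cb p) (q : V n) : nrm (p - clamp q) ≤ nrm (p - q) := by
  refine nrm_mono fun i => ?_
  obtain ⟨h1, h2⟩ := abs_le.1 (hp i)
  simp only [Pi.sub_apply, clamp]
  rcases le_total 1 (q i) with h | h
  · rw [min_eq_left h, max_eq_right (by norm_num), abs_of_nonpos (by linarith),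
      abs_of_nonpos (by linarith)]
    linarith
  · rw [min_eq_right h]
    rcases le_total (-1) (q i) with h' | h'
    · rw [max_eq_right h']
    · rw [max_eq_left h', abs_of_nonneg (by linarith), abs_of_nonneg (by linarith)]
      linarith

/-- the net of pairs `(c, p0)` -/
lemma exists_net2 (n j : ℕ) {B : ℝ} (hB : 1 ≤ B) : ∃ S : Finset (V n × V n),
    (∀ z ∈ S, Cb z.2) ∧ (S.card : ℝ) ≤ Real.exp (4 * j * n) ∧
    ∀ c p : V n, nrm c ≤ B * Real.sqrt n → Cb p → ∃ z ∈ S,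
      nrm (c - z.1) ≤ B * (1 / 2) ^ j * Real.sqrt n ∧
      nrm (p - z.2) ≤ B * (1 / 2) ^ j * Real.sqrt n := by
  classical
  obtain ⟨N, hN, hN2⟩ := Nrm.exists_net (Fin n) j
  have key : ∀ c : V n, nrm c ≤ B * Real.sqrt n → ∃ q ∈ N,
      nrm (c - (B * Real.sqrt n) • q) ≤ B * (1 / 2) ^ j * Real.sqrt n := by
    intro c hc
    rcases (show 0 ≤ B * Real.sqrt n by positivity).eq_or_lt with h0 | h0
    · obtain ⟨q, hq, -⟩ := hN2 0 (by rw [nrm_eq_zero.2 rfl]; norm_num)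
      refine ⟨q, hq, ?_⟩
      rw [← h0, zero_smul, sub_zero]
      rw [← h0] at hc
      exact hc.trans (by positivity)
    · obtain ⟨q, hq, hq2⟩ := hN2 ((B * Real.sqrt n)⁻¹ • c) (by
        rw [nrm_smul, abs_of_pos (inv_pos.2 h0), inv_mul_le_iff₀ h0, mul_one]
        exact hc)
      refine ⟨q, hq, ?_⟩
      have e : c - (B * Real.sqrt n) • q = (B * Real.sqrt n) • ((B * Real.sqrt n)⁻¹ • c - q) := by
        rw [smul_sub, smul_smul, mul_inv_cancel₀ h0.ne', one_smul]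
      rw [e, nrm_smul, abs_of_pos h0]
      calc B * Real.sqrt n * nrm ((B * Real.sqrt n)⁻¹ • c - q) ≤ B * Real.sqrt n * (1 / 2) ^ j := by
            gcongr
        _ = _ := by ring
  refine ⟨(N ×ˢ N).image fun q => ((B * Real.sqrt n) • q.1, clamp ((B * Real.sqrt n) • q.2)),
    fun z hz => ?_, ?_, fun c p hc hp => ?_⟩
  · obtain ⟨q, -, rfl⟩ := Finset.mem_image.1 hz
    exact cb_clamp _
  · have h1 : ((N ×ˢ N).image fun q : V n × V n =>
        ((B * Real.sqrt n) • q.1, clamp ((B * Real.sqrt n) • q.2))).card ≤ 25 ^ (j * n) := by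
      refine Finset.card_image_le.trans ?_
      rw [Finset.card_product]
      rw [Fintype.card_fin, ← pow_mul] at hN
      calc N.card * N.card ≤ 5 ^ (j * n) * 5 ^ (j * n) := Nat.mul_le_mul hN hN
        _ = 25 ^ (j * n) := by rw [← mul_pow]; norm_num
    have h2 : (25 : ℝ) ≤ Real.exp 4 := by
      have h3 := Real.add_one_le_exp (1 / 2 : ℝ)
      calc (25 : ℝ) ≤ (1 / 2 + 1) ^ 8 := by norm_num
        _ ≤ Real.exp (1 / 2) ^ 8 := by gcongr
        _ = Real.exp 4 := by rw [← Real.exp_nat_mul]; norm_num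
    calc _ ≤ ((25 ^ (j * n) : ℕ) : ℝ) := by exact_mod_cast h1
      _ = (25 : ℝ) ^ (j * n) := by push_cast; rfl
      _ ≤ Real.exp 4 ^ (j * n) := by gcongr
      _ = _ := by rw [← Real.exp_nat_mul]; push_cast; ring_nf
  · obtain ⟨q, hq, hq2⟩ := key c hc
    obtain ⟨q', hq', hq2'⟩ := key p ((nrm_le_of_abs zero_le_one hp).trans (by gcongr))
    exact ⟨_, Finset.mem_image.2 ⟨(q, q'), Finset.mem_product.2 ⟨hq, hq'⟩, rfl⟩, hq2,
      (nrm_sub_clamp hp _).trans hq2'⟩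

lemma exists_j {a D : ℝ} (ha : 0 < a) (hD : 0 < D) : ∃ η0 > (0 : ℝ), ∀ η ∈ Ioc (0 : ℝ) η0,
    ∃ j : ℕ, (1 / 2 : ℝ) ^ j ≤ D * η ^ 3 ∧ j ≤ a / η := by
  refine ⟨min (a / 2) (D * (a / 4) ^ 4 / 24), by positivity, fun η hη => ⟨⌈a / (2 * η)⌉₊, ?_, ?_⟩⟩
  · have h0 := hη.1
    have h1 : a / (2 * η) ≤ ⌈a / (2 * η)⌉₊ := Nat.le_ceil _
    set j := ⌈a / (2 * η)⌉₊
    have h2 : (1 / 2 : ℝ) ≤ Real.exp (-(1 / 2)) := by
      have := Real.add_one_le_exp (-(1 / 2) : ℝ)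
      linarith
    have h3 : (a / (4 * η)) ^ 4 / 24 ≤ Real.exp (a / (4 * η)) := by
      have := Real.pow_div_factorial_le_exp (a / (4 * η)) (by positivity) 4
      simpa [Nat.factorial] using this
    have h4 : η ≤ D * (a / 4) ^ 4 / 24 := hη.2.trans (min_le_right _ _)
    calc (1 / 2 : ℝ) ^ j ≤ Real.exp (-(1 / 2)) ^ j := by gcongr
      _ = Real.exp (-(j / 2)) := by rw [← Real.exp_nat_mul]; ring_nf
      _ ≤ Real.exp (-(a / (4 * η))) := by
          refine Real.exp_le_exp.2 (neg_le_neg ?_)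
          have : a / (4 * η) = a / (2 * η) / 2 := by field_simp; norm_num
          linarith
      _ ≤ ((a / (4 * η)) ^ 4 / 24)⁻¹ := by
          rw [Real.exp_neg]
          exact inv_anti₀ (by positivity) h3
      _ = η ^ 3 * (η / ((a / 4) ^ 4 / 24)) := by field_simp
      _ ≤ η ^ 3 * D := by
          refine mul_le_mul_of_nonneg_left ?_ (by positivity)
          rw [div_le_iff₀ (by positivity)]
          linarith
      _ = _ := mul_comm _ _
  · have h0 := hη.1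
    have h1 := (Nat.ceil_lt_add_one (show 0 ≤ a / (2 * η) by positivity)).le
    have h2 : η ≤ a / 2 := hη.2.trans (min_le_left _ _)
    have h3 : 1 ≤ a / (2 * η) := by
      rw [le_div_iff₀ (by positivity)]
      linarith
    have h4 : a / η = a / (2 * η) + a / (2 * η) := by field_simp; norm_num
    linarith

lemma sq_sqrt_n : Real.sqrt n * Real.sqrt n = n := Real.mul_self_sqrt (Nat.cast_nonneg n)

lemma abs_dot_le' {u v : V n} {a b : ℝ} (hu : nrm u ≤ a * Real.sqrt n)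
    (hv : nrm v ≤ b * Real.sqrt n) : |u ⬝ᵥ v| ≤ a * b * n := by
  have h1 := nrm_nonneg u
  have h2 := nrm_nonneg v
  calc |u ⬝ᵥ v| ≤ nrm u * nrm v := abs_dot_le u v
    _ ≤ (a * Real.sqrt n) * (b * Real.sqrt n) := mul_le_mul hu hv h2 (h1.trans hu)
    _ = a * b * (Real.sqrt n * Real.sqrt n) := by ring
    _ = _ := by rw [sq_sqrt_n]

lemma nrm_rv_le (b e γ : ℝ) (c : V n) {p0 : V n} (hp : Cb p0) :
    nrm (rv b e γ c p0) ≤ 2 * Real.sqrt n := by
  refine nrm_le_of_abs (by norm_num) fun i => ?_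
  have h1 := SE.abs_gE_le SE.abs_tanh_le (c i - b * e * p0 i) γ
  have h2 := hp i
  have h3 := abs_sub (gE Real.tanh (c i - b * e * p0 i) γ) (p0 i)
  unfold rv
  linarith

lemma nrm_rv_sub {b e e' γ g m : ℝ} (hb : b ∈ Icc (0 : ℝ) 1) (hg : 0 ≤ g) (he : |e - e'| ≤ m)
    (hγ : |Real.sqrt γ - g| ≤ m) (c : V n) {p0 : V n} (hp : Cb p0) :
    nrm (rv b e γ c p0 - rv b e' (g ^ 2) c p0) ≤ 2 * m * Real.sqrt n := by
  have hm : 0 ≤ m := (abs_nonneg _).trans he
  refine nrm_le_of_abs (by positivity) fun i => ?_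
  have h1 := gE_tanh_lip (c i - b * e * p0 i) (c i - b * e' * p0 i) γ (g ^ 2)
  rw [Real.sqrt_sq hg] at h1
  have h2 : |c i - b * e * p0 i - (c i - b * e' * p0 i)| ≤ m := by
    have : c i - b * e * p0 i - (c i - b * e' * p0 i) = -(b * ((e - e') * p0 i)) := by ring
    rw [this, abs_neg, abs_mul, abs_mul, abs_of_nonneg hb.1]
    calc b * (|e - e'| * |p0 i|) ≤ 1 * (m * 1) := by
          gcongr
          · exact hb.2
          · exact hp i
      _ = m := by ring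
  have h3 : (rv b e γ c p0 - rv b e' (g ^ 2) c p0) i =
      gE Real.tanh (c i - b * e * p0 i) γ - gE Real.tanh (c i - b * e' * p0 i) (g ^ 2) := by
    simp [rv]
  rw [h3]
  linarith

/-- **deterministic part of (K*)** -/
lemma det_ks {k G : ℕ} (hn : 0 < n) {b τ η k1 K2 K4 t m : ℝ} {J : Mx n} {y p0 c' p' : V n}
    (hb : b ∈ Icc (0 : ℝ) 1) (hJ : opn J ≤ 3) (hp' : Cb p') (hm : 0 < m)
    (hη : η ≤ 1) (hmη : 4 * m ≤ η) (hτ : τ ∈ Ioc (0 : ℝ) 1) (ht : 0 < t) (hmt : 14 * m ≤ t * τ)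
    (hG : 3 ≤ G * m) (hK : K4 * τ ≤ (K2 * η - m) ^ 2) (hK' : m ≤ K2 * η)
    (hc : nrm (y + J *ᵥ p0 - c') ≤ m * Real.sqrt n) (hp : nrm (p0 - p') ≤ m * Real.sqrt n)
    (h : NoCh k b τ (2 * η) k1 K4 t (9 * m) J c' p') :
    ∃ r : (Fin k × Bool) ⊕ (Fin (G + 1) × Fin (G + 1)) → V n,
      (∀ j, nrm (r j) ≤ 8 * Real.sqrt n) ∧
      ∀ x, nrm (Ymap J b x - y) ≤ η * Real.sqrt n → avg (DD (th x)) ≤ 1 - k1 →
        K2 * η * Real.sqrt n ≤ nrm (th x - p0) → ∃ j, m * n ≤ |(th x - p0) ⬝ᵥ r j| := by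
  classical
  have hn' : (0 : ℝ) < n := Nat.cast_pos.2 hn
  have hs : 0 ≤ Real.sqrt n := Real.sqrt_nonneg _
  set P : V n → Prop := H2 b τ (2 * η) k1 K4 t J c' p' with hP
  have hX : ∀ x, P x → nrm (Xc b c' x) ≤ 8 * Real.sqrt n := by
    intro x hx
    have h1 := hx.1
    have h2 := nrm_add_le (Xc b c' x - J *ᵥ (th x - p')) (J *ᵥ (th x - p'))
    rw [sub_add_cancel] at h2
    have h3 := nrm_mulVec_le J (th x - p')
    have h4 := nrm_sub_cb (cb_th x) hp'
    have h5 : opn J * nrm (th x - p') ≤ 3 * (2 * Real.sqrt n) :=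
      mul_le_mul hJ h4 (nrm_nonneg _) (by norm_num)
    nlinarith
  obtain ⟨x, hx⟩ := greedy P (H3 b (9 * m) c' p') k h
  refine ⟨Sum.elim (fun q => if q.2 then th (x q.1) - p' else if P (x q.1) then Xc b c' (x q.1) else 0)
    fun q => rv b (q.1 * m) ((q.2 * m) ^ 2) c' p', ?_, fun z h1 h2 h3 => ?_⟩
  · rintro (⟨a, _ | _⟩ | q)
    · simp only [Sum.elim_inl, Bool.false_eq_true, if_false]
      split_ifs with hh
      · exact hX _ hh
      · rw [nrm_eq_zero.2 rfl]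
        positivity
    · simp only [Sum.elim_inl, if_true]
      exact (nrm_sub_cb (cb_th _) hp').trans (by linarith)
    · exact (nrm_rv_le _ _ _ _ hp').trans (by linarith)
  by_contra hcon
  push Not at hcon
  have hz2 : nrm (th z - p') ≤ 2 * Real.sqrt n := nrm_sub_cb (cb_th _) hp'
  have hsplit : th z - p' = (th z - p0) + (p0 - p') := by abel
  have hPz : P z := by
    refine ⟨?_, h2, ?_, ?_⟩
    · have e : Xc b c' z - J *ᵥ (th z - p') =
          (Ymap J b z - y) + ((y + J *ᵥ p0 - c') + -(J *ᵥ (p0 - p'))) := by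
        simp only [Xc, Ymap, mulVec_sub]
        abel
      have h4 := nrm_add_le (Ymap J b z - y) ((y + J *ᵥ p0 - c') + -(J *ᵥ (p0 - p')))
      have h5 := nrm_add_le (y + J *ᵥ p0 - c') (-(J *ᵥ (p0 - p')))
      rw [nrm_neg] at h5
      have h6 := nrm_mulVec_le J (p0 - p')
      have h7 : opn J * nrm (p0 - p') ≤ 3 * (m * Real.sqrt n) :=
        mul_le_mul hJ hp (nrm_nonneg _) (by norm_num)
      rw [e]
      nlinarith
    · have h4 := nrm_sub_le (th z - p') (p0 - p')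
      rw [show th z - p' - (p0 - p') = th z - p0 by abel] at h4
      have h5 : (K2 * η - m) * Real.sqrt n ≤ nrm (th z - p') := by nlinarith
      rw [← nrm_sq]
      calc K4 * τ * n ≤ (K2 * η - m) ^ 2 * n := by gcongr
        _ = ((K2 * η - m) * Real.sqrt n) ^ 2 := by rw [mul_pow, Real.sq_sqrt hn'.le]
        _ ≤ _ := pow_le_pow_left₀ (mul_nonneg (by linarith) hs) h5 2
    · have he := SE.avg_DD_mem z
      have hd0 : 0 ≤ (th z - p') ⬝ᵥ (th z - p') / n := div_nonneg (Eig.dot_self_nonneg _) hn'.le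
      have hd1 : (th z - p') ⬝ᵥ (th z - p') / n ≤ 4 := by
        rw [div_le_iff₀ hn']
        exact dot_sub_cb (cb_th _) hp'
      have hγ0 : τ ≤ gam b τ p' z := le_add_of_nonneg_right (mul_nonneg hb.1 hd0)
      have hγ1 : Real.sqrt (gam b τ p' z) ≤ 3 := by
        refine Real.sqrt_le_iff.2 ⟨by norm_num, ?_⟩
        have := mul_le_mul hb.2 hd1 hd0 zero_le_one
        have := hτ.2
        unfold gam
        linarith
      obtain ⟨i, hi⟩ := exists_grid hm he.1 (G := G) (by linarith [he.2])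
      obtain ⟨i', hi'⟩ := exists_grid hm (Real.sqrt_nonneg (gam b τ p' z)) (G := G) (by linarith)
      have h4 := hcon (Sum.inr (i, i'))
      simp only [Sum.elim_inr] at h4
      have h5 := abs_dot_le' hp (nrm_rv_le b (i * m) ((i' * m) ^ 2) c' hp')
      have h6 := abs_dot_le' hz2 (nrm_rv_sub hb (by positivity) hi hi' c' hp')
      set r1 := rv b (avg (DD (th z))) (gam b τ p' z) c' p'
      set r2 := rv b (i * m) ((i' * m) ^ 2) c' p'
      have e : (th z - p') ⬝ᵥ r1 = (th z - p0) ⬝ᵥ r2 + (p0 - p') ⬝ᵥ r2 +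
          (th z - p') ⬝ᵥ (r1 - r2) := by
        rw [← add_dotProduct, ← hsplit, dotProduct_sub]
        ring
      have h7 := abs_add_three ((th z - p0) ⬝ᵥ r2) ((p0 - p') ⬝ᵥ r2) ((th z - p') ⬝ᵥ (r1 - r2))
      rw [e]
      calc _ ≤ 7 * m * n := by linarith
        _ ≤ t / 2 * gam b τ p' z * n := by
          refine mul_le_mul_of_nonneg_right ?_ hn'.le
          nlinarith
  obtain ⟨a, ha, hQ⟩ := hx z hPz
  refine hQ ⟨?_, ?_⟩
  · have h4 := hcon (Sum.inl (a, true))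
    simp only [Sum.elim_inl, if_true] at h4
    have h5 := abs_dot_le' (nrm_sub_cb (cb_th (x a)) hp') hp
    rw [dotProduct_comm] at h4
    rw [hsplit, dotProduct_add]
    have := abs_add_le ((th (x a) - p') ⬝ᵥ (th z - p0)) ((th (x a) - p') ⬝ᵥ (p0 - p'))
    nlinarith
  · have h4 := hcon (Sum.inl (a, false))
    simp only [Sum.elim_inl, Bool.false_eq_true, if_false, if_pos ha] at h4
    have h5 := abs_dot_le' (hX _ ha) hp
    rw [dotProduct_comm] at h4
    rw [hsplit, dotProduct_add]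
    have := abs_add_le (Xc b c' (x a) ⬝ᵥ (th z - p0)) (Xc b c' (x a) ⬝ᵥ (p0 - p'))
    nlinarith

/-- the choice of the mesh and of the chain length -/
lemma params {c0 t s1 κ τ1 Cs B : ℝ} (hc0 : 0 < c0) (ht : 0 < t) (hs0 : 0 < s1) (hκ : 0 < κ)
    (hτ1 : 0 < τ1) (hCs : 0 < Cs) (hB : 0 < B) : ∃ η0 > (0 : ℝ), ∀ η ∈ Ioc (0 : ℝ) η0,
    ∃ (j k : ℕ) (m : ℝ), m = B * (1 / 2) ^ j ∧ 0 < k ∧ η ≤ 1 ∧ (s1 * η) ^ 2 ≤ min 1 τ1 ∧
      4 * m ≤ η ∧ 14 * m ≤ t * (s1 * η) ^ 2 ∧ 32 * j ≤ k * c0 ∧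
      k * (2 * (9 * m) / (s1 * η) ^ 2 + Cs * (s1 * η)) ≤ κ := by
  obtain ⟨u, hu⟩ : ∃ u : ℝ, u = κ / (2 * Cs * s1) := ⟨_, rfl⟩
  have hu0 : 0 < u := by rw [hu]; positivity
  obtain ⟨D, hD⟩ : ∃ D : ℝ, D = min (min (1 / 4) (t * s1 ^ 2 / 14)) (κ * s1 ^ 2 / (36 * u)) :=
    ⟨_, rfl⟩
  have hD0 : 0 < D := by rw [hD]; positivity
  have hD1 : D ≤ 1 / 4 := hD ▸ (min_le_left _ _).trans (min_le_left _ _)
  have hD2 : D ≤ t * s1 ^ 2 / 14 := hD ▸ (min_le_left _ _).trans (min_le_right _ _)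
  have hD3 : D ≤ κ * s1 ^ 2 / (36 * u) := hD ▸ min_le_right _ _
  obtain ⟨η1, hη1, hj⟩ := exists_j (a := u * c0 / 64) (D := D / B) (by positivity) (by positivity)
  refine ⟨min (min η1 (u / 4)) (min 1 (Real.sqrt (min 1 τ1) / s1)), by positivity, fun η hη => ?_⟩
  have h0 := hη.1
  have hηa : η ≤ η1 := hη.2.trans ((min_le_left _ _).trans (min_le_left _ _))
  have hηb : η ≤ u / 4 := hη.2.trans ((min_le_left _ _).trans (min_le_right _ _))
  have hηc : η ≤ 1 := hη.2.trans ((min_le_right _ _).trans (min_le_left _ _))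
  have hηd : (s1 * η) ^ 2 ≤ min 1 τ1 := by
    have h1 : η ≤ Real.sqrt (min 1 τ1) / s1 :=
      hη.2.trans ((min_le_right _ _).trans (min_le_right _ _))
    rw [le_div_iff₀ hs0, mul_comm] at h1
    calc (s1 * η) ^ 2 ≤ Real.sqrt (min 1 τ1) ^ 2 := by gcongr
      _ = _ := Real.sq_sqrt (by positivity)
  obtain ⟨j, hj1, hj2⟩ := hj η ⟨h0, hηa⟩
  obtain ⟨m, hm⟩ : ∃ m : ℝ, m = B * (1 / 2) ^ j := ⟨_, rfl⟩
  have hm0 : 0 < m := by rw [hm]; positivity
  have hmD : m ≤ D * η ^ 3 := by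
    calc m ≤ B * (D / B * η ^ 3) := by rw [hm]; gcongr
      _ = _ := by field_simp
  have hη3 : η ^ 3 ≤ η ^ 2 := pow_le_pow_of_le_one h0.le hηc (by norm_num)
  have hη2 : η ^ 2 ≤ η := by nlinarith
  have hm3 : m ≤ κ * s1 ^ 2 / (36 * u) * η ^ 3 :=
    hmD.trans (mul_le_mul_of_nonneg_right hD3 (by positivity))
  have hk2 : ((⌈32 * j / c0⌉₊ + 1 : ℕ) : ℝ) ≤ u / η := by
    have h1 := (Nat.ceil_lt_add_one (show 0 ≤ 32 * j / c0 by positivity)).le
    have h2 : 32 * j / c0 ≤ u / η / 2 := by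
      calc 32 * j / c0 ≤ 32 * (u * c0 / 64 / η) / c0 := by gcongr
        _ = u / η / 2 := by field_simp; norm_num
    have h3 : 4 ≤ u / η := by
      rw [le_div_iff₀ h0]
      linarith
    push_cast
    linarith
  refine ⟨j, ⌈32 * j / c0⌉₊ + 1, m, hm, Nat.succ_pos _, hηc, hηd, ?_, ?_, ?_, ?_⟩
  · have : D * η ^ 3 ≤ 1 / 4 * η := mul_le_mul hD1 (hη3.trans hη2) (by positivity) (by norm_num)
    linarith
  · have : D * η ^ 3 ≤ t * s1 ^ 2 / 14 * η ^ 2 := mul_le_mul hD2 hη3 (by positivity) (by positivity)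
    have e : t * (s1 * η) ^ 2 = 14 * (t * s1 ^ 2 / 14 * η ^ 2) := by ring
    linarith
  · rw [← div_le_iff₀ hc0]
    have := Nat.le_ceil (32 * j / c0)
    push_cast
    linarith
  · calc _ ≤ u / η *
          (2 * (9 * (κ * s1 ^ 2 / (36 * u) * η ^ 3)) / (s1 * η) ^ 2 + Cs * (s1 * η)) := by gcongr
      _ = κ / 2 + u * (Cs * s1) := by field_simp; ring
      _ = κ := by rw [hu]; field_simp; norm_num

lemma opn_smul_le {β : ℝ} (hβ : β ∈ Ioc (0 : ℝ) 1) {W : Mx n} (h : opn W ≤ 3) :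
    opn (β • W) ≤ 3 := by
  rw [opn_smul, abs_of_pos hβ.1]
  have := opn_nonneg W
  nlinarith [hβ.2]

lemma nrm_c_le {R : ℝ} {J : Mx n} (hJ : opn J ≤ 3) {y p0 : V n} (hy : nrm y ≤ R * Real.sqrt n)
    (hp0 : Cb p0) : nrm (y + J *ᵥ p0) ≤ (|R| + 4) * Real.sqrt n := by
  have hs : 0 ≤ Real.sqrt n := Real.sqrt_nonneg _
  have g1 := nrm_add_le y (J *ᵥ p0)
  have g2 := nrm_mulVec_le J p0
  have g3 : opn J * nrm p0 ≤ 3 * (1 * Real.sqrt n) :=
    mul_le_mul hJ (nrm_le_of_abs zero_le_one hp0) (nrm_nonneg _) (by norm_num)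
  have g4 : R * Real.sqrt n ≤ |R| * Real.sqrt n := mul_le_mul_of_nonneg_right (le_abs_self R) hs
  linarith

lemma far {s1 K4 η m : ℝ} (hs1 : 2 ≤ s1) (hK4 : 0 < K4) (h0 : 0 < η) (hm : 4 * m ≤ η) :
    K4 * (s1 * η) ^ 2 ≤ (2 * s1 * (K4 + 1) * η - m) ^ 2 ∧ m ≤ 2 * s1 * (K4 + 1) * η := by
  have h1 : 1 * η ≤ s1 * (K4 + 1) * η := mul_le_mul_of_nonneg_right (by nlinarith) h0.le
  have h2 : s1 * (K4 + 1) * η ≤ 2 * s1 * (K4 + 1) * η - m := by linarith
  refine ⟨?_, by linarith⟩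
  calc K4 * (s1 * η) ^ 2 ≤ (K4 + 1) ^ 2 * (s1 * η) ^ 2 :=
        mul_le_mul_of_nonneg_right (by nlinarith) (sq_nonneg _)
    _ = (s1 * (K4 + 1) * η) ^ 2 := by ring
    _ ≤ _ := pow_le_pow_left₀ (by linarith) h2 2

theorem ksStmt (hC : ChildStmt) (hM : MultiStmt) (hS : SmearStmt) (hU : U2Stmt) (hD : DetEStmt) :
    KsStmt := by
  intro β hβ k1 hk1 R
  obtain ⟨c0, hc0, t, ht, K4, hK4, s1, hs1, κ, hκ, τ1, hτ1, Cs, hCs, hcore⟩ :=
    core hC hM hS hU hD hβ hk1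
  have hs0 : 0 < s1 := by linarith
  have hB1 : 1 ≤ |R| + 4 := by linarith [abs_nonneg R]
  obtain ⟨η0, hη0, hpar⟩ := params hc0 ht hs0 hκ hτ1 hCs (B := |R| + 4) (by linarith)
  refine ⟨2 * s1 * (K4 + 1), by positivity, η0, hη0, fun η hη => ?_⟩
  obtain ⟨j, k, m, hm, hk, hηc, hηd, hm1, hm2, hjk, hkκ⟩ := hpar η hη
  have h0 := hη.1
  have hm0 : 0 < m := by rw [hm]; positivity
  choose S hS1 hS2 hS3 using fun n => exists_net2 n j hB1
  have hW := hcore η k (9 * m) h0 (hηd.trans (min_le_right _ _)) hk (by positivity)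
    hkκ S hS1 fun n => (hS2 n).trans (Real.exp_le_exp.2 (by
      have := mul_le_mul_of_nonneg_right hjk (Nat.cast_nonneg (α := ℝ) n)
      linarith))
  obtain ⟨G, hG3⟩ : ∃ G : ℕ, 3 ≤ G * m := ⟨⌈3 / m⌉₊, (div_le_iff₀ hm0).1 (Nat.le_ceil _)⟩
  refine ⟨Fintype.card ((Fin k × Bool) ⊕ (Fin (G + 1) × Fin (G + 1))), 8, m, hm0, hW.mono ?_⟩
  filter_upwards [eventually_gt_atTop 0] with n hn
  rintro W ⟨-, h2, h3⟩ y p0 hy hp0
  have hJ := opn_smul_le hβ h2
  obtain ⟨z, hz, hz1, hz2⟩ := hS3 n _ p0 (nrm_c_le hJ hy hp0) hp0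
  rw [← hm] at hz1 hz2
  obtain ⟨r, hr1, hr2⟩ := det_ks hn ⟨sq_nonneg β, pow_le_one₀ hβ.1.le hβ.2⟩ hJ (hS1 n z hz)
    hm0 hηc hm1 ⟨by positivity, hηd.trans (min_le_left _ _)⟩ ht hm2 hG3
    (far hs1 hK4 h0 hm1).1 (far hs1 hK4 h0 hm1).2 hz1 hz2 (h3 z hz)
  refine ⟨fun i => r ((Fintype.equivFin _).symm i), fun i => hr1 _, fun x g1 g2 g3 => ?_⟩
  obtain ⟨i, hi⟩ := hr2 x g1 g2 g3
  exact ⟨Fintype.equivFin _ i, by simp only [Equiv.symm_apply_apply]; exact hi⟩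

theorem zStmt (hC : ChildStmt) (hM : MultiStmt) (hS : SmearStmt) (hU : U2Stmt) (hD : DetEStmt) :
    ZStmt := by
  intro β hβ k1 hk1
  obtain ⟨c0, hc0, t, ht, K4, hK4, s1, hs1, κ, hκ, τ1, hτ1, Cs, hCs, hcore⟩ :=
    core hC hM hS hU hD hβ hk1
  have hs0 : 0 < s1 := by linarith
  set v : ℝ := min (Real.sqrt (min τ1 (k1 / K4))) (κ / (2 * Cs)) with hv
  have hv0 : 0 < v := by positivity
  have hv1 : v ^ 2 ≤ min τ1 (k1 / K4) := by
    calc v ^ 2 ≤ Real.sqrt (min τ1 (k1 / K4)) ^ 2 := by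
          gcongr
          exact min_le_left _ _
      _ = _ := Real.sq_sqrt (by positivity)
  have e : s1 * (v / s1) = v := by field_simp
  have hW := hcore (v / s1) 1 (κ * v ^ 2 / 4) (by positivity)
    (by rw [e]; exact hv1.trans (min_le_left _ _)) one_pos (by positivity) (by
      rw [e]
      have h1 : Cs * v ≤ Cs * (κ / (2 * Cs)) := by
        gcongr
        exact min_le_right _ _
      have h2 : Cs * (κ / (2 * Cs)) = κ / 2 := by field_simp
      have h3 : 2 * (κ * v ^ 2 / 4) / v ^ 2 = κ / 2 := by field_simp; norm_num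
      push_cast
      linarith) (fun _ => {(0, 0)}) (fun n z hz => by
        rw [Finset.mem_singleton.1 hz]
        intro i
        simp) fun n => by
      rw [Finset.card_singleton, Nat.cast_one]
      exact Real.one_le_exp (by positivity)
  rw [e] at hW
  refine ⟨v / s1, by positivity, hW.mono ?_⟩
  filter_upwards [eventually_gt_atTop 0] with n hn
  rintro W ⟨-, -, h3⟩ x hx
  have hn' : (0 : ℝ) < n := Nat.cast_pos.2 hn
  by_contra hcon
  push Not at hcon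
  refine h3 (0, 0) (Finset.mem_singleton_self _) ⟨fun _ => x, fun _ => ⟨?_, hcon, ?_, ?_⟩,
    fun a a' h => absurd h (by rw [Subsingleton.elim a a']; exact lt_irrefl _)⟩
  · have e1 : Xc (β ^ 2) 0 x - (β • W) *ᵥ (th x - 0) = Ymap (β • W) (β ^ 2) x := by
      simp only [Xc, Ymap, sub_zero]
      abel
    rw [e1]
    refine hx.trans ?_
    have : 0 ≤ v / s1 * Real.sqrt n := by positivity
    linarith
  · have e2 : avg (DD (th x)) = 1 - th x ⬝ᵥ th x / n := by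
      simp only [avg, DD, dotProduct, Finset.sum_sub_distrib, sq]
      field_simp
      simp
    have h4 : K4 * v ^ 2 ≤ k1 := by
      have := hv1.trans (min_le_right _ _)
      rw [le_div_iff₀ hK4] at this
      linarith
    have h5 : k1 ≤ th x ⬝ᵥ th x / n := by linarith
    rw [le_div_iff₀ hn'] at h5
    simp only [sub_zero]
    nlinarith
  · have e3 : rv (β ^ 2) (avg (DD (th x))) (gam (β ^ 2) (v ^ 2) 0 x) (0 : V n) 0 = 0 := by
      funext i
      simp [rv, gE_tanh_zero]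
    have h4 : 0 ≤ gam (β ^ 2) (v ^ 2) 0 x :=
      add_nonneg (sq_nonneg _) (mul_nonneg (sq_nonneg _) (div_nonneg (Eig.dot_self_nonneg _) hn'.le))
    simp only
    rw [e3, dotProduct_zero, abs_zero]
    positivity

end Crest.Agent.T157.Lp.K99

namespace Crest.Agent.T157.Lp

/-- **task 602** -/
theorem ksTop : KsTop := fun hC hM hS hU hD =>
  ⟨K99.ksStmt hC hM hS hU hD, K99.zStmt hC hM hS hU hD⟩

end Crest.Agent.T157.Lp
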