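import Crest.Agent.T157.KrB_53

/-!
# Row 157, part E (helper53): Cameron–Martin for the GOE and several simultaneous queries

* `goe_cm`       : `E e^{M·W} F(W) = e^{s² Vq M / 2} E F(W + s² (M + Mᵀ))`;
* `prod_phi_le`  : Fourier bound of `E ∏ φ_τ(Y a - β W v a)`, uniform in `Y`;
* `exists_proj`  : a projector killing `k` vectors, with the determinant bound of corank `k`;
* `centre_le`    : the resulting bound of the joint density.
-/

set_option autoImplicit false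
set_option linter.unusedSectionVars false

noncomputable section

namespace Crest.Agent.T157.Kr

open MeasureTheory ProbabilityTheory Matrix Real
open Crest.Agent.T157.E Crest.Agent.T157.Cond
open scoped ENNReal

variable {ι : Type*} [Fintype ι]

theorem lintegral_gv_tilt (u : ι → ℝ) {G : (ι → ℝ) → ℝ≥0∞} (hG : Measurable G) :
    ∫⁻ g, ENNReal.ofReal (Real.exp (u ⬝ᵥ g)) * G g ∂(gv ι) =
      ENNReal.ofReal (Real.exp (u ⬝ᵥ u / 2)) * ∫⁻ g, G (g + u) ∂(gv ι) := by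
  rw [lintegral_gv (by fun_prop), lintegral_gv (by fun_prop),
    ← lintegral_const_mul' _ _ ENNReal.ofReal_ne_top, ← lintegral_add_right_eq_self _ u]
  refine lintegral_congr fun y => ?_
  rw [← mul_assoc, ← mul_assoc, ← ENNReal.ofReal_mul (phi_nonneg _ _),
    ← ENNReal.ofReal_mul (Real.exp_pos _).le]
  congr 2
  unfold phi
  rw [mul_assoc, ← Real.exp_add, mul_left_comm, ← Real.exp_add]
  congr 2
  simp only [add_dotProduct, dotProduct_add, dotProduct_comm y u]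
  ring

/-- **Cameron–Martin formula for the GOE** -/
theorem goe_cm (s : ℝ) (M : Matrix ι ι ℝ) {F : Matrix ι ι ℝ → ℝ≥0∞} (hF : Measurable F) :
    ∫⁻ W, ENNReal.ofReal (Real.exp (pair M W)) * F W ∂(goe ι s) =
      ENNReal.ofReal (Real.exp (s ^ 2 * Vq M / 2)) *
        ∫⁻ W, F (W + s ^ 2 • (M + Mᵀ)) ∂(goe ι s) := by
  set u : ι × ι → ℝ := fun p => s / Real.sqrt 2 * (M p.1 p.2 + M p.2 p.1) with hu
  have h2 : Real.sqrt 2 ^ 2 = 2 := Real.sq_sqrt (by norm_num)
  have h3 : Real.sqrt 2 ≠ 0 := by positivity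
  have h1 : ∀ x : ι × ι → ℝ, pair M (symG s x) = u ⬝ᵥ x := by
    intro x
    simp only [hu, pair, symG, Matrix.of_apply, dotProduct, Fintype.sum_prod_type, mul_add, add_mul,
      Finset.sum_add_distrib]
    congr 1
    · exact Finset.sum_congr rfl fun i _ => Finset.sum_congr rfl fun j _ => by ring
    · rw [Finset.sum_comm]
      exact Finset.sum_congr rfl fun i _ => Finset.sum_congr rfl fun j _ => by ring
  have h4 : u ⬝ᵥ u = s ^ 2 * Vq M := by
    rw [Vq_eq_sum]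
    simp only [hu, dotProduct, Fintype.sum_prod_type, Finset.sum_div, Finset.mul_sum]
    refine Finset.sum_congr rfl fun i _ => Finset.sum_congr rfl fun j _ => ?_
    field_simp
    rw [h2]
    ring
  have h5 : ∀ x : ι × ι → ℝ, symG s (x + u) = symG s x + s ^ 2 • (M + Mᵀ) := by
    intro x
    ext i j
    simp only [hu, symG, Matrix.of_apply, Pi.add_apply, Matrix.add_apply, Matrix.smul_apply,
      Matrix.transpose_apply, smul_eq_mul]
    field_simp
    linear_combination (-s ^ 2 * (M i j + M j i)) * h2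
  have hs := measurable_symG (ι := ι) s
  rw [goe, lintegral_map (by fun_prop) hs, lintegral_map (by fun_prop) hs]
  simp only [h1, ← h5, ← h4]
  exact lintegral_gv_tilt u (G := fun x => F (symG s x)) (hF.comp hs)

lemma pair_comm {κ : Type*} [Fintype κ] (M X : Matrix ι κ ℝ) : pair M X = pair X M := by
  simp only [pair, mul_comm]

lemma pair_sum_vmv {κ : Type*} [Fintype κ] (u v : κ → ι → ℝ) (W : Matrix ι ι ℝ) :
    pair (∑ a, vecMulVec (u a) (v a)) W = ∑ a, u a ⬝ᵥ W *ᵥ v a := by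
  simp only [← pair_vecMulVec, pair_comm W, pair_eq_trace, Matrix.transpose_sum, Matrix.sum_mul,
    Matrix.trace_sum]

lemma Vq_nonneg (M : Matrix ι ι ℝ) : 0 ≤ Vq M := by rw [Vq_eq_sum]; positivity

lemma Vq_sum_vmv {κ : Type*} [Fintype κ] (u v : κ → ι → ℝ) :
    Vq (∑ a, vecMulVec (u a) (v a)) =
      ∑ a, ∑ b, ((u a ⬝ᵥ u b) * (v a ⬝ᵥ v b) + (u a ⬝ᵥ v b) * (u b ⬝ᵥ v a)) := by
  have h : ∀ x y z w : ι → ℝ, (vecMulVec x y * vecMulVec z w).trace = (y ⬝ᵥ z) * (w ⬝ᵥ x) := by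
    intro x y z w
    rw [trace_mul_vmv, vmv_mulVec, dotProduct_smul, smul_eq_mul]
  simp only [Vq, Matrix.transpose_sum, Matrix.transpose_vecMulVec, Matrix.add_mul, Matrix.mul_add,
    Matrix.sum_mul, Matrix.mul_sum, Matrix.trace_add, Matrix.trace_sum, h, Finset.sum_add_distrib]
  have e1 : ∑ a, ∑ b, (v b ⬝ᵥ u a) * (v a ⬝ᵥ u b) = ∑ a, ∑ b, (u a ⬝ᵥ v b) * (u b ⬝ᵥ v a) :=
    Finset.sum_congr rfl fun a _ => Finset.sum_congr rfl fun b _ => by
      rw [dotProduct_comm (v b), dotProduct_comm (v a)]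
  have e2 : ∑ a, ∑ b, (u b ⬝ᵥ u a) * (v a ⬝ᵥ v b) = ∑ a, ∑ b, (u a ⬝ᵥ u b) * (v a ⬝ᵥ v b) :=
    Finset.sum_congr rfl fun a _ => Finset.sum_congr rfl fun b _ => by
      rw [dotProduct_comm (u b)]
  have e3 : ∑ a, ∑ b, (v b ⬝ᵥ v a) * (u a ⬝ᵥ u b) = ∑ a, ∑ b, (u a ⬝ᵥ u b) * (v a ⬝ᵥ v b) :=
    Finset.sum_congr rfl fun a _ => Finset.sum_congr rfl fun b _ => by
      rw [dotProduct_comm (v b), mul_comm]
  have e4 : ∑ a, ∑ b, (u b ⬝ᵥ v a) * (u a ⬝ᵥ v b) = ∑ a, ∑ b, (u a ⬝ᵥ v b) * (u b ⬝ᵥ v a) :=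
    Finset.sum_congr rfl fun a _ => Finset.sum_congr rfl fun b _ => mul_comm _ _
  rw [e1, e2, e3, e4]
  ring

/-- Fourier bound: the joint density is maximal at the centre -/
theorem prod_exp_le {κ : Type*} [Fintype κ] (s c : ℝ) (v Y : κ → ι → ℝ) :
    ∫ W, ∏ a, Real.exp (-((Y a - c • W *ᵥ v a) ⬝ᵥ (Y a - c • W *ᵥ v a)) / 2) ∂(goe ι s) ≤
      ∫ ξ, Real.exp (-(s ^ 2 * c ^ 2 * Vq (∑ a, vecMulVec (ξ a) (v a))) / 2)
        ∂(Measure.pi fun _ : κ => gv ι) := by
  set μ := Measure.pi fun _ : κ => gv ι with hμ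
  set h : Matrix ι ι ℝ → (κ → ι → ℝ) → ℂ := fun W ξ =>
    Complex.exp ((∑ a, (Y a - c • W *ᵥ v a) ⬝ᵥ ξ a : ℝ) * Complex.I) with hh
  have h1 : ∀ W : Matrix ι ι ℝ,
      ((∏ a, Real.exp (-((Y a - c • W *ᵥ v a) ⬝ᵥ (Y a - c • W *ᵥ v a)) / 2) : ℝ) : ℂ) =
        ∫ ξ, h W ξ ∂μ := by
    intro W
    have e : ∀ ξ, h W ξ = ∏ a, Complex.exp (((Y a - c • W *ᵥ v a) ⬝ᵥ ξ a : ℝ) * Complex.I) := by
      intro ξ
      rw [hh, ← Complex.exp_sum, ← Finset.sum_mul]
      push_cast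
      rfl
    simp_rw [e]
    rw [integral_fintype_prod_eq_prod (f := fun a (x : ι → ℝ) =>
      Complex.exp (((Y a - c • W *ᵥ v a) ⬝ᵥ x : ℝ) * Complex.I))]
    push_cast
    exact Finset.prod_congr rfl fun a _ => (CF_gv (Y a - c • W *ᵥ v a)).symm
  have h2 : ∀ ξ : κ → ι → ℝ, ‖∫ W, h W ξ ∂(goe ι s)‖ =
      Real.exp (-(s ^ 2 * c ^ 2 * Vq (∑ a, vecMulVec (ξ a) (v a))) / 2) := by
    intro ξ
    have e : ∀ W, h W ξ = Complex.exp ((∑ a, Y a ⬝ᵥ ξ a : ℝ) * Complex.I) *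
        Complex.exp ((pair ((-c) • ∑ a, vecMulVec (ξ a) (v a)) W : ℝ) * Complex.I) := by
      intro W
      rw [hh, ← Complex.exp_add, ← add_mul, ← Complex.ofReal_add, smul_pair, pair_sum_vmv]
      simp only [sub_dotProduct, smul_dotProduct, Finset.sum_sub_distrib, smul_eq_mul,
        Finset.mul_sum, dotProduct_comm (W *ᵥ v _), neg_mul, Finset.sum_neg_distrib]
      ring
    simp_rw [e]
    rw [integral_const_mul, norm_mul, Complex.norm_exp_ofReal_mul_I, one_mul]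
    have e2 := CF_goe s ((-c) • ∑ a, vecMulVec (ξ a) (v a))
    rw [CF] at e2
    rw [e2, Vq_smul, neg_sq, ← mul_assoc]
    rw [show -((s ^ 2 * c ^ 2 * Vq (∑ a, vecMulVec (ξ a) (v a)) : ℝ) : ℂ) / 2 =
      ((-(s ^ 2 * c ^ 2 * Vq (∑ a, vecMulVec (ξ a) (v a))) / 2 : ℝ) : ℂ) by push_cast; ring,
      Complex.norm_exp_ofReal]
  have hm : Measurable (Function.uncurry h) := by
    have : Measurable fun q : Matrix ι ι ℝ × (κ → ι → ℝ) =>
        ∑ a, (Y a - c • q.1 *ᵥ v a) ⬝ᵥ q.2 a := by fun_prop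
    exact Complex.measurable_exp.comp ((Complex.measurable_ofReal.comp this).mul_const _)
  have hi : Integrable (Function.uncurry h) ((goe ι s).prod μ) :=
    (integrable_const (1 : ℝ)).mono' hm.aestronglyMeasurable (ae_of_all _ fun q => by
      simp only [Function.uncurry, hh, Complex.norm_exp_ofReal_mul_I, le_refl])
  refine (le_abs_self _).trans ?_
  rw [← Real.norm_eq_abs, ← Complex.norm_real, ← integral_complex_ofReal]
  simp_rw [← h2]
  refine le_trans (le_of_eq ?_) (norm_integral_le_integral_norm _)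
  rw [← integral_integral_swap hi]
  congr 1
  exact integral_congr_ae (ae_of_all _ h1)

variable [DecidableEq ι]

/-- a projector killing `k` given vectors; its corank is at most `k` -/
theorem exists_proj (k : ℕ) (v : Fin k → ι → ℝ) : ∃ P : Matrix ι ι ℝ, IsProj P ∧
    (∀ a, P *ᵥ v a = 0) ∧ ∀ t : ℝ, 0 < t → t ≤ 1 →
      |(1 - P + t • P).det| ≤ t ^ Fintype.card ι / t ^ k := by
  induction k with
  | zero =>
    refine ⟨1, IsProj.one, fun a => a.elim0, fun t ht _ => ?_⟩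
    simp [abs_of_pos ht]
  | succ k ih =>
    obtain ⟨P, hP, h0, hd⟩ := ih fun a => v a.succ
    refine ⟨nextR P (v 0), hP.nextR _, fun a => ?_, fun t ht ht1 => ?_⟩
    · refine Fin.cases (nextR_v hP _) (fun a => nextR_mulVec_of hP _ (h0 a)) a
    · have h1 := hd t ht ht1
      have h2 : t ^ Fintype.card ι / t ^ k ≤ t ^ Fintype.card ι / t ^ (k + 1) :=
        div_le_div_of_nonneg_left (by positivity) (by positivity)
          (by rw [pow_succ]; exact mul_le_of_le_one_right (by positivity) ht1)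
      rcases unitv_cases (P *ᵥ v 0) with he | he
      · have hR := R_dirv hP (v 0)
        set e := dirv P (v 0) with hedef
        have e1 : 1 - nextR P (v 0) + t • nextR P (v 0) = (1 - P + t • P) * blk e 1 t⁻¹ := by
          refine Matrix.ext_of_mulVec_single fun i => ?_
          rw [← Matrix.mulVec_mulVec, blk_mulVec, nextR, ← hedef]
          simp only [Matrix.add_mulVec, Matrix.sub_mulVec, Matrix.smul_mulVec, Matrix.one_mulVec,
            Matrix.mulVec_add, Matrix.mulVec_smul, hR, vmv_mulVec]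
          match_scalars <;> (field_simp; try ring)
        rw [e1, Matrix.det_mul, det_blk (e := e) he one_ne_zero, one_pow, one_mul, div_one, abs_mul,
          abs_of_pos (inv_pos.2 ht), pow_succ, ← div_div, div_eq_mul_inv _ t]
        exact mul_le_mul_of_nonneg_right h1 (by positivity)
      · rw [nextR, dirv, he, Matrix.vecMulVec_zero, sub_zero]
        exact h1.trans h2

lemma integral_exp_proj {P : Matrix ι ι ℝ} (hP : IsProj P) {t : ℝ} (ht : 0 < t) :
    ∫⁻ ξ, ENNReal.ofReal (Real.exp (-((t⁻¹ ^ 2 - 1) * (P *ᵥ ξ ⬝ᵥ P *ᵥ ξ)) / 2)) ∂(gv ι) =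
      ENNReal.ofReal |(1 - P + t • P).det| := by
  have hinv : (1 - P + t⁻¹ • P) * (1 - P + t • P) = 1 := by
    simp only [Matrix.add_mul, Matrix.mul_add, Matrix.sub_mul, Matrix.mul_sub, Matrix.smul_mul,
      Matrix.mul_smul, hP.idem, Matrix.one_mul, Matrix.mul_one]
    match_scalars <;> (field_simp; try ring)
  have hdet : (1 - P + t • P).det ≠ 0 := by
    intro h
    have := congrArg Matrix.det hinv
    rw [Matrix.det_mul, h, mul_zero, Matrix.det_one] at this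
    exact zero_ne_one this
  have h := lintegral_gv_affine hdet 0 (G := fun _ => ENNReal.ofReal |(1 - P + t • P).det|)
    measurable_const
  rw [lintegral_const, measure_univ, mul_one, Matrix.inv_eq_left_inv hinv] at h
  rw [h, lintegral_gv (by fun_prop)]
  refine lintegral_congr fun y => ?_
  rw [← ENNReal.ofReal_mul (phi_nonneg _ _),
    ← ENNReal.ofReal_mul (mul_nonneg (abs_nonneg _) (phi_nonneg _ _)), sub_zero, abs_inv,
    mul_comm (_⁻¹), mul_assoc, inv_mul_cancel₀ (abs_ne_zero.2 hdet), mul_one]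
  congr 1
  unfold phi
  rw [mul_assoc, ← Real.exp_add]
  congr 2
  have h1 := hP.dot_self y y
  simp only [Matrix.add_mulVec, Matrix.sub_mulVec, Matrix.smul_mulVec, Matrix.one_mulVec,
    add_dotProduct, dotProduct_add, sub_dotProduct, dotProduct_sub, smul_dotProduct,
    dotProduct_smul, smul_eq_mul, h1, dotProduct_comm (P *ᵥ y) y]
  ring

lemma Vq_ge_proj {κ : Type*} [Fintype κ] {P : Matrix ι ι ℝ} (hP : IsProj P) (u v : κ → ι → ℝ)
    (h0 : ∀ a, P *ᵥ v a = 0) :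
    ∑ a, ∑ b, (P *ᵥ u a ⬝ᵥ P *ᵥ u b) * (v a ⬝ᵥ v b) ≤ Vq (∑ a, vecMulVec (u a) (v a)) := by
  set M := ∑ a, vecMulVec (u a) (v a) with hM
  have h1 : M - (1 - P) * M * (1 - P) = ∑ a, vecMulVec (P *ᵥ u a) (v a) := by
    have : M * P = 0 := by
      simp only [hM, Matrix.sum_mul, vmv_mul, hP.symm, h0, Matrix.vecMulVec_zero,
        Finset.sum_const_zero]
    rw [Matrix.mul_assoc, Matrix.mul_sub, Matrix.mul_one, this, sub_zero, Matrix.sub_mul,
      Matrix.one_mul, sub_sub_cancel, hM, Matrix.mul_sum]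
    simp only [Matrix.mul_vecMulVec]
  have h2 := Vq_split hP.compl M
  have h3 := Vq_nonneg ((1 - P) * M * (1 - P))
  rw [h1, Vq_sum_vmv (fun a => P *ᵥ u a) v] at h2
  have h4 : ∀ a b, (P *ᵥ u a) ⬝ᵥ v b = 0 := fun a b => by rw [← hP.dot, h0, dotProduct_zero]
  simp only [h4, mul_zero, add_zero] at h2
  linarith

/-- **joint density of `k` almost orthogonal queries.**  `γ a - 1 ≥ 0` is the part of
`s² c² |v a|²` that survives the off-diagonal Gram entries. -/
theorem centre_le {k : ℕ} (s c : ℝ) (v Y : Fin k → ι → ℝ) (γ : Fin k → ℝ) (hγ : ∀ a, 1 ≤ γ a)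
    (hG : ∀ x : Fin k → ι → ℝ, ∑ a, (γ a - 1) * (x a ⬝ᵥ x a) ≤
      s ^ 2 * c ^ 2 * ∑ a, ∑ b, (x a ⬝ᵥ x b) * (v a ⬝ᵥ v b)) :
    ∫ W, ∏ a, Real.exp (-((Y a - c • W *ᵥ v a) ⬝ᵥ (Y a - c • W *ᵥ v a)) / 2) ∂(goe ι s) ≤
      ∏ a, (Real.sqrt (γ a))⁻¹ ^ Fintype.card ι * Real.sqrt (γ a) ^ k := by
  obtain ⟨P, hP, h0, hd⟩ := exists_proj k v
  set f : Fin k → (ι → ℝ) → ℝ := fun a ξ => Real.exp (-((γ a - 1) * (P *ᵥ ξ ⬝ᵥ P *ᵥ ξ)) / 2)
    with hf
  have hfm : ∀ a, Measurable (f a) := fun a => by rw [hf]; fun_prop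
  have hf0 : ∀ a ξ, 0 ≤ f a ξ := fun a ξ => (Real.exp_pos _).le
  have hf1 : ∀ a ξ, f a ξ ≤ 1 := fun a ξ => Real.exp_le_one_iff.2 (by
    have := mul_nonneg (sub_nonneg.2 (hγ a)) (dot_self_nonneg (P *ᵥ ξ))
    linarith)
  have hfi : ∀ a, Integrable (f a) (gv ι) := fun a =>
    (integrable_const (1 : ℝ)).mono' (hfm a).aestronglyMeasurable (ae_of_all _ fun ξ => by
      rw [Real.norm_of_nonneg (hf0 a ξ)]; exact hf1 a ξ)
  refine (prod_exp_le s c v Y).trans ((integral_mono_of_nonneg (ae_of_all _ fun _ =>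
    (Real.exp_pos _).le) (Integrable.fintype_prod (f := f) hfi) (ae_of_all _ fun ξ => ?_)).trans ?_)
  · simp only [hf, ← Real.exp_sum]
    refine Real.exp_le_exp.2 ?_
    have h1 := hG fun a => P *ᵥ ξ a
    have h2 := mul_le_mul_of_nonneg_left (Vq_ge_proj hP ξ v h0)
      (by positivity : 0 ≤ s ^ 2 * c ^ 2)
    rw [← Finset.sum_div, Finset.sum_neg_distrib]
    linarith
  · rw [integral_fintype_prod_eq_prod (f := f)]
    refine Finset.prod_le_prod (fun a _ => integral_nonneg (hf0 a)) fun a _ => ?_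
    have g0 : 0 < γ a := by linarith [hγ a]
    have g1 : 1 ≤ Real.sqrt (γ a) := Real.one_le_sqrt.2 (hγ a)
    have ht : 0 < (Real.sqrt (γ a))⁻¹ := by positivity
    have h1 := integral_exp_proj hP ht
    rw [inv_inv, Real.sq_sqrt g0.le] at h1
    rw [integral_eq_lintegral_of_nonneg_ae (ae_of_all _ (hf0 a)) (hfm a).aestronglyMeasurable, h1,
      ENNReal.toReal_ofReal (abs_nonneg _)]
    refine (hd _ ht (inv_le_one_of_one_le₀ g1)).trans_eq ?_
    rw [inv_pow _ k, div_inv_eq_mul]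

end Crest.Agent.T157.Kr

end
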