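import Crest.Agent.T157.LpKs_17
import Crest.Agent.T157.KrM_53

/-!
# Row 157, part A (helper53): almost orthogonal queries are almost independent, `Lp.MultiStmt`
-/

set_option autoImplicit false
set_option linter.unusedSectionVars false

noncomputable section

namespace Crest.Agent.T157.Lp.Multi

open MeasureTheory ProbabilityTheory Matrix Filter Set
open Crest.Agent.T157.E Crest.Agent.T157.Eig Crest.Agent.T157.Cond Crest.Agent.T157.Tap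
open Crest.Agent.T157.Kr
open scoped ENNReal

variable {n : ℕ}

lemma abs_dot_le' (u v : V n) : |u ⬝ᵥ v| ≤ nrm u * nrm v := by
  have h := Finset.sum_mul_sq_le_sq_mul_sq Finset.univ u v
  refine abs_le.2 (abs_le_of_sq_le_sq' ?_ (mul_nonneg (nrm_nonneg _) (nrm_nonneg _)))
  rw [mul_pow, nrm_sq, nrm_sq]
  simpa only [dotProduct, sq] using h

/-- the optimal tilt `Σ⁻¹ X` of one query -/
def lam (β τ : ℝ) (v X : V n) : V n :=
  blk (unitv v) (τ + β ^ 2 * (v ⬝ᵥ v / n))⁻¹ (τ + 2 * (β ^ 2 * (v ⬝ᵥ v / n)))⁻¹ *ᵥ X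

lemma phi_tilt {τ : ℝ} (hτ : 0 < τ) (X u l : V n) :
    phi τ (X - u) = Real.exp (l ⬝ᵥ u) * (Real.exp (-(l ⬝ᵥ X) + τ * (l ⬝ᵥ l) / 2) *
      phi τ (X - τ • l - u)) := by
  unfold phi
  have key : ∀ c x₁ x₂ x₃ x₄ : ℝ, x₁ = x₂ + x₃ + x₄ →
      c * Real.exp x₁ = Real.exp x₂ * (Real.exp x₃ * (c * Real.exp x₄)) := by
    intro c x₁ x₂ x₃ x₄ h1
    rw [h1, Real.exp_add, Real.exp_add]; ring
  refine key _ _ _ _ _ ?_
  simp only [sub_dotProduct, dotProduct_sub, smul_dotProduct, dotProduct_smul, smul_eq_mul,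
    dotProduct_comm u X, dotProduct_comm u l, dotProduct_comm X l]
  field_simp
  ring

section one
variable {β τ B : ℝ} {v X : V n} (hn : 0 < n) (hβ : β ∈ Ioc (0 : ℝ) 1) (hτ : 0 < τ)
  (hv : τ * n ≤ β ^ 2 * (v ⬝ᵥ v))
include hn hβ hτ hv

lemma rho_ge : τ ≤ β ^ 2 * (v ⬝ᵥ v / n) := by
  have : (0 : ℝ) < n := by positivity
  rwa [← mul_div_assoc, le_div_iff₀ this]

lemma v_ne : v ≠ 0 := by
  intro h
  have := rho_ge hn hβ hτ hv
  rw [h, dotProduct_zero, zero_div, mul_zero] at this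
  linarith

lemma diag_eq : -(lam β τ v X ⬝ᵥ X) + τ * (lam β τ v X ⬝ᵥ lam β τ v X) / 2 +
    β ^ 2 / n * ((lam β τ v X ⬝ᵥ lam β τ v X) * (v ⬝ᵥ v) +
      (lam β τ v X ⬝ᵥ v) * (lam β τ v X ⬝ᵥ v)) / 2 =
    -(X ⬝ᵥ X) / (2 * (τ + β ^ 2 * (v ⬝ᵥ v / n))) + β ^ 2 * (v ⬝ᵥ v / n) * (unitv v ⬝ᵥ X) ^ 2 /
      (2 * (τ + β ^ 2 * (v ⬝ᵥ v / n)) * (τ + 2 * (β ^ 2 * (v ⬝ᵥ v / n)))) := by
  have he := unitv_dot (v_ne hn hβ hτ hv)
  have hρ := rho_ge hn hβ hτ hv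
  have hN : (0 : ℝ) < n := by positivity
  have h1 : lam β τ v X ⬝ᵥ v = len v * ((τ + 2 * (β ^ 2 * (v ⬝ᵥ v / n)))⁻¹ * (unitv v ⬝ᵥ X)) := by
    conv_lhs => enter [2]; rw [← len_smul_unitv v]
    rw [dotProduct_smul, dotProduct_comm, lam, dot_blk he, smul_eq_mul]
  have h2 : (v ⬝ᵥ v) = n * (v ⬝ᵥ v / n) := by field_simp
  have h3 : len v * len v = n * (v ⬝ᵥ v / n) := by rw [← sq, len_sq, ← h2]
  rw [h1, mul_mul_mul_comm, h3, lam, blk_dot_blk he, dotProduct_comm _ X, dot_blk']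
  generalize v ⬝ᵥ v / n = ρ at *
  have h6 : ∀ Q R : ℝ, β ^ 2 / n * (Q * (n * ρ) + n * ρ * R) = β ^ 2 * ρ * (Q + R) := by
    intro Q R; field_simp
  rw [h2, h6]
  generalize β ^ 2 * ρ = y at *
  obtain ⟨G, hG⟩ : ∃ G, G = τ + y := ⟨_, rfl⟩
  obtain ⟨H, hH⟩ : ∃ H, H = τ + 2 * y := ⟨_, rfl⟩
  have h4 : G ≠ 0 := by rw [hG]; linarith
  have h5 : H ≠ 0 := by rw [hH]; linarith
  rw [← hG, ← hH, show τ = 2 * G - H by linarith, show y = H - G by linarith]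
  field_simp
  ring

lemma lam_nrm (hB : 0 ≤ B) (hX : X ⬝ᵥ X ≤ B ^ 2 * (τ + β ^ 2 * (v ⬝ᵥ v / n)) * n) :
    nrm (lam β τ v X) * Real.sqrt (τ + β ^ 2 * (v ⬝ᵥ v / n)) ≤ B * Real.sqrt n := by
  have he := unitv_dot (v_ne hn hβ hτ hv)
  have hρ := rho_ge hn hβ hτ hv
  refine abs_le_of_sq_le_sq' ?_ (by positivity) |>.2
  rw [mul_pow, mul_pow, nrm_sq, Real.sq_sqrt (by linarith), Real.sq_sqrt (Nat.cast_nonneg _), lam,
    blk_dot_blk he]
  generalize β ^ 2 * (v ⬝ᵥ v / n) = ρ at *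
  have h4 : 0 < τ + ρ := by linarith
  have h1 : (τ + 2 * ρ)⁻¹ ^ 2 ≤ (τ + ρ)⁻¹ ^ 2 :=
    pow_le_pow_left₀ (inv_nonneg.2 (by linarith)) (inv_anti₀ h4 (by linarith)) 2
  have h2 := mul_le_mul_of_nonneg_right h1 (sq_nonneg (unitv v ⬝ᵥ X))
  calc _ ≤ ((τ + ρ)⁻¹ ^ 2 * (X ⬝ᵥ X)) * (τ + ρ) :=
        mul_le_mul_of_nonneg_right (by linarith) h4.le
    _ ≤ ((τ + ρ)⁻¹ ^ 2 * (B ^ 2 * (τ + ρ) * n)) * (τ + ρ) := by gcongr
    _ = _ := by field_simp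

omit hv in
lemma v_nrm : β * nrm v ≤ Real.sqrt (τ + β ^ 2 * (v ⬝ᵥ v / n)) * Real.sqrt n := by
  have hN : (0 : ℝ) < n := by positivity
  have h0 := Cond.dot_self_nonneg v
  refine abs_le_of_sq_le_sq' ?_ (by positivity) |>.2
  rw [mul_pow, mul_pow, nrm_sq, Real.sq_sqrt (by positivity), Real.sq_sqrt hN.le, add_mul,
    mul_assoc, div_mul_cancel₀ _ hN.ne']
  have := mul_pos hτ hN
  linarith

lemma lam_dot (hB : 0 ≤ B) (hX : X ⬝ᵥ X ≤ B ^ 2 * (τ + β ^ 2 * (v ⬝ᵥ v / n)) * n) {w : V n} {T : ℝ}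
    (h1 : |X ⬝ᵥ w| ≤ T) (h2 : |v ⬝ᵥ w| ≤ T) :
    |lam β τ v X ⬝ᵥ w| * (τ + β ^ 2 * (v ⬝ᵥ v / n)) ≤ (1 + B) * T := by
  have he := unitv_dot (v_ne hn hβ hτ hv)
  have hρ := rho_ge hn hβ hτ hv
  have hN : (0 : ℝ) < n := by positivity
  have hT : 0 ≤ T := (abs_nonneg _).trans h1
  have hL : 0 < len v := lt_of_le_of_ne (len_nonneg v) fun h =>
    v_ne hn hβ hτ hv (len_eq_zero.1 h.symm)
  have h3 : len v * |unitv v ⬝ᵥ w| ≤ T := by
    rw [← abs_of_pos hL, ← abs_mul, ← smul_eq_mul, ← smul_dotProduct, len_smul_unitv]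
    exact h2
  have h4 : (unitv v ⬝ᵥ X) ^ 2 ≤ X ⬝ᵥ X := by
    have := abs_dot_le' (unitv v) X
    rw [← nrm_sq, ← sq_abs]
    refine pow_le_pow_left₀ (abs_nonneg _) (this.trans_eq ?_) 2
    rw [nrm, he, Real.sqrt_one, one_mul]
  have h5 : β ^ 2 * len v ^ 2 = β ^ 2 * (v ⬝ᵥ v / n) * n := by rw [len_sq]; field_simp
  rw [dotProduct_comm, lam, dot_blk', dotProduct_comm w X]
  generalize β ^ 2 * (v ⬝ᵥ v / n) = ρ at *
  have g1 : 0 < τ + ρ := by linarith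
  have g2 : 0 < τ + 2 * ρ := by linarith
  have g0 : 0 < ρ := by linarith
  have h6 : ρ * |unitv v ⬝ᵥ X| ≤ B * (τ + 2 * ρ) * len v := by
    refine abs_le_of_sq_le_sq' ?_ (by positivity) |>.2
    have hβ2 : β ^ 2 ≤ 1 := pow_le_one₀ hβ.1.le hβ.2
    have a1 : ρ * n ≤ len v ^ 2 := by rw [← h5]; exact mul_le_of_le_one_left (sq_nonneg _) hβ2
    have a2 : ρ * (τ + ρ) ≤ (τ + 2 * ρ) ^ 2 := by nlinarith
    calc (ρ * |unitv v ⬝ᵥ X|) ^ 2 = ρ ^ 2 * (unitv v ⬝ᵥ X) ^ 2 := by rw [mul_pow, sq_abs]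
      _ ≤ ρ ^ 2 * (B ^ 2 * (τ + ρ) * n) := by gcongr; exact h4.trans hX
      _ = B ^ 2 * (ρ * (τ + ρ)) * (ρ * n) := by ring
      _ ≤ B ^ 2 * (τ + 2 * ρ) ^ 2 * len v ^ 2 := by gcongr
      _ = _ := by ring
  have h7 : ((τ + ρ)⁻¹ * X ⬝ᵥ w + ((τ + 2 * ρ)⁻¹ - (τ + ρ)⁻¹) * unitv v ⬝ᵥ X * unitv v ⬝ᵥ w) *
      (τ + ρ) = X ⬝ᵥ w - ρ * (unitv v ⬝ᵥ X) * (unitv v ⬝ᵥ w) / (τ + 2 * ρ) := by
    field_simp
    ring
  rw [← abs_of_pos g1, ← abs_mul, abs_of_pos g1, h7]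
  refine (abs_sub _ _).trans ?_
  rw [abs_div, abs_mul, abs_mul, abs_of_pos g0, abs_of_pos g2, add_mul, one_mul]
  refine add_le_add h1 ((div_le_iff₀ g2).2 ?_)
  calc _ ≤ B * (τ + 2 * ρ) * len v * |unitv v ⬝ᵥ w| :=
        mul_le_mul_of_nonneg_right h6 (abs_nonneg _)
    _ = B * (τ + 2 * ρ) * (len v * |unitv v ⬝ᵥ w|) := by ring
    _ ≤ B * (τ + 2 * ρ) * T := by gcongr
    _ = _ := by ring

end one

lemma cross_le {β τ B t : ℝ} {v X v' X' : V n} (hn : 0 < n) (hβ : β ∈ Ioc (0 : ℝ) 1) (hτ : 0 < τ)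
    (hv : τ * n ≤ β ^ 2 * (v ⬝ᵥ v)) (hv' : τ * n ≤ β ^ 2 * (v' ⬝ᵥ v')) (hB : 0 ≤ B) (ht : 0 ≤ t)
    (hX : X ⬝ᵥ X ≤ B ^ 2 * (τ + β ^ 2 * (v ⬝ᵥ v / n)) * n)
    (hX' : X' ⬝ᵥ X' ≤ B ^ 2 * (τ + β ^ 2 * (v' ⬝ᵥ v' / n)) * n)
    (h1 : |v ⬝ᵥ v'| ≤ t * Real.sqrt ((τ + β ^ 2 * (v ⬝ᵥ v / n)) * (τ + β ^ 2 * (v' ⬝ᵥ v' / n))) * n)
    (h2 : |X ⬝ᵥ v'| ≤ t * Real.sqrt ((τ + β ^ 2 * (v ⬝ᵥ v / n)) * (τ + β ^ 2 * (v' ⬝ᵥ v' / n))) * n) :
    β ^ 2 / n * ((lam β τ v X ⬝ᵥ lam β τ v' X') * (v ⬝ᵥ v') +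
      (lam β τ v X ⬝ᵥ v') * (lam β τ v' X' ⬝ᵥ v)) ≤ (B ^ 2 + B * (1 + B)) * t * n := by
  have hN : (0 : ℝ) < n := by positivity
  have a1 := lam_nrm hn hβ hτ hv hB hX
  have a2 := lam_nrm hn hβ hτ hv' hB hX'
  have a3 := v_nrm (v := v) hn hβ hτ
  have a4 := lam_dot hn hβ hτ hv hB hX h2 h1
  have a5 := abs_dot_le' (lam β τ v X) (lam β τ v' X')
  have a6 := abs_dot_le' (lam β τ v' X') v
  have hρ := rho_ge hn hβ hτ hv
  have hρ' := rho_ge hn hβ hτ hv'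
  have hg : 0 < τ + β ^ 2 * (v ⬝ᵥ v / n) := by linarith
  have hg' : 0 < τ + β ^ 2 * (v' ⬝ᵥ v' / n) := by linarith
  rw [Real.sqrt_mul hg.le] at h1 a4
  have e1 := Real.mul_self_sqrt hg.le
  have e2 := Real.mul_self_sqrt hN.le
  have p1 := Real.sqrt_pos.2 hg
  have p2 := Real.sqrt_pos.2 hg'
  have p3 := Real.sqrt_pos.2 hN
  rw [← e1] at a4
  rw [Real.sqrt_mul_self p1.le] at a4
  generalize Real.sqrt (τ + β ^ 2 * (v ⬝ᵥ v / n)) = g at *
  generalize Real.sqrt (τ + β ^ 2 * (v' ⬝ᵥ v' / n)) = g' at *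
  generalize Real.sqrt (n : ℝ) = r at *
  have n1 := nrm_nonneg (lam β τ v X)
  have n2 := nrm_nonneg (lam β τ v' X')
  have n3 := nrm_nonneg v
  have hβ2 : β ^ 2 ≤ 1 := pow_le_one₀ hβ.1.le hβ.2
  have b1 : (lam β τ v X ⬝ᵥ lam β τ v' X') * (v ⬝ᵥ v') ≤ B ^ 2 * t * n * n := by
    calc _ ≤ |lam β τ v X ⬝ᵥ lam β τ v' X'| * |v ⬝ᵥ v'| := by rw [← abs_mul]; exact le_abs_self _
      _ ≤ (nrm (lam β τ v X) * nrm (lam β τ v' X')) * (t * (g * g') * n) := by gcongr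
      _ = (nrm (lam β τ v X) * g) * (nrm (lam β τ v' X') * g') * (t * n) := by ring
      _ ≤ (B * r) * (B * r) * (t * n) := by gcongr
      _ = B ^ 2 * t * n * (r * r) := by ring
      _ = _ := by rw [e2]
  have b2 : β * ((lam β τ v X ⬝ᵥ v') * (lam β τ v' X' ⬝ᵥ v)) ≤ B * (1 + B) * t * n * n := by
    have c1 : |lam β τ v X ⬝ᵥ v'| * g ≤ (1 + B) * (t * g' * n) := by
      refine le_of_mul_le_mul_right ?_ p1
      calc _ = |lam β τ v X ⬝ᵥ v'| * (g * g) := by ring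
        _ ≤ _ := a4
        _ = _ := by ring
    calc _ ≤ β * (|lam β τ v X ⬝ᵥ v'| * |lam β τ v' X' ⬝ᵥ v|) := by
          rw [← abs_mul]; exact mul_le_mul_of_nonneg_left (le_abs_self _) hβ.1.le
      _ ≤ β * (|lam β τ v X ⬝ᵥ v'| * (nrm (lam β τ v' X') * nrm v)) := by gcongr; exact hβ.1.le
      _ = |lam β τ v X ⬝ᵥ v'| * nrm (lam β τ v' X') * (β * nrm v) := by ring
      _ ≤ |lam β τ v X ⬝ᵥ v'| * nrm (lam β τ v' X') * (g * r) := by gcongr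
      _ = (|lam β τ v X ⬝ᵥ v'| * g) * (nrm (lam β τ v' X') * r) := by ring
      _ ≤ ((1 + B) * (t * g' * n)) * (nrm (lam β τ v' X') * r) := by gcongr
      _ = (1 + B) * t * n * r * (nrm (lam β τ v' X') * g') := by ring
      _ ≤ (1 + B) * t * n * r * (B * r) := by gcongr
      _ = B * (1 + B) * t * n * (r * r) := by ring
      _ = _ := by rw [e2]
  rw [div_mul_eq_mul_div, div_le_iff₀ hN]
  have d1 : β ^ 2 * ((lam β τ v X ⬝ᵥ lam β τ v' X') * (v ⬝ᵥ v')) ≤ B ^ 2 * t * n * n :=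
    (mul_le_mul_of_nonneg_left b1 (sq_nonneg β)).trans (mul_le_of_le_one_left (by positivity) hβ2)
  have d2 : β * (β * ((lam β τ v X ⬝ᵥ v') * (lam β τ v' X' ⬝ᵥ v))) ≤ B * (1 + B) * t * n * n :=
    (mul_le_mul_of_nonneg_left b2 hβ.1.le).trans (mul_le_of_le_one_left (by positivity) hβ.2)
  nlinarith

lemma sum_le_diag {k : ℕ} {f : Fin k → Fin k → ℝ} {c : ℝ} (hc : 0 ≤ c)
    (hs : ∀ a b, f a b = f b a) (h : ∀ a b, a < b → f a b ≤ c) :
    ∑ a, ∑ b, f a b ≤ ∑ a, f a a + k ^ 2 * c := by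
  have h1 : ∀ a b, f a b ≤ (if a = b then f a a else 0) + c := by
    intro a b
    rcases lt_trichotomy a b with hab | hab | hab
    · rw [if_neg hab.ne, zero_add]; exact h a b hab
    · subst hab; rw [if_pos rfl]; linarith
    · rw [if_neg hab.ne', zero_add, hs]; exact h b a hab
  refine (Finset.sum_le_sum fun a _ => Finset.sum_le_sum fun b _ => h1 a b).trans_eq ?_
  simp only [Finset.sum_add_distrib, Finset.sum_ite_eq, Finset.mem_univ, if_true, Finset.sum_const,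
    Finset.card_univ, Fintype.card_fin, nsmul_eq_mul]
  ring

lemma one_le {β τ x C : ℝ} {k : ℕ} {v X : V n} (hn : 0 < n) (hk : 0 < k) (hβ : β ∈ Ioc (0 : ℝ) 1)
    (hτ : τ ∈ Ioc (0 : ℝ) 1) (hv : τ * n ≤ β ^ 2 * (v ⬝ᵥ v)) (hv4 : v ⬝ᵥ v ≤ 4 * n) (hx0 : 0 ≤ x)
    (hx : x ≤ 1 / 2) (hC : 10 ≤ C) :
    Real.exp (-(X ⬝ᵥ X) / (2 * (τ + β ^ 2 * (v ⬝ᵥ v / n))) +
      β ^ 2 * (v ⬝ᵥ v / n) * (unitv v ⬝ᵥ X) ^ 2 /
        (2 * (τ + β ^ 2 * (v ⬝ᵥ v / n)) * (τ + 2 * (β ^ 2 * (v ⬝ᵥ v / n))))) *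
      ((Real.sqrt (2 * Real.pi * τ))⁻¹ ^ n *
        ((Real.sqrt ((1 - x) * (τ + β ^ 2 * (v ⬝ᵥ v / n)) / τ))⁻¹ ^ n *
          Real.sqrt ((1 - x) * (τ + β ^ 2 * (v ⬝ᵥ v / n)) / τ) ^ k)) ≤
    Real.exp (x * n) * (C / τ) ^ k * phiS τ (β * (1 / Real.sqrt n) * len v) (unitv v) X := by
  have hN : (0 : ℝ) < n := by positivity
  have hρ := rho_ge hn hβ hτ.1 hv
  have h0 : (β * (1 / Real.sqrt n) * len v) ^ 2 = β ^ 2 * (v ⬝ᵥ v / n) := by
    rw [mul_pow, mul_pow, len_sq, div_pow, Real.sq_sqrt hN.le]; ring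
  have h4 : β ^ 2 * (v ⬝ᵥ v / n) ≤ 4 :=
    (mul_le_of_le_one_left (div_nonneg (Cond.dot_self_nonneg v) hN.le)
      (pow_le_one₀ hβ.1.le hβ.2)).trans ((div_le_iff₀ hN).2 hv4)
  rw [phiS, h0, phi, Fintype.card_fin, Real.exp_add]
  generalize β ^ 2 * (v ⬝ᵥ v / n) = ρ at *
  obtain ⟨hτ0, hτ1⟩ := hτ
  have g1 : 0 < τ + ρ := by linarith
  have g2 : 0 < τ + 2 * ρ := by linarith
  have g3 : 0 < 1 - x := by linarith
  have a1 : (Real.sqrt (2 * Real.pi * τ))⁻¹ * (Real.sqrt ((1 - x) * (τ + ρ) / τ))⁻¹ ≤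
      Real.exp x * (Real.sqrt (2 * Real.pi * (τ + ρ)))⁻¹ := by
    rw [← mul_inv, ← Real.sqrt_mul (by positivity), show 2 * Real.pi * τ * ((1 - x) * (τ + ρ) / τ) =
      (1 - x) * (2 * Real.pi * (τ + ρ)) by field_simp, Real.sqrt_mul g3.le, mul_inv]
    refine mul_le_mul_of_nonneg_right ?_ (by positivity)
    rw [inv_le_comm₀ (Real.sqrt_pos.2 g3) (Real.exp_pos _)]
    refine Real.le_sqrt_of_sq_le ?_
    rw [inv_pow, ← Real.exp_nat_mul, inv_le_comm₀ (Real.exp_pos _) g3]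
    refine le_trans ?_ (Real.add_one_le_exp _)
    rw [inv_le_iff_one_le_mul₀ g3]
    push_cast
    nlinarith
  have a2 : Real.sqrt ((1 - x) * (τ + ρ) / τ) ≤ C / 2 / τ := by
    have b1 : (1 - x) * (τ + ρ) / τ ≤ C / 2 / τ :=
      div_le_div_of_nonneg_right (by nlinarith) hτ0.le
    have b2 : 1 ≤ C / 2 / τ := (one_le_div hτ0).2 (by linarith)
    exact Real.sqrt_le_iff.2 ⟨by linarith, by nlinarith⟩
  have a3 : 1 ≤ 2 * (Real.sqrt (τ + ρ) / Real.sqrt (τ + 2 * ρ)) := by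
    rw [← mul_div_assoc, one_le_div (Real.sqrt_pos.2 g2)]
    refine Real.sqrt_le_iff.2 ⟨by positivity, ?_⟩
    rw [mul_pow, Real.sq_sqrt g1.le]
    linarith
  have a4 : Real.sqrt ((1 - x) * (τ + ρ) / τ) ^ k ≤
      (C / τ) ^ k * (Real.sqrt (τ + ρ) / Real.sqrt (τ + 2 * ρ)) := by
    have hC0 : 0 ≤ C / 2 / τ := by have : 0 < C := by linarith
                                   positivity
    have b1 : (2 : ℝ) ≤ 2 ^ k := le_self_pow₀ one_le_two hk.ne'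
    calc _ ≤ (C / 2 / τ) ^ k * 1 := by
          rw [mul_one]; exact pow_le_pow_left₀ (Real.sqrt_nonneg _) a2 k
      _ ≤ (C / 2 / τ) ^ k * (2 ^ k * (Real.sqrt (τ + ρ) / Real.sqrt (τ + 2 * ρ))) :=
          mul_le_mul_of_nonneg_left (a3.trans (mul_le_mul_of_nonneg_right b1 (by positivity)))
            (pow_nonneg hC0 _)
      _ = _ := by rw [← mul_assoc, ← mul_pow]; congr 2; ring
  have a5 := pow_le_pow_left₀ (by positivity) a1 n
  rw [mul_pow, mul_pow, ← Real.exp_nat_mul, mul_comm (n : ℝ) x] at a5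
  have a6 := mul_le_mul a5 a4 (by positivity) (by positivity)
  rw [mul_assoc] at a6
  refine (mul_le_mul_of_nonneg_left a6 (by positivity)).trans_eq ?_
  ring

end Crest.Agent.T157.Lp.Multi

namespace Crest.Agent.T157.Lp

open MeasureTheory ProbabilityTheory Matrix Filter Set
open Crest.Agent.T157.E Crest.Agent.T157.Eig Crest.Agent.T157.Cond Crest.Agent.T157.Tap
open Crest.Agent.T157.Kr Multi
open scoped ENNReal

theorem multiStmt : MultiStmt := by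
  intro A
  set B := |A| + 1 with hBdef
  have hB : 0 ≤ B := by positivity
  have hAB : A ≤ B ^ 2 := by have := le_abs_self A; have := abs_nonneg A; nlinarith
  set C := B ^ 2 + B * (1 + B) + 10 with hC
  have hC' : 0 ≤ B ^ 2 + B * (1 + B) := by positivity
  refine ⟨C, by positivity, fun n k β τ t v X hn hβ hτ ht hkt hv4 hX ho hv => ?_⟩
  have hN : (0 : ℝ) < n := by positivity
  have hτ0 := hτ.1
  have hst : 0 < Real.sqrt τ := Real.sqrt_pos.2 hτ0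
  set γ : Fin k → ℝ := fun a => τ + β ^ 2 * (v a ⬝ᵥ v a / n) with hγ
  have hρ : ∀ a, τ ≤ β ^ 2 * (v a ⬝ᵥ v a / n) := fun a => rho_ge hn hβ hτ0 (hv a)
  have hγ0 : ∀ a, 0 < γ a := fun a => by have := hρ a; simp only [hγ]; linarith
  have hX' : ∀ a, X a ⬝ᵥ X a ≤ B ^ 2 * (τ + β ^ 2 * (v a ⬝ᵥ v a / n)) * n := fun a =>
    (hX a).trans (mul_le_mul_of_nonneg_right (mul_le_mul_of_nonneg_right hAB (hγ0 a).le) hN.le)
  set l : Fin k → V n := fun a => lam β τ (v a) (X a) with hl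
  set M : Mx n := β • ∑ a, vecMulVec (l a) (v a) with hM
  set K := Real.exp (∑ a, (-(l a ⬝ᵥ X a) + τ * (l a ⬝ᵥ l a) / 2)) with hK
  have h1 : ∀ W : Mx n, ∏ a, ENNReal.ofReal (phi τ (X a - β • W *ᵥ v a)) =
      ENNReal.ofReal (Real.exp (pair M W)) *
        ENNReal.ofReal (K * ∏ a, phi τ (X a - τ • l a - β • W *ᵥ v a)) := by
    intro W
    rw [← ENNReal.ofReal_prod_of_nonneg fun a _ => phi_nonneg _ _,
      ← ENNReal.ofReal_mul (Real.exp_pos _).le, hM, smul_pair, pair_sum_vmv, Finset.mul_sum, hK,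
      Real.exp_sum, Real.exp_sum, ← Finset.prod_mul_distrib, ← Finset.prod_mul_distrib]
    congr 1
    refine Finset.prod_congr rfl fun a _ => ?_
    rw [phi_tilt hτ0 _ _ (l a), dotProduct_smul, smul_eq_mul]
  simp only [h1]
  rw [goe_cm _ M (by fun_prop)]
  set Y : Fin k → V n := fun a => (Real.sqrt τ)⁻¹ •
    (X a - τ • l a - β • ((1 / Real.sqrt n) ^ 2 • (M + Mᵀ)) *ᵥ v a) with hY
  set F : Mx n → ℝ := fun W => ∏ a, Real.exp (-((Y a - (β / Real.sqrt τ) • W *ᵥ v a) ⬝ᵥ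
    (Y a - (β / Real.sqrt τ) • W *ᵥ v a)) / 2) with hF
  set c := ∏ _a : Fin k, (Real.sqrt (2 * Real.pi * τ))⁻¹ ^ n with hc
  have hc0 : 0 ≤ c := by positivity
  have h2 : ∀ W : Mx n, ∏ a, phi τ (X a - τ • l a -
      β • (W + (1 / Real.sqrt n) ^ 2 • (M + Mᵀ)) *ᵥ v a) = c * F W := by
    intro W
    rw [hc, hF, ← Finset.prod_mul_distrib]
    refine Finset.prod_congr rfl fun a _ => ?_
    have e : Y a - (β / Real.sqrt τ) • W *ᵥ v a = (Real.sqrt τ)⁻¹ • (X a - τ • l a -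
        β • (W + (1 / Real.sqrt n) ^ 2 • (M + Mᵀ)) *ᵥ v a) := by
      rw [hY, Matrix.add_mulVec, div_eq_mul_inv β]
      module
    rw [e, smul_dotProduct, dotProduct_smul, phi, Fintype.card_fin, smul_eq_mul, smul_eq_mul,
      ← mul_assoc, ← mul_inv, Real.mul_self_sqrt hτ0.le]
    congr 2
    field_simp
  simp only [h2]
  have hFm : Measurable F := by rw [hF]; fun_prop
  have hF0 : ∀ W, 0 ≤ F W := fun W => by rw [hF]; positivity
  have hFi : Integrable F (GOE n) :=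
    (integrable_const (1 : ℝ)).mono' hFm.aestronglyMeasurable (ae_of_all _ fun W => by
      rw [Real.norm_of_nonneg (hF0 W)]
      refine Finset.prod_le_one (fun a _ => (Real.exp_pos _).le) fun a _ =>
        Real.exp_le_one_iff.2 ?_
      have := Cond.dot_self_nonneg (Y a - (β / Real.sqrt τ) • W *ᵥ v a)
      linarith)
  have hs2 : (1 / Real.sqrt n) ^ 2 = 1 / (n : ℝ) := by rw [div_pow, Real.sq_sqrt hN.le, one_pow]
  have h3 := centre_le (1 / Real.sqrt n) (β / Real.sqrt τ) v Y (fun a => (1 - k * t) * γ a / τ)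
    (fun a => by
      rw [one_le_div hτ0]
      have := hρ a
      have := hγ0 a
      simp only [hγ] at *
      nlinarith)
    (fun x => by
      have hp : ∀ a b, (if a = b then β ^ 2 * (v a ⬝ᵥ v a / n) * (x a ⬝ᵥ x a) else 0) -
          t * (γ a * (x a ⬝ᵥ x a) + γ b * (x b ⬝ᵥ x b)) / 2 ≤
          β ^ 2 / n * ((x a ⬝ᵥ x b) * (v a ⬝ᵥ v b)) := by
        intro a b
        have p1 := mul_nonneg (hγ0 a).le (Cond.dot_self_nonneg (x a))
        have p2 := mul_nonneg (hγ0 b).le (Cond.dot_self_nonneg (x b))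
        split_ifs with hab
        · subst hab
          have := mul_nonneg ht p1
          have e : β ^ 2 / n * ((x a ⬝ᵥ x a) * (v a ⬝ᵥ v a)) =
            β ^ 2 * (v a ⬝ᵥ v a / n) * (x a ⬝ᵥ x a) := by ring
          rw [e]; linarith
        · have q1 : |v a ⬝ᵥ v b| ≤ t * Real.sqrt (γ a * γ b) * n := by
            rcases lt_or_gt_of_ne hab with h | h
            · exact (ho a b h).1
            · rw [dotProduct_comm, mul_comm (γ a)]; exact (ho b a h).1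
          rw [Real.sqrt_mul (hγ0 a).le] at q1
          have q2 := abs_dot_le' (x a) (x b)
          have q3 : |(x a ⬝ᵥ x b) * (v a ⬝ᵥ v b)| ≤
              t * (γ a * (x a ⬝ᵥ x a) + γ b * (x b ⬝ᵥ x b)) / 2 * n := by
            rw [abs_mul]
            refine (mul_le_mul q2 q1 (abs_nonneg _)
              (mul_nonneg (nrm_nonneg _) (nrm_nonneg _))).trans ?_
            have r1 := two_mul_le_add_sq (Real.sqrt (γ a) * nrm (x a)) (Real.sqrt (γ b) * nrm (x b))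
            rw [mul_pow, mul_pow, nrm_sq, nrm_sq, Real.sq_sqrt (hγ0 a).le,
              Real.sq_sqrt (hγ0 b).le] at r1
            have r2 := mul_le_mul_of_nonneg_left r1 (mul_nonneg ht hN.le)
            linarith
          have q4 : β ^ 2 / n * |(x a ⬝ᵥ x b) * (v a ⬝ᵥ v b)| ≤
              t * (γ a * (x a ⬝ᵥ x a) + γ b * (x b ⬝ᵥ x b)) / 2 := by
            rw [div_mul_eq_mul_div, div_le_iff₀ hN]
            exact (mul_le_of_le_one_left (abs_nonneg _) (pow_le_one₀ hβ.1.le hβ.2)).trans q3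
          have q5 := mul_le_mul_of_nonneg_left (neg_abs_le ((x a ⬝ᵥ x b) * (v a ⬝ᵥ v b)))
            (by positivity : 0 ≤ β ^ 2 / n)
          linarith
      have hs := Finset.sum_le_sum fun a (_ : a ∈ Finset.univ) =>
        Finset.sum_le_sum fun b (_ : b ∈ Finset.univ) => hp a b
      simp only [Finset.sum_sub_distrib, Finset.sum_ite_eq, Finset.mem_univ, if_true,
        ← Finset.sum_div, ← Finset.mul_sum, Finset.sum_add_distrib, Finset.sum_const,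
        Finset.card_univ, Fintype.card_fin, nsmul_eq_mul] at hs
      simp only [mul_left_comm (γ _) (k : ℝ), ← Finset.mul_sum] at hs
      have e : ∑ a, ((1 - k * t) * γ a / τ - 1) * (x a ⬝ᵥ x a) =
          (∑ a, β ^ 2 * (v a ⬝ᵥ v a / n) * (x a ⬝ᵥ x a) - k * t * ∑ a, γ a * (x a ⬝ᵥ x a)) / τ := by
        rw [Finset.mul_sum, ← Finset.sum_sub_distrib, Finset.sum_div]
        refine Finset.sum_congr rfl fun a _ => ?_
        simp only [hγ]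
        field_simp
        ring
      rw [e, hs2, div_pow, Real.sq_sqrt hτ0.le, div_le_iff₀ hτ0]
      refine le_trans (by linarith) (hs.trans_eq ?_)
      field_simp)
  have h4 : ∫⁻ W, ENNReal.ofReal (K * (c * F W)) ∂(GOE n) = ENNReal.ofReal (K * (c * ∫ W, F W ∂(GOE n))) := by
    rw [← integral_const_mul, ← integral_const_mul, ofReal_integral_eq_lintegral_ofReal
      ((hFi.const_mul c).const_mul K) (ae_of_all _ fun W => by have := hF0 W; positivity)]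
  rw [h4, ← ENNReal.ofReal_mul (Real.exp_pos _).le]
  refine ENNReal.ofReal_le_ofReal ?_
  rw [Fintype.card_fin] at h3
  have h5 := sum_le_diag (f := fun a b => β ^ 2 / n * ((l a ⬝ᵥ l b) * (v a ⬝ᵥ v b) +
      (l a ⬝ᵥ v b) * (l b ⬝ᵥ v a))) (c := (B ^ 2 + B * (1 + B)) * t * n) (by positivity)
    (fun a b => by simp only [dotProduct_comm (l a) (l b), dotProduct_comm (v a) (v b)]; ring)
    (fun a b hab => cross_le hn hβ hτ0 (hv a) (hv b) hB ht (hX' a) (hX' b) (ho a b hab).1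
      (ho a b hab).2)
  have h6 : Real.exp ((1 / Real.sqrt n) ^ 2 * Vq M / 2) * K ≤
      Real.exp (k ^ 2 * ((B ^ 2 + B * (1 + B)) * t * n)) * ∏ a,
      Real.exp (-(X a ⬝ᵥ X a) / (2 * (τ + β ^ 2 * (v a ⬝ᵥ v a / n))) +
        β ^ 2 * (v a ⬝ᵥ v a / n) * (unitv (v a) ⬝ᵥ X a) ^ 2 /
        (2 * (τ + β ^ 2 * (v a ⬝ᵥ v a / n)) * (τ + 2 * (β ^ 2 * (v a ⬝ᵥ v a / n))))) := by
    rw [← Real.exp_sum, hK, ← Real.exp_add, ← Real.exp_add]
    refine Real.exp_le_exp.2 ?_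
    rw [← Finset.sum_congr rfl fun a _ => diag_eq (X := X a) hn hβ hτ0 (hv a), hM, Vq_smul,
      Vq_sum_vmv, hs2, Finset.sum_add_distrib (f := fun a => -(lam β τ (v a) (X a) ⬝ᵥ X a) +
        τ * (lam β τ (v a) (X a) ⬝ᵥ lam β τ (v a) (X a)) / 2), ← Finset.sum_div]
    simp only [← Finset.mul_sum] at h5
    have : 0 ≤ (k : ℝ) ^ 2 * ((B ^ 2 + B * (1 + B)) * t * n) := by positivity
    have e : 1 / (n : ℝ) * (β ^ 2 * ∑ a, ∑ b, ((l a ⬝ᵥ l b) * (v a ⬝ᵥ v b) +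
      (l a ⬝ᵥ v b) * (l b ⬝ᵥ v a))) = β ^ 2 / n * ∑ a, ∑ b, ((l a ⬝ᵥ l b) * (v a ⬝ᵥ v b) +
      (l a ⬝ᵥ v b) * (l b ⬝ᵥ v a)) := by ring
    rw [e, ← Finset.mul_sum]
    simp only [hl] at h5 ⊢
    linarith
  have h7 : Real.exp (k ^ 2 * ((B ^ 2 + B * (1 + B)) * t * n)) * Real.exp (k * t * n) ^ k ≤
      Real.exp (C * k ^ 2 * t * n / β ^ 2) := by
    rw [← Real.exp_nat_mul, ← Real.exp_add]
    refine Real.exp_le_exp.2 (le_trans ?_ (le_div_self (by positivity) (pow_pos hβ.1 2)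
      (pow_le_one₀ hβ.1.le hβ.2)))
    have : 0 ≤ (k : ℝ) ^ 2 * t * n := by positivity
    rw [hC]
    nlinarith
  calc _ = Real.exp ((1 / Real.sqrt n) ^ 2 * Vq M / 2) * K * (c * ∫ W, F W ∂(GOE n)) := by ring
    _ ≤ _ := mul_le_mul h6 (mul_le_mul_of_nonneg_left h3 hc0)
        (mul_nonneg hc0 (integral_nonneg hF0)) (by positivity)
    _ ≤ Real.exp (k ^ 2 * ((B ^ 2 + B * (1 + B)) * t * n)) * ∏ a, (Real.exp (k * t * n) *
          (C / τ) ^ k * phiS τ (β * (1 / Real.sqrt n) * len (v a)) (unitv (v a)) (X a)) := by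
        rw [mul_assoc, hc, ← Finset.prod_mul_distrib, ← Finset.prod_mul_distrib]
        refine mul_le_mul_of_nonneg_left (Finset.prod_le_prod (fun a _ => by positivity)
          fun a _ => ?_) (Real.exp_pos _).le
        exact one_le hn a.pos hβ hτ (hv a) (hv4 a) (by positivity) hkt (by linarith)
    _ ≤ _ := by
        rw [Finset.prod_mul_distrib, Finset.prod_mul_distrib, Finset.prod_const, Finset.prod_const,
          Finset.card_univ, Fintype.card_fin, ← pow_mul, ← sq, ← mul_assoc, ← mul_assoc]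
        refine mul_le_mul_of_nonneg_right (mul_le_mul_of_nonneg_right h7 (by positivity))
          (Finset.prod_nonneg fun a _ => phiS_nonneg _ _ _ _)

end Crest.Agent.T157.Lp

end
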