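import Crest.Agent.T157.LpKs_17
import Crest.Agent.T157.TapSE_6
import Crest.Agent.T157.TapCell_53

/-!
# Row 157, part A (helper61): `Lp.SmearStmt`, deterministic part
-/

set_option autoImplicit false

noncomputable section

namespace Crest.Agent.T157.Lp.Sm61

open MeasureTheory ProbabilityTheory Matrix Filter Set
open Crest.Agent.T157.E Crest.Agent.T157.Eig Crest.Agent.T157.Cond Crest.Agent.T157.Tap
open Crest.Agent.T157.Kr (phi)

variable {n : ℕ}

lemma tanh_taylor (x ξ : ℝ) :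
    |Real.tanh (x + ξ) - Real.tanh x - (1 - Real.tanh x ^ 2) * ξ| ≤ 2 * ξ ^ 2 := by
  have hd : ∀ t : ℝ, HasDerivAt (fun t => Real.tanh (x + t) - (1 - Real.tanh x ^ 2) * t)
      (Real.tanh x ^ 2 - Real.tanh (x + t) ^ 2) t := fun t => by
    have h1 := (SE.hasDerivAt_tanh (x + t)).comp t ((hasDerivAt_id' t).const_add x)
    have h2 := h1.sub ((hasDerivAt_id' t).const_mul (1 - Real.tanh x ^ 2))
    exact h2.congr_deriv (by ring)
  have h := (convex_uIcc (0 : ℝ) ξ).norm_image_sub_le_of_norm_hasDerivWithin_le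
    (f := fun t => Real.tanh (x + t) - (1 - Real.tanh x ^ 2) * t) (C := 2 * |ξ|)
    (fun t _ => (hd t).hasDerivWithinAt) (fun t ht => by
      have h1 := SE.abs_tanh_sub_le x (x + t)
      have h2 : |x - (x + t)| ≤ |ξ| := by
        rw [sub_add_cancel_left, abs_neg]
        have := abs_sub_left_of_mem_uIcc ht
        simpa using this
      have h3 : |Real.tanh x + Real.tanh (x + t)| ≤ 2 :=
        (abs_add_le _ _).trans (by linarith [SE.abs_tanh_le x, SE.abs_tanh_le (x + t)])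
      rw [Real.norm_eq_abs, sq_sub_sq, abs_mul]
      exact mul_le_mul h3 (h1.trans h2) (abs_nonneg _) zero_le_two)
    left_mem_uIcc right_mem_uIcc
  simp only [add_zero, mul_zero, sub_zero, Real.norm_eq_abs] at h
  rw [mul_assoc, abs_mul_abs_self, ← sq] at h
  convert h using 2
  ring

lemma gE_lip (m m' v v' : ℝ) :
    |gE Real.tanh m v - gE Real.tanh m' v'| ≤ |m - m'| + |√v - √v'| := by
  have i1 := SE.integrable_gE SE.measurable_tanh SE.abs_tanh_le m (√v)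
  have i2 := SE.integrable_gE SE.measurable_tanh SE.abs_tanh_le m' (√v')
  have i3 : Integrable (fun z : ℝ => z ^ 2) (gaussianReal 0 1) :=
    (memLp_id_gaussianReal (μ := 0) (v := 1) 2).integrable_sq
  have e3 : ∫ z : ℝ, z ^ 2 ∂gaussianReal 0 1 = 1 := by
    have := variance_id_gaussianReal (μ := 0) (v := 1)
    rw [variance_eq_integral measurable_id.aemeasurable] at this
    simpa using this
  rw [gE, gE, ← integral_sub i1 i2]
  refine (abs_integral_le_integral_abs).trans ?_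
  have h : ∫ z : ℝ, (|m - m'| + |√v - √v'| / 2 + |√v - √v'| / 2 * z ^ 2) ∂gaussianReal 0 1 =
      |m - m'| + |√v - √v'| := by
    rw [integral_add (integrable_const _) (i3.const_mul _), integral_const_mul, e3]
    simp only [integral_const, probReal_univ, smul_eq_mul]
    ring
  rw [← h]
  refine integral_mono (i1.sub i2).abs ((integrable_const _).add (i3.const_mul _)) fun z => ?_
  refine (SE.abs_tanh_sub_le _ _).trans ?_
  rw [show m + √v * z - (m' + √v' * z) = (m - m') + (√v - √v') * z by ring]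
  refine (abs_add_le _ _).trans ?_
  rw [abs_mul]
  have h1 : |z| ≤ 1 / 2 + z ^ 2 / 2 := by nlinarith [sq_abs z, sq_nonneg (|z| - 1)]
  have := mul_le_mul_of_nonneg_left h1 (abs_nonneg (√v - √v'))
  linarith

lemma nrm_le_of_abs {z : V n} {c : ℝ} (hc : 0 ≤ c) (h : ∀ i, |z i| ≤ c) : nrm z ≤ c * √n := by
  rw [nrm_le_iff (by positivity), mul_pow, Real.sq_sqrt (Nat.cast_nonneg _)]
  calc z ⬝ᵥ z ≤ ∑ _i : Fin n, c ^ 2 := Finset.sum_le_sum fun i _ => by
        rw [← sq, ← sq_abs]; exact pow_le_pow_left₀ (abs_nonneg _) (h i) 2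
    _ = _ := by simp [mul_comm]

lemma nrm_th (x : V n) : nrm (th x) ≤ √n := by
  simpa using nrm_le_of_abs zero_le_one (Cell.abs_th_le x)

lemma nrm_v (x : V n) {p0 : V n} (hp : Cb p0) : nrm (th x - p0) ≤ 2 * √n :=
  nrm_le_of_abs zero_le_two fun i => (abs_sub _ _).trans (by
    linarith [Cell.abs_th_le x i, hp i])

lemma nrm_rv (b e γ : ℝ) (c : V n) {p0 : V n} (hp : Cb p0) : nrm (rv b e γ c p0) ≤ 2 * √n :=
  nrm_le_of_abs zero_le_two fun i => (abs_sub _ _).trans (by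
    linarith [SE.abs_gE_le SE.abs_tanh_le (c i - b * e * p0 i) γ, hp i])

lemma e_mem (hn : 0 < n) (x : V n) : avg (DD (th x)) ∈ Icc (0 : ℝ) 1 := by
  rw [Cell.avg_DD_th x hn]
  exact ⟨by linarith [Cell.aS_le_one x], by linarith [Cell.aS_nonneg x]⟩

/-- the parameters -/
structure Pm (n : ℕ) (K s θ β : ℝ) : Prop where
  n0 : 0 < n
  K1 : 1 ≤ K
  s0 : 0 < s
  s1 : s ≤ 1
  θ0 : 0 ≤ θ
  θs : θ ≤ s ^ 2
  β0 : 0 < β
  β1 : β ≤ 1

/-- a smeared child -/
structure Kid (K s θ : ℝ) (p0 x x' u : V n) : Prop where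
  hξ : nrm (x' - x) ≤ K * s * √n
  hu : nrm u ≤ K * s * √n
  hω : nrm (th x' - th x - u) ≤ K * s ^ 2 * √n
  hp : |th x ⬝ᵥ u| ≤ θ * n
  hv : |(th x - p0) ⬝ᵥ u| ≤ θ * n
  big : 4 * K * s * √n ≤ nrm (th x - p0)

variable {K s θ β : ℝ} {p0 x x' u : V n}

lemma Pm.N0 (P : Pm n K s θ β) : 0 < √(n : ℝ) := Real.sqrt_pos.2 (by exact_mod_cast P.n0)
lemma Pm.n0' (P : Pm n K s θ β) : (0 : ℝ) < n := by exact_mod_cast P.n0
lemma NN_eq (n : ℕ) : √(n : ℝ) * √n = n := Real.mul_self_sqrt (Nat.cast_nonneg _)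

lemma Kid.w_le (h : Kid K s θ p0 x x' u) (P : Pm n K s θ β) :
    nrm (th x' - th x) ≤ 2 * K * s * √n := by
  have h1 := nrm_add_le (th x' - th x - u) u
  rw [sub_add_cancel] at h1
  have h2 : K * s ^ 2 * √n ≤ K * s * √n := by
    have := P.N0; have := P.K1; have := P.s0
    gcongr
    nlinarith [P.s1]
  linarith [h.hu, h.hω]

lemma Kid.dot_w (h : Kid K s θ p0 x x' u) (z : V n) :
    |z ⬝ᵥ (th x' - th x)| ≤ |z ⬝ᵥ u| + nrm z * (K * s ^ 2 * √n) := by
  have e : z ⬝ᵥ (th x' - th x) = z ⬝ᵥ u + z ⬝ᵥ (th x' - th x - u) := by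
    rw [← dotProduct_add, add_sub_cancel]
  rw [e]
  refine (abs_add_le _ _).trans (add_le_add le_rfl ((abs_dot_le _ _).trans ?_))
  exact mul_le_mul_of_nonneg_left h.hω (nrm_nonneg _)

lemma Kid.sq_diff (h : Kid K s θ p0 x x' u) (P : Pm n K s θ β) {q : V n} (hq : Cb q)
    (hz : |(th x - q) ⬝ᵥ u| ≤ θ * n) :
    |(th x' - q) ⬝ᵥ (th x' - q) - (th x - q) ⬝ᵥ (th x - q)| ≤ 10 * K ^ 2 * s ^ 2 * n := by
  have e : (th x' - q) ⬝ᵥ (th x' - q) - (th x - q) ⬝ᵥ (th x - q) =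
      2 * ((th x - q) ⬝ᵥ (th x' - th x)) + (th x' - th x) ⬝ᵥ (th x' - th x) := by
    simp only [sub_dotProduct, dotProduct_sub, dotProduct_comm (th x') (th x),
      dotProduct_comm q (th x), dotProduct_comm q (th x')]
    ring
  have h1 := h.dot_w (th x - q)
  have h2 : nrm (th x - q) * (K * s ^ 2 * √n) ≤ 2 * K * s ^ 2 * n := by
    have := P.N0; have := P.K1
    calc _ ≤ 2 * √n * (K * s ^ 2 * √n) := mul_le_mul_of_nonneg_right (nrm_v x hq) (by positivity)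
      _ = 2 * K * s ^ 2 * (√n * √n) := by ring
      _ = _ := by rw [NN_eq]
  have h3 : |(th x' - th x) ⬝ᵥ (th x' - th x)| ≤ 4 * K ^ 2 * s ^ 2 * n := by
    rw [abs_of_nonneg (Eig.dot_self_nonneg _), ← nrm_sq]
    calc _ ≤ (2 * K * s * √n) ^ 2 := pow_le_pow_left₀ (nrm_nonneg _) (h.w_le P) 2
      _ = 4 * K ^ 2 * s ^ 2 * (√n * √n) := by ring
      _ = _ := by rw [NN_eq]
  have h4 : θ * n ≤ s ^ 2 * n := mul_le_mul_of_nonneg_right P.θs P.n0'.le
  have h5 : 0 ≤ s ^ 2 * n := by positivity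
  have h6 : K ≤ K ^ 2 := by nlinarith [P.K1]
  have h7 : 1 ≤ K ^ 2 := by nlinarith [P.K1]
  rw [e]
  refine (abs_add_le _ _).trans ?_
  rw [abs_mul, abs_two]
  nlinarith [mul_le_mul_of_nonneg_right h6 h5, mul_le_mul_of_nonneg_right h7 h5]

lemma Kid.e_diff (h : Kid K s θ p0 x x' u) (P : Pm n K s θ β) :
    |avg (DD (th x')) - avg (DD (th x))| ≤ 10 * K ^ 2 * s ^ 2 := by
  have h1 := h.sq_diff P (q := 0) (fun i => by simp) (by simpa using h.hp)
  simp only [sub_zero] at h1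
  rw [Cell.avg_DD, Cell.avg_DD, ← sub_div, abs_div, abs_of_pos P.n0', div_le_iff₀ P.n0',
    sub_sub_sub_cancel_left, abs_sub_comm]
  exact h1

lemma Kid.gam_diff (h : Kid K s θ p0 x x' u) (P : Pm n K s θ β) (hp : Cb p0) (τ : ℝ) :
    |gam (β ^ 2) τ p0 x' - gam (β ^ 2) τ p0 x| ≤ 10 * K ^ 2 * s ^ 2 := by
  have h1 := h.sq_diff P hp h.hv
  rw [gam, gam, add_sub_add_left_eq_sub, ← mul_sub, ← sub_div, abs_mul, abs_div,
    abs_of_pos P.n0', abs_of_nonneg (sq_nonneg β)]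
  refine (mul_le_of_le_one_left (by positivity) (pow_le_one₀ P.β0.le P.β1)).trans ?_
  rwa [div_le_iff₀ P.n0']

lemma Kid.v_le (h : Kid K s θ p0 x x' u) (P : Pm n K s θ β) :
    nrm (th x - p0) ≤ 2 * nrm (th x' - p0) := by
  have h1 := nrm_sub_le (th x' - p0) (th x' - th x)
  rw [sub_sub_sub_cancel_left] at h1
  linarith [h.w_le P, h.big]

lemma gam_ge (β τ : ℝ) (p0 x : V n) : τ ≤ gam (β ^ 2) τ p0 x :=
  le_add_of_nonneg_right (mul_nonneg (sq_nonneg _)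
    (div_nonneg (Eig.dot_self_nonneg _) (Nat.cast_nonneg _)))

lemma s_le_sqrt (s β : ℝ) (p0 x : V n) : s ≤ √(gam (β ^ 2) (s ^ 2) p0 x) :=
  Real.le_sqrt_of_sq_le (gam_ge β _ p0 x)

lemma Pm.v_le (P : Pm n K s θ β) (p0 x : V n) :
    nrm (th x - p0) ≤ √(gam (β ^ 2) (s ^ 2) p0 x) / β * √n := by
  have h0 := P.β0
  have h1 : 0 ≤ gam (β ^ 2) (s ^ 2) p0 x := (sq_nonneg s).trans (gam_ge β _ p0 x)
  rw [nrm_le_iff (by positivity), mul_pow, div_pow, Real.sq_sqrt h1, Real.sq_sqrt P.n0'.le, gam,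
    add_div, add_mul]
  have := P.n0'
  have e : β ^ 2 * ((th x - p0) ⬝ᵥ (th x - p0) / n) / β ^ 2 * n = (th x - p0) ⬝ᵥ (th x - p0) := by
    field_simp
  rw [e]
  exact le_add_of_nonneg_left (by positivity)

/-- the approximate equation at the smeared point -/
lemma Kid.delta (h : Kid K s θ p0 x x' u) (P : Pm n K s θ β) {J : Mx n} (hJ : opn J ≤ 3)
    {c g Eu : V n} {η : ℝ} (hY : nrm (Xc (β ^ 2) c x - J *ᵥ (th x - p0)) ≤ η * √n)
    (hE : nrm Eu ≤ s ^ 2 * √n)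
    (hx : x' - x = s • g + J *ᵥ u - (β ^ 2 * avg (DD (th x))) • u +
      (2 * β ^ 2 / n * (th x ⬝ᵥ u)) • th x - Eu) :
    nrm (Xc (β ^ 2) c x' - J *ᵥ (th x' - p0) - s • g) ≤ (η + 17 * K ^ 2 * s ^ 2) * √n := by
  have hN := P.N0
  have hn := P.n0'
  have hK := P.K1
  have hb : β ^ 2 ≤ 1 := pow_le_one₀ P.β0.le P.β1
  have e : Xc (β ^ 2) c x' - J *ᵥ (th x' - p0) - s • g =
      (Xc (β ^ 2) c x - J *ᵥ (th x - p0)) + (2 * β ^ 2 / n * (th x ⬝ᵥ u)) • th x - Eu -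
        J *ᵥ (th x' - th x - u) + (β ^ 2 * (avg (DD (th x')) - avg (DD (th x)))) • th x' +
        (β ^ 2 * avg (DD (th x))) • (th x' - th x - u) := by
    have hx' : x' = x + (s • g + J *ᵥ u - (β ^ 2 * avg (DD (th x))) • u +
      (2 * β ^ 2 / n * (th x ⬝ᵥ u)) • th x - Eu) := by rw [← hx, add_sub_cancel]
    simp only [Xc, mulVec_sub]
    generalize th x' = p' at *
    generalize avg (DD p') = e' at *
    rw [hx']
    module
  have a1 : nrm ((2 * β ^ 2 / n * (th x ⬝ᵥ u)) • th x) ≤ 2 * s ^ 2 * √n := by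
    rw [nrm_smul, abs_mul, abs_of_nonneg (by positivity)]
    refine mul_le_mul ?_ (nrm_th x) (nrm_nonneg _) (by positivity)
    calc _ ≤ 2 * 1 / n * (s ^ 2 * n) := by
          gcongr
          exact h.hp.trans (mul_le_mul_of_nonneg_right P.θs hn.le)
      _ = _ := by field_simp
  have a2 : nrm (J *ᵥ (th x' - th x - u)) ≤ 3 * (K * s ^ 2 * √n) :=
    (nrm_mulVec_le _ _).trans (mul_le_mul hJ h.hω (nrm_nonneg _) (by norm_num))
  have a3 : nrm ((β ^ 2 * (avg (DD (th x')) - avg (DD (th x)))) • th x') ≤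
      10 * K ^ 2 * s ^ 2 * √n := by
    rw [nrm_smul, abs_mul, abs_of_nonneg (sq_nonneg β)]
    exact mul_le_mul ((mul_le_of_le_one_left (abs_nonneg _) hb).trans (h.e_diff P)) (nrm_th x')
      (nrm_nonneg _) (by positivity)
  have a4 : nrm ((β ^ 2 * avg (DD (th x))) • (th x' - th x - u)) ≤ K * s ^ 2 * √n := by
    have he := e_mem P.n0 x
    rw [nrm_smul, abs_of_nonneg (mul_nonneg (sq_nonneg β) he.1)]
    exact (mul_le_of_le_one_left (nrm_nonneg _) (mul_le_one₀ hb he.1 he.2)).trans h.hω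
  rw [e]
  refine (nrm_add_le _ _).trans ((add_le_add ((nrm_add_le _ _).trans (add_le_add
    ((nrm_sub_le _ _).trans (add_le_add ((nrm_sub_le _ _).trans (add_le_add
      ((nrm_add_le _ _).trans (add_le_add hY a1)) hE)) a2)) a3)) a4).trans ?_)
  have h5 : 0 ≤ s ^ 2 * √n := by positivity
  have h6 : K ≤ K ^ 2 := by nlinarith
  have h7 : 1 ≤ K ^ 2 := by nlinarith
  nlinarith [mul_le_mul_of_nonneg_right h6 h5, mul_le_mul_of_nonneg_right h7 h5]

/-- the constraints on one child -/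
lemma Kid.child (h : Kid K s θ p0 x x' u) (P : Pm n K s θ β) (hp : Cb p0) {J : Mx n}
    (hJ : opn J ≤ 3) {c : V n} {k1 K3 K4 t : ℝ} (ht : 0 < t)
    (hY : nrm (Xc (β ^ 2) c x' - J *ᵥ (th x' - p0)) ≤ 23 * K ^ 2 * s * √n)
    (he : avg (DD (th x)) ≤ 1 - 2 * k1) (hk : 10 * K ^ 2 * s ^ 2 ≤ k1)
    (hv : K4 * s ^ 2 * n ≤ (th x - p0) ⬝ᵥ (th x - p0)) (h3 : 4 * K3 ≤ K4)
    (h4 : 8 * (5 * t + 33 / β) * K ^ 2 / (t * β ^ 2) ≤ K4)
    (hr : |(th x - p0) ⬝ᵥ rv (β ^ 2) (avg (DD (th x))) (gam (β ^ 2) (s ^ 2) p0 x) c p0| ≤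
      t / 2 * gam (β ^ 2) (s ^ 2) p0 x * n)
    (hru : |rv (β ^ 2) (avg (DD (th x))) (gam (β ^ 2) (s ^ 2) p0 x) c p0 ⬝ᵥ u| ≤ θ * n) :
    Child (β ^ 2) (s ^ 2) (2 * (23 * K ^ 2) ^ 2 + 18 / β ^ 2) k1 K3 t c p0 x' := by
  have hN := P.N0
  have hn := P.n0'
  have hK := P.K1
  have hβ := P.β0
  have hs := P.s0
  have hb : β ^ 2 ≤ 1 := pow_le_one₀ P.β0.le P.β1
  have hv' : K4 * s ^ 2 * n ≤ 4 * ((th x' - p0) ⬝ᵥ (th x' - p0)) := by
    refine hv.trans ?_
    rw [← nrm_sq, ← nrm_sq]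
    have := pow_le_pow_left₀ (nrm_nonneg _) (h.v_le P) 2
    linarith [mul_pow 2 (nrm (th x' - p0)) 2]
  have hsn : 0 < s ^ 2 * n := by positivity
  set γ := gam (β ^ 2) (s ^ 2) p0 x with hγ
  set γ' := gam (β ^ 2) (s ^ 2) p0 x' with hγ'
  have eγ : γ' * n = s ^ 2 * n + β ^ 2 * ((th x' - p0) ⬝ᵥ (th x' - p0)) := by
    rw [hγ', gam]; field_simp
  have hd := Eig.dot_self_nonneg (th x' - p0)
  refine ⟨by linarith [(abs_le.1 (h.e_diff P)).2], by nlinarith, ?_, ?_⟩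
  · have h1 := nrm_add_le (Xc (β ^ 2) c x' - J *ᵥ (th x' - p0)) (J *ᵥ (th x' - p0))
    rw [sub_add_cancel] at h1
    have h2 : nrm (J *ᵥ (th x' - p0)) ≤ 3 * nrm (th x' - p0) :=
      (nrm_mulVec_le _ _).trans (mul_le_mul_of_nonneg_right hJ (nrm_nonneg _))
    have h5 : nrm (Xc (β ^ 2) c x') ^ 2 ≤ (23 * K ^ 2 * s * √n + 3 * nrm (th x' - p0)) ^ 2 :=
      pow_le_pow_left₀ (nrm_nonneg _) (by linarith) 2
    have h6 : (23 * K ^ 2 * s * √n) ^ 2 = (23 * K ^ 2) ^ 2 * (s ^ 2 * n) := by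
      rw [mul_pow, Real.sq_sqrt hn.le]; ring
    have h7 : (23 * K ^ 2 * s * √n + 3 * nrm (th x' - p0)) ^ 2 ≤
        2 * (23 * K ^ 2 * s * √n) ^ 2 + 18 * nrm (th x' - p0) ^ 2 := by
      nlinarith [sq_nonneg (23 * K ^ 2 * s * √n - 3 * nrm (th x' - p0))]
    rw [nrm_sq] at h5
    rw [h6, nrm_sq] at h7
    rw [mul_assoc, eγ]
    have e8 : 18 / β ^ 2 * (β ^ 2 * ((th x' - p0) ⬝ᵥ (th x' - p0))) =
        18 * ((th x' - p0) ⬝ᵥ (th x' - p0)) := by field_simp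
    have h9 : 0 ≤ 18 / β ^ 2 * (s ^ 2 * n) := by positivity
    have h10 : 0 ≤ 2 * (23 * K ^ 2) ^ 2 * (β ^ 2 * ((th x' - p0) ⬝ᵥ (th x' - p0))) := by positivity
    nlinarith
  · set r := rv (β ^ 2) (avg (DD (th x))) γ c p0 with hrdef
    set r' := rv (β ^ 2) (avg (DD (th x'))) γ' c p0 with hrdef'
    have e : (th x' - p0) ⬝ᵥ r' = (th x - p0) ⬝ᵥ r + r ⬝ᵥ (th x' - th x) +
        (th x' - p0) ⬝ᵥ (r' - r) := by
      rw [dotProduct_comm r]
      simp only [sub_dotProduct, dotProduct_sub]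
      ring
    have a1 : |r ⬝ᵥ (th x' - th x)| ≤ s ^ 2 * n + 2 * K * (s ^ 2 * n) := by
      refine (h.dot_w r).trans (add_le_add (hru.trans (mul_le_mul_of_nonneg_right P.θs hn.le)) ?_)
      calc _ ≤ 2 * √n * (K * s ^ 2 * √n) :=
            mul_le_mul_of_nonneg_right (nrm_rv _ _ _ c hp) (by positivity)
        _ = 2 * K * (s ^ 2 * (√n * √n)) := by ring
        _ = _ := by rw [NN_eq]
    have a2 : nrm (r' - r) ≤ (10 * K ^ 2 * s ^ 2 + |√γ' - √γ|) * √n := by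
      refine nrm_le_of_abs (by positivity) fun i => ?_
      rw [hrdef, hrdef', Pi.sub_apply, rv, rv, sub_sub_sub_cancel_right]
      refine (gE_lip _ _ _ _).trans (add_le_add ?_ le_rfl)
      rw [sub_sub_sub_cancel_left, ← sub_mul, ← mul_sub, abs_mul, abs_mul,
        abs_of_nonneg (sq_nonneg β), abs_sub_comm]
      exact (mul_le_of_le_one_right (by positivity) (hp i)).trans
        ((mul_le_of_le_one_left (abs_nonneg _) hb).trans (h.e_diff P))
    have g0 : 0 ≤ γ := (sq_nonneg s).trans (gam_ge β _ p0 x)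
    have g0' : 0 ≤ γ' := (sq_nonneg s).trans (gam_ge β _ p0 x')
    have a3 : √γ' * |√γ' - √γ| ≤ 10 * K ^ 2 * s ^ 2 := by
      refine le_trans ?_ (h.gam_diff P hp (s ^ 2))
      have e1 : γ' - γ = (√γ' + √γ) * (√γ' - √γ) := by
        rw [← sq_sub_sq, Real.sq_sqrt g0, Real.sq_sqrt g0']
      rw [← hγ, ← hγ', e1, abs_mul, abs_of_nonneg (show 0 ≤ √γ' + √γ by positivity)]
      exact mul_le_mul_of_nonneg_right (le_add_of_nonneg_right (Real.sqrt_nonneg _)) (abs_nonneg _)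
    have a4 : |(th x' - p0) ⬝ᵥ (r' - r)| ≤ 20 * K ^ 2 * (s ^ 2 * n) +
        10 * K ^ 2 / β * (s ^ 2 * n) := by
      refine (abs_dot_le _ _).trans ((mul_le_mul_of_nonneg_left a2 (nrm_nonneg _)).trans ?_)
      rw [add_mul, mul_add]
      refine add_le_add ?_ ?_
      · calc _ ≤ 2 * √n * (10 * K ^ 2 * s ^ 2 * √n) :=
              mul_le_mul_of_nonneg_right (nrm_v x' hp) (by positivity)
          _ = 20 * K ^ 2 * (s ^ 2 * (√n * √n)) := by ring
          _ = _ := by rw [NN_eq]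
      · calc _ ≤ √γ' / β * √n * (|√γ' - √γ| * √n) :=
              mul_le_mul_of_nonneg_right (P.v_le p0 x') (by positivity)
          _ = √γ' * |√γ' - √γ| * (√n * √n / β) := by ring
          _ ≤ 10 * K ^ 2 * s ^ 2 * (√n * √n / β) := mul_le_mul_of_nonneg_right a3 (by positivity)
          _ = _ := by rw [NN_eq]; ring
    have a5 : t / 2 * γ * n ≤ t / 2 * γ' * n + 5 * t * K ^ 2 * (s ^ 2 * n) := by
      have h1 : γ ≤ γ' + 10 * K ^ 2 * s ^ 2 := by
        linarith [(abs_le.1 (h.gam_diff P hp (s ^ 2))).1]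
      have := mul_le_mul_of_nonneg_left h1 (show 0 ≤ t / 2 * n by positivity)
      linarith
    have a6 : (5 * t + 33 / β) * K ^ 2 * (s ^ 2 * n) ≤ t / 2 * γ' * n := by
      rw [div_le_iff₀ (by positivity)] at h4
      have h1 := mul_le_mul_of_nonneg_right h4 hsn.le
      have h2 := mul_le_mul_of_nonneg_left hv' (show 0 ≤ t * β ^ 2 by positivity)
      rw [mul_assoc (t / 2), eγ]
      nlinarith [mul_pos ht hsn]
    have a7 : (1 + 2 * K + 20 * K ^ 2) * (s ^ 2 * n) ≤ 23 / β * K ^ 2 * (s ^ 2 * n) := by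
      refine mul_le_mul_of_nonneg_right ?_ hsn.le
      have h1 : 23 ≤ 23 / β := by rw [le_div_iff₀ hβ]; linarith [P.β1]
      nlinarith
    rw [e]
    refine (abs_add_le _ _).trans ((add_le_add ((abs_add_le _ _).trans (add_le_add hr a1)) a4).trans
      ?_)
    have e9 : (5 * t + 33 / β) * K ^ 2 * (s ^ 2 * n) = 5 * t * K ^ 2 * (s ^ 2 * n) +
        23 / β * K ^ 2 * (s ^ 2 * n) + 10 * K ^ 2 / β * (s ^ 2 * n) := by ring
    linarith

/-- the constraints on a pair of children -/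
lemma Kid.orth {y y' w : V n} (h : Kid K s θ p0 x x' u) (h' : Kid K s θ p0 y y' w)
    (P : Pm n K s θ β) {J : Mx n} (hJ : opn J ≤ 3) {c : V n} {δ C : ℝ}
    (hY : nrm (Xc (β ^ 2) c x - J *ᵥ (th x - p0)) ≤ s * √n) (hθ : 5 * θ ≤ δ)
    (hC : 23 * K ^ 2 / β ≤ C) (o1 : |(th x - p0) ⬝ᵥ (th y - p0)| ≤ δ * n)
    (o2 : |Xc (β ^ 2) c x ⬝ᵥ (th y - p0)| ≤ δ * n) (f1 : |(th x - p0) ⬝ᵥ w| ≤ θ * n)
    (f2 : |(th y - p0) ⬝ᵥ u| ≤ θ * n) (f3 : |w ⬝ᵥ u| ≤ θ * n) (f4 : |Xc (β ^ 2) c x ⬝ᵥ w| ≤ θ * n)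
    (f5 : |(th y - p0) ⬝ᵥ (x' - x)| ≤ θ * n) (f6 : |w ⬝ᵥ (x' - x)| ≤ θ * n) :
    Orth (β ^ 2) (s ^ 2) (2 * δ / s ^ 2 + C * s) c p0 x' y' := by
  have hN := P.N0
  have hn := P.n0'
  have hK := P.K1
  have hβ := P.β0
  have hs := P.s0
  have hθ0 := P.θ0
  have hb : β ^ 2 ≤ 1 := pow_le_one₀ P.β0.le P.β1
  have g0 : 0 ≤ gam (β ^ 2) (s ^ 2) p0 x' := (sq_nonneg s).trans (gam_ge β _ p0 x')
  rw [Orth, Real.sqrt_mul g0]
  have sa := s_le_sqrt s β p0 x'
  have sb := s_le_sqrt s β p0 y'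
  have va := P.v_le p0 x'
  have vb := P.v_le p0 y'
  set A := √(gam (β ^ 2) (s ^ 2) p0 x')
  set B := √(gam (β ^ 2) (s ^ 2) p0 y')
  have A0 : 0 < A := hs.trans_le sa
  have B0 : 0 < B := hs.trans_le sb
  set Z := K ^ 2 / β * (s * (A * B) * n) with hZ
  have hKK : K ≤ K ^ 2 := by nlinarith
  -- the two elementary bounds
  have z1 : ∀ {X Y : ℝ}, s ≤ Y → 0 < X → X * Y = A * B →
      X / β * √n * (K * s ^ 2 * √n) ≤ Z := fun {X Y} hY hX e => by
    calc X / β * √n * (K * s ^ 2 * √n) = K / β * (s * (X * s) * (√n * √n)) := by ring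
      _ ≤ K ^ 2 / β * (s * (X * Y) * (√n * √n)) := by gcongr
      _ = Z := by rw [NN_eq, e]
  have z2 : K * s * √n * (K * s ^ 2 * √n) ≤ Z := by
    have h1 : K ^ 2 ≤ K ^ 2 / β := by
      rw [le_div_iff₀ hβ]; exact mul_le_of_le_one_right (by positivity) P.β1
    calc K * s * √n * (K * s ^ 2 * √n) = K ^ 2 * (s * (s * s) * (√n * √n)) := by ring
      _ ≤ K ^ 2 / β * (s * (A * B) * (√n * √n)) := by gcongr
      _ = Z := by rw [NN_eq]
  have hω0 : 0 ≤ K * s ^ 2 * √n := by positivity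
  have T1 : |(th x - p0) ⬝ᵥ (th y' - th y)| ≤ θ * n + 2 * Z := by
    refine (h'.dot_w _).trans (add_le_add f1 ?_)
    have := mul_le_mul_of_nonneg_right ((h.v_le P).trans (mul_le_mul_of_nonneg_left va
      zero_le_two)) hω0
    linarith [z1 sb A0 rfl]
  have T2 : |(th y - p0) ⬝ᵥ (th x' - th x)| ≤ θ * n + 2 * Z := by
    refine (h.dot_w _).trans (add_le_add f2 ?_)
    have := mul_le_mul_of_nonneg_right ((h'.v_le P).trans (mul_le_mul_of_nonneg_left vb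
      zero_le_two)) hω0
    linarith [z1 sa B0 (mul_comm _ _)]
  have T3 : |(th y' - th y) ⬝ᵥ (th x' - th x)| ≤ θ * n + 3 * Z := by
    refine (h.dot_w _).trans ?_
    have h1 := h'.dot_w u
    rw [dotProduct_comm, dotProduct_comm u w] at h1
    have h2 := mul_le_mul_of_nonneg_right h.hu hω0
    have h3 := mul_le_mul_of_nonneg_right (h'.w_le P) hω0
    linarith
  have T4 : |(th x' - th x) ⬝ᵥ (th y' - p0)| ≤ 2 * (θ * n) + 5 * Z := by
    have e : (th x' - th x) ⬝ᵥ (th y' - p0) = (th y - p0) ⬝ᵥ (th x' - th x) +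
        (th y' - th y) ⬝ᵥ (th x' - th x) := by
      rw [← add_dotProduct, dotProduct_comm]; congr 1; abel
    rw [e]
    linarith [abs_add_le ((th y - p0) ⬝ᵥ (th x' - th x)) ((th y' - th y) ⬝ᵥ (th x' - th x))]
  have fin : 2 * (δ * n) + 23 * Z ≤ (2 * δ / s ^ 2 + C * s) * (A * B) * n := by
    have h1 : s ^ 2 ≤ A * B := by rw [sq]; exact mul_le_mul sa sb hs.le A0.le
    have hδ : 0 ≤ δ := by linarith
    have h2 : 2 * δ ≤ 2 * δ / s ^ 2 * (A * B) := by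
      rw [div_mul_eq_mul_div, le_div_iff₀ (by positivity)]
      exact mul_le_mul_of_nonneg_left h1 (by positivity)
    have h3 := mul_le_mul_of_nonneg_right h2 hn.le
    have h4 := mul_le_mul_of_nonneg_right hC (show 0 ≤ s * (A * B) * n by positivity)
    have e : 23 * Z = 23 * K ^ 2 / β * (s * (A * B) * n) := by rw [hZ]; ring
    nlinarith
  have Z0 : 0 ≤ Z := by positivity
  have hθn := mul_le_mul_of_nonneg_right hθ hn.le
  have hθn0 : 0 ≤ θ * n := by positivity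
  refine ⟨le_trans ?_ fin, le_trans ?_ fin⟩
  · have e : (th x' - p0) ⬝ᵥ (th y' - p0) = (th x - p0) ⬝ᵥ (th y - p0) +
        (th x - p0) ⬝ᵥ (th y' - th y) + (th x' - th x) ⬝ᵥ (th y' - p0) := by
      simp only [sub_dotProduct, dotProduct_sub]; ring
    rw [e]
    refine (abs_add_le _ _).trans ((add_le_add ((abs_add_le _ _).trans (add_le_add o1 T1)) T4).trans
      ?_)
    linarith
  · have e : Xc (β ^ 2) c x' ⬝ᵥ (th y' - p0) = Xc (β ^ 2) c x ⬝ᵥ (th y - p0) +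
        Xc (β ^ 2) c x ⬝ᵥ (th y' - th y) + (th y - p0) ⬝ᵥ (x' - x) +
        (x' - x) ⬝ᵥ (th y' - th y) +
        (β ^ 2 * (avg (DD (th x')) - avg (DD (th x)))) * (th x' ⬝ᵥ (th y' - p0)) +
        (β ^ 2 * avg (DD (th x))) * ((th x' - th x) ⬝ᵥ (th y' - p0)) := by
      rw [dotProduct_comm (th y - p0)]
      simp only [Xc, sub_dotProduct, dotProduct_sub, add_dotProduct, smul_dotProduct, smul_eq_mul]
      ring
    have hX : nrm (Xc (β ^ 2) c x) ≤ 7 * (A / β * √n) := by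
      have h1 := nrm_add_le (Xc (β ^ 2) c x - J *ᵥ (th x - p0)) (J *ᵥ (th x - p0))
      rw [sub_add_cancel] at h1
      have h2 : nrm (J *ᵥ (th x - p0)) ≤ 3 * nrm (th x - p0) :=
        (nrm_mulVec_le _ _).trans (mul_le_mul_of_nonneg_right hJ (nrm_nonneg _))
      have h3 : s * √n ≤ A / β * √n := by
        refine mul_le_mul_of_nonneg_right (sa.trans ?_) hN.le
        rw [le_div_iff₀ hβ]; exact mul_le_of_le_one_right A0.le P.β1
      linarith [h.v_le P]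
    have U1 : |Xc (β ^ 2) c x ⬝ᵥ (th y' - th y)| ≤ θ * n + 7 * Z := by
      refine (h'.dot_w _).trans (add_le_add f4 ?_)
      have := mul_le_mul_of_nonneg_right hX hω0
      linarith [z1 sb A0 rfl]
    have U2 : |(x' - x) ⬝ᵥ (th y' - th y)| ≤ θ * n + Z := by
      refine (h'.dot_w _).trans (add_le_add (by rwa [dotProduct_comm]) ?_)
      exact (mul_le_mul_of_nonneg_right h.hξ hω0).trans z2
    have U3 : |(β ^ 2 * (avg (DD (th x')) - avg (DD (th x)))) * (th x' ⬝ᵥ (th y' - p0))| ≤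
        10 * Z := by
      rw [abs_mul, abs_mul, abs_of_nonneg (sq_nonneg β)]
      have h1 := (mul_le_of_le_one_left (abs_nonneg _) hb).trans (h.e_diff P)
      have h2 := (abs_dot_le (th x') (th y' - p0)).trans
        (mul_le_mul (nrm_th x') vb (nrm_nonneg _) hN.le)
      calc _ ≤ 10 * K ^ 2 * s ^ 2 * (√n * (B / β * √n)) :=
            mul_le_mul h1 h2 (abs_nonneg _) (by positivity)
        _ = 10 * (K ^ 2 / β * (s * (s * B) * (√n * √n))) := by ring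
        _ ≤ 10 * (K ^ 2 / β * (s * (A * B) * (√n * √n))) := by gcongr
        _ = _ := by rw [NN_eq]
    have U4 : |(β ^ 2 * avg (DD (th x))) * ((th x' - th x) ⬝ᵥ (th y' - p0))| ≤
        2 * (θ * n) + 5 * Z := by
      have he := e_mem P.n0 x
      rw [abs_mul, abs_of_nonneg (mul_nonneg (sq_nonneg β) he.1)]
      exact (mul_le_of_le_one_left (abs_nonneg _) (mul_le_one₀ hb he.1 he.2)).trans T4
    rw [e]
    refine (abs_add_le _ _).trans ((add_le_add ((abs_add_le _ _).trans (add_le_add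
      ((abs_add_le _ _).trans (add_le_add ((abs_add_le _ _).trans (add_le_add
      ((abs_add_le _ _).trans (add_le_add o2 U1)) f5)) U2)) U3)) U4).trans ?_)
    linarith

/-- the density at the smeared point -/
lemma Kid.dens (h : Kid K s θ p0 x x' u) (P : Pm n K s θ β) {Y g : V n} {η ε d : ℝ} (hη : 0 ≤ η)
    (hηs : η ≤ s) (hg : nrm g ≤ 5 * √n) (hY : nrm (Y - s • g) ≤ (η + 17 * K ^ 2 * s ^ 2) * √n)
    (hd : d ≤ Real.exp (n * (β ^ 2 * avg (DD (th x)) ^ 2 / 2 + ε))) :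
    Real.exp (-(n * (248 * K ^ 4 * (η / s + s) + ε))) * (s⁻¹ ^ n * d * phi 1 g) ≤
      jac (β ^ 2) x' * phi (s ^ 2) Y := by
  have hN := P.N0
  have hn := P.n0'
  have hK := P.K1
  have hs := P.s0
  have hb : β ^ 2 ≤ 1 := pow_le_one₀ P.β0.le P.β1
  have e1 : s⁻¹ ^ n * phi 1 g = phi (s ^ 2) (s • g) := by
    rw [← Kr.phi_scale (by positivity : 0 < s ^ 2), Real.sqrt_sq hs.le, smul_smul,
      inv_mul_cancel₀ hs.ne', one_smul, Fintype.card_fin]
  have h1 : nrm (s • g) ≤ s * (5 * √n) := by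
    rw [nrm_smul, abs_of_pos hs]; exact mul_le_mul_of_nonneg_left hg hs.le
  have h2 := Cell.phi_le_shift (by positivity : 0 < s ^ 2) h1 hY
  rw [add_sub_cancel] at h2
  set q := η / s + 17 * K ^ 2 * s with hq
  have hK2 : 1 ≤ K ^ 2 := by nlinarith
  have hη1 : η / s ≤ 1 := (div_le_one hs).2 hηs
  have hη0 : 0 ≤ η / s := by positivity
  have q0 : 0 ≤ q := by positivity
  have q1 : q ≤ 18 * K ^ 2 := by nlinarith [P.s1]
  have q2 : q ≤ 17 * K ^ 2 * (η / s + s) := by nlinarith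
  have e2 : (2 * (s * (5 * √n)) * ((η + 17 * K ^ 2 * s ^ 2) * √n) +
      ((η + 17 * K ^ 2 * s ^ 2) * √n) ^ 2) / (2 * s ^ 2) = (√n * √n) * (q * (5 + q / 2)) := by
    rw [hq]; field_simp
  rw [e2, NN_eq] at h2
  have h3 : q * (5 + q / 2) ≤ 238 * K ^ 4 * (η / s + s) := by
    calc _ ≤ 17 * K ^ 2 * (η / s + s) * (14 * K ^ 2) :=
          mul_le_mul q2 (by linarith) (by positivity) (by positivity)
      _ = _ := by ring
  have h4 : β ^ 2 * avg (DD (th x)) ^ 2 / 2 ≤ β ^ 2 * avg (DD (th x')) ^ 2 / 2 +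
      10 * K ^ 4 * (η / s + s) := by
    have a := e_mem P.n0 x
    have a' := e_mem P.n0 x'
    have h5 := (abs_le.1 (h.e_diff P)).1
    have h6 : avg (DD (th x)) ^ 2 - avg (DD (th x')) ^ 2 ≤ 20 * K ^ 2 * s ^ 2 := by
      have : 0 ≤ K ^ 2 * s ^ 2 := by positivity
      nlinarith [a.1, a.2, a'.1, a'.2]
    have h7 : β ^ 2 * (avg (DD (th x)) ^ 2 - avg (DD (th x')) ^ 2) ≤ 20 * K ^ 2 * s ^ 2 :=
      (mul_le_mul_of_nonneg_left h6 (sq_nonneg β)).trans
        (mul_le_of_le_one_left (by positivity) hb)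
    have h8 : K ^ 2 * s ^ 2 ≤ K ^ 4 * (η / s + s) :=
      mul_le_mul (by nlinarith) (by nlinarith [P.s1]) (by positivity) (by positivity)
    linarith
  have p0' := Kr.phi_nonneg (s ^ 2) Y
  calc _ = Real.exp (-(n * (248 * K ^ 4 * (η / s + s) + ε))) * (d * phi (s ^ 2) (s • g)) := by
        rw [← e1]; ring
    _ ≤ Real.exp (-(n * (248 * K ^ 4 * (η / s + s) + ε))) *
        (Real.exp (n * (β ^ 2 * avg (DD (th x)) ^ 2 / 2 + ε)) *
          (phi (s ^ 2) Y * Real.exp (n * (q * (5 + q / 2))))) := by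
        refine mul_le_mul_of_nonneg_left (mul_le_mul hd h2 (Kr.phi_nonneg _ _)
          (Real.exp_pos _).le) (Real.exp_pos _).le
    _ = Real.exp (-(n * (248 * K ^ 4 * (η / s + s) + ε)) +
          n * (β ^ 2 * avg (DD (th x)) ^ 2 / 2 + ε) + n * (q * (5 + q / 2))) * phi (s ^ 2) Y := by
        rw [Real.exp_add, Real.exp_add]; ring
    _ ≤ _ := by
        refine mul_le_mul_of_nonneg_right (Real.exp_le_exp.2 ?_) p0'
        have := mul_le_mul_of_nonneg_left (add_le_add h3 h4) hn.le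
        linarith

end Crest.Agent.T157.Lp.Sm61

end
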