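import Mathlib
import Crest.Agent.Lib.PrekopaLeindler
import Crest.Agent.R339.GTools

/-!
# Row 157, part E (helper16): Gaussian concentration of Lipschitz functions (sharp constant)

* `en x` Euclidean norm on `ι → ℝ`, `ELip L F` Euclidean `L`-Lipschitz;
* `GPL` Prekopa-Leindler with a quadratic cost, `gpl_gv` for the standard Gaussian vector;
* `mgf_lip`, `subG_lip` : `E exp(s (F - E F)) ≤ exp(L² s² / 2)`; `tail_lip`, `tail_lip_abs`.
-/

set_option autoImplicit false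

noncomputable section

namespace Crest.Agent.T157.Conc

open MeasureTheory ProbabilityTheory
open scoped ENNReal NNReal

/-- standard Gaussian vector (the same term as `E.gv`, `disorderLaw`) -/
abbrev gv (ι : Type*) [Fintype ι] : Measure (ι → ℝ) := Measure.pi fun _ : ι => gaussianReal 0 1

section basic
variable {ι : Type*} [Fintype ι]

/-- Euclidean norm -/
def en (x : ι → ℝ) : ℝ := Real.sqrt (∑ i, x i ^ 2)

lemma en_nonneg (x : ι → ℝ) : 0 ≤ en x := Real.sqrt_nonneg _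

lemma en_sq (x : ι → ℝ) : en x ^ 2 = ∑ i, x i ^ 2 :=
  Real.sq_sqrt (Finset.sum_nonneg fun _ _ => sq_nonneg _)

lemma en_eq_norm (x : ι → ℝ) : en x = ‖(WithLp.toLp 2 x : EuclideanSpace ℝ ι)‖ := by
  rw [EuclideanSpace.norm_eq]; simp [en]

lemma en_add_le (x y : ι → ℝ) : en (x + y) ≤ en x + en y := by
  simp only [en_eq_norm, WithLp.toLp_add]; exact norm_add_le _ _

lemma en_smul (a : ℝ) (x : ι → ℝ) : en (a • x) = |a| * en x := by
  simp only [en_eq_norm, WithLp.toLp_smul, norm_smul, Real.norm_eq_abs]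

lemma en_neg (x : ι → ℝ) : en (-x) = en x := by simp [en]

lemma en_sub_comm (x y : ι → ℝ) : en (x - y) = en (y - x) := by rw [← en_neg, neg_sub]

lemma en_zero : en (0 : ι → ℝ) = 0 := by simp [en]

lemma abs_en_sub_le (x y : ι → ℝ) : |en x - en y| ≤ en (x - y) := by
  simp only [en_eq_norm, WithLp.toLp_sub]; exact abs_norm_sub_norm_le _ _

lemma abs_le_en (x : ι → ℝ) (i : ι) : |x i| ≤ en x := by
  refine Real.le_sqrt_of_sq_le ?_
  rw [sq_abs]
  exact Finset.single_le_sum (f := fun i => x i ^ 2) (fun _ _ => sq_nonneg _) (Finset.mem_univ i)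

lemma en_le_sum (x : ι → ℝ) : en x ≤ ∑ i, |x i| := by
  refine Real.sqrt_le_iff.2 ⟨Finset.sum_nonneg fun _ _ => abs_nonneg _, ?_⟩
  have h := Finset.sum_sq_le_sq_sum_of_nonneg (s := Finset.univ) (f := fun i => |x i|)
    (fun _ _ => abs_nonneg _)
  simpa [sq_abs] using h

lemma abs_dot_le (x y : ι → ℝ) : |∑ i, x i * y i| ≤ en x * en y := by
  have h := Finset.sum_mul_sq_le_sq_mul_sq Finset.univ x y
  rw [← en_sq, ← en_sq, ← mul_pow] at h
  exact abs_le_of_sq_le_sq' h (mul_nonneg (en_nonneg _) (en_nonneg _)) |> abs_le.2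

@[fun_prop] lemma continuous_en : Continuous (en : (ι → ℝ) → ℝ) := by
  unfold en; fun_prop

/-- `F` is `L`-Lipschitz for the Euclidean norm -/
def ELip (L : ℝ) (F : (ι → ℝ) → ℝ) : Prop := ∀ x y, |F x - F y| ≤ L * en (x - y)

lemma ELip.continuous {L : ℝ} {F : (ι → ℝ) → ℝ} (h : ELip L F) : Continuous F := by
  refine continuous_iff_continuousAt.2 fun x => ?_
  refine tendsto_iff_norm_sub_tendsto_zero.2 ?_
  have h1 : Filter.Tendsto (fun y => L * en (y - x)) (nhds x) (nhds (L * en (x - x))) :=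
    (by fun_prop : Continuous fun y : ι → ℝ => L * en (y - x)).tendsto x
  rw [sub_self, en_zero, mul_zero] at h1
  exact squeeze_zero (fun _ => norm_nonneg _) (fun y => h y x) h1

lemma ELip.abs {L : ℝ} {F : (ι → ℝ) → ℝ} (h : ELip L F) : ELip |L| F := fun x y =>
  (h x y).trans (mul_le_mul_of_nonneg_right (le_abs_self _) (en_nonneg _))

lemma ELip.mono {L L' : ℝ} {F : (ι → ℝ) → ℝ} (h : ELip L F) (hL : L ≤ L') : ELip L' F :=
  fun x y => (h x y).trans (mul_le_mul_of_nonneg_right hL (en_nonneg _))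

lemma ELip.neg {L : ℝ} {F : (ι → ℝ) → ℝ} (h : ELip L F) : ELip L fun x => -F x := fun x y => by
  have := h x y
  rwa [show -F x - -F y = -(F x - F y) by ring, abs_neg]

lemma ELip.const_mul {L : ℝ} {F : (ι → ℝ) → ℝ} (h : ELip L F) (c : ℝ) :
    ELip (|c| * L) fun x => c * F x := fun x y => by
  rw [← mul_sub, abs_mul, mul_assoc]
  exact mul_le_mul_of_nonneg_left (h x y) (abs_nonneg _)

lemma ELip.sub_const {L : ℝ} {F : (ι → ℝ) → ℝ} (h : ELip L F) (c : ℝ) :
    ELip L fun x => F x - c := fun x y => by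
  have := h x y
  rwa [show F x - c - (F y - c) = F x - F y by ring]

lemma ELip.add {L L' : ℝ} {F F' : (ι → ℝ) → ℝ} (h : ELip L F) (h' : ELip L' F') :
    ELip (L + L') fun x => F x + F' x := fun x y => by
  rw [show F x + F' x - (F y + F' y) = (F x - F y) + (F' x - F' y) by ring, add_mul]
  exact (abs_add_le _ _).trans (add_le_add (h x y) (h' x y))

lemma elip_en : ELip 1 (en : (ι → ℝ) → ℝ) := fun x y => by
  rw [one_mul]; exact abs_en_sub_le x y

lemma elip_dot (a : ι → ℝ) : ELip (en a) fun x => ∑ i, a i * x i := fun x y => by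
  rw [← Finset.sum_sub_distrib]
  have := abs_dot_le a (x - y)
  simpa [mul_sub] using this

/-- from the squared form -/
lemma elip_of_sq {L : ℝ} (hL : 0 ≤ L) {F : (ι → ℝ) → ℝ}
    (h : ∀ x y, (F x - F y) ^ 2 ≤ L ^ 2 * ∑ i, (x i - y i) ^ 2) : ELip L F := fun x y => by
  refine abs_le.2 (abs_le_of_sq_le_sq' ?_ (mul_nonneg hL (en_nonneg _)))
  rw [mul_pow, en_sq]
  simpa using h x y

lemma ELip.abs_le {L : ℝ} {F : (ι → ℝ) → ℝ} (h : ELip L F) (x : ι → ℝ) :
    |F x| ≤ |F 0| + |L| * ∑ i, |x i| := by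
  have h1 := h.abs x 0
  rw [sub_zero] at h1
  have h2 : |L| * en x ≤ |L| * ∑ i, |x i| := mul_le_mul_of_nonneg_left (en_le_sum x) (abs_nonneg _)
  have h3 : |F x| ≤ |F 0| + |F x - F 0| := by
    have := abs_add_le (F 0) (F x - F 0); simpa using this
  linarith

lemma ELip.integrable_exp {L : ℝ} {F : (ι → ℝ) → ℝ} (h : ELip L F) (s : ℝ) :
    Integrable (fun x => Real.exp (s * F x)) (gv ι) := by
  have hc := h.continuous
  refine R339.Guerra.integrable_of_exp_bound (by fun_prop) (Real.exp (|s| * |F 0|)) (|s| * |L|)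
    fun g => ?_
  rw [abs_of_pos (Real.exp_pos _), ← Real.exp_add]
  refine Real.exp_le_exp.2 ?_
  have h1 : s * F g ≤ |s| * |F g| := by rw [← abs_mul]; exact le_abs_self _
  have h2 := mul_le_mul_of_nonneg_left (h.abs_le g) (abs_nonneg s)
  nlinarith

lemma ELip.integrable {L : ℝ} {F : (ι → ℝ) → ℝ} (h : ELip L F) : Integrable F (gv ι) := by
  have hc := h.continuous
  refine ((h.integrable_exp 1).add (h.integrable_exp (-1))).mono' (by fun_prop)
    (ae_of_all _ fun x => ?_)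
  simp only [Pi.add_apply, Real.norm_eq_abs, one_mul, neg_mul]
  have h1 := Real.add_one_le_exp (F x)
  have h2 := Real.add_one_le_exp (-F x)
  have h3 := Real.exp_pos (F x)
  have h4 := Real.exp_pos (-F x)
  rw [_root_.abs_le]; constructor <;> linarith

end basic

/-- `exp` with values in `ℝ≥0∞` -/
def ex (u : ℝ) : ℝ≥0∞ := ENNReal.ofReal (Real.exp u)

lemma ex_add (u v : ℝ) : ex (u + v) = ex u * ex v := by
  simp only [ex, Real.exp_add, ENNReal.ofReal_mul (Real.exp_pos _).le]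

lemma ex_rpow (u s : ℝ) : ex u ^ s = ex (s * u) := by
  simp only [ex]
  rw [ENNReal.ofReal_rpow_of_pos (Real.exp_pos _), ← Real.exp_mul, mul_comm]

lemma ex_mono {u v : ℝ} (h : u ≤ v) : ex u ≤ ex v :=
  ENNReal.ofReal_le_ofReal (Real.exp_le_exp.2 h)

lemma ex_le_iff {u v : ℝ} : ex u ≤ ex v ↔ u ≤ v := by
  simp only [ex]
  rw [ENNReal.ofReal_le_ofReal_iff (Real.exp_pos _).le, Real.exp_le_exp]

lemma ex_ne_top (u : ℝ) : ex u ≠ ∞ := ENNReal.ofReal_ne_top

lemma ex_zero : ex 0 = 1 := by simp [ex]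

@[fun_prop] lemma measurable_ex : Measurable ex := by unfold ex; fun_prop

/-- Prekopa-Leindler inequality with a gain `exp (t (1-t) c (x - y))`. -/
def GPL (E : Type*) [AddCommGroup E] [Module ℝ E] [MeasurableSpace E] (μ : Measure E)
    (c : E → ℝ) : Prop :=
  ∀ t : ℝ, 0 < t → t < 1 → ∀ f g h : E → ℝ≥0∞, Measurable f → Measurable g → Measurable h →
    (∀ x y, f x ^ (1 - t) * g y ^ t ≤ h ((1 - t) • x + t • y) * ex (t * (1 - t) * c (x - y))) →
    (∫⁻ x, f x ∂μ) ^ (1 - t) * (∫⁻ x, g x ∂μ) ^ t ≤ ∫⁻ x, h x ∂μ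

theorem GPL.prod {E F : Type*} [AddCommGroup E] [Module ℝ E] [MeasurableSpace E]
    [AddCommGroup F] [Module ℝ F] [MeasurableSpace F] {μ : Measure E} {ν : Measure F}
    [SFinite μ] [SFinite ν] {c : E → ℝ} {d : F → ℝ} (hE : GPL E μ c) (hF : GPL F ν d) :
    GPL (E × F) (μ.prod ν) fun p => c p.1 + d p.2 := by
  intro t ht0 ht1 f g h hf hg hh H
  rw [lintegral_prod _ hf.aemeasurable, lintegral_prod _ hg.aemeasurable,
    lintegral_prod _ hh.aemeasurable]
  refine hE t ht0 ht1 _ _ _ hf.lintegral_prod_right' hg.lintegral_prod_right'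
    hh.lintegral_prod_right' ?_
  intro x y
  have hm : Measurable fun z => h ((1 - t) • x + t • y, z) := hh.comp measurable_prodMk_left
  rw [← lintegral_mul_const _ hm]
  refine hF t ht0 ht1 _ _ _ (hf.comp measurable_prodMk_left) (hg.comp measurable_prodMk_left)
    (hm.mul_const _) ?_
  intro x' y'
  have := H (x, x') (y, y')
  simp only [Prod.fst_sub, Prod.snd_sub, mul_add, ex_add] at this
  simpa only [Function.comp, mul_assoc, Prod.smul_mk, Prod.mk_add_mk] using this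

theorem GPL.of_mp {E F : Type*} [AddCommGroup E] [Module ℝ E] [MeasurableSpace E]
    [AddCommGroup F] [Module ℝ F] [MeasurableSpace F] {μ : Measure E} {ν : Measure F}
    {c : E → ℝ} {d : F → ℝ} (e : E → F) (he : MeasurePreserving e μ ν)
    (hlin : ∀ (a b : ℝ) (x y : E), e (a • x + b • y) = a • e x + b • e y)
    (hc : ∀ x y, d (e x - e y) = c (x - y)) (hE : GPL E μ c) : GPL F ν d := by
  intro t ht0 ht1 f g h hf hg hh H
  rw [← he.lintegral_comp hf, ← he.lintegral_comp hg, ← he.lintegral_comp hh]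
  refine hE t ht0 ht1 _ _ _ (hf.comp he.measurable) (hg.comp he.measurable)
    (hh.comp he.measurable) ?_
  intro x y
  rw [hlin, ← hc]
  exact H _ _

lemma pdf_eq (x : ℝ) :
    gaussianPDF 0 1 x = ex (Real.log (Real.sqrt (2 * Real.pi))⁻¹ - x ^ 2 / 2) := by
  have hp : 0 < (Real.sqrt (2 * Real.pi))⁻¹ := by positivity
  simp only [gaussianPDF, gaussianPDFReal, ex]
  rw [sub_eq_add_neg (Real.log _), Real.exp_add, Real.exp_log hp]
  congr 1
  simp only [NNReal.coe_one, mul_one, sub_zero]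
  congr 2
  ring

theorem gpl_real : GPL ℝ (gaussianReal 0 1) fun x => x ^ 2 / 2 := by
  intro t ht0 ht1 f g h hf hg hh H
  have hm : Measurable (gaussianPDF 0 1) := measurable_gaussianPDF 0 1
  rw [gaussianReal_of_var_ne_zero _ (by norm_num),
    lintegral_withDensity_eq_lintegral_mul _ hm hf, lintegral_withDensity_eq_lintegral_mul _ hm hg,
    lintegral_withDensity_eq_lintegral_mul _ hm hh]
  refine Lib.PrekopaLeindler.PL_real t ht0 ht1 _ _ _ (hm.mul hf) (hm.mul hg) (hm.mul hh) ?_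
  intro x y
  have h1 : 0 ≤ 1 - t := by linarith
  simp only [Pi.mul_apply, pdf_eq]
  rw [ENNReal.mul_rpow_of_nonneg _ _ h1, ENNReal.mul_rpow_of_nonneg _ _ ht0.le, ex_rpow, ex_rpow,
    mul_mul_mul_comm, ← ex_add]
  refine (mul_le_mul_right (H x y) _).trans (le_of_eq ?_)
  rw [mul_comm (h _), ← mul_assoc, ← ex_add]
  congr 2
  simp only [smul_eq_mul]
  ring

theorem gpl_fin (n : ℕ) : GPL (Fin n → ℝ) (gv (Fin n)) fun x => (∑ i, x i ^ 2) / 2 := by
  induction n with
  | zero =>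
    intro t ht0 ht1 f g h hf hg hh H
    have : gv (Fin 0) = Measure.dirac 0 := Measure.pi_of_empty _ _
    rw [this, lintegral_dirac, lintegral_dirac, lintegral_dirac]
    simpa [ex_zero] using H 0 0
  | succ n ih =>
    refine GPL.of_mp
      (MeasurableEquiv.piFinSuccAbove (fun _ : Fin (n+1) => ℝ) 0).symm
      ((measurePreserving_piFinSuccAbove (fun _ : Fin (n+1) => gaussianReal 0 1) 0).symm) ?_ ?_
      (gpl_real.prod ih)
    · intro a b x y
      ext i
      refine Fin.cases ?_ (fun j => ?_) i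
      · simp [MeasurableEquiv.piFinSuccAbove]
      · simp [MeasurableEquiv.piFinSuccAbove]
    · intro x y
      simp [MeasurableEquiv.piFinSuccAbove, Fin.sum_univ_succ, add_div]

variable {ι : Type*} [Fintype ι]

theorem gpl_gv : GPL (ι → ℝ) (gv ι) fun x => (∑ i, x i ^ 2) / 2 := by
  let e := Fintype.equivFin ι
  refine GPL.of_mp (fun (g : Fin (Fintype.card ι) → ℝ) (k : ι) => g (e k))
    (R339.Guerra.mp_comp e e.injective) (fun _ _ _ _ => rfl) (fun x y => ?_) (gpl_fin _)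
  congr 1
  exact Fintype.sum_equiv e _ _ fun _ => rfl

lemma lintegral_ex {α : Type*} [MeasurableSpace α] {μ : Measure α} {u : α → ℝ}
    (h : Integrable (fun x => Real.exp (u x)) μ) :
    ∫⁻ x, ex (u x) ∂μ = ENNReal.ofReal (∫ x, Real.exp (u x) ∂μ) :=
  (ofReal_integral_eq_lintegral_ofReal h (ae_of_all _ fun _ => (Real.exp_pos _).le)).symm

lemma exp_integral_le {α : Type*} [MeasurableSpace α] {μ : Measure α} [IsProbabilityMeasure μ]
    {u : α → ℝ} (hu : Integrable u μ) (h : Integrable (fun x => Real.exp (u x)) μ) :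
    Real.exp (∫ x, u x ∂μ) ≤ ∫ x, Real.exp (u x) ∂μ :=
  convexOn_exp.map_integral_le Real.continuous_exp.continuousOn isClosed_univ
    (ae_of_all _ fun _ => Set.mem_univ _) hu h

lemma mgf_lip_aux {L : ℝ} {F : (ι → ℝ) → ℝ} (h : ELip L F) (s : ℝ) {t : ℝ} (ht0 : 0 < t)
    (ht1 : t < 1) :
    Real.log (∫ x, Real.exp (s * F x) ∂(gv ι)) ≤ s * ∫ x, F x ∂(gv ι) + L ^ 2 * s ^ 2 / 2 / t := by
  have hc := h.continuous
  have h1t : 0 < 1 - t := by linarith
  set b := -((1 - t) * s / t) with hb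
  have key := gpl_gv (ι := ι) t ht0 ht1 (fun x => ex (s * F x)) (fun x => ex (b * F x))
    (fun _ => ex ((1 - t) * (L ^ 2 * s ^ 2 / 2 / t))) (by fun_prop) (by fun_prop) (by fun_prop)
    (fun x y => by
      rw [ex_rpow, ex_rpow, ← ex_add, ← ex_add]
      refine ex_mono ?_
      simp only [← en_sq]
      have e1 : (1 - t) * (s * F x) + t * (b * F y) = (1 - t) * (s * (F x - F y)) := by
        rw [hb]; field_simp; ring
      have e2 : s * (F x - F y) ≤ |s| * (|L| * en (x - y)) := by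
        refine (le_abs_self _).trans ?_
        rw [abs_mul]
        exact mul_le_mul_of_nonneg_left (h.abs x y) (abs_nonneg _)
      have e3 : |s| * (|L| * en (x - y)) ≤ L ^ 2 * s ^ 2 / 2 / t + t * (en (x - y) ^ 2 / 2) := by
        have : 0 ≤ (|L| * |s| - t * en (x - y)) ^ 2 / (2 * t) := by positivity
        have e : (|L| * |s| - t * en (x - y)) ^ 2 / (2 * t) =
            |L| ^ 2 * |s| ^ 2 / 2 / t + t * (en (x - y) ^ 2 / 2) - |s| * (|L| * en (x - y)) := by
          field_simp; ring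
        rw [e, sq_abs, sq_abs] at this
        linarith
      rw [e1]
      nlinarith [mul_le_mul_of_nonneg_left (e2.trans e3) h1t.le])
  rw [lintegral_ex (h.integrable_exp s), lintegral_ex (h.integrable_exp b), lintegral_const,
    measure_univ, mul_one] at key
  have hA : 0 < ∫ x, Real.exp (s * F x) ∂(gv ι) := integral_exp_pos (h.integrable_exp s)
  have hB : Real.exp (b * ∫ x, F x ∂(gv ι)) ≤ ∫ x, Real.exp (b * F x) ∂(gv ι) := by
    rw [← integral_const_mul]
    exact exp_integral_le (h.integrable.const_mul b) (h.integrable_exp b)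
  have k2 : ex (Real.log (∫ x, Real.exp (s * F x) ∂(gv ι))) ^ (1 - t) *
      ex (b * ∫ x, F x ∂(gv ι)) ^ t ≤ ex ((1 - t) * (L ^ 2 * s ^ 2 / 2 / t)) := by
    refine le_trans (mul_le_mul' (le_of_eq ?_) ?_) key
    · simp only [ex, Real.exp_log hA]
    · exact ENNReal.rpow_le_rpow (ENNReal.ofReal_le_ofReal hB) ht0.le
  rw [ex_rpow, ex_rpow, ← ex_add, ex_le_iff] at k2
  have e1 : t * (b * ∫ x, F x ∂(gv ι)) = -((1 - t) * (s * ∫ x, F x ∂(gv ι))) := by
    rw [hb]; field_simp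
  rw [e1] at k2
  refine le_of_mul_le_mul_left ?_ h1t
  linarith

/-- **Gaussian concentration, mgf form** -/
theorem mgf_lip {L : ℝ} {F : (ι → ℝ) → ℝ} (h : ELip L F) (s : ℝ) :
    ∫ x, Real.exp (s * (F x - ∫ y, F y ∂(gv ι))) ∂(gv ι) ≤ Real.exp (L ^ 2 * s ^ 2 / 2) := by
  have hA : 0 < ∫ x, Real.exp (s * F x) ∂(gv ι) := integral_exp_pos (h.integrable_exp s)
  have h1 : Real.log (∫ x, Real.exp (s * F x) ∂(gv ι)) ≤
      s * ∫ x, F x ∂(gv ι) + L ^ 2 * s ^ 2 / 2 / 1 := by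
    have hc : ContinuousAt (fun t : ℝ => s * ∫ x, F x ∂(gv ι) + L ^ 2 * s ^ 2 / 2 / t) 1 :=
      continuousAt_const.add (continuousAt_const.div continuousAt_id one_ne_zero)
    have ht : Filter.Tendsto (fun t : ℝ => s * ∫ x, F x ∂(gv ι) + L ^ 2 * s ^ 2 / 2 / t)
        (nhdsWithin 1 (Set.Iio 1)) (nhds (s * ∫ x, F x ∂(gv ι) + L ^ 2 * s ^ 2 / 2 / 1)) :=
      hc.tendsto.mono_left nhdsWithin_le_nhds
    refine ge_of_tendsto ht ?_
    filter_upwards [Ioo_mem_nhdsLT (zero_lt_one : (0:ℝ) < 1)] with t ht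
    exact mgf_lip_aux h s ht.1 ht.2
  have e : ∀ x, Real.exp (s * (F x - ∫ y, F y ∂(gv ι))) =
      Real.exp (-(s * ∫ y, F y ∂(gv ι))) * Real.exp (s * F x) := fun x => by
    rw [← Real.exp_add]; congr 1; ring
  simp only [e]
  rw [integral_const_mul, ← Real.exp_log hA, ← Real.exp_add]
  refine Real.exp_le_exp.2 ?_
  linarith

/-- **Gaussian concentration**: `F - E F` has sub-Gaussian mgf with variance proxy `L²` -/
theorem subG_lip {L : ℝ} {F : (ι → ℝ) → ℝ} (h : ELip L F) :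
    HasSubgaussianMGF (fun x => F x - ∫ y, F y ∂(gv ι)) ⟨L ^ 2, sq_nonneg _⟩ (gv ι) :=
  ⟨fun t => (h.sub_const _).integrable_exp t, fun t => mgf_lip h t⟩

/-- two-sided tail of a variable with sub-Gaussian mgf -/
lemma subG_abs {Ω : Type*} [MeasurableSpace Ω] {μ : Measure Ω} [IsFiniteMeasure μ] {X : Ω → ℝ}
    {c : ℝ≥0} (h : HasSubgaussianMGF X c μ) {t : ℝ} (ht : 0 ≤ t) :
    μ.real {ω | t ≤ |X ω|} ≤ 2 * Real.exp (-t ^ 2 / (2 * c)) := by
  have h1 := h.measure_ge_le ht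
  have h2 := h.neg.measure_ge_le ht
  have : {ω | t ≤ |X ω|} ⊆ {ω | t ≤ X ω} ∪ {ω | t ≤ (-X) ω} := fun ω hω => by
    simp only [Set.mem_ofPred_eq, Set.mem_union, Pi.neg_apply] at hω ⊢
    exact le_abs.1 hω
  have h3 := (measureReal_mono this).trans (measureReal_union_le (μ := μ) _ _)
  linarith

theorem tail_lip {L : ℝ} {F : (ι → ℝ) → ℝ} (h : ELip L F) {t : ℝ} (ht : 0 ≤ t) :
    (gv ι).real {x | t ≤ F x - ∫ y, F y ∂(gv ι)} ≤ Real.exp (-t ^ 2 / (2 * L ^ 2)) :=
  (subG_lip h).measure_ge_le ht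

theorem tail_lip_lower {L : ℝ} {F : (ι → ℝ) → ℝ} (h : ELip L F) {t : ℝ} (ht : 0 ≤ t) :
    (gv ι).real {x | F x - ∫ y, F y ∂(gv ι) ≤ -t} ≤ Real.exp (-t ^ 2 / (2 * L ^ 2)) := by
  have := (subG_lip h).neg.measure_ge_le ht
  refine le_trans (le_of_eq ?_) this
  congr 1; ext x; simp only [Set.mem_ofPred_eq, Pi.neg_apply]; constructor <;> intro <;> linarith

theorem tail_lip_abs {L : ℝ} {F : (ι → ℝ) → ℝ} (h : ELip L F) {t : ℝ} (ht : 0 ≤ t) :
    (gv ι).real {x | t ≤ |F x - ∫ y, F y ∂(gv ι)|} ≤ 2 * Real.exp (-t ^ 2 / (2 * L ^ 2)) :=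
  subG_abs (subG_lip h) ht

end Crest.Agent.T157.Conc
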