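import Crest.Agent.T157.Eig_84

/-!
# Row 157, part E: operator norm, continuity of eigenvalues, resolvent expansion (helper84)

`opn A` is the Euclidean operator norm of a real (rectangular) matrix, with an API in `dotProduct`
words; `nrm v = √(v ⬝ᵥ v)`; eigenvalues are `1`-Lipschitz for `opn`, continuous / measurable along
continuous / measurable symmetric families; Hoffman–Wielandt; functions of a symmetric matrix
(`fn`, complex valued `fnC`) and the resolvent `(A - z)⁻¹`.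
-/

set_option autoImplicit false
set_option linter.unusedSectionVars false

noncomputable section

namespace Crest.Agent.T157.Eig

open Matrix Finset Module

variable {ι κ μ : Type*} [Fintype ι] [DecidableEq ι] [Fintype κ] [DecidableEq κ] [Fintype μ]
  [DecidableEq μ]

/-- Euclidean norm of a vector -/
def nrm (v : ι → ℝ) : ℝ := √(v ⬝ᵥ v)

lemma nrm_nonneg (v : ι → ℝ) : 0 ≤ nrm v := Real.sqrt_nonneg _
lemma nrm_sq (v : ι → ℝ) : nrm v ^ 2 = v ⬝ᵥ v := Real.sq_sqrt (dot_self_nonneg v)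
lemma nrm_mul_self (v : ι → ℝ) : nrm v * nrm v = v ⬝ᵥ v := by rw [← sq, nrm_sq]

lemma nrm_eq_norm (v : ι → ℝ) : nrm v = ‖(WithLp.toLp 2 v : EuclideanSpace ℝ ι)‖ := by
  rw [EuclideanSpace.norm_eq, nrm, dotProduct]
  congr 1
  exact sum_congr rfl fun i _ => by simp [sq]

lemma norm_eq_nrm (x : EuclideanSpace ℝ ι) : ‖x‖ = nrm x.ofLp := by rw [nrm_eq_norm]

lemma nrm_add_le (u v : ι → ℝ) : nrm (u + v) ≤ nrm u + nrm v := by
  simp only [nrm_eq_norm, WithLp.toLp_add]; exact norm_add_le _ _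

lemma nrm_smul (c : ℝ) (v : ι → ℝ) : nrm (c • v) = |c| * nrm v := by
  simp only [nrm_eq_norm, WithLp.toLp_smul, norm_smul, Real.norm_eq_abs]

lemma nrm_neg (v : ι → ℝ) : nrm (-v) = nrm v := by simp [nrm]

lemma nrm_sub_le (u v : ι → ℝ) : nrm (u - v) ≤ nrm u + nrm v := by
  rw [sub_eq_add_neg, ← nrm_neg v]; exact nrm_add_le _ _

@[simp] lemma nrm_zero : nrm (0 : ι → ℝ) = 0 := by simp [nrm]

lemma nrm_eq_zero {v : ι → ℝ} : nrm v = 0 ↔ v = 0 := by
  rw [nrm, Real.sqrt_eq_zero (dot_self_nonneg v), dotProduct_self_eq_zero]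

lemma nrm_pos {v : ι → ℝ} (hv : v ≠ 0) : 0 < nrm v := Real.sqrt_pos.2 (dot_self_pos hv)

/-- Cauchy–Schwarz -/
lemma abs_dot_le (u v : ι → ℝ) : |u ⬝ᵥ v| ≤ nrm u * nrm v := by
  have h := abs_real_inner_le_norm (WithLp.toLp 2 v : EuclideanSpace ℝ ι) (WithLp.toLp 2 u)
  rw [EuclideanSpace.inner_eq_star_dotProduct] at h
  simpa [nrm_eq_norm, mul_comm] using h

lemma dot_le (u v : ι → ℝ) : u ⬝ᵥ v ≤ nrm u * nrm v := (le_abs_self _).trans (abs_dot_le u v)

lemma dot_sq_le (u v : ι → ℝ) : (u ⬝ᵥ v) ^ 2 ≤ (u ⬝ᵥ u) * (v ⬝ᵥ v) := by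
  rw [← sq_abs, ← nrm_sq, ← nrm_sq, ← mul_pow]
  exact pow_le_pow_left₀ (abs_nonneg _) (abs_dot_le u v) 2

lemma abs_apply_le_nrm (v : ι → ℝ) (i : ι) : |v i| ≤ nrm v := by
  rw [nrm]
  refine Real.abs_le_sqrt ?_
  rw [sq]
  exact single_le_sum (f := fun i => v i * v i) (fun j _ => mul_self_nonneg (v j)) (mem_univ i)

lemma nrm_le_iff {v : ι → ℝ} {c : ℝ} (hc : 0 ≤ c) : nrm v ≤ c ↔ v ⬝ᵥ v ≤ c ^ 2 := by
  rw [nrm, Real.sqrt_le_left hc]

lemma nrm_single (i : ι) : nrm (Pi.single i (1 : ℝ)) = 1 := by simp [nrm]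

lemma continuous_nrm : Continuous (nrm : (ι → ℝ) → ℝ) := by
  unfold nrm dotProduct; fun_prop

open scoped Matrix.Norms.L2Operator in
/-- Euclidean operator norm -/
def opn (A : Matrix ι κ ℝ) : ℝ := ‖A‖

section opn
open scoped Matrix.Norms.L2Operator

lemma opn_def (A : Matrix ι κ ℝ) : opn A = ‖A‖ := rfl
lemma opn_nonneg (A : Matrix ι κ ℝ) : 0 ≤ opn A := norm_nonneg A
lemma opn_add_le (A B : Matrix ι κ ℝ) : opn (A + B) ≤ opn A + opn B := norm_add_le A B
lemma opn_sub_le (A B : Matrix ι κ ℝ) : opn (A - B) ≤ opn A + opn B := norm_sub_le A B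
lemma opn_neg (A : Matrix ι κ ℝ) : opn (-A) = opn A := norm_neg A
lemma opn_sub_comm (A B : Matrix ι κ ℝ) : opn (A - B) = opn (B - A) := norm_sub_rev A B
lemma abs_opn_sub_le (A B : Matrix ι κ ℝ) : |opn A - opn B| ≤ opn (A - B) :=
  abs_norm_sub_norm_le A B
@[simp] lemma opn_zero : opn (0 : Matrix ι κ ℝ) = 0 := norm_zero
lemma opn_smul (c : ℝ) (A : Matrix ι κ ℝ) : opn (c • A) = |c| * opn A := norm_smul c A
lemma opn_mul_le (A : Matrix ι κ ℝ) (B : Matrix κ μ ℝ) : opn (A * B) ≤ opn A * opn B :=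
  l2_opNorm_mul A B
lemma opn_transpose (A : Matrix ι κ ℝ) : opn Aᵀ = opn A := by
  rw [← conjTranspose_eq_transpose_of_trivial]; exact l2_opNorm_conjTranspose A
lemma opn_transpose_mul_self (A : Matrix ι κ ℝ) : opn (Aᵀ * A) = opn A * opn A := by
  rw [← conjTranspose_eq_transpose_of_trivial]; exact l2_opNorm_conjTranspose_mul_self A
lemma opn_sum_le {σ : Type*} (s : Finset σ) (A : σ → Matrix ι κ ℝ) :
    opn (∑ j ∈ s, A j) ≤ ∑ j ∈ s, opn (A j) := norm_sum_le s A

lemma nrm_mulVec_le (A : Matrix ι κ ℝ) (v : κ → ℝ) : nrm (A *ᵥ v) ≤ opn A * nrm v := by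
  have := l2_opNorm_mulVec A (WithLp.toLp 2 v)
  rw [nrm_eq_norm, nrm_eq_norm]
  exact this

lemma opn_le_of_nrm {A : Matrix ι κ ℝ} {c : ℝ} (hc : 0 ≤ c)
    (h : ∀ v, nrm (A *ᵥ v) ≤ c * nrm v) : opn A ≤ c := by
  rw [opn, l2_opNorm_def]
  refine ContinuousLinearMap.opNorm_le_bound _ hc fun x => ?_
  rw [norm_eq_nrm, norm_eq_nrm]
  exact h x.ofLp

lemma opn_diagonal_le {d : ι → ℝ} {c : ℝ} (hc : 0 ≤ c) (h : ∀ i, |d i| ≤ c) :
    opn (diagonal d) ≤ c := by
  rw [opn, l2_opNorm_diagonal]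
  exact (pi_norm_le_iff_of_nonneg hc).2 h

end opn

lemma opn_one_le : opn (1 : Matrix ι ι ℝ) ≤ 1 := opn_le_of_nrm zero_le_one fun v => by simp

lemma opn_pow_le (A : Matrix ι ι ℝ) (p : ℕ) : opn (A ^ p) ≤ opn A ^ p := by
  induction p with
  | zero => simpa using opn_one_le
  | succ p ih =>
    rw [pow_succ, pow_succ]
    exact (opn_mul_le _ _).trans (mul_le_mul_of_nonneg_right ih (opn_nonneg A))

lemma mulVec_dot_le (A : Matrix ι κ ℝ) (v : κ → ℝ) :
    (A *ᵥ v) ⬝ᵥ (A *ᵥ v) ≤ opn A ^ 2 * (v ⬝ᵥ v) := by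
  rw [← nrm_sq, ← nrm_sq, ← mul_pow]
  exact pow_le_pow_left₀ (nrm_nonneg _) (nrm_mulVec_le A v) 2

lemma abs_bil_le (A : Matrix ι κ ℝ) (u : ι → ℝ) (v : κ → ℝ) :
    |u ⬝ᵥ A *ᵥ v| ≤ opn A * (nrm u * nrm v) := by
  refine (abs_dot_le _ _).trans ?_
  calc nrm u * nrm (A *ᵥ v) ≤ nrm u * (opn A * nrm v) :=
        mul_le_mul_of_nonneg_left (nrm_mulVec_le A v) (nrm_nonneg u)
    _ = _ := by ring

lemma abs_quad_le (A : Matrix ι ι ℝ) (v : ι → ℝ) : |v ⬝ᵥ A *ᵥ v| ≤ opn A * (v ⬝ᵥ v) := by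
  rw [← nrm_mul_self]; exact abs_bil_le A v v

lemma abs_entry_le (A : Matrix ι κ ℝ) (i : ι) (j : κ) : |A i j| ≤ opn A := by
  simpa [nrm_single] using abs_bil_le A (Pi.single i 1) (Pi.single j 1)

lemma opn_le_of_sq {A : Matrix ι κ ℝ} {c : ℝ} (hc : 0 ≤ c)
    (h : ∀ v, (A *ᵥ v) ⬝ᵥ (A *ᵥ v) ≤ c ^ 2 * (v ⬝ᵥ v)) : opn A ≤ c :=
  opn_le_of_nrm hc fun v => by
    rw [nrm_le_iff (mul_nonneg hc (nrm_nonneg v)), mul_pow, nrm_sq]; exact h v

lemma opn_le_of_bil {A : Matrix ι κ ℝ} {c : ℝ} (hc : 0 ≤ c)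
    (h : ∀ u v, u ⬝ᵥ A *ᵥ v ≤ c * (nrm u * nrm v)) : opn A ≤ c := by
  refine opn_le_of_nrm hc fun v => ?_
  have h1 := h (A *ᵥ v) v
  rw [← nrm_mul_self] at h1
  rcases (nrm_nonneg (A *ᵥ v)).eq_or_lt with h0 | h0
  · rw [← h0]; exact mul_nonneg hc (nrm_nonneg v)
  · refine le_of_mul_le_mul_left ?_ h0
    linarith

/-- the operator norm is at most the Frobenius norm -/
lemma opn_sq_le_frob (A : Matrix ι κ ℝ) : opn A ^ 2 ≤ ∑ i, ∑ j, A i j ^ 2 := by
  have h0 : 0 ≤ ∑ i, ∑ j, A i j ^ 2 := by positivity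
  rw [← Real.sq_sqrt h0]
  refine pow_le_pow_left₀ (opn_nonneg A) (opn_le_of_sq (Real.sqrt_nonneg _) fun v => ?_) 2
  rw [Real.sq_sqrt h0, sum_mul]
  refine sum_le_sum fun i _ => ?_
  have := dot_sq_le (A i) v
  rw [← sq]
  simpa only [dotProduct, mulVec, sq] using this

lemma opn_le_sqrt_frob (A : Matrix ι κ ℝ) : opn A ≤ √(∑ i, ∑ j, A i j ^ 2) :=
  Real.le_sqrt_of_sq_le (opn_sq_le_frob A)

lemma opn_vecMulVec_le (u : ι → ℝ) (v : κ → ℝ) : opn (vecMulVec u v) ≤ nrm u * nrm v := by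
  refine opn_le_of_nrm (mul_nonneg (nrm_nonneg u) (nrm_nonneg v)) fun w => ?_
  have : vecMulVec u v *ᵥ w = (v ⬝ᵥ w) • u := by
    ext i
    simp only [mulVec, dotProduct, vecMulVec_apply, Pi.smul_apply, smul_eq_mul, sum_mul]
    exact sum_congr rfl fun j _ => by ring
  rw [this, nrm_smul]
  nlinarith [abs_dot_le v w, nrm_nonneg u]

lemma opn_isom_le {Q : Matrix ι κ ℝ} (hQ : Qᵀ * Q = 1) : opn Q ≤ 1 :=
  opn_le_of_sq zero_le_one fun v => by rw [dot_isom hQ]; simp

lemma opn_submatrix_le (A : Matrix ι ι ℝ) {e : κ → ι} (he : Function.Injective e) :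
    opn (A.submatrix e e) ≤ opn A := by
  rw [← emb_compress]
  have h1 := opn_isom_le (emb_isom he)
  have h2 : opn (emb e)ᵀ ≤ 1 := by rwa [opn_transpose]
  have h3 := opn_mul_le ((emb e)ᵀ * A) (emb e)
  have h4 := opn_mul_le (emb e)ᵀ A
  have h5 := opn_nonneg A
  have h6 := opn_nonneg ((emb e)ᵀ * A)
  nlinarith

variable {A B : Matrix ι ι ℝ}

lemma abs_lam_le (hA : A.IsHermitian) (k : ℕ) : |lam A k| ≤ opn A := by
  by_cases hk : k < Fintype.card ι
  · have := abs_quad_le A (vec A k)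
    rwa [quad_vec hA hk, vec_dot_self hA hk, mul_one] at this
  · rw [lam_of_le (not_lt.1 hk), abs_zero]; exact opn_nonneg A

lemma lam_le_opn (hA : A.IsHermitian) (k : ℕ) : lam A k ≤ opn A :=
  (le_abs_self _).trans (abs_lam_le hA k)

lemma opn_le_of_lam (hA : A.IsHermitian) {c : ℝ} (hc : 0 ≤ c)
    (h : ∀ k < Fintype.card ι, |lam A k| ≤ c) : opn A ≤ c := by
  refine opn_le_of_sq hc fun v => ?_
  rw [dot_eq hA, dot_eq hA v v, mul_sum]
  refine sum_le_sum fun k hk => ?_
  rw [vec_dot_mulVec hA]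
  have h1 : lam A k ^ 2 ≤ c ^ 2 := by
    rw [← sq_abs]; exact pow_le_pow_left₀ (abs_nonneg _) (h k (mem_range.1 hk)) 2
  nlinarith [mul_self_nonneg (vec A k ⬝ᵥ v)]

lemma opn_le_of_quad (hA : A.IsHermitian) {c : ℝ} (hc : 0 ≤ c)
    (h : ∀ v, |v ⬝ᵥ A *ᵥ v| ≤ c * (v ⬝ᵥ v)) : opn A ≤ c :=
  opn_le_of_lam hA hc fun k hk => by
    have := h (vec A k)
    rwa [quad_vec hA hk, vec_dot_self hA hk, mul_one] at this

theorem opn_eq_max (hA : A.IsHermitian) : opn A = max (lam A 0) (lam (-A) 0) := by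
  refine le_antisymm ?_ (max_le (lam_le_opn hA 0) (opn_neg A ▸ lam_le_opn hA.neg 0))
  rcases Nat.eq_zero_or_pos (Fintype.card ι) with h | h
  · rw [lam_of_le h.le, lam_of_le h.le, max_self]
    exact opn_le_of_lam hA le_rfl fun k hk => by omega
  · have h1 := lam_neg hA h
    have h2 : lam A (Fintype.card ι - 1 - 0) ≤ lam A 0 := lam_anti hA (by omega) (by omega)
    refine opn_le_of_lam hA ?_ fun k hk => abs_le.2 ⟨?_, ?_⟩
    · rcases le_total 0 (lam A 0) with h3 | h3
      · exact le_max_of_le_left h3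
      · exact le_max_of_le_right (by linarith)
    · have : lam A (Fintype.card ι - 1 - 0) ≤ lam A k := lam_anti hA (by omega) (by omega)
      have := le_max_right (lam A 0) (lam (-A) 0)
      linarith
    · exact le_max_of_le_left (lam_anti hA (Nat.zero_le k) hk)

/-- eigenvalues are `1`-Lipschitz in operator norm -/
theorem abs_lam_sub_le (hA : A.IsHermitian) (hB : B.IsHermitian) (k : ℕ) :
    |lam A k - lam B k| ≤ opn (A - B) := by
  by_cases hk : k < Fintype.card ι
  swap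
  · rw [lam_of_le (not_lt.1 hk), lam_of_le (not_lt.1 hk), sub_self, abs_zero]; exact opn_nonneg _
  have key : ∀ v : ι → ℝ, |v ⬝ᵥ A *ᵥ v - v ⬝ᵥ B *ᵥ v| ≤ opn (A - B) * (v ⬝ᵥ v) := by
    intro v
    have := abs_quad_le (A - B) v
    rwa [sub_mulVec, dotProduct_sub] at this
  have h1 := lam_le_add hA hB hk (c := opn (A - B)) fun v => by linarith [(abs_le.1 (key v)).2]
  have h2 := lam_le_add hB hA hk (c := opn (A - B)) fun v => by linarith [(abs_le.1 (key v)).1]
  exact abs_le.2 ⟨by linarith, by linarith⟩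

theorem cnt_le_of_opn (hA : A.IsHermitian) (hB : B.IsHermitian) {c : ℝ} (h : opn (A - B) ≤ c)
    (x : ℝ) : cnt A x ≤ cnt B (x - c) := by
  simpa using cnt_le_of_lam hA hB (r := 0) (c := c)
    (fun k hk => ⟨hk, by have := (abs_le.1 (abs_lam_sub_le hA hB k)).2; simp only [add_zero]; linarith⟩) x

/-! ### continuity and measurability -/

lemma continuous_opn : Continuous (opn : Matrix ι κ ℝ → ℝ) := by
  refine continuous_iff_continuousAt.2 fun A => ?_
  have h : Continuous fun B : Matrix ι κ ℝ => √(∑ i, ∑ j, (B i j - A i j) ^ 2) := by fun_prop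
  have h0 : Filter.Tendsto (fun B : Matrix ι κ ℝ => √(∑ i, ∑ j, (B i j - A i j) ^ 2)) (nhds A)
      (nhds 0) := by simpa using h.tendsto A
  rw [ContinuousAt, tendsto_iff_dist_tendsto_zero]
  refine squeeze_zero (fun _ => dist_nonneg) (fun B => ?_) h0
  exact (abs_opn_sub_le B A).trans (opn_le_sqrt_frob (B - A))

lemma continuous_lam {X : Type*} [TopologicalSpace X] {F : X → Matrix ι ι ℝ} (hF : Continuous F)
    (hs : ∀ x, (F x).IsHermitian) (k : ℕ) : Continuous fun x => lam (F x) k := by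
  refine continuous_iff_continuousAt.2 fun x => ?_
  have h : Continuous fun y => opn (F y - F x) := continuous_opn.comp (hF.sub continuous_const)
  have h0 : Filter.Tendsto (fun y => opn (F y - F x)) (nhds x) (nhds 0) := by
    simpa using h.tendsto x
  rw [ContinuousAt, tendsto_iff_dist_tendsto_zero]
  exact squeeze_zero (fun _ => dist_nonneg) (fun y => abs_lam_sub_le (hs y) (hs x) k) h0

/-- the symmetric part -/
def symP (M : ι → ι → ℝ) : Matrix ι ι ℝ := Matrix.of fun i j => (M i j + M j i) / 2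

lemma symP_herm (M : ι → ι → ℝ) : (symP M).IsHermitian := by
  rw [herm_iff]; ext i j; simp [symP, add_comm]

lemma symP_of_herm (hA : A.IsHermitian) : symP A = A := by
  ext i j; simp [symP, herm_apply hA j i]

lemma continuous_symP : Continuous (symP : (ι → ι → ℝ) → Matrix ι ι ℝ) := by
  refine continuous_pi fun i => continuous_pi fun j => ?_
  simp only [symP, of_apply]; fun_prop

lemma measurable_lam {X : Type*} [MeasurableSpace X] {F : X → Matrix ι ι ℝ}
    (hF : ∀ i j, Measurable fun x => F x i j) (hs : ∀ x, (F x).IsHermitian) (k : ℕ) :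
    Measurable fun x => lam (F x) k := by
  have h1 : Measurable fun M : ι → ι → ℝ => lam (symP M) k :=
    (continuous_lam continuous_symP symP_herm k).measurable
  have h2 : Measurable fun x => (fun i j => F x i j : ι → ι → ℝ) :=
    measurable_pi_lambda _ fun i => measurable_pi_lambda _ fun j => hF i j
  have e : (fun x => lam (F x) k) = (fun M : ι → ι → ℝ => lam (symP M) k) ∘
      fun x => (fun i j => F x i j : ι → ι → ℝ) :=
    funext fun x => (congrArg (lam · k) (symP_of_herm (hs x))).symm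
  rw [e]
  exact h1.comp h2

lemma measurable_opn {X : Type*} [MeasurableSpace X] {F : X → Matrix ι κ ℝ}
    (hF : ∀ i j, Measurable fun x => F x i j) : Measurable fun x => opn (F x) := by
  have h0 : Continuous fun M : ι → κ → ℝ => opn (Matrix.of M) :=
    continuous_opn.comp continuous_id
  have h1 : Measurable fun M : ι → κ → ℝ => opn (Matrix.of M) := h0.measurable
  have h2 : Measurable fun x => (fun i j => F x i j : ι → κ → ℝ) :=
    measurable_pi_lambda _ fun i => measurable_pi_lambda _ fun j => hF i j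
  exact h1.comp h2

lemma measurable_cnt {X : Type*} [MeasurableSpace X] {F : X → Matrix ι ι ℝ}
    (hF : ∀ i j, Measurable fun x => F x i j) (hs : ∀ x, (F x).IsHermitian) (y : ℝ) :
    Measurable fun x => (cnt (F x) y : ℝ) := by
  simp only [cnt_eq_sum]
  refine Finset.measurable_sum _ fun k _ => ?_
  exact Measurable.ite (measurableSet_le measurable_const (measurable_lam hF hs k))
    measurable_const measurable_const

/-! ### Hoffman–Wielandt -/

/-- a doubly stochastic average of a product of two decreasing sequences is at most the diagonal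
sum (Abel summation) -/
lemma sum_ds_le (N : ℕ) (a b : ℕ → ℝ) (P : ℕ → ℕ → ℝ)
    (ha : ∀ k l, k ≤ l → l < N → a l ≤ a k) (hb : ∀ k l, k ≤ l → l < N → b l ≤ b k)
    (hP : ∀ k l, 0 ≤ P k l) (hr : ∀ k < N, ∑ l ∈ range N, P k l = 1)
    (hc : ∀ l < N, ∑ k ∈ range N, P k l = 1) :
    ∑ k ∈ range N, ∑ l ∈ range N, a k * b l * P k l ≤ ∑ k ∈ range N, a k * b k := by
  -- dual certificate: `u k + v l ≥ a k * b l` with equality on the diagonal
  let v : ℕ → ℝ := fun l => ∑ j ∈ range l, a (j + 1) * (b (j + 1) - b j)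
  have hv : ∀ k l, k < N → l < N → a k * (b l - b k) ≤ v l - v k := by
    intro k l hk hl
    rcases le_total k l with h | h
    · have e1 : v l - v k = ∑ j ∈ Ico k l, a (j + 1) * (b (j + 1) - b j) := by
        simp only [v]; rw [sum_Ico_eq_sub _ h]
      have e2 : b l - b k = ∑ j ∈ Ico k l, (b (j + 1) - b j) := (Finset.sum_Ico_sub b h).symm
      rw [e1, e2, mul_sum]
      refine sum_le_sum fun j hj => ?_
      have hj := mem_Ico.1 hj
      exact mul_le_mul_of_nonpos_right (ha k (j + 1) (by omega) (by omega))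
        (sub_nonpos.2 (hb j (j + 1) (by omega) (by omega)))
    · have e1 : v k - v l = ∑ j ∈ Ico l k, a (j + 1) * (b (j + 1) - b j) := by
        simp only [v]; rw [sum_Ico_eq_sub _ h]
      have e2 : b k - b l = ∑ j ∈ Ico l k, (b (j + 1) - b j) := (Finset.sum_Ico_sub b h).symm
      have : v k - v l ≤ a k * (b k - b l) := by
        rw [e1, e2, mul_sum]
        refine sum_le_sum fun j hj => ?_
        have hj := mem_Ico.1 hj
        exact mul_le_mul_of_nonpos_right (ha (j + 1) k (by omega) hk)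
          (sub_nonpos.2 (hb j (j + 1) (by omega) (by omega)))
      linarith
  calc ∑ k ∈ range N, ∑ l ∈ range N, a k * b l * P k l
      ≤ ∑ k ∈ range N, ∑ l ∈ range N, ((a k * b k - v k) * P k l + v l * P k l) := by
        refine sum_le_sum fun k hk => sum_le_sum fun l hl => ?_
        rw [← add_mul]
        refine mul_le_mul_of_nonneg_right ?_ (hP k l)
        have := hv k l (mem_range.1 hk) (mem_range.1 hl)
        linarith
    _ = ∑ k ∈ range N, (a k * b k - v k) + ∑ l ∈ range N, v l := by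
        simp only [sum_add_distrib]
        congr 1
        · exact sum_congr rfl fun k hk => by rw [← mul_sum, hr k (mem_range.1 hk), mul_one]
        · rw [sum_comm]
          exact sum_congr rfl fun l hl => by rw [← mul_sum, hc l (mem_range.1 hl), mul_one]
    _ = _ := by rw [sum_sub_distrib]; ring

/-- von Neumann / Richter trace inequality -/
theorem trace_mul_le (hA : A.IsHermitian) (hB : B.IsHermitian) :
    (A * B).trace ≤ ∑ k ∈ range (Fintype.card ι), lam A k * lam B k := by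
  have e : (A * B).trace = ∑ k ∈ range (Fintype.card ι), ∑ l ∈ range (Fintype.card ι),
      lam A k * lam B l * (vec B l ⬝ᵥ vec A k * (vec B l ⬝ᵥ vec A k)) := by
    rw [trace_mul_comm, trace_eq_sum_quad hA]
    refine sum_congr rfl fun k _ => ?_
    rw [← mulVec_mulVec, mulVec_vec hA, mulVec_smul, dotProduct_smul, quad_eq hB, smul_eq_mul,
      mul_sum]
    exact sum_congr rfl fun l _ => by ring
  rw [e]
  refine sum_ds_le _ _ _ _ (fun k l h hl => lam_anti hA h hl) (fun k l h hl => lam_anti hB h hl)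
    (fun k l => mul_self_nonneg _) (fun k hk => ?_) (fun l hl => ?_)
  · rw [← dot_eq hB, vec_dot_self hA hk]
  · simp only [dotProduct_comm (vec B l)]
    rw [← dot_eq hA, vec_dot_self hB hl]

/-- **Hoffman–Wielandt** -/
theorem hoffman_wielandt (hA : A.IsHermitian) (hB : B.IsHermitian) :
    ∑ k ∈ range (Fintype.card ι), (lam A k - lam B k) ^ 2 ≤ ∑ i, ∑ j, (A i j - B i j) ^ 2 := by
  have h := trace_mul_le hA hB
  have e : (A * B).trace = ∑ i, ∑ j, A i j * B i j := by
    simp only [trace, diag_apply, mul_apply]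
    exact sum_congr rfl fun i _ => sum_congr rfl fun j _ => by rw [herm_apply hB j i]
  simp only [sub_sq, sum_add_distrib, sum_sub_distrib, mul_assoc, ← mul_sum]
  rw [sum_lam_sq hA, sum_lam_sq hB, ← e]
  linarith

/-! ### functions of a symmetric matrix -/

/-- `f(A)` for a function with values in `ℝ` or `ℂ` -/
def fnK {K : Type*} [RCLike K] (f : ℝ → K) (A : Matrix ι ι ℝ) : Matrix ι ι K :=
  Matrix.of fun i j => ∑ k ∈ range (Fintype.card ι), f (lam A k) * ((vec A k i * vec A k j : ℝ) : K)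

section fnK
variable {K : Type*} [RCLike K]

lemma fnK_apply (f : ℝ → K) (A : Matrix ι ι ℝ) (i j : ι) : fnK f A i j =
    ∑ k ∈ range (Fintype.card ι), f (lam A k) * ((vec A k i * vec A k j : ℝ) : K) := rfl

lemma fnK_symm (f : ℝ → K) (A : Matrix ι ι ℝ) (i j : ι) : fnK f A i j = fnK f A j i := by
  simp only [fnK_apply, mul_comm (vec A _ i)]

lemma fnK_congr {f g : ℝ → K} (h : ∀ k < Fintype.card ι, f (lam A k) = g (lam A k)) :
    fnK f A = fnK g A := by
  ext i j
  rw [fnK_apply, fnK_apply]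
  exact sum_congr rfl fun k hk => by rw [h k (mem_range.1 hk)]

lemma fnK_mul (hA : A.IsHermitian) (f g : ℝ → K) :
    fnK f A * fnK g A = fnK (fun x => f x * g x) A := by
  ext i j
  simp only [mul_apply, fnK_apply, sum_mul, mul_sum]
  rw [sum_comm]
  have : ∀ l ∈ range (Fintype.card ι), ∑ m, ∑ k ∈ range (Fintype.card ι),
      f (lam A k) * ((vec A k i * vec A k m : ℝ) : K) *
        (g (lam A l) * ((vec A l m * vec A l j : ℝ) : K)) =
      f (lam A l) * g (lam A l) * ((vec A l i * vec A l j : ℝ) : K) := by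
    intro l hl
    rw [sum_comm]
    have h2 : ∀ k ∈ range (Fintype.card ι), ∑ m, f (lam A k) * ((vec A k i * vec A k m : ℝ) : K) *
        (g (lam A l) * ((vec A l m * vec A l j : ℝ) : K)) =
        if k = l then f (lam A l) * g (lam A l) * ((vec A l i * vec A l j : ℝ) : K) else 0 := by
      intro k hk
      have h3 := vec_dot hA (mem_range.1 hk) (mem_range.1 hl)
      have h4 : ∑ m, f (lam A k) * ((vec A k i * vec A k m : ℝ) : K) *
          (g (lam A l) * ((vec A l m * vec A l j : ℝ) : K)) =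
          f (lam A k) * g (lam A l) * ((vec A k i * vec A l j * (vec A k ⬝ᵥ vec A l) : ℝ) : K) := by
        simp only [dotProduct, mul_sum]
        push_cast
        rw [mul_sum]
        exact sum_congr rfl fun m _ => by ring
      rw [h4, h3]
      split_ifs with h
      · subst h; simp
      · simp
    rw [sum_congr rfl h2, sum_ite_eq' , if_pos hl]
  exact sum_congr rfl this

lemma fnK_add (f g : ℝ → K) : fnK (fun x => f x + g x) A = fnK f A + fnK g A := by
  ext i j; simp only [fnK_apply, Matrix.add_apply, add_mul, sum_add_distrib]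

lemma fnK_sub (f g : ℝ → K) : fnK (fun x => f x - g x) A = fnK f A - fnK g A := by
  ext i j; simp only [fnK_apply, Matrix.sub_apply, sub_mul, sum_sub_distrib]

lemma fnK_smul (c : K) (f : ℝ → K) : fnK (fun x => c * f x) A = c • fnK f A := by
  ext i j; simp only [fnK_apply, Matrix.smul_apply, smul_eq_mul, mul_sum, mul_assoc]

lemma fnK_const (hA : A.IsHermitian) (c : K) : fnK (fun _ => c) A = c • (1 : Matrix ι ι K) := by
  ext i j
  rw [fnK_apply, ← mul_sum, ← RCLike.ofReal_sum, sum_vec_mul hA, Matrix.smul_apply, one_apply]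
  split_ifs <;> simp

lemma fnK_one (hA : A.IsHermitian) : fnK (fun _ => (1 : K)) A = 1 := by
  rw [fnK_const hA, one_smul]

lemma fnK_id (hA : A.IsHermitian) : fnK (fun x => (x : K)) A = A.map fun x => (x : K) := by
  ext i j
  rw [fnK_apply, map_apply, entry_eq hA i j]
  push_cast
  rfl

lemma trace_fnK (hA : A.IsHermitian) (f : ℝ → K) :
    (fnK f A).trace = ∑ k ∈ range (Fintype.card ι), f (lam A k) := by
  simp only [trace, diag_apply, fnK_apply]
  rw [sum_comm]
  refine sum_congr rfl fun k hk => ?_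
  rw [← mul_sum, ← RCLike.ofReal_sum, sum_vec_sq hA (mem_range.1 hk)]
  simp

/-- bilinear form of `f(A)` on real vectors -/
lemma bil_fnK (f : ℝ → K) (A : Matrix ι ι ℝ) (u v : ι → ℝ) :
    (fun i => (u i : K)) ⬝ᵥ fnK f A *ᵥ (fun i => (v i : K)) =
      ∑ k ∈ range (Fintype.card ι), f (lam A k) * (((vec A k ⬝ᵥ u) * (vec A k ⬝ᵥ v) : ℝ) : K) := by
  simp only [dotProduct, mulVec, fnK_apply, sum_mul, mul_sum]
  push_cast
  simp only [mul_sum]
  rw [sum_congr rfl fun i _ => sum_comm, sum_comm]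
  refine sum_congr rfl fun k _ => ?_
  rw [sum_comm]
  exact sum_congr rfl fun i _ => sum_congr rfl fun j _ => by ring

/-- inverse of `f(A)` -/
lemma fnK_inv (hA : A.IsHermitian) {f : ℝ → K} (h : ∀ k < Fintype.card ι, f (lam A k) ≠ 0) :
    (fnK f A)⁻¹ = fnK (fun x => (f x)⁻¹) A := by
  refine inv_eq_right_inv ?_
  rw [fnK_mul hA, ← fnK_one hA]
  exact fnK_congr fun k hk => mul_inv_cancel₀ (h k hk)

lemma fnK_isUnit_det (hA : A.IsHermitian) {f : ℝ → K} (h : ∀ k < Fintype.card ι, f (lam A k) ≠ 0) :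
    IsUnit (fnK f A).det := by
  refine isUnit_det_of_right_inverse (B := fnK (fun x => (f x)⁻¹) A) ?_
  rw [fnK_mul hA, ← fnK_one hA]
  exact fnK_congr fun k hk => mul_inv_cancel₀ (h k hk)

lemma map_sub_smul (hA : A.IsHermitian) (z : K) :
    A.map (fun x => (x : K)) - z • (1 : Matrix ι ι K) = fnK (fun x => (x : K) - z) A := by
  rw [fnK_sub, fnK_id hA, fnK_const hA]

/-- **resolvent expansion** -/
theorem resolvent_eq (hA : A.IsHermitian) {z : K} (h : ∀ k < Fintype.card ι, (lam A k : K) ≠ z) :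
    (A.map (fun x => (x : K)) - z • (1 : Matrix ι ι K))⁻¹ = fnK (fun x => ((x : K) - z)⁻¹) A := by
  rw [map_sub_smul hA]
  exact fnK_inv (f := fun x => (x : K) - z) hA fun k hk => sub_ne_zero.2 (h k hk)

end fnK

lemma lam_ne_of_im {z : ℂ} (hz : z.im ≠ 0) (A : Matrix ι ι ℝ) (k : ℕ) : ((lam A k : ℝ) : ℂ) ≠ z := by
  intro h; apply hz; rw [← h]; simp

/-- real functions of a symmetric matrix -/
lemma fnK_herm (f : ℝ → ℝ) (A : Matrix ι ι ℝ) : (fnK f A).IsHermitian := by
  rw [herm_iff]; ext i j; exact fnK_symm f A j i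

lemma quad_fnK (f : ℝ → ℝ) (A : Matrix ι ι ℝ) (u v : ι → ℝ) :
    u ⬝ᵥ fnK f A *ᵥ v =
      ∑ k ∈ range (Fintype.card ι), f (lam A k) * ((vec A k ⬝ᵥ u) * (vec A k ⬝ᵥ v)) := by
  simpa using bil_fnK (K := ℝ) f A u v

lemma opn_fnK_le (hA : A.IsHermitian) {f : ℝ → ℝ} {c : ℝ} (hc : 0 ≤ c)
    (h : ∀ k < Fintype.card ι, |f (lam A k)| ≤ c) : opn (fnK f A) ≤ c := by
  refine opn_le_of_quad (fnK_herm f A) hc fun v => ?_
  rw [quad_fnK, dot_eq hA v v, mul_sum]
  refine (abs_sum_le_sum_abs _ _).trans (sum_le_sum fun k hk => ?_)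
  rw [abs_mul, abs_mul_self]
  exact mul_le_mul_of_nonneg_right (h k (mem_range.1 hk)) (mul_self_nonneg _)

lemma fnK_id_real (hA : A.IsHermitian) : fnK (fun x : ℝ => x) A = A := by
  ext i j; rw [fnK_apply, entry_eq hA i j]; simp

lemma fnK_mulVec_vec (hA : A.IsHermitian) (f : ℝ → ℝ) (k : ℕ) :
    fnK f A *ᵥ vec A k = f (lam A k) • vec A k := by
  by_cases hk : k < Fintype.card ι
  swap
  · rw [vec_of_le (not_lt.1 hk)]; simp
  ext i
  have := quad_fnK f A (Pi.single i 1) (vec A k)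
  rw [single_one_dotProduct] at this
  rw [this, sum_eq_single k]
  · simp [vec_dot_self hA hk]
  · intro l _ hl; simp [vec_dot_ne hA hl]
  · intro h; exact absurd (mem_range.2 hk) h

end Crest.Agent.T157.Eig

end
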