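import Crest.Agent.R339.Kahane

/-!
Row 157 (helper33): Gaussian interpolation with a general sign condition (the proof of
`R339.Guerra.kahane`), log-sum-exp calculus and the Sudakov-Fernique inequality.
-/

set_option autoImplicit false

namespace Crest.Agent.T157.SF

open MeasureTheory ProbabilityTheory Real Crest.Agent.R339.Guerra

noncomputable section

variable {I ι κ : Type*} [Fintype I] [Fintype ι] [Fintype κ]

theorem kahane_gen [DecidableEq ι] {F : (I → ℝ) → ℝ} {P : I → (I → ℝ) → ℝ}
    {H : I → I → (I → ℝ) → ℝ} {c : ℝ}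
    (hF : ∀ h, HasFDerivAt F (dual fun a => P a h) h)
    (hP : ∀ a h, HasFDerivAt (P a) (dual fun b => H a b h) h)
    (hHc : ∀ a b, Continuous (H a b)) (hc : 0 ≤ c)
    (hPb : ∀ a h, |P a h| ≤ c) (hHb : ∀ a b h, |H a b h| ≤ c)
    (A B : I → ι → ℝ) (hAB : ∀ a b j, A a j * B b j = 0)
    (hQ : ∀ h, ∑ a, ∑ b, (∑ j, A a j * A b j - ∑ j, B a j * B b j) * H a b h ≤ 0) :
    ∫ g, F (lin A g) ∂(G ι) ≤ ∫ g, F (lin B g) ∂(G ι) := by
  classical
  set M : ℝ → I → ι → ℝ := fun θ a j => sin θ * A a j + cos θ * B a j with hM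
  set M' : ℝ → I → ι → ℝ := fun θ a j => cos θ * A a j - sin θ * B a j with hM'
  have hFc : Continuous F := continuous_iff_continuousAt.2 fun h => (hF h).continuousAt
  have hPc : ∀ a, Continuous (P a) := fun a =>
    continuous_iff_continuousAt.2 fun h => (hP a h).continuousAt
  have hMd : ∀ g θ, HasDerivAt (fun θ => lin (M θ) g) (lin (M' θ) g) θ := by
    intro g θ
    rw [hasDerivAt_pi]
    intro a
    unfold lin
    refine HasDerivAt.fun_sum fun j _ => ?_
    have h1 := ((hasDerivAt_sin θ).mul_const (A a j)).add ((hasDerivAt_cos θ).mul_const (B a j))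
    have h2 := h1.mul_const (g j)
    refine h2.congr_deriv ?_
    simp only [hM']; ring
  -- the bound
  set bd : (ι → ℝ) → ℝ := fun g => c * ∑ a, ∑ j, (|A a j| + |B a j|) * |g j| with hbd
  have hbdi : Integrable bd (G ι) := by
    refine Integrable.const_mul ?_ _
    refine integrable_finsetSum _ fun a _ => integrable_finsetSum _ fun j _ => ?_
    exact (integrable_coord j).abs.const_mul _
  have hM'b : ∀ θ g a, |lin (M' θ) g a| ≤ ∑ j, (|A a j| + |B a j|) * |g j| := by
    intro θ g a
    unfold lin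
    refine (Finset.abs_sum_le_sum_abs _ _).trans (Finset.sum_le_sum fun j _ => ?_)
    rw [abs_mul]
    refine mul_le_mul_of_nonneg_right ?_ (abs_nonneg _)
    simp only [hM']
    refine (abs_sub _ _).trans ?_
    rw [abs_mul, abs_mul]
    have h1 := abs_cos_le_one θ
    have h2 := abs_sin_le_one θ
    have h3 := abs_nonneg (A a j)
    have h4 := abs_nonneg (B a j)
    nlinarith
  have hderiv : ∀ θ, HasDerivAt (fun θ => ∫ g, F (lin (M θ) g) ∂(G ι))
      (∫ g, ∑ a, P a (lin (M θ) g) * lin (M' θ) g a ∂(G ι)) θ := by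
    intro θ
    refine (hasDerivAt_integral_of_dominated_loc_of_deriv_le (𝕜 := ℝ) (μ := G ι)
      (F := fun θ g => F (lin (M θ) g))
      (F' := fun θ g => ∑ a, P a (lin (M θ) g) * lin (M' θ) g a) (x₀ := θ)
      (bound := bd) Filter.univ_mem ?_ ?_ ?_ ?_ hbdi ?_).2
    · exact Filter.Eventually.of_forall fun θ' =>
        (hFc.comp (continuous_lin _)).aestronglyMeasurable
    · exact integrable_comp_lin hF hc hPb _
    · have hcc : Continuous fun g : ι → ℝ => ∑ a, P a (lin (M θ) g) * lin (M' θ) g a :=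
        continuous_finsetSum _ fun a _ => ((hPc a).comp (continuous_lin _)).mul
          ((continuous_apply a).comp (continuous_lin _))
      exact hcc.aestronglyMeasurable
    · refine Filter.Eventually.of_forall fun g θ' _ => ?_
      rw [Real.norm_eq_abs, hbd]
      simp only
      rw [Finset.mul_sum]
      refine (Finset.abs_sum_le_sum_abs _ _).trans (Finset.sum_le_sum fun a _ => ?_)
      rw [abs_mul]
      exact mul_le_mul (hPb a _) (hM'b θ' g a) (abs_nonneg _) hc
    · refine Filter.Eventually.of_forall fun g θ' _ => ?_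
      have := (hF (lin (M θ') g)).comp_hasDerivAt θ' (hMd g θ')
      refine this.congr_deriv ?_
      rw [dual_apply]
  have hstein : ∀ θ a j, ∫ g, g j * P a (lin (M θ) g) ∂(G ι) =
      ∫ g, ∑ b, H a b (lin (M θ) g) * M θ b j ∂(G ι) := by
    intro θ a j
    refine steinG j (C := c) (C' := ∑ b, c * |M θ b j|)
      ((hPc a).comp (continuous_lin _)) ?_ ?_ (fun g => hPb a _) ?_
    · refine Continuous.measurable ?_
      refine continuous_finsetSum _ fun b _ => ?_
      exact ((hHc a b).comp (continuous_lin _)).mul continuous_const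
    · intro g
      have h1 := hasDerivAt_lin_update (M θ) g j (g j)
      have h2 : HasFDerivAt (P a) (dual fun b => H a b (lin (M θ) g))
          (lin (M θ) (Function.update g j (g j))) := by
        rw [Function.update_eq_self]; exact hP a _
      have h3 := h2.comp_hasDerivAt (g j) h1
      refine h3.congr_deriv ?_
      rw [dual_apply]
    · intro g
      refine (Finset.abs_sum_le_sum_abs _ _).trans (Finset.sum_le_sum fun b _ => ?_)
      rw [abs_mul]
      exact mul_le_mul_of_nonneg_right (hHb a b _) (abs_nonneg _)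
  have hiH : ∀ θ a b, Integrable (fun g => H a b (lin (M θ) g)) (G ι) := fun θ a b =>
    (integrable_const c).mono' ((hHc a b).comp (continuous_lin _)).aestronglyMeasurable
      (Filter.Eventually.of_forall fun g => hHb a b _)
  have hiP : ∀ θ a j, Integrable (fun g => g j * P a (lin (M θ) g)) (G ι) := by
    intro θ a j
    refine ((integrable_coord j).norm.const_mul c).mono' ?_
      (Filter.Eventually.of_forall fun x => ?_)
    · exact ((continuous_apply j).mul ((hPc a).comp (continuous_lin _))).aestronglyMeasurable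
    · rw [Real.norm_eq_abs, abs_mul, Real.norm_eq_abs, mul_comm]
      exact mul_le_mul_of_nonneg_right (hPb a _) (abs_nonneg _)
  have hval : ∀ θ, ∫ g, ∑ a, P a (lin (M θ) g) * lin (M' θ) g a ∂(G ι) =
      sin θ * cos θ * ∑ a, ∑ b, (∑ j, A a j * A b j - ∑ j, B a j * B b j) *
        ∫ g, H a b (lin (M θ) g) ∂(G ι) := by
    intro θ
    have e1 : ∀ g, ∑ a, P a (lin (M θ) g) * lin (M' θ) g a =
        ∑ a, ∑ j, M' θ a j * (g j * P a (lin (M θ) g)) := by
      intro g
      refine Finset.sum_congr rfl fun a _ => ?_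
      simp only [lin, Finset.mul_sum]
      refine Finset.sum_congr rfl fun j _ => by ring
    simp only [e1]
    rw [integral_finsetSum _ fun a _ => integrable_finsetSum _ fun j _ =>
      (hiP θ a j).const_mul _]
    rw [Finset.mul_sum]
    refine Finset.sum_congr rfl fun a _ => ?_
    rw [integral_finsetSum _ fun j _ => (hiP θ a j).const_mul _]
    have e2 : ∀ j, ∫ g, M' θ a j * (g j * P a (lin (M θ) g)) ∂(G ι) =
        ∑ b, M' θ a j * M θ b j * ∫ g, H a b (lin (M θ) g) ∂(G ι) := by
      intro j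
      rw [integral_const_mul, hstein, integral_finsetSum _ fun b _ => (hiH θ a b).mul_const _,
        Finset.mul_sum]
      refine Finset.sum_congr rfl fun b _ => ?_
      rw [integral_mul_const]; ring
    simp only [e2]
    rw [Finset.sum_comm, Finset.mul_sum]
    refine Finset.sum_congr rfl fun b _ => ?_
    rw [← Finset.sum_mul, ← mul_assoc]
    congr 1
    rw [← Finset.sum_sub_distrib, Finset.mul_sum]
    refine Finset.sum_congr rfl fun j _ => ?_
    have h1 := hAB a b j
    have h2 := hAB b a j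
    simp only [hM, hM']
    have h3 : (cos θ * A a j - sin θ * B a j) * (sin θ * A b j + cos θ * B b j) =
        sin θ * cos θ * (A a j * A b j - B a j * B b j) + cos θ ^ 2 * (A a j * B b j) -
          sin θ ^ 2 * (A b j * B a j) := by ring
    rw [h3, h1, h2]; ring
  have hnp : ∀ θ, 0 ≤ sin θ * cos θ →
      ∫ g, ∑ a, P a (lin (M θ) g) * lin (M' θ) g a ∂(G ι) ≤ 0 := by
    intro θ hθ
    rw [hval]
    refine mul_nonpos_of_nonneg_of_nonpos hθ ?_
    have e : ∑ a, ∑ b, (∑ j, A a j * A b j - ∑ j, B a j * B b j) *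
        ∫ g, H a b (lin (M θ) g) ∂(G ι) = ∫ g, ∑ a, ∑ b, (∑ j, A a j * A b j - ∑ j, B a j * B b j) *
          H a b (lin (M θ) g) ∂(G ι) := by
      rw [integral_finsetSum _ fun a _ => integrable_finsetSum _ fun b _ =>
        (hiH θ a b).const_mul _]
      refine Finset.sum_congr rfl fun a _ => ?_
      rw [integral_finsetSum _ fun b _ => (hiH θ a b).const_mul _]
      exact Finset.sum_congr rfl fun b _ => (integral_const_mul _ _).symm
    rw [e]
    exact integral_nonpos fun g => hQ _
  have hanti : AntitoneOn (fun θ => ∫ g, F (lin (M θ) g) ∂(G ι)) (Set.Icc 0 (π / 2)) := by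
    refine antitoneOn_of_deriv_nonpos (convex_Icc _ _)
      (continuous_iff_continuousAt.2 fun θ => (hderiv θ).continuousAt).continuousOn
      (fun θ _ => (hderiv θ).differentiableAt.differentiableWithinAt) ?_
    intro θ hθ
    rw [interior_Icc] at hθ
    rw [(hderiv θ).deriv]
    refine hnp θ (mul_nonneg ?_ ?_)
    · exact (sin_pos_of_pos_of_lt_pi hθ.1 (by linarith [hθ.2, pi_pos])).le
    · exact (cos_pos_of_mem_Ioo ⟨by linarith [hθ.1, pi_pos], hθ.2⟩).le
  have h := hanti (Set.left_mem_Icc.2 (by positivity)) (Set.right_mem_Icc.2 (by positivity))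
    (by positivity : (0:ℝ) ≤ π / 2)
  have e1 : M (π / 2) = A := by
    ext a j; simp [hM]
  have e0 : M 0 = B := by
    ext a j; simp [hM]
  simp only [e1, e0] at h
  exact h

/-- softmax weights -/
def sm (l : ℝ) (h : I → ℝ) (a : I) : ℝ := exp (l * h a) / ∑ b, exp (l * h b)

variable [Nonempty I]

theorem Z_pos (l : ℝ) (h : I → ℝ) : 0 < ∑ b, exp (l * h b) :=
  Finset.sum_pos (fun _ _ => exp_pos _) Finset.univ_nonempty

theorem sm_nonneg (l : ℝ) (h : I → ℝ) (a : I) : 0 ≤ sm l h a :=
  (div_pos (exp_pos _) (Z_pos l h)).le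

theorem sm_sum (l : ℝ) (h : I → ℝ) : ∑ a, sm l h a = 1 := by
  simp only [sm]
  rw [← Finset.sum_div, div_self (Z_pos l h).ne']

theorem sm_le (l : ℝ) (h : I → ℝ) (a : I) : sm l h a ≤ 1 := by
  rw [← sm_sum l h]
  exact Finset.single_le_sum (fun b _ => sm_nonneg l h b) (Finset.mem_univ a)

theorem continuous_sm (l : ℝ) (a : I) : Continuous fun h : I → ℝ => sm l h a := by
  unfold sm
  exact Continuous.div (by fun_prop) (by fun_prop) fun h => (Z_pos l h).ne'

omit [Nonempty I] in
theorem fd_exp (l : ℝ) (h : I → ℝ) (a : I) : HasFDerivAt (fun h : I → ℝ => exp (l * h a))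
    ((exp (l * h a) * l) • (ContinuousLinearMap.proj a : (I → ℝ) →L[ℝ] ℝ)) h := by
  have h1 := (((ContinuousLinearMap.proj a : (I → ℝ) →L[ℝ] ℝ).hasFDerivAt (x := h)).const_mul l).exp
  refine h1.congr_fderiv ?_
  ext v
  simp [mul_assoc]

omit [Nonempty I] in
theorem fd_Z (l : ℝ) (h : I → ℝ) : HasFDerivAt (fun h : I → ℝ => ∑ b, exp (l * h b))
    (dual fun b => exp (l * h b) * l) h :=
  HasFDerivAt.fun_sum fun b _ => fd_exp l h b

theorem fd_lse {l : ℝ} (hl : 0 < l) (h : I → ℝ) :
    HasFDerivAt (fun h : I → ℝ => (1 / l) * log (∑ b, exp (l * h b))) (dual fun a => sm l h a) h := by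
  have h1 := ((fd_Z l h).log (Z_pos l h).ne').const_mul (1 / l)
  refine h1.congr_fderiv ?_
  ext v
  simp only [smul_apply, dual_apply, smul_eq_mul, sm, Finset.mul_sum]
  refine Finset.sum_congr rfl fun a _ => ?_
  field_simp

theorem fd_sm [DecidableEq I] (l : ℝ) (a : I) (h : I → ℝ) :
    HasFDerivAt (fun h : I → ℝ => sm l h a)
      (dual fun b => l * ((if a = b then sm l h a else 0) - sm l h a * sm l h b)) h := by
  have h1 := (fd_exp l h a).mul ((hasFDerivAt_inv' (𝕜 := ℝ) (Z_pos l h).ne').comp h (fd_Z l h))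
  have e : (fun h : I → ℝ => sm l h a) =
      (fun h : I → ℝ => exp (l * h a)) * (Inv.inv ∘ fun h : I → ℝ => ∑ b, exp (l * h b)) := by
    funext h; simp [sm, div_eq_mul_inv]
  rw [e]
  refine h1.congr_fderiv ?_
  ext v
  have hZ := (Z_pos l h).ne'
  simp only [add_apply, smul_apply,
    ContinuousLinearMap.comp_apply, neg_apply,
    ContinuousLinearMap.mulLeftRight_apply, dual_apply, smul_eq_mul, Function.comp,
    ContinuousLinearMap.proj_apply, sm, mul_sub, sub_mul, Finset.sum_sub_distrib, mul_ite,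
    ite_mul, mul_zero, zero_mul, Finset.sum_ite_eq, Finset.mem_univ, if_true]
  have e2 : ∑ x, l * (exp (l * h a) / (∑ b, exp (l * h b)) *
      (exp (l * h x) / ∑ b, exp (l * h b))) * v x =
      exp (l * h a) * ((∑ b, exp (l * h b))⁻¹ * (∑ x, exp (l * h x) * l * v x) *
        (∑ b, exp (l * h b))⁻¹) := by
    rw [Finset.mul_sum, Finset.sum_mul, Finset.mul_sum]
    exact Finset.sum_congr rfl fun x _ => by field_simp
  rw [e2]
  field_simp
  ring

/-- the maximum of a finite family -/
def mx (h : I → ℝ) : ℝ := Finset.univ.sup' Finset.univ_nonempty h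

theorem le_mx (h : I → ℝ) (a : I) : h a ≤ mx h := Finset.le_sup' h (Finset.mem_univ a)

theorem mx_le {h : I → ℝ} {c : ℝ} (hc : ∀ a, h a ≤ c) : mx h ≤ c :=
  Finset.sup'_le _ _ fun a _ => hc a

theorem exists_mx (h : I → ℝ) : ∃ a, mx h = h a := by
  obtain ⟨a, -, ha⟩ := Finset.exists_mem_eq_sup' Finset.univ_nonempty h
  exact ⟨a, ha⟩

theorem continuous_mx : Continuous (mx : (I → ℝ) → ℝ) :=
  Continuous.finset_sup'_apply Finset.univ_nonempty fun a _ => continuous_apply a

theorem mx_le_lse {l : ℝ} (hl : 0 < l) (h : I → ℝ) :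
    mx h ≤ (1 / l) * log (∑ b, exp (l * h b)) := by
  obtain ⟨a, ha⟩ := exists_mx h
  have h1 : l * h a ≤ log (∑ b, exp (l * h b)) := by
    rw [le_log_iff_exp_le (Z_pos l h)]
    exact Finset.single_le_sum (f := fun b => exp (l * h b)) (fun b _ => (exp_pos _).le)
      (Finset.mem_univ a)
  rw [ha, one_div, ← div_eq_inv_mul, le_div_iff₀ hl]
  linarith

theorem lse_le_mx {l : ℝ} (hl : 0 < l) (h : I → ℝ) :
    (1 / l) * log (∑ b, exp (l * h b)) ≤ mx h + log (Fintype.card I) / l := by
  have hc : (0 : ℝ) < Fintype.card I := by exact_mod_cast Fintype.card_pos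
  have h1 : ∑ b, exp (l * h b) ≤ Fintype.card I * exp (l * mx h) := by
    calc ∑ b, exp (l * h b) ≤ ∑ _b : I, exp (l * mx h) := Finset.sum_le_sum fun b _ =>
          exp_le_exp.2 (mul_le_mul_of_nonneg_left (le_mx h b) hl.le)
      _ = _ := by simp
  have h2 := log_le_log (Z_pos l h) h1
  rw [log_mul hc.ne' (exp_pos _).ne', log_exp] at h2
  rw [one_div, ← div_eq_inv_mul, div_le_iff₀ hl, add_mul, div_mul_cancel₀ _ hl.ne']
  linarith

theorem abs_mx_le (h : I → ℝ) : |mx h| ≤ ‖h‖ := by
  obtain ⟨a, ha⟩ := exists_mx h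
  rw [ha]; exact norm_le_pi_norm h a

theorem integrable_mx (A : I → ι → ℝ) : Integrable (fun g => mx (lin A g)) (G ι) := by
  have hi : Integrable (fun g : ι → ℝ => (∑ a, ∑ j, |A a j|) * ∑ j, |g j|) (G ι) :=
    (integrable_finsetSum _ fun j _ => (integrable_coord j).abs).const_mul _
  exact hi.mono' (continuous_mx.comp (continuous_lin A)).aestronglyMeasurable
    (Filter.Eventually.of_forall fun g => (abs_mx_le _).trans (norm_lin_le A g))

theorem sf_aux (A B : I → ι → ℝ) (hAB : ∀ a b j, A a j * B b j = 0)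
    (h : ∀ a b, ∑ j, (A a j - A b j) ^ 2 ≤ ∑ j, (B a j - B b j) ^ 2) :
    ∫ g, mx (lin A g) ∂(G ι) ≤ ∫ g, mx (lin B g) ∂(G ι) := by
  classical
  refine le_of_forall_pos_le_add fun ε hε => ?_
  have hc1 : (1 : ℝ) ≤ Fintype.card I := by exact_mod_cast Fintype.card_pos
  have hlog := log_nonneg hc1
  set l : ℝ := (log (Fintype.card I) + 1) / ε with hl
  have hl0 : 0 < l := by positivity
  have hε' : log (Fintype.card I) / l ≤ ε := by
    rw [div_le_iff₀ hl0, hl, mul_div_cancel₀ _ hε.ne']; linarith
  have hPb : ∀ (a : I) (h : I → ℝ), |sm l h a| ≤ l + 1 := fun a h => by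
    rw [abs_of_nonneg (sm_nonneg l h a)]; linarith [sm_le l h a]
  have hk := kahane_gen (F := fun h : I → ℝ => (1 / l) * log (∑ b, exp (l * h b)))
    (P := fun a h => sm l h a)
    (H := fun a b h => l * ((if a = b then sm l h a else 0) - sm l h a * sm l h b)) (c := l + 1)
    (fd_lse hl0) (fd_sm l) (fun a b => by
      have := continuous_sm l a
      have := continuous_sm l b
      split_ifs <;> fun_prop) (by linarith) hPb (fun a b h => by
      have h1 := sm_nonneg l h a
      have h2 := sm_nonneg l h b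
      have h3 := sm_le l h a
      have h4 := sm_le l h b
      have h5 := mul_nonneg h1 h2
      have h6 : sm l h a * sm l h b ≤ 1 := mul_le_one₀ h3 h2 h4
      rw [abs_mul, abs_of_pos hl0]
      have : |(if a = b then sm l h a else 0) - sm l h a * sm l h b| ≤ 1 := by
        rw [abs_le]; split_ifs <;> constructor <;> linarith
      nlinarith) A B hAB (fun x => by
      set D : I → I → ℝ := fun a b => ∑ j, A a j * A b j - ∑ j, B a j * B b j with hD
      set p := sm l x with hp
      have hp1 : ∑ a, p a = 1 := sm_sum l x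
      have e1 : ∑ a, ∑ b, D a b * (l * ((if a = b then p a else 0) - p a * p b)) =
          l * (∑ a, p a * D a a - ∑ a, ∑ b, p a * p b * D a b) := by
        rw [← Finset.sum_sub_distrib, Finset.mul_sum]
        refine Finset.sum_congr rfl fun a _ => ?_
        have : p a * D a a = ∑ b, if a = b then p a * D a b else 0 := by simp
        rw [this, ← Finset.sum_sub_distrib, Finset.mul_sum]
        refine Finset.sum_congr rfl fun b _ => ?_
        split_ifs <;> ring
      have e2 : ∑ a, ∑ b, p a * p b * (D a a + D b b - 2 * D a b) =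
          2 * (∑ a, p a * D a a - ∑ a, ∑ b, p a * p b * D a b) := by
        have a1 : ∑ a, ∑ b, p a * p b * D a a = ∑ a, p a * D a a := by
          refine Finset.sum_congr rfl fun a _ => ?_
          rw [← Finset.sum_mul, ← Finset.mul_sum, hp1, mul_one]
        have a2 : ∑ a, ∑ b, p a * p b * D b b = ∑ a, p a * D a a := by
          rw [Finset.sum_comm, ← a1]
          exact Finset.sum_congr rfl fun a _ => Finset.sum_congr rfl fun b _ => by ring
        have a3 : ∑ a, ∑ b, p a * p b * (D a a + D b b - 2 * D a b) =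
            ∑ a, ∑ b, p a * p b * D a a + ∑ a, ∑ b, p a * p b * D b b -
              2 * ∑ a, ∑ b, p a * p b * D a b := by
          rw [Finset.mul_sum, ← Finset.sum_add_distrib, ← Finset.sum_sub_distrib]
          refine Finset.sum_congr rfl fun a _ => ?_
          rw [Finset.mul_sum, ← Finset.sum_add_distrib, ← Finset.sum_sub_distrib]
          exact Finset.sum_congr rfl fun b _ => by ring
        rw [a3, a1, a2]; ring
      have e3 : ∑ a, ∑ b, p a * p b * (D a a + D b b - 2 * D a b) ≤ 0 := by
        refine Finset.sum_nonpos fun a _ => Finset.sum_nonpos fun b _ => ?_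
        refine mul_nonpos_of_nonneg_of_nonpos (mul_nonneg (sm_nonneg l x a) (sm_nonneg l x b)) ?_
        have q : ∀ C : I → ι → ℝ, ∑ j, (C a j - C b j) ^ 2 =
            ∑ j, C a j * C a j + ∑ j, C b j * C b j - 2 * ∑ j, C a j * C b j := fun C => by
          rw [Finset.mul_sum, ← Finset.sum_add_distrib, ← Finset.sum_sub_distrib]
          exact Finset.sum_congr rfl fun j _ => by ring
        have := h a b
        rw [q A, q B] at this
        simp only [hD]
        linarith
      show ∑ a, ∑ b, D a b * (l * ((if a = b then p a else 0) - p a * p b)) ≤ 0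
      rw [e1]
      exact mul_nonpos_of_nonneg_of_nonpos hl0.le (by linarith))
  have iA := integrable_comp_lin (fd_lse (I := I) hl0) (by linarith) hPb A
  have iB := integrable_comp_lin (fd_lse (I := I) hl0) (by linarith) hPb B
  have h1 := integral_mono (integrable_mx A) iA fun g => mx_le_lse hl0 (lin A g)
  have h2 := integral_mono iB ((integrable_mx B).add (integrable_const ε)) fun g =>
    (lse_le_mx hl0 (lin B g)).trans (add_le_add_right hε' _)
  simp only [Pi.add_apply] at h2
  rw [integral_add (integrable_mx B) (integrable_const ε)] at h2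
  simp only [integral_const, probReal_univ, smul_eq_mul, one_mul] at h2
  linarith

/-- **Sudakov-Fernique** -/
theorem sf (A : I → ι → ℝ) (B : I → κ → ℝ)
    (h : ∀ a b, ∑ j, (A a j - A b j) ^ 2 ≤ ∑ j, (B a j - B b j) ^ 2) :
    ∫ g, mx (lin A g) ∂(G ι) ≤ ∫ g, mx (lin B g) ∂(G κ) := by
  have hk := sf_aux (ι := ι ⊕ κ) (fun a => Sum.elim (A a) fun _ => 0)
    (fun a => Sum.elim (fun _ => 0) (B a)) (fun a b j => by rcases j with j | j <;> simp)
    (fun a b => by simpa [Fintype.sum_sum_type] using h a b)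
  have hA1 : ∀ g : ι ⊕ κ → ℝ, lin (fun a => Sum.elim (A a) fun _ => 0) g =
      lin A (fun k => g (Sum.inl k)) := by
    intro g; ext a
    simp [lin, Fintype.sum_sum_type]
  have hB1 : ∀ g : ι ⊕ κ → ℝ, lin (fun a => Sum.elim (fun _ => 0) (B a)) g =
      lin B (fun k => g (Sum.inr k)) := by
    intro g; ext a
    simp [lin, Fintype.sum_sum_type]
  simp only [hA1, hB1] at hk
  rw [mp_int (mp_comp (Sum.inl : ι → ι ⊕ κ) Sum.inl_injective)
      (integrable_mx A).aestronglyMeasurable,
    mp_int (mp_comp (Sum.inr : κ → ι ⊕ κ) Sum.inr_injective)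
      (integrable_mx B).aestronglyMeasurable] at hk
  exact hk

end

end Crest.Agent.T157.SF
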