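import Crest.Agent.T157.TapDef_29
import Crest.Agent.T157.KrS_53
import Crest.Agent.T157.NrmG_84

/-!
# Row 157, part A: uniform freeness, deterministic part (helper14)

* Frobenius norm calculus, `nt` (normalised trace), the four-corner calculus `Q4` / `Fam`;
* first and second differences of the error vectors `e1`, `e2` (`Dif`);
* the fixed-diagonal input `UFfixP`, reduction to `θ = 1` (`uf_of_uf1`).
-/

set_option autoImplicit false

noncomputable section

namespace Crest.Agent.T157.Tap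

open MeasureTheory ProbabilityTheory Matrix Filter Set
open Crest.Agent.T157.E Crest.Agent.T157.Eig Crest.Agent.T157.Cond
open Crest.Agent.T157.Kr (fro fro_nonneg)

/-- the fixed-diagonal input of the chaining (probability form, `θ = 1`) -/
def UFfixP : Prop := ∀ c > (0 : ℝ), ∃ K : ℝ, ∀ᶠ n : ℕ in atTop, ∀ d : V n, Ub d →
  avg (fun i => d i ^ 2) ≤ 1 - c →
  (GOE n).real {W | Wᵀ = W ∧ opn W ≤ 3 ∧ Pos c (NN (B0 W 1 d) d) ∧
    ¬ (nrm (err (B0 W 1 d) d 1 1 1) ≤ K ∧
      nrm (err (B0 W 1 d) d 1 W (2 * avg fun i => d i ^ 2)) ≤ K)} ≤ 1 / 4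

namespace Uf14

variable {n : ℕ}

/-! ### Frobenius norm -/

lemma fro_eq (M : Mx n) : fro M = nrm fun p : Fin n × Fin n => M p.1 p.2 := by
  unfold fro nrm dotProduct
  rw [Fintype.sum_prod_type]
  simp only [sq]

lemma fro_sq (M : Mx n) : fro M ^ 2 = ∑ i, ∑ j, M i j ^ 2 := Real.sq_sqrt (by positivity)

lemma fro_add_le (A B : Mx n) : fro (A + B) ≤ fro A + fro B := by
  simp only [fro_eq]
  exact nrm_add_le (fun p : Fin n × Fin n => A p.1 p.2) fun p => B p.1 p.2

lemma fro_smul (c : ℝ) (A : Mx n) : fro (c • A) = |c| * fro A := by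
  simp only [fro_eq]
  exact nrm_smul c fun p : Fin n × Fin n => A p.1 p.2

lemma fro_neg (A : Mx n) : fro (-A) = fro A := by simp [fro]

lemma fro_zero : fro (0 : Mx n) = 0 := by simp [fro]

lemma fro_sub_le (A B : Mx n) : fro (A - B) ≤ fro A + fro B := by
  rw [sub_eq_add_neg, ← fro_neg B]; exact fro_add_le _ _

lemma fro_transpose (A : Mx n) : fro Aᵀ = fro A := by
  unfold fro
  rw [Finset.sum_comm]
  rfl

lemma fro_mul_le (A B : Mx n) : fro (A * B) ≤ opn A * fro B := by
  refine abs_le_of_sq_le_sq' ?_ (mul_nonneg (opn_nonneg A) (fro_nonneg B)) |>.2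
  rw [mul_pow, fro_sq, fro_sq, Finset.sum_comm, Finset.sum_comm (f := fun i j => B i j ^ 2),
    Finset.mul_sum]
  refine Finset.sum_le_sum fun j _ => ?_
  have h := mulVec_dot_le A (fun k => B k j)
  simp only [dotProduct, mulVec, ← sq] at h
  simpa only [Matrix.mul_apply] using h

lemma fro_mul_le' (A B : Mx n) : fro (A * B) ≤ fro A * opn B := by
  rw [← fro_transpose, transpose_mul, ← fro_transpose A, ← opn_transpose B, mul_comm]
  exact fro_mul_le _ _

lemma fro_one : fro (1 : Mx n) = √n := by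
  unfold fro
  congr 1
  simp [Matrix.one_apply]

lemma fro_le_opn (A : Mx n) : fro A ≤ opn A * √n := by
  have := fro_mul_le A 1
  rwa [Matrix.mul_one, fro_one] at this

lemma nrm_diag_le (A : Mx n) : nrm A.diag ≤ fro A := by
  unfold nrm fro dotProduct
  refine Real.sqrt_le_sqrt (Finset.sum_le_sum fun i _ => ?_)
  rw [Matrix.diag_apply, ← sq]
  exact Finset.single_le_sum (f := fun j => A i j ^ 2) (fun j _ => sq_nonneg _) (Finset.mem_univ i)

/-- normalised trace times the identity -/
def nt (M : Mx n) : Mx n := (M.trace / n) • (1 : Mx n)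

lemma nt_sub (A B : Mx n) : nt (A - B) = nt A - nt B := by
  unfold nt
  rw [trace_sub, sub_div, sub_smul]

lemma opn_nt_le (M : Mx n) : opn (nt M) ≤ opn M := by
  unfold nt
  rw [opn_smul]
  have h1 : |M.trace / n| ≤ opn M := by
    rcases Nat.eq_zero_or_pos n with rfl | hn
    · simpa using opn_nonneg M
    have hn' : (0 : ℝ) < n := by exact_mod_cast hn
    rw [abs_div, abs_of_pos hn', div_le_iff₀ hn']
    refine (Finset.abs_sum_le_sum_abs _ _).trans ?_
    have := Finset.sum_le_card_nsmul Finset.univ (fun i => |M.diag i|) (opn M)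
      (fun i _ => abs_entry_le M i i)
    simpa [mul_comm] using this
  calc |M.trace / n| * opn (1 : Mx n) ≤ opn M * 1 :=
        mul_le_mul h1 opn_one_le (opn_nonneg _) (opn_nonneg _)
    _ = _ := mul_one _

lemma fro_nt_le (M : Mx n) : fro (nt M) ≤ fro M := by
  unfold nt
  rw [fro_smul, fro_one]
  rcases Nat.eq_zero_or_pos n with rfl | hn
  · simpa using fro_nonneg M
  have hn' : (0 : ℝ) < n := by exact_mod_cast hn
  have h1 := abs_dot_le (fun _ : Fin n => (1 : ℝ)) M.diag
  have h2 : nrm (fun _ : Fin n => (1 : ℝ)) = √n := by simp [nrm, dotProduct]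
  have h3 : (fun _ : Fin n => (1 : ℝ)) ⬝ᵥ M.diag = M.trace := by simp [dotProduct, Matrix.trace]
  rw [h2, h3] at h1
  have h4 : √(n : ℝ) * √n = n := Real.mul_self_sqrt hn'.le
  have h5 : 0 < √(n : ℝ) := Real.sqrt_pos.2 hn'
  rw [abs_div, abs_of_pos hn', div_mul_eq_mul_div, div_le_iff₀ hn']
  calc |M.trace| * √n ≤ (√n * fro M) * √n :=
        mul_le_mul_of_nonneg_right (h1.trans (mul_le_mul_of_nonneg_left (nrm_diag_le M) h5.le))
          h5.le
    _ = fro M * (√n * √n) := by ring
    _ = _ := by rw [h4]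

/-! ### positivity and inverses -/

lemma Pos.mono {c c' : ℝ} {M : Mx n} (h : Pos c M) (hc : c' ≤ c) : Pos c' M := fun u =>
  (mul_le_mul_of_nonneg_right hc (Cond.dot_self_nonneg u)).trans (h u)

lemma Pos.pert {c e : ℝ} {M M' : Mx n} (h : Pos c M) (he : opn (M - M') ≤ e) : Pos (c - e) M' := by
  intro u
  have h1 := h u
  have h2 := (le_abs_self _).trans (abs_quad_le (M - M') u)
  rw [sub_mulVec, dotProduct_sub] at h2
  have h3 := mul_le_mul_of_nonneg_right he (Cond.dot_self_nonneg u)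
  linarith

lemma Pos.lower {c : ℝ} {M : Mx n} (h : Pos c M) (u : V n) : c * nrm u ≤ nrm (M *ᵥ u) := by
  rcases (nrm_nonneg u).eq_or_lt with h0 | h0
  · rw [← h0, mul_zero]; exact nrm_nonneg _
  refine le_of_mul_le_mul_left ?_ h0
  have h1 := (h u).trans (dot_le u (M *ᵥ u))
  rw [← nrm_mul_self] at h1
  linarith

lemma Pos.unit {c : ℝ} {M : Mx n} (hc : 0 < c) (h : Pos c M) : IsUnit M.det := by
  rw [← Matrix.isUnit_iff_isUnit_det, ← Matrix.mulVec_injective_iff_isUnit]
  intro u v huv
  have h1 := Pos.lower h (u - v)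
  rw [mulVec_sub, show M *ᵥ u = M *ᵥ v from huv, sub_self, nrm_eq_zero.2 rfl] at h1
  have h2 : nrm (u - v) = 0 := le_antisymm (by
    by_contra h3
    push Not at h3
    linarith [mul_pos hc h3]) (nrm_nonneg _)
  exact sub_eq_zero.1 (nrm_eq_zero.1 h2)

lemma Pos.opn_inv {c : ℝ} {M : Mx n} (hc : 0 < c) (h : Pos c M) : opn M⁻¹ ≤ 1 / c := by
  refine opn_le_of_nrm (by positivity) fun v => ?_
  have h1 := Pos.lower h (M⁻¹ *ᵥ v)
  rw [mulVec_mulVec, mul_nonsing_inv _ (Pos.unit hc h), one_mulVec] at h1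
  rw [one_div, ← div_eq_inv_mul, le_div_iff₀ hc]
  linarith

/-! ### four corners -/

/-- size, first differences and second difference of four matrices -/
structure Q4 (K ε δ : ℝ) (M : Bool → Bool → Mx n) : Prop where
  op : ∀ a b, opn (M a b) ≤ K
  dd : ∀ a, opn (M a true - M a false) ≤ K * ε
  dw : ∀ b, fro (M true b - M false b) ≤ K * δ
  d2 : fro (M true true - M true false - (M false true - M false false)) ≤ K * ε * δ

section q4
variable {K L ε δ : ℝ} {M N : Bool → Bool → Mx n}

lemma Q4.nonneg (h : Q4 K ε δ M) : 0 ≤ K := (opn_nonneg _).trans (h.op true true)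

lemma Q4.lin (h : Q4 K ε δ M) (Λ : Mx n → Mx n) (hs : ∀ A B, Λ (A - B) = Λ A - Λ B)
    (ho : ∀ A, opn (Λ A) ≤ opn A) (hf : ∀ A, fro (Λ A) ≤ fro A) :
    Q4 K ε δ fun a b => Λ (M a b) where
  op a b := (ho _).trans (h.op a b)
  dd a := by rw [← hs]; exact (ho _).trans (h.dd a)
  dw b := by rw [← hs]; exact (hf _).trans (h.dw b)
  d2 := by rw [← hs, ← hs, ← hs]; exact (hf _).trans h.d2

lemma Q4.add (h : Q4 K ε δ M) (h' : Q4 L ε δ N) : Q4 (K + L) ε δ fun a b => M a b + N a b where
  op a b := (opn_add_le _ _).trans (add_le_add (h.op a b) (h'.op a b))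
  dd a := by
    have e : M a true + N a true - (M a false + N a false) =
        (M a true - M a false) + (N a true - N a false) := by abel
    rw [e, add_mul]
    exact (opn_add_le _ _).trans (add_le_add (h.dd a) (h'.dd a))
  dw b := by
    have e : M true b + N true b - (M false b + N false b) =
        (M true b - M false b) + (N true b - N false b) := by abel
    rw [e, add_mul]
    exact (fro_add_le _ _).trans (add_le_add (h.dw b) (h'.dw b))
  d2 := by
    have e : M true true + N true true - (M true false + N true false) -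
        (M false true + N false true - (M false false + N false false)) =
        (M true true - M true false - (M false true - M false false)) +
        (N true true - N true false - (N false true - N false false)) := by abel
    rw [e, add_mul, add_mul]
    exact (fro_add_le _ _).trans (add_le_add h.d2 h'.d2)

lemma opn_mul_le' {A B : Mx n} {a b : ℝ} (hA : opn A ≤ a) (hB : opn B ≤ b) : opn (A * B) ≤ a * b :=
  (opn_mul_le A B).trans (mul_le_mul hA hB (opn_nonneg _) ((opn_nonneg _).trans hA))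

lemma of_le {A B : Mx n} {a b : ℝ} (hA : opn A ≤ a) (hB : fro B ≤ b) : fro (A * B) ≤ a * b :=
  (fro_mul_le A B).trans (mul_le_mul hA hB (fro_nonneg _) ((opn_nonneg _).trans hA))

lemma fo_le {A B : Mx n} {a b : ℝ} (hA : fro A ≤ a) (hB : opn B ≤ b) : fro (A * B) ≤ a * b :=
  (fro_mul_le' A B).trans (mul_le_mul hA hB (opn_nonneg _) ((fro_nonneg _).trans hA))

lemma Q4.mul (h : Q4 K ε δ M) (h' : Q4 L ε δ N) :
    Q4 (4 * (K * L)) ε δ fun a b => M a b * N a b where
  op a b := by
    have h1 := opn_mul_le' (h.op a b) (h'.op a b)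
    have h0 := mul_nonneg h.nonneg h'.nonneg
    linarith
  dd a := by
    have e : M a true * N a true - M a false * N a false =
        (M a true - M a false) * N a true + M a false * (N a true - N a false) := by noncomm_ring
    rw [e]
    have h1 := opn_mul_le' (h.dd a) (h'.op a true)
    have h2 := opn_mul_le' (h.op a false) (h'.dd a)
    have h3 := opn_add_le ((M a true - M a false) * N a true) (M a false * (N a true - N a false))
    have h4 := (opn_nonneg _).trans h1
    linarith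
  dw b := by
    have e : M true b * N true b - M false b * N false b =
        (M true b - M false b) * N true b + M false b * (N true b - N false b) := by noncomm_ring
    rw [e]
    have h1 := fo_le (h.dw b) (h'.op true b)
    have h2 := of_le (h.op false b) (h'.dw b)
    have h3 := fro_add_le ((M true b - M false b) * N true b) (M false b * (N true b - N false b))
    have h4 := (fro_nonneg _).trans h1
    linarith
  d2 := by
    have e : M true true * N true true - M true false * N true false -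
        (M false true * N false true - M false false * N false false) =
        ((M true true - M true false - (M false true - M false false)) * N true true +
          (M false true - M false false) * (N true true - N false true)) +
        ((M true false - M false false) * (N true true - N true false) +
          M false false * (N true true - N true false - (N false true - N false false))) := by
      noncomm_ring
    rw [e]
    have h1 := fo_le h.d2 (h'.op true true)
    have h2 := of_le (h.dd false) (h'.dw true)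
    have h3 := fo_le (h.dw false) (h'.dd true)
    have h4 := of_le (h.op false false) h'.d2
    refine (fro_add_le _ _).trans ((add_le_add (fro_add_le _ _) (fro_add_le _ _)).trans ?_)
    linarith

lemma Q4.inv (h : Q4 K ε δ M) (hε : 0 ≤ ε) (hδ : 0 ≤ δ) (hu : ∀ a b, IsUnit (M a b).det)
    (hL : ∀ a b, opn (M a b)⁻¹ ≤ L) :
    Q4 (L + L * K * L + 2 * (L * K * (L * K * L))) ε δ fun a b => (M a b)⁻¹ := by
  have hK := h.nonneg
  have hL0 : 0 ≤ L := (opn_nonneg _).trans (hL true true)
  have hid : ∀ a b a' b', (M a b)⁻¹ - (M a' b')⁻¹ = -((M a b)⁻¹ * (M a b - M a' b') * (M a' b')⁻¹) := by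
    intro a b a' b'
    rw [Matrix.mul_sub, Matrix.sub_mul, nonsing_inv_mul _ (hu a b), Matrix.mul_assoc,
      mul_nonsing_inv _ (hu a' b'), Matrix.one_mul, Matrix.mul_one, neg_sub]
  have hdd : ∀ a, opn ((M a true)⁻¹ - (M a false)⁻¹) ≤ L * (K * ε) * L := fun a => by
    rw [hid, opn_neg]
    exact opn_mul_le' (opn_mul_le' (hL _ _) (h.dd a)) (hL _ _)
  have hdw : ∀ b, fro ((M true b)⁻¹ - (M false b)⁻¹) ≤ L * (K * δ) * L := fun b => by
    rw [hid, fro_neg]
    exact fo_le (of_le (hL _ _) (h.dw b)) (hL _ _)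
  have p1 : 0 ≤ L * K * L := by positivity
  have p2 : 0 ≤ L * K * (L * K * L) := by positivity
  refine ⟨fun a b => by linarith [hL a b], fun a => ?_, fun b => ?_, ?_⟩
  · linarith [hdd a, mul_nonneg hL0 hε, mul_nonneg p2 hε]
  · linarith [hdw b, mul_nonneg hL0 hδ, mul_nonneg p2 hδ]
  · have e : (M true true)⁻¹ - (M true false)⁻¹ - ((M false true)⁻¹ - (M false false)⁻¹) =
        -((M false false)⁻¹ *
          ((M true true - M true false - (M false true - M false false)) * (M true true)⁻¹ +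
          ((M false true - M false false) * ((M true true)⁻¹ - (M false true)⁻¹) +
          (M true false - M false false) * ((M true true)⁻¹ - (M true false)⁻¹)))) := by
      have e1 : (M true true - M true false - (M false true - M false false)) * (M true true)⁻¹ +
          ((M false true - M false false) * ((M true true)⁻¹ - (M false true)⁻¹) +
          (M true false - M false false) * ((M true true)⁻¹ - (M true false)⁻¹)) =
          M true true * (M true true)⁻¹ - M false true * (M false true)⁻¹ -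
            M true false * (M true false)⁻¹ + M false false * (M false false)⁻¹ -
          M false false * ((M true true)⁻¹ - (M true false)⁻¹ -
            ((M false true)⁻¹ - (M false false)⁻¹)) := by noncomm_ring
      rw [e1, mul_nonsing_inv _ (hu _ _), mul_nonsing_inv _ (hu _ _), mul_nonsing_inv _ (hu _ _),
        mul_nonsing_inv _ (hu _ _), sub_self, zero_sub, neg_add_cancel, zero_sub, Matrix.mul_neg,
        neg_neg, ← Matrix.mul_assoc, nonsing_inv_mul _ (hu _ _), Matrix.one_mul]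
    rw [e, fro_neg]
    have h1 := fo_le h.d2 (hL true true)
    have h2 := of_le (h.dd false) (hdw true)
    have h3 := fo_le (h.dw false) (hdd true)
    have h4 := of_le (hL false false) ((fro_add_le _ _).trans
      (add_le_add h1 ((fro_add_le _ _).trans (add_le_add h2 h3))))
    linarith [mul_nonneg (mul_nonneg hL0 hε) hδ]

end q4

/-- a matrix function of `(W, d)` with dimension-free first and second differences on `Gd` -/
def Fam (Gd : ∀ n, Mx n → V n → Prop) (F : ∀ n, Mx n → V n → Mx n) : Prop :=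
  ∃ K : ℝ, ∀ (n : ℕ) (W : Bool → Mx n) (d : Bool → V n) (ε : ℝ), 0 ≤ ε →
    (∀ a b, Gd n (W a) (d b)) → (∀ i, |d true i - d false i| ≤ ε) →
    Q4 K ε (fro (W true - W false)) fun a b => F n (W a) (d b)

section fam
variable {Gd Gd' : ∀ n, Mx n → V n → Prop} {F G : ∀ n, Mx n → V n → Mx n}

lemma Fam.mono (h : Fam Gd F) (hG : ∀ n W d, Gd' n W d → Gd n W d) : Fam Gd' F := by
  obtain ⟨K, h⟩ := h
  exact ⟨K, fun n W d ε hε hg hd => h n W d ε hε (fun a b => hG _ _ _ (hg a b)) hd⟩

lemma Fam.lin (h : Fam Gd F) (Λ : ∀ n, Mx n → Mx n) (hs : ∀ n A B, Λ n (A - B) = Λ n A - Λ n B)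
    (ho : ∀ n A, opn (Λ n A) ≤ opn A) (hf : ∀ n A, fro (Λ n A) ≤ fro A) :
    Fam Gd fun n W d => Λ n (F n W d) := by
  obtain ⟨K, h⟩ := h
  exact ⟨K, fun n W d ε hε hg hd => (h n W d ε hε hg hd).lin (Λ n) (hs n) (ho n) (hf n)⟩

lemma Fam.neg (h : Fam Gd F) : Fam Gd fun n W d => -F n W d :=
  h.lin (fun _ A => -A) (fun _ A B => by abel) (fun _ A => (opn_neg A).le)
    fun _ A => (fro_neg A).le

lemma Fam.tr (h : Fam Gd F) : Fam Gd fun n W d => (F n W d)ᵀ :=
  h.lin (fun _ A => Aᵀ) (fun _ A B => transpose_sub A B) (fun _ A => (opn_transpose A).le)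
    fun _ A => (fro_transpose A).le

lemma Fam.nt (h : Fam Gd F) : Fam Gd fun n W d => nt (F n W d) :=
  h.lin (fun _ A => Uf14.nt A) (fun _ => nt_sub) (fun _ => opn_nt_le) fun _ => fro_nt_le

lemma Fam.add (h : Fam Gd F) (h' : Fam Gd G) : Fam Gd fun n W d => F n W d + G n W d := by
  obtain ⟨K, h⟩ := h
  obtain ⟨L, h'⟩ := h'
  exact ⟨_, fun n W d ε hε hg hd => (h n W d ε hε hg hd).add (h' n W d ε hε hg hd)⟩

lemma Fam.sub (h : Fam Gd F) (h' : Fam Gd G) : Fam Gd fun n W d => F n W d - G n W d := by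
  simpa only [sub_eq_add_neg] using h.add h'.neg

lemma Fam.mul (h : Fam Gd F) (h' : Fam Gd G) : Fam Gd fun n W d => F n W d * G n W d := by
  obtain ⟨K, h⟩ := h
  obtain ⟨L, h'⟩ := h'
  exact ⟨_, fun n W d ε hε hg hd => (h n W d ε hε hg hd).mul (h' n W d ε hε hg hd)⟩

lemma Fam.inv (h : Fam Gd F) {c : ℝ} (hc : 0 < c) (hp : ∀ n W d, Gd n W d → Pos c (F n W d)) :
    Fam Gd fun n W d => (F n W d)⁻¹ := by
  obtain ⟨K, h⟩ := h
  exact ⟨_, fun n W d ε hε hg hd => (h n W d ε hε hg hd).inv hε (fro_nonneg _)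
    (fun a b => Pos.unit hc (hp _ _ _ (hg a b))) fun a b => Pos.opn_inv hc (hp _ _ _ (hg a b))⟩

lemma fam_one : Fam Gd fun n _ _ => (1 : Mx n) :=
  ⟨1, fun n W d ε hε _ _ => ⟨fun _ _ => opn_one_le, fun _ => by simpa using hε,
    fun _ => by simpa [fro_zero] using fro_nonneg _,
    by simpa [fro_zero] using mul_nonneg hε (fro_nonneg _)⟩⟩

end fam

/-- the weak good event -/
def G0 (n : ℕ) (W : Mx n) (d : V n) : Prop := opn W ≤ 3 ∧ Ub d

/-- the good event -/
def G1 (c : ℝ) (n : ℕ) (W : Mx n) (d : V n) : Prop :=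
  opn W ≤ 3 ∧ Ub d ∧ Pos c (NN (B0 W 1 d) d)

lemma fam_W : Fam G0 fun _ W _ => W :=
  ⟨3, fun n W d ε hε hg _ => ⟨fun a b => (hg a b).1, fun _ => by simpa using hε,
    fun _ => by linarith [fro_nonneg (W true - W false)],
    by simpa [fro_zero] using mul_nonneg (by linarith : (0 : ℝ) ≤ 3 * ε) (fro_nonneg _)⟩⟩

lemma fam_D : Fam G0 fun _ _ d => diagonal d :=
  ⟨1, fun n W d ε hε hg hd => ⟨fun a b => opn_diagonal_le zero_le_one fun i => by
      rw [abs_of_nonneg ((hg a b).2 i).1]; exact ((hg a b).2 i).2,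
    fun _ => by rw [diagonal_sub, one_mul]; exact opn_diagonal_le hε hd,
    fun _ => by simpa [fro_zero] using fro_nonneg _,
    by simpa [fro_zero] using mul_nonneg hε (fro_nonneg _)⟩⟩

lemma nt_DD (d : V n) : nt (diagonal d * diagonal d) = (avg fun i => d i ^ 2) • (1 : Mx n) := by
  unfold nt avg
  rw [diagonal_mul_diagonal, trace_diagonal]
  simp only [sq]

lemma fam_B : Fam G0 fun _ W d => B0 W 1 d := by
  have := fam_W.sub (fam_D.mul fam_D).nt
  simpa only [nt_DD, B0, one_mul] using this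

lemma fam_N : Fam G0 fun _ W d => NN (B0 W 1 d) d := fam_one.sub ((fam_D.mul fam_B).mul fam_D)

lemma g1_g0 {c : ℝ} (n : ℕ) (W : Mx n) (d : V n) (h : G1 c n W d) : G0 n W d := ⟨h.1, h.2.1⟩

lemma fam_G {c : ℝ} (hc : 0 < c) : Fam (G1 c) fun _ W d => GG (B0 W 1 d) d :=
  ((fam_D.mono g1_g0).mul ((fam_N.mono g1_g0).inv hc fun _ _ _ h => h.2.2)).mul (fam_D.mono g1_g0)

lemma fam_R {c : ℝ} (hc : 0 < c) : Fam (G1 c) fun _ W d => RR (B0 W 1 d) d :=
  fam_one.add ((fam_B.mono g1_g0).mul (fam_G hc))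

/-- first and second differences of a vector function -/
def Dif (Gd : ∀ n, Mx n → V n → Prop) (Φ : ∀ n, Mx n → V n → V n) : Prop :=
  ∃ K : ℝ, 0 ≤ K ∧ ∀ (n : ℕ) (W W' : Mx n),
    (∀ d, Gd n W d → Gd n W' d → nrm (Φ n W d - Φ n W' d) ≤ K * fro (W - W')) ∧
    ∀ (d d' : V n) (ε : ℝ), 0 ≤ ε → Gd n W d → Gd n W d' → Gd n W' d → Gd n W' d' →
      (∀ i, |d i - d' i| ≤ ε) →
      nrm (Φ n W d - Φ n W d' - (Φ n W' d - Φ n W' d')) ≤ K * ε * fro (W - W')

lemma Fam.dif {Gd : ∀ n, Mx n → V n → Prop} {F : ∀ n, Mx n → V n → Mx n} (h : Fam Gd F) :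
    Dif Gd fun n W d => (F n W d).diag := by
  obtain ⟨K, h⟩ := h
  refine ⟨max K 0, le_max_right _ _, fun n W W' => ⟨fun d h1 h2 => ?_,
    fun d d' ε hε h1 h2 h3 h4 hd => ?_⟩⟩
  · have q := h n (fun a => if a then W else W') (fun _ => d) 0 le_rfl
      (fun a b => by cases a <;> simpa) (by simp)
    have := q.dw true
    simp only [if_true, Bool.false_eq_true, if_false] at this
    rw [← diag_sub]
    exact (nrm_diag_le _).trans (this.trans
      (mul_le_mul_of_nonneg_right (le_max_left _ _) (fro_nonneg _)))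
  · have q := h n (fun a => if a then W else W') (fun b => if b then d else d') ε hε
      (fun a b => by cases a <;> cases b <;> simpa) (by simpa using hd)
    have := q.d2
    simp only [if_true, Bool.false_eq_true, if_false] at this
    rw [← diag_sub, ← diag_sub, ← diag_sub]
    exact (nrm_diag_le _).trans (this.trans (mul_le_mul_of_nonneg_right
      (mul_le_mul_of_nonneg_right (le_max_left _ _) hε) (fro_nonneg _)))

/-- the two error vectors -/
def e1 (n : ℕ) (W : Mx n) (d : V n) : V n := err (B0 W 1 d) d 1 1 1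
def e2 (n : ℕ) (W : Mx n) (d : V n) : V n := err (B0 W 1 d) d 1 W (2 * avg fun i => d i ^ 2)

lemma err_eq (B S : Mx n) (d : V n) (k : ℝ) : err B d 1 S k =
    (k • (1 : Mx n) + nt (GG B d * S * GG B d) - RR B d * S * (RR B d)ᵀ).diag := by
  funext i
  simp only [err, nt, diag_apply, Matrix.sub_apply, Matrix.add_apply, Matrix.smul_apply,
    one_apply_eq, smul_eq_mul, mul_one]
  ring

lemma dif_e1 {c : ℝ} (hc : 0 < c) : Dif (G1 c) e1 := by
  have := ((fam_one.add (((fam_G hc).mul fam_one).mul (fam_G hc)).nt).sub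
    (((fam_R hc).mul fam_one).mul (fam_R hc).tr)).dif
  have e : e1 = fun n W d => (1 + nt (GG (B0 W 1 d) d * 1 * GG (B0 W 1 d) d) -
      RR (B0 W 1 d) d * 1 * (RR (B0 W 1 d) d)ᵀ).diag := by
    funext n W d
    rw [e1, err_eq, one_smul]
  rw [e]
  exact this

lemma dif_e2 {c : ℝ} (hc : 0 < c) : Dif (G1 c) e2 := by
  have hD : Fam (G1 c) fun _ _ d => nt (diagonal d * diagonal d) :=
    ((fam_D.mul fam_D).nt).mono g1_g0
  have := (((hD.add hD).add (((fam_G hc).mul (fam_W.mono g1_g0)).mul (fam_G hc)).nt).sub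
    (((fam_R hc).mul (fam_W.mono g1_g0)).mul (fam_R hc).tr)).dif
  have e : e2 = fun n W d => (nt (diagonal d * diagonal d) + nt (diagonal d * diagonal d) +
      nt (GG (B0 W 1 d) d * W * GG (B0 W 1 d) d) -
      RR (B0 W 1 d) d * W * (RR (B0 W 1 d) d)ᵀ).diag := by
    funext n W d
    rw [e2, err_eq, nt_DD, two_mul, add_smul]
  rw [e]
  exact this

/-- positivity is stable under small changes of the diagonal -/
lemma g1_stable {c : ℝ} (hc : 0 < c) : ∃ k0 : ℕ, ∀ (n : ℕ) (W : Mx n) (d d' : V n),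
    G1 c n W d → Ub d' → (∀ i, |d i - d' i| ≤ (1 / 2) ^ k0) → G1 (c / 2) n W d' := by
  obtain ⟨K, h⟩ := fam_N
  obtain ⟨k0, hk⟩ := exists_pow_lt_of_lt_one (show 0 < c / 2 / (|K| + 1) by positivity)
    (show (1 / 2 : ℝ) < 1 by norm_num)
  refine ⟨k0, fun n W d d' hg hd' hdd => ⟨hg.1, hd', ?_⟩⟩
  have q := h n (fun _ => W) (fun b => if b then d else d') ((1 / 2) ^ k0) (by positivity)
    (fun a b => by cases b; exacts [⟨hg.1, hd'⟩, ⟨hg.1, hg.2.1⟩]) (by simpa using hdd)
  have h1 := q.dd true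
  simp only [if_true, Bool.false_eq_true, if_false] at h1
  refine Pos.mono (Pos.pert hg.2.2 h1) ?_
  rw [lt_div_iff₀ (by positivity)] at hk
  have h2 : K * (1 / 2) ^ k0 ≤ (|K| + 1) * (1 / 2) ^ k0 :=
    mul_le_mul_of_nonneg_right (by linarith [le_abs_self K]) (by positivity)
  linarith

/-! ### reduction to `θ = 1` -/

/-- uniform freeness at `θ = 1` -/
def UF1 (W : Mx n) (c K : ℝ) : Prop :=
  ∀ d : V n, Ub d → avg (fun i => d i ^ 2) ≤ 1 - c → Pos c (NN (B0 W 1 d) d) →
    nrm (e1 n W d) ≤ K ∧ nrm (e2 n W d) ≤ K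

lemma avg_sq_le {d : V n} (hd : Ub d) : 0 ≤ avg (fun i => d i ^ 2) ∧ avg (fun i => d i ^ 2) ≤ 1 := by
  unfold avg
  refine ⟨by positivity, div_le_one_of_le₀ ?_ (Nat.cast_nonneg n)⟩
  have := Finset.sum_le_card_nsmul Finset.univ (fun i => d i ^ 2) 1
    (fun i _ => pow_le_one₀ (hd i).1 (hd i).2)
  simpa using this

theorem uf_of_uf1 {W : Mx n} {β c K : ℝ} (hβ : β ≤ 1) (hc : 0 < c) (h : UF1 W (c / 2) K) :
    UF W β c K := by
  intro θ hθ d hd ha hp
  have hθ1 : θ ≤ 1 := hθ.2.trans hβ
  obtain ⟨r, hr0, rfl⟩ : ∃ r : ℝ, 0 ≤ r ∧ θ = r ^ 2 := ⟨√θ, Real.sqrt_nonneg _, (Real.sq_sqrt hθ.1).symm⟩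
  have hr1 : r ≤ 1 := by nlinarith
  obtain ⟨ha0, ha1⟩ := avg_sq_le hd
  have hav : avg (fun i => (r • d) i ^ 2) = r ^ 2 * avg fun i => d i ^ 2 := by
    unfold avg
    simp only [Pi.smul_apply, smul_eq_mul, mul_pow]
    rw [← Finset.mul_sum, mul_div_assoc]
  have hD : diagonal (r • d) = r • diagonal d := diagonal_smul r d
  have hB : B0 (r ^ 2 • W) ((r ^ 2) ^ 2) d = r ^ 2 • B0 W 1 (r • d) := by
    unfold B0
    rw [hav, smul_sub, smul_smul]
    congr 2
    ring
  have hN : NN (r ^ 2 • B0 W 1 (r • d)) d = NN (B0 W 1 (r • d)) (r • d) := by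
    unfold NN
    rw [hD]
    simp only [Matrix.smul_mul, Matrix.mul_smul, smul_smul, sq]
  have hG : GG (B0 W 1 (r • d)) (r • d) = r ^ 2 • GG (r ^ 2 • B0 W 1 (r • d)) d := by
    unfold GG
    rw [hN, hD]
    simp only [Matrix.smul_mul, Matrix.mul_smul, smul_smul, sq]
  have hR : RR (B0 W 1 (r • d)) (r • d) = RR (r ^ 2 • B0 W 1 (r • d)) d := by
    unfold RR
    rw [hG]
    simp only [Matrix.smul_mul, Matrix.mul_smul]
  have hE : ∀ (S : Mx n) (k : ℝ), err (r ^ 2 • B0 W 1 (r • d)) d ((r ^ 2) ^ 2) S k =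
      err (B0 W 1 (r • d)) (r • d) 1 S k := by
    intro S k
    funext i
    unfold err
    rw [hG, hR]
    simp only [Matrix.smul_mul, Matrix.mul_smul, smul_smul, trace_smul, smul_eq_mul]
    ring
  rw [hB] at hp ⊢
  rw [hN] at hp
  have hc1 : c ≤ 1 := by nlinarith [mul_nonneg (sq_nonneg (r ^ 2)) ha0]
  have h1 := h (r • d) (fun i => ⟨mul_nonneg hr0 (hd i).1, mul_le_one₀ hr1 (hd i).1 (hd i).2⟩)
    (by
      rw [hav]
      refine abs_le_of_sq_le_sq' ?_ (by linarith) |>.2
      have h2 : (r ^ 2 * avg fun i => d i ^ 2) ^ 2 ≤ 1 - c := by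
        have := mul_le_mul ha ha1 ha0 (by linarith)
        nlinarith
      nlinarith [sq_nonneg c])
    (Pos.mono hp (by linarith))
  rw [hE, hE]
  have e : 2 * r ^ 2 * avg (fun i => d i ^ 2) = 2 * avg fun i => (r • d) i ^ 2 := by
    rw [hav, mul_assoc]
  rw [e]
  exact h1

end Uf14

end Crest.Agent.T157.Tap
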