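import Crest.Agent.T157.LpSmA_61
import Crest.Agent.T157.LpSmB_61
import Crest.Agent.T157.TapUfD_14

/-!
# Row 157, part A (helper61): approximate solutions carry volume, `Lp.SmearStmt`
-/

set_option autoImplicit false

noncomputable section

namespace Crest.Agent.T157.Lp

open MeasureTheory ProbabilityTheory Matrix Filter Set
open Crest.Agent.T157.E Crest.Agent.T157.Eig Crest.Agent.T157.Cond Crest.Agent.T157.Tap
open Crest.Agent.T157.Kr (phi)

namespace Sm61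

variable {n : ℕ}

lemma D_mul_R {B : Mx n} {p : V n} (hp : Cb p) (hu : IsUnit (NN B (dd p)).det) :
    diagonal (DD p) * RR B (dd p) = GG B (dd p) := by
  have e : diagonal (DD p) = diagonal (dd p) * diagonal (dd p) := by
    rw [Matrix.diagonal_mul_diagonal]
    congr 1
    funext i
    rw [← Cell.dd_sq hp, sq]
  have h1 : diagonal (dd p) * B * diagonal (dd p) = 1 - NN B (dd p) := by rw [NN, sub_sub_cancel]
  have h2 : diagonal (dd p) * diagonal (dd p) * (B * GG B (dd p)) =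
      diagonal (dd p) * ((diagonal (dd p) * B * diagonal (dd p)) * (NN B (dd p))⁻¹) *
        diagonal (dd p) := by
    rw [GG]; simp only [Matrix.mul_assoc]
  rw [e, RR, Matrix.mul_add, h2, h1, Matrix.sub_mul, mul_nonsing_inv _ hu, Matrix.mul_sub,
    Matrix.sub_mul, GG]
  simp

lemma det_R {B : Mx n} {p : V n} (hp : Cb p) (hu : IsUnit (NN B (dd p)).det) :
    (NN B (dd p)).det * (RR B (dd p)).det = 1 := by
  rw [← Cell.det_jac B hp, ← det_mul, Matrix.sub_mul, Matrix.mul_assoc, D_mul_R hp hu, RR]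
  simp

lemma opn_G {B : Mx n} {p : V n} {c : ℝ} (hc : 0 < c) (h : Pos c (NN B (dd p))) :
    opn (GG B (dd p)) ≤ 1 / c := by
  have hd : opn (diagonal (dd p)) ≤ 1 := opn_diagonal_le zero_le_one fun i => by
    rw [dd, abs_of_nonneg (Real.sqrt_nonneg _)]
    exact Real.sqrt_le_one.2 (by nlinarith [sq_nonneg (p i)])
  simpa [GG] using Uf14.opn_mul_le' (Uf14.opn_mul_le' hd (Uf14.Pos.opn_inv hc h)) hd

lemma opn_pen {r : ℕ} {L : ℝ} (hL : 0 ≤ L) {u : Fin r → V n} (hu : ∀ j, u j ⬝ᵥ u j ≤ 1) :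
    opn (L • ∑ j, vecMulVec (u j) (u j)) ≤ L * r := by
  rw [opn_smul, abs_of_nonneg hL]
  refine mul_le_mul_of_nonneg_left ((opn_sum_le _ _).trans ?_) hL
  refine (Finset.sum_le_sum fun j _ => (opn_vecMulVec_le (u j) (u j)).trans
    ((nrm_mul_self _).le.trans (hu j))).trans ?_
  simp

lemma opn_B1 (hn : 0 < n) {J : Mx n} (hJ : opn J ≤ 3) {b : ℝ} (hb0 : 0 ≤ b) (hb : b ≤ 1) (x : V n) :
    opn (B1 J b (th x)) ≤ 6 := by
  have hn' : (0 : ℝ) < n := by exact_mod_cast hn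
  have he := e_mem hn x
  have hd : (fun i => dd (th x) i ^ 2) = DD (th x) := funext (Cell.dd_sq (Cell.abs_th_le x))
  have h1 : opn ((b * avg (DD (th x))) • (1 : Mx n)) ≤ 1 := by
    rw [opn_smul, abs_of_nonneg (mul_nonneg hb0 he.1)]
    exact mul_le_one₀ (mul_le_one₀ hb he.1 he.2) (opn_nonneg _) opn_one_le
  have h2 : opn ((2 * b / n) • vecMulVec (th x) (th x)) ≤ 2 := by
    rw [opn_smul, abs_of_nonneg (by positivity)]
    have h3 : opn (vecMulVec (th x) (th x)) ≤ n := (opn_vecMulVec_le _ _).trans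
      ((mul_le_mul (nrm_th x) (nrm_th x) (nrm_nonneg _) (Real.sqrt_nonneg _)).trans (NN_eq n).le)
    calc _ ≤ (2 : ℝ) * 1 / n * n :=
          mul_le_mul (by gcongr) h3 (opn_nonneg _) (by positivity)
      _ = 2 := by field_simp
  rw [B1, B0, hd]
  linarith [opn_add_le (J - (b * avg (DD (th x))) • (1 : Mx n))
    ((2 * b / n) • vecMulVec (th x) (th x)), opn_sub_le J ((b * avg (DD (th x))) • (1 : Mx n))]

lemma xi_eq (J E : Mx n) (b s : ℝ) (x g : V n) :
    x + (s • RR (B1 J b (th x) - E) (dd (th x))) *ᵥ g - x =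
      s • g + J *ᵥ (s • GG (B1 J b (th x) - E) (dd (th x)) *ᵥ g) -
        (b * avg (DD (th x))) • (s • GG (B1 J b (th x) - E) (dd (th x)) *ᵥ g) +
        (2 * b / n * (th x ⬝ᵥ (s • GG (B1 J b (th x) - E) (dd (th x)) *ᵥ g))) • th x -
        E *ᵥ (s • GG (B1 J b (th x) - E) (dd (th x)) *ᵥ g) := by
  have hd : (fun i => dd (th x) i ^ 2) = DD (th x) := funext (Cell.dd_sq (Cell.abs_th_le x))
  rw [add_sub_cancel_left, RR, smul_mulVec, add_mulVec, one_mulVec, ← mulVec_mulVec, smul_add,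
    ← mulVec_smul]
  generalize s • GG (B1 J b (th x) - E) (dd (th x)) *ᵥ g = u
  rw [B1, B0, hd, sub_mulVec, add_mulVec, sub_mulVec, smul_mulVec, smul_mulVec, one_mulVec,
    vmv_mulVec, smul_smul]
  abel

lemma nrm_pen {r : ℕ} {L t : ℝ} (hL : 0 ≤ L) {u : Fin r → V n} (hu : ∀ j, u j ⬝ᵥ u j ≤ 1)
    {z : V n} (hz : ∀ j, |u j ⬝ᵥ z| ≤ t) :
    nrm ((L • ∑ j, vecMulVec (u j) (u j)) *ᵥ z) ≤ L * (r * t) := by
  rw [smul_mulVec, nrm_smul, abs_of_nonneg hL, sum_mulVec]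
  refine mul_le_mul_of_nonneg_left ?_ hL
  have h1 : ∀ S : Finset (Fin r), nrm (∑ j ∈ S, vecMulVec (u j) (u j) *ᵥ z) ≤ S.card * t := by
    intro S
    induction S using Finset.induction_on with
    | empty => simp
    | insert j S hj ih =>
      rw [Finset.sum_insert hj, Finset.card_insert_of_notMem hj]
      refine (nrm_add_le _ _).trans ?_
      have h2 : nrm (u j) ≤ 1 := (nrm_le_iff zero_le_one).2 (by simpa using hu j)
      rw [vmv_mulVec, nrm_smul]
      have := (mul_le_of_le_one_right (abs_nonneg (u j ⬝ᵥ z)) h2).trans (hz j)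
      push_cast
      linarith
  simpa using h1 Finset.univ

lemma abs_dot_smul {s t : ℝ} (hs : 0 ≤ s) (hs1 : s ≤ 1) {a z : V n} (h : |a ⬝ᵥ z| ≤ t) :
    |a ⬝ᵥ s • z| ≤ t := by
  rw [dotProduct_smul, smul_eq_mul, abs_mul, abs_of_nonneg hs]
  exact (mul_le_of_le_one_left (abs_nonneg _) hs1).trans h

lemma abs_smul_dot {s t : ℝ} (hs : 0 ≤ s) (hs1 : s ≤ 1) {a z : V n} (h : |a ⬝ᵥ z| ≤ t) :
    |s • a ⬝ᵥ z| ≤ t := by
  rw [dotProduct_comm] at h ⊢
  exact abs_dot_smul hs hs1 h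

lemma kid {c s θ β K4 : ℝ} (hc : 1 ≤ c) (P : Pm n (40 * c ^ 2) s θ β) {R G : Mx n} {x p0 g : V n}
    (hR : opn R ≤ c) (hG : opn G ≤ c) (hD : diagonal (DD (th x)) * R = G) (hg : g ∈ A1 c R)
    (h1 : |th x ⬝ᵥ G *ᵥ g| ≤ θ * n) (h2 : |(th x - p0) ⬝ᵥ G *ᵥ g| ≤ θ * n)
    (h3 : K4 * s ^ 2 * n ≤ (th x - p0) ⬝ᵥ (th x - p0)) (h4 : 16 * (40 * c ^ 2) ^ 2 ≤ K4) :
    Kid (40 * c ^ 2) s θ p0 x (x + (s • R) *ᵥ g) (s • G *ᵥ g) := by
  have hN := P.N0
  have hn := P.n0'
  have hs := P.s0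
  have key : ∀ M : Mx n, opn M ≤ c → nrm (s • M *ᵥ g) ≤ 40 * c ^ 2 * s * √n := fun M hM => by
    rw [nrm_smul, abs_of_pos hs]
    calc s * nrm (M *ᵥ g) ≤ s * (c * (5 * √n)) := mul_le_mul_of_nonneg_left
          ((nrm_mulVec_le _ _).trans (mul_le_mul hM hg.1 (nrm_nonneg _) (by linarith))) hs.le
      _ = 5 * c * (s * √n) := by ring
      _ ≤ 40 * c ^ 2 * (s * √n) := mul_le_mul_of_nonneg_right (by nlinarith) (by positivity)
      _ = _ := by ring
  refine ⟨by rw [add_sub_cancel_left, smul_mulVec]; exact key R hR, key G hG, ?_,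
    abs_dot_smul hs.le P.s1 h1, abs_dot_smul hs.le P.s1 h2, ?_⟩
  · rw [nrm_le_iff (by positivity)]
    calc _ ≤ ∑ i, 4 * s ^ 4 * (R *ᵥ g) i ^ 4 := Finset.sum_le_sum fun i _ => by
          have h5 := tanh_taylor (x i) (s * (R *ᵥ g) i)
          have e : (th (x + (s • R) *ᵥ g) - th x - s • G *ᵥ g) i =
              Real.tanh (x i + s * (R *ᵥ g) i) - Real.tanh (x i) -
                (1 - Real.tanh (x i) ^ 2) * (s * (R *ᵥ g) i) := by
            rw [← hD, ← mulVec_mulVec, smul_mulVec]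
            simp only [th, Pi.sub_apply, Pi.add_apply, Pi.smul_apply, smul_eq_mul,
              mulVec_diagonal, DD]
            ring
          rw [← sq, ← sq_abs, e]
          refine (pow_le_pow_left₀ (abs_nonneg _) h5 2).trans (le_of_eq (by ring))
      _ = 4 * s ^ 4 * ∑ i, (R *ᵥ g) i ^ 4 := by rw [Finset.mul_sum]
      _ ≤ 4 * s ^ 4 * (400 * c ^ 4 * n) := mul_le_mul_of_nonneg_left hg.2 (by positivity)
      _ = _ := by rw [mul_pow, Real.sq_sqrt hn.le]; ring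
  · refine Real.le_sqrt_of_sq_le (le_trans ?_ h3)
    rw [mul_pow, Real.sq_sqrt hn.le]
    have := mul_le_mul_of_nonneg_right h4 (show 0 ≤ s ^ 2 * n by positivity)
    linarith

end Sm61

open Sm61

/-- approximate solutions carry volume -/
theorem smearStmt : SmearStmt := by
  intro c1 hc1 L hL r β hβ
  obtain ⟨hβ0, hβ1⟩ := hβ
  have hLr : 0 ≤ L * r := by positivity
  set c : ℝ := 1 + (7 + L * r) / c1 with hcdef
  have hc : 1 ≤ c := le_add_of_nonneg_right (by positivity)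
  set K : ℝ := 40 * c ^ 2 with hKdef
  have hK : 1 ≤ K := by nlinarith
  refine ⟨2 * (23 * K ^ 2) ^ 2 + 18 / β ^ 2, 250 * K ^ 4 / β, by positivity,
    fun k1 hk1 t ht K3 hK3 => ⟨16 * K ^ 2 + 4 * K3 + 8 * (5 * t + 33 / β) * K ^ 2 / (t * β ^ 2),
      by positivity, min 1 (k1 / (10 * K ^ 2)), by positivity, ?_⟩⟩
  intro τ hτ k η δ ε hη hητ hδ hε
  obtain ⟨s, hs, rfl⟩ : ∃ s : ℝ, 0 < s ∧ τ = s ^ 2 :=
    ⟨√τ, Real.sqrt_pos.2 hτ.1, (Real.sq_sqrt hτ.1.le).symm⟩
  have hs1 : s ≤ 1 := by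
    have := hτ.2.trans (min_le_left _ _)
    nlinarith
  have hsk : 10 * K ^ 2 * s ^ 2 ≤ k1 := by
    have := hτ.2.trans (min_le_right _ _)
    rw [le_div_iff₀ (by positivity)] at this
    linarith
  have hηs : η ≤ s := abs_le_of_sq_le_sq' hητ hs.le |>.2
  set θ : ℝ := min (s ^ 2 / (1 + L * r)) (δ / 5) with hθdef
  have hθ : 0 < θ := by positivity
  have hθ1 : θ * (1 + L * r) ≤ s ^ 2 := by
    rw [← le_div_iff₀ (by positivity)]; exact min_le_left _ _
  have hθδ : 5 * θ ≤ δ := by have := min_le_right (s ^ 2 / (1 + L * r)) (δ / 5); linarith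
  rw [Real.sqrt_sq hs.le]
  filter_upwards [Gd_ge k (k * (r + 4)) hc hθ hs, eventually_gt_atTop 0] with n hGd hn
  intro J cc p0 x _ hJ hp H1 H2 H3
  have P : Pm n K s θ β := ⟨hn, hK, hs, hs1, hθ.le, by nlinarith, hβ0, hβ1⟩
  have hN := P.N0
  have hn' := P.n0'
  choose E hE hPos hdet using H1
  choose uu huu hEu using hE
  set R : Fin k → Mx n := fun a => RR (B1 J (β ^ 2) (th (x a)) - E a) (dd (th (x a))) with hRdef
  set G : Fin k → Mx n := fun a => GG (B1 J (β ^ 2) (th (x a)) - E a) (dd (th (x a))) with hGdef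
  have hu : ∀ a, IsUnit (NN (B1 J (β ^ 2) (th (x a)) - E a) (dd (th (x a)))).det := fun a =>
    Uf14.Pos.unit hc1 (hPos a)
  have hG1 : ∀ a, opn (G a) ≤ 1 / c1 := fun a => opn_G hc1 (hPos a)
  have hG : ∀ a, opn (G a) ≤ c := fun a => (hG1 a).trans (by
    have : 1 / c1 ≤ (7 + L * r) / c1 := by gcongr; linarith
    linarith)
  have hR : ∀ a, opn (R a) ≤ c := fun a => by
    have h1 : opn (B1 J (β ^ 2) (th (x a)) - E a) ≤ 7 + L * r := by
      have h2 := opn_B1 hn hJ (sq_nonneg β) (pow_le_one₀ hβ0.le hβ1) (x a)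
      have h3 : opn (E a) ≤ L * r := by rw [hEu a]; exact opn_pen hL (huu a)
      linarith [opn_sub_le (B1 J (β ^ 2) (th (x a))) (E a)]
    have h4 := Uf14.opn_mul_le' h1 (hG1 a)
    rw [mul_one_div] at h4
    exact (opn_add_le _ _).trans (add_le_add opn_one_le h4)
  let w : Fin k × (Fin r ⊕ Fin 4) → V n := fun q => Sum.elim (fun j => √n • uu q.1 j)
    ![th (x q.1), th (x q.1) - p0, Xc (β ^ 2) cc (x q.1),
      rv (β ^ 2) (avg (DD (th (x q.1)))) (gam (β ^ 2) (s ^ 2) p0 (x q.1)) cc p0] q.2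
  have hY1 : ∀ a, nrm (Xc (β ^ 2) cc (x a) - J *ᵥ (th (x a) - p0)) ≤ s * √n := fun a =>
    (H2 a).1.trans (mul_le_mul_of_nonneg_right hηs hN.le)
  have hw : ∀ q, nrm (w q) ≤ 7 * √n := by
    rintro ⟨a, j | j⟩
    · have h2 : nrm (uu a j) ≤ 1 := (nrm_le_iff zero_le_one).2 (by simpa using huu a j)
      show nrm (√n • uu a j) ≤ _
      rw [nrm_smul, abs_of_pos hN]
      nlinarith
    · fin_cases j
      · exact (nrm_th (x a)).trans (by linarith)
      · exact (nrm_v (x a) hp).trans (by linarith)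
      · show nrm (Xc (β ^ 2) cc (x a)) ≤ _
        have h1 := nrm_add_le (Xc (β ^ 2) cc (x a) - J *ᵥ (th (x a) - p0)) (J *ᵥ (th (x a) - p0))
        rw [sub_add_cancel] at h1
        have h2 : nrm (J *ᵥ (th (x a) - p0)) ≤ 3 * (2 * √n) :=
          (nrm_mulVec_le _ _).trans (mul_le_mul hJ (nrm_v _ hp) (nrm_nonneg _) (by norm_num))
        nlinarith [hY1 a]
      · exact (nrm_rv _ _ _ cc hp).trans (by linarith)
  have hprob := hGd (Fin k × (Fin r ⊕ Fin 4)) (by simp) R G w hR hG hw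
  have hdetM : ∀ a, (s • R a).det⁻¹ =
      s⁻¹ ^ n * (NN (B1 J (β ^ 2) (th (x a)) - E a) (dd (th (x a)))).det := fun a => by
    rw [det_smul, Fintype.card_fin, mul_inv, inv_pow,
      ← eq_inv_of_mul_eq_one_left (det_R (Cell.abs_th_le (x a)) (hu a))]
  have hvol := vol_ge (fun a => s • R a) (fun a h => by
      have h1 := hdetM a
      rw [h, _root_.inv_zero] at h1
      exact (mul_ne_zero (by positivity) (hu a).ne_zero) h1.symm) x
    (fun _ y => jac (β ^ 2) y * phi (s ^ 2) (Xc (β ^ 2) cc y - J *ᵥ (th y - p0)))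
    (fun _ => by
      refine Continuous.measurable ?_
      unfold jac Xc phi
      fun_prop)
    (κ := Real.exp (-(n * (248 * K ^ 4 * (η / s + s) + ε)))) (Real.exp_pos _).le
    (Tup k (β ^ 2) (s ^ 2) (2 * (23 * K ^ 2) ^ 2 + 18 / β ^ 2) k1 K3 t
      (2 * δ / s ^ 2 + 250 * K ^ 4 / β * s) cc p0) (Gd c θ R G w) (by
      rintro g ⟨g1, g2, g3⟩
      have hpos : 0 ≤ 8 * (5 * t + 33 / β) * K ^ 2 / (t * β ^ 2) := by positivity
      have hkid : ∀ a, Kid K s θ p0 (x a) (x a + (s • R a) *ᵥ g a) (s • G a *ᵥ g a) := fun a =>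
        kid hc P (hR a) (hG a) (D_mul_R (Cell.abs_th_le (x a)) (hu a)) (g1 a)
          (g2 a (a, Sum.inr 0)).1 (g2 a (a, Sum.inr 1)).1 (H2 a).2.2.1 (by linarith)
      have hdel : ∀ a, nrm (Xc (β ^ 2) cc (x a + (s • R a) *ᵥ g a) -
          J *ᵥ (th (x a + (s • R a) *ᵥ g a) - p0) - s • g a) ≤
          (η + 17 * K ^ 2 * s ^ 2) * √n := fun a => by
        refine (hkid a).delta P hJ (H2 a).1 ?_ (xi_eq J (E a) (β ^ 2) s (x a) (g a))
        have h1 : ∀ j, |uu a j ⬝ᵥ G a *ᵥ g a| ≤ θ * √n := fun j => by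
          have h2 : |(√n • uu a j) ⬝ᵥ G a *ᵥ g a| ≤ θ * n := (g2 a (a, Sum.inl j)).1
          rw [smul_dotProduct, smul_eq_mul, abs_mul, abs_of_pos hN, ← NN_eq n, ← mul_assoc,
            mul_comm] at h2
          rw [NN_eq] at h2
          exact le_of_mul_le_mul_right h2 hN
        have h3 := nrm_pen hL (huu a) fun j => abs_dot_smul hs.le hs1 (h1 j)
        rw [← hEu a] at h3
        refine h3.trans ?_
        nlinarith [mul_le_mul_of_nonneg_right hθ1 hN.le, mul_pos hθ hN]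
      refine ⟨⟨fun a => ?_, fun a b hab => ?_⟩, fun a => ?_⟩
      · refine (hkid a).child P hp hJ ht ?_ (H2 a).2.1 hsk (H2 a).2.2.1 (by nlinarith)
          (by nlinarith) (H2 a).2.2.2 (abs_dot_smul hs.le hs1 (g2 a (a, Sum.inr 3)).1)
        have h1 := nrm_add_le (Xc (β ^ 2) cc (x a + (s • R a) *ᵥ g a) -
          J *ᵥ (th (x a + (s • R a) *ᵥ g a) - p0) - s • g a) (s • g a)
        rw [sub_add_cancel, nrm_smul, abs_of_pos hs] at h1
        have h2 := mul_le_mul_of_nonneg_left (g1 a).1 hs.le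
        have h3 : η + 17 * K ^ 2 * s ^ 2 + 5 * s ≤ 23 * K ^ 2 * s := by
          have h4 : 1 ≤ K ^ 2 := by nlinarith
          have h5 : K ^ 2 * s ^ 2 ≤ K ^ 2 * s := by gcongr; nlinarith
          nlinarith
        have h6 := mul_le_mul_of_nonneg_right h3 hN.le
        linarith [hdel a]
      · have hC : 23 * K ^ 2 / β ≤ 250 * K ^ 4 / β := by
          gcongr ?_ / β
          nlinarith [show 1 ≤ K ^ 2 by nlinarith]
        refine (hkid a).orth (hkid b) P hJ (hY1 a) hθδ hC (H3 a b hab).1 (H3 a b hab).2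
          (abs_dot_smul hs.le hs1 (g2 b (a, Sum.inr 1)).1)
          (abs_dot_smul hs.le hs1 (g2 a (b, Sum.inr 1)).1)
          (abs_smul_dot hs.le hs1 (abs_dot_smul hs.le hs1 (g3 a b hab.ne).1))
          (abs_dot_smul hs.le hs1 (g2 b (a, Sum.inr 2)).1) ?_ ?_
        · rw [add_sub_cancel_left, smul_mulVec]
          exact abs_dot_smul hs.le hs1 (g2 a (b, Sum.inr 1)).2
        · rw [add_sub_cancel_left, smul_mulVec]
          exact abs_smul_dot hs.le hs1 (abs_dot_smul hs.le hs1 (g3 a b hab.ne).2)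
      · have h1 := (hkid a).dens P hη hηs (g1 a).1 (hdel a) (hdet a)
        rwa [hdetM, abs_mul, abs_of_pos (show 0 < s⁻¹ ^ n by positivity)])
  refine le_trans ?_ ((mul_le_mul_right hprob _).trans hvol)
  rw [← ENNReal.ofReal_mul (by positivity), ← Real.exp_nat_mul, ← Real.exp_add]
  refine ENNReal.ofReal_le_ofReal (Real.exp_le_exp.2 ?_)
  have h1 : 248 * K ^ 4 * (η / s + s) + s ≤ 250 * K ^ 4 / β * (η / s + s) := by
    have h2 : 1 ≤ K ^ 4 := one_le_pow₀ hK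
    have h3 : 250 * K ^ 4 ≤ 250 * K ^ 4 / β := by
      rw [le_div_iff₀ hβ0]; exact mul_le_of_le_one_right (by positivity) hβ1
    have h4 : 0 ≤ η / s := by positivity
    have h5 := mul_le_mul_of_nonneg_right h3 (show 0 ≤ η / s + s by positivity)
    nlinarith
  have := mul_le_mul_of_nonneg_left h1 (show 0 ≤ (k : ℝ) * n by positivity)
  linarith

end Crest.Agent.T157.Lp

end
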