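import Crest.Agent.T157.LpG1_17

/-!
# Row 157, part A: `Lp.StartStmt` (helper22)
-/

set_option autoImplicit false

noncomputable section

namespace Crest.Agent.T157.Lp

open MeasureTheory ProbabilityTheory Matrix Filter Set
open Crest.ProbabilityR.SpinGlassDynamics
open Crest.Agent.T157.E Crest.Agent.T157.Eig Crest.Agent.T157.Tap Crest.Agent.T157.Tap.Froz10
open G1

namespace Start22

variable {n : ℕ} {J : Mx n} {b : ℝ} {v : Cube n → ℝ}

/-- the TAP value at a point of small magnetisation -/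
theorem le_Phi (hn : 0 < n) (hJ : opn J ≤ 3) (hb : b ∈ Icc (0 : ℝ) 1) {k1 : ℝ} (y x : V n)
    (h : 1 - k1 < avg (DD (th x))) :
    n * (Real.log 2 + b / 4) - 3 * k1 * n - nrm y * Real.sqrt n ≤ Phi J b y x := by
  have hn' : (0 : ℝ) < n := by positivity
  have hp : th x ⬝ᵥ th x ≤ k1 * n := by
    rw [avg_DD_eq hn] at h
    have : th x ⬝ᵥ th x / n ≤ k1 := by linarith
    rwa [div_le_iff₀ hn'] at this
  have h0 : 0 ≤ th x ⬝ᵥ th x := SL.dot_self_nonneg _
  have h1 : |th x ⬝ᵥ J *ᵥ th x| ≤ 3 * (th x ⬝ᵥ th x) :=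
    (abs_quad_le J _).trans (mul_le_mul_of_nonneg_right hJ h0)
  have h2 := abs_dot_cb y (cb_th x)
  have h3 : n * Real.log 2 - th x ⬝ᵥ th x ≤ ∑ i, hb2 (x i) := by
    have : ∑ i, (Real.log 2 - Real.tanh (x i) ^ 2) ≤ ∑ i, hb2 (x i) :=
      Finset.sum_le_sum fun i _ => le_hb2 _
    simpa [Finset.sum_sub_distrib, dotProduct, th, sq] using this
  have hk : 0 ≤ k1 * n := h0.trans hp
  have h4 : 1 - 2 * k1 ≤ avg (DD (th x)) ^ 2 := by nlinarith [sq_nonneg (avg (DD (th x)) - 1)]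
  have h5 : n * b * (1 - 2 * k1) ≤ n * b * avg (DD (th x)) ^ 2 :=
    mul_le_mul_of_nonneg_left h4 (mul_nonneg hn'.le hb.1)
  have h6 : b * (k1 * n) ≤ k1 * n := mul_le_of_le_one_left hk hb.2
  rw [Phi]
  linarith [(abs_le.1 h1).1, (abs_le.1 h2).1]

theorem Xi_le (hn : 0 < n) (hJ : opn J ≤ 3) (hb : b ∈ Icc (0 : ℝ) 1) {k1 η a : ℝ} (hk : 0 < k1)
    (hη : 0 < η) (ha : 0 < a) (hZ : ZP J b k1 η) (hv : SL.Wt v) (y : V n) :
    Xi J b v y ≤ (Real.log (Zw v) - n * (Real.log 2 + b / 4) + 3 * k1 * n + a * n) +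
      (576 / η ^ 2 * Dv J b v y + (16 / η ^ 2 + 1 / a) * (y ⬝ᵥ y)) := by
  have hn' : (0 : ℝ) < n := by positivity
  have hs : 0 < Real.sqrt n := Real.sqrt_pos.2 hn'
  have hZw := log_Zw_tilt_le hv y
  have hy0 := nrm_nonneg y
  have hyy : nrm y ^ 2 = y ⬝ᵥ y := nrm_sq y
  have hD := Dv_nonneg J b v y
  have ham : 2 * (nrm y * Real.sqrt n) ≤ a * n + 1 / a * (y ⬝ᵥ y) := by
    rw [← hyy]
    have : 0 ≤ (a * Real.sqrt n - nrm y) ^ 2 / a := by positivity
    have e : (a * Real.sqrt n - nrm y) ^ 2 / a =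
        a * (Real.sqrt n * Real.sqrt n) + 1 / a * nrm y ^ 2 - 2 * (nrm y * Real.sqrt n) := by
      field_simp; ring
    rw [e, sq_sqrt_n] at this
    linarith
  have t1 : 0 ≤ 576 / η ^ 2 * Dv J b v y := by positivity
  have t2 : 0 ≤ 16 / η ^ 2 * (y ⬝ᵥ y) := by rw [← hyy]; positivity
  have hkn : 0 ≤ 3 * k1 * n := by positivity
  rw [add_mul, Xi]
  set m := mag (tilt v y) with hm
  have hcb : Cb m := cb_mag (hv.tilt y)
  by_cases hg : dfc J b y m ≤ η / 12 * Real.sqrt n ∧ nrm y ≤ η / 2 * Real.sqrt n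
  · have h1 := nrm_Ymap_cav hJ hb y hcb
    have h2 := nrm_add_le (Ymap J b (cav J b y m) - y) y
    rw [sub_add_cancel] at h2
    have h3 := le_Phi hn hJ hb y _ (hZ (cav J b y m) (by linarith [hg.1, hg.2]))
    linarith
  · have h1 := (abs_le.1 (abs_Phi_le hJ hb y (cav J b y m))).1
    have h2 : n * (Real.log 2 + b / 4) ≤ n :=
      mul_le_of_le_one_right hn'.le (by linarith [Real.log_two_lt_d9, hb.2])
    have h3 : 4 * n ≤ 576 / η ^ 2 * Dv J b v y + 16 / η ^ 2 * (y ⬝ᵥ y) := by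
      rw [not_and_or, not_le, not_le] at hg
      rcases hg with hg | hg
      · have := pow_le_pow_left₀ (by positivity) hg.le 2
        rw [mul_pow, Real.sq_sqrt hn'.le] at this
        have h4 : 576 / η ^ 2 * ((η / 12) ^ 2 * n) ≤ 576 / η ^ 2 * Dv J b v y :=
          mul_le_mul_of_nonneg_left this (by positivity)
        have e : 576 / η ^ 2 * ((η / 12) ^ 2 * n) = 4 * n := by field_simp; ring
        linarith
      · have := pow_le_pow_left₀ (by positivity) hg.le 2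
        rw [mul_pow, Real.sq_sqrt hn'.le, hyy] at this
        have h4 : 16 / η ^ 2 * ((η / 2) ^ 2 * n) ≤ 16 / η ^ 2 * (y ⬝ᵥ y) :=
          mul_le_mul_of_nonneg_left this (by positivity)
        have e : 16 / η ^ 2 * ((η / 2) ^ 2 * n) = 4 * n := by field_simp; ring
        linarith
    linarith

end Start22

open Start22 in
theorem startStmt : StartStmt := by
  intro ε hε
  refine ⟨ε / 12, by positivity, fun η hη => ?_⟩
  set A : ℝ := 16 / η ^ 2 + 1 / (ε / 4) with hA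
  have hA0 : 0 < A := by positivity
  refine ⟨min 1 (ε / (8 * A)), by positivity, ε * η ^ 2 / 2304, by positivity, ?_⟩
  intro n J b hn hJ hb hZ v hv s hs hD
  have hn' : (0 : ℝ) < n := by positivity
  have m1 := (mg_Dv J b hv).const_mul (576 / η ^ 2)
  have m2 := (mg_dot (n := n)).const_mul A
  have h := SL.slE_mono (φ := sv) (s := s) hv (.of_mg fun _ => mg_Xi hJ hb hv)
    (.of_mg fun _ => (SL.MG.const _).add (m1.add m2))
    fun _ y => Xi_le hn hJ hb (by positivity : 0 < ε / 12) hη (by positivity : 0 < ε / 4) hZ hv y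
  rw [SL.slE_add (.of_mg fun _ => SL.MG.const _) (.of_mg fun _ => m1.add m2),
    SL.slE_add (.of_mg fun _ => m1) (.of_mg fun _ => m2), slE_const hv, SL.slE_const_mul,
    SL.slE_const_mul, slE_normsq hv hs.1] at h
  have s1 : s ≤ 1 := hs.2.trans (min_le_left _ _)
  have s2 : s ≤ ε / (8 * A) := hs.2.trans (min_le_right _ _)
  have h1 : 576 / η ^ 2 * slE sv v s (fun _ y => Dv J b v y) ≤ ε / 4 * n := by
    refine (mul_le_mul_of_nonneg_left hD (by positivity)).trans_eq ?_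
    field_simp; ring
  have h2 : A * ((s ^ 2 + s) * n) ≤ ε / 4 * n := by
    rw [← mul_assoc]
    refine mul_le_mul_of_nonneg_right ?_ hn'.le
    have : s ^ 2 + s ≤ 2 * (ε / (8 * A)) := by nlinarith [hs.1]
    refine (mul_le_mul_of_nonneg_left this hA0.le).trans_eq ?_
    field_simp; ring
  linarith

end Crest.Agent.T157.Lp
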