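import Crest.Agent.T157.LpG1_17

/-!
# Row 157, part A: `Lp.TermStmt` (helper42)

At large times the field determines the spin configuration: the TAP value at the cavity field is
the energy of the planted configuration up to `ε n`.
-/

set_option autoImplicit false

noncomputable section

namespace Crest.Agent.T157.Lp

open MeasureTheory ProbabilityTheory Matrix Filter Set
open Crest.ProbabilityR.SpinGlassDynamics
open Crest.Agent.T157.E Crest.Agent.T157.Eig Crest.Agent.T157.Tap Crest.Agent.T157.Tap.Froz10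
open Crest.Agent.T157.Lp.G1

namespace Term42

variable {n : ℕ}

theorem one_sub_tanh (t : ℝ) : 1 - Real.tanh t = Real.exp (-t) / Real.cosh t := by
  have hc := Real.cosh_pos t
  rw [Real.tanh_eq_sinh_div_cosh, ← Real.cosh_sub_sinh]; field_simp

theorem hb2_neg (t : ℝ) : hb2 (-t) = hb2 t := by simp [hb2]

theorem hb2_le_exp (u : ℝ) : hb2 u ≤ 2 * Real.exp (-u) := by
  have he := Real.exp_pos (-u)
  rcases le_total u 0 with hu | hu
  · have h1 := Real.one_le_exp (neg_nonneg.2 hu)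
    linarith [(abs_le.1 (abs_hb2_le u)).2]
  have hc := Real.cosh_pos u
  have h1 : Real.log (2 * Real.cosh u) ≤ u + Real.exp (-u) := by
    have e : 2 * Real.cosh u = Real.exp u * (1 + Real.exp (-u) * Real.exp (-u)) := by
      rw [Real.cosh_eq, mul_add, ← mul_assoc, ← Real.exp_add]; simp; ring
    have h2 : Real.exp (-u) ≤ 1 := Real.exp_le_one_iff.2 (neg_nonpos.2 hu)
    rw [e, Real.log_mul (Real.exp_pos _).ne' (by positivity), Real.log_exp]
    have := Real.log_le_sub_one_of_pos (show 0 < 1 + Real.exp (-u) * Real.exp (-u) by positivity)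
    nlinarith
  have h2 : u * (1 - Real.tanh u) ≤ Real.exp (-u) := by
    rw [one_sub_tanh, mul_div_assoc', div_le_iff₀ hc]
    have : u ≤ Real.cosh u := (Real.self_le_sinh_iff.2 hu).trans (Real.sinh_lt_cosh u).le
    nlinarith
  rw [hb2]; linarith

theorem site0 {A : ℝ} (hA : 0 < A) (u z : ℝ) :
    1 - Real.tanh u ≤ 2 * (Real.exp A * Real.exp (-z) + (u - z) ^ 2 / A ^ 2) ∧
    hb2 u ≤ 2 * (Real.exp A * Real.exp (-z) + (u - z) ^ 2 / A ^ 2) ∧
    z * (Real.tanh u - 1) ≤ 2 * Real.exp (-z) := by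
  have ht := abs_lt.1 (Real.abs_tanh_lt_one u)
  have h0 : 0 < Real.exp A * Real.exp (-z) := by positivity
  have h1 : 0 ≤ (u - z) ^ 2 / A ^ 2 := by positivity
  have h3 : z * (Real.tanh u - 1) ≤ 2 * Real.exp (-z) := by
    have := Real.add_one_le_exp (-z)
    have := Real.exp_pos (-z)
    rcases le_total z 0 with hz | hz <;> nlinarith
  rcases le_total (|u - z|) A with h | h
  · have h4 : Real.exp (-u) ≤ Real.exp A * Real.exp (-z) := by
      rw [← Real.exp_add]; exact Real.exp_le_exp.2 (by linarith [(abs_le.1 h).1])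
    have h5 : 1 - Real.tanh u ≤ Real.exp (-u) := by
      rw [one_sub_tanh]; exact div_le_self (Real.exp_pos _).le (Real.one_le_cosh u)
    exact ⟨by linarith, by linarith [hb2_le_exp u], h3⟩
  · have h4 : 1 ≤ (u - z) ^ 2 / A ^ 2 := by
      rw [one_le_div (by positivity), ← sq_abs (u - z)]
      exact pow_le_pow_left₀ hA.le h 2
    exact ⟨by linarith, by linarith [(abs_le.1 (abs_hb2_le u)).2], h3⟩

theorem site {A : ℝ} (hA : 0 < A) {s : ℝ} (hs : s = 1 ∨ s = -1) (x y : ℝ) :
    (Real.tanh x - s) * (Real.tanh x - s) ≤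
      4 * (Real.exp A * Real.exp (-(s * y)) + (x - y) * (x - y) / A ^ 2) ∧
    1 - Real.tanh x ^ 2 ≤ 4 * (Real.exp A * Real.exp (-(s * y)) + (x - y) * (x - y) / A ^ 2) ∧
    hb2 x ≤ 2 * (Real.exp A * Real.exp (-(s * y)) + (x - y) * (x - y) / A ^ 2) ∧
    y * (Real.tanh x - s) ≤ 2 * Real.exp (-(s * y)) := by
  have ht := abs_lt.1 (Real.abs_tanh_lt_one x)
  obtain ⟨h1, h2, h3⟩ := site0 hA (s * x) (s * y)
  rcases hs with rfl | rfl
  · simp only [one_mul] at *
    rw [sq (x - y)] at h1 h2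
    exact ⟨by nlinarith, by nlinarith, h2, h3⟩
  · have e : (-1 * x - -1 * y) ^ 2 = (x - y) * (x - y) := by ring
    rw [e] at h1 h2
    simp only [neg_mul, one_mul, Real.tanh_neg, hb2_neg] at *
    exact ⟨by nlinarith, by nlinarith, h2, by linarith⟩

theorem sv_cases (σ : Cube n) (i : Fin n) : sv σ i = 1 ∨ sv σ i = -1 := by
  simp only [sv, spin]; split_ifs <;> simp

/-- the deterministic bound -/
theorem phi_le {J : Mx n} {b A l : ℝ} (hT : Jᵀ = J) (hJ : opn J ≤ 3) (hb : b ∈ Icc (0 : ℝ) 1)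
    (hA : 0 < A) (hl : 0 < l) (σ : Cube n) (x y : V n) (hxy : nrm (x - y) ≤ 4 * Real.sqrt n) :
    Phi J b y x - y ⬝ᵥ sv σ - 1 / 2 * (sv σ ⬝ᵥ J *ᵥ sv σ) ≤ (l + (9 / l + 3) * 16 / A ^ 2) * n +
      ((9 / l + 3) * Real.exp A + 2) * ∑ i, Real.exp (-(sv σ i * y i)) := by
  set S := ∑ i, Real.exp (-(sv σ i * y i)) with hS
  set Q := ∑ i, (Real.exp A * Real.exp (-(sv σ i * y i)) + (x i - y i) * (x i - y i) / A ^ 2) with hQ
  have hn : (0 : ℝ) ≤ n := Nat.cast_nonneg n
  have key := fun i => site hA (sv_cases σ i) (x i) (y i)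
  have q0 : Q ≤ Real.exp A * S + 16 / A ^ 2 * n := by
    have h : (x - y) ⬝ᵥ (x - y) ≤ 16 * n := by
      have := (nrm_le_iff (by positivity)).1 hxy
      rw [mul_pow, Real.sq_sqrt hn] at this; linarith
    rw [hQ, Finset.sum_add_distrib, ← Finset.mul_sum, ← Finset.sum_div, div_mul_eq_mul_div]
    gcongr
    exact h
  have q1 : (th x - sv σ) ⬝ᵥ (th x - sv σ) ≤ 4 * Q := by
    rw [hQ, Finset.mul_sum]; exact Finset.sum_le_sum fun i _ => (key i).1
  have q2 : n * avg (DD (th x)) ≤ 4 * Q := by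
    have h : ∑ i, DD (th x) i ≤ 4 * Q := by
      rw [hQ, Finset.mul_sum]; exact Finset.sum_le_sum fun i _ => (key i).2.1
    rcases Nat.eq_zero_or_pos n with rfl | h0
    · simp [hQ]
    · have : (n : ℝ) ≠ 0 := by positivity
      rwa [avg, mul_div_cancel₀ _ this]
  have q3 : ∑ i, hb2 (x i) ≤ 2 * Q := by
    rw [hQ, Finset.mul_sum]; exact Finset.sum_le_sum fun i _ => (key i).2.2.1
  have q4 : y ⬝ᵥ th x - y ⬝ᵥ sv σ ≤ 2 * S := by
    rw [← dotProduct_sub, hS, Finset.mul_sum]; exact Finset.sum_le_sum fun i _ => (key i).2.2.2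
  have q5 : n * b * avg (DD (th x)) ^ 2 ≤ 4 * Q := by
    have a0 := avg_DD_nonneg (cb_th x)
    have a1 : b * avg (DD (th x)) ≤ 1 := mul_le_one₀ hb.2 a0 (avg_DD_le _)
    nlinarith [mul_le_mul_of_nonneg_left a1 (mul_nonneg hn a0)]
  have q6 : th x ⬝ᵥ J *ᵥ th x - sv σ ⬝ᵥ J *ᵥ sv σ ≤ 2 * (l * n + 9 / l * Q) := by
    have e : th x ⬝ᵥ J *ᵥ th x - sv σ ⬝ᵥ J *ᵥ sv σ = (th x - sv σ) ⬝ᵥ J *ᵥ (th x + sv σ) := by
      have : th x ⬝ᵥ J *ᵥ sv σ = sv σ ⬝ᵥ J *ᵥ th x := by
        rw [dotProduct_mulVec, ← mulVec_transpose, hT, dotProduct_comm]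
      rw [mulVec_add, sub_dotProduct, dotProduct_add, dotProduct_add, this]; ring
    have h1 : nrm (J *ᵥ (th x + sv σ)) ≤ 6 * Real.sqrt n := by
      have := nrm_add_le (th x) (sv σ)
      have := nrm_le_sqrt (cb_th x)
      have := nrm_le_sqrt (cb_sv σ)
      have := mul_le_mul_of_nonneg_right hJ (nrm_nonneg (th x + sv σ))
      linarith [nrm_mulVec_le J (th x + sv σ)]
    have h2 := (dot_le (th x - sv σ) (J *ᵥ (th x + sv σ))).trans
      (mul_le_mul_of_nonneg_left h1 (nrm_nonneg _))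
    rw [← nrm_mul_self] at q1
    rw [e]
    refine h2.trans (le_of_mul_le_mul_left ?_ hl)
    have e2 : l * (2 * (l * n + 9 / l * Q)) = 2 * (l * l * n + 9 * Q) := by field_simp
    rw [e2]
    nlinarith [sq_nonneg (2 * l * Real.sqrt n - 3 * nrm (th x - sv σ)), sq_sqrt_n (n := n)]
  have q7 : (9 / l + 3) * Q ≤ (9 / l + 3) * (Real.exp A * S + 16 / A ^ 2 * n) :=
    mul_le_mul_of_nonneg_left q0 (by positivity)
  have e3 : (l + (9 / l + 3) * 16 / A ^ 2) * n + ((9 / l + 3) * Real.exp A + 2) * S =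
      l * n + (9 / l + 3) * (Real.exp A * S + 16 / A ^ 2 * n) + 2 * S := by ring
  rw [e3, Phi]
  linarith

theorem int_exp {T : ℝ} (hT : 0 ≤ T) (σ : Cube n) (i : Fin n) :
    Integrable (fun g : V n => Real.exp (-(sv σ i * (T • sv σ + Real.sqrt T • g) i))) (gv (Fin n)) ∧
    ∫ g : V n, Real.exp (-(sv σ i * (T • sv σ + Real.sqrt T • g) i)) ∂gv (Fin n) =
      Real.exp (-(T / 2)) := by
  have hp := measurePreserving_eval (fun _ : Fin n => gaussianReal 0 1) i
  have hσ : sv σ i * sv σ i = 1 := by rcases sv_cases σ i with h | h <;> simp [h]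
  have e : (fun g : V n => Real.exp (-(sv σ i * (T • sv σ + Real.sqrt T • g) i))) =
      fun g => Real.exp (-T) * Real.exp (-(sv σ i * Real.sqrt T) * g i) := by
    ext g
    rw [← Real.exp_add]; congr 1
    simp only [Pi.add_apply, Pi.smul_apply, smul_eq_mul]
    linear_combination (-T) * hσ
  have i1 := integrable_exp_mul_gaussianReal (μ := 0) (v := 1) (-(sv σ i * Real.sqrt T))
  rw [e]
  refine ⟨(hp.integrable_comp_of_integrable i1).const_mul _, ?_⟩
  have h := integral_map (μ := gv (Fin n)) hp.measurable.aemeasurable (hp.map_eq ▸ i1.1)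
  rw [hp.map_eq] at h
  have h2 := congrFun (mgf_fun_id_gaussianReal (μ := 0) (v := 1)) (-(sv σ i * Real.sqrt T))
  rw [mgf] at h2
  rw [integral_const_mul]
  erw [← h]
  rw [h2, ← Real.exp_add]; congr 1
  have := Real.mul_self_sqrt hT
  simp only [NNReal.coe_one]
  linear_combination (1 / 2 * T) * hσ + (1 / 2 * sv σ i * sv σ i) * this

theorem log_le {J : Mx n} {v : Cube n → ℝ} (hv : SL.Wt v) {σ : Cube n} (h : 0 < v σ) (y : V n) :
    Real.log (prob v σ / prob (ising J 0) σ) ≤ Real.log (Zw (ising J 0)) - Real.log (Zw v) +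
      (Real.log (Zw (tilt v y)) - y ⬝ᵥ sv σ - 1 / 2 * (sv σ ⬝ᵥ J *ᵥ sv σ)) := by
  have hw : SL.Wt (ising J 0) := .of_pos fun _ => Real.exp_pos _
  have z1 : 0 < Zw v := hv.pos
  have z2 : 0 < Zw (ising J 0) := hw.pos
  have z3 : 0 < ising J 0 σ := Real.exp_pos _
  have h1 : Real.log (v σ) + y ⬝ᵥ sv σ ≤ Real.log (Zw (tilt v y)) := by
    rw [← Real.log_exp (y ⬝ᵥ sv σ), ← Real.log_mul h.ne' (Real.exp_pos _).ne']
    exact Real.log_le_log (by positivity)
      (Finset.single_le_sum (f := tilt v y) (fun x _ => (hv.tilt y).nn x) (Finset.mem_univ σ))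
  have h2 : Real.log (ising J 0 σ) = 1 / 2 * (sv σ ⬝ᵥ J *ᵥ sv σ) := by simp [ising]
  change Real.log (v σ / Zw v / (ising J 0 σ / Zw (ising J 0))) ≤ _
  rw [Real.log_div (by positivity) (by positivity), Real.log_div h.ne' z1.ne',
    Real.log_div z3.ne' z2.ne', h2]
  linarith

end Term42

open Term42 in
theorem termStmt : TermStmt := by
  intro ε hε
  set l := ε / 3 with hl
  have hl0 : 0 < l := by positivity
  set K := 9 / l + 3 with hK
  have hK0 : 0 < K := by positivity
  set A := Real.sqrt (K * 16 / l) with hA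
  have hA0 : 0 < A := Real.sqrt_pos.2 (by positivity)
  have hA2 : K * 16 / A ^ 2 = l := by rw [hA, Real.sq_sqrt (by positivity)]; field_simp
  set M := K * Real.exp A + 2 with hM
  have hM0 : 0 < M := by positivity
  refine ⟨max 0 (2 * Real.log (M / l)), fun T hT n J b hJT hJ hb v hv => ?_⟩
  have hT0 : 0 ≤ T := (le_max_left _ _).trans hT
  have hMT : M * Real.exp (-(T / 2)) ≤ l := by
    have h1 : Real.log (M / l) ≤ T / 2 := by linarith [(le_max_right _ _).trans hT]
    rw [Real.log_le_iff_le_exp (by positivity), div_le_iff₀ hl0] at h1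
    rw [Real.exp_neg, ← div_eq_mul_inv, div_le_iff₀ (Real.exp_pos _)]
    linarith
  set c := Real.log (Zw (ising J 0)) - Real.log (Zw v) with hc
  have key : ∀ σ, 0 < v σ → Real.log (prob v σ / prob (ising J 0) σ) ≤ c +
      (∫ g, Xi J b v (T • sv σ + Real.sqrt T • g) ∂gv (Fin n)) + ε * n := fun σ hσ => by
    have iX : Integrable (fun g => Xi J b v (T • sv σ + Real.sqrt T • g)) (gv (Fin n)) :=
      ((mg_Xi hJ hb hv).affine _ _).int
    have iE : Integrable (fun g : V n =>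
        ∑ i, Real.exp (-(sv σ i * (T • sv σ + Real.sqrt T • g) i))) (gv (Fin n)) :=
      integrable_finsetSum _ fun i _ => (int_exp hT0 σ i).1
    have h := integral_mono (μ := gv (Fin n))
      (integrable_const (Real.log (prob v σ / prob (ising J 0) σ) - c - 2 * l * n))
      (iX.add (iE.const_mul M)) fun g => by
        have h1 := log_le (J := J) hv hσ (T • sv σ + Real.sqrt T • g)
        have h2 := phi_le hJT hJ hb hA0 hl0 σ _ _
          (nrm_cav_sub hJ hb (T • sv σ + Real.sqrt T • g)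
            (cb_mag (hv.tilt (T • sv σ + Real.sqrt T • g))))
        rw [← hK, hA2, ← hM] at h2
        simp only [Pi.add_apply] at h2 ⊢
        rw [Xi]; linarith
    erw [integral_add iX (iE.const_mul M)] at h
    rw [integral_const_mul, integral_finsetSum _ fun i _ => (int_exp hT0 σ i).1,
      Finset.sum_congr rfl fun i _ => (int_exp hT0 σ i).2] at h
    simp only [integral_const, probReal_univ, smul_eq_mul, one_mul, Finset.sum_const,
      Finset.card_univ, Fintype.card_fin, nsmul_eq_mul] at h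
    nlinarith [mul_le_mul_of_nonneg_left hMT (Nat.cast_nonneg (α := ℝ) n)]
  have h2 : kl v (ising J 0) ≤ ∑ σ, prob v σ * (c + (∫ g, Xi J b v (T • sv σ + Real.sqrt T • g)
      ∂gv (Fin n)) + ε * n) := Finset.sum_le_sum fun σ _ => by
    rcases (hv.nn σ).eq_or_lt with h | h
    · simp [prob, ← h]
    · exact mul_le_mul_of_nonneg_left (key σ h) (hv.prob_nonneg σ)
  simp only [mul_add, Finset.sum_add_distrib, ← Finset.sum_mul, hv.sum_prob, one_mul] at h2
  exact h2

end Crest.Agent.T157.Lp
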