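import Crest.Agent.T157.Glue_34
import Crest.Agent.T157.LpFis_23

/-!
Row 157, part A (helper41): the final assembly of (L') and the bridge to `Top.LpStmt`.
-/

set_option autoImplicit false

noncomputable section

namespace Crest.Agent.T157.Lp

open MeasureTheory ProbabilityTheory Matrix Filter Set
open Crest.ProbabilityR.SpinGlassDynamics
open Crest.Agent.T157.E Crest.Agent.T157.Eig Crest.Agent.T157.Cond Crest.Agent.T157.Tap

variable {n : ℕ}

namespace Top41

/-- crude bound of the relative entropy -/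
theorem kl_crude {J : Mx n} (hJ : opn J ≤ 3) {v : Cube n → ℝ} (hv : SL.Wt v) :
    kl v (ising J 0) ≤ Real.log (Zw (ising J 0)) + 3 / 2 * n := by
  have hw : ∀ x, 0 < ising J 0 x := fun _ => Real.exp_pos _
  have hW := SL.Wt.of_pos hw
  have h1 : ∑ x, prob v x = 1 := by
    simp only [prob, ← Finset.sum_div]; exact div_self hv.pos.ne'
  have h2 : ∀ x, prob v x ≤ 1 := fun x => h1 ▸
    Finset.single_le_sum (f := prob v) (fun y _ => hv.prob_nonneg y) (Finset.mem_univ x)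
  calc kl v (ising J 0) ≤ ∑ x, prob v x * (Real.log (Zw (ising J 0)) + 3 / 2 * n) := by
        refine Finset.sum_le_sum fun x _ => ?_
        rcases (hv.prob_nonneg x).eq_or_lt with h0 | h0
        · rw [← h0]; simp
        refine mul_le_mul_of_nonneg_left ?_ h0.le
        have hp : 0 < prob (ising J 0) x := div_pos (hw x) hW.pos
        rw [Real.log_div h0.ne' hp.ne', prob, prob, Real.log_div (hw x).ne' hW.pos.ne']
        have h3 : Real.log (v x / ∑ y, v y) ≤ 0 := Real.log_nonpos h0.le (h2 x)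
        have h4 : Real.log (ising J 0 x) = 1 / 2 * (sv x ⬝ᵥ J *ᵥ sv x) := by
          simp [ising]
        have h5 := (abs_le.1 (G1.abs_quad_cb hJ (G1.cb_sv x))).1
        rw [h4, Zw]
        linarith
    _ = _ := by rw [← Finset.sum_mul, h1, one_mul]

/-- from laws to functions -/
theorem dlsi_of_kl {w : Cube n → ℝ} (hw : ∀ x, 0 < w x) {κ ε C : ℝ} (hκ : 0 < κ) (hε : 0 ≤ ε)
    (hC : 0 ≤ C) (h1 : ∀ v, SL.Wt v → fis w v ≤ κ * n → kl v w ≤ ε * n)
    (h2 : ∀ v, SL.Wt v → kl v w ≤ C * n) (f : Cube n → ℝ) :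
    ent w (fun x => f x ^ 2) ≤ C / κ * dir w f + ε * n * mean w fun x => f x ^ 2 := by
  have hW := SL.Wt.of_pos hw
  have hd := Ent.dir_nonneg hw f
  rcases (hW.mean_nonneg (f := fun x => f x ^ 2) fun _ => sq_nonneg _).eq_or_lt with e | e
  · have hz : ∀ x, f x ^ 2 = 0 := fun x => by
      have := (Finset.sum_eq_zero_iff_of_nonneg fun y _ =>
        mul_nonneg (hW.prob_nonneg y) (sq_nonneg (f y))).1 e.symm x (Finset.mem_univ x)
      exact (mul_eq_zero.1 this).resolve_left (div_pos (hw x) hW.pos).ne'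
    have : ent w (fun x => f x ^ 2) = 0 := by simp [ent, mean, hz]
    rw [this, ← e, mul_zero, add_zero]
    positivity
  set m := mean w fun x => f x ^ 2 with hm
  have hv : SL.Wt fun x => w x * f x ^ 2 := by
    refine ⟨fun x => mul_nonneg (hw x).le (sq_nonneg _), ?_⟩
    have : m = (∑ x, w x * f x ^ 2) / ∑ y, w y := by
      simp only [hm, mean, prob, Finset.sum_div]
      exact Finset.sum_congr rfl fun x _ => by ring
    rw [this] at e
    exact (div_pos_iff_of_pos_right hW.pos).1 e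
  have hk := SL.kl_mul (f := fun x => f x ^ 2) hW e.ne'
  have hf := Fis23.fis_mul (g := fun x => f x ^ 2) hw e
  have hf' : dir w (fun x => √(f x ^ 2)) ≤ dir w f :=
    Glue.dir_le_of_abs hw fun x y => by
      rw [Real.sqrt_sq_eq_abs, Real.sqrt_sq_eq_abs]; exact abs_abs_sub_abs_le _ _
  have hn : (0 : ℝ) ≤ n := Nat.cast_nonneg n
  by_cases h : fis w (fun x => w x * f x ^ 2) ≤ κ * n
  · have := h1 _ hv h
    rw [hk, div_le_iff₀ e] at this
    have : 0 ≤ C / κ * dir w f := by positivity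
    linarith
  · have h3 := h2 _ hv
    rw [hk, div_le_iff₀ e] at h3
    rw [hf, not_le, lt_div_iff₀ e] at h
    have h4 : C / κ * (κ * n * m) ≤ C / κ * dir w f :=
      mul_le_mul_of_nonneg_left (h.le.trans hf') (by positivity)
    have h5 : C / κ * (κ * n * m) = C * n * m := by field_simp
    have h6 : 0 ≤ ε * n * m := by positivity
    linarith

end Top41

open Top41

theorem lpTop : LpTop := by
  intro hStep hBad hStart hTerm hLast hZw hChain hUF hFrz hEnd hU2 hUfE hKs hZ β hβ ε hε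
  have hβ' : β ∈ Icc (0 : ℝ) 1 := ⟨hβ.1.le, hβ.2⟩
  have hb : β ^ 2 ∈ Icc (0 : ℝ) 1 := ⟨sq_nonneg _, pow_le_one₀ hβ.1.le hβ.2⟩
  have he : 0 < ε / 5 := by positivity
  obtain ⟨k1, hk1, hStart⟩ := hStart _ he
  obtain ⟨ηZ, hηZ, wZ⟩ := hZ β hβ k1 hk1
  obtain ⟨t1, ht1, τ, hτ, hStart⟩ := hStart ηZ hηZ
  have ht0 : 0 < t1 / 2 := half_pos ht1
  obtain ⟨κ0, hκ0, hBad⟩ := hBad _ ht0
  obtain ⟨c, hc, L, hL, r, ρ, hρ, wU2⟩ := hU2 β hβ (κ0 / 400) (by have := hκ0.1; positivity)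
  obtain ⟨εF, hεF, wF⟩ := hFrz
  obtain ⟨KU, wUF⟩ := hUF β hβ' (1 / 2) (by norm_num)
  obtain ⟨ηE, hηE, T0, M, hM, hEnd⟩ := hEnd εF hεF KU
  obtain ⟨T1, hTerm⟩ := hTerm _ he
  obtain ⟨T2, hLast⟩ := hLast ηE hηE
  set T := max (max T0 T1) (max T2 (t1 / 2)) with hT
  have hT0 : T0 ≤ T := (le_max_left _ _).trans (le_max_left _ _)
  have hT1 : T1 ≤ T := (le_max_right _ _).trans (le_max_left _ _)
  have hT2 : T2 ≤ T := (le_max_left _ _).trans (le_max_right _ _)
  have hT3 : t1 / 2 ≤ T := (le_max_right _ _).trans (le_max_right _ _)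
  obtain ⟨R, hR, hBad⟩ := hBad (T + 1)
  obtain ⟨K2, hK2, η0, hη0, hKs⟩ := hKs β hβ (κ0 / 100) (by have := hκ0.1; positivity) R
  obtain ⟨η1, hη1, hStep⟩ := hStep κ0 hκ0 c hc L hL r ρ hρ K2 hK2
  have hη : 0 < min η0 η1 := lt_min hη0 hη1
  obtain ⟨N, C, δ, hδ, wKs⟩ := hKs _ ⟨hη, min_le_left _ _⟩
  obtain ⟨h0, hh0, K, hK, hStep⟩ := hStep _ ⟨hη, min_le_right _ _⟩ N C δ hδ R hR
  obtain ⟨σ, hσ, ε', hε', hChain⟩ := hChain _ ht0 T hT3 h0 hh0.1 K hK _ (lt_min hτ he)
  obtain ⟨ε1, hε1, δ', hδ', hStep⟩ := hStep σ hσ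
  have hκ : 0 < σ / (2 * (M + 1)) := by positivity
  have hlog : 0 ≤ Real.log 2 := Real.log_nonneg one_le_two
  have hC : 0 ≤ Real.log 2 + 1 / 4 + ε / 5 + 3 / 2 := by positivity
  refine ⟨(Real.log 2 + 1 / 4 + ε / 5 + 3 / 2) / (σ / (2 * (M + 1))), by positivity, ?_⟩
  refine GoeT.transfer β (fun n w => ∀ f : Cube n → ℝ, ent w (fun x => f x ^ 2) ≤
      (Real.log 2 + 1 / 4 + ε / 5 + 3 / 2) / (σ / (2 * (M + 1))) * dir w f +
        ε * n * mean w fun x => f x ^ 2) (fun n w hw => ?_) ?_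
  · have h := (SL.Wt.of_pos hw).pos.ne'
    simp only [GoeT.ent_prob h, GoeT.dir_prob h, GoeT.mean_prob h]
  refine (Glue.whp_symm.and (Glue.whp_opn.and (wF.and (wUF.and (wU2.and
    ((hUfE β hβ c hc L hL r ε1 hε1).and (wKs.and (wZ.and (hZw β hβ' _ he))))))))).mono ?_
  filter_upwards [hStep, hChain δ' hδ', hBad ε' hε', hLast M hM (σ / 2) (half_pos hσ),
    eventually_gt_atTop 0] with n hStep hChain hBad hLast hn W hW
  obtain ⟨hs, ho, hF, hU, hU2, hUf, hKs, hZ, hZw⟩ := hW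
  have hJs : (β • W)ᵀ = β • W := by rw [transpose_smul, hs]
  have hJo : opn (β • W) ≤ 3 := by
    rw [opn_smul, abs_of_pos hβ.1]
    have := opn_nonneg W
    nlinarith [hβ.2]
  have hn' : (0 : ℝ) ≤ n := Nat.cast_nonneg n
  have hSP := hStep (β • W) (β ^ 2) hJs hJo hb hU2 hUf hKs
  have hEP : EndP (β • W) (β ^ 2) ηE T0 M := hEnd n W β hn hs hβ' ho hF hU
  refine dlsi_of_kl (w := ising (β • W) 0) (fun _ => Real.exp_pos _) hκ hε.le hC
    (fun v hv hf => ?_) (fun v hv => ?_)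
  · obtain ⟨s0, hs0, s1, hs1, h1, h2⟩ := hChain (β • W) (β ^ 2) κ0 R hJo hb hSP v hv
      (fun s hs => hBad v hv s hs) (fun s hs => by
        have h3 := hLast (β • W) (β ^ 2) T0 hEP s (hT0.trans hs.1) (hT2.trans hs.1) v hv
        have h4 : M * fis (ising (β • W) 0) v ≤ M * (σ / (2 * (M + 1)) * n) :=
          mul_le_mul_of_nonneg_left hf hM
        have h5 : M * (σ / (2 * (M + 1)) * n) ≤ σ / 2 * n := by
          rw [← mul_assoc]
          refine mul_le_mul_of_nonneg_right ?_ hn'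
          rw [← mul_div_assoc, div_le_div_iff₀ (by positivity) two_pos]
          nlinarith
        linarith)
    have h3 := hStart n (β • W) (β ^ 2) hn hJo hb hZ v hv s0
      ⟨ht0.le.trans hs0.1, by linarith [hs0.2]⟩
      (h1.trans (mul_le_mul_of_nonneg_right (min_le_left _ _) hn'))
    have h4 := hTerm s1 (hT1.trans hs1.1) n (β • W) (β ^ 2) hJs hJo hb v hv
    have h5 := mul_le_mul_of_nonneg_right (min_le_right τ (ε / 5)) hn'
    have h6 : 0 ≤ ε / 5 * n := by positivity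
    linarith
  · have h1 := kl_crude hJo hv
    have h2 := mul_le_mul_of_nonneg_left hb.2 hn'
    linarith

/-- bridge to the words of the architect -/
theorem top_lp (h : LpStmt) : Top.LpStmt := by
  intro β h0 h1 ε hε
  rcases h0.eq_or_lt with rfl | h0
  · refine ⟨ε / 3, by positivity, Top.whp_of_eventually (.of_forall fun n g f _ _ hd => ?_)⟩
    rw [gibbsWeight_eq_ising, zero_smul, ← diagonal_zero] at hd ⊢
    have hp := Ent.isProd_ising (n := n) (fun _ => 0) 0
    have := hp.at.lsi hp.pos zero_le_one (L := 0) le_rfl (fun i x => by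
      rw [Ent.lf_ising (by simp)]; simp) f
    linarith
  obtain ⟨K, hK, h⟩ := h β ⟨h0, h1⟩ (ε / 2) (half_pos hε)
  refine ⟨ε / (2 * (K + 1)), by positivity, h.imp fun n g hg f _ hm hd => ?_⟩
  have h2 := hg f
  rw [hm] at h2
  have hn' : (0 : ℝ) ≤ n := Nat.cast_nonneg n
  have h3 : K * (ε / (2 * (K + 1)) * n) ≤ ε / 2 * n := by
    rw [← mul_assoc]
    refine mul_le_mul_of_nonneg_right ?_ hn'
    rw [← mul_div_assoc, div_le_div_iff₀ (by positivity) two_pos]
    nlinarith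
  have h4 := mul_le_mul_of_nonneg_left hd hK
  linarith

end Crest.Agent.T157.Lp

end
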