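import Crest.Agent.T157.U2A_11
import Crest.Agent.T157.LpDef_17

/-!
# Row 157, part A (helper11): `(U2)`, local strong convexity of TAP modulo `O(1)` directions

`u2Stmt : Lp.U2Stmt`; the general form `u2_tail` needs only `β² avg D² ≤ 1 - κ` at the centre, gives
an orthogonal projection and an exponentially small failure probability.
-/

set_option autoImplicit false
set_option linter.unusedSectionVars false

noncomputable section

namespace Crest.Agent.T157.U2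

open MeasureTheory ProbabilityTheory Matrix Filter Topology Set
open Crest.Agent.T157.E Crest.Agent.T157.Cond Crest.Agent.T157.Tap
open Crest.Agent.T157.Eig (nrm opn nrm_nonneg nrm_sq)

variable {n : ℕ}

/-! ### the grid -/

/-- grid value `(j+1)/(M+1)` -/
def gD (M : ℕ) (j : Fin (M + 1)) : ℝ := (((j : ℕ) : ℝ) + 1) / ((M : ℝ) + 1)

lemma gD_pos (M : ℕ) (j : Fin (M + 1)) : 0 < gD M j := by unfold gD; positivity

lemma gD_le_one (M : ℕ) (j : Fin (M + 1)) : gD M j ≤ 1 := by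
  have : ((j : ℕ) : ℝ) ≤ M := by exact_mod_cast Nat.lt_succ_iff.1 j.2
  rw [gD, div_le_one (by positivity)]; linarith

lemma inv_gD_le (M : ℕ) (j : Fin (M + 1)) : 1 / gD M j ≤ (M : ℝ) + 1 := by
  have : (0 : ℝ) ≤ ((j : ℕ) : ℝ) := Nat.cast_nonneg _
  rw [gD, one_div_div, div_le_iff₀ (by positivity)]
  nlinarith [(Nat.cast_nonneg M : (0 : ℝ) ≤ M)]

lemma one_le_inv_gD (M : ℕ) (j : Fin (M + 1)) : 1 ≤ 1 / gD M j :=
  one_le_one_div (gD_pos M j) (gD_le_one M j)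

lemma gD_last (M : ℕ) : gD M (Fin.last M) = 1 := by
  rw [gD, Fin.val_last, div_self (by positivity)]

/-- rounding up, with a margin of two grid steps -/
def rd (M : ℕ) (x : ℝ) : Fin (M + 1) := ⟨min M (⌊((M : ℝ) + 1) * x⌋₊ + 2), by omega⟩

lemma le_rd (M : ℕ) {x y : ℝ} (h1 : y ≤ 1) (h2 : y ≤ x + 2 / ((M : ℝ) + 1)) : y ≤ gD M (rd M x) := by
  have hM : (0 : ℝ) < (M : ℝ) + 1 := by positivity
  rcases le_total M (⌊((M : ℝ) + 1) * x⌋₊ + 2) with h | h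
  · rw [gD, rd]
    simp only [min_eq_left h]
    rw [div_self hM.ne']; exact h1
  · rw [gD, rd]
    simp only [min_eq_right h]
    have h3 := Nat.lt_floor_add_one (((M : ℝ) + 1) * x)
    refine h2.trans ?_
    rw [add_div' _ _ _ hM.ne', div_le_div_iff_of_pos_right hM]
    push_cast
    linarith

lemma rd_le (M : ℕ) {x : ℝ} (hx : 0 ≤ x) : gD M (rd M x) ≤ x + 3 / ((M : ℝ) + 1) := by
  have hM : (0 : ℝ) < (M : ℝ) + 1 := by positivity
  have h1 : ((min M (⌊((M : ℝ) + 1) * x⌋₊ + 2) : ℕ) : ℝ) ≤ (⌊((M : ℝ) + 1) * x⌋₊ + 2 : ℕ) := by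
    exact_mod_cast min_le_right _ _
  have h3 := Nat.floor_le (mul_nonneg hM.le hx)
  rw [gD, rd, add_div' _ _ _ hM.ne', div_le_div_iff_of_pos_right hM]
  push_cast at h1 ⊢
  linarith

/-- the rounded diagonal, equal to `1` on `S` -/
def jS (M : ℕ) (m : V n) (S : Finset (Fin n)) (i : Fin n) : Fin (M + 1) :=
  if i ∈ S then Fin.last M else rd M (DD m i)

lemma DD_nonneg {m : V n} (hm : Cb m) (i : Fin n) : 0 ≤ DD m i := by
  have := hm i
  rw [DD, sub_nonneg, ← sq_abs]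
  exact pow_le_one₀ (abs_nonneg _) this

lemma DD_le_one (m : V n) (i : Fin n) : DD m i ≤ 1 := by
  rw [DD]; linarith [sq_nonneg (m i)]

lemma dd_sq {m : V n} (hm : Cb m) (i : Fin n) : dd m i ^ 2 = DD m i :=
  Real.sq_sqrt (DD_nonneg hm i)

lemma jS_mono (M : ℕ) (m : V n) {S S' : Finset (Fin n)} (h : S ⊆ S') (i : Fin n) :
    gD M (jS M m S i) ≤ gD M (jS M m S' i) := by
  by_cases h' : i ∈ S'
  · rw [jS, jS, if_pos h', gD_last]; exact gD_le_one _ _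
  · rw [jS, jS, if_neg h', if_neg fun h1 => h' (h h1)]

lemma sum_ite_card (S : Finset (Fin n)) : ∑ i, (if i ∈ S then (1 : ℝ) else 0) = S.card := by
  simp

lemma sum_jS_le (M : ℕ) {m : V n} (hm : Cb m) (S : Finset (Fin n)) :
    ∑ i, gD M (jS M m S i) ≤ ∑ i, DD m i + n * (3 / ((M : ℝ) + 1)) + S.card := by
  have h3 : (0 : ℝ) ≤ 3 / ((M : ℝ) + 1) := by positivity
  calc ∑ i, gD M (jS M m S i)
      ≤ ∑ i, (DD m i + 3 / ((M : ℝ) + 1) + if i ∈ S then (1 : ℝ) else 0) := by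
        refine Finset.sum_le_sum fun i _ => ?_
        have := DD_nonneg hm i
        rw [jS]
        split_ifs
        · rw [gD_last]; linarith
        · linarith [rd_le M this]
    _ = _ := by
        rw [Finset.sum_add_distrib, Finset.sum_add_distrib, sum_ite_card]
        simp

lemma sq_num {x y e : ℝ} (hx : 0 ≤ x) (hx1 : x ≤ 1) (hy : 0 ≤ y) (hy1 : y ≤ 1) (he : 0 ≤ e)
    (h : y ≤ x + e) : y ^ 2 ≤ x ^ 2 + 2 * e := by
  rcases le_total y x with h' | h'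
  · nlinarith
  · nlinarith

lemma sum_jS_sq_le (M : ℕ) {m : V n} (hm : Cb m) (S : Finset (Fin n)) :
    ∑ i, gD M (jS M m S i) ^ 2 ≤ ∑ i, DD m i ^ 2 + n * (6 / ((M : ℝ) + 1)) + S.card := by
  have h3 : (0 : ℝ) ≤ 3 / ((M : ℝ) + 1) := by positivity
  have h6 : 6 / ((M : ℝ) + 1) = 2 * (3 / ((M : ℝ) + 1)) := by ring
  calc ∑ i, gD M (jS M m S i) ^ 2
      ≤ ∑ i, (DD m i ^ 2 + 6 / ((M : ℝ) + 1) + if i ∈ S then (1 : ℝ) else 0) := by
        refine Finset.sum_le_sum fun i _ => ?_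
        have := DD_nonneg hm i
        rw [jS]
        split_ifs
        · rw [gD_last]; linarith [sq_nonneg (DD m i)]
        · linarith [sq_num this (DD_le_one m i) (gD_pos M _).le (gD_le_one M _) h3 (rd_le M this)]
    _ = _ := by
        rw [Finset.sum_add_distrib, Finset.sum_add_distrib, sum_ite_card]
        simp

lemma res_num {D τ : ℝ} (hD : 0 < D) (hD1 : D ≤ 1) (hτ : 0 ≤ τ) (hτ1 : τ ≤ 1 / 2) :
    1 / (1 / D - τ) ≤ D + τ * (1 + 2 * τ) * D ^ 2 := by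
  have h1 : τ * D ≤ τ := mul_le_of_le_one_right hτ hD1
  have h0 : 0 ≤ τ * D := mul_nonneg hτ hD.le
  have h2 : 0 < 1 - τ * D := by linarith
  have e : 1 / (1 / D - τ) = D / (1 - τ * D) := by field_simp
  rw [e, div_le_iff₀ h2]
  have h3 : 1 ≤ (1 + 2 * τ) * (1 - τ * D) := by nlinarith
  have h4 : τ * D ^ 2 * 1 ≤ τ * D ^ 2 * ((1 + 2 * τ) * (1 - τ * D)) :=
    mul_le_mul_of_nonneg_left h3 (by positivity)
  nlinarith

/-! ### the random event -/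

/-- all Ky Fan sums over the grid of diagonals are typical -/
def Good1 (W : Mx n) (β τ t : ℝ) (M k : ℕ) : Prop :=
  ∀ (j : Fin n → Fin (M + 1)) (u : Fin k → V n), ON u →
    ∑ a, qf β (fun i => 1 / gD M (j i)) W (u a) <
      k * (-τ + β ^ 2 / n * ∑ i, 1 / (1 / gD M (j i) - τ) + t)

lemma good1_tail {β τ t : ℝ} (hβ : β ∈ Icc (0 : ℝ) 1) (hτ : τ < 1) (ht : 0 ≤ t) (M : ℕ) {k : ℕ}
    (hk : 0 < k) (hn : 0 < n) :
    (GOE n).real {W | ¬ Good1 W β τ t M k} ≤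
      ((M : ℝ) + 1) ^ n * Real.exp (-(k * t ^ 2 * n / 4)) := by
  have hn' : (0 : ℝ) < n := Nat.cast_pos.2 hn
  have hs : (1 / Real.sqrt n) ^ 2 = 1 / (n : ℝ) := by rw [div_pow, one_pow, Real.sq_sqrt hn'.le]
  have h1 : {W : Mx n | ¬ Good1 W β τ t M k} ⊆ ⋃ j : Fin n → Fin (M + 1),
      {W | ∃ u : Fin k → V n, ON u ∧ k * (-τ + (β * (1 / Real.sqrt n)) ^ 2 *
        ∑ i, 1 / (1 / gD M (j i) - τ) + t) ≤ ∑ a, qf β (fun i => 1 / gD M (j i)) W (u a)} := by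
    intro W hW
    simp only [Good1, mem_ofPred_eq, not_forall, not_lt] at hW
    obtain ⟨j, u, hu, h⟩ := hW
    refine mem_iUnion.2 ⟨j, u, hu, ?_⟩
    rwa [mul_pow, hs, mul_one_div]
  refine (measureReal_mono h1).trans ((measureReal_iUnion_fintype_le _).trans ?_)
  refine (Finset.sum_le_sum fun j _ => kf_tail (1 / Real.sqrt n) hβ.1 hβ.2
    (fun i => 1 / gD M (j i)) (fun i => hτ.trans_le (one_le_inv_gD M _)) hk ht).trans ?_
  rw [hs, Finset.sum_const, Finset.card_univ, Fintype.card_fun, Fintype.card_fin, Fintype.card_fin,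
    nsmul_eq_mul]
  push_cast
  refine le_of_eq ?_
  congr 3
  field_simp

/-! ### the deterministic part -/

/-- the comparison matrix -/
def AS (β : ℝ) (W : Mx n) (M : ℕ) (m : V n) (S : Finset (Fin n)) : Mx n :=
  diagonal (fun i => 1 / gD M (jS M m S i)) - β • W + (β ^ 2 * avg (DD m)) • (1 : Mx n)

lemma quad_AS (β : ℝ) (W : Mx n) (M : ℕ) (m : V n) (S : Finset (Fin n)) (v : V n) :
    v ⬝ᵥ AS β W M m S *ᵥ v =
      -qf β (fun i => 1 / gD M (jS M m S i)) W v + β ^ 2 * avg (DD m) * (v ⬝ᵥ v) := by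
  have e : v ⬝ᵥ diagonal (fun i => 1 / gD M (jS M m S i)) *ᵥ v =
      ∑ i, 1 / gD M (jS M m S i) * v i ^ 2 := by
    simp only [dotProduct, mulVec_diagonal]
    exact Finset.sum_congr rfl fun i _ => by ring
  rw [AS, add_mulVec, sub_mulVec, dotProduct_add, dotProduct_sub, e, smul_mulVec, smul_mulVec,
    one_mulVec, dotProduct_smul, dotProduct_smul, qf, smul_eq_mul, smul_eq_mul]
  ring

lemma avg_DD_mem {m : V n} (hm : Cb m) : avg (DD m) ∈ Icc (0 : ℝ) 1 := by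
  refine ⟨div_nonneg (Finset.sum_nonneg fun i _ => DD_nonneg hm i) (Nat.cast_nonneg n), ?_⟩
  refine div_le_one_of_le₀ ?_ (Nat.cast_nonneg n)
  calc ∑ i, DD m i ≤ ∑ _i : Fin n, (1 : ℝ) := Finset.sum_le_sum fun i _ => DD_le_one m i
    _ = n := by simp

lemma opn_AS {β : ℝ} (hβ : β ∈ Icc (0 : ℝ) 1) {W : Mx n} (hW : opn W ≤ 3) (M : ℕ) {m : V n}
    (hm : Cb m) (S : Finset (Fin n)) : opn (AS β W M m S) ≤ (M : ℝ) + 5 := by
  have h1 : opn (diagonal fun i => 1 / gD M (jS M m S i)) ≤ (M : ℝ) + 1 :=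
    Eig.opn_diagonal_le (by positivity) fun i => by
      rw [abs_of_nonneg (zero_le_one.trans (one_le_inv_gD M _))]; exact inv_gD_le M _
  have h2 : opn (β • W) ≤ 3 := by
    rw [Eig.opn_smul, abs_of_nonneg hβ.1]
    exact (mul_le_of_le_one_left (Eig.opn_nonneg W) hβ.2).trans hW
  have h3 : opn ((β ^ 2 * avg (DD m)) • (1 : Mx n)) ≤ 1 := by
    have h4 := avg_DD_mem hm
    rw [Eig.opn_smul, abs_of_nonneg (mul_nonneg (sq_nonneg β) h4.1)]
    exact mul_le_one₀ (mul_le_one₀ (pow_le_one₀ hβ.1 hβ.2) h4.1 h4.2) (Eig.opn_nonneg _)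
      Eig.opn_one_le
  have h5 := Eig.opn_add_le (diagonal (fun i => 1 / gD M (jS M m S i)) - β • W)
    ((β ^ 2 * avg (DD m)) • (1 : Mx n))
  have h6 := Eig.opn_sub_le (diagonal fun i => 1 / gD M (jS M m S i)) (β • W)
  rw [AS]
  linarith

lemma contra_num {b κ w l r a0 a2 x : ℝ} (hb : 0 ≤ b) (hb1 : b ≤ 1) (hκ : 0 < κ) (hκ1 : κ ≤ 1)
    (hw : w = κ ^ 2 / 64) (hl : 0 ≤ l) (hlw : 9 * l ≤ w) (hr : 0 ≤ r) (hrw : 2 * r ≤ w)
    (h2 : b * a2 ≤ 1 - κ)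
    (hx : x ≤ a0 + 3 * l + r + κ / 4 * (1 + 2 * (κ / 4)) * (a2 + 6 * l + r)) :
    -(κ / 4) + b * x + w ≤ b * a0 - 2 * w := by
  have h1 := mul_le_mul_of_nonneg_left hx hb
  have hθ0 : 0 ≤ κ / 4 * (1 + 2 * (κ / 4)) := by positivity
  have hθ1 : κ / 4 * (1 + 2 * (κ / 4)) ≤ 1 := by nlinarith
  have h3 := mul_le_mul_of_nonneg_left h2 hθ0
  have h4 : κ / 4 * (1 + 2 * (κ / 4)) * (1 - κ) ≤ κ / 4 - κ ^ 2 / 8 := by
    nlinarith [pow_pos hκ 3]
  have h5 : b * (3 * l + r) ≤ 3 * l + r := mul_le_of_le_one_left (by positivity) hb1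
  have h6 : κ / 4 * (1 + 2 * (κ / 4)) * b * (6 * l + r) ≤ 6 * l + r :=
    mul_le_of_le_one_left (by positivity) (mul_le_one₀ hθ1 hb hb1)
  nlinarith

/-- no `k` orthonormal bad directions -/
lemma no_frame {β κ w ρ : ℝ} (hβ : β ∈ Icc (0 : ℝ) 1) (hκ : 0 < κ) (hκ1 : κ ≤ 1)
    (hw : w = κ ^ 2 / 64) {M k : ℕ} (hM : 9 * (1 / ((M : ℝ) + 1)) ≤ w) (hk : 0 < k) (hρ : 0 ≤ ρ)
    (hρw : 2 * (k * ρ) ≤ w) (hn : 0 < n) {W : Mx n} (hG : Good1 W β (κ / 4) w M k) {m : V n}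
    (hm : Cb m) (h2 : β ^ 2 * avg (fun i => DD m i ^ 2) ≤ 1 - κ) {u : Fin k → V n} (hu : ON u)
    (hb : ∀ a, ∃ S : Finset (Fin n), (S.card : ℝ) ≤ ρ * n ∧
      u a ⬝ᵥ AS β W M m S *ᵥ u a < 2 * w) : False := by
  classical
  have hn' : (0 : ℝ) < n := Nat.cast_pos.2 hn
  have hk' : (0 : ℝ) < k := Nat.cast_pos.2 hk
  choose S hS hq using hb
  set T := Finset.univ.biUnion S with hT
  have hTc : (T.card : ℝ) ≤ k * ρ * n := by
    calc (T.card : ℝ) ≤ ((∑ a, (S a).card : ℕ) : ℝ) := by exact_mod_cast Finset.card_biUnion_le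
      _ ≤ ∑ _a : Fin k, ρ * n := by push_cast; exact Finset.sum_le_sum fun a _ => hS a
      _ = k * ρ * n := by simp [mul_assoc]
  have h3 := hG (jS M m T) u hu
  have h4 : ∀ a, β ^ 2 * avg (DD m) - 2 * w ≤ qf β (fun i => 1 / gD M (jS M m T i)) W (u a) := by
    intro a
    have h5 := hq a
    rw [quad_AS, hu.1 a, mul_one] at h5
    have h6 : ∑ i, 1 / gD M (jS M m T i) * u a i ^ 2 ≤
        ∑ i, 1 / gD M (jS M m (S a) i) * u a i ^ 2 :=
      Finset.sum_le_sum fun i _ => mul_le_mul_of_nonneg_right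
        (one_div_le_one_div_of_le (gD_pos M _)
          (jS_mono M m (Finset.subset_biUnion_of_mem S (Finset.mem_univ a)) i)) (sq_nonneg _)
    unfold qf at h5 ⊢
    linarith
  have h5 : k * (β ^ 2 * avg (DD m) - 2 * w) ≤
      ∑ a, qf β (fun i => 1 / gD M (jS M m T i)) W (u a) := by
    have := Finset.sum_le_sum fun a (_ : a ∈ Finset.univ) => h4 a
    rwa [Finset.sum_const, Finset.card_univ, Fintype.card_fin, nsmul_eq_mul] at this
  have h6 : ∑ i, 1 / (1 / gD M (jS M m T i) - κ / 4) ≤ ∑ i, gD M (jS M m T i) +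
      κ / 4 * (1 + 2 * (κ / 4)) * ∑ i, gD M (jS M m T i) ^ 2 := by
    rw [Finset.mul_sum, ← Finset.sum_add_distrib]
    exact Finset.sum_le_sum fun i _ =>
      res_num (gD_pos M _) (gD_le_one M _) (by positivity) (by linarith)
  have h7 := sum_jS_le M hm T
  have h8 := mul_le_mul_of_nonneg_left (sum_jS_sq_le M hm T)
    (by positivity : 0 ≤ κ / 4 * (1 + 2 * (κ / 4)))
  have h9 := mul_le_mul_of_nonneg_left hTc (by positivity : 0 ≤ κ / 4 * (1 + 2 * (κ / 4)))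
  have h10 : (∑ i, 1 / (1 / gD M (jS M m T i) - κ / 4)) / n ≤ avg (DD m) +
      3 * (1 / ((M : ℝ) + 1)) + k * ρ + κ / 4 * (1 + 2 * (κ / 4)) *
        (avg (fun i => DD m i ^ 2) + 6 * (1 / ((M : ℝ) + 1)) + k * ρ) := by
    rw [div_le_iff₀ hn']
    have e : (avg (DD m) + 3 * (1 / ((M : ℝ) + 1)) + k * ρ + κ / 4 * (1 + 2 * (κ / 4)) *
        (avg (fun i => DD m i ^ 2) + 6 * (1 / ((M : ℝ) + 1)) + k * ρ)) * n =
        ∑ i, DD m i + n * (3 / ((M : ℝ) + 1)) + k * ρ * n + κ / 4 * (1 + 2 * (κ / 4)) *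
          (∑ i, DD m i ^ 2 + n * (6 / ((M : ℝ) + 1)) + k * ρ * n) := by
      simp only [avg]; field_simp
    rw [e]
    linarith
  have h11 := contra_num (sq_nonneg β) (pow_le_one₀ hβ.1 hβ.2) hκ hκ1 hw (by positivity) hM
    (by positivity) hρw h2 h10
  have h12 := mul_le_mul_of_nonneg_left h11 hk'.le
  rw [← mul_div_assoc, mul_div_right_comm] at h12
  linarith

lemma quad_B1 (β : ℝ) (W : Mx n) {p : V n} (hp : Cb p) (v : V n) :
    v ⬝ᵥ B1 (β • W) (β ^ 2) p *ᵥ v = β * (v ⬝ᵥ W *ᵥ v) - β ^ 2 * avg (DD p) * (v ⬝ᵥ v) +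
      2 * β ^ 2 / n * (p ⬝ᵥ v) ^ 2 := by
  have e : (fun i => dd p i ^ 2) = DD p := funext (dd_sq hp)
  have e2 : v ⬝ᵥ vecMulVec p p *ᵥ v = (p ⬝ᵥ v) ^ 2 := by
    rw [vmv_mulVec, dotProduct_smul, smul_eq_mul, dotProduct_comm v p, sq]
  rw [B1, B0, e, add_mulVec, sub_mulVec, dotProduct_add, dotProduct_sub, smul_mulVec, smul_mulVec,
    smul_mulVec, one_mulVec, dotProduct_smul, dotProduct_smul, dotProduct_smul, e2]
  simp only [smul_eq_mul]

lemma quad_NN (B : Mx n) (d u : V n) :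
    u ⬝ᵥ NN B d *ᵥ u = u ⬝ᵥ u - (d * u) ⬝ᵥ B *ᵥ (d * u) := by
  have e : diagonal d *ᵥ u = d * u := funext fun i => mulVec_diagonal d u i
  rw [NN, sub_mulVec, one_mulVec, dotProduct_sub, ← mulVec_mulVec, ← mulVec_mulVec, e,
    dotProduct_mulVec u, ← mulVec_transpose, diagonal_transpose, e]

lemma cb_dot {p : V n} (hp : Cb p) : p ⬝ᵥ p ≤ n := by
  calc p ⬝ᵥ p ≤ ∑ _i : Fin n, (1 : ℝ) := Finset.sum_le_sum fun i _ => by
        have := DD_nonneg hp i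
        rw [DD] at this
        nlinarith
    _ = n := by simp

/-- the set of sites where `p` is far from `m` -/
lemma far_set (M : ℕ) {m p : V n} (hm : Cb m) (hp : Cb p) {ρ : ℝ}
    (h : ((M : ℝ) + 1) ^ 2 * ((p - m) ⬝ᵥ (p - m)) ≤ ρ * n) :
    ∃ S : Finset (Fin n), (S.card : ℝ) ≤ ρ * n ∧
      ∀ i, i ∉ S → |DD p i - DD m i| ≤ 2 / ((M : ℝ) + 1) := by
  classical
  have hM : (0 : ℝ) < (M : ℝ) + 1 := by positivity
  refine ⟨Finset.univ.filter fun i => 1 < ((M : ℝ) + 1) * |p i - m i|, ?_, fun i hi => ?_⟩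
  · refine le_trans ?_ h
    rw [← sum_ite_card, dotProduct, Finset.mul_sum]
    refine Finset.sum_le_sum fun i _ => ?_
    have e : ((M : ℝ) + 1) ^ 2 * ((p - m) i * (p - m) i) = (((M : ℝ) + 1) * |p i - m i|) ^ 2 := by
      rw [mul_pow, sq_abs, Pi.sub_apply, sq (p i - m i)]
    rw [e]
    split_ifs with h1
    · exact one_le_pow₀ (Finset.mem_filter.1 h1).2.le
    · positivity
  · simp only [Finset.mem_filter, Finset.mem_univ, true_and, not_lt] at hi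
    have e : DD p i - DD m i = -((p i - m i) * (p i + m i)) := by simp only [DD]; ring
    rw [e, abs_neg, abs_mul, le_div_iff₀ hM]
    have h1 : |p i + m i| ≤ 2 := (abs_add_le _ _).trans (by linarith [hm i, hp i])
    have h2 := mul_le_mul hi h1 (abs_nonneg _) zero_le_one
    linarith

lemma avg_close (M : ℕ) {m p : V n} (hm : Cb m) (hp : Cb p) {ρ : ℝ} (hn : 0 < n)
    {S : Finset (Fin n)} (hS : (S.card : ℝ) ≤ ρ * n)
    (h : ∀ i, i ∉ S → |DD p i - DD m i| ≤ 2 / ((M : ℝ) + 1)) :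
    |avg (DD p) - avg (DD m)| ≤ 2 * (1 / ((M : ℝ) + 1)) + ρ := by
  have hn' : (0 : ℝ) < n := Nat.cast_pos.2 hn
  rw [avg, avg, ← sub_div, abs_div, abs_of_pos hn', div_le_iff₀ hn', ← Finset.sum_sub_distrib]
  refine (Finset.abs_sum_le_sum_abs _ _).trans ?_
  have h2 : (0 : ℝ) ≤ 2 / ((M : ℝ) + 1) := by positivity
  calc ∑ i, |DD p i - DD m i| ≤ ∑ i, (2 / ((M : ℝ) + 1) + if i ∈ S then (1 : ℝ) else 0) := by
        refine Finset.sum_le_sum fun i _ => ?_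
        split_ifs with h1
        · have := DD_nonneg hm i; have := DD_nonneg hp i
          have := DD_le_one m i; have := DD_le_one p i
          have : |DD p i - DD m i| ≤ 1 := abs_le.2 ⟨by linarith, by linarith⟩
          linarith
        · linarith [h i h1]
    _ ≤ _ := by
        rw [Finset.sum_add_distrib, sum_ite_card, Finset.sum_const, Finset.card_univ,
          Fintype.card_fin, nsmul_eq_mul, add_mul, mul_one_div, mul_comm (n : ℝ)]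
        linarith

lemma fin_num {b w l ρ L0 uu q s x y a a0 P vv : ℝ} (hb : 0 ≤ b) (hb1 : b ≤ 1) (hl : 0 ≤ l)
    (hρ : 0 ≤ ρ) (hlw : 9 * l ≤ w) (hρw : 20 * ρ ≤ w) (hvv : 0 ≤ vv) (hP : 0 ≤ P)
    (h1 : w * vv ≤ -(q - s) + b * a0 * vv + L0 * P) (h2 : s ≤ uu) (h3 : a0 - a ≤ 2 * l + ρ)
    (h4 : x ≤ 2 * P + 2 * (ρ * vv)) (hy : y = 2 * b * x) :
    w / 2 * vv ≤ uu - (q - b * a * vv + y - (L0 + 4) * P) := by
  have h5 : b * (a0 - a) ≤ 2 * l + ρ :=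
    (mul_le_mul_of_nonneg_left h3 hb).trans (mul_le_of_le_one_left (by positivity) hb1)
  have h6 := mul_le_mul_of_nonneg_right h5 hvv
  have h7 : b * x ≤ 2 * P + 2 * (ρ * vv) :=
    (mul_le_mul_of_nonneg_left h4 hb).trans (mul_le_of_le_one_left (by positivity) hb1)
  have h8 : (2 * l + 5 * ρ) * vv ≤ w / 2 * vv := mul_le_mul_of_nonneg_right (by linarith) hvv
  nlinarith

lemma pos_num {g uu vv z : ℝ} (hg : 0 < g) (h1 : g * vv ≤ z) (h2 : uu - 5 * vv ≤ z) :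
    g / (g + 5) * uu ≤ z := by
  rw [div_mul_eq_mul_div, div_le_iff₀ (by linarith)]
  nlinarith

/-- **deterministic part of (U2)** -/
theorem u2_det {β κ w ρ : ℝ} (hβ : β ∈ Icc (0 : ℝ) 1) (hκ : 0 < κ) (hκ1 : κ ≤ 1)
    (hw : w = κ ^ 2 / 64) {M k : ℕ} (hM : 9 * (1 / ((M : ℝ) + 1)) ≤ w) (hk : 0 < k) (hρ : 0 ≤ ρ)
    (hρw : 20 * (k * ρ) ≤ w) (hn : 0 < n) {W : Mx n} (hW : opn W ≤ 3)
    (hG : Good1 W β (κ / 4) w M k) {m : V n} (hm : Cb m)
    (h2 : β ^ 2 * avg (fun i => DD m i ^ 2) ≤ 1 - κ) :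
    ∃ U : Fin (k + 1) → V n, OZ U ∧ ∀ p : V n, Cb p →
      ((M : ℝ) + 1) ^ 2 * ((p - m) ⬝ᵥ (p - m)) ≤ ρ * n →
      |avg (DD p) - avg (DD m)| ≤ w ∧ Pos (w / 2 / (w / 2 + 5))
        (NN (B1 (β • W) (β ^ 2) p -
          (((M : ℝ) + 5) ^ 2 / w + ((M : ℝ) + 5) + w + 4) • pm U) (dd p)) := by
  have hn' : (0 : ℝ) < n := Nat.cast_pos.2 hn
  have hk1 : (1 : ℝ) ≤ k := by exact_mod_cast hk
  have hw0 : 0 < w := by rw [hw]; positivity
  have hkρ : ρ ≤ k * ρ := le_mul_of_one_le_left hρ hk1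
  have hb1 : β ^ 2 ≤ 1 := pow_le_one₀ hβ.1 hβ.2
  rcases greedy (fun v : V n => m ⬝ᵥ v = 0 ∧ ∃ S : Finset (Fin n), (S.card : ℝ) ≤ ρ * n ∧
    v ⬝ᵥ AS β W M m S *ᵥ v < 2 * w) k with ⟨u, hu, hb⟩ | ⟨u, hu, hb, hv⟩
  · exact (no_frame hβ hκ hκ1 hw hM hk hρ (by linarith) hn hG hm h2 hu fun a => (hb a).2).elim
  have hU : OZ (Fin.cons (unitv m) u : Fin (k + 1) → V n) := by
    refine ⟨fun i => ?_, cons_orth hu.2 fun j => ?_⟩
    · rcases Fin.eq_zero_or_eq_succ i with rfl | ⟨i, rfl⟩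
      · exact unitv_cases m
      · simpa using hu.1 i
    · rcases hb j with h | h
      · rw [h, zero_dotProduct]
      · rw [unitv, dotProduct_smul, dotProduct_comm, h.1, smul_zero]
  refine ⟨_, hU, fun p hp hpm => ?_⟩
  set U : Fin (k + 1) → V n := Fin.cons (unitv m) u with hUd
  obtain ⟨S, hS, hS'⟩ := far_set M hm hp hpm
  have hav := avg_close M hm hp hn hS hS'
  refine ⟨hav.trans (by linarith), fun x => ?_⟩
  set v : V n := dd p * x with hvd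
  have h1 := penalty hU hw0 (opn_AS hβ hW M hm S) (fun y hy hy' => by
    by_contra hlt
    refine hv y hy (fun j => by simpa [hUd] using hy' j.succ) ⟨?_, S, hS, not_le.1 hlt⟩
    have h0 : unitv m ⬝ᵥ y = 0 := by simpa [hUd] using hy' 0
    rw [← len_smul_unitv m, smul_dotProduct, h0, smul_zero]) v
  rw [quad_AS, qf] at h1
  have h3 : ∑ i, 1 / gD M (jS M m S i) * v i ^ 2 ≤ x ⬝ᵥ x := by
    refine Finset.sum_le_sum fun i _ => ?_
    have h4 : DD p i ≤ gD M (jS M m S i) := by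
      rw [jS]
      split_ifs with h5
      · rw [gD_last]; exact DD_le_one p i
      · exact le_rd M (DD_le_one p i) (by linarith [(abs_le.1 (hS' i h5)).2])
    rw [hvd, Pi.mul_apply, mul_pow, dd_sq hp, ← mul_assoc, ← sq, one_div_mul_eq_div]
    exact mul_le_of_le_one_left (sq_nonneg _) (div_le_one_of_le₀ h4 (gD_pos M _).le)
  have hvv := dot_self_nonneg v
  have hP : 0 ≤ ∑ j, (U j ⬝ᵥ v) ^ 2 := Finset.sum_nonneg fun j _ => sq_nonneg _
  have h4 : (p ⬝ᵥ v) ^ 2 / n ≤ 2 * ∑ j, (U j ⬝ᵥ v) ^ 2 + 2 * (ρ * (v ⬝ᵥ v)) := by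
    have e1 : p ⬝ᵥ v = m ⬝ᵥ v + (p - m) ⬝ᵥ v := by rw [sub_dotProduct]; ring
    have a1 : (m ⬝ᵥ v) ^ 2 ≤ n * ∑ j, (U j ⬝ᵥ v) ^ 2 := by
      have e2 : m ⬝ᵥ v = len m * (U 0 ⬝ᵥ v) := by
        conv_lhs => rw [← len_smul_unitv m]
        rw [smul_dotProduct, smul_eq_mul, hUd, Fin.cons_zero]
      rw [e2, mul_pow, len_sq]
      exact mul_le_mul (cb_dot hm) (Finset.single_le_sum (f := fun j => (U j ⬝ᵥ v) ^ 2)
        (fun j _ => sq_nonneg _) (Finset.mem_univ 0)) (sq_nonneg _) hn'.le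
    have a2 : ((p - m) ⬝ᵥ v) ^ 2 ≤ ρ * n * (v ⬝ᵥ v) := by
      refine (Eig.dot_sq_le _ _).trans (mul_le_mul_of_nonneg_right (le_trans ?_ hpm) hvv)
      exact le_mul_of_one_le_left (dot_self_nonneg _)
        (one_le_pow₀ (by linarith [(Nat.cast_nonneg M : (0 : ℝ) ≤ M)]))
    rw [div_le_iff₀ hn', e1]
    nlinarith [sq_nonneg (m ⬝ᵥ v - (p - m) ⬝ᵥ v)]
  have h5 := fin_num (a := avg (DD p)) (sq_nonneg β) hb1 (by positivity) hρ hM (by linarith) hvv hP h1 h3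
    (by linarith [(abs_le.1 hav).1]) h4 (y := 2 * β ^ 2 / n * (p ⬝ᵥ v) ^ 2) (by ring)
  rw [quad_NN, ← hvd, sub_mulVec, dotProduct_sub, quad_B1 β W hp, smul_mulVec, dotProduct_smul,
    quad_pm, smul_eq_mul]
  refine pos_num (by positivity) h5 ?_
  have a1 : β * (v ⬝ᵥ W *ᵥ v) ≤ 3 * (v ⬝ᵥ v) := by
    have a2 := (abs_le.1 (Eig.abs_quad_le W v)).2
    have a3 := mul_le_mul_of_nonneg_right hW hvv
    have a4 := mul_le_mul_of_nonneg_left (a2.trans a3) hβ.1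
    exact a4.trans (mul_le_of_le_one_left (by positivity) hβ.2)
  have a2 : 2 * β ^ 2 / n * (p ⬝ᵥ v) ^ 2 ≤ 2 * (v ⬝ᵥ v) := by
    have a3 := (Eig.dot_sq_le p v).trans (mul_le_mul_of_nonneg_right (cb_dot hp) hvv)
    have a4 : (p ⬝ᵥ v) ^ 2 / n ≤ v ⬝ᵥ v := by rw [div_le_iff₀ hn', mul_comm]; exact a3
    have a5 : β ^ 2 * ((p ⬝ᵥ v) ^ 2 / n) ≤ v ⬝ᵥ v :=
      (mul_le_of_le_one_left (by positivity) hb1).trans a4
    calc _ = 2 * (β ^ 2 * ((p ⬝ᵥ v) ^ 2 / n)) := by ring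
      _ ≤ _ := by linarith
  have a3 : 0 ≤ β ^ 2 * avg (DD p) * (v ⬝ᵥ v) :=
    mul_nonneg (mul_nonneg (sq_nonneg β) (avg_DD_mem hp).1) hvv
  have a4 : 0 ≤ (((M : ℝ) + 5) ^ 2 / w + ((M : ℝ) + 5) + w + 4) * ∑ j, (U j ⬝ᵥ v) ^ 2 := by
    positivity
  linarith

/-- the event of `(U2)`, with an orthogonal projection -/
def Ev (W : Mx n) (β κ c L ρ : ℝ) (r : ℕ) : Prop :=
  ∀ m : V n, Cb m → β ^ 2 * avg (fun i => DD m i ^ 2) ≤ 1 - κ → ∃ U : Fin r → V n, OZ U ∧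
    ∀ p : V n, Cb p → nrm (p - m) ≤ ρ * Real.sqrt n →
      |avg (DD p) - avg (DD m)| ≤ κ / 2 ∧ Pos c (NN (B1 (β • W) (β ^ 2) p - L • pm U) (dd p))

/-- **(U2)** with an exponentially small failure probability -/
theorem u2_tail {κ : ℝ} (hκ : 0 < κ) : ∃ c > (0 : ℝ), ∃ L ≥ (0 : ℝ), ∃ r : ℕ, ∃ ρ > (0 : ℝ),
    c ≤ κ / 2 ∧ ∀ β ∈ Icc (0 : ℝ) 1, ∀ n : ℕ, 0 < n →
      (GOE n).real {W | ¬ Ev W β κ c L ρ r} ≤ 3 * Real.exp (-(n / 4)) := by
  set κ' := min κ 1 with hκ'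
  have h0 : 0 < κ' := lt_min hκ one_pos
  have h1 : κ' ≤ 1 := min_le_right _ _
  have h2 : κ' ≤ κ := min_le_left _ _
  set w := κ' ^ 2 / 64 with hw
  have hw0 : 0 < w := by positivity
  have hwκ : w ≤ κ / 2 := by rw [hw]; nlinarith
  obtain ⟨M, hM⟩ := exists_nat_ge (9 / w)
  have hM' : 9 * (1 / ((M : ℝ) + 1)) ≤ w := by
    rw [mul_one_div, div_le_iff₀ (by positivity)]
    rw [div_le_iff₀ hw0] at hM
    nlinarith
  obtain ⟨k, hk⟩ := exists_nat_ge (4 * (Real.log ((M : ℝ) + 1) + 1) / w ^ 2)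
  have hlog : 0 ≤ Real.log ((M : ℝ) + 1) :=
    Real.log_nonneg (by linarith [(Nat.cast_nonneg M : (0 : ℝ) ≤ M)])
  have hk0 : (0 : ℝ) < k := lt_of_lt_of_le (by positivity) hk
  have hk' : 0 < k := Nat.cast_pos.1 hk0
  refine ⟨w / 2 / (w / 2 + 5), by positivity, ((M : ℝ) + 5) ^ 2 / w + ((M : ℝ) + 5) + w + 4,
    by positivity, k + 1, Real.sqrt (w / (20 * k)) / ((M : ℝ) + 1), by positivity, ?_,
    fun β hβ n hn => ?_⟩
  · rw [div_le_iff₀ (by positivity)]; nlinarith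
  have hn' : (0 : ℝ) < n := Nat.cast_pos.2 hn
  have a1 := good1_tail (n := n) hβ (τ := κ' / 4) (by linarith) hw0.le M hk' hn
  have a2 := Nrm.goe_opn_tail_n (n := n) (t := 1) zero_le_one
  have a3 : ((M : ℝ) + 1) ^ n * Real.exp (-(k * w ^ 2 * n / 4)) ≤ Real.exp (-(n / 4)) := by
    rw [← Real.exp_log (by positivity : (0 : ℝ) < (M : ℝ) + 1), ← Real.exp_nat_mul, ← Real.exp_add,
      Real.exp_le_exp]
    rw [div_le_iff₀ (by positivity)] at hk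
    nlinarith
  have a4 : {W : Mx n | ¬ Ev W β κ (w / 2 / (w / 2 + 5))
      (((M : ℝ) + 5) ^ 2 / w + ((M : ℝ) + 5) + w + 4)
      (Real.sqrt (w / (20 * k)) / ((M : ℝ) + 1)) (k + 1)} ⊆
      {W | ¬ Good1 W β (κ' / 4) w M k} ∪ {W | 2 + 1 ≤ opn W} := by
    intro W hW
    by_contra hc
    simp only [mem_union, mem_ofPred_eq, not_or, not_not, not_le] at hc
    refine hW fun m hm hm2 => ?_
    obtain ⟨U, hU, h⟩ := u2_det hβ h0 h1 hw hM' hk' (ρ := w / (20 * k)) (by positivity)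
      (le_of_eq (by field_simp)) hn (by linarith [hc.2]) hc.1 hm (by linarith)
    refine ⟨U, hU, fun p hp hpm => ?_⟩
    have b1 : ((M : ℝ) + 1) ^ 2 * ((p - m) ⬝ᵥ (p - m)) ≤ w / (20 * k) * n := by
      have b2 := pow_le_pow_left₀ (nrm_nonneg _) hpm 2
      rw [nrm_sq, mul_pow, div_pow, Real.sq_sqrt (by positivity), Real.sq_sqrt hn'.le,
        div_mul_eq_mul_div, le_div_iff₀ (by positivity)] at b2
      linarith
    exact ⟨(h p hp b1).1.trans hwκ, (h p hp b1).2⟩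
  have a5 := (measureReal_mono (μ := GOE n) a4).trans (measureReal_union_le _ _)
  rw [one_pow, mul_one] at a2
  linarith

theorem u2_whp {κ : ℝ} (hκ : 0 < κ) : ∃ c > (0 : ℝ), ∃ L ≥ (0 : ℝ), ∃ r : ℕ, ∃ ρ > (0 : ℝ),
    c ≤ κ / 2 ∧ ∀ β ∈ Icc (0 : ℝ) 1, Top.Whp GOE fun _ W => Ev W β κ c L ρ r := by
  obtain ⟨c, hc, L, hL, r, ρ, hρ, hcκ, h⟩ := u2_tail hκ
  refine ⟨c, hc, L, hL, r, ρ, hρ, hcκ, fun β hβ => ?_⟩
  refine Top.whp_of_real_le (a := fun n : ℕ => 3 * Real.exp (-((n : ℝ) / 4))) ?_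
    ((eventually_gt_atTop 0).mono fun n hn => h β hβ n hn)
  have h1 : Tendsto (fun n : ℕ => (n : ℝ) / 4) atTop atTop :=
    tendsto_natCast_atTop_atTop.atTop_div_const (by norm_num)
  simpa using (Real.tendsto_exp_neg_atTop_nhds_zero.comp h1).const_mul 3

lemma OZ.pen {r : ℕ} {U : Fin r → V n} (hU : OZ U) (L : ℝ) : Lp.Pen r L (L • pm U) := by
  refine ⟨U, fun j => ?_, rfl⟩
  rcases hU.1 j with h | h
  · exact h.le
  · simp [h]

theorem u2Stmt : Lp.U2Stmt := by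
  intro β hβ k1 hk1
  obtain ⟨c, hc, L, hL, r, ρ, hρ, hcκ, h⟩ := u2_whp hk1
  refine ⟨c, hc, L, hL, r, ρ, hρ, (h β ⟨hβ.1.le, hβ.2⟩).imp fun n W hW m hm hm1 => ?_⟩
  have hb1 : β ^ 2 ≤ 1 := pow_le_one₀ hβ.1.le hβ.2
  have h1 : avg (fun i => DD m i ^ 2) ≤ avg (DD m) :=
    div_le_div_of_nonneg_right (Finset.sum_le_sum fun i _ => by
      rw [sq]; exact mul_le_of_le_one_right (DD_nonneg hm i) (DD_le_one m i)) (Nat.cast_nonneg n)
  have h2 : 0 ≤ avg (fun i => DD m i ^ 2) :=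
    div_nonneg (Finset.sum_nonneg fun i _ => sq_nonneg _) (Nat.cast_nonneg n)
  obtain ⟨U, hU, h3⟩ := hW m hm ((mul_le_of_le_one_left h2 hb1).trans (h1.trans hm1))
  refine ⟨_, hU.pen L, fun p hp hpm => ⟨(h3 p hp hpm).2, ?_⟩⟩
  have h4 := (abs_le.1 (h3 p hp hpm).1).2
  have h5 := mul_le_of_le_one_left (avg_DD_mem hp).1 hb1
  linarith

end Crest.Agent.T157.U2

end
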