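import Crest.Agent.T157.TapUfR_14
import Crest.Agent.T157.U2_11

/-!
# Row 157, part A: `UfEStmt`, `DetEStmt` and `Tap.DETStmt` from robust uniform freeness (helper14)
-/

set_option autoImplicit false

noncomputable section

namespace Crest.Agent.T157.Lp

open MeasureTheory ProbabilityTheory Matrix Filter Set Topology
open Crest.Agent.T157.E Crest.Agent.T157.Eig Crest.Agent.T157.Cond Crest.Agent.T157.Tap
open Crest.Agent.T157.Kr (fro fro_nonneg)
open Crest.Agent.T157.Tap.Uf14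
open scoped MatrixOrder

namespace E14

variable {n : ℕ}

lemma det_le_exp {M : Mx n} (hM : M.PosSemidef) : M.det ≤ Real.exp (M.trace - n) := by
  have hH := hM.1
  rw [hH.det_eq_prod_eigenvalues, hH.trace_eq_sum_eigenvalues]
  simp only [RCLike.ofReal_real_eq_id, id]
  have : ∑ i, hH.eigenvalues i - n = ∑ i : Fin n, (hH.eigenvalues i - 1) := by simp
  rw [this, Real.exp_sum]
  refine Finset.prod_le_prod (fun i _ => hM.eigenvalues_nonneg i) fun i _ => ?_
  linarith [Real.add_one_le_exp (hH.eigenvalues i - 1)]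

lemma det_le_det_mul_exp {G M : Mx n} (hG : G.PosSemidef) (hdet : G.det ≠ 0) (hM : M.PosSemidef) :
    M.det ≤ G.det * Real.exp ((G⁻¹ * M).trace - n) := by
  obtain ⟨B, hB⟩ := CStarAlgebra.nonneg_iff_eq_star_mul_self.mp hG.nonneg
  have hB' : G = Bᵀ * B := by
    rw [hB, Matrix.star_eq_conjTranspose, Matrix.conjTranspose_eq_transpose_of_trivial]
  have hdetG : G.det = B.det ^ 2 := by
    rw [hB', Matrix.det_mul, Matrix.det_transpose]; ring
  have hBdet : B.det ≠ 0 := by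
    intro h0
    apply hdet
    rw [hdetG, h0]; ring
  have hN := hM.conjTranspose_mul_mul_same B⁻¹
  rw [Matrix.conjTranspose_eq_transpose_of_trivial] at hN
  have h1 := det_le_exp hN
  have h2 : (B⁻¹ᵀ * M * B⁻¹).trace = (G⁻¹ * M).trace := by
    rw [Matrix.mul_assoc, Matrix.trace_mul_comm, Matrix.mul_assoc, Matrix.trace_mul_comm, hB',
      Matrix.mul_inv_rev, Matrix.transpose_nonsing_inv]
  have h3 : (B⁻¹ᵀ * M * B⁻¹).det = M.det / G.det := by
    rw [Matrix.det_mul, Matrix.det_mul, Matrix.det_transpose, Matrix.det_nonsing_inv,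
      Ring.inverse_eq_inv', hdetG]
    field_simp
  rw [h2, h3] at h1
  have hGpos : 0 < G.det := by rw [hdetG]; positivity
  rw [div_le_iff₀ hGpos] at h1
  linarith

lemma psd {c : ℝ} (hc : 0 < c) {M : Mx n} (hs : Mᵀ = M) (h : Pos c M) : M.PosSemidef :=
  Matrix.PosSemidef.of_dotProduct_mulVec_nonneg (herm_iff.2 hs) fun x => by
    rw [star_trivial]
    exact (mul_nonneg hc.le (Cond.dot_self_nonneg x)).trans (h x)

/-- the path of matrices -/
def Nt (X : Mx n) (d : V n) (θ : ℝ) : Mx n := NN (B0 (θ • X) (θ ^ 2) d) d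

lemma Nt_eq (X : Mx n) (d : V n) (θ : ℝ) : Nt X d θ = 1 - θ • (diagonal d * X * diagonal d) +
    (θ ^ 2 * avg fun i => d i ^ 2) • (diagonal d * diagonal d) := by
  unfold Nt NN B0
  simp only [Matrix.mul_sub, Matrix.sub_mul, Matrix.mul_smul, Matrix.smul_mul, Matrix.mul_one]
  abel

lemma Nt_symm {X : Mx n} (hX : Xᵀ = X) (d : V n) (θ : ℝ) : (Nt X d θ)ᵀ = Nt X d θ :=
  Uf.NN_symm (by simp [B0, hX]) d

lemma opn_D {d : V n} (hd : Ub d) : opn (diagonal d) ≤ 1 := Uf.opn_diag_le hd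

lemma Nt_pos {X : Mx n} {d : V n} (hd : Ub d) {β c τ : ℝ} (h : Pos c (Nt X d β))
    (ha : β ^ 2 * avg (fun i => d i ^ 2) ≤ 1 - c) (h0 : 0 ≤ τ) (h1 : τ ≤ 1) :
    Pos c (Nt X d (τ * β)) := by
  intro u
  have hu := h u
  rw [Nt_eq] at hu ⊢
  simp only [add_mulVec, sub_mulVec, one_mulVec, smul_mulVec, dotProduct_add, dotProduct_sub,
    dotProduct_smul, smul_eq_mul] at hu ⊢
  have hδ : u ⬝ᵥ (diagonal d * diagonal d) *ᵥ u ≤ u ⬝ᵥ u := by
    have := (le_abs_self _).trans (abs_quad_le (diagonal d * diagonal d) u)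
    have h2 := mul_le_mul_of_nonneg_right (opn_mul_le' (opn_D hd) (opn_D hd))
      (Cond.dot_self_nonneg u)
    linarith
  have hu0 := Cond.dot_self_nonneg u
  have hb0 : 0 ≤ β ^ 2 * avg fun i => d i ^ 2 := mul_nonneg (sq_nonneg _) (avg_sq_le hd).1
  generalize u ⬝ᵥ (diagonal d * diagonal d) *ᵥ u = δ at *
  generalize u ⬝ᵥ (diagonal d * X * diagonal d) *ᵥ u = y at *
  generalize u ⬝ᵥ u = s at *
  generalize avg (fun i => d i ^ 2) = a at *
  have h3 : τ * (β ^ 2 * a) * δ ≤ (1 - c) * s := by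
    have h4 : τ * (β ^ 2 * a) ≤ 1 - c := (mul_le_of_le_one_left hb0 h1).trans ha
    exact (mul_le_mul_of_nonneg_left hδ (mul_nonneg h0 hb0)).trans
      (mul_le_mul_of_nonneg_right h4 hu0)
  have h5 := mul_le_mul_of_nonneg_left h3 (sub_nonneg.2 h1)
  have h6 := mul_le_mul_of_nonneg_left hu h0
  nlinarith

lemma step {X : Mx n} (hX : Xᵀ = X) {d : V n} (hd : Ub d) {c θ θ' K : ℝ} (hc : 0 < c) (h0 : 0 < θ)
    (h1 : θ ≤ θ') (h2 : θ' ≤ 1) (p : Pos c (Nt X d θ)) (p' : Pos c (Nt X d θ'))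
    (t1 : |(B0 (θ • X) (θ ^ 2) d * GG (B0 (θ • X) (θ ^ 2) d) d).trace| ≤ K)
    (t2 : θ * |(GG (B0 (θ • X) (θ ^ 2) d) d).trace - n * avg fun i => d i ^ 2| ≤ K) :
    (Nt X d θ').det ≤ (Nt X d θ).det *
      Real.exp ((θ' - θ) * (θ' * n * avg (fun i => d i ^ 2) ^ 2 + 2 * K / θ)) := by
  have hu := Pos.unit hc p
  refine (det_le_det_mul_exp (psd hc (Nt_symm hX d θ) p) hu.ne_zero
    (psd hc (Nt_symm hX d θ') p')).trans (mul_le_mul_of_nonneg_left (Real.exp_le_exp.2 ?_)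
      (psd hc (Nt_symm hX d θ) p).det_nonneg)
  obtain ⟨a0, a1⟩ := avg_sq_le hd
  set a := avg fun i => d i ^ 2 with ha
  set G := GG (B0 (θ • X) (θ ^ 2) d) d with hG
  have hG' : G = diagonal d * (Nt X d θ)⁻¹ * diagonal d := rfl
  have e1 : Nt X d θ' = Nt X d θ - (θ' - θ) • (diagonal d * X * diagonal d) +
      ((θ' ^ 2 - θ ^ 2) * a) • (diagonal d * diagonal d) := by
    rw [Nt_eq, Nt_eq, sub_mul, sub_smul, sub_smul]
    abel
  have e2 : ((Nt X d θ)⁻¹ * (diagonal d * X * diagonal d)).trace = (X * G).trace := by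
    rw [hG', ← Matrix.mul_assoc, trace_mul_comm, ← Matrix.mul_assoc, ← Matrix.mul_assoc,
      trace_mul_comm]
  have e3 : ((Nt X d θ)⁻¹ * (diagonal d * diagonal d)).trace = G.trace := by
    rw [hG', ← Matrix.mul_assoc, trace_mul_comm, ← Matrix.mul_assoc]
  have e4 : (B0 (θ • X) (θ ^ 2) d * G).trace = θ * (X * G).trace - θ ^ 2 * a * G.trace := by
    unfold B0
    rw [Matrix.sub_mul, Matrix.smul_mul, Matrix.smul_mul, Matrix.one_mul, trace_sub, trace_smul,
      trace_smul, smul_eq_mul, smul_eq_mul]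
  rw [e1, Matrix.mul_add, Matrix.mul_sub, nonsing_inv_mul _ hu, Matrix.mul_smul, Matrix.mul_smul,
    trace_add, trace_sub, trace_smul, trace_smul, trace_one, Fintype.card_fin, e2, e3, smul_eq_mul,
    smul_eq_mul]
  rw [e4] at t1
  have b1 := (abs_le.1 t1).1
  have b2 : θ * (G.trace - n * a) ≤ K := (mul_le_mul_of_nonneg_left (le_abs_self _) h0.le).trans t2
  have hK : 0 ≤ K := (abs_nonneg _).trans t1
  have b3 : -(X * G).trace + (θ' + θ) * a * G.trace ≤ θ' * n * a ^ 2 + 2 * K / θ := by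
    refine le_of_mul_le_mul_left ?_ h0
    have h5 : θ * (2 * K / θ) = 2 * K := by field_simp
    have h6 : θ' * a ≤ 1 := mul_le_one₀ h2 a0 a1
    have h7 := mul_le_mul_of_nonneg_left b2 (mul_nonneg (h0.le.trans h1) a0)
    have h8 := mul_le_mul_of_nonneg_right h6 hK
    rw [mul_add θ (θ' * n * a ^ 2), h5]
    linarith
  have := mul_le_mul_of_nonneg_left b3 (sub_nonneg.2 h1)
  linarith

lemma det_path {X : Mx n} (hX : Xᵀ = X) {d : V n} (hd : Ub d) {β c K κ : ℝ} (hc : 0 < c)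
    (hβ : β ∈ Ioc (0 : ℝ) 1) (hκ : opn X ≤ κ) (p : Pos c (Nt X d β))
    (ha : β ^ 2 * avg (fun i => d i ^ 2) ≤ 1 - c)
    (t : ∀ θ ∈ Icc (0 : ℝ) 1, θ ^ 2 * avg (fun i => d i ^ 2) ≤ 1 - c → Pos c (Nt X d θ) →
      |(B0 (θ • X) (θ ^ 2) d * GG (B0 (θ • X) (θ ^ 2) d) d).trace| ≤ K ∧
      θ * |(GG (B0 (θ • X) (θ ^ 2) d) d).trace - n * avg fun i => d i ^ 2| ≤ K)
    {m : ℕ} (hm : 0 < m) :
    (Nt X d β).det ≤ Real.exp (n * (β ^ 2 * avg (fun i => d i ^ 2) ^ 2 / 2 + (κ + 2) / m) +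
      2 * K * m) := by
  have hm' : (0 : ℝ) < m := by exact_mod_cast hm
  have hm1 : (1 : ℝ) ≤ m := by exact_mod_cast hm
  have hn0 : (0 : ℝ) ≤ n := Nat.cast_nonneg n
  have hκ0 : 0 ≤ κ := (opn_nonneg _).trans hκ
  obtain ⟨a0, a1⟩ := avg_sq_le hd
  have hK : 0 ≤ K := (abs_nonneg _).trans (t β ⟨hβ.1.le, hβ.2⟩ ha p).1
  set a := avg fun i => d i ^ 2 with ha_def
  set h := β / m with hh
  have h0 : 0 < h := div_pos hβ.1 hm'
  have hmh : m * h = β := by rw [hh]; field_simp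
  have hpos : ∀ x : ℝ, 0 ≤ x → x ≤ m → Pos c (Nt X d (x * h)) ∧ x * h ≤ β := fun x x0 x1 => by
    have e : x * h = x / m * β := by rw [hh]; ring
    refine ⟨e ▸ Nt_pos hd p ha (by positivity) (div_le_one_of_le₀ x1 hm'.le), ?_⟩
    rw [← hmh]
    exact mul_le_mul_of_nonneg_right x1 h0.le
  have hind : ∀ j : ℕ, j + 1 ≤ m → (Nt X d ((j + 1) * h)).det ≤
      Real.exp (n * (κ + 1) * h + h ^ 2 * n * a ^ 2 * ((j + 1) * (j + 2) / 2) + 2 * K * (j + 1)) := by
    intro j hj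
    induction j with
    | zero =>
      obtain ⟨q, q1⟩ := hpos 1 zero_le_one hm1
      simp only [Nat.cast_zero, zero_add]
      refine (det_le_exp (psd hc (Nt_symm hX d _) q)).trans (Real.exp_le_exp.2 ?_)
      rw [one_mul] at q1 ⊢
      have h1 : h ≤ 1 := q1.trans hβ.2
      rw [Nt_eq, trace_add, trace_sub, trace_one, Fintype.card_fin, trace_smul, trace_smul,
        smul_eq_mul, smul_eq_mul]
      have b1 := (abs_le.1 (Uf.abs_trace_le (opn_mul_le' (opn_mul_le' (opn_D hd) hκ) (opn_D hd)))).1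
      have b2 := (abs_le.1 (Uf.abs_trace_le (opn_mul_le' (opn_D hd) (opn_D hd)))).2
      have b3 := mul_le_mul_of_nonneg_left b1 h0.le
      have b4 : h ^ 2 * a ≤ h := by nlinarith [mul_le_one₀ h1 a0 a1]
      have b5 := mul_le_mul_of_nonneg_left b2 (show 0 ≤ h ^ 2 * a by positivity)
      have b6 := mul_le_mul_of_nonneg_right b4 hn0
      have b7 : 0 ≤ h ^ 2 * n * a ^ 2 := by positivity
      linarith
    | succ j ih =>
      have hj' : ((j : ℝ) + 1) + 1 ≤ m := by exact_mod_cast hj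
      have hj0 : (0 : ℝ) ≤ j := Nat.cast_nonneg j
      obtain ⟨q, q1⟩ := hpos (j + 1) (by positivity) (by linarith)
      obtain ⟨q', q1'⟩ := hpos (j + 1 + 1) (by positivity) hj'
      have θ0 : 0 < ((j : ℝ) + 1) * h := by positivity
      have hle : (((j : ℝ) + 1) * h) ^ 2 * a ≤ 1 - c :=
        (mul_le_mul_of_nonneg_right (pow_le_pow_left₀ θ0.le q1 2) a0).trans ha
      obtain ⟨t1, t2⟩ := t _ ⟨θ0.le, q1.trans hβ.2⟩ hle q
      have s := step hX hd hc θ0 (by nlinarith) (q1'.trans hβ.2) q q' t1 t2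
      push_cast
      refine s.trans ((mul_le_mul_of_nonneg_right (ih (Nat.le_of_succ_le hj))
        (Real.exp_pos _).le).trans ?_)
      rw [← Real.exp_add, Real.exp_le_exp]
      have e : (((j : ℝ) + 1 + 1) * h - (j + 1) * h) * ((j + 1 + 1) * h * n * a ^ 2 +
          2 * K / ((j + 1) * h)) = (j + 2) * (h ^ 2 * n * a ^ 2) + 2 * K / (j + 1) := by
        field_simp
        ring
      rw [e]
      have : 2 * K / ((j : ℝ) + 1) ≤ 2 * K := div_le_self (by positivity) (by linarith)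
      linarith
  obtain ⟨j, rfl⟩ : ∃ j, m = j + 1 := ⟨m - 1, by omega⟩
  have := hind j le_rfl
  push_cast at hmh hm' hm1 hh ⊢
  rw [hmh] at this
  refine this.trans (Real.exp_le_exp.2 ?_)
  have e : h ^ 2 * n * a ^ 2 * (((j : ℝ) + 1) * (j + 2) / 2) =
      n * (β ^ 2 * a ^ 2 / 2) + n * (β * a ^ 2 / 2 * h) := by rw [← hmh]; ring
  have b1 : h ≤ 1 / ((j : ℝ) + 1) := by rw [hh]; exact div_le_div_of_nonneg_right hβ.2 hm'.le
  have b2 : β * a ^ 2 / 2 ≤ 1 := by
    nlinarith [mul_le_one₀ hβ.2 (sq_nonneg a) (pow_le_one₀ a0 a1)]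
  have b3 : (κ + 1) * h + β * a ^ 2 / 2 * h ≤ (κ + 2) / ((j : ℝ) + 1) := by
    have := mul_le_mul_of_nonneg_right b2 h0.le
    have h3 := mul_le_mul_of_nonneg_left b1 (show 0 ≤ κ + 2 by positivity)
    rw [mul_one_div] at h3
    linarith
  have b4 := mul_le_mul_of_nonneg_left b3 hn0
  rw [e]
  linarith

lemma fro_vv (u : V n) : fro (vecMulVec u u) = u ⬝ᵥ u := by
  unfold fro
  rw [Real.sqrt_eq_iff_mul_self_eq (by positivity) (Cond.dot_self_nonneg u), dotProduct,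
    Finset.sum_mul_sum]
  exact Finset.sum_congr rfl fun i _ => Finset.sum_congr rfl fun j _ => by
    rw [vecMulVec_apply]; ring

lemma fro_sum_le {σ : Type} (s : Finset σ) (A : σ → Mx n) :
    fro (∑ j ∈ s, A j) ≤ ∑ j ∈ s, fro (A j) :=
  Finset.le_sum_of_subadditive fro fro_zero.le fro_add_le s A

lemma ub_dd {p : V n} : Ub (dd p) := fun i =>
  ⟨Real.sqrt_nonneg _, Real.sqrt_le_one.2 (by linarith [sq_nonneg (p i)])⟩

lemma avg_dd {p : V n} (hp : Cb p) : avg (fun i => dd p i ^ 2) = avg (DD p) := by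
  congr 1
  funext i
  exact Real.sq_sqrt (by nlinarith [hp i, sq_abs (p i), abs_nonneg (p i)])

/-- the penalised interaction is a bulk interaction of a nearby matrix -/
lemma pert {β L : ℝ} {r : ℕ} (hβ : β ∈ Ioc (0 : ℝ) 1) (hL : 0 ≤ L) (W : Mx n) {p : V n} (hp : Cb p)
    {E : Mx n} (hE : Pen r L E) : ∃ X : Mx n, fro (X - W) ≤ (2 + L * r) / β ∧ (Wᵀ = W → Xᵀ = X) ∧
      B1 (β • W) (β ^ 2) p - E = B0 (β • X) (β ^ 2) (dd p) := by
  obtain ⟨u, hu, rfl⟩ := hE
  refine ⟨W + β⁻¹ • ((2 * β ^ 2 / n) • vecMulVec p p - L • ∑ j, vecMulVec (u j) (u j)), ?_,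
    fun hW => ?_, ?_⟩
  · rw [add_sub_cancel_left, fro_smul, abs_of_pos (inv_pos.2 hβ.1), div_eq_inv_mul (2 + L * r)]
    refine mul_le_mul_of_nonneg_left ((fro_sub_le _ _).trans (add_le_add ?_ ?_)) (inv_pos.2 hβ.1).le
    · rw [fro_smul, fro_vv, abs_of_nonneg (by positivity)]
      have h1 : p ⬝ᵥ p ≤ n := by
        have := Finset.sum_le_card_nsmul Finset.univ (fun i => p i * p i) 1 fun i _ => by
          nlinarith [hp i, abs_mul_abs_self (p i), abs_nonneg (p i)]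
        simpa [dotProduct] using this
      have h2 : p ⬝ᵥ p / n ≤ 1 := div_le_one_of_le₀ h1 (Nat.cast_nonneg n)
      have h3 : β ^ 2 ≤ 1 := pow_le_one₀ hβ.1.le hβ.2
      have h4 := mul_le_one₀ h3 (div_nonneg (Cond.dot_self_nonneg p) (Nat.cast_nonneg n)) h2
      calc 2 * β ^ 2 / n * (p ⬝ᵥ p) = 2 * (β ^ 2 * (p ⬝ᵥ p / n)) := by ring
        _ ≤ 2 := by linarith
    · rw [fro_smul, abs_of_nonneg hL]
      refine mul_le_mul_of_nonneg_left ((fro_sum_le _ _).trans ?_) hL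
      have := Finset.sum_le_card_nsmul Finset.univ (fun j => fro (vecMulVec (u j) (u j))) 1
        fun j _ => (fro_vv _).trans_le (hu j)
      simpa using this
  · simp [hW, transpose_sum]
  · unfold B1 B0
    rw [smul_add, smul_smul, mul_inv_cancel₀ hβ.1.ne', one_smul]
    abel

lemma whp_symm : Top.Whp GOE fun _ W => Wᵀ = W := by
  refine tendsto_const_nhds.congr fun n => ?_
  exact (goe_ae_symm (ι := Fin n) _).symm

lemma whp_opn3 : Top.Whp GOE fun _ W => opn W ≤ 3 :=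
  Top.whp_of_real_le (a := fun n : ℕ => 2 * Real.exp (-(n * (1 / 4))))
    (by simpa using (tend_exp (show (0 : ℝ) < 1 / 4 by norm_num)).const_mul 2)
    (Eventually.of_forall fun _ => opn_tail)

lemma ev_sqrt (K : ℝ) {ε : ℝ} (hε : 0 < ε) : ∀ᶠ n : ℕ in atTop, K ≤ ε * √n :=
  ((Real.tendsto_sqrt_atTop.comp tendsto_natCast_atTop_atTop).const_mul_atTop hε).eventually_ge_atTop K

end E14

open E14 in
theorem ufEStmt : UfEStmt := by
  intro β hβ c hc L hL r ε hε
  obtain ⟨K, hK, h⟩ := ufR hc ((2 + L * r) / β)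
  refine h.mono ?_
  filter_upwards [ev_sqrt K hε, ev_sqrt K (mul_pos hβ.1 hε)] with n h1 h2 W hW p E hp ha hE hpos
  obtain ⟨X, hX, -, e⟩ := pert hβ hL W hp hE
  rw [e] at hpos ⊢
  rw [← avg_dd hp] at ha ⊢
  obtain ⟨a1, -, -, a4⟩ := hW X hX β ⟨hβ.1.le, hβ.2⟩ _ ub_dd ha hpos
  refine ⟨a1.trans h1, le_of_mul_le_mul_left (a4.trans ?_) hβ.1⟩
  have h3 := mul_le_mul_of_nonneg_right h2 (Real.sqrt_nonneg (n : ℝ))
  rw [mul_assoc, Real.mul_self_sqrt (Nat.cast_nonneg n), mul_assoc] at h3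
  exact h3

open E14 in
theorem detEStmt : DetEStmt := by
  intro β hβ c hc L hL r ε hε
  obtain ⟨K, hK, h⟩ := ufR hc ((2 + L * r) / β)
  set κ := 3 + (2 + L * r) / β with hκ
  have hκ0 : 0 ≤ κ := by have := hβ.1; positivity
  obtain ⟨m, hm⟩ := exists_nat_gt ((κ + 2) / (ε / 2))
  have hm0 : (0 : ℝ) < m := lt_of_le_of_lt (by positivity) hm
  refine ((h.and whp_symm).and whp_opn3).mono ?_
  filter_upwards [ev_sqrt (2 * K * m) (half_pos hε)] with n h1 W hW p E hp ha hE hpos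
  obtain ⟨X, hX, hs, e⟩ := pert hβ hL W hp hE
  rw [e] at hpos ⊢
  rw [← avg_dd hp] at ha ⊢
  have hop : opn X ≤ κ := by
    have h4 := opn_add_le (X - W) W
    rw [sub_add_cancel] at h4
    linarith [opn_le_sqrt_frob (X - W), show √(∑ i, ∑ j, (X - W) i j ^ 2) ≤ _ from hX, hW.2]
  have key := det_path (hs hW.1.2) ub_dd hc hβ hop hpos ha (K := K * √n)
    (fun θ hθ h2 h3 => (hW.1.1 X hX θ hθ _ ub_dd h2 h3).2.2) (m := m) (by exact_mod_cast hm0)
  refine (abs_of_nonneg (psd hc (Nt_symm (hs hW.1.2) _ β) hpos).det_nonneg).trans_le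
    (key.trans (Real.exp_le_exp.2 ?_))
  have h2 : (κ + 2) / m ≤ ε / 2 := by
    rw [div_lt_iff₀ (half_pos hε)] at hm
    rw [div_le_iff₀ hm0]
    linarith
  have h3 := mul_le_mul_of_nonneg_right h1 (Real.sqrt_nonneg (n : ℝ))
  rw [mul_assoc (ε / 2), Real.mul_self_sqrt (Nat.cast_nonneg n)] at h3
  have h4 := mul_le_mul_of_nonneg_left h2 (Nat.cast_nonneg (α := ℝ) n)
  linarith

namespace E14

/-- removing a finite-rank penalty changes the determinant by a bounded factor -/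
lemma det_remove {n r : ℕ} {B E : Mx n} {d : V n} (hd : Ub d) {c L : ℝ} (hc : 0 < c) (hL : 0 ≤ L)
    (hE : Pen r L E) (hp : Pos c (NN (B - E) d)) :
    |(NN B d).det| ≤ |(NN (B - E) d).det| * (r.factorial * (1 + L / c) ^ r) := by
  obtain ⟨u, hu, hE⟩ := hE
  set U : Matrix (Fin n) (Fin r) ℝ := Matrix.of fun i j => L * u j i with hU
  set P : Matrix (Fin r) (Fin n) ℝ := Matrix.of fun j i => u j i with hP
  have hUP : E = U * P := by
    rw [hE]
    ext i k
    simp [hU, hP, Matrix.mul_apply, Matrix.sum_apply, vecMulVec_apply, Finset.mul_sum, mul_assoc]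
  have hu' := Pos.unit hc hp
  have e : NN B d = NN (B - E) d *
      (1 - ((NN (B - E) d)⁻¹ * diagonal d * U) * (P * diagonal d)) := by
    rw [Matrix.mul_sub, Matrix.mul_one, ← Matrix.mul_assoc, ← Matrix.mul_assoc, ← Matrix.mul_assoc,
      ← Matrix.mul_assoc, mul_nonsing_inv _ hu', Matrix.one_mul, Matrix.mul_assoc _ U, ← hUP]
    unfold NN
    rw [Matrix.mul_sub, Matrix.sub_mul]
    abel
  rw [e, det_mul, abs_mul, det_one_sub_mul_comm]
  refine mul_le_mul_of_nonneg_left ?_ (abs_nonneg _)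
  have h := Matrix.det_le (A := 1 - P * diagonal d * ((NN (B - E) d)⁻¹ * diagonal d * U))
    (abv := AbsoluteValue.abs) (x := 1 + L / c) fun j k => by
      have e2 : P * diagonal d * ((NN (B - E) d)⁻¹ * diagonal d * U) = P * (GG (B - E) d * U) := by
        unfold GG
        simp only [Matrix.mul_assoc]
      have e3 : (P * (GG (B - E) d * U)) j k = L * (u j ⬝ᵥ GG (B - E) d *ᵥ u k) := by
        simp only [hU, hP, Matrix.mul_apply, Matrix.of_apply, dotProduct, mulVec, Finset.mul_sum]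
        exact Finset.sum_congr rfl fun i _ => Finset.sum_congr rfl fun l _ => by ring
      rw [e2, AbsoluteValue.abs_apply, Matrix.sub_apply, e3]
      refine (abs_sub _ _).trans (add_le_add ?_ ?_)
      · rw [Matrix.one_apply]; split_ifs <;> simp
      · rw [abs_mul, abs_of_nonneg hL, div_eq_mul_one_div]
        refine mul_le_mul_of_nonneg_left ((abs_bil_le _ _ _).trans ?_) hL
        have n1 : ∀ j, nrm (u j) ≤ 1 := fun j => Real.sqrt_le_one.2 (hu j)
        calc _ ≤ 1 / c * 1 := mul_le_mul (Uf.opn_GG_le hc hd hp)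
              (mul_le_one₀ (n1 j) (nrm_nonneg _) (n1 k))
              (mul_nonneg (nrm_nonneg _) (nrm_nonneg _)) (by positivity)
          _ = _ := mul_one _
  simpa using h

end E14

end Crest.Agent.T157.Lp

namespace Crest.Agent.T157.Tap

open Matrix Filter Set Crest.Agent.T157.Eig Crest.Agent.T157.Lp Crest.Agent.T157.Lp.E14

theorem detStmt14 : DETStmt := by
  intro β hβ c hc ε hε
  rcases hβ.1.eq_or_lt with rfl | hβ0
  · refine Top.whp_of_eventually (Eventually.of_forall fun n W p _ _ => ?_)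
    have : NN (B1 ((0 : ℝ) • W) (0 ^ 2) p) (dd p) = 1 := by simp [NN, B1, B0]
    rw [this, det_one, abs_one]
    exact Real.one_le_exp (by positivity)
  obtain ⟨c', hc', L, hL, r, ρ, hρ, hU⟩ := U2.u2Stmt β ⟨hβ0, hβ.2⟩ c hc
  refine (hU.and (detEStmt β ⟨hβ0, hβ.2⟩ c' hc' L hL r (ε / 2) (half_pos hε))).mono ?_
  filter_upwards [(tendsto_natCast_atTop_atTop.atTop_mul_const (half_pos hε)).eventually_ge_atTop
    ((r.factorial : ℝ) * (1 + L / c') ^ r)] with n hn W hW p hp ha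
  obtain ⟨E, hE, hG⟩ := hW.1 p hp ha
  obtain ⟨h1, h2⟩ := hG p hp (by rw [sub_self, nrm_eq_zero.2 rfl]; positivity)
  refine (det_remove ub_dd hc' hL hE h1).trans ((mul_le_mul (hW.2 p E hp h2 hE h1)
    (hn.trans ((le_add_of_nonneg_right zero_le_one).trans (Real.add_one_le_exp _)))
    (by positivity) (Real.exp_pos _).le).trans ?_)
  rw [← Real.exp_add, Real.exp_le_exp]
  linarith

end Crest.Agent.T157.Tap
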