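import Crest.Agent.T157.TapWinC_29
import Crest.Agent.T157.LpDef_17

/-!
# Row 157, part A: the general window lemma with the value inequality (helper29)
-/

set_option autoImplicit false

noncomputable section

namespace Crest.Agent.T157.Tap

open Matrix Filter Set Topology MeasureTheory
open Crest.Agent.T157.E Crest.Agent.T157.Eig Crest.Agent.T157.SL Crest.Agent.T157.Lp

variable {n : ℕ}

lemma hasDerivAt_hb2 (t : ℝ) : HasDerivAt hb2 (-(t * (1 - Real.tanh t ^ 2))) t := by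
  have h := Real.cosh_pos t
  refine ((((Real.hasDerivAt_cosh t).const_mul 2).log (by positivity)).sub
    ((hasDerivAt_id' t).mul (hasDerivAt_tanh' t))).congr_deriv ?_
  rw [Real.tanh_eq_sinh_div_cosh]
  field_simp
  ring

lemma continuous_hb2 : Continuous hb2 :=
  continuous_iff_continuousAt.2 fun t => (hasDerivAt_hb2 t).continuousAt

lemma abs_logZ_le {Ω : Type*} [Fintype Ω] {w l : Ω → ℝ} (hw : Wt w) {B : ℝ} (h : ∀ x, |l x| ≤ B) :
    |Real.log (Zw fun x => w x * Real.exp (l x)) - Real.log (Zw w)| ≤ B := by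
  have h1 : 0 < Zw fun x => w x * Real.exp (l x) := (hw.mul_pos fun _ => Real.exp_pos _).pos
  have h0 : 0 < Zw w := hw.pos
  rw [← Real.log_div h1.ne' h0.ne', abs_le, Real.le_log_iff_exp_le (by positivity),
    Real.log_le_iff_le_exp (by positivity), Zw, Zw, ← mean_eq_div]
  exact ⟨hw.le_mean fun x => Real.exp_le_exp.2 (abs_le.1 (h x)).1,
    hw.mean_le fun x => Real.exp_le_exp.2 (abs_le.1 (h x)).2⟩

namespace WS

variable (W : WS n)

/-- the TAP value on the branch -/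
def Ph (q : Pt (Fin n)) : ℝ := Phi (W.Jt q.1) (W.b q.1) (W.y0 + W.Qᵀ *ᵥ q.2) (W.xi q)
/-- its time derivative -/
def Pg (q : Pt (Fin n)) : ℝ :=
  -(W.pp q ⬝ᵥ W.S *ᵥ W.pp q) / 2 + n * W.b1 q.1 * avg (DD (W.pp q)) ^ 2 / 4
/-- the value process -/
def XX (w : Cube n → ℝ) (q : Pt (Fin n)) : ℝ :=
  Real.log (Zw (pw W.ph w q)) - W.Ph q + q.1 * (W.c0 * n / 2)
/-- the remainder of the value identity -/
def rv (q : Pt (Fin n)) : ℝ := (W.Sg * W.Gq q).trace / 2 - W.c0 * n * avg (DD (W.pp q)) / 2 +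
  n * W.b1 q.1 * avg (DD (W.pp q)) ^ 2 / 4

variable {W} {w : Cube n → ℝ} {K : ℝ}

lemma cont_Ph : ContinuousOn W.Ph W.U := by
  have hb := W.cont_b
  have h2 := continuous_hb2
  have h3 := continuous_tanh'
  have hc : Continuous fun a : Pt (Fin n) × V n =>
      Phi (W.J0 - a.1.1 • W.S) (W.b a.1.1) (W.y0 + W.Qᵀ *ᵥ a.1.2) a.2 := by
    simp only [Phi, avg, DD]
    unfold th
    fun_prop
  exact (hc.comp_continuousOn (continuousOn_id.prodMk (cont_xi (W := W)))).congr fun _ _ => rfl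

lemma cont_Pg : ContinuousOn W.Pg W.U := by
  have hb := W.hb1
  have hc : Continuous fun a : Pt (Fin n) × V n =>
      -(a.2 ⬝ᵥ W.S *ᵥ a.2) / 2 + n * W.b1 a.1.1 * avg (DD a.2) ^ 2 / 4 := by
    simp only [avg, DD]; fun_prop
  exact (hc.comp_continuousOn (continuousOn_id.prodMk (cont_pp (W := W)))).congr fun _ _ => rfl

lemma hasDerivAt_dot {u v : ℝ → V n} {u' v' : V n} {s : ℝ} (hu : HasDerivAt u u' s)
    (hv : HasDerivAt v v' s) : HasDerivAt (fun s => u s ⬝ᵥ v s) (u' ⬝ᵥ v s + u s ⬝ᵥ v') s :=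
  (HasDerivAt.fun_sum fun i _ => (hasDerivAt_pi.1 hu i).mul (hasDerivAt_pi.1 hv i)).congr_deriv
    Finset.sum_add_distrib

/-- envelope theorem -/
lemma hasDerivAt_Ph (hn : 0 < n) {c : ℝ → Pt (Fin n)} {c' : Pt (Fin n)} {s : ℝ}
    (hc : HasDerivAt c c' s) (h1 : (c s).1 ∈ Ioo 0 W.h) (h2 : (c s).2 ∈ W.O) :
    HasDerivAt (fun s => W.Ph (c s)) (W.Pg (c s) * c'.1 + W.Q *ᵥ W.pp (c s) ⬝ᵥ c'.2) s := by
  have hc1 : HasDerivAt (fun s => (c s).1) c'.1 s :=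
    (ContinuousLinearMap.fst ℝ ℝ (V n)).hasFDerivAt.comp_hasDerivAt s hc
  have hc2 : HasDerivAt (fun s => (c s).2) c'.2 s :=
    (ContinuousLinearMap.snd ℝ ℝ (V n)).hasFDerivAt.comp_hasDerivAt s hc
  have hx := hasDerivAt_xi hc h1 h2
  generalize W.Rq (c s) *ᵥ (W.Qᵀ *ᵥ c'.2 - c'.1 • W.Yt (c s)) = x' at hx
  have hp : HasDerivAt (fun s => W.pp (c s)) (fun i => DD (W.pp (c s)) i * x' i) s :=
    hasDerivAt_th hx
  have hs := (spec (mem_of_mem_nhds (U_mem h1 h2))).2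
  have e : ∀ s, W.Ph (c s) = 1 / 2 * (W.pp (c s) ⬝ᵥ (W.J0 *ᵥ W.pp (c s) -
      (c s).1 • W.S *ᵥ W.pp (c s))) + (W.y0 + W.Qᵀ *ᵥ (c s).2) ⬝ᵥ W.pp (c s) +
      ∑ i, hb2 (W.xi (c s) i) + n * W.b (c s).1 * avg (DD (W.pp (c s))) ^ 2 / 4 := fun s => by
    simp only [Ph, Phi, Jt, sub_mulVec, smul_mulVec, pp]
  simp only [e]
  refine (((((hasDerivAt_dot hp ((hasDerivAt_mulVec W.J0 hp).sub (hc1.smul
    (hasDerivAt_mulVec W.S hp)))).const_mul _).add (hasDerivAt_dot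
      ((hasDerivAt_mulVec W.Qᵀ hc2).const_add W.y0) hp)).add (HasDerivAt.fun_sum fun i _ =>
      (hasDerivAt_hb2 _).comp s (hasDerivAt_pi.1 hx i))).add
      (((((W.hb _).comp s hc1).const_mul _).mul ((hasDerivAt_avgDD hp).pow 2)).div_const
        4)).congr_deriv ?_
  set p := W.pp (c s) with hp0
  set p' : V n := fun i => DD p i * x' i with hp'
  have e1 : ∀ M : Mx n, Mᵀ = M → p ⬝ᵥ M *ᵥ p' = p' ⬝ᵥ M *ᵥ p := fun M hM => by
    rw [dotProduct_mulVec, ← mulVec_transpose, hM, dotProduct_comm]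
  have e2 : ∑ i, -(W.xi (c s) i * (1 - Real.tanh (W.xi (c s) i) ^ 2)) * x' i =
      -(p' ⬝ᵥ W.xi (c s)) := by
    simp only [dotProduct, ← Finset.sum_neg_distrib]
    exact Finset.sum_congr rfl fun i _ => by simp only [hp', hp0, DD, pp, th]; ring
  have e3 : W.Qᵀ *ᵥ c'.2 ⬝ᵥ p = W.Q *ᵥ p ⬝ᵥ c'.2 := by
    rw [mulVec_transpose, ← dotProduct_mulVec, dotProduct_comm]
  have hn' : (n : ℝ) ≠ 0 := by positivity
  rw [← hs, e2, e3, dotProduct_comm _ p']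
  simp only [Pi.sub_apply (ι := ℝ), Pi.smul_apply' (ι := ℝ), ← hp0]
  simp only [Ymap, Jt, sub_mulVec, smul_mulVec, dotProduct_add, dotProduct_sub, dotProduct_smul,
    e1 _ W.hJ, e1 _ W.hS, Pg, smul_eq_mul, Function.comp, show th (W.xi (c s)) = p from rfl,
    ← hp0, dotProduct_comm p p', Pi.pow_apply]
  field_simp
  ring

lemma li_Ph (hn : 0 < n) : LI (md W.ph w) W.h W.O W.Ph
    (fun q => W.Pg q + W.mg w q ⬝ᵥ W.Sg *ᵥ W.pp q + (W.Sg * W.Gq q).trace / 2)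
    fun k q => (W.Q *ᵥ W.pp q) k := by
  refine ⟨W.Pg, fun k q => W.Q k ⬝ᵥ W.Gq q *ᵥ W.Q k, cont_Ph, cont_Pg, fun k =>
    (show Continuous fun a : V n => (W.Q *ᵥ a) k by fun_prop).comp_continuousOn cont_pp, fun k =>
    (show Continuous fun a : Mx n => W.Q k ⬝ᵥ a *ᵥ W.Q k by fun_prop).comp_continuousOn cont_Gq,
    fun c c' s hc hs => hasDerivAt_Ph hn hc hs.1 hs.2, fun k p hp => ?_, fun p _ => ?_⟩
  · have := hasDerivAt_pp (upd_curve p k) (by simpa using hp.1) (by simpa using hp.2)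
    simp only [zero_smul, sub_zero, QT_single, Function.update_eq_self] at this
    exact hasDerivAt_pi.1 (hasDerivAt_mulVec W.Q this) k
  · have e : ∑ k, W.Q k ⬝ᵥ W.Gq p *ᵥ W.Q k = (W.Sg * W.Gq p).trace := by
      rw [Sg, ← W.hQ, Matrix.mul_assoc, trace_mul_comm, trace]
      refine Finset.sum_congr rfl fun k _ => ?_
      simp only [diag_apply, Matrix.mul_apply, dotProduct, mulVec, transpose_apply, Finset.mul_sum,
        mul_assoc]
    simp only [md_eq, Finset.sum_add_distrib, ← Finset.sum_div, e, ← dot_Q, add_assoc]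
    rfl

/-- **value identity** -/
lemma li_XX (hn : 0 < n) (hw : Wt w) : LI (md W.ph w) W.h W.O (W.XX w)
    (fun q => W.dl w q ⬝ᵥ W.Sg *ᵥ W.dl w q / 2 - W.rv q) fun k q => (W.Q *ᵥ W.dl w q) k := by
  have ht : LI (md W.ph w) W.h W.O (fun q => q.1 * (W.c0 * n / 2)) (fun _ => W.c0 * n / 2)
      fun _ _ => 0 := ⟨fun _ => W.c0 * n / 2, fun _ _ => 0, by fun_prop, continuousOn_const,
    fun _ => continuousOn_const, fun _ => continuousOn_const, fun c c' s hc _ =>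
      ((show HasDerivAt (fun s => (c s).1) c'.1 s from hc.fst).mul_const _).congr_deriv
        (by simp [mul_comm]), fun _ _ _ => hasDerivAt_const _ _, fun _ _ => by simp⟩
  refine (((li_logZ hw _ _).sub (li_Ph hn)).add ht).congr (fun q _ => ?_) fun k q => ?_
  · have e1 : ∑ i, md W.ph w i q ^ 2 = W.Q *ᵥ W.mg w q ⬝ᵥ W.Q *ᵥ W.mg w q := by
      simp only [md_eq, dotProduct, sq]
    have e2 : W.pp q ⬝ᵥ W.S *ᵥ W.pp q =
        W.Q *ᵥ W.pp q ⬝ᵥ W.Q *ᵥ W.pp q - W.c0 * (n - n * avg (DD (W.pp q))) := by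
      rw [dot_Q, Sg, add_mulVec, smul_mulVec, one_mulVec, dotProduct_add, dotProduct_smul, avg,
        mul_div_cancel₀ _ (by positivity)]
      simp [DD, dotProduct, sq]
    rw [e1, ← dot_Q, ← dot_Q, dl, mulVec_sub, Pg, rv, e2]
    simp only [sub_dotProduct, dotProduct_sub, dotProduct_comm (W.Q *ᵥ W.pp q) (W.Q *ᵥ W.mg w q)]
    ring
  · simp [md_eq, dl, mulVec_sub]

lemma abs_XX_le (hn : 0 < n) (hw : Wt w) (hh : W.h ≤ 1) (hS : opn W.Sg ≤ K) (hS' : opn W.S ≤ K)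
    (hb : ∀ t ∈ Icc 0 W.h, |W.b1 t| ≤ K) (hc0 : |W.c0| ≤ K) (hR : W.R ^ 2 ≤ K * n) {q : Pt (Fin n)}
    (hq : q ∈ Ioo 0 W.h ×ˢ Kb n W.R) : |W.XX w q - W.XX w (0, 0)| ≤ 4 * K * n := by
  have hK := (opn_nonneg _).trans hS
  have t1 : q.1 ≤ 1 := hq.1.2.le.trans hh
  have t0 := hq.1.1
  have key : ∀ p : V n, p ⬝ᵥ p ≤ n → |W.Q *ᵥ p ⬝ᵥ q.2| ≤ K * n := fun p hp => by
    refine abs_le_of_sq_le_sq ((dot_sq_le _ _).trans ?_) (by positivity)
    rw [← nrm_sq, sq (K * n)]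
    exact mul_le_mul ((W.nrm_Q_sq hS p).trans (mul_le_mul_of_nonneg_left hp hK)) (hq.2.trans hR)
      (Eig.dot_self_nonneg _) (by positivity)
  have h1 : |Real.log (Zw (pw W.ph w q)) - Real.log (Zw w)| ≤ 3 / 2 * (K * n) := by
    refine abs_logZ_le hw fun σ => (abs_sub _ _).trans ?_
    have h2 := key (sv σ) (sv_dot_self σ).le
    have h3 := W.nrm_Q_sq hS (sv σ)
    rw [nrm_sq, sv_dot_self] at h3
    rw [dotProduct_comm, abs_mul, abs_of_nonneg (Eig.dot_self_nonneg _), abs_of_pos (half_pos t0)]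
    simp only [ph]
    nlinarith [Eig.dot_self_nonneg (W.Q *ᵥ sv σ)]
  have hO : ∀ s ∈ Icc (0 : ℝ) 1, s • q.2 ∈ W.O := fun s hs => W.Kb_sub (by
    rw [mem_Kb W.hR, nrm_smul, abs_of_nonneg hs.1]
    exact (mul_le_of_le_one_left (nrm_nonneg _) hs.2).trans ((mem_Kb W.hR).1 hq.2))
  obtain ⟨s, hs, e⟩ := exists_hasDerivAt_eq_slope (fun s : ℝ => W.Ph (s • q))
    (fun s => W.Pg (s • q) * q.1 + W.Q *ᵥ W.pp (s • q) ⬝ᵥ q.2) zero_lt_one
    (cont_Ph.comp (by fun_prop) fun s hs => ⟨⟨mul_nonneg hs.1 t0.le,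
      (mul_le_of_le_one_left t0.le hs.2).trans hq.1.2.le⟩, hO s hs⟩) fun s hs =>
    hasDerivAt_Ph hn (c := fun s => s • q) (by simpa using (hasDerivAt_id' s).smul_const q)
      ⟨mul_pos hs.1 t0, (mul_le_of_le_one_left t0.le hs.2.le).trans_lt hq.1.2⟩
      (hO s (Ioo_subset_Icc_self hs))
  have h4 : |W.Pg (s • q)| ≤ 3 / 4 * (K * n) := by
    have hp := W.cb (s • q)
    have a1 := (abs_quad_le W.S (W.pp (s • q))).trans (mul_le_mul hS' hp.dot_le
      (Eig.dot_self_nonneg _) hK)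
    have a2 : avg (DD (W.pp (s • q))) ^ 2 ≤ 1 :=
      pow_le_one₀ (avg_nonneg hp.DD_nonneg) (avg_le_one (DD_le _))
    have a3 := mul_le_mul (hb (s • q).1 ⟨mul_nonneg hs.1.le t0.le,
      (mul_le_of_le_one_left t0.le hs.2.le).trans hq.1.2.le⟩) a2 (sq_nonneg _) hK
    refine (abs_add_le _ _).trans ?_
    rw [abs_div, abs_neg, abs_div, mul_assoc, abs_mul, abs_mul, abs_of_nonneg (sq_nonneg (avg _)),
      Nat.abs_cast, abs_two, abs_of_pos (four_pos (α := ℝ))]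
    nlinarith [mul_le_mul_of_nonneg_left a3 (Nat.cast_nonneg n)]
  have h5 := key _ (W.cb (s • q)).dot_le
  have h6 : |W.Pg (s • q) * q.1| ≤ 3 / 4 * (K * n) := by
    rw [abs_mul, abs_of_pos t0]
    exact (mul_le_of_le_one_right (abs_nonneg _) t1).trans h4
  have h7 : |q.1 * (W.c0 * n / 2)| ≤ K * n / 2 := by
    rw [abs_mul, abs_of_pos t0, abs_div, abs_mul, Nat.abs_cast, abs_two]
    exact (mul_le_of_le_one_left (by positivity) t1).trans (by gcongr)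
  simp only [one_smul, zero_smul, sub_zero, div_one] at e
  have : 0 ≤ K * n := by positivity
  simp only [XX, pw, post_zero, zero_mul, add_zero] at h1 ⊢
  rw [show ((0, 0) : Pt (Fin n)) = 0 from rfl]
  rw [abs_le] at *
  constructor <;> linarith [h1.1, h1.2, h5.1, h5.2, h6.1, h6.2, h7.1, h7.2]

/-- the value inequality -/
theorem value (hn : 0 < n) (hw : Wt w) {ζ a : Pt (Fin n) → ℝ} {b : Fin n → Pt (Fin n) → ℝ}
    {C M ω ε u : ℝ} (hζ : Cut (md W.ph w) W.R C ζ a b) (h0 : 0 ≤ W.h) (hh : W.h ≤ 1)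
    (hS : opn W.Sg ≤ K) (hS' : opn W.S ≤ K) (hb : ∀ t ∈ Icc 0 W.h, |W.b1 t| ≤ K) (hc0 : |W.c0| ≤ K)
    (hR : W.R ^ 2 ≤ K * n) (hε : ∀ t ∈ Icc 0 W.h, (law W.ph w t).real (Ab n W.R) ≤ ε)
    (hF : EG (Icc 0 W.h) (W.FF w ζ)) (hM : ∀ t ∈ Icc 0 W.h, SL.ex W.ph w (W.FF w ζ) t ≤ M)
    (ω0 : 0 ≤ ω) (hω : ∀ q ∈ W.U, |W.rv q| ≤ ω) {U : V n → ℝ} (hU : MG U) (u0 : 0 ≤ u)
    (hu : ∀ z, U z ≤ u) (hT : ∀ z, nrm z ≤ W.R → U z ≤ W.XX w (W.h, z) - W.XX w (0, 0)) :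
    slE W.ph w W.h (fun _ z => U z) ≤ K * M + (ω + (12 * C * K + C + 4 * K) * n * ε) + u * ε := by
  have hK := (opn_nonneg _).trans hS
  have hC : 0 ≤ C := (abs_nonneg _).trans (hζ.bd (0, 0) (by simp [sq_nonneg])).1
  have hn1 : (1 : ℝ) ≤ n := Nat.one_le_cast.2 hn
  have F0 : ∀ p, 0 ≤ W.FF w ζ p := fun p => by rw [FF]; positivity
  have M0 : 0 ≤ M := (ex_nonneg hw fun _ => F0 _).trans (hM 0 ⟨le_rfl, h0⟩)
  have ε0 : 0 ≤ ε := measureReal_nonneg.trans (hε 0 ⟨le_rfl, h0⟩)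
  have hI := ((hζ.li W.h W.O).mul (hζ.li W.h W.O)).mul
    ((li_XX hn hw).sub (LI.const (W.XX w (0, 0))))
  have z : ∀ p : Pt (Fin n), p.2 ∉ Kb n W.R → ζ p * ζ p * (W.XX w p - W.XX w (0, 0)) = 0 :=
    fun p hp => by simp [hζ.out p (not_le.1 hp).le]
  have hG := (hI.ext0 W.isOpen_O (isCompact_Kb W.hR) W.Kb_sub z).2
  have h1 := LI.ex_le hw hI W.isOpen_O (isCompact_Kb W.hR) W.Kb_sub z (measurableSet_Ab W.R)
    (e1 := (12 * C * K + C + 4 * K) * n) h0 hK ω0 (by positivity) M0 hε hF F0 hM fun p hp => by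
      have hpU : p ∈ W.U := ⟨Ioo_subset_Icc_self hp.1, W.Kb_sub hp.2⟩
      have z1 : ζ p * ζ p ≤ 1 := mul_le_one₀ (hζ.le p) (hζ.nn p) (hζ.le p)
      have e1 := W.nrm_Q_sq hS (W.dl w p)
      have e2 : ζ p * ζ p * (W.dl w p ⬝ᵥ W.Sg *ᵥ W.dl w p / 2 - W.rv p - 0) ≤ K * W.FF w ζ p + ω := by
        rw [← dot_Q, ← nrm_sq, FF_eq]
        have := abs_le.1 (hω p hpU)
        nlinarith [mul_self_nonneg (ζ p), sq_nonneg (nrm (W.Q *ᵥ W.dl w p)),
          mul_le_mul_of_nonneg_left e1 (mul_self_nonneg (ζ p))]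
      by_cases hA : p.2 ∈ Ab n W.R
      · obtain ⟨b1, b2⟩ := hζ.bd p hp.2
        have e3 := abs_XX_le hn hw hh hS hS' hb hc0 hR hp
        have e4 : |a p * ζ p + ζ p * a p + ∑ i, b i p * b i p| ≤ 3 * C := by
          have : 0 ≤ ∑ i, b i p * b i p := Finset.sum_nonneg fun _ _ => mul_self_nonneg _
          simp only [sq] at b2
          rw [abs_le] at b1 ⊢
          constructor <;> nlinarith [hζ.nn p, hζ.le p]
        have e5 := (le_abs_self _).trans ((abs_mul _ _).trans_le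
          (mul_le_mul e4 e3 (abs_nonneg _) (by positivity)))
        have e6 : ∑ i, (b i p * ζ p + ζ p * b i p) * ((W.Q *ᵥ W.dl w p) i - 0) ≤
            ∑ i, b i p ^ 2 + nrm (W.Q *ᵥ W.dl w p) ^ 2 := by
          rw [nrm_sq, dotProduct, ← Finset.sum_add_distrib]
          exact Finset.sum_le_sum fun i _ => by
            nlinarith [sq_nonneg (b i p * ζ p - (W.Q *ᵥ W.dl w p) i),
              mul_le_mul_of_nonneg_left z1 (sq_nonneg (b i p))]
        have e7 := mul_le_mul_of_nonneg_left (W.dl_le hw p) hK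
        rw [indicator_of_mem hA]
        nlinarith
      · obtain ⟨-, a0, b0⟩ := hζ.mid p (not_le.1 hA)
        simpa [hA, a0, b0] using e2
  obtain ⟨m1, m2⟩ := ex_aff (φ := W.ph) (κ := 1) (e0 := 0) (e1 := u) (t := W.h)
    (F := fun p => ζ p * ζ p * (W.XX w p - W.XX w (0, 0))) hw (measurableSet_Ab W.R)
    (hG.mg ⟨h0, le_rfl⟩)
  refine (ex_mono (G := fun p => U p.2) (H := fun p => 1 * (ζ p * ζ p * (W.XX w p - W.XX w (0, 0))) +
    (0 + u * (Ab n W.R).indicator (fun _ => (1 : ℝ)) p.2)) hw hU m1 fun y => ?_).trans ?_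
  · by_cases hA : y ∈ Ab n W.R
    · rw [indicator_of_mem hA]
      by_cases hy : y ∈ Kb n W.R
      · have z1 : ζ (W.h, y) * ζ (W.h, y) ≤ 1 := mul_le_one₀ (hζ.le _) (hζ.nn _) (hζ.le _)
        nlinarith [hT y ((mem_Kb W.hR).1 hy), hu y, mul_self_nonneg (ζ (W.h, y))]
      · simpa [z (W.h, y) hy] using hu y
    · have hy : y ∈ Kb n W.R := by
        have : 2 * (y ⬝ᵥ y) < W.R ^ 2 := not_le.1 hA
        have := Eig.dot_self_nonneg y
        show y ⬝ᵥ y ≤ W.R ^ 2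
        linarith
      simpa [hA, (hζ.mid (W.h, y) (not_le.1 hA)).1] using hT y ((mem_Kb W.hR).1 hy)
  · rw [m2]
    have : 0 ≤ K * M + (ω + (12 * C * K + C + 4 * K) * n * ε) := by positivity
    simp only [sub_self, mul_zero, zero_add] at h1
    nlinarith [mul_le_mul_of_nonneg_left (hε _ ⟨h0, le_rfl⟩) u0, mul_le_of_le_one_right this hh]

end WS

lemma B1_sub (J E : Mx n) (b : ℝ) (p : V n) : B1 J b p - E = B1 (J - E) b p := by
  simp only [B1, B0]; abel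

lemma YE_eq (J E : Mx n) (b : ℝ) (p0 x : V n) : YE J b E p0 x = Ymap (J - E) b x - E *ᵥ p0 := by
  simp only [YE, Ymap, sub_mulVec, mulVec_sub]; abel

lemma PhiE_eq (J : Mx n) {E : Mx n} (hE : Eᵀ = E) (b : ℝ) (p0 y x : V n) :
    PhiE J b E p0 y x = Phi (J - E) b (y + E *ᵥ p0) x - 1 / 2 * (p0 ⬝ᵥ E *ᵥ p0) := by
  have e : p0 ⬝ᵥ E *ᵥ th x = th x ⬝ᵥ E *ᵥ p0 := by
    rw [dotProduct_mulVec, ← mulVec_transpose, hE, dotProduct_comm]
  simp only [PhiE, Phi, sub_mulVec, mulVec_sub, dotProduct_sub, sub_dotProduct, add_dotProduct, e,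
    dotProduct_comm (E *ᵥ p0)]
  ring

set_option maxHeartbeats 400000 in
theorem winG : WinGGlue := by
  intro hEx c hc K hK
  obtain ⟨C, hC, hcut⟩ := exists_cut
  set K1 := 2 * K + 1 / c + 2 with hK1
  have hc' : 0 < 1 / c := by positivity
  have k0 : 0 < K1 := by positivity
  set A := Real.exp (3 * K1 ^ 2) * (2 + 8 * K1 ^ 6 + 20 * (C * K1)) with hA
  have A0 : 0 < A := by positivity
  set B := 12 * (C * K1) * K1 + C * K1 + 4 * K1 with hB
  have B0 : 0 < B := by positivity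
  refine ⟨A + K1 * A + B, by positivity, ?_⟩
  intro n J Q E b κ c0 h r R ε ω y0 p0 v ψ hn hJ hJK hE _ hb hκ hh hh1 hc0 hQ hR hnR hRn _ hw ω0
    good ex er hψ ψ0 hT hε x0 hx0 hy0
  have e : ∀ t : ℝ, (1 - κ * t) • J - E = J - E - t • κ • J := fun t => by
    rw [sub_smul, one_smul, smul_smul, mul_comm]; abel
  have eY : ∀ (t : ℝ) (x y : V n), YE ((1 - κ * t) • J) ((1 - κ * t) ^ 2 * b) E p0 x = y0 + y ↔
      Ymap (J - E - t • κ • J) ((1 - κ * t) ^ 2 * b) x = y0 + E *ᵥ p0 + y := fun t x y => by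
    rw [YE_eq, e, sub_eq_iff_eq_add, add_right_comm]
  let W : WS n := ⟨J - E, κ • J, Q, fun t => (1 - κ * t) ^ 2 * b,
    fun t => -(2 * κ * (1 - κ * t) * b), c, c0, h, r, R, y0 + E *ᵥ p0, p0, hc,
    by rw [transpose_sub, hJ, hE], by rw [transpose_smul, hJ], hasDerivAt_bt κ b, by fun_prop, hQ,
    hR, fun t ht p h1 h2 => by rw [← e, ← B1_sub]; exact good t ht p h1 h2,
    fun t ht z hz => (ex t ht z hz).imp fun x hx => ⟨hx.1, (eY t x _).1 hx.2⟩, fun t ht x x' h1 h2 => by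
      have := (((hEx n _ E _ c r p0 (by rw [transpose_smul, hJ]) hE hc (good t ht)).1 x x' h1 h2).1)
      rwa [YE_eq, YE_eq, sub_sub_sub_cancel_right, e] at this⟩
  have eB : ∀ q, B1 ((1 - κ * q.1) • J) ((1 - κ * q.1) ^ 2 * b) (W.pp q) - E = W.Bq q := fun q => by
    rw [B1_sub, e]; rfl
  have hS : opn W.Sg ≤ K1 := (opn_drv hJK hκ hc0).trans (by linarith)
  have hcK : 1 / W.c ≤ K1 := by show 1 / c ≤ _; linarith
  have hnR' : (n : ℝ) ≤ K1 * W.R ^ 2 := hnR.trans (mul_le_mul_of_nonneg_right (by linarith) (sq_nonneg _))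
  have kt : ∀ t ∈ Icc 0 h, 0 ≤ κ * t ∧ κ * t ≤ 1 := fun t ht =>
    ⟨mul_nonneg hκ.1 ht.1, mul_le_one₀ hκ.2 ht.1 (ht.2.trans hh1)⟩
  obtain ⟨ζ, a, bb, hζ⟩ := hcut n _ R K1 hn hR hnR' (W.md_le hw hnR' hS)
  have hρ : ∀ q ∈ W.U, nrm (W.rho q) ≤ ω + 2 * K1 ^ 3 := fun q hq => by
    refine (W.nrm_rho_le hq hn (abs_bt_le hb (kt _ hq.1).1 (kt _ hq.1).2) hS hcK).trans
      (add_le_add ?_ le_rfl)
    have := er q.1 hq.1 _ (W.cb q) (WS.spec hq).1.le
    rw [← sub_neg_eq_add c0 (2 * _ * _ * _ * _), ← neg_mul, eB] at this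
    exact this
  have hU : ∀ z, nrm z ≤ R → ((h, z) : Pt (Fin n)) ∈ W.U := fun z hz =>
    ⟨⟨hh, le_rfl⟩, W.Kb_sub ((mem_Kb hR).2 hz)⟩
  obtain ⟨hF, hM⟩ := W.gron hw hζ hh hS hcK hρ hε hψ ψ0 fun z hz =>
    hT z hz _ (WS.spec (hU z hz)).1 ((eY h _ _).2 (WS.spec (hU z hz)).2)
  have hq : ((0, 0) : Pt (Fin n)) ∈ W.U := ⟨⟨le_rfl, hh⟩, W.Kb_sub (by simp [Kb, sq_nonneg])⟩
  have e0 : th x0 = W.pp (0, 0) := WS.uniq hq hx0.le ((eY 0 x0 _).1 (by simpa using hy0))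
  have ε0 : 0 ≤ ε := measureReal_nonneg.trans (hε 0 ⟨le_rfl, hh⟩)
  have s0 := slE_nonneg (φ := W.ph) (s := h) hw fun _ => ψ0
  change (nrm (mag v - th x0) ^ 2 ≤ _ * (slE W.ph v h _ + _ + _ + _)) ∧ ∀ ω' u U, _ → _ → _ → _ →
    _ → _ → _ ≤ _ * (slE W.ph v h _ + _ + _ + _) + _ + _
  change ∀ s ∈ _, _ ≤ Real.exp (_ * h) * (slE W.ph v h _ + _ * h) at hM
  set S := slE W.ph v h fun _ z => ψ z
  have T0 : 0 ≤ n * ε := by positivity
  have T1 : 0 ≤ S + ω ^ 2 + 1 + n * ε := by positivity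
  have hM' : ∀ s ∈ Icc 0 h, SL.ex W.ph v (W.FF v ζ) s ≤ A * (S + ω ^ 2 + 1 + n * ε) := fun s hs => by
    refine (hM s hs).trans ?_
    rw [hA, mul_assoc (Real.exp _)]
    refine mul_le_mul (Real.exp_le_exp.2 (mul_le_of_le_one_right (by positivity) hh1))
      ((add_le_add le_rfl (mul_le_of_le_one_right (by positivity) hh1)).trans ?_) (by positivity)
      (Real.exp_pos _).le
    have a1 : 0 ≤ (8 * K1 ^ 6 + 20 * (C * K1)) * (S + ω ^ 2) := by positivity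
    have a2 : 0 ≤ 8 * K1 ^ 6 * (n * ε) := by positivity
    linear_combination a1 + a2 + sq_nonneg (ω - 2 * K1 ^ 3) + 20 * (mul_pos hC k0).le + s0 + 2 * T0 +
      2 * zero_le_one (α := ℝ)
  refine ⟨?_, fun ω' u U ω0' u0 hω hUm hu hUT => ?_⟩
  · have := hM' 0 ⟨le_rfl, hh⟩
    rw [W.ex_FF_zero hw hζ, ← e0] at this
    linear_combination this + mul_nonneg (mul_pos k0 A0).le T1 + mul_nonneg B0.le T1
  · have ex0 : x0 = W.xi (0, 0) := funext fun i => Real.tanh_injective (congrFun e0 i)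
    have ev : ∀ t z, val J Q E b κ c0 y0 p0 v t z (W.xi (t, z)) =
        W.XX v (t, z) + 1 / 2 * (p0 ⬝ᵥ E *ᵥ p0) := fun t z => by
      rw [val, PhiE_eq _ hE, e, add_right_comm y0]
      simp only [WS.XX, WS.Ph]
      change _ = Real.log (Zw (post (fun σ => Q *ᵥ sv σ) v t z)) - Phi (J - E - t • κ • J)
        ((1 - κ * t) ^ 2 * b) (y0 + E *ᵥ p0 + Qᵀ *ᵥ z) _ + t * (c0 * n / 2) + _
      ring
    have := WS.value hn hw hζ hh hh1 hS (K := K1) (by
        show opn (κ • J) ≤ _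
        rw [opn_smul, abs_of_nonneg hκ.1]
        nlinarith [opn_nonneg J, hκ.2])
      (fun t ht => by
        show |-(2 * κ * (1 - κ * t) * b)| ≤ _
        have h1 := kt t ht
        have h2 : κ * (1 - κ * t) ≤ 1 := mul_le_one₀ hκ.2 (by linarith) (by linarith)
        have h3 : 0 ≤ κ * (1 - κ * t) := mul_nonneg hκ.1 (by linarith)
        rw [abs_neg, abs_le]
        constructor <;> nlinarith [hb.1, hb.2])
      (hc0.trans (by linarith)) (hRn.trans (mul_le_mul_of_nonneg_right (by linarith) (by positivity)))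
      hε hF hM' ω0' (fun q hq => by
        have := hω q.1 hq.1 _ (W.cb q) (WS.spec hq).1.le
        rw [eB] at this
        refine le_of_eq_of_le (congrArg _ ?_) this
        show (W.Sg * W.Gq q).trace / 2 - c0 * n * _ / 2 + n * -(2 * κ * (1 - κ * q.1) * b) * _ / 4 =
          (W.Sg * W.Gq q).trace / 2 - _ - _
        ring) hUm u0 hu fun z hz => by
        have := hUT z hz _ (WS.spec (hU z hz)).1 ((eY h _ _).2 (WS.spec (hU z hz)).2)
        rw [ex0, ev, ev] at this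
        linarith
    refine this.trans ?_
    rw [← hB]
    have a1 := mul_nonneg A0.le T1
    have a2 := mul_nonneg B0.le (show 0 ≤ S + ω ^ 2 + 1 by positivity)
    clear_value A B S K1
    linear_combination a1 + a2

end Crest.Agent.T157.Tap
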