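import Crest.Agent.T157.TapCovA_15

/-!
# Row 157, part A: the covariance bound along stochastic localisation (helper15)

`Tap.covGlue : CovGlue`.
-/

set_option autoImplicit false

noncomputable section

namespace Crest.Agent.T157.Tap

open MeasureTheory ProbabilityTheory Matrix Filter Set Topology
open Crest.Agent.T157.E Crest.Agent.T157.Eig Crest.Agent.T157.SL Crest.Agent.T157.Cond

namespace Cov15

variable {n : ℕ}

lemma opn_smul_le {W : Mx n} {β K : ℝ} (hβ : β ∈ Icc (0 : ℝ) 1) (hW : opn W ≤ K) :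
    opn (β • W) ≤ β * K := by
  rw [opn_smul, abs_of_nonneg hβ.1]; exact mul_le_mul_of_nonneg_left hW hβ.1

lemma n_exp_le (n : ℕ) : n * Real.exp (-((n : ℝ) / 2)) ≤ 1 := by
  rw [Real.exp_neg, ← div_eq_mul_inv, div_le_one (Real.exp_pos _)]
  have := Real.quadratic_le_exp_of_nonneg (x := (n : ℝ) / 2) (by positivity)
  nlinarith [sq_nonneg ((n : ℝ) - 2)]

lemma win_of (hWin : WinStmt) (hErr : ErrStmt) {c R0 : ℝ} (KU : ℝ) (hc : 0 < c) (hR0 : 0 < R0) :
    ∃ K' > (0 : ℝ), ∀ (n : ℕ) (W : Mx n) (β r : ℝ), 0 < n → Wᵀ = W → β ∈ Icc (0 : ℝ) 1 →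
      opn W ≤ 3 → UF W β c KU → Win (β • W) (β ^ 2) c r (R0 * √n) K' (min 1 ((R0 / 10) ^ 2)) := by
  obtain ⟨KE, hKE⟩ := hErr c hc 3
  set K := max (max 3 (KU + KE)) (1 / R0 ^ 2) with hK
  have K3 : 3 ≤ K := (le_max_left _ _).trans (le_max_left _ _)
  have KE' : KU + KE ≤ K := (le_max_right _ _).trans (le_max_left _ _)
  have KR : 1 / R0 ^ 2 ≤ K := le_max_right _ _
  obtain ⟨K', hK', H⟩ := hWin c hc K (by linarith)
  refine ⟨K', hK', fun n W β r hn hW hβ hop hU h hh y0 p0 ψ hG hex hψ hψ0 hterm x0 hx0 hy0 => ?_⟩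
  have hn' : (0 : ℝ) < n := by exact_mod_cast hn
  have hs : (0 : ℝ) < √n := Real.sqrt_pos.2 hn'
  have h1 : h ≤ 1 := hh.2.trans (min_le_left _ _)
  have h2 : h ≤ (R0 / 10) ^ 2 := hh.2.trans (min_le_right _ _)
  have hJ : (β • W)ᵀ = β • W := by rw [transpose_smul, hW]
  have hJ3 : opn (β • W) ≤ 3 := (opn_smul_le hβ hop).trans (by linarith [hβ.2])
  have hb : β ^ 2 ∈ Icc (0 : ℝ) 1 := ⟨sq_nonneg _, pow_le_one₀ hβ.1 hβ.2⟩
  have H1 := H n (β • W) 1 (β ^ 2) 0 1 h r (R0 * √n) (Real.exp (-(n / 2))) y0 p0 ψ hn hJ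
    (hJ3.trans K3) hb ⟨le_rfl, zero_le_one⟩ hh.1 (by simp) (by rw [abs_one]; linarith) (by simp)
    (by positivity) (by
      rw [mul_pow, Real.sq_sqrt hn'.le, ← mul_assoc]
      rw [div_le_iff₀ (by positivity)] at KR
      exact le_mul_of_one_le_left hn'.le KR)
  simp only [zero_mul, sub_zero, one_smul, one_pow, one_mul, zero_smul, zero_add, transpose_one,
    one_mulVec, mul_zero, add_zero] at H1
  refine (H1 (fun _ _ => hG) (fun _ _ => hex) (fun t _ p hp hpr => ?_) hψ hψ0 hterm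
    (fun t ht => ?_) x0 hx0 hy0).trans ?_
  · obtain ⟨g1, g2⟩ := hG p hp hpr
    obtain ⟨e1, e2⟩ := hKE n (β • W) 1 (β ^ 2) 1 p hJ hJ3 (opn_one_le.trans (by norm_num)) hb hp g1
    have := (hU β ⟨hβ.1, le_rfl⟩ (dd p) (ub_dd p) (by simpa only [hp.dd_sq] using g2) e1).1
    linarith
  · refine law_tail (wt_ising _ _) t (measurableSet_le measurable_const (by fun_prop))
      fun σ g hg hc' => ?_
    have := nrm_path hn ht.1 (ht.2.trans h1) (ht.2.trans h2) hR0 σ hg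
    rw [mem_ofPred_eq, ← nrm_sq] at hc'
    nlinarith [nrm_nonneg (t • sv σ + √t • g), mul_pos hR0 hs]
  · have s0 : 0 ≤ slE sv (ising (β • W) y0) h fun _ z => ψ z :=
      slE_nonneg (wt_ising _ _) fun _ _ => hψ0 _
    have a1 : K' * h ≤ K' := mul_le_of_le_one_right hK'.le h1
    have a2 : K' * n * h * Real.exp (-(n / 2)) ≤ K' * h := by
      have := mul_le_mul_of_nonneg_left (n_exp_le n) (mul_nonneg hK'.le hh.1)
      linarith
    have a3 : 0 ≤ K' * n * h * Real.exp (-(n / 2)) := by have := hh.1; positivity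
    have a4 : 0 ≤ K' * h := mul_nonneg hK'.le hh.1
    exact mul_le_mul (Real.exp_le_exp.2 a1) (by linarith) (by linarith) (Real.exp_pos _).le

/-- the centre `0` is good in the high-temperature phase -/
lemma good_zero {W : Mx n} {β : ℝ} (hn : 0 < n) (hβ : β ∈ Icc (0 : ℝ) 1)
    (hop : opn W ≤ 2 + (1 - β) ^ 2 / 4) :
    GoodB (β • W) (β ^ 2) ((1 - β) ^ 2 / 2) ((1 - β) / 4 * √n) (th 0) := fun p hp hpr => by
  have hn' : (0 : ℝ) < n := by exact_mod_cast hn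
  have t0 : th (0 : V n) = 0 := by ext i; simp [th]
  rw [t0, sub_zero, nrm_le_iff (mul_nonneg (by linarith [hβ.2]) (Real.sqrt_nonneg _)), mul_pow,
    Real.sq_sqrt hn'.le] at hpr
  have e1 : avg (DD p) = 1 - p ⬝ᵥ p / n := by
    simp only [avg, DD, dotProduct, Finset.sum_sub_distrib, sq, Finset.sum_const, Finset.card_univ,
      Fintype.card_fin, nsmul_eq_mul, mul_one]
    field_simp
  have hq : p ⬝ᵥ p / n ≤ ((1 - β) / 4) ^ 2 := by rw [div_le_iff₀ hn']; exact hpr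
  have hq0 : 0 ≤ p ⬝ᵥ p / n := div_nonneg (by rw [← nrm_sq]; positivity) hn'.le
  have b0 := hβ.1
  have b1 := hβ.2
  have b2 : β ^ 2 ≤ 1 := pow_le_one₀ b0 b1
  refine ⟨fun u => ?_, ?_⟩
  · set v : V n := diagonal (dd p) *ᵥ u with hv
    have e2 : u ⬝ᵥ NN (B1 (β • W) (β ^ 2) p) (dd p) *ᵥ u =
        u ⬝ᵥ u - v ⬝ᵥ B1 (β • W) (β ^ 2) p *ᵥ v := by
      rw [NN, sub_mulVec, one_mulVec, dotProduct_sub, ← mulVec_mulVec, ← mulVec_mulVec,
        dotProduct_mulVec u (diagonal _), ← mulVec_transpose, diagonal_transpose]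
    have e3 : v ⬝ᵥ B1 (β • W) (β ^ 2) p *ᵥ v = β * (v ⬝ᵥ W *ᵥ v) -
        β ^ 2 * (1 - p ⬝ᵥ p / n) * (v ⬝ᵥ v) + 2 * β ^ 2 / n * (p ⬝ᵥ v) ^ 2 := by
      rw [hp.B1_eq, e1, add_mulVec, sub_mulVec, smul_mulVec, smul_mulVec, smul_mulVec, one_mulVec,
        vecMulVec_mulVec, dotProduct_add, dotProduct_sub, dotProduct_smul, dotProduct_smul,
        dotProduct_smul, op_smul_eq_smul, dotProduct_smul, dotProduct_comm v p]
      simp only [smul_eq_mul]; ring
    have v0 : 0 ≤ v ⬝ᵥ v := by rw [← nrm_sq]; positivity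
    have v1 : v ⬝ᵥ v ≤ u ⬝ᵥ u := by
      refine (mulVec_dot_le _ _).trans (mul_le_of_le_one_left (by rw [← nrm_sq]; positivity) ?_)
      exact pow_le_one₀ (opn_nonneg _) (opn_diagonal_le zero_le_one (ub_dd p).abs_le)
    have w1 : v ⬝ᵥ W *ᵥ v ≤ (2 + (1 - β) ^ 2 / 4) * (v ⬝ᵥ v) :=
      ((le_abs_self _).trans (abs_quad_le W v)).trans (mul_le_mul_of_nonneg_right hop v0)
    have w2 : 2 * β ^ 2 / n * (p ⬝ᵥ v) ^ 2 ≤ 2 * β ^ 2 * (p ⬝ᵥ p / n) * (v ⬝ᵥ v) := by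
      calc _ ≤ 2 * β ^ 2 / n * ((p ⬝ᵥ p) * (v ⬝ᵥ v)) :=
            mul_le_mul_of_nonneg_left (dot_sq_le p v) (by positivity)
        _ = _ := by ring
    have w3 : β * (2 + (1 - β) ^ 2 / 4) - β ^ 2 * (1 - p ⬝ᵥ p / n) + 2 * β ^ 2 * (p ⬝ᵥ p / n) ≤
        1 - (1 - β) ^ 2 / 2 := by
      nlinarith [mul_le_mul b2 hq hq0 zero_le_one, mul_le_of_le_one_left (sq_nonneg (1 - β)) b1]
    have w4 : 0 ≤ 1 - (1 - β) ^ 2 / 2 := by nlinarith
    rw [e2, e3]
    nlinarith [mul_le_mul_of_nonneg_left w1 b0, mul_le_mul_of_nonneg_right w3 v0,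
      mul_le_mul_of_nonneg_left v1 w4]
  · rw [e1]
    nlinarith [mul_nonneg (sq_nonneg β) hq0]

lemma Ymap_zero (J : Mx n) (b : ℝ) : Ymap J b 0 = 0 := by
  have t0 : th (0 : V n) = 0 := by ext i; simp [th]
  simp [Ymap, t0]

/-- the terminal condition -/
lemma acc_end {J : Mx n} {b T η M ρ : ℝ} (a : ℝ) (hn : 0 < n) (hη : 0 < η) (hT : 16 / η ^ 2 ≤ T)
    (hT1 : 1 ≤ T) (hρ : ρ ≤ η * √n / 2) (hM : 0 ≤ M)
    (hF : ∀ (σ : Cube n) (y : V n), nrm (y - T • sv σ) ≤ η * T * √n →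
      ∀ x, Ymap J b x = y → nrm (mag (ising J y) - th x) ^ 2 ≤ M) :
    ∃ Γ : V n → ℝ, MG Γ ∧ (∀ y, 0 ≤ Γ y) ∧ Acc J b ρ a M Γ ∧
      (slE sv (ising J 0) T fun _ y => Γ y) ≤ 4 * n * Real.exp (-(n / 2)) := by
  have hs : (0 : ℝ) < √n := Real.sqrt_pos.2 (by exact_mod_cast hn)
  set F := (Nb (range fun σ : Cube n => T • sv σ)ᶜ (η * T * √n / 2))ᶜ with hFdef
  have hm : MeasurableSet F := (isOpen_Nb _ _).measurableSet.compl
  refine ⟨F.indicator fun _ => 4 * (n : ℝ), (MG.const _).indicator hm,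
    indicator_nonneg fun _ _ => by positivity, fun x v x' hv hx _ => ?_, ?_⟩
  · by_cases hy : Ymap J b x ∈ F
    · rw [indicator_of_mem hy]
      linarith [mag_sub_le (wt_ising J (Ymap J b x + v)) x']
    · rw [indicator_of_notMem hy, add_zero]
      obtain ⟨y', h1, h2⟩ := notMem_compl_iff.1 hy
      obtain ⟨σ, rfl⟩ := notMem_compl_iff.1 h1
      refine hF σ _ ?_ x' hx
      rw [show Ymap J b x + v - T • sv σ = Ymap J b x - T • sv σ + v by abel]
      have := mul_le_mul_of_nonneg_left hT1 (mul_pos hη hs).le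
      linarith [nrm_add_le (Ymap J b x - T • sv σ) v]
  · rw [slE_ind hm]
    refine mul_le_mul_of_nonneg_left (law_tail (wt_ising J 0) T hm fun σ g hg hc =>
      hc ⟨T • sv σ, notMem_compl_iff.2 ⟨σ, rfl⟩, ?_⟩) (by positivity)
    rw [add_sub_cancel_left, nrm_smul, abs_of_nonneg (Real.sqrt_nonneg _)]
    have h1 : 0 < √T := Real.sqrt_pos.2 (by linarith)
    have h2 : 4 / η ≤ √T := Real.le_sqrt_of_sq_le (by rw [div_pow]; linarith)
    rw [div_le_iff₀ hη] at h2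
    have h3 := Real.mul_self_sqrt (show 0 ≤ T by linarith)
    calc √T * nrm g < √T * (2 * √n) := mul_lt_mul_of_pos_left hg h1
      _ = 4 * (√T * √n / 2) := by ring
      _ ≤ √T * η * (√T * √n / 2) := mul_le_mul_of_nonneg_right h2 (by positivity)
      _ = η * (√T * √T) * √n / 2 := by ring
      _ = _ := by rw [h3]

lemma whp_symm : Top.Whp GOE fun _ W => Wᵀ = W := by
  have : (fun n => GOE n {W | ¬ Wᵀ = W}) = fun _ => 0 :=
    funext fun n => ae_iff.1 (goe_ae_symm _)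
  rw [Top.Whp, this]
  exact tendsto_const_nhds

lemma whp_opn {δ : ℝ} (hδ : 0 < δ) : Top.Whp GOE fun _ W => opn W ≤ 2 + δ := by
  refine Top.whp_of_real_le (a := fun n => 2 * Real.exp (-(n * δ ^ 2 / 4))) ?_
    (Eventually.of_forall fun n => le_trans (measureReal_mono (fun W hW => ?_) (measure_ne_top _ _))
      (Nrm.goe_opn_tail_n hδ.le))
  · have h : Tendsto (fun n : ℕ => (n : ℝ) * δ ^ 2 / 4) atTop atTop :=
      (tendsto_natCast_atTop_atTop.atTop_mul_const (by positivity)).atTop_div_const (by norm_num)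
    simpa using (Real.tendsto_exp_neg_atTop_nhds_zero.comp h).const_mul 2
  · exact (not_le.1 hW).le

lemma exists_min {N : ℕ} (f : Fin N → ℝ) (hf : ∀ j, 0 < f j) : ∃ κ > (0 : ℝ), κ ≤ 1 / 2 ∧ ∀ j, κ ≤ f j := by
  induction N with
  | zero => exact ⟨1 / 2, by norm_num, le_rfl, fun j => j.elim0⟩
  | succ N ih =>
    obtain ⟨κ, h1, h2, h3⟩ := ih (fun j => f j.succ) fun j => hf _
    exact ⟨min κ (f 0), lt_min h1 (hf 0), (min_le_left _ _).trans h2,
      Fin.cases (min_le_right _ _) fun j => (min_le_left _ _).trans (h3 j)⟩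

lemma ev_num (A : ℝ) {κ : ℝ} (hκ : 0 < κ) :
    ∀ᶠ n : ℕ in atTop, (A * n + 2) * Real.exp (-(κ / 2) * n) ≤ Real.exp (-(κ / 4) * n) := by
  filter_upwards [tendsto_natCast_atTop_atTop.eventually_ge_atTop ((|A| + 2) * 32 / κ ^ 2),
    eventually_ge_atTop 1] with n hn hn1
  have h1 : (1 : ℝ) ≤ n := by exact_mod_cast hn1
  rw [div_le_iff₀ (by positivity)] at hn
  have := Real.quadratic_le_exp_of_nonneg (x := κ / 4 * n) (by positivity)
  have h2 : A * n + 2 ≤ Real.exp (κ / 4 * n) := by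
    have a1 : A * n ≤ |A| * n := mul_le_mul_of_nonneg_right (le_abs_self A) (by linarith)
    have a2 : 0 ≤ κ / 4 * n := by positivity
    nlinarith [mul_le_mul_of_nonneg_right hn (show (0 : ℝ) ≤ n by linarith)]
  calc _ ≤ Real.exp (κ / 4 * n) * Real.exp (-(κ / 2) * n) := by gcongr
    _ = _ := by rw [← Real.exp_add]; congr 1; ring

lemma ev_sqrt {ρ : ℝ} (hρ : 0 < ρ) : ∀ᶠ n : ℕ in atTop, 0 < n ∧ 1 ≤ ρ * √(n : ℝ) := by
  filter_upwards [tendsto_natCast_atTop_atTop.eventually_ge_atTop ((1 / ρ) ^ 2),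
    eventually_gt_atTop 0] with n hn hn0
  refine ⟨hn0, ?_⟩
  have := Real.le_sqrt_of_sq_le hn
  rwa [div_le_iff₀ hρ, mul_comm] at this

/-- positive times -/
lemma main (hM : MeasStmt) (hUF : UFStmt) (hFrz : FrzStmt) (hEx : ExStmt) (hErr : ErrStmt)
    (hL : LipCovStmt) (hWin : WinStmt) (hFroz : FrozStmt) (hAG : AllGoodStmt) {β t1 c0 ρm : ℝ}
    (T : ℝ) (hβ : β ∈ Ioc (0 : ℝ) 1) (ht1 : 0 < t1) (hc0 : 0 < c0) (hρm : 0 < ρm) :
    ∃ K M ρ α κ A : ℝ, 0 ≤ M ∧ 0 < ρ ∧ ρ ≤ ρm ∧ 2 * ρ ≤ c0 * α ∧ 0 < κ ∧ κ ≤ 1 / 2 ∧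
      Top.Whp GOE fun n W => (∀ s ∈ Icc t1 T, (law sv (ising (β • W) 0) s).real
        {y | ¬ CovOK (ising (β • W) 0) K (ρ * √n) y} ≤ (A * n + 2) * Real.exp (-(κ / 2) * n)) ∧
      ∃ Γ : V n → ℝ, MG Γ ∧ (∀ y, 0 ≤ Γ y) ∧ Acc (β • W) (β ^ 2) (2 * ρ * √n) (α * √n) M Γ ∧
        Real.exp (2 * (2 * ρ * √n) * √n) * (slE sv (ising (β • W) 0) t1 fun _ y => Γ y) ≤
          A * n * Real.exp (-(κ / 2) * n) := by
  have hβ' : β ∈ Icc (0 : ℝ) 1 := ⟨hβ.1.le, hβ.2⟩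
  obtain ⟨εF, hεF, wF⟩ := hFrz
  obtain ⟨KF, wUF⟩ := hUF β hβ' (1 / 2) (by norm_num)
  obtain ⟨η, hη, T0, MF, hF⟩ := hFroz εF hεF KF
  set Ts := max (max T T0) (max (16 / η ^ 2) (max 1 t1)) with hTs
  have s1 : T ≤ Ts := (le_max_left _ _).trans (le_max_left _ _)
  have s2 : T0 ≤ Ts := (le_max_right _ _).trans (le_max_left _ _)
  have s3 : 16 / η ^ 2 ≤ Ts := (le_max_left _ _).trans (le_max_right _ _)
  have s4 : 1 ≤ Ts := ((le_max_left _ _).trans (le_max_right _ _)).trans (le_max_right _ _)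
  have s5 : t1 ≤ Ts := ((le_max_right _ _).trans (le_max_right _ _)).trans (le_max_right _ _)
  obtain ⟨c, hc, r0, hr0, hG⟩ := hAG β hβ t1 ht1 (Ts + 1)
  obtain ⟨KU, wU⟩ := hUF β hβ' c hc
  have hR0 : 0 < c * r0 / 4 := by positivity
  obtain ⟨K', hK', hW⟩ := win_of hWin hErr KU hc hR0
  set h := min 1 ((c * r0 / 4 / 10) ^ 2) with hh
  have h0 : 0 < h := lt_min one_pos (by positivity)
  have h1 : h ≤ 1 := min_le_left _ _
  have h2 : h ≤ (c * r0 / 4 / 10) ^ 2 := min_le_right _ _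
  set N := ⌊(Ts - t1) / h⌋₊ + 1 with hN
  have N1 : Ts ≤ t1 + N * h := by
    have := Nat.lt_floor_add_one ((Ts - t1) / h)
    rw [div_lt_iff₀ h0] at this
    rw [hN]; push_cast; linarith
  have N2 : t1 + N * h ≤ Ts + 1 := by
    have := Nat.floor_le (div_nonneg (sub_nonneg.2 s5) h0.le)
    rw [le_div_iff₀ h0] at this
    rw [hN]; push_cast; linarith
  choose κf hκf wG using fun j : Fin N => hG (t1 + j * h) ⟨le_add_of_nonneg_right (by positivity),
    le_trans (by gcongr; exact j.2.le) N2⟩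
  obtain ⟨κ, hκ, hκ2, hκj⟩ := exists_min κf hκf
  set ρ := min (min ρm (c0 * r0 / 4)) (min (min (c * r0 / 16) (η / 4)) (κ / (8 * (N + 1)))) with hρ
  have r1 : 0 < ρ := by positivity
  have r2 : ρ ≤ ρm := (min_le_left _ _).trans (min_le_left _ _)
  have r3 : ρ ≤ c0 * r0 / 4 := (min_le_left _ _).trans (min_le_right _ _)
  have r4 : ρ ≤ c * r0 / 16 := ((min_le_right _ _).trans (min_le_left _ _)).trans (min_le_left _ _)
  have r5 : ρ ≤ η / 4 := ((min_le_right _ _).trans (min_le_left _ _)).trans (min_le_right _ _)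
  have r6 : ρ ≤ κ / (8 * (N + 1)) := (min_le_right _ _).trans (min_le_right _ _)
  rw [le_div_iff₀ (by positivity)] at r6
  set M := Real.exp K' ^ N * (max MF 0 + 2 * K' * N) with hMdef
  have M0 : 0 ≤ M := by positivity
  set A := 4 * (N + 1) * Real.exp K' ^ N with hA
  refine ⟨KK K' M c, M, ρ, r0 / 2, κ, A, M0, r1, r2, by linarith, hκ, hκ2, ?_⟩
  refine (((((whp_symm.and (whp_opn one_pos)).and wF).and wUF).and wU).and
    (Top.Whp.fintype wG)).mono ?_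
  filter_upwards [ev_sqrt r1] with n ⟨hn, hρn⟩ W ⟨⟨⟨⟨⟨hS, hop⟩, hFz⟩, hU1⟩, hU⟩, hB⟩
  have hn' : (0 : ℝ) < n := by exact_mod_cast hn
  have hs : (0 : ℝ) < √n := Real.sqrt_pos.2 hn'
  have hop3 : opn W ≤ 3 := by linarith
  have hE : Ex (β • W) (β ^ 2) := hEx n _ _ (by rw [transpose_smul, hS])
  have hW' := hW n W β (r0 * √n) hn hS hβ' hop3 hU
  set B : Set (V n) := {y | BadY β c (r0 * √n) W y} with hBdef
  have hBm : MeasurableSet B := measurable_prodMk_left (hM n β c (r0 * √n) 0 0).2.1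
  have hBg : ∀ x, Ymap (β • W) (β ^ 2) x ∉ B → GoodB (β • W) (β ^ 2) c (r0 * √n) (th x) :=
    fun x hx => by_contra fun hg => hx ⟨x, rfl, hg⟩
  have hBl : ∀ j : ℕ, j < N → (law sv (ising (β • W) 0) (t1 + j * h)).real B ≤
      Real.exp (-κ * n) := fun j hj => (hB ⟨j, hj⟩).trans
        (Real.exp_le_exp.2 (mul_le_mul_of_nonneg_right (neg_le_neg (hκj _)) hn'.le))
  have c0' := mul_pos (mul_pos hc hr0) hs
  have c0'' := mul_le_mul_of_nonneg_right r4 hs.le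
  have c1 : 2 * ρ * √n ≤ c * (r0 / 2 * √n) := by linarith
  have c2 : 3 * (c * r0 / 4 * √n) + 2 * ρ * √n < c * (r0 * √n) := by linarith
  have c3 : r0 / 2 * √n < r0 * √n := by linarith [mul_pos hr0 hs]
  have e1 : Real.exp (-((n : ℝ) / 2)) ≤ Real.exp (-κ * n) :=
    Real.exp_le_exp.2 (by linarith [mul_le_mul_of_nonneg_right hκ2 hn'.le])
  have e2 : Real.exp (-κ * n) ≤ Real.exp (-(κ / 2) * n) :=
    Real.exp_le_exp.2 (by linarith [mul_pos hκ hn'])
  obtain ⟨Γe, m1, m2, m3, m4⟩ := acc_end (J := β • W) (b := β ^ 2) (T := t1 + N * h) (η := η)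
    (M := max MF 0) (ρ := 2 * ρ * √n) (r0 / 2 * √n) hn hη (s3.trans N1) (s4.trans N1)
    (by linarith [mul_le_mul_of_nonneg_right r5 hs.le]) (le_max_right _ _) fun σ y hy x hx =>
      ((hF n W β hn hS hβ' hop3 hFz hU1 _ (s2.trans N1) β ⟨hβ'.1, le_rfl⟩ σ y hy).1 x hx).trans
        (le_max_left _ _)
  have key : ∀ k ≤ N, ∃ Γ : V n → ℝ, MG Γ ∧ (∀ y, 0 ≤ Γ y) ∧
      Acc (β • W) (β ^ 2) (2 * ρ * √n) (r0 / 2 * √n) M Γ ∧ Real.exp (2 * (2 * ρ * √n) * √n) *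
        (slE sv (ising (β • W) 0) (t1 + k * h) fun _ y => Γ y) ≤ A * n * Real.exp (-(κ / 2) * n) := by
    intro k hk
    obtain ⟨m, hm⟩ := Nat.exists_eq_add_of_le hk
    have hm' : (N : ℝ) = k + m := by rw [hm]; push_cast; ring
    have mN : m ≤ N := by omega
    have mN' : (m : ℝ) ≤ N := by exact_mod_cast mN
    obtain ⟨Γ, g1, g2, g3, g4⟩ := chain hE hW' m3 m1 m2 (le_max_right _ _) hK'.le hc (by positivity)
      c1 c2 c3 (by positivity) ⟨h0.le, le_rfl⟩ hBm hBg (Real.exp_pos (-κ * n)).le m (t1 + k * h)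
      (by positivity) (by
        rw [show t1 + k * h + m * h = t1 + N * h by rw [hm']; ring]
        exact m4.trans (by gcongr)) fun j hj => by
        rw [show t1 + k * h + j * h = t1 + (k + j : ℕ) * h by push_cast; ring]
        exact hBl _ (by omega)
    have q1 : 1 ≤ Real.exp K' := Real.one_le_exp hK'.le
    refine ⟨Γ, g1, g2, g3.mono (by rw [hMdef]; gcongr), ?_⟩
    have ee : 2 * (2 * ρ * √n) * √n = 4 * ρ * n := by
      rw [show 2 * (2 * ρ * √n) * √n = 4 * ρ * (√n * √n) by ring, Real.mul_self_sqrt hn'.le]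
    rw [ee] at g4 ⊢
    have q2 : 1 ≤ Real.exp (4 * ρ * n) := Real.one_le_exp (by positivity)
    calc _ ≤ Real.exp (4 * ρ * n) * ((N + 1) * (4 * n * Real.exp (-κ * n)) *
          (Real.exp K' * Real.exp (4 * ρ * n)) ^ N) := by
          refine mul_le_mul_of_nonneg_left (g4.trans ?_) (Real.exp_pos _).le
          gcongr
          exact one_le_mul_of_one_le_of_one_le q1 q2
      _ = A * n * (Real.exp (4 * ρ * n) ^ (N + 1) * Real.exp (-κ * n)) := by rw [hA]; ring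
      _ ≤ _ := by
          rw [← Real.exp_nat_mul, ← Real.exp_add]
          refine mul_le_mul_of_nonneg_left (Real.exp_le_exp.2 ?_) (by positivity)
          push_cast
          linarith [mul_le_mul_of_nonneg_right r6 hn'.le]
  refine ⟨fun s hsI => ?_, by simpa using key 0 (Nat.zero_le _)⟩
  set j := ⌊(s - t1) / h⌋₊ with hj
  have j1 : t1 + j * h ≤ s := by
    have := Nat.floor_le (div_nonneg (sub_nonneg.2 hsI.1) h0.le)
    rw [le_div_iff₀ h0] at this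
    linarith
  have j2 : s < t1 + (j + 1) * h := by
    have := Nat.lt_floor_add_one ((s - t1) / h)
    rw [div_lt_iff₀ h0] at this
    linarith
  have j3 : j < N := Nat.lt_succ_of_le (Nat.floor_le_floor (by gcongr; exact hsI.2.trans s1))
  obtain ⟨Γ, g1, g2, g3, g4⟩ := key (j + 1) j3
  have p1 := partial_win hL hE hW' g3 g1 g2 M0 hc c1 c2 (by positivity)
    (h := t1 + (j + 1) * h - s) (s := s) ⟨by linarith, by linarith⟩ (ht1.le.trans hsI.1)
    (O := (Nb B (c * r0 / 4 * √n))ᶜ) (fun y hy => by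
      obtain ⟨y', a1, a2⟩ := notMem_compl_iff.1 hy
      obtain ⟨xc, rfl⟩ := hE.1 y'
      exact ⟨xc, hBg xc a1, a2.le⟩) (ρ' := ρ * √n) (by linarith) le_rfl
  have p2 := law_Nb (J := β • W) hBm (s := t1 + j * h) (h := s - (t1 + j * h)) hn (by positivity)
    (by linarith) (by linarith) (by linarith) hR0
  rw [add_sub_cancel] at p1 p2
  push_cast at g4
  linarith [hBl j j3]

end Cov15

open Cov15 in
/-- **the covariance bound** -/
theorem covGlue : CovGlue := by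
  intro hM hUF hFrz hEx hErr hL hWin hFroz hAG β hβ t0 ht0 hcase T
  have hβ' : β ∈ Icc (0 : ℝ) 1 := ⟨hβ.1.le, hβ.2⟩
  rcases ht0.eq_or_lt with rfl | ht0'
  swap
  · obtain ⟨K, M, ρ, α, κ, A, -, r1, -, -, hκ, -, w⟩ := main hM hUF hFrz hEx hErr hL hWin hFroz hAG
      T hβ ht0' one_pos one_pos
    refine ⟨K, ρ, r1, κ / 4, by positivity, w.mono ?_⟩
    filter_upwards [ev_num A hκ] with n hn W hW s hs
    exact (hW.1 s hs).trans hn
  have hβ1 : 0 < 1 - β := sub_pos.2 (hcase.resolve_right (lt_irrefl _))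
  set c := (1 - β) ^ 2 / 2 with hc
  set r := (1 - β) / 4 with hr
  have c0 : 0 < c := by positivity
  have r0 : 0 < r := by positivity
  have hR0 : 0 < c * r / 4 := by positivity
  obtain ⟨KU, wU⟩ := hUF β hβ' c c0
  obtain ⟨K', hK', hW⟩ := win_of hWin hErr KU c0 hR0
  set h := min 1 ((c * r / 4 / 10) ^ 2) with hh
  have h0 : 0 < h := lt_min one_pos (by positivity)
  have h1 : h ≤ 1 := min_le_left _ _
  have h2 : h ≤ (c * r / 4 / 10) ^ 2 := min_le_right _ _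
  obtain ⟨K, M, ρ, α, κ, A, M0, r1, r2, r3, hκ, hκ2, w⟩ := main hM hUF hFrz hEx hErr hL hWin hFroz
    hAG T hβ h0 c0 (show 0 < c * r / 16 by positivity)
  refine ⟨max K (KK K' M c), ρ, r1, κ / 4, by positivity, ?_⟩
  refine (((whp_symm.and (whp_opn (δ := (1 - β) ^ 2 / 4) (by positivity))).and wU).and w).mono ?_
  filter_upwards [ev_num A hκ, ev_sqrt r1] with n hnum ⟨hn, hρn⟩ W ⟨⟨⟨hS, hop⟩, hU⟩, w1, Γ, g1, g2,
    g3, g4⟩ s hs
  refine le_trans ?_ hnum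
  have hn' : (0 : ℝ) < n := by exact_mod_cast hn
  have hsq : (0 : ℝ) < √n := Real.sqrt_pos.2 hn'
  have := isProb_law (φ := sv) (s := s) (wt_ising (β • W) 0)
  rcases le_total h s with hsh | hsh
  · refine le_trans (measureReal_mono ?_ (measure_ne_top _ _)) (w1 s ⟨hsh, hs.2⟩)
    intro y hy hy'
    refine hy fun v hv u => (hy' v hv u).trans ?_
    exact mul_le_mul_of_nonneg_right (le_max_left _ _) (by rw [← nrm_sq]; positivity)
  have hE : Ex (β • W) (β ^ 2) := hEx n _ _ (by rw [transpose_smul, hS])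
  have hW' := hW n W β (r * √n) hn hS hβ' (by nlinarith [hβ.1]) hU
  have hO : MeasurableSet {y : V n | c * r / 4 * √n ≤ nrm y} :=
    measurableSet_le measurable_const continuous_nrm.measurable
  have p1 := partial_win hL hE hW' g3 g1 g2 M0 c0
    (by linarith [mul_le_mul_of_nonneg_right r3 hsq.le])
    (by linarith [mul_le_mul_of_nonneg_right r2 hsq.le, mul_pos (mul_pos c0 r0) hsq])
    (by positivity) (h := h - s) (s := s) ⟨by linarith, by linarith [hs.1]⟩ hs.1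
    (O := {y : V n | c * r / 4 * √n ≤ nrm y}) (fun y hy => ⟨0, good_zero hn hβ' hop, by
      rw [Ymap_zero, sub_zero]; exact (not_le.1 hy).le⟩) (ρ' := ρ * √n) (by linarith)
    (le_max_right K _)
  have p2 := law_tail (wt_ising (β • W) 0) s hO fun σ g hg hc' => by
    have := nrm_path hn hs.1 (hsh.trans h1) (hsh.trans h2) hR0 σ hg
    rw [mem_ofPred_eq] at hc'
    linarith [mul_pos hR0 hsq]
  have e1 : Real.exp (-((n : ℝ) / 2)) ≤ Real.exp (-(κ / 2) * n) :=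
    Real.exp_le_exp.2 (by linarith [mul_le_mul_of_nonneg_right hκ2 hn'.le])
  rw [add_sub_cancel] at p1
  linarith [Real.exp_pos (-(κ / 2) * n)]

end Crest.Agent.T157.Tap
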