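import Crest.Agent.T157.TapDef_29
import Crest.Agent.T157.KrA_53
import Crest.Agent.T157.KrS_53

/-!
# Row 157, part A: small principal blocks of the GOE, measurability of the bad sets (helper25)

`frzStmt : Tap.FrzStmt`, `measStmt : Tap.MeasStmt`; continuity of the TAP objects.
-/

set_option autoImplicit false

noncomputable section

namespace Crest.Agent.T157.TapFrz

open MeasureTheory ProbabilityTheory Matrix Filter Set Topology
open Crest.ProbabilityR.SpinGlassDynamics
open Crest.Agent.T157.E Crest.Agent.T157.Eig Crest.Agent.T157.Cond Crest.Agent.T157.Tap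

/-! ### continuity of the TAP objects -/

section cont
variable {n : ℕ} {X : Type*} [TopologicalSpace X]

lemma continuous_tanh : Continuous Real.tanh := by
  have : Real.tanh = fun x => Real.sinh x / Real.cosh x := funext Real.tanh_eq_sinh_div_cosh
  rw [this]
  exact Real.continuous_sinh.div Real.continuous_cosh fun x => (Real.cosh_pos x).ne'

lemma cont_avg {f : X → V n} (hf : Continuous f) : Continuous fun x => avg (f x) := by
  unfold avg; fun_prop

lemma cont_th {f : X → V n} (hf : Continuous f) : Continuous fun x => th (f x) :=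
  continuous_pi fun i => continuous_tanh.comp ((continuous_apply i).comp hf)

lemma cont_DD {f : X → V n} (hf : Continuous f) : Continuous fun x => DD (f x) := by
  unfold DD; fun_prop

lemma cont_dd {f : X → V n} (hf : Continuous f) : Continuous fun x => dd (f x) := by
  unfold dd; fun_prop

lemma cont_nrm {f : X → V n} (hf : Continuous f) : Continuous fun x => nrm (f x) :=
  continuous_nrm.comp hf

lemma cont_NN {B : X → Mx n} {d : X → V n} (hB : Continuous B) (hd : Continuous d) :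
    Continuous fun x => NN (B x) (d x) := by
  unfold NN; fun_prop

lemma cont_B0 {J : X → Mx n} {b : X → ℝ} {d : X → V n} (hJ : Continuous J) (hb : Continuous b)
    (hd : Continuous d) : Continuous fun x => B0 (J x) (b x) (d x) := by
  unfold B0
  exact hJ.sub ((hb.mul (cont_avg (by fun_prop))).smul continuous_const)

lemma cont_B1 {J : X → Mx n} {b : X → ℝ} {p : X → V n} (hJ : Continuous J) (hb : Continuous b)
    (hp : Continuous p) : Continuous fun x => B1 (J x) (b x) (p x) := by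
  unfold B1
  exact (cont_B0 hJ hb (cont_dd hp)).add (by fun_prop)

lemma cont_Ymap {J : X → Mx n} {b : X → ℝ} {y : X → V n} (hJ : Continuous J) (hb : Continuous b)
    (hy : Continuous y) : Continuous fun x => Ymap (J x) (b x) (y x) := by
  unfold Ymap
  exact (hy.sub (hJ.matrix_mulVec (cont_th hy))).add
    ((hb.mul (cont_avg (cont_DD (cont_th hy)))).smul (cont_th hy))

lemma isClosed_Cb {p : X → V n} (hp : Continuous p) : IsClosed {x | Cb (p x)} := by
  simp only [Cb, ofPred_forall]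
  exact isClosed_iInter fun i => isClosed_le (by fun_prop) continuous_const

end cont

/-! ### measurability -/

/-- projection of (closed set) ∩ (strict inequality) -/
theorem measurableSet_exists_pos {Θ X : Type*} [TopologicalSpace Θ] [MeasurableSpace Θ]
    [OpensMeasurableSpace Θ] [TopologicalSpace X] [SigmaCompactSpace X] {C : Set (Θ × X)}
    (hC : IsClosed C) {f : Θ × X → ℝ} (hf : Continuous f) :
    MeasurableSet {θ | ∃ x, (θ, x) ∈ C ∧ 0 < f (θ, x)} := by
  have : {θ | ∃ x, (θ, x) ∈ C ∧ 0 < f (θ, x)} =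
      ⋃ k : ℕ, {θ | ∃ x, (θ, x) ∈ C ∩ {z | 1 / ((k : ℝ) + 1) ≤ f z}} := by
    ext θ
    simp only [mem_ofPred_eq, mem_iUnion, mem_inter_iff]
    constructor
    · rintro ⟨x, hx, h⟩
      obtain ⟨k, hk⟩ := exists_nat_one_div_lt h
      exact ⟨k, x, hx, hk.le⟩
    · rintro ⟨k, x, hx, h⟩
      exact ⟨x, hx, lt_of_lt_of_le Nat.one_div_pos_of_nat h⟩
  rw [this]
  exact MeasurableSet.iUnion fun k =>
    Kr.measurableSet_exists (hC.inter (isClosed_le continuous_const hf))

/-- the defect of `GoodB` at a test pair -/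
def dfc {n : ℕ} (J : Mx n) (b c : ℝ) (p' u : V n) : ℝ :=
  max (c * (u ⬝ᵥ u) - u ⬝ᵥ NN (B1 J b p') (dd p') *ᵥ u) (b * avg (DD p') - (1 - c))

lemma not_goodB_iff {n : ℕ} (J : Mx n) (b c r : ℝ) (p : V n) :
    ¬ GoodB J b c r p ↔ ∃ q : V n × V n, (Cb q.1 ∧ nrm (q.1 - p) ≤ r) ∧ 0 < dfc J b c q.1 q.2 := by
  unfold GoodB dfc Pos
  simp only [lt_max_iff, sub_pos]
  constructor
  · intro h
    by_contra hc
    refine h fun p' h1 h2 => ⟨fun u => ?_, ?_⟩
    · by_contra h3
      exact hc ⟨(p', u), ⟨h1, h2⟩, Or.inl (not_le.1 h3)⟩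
    · by_contra h3
      exact hc ⟨(p', 0), ⟨h1, h2⟩, Or.inr (not_le.1 h3)⟩
  · rintro ⟨q, ⟨h1, h2⟩, h3⟩ h
    obtain ⟨h4, h5⟩ := h q.1 h1 h2
    rcases h3 with h3 | h3
    · exact absurd (h4 q.2) (not_le.2 h3)
    · exact absurd h5 (not_le.2 h3)

lemma cont_dfc {n : ℕ} {X : Type*} [TopologicalSpace X] {J : X → Mx n} (b c : ℝ) {p u : X → V n}
    (hJ : Continuous J) (hp : Continuous p) (hu : Continuous u) :
    Continuous fun x => dfc (J x) b c (p x) (u x) := by
  unfold dfc
  refine Continuous.max ((continuous_const.mul (hu.dotProduct hu)).sub (hu.dotProduct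
    ((cont_NN (cont_B1 hJ continuous_const hp) (cont_dd hp)).matrix_mulVec hu))) ?_
  exact (continuous_const.mul (cont_avg (cont_DD hp))).sub continuous_const

theorem measStmt : MeasStmt := by
  intro n β c r c' ε
  refine ⟨?_, ?_, ?_⟩
  · simp only [not_goodB_iff]
    exact measurableSet_exists_pos (Θ := Mx n × V n) (X := V n × V n)
      (C := {w | Cb w.2.1 ∧ nrm (w.2.1 - th w.1.2) ≤ r})
      ((isClosed_Cb (by fun_prop)).inter (isClosed_le
        (cont_nrm (Continuous.sub (by fun_prop) (cont_th (by fun_prop)))) continuous_const))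
      (f := fun w => dfc (β • w.1.1) (β ^ 2) c w.2.1 w.2.2)
      (cont_dfc _ _ (by fun_prop) (by fun_prop) (by fun_prop))
  · have h := measurableSet_exists_pos (Θ := Mx n × V n) (X := V n × V n × V n)
      (C := {w | Ymap (β • w.1.1) (β ^ 2) w.2.1 = w.1.2 ∧
        (Cb w.2.2.1 ∧ nrm (w.2.2.1 - th w.2.1) ≤ r)})
      ((isClosed_eq (cont_Ymap (by fun_prop) continuous_const (by fun_prop)) (by fun_prop)).inter
        ((isClosed_Cb (by fun_prop)).inter (isClosed_le
        (cont_nrm (Continuous.sub (by fun_prop) (cont_th (by fun_prop)))) continuous_const)))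
      (f := fun w => dfc (β • w.1.1) (β ^ 2) c w.2.2.1 w.2.2.2)
      (cont_dfc _ _ (by fun_prop) (by fun_prop) (by fun_prop))
    convert h using 1
    ext z
    simp only [BadY, not_goodB_iff, mem_ofPred_eq]
    constructor
    · rintro ⟨x, h1, q, h2, h3⟩
      exact ⟨(x, q), ⟨h1, h2⟩, h3⟩
    · rintro ⟨w, ⟨h1, h2⟩, h3⟩
      exact ⟨w.1, h1, w.2, h2, h3⟩
  · refine IsClosed.measurableSet ?_
    simp only [DET, ofPred_forall]
    refine isClosed_iInter fun p => isClosed_iInter fun _ => isClosed_iInter fun _ =>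
      isClosed_le ?_ continuous_const
    exact (cont_NN (cont_B1 (by fun_prop) continuous_const continuous_const)
      continuous_const).matrix_det.abs

/-! ### small principal blocks -/

/-- fourth moment of the standard Gaussian -/
def m4 : ℝ := ∫ x : ℝ, x ^ 4 ∂gaussianReal 0 1

lemma m4_nonneg : 0 ≤ m4 := integral_nonneg fun x => by positivity

lemma integrable_four : Integrable (fun x : ℝ => x ^ 4) (gaussianReal 0 1) := by
  have h := (memLp_id_gaussianReal (μ := 0) (v := 1) 4).integrable_norm_pow (by norm_num)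
  refine h.congr (ae_of_all _ fun x => ?_)
  simp only [id, Real.norm_eq_abs]
  exact (by decide : Even 4).pow_abs x

lemma integrable_four_coord {n : ℕ} (i : Fin n) :
    Integrable (fun g : V n => g i ^ 4) (gv (Fin n)) :=
  (measurePreserving_eval (fun _ : Fin n => gaussianReal 0 1) i).integrable_comp_of_integrable
    integrable_four

lemma integral_four_coord {n : ℕ} (i : Fin n) : ∫ g : V n, g i ^ 4 ∂gv (Fin n) = m4 :=
  Crest.Agent.R339.Guerra.mp_int (measurePreserving_eval (fun _ : Fin n => gaussianReal 0 1) i)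
    (f := fun x : ℝ => x ^ 4) (by fun_prop)

lemma quad_diag {n : ℕ} (W : Mx n) (d u : V n) :
    u ⬝ᵥ (diagonal d * W * diagonal d) *ᵥ u = (d * u) ⬝ᵥ W *ᵥ (d * u) := by
  have h := quad_compress (A := W) (diagonal d) u u
  rw [diagonal_transpose] at h
  have e : diagonal d *ᵥ u = d * u := funext fun i => mulVec_diagonal d u i
  rw [h, e]

/-- the test set -/
abbrev TS (n : ℕ) (ε : ℝ) : Set (V n × V n) :=
  {q | Ub q.1 ∧ avg (fun i => q.1 i ^ 2) ≤ ε ∧ q.2 ⬝ᵥ q.2 ≤ 1}

lemma mul_dot_le {n : ℕ} {d u : V n} (hd : Ub d) : (d * u) ⬝ᵥ (d * u) ≤ u ⬝ᵥ u := by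
  refine Finset.sum_le_sum fun i _ => ?_
  have h1 := (hd i).1
  have h2 := (hd i).2
  simp only [Pi.mul_apply]
  nlinarith [mul_self_nonneg (u i), mul_nonneg h1 (sub_nonneg.2 h2), sq_nonneg (d i * u i),
    mul_nonneg (mul_self_nonneg (u i)) (by nlinarith : 0 ≤ 1 - d i * d i)]

lemma gam_bound {n : ℕ} (hn : 0 < n) {a ε : ℝ} (ha : 0 < a) {d u : V n} (hd : Ub d)
    (hε : avg (fun i => d i ^ 2) ≤ ε) (hu : u ⬝ᵥ u ≤ 1) (ξ : V n) :
    2 * (1 / Real.sqrt n) * len (d * u) * (ξ ⬝ᵥ (d * u)) + 0 ≤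
      1 / 32 + 32 * (a * ((∑ i, ξ i ^ 4) / n) + ε / (4 * a)) := by
  have hn0 : (0 : ℝ) < n := by exact_mod_cast hn
  set s : ℝ := 1 / Real.sqrt n with hs
  have hs0 : 0 ≤ s := by positivity
  have hs2 : s ^ 2 = 1 / n := by rw [hs, div_pow, Real.sq_sqrt hn0.le, one_pow]
  have hl : len (d * u) ≤ 1 := by
    exact Real.sqrt_le_one.2 ((mul_dot_le hd).trans hu)
  have hl0 := len_nonneg (d * u)
  set z := ξ ⬝ᵥ (d * u) with hz
  have h1 : z ^ 2 ≤ ∑ i, (ξ i * d i) ^ 2 := by
    have e : z = (ξ * d) ⬝ᵥ u := by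
      simp only [hz, dotProduct, Pi.mul_apply, mul_assoc]
    rw [e]
    refine (dot_sq_le _ _).trans ?_
    have e2 : (ξ * d) ⬝ᵥ (ξ * d) = ∑ i, (ξ i * d i) ^ 2 := by
      simp only [dotProduct, Pi.mul_apply, sq]
    rw [e2]
    exact mul_le_of_le_one_right (by positivity) hu
  have h2 : ∑ i, (ξ i * d i) ^ 2 ≤ a * ∑ i, ξ i ^ 4 + (∑ i, d i ^ 2) / (4 * a) := by
    rw [Finset.mul_sum, Finset.sum_div, ← Finset.sum_add_distrib]
    refine Finset.sum_le_sum fun i _ => ?_
    have h3 : d i ^ 4 ≤ d i ^ 2 :=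
      pow_le_pow_of_le_one (hd i).1 (hd i).2 (by norm_num)
    have h4 : (ξ i * d i) ^ 2 ≤ a * ξ i ^ 4 + d i ^ 4 / (4 * a) := by
      rw [← sub_nonneg]
      have : a * ξ i ^ 4 + d i ^ 4 / (4 * a) - (ξ i * d i) ^ 2 =
          (2 * a * ξ i ^ 2 - d i ^ 2) ^ 2 / (4 * a) := by field_simp; ring
      rw [this]; positivity
    refine h4.trans ?_
    gcongr
  have h5 : s ^ 2 * z ^ 2 ≤ a * ((∑ i, ξ i ^ 4) / n) + ε / (4 * a) := by
    rw [hs2]
    calc 1 / n * z ^ 2 ≤ 1 / n * (a * ∑ i, ξ i ^ 4 + (∑ i, d i ^ 2) / (4 * a)) := by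
          gcongr; exact h1.trans h2
      _ = a * ((∑ i, ξ i ^ 4) / n) + avg (fun i => d i ^ 2) / (4 * a) := by
          unfold avg; field_simp
      _ ≤ _ := by gcongr
  have h6 : 2 * s * len (d * u) * z ≤ 2 * |s * z| := by
    calc 2 * s * len (d * u) * z = 2 * (len (d * u) * (s * z)) := by ring
      _ ≤ 2 * (len (d * u) * |s * z|) := by gcongr; exact le_abs_self _
      _ ≤ 2 * (1 * |s * z|) := by gcongr
      _ = _ := by ring
  have h7 : 2 * |s * z| ≤ 1 / 32 + 32 * (s ^ 2 * z ^ 2) := by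
    rw [← mul_pow, ← sq_abs]
    nlinarith [sq_nonneg (32 * |s * z| - 1)]
  linarith

lemma whp_quad : ∃ ε > (0 : ℝ), Top.Whp GOE fun n W =>
    ∀ d u : V n, Ub d → avg (fun i => d i ^ 2) ≤ ε → u ⬝ᵥ u ≤ 1 →
      (d * u) ⬝ᵥ W *ᵥ (d * u) ≤ 1 / 8 := by
  have hm := m4_nonneg
  set a : ℝ := 1 / (2048 * (m4 + 1)) with ha
  have ha0 : 0 < a := by positivity
  refine ⟨a / 512, by positivity, ?_⟩
  refine Top.whp_of_real_le (a := fun n : ℕ => Real.exp (-(n / 4096 : ℝ))) ?_ ?_
  · exact Real.tendsto_exp_neg_atTop_nhds_zero.comp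
      (tendsto_natCast_atTop_atTop.atTop_div_const (by norm_num))
  filter_upwards [eventually_gt_atTop 0] with n hn
  have hn0 : (0 : ℝ) < n := by exact_mod_cast hn
  have hi : Integrable (fun ξ : V n => ∑ i, ξ i ^ 4) (gv (Fin n)) :=
    integrable_finsetSum _ fun i _ => integrable_four_coord i
  have h := Kr.sf_goe_tail (T := TS n (a / 512)) (1 / Real.sqrt n)
    (u := fun t => t.1.1 * t.1.2) (f := fun _ => 0)
    ((continuous_fst.comp continuous_subtype_val).mul (continuous_snd.comp continuous_subtype_val))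
    continuous_const (ρ := 1) (fun t => (mul_dot_le t.2.1).trans t.2.2.2)
    (Γ := fun ξ => 1 / 32 + 32 * (a * ((∑ i, ξ i ^ 4) / n) + a / 512 / (4 * a)))
    ((integrable_const _).add ((((hi.div_const _).const_mul _).add (integrable_const _)).const_mul _))
    (fun ξ t => gam_bound hn ha0 t.2.1 t.2.2.1 t.2.2.2 ξ) (r := 1 / 32) (by norm_num)
  have hE : ∫ ξ : V n, (1 / 32 + 32 * (a * ((∑ i, ξ i ^ 4) / n) + a / 512 / (4 * a))) ∂gv (Fin n) =
      1 / 32 + 32 * (a * m4 + 1 / 2048) := by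
    have i1 : Integrable (fun ξ : V n => a * ((∑ i, ξ i ^ 4) / n)) (gv (Fin n)) :=
      (hi.div_const _).const_mul _
    have i2 : Integrable (fun ξ : V n => 32 * (a * ((∑ i, ξ i ^ 4) / n) + a / 512 / (4 * a)))
        (gv (Fin n)) := (i1.add (integrable_const _)).const_mul _
    rw [integral_add (integrable_const _) i2, integral_const_mul,
      integral_add i1 (integrable_const _), integral_const_mul, integral_div (n : ℝ),
      integral_finsetSum _ fun i _ => integrable_four_coord i]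
    simp only [integral_four_coord, integral_const, probReal_univ, smul_eq_mul, one_mul,
      Finset.sum_const, Finset.card_univ, Fintype.card_fin, nsmul_eq_mul]
    field_simp
    ring
  rw [hE] at h
  have ham : a * m4 ≤ 1 / 2048 := by
    rw [ha, div_mul_eq_mul_div, div_le_div_iff₀ (by positivity) (by norm_num)]
    linarith
  have he : -(1 / 32 : ℝ) ^ 2 / (4 * (1 / Real.sqrt n) ^ 2 * 1 ^ 2) = -(n / 4096) := by
    rw [div_pow (1 : ℝ) (Real.sqrt n), Real.sq_sqrt hn0.le]
    field_simp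
    norm_num
  rw [he] at h
  refine le_trans (measureReal_mono (fun W hW => ?_) (measure_ne_top _ _)) h
  simp only [mem_ofPred_eq] at hW ⊢
  push Not at hW
  obtain ⟨d, u, h1, h2, h3, h4⟩ := hW
  exact ⟨⟨(d, u), h1, h2, h3⟩, by dsimp only; linarith⟩

lemma whp_symm : Top.Whp GOE fun _ W => Wᵀ = W := by
  have : (fun n => GOE n {W | ¬ Wᵀ = W}) = fun _ => 0 :=
    funext fun n => ae_iff.1 (goe_ae_symm _)
  rw [Top.Whp, this]
  exact tendsto_const_nhds

theorem frzStmt : FrzStmt := by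
  obtain ⟨ε, hε, h⟩ := whp_quad
  refine ⟨ε, hε, ?_⟩
  have h' := h.comp (ν := GOE) (T := fun _ W => -W)
    fun n => ⟨measurable_neg, goe_neg _⟩
  refine ((h.and h').and whp_symm).imp ?_
  rintro n W ⟨⟨h1, h2⟩, h3⟩ d hd hav
  have hA : (diagonal d * W * diagonal d).IsHermitian := by
    have := herm_compress (herm_iff.2 h3) (diagonal d)
    rwa [diagonal_transpose] at this
  refine opn_le_of_lam hA (by norm_num) fun k hk => ?_
  rw [← quad_vec hA hk, quad_diag, abs_le]
  have h4 := h1 d _ hd hav (vec_dot_self hA hk).le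
  have h5 := h2 d _ hd hav (vec_dot_self hA hk).le
  rw [neg_mulVec, dotProduct_neg] at h5
  constructor <;> linarith

end Crest.Agent.T157.TapFrz

end
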