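import Crest.Agent.T157.TapDef_29

/-!
# Row 157, part A: the Kac–Rice glue `KRGlue` (helper50)

Finite cover of the range of the statistics `(aS, bS, SW)` by cells; the central cell is handled by
`SFGStmt`, the other ones by `RamStmt` or by `HoefStmt` + `SEStmt`.
-/

set_option autoImplicit false

noncomputable section

namespace Crest.Agent.T157.Tap

open MeasureTheory ProbabilityTheory Matrix Filter Set
open Crest.ProbabilityR.SpinGlassDynamics
open Crest.Agent.T157.E Crest.Agent.T157.Eig Crest.Agent.T157.Cond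

namespace Kr50

variable {n : ℕ}

lemma avg_DD (hn : 0 < n) (x : V n) : avg (DD (th x)) = 1 - aS x := by
  have : (n : ℝ) ≠ 0 := by positivity
  simp only [avg, DD, aS, Finset.sum_sub_distrib, Finset.sum_const, Finset.card_univ,
    Fintype.card_fin, nsmul_eq_mul, mul_one]
  field_simp

lemma abs_th_le (x : V n) (i : Fin n) : |th x i| ≤ 1 := (Real.abs_tanh_lt_one _).le

lemma abs_avg_le {f : V n} (h : ∀ i, |f i| ≤ 1) : |avg f| ≤ 1 := by
  rcases Nat.eq_zero_or_pos n with rfl | hn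
  · simp [avg]
  have hn' : (0 : ℝ) < n := by positivity
  rw [avg, abs_div, abs_of_pos hn', div_le_one hn']
  calc |∑ i, f i| ≤ ∑ i, |f i| := Finset.abs_sum_le_sum_abs _ _
    _ ≤ ∑ _i : Fin n, (1 : ℝ) := Finset.sum_le_sum fun i _ => h i
    _ = n := by simp

lemma aS_le_one (x : V n) : aS x ≤ 1 :=
  (le_abs_self _).trans (abs_avg_le fun i => by
    rw [abs_pow]; exact pow_le_one₀ (abs_nonneg _) (abs_th_le x i))

lemma abs_bS_le (x : V n) : |bS x| ≤ 1 := abs_avg_le (abs_th_le x)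

lemma dot_th (hn : 0 < n) (x : V n) : th x ⬝ᵥ th x = n * aS x := by
  have : (n : ℝ) ≠ 0 := by positivity
  simp only [aS, avg, dotProduct, sq]
  field_simp

lemma abs_SW_le (hn : 0 < n) {β : ℝ} (hβ : β ∈ Icc (0 : ℝ) 1) {W : Mx n}
    (hW : opn (plW β W 1) ≤ 3) {x : V n} (ha : 0 < aS x) : |SW β W x| ≤ 6 := by
  have hn' : (0 : ℝ) < n := by positivity
  have h1 : opn W ≤ 4 := by
    have e : W = plW β W 1 - (β / n) • vecMulVec (1 : V n) 1 := by simp [plW]
    have h2 : nrm (1 : V n) * nrm (1 : V n) = n := by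
      rw [nrm_mul_self]; simp [dotProduct]
    have h3 : opn ((β / n) • vecMulVec (1 : V n) (1 : V n)) ≤ 1 := by
      rw [opn_smul, abs_of_nonneg (div_nonneg hβ.1 hn'.le)]
      calc β / n * opn (vecMulVec (1 : V n) (1 : V n)) ≤ β / n * n :=
            mul_le_mul_of_nonneg_left (h2 ▸ opn_vecMulVec_le _ _) (div_nonneg hβ.1 hn'.le)
        _ = β := by field_simp
        _ ≤ 1 := hβ.2
    rw [e]
    exact (opn_sub_le _ _).trans (by linarith)
  have h2 : |th x ⬝ᵥ W *ᵥ th x| ≤ 4 * (n * aS x) := by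
    refine (abs_dot_le _ _).trans ?_
    rw [← dot_th hn, ← nrm_mul_self]
    have := nrm_mulVec_le W (th x)
    have h0 := nrm_nonneg (th x)
    nlinarith [mul_le_mul_of_nonneg_left this h0, mul_le_mul_of_nonneg_right h1 (mul_nonneg h0 h0)]
  have h3 : |th x ⬝ᵥ W *ᵥ th x / (n * aS x)| ≤ 4 := by
    rw [abs_div, abs_of_pos (mul_pos hn' ha), div_le_iff₀ (mul_pos hn' ha)]; exact h2
  have h4 := aS_le_one x
  have h5 : 0 ≤ β * (1 - aS x) := mul_nonneg hβ.1 (by linarith)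
  have h6 : β * (1 - aS x) ≤ 1 := mul_le_one₀ hβ.2 (by linarith) (by linarith)
  rw [SW, abs_le] at *
  constructor <;> nlinarith [h3.1, h3.2]

lemma DET_mono {W : Mx n} {β c ε ε' : ℝ} (h : DET W β c ε) (he : ε ≤ ε') : DET W β c ε' :=
  fun p hp ha => (h p hp ha).trans (Real.exp_le_exp.2
    (mul_le_mul_of_nonneg_left (by linarith) (Nat.cast_nonneg n)))

/-- the event of one cell -/
def cellE (n : ℕ) (β s ε c' a0 b0 S0 : ℝ) (B : Set (Mx n × V n)) : Set (Mx n × V n) :=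
  {z | opn (plW β z.1 1) ≤ 3 ∧ DET (plW β z.1 1) β c' ε ∧
      nrm z.2 ≤ 2 * Real.sqrt n ∧ ∃ x, Ymap (β • plW β z.1 1) (β ^ 2) x =
        s • (1 : V n) + Real.sqrt s • z.2 ∧ avg (DD (th x)) ≤ 1 - c' ∧ |aS x - a0| ≤ ε ∧
        |bS x - b0| ≤ ε ∧ |SW β z.1 x - S0| ≤ ε ∧ (z.1, x) ∈ B}

lemma prod_fst_le {α γ : Type*} [MeasurableSpace α] [MeasurableSpace γ] (μ : Measure α)
    (ν : Measure γ) [IsProbabilityMeasure ν] {E : Set (α × γ)} {A : Set α}
    (h : ∀ z ∈ E, z.1 ∈ A) : μ.prod ν E ≤ μ A := by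
  calc μ.prod ν E ≤ μ.prod ν (A ×ˢ univ) := measure_mono fun z hz => ⟨h z hz, mem_univ _⟩
    _ = μ A := by rw [Measure.prod_prod, measure_univ, mul_one]

lemma prod_snd_le {α γ : Type*} [MeasurableSpace α] [MeasurableSpace γ] (μ : Measure α)
    (ν : Measure γ) [IsProbabilityMeasure μ] [SFinite ν] {E : Set (α × γ)} {A : Set γ}
    (h : ∀ z ∈ E, z.2 ∈ A) : μ.prod ν E ≤ ν A := by
  calc μ.prod ν E ≤ μ.prod ν (univ ×ˢ A) := measure_mono fun z hz => ⟨mem_univ _, h z hz⟩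
    _ = ν A := by rw [Measure.prod_prod, measure_univ, one_mul]

lemma ofReal_mul_le {a b c : ℝ} {m : ENNReal} (ha : 0 ≤ a) (hm : m ≤ ENNReal.ofReal b)
    (h : a * b ≤ c) : ENNReal.ofReal a * m ≤ ENNReal.ofReal c := by
  calc ENNReal.ofReal a * m ≤ ENNReal.ofReal a * ENNReal.ofReal b := by gcongr
    _ = ENNReal.ofReal (a * b) := (ENNReal.ofReal_mul ha).symm
    _ ≤ _ := ENNReal.ofReal_le_ofReal h

lemma ev_exp (A : ℝ) {κ : ℝ} (hκ : 0 < κ) :
    ∀ᶠ n : ℕ in atTop, A * Real.exp (-κ * n) ≤ Real.exp (-(κ / 2) * n) := by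
  have h : Tendsto (fun n : ℕ => Real.exp (κ / 2 * n)) atTop atTop :=
    Real.tendsto_exp_atTop.comp (tendsto_natCast_atTop_atTop.const_mul_atTop (by positivity))
  filter_upwards [h.eventually_ge_atTop A] with n hn
  calc A * Real.exp (-κ * n) ≤ Real.exp (κ / 2 * n) * Real.exp (-κ * n) := by gcongr
    _ = _ := by rw [← Real.exp_add]; congr 1; ring

/-- the cells away from the centre -/
lemma far (hC : CellStmt) (hR : RamStmt) (hH : HoefStmt) {β s am q ν ε0 : ℝ}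
    (hβ : β ∈ Icc (0 : ℝ) 1) (hs : 0 < s) (ham : 0 < am) (hν : 0 < ν) (hε0 : 0 < ε0)
    (hq : ∀ a ∈ Icc (0 : ℝ) 1, ∀ b : ℝ, ν * (|a - q| + |b - q|) ≤
      |a - gE (fun x => Real.tanh x ^ 2) (s + β ^ 2 * b) (s + β ^ 2 * a)| +
      |b - gE Real.tanh (s + β ^ 2 * b) (s + β ^ 2 * a)|) :
    ∃ ε > (0 : ℝ), ε ≤ ε0 / 2 ∧ ∃ κ > (0 : ℝ), ∀ (n : ℕ) (c' a0 b0 S0 : ℝ), 0 < n →
      a0 ∈ Icc am 1 → |S0| ≤ 10 → (ε0 / 2 ≤ |S0| ∨ ε0 / 2 ≤ |a0 - q| + |b0 - q|) →
      ((GOE n).prod (gv (Fin n))) (cellE n β s ε c' a0 b0 S0 univ) ≤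
        ENNReal.ofReal (4 * Real.exp (-κ * n)) := by
  obtain ⟨C, hC⟩ := hC β hβ s hs am ham
  set t : ℝ := ν * ε0 / 8 with ht
  have ht0 : 0 < t := by positivity
  set e1 : ℝ := min (t / 2) (ε0 / 2) with he1
  have he10 : 0 < e1 := by positivity
  obtain ⟨m, hm, C', hR⟩ := hR am ham e1 he10
  set L : ℝ := |C| + |C'| + 1 with hL
  have hL0 : 0 < L := by positivity
  set ε : ℝ := min (min (ε0 / 2) (am / 2)) (min t (min (m / 2 / L) (t ^ 2 / 8 / L))) with hε
  have hε1 : ε ≤ ε0 / 2 := (min_le_left _ _).trans (min_le_left _ _)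
  have hε2 : ε ≤ am / 2 := (min_le_left _ _).trans (min_le_right _ _)
  have hε3 : ε ≤ t := (min_le_right _ _).trans (min_le_left _ _)
  have hε4 : ε ≤ m / 2 / L := (min_le_right _ _).trans ((min_le_right _ _).trans (min_le_left _ _))
  have hε5 : ε ≤ t ^ 2 / 8 / L :=
    (min_le_right _ _).trans ((min_le_right _ _).trans (min_le_right _ _))
  have hεp : 0 < ε := by positivity
  rw [le_div_iff₀ hL0] at hε4 hε5
  have hCε : C * ε ≤ |C| * ε := mul_le_mul_of_nonneg_right (le_abs_self _) hεp.le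
  have hCε' : C' * ε ≤ |C'| * ε := mul_le_mul_of_nonneg_right (le_abs_self _) hεp.le
  have hCn : 0 ≤ |C| * ε := by positivity
  have hCn' : 0 ≤ |C'| * ε := by positivity
  have hLε : ε * L = |C| * ε + |C'| * ε + ε := by rw [hL]; ring
  refine ⟨ε, hεp, hε1, min (m / 2) (t ^ 2 / 4), by positivity, ?_⟩
  intro n c' a0 b0 S0 hn ha0 hS0 hfar
  have hn' : (0 : ℝ) < n := by positivity
  refine (hC n ε c' a0 b0 S0 univ hn hεp hε2 ha0 hS0 MeasurableSet.univ).trans ?_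
  by_cases h1 : e1 ≤ |S0|
  · refine ofReal_mul_le (Real.exp_pos _).le
      ((prod_fst_le _ _ (fun z hz => ?_)).trans (hR n β s ε a0 b0 S0 hn hβ hεp hε2 ha0 h1 hS0)) ?_
    · exact ⟨hz.1, hz.2.2.1⟩
    · rw [← Real.exp_add]
      have h2 : (n : ℝ) * (S0 ^ 2 / 4 + C * ε) + -n * (S0 ^ 2 / 4 + m - C' * ε) ≤
          -min (m / 2) (t ^ 2 / 4) * n := by
        have := min_le_left (m / 2) (t ^ 2 / 4)
        nlinarith
      have := Real.exp_le_exp.2 h2
      nlinarith [Real.exp_pos (-min (m / 2) (t ^ 2 / 4) * n)]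
  · push Not at h1
    have h2 : ε0 / 2 ≤ |a0 - q| + |b0 - q| := by
      rcases hfar with h | h
      · exact absurd (h1.trans_le (min_le_right _ _)) (not_lt.2 h)
      · exact h
    have ha0' : a0 ∈ Icc (0 : ℝ) 1 := ⟨ham.le.trans ha0.1, ha0.2⟩
    have h3 := (mul_le_mul_of_nonneg_left h2 hν.le).trans (hq a0 ha0' b0)
    refine ofReal_mul_le (Real.exp_pos _).le
      ((prod_fst_le _ _ (fun z hz => ?_)).trans (hH.1 n β s a0 b0 t hn hs.le ha0'.1 ht0.le)) ?_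
    · obtain ⟨h4, h5, -⟩ := hz
      by_contra hc
      simp only [mem_setOf_eq, not_or, not_le] at hc
      obtain ⟨h6, h7⟩ := hc
      have h8 := abs_sub_le a0 (aS (xv β s a0 b0 z.1.1 z.1.2))
        (gE (fun x => Real.tanh x ^ 2) (s + β ^ 2 * b0) (s + β ^ 2 * a0))
      have h9 := abs_sub_le b0 (bS (xv β s a0 b0 z.1.1 z.1.2))
        (gE Real.tanh (s + β ^ 2 * b0) (s + β ^ 2 * a0))
      rw [abs_sub_comm] at h4 h5
      linarith
    · have h4 : S0 ^ 2 ≤ (t / 2) ^ 2 := by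
        rw [← sq_abs]
        exact pow_le_pow_left₀ (abs_nonneg _) (h1.le.trans (min_le_left _ _)) 2
      have h5 : (n : ℝ) * (S0 ^ 2 / 4 + C * ε) + -n * t ^ 2 / 2 ≤ -min (m / 2) (t ^ 2 / 4) * n := by
        have := min_le_right (m / 2) (t ^ 2 / 4)
        nlinarith
      have := Real.exp_le_exp.2 h5
      rw [Real.exp_add] at this
      linarith

end Kr50

open Kr50 in
theorem krGlue : KRGlue := by
  intro hM hC hR hSE hH hSF β hβ t0 ht0 T
  have hβ' : β ∈ Icc (0 : ℝ) 1 := ⟨hβ.1.le, hβ.2⟩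
  obtain ⟨c, hc, r, hr, hSF⟩ := hSF β hβ t0 ht0 T
  refine ⟨c, hc, r, hr, fun s hs => ?_⟩
  have hs0 : 0 < s := ht0.trans_le hs.1
  obtain ⟨q, hq, ν, hν, hqν⟩ := hSE.2.2 β hβ' s hs0
  obtain ⟨ε1, hε1, κ1, hκ1, hSF⟩ := hSF s hs q hq
  obtain ⟨am1, ham1, κ2, hκ2, hH2⟩ := hH.2 s hs0
  obtain ⟨a, ha, haq⟩ := hSE.2.1 t0 ht0
  have hqa : a ≤ q := by
    have := haq (s + β ^ 2 * q) (s + β ^ 2 * q) (by
      have := mul_nonneg (sq_nonneg β) hq.1.1
      linarith [hs.1])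
    rwa [← hq.2] at this
  set am : ℝ := min am1 a with ham
  have ham0 : 0 < am := by positivity
  obtain ⟨C, hC0⟩ := hC β hβ' s hs0 am ham0
  set ε0 : ℝ := min (min ε1 (am / 2)) (κ1 / 2 / (|C| + 1)) with hε0
  have hε0p : 0 < ε0 := by positivity
  have hε01 : ε0 ≤ ε1 := (min_le_left _ _).trans (min_le_left _ _)
  have hε02 : ε0 ≤ am / 2 := (min_le_left _ _).trans (min_le_right _ _)
  have hε03 : ε0 ≤ κ1 / 2 / (|C| + 1) := min_le_right _ _
  rw [le_div_iff₀ (by positivity)] at hε03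
  obtain ⟨ε, hε, hεε0, κ3, hκ3, hfar⟩ := far hC hR hH hβ' hs0 ham0 hν hε0p hqν
  obtain ⟨F, hFK, hFfin, hFcov⟩ := Metric.finite_approx_of_totallyBounded
    ((isCompact_Icc (a := am) (b := 1)).prod ((isCompact_Icc (a := (-1 : ℝ)) (b := 1)).prod
      (isCompact_Icc (a := (-6 : ℝ)) (b := 6)))).totallyBounded ε hε
  classical
  set F' : Finset (ℝ × ℝ × ℝ) := hFfin.toFinset.filter
    fun p => ε0 / 2 ≤ |p.2.2| ∨ ε0 / 2 ≤ |p.1 - q| + |p.2.1 - q| with hF'
  set κ : ℝ := min (min (κ1 / 2) κ2) κ3 with hκ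
  have hκp : 0 < κ := by positivity
  have hk1 : κ ≤ κ1 / 2 := (min_le_left _ _).trans (min_le_left _ _)
  have hk2 : κ ≤ κ2 := (min_le_left _ _).trans (min_le_right _ _)
  have hk3 : κ ≤ κ3 := min_le_right _ _
  refine ⟨am, ham0, ε, hε, κ / 2, by positivity, ?_⟩
  filter_upwards [hSF, ev_exp (3 + 4 * F'.card) hκp, eventually_gt_atTop 0] with n hSF hev hn
  have hn' : (0 : ℝ) < n := by positivity
  set B : Set (Mx n × V n) :=
    {z | ¬ GoodB (β • plW β z.1 1) (β ^ 2) c (r * Real.sqrt n) (th z.2)} with hB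
  have hBm : MeasurableSet B := by
    have h1 : Measurable fun z : Mx n × V n => (plW β z.1 1, z.2) := by
      unfold plW; fun_prop
    exact h1 (hM n β c (r * Real.sqrt n) 0 0).1
  set H : Set (V n) := {g | 2 * Real.sqrt n < nrm g ∨ ∃ (J : Mx n) (b : ℝ) (x : V n), opn J ≤ 3 ∧
      b ∈ Icc (0 : ℝ) 1 ∧ Ymap J b x = s • (1 : V n) + Real.sqrt s • g ∧ aS x < am1} with hHd
  have hmono : ∀ {k : ℝ}, κ ≤ k → Real.exp (-k * n) ≤ Real.exp (-κ * n) := fun hk =>
    Real.exp_le_exp.2 (by nlinarith)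
  have b1 : ((GOE n).prod (gv (Fin n))) {z | z.2 ∈ H} ≤ ENNReal.ofReal (2 * Real.exp (-κ * n)) :=
    (prod_snd_le _ _ (fun z hz => hz)).trans ((hH2 n hn).trans
      (ENNReal.ofReal_le_ofReal (by linarith [hmono hk2])))
  have b2 : ((GOE n).prod (gv (Fin n))) (cellE n β s ε0 am q q 0 B) ≤
      ENNReal.ofReal (Real.exp (-κ * n)) := by
    refine (hC0 n ε0 am q q 0 B hn hε0p hε02 ⟨(min_le_right _ _).trans hqa, hq.1.2⟩ (by simp)
      hBm).trans (ofReal_mul_le (Real.exp_pos _).le ((measure_mono fun z hz => ?_).trans hSF) ?_)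
    · obtain ⟨h1, -, h2, h3⟩ := hz
      rw [sub_zero] at h2
      exact ⟨h1.trans hε01, h2.trans hε01, h3⟩
    · rw [← Real.exp_add]
      refine Real.exp_le_exp.2 ?_
      have : C * ε0 ≤ |C| * ε0 := mul_le_mul_of_nonneg_right (le_abs_self _) hε0p.le
      nlinarith
  have b3 : ((GOE n).prod (gv (Fin n))) (⋃ p ∈ F', cellE n β s ε am p.1 p.2.1 p.2.2 univ) ≤
      ENNReal.ofReal (F'.card * (4 * Real.exp (-κ * n))) := by
    refine (measure_biUnion_finset_le _ _).trans ?_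
    rw [ENNReal.ofReal_mul (Nat.cast_nonneg _), ENNReal.ofReal_natCast, ← nsmul_eq_mul]
    refine Finset.sum_le_card_nsmul _ _ _ fun p hp => ?_
    rw [hF', Finset.mem_filter, Finite.mem_toFinset] at hp
    have h1 := hFK hp.1
    refine (hfar n am p.1 p.2.1 p.2.2 hn h1.1 ?_ hp.2).trans
      (ENNReal.ofReal_le_ofReal (by linarith [hmono hk3]))
    exact abs_le.2 ⟨by linarith [h1.2.2.1], by linarith [h1.2.2.2]⟩
  calc _ ≤ ((GOE n).prod (gv (Fin n))) (({z | z.2 ∈ H} ∪ cellE n β s ε0 am q q 0 B) ∪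
        ⋃ p ∈ F', cellE n β s ε am p.1 p.2.1 p.2.2 univ) := by
        refine measure_mono fun z hz => ?_
        obtain ⟨h1, h2, x, h3, h4⟩ := hz
        by_cases hzH : z.2 ∈ H
        · exact Or.inl (Or.inl hzH)
        simp only [hHd, mem_setOf_eq, not_or, not_lt, not_exists, not_and] at hzH
        obtain ⟨h5, h6⟩ := hzH
        have h7 : am ≤ aS x := (min_le_left _ _).trans (h6 _ _ x (by
          rw [opn_smul, abs_of_nonneg hβ'.1]
          nlinarith [opn_nonneg (plW β z.1 1), hβ.2, hβ.1])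
          ⟨sq_nonneg β, pow_le_one₀ hβ'.1 hβ.2⟩ h3)
        have h8 : avg (DD (th x)) ≤ 1 - am := by rw [avg_DD hn]; linarith
        have h9 := abs_SW_le hn hβ' h1 (ham0.trans_le h7)
        by_cases hcen : |aS x - q| ≤ ε0 ∧ |bS x - q| ≤ ε0 ∧ |SW β z.1 x - 0| ≤ ε0
        · exact Or.inl (Or.inr ⟨h1, DET_mono h2 (by linarith), h5, x, h3, h8, hcen.1, hcen.2.1,
            hcen.2.2, h4⟩)
        have h10 : (aS x, bS x, SW β z.1 x) ∈ Icc am 1 ×ˢ Icc (-1 : ℝ) 1 ×ˢ Icc (-6 : ℝ) 6 :=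
          ⟨⟨h7, aS_le_one x⟩, abs_le.1 (abs_bS_le x), abs_le.1 h9⟩
        obtain ⟨p, hpF, hp⟩ := mem_iUnion₂.1 (hFcov h10)
        rw [Metric.mem_ball, Prod.dist_eq, Prod.dist_eq, max_lt_iff, max_lt_iff, Real.dist_eq,
          Real.dist_eq, Real.dist_eq] at hp
        obtain ⟨p1, p2, p3⟩ := hp
        dsimp only at p1 p2 p3
        refine Or.inr (mem_iUnion₂.2 ⟨p, ?_, h1, h2, h5, x, h3, h8, p1.le, p2.le, p3.le, mem_univ _⟩)
        rw [hF', Finset.mem_filter, Finite.mem_toFinset]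
        refine ⟨hpF, ?_⟩
        by_contra hcon
        push Not at hcon
        obtain ⟨q1, q2⟩ := hcon
        have r1 := abs_sub_le (aS x) p.1 q
        have r2 := abs_sub_le (bS x) p.2.1 q
        have r3 := abs_sub_le (SW β z.1 x) p.2.2 0
        rw [sub_zero p.2.2] at r3
        have r4 := abs_nonneg (p.1 - q)
        have r5 := abs_nonneg (p.2.1 - q)
        exact hcen ⟨by linarith, by linarith, by linarith⟩
    _ ≤ ENNReal.ofReal (2 * Real.exp (-κ * n)) + ENNReal.ofReal (Real.exp (-κ * n)) +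
        ENNReal.ofReal (F'.card * (4 * Real.exp (-κ * n))) :=
        (measure_union_le _ _).trans (add_le_add ((measure_union_le _ _).trans (add_le_add b1 b2)) b3)
    _ ≤ _ := by
        rw [← ENNReal.ofReal_add (by positivity) (by positivity),
          ← ENNReal.ofReal_add (by positivity) (by positivity)]
        exact ENNReal.ofReal_le_ofReal (by linarith)

end Crest.Agent.T157.Tap
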