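import Crest.Agent.T157.TapDef_29
import Crest.Agent.T157.PlE_37

/-!
# Row 157, part A: `Tap.PlantStmt` and `Tap.AllGoodGlue` (helper37)
-/

set_option autoImplicit false
set_option linter.unusedSectionVars false

noncomputable section

namespace Crest.Agent.T157.TapPl

open MeasureTheory ProbabilityTheory Matrix Filter Set Topology
open Crest.ProbabilityR.SpinGlassDynamics
open Crest.Agent.T157.E Crest.Agent.T157.Eig Crest.Agent.T157.Cond Crest.Agent.T157.Tap

variable {n : ℕ}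

lemma px_eq (s : ℝ) {A : Set (Mx n × V n)} (hA : MeasurableSet A) (σ : Cube n) (W : Mx n) :
    SL.px sv s {y | (W, y) ∈ A} σ =
      (gv (Fin n)).real {z | (W, s • sv σ + Real.sqrt s • z) ∈ A} := by
  exact map_measureReal_apply (by fun_prop) (measurable_prodMk_left hA)

lemma measurable_px (s : ℝ) {A : Set (Mx n × V n)} (hA : MeasurableSet A) (σ : Cube n) :
    Measurable fun W : Mx n => SL.px sv s {y | (W, y) ∈ A} σ := by
  have := SL.isProb_path (s • sv σ) (Real.sqrt s)
  exact (measurable_measure_prodMk_left hA).ennreal_toReal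

/-- quantitative transfer for the localisation of the Gibbs measure -/
theorem transfer_law (β s : ℝ) {A : Set (Mx n × V n)} (hA : MeasurableSet A) {δ ε η : ℝ}
    (hε : 0 < ε) (hη : 0 < η) (h : ∀ σ : Cube n, ((GOE n).prod (gv (Fin n))).real
      {z | (plW β z.1 (sv σ), s • sv σ + Real.sqrt s • z.2) ∈ A} ≤ δ) :
    (GOE n).real {W | ε ≤ (SL.law sv (ising (β • W) 0) s).real {y | (W, y) ∈ A}} ≤
      (GOE n).real {W | Pl.LRW n β W < η} + δ / (ε * η) := by
  have e : ∀ W : Mx n, (SL.law sv (ising (β • W) 0) s).real {y | (W, y) ∈ A} =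
      mean (ising (β • W) 0) fun σ => SL.px sv s {y | (W, y) ∈ A} σ := fun W =>
    SL.law_real (Pl.wt_ising _ _) (measurable_prodMk_left hA)
  simp only [e]
  refine (Pl.transferW_mean β (measurable_px s hA) (fun _ _ => SL.px_nonneg _)
    (fun σ => (integrable_const 1).mono' ((measurable_px s hA σ).comp
      (by fun_prop)).aestronglyMeasurable (.of_forall fun W => by
        rw [Real.norm_of_nonneg (SL.px_nonneg _)]; exact SL.px_le_one _)) hε hη).trans
    (add_le_add le_rfl (div_le_div_of_nonneg_right ?_ (mul_pos hε hη).le))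
  rw [div_le_iff₀ (by positivity), ← Pl.card_cube, mul_comm, ← nsmul_eq_mul, ← Finset.card_univ,
    ← Finset.sum_const]
  refine Finset.sum_le_sum fun σ _ => le_of_eq_of_le ?_ (h σ)
  have hS : MeasurableSet {z : Mx n × V n |
      (plW β z.1 (sv σ), s • sv σ + Real.sqrt s • z.2) ∈ A} :=
    hA.preimage (by unfold plW; fun_prop)
  simp only [px_eq s hA]
  rw [Measure.real, Measure.prod_apply hS, ← integral_toReal
    (measurable_measure_prodMk_left hS).aemeasurable (.of_forall fun _ => measure_lt_top _ _)]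
  rfl

lemma tendsto_exp_neg {κ : ℝ} (hκ : 0 < κ) :
    Tendsto (fun n : ℕ => Real.exp (-κ * n)) atTop (𝓝 0) :=
  Real.tendsto_exp_atBot.comp (tendsto_natCast_atTop_atTop.const_mul_atTop_of_neg (by linarith))

theorem plantStmt : PlantStmt := by
  intro β hβ s _ κ hκ A hA h
  have h1 := Pl.tendsto_LRW_lt_rpow hβ.1 hβ.2 (a := κ / 4) (c := 1) (by positivity) one_pos
  refine Top.whp_of_real_le ((h1.add (tendsto_exp_neg (κ := κ / 4) (by positivity))).trans_eq
    (by simp)) ?_
  filter_upwards [h] with n hn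
  refine le_trans (measureReal_mono fun W hW => (not_le.1 hW).le) ((transfer_law β s (hA n)
    (Real.exp_pos _) (Real.exp_pos (-(κ / 4 * (n : ℝ) ^ (1 : ℝ)))) (δ := Real.exp (-κ * n))
      fun σ => ENNReal.toReal_le_of_le_ofReal (Real.exp_pos _).le (hn σ)).trans_eq ?_)
  rw [← Real.exp_add, ← Real.exp_sub, Real.rpow_one]
  congr 2
  ring

/-! ### gauge invariance -/

/-- conjugation by a diagonal matrix -/
def cj (σ : V n) (M : Mx n) : Mx n := diagonal σ * M * diagonal σ

variable {σ : V n}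

lemma cj_apply (σ : V n) (M : Mx n) (i j : Fin n) : cj σ M i j = σ i * M i j * σ j := by
  rw [cj, mul_diagonal, diagonal_mul]

lemma sign_mul_self (h : Pl.IsSign σ) (i : Fin n) : σ i * σ i = 1 := by
  rcases h i with e | e <;> simp [e]

lemma diag_mul_self (h : Pl.IsSign σ) : diagonal σ * diagonal σ = (1 : Mx n) := by
  rw [diagonal_mul_diagonal, ← diagonal_one]; exact congrArg _ (funext (sign_mul_self h))

lemma cj_cj (h : Pl.IsSign σ) (M : Mx n) : cj σ (cj σ M) = M := by
  ext i j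
  rw [cj_apply, cj_apply]
  linear_combination (M i j * (σ j * σ j)) * sign_mul_self h i + M i j * sign_mul_self h j

lemma cj_smul (σ : V n) (c : ℝ) (M : Mx n) : cj σ (c • M) = c • cj σ M := by
  rw [cj, cj, Matrix.mul_smul, Matrix.smul_mul]

lemma cj_add (σ : V n) (M N : Mx n) : cj σ (M + N) = cj σ M + cj σ N := by
  rw [cj, cj, cj, Matrix.mul_add, Matrix.add_mul]

lemma cj_sub (σ : V n) (M N : Mx n) : cj σ (M - N) = cj σ M - cj σ N := by
  rw [cj, cj, cj, Matrix.mul_sub, Matrix.sub_mul]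

lemma cj_one (h : Pl.IsSign σ) : cj σ 1 = 1 := by rw [cj, mul_one, diag_mul_self h]

lemma cj_vecMulVec (σ u v : V n) : cj σ (vecMulVec u v) = vecMulVec (σ * u) (σ * v) := by
  ext i j; simp only [cj_apply, vecMulVec_apply, Pi.mul_apply]; ring

lemma cj_mulVec (h : Pl.IsSign σ) (M : Mx n) (u : V n) : cj σ M *ᵥ (σ * u) = σ * (M *ᵥ u) := by
  have e : ∀ u : V n, diagonal σ *ᵥ u = σ * u := fun u => by funext i; simp [mulVec_diagonal]
  rw [cj, ← mulVec_mulVec, ← mulVec_mulVec, e, e, h.mul_self]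

lemma dot_sign (h : Pl.IsSign σ) (u v : V n) : (σ * u) ⬝ᵥ (σ * v) = u ⬝ᵥ v :=
  Finset.sum_congr rfl fun i _ => by
    simp only [Pi.mul_apply]; rw [mul_mul_mul_comm, sign_mul_self h, one_mul]

lemma nrm_sign (h : Pl.IsSign σ) (u : V n) : nrm (σ * u) = nrm u := by
  rw [nrm, nrm, dot_sign h]

lemma opn_cj_le (h : Pl.IsSign σ) (M : Mx n) : opn (cj σ M) ≤ opn M :=
  opn_le_of_nrm (opn_nonneg _) fun v => by
    rw [← h.mul_self v, cj_mulVec h, nrm_sign h, nrm_sign h (σ * v)]; exact nrm_mulVec_le _ _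

lemma opn_cj (h : Pl.IsSign σ) (M : Mx n) : opn (cj σ M) = opn M :=
  (opn_cj_le h M).antisymm (by simpa only [cj_cj h] using opn_cj_le h (cj σ M))

lemma det_cj (h : Pl.IsSign σ) (M : Mx n) : (cj σ M).det = M.det := by
  rw [cj, det_mul, det_mul, mul_right_comm, ← det_mul, diag_mul_self h, det_one, one_mul]

lemma th_sign (h : Pl.IsSign σ) (x : V n) : th (σ * x) = σ * th x := by
  funext i; rcases h i with e | e <;> simp [th, e]

lemma DD_sign (h : Pl.IsSign σ) (p : V n) : DD (σ * p) = DD p := by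
  funext i; rcases h i with e | e <;> simp [DD, e]

lemma dd_sign (h : Pl.IsSign σ) (p : V n) : dd (σ * p) = dd p := by
  funext i; rcases h i with e | e <;> simp [dd, e]

lemma Cb_sign (h : Pl.IsSign σ) {p : V n} (hp : Cb p) : Cb (σ * p) := fun i => by
  rcases h i with e | e <;> simpa [e] using hp i

lemma NN_cj (h : Pl.IsSign σ) (B : Mx n) (d : V n) : NN (cj σ B) d = cj σ (NN B d) := by
  rw [NN, NN, cj_sub, cj_one h]
  congr 1
  ext i j
  simp only [cj_apply, mul_diagonal, diagonal_mul]; ring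

lemma B0_cj (h : Pl.IsSign σ) (J : Mx n) (b : ℝ) (d : V n) : B0 (cj σ J) b d = cj σ (B0 J b d) := by
  rw [B0, B0, cj_sub, cj_smul, cj_one h]

lemma B1_cj (h : Pl.IsSign σ) (J : Mx n) (b : ℝ) (p : V n) :
    B1 (cj σ J) b (σ * p) = cj σ (B1 J b p) := by
  rw [B1, B1, cj_add, cj_smul, cj_vecMulVec, dd_sign h, B0_cj h]

lemma Pos_cj (h : Pl.IsSign σ) {c : ℝ} {M : Mx n} (hM : Pos c M) : Pos c (cj σ M) := fun u => by
  have := hM (σ * u)
  rw [dot_sign h] at this
  rwa [← h.mul_self u, cj_mulVec h, dot_sign h, dot_sign h, dot_sign h]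

lemma Ymap_cj (h : Pl.IsSign σ) (J : Mx n) (b : ℝ) (x : V n) :
    Ymap (cj σ J) b (σ * x) = σ * Ymap J b x := by
  rw [Ymap, Ymap, th_sign h, cj_mulVec h, DD_sign h, mul_add, mul_sub, mul_smul_comm]

lemma GoodB_cj (h : Pl.IsSign σ) {J : Mx n} {b c r : ℝ} {p : V n} (hg : GoodB J b c r p) :
    GoodB (cj σ J) b c r (σ * p) := fun p' hp' hr => by
  have := hg (σ * p') (Cb_sign h hp') (by
    rwa [← nrm_sign h, mul_sub, h.mul_self])
  rw [DD_sign h, dd_sign h] at this
  refine ⟨?_, this.2⟩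
  have h2 := Pos_cj h this.1
  rwa [← NN_cj h, ← B1_cj h, h.mul_self] at h2

lemma BadY_cj (h : Pl.IsSign σ) {β c r : ℝ} {W : Mx n} {y : V n} (hb : BadY β c r W y) :
    BadY β c r (cj σ W) (σ * y) := by
  obtain ⟨x, h1, h2⟩ := hb
  refine ⟨σ * x, by rw [← cj_smul, Ymap_cj h, h1], fun h3 => h2 ?_⟩
  have := GoodB_cj h h3
  rwa [← cj_smul, cj_cj h, th_sign h, h.mul_self] at this

lemma DET_cj (h : Pl.IsSign σ) {β c ε : ℝ} {W : Mx n} (hd : DET W β c ε) : DET (cj σ W) β c ε :=
  fun p hp ha => by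
    have := hd (σ * p) (Cb_sign h hp) (by rwa [DD_sign h])
    rwa [← det_cj h, ← NN_cj h, ← B1_cj h, h.mul_self, dd_sign h, DD_sign h, cj_smul] at this

lemma plW_cj (σ : V n) (β : ℝ) (W : Mx n) (u : V n) :
    plW β (cj σ W) (σ * u) = cj σ (plW β W u) := by
  rw [plW, plW, cj_add, cj_smul, cj_vecMulVec]

lemma mp_cj (h : Pl.IsSign σ) : MeasurePreserving (cj σ) (GOE n) (GOE n) :=
  ⟨by unfold cj; fun_prop, by
    have := goe_conj (1 / Real.sqrt n) (diagonal σ : Mx n) (by
      rw [diagonal_transpose, diag_mul_self h])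
    rwa [diagonal_transpose] at this⟩

/-- gauge fixing of the planted pair (matrix, field) -/
theorem planted_gauge (β s : ℝ) {A : Set (Mx n × V n)} (hA : MeasurableSet A) (σ : Cube n) :
    ((GOE n).prod (gv (Fin n))) {z | (plW β z.1 (sv σ), s • sv σ + Real.sqrt s • z.2) ∈ A} =
      ((GOE n).prod (gv (Fin n))) {z | (cj (sv σ) (plW β z.1 1),
        sv σ * (s • (1 : V n) + Real.sqrt s • z.2)) ∈ A} := by
  have hS : MeasurableSet {z : Mx n × V n |
      (plW β z.1 (sv σ), s • sv σ + Real.sqrt s • z.2) ∈ A} :=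
    hA.preimage (by unfold plW; fun_prop)
  have mp := (mp_cj (Pl.isSign_sv σ)).prod (Pl.mp_sign_law false (Pl.isSign_sv σ))
  refine (mp.measure_preimage hS.nullMeasurableSet).symm.trans (congrArg _ ?_)
  ext z
  simp only [mem_preimage, mem_ofPred_eq, Prod.map_fst, Prod.map_snd, ← plW_cj, mul_add,
    mul_smul_comm, mul_one]

theorem whp_opn : Top.Whp GOE fun _ W => opn W ≤ 3 := by
  refine Top.whp_of_real_le (((tendsto_exp_neg (κ := 1 / 4) (by norm_num)).const_mul 2).trans_eq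
    (by simp)) (.of_forall fun n => ?_)
  refine le_trans (measureReal_mono fun W hW => ?_) ((Nrm.goe_opn_tail_n zero_le_one).trans_eq ?_)
  · have := not_le.1 hW
    simp only [mem_ofPred_eq]; linarith
  · congr 2; ring

theorem allGoodGlue : AllGoodGlue := by
  intro hM hD hP hK β hβ t0 ht0 T
  obtain ⟨c, hc, r, hr, h⟩ := hK β hβ t0 ht0 T
  refine ⟨c, hc, r, hr, fun s hs => ?_⟩
  obtain ⟨c', hc', ε, hε, κ, hκ, h⟩ := h s hs
  have hβ' : β ∈ Icc (0 : ℝ) 1 := ⟨hβ.1.le, hβ.2⟩
  have hA : ∀ n : ℕ, MeasurableSet {z : Mx n × V n | opn z.1 ≤ 3 ∧ DET z.1 β c' ε ∧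
      BadY β c (r * Real.sqrt n) z.1 z.2} := fun n =>
    (measurableSet_le (Nrm.measurable_opn'.comp measurable_fst) measurable_const).inter
      (((hM n β c (r * Real.sqrt n) c' ε).2.2.preimage measurable_fst).inter
        (hM n β c (r * Real.sqrt n) c' ε).2.1)
  refine ⟨κ / 2, half_pos hκ, ((hP β hβ' s (ht0.le.trans hs.1) κ hκ _ hA ?_).and
    (whp_opn.and (hD β hβ' c' hc' ε hε))).imp fun n W hW => ?_⟩
  · filter_upwards [h] with n hn σ
    refine (planted_gauge β s (hA n) σ).trans_le (le_trans (measure_mono fun z hz => ?_) hn)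
    have hσ := Pl.isSign_sv σ
    obtain ⟨h1, h2, h3⟩ := hz
    refine ⟨by rwa [opn_cj hσ] at h1, ?_, ?_⟩
    · simpa only [cj_cj hσ] using DET_cj hσ h2
    · simpa only [cj_cj hσ, hσ.mul_self] using BadY_cj hσ h3
  · simpa only [mem_ofPred_eq, hW.2.1, hW.2.2, true_and] using hW.1

end Crest.Agent.T157.TapPl

end
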