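import Crest.Agent.T157.TapSfgD_18

/-!
# Row 157, part A: `sfgGlue : Tap.SFGGlue` (helper18)
-/

set_option autoImplicit false

noncomputable section

namespace Crest.Agent.T157.Tap

open MeasureTheory ProbabilityTheory Matrix Filter Set Topology
open Crest.Agent.T157.E Crest.Agent.T157.Eig Crest.Agent.T157.Cond Sfg

/-- **Sudakov-Fernique in the typical cell** -/
theorem sfgGlue : SFGGlue := by
  rintro ⟨hN, hA, -⟩ β ⟨hβ0, hβ1⟩ t0 ht0 T
  obtain ⟨a0, ha0, hA⟩ := hA t0 ht0
  have hm4 := TapFrz.m4_nonneg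
  set η := a0 ^ 2 / 32 with hη
  have hη0 : 0 < η := by positivity
  set M := 3 * (TapFrz.m4 + 1) / η with hM
  have hM0 : 0 < M := by positivity
  have hτ : 12 * tauE M ≤ η := by
    have h1 := tauE_le hM0
    rw [le_div_iff₀ (by positivity)] at h1
    have h2 : M * η = 3 * (TapFrz.m4 + 1) := by rw [hM]; field_simp
    by_contra h3
    have := mul_lt_mul_of_pos_left (not_le.1 h3) hM0
    linarith
  set r := η / (24 * M + 218) with hr
  have hr0 : 0 < r := by positivity
  have hrη : (24 * M + 218) * r ≤ η := le_of_eq (by rw [hr]; field_simp)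
  refine ⟨η, hη0, r, hr0, fun s hs q hq => ?_⟩
  have hs0 : 0 ≤ s := ht0.le.trans hs.1
  have hγ : t0 ≤ s + β ^ 2 * q := by linarith [hs.1, mul_nonneg (sq_nonneg β) hq.1.1]
  have haq : a0 ≤ q := by rw [hq.2]; exact hA _ _ hγ
  obtain ⟨hN1, hN2⟩ := hN (s + β ^ 2 * q) (ht0.le.trans hγ)
  set q4 := gE (fun x => Real.tanh x ^ 4) (s + β ^ 2 * q) (s + β ^ 2 * q) with hq4
  have hk : 0 ≤ q - q4 := by
    have h1 := gE_pt 0 0 1 0 (-1) (s + β ^ 2 * q) (s + β ^ 2 * q)
    have h2 : 0 ≤ gE (pt 0 0 1 0 (-1)) (s + β ^ 2 * q) (s + β ^ 2 * q) :=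
      integral_nonneg fun z => by
        have h3 := (abs_le.1 (abs_tanh_pow (s + β ^ 2 * q + √(s + β ^ 2 * q) * z) 2)).2
        have h4 := mul_le_of_le_one_right
          (sq_nonneg (Real.tanh (s + β ^ 2 * q + √(s + β ^ 2 * q) * z))) h3
        simp only [pt, Pi.zero_apply]
        linarith
    rw [← hq.2, ← hq4] at h1
    linarith
  have hvar : √s ^ 2 + (β * √q) ^ 2 = s + β ^ 2 * q := by
    rw [mul_pow, Real.sq_sqrt hs0, Real.sq_sqrt hq.1.1]
  have hfm := measurable_ff M β s q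
  have hfb : ∀ j g z ξ, |ff M β s q j g z ξ| ≤ 1 * (1 + z ^ 2 + ξ ^ 2) := fun j g z ξ =>
    abs_tf_le hM0.le (Real.abs_tanh_lt_one _).le z ξ j
  have hfE : ∀ j, E3 (ff M β s q j) = tm M (β * √q) q (q - q4) j := fun j =>
    E3_tf M (by rw [hvar, hN1, ← hq.2]) (by rw [hvar, ← hq.2]) (by rw [hvar, hN2]) (by rw [hvar]) j
  set η1 := η / (13 * (18 + 4 / a0)) with hη1
  have hη10 : 0 < η1 := by positivity
  choose κ hκ0 hκ using fun j => lln3 (hfm j) one_pos (hfb j) hη10
  obtain ⟨j0, -, hj0⟩ := Finset.exists_min_image Finset.univ κ ⟨0, Finset.mem_univ _⟩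
  set κ1 := min (κ j0) (4 * η ^ 2) with hκ1
  have hκ10 : 0 < κ1 := lt_min (hκ0 j0) (by positivity)
  refine ⟨r * a0, by positivity, κ1 / 2, by positivity, ?_⟩
  filter_upwards [eventually_gt_atTop 0, Kr50.ev_exp 27 hκ10] with n hn hev
  have hn' : (0 : ℝ) < n := by exact_mod_cast hn
  have hmono : ∀ κ' : ℝ, κ1 ≤ κ' → Real.exp (-κ' * n) ≤ Real.exp (-κ1 * n) := fun κ' h =>
    Real.exp_le_exp.2 (by linarith [mul_le_mul_of_nonneg_right h hn'.le])
  refine (prod_le _ _ (measurable_bad n β s q η (r * √n))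
    (⋃ j, {z : V n × V n | η1 ≤ ∫ ξ, |avg (fun i => ff M β s q j (z.1 i) (z.2 i) (ξ i)) - E3 (ff M β s q j)|
      ∂gv (Fin n)}) (ENNReal.ofReal (Real.exp (-(4 * η ^ 2) * n))) fun z hz => ⟨hz.2.2, ?_⟩).trans ?_
  · rw [or_iff_not_imp_left]
    intro hB
    simp only [mem_iUnion, mem_ofPred_eq, not_exists, not_le] at hB
    have hi : ∀ j, Integrable (fun ξ : V n =>
        |avg (fun i => ff M β s q j (z.1.1 i) (z.1.2 i) (ξ i)) - tm M (β * √q) q (q - q4) j|) (gv (Fin n)) :=
      fun j => (((integrable_avg (hfm j) (hfb j) z.1.1 z.1.2).div_const _).sub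
        (integrable_const _)).abs
    have hiE : Integrable (Err M (β * √q) q (q - q4) (th (xv β s q q z.1.1 z.1.2)) z.1.2)
        (gv (Fin n)) := by
      rw [Err_eq]
      exact integrable_finsetSum _ fun j _ => hi j
    have h1 : ∫ ξ, Err M (β * √q) q (q - q4) (th (xv β s q q z.1.1 z.1.2)) z.1.2 ξ ∂gv (Fin n) ≤
        13 * η1 := by
      rw [Err_eq, integral_finsetSum _ fun j _ => hi j]
      refine (Finset.sum_le_sum (g := fun _ => η1) fun j _ => ?_).trans (by simp)
      rw [← hfE]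
      exact (hB j).le
    have h2 := slice hn hβ0 hβ1 ha0 haq hq.1.2 hk hM0.le hη hr0.le hrη hτ hz.1 hz.2.1 hiE
      ((mul_le_mul_of_nonneg_left h1 (by positivity)).trans (le_of_eq (by rw [hη1]; field_simp)))
    exact le_trans (measure_mono fun W hW => hW) h2
  · refine (add_le_add ((measure_iUnion_fintype_le _ _).trans (Finset.sum_le_sum
      (g := fun _ => ENNReal.ofReal (2 * Real.exp (-κ1 * n))) fun j _ => (hκ j n hn).trans
        (ENNReal.ofReal_le_ofReal (mul_le_mul_of_nonneg_left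
          (hmono _ ((min_le_left _ _).trans (hj0 j (Finset.mem_univ _)))) (by norm_num)))))
      (ENNReal.ofReal_le_ofReal (hmono _ (min_le_right _ _)))).trans ?_
    rw [← ENNReal.ofReal_sum_of_nonneg (fun _ _ => by positivity),
      ← ENNReal.ofReal_add (Finset.sum_nonneg fun _ _ => by positivity) (by positivity)]
    refine ENNReal.ofReal_le_ofReal (le_trans (le_of_eq ?_) hev)
    simp only [Finset.sum_const, Finset.card_univ, Fintype.card_fin, nsmul_eq_mul]
    push_cast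
    ring

end Crest.Agent.T157.Tap

end
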