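import Crest.Agent.T157.TapDef_29

/-!
# Row 157, part A (helper23): the fixed-`d` freeness bound — statement and measurability
-/

set_option autoImplicit false

noncomputable section

namespace Crest.Agent.T157.Tap

open MeasureTheory ProbabilityTheory Matrix Filter Set
open Crest.Agent.T157.E Crest.Agent.T157.Eig Crest.Agent.T157.Cond

variable {n : ℕ}

/-- the good event of a fixed diagonal -/
def Om (c θ : ℝ) (d : V n) : Set (Mx n) :=
  {W | Wᵀ = W ∧ opn W ≤ 3 ∧ Pos c (NN (B0 (θ • W) (θ ^ 2) d) d)}

/-- first error vector of `UF` -/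
def er1 (θ : ℝ) (d : V n) (W : Mx n) : V n := err (B0 (θ • W) (θ ^ 2) d) d (θ ^ 2) 1 1

/-- second error vector of `UF` -/
def er2 (θ : ℝ) (d : V n) (W : Mx n) : V n :=
  err (B0 (θ • W) (θ ^ 2) d) d (θ ^ 2) W (2 * θ * avg fun i => d i ^ 2)

/-- `L²` freeness bound for a fixed diagonal -/
def UFfixStmt : Prop := ∀ c > (0 : ℝ), ∃ K : ℝ, ∀ n : ℕ, 0 < n → ∀ θ ∈ Icc (0 : ℝ) 1, ∀ d : V n,
  Ub d → θ ^ 2 * avg (fun i => d i ^ 2) ≤ 1 - c →
    ∫ W in Om c θ d, nrm (er1 θ d W) ^ 2 ∂GOE n ≤ K ∧
    ∫ W in Om c θ d, nrm (er2 θ d W) ^ 2 ∂GOE n ≤ K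

namespace Uf

section meas
variable {Ω : Type*} [MeasurableSpace Ω]

@[fun_prop] lemma _root_.Measurable.t157_det23 {A : Ω → Mx n} (h : Measurable A) :
    Measurable fun ω => (A ω).det :=
  (continuous_id.matrix_det).measurable.comp h

@[fun_prop] lemma _root_.Measurable.t157_inv23 {A : Ω → Mx n} (h : Measurable A) :
    Measurable fun ω => (A ω)⁻¹ := by
  simp only [Matrix.inv_def, Ring.inverse_eq_inv']
  exact Measurable.t157_smul h.t157_det23.inv
    ((continuous_id.matrix_adjugate).measurable.comp h)

@[fun_prop] lemma _root_.Measurable.t157_nrm23 {v : Ω → V n} (h : Measurable v) :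
    Measurable fun ω => nrm (v ω) := continuous_nrm.measurable.comp h

@[fun_prop] lemma _root_.Measurable.t157_opn23 {A : Ω → Mx n} (h : Measurable A) :
    Measurable fun ω => opn (A ω) := continuous_opn.measurable.comp h

@[fun_prop] lemma _root_.Measurable.t157_NN23 {B : Ω → Mx n} (h : Measurable B) (d : V n) :
    Measurable fun ω => NN (B ω) d := by unfold NN; fun_prop

@[fun_prop] lemma _root_.Measurable.t157_GG23 {B : Ω → Mx n} (h : Measurable B) (d : V n) :
    Measurable fun ω => GG (B ω) d := by unfold GG; fun_prop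

@[fun_prop] lemma _root_.Measurable.t157_RR23 {B : Ω → Mx n} (h : Measurable B) (d : V n) :
    Measurable fun ω => RR (B ω) d := by unfold RR; fun_prop

@[fun_prop] lemma _root_.Measurable.t157_B023 {J : Ω → Mx n} (h : Measurable J) (b : ℝ) (d : V n) :
    Measurable fun ω => B0 (J ω) b d := by unfold B0; fun_prop

lemma measurable_err {B S : Ω → Mx n} (hB : Measurable B) (hS : Measurable S) (d : V n)
    (b k : ℝ) : Measurable fun ω => err (B ω) d b (S ω) k := by
  refine measurable_pi_lambda _ fun i => ?_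
  unfold err
  refine Measurable.sub (by fun_prop) (Measurable.t157_entry (by fun_prop) i i)

lemma measurableSet_pos {M : Ω → Mx n} (h : Measurable M) (c : ℝ) :
    MeasurableSet {ω | Pos c (M ω)} := by
  have hc : IsClosed {M : Mx n | Pos c M} := by
    simp only [Pos, Set.ofPred_forall]
    refine isClosed_iInter fun u => isClosed_le continuous_const ?_
    simp only [dotProduct, mulVec]
    fun_prop
  exact h hc.measurableSet

end meas

lemma measurable_er1 (θ : ℝ) (d : V n) : Measurable (er1 θ d) :=
  measurable_err (by fun_prop) measurable_const d _ _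

lemma measurable_er2 (θ : ℝ) (d : V n) : Measurable (er2 θ d) :=
  measurable_err (by fun_prop) measurable_id d _ _

lemma measurableSet_Om (c θ : ℝ) (d : V n) : MeasurableSet (Om c θ d) :=
  measurableSet_symm.inter ((measurableSet_le (f := fun W : Mx n => opn W) (by fun_prop)
    measurable_const).inter (measurableSet_pos
      (M := fun W : Mx n => NN (B0 (θ • W) (θ ^ 2) d) d) (by fun_prop) c))

end Uf

end Crest.Agent.T157.Tap
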