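import Crest.Agent.T157.TapUfB_14
import Crest.Agent.T157.TapUfD_23

/-!
# Row 157, part A: uniform freeness from the `L²` bound at a fixed diagonal (helper14)
-/

set_option autoImplicit false

noncomputable section

namespace Crest.Agent.T157.Tap

open MeasureTheory ProbabilityTheory Matrix Filter Set Topology
open Crest.Agent.T157.E Crest.Agent.T157.Eig Crest.Agent.T157.Cond
open Crest.Agent.T157.Kr (fro fro_nonneg)

namespace Uf14

lemma markov {n : ℕ} {c K : ℝ} {d : V n} (hd : Ub d) {Φ : ∀ n, Mx n → V n → V n}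
    (hΦ : Dif (G1 c) Φ) (hm : Measurable fun W => Φ n W d)
    (h : ∫ W in Om c 1 d, nrm (Φ n W d) ^ 2 ∂GOE n ≤ K) :
    (GOE n).real {W | W ∈ Om c 1 d ∧ ¬ nrm (Φ n W d) ≤ √(8 * (|K| + 1))} ≤ 1 / 8 := by
  obtain ⟨L, hL, hΦ⟩ := hΦ
  have hG : ∀ W ∈ Om c 1 d, G1 c n W d := fun W hW =>
    ⟨hW.2.1, hd, by simpa only [one_smul, one_pow] using hW.2.2⟩
  have hmn : Measurable fun W => nrm (Φ n W d) ^ 2 := (continuous_nrm.measurable.comp hm).pow_const 2
  have hi : Integrable (fun W => nrm (Φ n W d) ^ 2) ((GOE n).restrict (Om c 1 d)) := by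
    rcases (Om c 1 d).eq_empty_or_nonempty with h0 | ⟨W0, hW0⟩
    · rw [h0, Measure.restrict_empty]; exact integrable_zero_measure
    refine Integrable.of_bound hmn.aestronglyMeasurable ((L * (6 * √n) + nrm (Φ n W0 d)) ^ 2) ?_
    refine (ae_restrict_iff' (Uf.measurableSet_Om c 1 d)).2 (Eventually.of_forall fun W hW => ?_)
    rw [Real.norm_of_nonneg (sq_nonneg _)]
    refine pow_le_pow_left₀ (nrm_nonneg _) ?_ 2
    have h1 := (hΦ n W W0).1 d (hG W hW) (hG W0 hW0)
    have h2 : fro (W - W0) ≤ 6 * √n :=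
      (fro_le_opn _).trans (mul_le_mul_of_nonneg_right
        ((opn_sub_le _ _).trans (by linarith [hW.2.1, hW0.2.1])) (Real.sqrt_nonneg _))
    have h3 := nrm_add_le (Φ n W d - Φ n W0 d) (Φ n W0 d)
    rw [sub_add_cancel] at h3
    linarith [mul_le_mul_of_nonneg_left h2 hL]
  have hM := mul_meas_ge_le_integral_of_nonneg (Eventually.of_forall fun W => sq_nonneg _) hi
    (8 * (|K| + 1))
  rw [measureReal_restrict_apply' (Uf.measurableSet_Om c 1 d)] at hM
  have h1 : (GOE n).real {W | W ∈ Om c 1 d ∧ ¬ nrm (Φ n W d) ≤ √(8 * (|K| + 1))} ≤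
      (GOE n).real ({W | 8 * (|K| + 1) ≤ nrm (Φ n W d) ^ 2} ∩ Om c 1 d) := by
    refine measureReal_mono fun W hW => ⟨?_, hW.1⟩
    exact (Real.sqrt_le_left (nrm_nonneg _)).1 (not_le.1 hW.2).le
  refine le_of_mul_le_mul_left (a := 8 * (|K| + 1)) ?_ (by positivity)
  have h2 := mul_le_mul_of_nonneg_left h1 (show 0 ≤ 8 * (|K| + 1) by positivity)
  linarith [le_abs_self K]

end Uf14

open Uf14 in
theorem ufFixP_of (h : UFfixStmt) : UFfixP := by
  intro c hc
  obtain ⟨K, hK⟩ := h c hc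
  refine ⟨√(8 * (|K| + 1)), ?_⟩
  filter_upwards [eventually_gt_atTop 0] with n hn d hd ha
  obtain ⟨h1, h2⟩ := hK n hn 1 ⟨zero_le_one, le_rfl⟩ d hd (by simpa using ha)
  have e1' : er1 1 d = fun W => e1 n W d := by
    funext W; simp only [er1, e1, one_smul, one_pow]
  have e2' : er2 1 d = fun W => e2 n W d := by
    funext W; simp only [er2, e2, one_smul, one_pow, mul_one]
  have m1 := Uf.measurable_er1 1 d
  have m2 := Uf.measurable_er2 1 d
  rw [e1'] at h1 m1
  rw [e2'] at h2 m2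
  have a1 := markov hd (dif_e1 hc) m1 h1
  have a2 := markov hd (dif_e2 hc) m2 h2
  refine le_trans (measureReal_mono fun W hW => ?_) ((measureReal_union_le _ _).trans
    ((add_le_add a1 a2).trans (by norm_num)))
  have hO : W ∈ Om c 1 d := ⟨hW.1, hW.2.1, by simpa only [one_smul, one_pow] using hW.2.2.1⟩
  rcases not_and_or.1 hW.2.2.2 with h3 | h3
  · exact Or.inl ⟨hO, h3⟩
  · exact Or.inr ⟨hO, h3⟩

/-- **uniform freeness** from the fixed-diagonal `L²` bound -/
theorem ufStmt_of_fix (h : UFfixStmt) : UFStmt := ufStmt_of (ufFixP_of h)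

end Crest.Agent.T157.Tap
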