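import Crest.Agent.T157.TapUfC_23
import Crest.Agent.T157.TapUfC_14

/-!
# Row 157, part A: uniform freeness, unconditional
-/

namespace Crest.Agent.T157.Tap

theorem ufStmt : UFStmt := ufStmt_of_fix ufFix

end Crest.Agent.T157.Tap
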