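import Crest.Agent.T157.SLE_23
import Crest.Agent.T157.EigN_84

/-!
# Row 157: local Itô calculus on `[0,h] × O`, extension by zero, a flat cutoff (helper29)
-/

set_option autoImplicit false

noncomputable section

namespace Crest.Agent.T157.SL

open Matrix Filter Set Topology MeasureTheory
open Crest.Agent.T157.E Crest.Agent.T157.Eig

variable {ι : Type*} [Fintype ι] [DecidableEq ι] {d : ι → Pt ι → ℝ} {h : ℝ} {O : Set (ι → ℝ)}
  {G H a a' : Pt ι → ℝ} {b b' : ι → Pt ι → ℝ}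

/-- local Itô data on `[0,h] × O` -/
def LI (d : ι → Pt ι → ℝ) (h : ℝ) (O : Set (ι → ℝ)) (G a : Pt ι → ℝ) (b : ι → Pt ι → ℝ) : Prop :=
  ∃ (g : Pt ι → ℝ) (k : ι → Pt ι → ℝ), ContinuousOn G (Icc 0 h ×ˢ O) ∧
    ContinuousOn g (Icc 0 h ×ˢ O) ∧ (∀ i, ContinuousOn (b i) (Icc 0 h ×ˢ O)) ∧
    (∀ i, ContinuousOn (k i) (Icc 0 h ×ˢ O)) ∧
    (∀ (c : ℝ → Pt ι) (c' : Pt ι) (s : ℝ), HasDerivAt c c' s → c s ∈ Ioo 0 h ×ˢ O →
      HasDerivAt (fun s => G (c s)) (g (c s) * c'.1 + ∑ i, b i (c s) * c'.2 i) s) ∧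
    (∀ i, ∀ p ∈ Ioo 0 h ×ˢ O,
      HasDerivAt (fun s => b i (p.1, Function.update p.2 i s)) (k i p) (p.2 i)) ∧
    ∀ p ∈ Ioo 0 h ×ˢ O, a p = g p + ∑ i, (d i p * b i p + k i p / 2)

theorem upd_curve (p : Pt ι) (i : ι) : HasDerivAt
    (fun s => ((p.1, Function.update p.2 i s) : Pt ι)) (0, Pi.single i 1) (p.2 i) :=
  (hasDerivAt_const _ _).prodMk (hasDerivAt_update _ _ _)

theorem dp_of_df {g : Pt ι → ℝ} {S : Set (Pt ι)}
    (h5 : ∀ (c : ℝ → Pt ι) (c' : Pt ι) (s : ℝ), HasDerivAt c c' s → c s ∈ S →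
      HasDerivAt (fun s => G (c s)) (g (c s) * c'.1 + ∑ i, b i (c s) * c'.2 i) s)
    (i : ι) {p : Pt ι} (hp : p ∈ S) :
    HasDerivAt (fun s => G (p.1, Function.update p.2 i s)) (b i p) (p.2 i) := by
  simpa [Pi.single_apply] using h5 _ _ _ (upd_curve p i) (by simpa using hp)

theorem Ito.li (hI : Ito d univ G a b) (h : ℝ) (O : Set (ι → ℝ)) : LI d h O G a b := by
  obtain ⟨g, k, h1, h2, h3, h4, h5, h6, h7⟩ := hI
  have hs : (Icc 0 h ×ˢ O : Set (Pt ι)) ⊆ univ ×ˢ univ := prod_mono (subset_univ _) (subset_univ _)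
  exact ⟨g, k, h1.cont.mono hs, h2.cont.mono hs, fun i => (h3 i).cont.mono hs,
    fun i => (h4 i).cont.mono hs, fun c c' s hc _ => h5 c c' s hc trivial,
    fun i p _ => h6 i p trivial, fun p _ => h7 p trivial⟩

namespace LI

theorem cont (hI : LI d h O G a b) : ContinuousOn G (Icc 0 h ×ˢ O) := hI.choose_spec.choose_spec.1

theorem congr (hI : LI d h O G a b) (ea : ∀ p ∈ Ioo 0 h ×ˢ O, a' p = a p)
    (eb : ∀ i p, b' i p = b i p) : LI d h O G a' b' := by
  obtain rfl : b' = b := funext fun i => funext (eb i)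
  obtain ⟨g, k, h1, h2, h3, h4, h5, h6, h7⟩ := hI
  exact ⟨g, k, h1, h2, h3, h4, h5, h6, fun p hp => (ea p hp).trans (h7 p hp)⟩

theorem add (hI : LI d h O G a b) (h' : LI d h O H a' b') :
    LI d h O (fun p => G p + H p) (fun p => a p + a' p) fun i p => b i p + b' i p := by
  obtain ⟨g, k, h1, h2, h3, h4, h5, h6, h7⟩ := hI
  obtain ⟨g', k', h1', h2', h3', h4', h5', h6', h7'⟩ := h'
  refine ⟨_, _, h1.add h1', h2.add h2', fun i => (h3 i).add (h3' i), fun i => (h4 i).add (h4' i),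
    fun c c' s hc hs => ((h5 c c' s hc hs).add (h5' c c' s hc hs)).congr_deriv ?_,
    fun i p hp => (h6 i p hp).add (h6' i p hp), fun p hp => ?_⟩
  · simp only [Pi.add_apply, add_mul, Finset.sum_add_distrib]; ring
  · simp only [Pi.add_apply, h7 p hp, h7' p hp, mul_add, add_div, Finset.sum_add_distrib]; ring

theorem mul (hI : LI d h O G a b) (h' : LI d h O H a' b') :
    LI d h O (fun p => G p * H p) (fun p => a p * H p + G p * a' p + ∑ i, b i p * b' i p)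
      fun i p => b i p * H p + G p * b' i p := by
  obtain ⟨g, k, h1, h2, h3, h4, h5, h6, h7⟩ := hI
  obtain ⟨g', k', h1', h2', h3', h4', h5', h6', h7'⟩ := h'
  refine ⟨fun p => g p * H p + G p * g' p, fun i p => k i p * H p + b i p * b' i p +
    (b i p * b' i p + G p * k' i p), h1.mul h1', (h2.mul h1').add (h1.mul h2'),
    fun i => ((h3 i).mul h1').add (h1.mul (h3' i)), fun i => (((h4 i).mul h1').add
      ((h3 i).mul (h3' i))).add (((h3 i).mul (h3' i)).add (h1.mul (h4' i))),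
    fun c c' s hc hs => ((h5 c c' s hc hs).mul (h5' c c' s hc hs)).congr_deriv ?_,
    fun i p hp => ?_, fun p hp => ?_⟩
  · simp only [add_mul, mul_add, Finset.sum_add_distrib, Finset.sum_mul, Finset.mul_sum]
    simp only [mul_assoc, mul_comm, mul_left_comm]
    ring
  · exact (((h6 i p hp).mul (dp_of_df h5' i hp)).add ((dp_of_df h5 i hp).mul
      (h6' i p hp))).congr_deriv (by simp)
  · simp only [h7 p hp, h7' p hp, add_mul, mul_add, Finset.sum_mul, Finset.mul_sum, add_assoc,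
      ← Finset.sum_add_distrib]
    rw [add_left_comm (∑ _, _), ← Finset.sum_add_distrib]
    exact congrArg _ (congrArg _ (Finset.sum_congr rfl fun i _ => by ring))

theorem const (c : ℝ) : LI d h O (fun _ => c) (fun _ => 0) fun _ _ => 0 := (Ito.const c).li h O

theorem const_mul (c : ℝ) (hI : LI d h O G a b) :
    LI d h O (fun p => c * G p) (fun p => c * a p) fun i p => c * b i p :=
  ((const c).mul hI).congr (fun _ _ => by simp) fun _ _ => by simp

theorem sub (hI : LI d h O G a b) (h' : LI d h O H a' b') :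
    LI d h O (fun p => G p - H p) (fun p => a p - a' p) fun i p => b i p - b' i p := by
  simpa [sub_eq_add_neg] using hI.add (h'.const_mul (-1))

theorem sum {κ : Type*} (s : Finset κ) {G a : κ → Pt ι → ℝ} {b : κ → ι → Pt ι → ℝ}
    (hI : ∀ k ∈ s, LI d h O (G k) (a k) (b k)) :
    LI d h O (fun p => ∑ k ∈ s, G k p) (fun p => ∑ k ∈ s, a k p) fun i p => ∑ k ∈ s, b k i p := by
  classical
  induction s using Finset.induction_on with
  | empty => simpa using const 0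
  | insert k s hk ih =>
    simpa [Finset.sum_insert hk] using (hI k (by simp)).add (ih fun j hj => hI j (by simp [hj]))

theorem comp (hI : LI d h O G a b) {φ φ' φ'' : ℝ → ℝ} {S : Set ℝ} (hS : ∀ p ∈ Icc 0 h ×ˢ O, G p ∈ S)
    (d1 : ∀ x ∈ S, HasDerivAt φ (φ' x) x) (d2 : ∀ x ∈ S, HasDerivAt φ' (φ'' x) x)
    (e2 : ContinuousOn φ'' S) :
    LI d h O (fun p => φ (G p)) (fun p => φ' (G p) * a p + φ'' (G p) * (∑ i, b i p ^ 2) / 2)
      fun i p => φ' (G p) * b i p := by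
  obtain ⟨g, k, h1, h2, h3, h4, h5, h6, h7⟩ := hI
  have hs : (Ioo 0 h ×ˢ O : Set (Pt ι)) ⊆ Icc 0 h ×ˢ O := prod_mono Ioo_subset_Icc_self le_rfl
  have e0 : ContinuousOn (fun p => φ (G p)) (Icc 0 h ×ˢ O) :=
    ContinuousOn.comp (fun x hx => (d1 x hx).continuousAt.continuousWithinAt) h1 hS
  have e1 : ContinuousOn (fun p => φ' (G p)) (Icc 0 h ×ˢ O) :=
    ContinuousOn.comp (fun x hx => (d2 x hx).continuousAt.continuousWithinAt) h1 hS
  have e2 : ContinuousOn (fun p => φ'' (G p)) (Icc 0 h ×ˢ O) := e2.comp h1 hS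
  refine ⟨fun p => φ' (G p) * g p, fun i p => φ'' (G p) * b i p * b i p + φ' (G p) * k i p, e0,
    e1.mul h2, fun i => e1.mul (h3 i), fun i => ((e2.mul (h3 i)).mul (h3 i)).add (e1.mul (h4 i)),
    fun c c' s hc hs' => ((d1 _ (hS _ (hs hs'))).comp s (h5 c c' s hc hs')).congr_deriv ?_,
    fun i p hp => ?_, fun p hp => ?_⟩
  · simp only [mul_add, Finset.mul_sum, mul_assoc]
  · have := (show HasDerivAt φ' (φ'' (G p)) (G (p.1, Function.update p.2 i (p.2 i))) by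
      simpa using d2 _ (hS p (hs hp))).comp (p.2 i) (dp_of_df h5 i hp)
    exact (this.mul (h6 i p hp)).congr_deriv (by simp)
  · simp only [h7 p hp, mul_add, Finset.mul_sum, Finset.sum_div, add_assoc, ← Finset.sum_add_distrib]
    exact congrArg _ (Finset.sum_congr rfl fun i _ => by ring)

end LI

theorem eg_ext {I : Set ℝ} {K : Set (ι → ℝ)} {f f' : Pt ι → ℝ} (hI : I ⊆ Icc 0 h) (hO : IsOpen O)
    (hK : IsCompact K) (hKO : K ⊆ O) (hf : ContinuousOn f (Icc 0 h ×ˢ O))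
    (e : ∀ p ∈ I ×ˢ O, f' p = f p) (z : ∀ p : Pt ι, p.2 ∉ K → f' p = 0) : EG I f' := by
  obtain ⟨C, hC⟩ := (isCompact_Icc.prod hK).exists_bound_of_continuousOn
    (hf.mono (prod_mono le_rfl hKO))
  refine .of_bdd (fun p hp => ?_) |C| fun p hp => ?_
  · by_cases hp2 : p.2 ∈ K
    · refine (((hf.mono (prod_mono hI le_rfl)).congr e) p ⟨hp.1, hKO hp2⟩).mono_of_mem_nhdsWithin ?_
      filter_upwards [self_mem_nhdsWithin, mem_nhdsWithin_of_mem_nhds
        (continuous_snd.continuousAt.preimage_mem_nhds (hO.mem_nhds (hKO hp2)))] with q h1 h2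
      exact ⟨h1.1, h2⟩
    · refine ((continuousAt_const (y := (0 : ℝ))).congr ?_).continuousWithinAt
      filter_upwards [continuous_snd.continuousAt.preimage_mem_nhds
        (hK.isClosed.isOpen_compl.mem_nhds hp2)] with q h1
      exact (z q h1).symm
  · by_cases hp2 : p.2 ∈ K
    · rw [e p ⟨hp, hKO hp2⟩]
      exact (hC p ⟨hI hp, hp2⟩).trans (le_abs_self C)
    · simp [z p hp2]

open Classical in
/-- extension by zero -/
theorem LI.ext0 {K : Set (ι → ℝ)} (hI : LI d h O G a b) (hO : IsOpen O) (hK : IsCompact K)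
    (hKO : K ⊆ O) (z : ∀ p : Pt ι, p.2 ∉ K → G p = 0) :
    Ito d (Ioo 0 h) G (fun p => if p.2 ∈ K then a p else 0)
      (fun i p => if p.2 ∈ K then b i p else 0) ∧ EG (Icc 0 h) G := by
  obtain ⟨g, k, h1, h2, h3, h4, h5, h6, h7⟩ := hI
  have hV : IsOpen (Ioo 0 h ×ˢ O : Set (Pt ι)) := isOpen_Ioo.prod hO
  have near : ∀ {c : ℝ → Pt ι} {c' : Pt ι} {s : ℝ}, HasDerivAt c c' s → (c s).2 ∉ K →
      ∀ᶠ r in 𝓝 s, (c r).2 ∉ K := fun hc hs =>
    hc.continuousAt.snd.preimage_mem_nhds (hK.isClosed.isOpen_compl.mem_nhds hs)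
  have zero : ∀ {c : ℝ → Pt ι} {c' : Pt ι} {s : ℝ}, HasDerivAt c c' s → (c s).2 ∉ K →
      HasDerivAt (fun r => G (c r)) 0 s := fun hc hs =>
    (hasDerivAt_const _ (0 : ℝ)).congr_of_eventuallyEq ((near hc hs).mono fun r hr => z _ hr)
  have zb : ∀ i, ∀ p ∈ Ioo 0 h ×ˢ O, p.2 ∉ K → b i p = 0 := fun i p hp hp2 =>
    (dp_of_df h5 i hp).unique (zero (upd_curve p i) (by simpa using hp2))
  have zg : ∀ p ∈ Ioo 0 h ×ˢ O, p.2 ∉ K → g p = 0 := fun p hp hp2 => by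
    have hc : HasDerivAt (fun s => ((s, p.2) : Pt ι)) (1, 0) p.1 :=
      (hasDerivAt_id' _).prodMk (hasDerivAt_const _ _)
    simpa using (h5 _ _ _ hc hp).unique (zero hc hp2)
  have inV : ∀ i, ∀ p ∈ Ioo 0 h ×ˢ O, ∀ᶠ s in 𝓝 (p.2 i),
      ((p.1, Function.update p.2 i s) : Pt ι) ∈ Ioo 0 h ×ˢ O := fun i p hp =>
    (upd_curve p i).continuousAt.preimage_mem_nhds (hV.mem_nhds (by simpa using hp))
  have zk : ∀ i, ∀ p ∈ Ioo 0 h ×ˢ O, p.2 ∉ K → k i p = 0 := fun i p hp hp2 =>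
    (h6 i p hp).unique ((hasDerivAt_const _ (0 : ℝ)).congr_of_eventuallyEq
      (((inV i p hp).and (near (upd_curve p i) (by simpa using hp2))).mono
        fun r hr => zb i _ hr.1 hr.2))
  have cut : ∀ f : Pt ι → ℝ, (∀ p ∈ Ioo 0 h ×ˢ O, p.2 ∉ K → f p = 0) → ∀ p ∈ Ioo 0 h ×ˢ O,
      (if p.2 ∈ K then f p else 0) = f p := fun f hf p hp => by
    by_cases hp2 : p.2 ∈ K <;> simp [hp2, hf p hp]
  have eg : ∀ f : Pt ι → ℝ, ContinuousOn f (Icc 0 h ×ˢ O) →
      (∀ p ∈ Ioo 0 h ×ˢ O, p.2 ∉ K → f p = 0) → EG (Ioo 0 h) fun p => if p.2 ∈ K then f p else 0 :=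
    fun f hf h0 => eg_ext Ioo_subset_Icc_self hO hK hKO hf (cut f h0) fun p hp => if_neg hp
  have hG : EG (Icc 0 h) G := eg_ext le_rfl hO hK hKO h1 (fun _ _ => rfl) z
  refine ⟨⟨fun p => if p.2 ∈ K then g p else 0, fun i p => if p.2 ∈ K then k i p else 0,
    hG.mono Ioo_subset_Icc_self, eg g h2 zg, fun i => eg _ (h3 i) (zb i), fun i => eg _ (h4 i) (zk i),
    fun c c' s hc hs => ?_, fun i p hp => ?_, fun p hp => ?_⟩, hG⟩
  · by_cases h2 : (c s).2 ∈ K
    · simpa [h2] using h5 c c' s hc ⟨hs, hKO h2⟩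
    · simpa [h2] using zero hc h2
  · by_cases h2 : p.2 ∈ K
    · simp only [if_pos h2]
      exact (h6 i p ⟨hp, hKO h2⟩).congr_of_eventuallyEq
        ((inV i p ⟨hp, hKO h2⟩).mono fun r hr => cut _ (zb i) _ hr)
    · simp only [if_neg h2]
      exact (hasDerivAt_const _ (0 : ℝ)).congr_of_eventuallyEq
        ((near (upd_curve p i) (by simpa using h2)).mono fun r hr => if_neg hr)
  · by_cases h2 : p.2 ∈ K
    · simpa [h2] using h7 p ⟨hp, hKO h2⟩
    · simp [h2]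

/-- data of a flat cutoff at radius `R` -/
structure Cut (d : ι → Pt ι → ℝ) (R C : ℝ) (ζ a : Pt ι → ℝ) (b : ι → Pt ι → ℝ) : Prop where
  li : ∀ h O, LI d h O ζ a b
  nn : ∀ p, 0 ≤ ζ p
  le : ∀ p, ζ p ≤ 1
  out : ∀ p, R ^ 2 ≤ p.2 ⬝ᵥ p.2 → ζ p = 0
  mid : ∀ p, 2 * (p.2 ⬝ᵥ p.2) < R ^ 2 → ζ p = 1 ∧ a p = 0 ∧ ∀ i, b i p = 0
  bd : ∀ p, p.2 ⬝ᵥ p.2 ≤ R ^ 2 → |a p| ≤ C ∧ ∑ i, b i p ^ 2 ≤ C

theorem exists_cut : ∃ C > (0 : ℝ), ∀ (n : ℕ) (d : Fin n → Pt (Fin n) → ℝ) (R K : ℝ), 0 < n → 0 < R →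
    (n : ℝ) ≤ K * R ^ 2 → (∀ p, nrm (fun i => d i p) ≤ K * R) →
    ∃ ζ a b, Cut d R (C * K) ζ a b := by
  let φ := Real.smoothTransition
  have c0 : ContDiff ℝ 2 φ := Real.smoothTransition.contDiff
  have c1 : ContDiff ℝ 1 (deriv φ) := c0.deriv' 
  have c2 : Continuous (deriv (deriv φ)) := c1.continuous_deriv le_rfl
  obtain ⟨A, hA⟩ := (isCompact_Icc (a := (0 : ℝ)) (b := 2)).exists_bound_of_continuousOn
    c1.continuous.continuousOn
  obtain ⟨B, hB⟩ := (isCompact_Icc (a := (0 : ℝ)) (b := 2)).exists_bound_of_continuousOn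
    c2.continuousOn
  have hA0 : 0 ≤ A := (norm_nonneg _).trans (hA 0 (by simp))
  have hB0 : 0 ≤ B := (norm_nonneg _).trans (hB 0 (by simp))
  have f1 : ∀ x > (1 : ℝ), deriv φ x = 0 := fun x hx => by
    rw [← deriv_const x (1 : ℝ)]
    exact EventuallyEq.deriv_eq ((lt_mem_nhds hx).mono fun y hy =>
      Real.smoothTransition.one_of_one_le hy.le)
  have f2 : ∀ x > (1 : ℝ), deriv (deriv φ) x = 0 := fun x hx => by
    rw [← deriv_const x (0 : ℝ)]
    exact EventuallyEq.deriv_eq ((lt_mem_nhds hx).mono f1)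
  refine ⟨6 * A + 8 * B + 16 * A ^ 2 + 1, by positivity, fun n d R K hn hR hK hd => ?_⟩
  have hn1 : (1 : ℝ) ≤ n := Nat.one_le_cast.2 hn
  have hR2 : 0 < R ^ 2 := by positivity
  have hK0 : 0 < K := by nlinarith
  have hK1 : 1 / R ^ 2 ≤ K := by rw [div_le_iff₀ hR2]; linarith
  have hv : ∀ h O, LI d h O (fun p => 2 - 2 / R ^ 2 * (p.2 ⬝ᵥ p.2))
      (fun p => -(2 / R ^ 2 * (2 * (p.2 ⬝ᵥ fun i => d i p) + n))) fun i p => -(4 / R ^ 2 * p.2 i) :=
    fun h O => ((LI.const 2).sub ((LI.sum Finset.univ fun j _ =>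
      ((Ito.coord j).li h O).mul ((Ito.coord j).li h O)).const_mul (2 / R ^ 2))).congr
      (fun p _ => by simp [dotProduct, Finset.sum_add_distrib, mul_comm, two_mul])
      fun i p => by simp [Finset.sum_add_distrib]; ring
  refine ⟨_, _, _, fun h O => (hv h O).comp (S := univ) (φ := φ) (fun _ _ => trivial)
    (fun x _ => (c0.differentiable (by simp) x).hasDerivAt)
    (fun x _ => (c1.differentiable (by simp) x).hasDerivAt) c2.continuousOn,
    fun _ => Real.smoothTransition.nonneg _, fun _ => Real.smoothTransition.le_one _,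
    fun p hp => Real.smoothTransition.zero_of_nonpos ?_, fun p hp => ?_, fun p hp => ?_⟩
  · rw [sub_nonpos, div_mul_eq_mul_div, le_div_iff₀ hR2]; linarith
  · have : 1 < 2 - 2 / R ^ 2 * (p.2 ⬝ᵥ p.2) := by
      rw [lt_sub_comm, div_mul_eq_mul_div, div_lt_iff₀ hR2]; linarith
    exact ⟨Real.smoothTransition.one_of_one_le this.le, by simp [f1 _ this, f2 _ this],
      fun i => by simp [f1 _ this]⟩
  · have h0 := dot_self_nonneg p.2
    have hm : 2 - 2 / R ^ 2 * (p.2 ⬝ᵥ p.2) ∈ Icc (0 : ℝ) 2 := by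
      refine ⟨?_, sub_le_self _ (by positivity)⟩
      rw [sub_nonneg, div_mul_eq_mul_div, div_le_iff₀ hR2]; linarith
    have h1 := hA _ hm
    have h2 := hB _ hm
    rw [Real.norm_eq_abs] at h1 h2
    set x := deriv φ (2 - 2 / R ^ 2 * (p.2 ⬝ᵥ p.2))
    set y := deriv (deriv φ) (2 - 2 / R ^ 2 * (p.2 ⬝ᵥ p.2))
    have e1 : ∑ i, (-(4 / R ^ 2 * p.2 i)) ^ 2 = 16 / R ^ 2 * (p.2 ⬝ᵥ p.2 / R ^ 2) := by
      simp only [dotProduct, Finset.sum_div, Finset.mul_sum]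
      exact Finset.sum_congr rfl fun i _ => by ring
    have e2 : ∑ i, (-(4 / R ^ 2 * p.2 i)) ^ 2 ≤ 16 * K := by
      rw [e1]
      have : p.2 ⬝ᵥ p.2 / R ^ 2 ≤ 1 := (div_le_one hR2).2 hp
      calc _ ≤ 16 / R ^ 2 * 1 := by gcongr
        _ = 16 * (1 / R ^ 2) := by ring
        _ ≤ _ := by gcongr
    have e3 : |2 / R ^ 2 * (2 * (p.2 ⬝ᵥ fun i => d i p) + n)| ≤ 6 * K := by
      have h3 : nrm p.2 ≤ R := (nrm_le_iff hR.le).2 hp
      have h4 : |p.2 ⬝ᵥ fun i => d i p| ≤ R * (K * R) :=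
        (abs_dot_le _ _).trans (mul_le_mul h3 (hd p) (nrm_nonneg _) hR.le)
      rw [abs_mul, abs_of_pos (by positivity), div_mul_eq_mul_div, div_le_iff₀ hR2]
      have := abs_add_le (2 * (p.2 ⬝ᵥ fun i => d i p)) n
      rw [abs_mul, abs_two, Nat.abs_cast] at this
      nlinarith
    have e4 : 0 ≤ ∑ i, (-(4 / R ^ 2 * p.2 i)) ^ 2 := Finset.sum_nonneg fun i _ => sq_nonneg _
    constructor
    · refine (abs_add_le _ _).trans ?_
      rw [abs_mul x, abs_neg, abs_div (y * _), abs_mul y, abs_of_nonneg e4, abs_two]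
      have := mul_le_mul h1 e3 (abs_nonneg _) hA0
      have := mul_le_mul h2 e2 e4 hB0
      nlinarith [mul_nonneg (sq_nonneg A) hK0.le]
    · simp only [mul_pow x, ← Finset.mul_sum]
      have := mul_le_mul (sq_le_sq' (abs_le.1 h1).1 (abs_le.1 h1).2) e2 e4 (sq_nonneg A)
      nlinarith [mul_nonneg hA0 hK0.le, mul_nonneg hB0 hK0.le]

variable {Ω : Type*} [Fintype Ω] {φ : Ω → ι → ℝ} {v : Ω → ℝ} {t : ℝ}

theorem mg_ind {A : Set (ι → ℝ)} (hA : MeasurableSet A) : MG (A.indicator fun _ => (1 : ℝ)) :=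
  (MG.const 1).indicator hA

theorem ex_ind (hv : Wt v) {A : Set (ι → ℝ)} (hA : MeasurableSet A) :
    ex φ v (fun p => A.indicator (fun _ => (1 : ℝ)) p.2) t = (law φ v t).real A := by
  rw [ex_eq_integral hv (mg_ind hA)]
  exact integral_indicator_one hA

/-- the logarithm of the normaliser of the posterior -/
theorem li_logZ (hv : Wt v) (h : ℝ) (O : Set (ι → ℝ)) : LI (md φ v) h O
    (fun p => Real.log (Zw (pw φ v p))) (fun p => (∑ i, md φ v i p ^ 2) / 2) (md φ v) := by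
  have hs : (Icc 0 h ×ˢ O : Set (Pt ι)) ⊆ univ ×ˢ univ := prod_mono (subset_univ _) (subset_univ _)
  have hp : ∀ p : Pt ι, Wt (pw φ v p) := fun p => hv.post _ _ _
  refine ⟨fun p => -(mean (pw φ v p) fun x => φ x ⬝ᵥ φ x) / 2, fun i p => covMat (pw φ v p) φ i i,
    ((continuous_finsetSum _ fun x _ => cont_pw φ v x).log fun p => (hp p).pos.ne').continuousOn,
    (((eg_mean hv _).neg.div_const 2).cont.mono hs), fun i => (eg_md hv i).cont.mono hs,
    fun i => (eg_cov hv _ _).cont.mono hs, fun c c' s hc _ => ?_,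
    fun i p _ => (ito_md (I := univ) hv i).dp i p trivial, fun p _ => ?_⟩
  · have h1 : ∀ x, HasDerivAt (fun s => pw φ v (c s) x)
        (pw φ v (c s) x * (c'.2 ⬝ᵥ φ x - c'.1 / 2 * (φ x ⬝ᵥ φ x))) s := fun x =>
      (((HasDerivAt.fun_sum fun i _ => (hasDerivAt_pi.1 hc.snd i).mul_const (φ x i)).sub
        (((show HasDerivAt (fun s => (c s).1) c'.1 s from hc.fst).div_const 2).mul_const
          _)).exp.const_mul (v x)).congr_deriv (mul_assoc _ _ _).symm
    refine ((HasDerivAt.fun_sum fun x _ => h1 x).log (hp _).pos.ne').congr_deriv ?_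
    rw [← mean_eq_div, mean_sub, mean_const_mul, ← meanV_dot]
    simp only [dotProduct, md, mul_comm]
    ring
  · simp only [dotProduct, mean_sum, neg_div, Finset.sum_div, ← Finset.sum_neg_distrib,
      ← Finset.sum_add_distrib]
    refine Finset.sum_congr rfl fun i _ => ?_
    simp only [covMat, md, meanV, (hp p).cov_eq]
    ring

end Crest.Agent.T157.SL
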