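import Crest.Agent.T157.TapWinA_29
import Crest.Agent.T157.TapWinB_29

/-!
# Row 157, part A: the window lemma (helper29)
-/

set_option autoImplicit false

noncomputable section

namespace Crest.Agent.T157.SL

open Matrix Filter Set Topology MeasureTheory
open Crest.Agent.T157.E Crest.Agent.T157.Eig

variable {ι : Type*} [Fintype ι] [DecidableEq ι] {d : ι → Pt ι → ℝ} {h : ℝ} {O K A : Set (ι → ℝ)}
  {G F a : Pt ι → ℝ} {b : ι → Pt ι → ℝ} {Ω : Type*} [Fintype Ω] {φ : Ω → ι → ℝ} {v : Ω → ℝ}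

/-- a squared norm with a cutoff -/
theorem LI.cut_sq {κ : Type*} [Fintype κ] {ζ : Pt ι → ℝ} (hζ : LI d h O ζ a b)
    {δ α : κ → Pt ι → ℝ} {β : κ → ι → Pt ι → ℝ} (hδ : ∀ j, LI d h O (δ j) (α j) (β j)) :
    ∃ a' b', LI d h O (fun p => ζ p ^ 2 * ∑ j, δ j p ^ 2) a' b' ∧ ∀ p,
      2 * ζ p ^ 2 * ∑ j, δ j p * α j p + (2 * ζ p * a p - 3 * ∑ i, b i p ^ 2) * ∑ j, δ j p ^ 2 ≤
        a' p := by
  have h1 := LI.sum Finset.univ fun j _ => (hζ.mul (hδ j)).mul (hζ.mul (hδ j))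
  refine ⟨_, _, by
    convert h1 using 2 with p
    rw [Finset.mul_sum]
    exact Finset.sum_congr rfl fun j _ => by ring, fun p => ?_⟩
  rw [Finset.mul_sum, Finset.mul_sum, ← Finset.sum_add_distrib]
  refine Finset.sum_le_sum fun j _ => ?_
  have : -3 * (∑ i, b i p ^ 2) * δ j p ^ 2 ≤ 2 * (ζ p * δ j p) * ∑ i, b i p * β j i p +
      ∑ i, (b i p * δ j p + ζ p * β j i p) * (b i p * δ j p + ζ p * β j i p) := by
    rw [Finset.mul_sum, Finset.mul_sum, Finset.sum_mul, ← Finset.sum_add_distrib]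
    exact Finset.sum_le_sum fun i _ => by nlinarith [sq_nonneg (ζ p * β j i p + 2 * b i p * δ j p)]
  linarith

theorem ex_aff (hv : Wt v) {t κ e0 e1 : ℝ} (hA : MeasurableSet A) (hF : MG fun y => F (t, y)) :
    MG (fun y => κ * F (t, y) + (e0 + e1 * A.indicator (fun _ => (1 : ℝ)) y)) ∧
    ex φ v (fun p => κ * F p + (e0 + e1 * A.indicator (fun _ => (1 : ℝ)) p.2)) t =
      κ * ex φ v F t + (e0 + e1 * (law φ v t).real A) := by
  have h1 := (mg_ind hA).const_mul e1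
  refine ⟨(hF.const_mul κ).add ((MG.const e0).add h1), ?_⟩
  rw [ex_add (hF.const_mul κ) ((MG.const e0).add h1), ex_add (MG.const e0) h1, ex_const_mul,
    ex_const_mul, ex_const hv, ex_ind hv hA]

theorem LI.gron (hv : Wt v) (hI : LI (md φ v) h O G a b) (hO : IsOpen O) (hK : IsCompact K)
    (hKO : K ⊆ O) (z : ∀ p : Pt ι, p.2 ∉ K → G p = 0) (hA : MeasurableSet A) {κ e0 e1 ε : ℝ}
    (κ0 : 0 ≤ κ) (h0 : 0 ≤ e0) (h1 : 0 ≤ e1) (hε : ∀ t ∈ Icc 0 h, (law φ v t).real A ≤ ε)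
    (ha : ∀ p ∈ Ioo 0 h ×ˢ K, -(κ * G p + (e0 + e1 * A.indicator (fun _ => (1 : ℝ)) p.2)) ≤ a p)
    {s : ℝ} (hs : s ∈ Icc 0 h) :
    ex φ v G s ≤ Real.exp (κ * h) * (max (ex φ v G h) 0 + (e0 + e1 * ε) * h) := by
  obtain ⟨hI, hG⟩ := hI.ext0 hO hK hKO z
  have ε0 : 0 ≤ ε := measureReal_nonneg.trans (hε s hs)
  have hsub : Ioo s h ⊆ Ioo 0 h := Ioo_subset_Ioo_left hs.1
  have := (hI.mono hsub).ex_lower hv hs.1 hs.2 (hG.mono (Icc_subset_Icc_left hs.1))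
    (κ := fun _ => κ) (ε := fun _ => e0 + e1 * ε) continuousOn_const continuousOn_const
    (fun _ _ => κ0) (fun _ _ => by positivity) fun r hr => by
      have hr' := hsub hr
      obtain ⟨m1, m2⟩ := ex_aff (φ := φ) (κ := κ) (e0 := e0) (e1 := e1) hv hA
        (hG.mg (Ioo_subset_Icc_self hr'))
      refine le_trans ?_ (ex_mono (G := fun p => -(κ * G p +
        (e0 + e1 * A.indicator (fun _ => (1 : ℝ)) p.2))) hv m1.neg ((hI.eg_a fun i => eg_md hv i).mg hr') fun y => ?_)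
      · rw [ex_neg, m2]
        nlinarith [hε r (Ioo_subset_Icc_self hr')]
      · by_cases hy : y ∈ K
        · simpa [hy] using ha (r, y) ⟨hr', hy⟩
        · have : 0 ≤ A.indicator (fun _ => (1 : ℝ)) y := indicator_nonneg (fun _ _ => zero_le_one) _
          simp only [hy, z (r, y) hy, if_false]
          nlinarith
  simp only [intervalIntegral.integral_const, smul_eq_mul] at this
  refine this.trans (le_trans (mul_le_mul_of_nonneg_left (add_le_add (le_max_left _ 0) le_rfl)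
    (Real.exp_pos _).le) ?_)
  have e : 0 ≤ e0 + e1 * ε := by positivity
  refine mul_le_mul (Real.exp_le_exp.2 (by nlinarith [hs.1])) (add_le_add le_rfl (by nlinarith [hs.1]))
    (add_nonneg (le_max_right _ _) (mul_nonneg (sub_nonneg.2 hs.2) e)) (Real.exp_pos _).le

theorem LI.ex_le (hv : Wt v) (hI : LI (md φ v) h O G a b) (hO : IsOpen O) (hK : IsCompact K)
    (hKO : K ⊆ O) (z : ∀ p : Pt ι, p.2 ∉ K → G p = 0) (hA : MeasurableSet A) {κ e0 e1 ε M : ℝ}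
    (hh : 0 ≤ h) (κ0 : 0 ≤ κ) (h0 : 0 ≤ e0) (h1 : 0 ≤ e1) (M0 : 0 ≤ M)
    (hε : ∀ t ∈ Icc 0 h, (law φ v t).real A ≤ ε) (hF : EG (Icc 0 h) F) (F0 : ∀ p, 0 ≤ F p)
    (hM : ∀ t ∈ Icc 0 h, ex φ v F t ≤ M)
    (ha : ∀ p ∈ Ioo 0 h ×ˢ K, a p ≤ κ * F p + (e0 + e1 * A.indicator (fun _ => (1 : ℝ)) p.2)) :
    ex φ v G h ≤ G (0, 0) + (κ * M + (e0 + e1 * ε)) * h := by
  obtain ⟨hI, hG⟩ := hI.ext0 hO hK hKO z
  have ε0 : 0 ≤ ε := measureReal_nonneg.trans (hε 0 ⟨le_rfl, hh⟩)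
  have := hI.ex_upper hv le_rfl hh hG
    (κ := fun _ => 0) (ε := fun _ => κ * M + (e0 + e1 * ε)) continuousOn_const continuousOn_const
    (fun _ _ => le_rfl) (fun _ _ => by positivity) fun r hr => by
      have hr' := Ioo_subset_Icc_self hr
      obtain ⟨m1, m2⟩ := ex_aff (φ := φ) (κ := κ) (e0 := e0) (e1 := e1) hv hA (hF.mg hr')
      refine le_trans (ex_mono (H := fun p => κ * F p +
        (e0 + e1 * A.indicator (fun _ => (1 : ℝ)) p.2)) hv ((hI.eg_a fun i => eg_md hv i).mg hr) m1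
        fun y => ?_) ?_
      · by_cases hy : y ∈ K
        · simpa [hy] using ha (r, y) ⟨hr, hy⟩
        · have : 0 ≤ A.indicator (fun _ => (1 : ℝ)) y := indicator_nonneg (fun _ _ => zero_le_one) _
          have := F0 (r, y)
          simp only [hy, if_false]
          positivity
      · rw [m2]
        nlinarith [hε r hr', hM r hr']
  simp only [intervalIntegral.integral_const, smul_eq_mul, mul_zero, Real.exp_zero, ex_zero hv] at this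
  linarith

end Crest.Agent.T157.SL

namespace Crest.Agent.T157.Tap

open Matrix Filter Set Topology MeasureTheory
open Crest.Agent.T157.E Crest.Agent.T157.Eig Crest.Agent.T157.SL

variable {n : ℕ}

lemma cb_mag {w : Cube n → ℝ} (hw : Wt w) : Cb (mag w) := fun i =>
  hw.abs_mean_le fun x => by cases h : x i <;> simp [sv, h, Crest.ProbabilityR.SpinGlassDynamics.spin]

/-- closed ball -/
def Kb (n : ℕ) (R : ℝ) : Set (V n) := {z | z ⬝ᵥ z ≤ R ^ 2}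
/-- outer shell -/
def Ab (n : ℕ) (R : ℝ) : Set (V n) := {z | R ^ 2 ≤ 2 * (z ⬝ᵥ z)}

lemma mem_Kb {R : ℝ} (hR : 0 < R) {z : V n} : z ∈ Kb n R ↔ nrm z ≤ R := (nrm_le_iff hR.le).symm

lemma isCompact_Kb {R : ℝ} (hR : 0 < R) : IsCompact (Kb n R) := by
  refine (isCompact_closedBall (0 : V n) R).of_isClosed_subset
    (isClosed_le (by fun_prop) continuous_const) fun z hz => ?_
  rw [mem_closedBall_zero_iff, pi_norm_le_iff_of_nonneg hR.le]
  exact fun i => (abs_apply_le_nrm z i).trans ((mem_Kb hR).1 hz)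

lemma measurableSet_Ab (R : ℝ) : MeasurableSet (Ab n R) :=
  (isClosed_le continuous_const (by fun_prop)).measurableSet

namespace WS

variable (W : WS n) (w : Cube n → ℝ)

/-- the feature map -/
def ph (σ : Cube n) : V n := W.Q *ᵥ sv σ
/-- posterior mean -/
def mg (q : Pt (Fin n)) : V n := mag (pw W.ph w q)
/-- the difference between the mean and the branch -/
def dl (q : Pt (Fin n)) : V n := W.mg w q - W.pp q

lemma Kb_sub : Kb n W.R ⊆ W.O := fun _ hz =>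
  ((mem_Kb W.hR).1 hz).trans_lt (by linarith [W.hR])

lemma md_eq (k : Fin n) (q : Pt (Fin n)) : md W.ph w k q = (W.Q *ᵥ W.mg w q) k :=
  (meanV_dot (pw W.ph w q) sv (W.Q k)).symm

lemma dot_Q (u v : V n) : W.Q *ᵥ u ⬝ᵥ W.Q *ᵥ v = u ⬝ᵥ W.Sg *ᵥ v := by
  rw [Sg, ← W.hQ, ← mulVec_mulVec, dotProduct_mulVec u, vecMul_transpose]

variable {w} {K : ℝ}

lemma nrm_Q_sq (hS : opn W.Sg ≤ K) (u : V n) : nrm (W.Q *ᵥ u) ^ 2 ≤ K * (u ⬝ᵥ u) := by
  rw [nrm_sq, dot_Q]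
  exact ((le_abs_self _).trans (abs_quad_le _ _)).trans
    (mul_le_mul_of_nonneg_right hS (Eig.dot_self_nonneg _))

lemma dl_le (hw : Wt w) (q : Pt (Fin n)) : W.dl w q ⬝ᵥ W.dl w q ≤ 4 * n := by
  have h1 := (cb_mag (hw.post W.ph q.1 q.2)).nrm_le
  have h2 := (W.cb q).nrm_le
  have h3 : nrm (W.dl w q) ≤ 2 * √n := (nrm_sub_le _ _).trans (by simp only [mg, pw]; linarith)
  rw [nrm_le_iff (by positivity), mul_pow, Real.sq_sqrt (Nat.cast_nonneg n)] at h3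
  linarith

lemma li_pp (i : Fin n) : LI (md W.ph w) W.h W.O (fun q => W.pp q i)
    (fun q => (W.Gq q *ᵥ (W.Sg *ᵥ W.dl w q + W.rho q)) i) fun k q => (W.Gq q *ᵥ W.Q k) i := by
  have hc : ∀ {u : Pt (Fin n) → V n}, ContinuousOn u W.U →
      ContinuousOn (fun q => (W.Gq q *ᵥ u q) i) W.U := fun hu =>
    (show Continuous fun a : Mx n × V n => (a.1 *ᵥ a.2) i by fun_prop).comp_continuousOn
      (cont_Gq.prodMk hu)
  refine ⟨fun q => -(W.Gq q *ᵥ W.Yt q) i, fun k q => (W.Gq q *ᵥ W.Hv q k) i,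
    continuousOn_pi.1 cont_pp i, (hc cont_Yt).neg, fun k => hc continuousOn_const,
    fun k => hc (cont_Hv k), fun c c' s hc hs => ?_,
    fun k p hp => hasDerivAt_pi.1 (hasDerivAt_GQ hp.1 hp.2 k) i, fun p _ => ?_⟩
  · refine (hasDerivAt_pi.1 (hasDerivAt_pp hc hs.1 hs.2) i).congr_deriv ?_
    have e : W.Qᵀ *ᵥ c'.2 = ∑ k, c'.2 k • W.Q k := by
      ext j; simp [mulVec, dotProduct, mul_comm]
    rw [e, mulVec_sub, mulVec_sum]
    simp only [mulVec_smul, Pi.sub_apply, Finset.sum_apply, Pi.smul_apply, smul_eq_mul, mul_comm]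
    ring
  · simp only [dl, ← gen_pp]
    simp only [md_eq, Pi.add_apply, Pi.neg_apply, Pi.smul_apply, Finset.sum_apply, smul_eq_mul,
      Finset.sum_add_distrib, Finset.mul_sum, add_assoc]
    congr 2
    exact Finset.sum_congr rfl fun _ _ => by ring

/-- the cut squared distance -/
def FF (w : Cube n → ℝ) (ζ : Pt (Fin n) → ℝ) (q : Pt (Fin n)) : ℝ := ζ q ^ 2 * ∑ j, W.dl w q j ^ 2

lemma FF_eq (ζ : Pt (Fin n) → ℝ) (q : Pt (Fin n)) :
    W.FF w ζ q = ζ q ^ 2 * (W.dl w q ⬝ᵥ W.dl w q) := by simp only [FF, dotProduct, sq]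

lemma md_le (hw : Wt w) (hn : (n : ℝ) ≤ K * W.R ^ 2) (hS : opn W.Sg ≤ K) (q : Pt (Fin n)) :
    nrm (fun i => md W.ph w i q) ≤ K * W.R := by
  have hK := (opn_nonneg _).trans hS
  have h1 := W.nrm_Q_sq hS (W.mg w q)
  have h2 := (cb_mag (hw.post W.ph q.1 q.2)).dot_le
  simp only [md_eq]
  refine (abs_le_of_sq_le_sq' ?_ (mul_nonneg hK W.hR.le)).2
  calc _ ≤ K * (K * W.R ^ 2) := h1.trans (mul_le_mul_of_nonneg_left (h2.trans hn) hK)
    _ = _ := by ring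

/-- Gronwall bound of the cut squared distance -/
theorem gron (hw : Wt w) {ζ a : Pt (Fin n) → ℝ} {b : Fin n → Pt (Fin n) → ℝ} {C ρ ε : ℝ}
    (hζ : Cut (md W.ph w) W.R C ζ a b) (hh : 0 ≤ W.h) (hS : opn W.Sg ≤ K) (hc : 1 / W.c ≤ K)
    (hρ : ∀ q ∈ W.U, nrm (W.rho q) ≤ ρ) (hε : ∀ t ∈ Icc 0 W.h, (law W.ph w t).real (Ab n W.R) ≤ ε)
    {ψ : V n → ℝ} (hψ : MG ψ) (ψ0 : ∀ z, 0 ≤ ψ z)
    (hT : ∀ z, nrm z ≤ W.R → nrm (W.dl w (W.h, z)) ^ 2 ≤ ψ z) :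
    EG (Icc 0 W.h) (W.FF w ζ) ∧ ∀ s ∈ Icc 0 W.h, SL.ex W.ph w (W.FF w ζ) s ≤
      Real.exp (3 * K ^ 2 * W.h) * (slE W.ph w W.h (fun _ z => ψ z) + (ρ ^ 2 + 20 * C * n * ε) * W.h) := by
  have hK := (opn_nonneg _).trans hS
  have hC : 0 ≤ C := (abs_nonneg _).trans (hζ.bd (0, 0) (by simp [sq_nonneg])).1
  obtain ⟨a', b', hI, ha⟩ := (hζ.li W.h W.O).cut_sq fun j =>
    ((ito_mean hw fun x => sv x j).li W.h W.O).sub (W.li_pp j)
  have z : ∀ p : Pt (Fin n), p.2 ∉ Kb n W.R → W.FF w ζ p = 0 := fun p hp => by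
    simp [FF, hζ.out p (not_le.1 hp).le]
  have hG : EG (Icc 0 W.h) (W.FF w ζ) := (hI.ext0 W.isOpen_O (isCompact_Kb W.hR) W.Kb_sub z).2
  refine ⟨hG, fun s hs => (LI.gron (G := W.FF w ζ) hw hI W.isOpen_O (isCompact_Kb W.hR) W.Kb_sub z
    (measurableSet_Ab W.R) (κ := 3 * K ^ 2) (e0 := ρ ^ 2) (e1 := 20 * C * n) (by positivity)
    (by positivity) (by positivity) hε (fun p hp => le_trans ?_ (ha p)) hs).trans ?_⟩
  · have hU : p ∈ W.U := ⟨Ioo_subset_Icc_self hp.1, W.Kb_sub hp.2⟩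
    have e1 : ∑ j, W.dl w p j ^ 2 = nrm (W.dl w p) ^ 2 := by rw [nrm_sq]; simp only [dotProduct, sq]
    have e2 : W.dl w p ⬝ᵥ W.Gq p *ᵥ (W.Sg *ᵥ W.dl w p + W.rho p) ≤
        nrm (W.dl w p) * (K * (K * nrm (W.dl w p) + ρ)) := by
      refine (dot_le _ _).trans (mul_le_mul_of_nonneg_left ((nrm_mulVec_le _ _).trans
        (mul_le_mul ((opn_Gq hU).trans hc) ((nrm_add_le _ _).trans (add_le_add
          ((nrm_mulVec_le _ _).trans ?_) (hρ p hU))) (nrm_nonneg _) hK)) (nrm_nonneg _))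
      exact mul_le_mul_of_nonneg_right hS (nrm_nonneg _)
    have e3 := W.dl_le hw p
    have e4 : -(20 * C * n * (Ab n W.R).indicator (fun _ => (1 : ℝ)) p.2) ≤
        (2 * ζ p * a p - 3 * ∑ i, b i p ^ 2) * nrm (W.dl w p) ^ 2 := by
      by_cases hA : p.2 ∈ Ab n W.R
      · obtain ⟨h1, h2⟩ := hζ.bd p hp.2
        have h3 : -C ≤ ζ p * a p := by
          nlinarith [hζ.nn p, hζ.le p, abs_le.1 h1]
        rw [indicator_of_mem hA, nrm_sq]
        nlinarith [Eig.dot_self_nonneg (W.dl w p)]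
      · obtain ⟨-, h1, h2⟩ := hζ.mid p (not_le.1 hA)
        simp [hA, h1, h2]
    change _ ≤ 2 * ζ p ^ 2 * ∑ j, W.dl w p j * (0 - (W.Gq p *ᵥ (W.Sg *ᵥ W.dl w p + W.rho p)) j) +
      _ * ∑ j, W.dl w p j ^ 2
    simp only [zero_sub, mul_neg, Finset.sum_neg_distrib, FF, e1]
    have e5 : ζ p ^ 2 ≤ 1 := pow_le_one₀ (hζ.nn p) (hζ.le p)
    have e6 := mul_le_mul_of_nonneg_left e2 (sq_nonneg (ζ p))
    have e7 := mul_nonneg (sq_nonneg (ζ p)) (sq_nonneg (K * nrm (W.dl w p) - ρ))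
    rw [dotProduct] at e6
    nlinarith [mul_le_mul_of_nonneg_right e5 (sq_nonneg ρ)]
  · refine mul_le_mul_of_nonneg_left (add_le_add (max_le ?_ (slE_nonneg hw fun _ => ψ0)) le_rfl)
      (Real.exp_pos _).le
    refine ex_mono (H := fun p => ψ p.2) hw (hG.mg ⟨hh, le_rfl⟩) hψ fun y => ?_
    by_cases hy : y ∈ Kb n W.R
    · rw [FF_eq, ← nrm_sq]
      exact (mul_le_of_le_one_left (sq_nonneg _) (pow_le_one₀ (hζ.nn _) (hζ.le _))).trans
        (hT y ((mem_Kb W.hR).1 hy))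
    · exact (z _ hy).trans_le (ψ0 y)

lemma ex_FF_zero (hw : Wt w) {ζ a : Pt (Fin n) → ℝ} {b : Fin n → Pt (Fin n) → ℝ} {C : ℝ}
    (hζ : Cut (md W.ph w) W.R C ζ a b) :
    SL.ex W.ph w (W.FF w ζ) 0 = nrm (mag w - W.pp (0, 0)) ^ 2 := by
  rw [ex_zero hw, FF_eq, (hζ.mid (0, 0) (by simpa using pow_pos W.hR 2)).1, nrm_sq]
  simp only [dl, mg, pw, post_zero, one_pow, one_mul]

/-- the remainder is bounded by the freeness error -/
lemma nrm_rho_le {q : Pt (Fin n)} (hq : q ∈ W.U) (hn : 0 < n) (hb : |W.b q.1| ≤ 1)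
    (hS : opn W.Sg ≤ K) (hc : 1 / W.c ≤ K) : nrm (W.rho q) ≤
    nrm (err (W.Bq q) (dd (W.pp q)) (W.b q.1) W.Sg (W.c0 - W.b1 q.1 * avg (DD (W.pp q)))) +
      2 * K ^ 3 := by
  have hK := (opn_nonneg _).trans hS
  have hG := (opn_Gq hq).trans hc
  have hn1 : (1 : ℝ) ≤ n := Nat.one_le_cast.2 hn
  have e : W.rho q = diagonal (W.pp q) *ᵥ err (W.Bq q) (dd (W.pp q)) (W.b q.1) W.Sg
      (W.c0 - W.b1 q.1 * avg (DD (W.pp q))) +
      (2 * W.b q.1 / n) • ((W.Gq q * W.Sg * W.Gq q) *ᵥ W.pp q) := by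
    ext j; simp [rho, mulVec_diagonal]
  rw [e]
  refine (nrm_add_le _ _).trans (add_le_add ((nrm_mulVec_le _ _).trans (mul_le_of_le_one_left
    (nrm_nonneg _) (opn_diagonal_le zero_le_one (W.cb q)))) ?_)
  have h1 : opn (W.Gq q * W.Sg * W.Gq q) ≤ K * K * K := (opn_mul_le _ _).trans
    (mul_le_mul ((opn_mul_le _ _).trans (mul_le_mul hG hS (opn_nonneg _) hK)) hG (opn_nonneg _)
      (by positivity))
  have h2 : nrm (W.pp q) ≤ n := (W.cb q).nrm_le.trans (Real.sqrt_le_iff.2 ⟨by positivity, by nlinarith⟩)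
  have h3 := (nrm_mulVec_le _ _).trans (mul_le_mul h1 h2 (nrm_nonneg _) (by positivity))
  rw [nrm_smul, abs_div, abs_mul, abs_two, Nat.abs_cast, div_mul_eq_mul_div, div_le_iff₀ (by positivity)]
  nlinarith [mul_le_mul hb h3 (nrm_nonneg _) zero_le_one]

end WS

lemma post_ising {J Q : Mx n} {κ c0 : ℝ} (hQ : Qᵀ * Q = κ • J + c0 • (1 : Mx n)) (y z : V n) (t : ℝ) :
    post (fun σ => Q *ᵥ sv σ) (ising J y) t z =
      fun σ => ising ((1 - κ * t) • J) (y + Qᵀ *ᵥ z) σ * Real.exp (-(t * c0 * n / 2)) := by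
  ext σ
  have e1 : Q *ᵥ sv σ ⬝ᵥ Q *ᵥ sv σ = κ * (sv σ ⬝ᵥ J *ᵥ sv σ) + c0 * n := by
    rw [show Q *ᵥ sv σ ⬝ᵥ Q *ᵥ sv σ = sv σ ⬝ᵥ (Qᵀ * Q) *ᵥ sv σ by
      rw [← mulVec_mulVec, dotProduct_mulVec (sv σ), vecMul_transpose], hQ, add_mulVec, smul_mulVec,
      smul_mulVec, one_mulVec, dotProduct_add, dotProduct_smul, dotProduct_smul, sv_dot_self]
    rfl
  have e2 : z ⬝ᵥ Q *ᵥ sv σ = Qᵀ *ᵥ z ⬝ᵥ sv σ := by rw [dotProduct_mulVec, mulVec_transpose]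
  simp only [post, ising, e1, e2, ← Real.exp_add, smul_mulVec, dotProduct_smul, add_dotProduct,
    smul_eq_mul]
  congr 1
  ring

lemma prob_post_ising {J Q : Mx n} {κ c0 : ℝ} (hQ : Qᵀ * Q = κ • J + c0 • (1 : Mx n)) (y z : V n)
    (t : ℝ) : prob (post (fun σ => Q *ᵥ sv σ) (ising J y) t z) =
      prob (ising ((1 - κ * t) • J) (y + Qᵀ *ᵥ z)) := by
  rw [post_ising hQ, prob_smul _ (Real.exp_pos _).ne']

lemma mag_post_ising {J Q : Mx n} {κ c0 : ℝ} (hQ : Qᵀ * Q = κ • J + c0 • (1 : Mx n)) (y z : V n)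
    (t : ℝ) : mag (post (fun σ => Q *ᵥ sv σ) (ising J y) t z) =
      mag (ising ((1 - κ * t) • J) (y + Qᵀ *ᵥ z)) := by
  ext i
  simp only [mag, meanV, mean, prob_post_ising hQ]

lemma opn_drv {J : Mx n} {κ c0 K : ℝ} (hJ : opn J ≤ K) (hκ : κ ∈ Icc (0 : ℝ) 1) (hc : |c0| ≤ K) :
    opn (κ • J + c0 • (1 : Mx n)) ≤ 2 * K := by
  refine (opn_add_le _ _).trans ?_
  rw [opn_smul, opn_smul, abs_of_nonneg hκ.1]
  nlinarith [mul_le_of_le_one_right (abs_nonneg c0) (opn_one_le (ι := Fin n)), opn_nonneg J, hκ.2]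

lemma hasDerivAt_bt (κ b t : ℝ) :
    HasDerivAt (fun t => (1 - κ * t) ^ 2 * b) (-(2 * κ * (1 - κ * t) * b)) t :=
  (((((hasDerivAt_id' t).const_mul κ).const_sub 1).pow 2).mul_const b).congr_deriv (by ring)

lemma abs_bt_le {κ b t : ℝ} (hb : b ∈ Icc (0 : ℝ) 1) (h0 : 0 ≤ κ * t) (h1 : κ * t ≤ 1) :
    |(1 - κ * t) ^ 2 * b| ≤ 1 := by
  rw [abs_of_nonneg (mul_nonneg (sq_nonneg _) hb.1)]
  exact mul_le_one₀ (pow_le_one₀ (by linarith) (by linarith)) hb.1 hb.2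

theorem winStmt (hEx : ExStmt) : WinStmt := by
  intro c hc K hK
  obtain ⟨C, hC, hcut⟩ := exists_cut
  set K1 := 2 * K + 1 / c with hK1
  have hc' : 0 < 1 / c := by positivity
  have k0 : 0 < K1 := by positivity
  refine ⟨3 * K1 ^ 2 + (K + 2 * K1 ^ 3) ^ 2 + 20 * (C * K1), by positivity, ?_⟩
  intro n J Q b κ c0 h r R ε y0 p0 ψ hn hJ hJK hb hκ hh hκh hc0 hQ hR hnR good ex er hψ ψ0 hT hε x0
    hx0 hy0
  have e : ∀ t : ℝ, J - t • κ • J = (1 - κ * t) • J := fun t => by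
    rw [sub_smul, one_smul, smul_smul, mul_comm]
  let W : WS n := ⟨J, κ • J, Q, fun t => (1 - κ * t) ^ 2 * b, fun t => -(2 * κ * (1 - κ * t) * b),
    c, c0, h, r, R, y0, p0, hc, hJ, by rw [transpose_smul, hJ], hasDerivAt_bt κ b, by fun_prop, hQ,
    hR, fun t ht => e t ▸ good t ht, fun t ht => e t ▸ ex t ht, fun t ht => e t ▸
      ((hEx n _ _ (by rw [transpose_smul, hJ])).2 c r p0 hc (good t ht)).1⟩
  have eJ : ∀ t, W.Jt t = (1 - κ * t) • J := e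
  have hw : Wt (ising J y0) := .of_pos fun _ => Real.exp_pos _
  have hS : opn W.Sg ≤ K1 := (opn_drv hJK hκ hc0).trans (by linarith)
  have hcK : 1 / W.c ≤ K1 := by show 1 / c ≤ _; linarith
  have hnR' : (n : ℝ) ≤ K1 * W.R ^ 2 := hnR.trans (mul_le_mul_of_nonneg_right (by linarith) (sq_nonneg _))
  obtain ⟨ζ, a, bb, hζ⟩ := hcut n _ R K1 hn hR hnR' (W.md_le hw hnR' hS)
  have hρ : ∀ q ∈ W.U, nrm (W.rho q) ≤ K + 2 * K1 ^ 3 := fun q hq => by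
    refine (W.nrm_rho_le hq hn (abs_bt_le hb (mul_nonneg hκ.1 hq.1.1)
      ((mul_le_mul_of_nonneg_left hq.1.2 hκ.1).trans hκh)) hS hcK).trans (add_le_add ?_ le_rfl)
    have := er q.1 hq.1 _ (W.cb q) (WS.spec hq).1.le
    rw [← sub_neg_eq_add c0 (2 * _ * _ * _ * _), ← neg_mul, ← eJ] at this
    exact this
  have := (W.gron hw hζ hh hS hcK hρ hε hψ ψ0 fun z hz => by
    have hq : ((h, z) : Pt (Fin n)) ∈ W.U := ⟨⟨hh, le_rfl⟩, W.Kb_sub ((mem_Kb hR).2 hz)⟩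
    have h1 := hT z hz _ (WS.spec hq).1 (eJ h ▸ (WS.spec hq).2)
    rwa [← mag_post_ising hQ] at h1).2 0 ⟨le_rfl, hh⟩
  have hq : ((0, 0) : Pt (Fin n)) ∈ W.U := ⟨⟨le_rfl, hh⟩, W.Kb_sub (by simp [Kb, sq_nonneg])⟩
  rw [W.ex_FF_zero hw hζ, ← WS.uniq hq hx0.le (by simpa [eJ, W] using hy0)] at this
  have ε0 : 0 ≤ ε := measureReal_nonneg.trans (hε 0 ⟨le_rfl, hh⟩)
  have s0 := slE_nonneg (φ := W.ph) (s := h) hw fun _ => ψ0
  refine this.trans (mul_le_mul (Real.exp_le_exp.2 (mul_le_mul_of_nonneg_right ?_ hh)) ?_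
    (by positivity) (Real.exp_pos _).le)
  · nlinarith [sq_nonneg (K + 2 * K1 ^ 3), mul_pos hC k0]
  · rw [add_assoc]
    refine add_le_add le_rfl ?_
    show _ * h ≤ _
    have h1 : 0 ≤ (3 * K1 ^ 2 + 20 * (C * K1)) * h := by positivity
    have h2 : 0 ≤ (3 * K1 ^ 2 + (K + 2 * K1 ^ 3) ^ 2) * n * h * ε := by positivity
    nlinarith

end Crest.Agent.T157.Tap
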