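import Crest.Agent.T157.LpG3_17
import Crest.Agent.T157.LpEnd_10
import Crest.Agent.T157.LpUfE_14
import Crest.Agent.T157.LpKsTop_99
import Crest.Agent.T157.LpWin_29
import Crest.Agent.T157.LpBad_80
import Crest.Agent.T157.LpChain_6
import Crest.Agent.T157.LpChild_53
import Crest.Agent.T157.LpEx_80
import Crest.Agent.T157.LpFis_23
import Crest.Agent.T157.LpMulti_53
import Crest.Agent.T157.LpSmear_61
import Crest.Agent.T157.LpStart_22
import Crest.Agent.T157.LpTerm_42
import Crest.Agent.T157.U2_11
import Crest.Agent.T157.TapRam_43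
import Crest.Agent.T157.TapPl_37
import Crest.Agent.T157.TapEx_80
import Crest.Agent.T157.TapCell_53
import Crest.Agent.T157.TapKr_50
import Crest.Agent.T157.TapCov_15
import Crest.Agent.T157.TapUf_23
import Crest.Agent.T157.TapFrz_25
import Crest.Agent.T157.TapWinC_29
import Crest.Agent.T157.TapSfg_18
import Crest.Agent.T157.Glue_34
import Crest.Agent.T157.LpTop_41

/-!
# Row 157, part A: assembly of the covariance bound and of (L') (helper17)
-/

set_option autoImplicit false

namespace Crest.Agent.T157.LpAll

open Crest.Agent.T157.Tap Crest.Agent.T157.Lp Crest.Agent.T157.TapFrz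

theorem frozStmt : FrozStmt := frozGlue exStmt errStmt lipCovStmt (winStmt exStmt)

theorem krStmt : KRStmt := krGlue measStmt cellStmt ramStmt seStmt hoefStmt (sfgGlue seStmt)

theorem allGoodStmt : AllGoodStmt := TapPl.allGoodGlue measStmt detStmt14 TapPl.plantStmt krStmt

theorem covStmt : CovStmt :=
  covGlue measStmt ufStmt frzStmt exStmt errStmt lipCovStmt (winStmt exStmt) frozStmt allGoodStmt

theorem winGStmt : WinGStmt := winG exEStmt

theorem ksz : KsStmt ∧ ZStmt := ksTop childStmt multiStmt smearStmt U2.u2Stmt detEStmt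

theorem lpStmt : LpStmt :=
  lpTop (G3.stepGlue exEStmt winGStmt) badStmt startStmt termStmt lastStmt zwStmt (chainGlue gridStmt)
    ufStmt frzStmt (endGlue exStmt errStmt winGStmt) U2.u2Stmt ufEStmt ksz.1 ksz.2

theorem topLp : Top.LpStmt := top_lp lpStmt

theorem r34 : Top.R34 := Glue.r34_of_lp lpStmt ufStmt frzStmt frozStmt covStmt

end Crest.Agent.T157.LpAll
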