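import Crest.Agent.T157.St0C_5
import Crest.Agent.T157.LpAll_17
import Crest.Agent.T157.KsF_5

/-!
# Row 157: the start of the induction, in the planted model with explicit levels (helper5)
-/

set_option autoImplicit false

noncomputable section

namespace Crest.Agent.T157.Ks.St0

open MeasureTheory ProbabilityTheory Matrix Filter Set Topology
open Crest.Agent.T157.E Crest.Agent.T157.Eig Crest.Agent.T157.Cond Crest.Agent.T157.Tap
open Crest.Agent.T157.SL Crest.Agent.T157.Tap.Cov15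

section
variable {X : ℕ → Type*} [∀ n, MeasurableSpace (X n)] {μ : ∀ n, Measure (X n)} {e e' : ℝ}
  {P Q : ∀ n, X n → Prop}

/-- every level below `e` -/
def Lo (μ : ∀ n, Measure (X n)) (e : ℝ) (P : ∀ n, X n → Prop) : Prop := ∀ e' < e, Lv μ e' P

theorem Lv.lo (h : Lv μ e P) (he : e' ≤ e) : Lo μ e' P := fun _ h1 => h.le (h1.le.trans he)

theorem Lo.and (h : Lo μ e P) (h' : Lo μ e Q) : Lo μ e fun n W => P n W ∧ Q n W := fun e' he =>
  (h ((e + e') / 2) (by linarith)).and (h' _ (by linarith)) (by linarith)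

theorem Lo.fin {ι : Type*} [Fintype ι] {R : ι → ∀ n, X n → Prop} (h : ∀ j, Lo μ e (R j)) :
    Lo μ e fun n W => ∀ j, R j n W := fun e' he =>
  Lv.fin (fun j => h j ((e + e') / 2) (by linarith)) (by linarith)

end

theorem Lv.loP {e e' : ℝ} {P : ∀ n, Mx n → Prop} (h : Lv GOE e P) (he : e' ≤ e / 2) : Lo PW e' P :=
  fun _ h1 => h.toP (h1.trans_le he)

variable {n : ℕ}

/-- covariance bound and accuracy of the good TAP solutions at all times of `I` -/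
def Out (W : Mx n) (I : Set ℝ) (c r K M ρ δ : ℝ) : Prop := ∀ s ∈ I,
  (law sv (ising W 0) s).real {y | ¬ CovOK (ising W 0) K (ρ * √n) y} ≤ δ ∧
  (law sv (ising W 0) s).real {y | ¬ Acc1 W 1 c (r * √n) M y} ≤ δ

theorem meas_bad (c r : ℝ) : MeasurableSet {z : Mx n × V n | BadY 1 c r z.1 z.2} :=
  (TapFrz.measStmt n 1 c r 0 0).2.1

theorem stageW {c r : ℝ} (KU : ℝ) (hc : 0 < c) (hr : 0 < r) : ∃ K' > (0 : ℝ), ∃ h0 > (0 : ℝ),
    ∀ (n : ℕ) (W : Mx n) (ρ α M h δ D t M' : ℝ) (Γ : V n → ℝ) (N : ℕ), 0 < n → Wᵀ = W → opn W ≤ 3 →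
    UF W 1 c KU → 1 ≤ ρ * √n → 0 < ρ → 2 * ρ ≤ c * α → α ≤ r / 16 →
    Acc W 1 (2 * ρ * √n) (α * √n) M Γ → MG Γ → (∀ y, 0 ≤ Γ y) → 0 ≤ M → h ∈ Icc 0 h0 →
    Real.exp (-(n / 2)) ≤ δ → 0 ≤ t →
    (slE sv (ising W 0) (t + (N + 1) * h) fun _ y => Γ y) ≤ 4 * n * δ →
    (∀ j : ℕ, j ≤ N → (law sv (ising W 0) (t + j * h)).real {y | BadY 1 c (r * √n) W y} ≤ δ) →
    (N + 2) * (Real.exp K' * Real.exp (4 * ρ * n)) ^ (N + 1) * δ ≤ D →
    Real.exp K' ^ (N + 1) * (M + 2 * K' * (N + 1)) ≤ M' →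
    (∃ Γ' : V n → ℝ, MG Γ' ∧ (∀ y, 0 ≤ Γ' y) ∧ Acc W 1 (2 * ρ * √n) (α * √n) M' Γ' ∧
      (slE sv (ising W 0) t fun _ y => Γ' y) ≤ 4 * n * D) ∧
    Out W (Icc t (t + (N + 1) * h)) c r (KK K' M' c) (Real.exp K' * (M' + 1 + 2 * K')) ρ
      (2 * δ + Real.exp (4 * ρ * n) * (4 * n * D)) := by
  have hR0 : 0 < c * r / 8 := by positivity
  obtain ⟨K', hK', hW⟩ := win_of (winStmt exStmt) errStmt KU hc hR0
  refine ⟨K', hK', min 1 ((c * r / 8 / 10) ^ 2), lt_min one_pos (by positivity),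
    fun n W ρ α M h δ D t M' Γ N hn hS hop hU hρn hρ a1 a2 hA hΓ h0' hM hh hδ ht hend hlaw hD hM' => ?_⟩
  have hn' : (0 : ℝ) < n := by exact_mod_cast hn
  have hs : (0 : ℝ) < √n := Real.sqrt_pos.2 hn'
  have ee : 2 * (2 * ρ * √n) * √n = 4 * ρ * n := by
    rw [show 2 * (2 * ρ * √n) * √n = 4 * ρ * (√n * √n) by ring, Real.mul_self_sqrt hn'.le]
  have hW' := hW n W 1 (r / 2 * √n) hn hS ⟨zero_le_one, le_rfl⟩ hop hU
  rw [one_smul, one_pow] at hW'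
  have b1 := mul_le_mul_of_nonneg_right a1 hs.le
  have b2 := mul_le_mul_of_nonneg_right (mul_le_mul_of_nonneg_left a2 hc.le) hs.le
  have b3 := mul_le_mul_of_nonneg_right a2 hs.le
  have b4 := mul_pos hr hs
  have b5 := mul_pos hc b4
  have := stage lipCovStmt hn (exStmt n W 1 hS) hW' hA hΓ h0' hM hK'.le hc (by positivity)
    (by linarith) (by linarith) (by linarith) hR0 hh (measurable_prodMk_left (meas_bad c (r * √n)))
    (fun x hx => by_contra fun hg => hx ⟨x, by rw [one_smul, one_pow], fun h' => hg (by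
      rw [one_smul, one_pow] at h'; exact goodB_mono h' (by linarith))⟩) hδ ht N hend hlaw
    (D := D) (by rwa [ee]) hM' (ρ' := ρ * √n) (r' := r * √n) (by linarith) (by linarith)
  rw [ee] at this
  refine ⟨this.1, fun s hs => ⟨(this.2 s hs).1, (this.2 s hs).2.trans ?_⟩⟩
  linarith [Real.exp_pos (-((n : ℝ) / 2))]

/-- `KRStmt` for the joint planted law -/
theorem kr_JP {t0 : ℝ} (ht0 : 0 < t0) (T : ℝ) : ∃ c > (0 : ℝ), ∃ r > (0 : ℝ), ∀ s ∈ Icc t0 T,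
    ∃ κ > (0 : ℝ), Lv (JP s) κ fun n z => ¬ BadY 1 c (r * √n) z.1 z.2 := by
  obtain ⟨c, hc, r, hr, h⟩ := LpAll.krStmt 1 ⟨one_pos, le_rfl⟩ t0 ht0 T
  refine ⟨c, hc, r, hr, fun s hs => ?_⟩
  obtain ⟨c', hc', ε, hε, κ, hκ, h⟩ := h s hs
  have h1 : Lv (JP s) κ fun n z => ¬ (opn z.1 ≤ 3 ∧ DET z.1 1 c' ε ∧ BadY 1 c (r * √n) z.1 z.2) := by
    filter_upwards [h] with n hn
    simp only [not_not]
    refine (JP_gauge ((measurableSet_le (Nrm.measurable_opn'.comp measurable_fst) measurable_const).inter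
      (((TapFrz.measStmt n 1 c r c' ε).2.2.preimage measurable_fst).inter (meas_bad c _)))
      (B := {z | opn z.1 ≤ 3 ∧ DET z.1 1 c' ε ∧ BadY 1 c (r * √n) z.1 z.2})
      fun σ hσ z ⟨h1, h2, h3⟩ => ⟨?_, ?_, ?_⟩).trans (by rwa [neg_mul] at hn)
    · exact (TapPl.opn_cj hσ z.1).symm.trans_le h1
    · simpa only [TapPl.cj_cj hσ] using TapPl.DET_cj hσ h2
    · simpa only [TapPl.cj_cj hσ, hσ.mul_self] using TapPl.BadY_cj hσ h3
  have h2 := ((lv_opn.loP (e' := 1 / 128) (by norm_num)).and ((lv_det hc' hε).loP (by norm_num))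
    (1 / 200) (by norm_num)).fst s
  have h3 : 0 < min κ (1 / 200) := lt_min hκ (by norm_num)
  exact ⟨min κ (1 / 200) / 2, half_pos h3, ((h1.le (min_le_left _ _)).and (h2.le (min_le_right _ _))
    (half_lt_self h3)).imp fun n z hz hb => hz.1 ⟨hz.2.1, hz.2.2, hb⟩⟩

/-- **start of the induction** -/
def StartStmt : Prop := ∃ T0 γ : ℝ, 0 < γ ∧ ∀ T ≥ T0, ∀ t0 ∈ Ioc 0 T,
  ∃ κ0 > (0 : ℝ), ∃ c1 > (0 : ℝ), ∃ r1 > (0 : ℝ), ∃ K1 M1 : ℝ,
  ∀ WW : ∀ n, Mx n → Prop, (∀ n, MeasurableSet {W | WW n W}) → ∀ e ∈ Ioc 0 κ0, ∀ t2 ∈ Ioc 0 t0,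
  ∀ c > (0 : ℝ), ∀ r > (0 : ℝ),
    (∀ s ∈ Icc t2 t0, Lv (JP s) e fun n z => WW n z.1 → ¬ BadY 1 c (r * √n) z.1 z.2) →
    ∃ K M : ℝ, ∃ ρ > (0 : ℝ), Lv PW (e / 4) fun n W =>
      (law sv (ising W 0) T).real {y | ¬ Top.Poin (ising W y) γ} ≤ Real.exp (-(n / 2)) ∧
      Out W (Icc t0 (T + 1)) c1 r1 K1 M1 ρ (Real.exp (-(e / 8 * n))) ∧
      (WW n W → Out W (Icc t2 t0) c r K M ρ (Real.exp (-(e / 8 * n))))

theorem Out.le {W : Mx n} {I : Set ℝ} {c r K M ρ δ δ' : ℝ} (h : Out W I c r K M ρ δ) (e : δ ≤ δ') :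
    Out W I c r K M ρ δ' := fun s hs => ⟨(h s hs).1.trans e, (h s hs).2.trans e⟩

theorem num {N1 N2 : ℕ} {K1 K2 ρ e δ Λ D1 D2 : ℝ} (hK1 : 0 < K1) (hK2 : 0 < K2) (ρ0 : 0 < ρ) (e1 : e ≤ 1)
    (p4 : ρ * (16 * (N1 + N2 + 3)) ≤ e) (hδ : δ = Real.exp (-(e / 2 * n)))
    (hΛ : Λ = Real.exp (4 * ρ * n)) (hD1 : D1 = (N1 + 2) * (Real.exp K1 * Λ) ^ (N1 + 1) * δ)
    (hD2 : D2 = (N2 + 2) * (Real.exp K2 * Λ) ^ (N2 + 1) * D1)
    (n1 : (4 * ((N1 + 2) * Real.exp K1 ^ (N1 + 1) * ((N2 + 2) * Real.exp K2 ^ (N2 + 1))) * n +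
      4 * ((N1 + 2) * Real.exp K1 ^ (N1 + 1) * ((N2 + 2) * Real.exp K2 ^ (N2 + 1)))) *
        Real.exp (-(e / 4 * n)) ≤ Real.exp (-(e / 8 * n))) :
    Real.exp (-((n : ℝ) / 2)) ≤ δ ∧ δ ≤ D1 ∧ 2 * δ + Λ * (4 * n * D1) ≤ Real.exp (-(e / 8 * n)) ∧
      2 * D1 + Λ * (4 * n * D2) ≤ Real.exp (-(e / 8 * n)) := by
  have hn' : (0 : ℝ) ≤ n := n.cast_nonneg
  set A := (N1 + 2) * Real.exp K1 ^ (N1 + 1) * ((N2 + 2) * Real.exp K2 ^ (N2 + 1)) with hA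
  have δ0 : 0 < δ := hδ ▸ Real.exp_pos _
  have Λ1 : 1 ≤ Λ := hΛ ▸ Real.one_le_exp (by positivity)
  have big : ∀ (N : ℕ) {k : ℝ}, 0 < k → 1 ≤ (N + 2) * (Real.exp k * Λ) ^ (N + 1) := fun N _ hk =>
    one_le_mul_of_one_le_of_one_le (by linarith [N.cast_nonneg (α := ℝ)])
      (one_le_pow₀ (one_le_mul_of_one_le_of_one_le (Real.one_le_exp hk.le) Λ1))
  have d1 : δ ≤ D1 := hD1 ▸ le_mul_of_one_le_left δ0.le (big N1 hK1)
  have d2 : D1 ≤ D2 := hD2 ▸ le_mul_of_one_le_left (δ0.le.trans d1) (big N2 hK2)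
  have d3 : Λ * D2 ≤ A * Real.exp (-(e / 4 * n)) := by
    have : Λ * D2 = A * (Λ ^ (N1 + N2 + 3) * δ) := by rw [hD2, hD1, hA]; ring
    rw [this, hΛ, hδ, ← Real.exp_nat_mul, ← Real.exp_add]
    refine mul_le_mul_of_nonneg_left (Real.exp_le_exp.2 ?_) (by positivity)
    push_cast
    linarith [mul_le_mul_of_nonneg_right p4 hn']
  have d4 : 2 * D1 + Λ * (4 * n * D2) ≤ Real.exp (-(e / 8 * n)) := by
    have := le_mul_of_one_le_left (δ0.le.trans (d1.trans d2)) Λ1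
    have h5 : 0 ≤ A * Real.exp (-(e / 4 * n)) := by positivity
    linarith [mul_le_mul_of_nonneg_left d3 hn']
  refine ⟨hδ ▸ Real.exp_le_exp.2 (by linarith [mul_le_mul_of_nonneg_right e1 hn']), d1,
    le_trans ?_ d4, d4⟩
  gcongr

theorem poin_tail {W : Mx n} (hS : Wᵀ = W) (hop : opn W ≤ 3) {M η T : ℝ} (M0 : 0 ≤ M) (hη : 0 < η)
    (s2 : 16 / η ^ 2 ≤ T) (s3 : 48 / η ≤ T) (s4 : 1 ≤ T)
    (n2 : (Real.exp (6 * M + 2) * 288 * n + Real.exp (6 * M + 2) * 288) * Real.exp (-(1 / 2 * n)) ≤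
      Real.exp (-(0 * n)))
    (hF : ∀ θ ∈ Icc (0 : ℝ) 1, ∀ (σ : Cube n) (y : V n), nrm (y - T • sv σ) ≤ η * T * √n →
      ∀ u : V n, u ⬝ᵥ covM (ising (θ • W) y) *ᵥ u ≤ M * (u ⬝ᵥ u)) :
    (law sv (ising W 0) T).real {y | ¬ Top.Poin (ising W y) (6 * Real.exp (6 * M + 2))} ≤
      Real.exp (-(n / 2)) := by
  have hs : (0 : ℝ) ≤ √n := Real.sqrt_nonneg _
  have T0' : 0 < T := by linarith
  have q0 : 0 < √T := Real.sqrt_pos.2 T0'
  have mA : MeasurableSet {y : V n | ∀ σ : Cube n, √T * (2 * √n) ≤ nrm (y - T • sv σ)} := by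
    simp only [ofPred_forall]
    exact .iInter fun σ => measurableSet_le measurable_const
      (continuous_nrm.comp (by fun_prop)).measurable
  have := isProb_law (φ := sv) (s := T) (wt_ising W 0)
  refine le_trans (measureReal_mono fun y hy => ?_)
    (law_tail (wt_ising W 0) T mA fun σ g hg hc' => ?_)
  · refine fun σ => not_lt.1 fun hσ => (show ¬ _ from hy) ?_
    refine poin_of_fro hS hop M0 (fun t ht z hz => hF (1 - t) ⟨by linarith [ht.2],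
      by linarith [ht.1]⟩ σ z ?_) ?_
    · have q1 := nrm_add_le (z - y) (y - T • sv σ)
      rw [sub_add_sub_cancel] at q1
      have q2 : 4 / η ≤ √T := Real.le_sqrt_of_sq_le (by rw [div_pow]; linarith)
      rw [div_le_iff₀ hη] at q2 s3
      have q3 := Real.mul_self_sqrt T0'.le
      have q4 : 24 + √T * 2 ≤ η * T := by nlinarith
      linarith [mul_le_mul_of_nonneg_right q4 hs]
    · rw [zero_mul, neg_zero, Real.exp_zero, one_div_mul_eq_div] at n2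
      linarith [mul_pos (Real.exp_pos (6 * M + 2)) (Real.exp_pos (-((n : ℝ) / 2)))]
  · have := hc' σ
    rw [add_sub_cancel_left, nrm_smul, abs_of_pos q0] at this
    exact absurd (mul_lt_mul_of_pos_left hg q0) (not_lt.2 this)

theorem startStmt : StartStmt := by
  obtain ⟨εF, hεF, wF⟩ := lv_frz
  obtain ⟨KF, wUF⟩ := lv_uf one_half_pos
  obtain ⟨η, hη, T0, MF, hF⟩ := LpAll.frozStmt εF hεF KF
  have M0 : 0 ≤ max MF 0 := le_max_right _ _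
  refine ⟨max (max T0 (16 / η ^ 2)) (max (48 / η) 1), 6 * Real.exp (6 * max MF 0 + 2), by positivity,
    fun T hT t0 ht0 => ?_⟩
  obtain ⟨⟨s1, s2⟩, s3, s4⟩ : (T0 ≤ T ∧ 16 / η ^ 2 ≤ T) ∧ 48 / η ≤ T ∧ 1 ≤ T := by
    simpa only [ge_iff_le, max_le_iff] using hT
  obtain ⟨c1, hc1, r1, hr1, hK⟩ := kr_JP ht0.1 (T + 1)
  obtain ⟨KU1, wU1⟩ := lv_uf hc1
  obtain ⟨K1, hK1, h1, h10, S1⟩ := stageW KU1 hc1 hr1
  obtain ⟨N1, g1, hg1, e1⟩ := exists_mesh (l := T + 1 - t0) (by linarith [ht0.2]) h10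
  have mem : ∀ {t u g : ℝ} {N : ℕ}, 0 ≤ g → (N + 1) * g = u - t → ∀ j : Fin (N + 1),
      t + j * g ∈ Icc t u := fun hg e j => ⟨le_add_of_nonneg_right (by positivity), by
    have : ((j : ℕ) : ℝ) ≤ _ := Nat.cast_le.2 j.2.le
    push_cast at this
    linarith [mul_le_mul_of_nonneg_right this hg]⟩
  choose κf hκf wG using fun j => hK _ (mem hg1.1 e1 j)
  obtain ⟨κ, hκ, -, hκj⟩ := exists_min κf hκf
  set M1 := Real.exp K1 ^ (N1 + 1) * (max MF 0 + 2 * K1 * (N1 + 1)) with hM1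
  refine ⟨min κ (1 / 8192), lt_min hκ (by norm_num), c1, hc1, r1, hr1, KK K1 M1 c1,
    Real.exp K1 * (M1 + 1 + 2 * K1), fun WW mW e he t2 ht2 c hc r hr hAG => ?_⟩
  obtain ⟨k1, k2⟩ := le_min_iff.1 he.2
  have e0 := he.1
  obtain ⟨KU2, wU2⟩ := lv_uf hc
  obtain ⟨K2, hK2, h2, h20, S2⟩ := stageW KU2 hc hr
  obtain ⟨N2, g2, hg2, e2⟩ := exists_mesh (l := t0 - t2) (by linarith [ht2.2]) h20
  set α := min r1 r / 16 with hα
  have α0 : 0 < α := by have := lt_min hr1 hr; positivity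
  set ρ := min (min (c1 * α / 2) (c * α / 2)) (min (η / 4) (e / (16 * (N1 + N2 + 3)))) with hρ
  have ρ0 : 0 < ρ := by positivity
  obtain ⟨⟨p1, p2⟩, p3, p4⟩ : (ρ ≤ c1 * α / 2 ∧ ρ ≤ c * α / 2) ∧ ρ ≤ η / 4 ∧
      ρ ≤ e / (16 * (N1 + N2 + 3)) := by simpa only [le_min_iff] using hρ.le
  rw [le_div_iff₀ (by positivity)] at p4
  set M2 := Real.exp K2 ^ (N2 + 1) * (M1 + 2 * K2 * (N2 + 1)) with hM2
  refine ⟨KK K2 M2 c, Real.exp K2 * (M2 + 1 + 2 * K2), ρ, ρ0, ?_⟩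
  have v1 := fun j => ((wG j).markov (fun n => by simpa only [not_not] using meas_bad c1 _) (e / 2)).lo
    (e' := e / 2) (by linarith [hκj j])
  have v2 := fun j => ((hAG _ (mem hg2.1 e2 j)).markov (fun n => by
    simp only [Classical.not_imp, not_not]; exact (measurable_fst (mW n)).inter (meas_bad c _))
      (e / 2)).lo (e' := e / 2) (by linarith)
  refine (((((lv_symm 1).loP (e' := e / 2) (by linarith)).and (lv_opn.loP (by linarith))).and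
    ((wF.loP (by linarith)).and (wUF.loP (by linarith)))).and (((wU1.loP (by linarith)).and
      (wU2.loP (by linarith))).and ((Lo.fin v1).and (Lo.fin v2))) (e / 4) (by linarith)).mono ?_
  filter_upwards [ev_sqrt ρ0, ev_poly (4 * ((N1 + 2) * Real.exp K1 ^ (N1 + 1) *
    ((N2 + 2) * Real.exp K2 ^ (N2 + 1)))) (show e / 8 < e / 4 by linarith),
    ev_poly (Real.exp (6 * max MF 0 + 2) * 288) (show (0 : ℝ) < 1 / 2 by norm_num)] with n ⟨hn, hρn⟩ n1 n2 W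
    ⟨⟨⟨hS, hop⟩, hFz, hU0⟩, ⟨hU1, hU2⟩, hB1, hB2⟩
  have hn' : (0 : ℝ) < n := by exact_mod_cast hn
  have hs : (0 : ℝ) < √n := Real.sqrt_pos.2 hn'
  have hβ : (1 : ℝ) ∈ Icc (0 : ℝ) 1 := ⟨zero_le_one, le_rfl⟩
  have hF' := hF n W 1 hn hS hβ hop hFz hU0
  set δ := Real.exp (-(e / 2 * n)) with hδ
  set Λ := Real.exp (4 * ρ * n) with hΛ
  set D1 := (N1 + 2) * (Real.exp K1 * Λ) ^ (N1 + 1) * δ with hD1
  set D2 := (N2 + 2) * (Real.exp K2 * Λ) ^ (N2 + 1) * D1 with hD2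
  obtain ⟨d0, d1, d3, d4⟩ := num hK1 hK2 ρ0 (by linarith) p4 hδ hΛ hD1 hD2 n1
  obtain ⟨Γe, m1, m2, m3, m4⟩ := acc_end (J := W) (b := 1) (T := T + 1) (η := η) (M := max MF 0)
    (ρ := 2 * ρ * √n) (α * √n) hn hη (by linarith) (by linarith)
    (by linarith [mul_le_mul_of_nonneg_right p3 hs.le]) M0 fun σ y hy x hx => by
      have := (hF' _ (by linarith : T0 ≤ T + 1) 1 hβ σ y hy).1 x (by rwa [one_smul, one_pow])
      rw [one_smul] at this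
      exact this.trans (le_max_left _ _)
  have f1 : t0 + (N1 + 1) * g1 = T + 1 := by linarith
  have f2 : t2 + (N2 + 1) * g2 = t0 := by linarith
  obtain ⟨⟨Γ1, o1, o2, o3, o4⟩, O1⟩ := S1 n W ρ α _ g1 δ D1 t0 M1 Γe N1 hn hS hop hU1 hρn ρ0 (by linarith)
    (div_le_div_of_nonneg_right (min_le_left _ _) (by norm_num)) m3 m1 m2 M0 hg1 d0 ht0.1.le
    (by rw [f1]; exact m4.trans (by gcongr))
    (fun j hj => by simpa only [not_not] using hB1 ⟨j, Nat.lt_succ_of_le hj⟩) le_rfl le_rfl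
  rw [f1] at O1
  refine ⟨?_, O1.le d3, fun hW => ?_⟩
  · exact poin_tail hS hop M0 hη s2 s3 s4 n2 fun θ hθ σ y hy u =>
      ((hF' T s1 θ hθ σ y hy).2 u).trans (mul_le_mul_of_nonneg_right (le_max_left _ _)
        (Cond.dot_self_nonneg u))
  · have O2 := (S2 n W ρ α M1 g2 D1 D2 t2 M2 Γ1 N2 hn hS hop hU2 hρn ρ0 (by linarith)
      (div_le_div_of_nonneg_right (min_le_right _ _) (by norm_num)) o3 o1 o2 (by positivity) hg2
      (d0.trans d1) ht2.1.le (by rwa [f2]) (fun j hj => le_trans (by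
        simpa only [hW, true_implies, not_not] using hB2 ⟨j, Nat.lt_succ_of_le hj⟩) d1) le_rfl le_rfl).2
    rw [f2] at O2
    exact O2.le d4

/-- uniform-in-time joint form of a two-level statement -/
theorem JP_unif {e e' : ℝ} {I : Set ℝ} {WW : ∀ n, Mx n → Prop} (mW : ∀ n, MeasurableSet {W | WW n W})
    {Q : ∀ n, Mx n × V n → Prop} (mQ : ∀ n, MeasurableSet {z | ¬ Q n z})
    (h : Lv PW e fun n W => WW n W → ∀ s ∈ I,
      (law sv (ising W 0) s).real {y | ¬ Q n (W, y)} ≤ Real.exp (-(e * n))) (he : e' < e) :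
    ∀ᶠ n : ℕ in atTop, ∀ s ∈ I,
      JP s n {z | WW n z.1 ∧ ¬ Q n z} ≤ ENNReal.ofReal (Real.exp (-(e' * n))) := by
  filter_upwards [h, ev_const 2 he] with n h1 h2 s hs
  refine (JP_two ((measurable_fst (mW n)).inter (mQ n)) (Real.exp (-(e * n)))).trans
    ((add_le_add (le_trans (measure_mono fun W hW => ?_) h1) le_rfl).trans ?_)
  · refine fun hp => (show ¬ _ from hW) ?_
    by_cases hw : WW n W
    · simpa [hw] using hp hw s hs
    · simpa [hw] using (Real.exp_pos _).le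
  · rw [← ENNReal.ofReal_add (Real.exp_pos _).le (Real.exp_pos _).le, ← two_mul]
    exact ENNReal.ofReal_le_ofReal h2

end Crest.Agent.T157.Ks.St0
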