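import Crest.Agent.T157.O0Def_21
import Crest.Agent.T157.KbE_24
import Crest.Agent.T157.St0D_5

/-!
# Row 157, block A2 (helper5): the start `O0.Start`
-/

set_option autoImplicit false

noncomputable section

namespace Crest.Agent.T157.O0.S5

open MeasureTheory Matrix Filter Topology Set
open Crest.Agent.T157.E Crest.Agent.T157.SL Crest.Agent.T157.Ks Crest.Agent.T157.Eig
open Crest.Agent.T157.Tap Crest.Agent.T157.Tap.Cov15 Crest.Agent.T157.Ks.St0
open Crest.Agent.T157.Oa (fld Az fld_ising)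

/-- level `e`, uniformly in the time `s ∈ I` -/
def Lu (I : Set ℝ) (e : ℝ) (Q : ℝ → ∀ n, Mx n × V n → Prop) : Prop :=
  ∀ᶠ n : ℕ in atTop, ∀ s ∈ I, JP s n {z | ¬ Q s n z} ≤ ENNReal.ofReal (Real.exp (-(e * n)))

section
variable {I I' : Set ℝ} {e e' a b b' : ℝ} {P Q : ℝ → ∀ n, Mx n × V n → Prop}

theorem Lu.imp (h : Lu I e P) (hI : I' ⊆ I) (he : e' ≤ e)
    (hPQ : ∀ s ∈ I', ∀ n z, P s n z → Q s n z) : Lu I' e' Q :=
  Filter.Eventually.mono h fun n hn s hs => le_trans (measure_mono fun z (hz : ¬ Q s n z) hp =>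
    hz (hPQ s hs n z hp)) ((hn s (hI hs)).trans (ENNReal.ofReal_le_ofReal (exp_anti he n)))

theorem Lu.and (h : Lu I e P) (h' : Lu I e Q) (he : e' < e) :
    Lu I e' fun s n z => P s n z ∧ Q s n z := by
  filter_upwards [h, h', ev_const 2 he] with n h1 h2 h3 s hs
  refine le_trans (measure_mono (t := {z | ¬ P s n z} ∪ {z | ¬ Q s n z}) fun z hz =>
    not_and_or.1 hz) ((measure_union_le _ _).trans ((add_le_add (h1 s hs) (h2 s hs)).trans ?_))
  rw [← ENNReal.ofReal_add (Real.exp_pos _).le (Real.exp_pos _).le, ← two_mul]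
  exact ENNReal.ofReal_le_ofReal h3

theorem Lu.ext (h : Lu (Icc a b) e P) (b' : ℝ) :
    Lu (Icc a b') e fun s n z => s ≤ b → P s n z :=
  Filter.Eventually.mono h fun n hn s hs => by
    by_cases hb : s ≤ b
    · simpa only [hb, true_implies] using hn s ⟨hs.1, hb⟩
    · simp [hb]

theorem Lu.lv (h : Lu I e P) {s : ℝ} (hs : s ∈ I) : Lv (JP s) e (P s) :=
  Filter.Eventually.mono h fun _ hn => hn s hs

theorem lu_of {WW : ∀ n, Mx n → Prop} (mW : ∀ n, MeasurableSet {W | WW n W})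
    {Q : ∀ n, Mx n × V n → Prop} (mQ : ∀ n, MeasurableSet {z | ¬ Q n z})
    (h : Lv PW e fun n W => WW n W → ∀ s ∈ I,
      (law sv (ising W 0) s).real {y | ¬ Q n (W, y)} ≤ Real.exp (-(e * n))) (he : e' < e) :
    Lu I e' fun _ n z => WW n z.1 → Q n z := by
  simpa only [Lu, Classical.not_imp] using JP_unif mW mQ h he

end

variable {n : ℕ}

theorem meas_poin (γ : ℝ) : MeasurableSet {z : Mx n × V n | ¬ Top.Poin (ising z.1 z.2) γ} := by
  refine (IsClosed.measurableSet (s := {z : Mx n × V n | Top.Poin (ising z.1 z.2) γ}) ?_).compl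
  simp only [Top.Poin, ofPred_forall]
  have h1 : ∀ σ, Continuous fun z : Mx n × V n => ising z.1 z.2 σ := fun σ => by
    unfold ising; fun_prop
  have h2 : ∀ σ, Continuous fun z : Mx n × V n => prob (ising z.1 z.2) σ := fun σ =>
    (h1 σ).div (continuous_finsetSum _ fun τ _ => h1 τ) fun z => (wt_ising z.1 z.2).pos.ne'
  refine isClosed_iInter fun f => isClosed_le ?_ (continuous_const.mul ?_)
  · have h3 : Continuous fun z : Mx n × V n => mean (ising z.1 z.2) f :=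
      cont_mean continuous_fst continuous_snd fun _ => continuous_const
    exact continuous_finsetSum _ fun σ _ => (h2 σ).mul ((continuous_const.sub h3).pow 2)
  · have h3 : ∀ i σ, Continuous fun z : Mx n × V n => siteM (ising z.1 z.2) f i σ := fun i σ =>
      (((h1 _).mul continuous_const).add ((h1 _).mul continuous_const)).div ((h1 _).add (h1 _))
        fun z => (add_pos (ising_pos _ _ _) (ising_pos _ _ _)).ne'
    exact continuous_finsetSum _ fun i _ => continuous_finsetSum _ fun σ _ =>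
      (h2 σ).mul ((continuous_const.sub (h3 i σ)).pow 2)

theorem poin_mono {w : Cube n → ℝ} (hw : Wt w) {γ γ' : ℝ} (h : Top.Poin w γ) (e : γ ≤ γ') :
    Top.Poin w γ' := fun f => (h f).trans (mul_le_mul_of_nonneg_right e (Finset.sum_nonneg fun _ _ =>
  Finset.sum_nonneg fun x _ => mul_nonneg (hw.prob_nonneg x) (sq_nonneg _)))

theorem acc_mono {W : Mx n} {v : Cube n → ℝ} {M M' : ℝ} (h : Acc M W v) (e : M ≤ M') : Acc M' W v :=
  fun x hx => (h x hx).trans e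

theorem acc_of {W : Mx n} {y : V n} {c r M : ℝ} (h : Acc1 W 1 c r M y) (hb : ¬ BadY 1 c r W y) :
    Acc M W (ising W y) := fun x hx => by
  rw [fld_ising] at hx
  rw [← nrm_sq]
  refine h.good hx (by_contra fun hg => hb ⟨x, by rwa [one_smul, one_pow], by rwa [one_smul, one_pow]⟩)

theorem cb_of {W : Mx n} {y : V n} {K ρ : ℝ} (h : CovOK (ising W 0) K ρ y) (hρ : 0 ≤ ρ) :
    CB (ising W y) sv K := by
  have := h 0 (by rwa [nrm_zero])
  rwa [add_zero, tilt0] at this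

theorem cov_le {W : Mx n} {K K' ρ s : ℝ} (h : K ≤ K') :
    (law sv (ising W 0) s).real {y | ¬ CovOK (ising W 0) K' ρ y} ≤
      (law sv (ising W 0) s).real {y | ¬ CovOK (ising W 0) K ρ y} := by
  have := isProb_law (φ := sv) (s := s) (wt_ising W 0)
  exact measureReal_mono fun y hy hp => hy (CovOK.mono hp h)

/-- `startStmt` in joint words, for all TAP solutions -/
theorem core : ∃ T0 : ℝ, ∀ T ≥ T0, ∀ t0 ∈ Ioc 0 T, ∃ κ0 > (0 : ℝ),
    ∀ WW : ∀ n, Mx n → Prop, (∀ n, MeasurableSet {W | WW n W}) → ∀ e ∈ Ioc 0 κ0, ∀ t2 ∈ Ioc 0 t0,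
    ∀ c > (0 : ℝ), ∀ r > (0 : ℝ),
    (Lu (Icc t2 t0) e fun _ n z => WW n z.1 → ¬ BadY 1 c (r * √n) z.1 z.2) → ∃ K : ℝ,
      (Lu (Icc t2 (T + 1)) (e / 16) fun s n z => WW n z.1 →
        CB (ising z.1 z.2) sv K ∧ (s ≤ t0 → Acc K z.1 (ising z.1 z.2))) ∧
      Lu {T} (e / 16) fun _ _ z => Top.Poin (ising z.1 z.2) K := by
  obtain ⟨T0, γ, -, h⟩ := startStmt
  refine ⟨T0, fun T hT t0 ht0 => ?_⟩
  obtain ⟨κ0, hκ, c1, -, r1, -, K1, M1, h⟩ := h T hT t0 ht0
  refine ⟨min κ0 1, lt_min hκ one_pos, fun WW mW e he t2 ht2 c hc r hr hB => ?_⟩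
  obtain ⟨k1, k2⟩ := le_min_iff.1 he.2
  have e0 := he.1
  obtain ⟨K, M, ρ, ρ0, H⟩ := h WW mW e ⟨e0, k1⟩ t2 ht2 c hc r hr fun s hs => hB.lv hs
  replace H := H.le (show e / 8 ≤ e / 4 by linarith)
  have a1 := lu_of (I := Icc t2 (T + 1)) mW (fun n => meas_cov (max K1 K) (ρ * √n))
    (H.imp fun n W hW hw s hs => by
      rcases le_total s t0 with h1 | h1
      · exact (cov_le (le_max_right _ _)).trans (hW.2.2 hw s ⟨hs.1, h1⟩).1
      · exact (cov_le (le_max_left _ _)).trans (hW.2.1 s ⟨h1, hs.2⟩).1)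
    (show e / 10 < e / 8 by linarith)
  have a2 := lu_of (I := Icc t2 t0) mW (fun n => meas_acc 1 c (r * √n) M)
    (H.imp fun n W hW hw s hs => (hW.2.2 hw s hs).2) (show e / 10 < e / 8 by linarith)
  have a3 := lu_of (I := {T}) (WW := fun _ _ => True) (fun _ => .univ) (fun _ => meas_poin γ)
    (H.imp fun n W hW _ s hs => by
      rw [hs]
      exact hW.1.trans (Real.exp_le_exp.2 (by nlinarith [Nat.cast_nonneg (α := ℝ) n])))
    (show e / 16 < e / 8 by linarith)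
  refine ⟨max (max K1 K) (max M γ), ((a1.imp subset_rfl (show e / 12 ≤ _ by linarith)
    fun _ _ _ _ h => h).and ((a2.and (hB.imp subset_rfl (by linarith) fun _ _ _ _ h => h)
      (show e / 12 < _ by linarith)).ext (T + 1)) (show e / 16 < _ by linarith)).imp subset_rfl le_rfl
    fun s _ n z hz hw => ⟨(cb_of (hz.1 hw) (by positivity)).mono (le_max_left _ _), fun hs =>
      acc_mono (acc_of ((hz.2 hs).1 hw) ((hz.2 hs).2 hw)) (le_max_of_le_right (le_max_left _ _))⟩,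
    a3.imp subset_rfl le_rfl fun _ _ _ _ h => poin_mono (wt_ising _ _) (h trivial)
      (le_max_of_le_right (le_max_right _ _))⟩

/-- the residual -/
def Res (K : ℝ) (W : Mx n) (v : Cube n → ℝ) : Prop :=
  (Az 2 W *ᵥ meanV v sv - fld v) ⬝ᵥ (Az 2 W *ᵥ meanV v sv - fld v) ≤ K * n

theorem lu_res {T : ℝ} (hT : 1 ≤ T) :
    Lu (Icc 0 T) (1 / 64) fun _ _ z => Res ((5 + 3 * T) ^ 2) z.1 (ising z.1 z.2) := by
  have mQ : ∀ n, MeasurableSet {z : Mx n × V n | ¬ Res ((5 + 3 * T) ^ 2) z.1 (ising z.1 z.2)} :=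
    fun n => by
      simp only [Res, fld_ising]
      refine (IsClosed.measurableSet ?_).compl
      have : Continuous fun z : Mx n × V n => Az 2 z.1 *ᵥ meanV (ising z.1 z.2) sv - z.2 :=
        ((continuous_const.sub continuous_fst).matrix_mulVec
          (cont_mag continuous_fst continuous_snd)).sub continuous_snd
      exact isClosed_le (this.dotProduct this) continuous_const
  refine (lu_of (WW := fun _ _ => True) (fun _ => .univ) mQ ((lv_opn.toP (e' := 1 / 32)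
    (by norm_num)).imp fun n W hW _ s hs => ?_) (by norm_num)).imp subset_rfl le_rfl
      fun _ _ _ _ h => h trivial
  refine (law_tail (wt_ising W 0) s (measurable_prodMk_left (mQ n)) fun σ g hg hc => hc ?_).trans
    (Real.exp_le_exp.2 (by linarith [Nat.cast_nonneg (α := ℝ) n]))
  simp only [Res, fld_ising]
  set y := s • sv σ + √s • g
  set m := meanV (ising W y) sv
  have q0 := Real.sqrt_nonneg (n : ℝ)
  have qn := Real.sq_sqrt (Nat.cast_nonneg (α := ℝ) n)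
  have h1 : nrm m ≤ √n := Real.sqrt_le_sqrt (by
    simpa only [dotProduct, sq] using Ks.bd_sv.meanV_le (wt_ising W y))
  have h2 : nrm y ≤ 3 * T * √n := by
    have a1 := nrm_add_le (s • sv σ) (√s • g)
    rw [nrm_smul, nrm_smul, abs_of_nonneg hs.1, abs_of_nonneg (Real.sqrt_nonneg s),
      show nrm (sv σ) = √n by rw [nrm, sv_dot_self]] at a1
    have a2 : √s ≤ T := Real.sqrt_le_iff.2 ⟨by linarith, by nlinarith [hs.2]⟩
    have a3 := mul_le_mul a2 hg.le (nrm_nonneg g) (by linarith)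
    nlinarith [mul_le_mul_of_nonneg_right hs.2 q0]
  have h3 : nrm (Az 2 W *ᵥ m - y) ≤ (5 + 3 * T) * √n := by
    have a1 := nrm_sub_le (Az 2 W *ᵥ m) y
    have a2 := nrm_sub_le ((2 : ℝ) • m) (W *ᵥ m)
    have a3 := (nrm_mulVec_le W m).trans (mul_le_mul hW h1 (nrm_nonneg m) (by norm_num))
    rw [nrm_smul, abs_two] at a2
    rw [sub_mulVec, smul_mulVec, one_mulVec] at a1 ⊢
    linarith
  rw [← nrm_sq, ← qn, ← mul_pow]
  exact pow_le_pow_left₀ (nrm_nonneg _) h3 2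

/-- the bridge from `Cw.WW` to `Qe.WS` -/
def WsBr : Prop := ∃ C0 ≥ (0 : ℝ), ∀ (n : ℕ) (κ e t ε q E : ℝ), 0 < e → e ≤ 1 → 0 < t → 0 < ε →
  0 < q → ε ^ 2 * q ≤ 1 / 4 → 8 * e * t ≤ ε ^ 4 * q ^ 2 → (n : ℝ) ^ κ * √(n * t) ≤ E →
  Qe.WS ε q E C0 {W : Mx n | Cw.WW t e κ W}

theorem ev_rp {κ a τ : ℝ} (hκ : κ < 1 / 2) (ha : 0 < a) (hτ : 0 < τ) :
    ∀ᶠ n : ℕ in atTop, (n : ℝ) ^ κ * √(n * τ) ≤ a * n * τ := by
  have s0 := Real.sqrt_pos.2 hτ
  filter_upwards [((tendsto_rpow_neg_atTop (sub_pos.2 hκ)).comp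
    tendsto_natCast_atTop_atTop).eventually_le_const (mul_pos ha s0), eventually_gt_atTop 0] with n h hn
  have n0 : (0 : ℝ) < n := by exact_mod_cast hn
  have e : (n : ℝ) ^ κ * √n = (n : ℝ) ^ (-(1 / 2 - κ)) * n := by
    rw [Real.sqrt_eq_rpow, ← Real.rpow_add n0, ← Real.rpow_add_one n0.ne']; congr 1; ring
  rw [Real.sqrt_mul n0.le, ← mul_assoc, e]
  calc _ ≤ a * √τ * n * √τ := by gcongr; exact h
    _ = a * n * (√τ * √τ) := by ring
    _ = _ := by rw [Real.mul_self_sqrt hτ.le]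

/-- all TAP solutions are good, joint form -/
theorem bad (hG : Kb.GoodU) (hB : WsBr) {L : ℝ} (hL : 0 < L) : ∃ e0 > (0 : ℝ), ∃ t1 > (0 : ℝ),
    ∀ e ∈ Ioc 0 e0, ∀ κ < (1 / 2 : ℝ), ∀ τ > (0 : ℝ), (∀ n, MeasurableSet {W : Mx n | Cw.WW τ e κ W}) →
    ∃ c > (0 : ℝ), ∃ r > (0 : ℝ), Lu (Icc τ t1) (L * (τ * √τ)) fun _ n z =>
      Cw.WW τ e κ z.1 → ¬ BadY 1 c (r * √n) z.1 z.2 := by
  obtain ⟨C0, hC, hB⟩ := hB
  obtain ⟨K, hK, ε, hε, e', he', t1, ht1, h⟩ := hG L hL C0 hC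
  have K0 : 0 < K := by linarith
  refine ⟨min 1 (ε ^ 4 / (8 * K)), by positivity, min t1 (1 / (16 * K * ε ^ 4)), by positivity,
    fun e he κ hκ τ hτ mW => ?_⟩
  obtain ⟨c, hc, r, hr, h⟩ := h τ hτ
  obtain ⟨k1, k2⟩ := le_min_iff.1 he.2
  rw [le_div_iff₀ (by positivity)] at k2
  refine ⟨c, hc, r, hr, ?_⟩
  filter_upwards [h, ev_rp hκ he' hτ] with n hn h1 s hs
  obtain ⟨s1, s2⟩ := le_min_iff.1 hs.2
  rw [le_div_iff₀ (by positivity)] at s2
  have s0 : 0 < s := hτ.trans_le hs.1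
  have ws : ∀ q > (0 : ℝ), s ≤ K * q ^ 2 → q ^ 2 ≤ K * s →
      Qe.WS ε q (e' * n * s) C0 {W : Mx n | Cw.WW τ e κ W} := fun q hq a1 a2 =>
    hB n κ e τ ε q _ he.1 k1 hτ hε hq (abs_le_of_sq_le_sq' (by
      nlinarith [mul_le_mul_of_nonneg_left a2 (pow_pos hε 4).le]) (by norm_num)).2
      (by nlinarith [mul_le_mul_of_nonneg_left (hs.1.trans a1) he.1.le,
        mul_le_mul_of_nonneg_right k2 (sq_nonneg q)])
      (h1.trans (mul_le_mul_of_nonneg_left hs.1 (by positivity)))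
  have inv := (ws (√s) (Real.sqrt_pos.2 s0) (by rw [Real.sq_sqrt s0.le]; nlinarith)
    (by rw [Real.sq_sqrt s0.le]; nlinarith)).inv
  simp only [Classical.not_imp, not_not]
  refine (JP_gauge ((measurable_fst (mW n)).inter (meas_bad c _))
    (B := {z | z.1 ∈ {W : Mx n | Cw.WW τ e κ W} ∧ BadY 1 c (r * √n) z.1 z.2})
    fun σ hσ z ⟨b1, b2⟩ => ⟨?_, ?_⟩).trans ((hn s ⟨hs.1, s1⟩ _ ws).trans
      (ENNReal.ofReal_le_ofReal (Real.exp_le_exp.2 (neg_le_neg ?_))))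
  all_goals first
    | (rw [mul_right_comm]; have := hs.1; gcongr)
    | simpa only [TapPl.cj_cj hσ, hσ.mul_self] using TapPl.BadY_cj hσ b2
    | (have := inv (Matrix.diagonal σ) _ (by rw [diagonal_transpose, TapPl.diag_mul_self hσ]) b1
       rwa [diagonal_transpose, ← TapPl.cj, TapPl.cj_cj hσ] at this)

theorem t2_spec {x : ℝ} (hx : 0 < x) : x ^ (2 / 3 : ℝ) * √(x ^ (2 / 3 : ℝ)) = x := by
  rw [Real.sqrt_eq_rpow, ← Real.rpow_mul hx.le, ← Real.rpow_add hx]; norm_num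

theorem le_of_cube {a b : ℝ} (hb : 0 < b) (h : a * √a ≤ b * √b) : a ≤ b := not_lt.1 fun h' =>
  absurd h (not_le.2 (mul_lt_mul h' (Real.sqrt_le_sqrt h'.le) (Real.sqrt_pos.2 hb) (hb.trans h').le))

theorem Lu.lev {I : Set ℝ} {e : ℝ} {Q : ℝ → ∀ n, Mx n × V n → Prop} {WW : ∀ n, Mx n → Prop}
    (h : Lu I e fun s n z => WW n z.1 → Q s n z) : ∀ᶠ n : ℕ in atTop, ∀ s ∈ I,
      JP s n {z | WW n z.1 ∧ ¬ Q s n z} ≤ ENNReal.ofReal (Real.exp (-(e * n))) := by
  simpa only [Lu, Classical.not_imp] using h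

/-- **the start** -/
theorem start (hG : Kb.GoodU) (hW : WStmt) (hB : WsBr) : Start := by
  obtain ⟨T0, hc⟩ := core
  refine ev_iff.2 ?_
  filter_upwards [eventually_gt_atTop 0] with L hL
  obtain ⟨e0, he0, t1, ht1, hb⟩ := bad hG hB (L := 200 * L) (by positivity)
  filter_upwards [ev_ge T0, ev_ge 1] with T hT hT1
  refine .of_forall fun C => .of_forall fun K => ?_
  filter_upwards [eventually_ge_atTop 1] with A hA
  refine .of_forall fun ch => .of_forall fun d => .of_forall fun k4 => .of_forall fun k2 => ?_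
  filter_upwards [Ioo_mem_nhdsGT one_half_pos] with k3 h3
  filter_upwards [Ioc_mem_nhdsGT (lt_min he0 one_pos)] with e1 h1
  refine .of_forall fun Lp => .of_forall fun cv => .of_forall fun B => ?_
  filter_upwards [Ioc_mem_nhdsGT (lt_min ht1 one_pos)] with t0 h0
  obtain ⟨a1, a2⟩ := le_min_iff.1 h1.2
  obtain ⟨b1, b2⟩ := le_min_iff.1 h0.2
  have eA : e1 ^ A ∈ Ioc 0 e0 := ⟨pow_pos h1.1 A, (pow_le_of_le_one h1.1.le a2 (by omega)).trans a1⟩
  have t0' := half_pos h0.1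
  obtain ⟨κ0, hκ, hc⟩ := hc T hT t0 ⟨h0.1, b2.trans hT1⟩
  have key : ∀ τ ∈ Ioc 0 t0, ∀ e ∈ Ioc 0 κ0, e ≤ 200 * L * (τ * √τ) → ∃ K : ℝ, _ := fun τ hτ e he h => by
    have mW := fun n => (hW n k3 _ τ eA.1 hτ.1).1
    obtain ⟨c, c0, r, r0, h2⟩ := hb _ eA k3 h3.2 τ hτ.1 mW
    exact hc _ mW e he τ hτ c c0 r r0 (h2.imp (Icc_subset_Icc_right b1) h fun _ _ _ _ h => h)
  set e := min κ0 (200 * L * (t0 / 2 * √(t0 / 2))) with he
  have e0' : 0 < e := by positivity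
  obtain ⟨K1, s1, s2⟩ := key (t0 / 2) ⟨t0', half_le_self h0.1.le⟩ e ⟨e0', min_le_left _ _⟩
    (min_le_right _ _)
  filter_upwards [ev_ge K1, ev_ge ((5 + 3 * (T + 1)) ^ 2)] with K0 k1 k2
  refine .of_forall fun B0 => ?_
  filter_upwards [Ioc_mem_nhdsGT (show 0 < min (e / 100) (1 / 256) by positivity)] with ef hf
  obtain ⟨f1, f2⟩ := le_min_iff.1 hf.2
  have f0 := hf.1
  have x0 : 0 < ef / (2 * L) := by positivity
  set τ := (ef / (2 * L)) ^ (2 / 3 : ℝ) with hτ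
  have τ0 : 0 < τ := Real.rpow_pos_of_pos x0 _
  have τ1 : 200 * L * (τ * √τ) = 100 * ef := by rw [t2_spec x0]; field_simp; norm_num
  have τ2 : τ ≤ t0 / 2 := le_of_cube t0' (le_of_mul_le_mul_left (a := 200 * L)
    (by linarith [min_le_right κ0 (200 * L * (t0 / 2 * √(t0 / 2)))]) (by positivity))
  obtain ⟨K2, s3, -⟩ := key τ ⟨τ0, by linarith⟩ (100 * ef)
    ⟨by positivity, by linarith [min_le_left κ0 (200 * L * (t0 / 2 * √(t0 / 2)))]⟩ τ1.ge
  filter_upwards [ev_ge K2] with B2 k3'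
  refine .of_forall fun Cn => ?_
  have r1 := ((s1.imp subset_rfl (show 4 * ef ≤ _ by linarith) fun _ _ _ _ h => h).and
    ((lu_res (T := T + 1) (by linarith)).imp (Icc_subset_Icc_left t0'.le) (by linarith)
      fun _ _ _ _ h => h) (show 3 * ef < _ by linarith)).imp (Q := fun s n z =>
        Cw.WW τ (e1 ^ A) k3 z.1 → CB (ising z.1 z.2) sv K0 ∧ (s ≤ t0 → Acc K0 z.1 (ising z.1 z.2)) ∧
          Res K0 z.1 (ising z.1 z.2)) subset_rfl le_rfl fun s _ n z hz hw => by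
    have := hz.1 ((hW n k3 _ τ eA.1 τ0).2.2 _ _ le_rfl τ2 _ hw)
    exact ⟨this.1.mono k1, fun h => acc_mono (this.2 h) k1,
      le_trans hz.2 (mul_le_mul_of_nonneg_right k2 n.cast_nonneg)⟩
  have r2 := s2.imp (Q := fun _ n z => Cw.WW τ (e1 ^ A) k3 z.1 → Top.Poin (ising z.1 z.2) K0)
    subset_rfl (show 3 * ef ≤ _ by linarith) fun _ _ _ _ h _ => poin_mono (wt_ising _ _) h k1
  have r3 := s3.imp (I' := Icc τ t0) (Q := fun _ n z => Cw.WW τ (e1 ^ A) k3 z.1 →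
    CB (ising z.1 z.2) sv B2 ∧ Acc B2 z.1 (ising z.1 z.2)) (Icc_subset_Icc_right (by linarith))
    (show 3 * ef ≤ _ by linarith) fun s hs _ _ h hw =>
      ⟨(h hw).1.mono k3', acc_mono ((h hw).2 hs.2) k3'⟩
  filter_upwards [r1.lev, r2.lev, r3.lev] with n n1 n2 n3
  simp only [Pm.Lev, Pm.Wt, min_self]
  exact ⟨n1, n2 T rfl, n3⟩

end Crest.Agent.T157.O0.S5

end
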