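import Crest.Agent.T157.O0Def_21

/-!
# Row 157, block A2 (helper44): the spectral event and the good events are closed
-/

set_option autoImplicit false

noncomputable section

namespace Crest.Agent.T157.O0

open MeasureTheory Matrix Filter Topology Set
open Crest.Agent.T157.E Crest.Agent.T157.SL Crest.Agent.T157.Ks Crest.Agent.T157.Oo
open Crest.Agent.T157.Tap (Mx V)
open Crest.Agent.T157.Oa (Gs Gd fld Az)
open Crest.Agent.T157.Qe (zz ell)

namespace W44

variable {n : ℕ}

theorem isCompact_O : IsCompact {O : Mx n | O * Oᵀ = 1} := by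
  have hc : IsCompact (Set.univ.pi fun _ : Fin n => Set.univ.pi fun _ : Fin n => Icc (-1 : ℝ) 1) :=
    isCompact_univ_pi fun _ => isCompact_univ_pi fun _ => isCompact_Icc
  refine IsCompact.of_isClosed_subset (X := Mx n) hc
    (isClosed_eq (continuous_id.mul continuous_id.matrix_transpose) continuous_const) ?_
  intro O hO i _ j _
  have h : ∑ k, O i k * O i k = 1 := by simpa [mul_apply] using congrFun (congrFun hO i) i
  exact abs_le.1 (abs_le_one_iff_mul_self_le_one.2 (h ▸ Finset.single_le_sum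
    (f := fun k => O i k * O i k) (fun k _ => mul_self_nonneg _) (Finset.mem_univ j)))

/-- the set of symmetric matrices with spectrum in a compact set is compact -/
theorem isCompact_dg {S : Set (V n)} (hS : IsCompact S) : IsCompact {W : Mx n | ∃ a ∈ S, Dq.Dg W a} := by
  have hc : Continuous fun z : Mx n × V n => z.1 * diagonal z.2 * z.1ᵀ :=
    (continuous_fst.mul continuous_snd.matrix_diagonal).mul continuous_fst.matrix_transpose
  convert (isCompact_O.prod hS).image hc using 1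
  ext W
  exact ⟨fun ⟨a, ha, O, hO, e⟩ => ⟨(O, a), ⟨hO, ha⟩, e.symm⟩,
    fun ⟨z, hz, e⟩ => ⟨z.2, hz.2, z.1, hz.1, e.symm⟩⟩

theorem isCompact_WW {κ e t : ℝ} (he : 0 < e) (ht : 0 < t) : IsCompact {W : Mx n | Cw.WW t e κ W} := by
  have h0 := mul_pos he ht
  have hB : IsCompact (Icc (fun _ => -3) fun _ => 2 + e * t : Set (V n)) := isCompact_Icc
  have key : ∀ (g : ℝ) {f : ℝ → ℝ} (c r : ℝ), ContinuousOn f {0}ᶜ → 2 * e * t ≤ zz g - 2 →
      IsClosed {a : V n | a ∈ Icc (fun _ => -3) (fun _ => 2 + e * t) ∧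
        |∑ i, f (zz g - a i) - c| ≤ r} := fun g f c r hf hg => by
    refine ContinuousOn.preimage_isClosed_of_isClosed (t := Iic r) (ContinuousOn.abs
      ((continuousOn_finsetSum _ fun i _ => hf.comp (by fun_prop) fun a ha => ?_).sub
        continuousOn_const)) isClosed_Icc isClosed_Iic
    have : a i ≤ 2 + e * t := ha.2 i
    exact ne_of_gt (by linarith)
  have hS := hB.inter_right (isClosed_biInter fun g (_ : g ∈ Ico (1 / 64 : ℝ) 1) =>
    isClosed_iInter fun hg : 2 * e * t ≤ zz g - 2 =>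
      (key g (n * g) (min (e * n * √(max (zz g - 2) t)) (min ((n : ℝ) ^ κ * √(n / (zz g - 2)))
        (e * √n / (zz g - 2) ^ (3 / 4 : ℝ)))) continuousOn_inv₀ hg).inter
      (key g (n * ell g) (min (e * n * max (zz g - 2) t ^ (3 / 2 : ℝ)) ((n : ℝ) ^ κ * √(n * t)))
        Real.continuousOn_log hg))
  convert isCompact_dg hS using 1
  ext W
  simp only [mem_inter_iff, mem_iInter, mem_ofPred_eq]
  exact ⟨fun ⟨a, h1, h2, h3⟩ => have b : a ∈ Icc (fun _ => -3) fun _ => 2 + e * t :=
      ⟨fun i => (h2 i).1, fun i => (h2 i).2⟩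
      ⟨a, ⟨b, fun g h h' => ⟨⟨b, (h3 g h h').1⟩, b, (h3 g h h').2⟩⟩, h1⟩,
    fun ⟨a, ⟨b, h3⟩, h1⟩ => ⟨a, h1, fun i => ⟨b.1 i, b.2 i⟩, fun g h h' =>
      ⟨(h3 g h h').1.2, (h3 g h h').2.2⟩⟩⟩

theorem WW_conj {κ e t : ℝ} {O W : Mx n} (hO : O * Oᵀ = 1) (h : Cw.WW t e κ W) :
    Cw.WW t e κ (O * W * Oᵀ) := by
  obtain ⟨a, ⟨U, hU, rfl⟩, h⟩ := h
  refine ⟨a, ⟨O * U, ?_, by simp only [transpose_mul, Matrix.mul_assoc]⟩, h⟩
  rw [transpose_mul, Matrix.mul_assoc, ← Matrix.mul_assoc U, hU, Matrix.one_mul, hO]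

theorem WW_mono {κ e t e' t' : ℝ} (he : 0 < e) (ht : 0 < t) (h1 : e ≤ e') (h2 : t ≤ t') {W : Mx n}
    (h : Cw.WW t e κ W) : Cw.WW t' e' κ W := by
  obtain ⟨a, hd, hb, h⟩ := h
  have h0 := mul_pos he ht
  have he' : 0 ≤ e' := by linarith
  have h3 : e * t ≤ e' * t' := by gcongr
  refine ⟨a, hd, fun i => ⟨(hb i).1, by linarith [(hb i).2]⟩, fun g hg hz => ?_⟩
  have z0 : 0 < zz g - 2 := by linarith
  have z1 : 0 ≤ max (zz g - 2) t := le_max_of_le_left z0.le
  obtain ⟨a1, a2⟩ := h g hg (by linarith)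
  exact ⟨a1.trans (by gcongr), a2.trans (by gcongr)⟩

theorem isClosed_CB {X J : Type*} [TopologicalSpace X] [Fintype J] {v : X → Cube n → ℝ}
    {ψ : X → Cube n → J → ℝ} (hv : Cn v) (h0 : ∀ x, SL.Wt (v x)) (h : ∀ j, Cn fun x s => ψ x s j)
    (k : ℝ) : IsClosed {x | CB (v x) (ψ x) k} := by
  simp only [CB, ofPred_forall]
  exact isClosed_iInter fun u => isClosed_le
    (continuous_const.dotProduct ((c_covMat hv h0 h).matrix_mulVec continuous_const)) continuous_const

theorem cn_ising : Cn fun z : Mx n × V n => ising z.1 z.2 := fun σ => by unfold ising; fun_prop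

theorem wt_ising (z : Mx n × V n) : SL.Wt (ising z.1 z.2) := SL.Wt.of_pos fun _ => Real.exp_pos _

theorem isClosed_Gd (g : Gs) : IsClosed {z : Mx n × V n | Gd g z.1 (ising z.1 z.2)} := by
  refine isClosed_of_closure_subset fun x hx => ?_
  have key : ∀ {P : Mx n × V n → Prop}, IsClosed {z | P z} →
      (∀ z, Gd g z.1 (ising z.1 z.2) → P z) → P x := fun hf h => closure_minimal (fun y hy => h y hy) hf hx
  have hB : Continuous fun z : Mx n × V n => Az 2 z.1 := continuous_const.sub continuous_fst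
  have s0 : ∀ j, Cn fun (_ : Mx n × V n) (s : Cube n) => sv s j := fun _ _ => continuous_const
  have s1 : ∀ j, Cn fun (z : Mx n × V n) (s : Cube n) => Od.fA (Az 2 z.1) sv s j := fun j s =>
    (continuous_apply j).comp (hB.matrix_mulVec continuous_const)
  have hC := c_covMat cn_ising wt_ising s0
  have hm := c_meanV cn_ising wt_ising s0
  have hr : Continuous fun z : Mx n × V n =>
      Az 2 z.1 *ᵥ meanV (ising z.1 z.2) sv - fld (ising z.1 z.2) := by
    simp only [Oa.fld_ising]
    exact (hB.matrix_mulVec hm).sub continuous_snd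
  exact ⟨key (isClosed_CB cn_ising wt_ising s0 _) fun _ h => h.g1,
    key (isClosed_CB cn_ising wt_ising s1 _) fun _ h => h.g2,
    key (isClosed_le (c_fr ((hB.mul hC).sub continuous_const)) continuous_const) fun _ h => h.g3,
    key (isClosed_le (c_fr (((hB.mul hC).mul hB).sub hB)) continuous_const) fun _ h => h.g4,
    key (isClosed_le (hr.dotProduct hr) continuous_const) fun _ h => h.g5,
    key (isClosed_le (hm.dotProduct hm) continuous_const) fun _ h => h.g6⟩

end W44

open W44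

theorem wStmt : WStmt := fun _ _ _ _ he ht => ⟨(isCompact_WW he ht).isClosed.measurableSet,
  fun _ _ => WW_conj, fun _ _ h1 h2 _ => WW_mono he ht h1 h2⟩

theorem gmStmt : GmStmt := fun _ g k => ⟨(isClosed_Gd g).measurableSet,
  (isClosed_CB (ψ := fun _ => sv) cn_ising wt_ising (fun _ _ => continuous_const) k).measurableSet⟩

end Crest.Agent.T157.O0

end
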