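import Crest.Agent.T157.KbArea_98
import Crest.Agent.T157.KbAt_29
import Crest.Agent.T157.KbB1_12
import Crest.Agent.T157.KbB2_56
import Crest.Agent.T157.KbB3_56
import Crest.Agent.T157.KbCnt_82
import Crest.Agent.T157.KbDet_77
import Crest.Agent.T157.KbEvA_26
import Crest.Agent.T157.KbEvR_22
import Crest.Agent.T157.KbGn_11
import Crest.Agent.T157.KbGoodU_27
import Crest.Agent.T157.KbGrid_67
import Crest.Agent.T157.KbHi_91
import Crest.Agent.T157.KbId_10
import Crest.Agent.T157.KbKr_58
import Crest.Agent.T157.KbLg_91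
import Crest.Agent.T157.KbMarg_47
import Crest.Agent.T157.KbMgf_71
import Crest.Agent.T157.KbMom_31
import Crest.Agent.T157.KbNet_34
import Crest.Agent.T157.KbPos_10
import Crest.Agent.T157.KbU_24
import Crest.Agent.T157.KbXd_75
import Crest.Agent.T157.O0Wb_31
import Crest.Agent.T157.O0W_44
import Crest.Agent.T157.O0S_5

/-!
# Row 157, block A2 (helper5): the statements of section 2 and the start, without hypotheses
-/

set_option autoImplicit false

namespace Crest.Agent.T157

namespace Kb.All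

theorem tilt : TiltStmt := tiltGlue chStmt gridStmt
theorem mgf : MgfStmt := mgfStmt chStmt
theorem hi : HiStmt := hiGlue idStmt chStmt tilt
theorem lg : LgStmt := lgGlue idStmt chStmt tilt hi
theorem net : NetStmt := (netGlue idStmt chStmt tilt).1
theorem evB : EvB := (netGlue idStmt chStmt tilt).2.1
theorem evA : EvA := evAGlue idStmt tilt c4Stmt
theorem evR : EvR := evRGlue idStmt tilt mgf momStmt
theorem b1 : B1Stmt := b1Glue idStmt hi lg evA evB evR
theorem b1U : B1uStmt := b1u idStmt hi lg evA evB evR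
theorem b1G {L C5 : ℝ} (L0 : 0 < L) (C1 : 10 ≤ C5) (C2 : 2000 * L ≤ C5 ^ 3) :
    ∃ K ≥ (1 : ℝ), ∃ c > (0 : ℝ), ∃ C : ℕ, ∀ (n : ℕ) (t e : ℝ), C ≤ n → 1 / (n : ℝ) ≤ t →
      e ∈ Set.Ioc (0 : ℝ) 1 → Real.sqrt t ≤ c * e ^ 2 →
      Px t {x : Tap.V n | ¬ (Co K e t x ∧ Tap.aS x ^ 2 ≤ C5 ^ 2 * t)} ≤
        Conc.ex (C * Real.log n - L * n * (t * Real.sqrt t)) :=
  b1gen idStmt hi lg evA evB evR L0 C1 C2
theorem b1s : B1sStmt := b1sGlue idStmt evB
theorem b2 : B2Stmt := b2Glue tilt mgf momStmt net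
theorem b3 : B3Stmt := b3Glue tilt mgf momStmt net
theorem cntS : CntS := cntSGlue tilt mgf momStmt net
theorem cnt : CntStmt := cntGlue tilt mgf momStmt net
theorem all : AllStmt := (netGlue idStmt chStmt tilt).2.2 b1
theorem er : ErStmt := (krGlue margStmt detStmt all).1
theorem kr : KrStmt := (krGlue margStmt detStmt all).2
theorem pos : PosStmt := posGlue margStmt all xdStmt gnStmt coreU
theorem goodL : GoodL := goodGlue TapFrz.measStmt areaStmt kr margStmt b1 b2 pos ballStmt
theorem goodU : GoodU := goodUGlue TapFrz.measStmt areaStmt kr margStmt b1 b2 pos ballStmt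

end Kb.All

/-- **the start** -/
theorem O0.startStmt : O0.Start := O0.S5.start Kb.All.goodU O0.wStmt O0.Wb.wsBr

end Crest.Agent.T157
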