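import Crest.Agent.T157.KpA_12

/-!
# Row 157, part A2 (helper12): the step in the planted law
-/

set_option autoImplicit false

noncomputable section

namespace Crest.Agent.T157.Kp

open MeasureTheory Matrix Set
open Crest.Agent.Lib.OrthPoinc Crest.Agent.T157.E Crest.Agent.T157.Tap Crest.Agent.T157.Oc
open Crest.Agent.T157.Od Crest.Agent.T157.Ks.St0
open scoped ENNReal

variable {n k : ℕ} {t : ℝ}

theorem amgm (κ : ℝ) {c l : ℝ} (hc : 0 < c) (hl : 0 < l) :
    κ ≤ l * c + l⁻¹ * (c * (1 + κ ^ 2 / c ^ 2)) := by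
  have h1 : l⁻¹ * (c * (1 + κ ^ 2 / c ^ 2)) = c / l + κ ^ 2 / (l * c) := by field_simp
  have h2 : κ - l * c ≤ κ ^ 2 / (l * c) := by
    rw [le_div_iff₀ (by positivity)]
    nlinarith [sq_nonneg (κ - l * c), sq_nonneg κ, sq_nonneg (l * c)]
  have : 0 < c / l := by positivity
  linarith

section abs

variable {α : Type*} [MeasurableSpace α] {P : Measure α} [IsProbabilityMeasure P] {κ : α → ℝ}
  {c l : ℝ} (hm : Measurable κ) (h0 : ∀ a, 0 ≤ κ a) (h2 : Integrable (fun a => κ a ^ 2) P)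
  (hc : 0 < c)
include hm h0 h2

theorem int_k : Integrable κ P :=
  ((integrable_const 1).add h2).mono' hm.aestronglyMeasurable (ae_of_all _ fun a => by
    rw [Real.norm_of_nonneg (h0 a), Pi.add_apply]; nlinarith [sq_nonneg (κ a - 1)])

omit hm h0 in
theorem int_e : Integrable (fun a => c * (1 + κ a ^ 2 / c ^ 2)) P :=
  ((integrable_const 1).add (h2.div_const _)).const_mul c

include hc

theorem tail_le (hl : 0 < l) {S : Set α} (hS : MeasurableSet S) : ∫ a, S.indicator κ a ∂P ≤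
    l * c * P.real S + l⁻¹ * ∫ a, c * (1 + κ a ^ 2 / c ^ 2) ∂P := by
  have i1 : Integrable (S.indicator (1 : α → ℝ)) P := (integrable_const 1).indicator hS
  rw [← integral_indicator_one hS, ← integral_const_mul, ← integral_const_mul,
    ← integral_add (i1.const_mul _) ((int_e h2).const_mul _)]
  refine integral_mono ((int_k hm h0 h2).indicator hS)
    ((i1.const_mul _).add ((int_e h2).const_mul _)) fun a => ?_
  by_cases ha : a ∈ S
  · simpa [ha] using amgm (κ a) hc hl
  · simp only [indicator_of_notMem ha]; positivity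

theorem orb_real (hl : 0 < l) {k0 De La η η' : ℝ} (hk : 0 < k0) (hD : 0 ≤ De) (hL : 0 ≤ La)
    (hη : η ≤ 1 / 2) (hη' : 0 ≤ η') {G A : Set α} (hG : MeasurableSet G) (hA : MeasurableSet A)
    (hT : P.real {a | ¬ (k0 ≤ κ a ∧ κ a ≤ De * k0)} ≤ η) (hGA : P.real G ≤ La * P.real A + η') :
    ∫ a, G.indicator κ a ∂P ≤ De * La * ∫ a, A.indicator κ a ∂P +
      (2 * De * (La * η + η') + l * η + l⁻¹) * ∫ a, c * (1 + κ a ^ 2 / c ^ 2) ∂P := by
  set T := {a | ¬ (k0 ≤ κ a ∧ κ a ≤ De * k0)} with hTd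
  have mT : MeasurableSet T := ((measurableSet_le measurable_const hm).inter
    (measurableSet_le hm measurable_const)).compl
  have i1 : ∀ {S : Set α}, MeasurableSet S → ∀ r : ℝ,
      Integrable (fun a => r * S.indicator (1 : α → ℝ) a) P := fun hS r =>
    ((integrable_const 1).indicator hS).const_mul r
  have i2 : ∀ {S : Set α}, MeasurableSet S → Integrable (S.indicator κ) P := fun hS =>
    (int_k hm h0 h2).indicator hS
  have n1 : ∀ (S : Set α) a, 0 ≤ S.indicator κ a := fun S a => indicator_nonneg (fun a _ => h0 a) a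
  have a1 : ∫ a, G.indicator κ a ∂P ≤ De * k0 * P.real G + ∫ a, T.indicator κ a ∂P := by
    rw [← integral_indicator_one hG, ← integral_const_mul, ← integral_add (i1 hG _) (i2 mT)]
    refine integral_mono (i2 hG) ((i1 hG _).add (i2 mT)) fun a => ?_
    have := n1 T a
    by_cases ha : a ∈ G
    · by_cases hb : a ∈ T
      · simp only [indicator_of_mem ha, indicator_of_mem hb, Pi.one_apply]
        nlinarith [mul_nonneg hD hk.le]
      · simp only [indicator_of_mem ha, Pi.one_apply]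
        linarith [(not_not.1 hb).2]
    · simpa [ha] using this
  have a2 : k0 * P.real A ≤ ∫ a, A.indicator κ a ∂P + k0 * P.real T := by
    rw [← integral_indicator_one hA, ← integral_indicator_one mT, ← integral_const_mul,
      ← integral_const_mul, ← integral_add (i2 hA) (i1 mT _)]
    refine integral_mono (i1 hA _) ((i2 hA).add (i1 mT _)) fun a => ?_
    by_cases hb : a ∈ T
    · by_cases ha : a ∈ A
      · simpa [ha, hb] using h0 a
      · simpa [ha, hb] using hk.le
    · by_cases ha : a ∈ A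
      · simpa [ha, hb] using (not_not.1 hb).1
      · simp [ha, hb]
  have a3 : k0 ≤ ∫ a, c * (1 + κ a ^ 2 / c ^ 2) ∂P + k0 * P.real T := by
    rw [← integral_indicator_one mT, ← integral_const_mul, ← integral_add (int_e h2) (i1 mT _)]
    refine le_trans (by simp) (integral_mono (integrable_const k0) ((int_e h2).add (i1 mT _))
      fun a => ?_)
    by_cases hb : a ∈ T
    · simp only [indicator_of_mem hb, Pi.one_apply, mul_one, le_add_iff_nonneg_left]; positivity
    · simp only [indicator_of_notMem hb, mul_zero, add_zero]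
      refine (not_not.1 hb).1.trans ?_
      rw [show c * (1 + κ a ^ 2 / c ^ 2) = c + κ a ^ 2 / c by field_simp, ← sub_le_iff_le_add',
        le_div_iff₀ hc]
      nlinarith [sq_nonneg (κ a - c), sq_nonneg (κ a), sq_nonneg c]
  have a4 := tail_le hm h0 h2 hc hl mT
  have a5 : c ≤ ∫ a, c * (1 + κ a ^ 2 / c ^ 2) ∂P :=
    le_trans (by simp) (integral_mono (integrable_const c) (int_e h2) fun a =>
      le_mul_of_one_le_right hc.le (le_add_of_nonneg_right (by positivity)))
  generalize ∫ a, c * (1 + κ a ^ 2 / c ^ 2) ∂P = e at *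
  have p0 : 0 ≤ η := measureReal_nonneg.trans hT
  have b0 := mul_le_mul_of_nonneg_left hT hk.le
  have b1 : k0 ≤ 2 * e := by nlinarith
  have b2 := mul_le_mul_of_nonneg_left hGA (mul_nonneg hD hk.le)
  have b3 := mul_le_mul_of_nonneg_left (a2.trans (add_le_add_right b0 _)) (mul_nonneg hD hL)
  have b4 := mul_le_mul_of_nonneg_left b1 (show 0 ≤ De * (La * η + η') by positivity)
  have b5 : l * c * P.real T ≤ l * e * η := by gcongr; nlinarith
  linarith

end abs

variable {c : V n → ℝ} {WW : Set (Mx n)} {B : V n → Mx n → Cube n → Prop} {Gd : Set (Mx n × V n)}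

/-- density of `Er` -/
def er (t : ℝ) (c : V n → ℝ) (WW : Set (Mx n)) (x : V n) (W : Mx n) : ℝ≥0∞ :=
  J t W (Ymap W 1 x) *
    (ENNReal.ofReal (c x) * (WW.indicator 1 W * ENNReal.ofReal (1 + dt x W ^ 2 / c x ^ 2)))

/-- density of `PtE` -/
def pb (t : ℝ) (c : V n → ℝ) (WW : Set (Mx n)) (B : V n → Mx n → Cube n → Prop) (x : V n)
    (W : Mx n) : ℝ≥0∞ := ∑ s, ENNReal.ofReal (jd t W (Ymap W 1 x) s) * (ENNReal.ofReal (c x) *
      {z : V n × Mx n | z.2 ∈ WW ∧ B z.1 z.2 s}.indicator 1 (x, W))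

theorem Er_eq : Er t c WW = II (er t c WW) := by
  simp only [Er, Pt, Nu, II, er, J, Finset.sum_mul]

theorem PtE_eq : PtE t c WW B = II (pb t c WW B) := rfl

theorem meas_er (hc : Measurable c) (hW : MeasurableSet WW) :
    Measurable fun z : V n × Mx n => er t c WW z.1 z.2 := by
  have h : Measurable (WW.indicator (1 : Mx n → ℝ≥0∞)) := measurable_one.indicator hW
  unfold er; fun_prop

theorem meas_pb (hc : Measurable c) (h : Ev WW B Gd) :
    Measurable fun z : V n × Mx n => pb t c WW B z.1 z.2 :=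
  Finset.measurable_sum _ fun s _ => Measurable.mul (by fun_prop) (Measurable.mul (by fun_prop)
    (measurable_one.indicator ((measurable_snd h.mW).inter (h.mB s))))

/-- the negative part of the Kac-Rice measure is a first-moment event -/
theorem neg_le (hc : Measurable c) (c0 : ∀ x, 0 < c x) (h : Ev WW B Gd) {l : ℝ} (hl : 0 < l)
    {A : Set (Mx n × V n)} (hA : ∀ z ∈ A, z.1 ∈ WW) : II (kd t (fun a => -a) A) ≤
      ENNReal.ofReal l⁻¹ * Er t c WW + ENNReal.ofReal l * PtE t c WW B := by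
  rw [Er_eq, PtE_eq, ← II_mul, ← II_mul, ← II_add ((meas_er hc h.mW).const_mul _)]
  refine II_mono fun x W hW => ?_
  rw [kd]
  by_cases h1 : (W, Ymap W 1 x) ∈ A
  swap
  · simp [h1]
  rcases le_or_gt 0 (dt x W) with h2 | h2
  · simp only [ENNReal.ofReal_of_nonpos (neg_nonpos.2 h2), zero_mul, mul_zero, zero_le]
  have h3 : W ∈ WW := hA _ h1
  have h4 : pb t c WW B x W = J t W (Ymap W 1 x) * ENNReal.ofReal (c x) := by
    simp [pb, J, Finset.sum_mul, h3, h.neg x W h3 hW h2]
  have := c0 x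
  rw [h4, er, indicator_of_mem h1, indicator_of_mem h3, Pi.one_apply, Pi.one_apply, mul_one,
    one_mul, mul_left_comm, mul_left_comm _ (J t W _), ← mul_add, ← ENNReal.ofReal_mul this.le,
    ← ENNReal.ofReal_mul hl.le, ← ENNReal.ofReal_mul (by positivity),
    ← ENNReal.ofReal_add (by positivity) (by positivity)]
  refine mul_le_mul_right (ENNReal.ofReal_le_ofReal ?_) _
  simpa only [neg_sq, add_comm] using amgm (-dt x W) this hl

variable {o : Oo.Orb n k} {x : V n} {μ : Measure (Mat k)} [IsProbabilityMeasure μ]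

theorem sum_prob' (U : Mat k) : ∑ s, ENNReal.ofReal (prob (o.w U) s) = 1 := by
  rw [← ENNReal.ofReal_sum_of_nonneg fun s _ => (Oo.Orb.wt U).prob_nonneg s,
    (Oo.Orb.wt U).sum_prob, ENNReal.ofReal_one]

theorem ofReal_int_le {α : Type*} [MeasurableSpace α] {P : Measure α} {f : α → ℝ}
    (h : ∀ a, 0 ≤ f a) : ENNReal.ofReal (∫ a, f a ∂P) ≤ ∫⁻ a, ENNReal.ofReal (f a) ∂P := by
  by_cases hf : Integrable f P
  · exact (ofReal_integral_eq_lintegral_ofReal hf (ae_of_all _ h)).le
  · simp [integral_undef hf]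

/-- **the inequality on one orbit** -/
theorem orb_le (h : At o x) (hμ : SOInv μ) (ht : 0 < t) (c0 : 0 < c x) (hE : Ev WW B Gd)
    (hW : o.W ∈ WW) {G A : Set (Mx n × V n)} (hG : MeasurableSet G) (hA : MeasurableSet A)
    {l De La η η' η₂ : ℝ} (hl : 0 < l) (hD : 0 ≤ De) (hL : 0 ≤ La) (η0 : 0 ≤ η) (hη : η ≤ 1 / 2)
    (hη' : 0 ≤ η') (h₂ : 0 < η₂) (hO : anE o μ x B ≤ η₂ → T1out o μ x De η ∧
      (o.P μ).real {U | (o.Wu U, o.y U) ∈ G} ≤ La * (o.P μ).real {U | (o.Wu U, o.y U) ∈ A} + η') :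
    ∫⁻ U, kd t (fun a => |a|) G x (o.Wu U) ∂μ ≤
      ENNReal.ofReal (De * La) * ∫⁻ U, kd t (fun a => |a|) A x (o.Wu U) ∂μ +
      ENNReal.ofReal (2 * De * (La * η + η') + l * η + l⁻¹) * ∫⁻ U, er t c WW x (o.Wu U) ∂μ +
      ENNReal.ofReal (l / η₂) * ∫⁻ U, pb t c WW B x (o.Wu U) ∂μ := by
  classical
  obtain ⟨K, hK, hj⟩ := h.lint hμ ht
  have := Oo.Orb.P_prob hμ h.ok
  have hP := Oo.Orb.P_mem (o := o) hμ
  set κ : Mat k → ℝ := fun U => |dt x (o.Wu U)| with hκ
  have hm : Measurable κ := by rw [hκ]; fun_prop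
  have h0 : ∀ U, 0 ≤ κ U := fun U => abs_nonneg _
  have h2 : Integrable (fun U => κ U ^ 2) (o.P μ) := by
    have h1 : Continuous fun U : Mat k => o.Wu U := by
      have : Continuous fun U : Mat k => Matrix.of U := continuous_id
      unfold Oo.Orb.Wu WU emb; fun_prop
    have h3 : Continuous fun U : Mat k => κ U ^ 2 := (Continuous.comp
      (g := fun z : V n × Mx n => dt z.1 z.2) (f := fun U => (x, o.Wu U)) cont_dt
      (continuous_const.prodMk h1)).abs.pow 2
    obtain ⟨M, hM⟩ := isCompact_SO.exists_bound_of_continuousOn h3.continuousOn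
    exact Integrable.of_bound h3.aestronglyMeasurable M (hP.mono hM)
  have mS : ∀ {S : Set (Mx n × V n)}, MeasurableSet S →
      MeasurableSet {U | (o.Wu U, o.y U) ∈ S} := fun hS => by
    simp only [← h.y_eq]
    exact (by fun_prop : Measurable fun U => (o.Wu U, Ymap (o.Wu U) 1 x)) hS
  have hJ : ∀ f : Mat k → ℝ≥0∞, ∫⁻ U, J t (o.Wu U) (Ymap (o.Wu U) 1 x) * f U ∂μ =
      ENNReal.ofReal K * ∫⁻ U, f U ∂o.P μ := fun f => by
    simpa only [← Finset.sum_mul, sum_prob', one_mul, h.y_eq, J] using hj fun _ => f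
  have e1 : ∀ {S : Set (Mx n × V n)}, MeasurableSet S →
      ∫⁻ U, kd t (fun a => |a|) S x (o.Wu U) ∂μ = ENNReal.ofReal K *
        ENNReal.ofReal (∫ U, {U | (o.Wu U, o.y U) ∈ S}.indicator κ U ∂o.P μ) := fun {S} hS => by
    rw [ofReal_integral_eq_lintegral_ofReal ((int_k hm h0 h2).indicator (mS hS))
      (ae_of_all _ (indicator_nonneg fun a _ => h0 a)), ← hJ]
    refine lintegral_congr fun U => ?_
    rw [kd, h.y_eq]
    by_cases hU : (o.Wu U, o.y U) ∈ S <;> simp [hU, hκ]
  have hWu : ∀ U ∈ SO k, o.Wu U ∈ WW := fun U hU => hE.inv _ _ (emb_orth h.ok.iso hU) hW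
  have e2 : ∫⁻ U, er t c WW x (o.Wu U) ∂μ = ENNReal.ofReal K *
      ENNReal.ofReal (∫ U, c x * (1 + κ U ^ 2 / c x ^ 2) ∂o.P μ) := by
    rw [ofReal_integral_eq_lintegral_ofReal (int_e h2) (ae_of_all _ fun _ => by positivity), ← hJ]
    refine lintegral_congr_ae (hμ.mem.mono fun U hU => ?_)
    simp only [er, indicator_of_mem (hWu U hU), Pi.one_apply, one_mul, hκ, sq_abs,
      ENNReal.ofReal_mul c0.le]
  have e3 : ENNReal.ofReal K * ENNReal.ofReal (c x * anE o μ x B) ≤
      ∫⁻ U, pb t c WW B x (o.Wu U) ∂μ := by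
    have n1 : ∀ U s, 0 ≤ prob (o.w U) s * if B x (o.Wu U) s then (1 : ℝ) else 0 := fun U s =>
      mul_nonneg ((Oo.Orb.wt U).prob_nonneg s) (by positivity)
    simp only [pb, h.y_eq]
    rw [hj, anE, Oo.Orb.an, ← integral_const_mul]
    refine mul_le_mul_right ((ofReal_int_le fun U => mul_nonneg c0.le
      (Finset.sum_nonneg fun s _ => n1 U s)).trans (lintegral_mono_ae (hP.mono fun U hU => ?_))) _
    rw [ENNReal.ofReal_mul c0.le, ENNReal.ofReal_sum_of_nonneg fun s _ => n1 U s, Finset.mul_sum]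
    refine Finset.sum_le_sum fun s _ => ?_
    by_cases hb : B x (o.Wu U) s <;> simp [hb, hWu U hU, mul_comm]
  have n2 : ∀ S : Set (Mat k), 0 ≤ ∫ U, S.indicator κ U ∂o.P μ := fun S =>
    integral_nonneg (indicator_nonneg fun a _ => h0 a)
  have n3 : 0 ≤ ∫ U, c x * (1 + κ U ^ 2 / c x ^ 2) ∂o.P μ := integral_nonneg fun _ => by positivity
  have n4 : 0 ≤ anE o μ x B := integral_nonneg fun U => Finset.sum_nonneg fun s _ =>
    mul_nonneg ((Oo.Orb.wt U).prob_nonneg s) (by positivity)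
  refine le_trans ?_ (add_le_add_right (mul_le_mul_right e3 _) _)
  rw [e1 hG, e1 hA, e2, mul_left_comm, mul_left_comm _ (ENNReal.ofReal K),
    mul_left_comm _ (ENNReal.ofReal K), ← mul_add, ← mul_add]
  refine mul_le_mul_right ?_ _
  rw [← ENNReal.ofReal_mul (by positivity),
    ← ENNReal.ofReal_mul (by positivity), ← ENNReal.ofReal_mul (by positivity),
    ← ENNReal.ofReal_add (mul_nonneg (by positivity) (n2 _)) (by positivity),
    ← ENNReal.ofReal_add (add_nonneg (mul_nonneg (by positivity) (n2 _)) (by positivity))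
      (by positivity)]
  refine ENNReal.ofReal_le_ofReal ?_
  rcases le_or_gt (anE o μ x B) η₂ with hb | hb
  · obtain ⟨⟨k0, hk, hT⟩, hGA⟩ := hO hb
    exact (orb_real hm h0 h2 c0 hl hk hD hL hη hη' (mS hG) (mS hA) hT hGA).trans
      (le_add_of_nonneg_right (by positivity))
  · have b1 := tail_le hm h0 h2 c0 hl (mS hG)
    have b2 : l * c x * (o.P μ).real {U | (o.Wu U, o.y U) ∈ G} ≤ l / η₂ * (c x * anE o μ x B) := by
      rw [show l / η₂ * (c x * anE o μ x B) = l * c x * (anE o μ x B / η₂) by ring]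
      exact mul_le_mul_of_nonneg_left (measureReal_le_one.trans ((one_le_div h₂).2 hb.le))
        (by positivity)
    have b3 := mul_nonneg (mul_nonneg hD hL) (n2 {U | (o.Wu U, o.y U) ∈ A})
    have b4 := mul_nonneg (show 0 ≤ 2 * De * (La * η + η') + l * η by positivity) n3
    linarith

theorem num {De La N u : ℝ} (hD : 1 ≤ De) (hL : 1 ≤ La) (hN : 1 ≤ N) (u0 : 0 < u) (u1 : u ≤ 1) :
    De * La * (2 * ((u ^ 2)⁻¹⁻¹ * N + (u ^ 2)⁻¹ * u ^ 9)) +
      (2 * De * (La * u ^ 4 + u ^ 2) + (u ^ 2)⁻¹ * u ^ 4 + (u ^ 2)⁻¹⁻¹) * N +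
      (u ^ 2)⁻¹ / u ^ 5 * u ^ 9 ≤ 11 * De * La * N * u ^ 2 := by
  have e1 : (u ^ 2)⁻¹ * u ^ 9 = u ^ 7 := by field_simp
  have e2 : (u ^ 2)⁻¹ * u ^ 4 = u ^ 2 := by field_simp
  have e3 : (u ^ 2)⁻¹ / u ^ 5 * u ^ 9 = u ^ 2 := by field_simp
  have h7 : u ^ 7 ≤ u ^ 2 := pow_le_pow_of_le_one u0.le u1 (by norm_num)
  have h4 : u ^ 4 ≤ u ^ 2 := pow_le_pow_of_le_one u0.le u1 (by norm_num)
  have hv : 0 < u ^ 2 := by positivity
  rw [e1, e2, e3, inv_inv]
  generalize u ^ 2 = v at *
  have h1 : 1 ≤ De * La := one_le_mul_of_one_le_of_one_le hD hL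
  have b1 : De * La * u ^ 7 ≤ De * La * (N * v) :=
    mul_le_mul_of_nonneg_left (by nlinarith) (by positivity)
  have b2 : De * La * N * u ^ 4 ≤ De * La * N * v := mul_le_mul_of_nonneg_left h4 (by positivity)
  have b3 : De * N * v ≤ De * N * v * La := le_mul_of_one_le_right (by positivity) hL
  have b4 : N * v ≤ N * v * (De * La) := le_mul_of_one_le_right (by positivity) h1
  have b5 : v ≤ v * N := le_mul_of_one_le_right hv.le hN
  linarith

theorem stepStmt : StepStmt := by
  intro n t H De La N c WW B Gd AP hn ht hH hD hL hN hc c0 hE hEr hB hO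
  obtain ⟨k, rfl⟩ : ∃ k, n = k + 2 := ⟨n - 2, by omega⟩
  obtain ⟨μ, _, hμ⟩ := exists_so (k := k) (by omega)
  set u := Real.exp (-H) with hu
  have u0 : 0 < u := Real.exp_pos _
  have u1 : u ≤ 1 / 2 := by
    rw [hu, Real.exp_neg, inv_le_comm₀ (Real.exp_pos _) (by norm_num)]
    linarith [Real.add_one_le_exp H]
  have eu : ∀ j : ℕ, Real.exp (-(j * H)) = u ^ j := fun j => by
    rw [hu, ← Real.exp_nat_mul, mul_neg]
  have eu2 := eu 2; have eu4 := eu 4; have eu5 := eu 5; have eu9 := eu 9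
  rw [Nat.cast_ofNat] at eu2 eu4 eu5 eu9
  set G := {z : Mx (k + 2) × V (k + 2) | z.1 ∈ WW ∧ z ∉ Gd} with hG
  set S := {z : Mx (k + 2) × V (k + 2) | z.1 ∈ WW ∧ z ∉ AP} with hS
  set A := toMeasurable (JP t (k + 2)) S ∩ {z | z.1 ∈ WW} with hA
  have mG : MeasurableSet G := (measurable_fst hE.mW).inter hE.mG.compl
  have mA : MeasurableSet A := (measurableSet_toMeasurable _ _).inter (measurable_fst hE.mW)
  have hl : 0 < (u ^ 2)⁻¹ := by positivity
  set a2 := 2 * De * (La * u ^ 4 + u ^ 2) + (u ^ 2)⁻¹ * u ^ 4 + (u ^ 2)⁻¹⁻¹ with ha2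
  have m1 := (meas_kd (t := t) (d := fun a => |a|) (by fun_prop) mA).const_mul
    (ENNReal.ofReal (De * La))
  have m2 := m1.add ((meas_er (t := t) hc hE.mW).const_mul (ENNReal.ofReal a2))
  have m3 := m2.add ((meas_pb (t := t) hc hE).const_mul (ENNReal.ofReal ((u ^ 2)⁻¹ / u ^ 5)))
  have key : II (kd t (fun a => |a|) G) ≤ II fun x W =>
      ENNReal.ofReal (De * La) * kd t (fun a => |a|) A x W + ENNReal.ofReal a2 * er t c WW x W +
        ENNReal.ofReal ((u ^ 2)⁻¹ / u ^ 5) * pb t c WW B x W := by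
    refine lintegral_mono fun x => ?_
    obtain ⟨E, hE1, hE2, hE3⟩ := exists_frame (th x) x
    refine (lint_orb hμ hE1 ((meas_kd (d := fun a => |a|) (by fun_prop) mG).comp
      (measurable_prodMk_left (x := x)))).trans_le (le_of_le_of_eq (lintegral_mono_ae
        ((Cond.goe_ae_symm _).mono fun W hW => ?_))
        (lint_orb hμ hE1 (m3.comp (measurable_prodMk_left (x := x)))).symm)
    simp only [Function.comp_apply, Pi.add_apply]
    by_cases hWW : W ∈ WW
    swap
    · refine le_of_eq_of_le ((lintegral_congr_ae (hμ.mem.mono fun U hU => ?_)).trans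
        lintegral_zero) zero_le
      have h0 := emb_orth' hE1 (U := U) hU
      have : WU E W U ∉ WW := fun h => hWW (by
        have := hE.inv (emb E U)ᵀ _ (by rw [transpose_transpose, h0]) h
        rwa [WU, transpose_transpose, ← Matrix.mul_assoc, ← Matrix.mul_assoc, h0,
          Matrix.one_mul, Matrix.mul_assoc, h0, Matrix.mul_one] at this)
      simp [kd, hG, this]
    set o : Oo.Orb (k + 2) k := ⟨E, W, th x, x + chi x • th x, chi x + 1 / chi x⟩
    have ho : At o x := ⟨⟨hE1, hW, hE2, by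
      simp only [o, mulVec_add, mulVec_smul, hE2, hE3, smul_zero, add_zero], by omega⟩, rfl, rfl,
      rfl, hE3, rfl⟩
    have := Oo.Orb.P_prob hμ ho.ok
    refine (orb_le (De := De) (La := La) (η := u ^ 4) (η' := u ^ 2) (η₂ := u ^ 5) ho hμ ht (c0 x) hE hWW mG mA hl
      (by linarith) (by linarith) (by positivity)
      ((pow_le_of_le_one u0.le (by linarith) (by norm_num)).trans u1) (by positivity)
      (by positivity) fun hb => ?_).trans ?_
    · obtain ⟨h1, h2⟩ := hO x k μ o hμ ho hWW (by rwa [eu5])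
      rw [eu4] at h1
      rw [eu2] at h2
      refine ⟨h1, (measureReal_mono fun U hU => hU.2).trans (h2.trans (add_le_add_left
        (mul_le_mul_of_nonneg_left (ENNReal.toReal_mono (measure_ne_top _ _) (measure_mono_ae
        ((Oo.Orb.P_mem (o := o) hμ).mono fun U hU h => ?_))) (by linarith)) _))⟩
      have := hE.inv _ _ (emb_orth hE1 hU) hWW
      exact ⟨subset_toMeasurable _ _ ⟨this, h⟩, this⟩
    · rw [← lintegral_const_mul' _ _ ENNReal.ofReal_ne_top,
        ← lintegral_const_mul' _ _ ENNReal.ofReal_ne_top,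
        ← lintegral_const_mul' _ _ ENNReal.ofReal_ne_top]
      exact (add_le_add_left (le_lintegral_add _ _) _).trans (le_lintegral_add _ _)
  rw [II_add m2, II_add m1, II_mul, II_mul, II_mul, kr_eq ht mG, kr_eq ht mA, ← Er_eq,
    ← PtE_eq] at key
  have h1 : JP t (k + 2) A ≤ JP t (k + 2) S :=
    (measure_mono inter_subset_left).trans_eq (measure_toMeasurable _)
  have h2 := neg_le (t := t) hc c0 hE hl (A := A) fun z hz => hz.2
  rw [eu9] at hB
  rw [eu2]
  refine (le_self_add.trans key).trans ?_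
  calc _ ≤ ENNReal.ofReal (De * La) * (JP t (k + 2) S + 2 * (ENNReal.ofReal (u ^ 2)⁻¹⁻¹ *
        ENNReal.ofReal N + ENNReal.ofReal (u ^ 2)⁻¹ * ENNReal.ofReal (u ^ 9))) +
        ENNReal.ofReal a2 * ENNReal.ofReal N +
        ENNReal.ofReal ((u ^ 2)⁻¹ / u ^ 5) * ENNReal.ofReal (u ^ 9) := by
        gcongr
        exact h2.trans (by gcongr)
    _ ≤ _ := by
      rw [mul_add, add_assoc, add_assoc, ← ENNReal.ofReal_ofNat 2,
        ← ENNReal.ofReal_mul (by positivity), ← ENNReal.ofReal_mul (by positivity),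
        ← ENNReal.ofReal_mul (by positivity), ← ENNReal.ofReal_mul (by positivity),
        ← ENNReal.ofReal_add (by positivity) (by positivity), ← ENNReal.ofReal_mul (by positivity),
        ← ENNReal.ofReal_mul (by positivity), ← ENNReal.ofReal_add (by positivity) (by positivity),
        ← ENNReal.ofReal_add (by positivity) (by positivity), ← add_assoc]
      exact add_le_add_right (ENNReal.ofReal_le_ofReal (num hD hL hN u0 (by linarith))) _

end Crest.Agent.T157.Kp

end
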