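import Crest.Agent.T157.O0Def_21

/-!
# Row 157, block A2 (helper21): the backward induction in time
-/

set_option autoImplicit false

noncomputable section

namespace Crest.Agent.T157.O0

open MeasureTheory Matrix Filter Topology Set
open Crest.Agent.T157.E Crest.Agent.T157.SL Crest.Agent.T157.Ks
open Crest.Agent.T157.Tap (Mx V GOE Ymap th)
open Crest.Agent.T157.Ks.St0 (JP)
open Crest.Agent.T157.Oa (Gs Gd Tst FG AQ fld Az)

namespace Pm

variable {p : Pm} {s t e : ℝ}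

theorem M_nn (ht : 0 ≤ t) : 0 ≤ p.M t := by unfold M; positivity

theorem M_mono (ht : 0 ≤ t) (h : t ≤ s) : p.M t ≤ p.M s := by unfold M; gcongr

theorem M_mul {c : ℝ} (ht : 0 ≤ t) (hc : 1 ≤ c) (h : c * t ≤ s) : c * p.M t ≤ p.M s := by
  refine le_trans ?_ (M_mono (by positivity) h)
  have h1 : c ≤ c ^ (3 / 2 : ℝ) := Real.self_le_rpow_of_one_le hc (by norm_num)
  rw [M, M, Real.mul_rpow (by linarith) ht, mul_left_comm]
  gcongr

namespace Ok

variable (h : p.Ok)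
include h

theorem L0 : 0 < p.L := by linarith [h.L]

theorem eta0 : 0 < p.eta := by have := h.K; unfold eta; positivity

theorem eta1 : p.eta ≤ 1 / 4 := one_div_le_one_div_of_le (by norm_num) (by linarith [h.K])

theorem t2_pos : 0 < p.t2 := Real.rpow_pos_of_pos (div_pos h.ef (by linarith [h.L])) _

theorem t2_pow : p.L * p.t2 ^ (3 / 2 : ℝ) = p.ef / 2 := by
  have := h.L0
  rw [t2, ← Real.rpow_mul (div_pos h.ef (by linarith)).le]
  norm_num
  field_simp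

theorem LM_t2 : p.L * p.M p.t2 = p.ef * p.n / 2 := by
  rw [M, mul_left_comm, h.t2_pow]; ring

theorem t2_le : p.t2 ≤ p.t0 / 4 := by
  by_contra hc
  have h0 := h.t0
  have h1 : (p.t0 / 4) ^ (2 : ℝ) ≤ (p.t0 / 4) ^ (3 / 2 : ℝ) :=
    Real.rpow_le_rpow_of_exponent_ge (by linarith [h0.1]) (by linarith [h0.2]) (by norm_num)
  have h2 : (p.t0 / 4) ^ (3 / 2 : ℝ) ≤ p.t2 ^ (3 / 2 : ℝ) :=
    Real.rpow_le_rpow (by linarith [h0.1]) (not_le.1 hc).le (by norm_num)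
  rw [Real.rpow_two] at h1
  nlinarith [h.t2_pow, h.ef', h.L, pow_pos h0.1 2]

theorem t2_1 : p.t2 ≤ 1 / 400 := by linarith [h.t2_le, h.t0.2]

theorem e1_1 : p.e1 ≤ 1 / 1000 := by
  linarith [h.e1.2, h.k3.2, h.k2.2, h.k4.2, h.d.2, h.ch.2, h.e1.1, h.k3.1, h.k2.1, h.k4.1, h.d.1]

theorem th_ge : p.eta * p.t2 / 8 ≤ p.th t := by
  unfold th; split_ifs
  · nlinarith [h.eta0, h.t2_1]
  · rfl

theorem th_pos : 0 < p.th t := lt_of_lt_of_le (by have := h.eta0; have := h.t2_pos; positivity) h.th_ge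

theorem th_le : p.th t ≤ 1 / 32 := by
  unfold th; split_ifs
  · linarith [h.eta1]
  · nlinarith [h.eta1, h.eta0, h.t2_1, h.t2_pos]

theorem efn : 0 ≤ p.ef * p.n := mul_nonneg h.ef.le p.n.cast_nonneg

theorem Hc_nn (ht : 0 ≤ t) : 0 ≤ p.Hc t :=
  le_min (mul_nonneg h.L0.le (M_nn ht)) (mul_nonneg h.efn (by linarith))

theorem Hc_le (ht : t ≤ p.t0) : p.Hc t ≤ 2 * (p.ef * p.n) :=
  (min_le_right _ _).trans (by nlinarith [h.efn, h.t0.2])

theorem Hs_le (ht : 0 ≤ t) (he : p.Er e t) : p.Hs e t ≤ p.Hc t :=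
  min_le_min_right _ (mul_le_mul_of_nonneg_right
    ((pow_le_one₀ he.1.le (by linarith [he.2.1, h.e1_1])).trans (by linarith [h.L])) (M_nn ht))

/-- the flat part of the levels grows enough -/
theorem gain_f (ht : t ∈ Ioc 0 p.t0) (hs : (1 + p.eta) * t ≤ s) :
    p.Hc t + 3 * (p.th t * p.Hc t) + p.pr t ≤ p.ef * p.n * (1 + s) := by
  have h1 : p.Hc t ≤ p.L * p.M t := min_le_left _ _
  have h2 : p.Hc t ≤ p.ef * p.n * (1 + t) := min_le_right _ _
  have h3 := h.Hc_nn ht.1.le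
  have h4 := h.eta0
  have h5 := h.eta1
  have h6 := h.efn
  unfold th pr; split_ifs with hc
  · have h7 := mul_le_mul_of_nonneg_left (M_mono (p := p) ht.1.le hc.le) h.L0.le
    rw [h.LM_t2] at h7
    have h8 : 0 ≤ p.ef * p.n * s := mul_nonneg h6 (by nlinarith [ht.1])
    have h9 := mul_le_mul_of_nonneg_right h5 h3
    have h10 := mul_le_mul_of_nonneg_right h5 (h3.trans h1)
    nlinarith
  · have h7 := mul_le_mul_of_nonneg_left (h.Hc_le ht.2) (mul_pos h4 h.t2_pos).le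
    have h8 := mul_le_mul_of_nonneg_left hs h6
    have h9 := mul_le_mul_of_nonneg_left (not_lt.1 hc) (mul_nonneg h4.le h6)
    have h10 := mul_nonneg (mul_nonneg h4.le h6) h.t2_pos.le
    nlinarith

theorem gain_c (ht : t ∈ Ioc 0 p.t0) (hs : (1 + p.eta) * t ≤ s) :
    p.Hc t + 3 * (p.th t * p.Hc t) + p.pr t ≤ p.Hc s := by
  refine le_min ?_ (h.gain_f ht hs)
  have h1 : p.Hc t ≤ p.L * p.M t := min_le_left _ _
  have h3 := h.Hc_nn ht.1.le
  have h4 := h.eta0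
  have h6 := h.efn
  have h2 := mul_le_mul_of_nonneg_left (M_mul (p := p) ht.1.le (by linarith) hs) h.L0.le
  have h10 := mul_le_mul_of_nonneg_left h1 h4.le
  unfold th pr; split_ifs with hc
  · nlinarith [mul_nonneg h4.le h3]
  · have h7 := mul_le_mul_of_nonneg_right h.t2_1 (mul_nonneg h4.le h3)
    nlinarith [mul_nonneg h4.le h3]

theorem pr_nn (ht : 0 ≤ t) : 0 ≤ p.pr t := by
  have := h.L0; have := h.eta0; have := M_nn (p := p) ht
  unfold pr; split_ifs <;> positivity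

theorem gain_s (ht : t ∈ Ioc 0 p.t0) (hs : p.Lp * t ≤ s) :
    p.Hc t + 3 * (p.th t * p.Hc t) ≤ p.Hs p.e1 s := by
  refine le_min ?_ (le_trans (by linarith [h.pr_nn ht.1.le])
    (h.gain_f ht (le_trans (by nlinarith [h.Lp, h.eta1, ht.1]) hs)))
  have h1 : p.Hc t ≤ p.L * p.M t := min_le_left _ _
  have h2 := mul_le_mul_of_nonneg_left (M_mul (p := p) ht.1.le (by linarith [h.Lp]) hs)
    (pow_pos h.e1.1 p.A).le
  have h3 := mul_le_mul_of_nonneg_right h.Lp' (M_nn (p := p) ht.1.le)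
  nlinarith [mul_le_mul_of_nonneg_right (h.th_le (t := t)) (h.Hc_nn ht.1.le), h.Hc_nn ht.1.le]

theorem gain_0 (ht : t ∈ Ioc 0 p.t0) : p.Hc t + 3 * (p.th t * p.Hc t) ≤ 3 * p.ef * p.n := by
  nlinarith [mul_le_mul_of_nonneg_right (h.th_le (t := t)) (h.Hc_nn ht.1.le), h.Hc_le ht.2, h.efn]

end Ok

/-- elementary facts for large `n` -/
structure Big (p : Pm) : Prop where
  n : 5 ≤ p.n
  ef : (p.n : ℝ) ^ p.d ≤ p.ef * p.n
  cv : (p.n : ℝ) ^ (-p.cv) ≤ p.e1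
  ex : 22 * ((p.n : ℝ) ^ 4 * (p.n : ℝ) ^ p.Cn) ≤ Real.exp (p.eta * p.t2 / 8 * (p.n : ℝ) ^ p.d)

end Pm

/-- a power is below a stretched exponential -/
theorem ev_pow_exp (a : ℝ) {b c : ℝ} (hb : 0 < b) (hc : 0 < c) :
    ∀ᶠ n : ℕ in atTop, (n : ℝ) ^ a ≤ Real.exp (b * (n : ℝ) ^ c) := by
  have h1 := (isLittleO_rpow_exp_pos_mul_atTop (a / c) hb).bound one_pos
  filter_upwards [((tendsto_rpow_atTop hc).comp tendsto_natCast_atTop_atTop).eventually h1] with n hn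
  simp only [Function.comp, one_mul, Real.norm_eq_abs] at hn
  rw [← Real.rpow_mul n.cast_nonneg, mul_div_cancel₀ _ hc.ne', abs_of_pos (Real.exp_pos _)] at hn
  exact (le_abs_self _).trans hn

/-- a negative power is small -/
theorem ev_neg_pow {a c : ℝ} (ha : 0 < a) (hc : 0 < c) : ∀ᶠ n : ℕ in atTop, (n : ℝ) ^ (-c) ≤ a :=
  ((tendsto_rpow_neg_atTop hc).comp tendsto_natCast_atTop_atTop).eventually (ge_mem_nhds ha)

theorem ev_big : ∀ᶠ p in FF, p.Big := by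
  have : ∀ᶠ p in FF, p.Ok → p.Big := ev_n fun q => by
    by_cases h : q.Ok
    · have hd : q.d < 1 := by linarith [h.d.2, h.ch.2]
      have hb : 0 < q.eta * q.t2 / 8 := by have := h.eta0; have := h.t2_pos; positivity
      filter_upwards [eventually_ge_atTop 22, ev_neg_pow h.ef (sub_pos.2 hd), ev_neg_pow h.e1.1 h.cv,
        ev_pow_exp (5 + q.Cn) hb h.d.1] with n h1 h2 h3 h4 _
      have n0 : (22 : ℝ) ≤ n := by exact_mod_cast h1
      refine ⟨by simp only; omega, ?_, h3, le_trans ?_ h4⟩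
      · calc (n : ℝ) ^ q.d = n ^ (-(1 - q.d)) * n := by
              rw [← Real.rpow_add_one (by linarith)]; congr 1; ring
          _ ≤ _ := mul_le_mul_of_nonneg_right h2 (by linarith)
      · rw [Real.rpow_add (by linarith), show (5 : ℝ) = (5 : ℕ) by norm_num, Real.rpow_natCast,
          pow_succ' _ 4, mul_assoc]
        exact mul_le_mul_of_nonneg_right n0 (show 0 ≤ (n : ℝ) ^ 4 * (n : ℝ) ^ q.Cn by positivity)
    · exact .of_forall fun n hn => absurd ⟨hn.1, hn.2, hn.3, hn.4, hn.5, hn.6, hn.7, hn.8, hn.9, hn.10,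
        hn.11, hn.12, hn.13, hn.14, hn.15, hn.16, hn.17, hn.18, hn.19, hn.20, hn.21, hn.22, hn.23,
        hn.24, hn.25⟩ h
  filter_upwards [this, ev_ok] with p h1 h2 using h1 h2

namespace Pm

variable {p : Pm} {s t e : ℝ}

theorem Big.n1 (b : p.Big) : (1 : ℝ) ≤ p.n := by exact_mod_cast le_trans (by norm_num) b.n

theorem Big.lo_pos (b : p.Big) : 0 < p.lo := by have := b.n1; unfold lo; positivity

theorem Big.M_lo (b : p.Big) : p.M p.lo = (p.n : ℝ) ^ (3 / 2 * p.d) := by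
  have n0 : (0 : ℝ) < p.n := by linarith [b.n1]
  rw [M, lo, ← Real.rpow_sub n0, ← Real.rpow_mul n0.le, mul_comm, ← Real.rpow_add_one n0.ne']
  congr 1; ring

theorem Big.er (b : p.Big) (h : p.Ok) (ht : t ∈ Icc p.lo p.t0) : p.Er p.e1 t :=
  ⟨h.e1.1, le_rfl, (Real.rpow_le_rpow (b.lo_pos.le.trans ht.1) ht.2 h.cv.le).trans h.t0', b.cv⟩

theorem Big.Hs_ge (b : p.Big) (h : p.Ok) (ht : p.lo ≤ t) (he : p.Er e t) :
    (p.n : ℝ) ^ p.d ≤ p.Hs e t := by
  have n0 : (0 : ℝ) < p.n := by linarith [b.n1]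
  refine le_min ?_ (b.ef.trans (by nlinarith [h.efn, b.lo_pos]))
  have h1 := M_mono (p := p) b.lo_pos.le ht
  rw [b.M_lo] at h1
  calc (p.n : ℝ) ^ p.d ≤ (p.n : ℝ) ^ (-p.cv * p.A + 3 / 2 * p.d) :=
        Real.rpow_le_rpow_of_exponent_le b.n1 (by
          linarith [h.cv', h.k3.2, h.k2.2, h.k4.2, h.k3.1, h.k2.1, h.k4.1, h.d.1])
    _ = ((p.n : ℝ) ^ (-p.cv)) ^ p.A * (p.n : ℝ) ^ (3 / 2 * p.d) := by
        rw [Real.rpow_add n0, Real.rpow_mul n0.le, Real.rpow_natCast]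
    _ ≤ _ := by have := he.1; have := he.2.2.2; gcongr

theorem Big.ex' (b : p.Big) (h : p.Ok) {H : ℝ} (hH : (p.n : ℝ) ^ p.d ≤ H) :
    22 * ((p.n : ℝ) ^ 4 * (p.n : ℝ) ^ p.Cn) ≤ Real.exp (p.th t * H) :=
  b.ex.trans (Real.exp_le_exp.2 (mul_le_mul h.th_ge hH (by positivity) h.th_pos.le))

theorem Lev.le {W W' : Set (Mx p.n)} {G : Set (Mx p.n × V p.n)} {H H' : ℝ} (h : p.Lev t W G H)
    (hW : W' ⊆ W) (hH : H' ≤ H) : p.Lev t W' G H' :=
  le_trans (measure_mono fun _ hz => And.intro (hW hz.1) hz.2)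
    (le_trans h (ENNReal.ofReal_le_ofReal (Real.exp_le_exp.2 (neg_le_neg hH))))

theorem Wt_mono (w : WStmt) (h : p.Ok) {e' : ℝ} (ht : 0 < t) (he : 0 < e) (h1 : e ≤ e')
    (h2 : min t p.t2 ≤ min s p.t2) : p.Wt e t ⊆ p.Wt e' s := fun W hW =>
  (w p.n p.k3 _ _ (pow_pos he _) (lt_min ht h.t2_pos)).2.2 _ _ (pow_le_pow_left₀ he.le h1 _) h2 W hW

end Pm

theorem poin_congr {n : ℕ} {v w : Cube n → ℝ} (hv : ∀ x, 0 < v x) (hw : ∀ x, 0 < w x)
    (h : prob v = prob w) {c : ℝ} (hp : Top.Poin v c) : Top.Poin w c := fun f => by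
  have key : ∀ u : Cube n → ℝ, (∀ x, 0 < u x) → ∀ i x, siteM u f i x = siteM (prob u) f i x :=
    fun u hu i x => by
      have h0 := (Wt.of_pos hu).pos.ne'
      have h1 := (add_pos (hu (Function.update x i true)) (hu (Function.update x i false))).ne'
      simp only [siteM, prob]
      field_simp
  have := hp f
  simp only [dir, key v hv, key w hw, h, Oa.var_congr h] at this ⊢
  exact this

theorem Acc.congr {n : ℕ} {v w : Cube n → ℝ} (h : prob v = prob w) {M : ℝ} {W : Mx n}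
    (ha : Acc M W v) : Acc M W w := fun x hx =>
  Oa.meanV_congr h ▸ ha x (hx.trans (Oa.fld_congr h).symm)

namespace Pm

variable {p : Pm} {s t e : ℝ}

theorem TA.congr {τ : Tst p.n} (h : p.TA t τ) {W : Mx p.n} {v w : Cube p.n → ℝ} (hv : ∀ x, 0 < v x)
    (hw : ∀ x, 0 < w x) (e : prob v = prob w) (hP : τ.P W v) : τ.P W w := by
  rcases h with ⟨-, -, h⟩ | ⟨-, ⟨-, h⟩ | ⟨-, h⟩ | ⟨-, h⟩ | ⟨-, -, h⟩⟩ <;> rw [h] at hP ⊢
  · exact hP.congr e
  · exact Oa.CB_congr e hP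
  · exact ⟨Oa.CB_congr e hP.1, fun hs => (hP.2.1 hs).congr e,
      Oa.meanV_congr e ▸ Oa.fld_congr e ▸ hP.2.2⟩
  · exact poin_congr hv hw e hP
  · exact ⟨Oa.CB_congr e hP.1, hP.2.congr e⟩

theorem TA.lam {τ : Tst p.n} (h : p.TA t τ) : 0 < τ.lam := by
  rcases h with ⟨-, h, -⟩ | ⟨h, -⟩ <;> rw [h]
  exacts [Real.exp_pos _, one_pos]

/-- one application of the step in the planted law -/
theorem step (st : Kp.StepStmt) (w : WStmt) (h : p.Ok) (b : p.Big) (ht : t ∈ Icc p.lo p.t0)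
    (he : p.Er e t) {B : Bad p.n} {G : Set (Mx p.n × V p.n)} {H : ℝ} (mG : MeasurableSet G)
    (h1 : (p.n : ℝ) ^ p.d ≤ H) (h2 : H ≤ p.Hc t) (kb : Kb t (p.Wt e t) B H ((p.n : ℝ) ^ p.Cn))
    (oh : Kp.OH (p.Wt e t) B G (p.AP t) H (Real.exp (p.th t * H / 2)) (Real.exp (p.th t * H / 2)))
    (ap : p.Lev t (p.Wt p.e1 t) (p.AP t) (p.Hc t + 2 * (p.th t * p.Hc t))) :
    p.Lev t (p.Wt e t) G H := by
  have t0 := b.lo_pos.trans_le ht.1
  have n1 := b.n1
  have H1 : 1 ≤ H := (Real.one_le_rpow n1 h.d.1.le).trans h1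
  have θ0 : 0 ≤ p.th t * H := mul_nonneg h.th_pos.le (by linarith)
  have θ1 : p.th t * H ≤ 1 / 32 * H := mul_le_mul_of_nonneg_right h.th_le (by linarith)
  have θ2 := mul_le_mul_of_nonneg_left h2 (h.th_pos (t := t)).le
  have D1 : 1 ≤ Real.exp (p.th t * H / 2) := Real.one_le_exp (by linarith)
  have N1 : 1 ≤ (p.n : ℝ) ^ p.Cn := Real.one_le_rpow n1 (by linarith [h.Cn])
  have n4 : 1 ≤ (p.n : ℝ) ^ 4 := one_le_pow₀ n1
  have hw := w p.n p.k3 _ _ (pow_pos he.1 p.A) (lt_min t0 h.t2_pos)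
  have hb := b.ex' (t := t) h h1
  have hap := ap.le (Wt_mono w h t0 he.1 he.2.1 le_rfl) (show H + 2 * (p.th t * H) ≤ _ by linarith)
  refine (st p.n t H _ _ _ Kp.cx _ B G (p.AP t) b.n t0 H1 D1 D1 N1 ?_ (fun _ => Real.exp_pos _)
    ⟨hw.1, hw.2.1, kb.mB, mG, kb.neg⟩ kb.er kb.pt oh).trans ?_
  · unfold Kp.cx Kp.chi Tap.avg Tap.DD Tap.th; fun_prop
  refine (add_le_add_left (mul_le_mul_right hap _) _).trans ?_
  rw [← ENNReal.ofReal_mul (by positivity), ← ENNReal.ofReal_add (by positivity) (by positivity),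
    mul_assoc 11, ← Real.exp_add, add_halves]
  refine ENNReal.ofReal_le_ofReal ?_
  set E := Real.exp (p.th t * H) with hE
  have e1 : E * Real.exp (-(H + 2 * (p.th t * H))) * E = Real.exp (-H) := by
    rw [hE, ← Real.exp_add, ← Real.exp_add]; congr 1; ring
  have e2 : E * E * Real.exp (-(2 * H)) ≤ Real.exp (-H) := by
    rw [hE, ← Real.exp_add, ← Real.exp_add]; exact Real.exp_le_exp.2 (by linarith)
  have e3 : 22 * (p.n : ℝ) ^ p.Cn ≤ E := by nlinarith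
  have e4 : 0 ≤ E * Real.exp (-(H + 2 * (p.th t * H))) := by positivity
  have e5 : 0 ≤ E * Real.exp (-(2 * H)) := by positivity
  nlinarith [mul_le_mul_of_nonneg_left e3 e5, mul_le_mul_of_nonneg_left (show 2 ≤ E by linarith) e4]

end Pm

/-- **the induction** -/
theorem indGlue : IndGlue := fun w gm st pk sr β kc ks oc os => by
  filter_upwards [ev_ok, ev_big, pk, sr, kc, ks, oc, os] with p h b pk sr kc ks oc os
  have η0 := h.eta0
  have n0 : (0 : ℝ) < p.n := by linarith [b.n1]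
  -- the a priori event from the future
  have key : ∀ t ∈ Icc p.lo p.t0, (∀ s ∈ Icc ((1 + p.eta) * t) p.t0,
      p.Lev s (p.Wt p.e1 s) (p.Gc s) (p.Hc s) ∧ p.Lev s (p.Wt p.e1 s) (p.Gsh p.e1 s) (p.Hs p.e1 s)) →
      p.Lev t (p.Wt p.e1 t) (p.AP t) (p.Hc t + 2 * (p.th t * p.Hc t)) := fun t ht ih => by
    obtain ⟨I, hc, hI, hAP⟩ := pk t ht
    have t0 : t ∈ Ioc 0 p.t0 := ⟨b.lo_pos.trans_le ht.1, ht.2⟩
    have mo := fun s (hs : t ≤ s) => Pm.Wt_mono w h t0.1 h.e1.1 le_rfl (min_le_min_right p.t2 hs)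
    have m2 := Pm.Wt_mono (s := p.t2) w h t0.1 h.e1.1 le_rfl (by simp)
    set X := p.Hc t + 3 * (p.th t * p.Hc t) with hX
    have h1 := Oa.JP_FG (I := I) (δ := (p.n : ℝ) ^ (-p.Cn)) (E := (· ∈ p.Wt p.e1 t))
      (G := fun τ W y => τ.P W (ising W y)) (p := fun τ => Real.exp (-X) * τ.lam)
      (fun τ hτ => (hI τ hτ).lam) t0.1.le (by positivity)
      (fun τ hτ => (mul_pos (Real.exp_pos _) (hI τ hτ).lam).le)
      (fun τ hτ W y v _ hv e hG => (hI τ hτ).congr (fun _ => Real.exp_pos _) hv e.symm hG)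
      fun τ hτ hs => by
        rcases hI τ hτ with ⟨a, l, e⟩ | ⟨l, ⟨a, e⟩ | ⟨a, e⟩ | ⟨a, e⟩ | ⟨c, a, e⟩⟩ <;> rw [l, e]
        · rw [← Real.exp_add, ← neg_add]
          exact (ih τ.s (mul_comm t _ ▸ a)).1.le (mo _ hs) (h.gain_c t0 (mul_comm t _ ▸ a.1))
        all_goals rw [mul_one]
        · exact (ih τ.s ⟨le_trans (by nlinarith [h.Lp, h.eta1, t0.1]) a.1, a.2⟩).2.le (mo _ hs)
            (h.gain_s t0 a.1)
        · exact (sr.1 τ.s ⟨(le_max_right _ _).trans a.1, a.2⟩).le m2 (h.gain_0 t0)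
        · exact a ▸ sr.2.1.le m2 (h.gain_0 t0)
        · exact (sr.2.2 τ.s ⟨c.trans a.1, a.2⟩).le m2 (h.gain_0 t0)
    refine le_trans (measure_mono fun z hz => And.intro hz.1 fun hf => hz.2 (hAP _ hz.1 _ hf))
      (h1.trans (ENNReal.ofReal_le_ofReal ?_))
    have h2 := b.ex' (t := t) h ((b.Hs_ge h ht.1 (b.er h ht)).trans (h.Hs_le t0.1.le (b.er h ht)))
    calc _ ≤ ∑ _τ ∈ I, (p.n : ℝ) ^ p.Cn * Real.exp (-X) := by
          refine (Finset.sum_le_sum_of_subset_of_nonneg (Finset.filter_subset _ _) fun τ hτ _ => by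
            have := (hI τ hτ).lam; positivity).trans (Finset.sum_le_sum fun τ hτ => le_of_eq ?_)
          rw [mul_div_mul_right _ _ (hI τ hτ).lam.ne', Real.rpow_neg n0.le, div_inv_eq_mul, mul_comm]
      _ ≤ (p.n : ℝ) ^ 4 * (p.n : ℝ) ^ p.Cn * Real.exp (-X) := by
          rw [Finset.sum_const, nsmul_eq_mul, mul_assoc]; gcongr
      _ ≤ Real.exp (p.th t * p.Hc t) * Real.exp (-X) := by
          gcongr; linarith [show 0 ≤ (p.n : ℝ) ^ 4 * (p.n : ℝ) ^ p.Cn by positivity]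
      _ = _ := by rw [← Real.exp_add, hX]; congr 1; ring
  have fin : ∀ t ∈ Icc p.lo p.t0, p.Lev t (p.Wt p.e1 t) (p.AP t) (p.Hc t + 2 * (p.th t * p.Hc t)) →
      p.Lev t (p.Wt p.e1 t) (p.Gc t) (p.Hc t) ∧
        ∀ e, p.Er e t → p.Lev t (p.Wt e t) (p.Gsh e t) (p.Hs e t) := fun t ht ap =>
    have t0 := (b.lo_pos.trans_le ht.1).le
    ⟨Pm.step st w h b ht (b.er h ht) (gm _ _ 0).1
      ((b.Hs_ge h ht.1 (b.er h ht)).trans (h.Hs_le t0 (b.er h ht))) le_rfl (kc t ht) (oc t ht) ap,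
    fun e he => Pm.step st w h b ht he (gm _ (p.gc t) _).2 (b.Hs_ge h ht.1 he) (h.Hs_le t0 he)
      (ks t ht e he) (os t ht e he) ap⟩
  have ind : ∀ j : ℕ, ∀ t ∈ Icc p.lo p.t0, p.t0 < (1 + p.eta) ^ j * t →
      p.Lev t (p.Wt p.e1 t) (p.AP t) (p.Hc t + 2 * (p.th t * p.Hc t)) := fun j => by
    induction j with
    | zero => exact fun t ht h1 => absurd ht.2 (by simpa using h1)
    | succ j ih =>
      refine fun t ht h1 => key t ht fun s hs => ?_
      have t0 := b.lo_pos.trans_le ht.1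
      have hs' : s ∈ Icc p.lo p.t0 := ⟨by nlinarith [ht.1, hs.1], hs.2⟩
      have := fin s hs' (ih s hs' (h1.trans_le (by
        rw [pow_succ, mul_assoc]; exact mul_le_mul_of_nonneg_left hs.1 (by positivity))))
      exact ⟨this.1, this.2 _ (b.er h hs')⟩
  intro t ht
  have t0 := b.lo_pos.trans_le ht.1
  obtain ⟨j, hj⟩ := pow_unbounded_of_one_lt (p.t0 / t) (show 1 < 1 + p.eta by linarith)
  have ap := ind j t ht (by rwa [div_lt_iff₀ t0] at hj)
  exact ⟨ap.le Subset.rfl (by nlinarith [h.th_pos (t := t), h.Hc_nn t0.le]), fin t ht ap⟩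

end Crest.Agent.T157.O0

end
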