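import Crest.Agent.T157.Q1C_63
import Crest.Agent.T157.Glue_34

/-!
# Row 157, part A (helper63): the entropy production at a fixed time of the localisation is bounded
by the Dirichlet form, without loss from large local fields
-/

set_option autoImplicit false
set_option linter.unusedSectionVars false

noncomputable section

namespace Crest.Agent.T157.Q1

open MeasureTheory Filter Topology Set Real Matrix
open Crest.ProbabilityR.SpinGlassDynamics
open Crest.Agent.T157.SL Crest.Agent.T157.E Crest.Agent.T157.Tr Crest.Agent.T157.Glue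
open Crest.Agent.T157.Eig (nrm opn nrm_sq nrm_nonneg nrm_add_le nrm_smul nrm_mulVec_le nrm_le_iff
  continuous_nrm)

section gen

variable {Ω : Type*} [Fintype Ω] {ι : Type} [Fintype ι] [DecidableEq ι] {φ : Ω → ι → ℝ}
  {u w f : Ω → ℝ} {s T : ℝ}

/-- the static functional -/
def Ns (φ : Ω → ι → ℝ) (u f : Ω → ℝ) (c : ℝ) : ℝ :=
  √(mean u f ^ 2 + c ^ 2 * (covV u f φ ⬝ᵥ covV u f φ))

theorem Ns_le {P : ℝ} (h0 : 0 ≤ mean u f) (hP : 0 ≤ P)
    (h : covV u f φ ⬝ᵥ covV u f φ ≤ 2 * mean u f * P) (c : ℝ) : Ns φ u f c ≤ mean u f + c ^ 2 * P := by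
  rw [Ns, sqrt_le_left (by positivity)]
  nlinarith [mul_le_mul_of_nonneg_left h (sq_nonneg c), sq_nonneg (c ^ 2 * P)]

/-- transport with bad events -/
theorem tp_gen (hw : Wt w) (hf : ∀ x, 0 ≤ f x) (h0 : 0 < mean w f) (hs : 0 ≤ s) (hst : s ≤ T)
    {k : ℝ → ℝ} (hk : ContinuousOn k (Icc s T)) (k0 : ∀ r ∈ Icc s T, 0 ≤ k r) {R E δ : ℝ}
    (hR : 0 ≤ R) (hD : ∀ x x', (φ x - φ x') ⬝ᵥ (φ x - φ x') ≤ R ^ 2)
    (hE : exp (∫ r in s..T, k r) ≤ E) {A : ℝ → Set (ι → ℝ)} (hA : ∀ r, MeasurableSet (A r))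
    (good : ∀ r ∈ Ioo s T, ∀ y ∉ A r, ∀ u, u ⬝ᵥ covMat (post φ w r y) φ *ᵥ u ≤ k r * (u ⬝ᵥ u))
    (δ0 : 0 ≤ δ) (bad : ∀ r ∈ Ioo s T, mean w (fun x => f x * px φ r (A r) x) ≤ δ) (c : ℝ) :
    ex φ w (Nf φ w f c) s ≤
      ex φ w (Nf φ w f (c * E)) T + (T - s) * (c ^ 2 * E ^ 2 * (R ^ 4 * δ)) := by
  have pr := prim hst hk
  have cE : ∀ r ∈ Icc s T, (c * exp (∫ q in s..r, k q)) ^ 2 ≤ (c * E) ^ 2 := fun r hr => by
    rw [mul_pow, mul_pow]
    refine mul_le_mul_of_nonneg_left (pow_le_pow_left₀ (exp_pos _).le ((exp_le_exp.2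
      (intervalIntegral.integral_mono_interval le_rfl hr.1 hr.2 ?_
        (hk.intervalIntegrable_of_Icc hst))).trans hE) 2) (sq_nonneg _)
    exact (ae_restrict_mem measurableSet_Ioc).mono fun q hq => k0 q (Ioc_subset_Icc_self hq)
  have mχ : ∀ r, MG fun y => (A r).indicator (fun _ => (1 : ℝ)) y := fun r =>
    (MG.const 1).indicator (hA r)
  have := transport (φ := φ) hw hf h0 hs hst (c := fun r => c * exp (∫ q in s..r, k q)) (k := k)
    (ε := fun _ => c ^ 2 * E ^ 2 * (R ^ 4 * δ)) (χ := fun q => (A q.1).indicator (fun _ => 1) q.2)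
    (continuousOn_const.mul pr.1.rexp) hk continuousOn_const
    (fun r hr => (((pr.2 r hr).exp).const_mul c).congr_deriv (by ring)) k0
    (fun _ _ => by positivity) mχ (fun q => indicator_nonneg (fun _ _ => zero_le_one) _)
    (fun q hq hχ => good q.1 hq q.2 fun h => by simp [h] at hχ) fun r hr => by
      have hr' := Ioo_subset_Icc_self hr
      have q0 : ∀ y, 0 ≤ (A r).indicator (fun _ => (1 : ℝ)) y * (vv φ w f (r, y) ⬝ᵥ
          covMat (pw φ w (r, y)) φ *ᵥ vv φ w f (r, y) / mean (pw φ w (r, y)) f) := fun y =>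
        mul_nonneg (indicator_nonneg (fun _ _ => zero_le_one) _)
        (div_nonneg ((hw.post φ r y).covMat_quad_nonneg φ _) ((hw.post φ r y).mean_nonneg hf))
      refine (mul_le_mul_of_nonneg_right (cE r hr') (ex_nonneg hw q0)).trans ?_
      rw [mul_pow]
      refine mul_le_mul_of_nonneg_left (le_trans ?_ (mul_le_mul_of_nonneg_left (bad r hr)
        (by positivity))) (by positivity)
      rw [← slE_indicator_mean hw (hs.trans hr.1.le) (hA r), ← slE_const_mul]
      refine slE_mono hw (.of_mg fun _ => (mχ r).mul (((eg_dot (fun j => eg_vv hw f j) fun j =>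
        eg_dot (fun l => eg_cov hw _ _) fun l => eg_vv hw f l).mul (eg_inv_mean (φ := φ)
          (Metric.isBounded_Icc r r) hw hf h0)).mg (left_mem_Icc.2 le_rfl)))
        (.of_mg fun _ => (((eg_mean hw f).mg (mem_univ r)).indicator (hA r)).const_mul _)
        fun _ y => ?_
      by_cases hy : y ∈ A r
      · simp only [indicator_of_mem hy, one_mul, vv, pw]
        have hu := hw.post φ r y
        have u0 := hw.mean_post_pos hf h0 φ r y
        have b1 := covV_le_diam hu hR hD hf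
        rw [div_le_iff₀ u0, covMat_quad, ← var_eq_cov]
        refine le_trans (hu.mean_le (dev_sq_le hu hD _)) ?_
        nlinarith [mul_le_mul_of_nonneg_left b1 (sq_nonneg R)]
      · simp [hy]
  simp only [intervalIntegral.integral_same, exp_zero, mul_one, intervalIntegral.integral_const,
    smul_eq_mul] at this
  exact this.trans (add_le_add (ex_mono hw (mg_Nf hw _ T) (mg_Nf hw _ T) fun y =>
    Nf_mono (cE T (right_mem_Icc.2 hst)) _) le_rfl)

end gen

variable {n : ℕ} {u w g G : Cube n → ℝ} {J : Tap.Mx n}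

theorem cov_site (hu : ∀ x, 0 < u x) (g : Cube n → ℝ) (i : Fin n) :
    mean u (fun x => g x ^ 2 * (spin (x i) - siteM u (fun y => spin (y i)) i x)) ^ 2 ≤
      16 * mean u (fun x => g x ^ 2) * Ent.dirS u g i := by
  have hU := Wt.of_pos hu
  set h := siteM u g i with hh
  set t := siteM u (fun y => spin (y i)) i with ht
  have z : mean u (fun x => h x ^ 2 * (spin (x i) - t x)) = 0 := by
    rw [Chain22.emean_eq, ← Ent.mean_mean_cnd hu i (fun x y => h x ^ 2 * (spin (y i) - t x))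
      fun x b y => by rw [hh, ht, Chain22.siteM_update, Chain22.siteM_update],
      ← hU.isP.mean_const 0]
    refine Ent.mean_congr fun x => ?_
    rw [Ent.mean_const_mul, Ent.mean_sub', (Ent.isP_cnd hu i x).mean_const,
      Ent.mean_cnd u (fun y => spin (y i)), sub_self, mul_zero]
  have t2 : ∀ x, (spin (x i) - t x) ^ 2 ≤ 4 := fun x => by
    have h1 : |t x| ≤ 1 := by
      rw [ht, ← Ent.mean_cnd u (fun y => spin (y i)), abs_le]
      have hp := Ent.isP_cnd hu i x
      exact ⟨(hp.mean_const (-1)).symm.trans_le (hp.mean_mono fun b => (abs_le.1 (abs_spin _).le).1),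
        (hp.mean_mono fun b => (abs_le.1 (abs_spin _).le).2).trans_eq (hp.mean_const 1)⟩
    nlinarith [abs_le.1 h1, abs_le.1 (abs_spin (x i)).le]
  have hg : mean u (fun x => h x ^ 2) ≤ mean u fun x => g x ^ 2 := by
    have e1 : mean u (fun x => h x ^ 2) = mean u fun x => g x * h x := by
      simpa only [Chain22.ip, sq, mean] using Chain22.ip_siteM_siteM hu i g g
    have e2 := hU.mean_nonneg (f := fun x => g x ^ 2 - 2 * (g x * h x) + h x ^ 2) fun x => by
      nlinarith [sq_nonneg (g x - h x)]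
    rw [mean_add, mean_sub, mean_const_mul] at e2
    linarith
  have e : mean u (fun x => g x ^ 2 * (spin (x i) - t x)) =
      mean u fun x => (g x - h x) * ((g x + h x) * (spin (x i) - t x)) := by
    rw [← sub_zero (mean u fun x => g x ^ 2 * _), ← z, ← mean_sub]
    congr 1; ext x; ring
  have b : mean u (fun x => ((g x + h x) * (spin (x i) - t x)) ^ 2) ≤
      16 * mean u fun x => g x ^ 2 := by
    refine (hU.mean_mono (g := fun x => 8 * g x ^ 2 + 8 * h x ^ 2) fun x => ?_).trans ?_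
    · rw [mul_pow]
      nlinarith [mul_le_mul_of_nonneg_left (t2 x) (sq_nonneg (g x + h x)), sq_nonneg (g x - h x)]
    · rw [mean_add, mean_const_mul, mean_const_mul]; linarith
  rw [e, mul_comm _ (Ent.dirS u g i)]
  exact (mean_mul_sq_le hU _ _).trans (mul_le_mul_of_nonneg_left b (Ent.dirS_nonneg hu g i))

theorem prod_cov (hu : Ent.IsProd u) (g : Cube n → ℝ) :
    covV u (fun x => g x ^ 2) sv ⬝ᵥ covV u (fun x => g x ^ 2) sv ≤
      16 * mean u (fun x => g x ^ 2) * dir u g := by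
  have hU := Wt.of_pos hu.pos
  obtain ⟨p, -, -, e⟩ := hu.exists_ppi
  rw [Ent.dir_eq_sum, Finset.mul_sum]
  refine Finset.sum_le_sum fun i _ => le_of_eq_of_le ?_ (cov_site hu.pos g i)
  have e1 : siteM u (fun y => spin (y i)) i = fun _ => Chain22.mean (p i) spin := by
    funext x; rw [← Ent.mean_cnd, e]; simp only [Function.update_self]
  have e2 := Chain22.mean_siteM hu.pos i fun y => spin (y i)
  rw [e1, hU.isP.mean_const] at e2
  rw [e1, e2, ← sq, covV, hU.cov_eq']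
  rfl

/-- **removal of the interaction** -/
theorem hs_N (hJ : Jᵀ = J) (hJ3 : opn J ≤ 3) (hG : ∀ v, (∀ x, 0 < v x) → dir v g ≤ mean v G) {M : ℝ}
    (hM : 0 ≤ M) {y : Tap.V n} (hy : Fro J M (24 * √n) y)
    (h0 : 0 < mean (ising J y) fun x => g x ^ 2) (c : ℝ) :
    Ns sv (ising J y) (fun x => g x ^ 2) c ≤ mean (ising J y) (fun x => g x ^ 2) +
      c ^ 2 * (exp (8 * M) ^ 2 * (64 * mean (ising J y) G +
        1296 * n ^ 2 * exp (-(n / 2)) * mean (ising J y) fun x => g x ^ 2)) := by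
  have hJ4 : opn J ≤ 4 := by linarith
  obtain ⟨Q, hQ, hQQ⟩ := exists_root hJ hJ4
  have hw := wt_ising J y
  have hQn : ∀ u, nrm (Q *ᵥ u) ≤ 3 * nrm u := fun u => by
    rw [nrm_le_iff (by have := nrm_nonneg u; positivity), mul_pow, nrm_sq]
    nlinarith [Q_sq_le hQ hQQ hJ4 u, dot_self_nonneg u]
  have sn := sqrt_nonneg (n : ℝ)
  have f0 : ∀ x, 0 ≤ g x ^ 2 := fun _ => sq_nonneg _
  have cQ : ∀ v f : Cube n → ℝ, covV v f (fun σ => Q *ᵥ sv σ) = Q *ᵥ covV v f sv := fun v f => by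
    funext i
    simp only [covV, mulVec, dotProduct, cov_sum, cov_const_mul]
  have hA : MeasurableSet {z : Tap.V n | 24 * √n < nrm (Q *ᵥ z)} :=
    measurableSet_lt measurable_const (continuous_nrm.comp (by fun_prop)).measurable
  have h := tp_gen (φ := fun σ => Q *ᵥ sv σ) hw f0 h0 le_rfl zero_le_one (k := fun _ => 8 * M)
    continuousOn_const (fun _ _ => by positivity) (R := 6 * √n) (E := exp (8 * M)) (by positivity)
    (fun x x' => by
      rw [← mulVec_sub, mul_pow, sq_sqrt n.cast_nonneg]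
      nlinarith [Q_sq_le hQ hQQ hJ4 (sv x - sv x'), sv_diam x x', n.cast_nonneg (α := ℝ)])
    (by simp) (fun _ => hA) (fun r hr z hz u => by
      rw [GoeT.covMat_congr_prob (prob_post_hs hQ hQQ y _ r), covMat_Q hQ]
      refine (hy r (Ioo_subset_Icc_self hr) _ (by
        rw [add_sub_cancel_left]; exact not_lt.1 hz) _).trans ?_
      nlinarith [mul_le_mul_of_nonneg_left (Q_sq_le hQ hQQ hJ4 u) hM])
    (δ := exp (-(n / 2)) * mean (ising J y) fun x => g x ^ 2) (by positivity)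
    (fun r hr => mean_px_le_of hw (fun x => (px_le hA x fun z hz => ?_).trans (nrm_tail n)) f0) c
  · rw [show ex (fun σ => Q *ᵥ sv σ) (ising J y) (Nf _ (ising J y) (fun x => g x ^ 2) c) 0 = _ from
      ex_pw_zero hw fun u => Ns (fun σ => Q *ᵥ sv σ) u (fun x => g x ^ 2) c] at h
    have a1 : Ns sv (ising J y) (fun x => g x ^ 2) c ≤
        Ns (fun σ => Q *ᵥ sv σ) (ising J y) (fun x => g x ^ 2) c := by
      refine sqrt_le_sqrt (add_le_add le_rfl (mul_le_mul_of_nonneg_left ?_ (sq_nonneg c)))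
      rw [cQ, Q_sq hQ hQQ]
      set v := covV (ising J y) (fun x => g x ^ 2) sv
      nlinarith [(abs_le.1 (Eig.abs_quad_le J v)).1, mul_le_mul_of_nonneg_right hJ3
        (dot_self_nonneg v)]
    have m1 := (eg_mean (φ := fun σ => Q *ᵥ sv σ) hw fun x => g x ^ 2).mg (mem_univ 1)
    have m2 := ((eg_mean (φ := fun σ => Q *ᵥ sv σ) hw G).mg (mem_univ 1)).const_mul
      ((c * exp (8 * M)) ^ 2 * 64)
    have a2 := slE_mono (φ := fun σ => Q *ᵥ sv σ) (s := 1) hw (.of_mg fun _ => mg_Nf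
      (φ := fun σ => Q *ᵥ sv σ) (f := fun x => g x ^ 2) hw (c * exp (8 * M)) 1)
      (.of_mg fun _ => m1.add m2) fun _ z => by
        have e := prob_post_hs hQ hQQ y z 1
        rw [sub_self, zero_smul, ← diagonal_zero] at e
        have hp := Ent.isProd_ising (fun _ => 0) (y + Q *ᵥ z)
        have d := hG _ hp.pos
        have d0 := Ent.dir_nonneg hp.pos g
        have q0 := (Wt.of_pos hp.pos).mean_nonneg f0
        rw [mul_assoc]
        refine Ns_le ((hw.post _ 1 z).mean_nonneg f0) ?_ ?_ _ <;>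
          simp only [pw, GoeT.mean_congr_prob e, GoeT.covV_congr_prob e]
        · linarith
        · rw [cQ]
          refine (Q_sq_le hQ hQQ hJ4 _).trans ?_
          nlinarith [prod_cov hp g, mul_le_mul_of_nonneg_left d q0]
    rw [slE_add (.of_mg fun _ => m1) (.of_mg fun _ => m2), slE_const_mul] at a2
    simp only [pw] at a2
    rw [slE_mean hw zero_le_one, slE_mean hw zero_le_one] at a2
    change ex _ _ (Nf _ _ _ _) _ ≤ _ at a2
    rw [show (6 * √(n : ℝ)) ^ 4 = 1296 * (√(n : ℝ) ^ 2) ^ 2 by ring, sq_sqrt n.cast_nonneg] at h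
    nlinarith
  · simp only [mem_ofPred_eq, mulVec_add, mulVec_smul, mulVec_mulVec, hQQ, add_mulVec,
      smul_mulVec, one_mulVec] at hz ⊢
    have h3 := nrm_add_le (r • (J *ᵥ sv x + (4 : ℝ) • sv x)) (√r • Q *ᵥ z)
    have h4 := nrm_add_le (J *ᵥ sv x) ((4 : ℝ) • sv x)
    have h5 := (nrm_mulVec_le J (sv x)).trans (mul_le_mul_of_nonneg_right hJ3 (nrm_nonneg _))
    rw [nrm_smul, nrm_smul, abs_of_pos hr.1, abs_of_nonneg (sqrt_nonneg _)] at h3
    rw [nrm_smul, nrm_sv, abs_of_pos four_pos] at h4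
    rw [nrm_sv] at h5
    have h6 := mul_le_of_le_one_left (nrm_nonneg (J *ᵥ sv x + (4 : ℝ) • sv x)) hr.2.le
    have h7 := mul_le_of_le_one_left (nrm_nonneg (Q *ᵥ z)) (sqrt_le_one.2 hr.2.le)
    linarith [hQn z]

/-- the entropy production at time `t` is controlled by the Dirichlet form -/
def JT (w : Cube n → ℝ) (t P δ : ℝ) : Prop := ∀ (g : Cube n → ℝ) (M : ℝ), (∀ x, g x ^ 2 ≤ M) →
  0 < mean w (fun x => g x ^ 2) → ∀ c, ex sv w (Nf sv w (fun x => g x ^ 2) c) t ≤
    mean w (fun x => g x ^ 2) + c ^ 2 * (P * dir w g + δ * M)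

theorem JT.mono {t P δ δ' : ℝ} (h : JT w t P δ) (hδ : δ ≤ δ') : JT w t P δ' := fun g M hM h0 c =>
  (h g M hM h0 c).trans (by
    have := (sq_nonneg _).trans (hM fun _ => true)
    gcongr)

theorem jt_end (hJ : Jᵀ = J) (hJ3 : opn J ≤ 3) {M T η : ℝ} (hM : 0 ≤ M) (hT : 0 ≤ T)
    (h1 : 48 ≤ η * T) (h2 : 16 ≤ η ^ 2 * T)
    (fro : ∀ t ∈ Icc (0 : ℝ) 1, ∀ (σ : Cube n) (y : Tap.V n), nrm (y - T • sv σ) ≤ η * T * √n →
      ∀ u : Tap.V n, u ⬝ᵥ covM (ising ((1 - t) • J) y) *ᵥ u ≤ M * (u ⬝ᵥ u)) :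
    JT (ising J 0) T (exp (8 * M) ^ 2 * 64)
      ((exp (8 * M) ^ 2 * 1296 * n ^ 2 + 2 * n) * exp (-(n / 2))) := fun g L hL h0 c => by
  have hB : MeasurableSet {y : Tap.V n | ∀ σ : Cube n, η * T / 2 * √n < nrm (y - T • sv σ)} := by
    rw [ofPred_forall]
    exact .iInter fun σ => measurableSet_lt measurable_const
      (continuous_nrm.comp (by fun_prop)).measurable
  have sn := sqrt_nonneg (n : ℝ)
  have hw := wt_ising J 0
  have hp : ∀ x, 0 < ising J 0 x := fun _ => exp_pos _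
  have f0 : ∀ x, 0 ≤ g x ^ 2 := fun _ => sq_nonneg _
  set G := fun x => ∑ i, (g x - siteM (ising J 0) g i x) ^ 2 with hG
  have G0 : ∀ x, 0 ≤ G x := fun x => Finset.sum_nonneg fun _ _ => sq_nonneg _
  have m1 := (eg_mean (φ := sv) hw fun x => g x ^ 2).mg (mem_univ T)
  have m2 := (eg_mean (φ := sv) hw G).mg (mem_univ T)
  set a := exp (8 * M) ^ 2
  set b := 1296 * (n : ℝ) ^ 2 * exp (-(n / 2))
  have h3 := mean_px_le_of hw (fun x => (px_le (φ := sv) (t := T) hB x fun z hz => ?_).trans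
    (nrm_tail n)) f0
  · have := slE_mono (φ := sv) (s := T) hw (.of_mg fun _ => mg_Nf (φ := sv)
      (f := fun x => g x ^ 2) hw c T)
      (.of_mg fun _ => ((m1.const_mul (1 + c ^ 2 * (a * b))).add
        (m2.const_mul (c ^ 2 * (a * 64)))).add ((m1.indicator hB).const_mul (c ^ 2 * (2 * n))))
      fun _ y => ?_
    · rw [slE_add (.of_mg fun _ => (m1.const_mul _).add (m2.const_mul _))
        (.of_mg fun _ => (m1.indicator hB).const_mul _), slE_add (.of_mg fun _ => m1.const_mul _)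
        (.of_mg fun _ => m2.const_mul _), slE_const_mul, slE_const_mul, slE_const_mul] at this
      simp only [pw] at this
      rw [slE_indicator_mean hw hT hB, slE_mean hw hT, slE_mean hw hT,
        show mean (ising J 0) G = dir (ising J 0) g from mean_sum _ _ _] at this
      have h4 := hw.mean_le hL
      have h5 := h3.trans (mul_le_mul_of_nonneg_left h4 (exp_pos _).le)
      refine this.trans ?_
      have h6 := mul_le_mul_of_nonneg_left h4 (show 0 ≤ c ^ 2 * (a * b) by positivity)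
      have h7 := mul_le_mul_of_nonneg_left h5 (show 0 ≤ c ^ 2 * (2 * n : ℝ) by positivity)
      simp only [b] at h6 ⊢
      nlinarith
    have hu := hw.post sv T y
    have q0 := hu.mean_nonneg f0
    have q1 := hu.mean_nonneg G0
    by_cases hy : y ∈ {y : Tap.V n | ∀ σ : Cube n, η * T / 2 * √n < nrm (y - T • sv σ)}
    · have := covV_le_diam hu (R := 2 * √n) (by positivity) (fun x x' => by
        rw [mul_pow, sq_sqrt n.cast_nonneg]; linarith [sv_diam x x']) f0
      rw [mul_pow, mul_pow, sq_sqrt n.cast_nonneg] at this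
      refine (Ns_le (P := 2 * n * mean (post sv (ising J 0) T y) fun x => g x ^ 2) q0
        (by positivity) (by linarith) c).trans ?_
      simp only [indicator_of_mem hy, pw]
      have p1 : 0 ≤ c ^ 2 * (a * b) * mean (post sv (ising J 0) T y) fun x => g x ^ 2 := by
        positivity
      have p2 : 0 ≤ c ^ 2 * (a * 64) * mean (post sv (ising J 0) T y) G := by positivity
      linarith
    · have u0 := hw.mean_post_pos f0 h0 sv T y
      obtain ⟨σ, hσ⟩ := not_forall.1 hy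
      simp only [indicator_of_notMem hy, pw, Nf, vv, mean_post_sv, covV_post_sv, tilt_ising,
        zero_add] at u0 ⊢
      refine (hs_N (G := G) hJ hJ3 (fun v hv => ?_) hM (fun t ht h hh => fro t ht σ h ?_)
        u0 c).trans_eq (by ring)
      · rw [show mean v G = _ from mean_sum _ _ _]
        exact Finset.sum_le_sum fun i _ => Ent.dirS_le_siteM hv _ g i
      · have := nrm_add_le (h - y) (y - T • sv σ)
        rw [sub_add_sub_cancel] at this
        nlinarith [not_lt.1 hσ, mul_le_mul_of_nonneg_right h1 sn]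
  · have h4 := hz x
    rw [add_sub_cancel_left, nrm_smul, abs_of_nonneg (sqrt_nonneg _)] at h4
    have η0 : 0 < η := by
      by_contra h; nlinarith [mul_nonneg (neg_nonneg.2 (not_lt.1 h)) hT]
    have h5 : 4 ≤ η * √T := by
      refine le_of_sq_le_sq ?_ (by positivity)
      rw [mul_pow, sq_sqrt hT]; linarith
    by_contra h6
    have h7 := mul_le_mul_of_nonneg_left (not_le.1 h6).le (sqrt_nonneg T)
    have h8 := mul_le_mul_of_nonneg_right h5 (mul_nonneg (sqrt_nonneg T) sn)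
    have h9 : η * √T * (√T * √n) = η * T * √n := by
      rw [mul_assoc, ← mul_assoc (√T), mul_self_sqrt hT, mul_assoc]
    linarith

theorem mean_px_le_law (hw : Wt w) {f : Cube n → ℝ} {M r p : ℝ} (hM : ∀ x, f x ≤ M) (M0 : 0 ≤ M)
    {A : Set (Tap.V n)} (hA : MeasurableSet A) (h : (law sv w r).real A ≤ p) :
    mean w (fun x => f x * px sv r A x) ≤ p * M := by
  rw [law_real hw hA] at h
  refine le_trans ?_ (mul_le_mul_of_nonneg_right h M0)
  rw [← mean_mul_const]
  exact hw.mean_mono fun x => (mul_le_mul_of_nonneg_right (hM x) (px_nonneg x)).trans_eq (mul_comm _ _)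

theorem diam_sv (x x' : Cube n) : (sv x - sv x') ⬝ᵥ (sv x - sv x') ≤ (2 * √n) ^ 2 := by
  rw [mul_pow, sq_sqrt n.cast_nonneg]; linarith [sv_diam x x']

theorem JT.back (hw : ∀ x, 0 < w x) {t T P δ K ρ p : ℝ} (h : JT w T P δ) (ht : 0 ≤ t) (htT : t ≤ T)
    (hK : 0 ≤ K) (hρ : 0 ≤ ρ) (hp : 0 ≤ p)
    (cov : ∀ r ∈ Ioo t T, (law sv w r).real {y | ¬ Tap.CovOK w K ρ y} ≤ p) :
    JT w t (exp ((T - t) * K) ^ 2 * P) (exp ((T - t) * K) ^ 2 * (δ + (T - t) * (16 * n ^ 2 * p))) :=
  fun g M hM h0 c => by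
  have M0 := (sq_nonneg _).trans (hM fun _ => true)
  have a1 := tp_gen (φ := sv) (.of_pos hw) (fun x => sq_nonneg (g x)) h0 ht htT (k := fun _ => K)
    continuousOn_const (fun _ _ => hK) (by positivity) diam_sv (E := exp ((T - t) * K)) (by simp)
    (fun _ => measurableSet_covOK hw K ρ) (fun r _ y hy u => by
      have := not_not.1 hy 0 (by simpa [nrm] using hρ) u
      rwa [covMat_post_sv, ← add_zero y]) (mul_nonneg hp M0)
    (fun r hr => mean_px_le_law (.of_pos hw) hM M0 (measurableSet_covOK hw K ρ) (cov r hr)) c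
  rw [show (2 * √(n : ℝ)) ^ 4 = 16 * (√(n : ℝ) ^ 2) ^ 2 by ring, sq_sqrt n.cast_nonneg] at a1
  have a2 := h g M hM h0 (c * exp ((T - t) * K))
  nlinarith

theorem jt_prob (hw : ∑ y, w y ≠ 0) (t P δ : ℝ) : JT (prob w) t P δ ↔ JT w t P δ := by
  simp only [JT, ex, Nf, vv, pw, GoeT.slE_prob hw, GoeT.mean_prob hw, GoeT.dir_prob hw,
    GoeT.mean_congr_prob (GoeT.prob_post_prob hw sv _ _),
    GoeT.covV_congr_prob (GoeT.prob_post_prob hw sv _ _)]

theorem ev_small2 (A : ℝ) {κ : ℝ} (hκ : 0 < κ) :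
    ∀ᶠ n : ℕ in atTop, A * n ^ 2 * exp (-(κ * n)) ≤ exp (-(κ / 4 * n)) := by
  filter_upwards [ev_small A hκ, ev_small 1 (half_pos hκ)] with n h1 h2
  rw [show κ / 4 = κ / 2 / 2 by ring]
  nlinarith [mul_le_mul_of_nonneg_left h1 (n.cast_nonneg (α := ℝ))]

/-- at every positive time, critical temperature -/
def JTStmt : Prop := ∀ t > (0 : ℝ), ∃ P ≥ (0 : ℝ), ∃ c > (0 : ℝ),
  Top.Whp disorderLaw fun n g => JT (gibbsWeight n 1 g) t P (exp (-(c * n)))

theorem jt_of (hU : Tap.UFStmt) (hF : Tap.FrzStmt) (hZ : Tap.FrozStmt) (hC : Tap.CovStmt) :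
    JTStmt := fun t0 ht => by
  have hβ' : (1 : ℝ) ∈ Icc (0 : ℝ) 1 := ⟨zero_le_one, le_rfl⟩
  obtain ⟨K₀, hU⟩ := hU 1 hβ' (1 / 2) (by norm_num)
  obtain ⟨ε, hε, hF⟩ := hF
  obtain ⟨η, hη, T0, M, hZ⟩ := hZ ε hε K₀
  obtain ⟨T, hT0, hT1, hT2, hT3⟩ : ∃ T, T0 ≤ T ∧ t0 ≤ T ∧ 48 ≤ η * T ∧ 16 ≤ η ^ 2 * T :=
    ⟨max (max T0 t0) (max (48 / η) (16 / η ^ 2)), by simp, by simp,
      (div_le_iff₀' hη).1 (by simp), (div_le_iff₀' (pow_pos hη 2)).1 (by simp)⟩
  obtain ⟨K, ρ, hρ, κ, hκ, hC⟩ := hC 1 ⟨one_pos, le_rfl⟩ t0 ht.le (.inr ht) T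
  set a := exp ((T - t0) * max K 0) ^ 2
  set b := exp (8 * max M 0) ^ 2
  set k := min (1 / 2) κ
  have k0 : 0 < k := lt_min (by norm_num) hκ
  have T0' := sub_nonneg.2 hT1
  refine ⟨a * (b * 64), by positivity, k / 4, by positivity, GoeT.transfer 1
    (fun n w => JT w t0 (a * (b * 64)) (exp (-(k / 4 * n))))
    (fun n w hw => jt_prob (GoeT.sum_pos hw).ne' _ _ _) ?_⟩
  refine ((((hU.and hF).and hC).and whp_opn).and whp_symm).mono ?_
  filter_upwards [eventually_ge_atTop 1, ev_small2 (a * (b * 1296 + 2 + (T - t0) * 16)) k0]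
    with n hn hn' W ⟨⟨⟨⟨h1, h2⟩, h3⟩, h4⟩, h5⟩
  have hw : ∀ x, 0 < ising ((1 : ℝ) • W) 0 x := fun _ => exp_pos _
  have e := jt_end (J := (1 : ℝ) • W) (by rw [transpose_smul, h5]) (by rwa [one_smul])
    (le_max_right M 0) (ht.le.trans hT1) hT2 hT3 fun t ht σ y hy u => by
      rw [smul_smul]
      exact ((hZ n W 1 hn h5 hβ' h4 h2 h1 T hT0 _ ⟨mul_nonneg (sub_nonneg.2 ht.2) hβ'.1,
        mul_le_of_le_one_left hβ'.1 (sub_le_self _ ht.1)⟩ σ y hy).2 u).trans
        (mul_le_mul_of_nonneg_right (le_max_left _ _) (dot_self_nonneg u))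
  refine (e.back hw ht.le hT1 (le_max_right K 0) (ρ := ρ * √n) (by positivity) (exp_pos _).le
    fun r hr => le_trans ?_ (h3 r (Ioo_subset_Icc_self hr))).mono (le_trans ?_ hn')
  · have := isProb_law (φ := sv) (s := r) (Wt.of_pos hw)
    exact measureReal_mono fun y hy h => hy fun v hv u => (h v hv u).trans
      (mul_le_mul_of_nonneg_right (le_max_left _ _) (dot_self_nonneg u))
  · have n1 : (1 : ℝ) ≤ n := by exact_mod_cast hn
    have e1 : exp (-(n / 2 : ℝ)) ≤ exp (-(k * n)) := exp_le_exp.2 (by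
      linarith [mul_le_mul_of_nonneg_right (min_le_left (1 / 2) κ) (n.cast_nonneg (α := ℝ))])
    have e2 : exp (-κ * n) ≤ exp (-(k * n)) := exp_le_exp.2 (by
      linarith [mul_le_mul_of_nonneg_right (min_le_right (1 / 2) κ) (n.cast_nonneg (α := ℝ))])
    have e3 : (n : ℝ) ≤ n ^ 2 := le_self_pow₀ n1 two_ne_zero
    calc _ ≤ a * ((b * 1296 * n ^ 2 + 2 * n ^ 2) * exp (-(k * n)) +
          (T - t0) * (16 * n ^ 2 * exp (-(k * n)))) := by gcongr
      _ = _ := by ring

end Crest.Agent.T157.Q1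

end
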