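import Crest.Agent.T157.EntD_34
import Crest.Agent.T157.ChainHB_22

/-!
Row 157, part E (helper34): finite entropy toolbox V.
Tensorisation of entropy and variance for product laws; site entropies on the cube, approximate
tensorisation and its consequences, comparison of measures.
-/

set_option autoImplicit false
set_option linter.unusedSectionVars false

namespace Crest.Agent.T157.Ent

open Finset Matrix Chain22 Function

/-! ### Product laws -/

section prod
variable {ι α : Type*} [Fintype ι] [DecidableEq ι] [Fintype α] {p : ι → α → ℝ}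

/-- product law -/
def ppi (p : ι → α → ℝ) (x : ι → α) : ℝ := ∏ i, p i (x i)

theorem isP_ppi (hp : ∀ i, IsP (p i)) : IsP (ppi p) where
  nn x := prod_nonneg fun i _ => (hp i).nn _
  sum1 := by
    have := prod_univ_sum (fun _ : ι => (univ : Finset α)) p
    simp only [Fintype.piFinset_univ, (hp _).sum1, prod_const_one] at this
    exact this.symm

theorem prod_update_mul (p : ι → α → ℝ) (x : ι → α) (i : ι) (a : α) :
    ppi p (update x i a) * p i (x i) = ppi p x * p i a := by
  unfold ppi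
  rw [← mul_prod_erase univ _ (mem_univ i), ← mul_prod_erase univ (fun j => p j (x j)) (mem_univ i),
    update_self, prod_congr rfl fun j hj => by rw [update_of_ne (ne_of_mem_erase hj)]]
  ring

/-- resampling one coordinate -/
theorem mean_ppi_update (hp : ∀ i, IsP (p i)) (i : ι) (F : (ι → α) → ℝ) :
    mean (ppi p) (fun x => mean (p i) fun a => F (update x i a)) = mean (ppi p) F := by
  have inv : Involutive fun z : (ι → α) × α => (update z.1 i z.2, z.1 i) := fun z => by simp
  calc mean (ppi p) (fun x => mean (p i) fun a => F (update x i a))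
      = ∑ z : (ι → α) × α, ppi p (update z.1 i z.2) * p i (z.1 i) * F (update z.1 i z.2) := by
        rw [Fintype.sum_prod_type]
        refine sum_congr rfl fun x _ => ?_
        simp only [mean, mul_sum]
        exact sum_congr rfl fun a _ => by rw [prod_update_mul, mul_assoc]
    _ = ∑ z : (ι → α) × α, ppi p z.1 * p i z.2 * F z.1 :=
        Equiv.sum_comp inv.toPerm fun z => ppi p z.1 * p i z.2 * F z.1
    _ = mean (ppi p) F := by
        rw [Fintype.sum_prod_type]
        refine sum_congr rfl fun x _ => ?_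
        simp only [← sum_mul, ← mul_sum, (hp i).sum1, mul_one]

theorem mean_comm {A B : Type*} [Fintype A] [Fintype B] (μ : A → ℝ) (ν : B → ℝ) (F : A → B → ℝ) :
    mean μ (fun a => mean ν fun b => F a b) = mean ν fun b => mean μ fun a => F a b := by
  simp only [mean, mul_sum]
  rw [sum_comm]
  exact sum_congr rfl fun _ _ => sum_congr rfl fun _ _ => by ring

/-- average over the coordinates in `s` -/
def avg (p : ι → α → ℝ) (s : Finset ι) (f : (ι → α) → ℝ) (x : ι → α) : ℝ :=
  mean (ppi p) fun y => f (s.piecewise y x)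

theorem piecewise_update {s : Finset ι} {i : ι} (hi : i ∉ s) (x y : ι → α) (a : α) :
    s.piecewise y (update x i a) = update (s.piecewise y x) i a := by
  funext j
  by_cases hj : j = i
  · subst hj; simp [hi]
  · by_cases hs : j ∈ s <;> simp [hs, hj]

theorem avg_insert (hp : ∀ i, IsP (p i)) {s : Finset ι} {i : ι} (hi : i ∉ s) (f : (ι → α) → ℝ)
    (x : ι → α) : avg p (insert i s) f x = mean (p i) fun a => avg p s f (update x i a) := by
  unfold avg
  rw [← mean_ppi_update hp i, mean_comm]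
  refine mean_congr fun a => mean_congr fun y => ?_
  congr 1
  funext j
  by_cases hj : j = i
  · subst hj; simp [hi]
  · by_cases hs : j ∈ s <;> simp [hs, hj]

theorem mean_avg (hp : ∀ i, IsP (p i)) (s : Finset ι) (f : (ι → α) → ℝ) :
    mean (ppi p) (avg p s f) = mean (ppi p) f := by
  induction s using Finset.induction_on with
  | empty => exact mean_congr fun x => by simp [avg, (isP_ppi hp).mean_const]
  | insert i s hi ih =>
    rw [← ih, ← mean_ppi_update hp i (avg p s f)]
    exact mean_congr fun x => avg_insert hp hi f x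

theorem ent_avg_le (hp : ∀ i, IsP (p i)) {f : (ι → α) → ℝ} (hf : ∀ x, 0 ≤ f x) (s : Finset ι) :
    mean (ppi p) (fun x => f x * Real.log (f x)) -
      mean (ppi p) (fun x => avg p s f x * Real.log (avg p s f x)) ≤
      ∑ i ∈ s, mean (ppi p) fun x => ent (p i) fun a => f (update x i a) := by
  induction s using Finset.induction_on with
  | empty => simp [avg, (isP_ppi hp).mean_const]
  | insert i s hi ih =>
    rw [sum_insert hi]
    have e1 : mean (ppi p) (fun x => avg p s f x * Real.log (avg p s f x)) -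
        mean (ppi p) (fun x => avg p (insert i s) f x * Real.log (avg p (insert i s) f x)) =
        mean (ppi p) fun x => ent (p i) fun a => avg p s f (update x i a) := by
      rw [← mean_ppi_update hp i fun x => avg p s f x * Real.log (avg p s f x), ← mean_sub']
      exact mean_congr fun x => by rw [avg_insert hp hi, ent_eq]
    have e2 : (mean (ppi p) fun x => ent (p i) fun a => avg p s f (update x i a)) ≤
        mean (ppi p) fun x => ent (p i) fun a => f (update x i a) := by
      rw [← mean_avg hp s fun x => ent (p i) fun a => f (update x i a)]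
      refine (isP_ppi hp).mean_mono fun x => ?_
      refine (ent_mix_le (hp i) (isP_ppi hp).nn
        (F := fun y a => f (s.piecewise y (update x i a))) fun _ _ => hf _).trans (le_of_eq ?_)
      simp only [piecewise_update hi, avg]
    linarith

/-- **Tensorisation of the entropy.** -/
theorem ent_ppi_le (hp : ∀ i, IsP (p i)) {f : (ι → α) → ℝ} (hf : ∀ x, 0 ≤ f x) :
    ent (ppi p) f ≤ ∑ i, mean (ppi p) fun x => ent (p i) fun a => f (update x i a) := by
  have := ent_avg_le hp hf univ
  simp only [avg, piecewise_univ, (isP_ppi hp).mean_const] at this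
  exact this

/-- **Efron–Stein.** -/
theorem var_ppi_le (hp : ∀ i, IsP (p i)) (g : (ι → α) → ℝ) :
    var (ppi p) g ≤ ∑ i, mean (ppi p) fun x => var (p i) fun a => g (update x i a) := by
  obtain ⟨M, hM⟩ := exists_abs_le g
  refine var_le_of_ent_le (isP_ppi hp) g hM fun ε hε hεM => ?_
  have b : ∀ x, 1 - ε * M ≤ 1 + ε * g x := fun x => by nlinarith [(abs_le.1 (hM x)).1]
  refine (mul_le_mul_of_nonneg_left (ent_ppi_le hp fun x => by linarith [b x])
    (by linarith)).trans ?_
  rw [mul_sum, mul_sum]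
  refine sum_le_sum fun i _ => ?_
  rw [← mean_const_mul, ← mean_const_mul]
  refine (isP_ppi hp).mean_mono fun x => ?_
  rw [← var_lin (hp i)]
  exact ent_le_var_of_ge (hp i) (by linarith) fun a => b _

end prod

/-! ### The cube -/

open Crest.Agent.T157.E (Cube prob siteM dir dir2 gen hb sv tilt ising)
open Crest.ProbabilityR.SpinGlassDynamics (spin)

variable {n : ℕ} {w w' : Cube n → ℝ}

/-- conditional law of the spin `i` -/
noncomputable def cnd (w : Cube n → ℝ) (i : Fin n) (x : Cube n) (b : Bool) : ℝ :=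
  w (update x i b) / (w (update x i true) + w (update x i false))

theorem cnd_pos (hw : ∀ x, 0 < w x) (i : Fin n) (x : Cube n) (b : Bool) : 0 < cnd w i x b :=
  div_pos (hw _) (den_pos hw i x)

theorem isP_cnd (hw : ∀ x, 0 < w x) (i : Fin n) (x : Cube n) : IsP (cnd w i x) where
  nn b := (cnd_pos hw i x b).le
  sum1 := by
    rw [Fintype.sum_bool, cnd, cnd, ← add_div, div_self (den_pos hw i x).ne']

theorem cnd_update (w : Cube n → ℝ) (i : Fin n) (x : Cube n) (b : Bool) :
    cnd w i (update x i b) = cnd w i x := by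
  funext a; simp only [cnd, update_idem]

theorem mean_cnd (w F : Cube n → ℝ) (i : Fin n) (x : Cube n) :
    mean (cnd w i x) (fun b => F (update x i b)) = siteM w F i x := by
  rw [mean, Fintype.sum_bool, cnd, cnd, siteM]; ring

/-- tower property -/
theorem mean_mean_cnd (hw : ∀ x, 0 < w x) (i : Fin n) (G : Cube n → Cube n → ℝ)
    (hG : ∀ x b y, G (update x i b) y = G x y) :
    mean (prob w) (fun x => mean (cnd w i x) fun b => G x (update x i b)) =
      mean (prob w) fun x => G x x := by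
  rw [← mean_siteM hw i fun x => G x x]
  refine mean_congr fun x => ?_
  rw [← mean_cnd]
  exact mean_congr fun b => (hG x b _).symm

/-- site entropy -/
noncomputable def entS (w f : Cube n → ℝ) (i : Fin n) : ℝ :=
  mean (prob w) fun x => ent (cnd w i x) fun b => f (update x i b)

/-- site Dirichlet form -/
noncomputable def dirS (w f : Cube n → ℝ) (i : Fin n) : ℝ :=
  mean (prob w) fun x => (f x - siteM w f i x) ^ 2

theorem dir_eq_sum (w f : Cube n → ℝ) : dir w f = ∑ i, dirS w f i := rfl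

theorem dirS_nonneg (hw : ∀ x, 0 < w x) (f : Cube n → ℝ) (i : Fin n) : 0 ≤ dirS w f i :=
  (isP_prob' hw).mean_nonneg fun _ => sq_nonneg _

theorem dir_nonneg (hw : ∀ x, 0 < w x) (f : Cube n → ℝ) : 0 ≤ dir w f :=
  sum_nonneg fun i _ => dirS_nonneg hw f i

theorem entS_nonneg (hw : ∀ x, 0 < w x) {f : Cube n → ℝ} (hf : ∀ x, 0 ≤ f x) (i : Fin n) :
    0 ≤ entS w f i :=
  (isP_prob' hw).mean_nonneg fun x => (isP_cnd hw i x).ent_nonneg fun _ => hf _

/-- weighted site variance -/
theorem mean_mul_var_cnd (hw : ∀ x, 0 < w x) (f : Cube n → ℝ) (i : Fin n) {u : Cube n → ℝ}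
    (hu : ∀ x b, u (update x i b) = u x) :
    mean (prob w) (fun x => u x * var (cnd w i x) fun b => f (update x i b)) =
      mean (prob w) fun x => u x * (f x - siteM w f i x) ^ 2 := by
  rw [← mean_mean_cnd hw i (fun x y => u x * (f y - siteM w f i x) ^ 2)
    fun x b y => by rw [hu, siteM_update]]
  exact mean_congr fun x => by rw [mean_const_mul, ← mean_cnd]; rfl

theorem dirS_eq (hw : ∀ x, 0 < w x) (f : Cube n → ℝ) (i : Fin n) :
    dirS w f i = mean (prob w) fun x => var (cnd w i x) fun b => f (update x i b) := by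
  have := mean_mul_var_cnd hw f i (u := fun _ => 1) fun _ _ => rfl
  simp only [one_mul] at this
  exact this.symm

theorem entS_eq (hw : ∀ x, 0 < w x) (f : Cube n → ℝ) (i : Fin n) :
    entS w f i = mean (prob w) (fun x => f x * Real.log (f x)) -
      mean (prob w) fun x => siteM w f i x * Real.log (siteM w f i x) := by
  rw [← mean_siteM hw i fun x => f x * Real.log (f x), ← mean_sub']
  exact mean_congr fun x => by
    rw [ent_eq, mean_cnd w f, mean_cnd w fun x => f x * Real.log (f x)]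

theorem entS_eq_brg (hw : ∀ x, 0 < w x) (f : Cube n → ℝ) (i : Fin n) :
    entS w f i = mean (prob w) fun x => brg (f x) (siteM w f i x) := by
  rw [← mean_mean_cnd hw i (fun x y => brg (f y) (siteM w f i x))
    fun x b y => by rw [siteM_update]]
  exact mean_congr fun x => by rw [ent_eq_brg (isP_cnd hw i x), mean_cnd]

theorem entS_le_ent (hw : ∀ x, 0 < w x) {f : Cube n → ℝ} (hf : ∀ x, 0 ≤ f x) (i : Fin n) :
    entS w f i ≤ E.ent w f := by
  have h0 : ∀ x, 0 ≤ siteM w f i x := fun x => by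
    rw [← mean_cnd]; exact (isP_cnd hw i x).mean_nonneg fun _ => hf _
  have := (isP_prob' hw).ent_nonneg h0
  rw [ent_eq, mean_siteM hw] at this
  rw [entS_eq hw, eent_eq, ent_eq]
  linarith

/-- variational bound for the site Dirichlet form -/
theorem dirS_le_sq (hw : ∀ x, 0 < w x) (f : Cube n → ℝ) (i : Fin n) {g : Cube n → ℝ}
    (hg : ∀ x b, g (update x i b) = g x) :
    dirS w f i ≤ mean (prob w) fun x => (f x - g x) ^ 2 := by
  rw [dirS_eq hw, ← mean_mean_cnd hw i (fun x y => (f y - g x) ^ 2) fun x b y => by rw [hg]]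
  exact (isP_prob' hw).mean_mono fun x => (isP_cnd hw i x).var_le_sq _ _

/-- variational bound for the site entropy -/
theorem entS_le_brg (hw : ∀ x, 0 < w x) {f : Cube n → ℝ} (hf : ∀ x, 0 ≤ f x) (i : Fin n)
    {g : Cube n → ℝ} (hg : ∀ x b, g (update x i b) = g x) (h0 : ∀ x, 0 < g x ∨ f x = 0 ∧ g x = 0) :
    entS w f i ≤ mean (prob w) fun x => brg (f x) (g x) := by
  rw [← mean_mean_cnd hw i (fun x y => brg (f y) (g x)) fun x b y => by rw [hg]]
  refine (isP_prob' hw).mean_mono fun x => ?_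
  rcases h0 x with h | ⟨-, h⟩
  · exact ent_le_brg (isP_cnd hw i x) (fun _ => hf _) h
  · have hz : ∀ b, f (update x i b) = 0 := fun b => by
      rcases h0 (update x i b) with h' | ⟨h', -⟩
      · rw [hg, h] at h'; exact absurd h' (lt_irrefl _)
      · exact h'
    simp [hz, h, brg, ent, mean]

theorem siteM_pos_or (hw : ∀ x, 0 < w x) {f : Cube n → ℝ} (hf : ∀ x, 0 ≤ f x) (i : Fin n)
    (x : Cube n) : 0 < siteM w f i x ∨ f x = 0 ∧ siteM w f i x = 0 := by
  rw [← mean_cnd]
  rcases eq_or_lt_of_le ((isP_cnd hw i x).mean_nonneg fun b => hf (update x i b)) with h | h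
  · have := (isP_cnd hw i x).eq_zero_of_mean (fun b => hf (update x i b)) h.symm (x i)
    rw [update_eq_self] at this
    exact Or.inr ⟨(mul_eq_zero.1 this).resolve_left (cnd_pos hw i x _).ne', h.symm⟩
  · exact Or.inl h

theorem brg_siteM_nonneg (hw : ∀ x, 0 < w x) {f : Cube n → ℝ} (hf : ∀ x, 0 ≤ f x) (i : Fin n)
    (x : Cube n) : 0 ≤ brg (f x) (siteM w f i x) := by
  rcases siteM_pos_or hw hf i x with h | ⟨h, h'⟩
  · exact brg_nonneg (hf x) h
  · simp [h, h', brg]

/-- the site entropy of `w'` against the conditional means of `w` (concavity in the measure) -/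
theorem entS_le_siteM (hw : ∀ x, 0 < w x) (hw' : ∀ x, 0 < w' x) {f : Cube n → ℝ}
    (hf : ∀ x, 0 ≤ f x) (i : Fin n) :
    entS w' f i ≤ mean (prob w') fun x => brg (f x) (siteM w f i x) :=
  entS_le_brg hw' hf i (siteM_update w f i) (siteM_pos_or hw hf i)

theorem dirS_le_siteM (hw' : ∀ x, 0 < w' x) (w f : Cube n → ℝ) (i : Fin n) :
    dirS w' f i ≤ mean (prob w') fun x => (f x - siteM w f i x) ^ 2 :=
  dirS_le_sq hw' f i (siteM_update w f i)

theorem mean_le_of_le {Ω : Type*} [Fintype Ω] {π π' : Ω → ℝ} {A : ℝ} (hA : ∀ x, π' x ≤ A * π x)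
    {f : Ω → ℝ} (hf : ∀ x, 0 ≤ f x) : mean π' f ≤ A * mean π f := by
  rw [mean, mean, mul_sum]
  exact sum_le_sum fun x _ => by
    rw [← mul_assoc]; exact mul_le_mul_of_nonneg_right (hA x) (hf x)

/-- Holley–Stroock for site entropies -/
theorem entS_le_of_le (hw : ∀ x, 0 < w x) (hw' : ∀ x, 0 < w' x) {A : ℝ}
    (hA : ∀ x, prob w' x ≤ A * prob w x) {f : Cube n → ℝ} (hf : ∀ x, 0 ≤ f x) (i : Fin n) :
    entS w' f i ≤ A * entS w f i := by
  rw [entS_eq_brg hw]
  exact (entS_le_siteM hw hw' hf i).trans (mean_le_of_le hA (brg_siteM_nonneg hw hf i))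

theorem dirS_le_of_le (hw' : ∀ x, 0 < w' x) {A : ℝ} (hA : ∀ x, prob w' x ≤ A * prob w x)
    (f : Cube n → ℝ) (i : Fin n) : dirS w' f i ≤ A * dirS w f i :=
  (dirS_le_siteM hw' w f i).trans (mean_le_of_le hA fun _ => sq_nonneg _)

/-- Holley–Stroock for the Dirichlet form -/
theorem dir_le_of_le (hw' : ∀ x, 0 < w' x) {A : ℝ} (hA : ∀ x, prob w' x ≤ A * prob w x)
    (f : Cube n → ℝ) : dir w' f ≤ A * dir w f := by
  rw [dir_eq_sum, dir_eq_sum, mul_sum]
  exact sum_le_sum fun i _ => dirS_le_of_le hw' hA f i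

theorem entS_le_cov (hw : ∀ x, 0 < w x) {f : Cube n → ℝ} (hf : ∀ x, 0 < f x) (i : Fin n) :
    entS w f i ≤ (siteRC hw i).D f fun x => Real.log (f x) := by
  have e : (siteRC hw i).D f (fun x => Real.log (f x)) =
      mean (prob w) (fun x => siteM w (fun x => f x * Real.log (f x)) i x -
        siteM w f i x * siteM w (fun x => Real.log (f x)) i x) := by
    rw [mean_sub', mean_siteM hw, ← ip_eq_mean, ← ip_eq_mean, ip_siteM_siteM hw, RC.D, ip_sub_right]
    congr 2
    exact sk_mulVec w i _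
  rw [e]
  refine (isP_prob' hw).mean_mono fun x => ?_
  rw [← mean_cnd, ← mean_cnd, ← mean_cnd]
  exact ent_le_cov (isP_cnd hw i x) fun _ => hf _

theorem entS_le_dirS_of_ge (hw : ∀ x, 0 < w x) {f : Cube n → ℝ} {m : ℝ} (hm : 0 < m)
    (hf : ∀ x, m ≤ f x) (i : Fin n) : 2 * m * entS w f i ≤ dirS w f i := by
  rw [dirS_eq hw, entS, ← mean_const_mul]
  exact (isP_prob' hw).mean_mono fun x => ent_le_var_of_ge (isP_cnd hw i x) hm fun _ => hf _

theorem dirS_lin (hw : ∀ x, 0 < w x) (g : Cube n → ℝ) (ε : ℝ) (i : Fin n) :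
    dirS w (fun x => 1 + ε * g x) i = ε ^ 2 * dirS w g i := by
  rw [dirS_eq hw, dirS_eq hw, ← mean_const_mul]
  exact mean_congr fun x => var_lin (isP_cnd hw i x) _ _

/-! ### Local fields and the local log-Sobolev inequality -/

/-- twice the absolute value of the local field -/
noncomputable def lf (w : Cube n → ℝ) (i : Fin n) (x : Cube n) : ℝ :=
  |Real.log (w (update x i true)) - Real.log (w (update x i false))|

theorem lf_nonneg (w : Cube n → ℝ) (i : Fin n) (x : Cube n) : 0 ≤ lf w i x := abs_nonneg _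

theorem lf_update (w : Cube n → ℝ) (i : Fin n) (x : Cube n) (b : Bool) :
    lf w i (update x i b) = lf w i x := by simp only [lf, update_idem]

theorem exp_le_cnd (hw : ∀ x, 0 < w x) (i : Fin n) (x : Cube n) (b : Bool) :
    Real.exp (-(1 + lf w i x)) ≤ cnd w i x b := by
  have key : ∀ u v L : ℝ, 0 < u → 0 < v → Real.log v - Real.log u ≤ L → 0 ≤ L →
      Real.exp (-(1 + L)) ≤ u / (u + v) := by
    intro u v L hu hv h hL
    have h1 : v ≤ Real.exp L * u := by
      rw [← Real.exp_log hv, ← Real.exp_log hu, ← Real.exp_add]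
      exact Real.exp_le_exp.2 (by linarith)
    have h2 : 1 ≤ Real.exp L := Real.one_le_exp hL
    have h3 : (2 : ℝ) ≤ Real.exp 1 := by linarith [Real.add_one_le_exp (1 : ℝ)]
    rw [Real.exp_neg, inv_eq_one_div, div_le_div_iff₀ (Real.exp_pos _) (by positivity),
      Real.exp_add]
    nlinarith [mul_le_mul_of_nonneg_right h3 (by positivity : 0 ≤ Real.exp L * u)]
  cases b
  · rw [cnd, add_comm (w _)]
    exact key _ _ _ (hw _) (hw _) (le_abs_self _) (abs_nonneg _)
  · exact key _ _ _ (hw _) (hw _) (by rw [lf, abs_sub_comm]; exact le_abs_self _) (abs_nonneg _)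

theorem ent_cnd_sq_le (hw : ∀ x, 0 < w x) (i : Fin n) (x : Cube n) (f : Bool → ℝ) :
    ent (cnd w i x) (fun b => f b ^ 2) ≤ (3 + lf w i x) * var (cnd w i x) f := by
  have := ent_sq_le_var (isP_cnd hw i x) (Real.exp_pos _) (fun b _ => exp_le_cnd hw i x b) f
  rw [one_div, Real.log_inv, Real.log_exp] at this
  convert this using 2; ring

theorem ent_cnd_le (hw : ∀ x, 0 < w x) (i : Fin n) (x : Cube n) {f : Bool → ℝ} (hf : ∀ b, 0 ≤ f b) :
    ent (cnd w i x) f ≤ (1 + lf w i x) * mean (cnd w i x) f := by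
  have := ent_le_of_min (isP_cnd hw i x) hf (Real.exp_pos _) fun b _ => exp_le_cnd hw i x b
  rwa [one_div, Real.log_inv, Real.log_exp, neg_neg] at this

/-- local log-Sobolev inequality -/
theorem entS_sq_le (hw : ∀ x, 0 < w x) (f : Cube n → ℝ) (i : Fin n) :
    entS w (fun x => f x ^ 2) i ≤
      mean (prob w) fun x => (3 + lf w i x) * (f x - siteM w f i x) ^ 2 := by
  rw [← mean_mul_var_cnd hw f i (u := fun x => 3 + lf w i x) fun x b => by rw [lf_update]]
  exact (isP_prob' hw).mean_mono fun x => ent_cnd_sq_le hw i x _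

/-- local log-Sobolev inequality with a cut-off on the local field -/
theorem entS_sq_le_cut (hw : ∀ x, 0 < w x) (f : Cube n → ℝ) (i : Fin n) {L : ℝ} (hL : 0 ≤ L) :
    entS w (fun x => f x ^ 2) i ≤ (3 + L) * dirS w f i +
      mean (prob w) fun x => f x ^ 2 * ((1 + lf w i x) * ind (fun y => L < lf w i y) x) := by
  rw [dirS_eq hw, ← mean_mean_cnd hw i
    (fun x y => f y ^ 2 * ((1 + lf w i x) * ind (fun y => L < lf w i y) x))
    (fun x b y => by simp only [ind, lf_update]), ← mean_const_mul, ← mean_add']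
  refine (isP_prob' hw).mean_mono fun x => ?_
  have v0 := (isP_cnd hw i x).var_nonneg fun b => f (update x i b)
  rw [mean_mul_const]
  by_cases h : L < lf w i x
  · rw [ind_pos (p := fun y => L < lf w i y) h, mul_one]
    have := ent_cnd_le hw i x (f := fun b => f (update x i b) ^ 2) fun _ => sq_nonneg _
    nlinarith
  · rw [ind_neg (p := fun y => L < lf w i y) h, mul_zero, mul_zero, add_zero]
    exact (ent_cnd_sq_le hw i x _).trans (mul_le_mul_of_nonneg_right (by linarith) v0)

/-- the cost of the sites with a large local field -/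
noncomputable def big (w : Cube n → ℝ) (L : ℝ) (x : Cube n) : ℝ :=
  ∑ i, (1 + lf w i x) * ind (fun y => L < lf w i y) x

theorem big_nonneg (w : Cube n → ℝ) (L : ℝ) (x : Cube n) : 0 ≤ big w L x :=
  sum_nonneg fun i _ => mul_nonneg (by linarith [lf_nonneg w i x]) (ind_nonneg _ _)

theorem big_eq_zero {L : ℝ} {x : Cube n} (h : ∀ i, lf w i x ≤ L) : big w L x = 0 :=
  sum_eq_zero fun i _ => by rw [ind_neg (p := fun y => L < lf w i y) (not_lt.2 (h i)), mul_zero]

theorem big_le_sq {L : ℝ} (hL : 1 ≤ L) (x : Cube n) : big w L x ≤ 2 / L * ∑ i, lf w i x ^ 2 := by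
  rw [big, mul_sum]
  refine sum_le_sum fun i _ => ?_
  by_cases h : L < lf w i x
  · rw [ind_pos (p := fun y => L < lf w i y) h, mul_one, div_mul_eq_mul_div,
      le_div_iff₀ (by linarith)]
    nlinarith
  · rw [ind_neg (p := fun y => L < lf w i y) h, mul_zero]; positivity

theorem sum_entS_sq_le (hw : ∀ x, 0 < w x) (f : Cube n → ℝ) {L : ℝ} (hL : 0 ≤ L) :
    ∑ i, entS w (fun x => f x ^ 2) i ≤
      (3 + L) * dir w f + mean (prob w) fun x => f x ^ 2 * big w L x := by
  refine (sum_le_sum fun i _ => entS_sq_le_cut hw f i hL).trans (le_of_eq ?_)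
  rw [sum_add_distrib, ← mul_sum, ← mean_sum', dir_eq_sum]
  simp only [big, mul_sum]

theorem lf_mul_exp (hw : ∀ x, 0 < w x) (U : Cube n → ℝ) (i : Fin n) (x : Cube n) :
    lf (fun x => w x * Real.exp (U x)) i x ≤
      lf w i x + |U (update x i true) - U (update x i false)| := by
  simp only [lf, Real.log_mul (hw _).ne' (Real.exp_pos _).ne', Real.log_exp]
  refine le_trans (le_of_eq ?_) (abs_add_le _ _)
  congr 1; ring

theorem sv_update (x : Cube n) (i : Fin n) (b : Bool) :
    sv (update x i b) = sv x + (spin b - sv x i) • Pi.single i 1 := by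
  funext j
  by_cases hj : j = i
  · subst hj; simp [sv]
  · simp [sv, hj]

theorem lf_tilt (hw : ∀ x, 0 < w x) (y : Fin n → ℝ) (i : Fin n) (x : Cube n) :
    lf (tilt w y) i x ≤ lf w i x + 2 * |y i| := by
  refine (lf_mul_exp hw (fun x => y ⬝ᵥ sv x) i x).trans (le_of_eq ?_)
  congr 1
  rw [← abs_two, ← abs_mul]
  congr 1
  simp only [sv_update, dotProduct_add, dotProduct_smul, dotProduct_single, smul_eq_mul, spin]
  simp; ring

theorem lf_ising {A : Matrix (Fin n) (Fin n) ℝ} (hA : Aᵀ = A) (h : Fin n → ℝ) (i : Fin n)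
    (x : Cube n) : lf (ising A h) i x = 2 * |h i + ((A *ᵥ sv x) i - A i i * sv x i)| := by
  have e : sv x ⬝ᵥ A.col i = (A *ᵥ sv x) i := by
    rw [← mulVec_single_one, dotProduct_mulVec, ← mulVec_transpose, hA, dotProduct_single, mul_one]
  rw [← abs_two, ← abs_mul, lf]
  congr 1
  simp only [ising, Real.log_exp, sv_update, mulVec_add, mulVec_smul, dotProduct_add,
    add_dotProduct, dotProduct_smul, smul_dotProduct, smul_eq_mul, single_dotProduct,
    dotProduct_single, spin, mulVec_single_one, e, col_apply]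
  simp; ring

/-! ### Approximate tensorisation -/

/-- approximate tensorisation of the entropy with constant `K` and defect `B` -/
def AT (w : Cube n → ℝ) (K B : ℝ) : Prop :=
  ∀ f : Cube n → ℝ, (∀ x, 0 ≤ f x) → E.ent w f ≤ K * ∑ i, entS w f i + B * E.mean w f

theorem AT.mono {K B K' B' : ℝ} (h : AT w K B) (hw : ∀ x, 0 < w x) (hK : K ≤ K') (hB : B ≤ B') :
    AT w K' B' := fun f hf =>
  (h f hf).trans (add_le_add
    (mul_le_mul_of_nonneg_right hK (sum_nonneg fun i _ => entS_nonneg hw hf i))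
    (mul_le_mul_of_nonneg_right hB ((isP_prob' hw).mean_nonneg hf)))

theorem sum_entS_le_dir2 (hw : ∀ x, 0 < w x) {f : Cube n → ℝ} (hf : ∀ x, 0 < f x) :
    ∑ i, entS w f i ≤ dir2 w f fun x => Real.log (f x) := by
  rw [dir2_eq_sum hw]; exact sum_le_sum fun i _ => entS_le_cov hw hf i

theorem AT.mlsi {K B : ℝ} (h : AT w K B) (hw : ∀ x, 0 < w x) (hK : 0 ≤ K) {f : Cube n → ℝ}
    (hf : ∀ x, 0 < f x) : E.ent w f ≤ K * dir2 w f (fun x => Real.log (f x)) + B * E.mean w f :=
  (h f fun x => (hf x).le).trans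
    (add_le_add (mul_le_mul_of_nonneg_left (sum_entS_le_dir2 hw hf) hK) le_rfl)

theorem mlsi_iff (hn : 0 < n) (hw : ∀ x, 0 < w x) (K B : ℝ) :
    MLSI (hbRC hn hw) (K * n) B ↔ ∀ f : Cube n → ℝ, (∀ x, 0 < f x) →
      E.ent w f ≤ K * dir2 w f (fun x => Real.log (f x)) + B * E.mean w f := by
  simp only [MLSI, dir2_eq_D hn hw, mul_assoc]; rfl

theorem lsi_iff' (hn : 0 < n) (hw : ∀ x, 0 < w x) (K B : ℝ) :
    LSI (hbRC hn hw) (K * n) B ↔ ∀ f : Cube n → ℝ,
      E.ent w (fun x => f x ^ 2) ≤ K * dir w f + B * E.mean w fun x => f x ^ 2 := by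
  simp only [LSI, dir_eq_D hn hw, mul_assoc]; rfl

theorem lev_iff (hn : 0 < n) (hw : ∀ x, 0 < w x) (a b K B : ℝ) :
    Lev (hbRC hn hw) a b (K * n) B ↔ ∀ g : Cube n → ℝ, (∀ x, 0 ≤ g x) →
      (∀ x, a * g x ^ 2 ≤ E.mean w fun x => g x ^ 2) → E.mean w (ind fun x => 0 < g x) ≤ b →
      E.ent w (fun x => g x ^ 2) ≤ K * dir w g + B * E.mean w fun x => g x ^ 2 := by
  simp only [Lev, dir_eq_D hn hw, mul_assoc]; rfl

theorem AT.poinc {K : ℝ} (h : AT w K 0) (hw : ∀ x, 0 < w x) (hK : 0 ≤ K) (g : Cube n → ℝ) :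
    E.var w g ≤ K * dir w g := by
  obtain ⟨M, hM⟩ := exists_abs_le g
  refine var_le_of_ent_le (isP_prob' hw) g hM fun ε hε hεM => ?_
  have b : ∀ x, 1 - ε * M ≤ 1 + ε * g x := fun x => by nlinarith [(abs_le.1 (hM x)).1]
  have h1 := h (fun x => 1 + ε * g x) fun x => by linarith [b x]
  have h2 : 2 * (1 - ε * M) * ∑ i, entS w (fun x => 1 + ε * g x) i ≤ ε ^ 2 * dir w g := by
    rw [dir_eq_sum, mul_sum, mul_sum]
    refine sum_le_sum fun i _ => ?_
    rw [← dirS_lin hw]
    exact entS_le_dirS_of_ge hw (by linarith) b i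
  rw [zero_mul, add_zero, eent_eq] at h1
  nlinarith [mul_le_mul_of_nonneg_left h1 (by linarith : 0 ≤ 2 * (1 - ε * M)),
    mul_le_mul_of_nonneg_left h2 hK]

theorem AT.lsi_cut {K B : ℝ} (h : AT w K B) (hw : ∀ x, 0 < w x) (hK : 0 ≤ K) {L : ℝ} (hL : 0 ≤ L)
    (f : Cube n → ℝ) : E.ent w (fun x => f x ^ 2) ≤ K * (3 + L) * dir w f +
      K * E.mean w (fun x => f x ^ 2 * big w L x) + B * E.mean w fun x => f x ^ 2 := by
  have h1 := h (fun x => f x ^ 2) fun _ => sq_nonneg _
  have h2 := mul_le_mul_of_nonneg_left (sum_entS_sq_le hw f hL) hK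
  rw [emean_eq w fun x => f x ^ 2 * big w L x]
  linarith

/-- log-Sobolev with a defect from a uniform bound on the large fields -/
theorem AT.lsi_of_big {K B G : ℝ} (h : AT w K B) (hw : ∀ x, 0 < w x) (hK : 0 ≤ K) {L : ℝ}
    (hL : 0 ≤ L) (hG : ∀ x, big w L x ≤ G) (f : Cube n → ℝ) :
    E.ent w (fun x => f x ^ 2) ≤ K * (3 + L) * dir w f + (B + K * G) * E.mean w fun x => f x ^ 2 := by
  have h1 := h.lsi_cut hw hK hL f
  have h2 : E.mean w (fun x => f x ^ 2 * big w L x) ≤ E.mean w (fun x => f x ^ 2) * G := by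
    rw [emean_eq, emean_eq, ← mean_mul_const]
    exact (isP_prob' hw).mean_mono fun x => mul_le_mul_of_nonneg_left (hG x) (sq_nonneg _)
  nlinarith [mul_le_mul_of_nonneg_left h2 hK]

theorem AT.lsi {K B : ℝ} (h : AT w K B) (hw : ∀ x, 0 < w x) (hK : 0 ≤ K) {L : ℝ} (hL : 0 ≤ L)
    (hlf : ∀ i x, lf w i x ≤ L) (f : Cube n → ℝ) :
    E.ent w (fun x => f x ^ 2) ≤ K * (3 + L) * dir w f + B * E.mean w fun x => f x ^ 2 := by
  simpa using h.lsi_of_big hw hK hL (G := 0) (fun x => (big_eq_zero fun i => hlf i x).le) f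

/-- log-Sobolev with a defect from an exponential moment of the large fields -/
theorem AT.lsi_of_mgf {K B : ℝ} (h : AT w K B) (hw : ∀ x, 0 < w x) (hK : 0 < K) {L : ℝ}
    (hL : 0 ≤ L) (f : Cube n → ℝ) :
    E.ent w (fun x => f x ^ 2) ≤ 2 * K * (3 + L) * dir w f +
      (2 * B + Real.log (E.mean w fun x => Real.exp (2 * K * big w L x))) *
        E.mean w fun x => f x ^ 2 := by
  have h1 := h.lsi_cut hw hK.le hL f
  have h2 := mean_mul_le_theta (isP_prob' hw) (fun x => sq_nonneg (f x)) (big w L)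
    (θ := 2 * K) (by positivity)
  rw [le_div_iff₀ (by positivity)] at h2
  simp only [emean_eq, eent_eq] at h1 ⊢
  nlinarith

/-- Holley–Stroock for approximate tensorisation -/
theorem AT.of_le {K B A A' : ℝ} (h : AT w K B) (hw : ∀ x, 0 < w x) (hw' : ∀ x, 0 < w' x)
    (hK : 0 ≤ K) (hB : 0 ≤ B) (hA0 : 0 ≤ A) (hA : ∀ x, prob w' x ≤ A * prob w x)
    (hA' : ∀ x, prob w x ≤ A' * prob w' x) : AT w' (A * K * A') (A * B * A') := fun f hf => by
  have h1 := ent_le_of_le (isP_prob' hw) (isP_prob' hw') hA hf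
  have h2 := h f hf
  have h3 : ∑ i, entS w f i ≤ A' * ∑ i, entS w' f i := by
    rw [mul_sum]; exact sum_le_sum fun i _ => entS_le_of_le hw' hw hA' hf i
  have h4 := mean_le_of_le hA' hf
  simp only [emean_eq, eent_eq] at h2 ⊢
  nlinarith [mul_le_mul_of_nonneg_left h2 hA0, mul_le_mul_of_nonneg_left h3 (mul_nonneg hA0 hK),
    mul_le_mul_of_nonneg_left h4 (mul_nonneg hA0 hB)]

/-- bounded perturbations -/
theorem prob_mul_exp_le (hw : ∀ x, 0 < w x) {U : Cube n → ℝ} {δ : ℝ} (hU : ∀ x y, U x - U y ≤ δ)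
    (x : Cube n) : prob (fun x => w x * Real.exp (U x)) x ≤ Real.exp δ * prob w x := by
  have hZ := sum_w_pos hw
  have hZ' : 0 < ∑ y, w y * Real.exp (U y) := sum_w_pos fun y => mul_pos (hw y) (Real.exp_pos _)
  have h1 : Real.exp (U x) * ∑ y, w y ≤ Real.exp δ * ∑ y, w y * Real.exp (U y) := by
    rw [mul_sum, mul_sum]
    refine sum_le_sum fun y _ => ?_
    rw [mul_left_comm, ← Real.exp_add, mul_comm]
    exact mul_le_mul_of_nonneg_left (Real.exp_le_exp.2 (by linarith [hU x y])) (hw y).le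
  rw [prob, prob, ← mul_div_assoc, div_le_div_iff₀ hZ' hZ]
  nlinarith [mul_le_mul_of_nonneg_left h1 (hw x).le]

theorem prob_le_mul_exp (hw : ∀ x, 0 < w x) {U : Cube n → ℝ} {δ : ℝ} (hU : ∀ x y, U x - U y ≤ δ)
    (x : Cube n) : prob w x ≤ Real.exp δ * prob (fun x => w x * Real.exp (U x)) x := by
  have := prob_mul_exp_le (w := fun x => w x * Real.exp (U x))
    (fun y => mul_pos (hw y) (Real.exp_pos _)) (U := fun x => -U x) (δ := δ)
    (fun x y => by linarith [hU y x]) x
  simpa only [mul_assoc, ← Real.exp_add, add_neg_cancel, Real.exp_zero, mul_one] using this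

/-- product weights -/
def IsProd (w : Cube n → ℝ) : Prop :=
  ∃ q : Fin n → Bool → ℝ, (∀ i b, 0 < q i b) ∧ ∀ x, w x = ∏ i, q i (x i)

theorem IsProd.pos (h : IsProd w) (x : Cube n) : 0 < w x := by
  obtain ⟨q, hq, e⟩ := h
  rw [e]; exact prod_pos fun i _ => hq i _

theorem IsProd.exists_ppi (h : IsProd w) : ∃ p : Fin n → Bool → ℝ, (∀ i, IsP (p i)) ∧
    prob w = ppi p ∧ ∀ i x, cnd w i x = p i := by
  obtain ⟨q, hq, e⟩ := h
  have hs : ∀ i, 0 < q i true + q i false := fun i => add_pos (hq i _) (hq i _)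
  refine ⟨fun i b => q i b / (q i true + q i false), fun i => ⟨fun b => (div_pos (hq i b) (hs i)).le,
    by rw [Fintype.sum_bool, ← add_div, div_self (hs i).ne']⟩, ?_, fun i x => ?_⟩
  · funext x
    have := prod_univ_sum (fun _ : Fin n => (univ : Finset Bool)) q
    simp only [Fintype.piFinset_univ, Fintype.sum_bool] at this
    simp only [prob, ppi, e, ← this, prod_div_distrib]
  · funext b
    have k : ∀ a, w (update x i a) = ppi q x / q i (x i) * q i a := fun a => by
      rw [e, div_mul_eq_mul_div, eq_div_iff (hq i _).ne']; exact prod_update_mul q x i a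
    have h0 : 0 < ppi q x / q i (x i) := div_pos (prod_pos fun j _ => hq j _) (hq i _)
    rw [cnd, k, k, k, ← mul_add, mul_div_mul_left _ _ h0.ne']

/-- product laws tensorise exactly -/
theorem IsProd.at (h : IsProd w) : AT w 1 0 := fun f hf => by
  obtain ⟨p, hp, e1, e2⟩ := h.exists_ppi
  simp only [entS, e2, eent_eq, e1, one_mul, zero_mul, add_zero]
  exact ent_ppi_le hp hf

theorem IsProd.mul_const (h : IsProd w) (hn : 0 < n) {a : ℝ} (ha : 0 < a) :
    IsProd fun x => w x * a := by
  obtain ⟨q, hq, e⟩ := h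
  refine ⟨fun i b => q i b * a ^ (1 / n : ℝ), fun i b => mul_pos (hq i b) (by positivity),
    fun x => ?_⟩
  beta_reduce
  rw [prod_mul_distrib, e, prod_const, card_univ, Fintype.card_fin, ← Real.rpow_natCast,
    ← Real.rpow_mul ha.le, one_div_mul_cancel (by exact_mod_cast hn.ne'), Real.rpow_one]

theorem IsProd.tilt (h : IsProd w) (y : Fin n → ℝ) : IsProd (tilt w y) := by
  obtain ⟨q, hq, e⟩ := h
  refine ⟨fun i b => q i b * Real.exp (y i * spin b), fun i b => mul_pos (hq i b) (Real.exp_pos _),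
    fun x => ?_⟩
  rw [E.tilt, e, prod_mul_distrib, ← Real.exp_sum]; rfl

theorem isProd_one : IsProd (fun _ : Cube n => (1 : ℝ)) := ⟨fun _ _ => 1, fun _ _ => one_pos, by simp⟩

theorem isProd_ising (d h : Fin n → ℝ) : IsProd (ising (diagonal d) h) := by
  refine ⟨fun i b => Real.exp (d i / 2 + h i * spin b), fun _ _ => Real.exp_pos _, fun x => ?_⟩
  rw [ising, ← Real.exp_sum, sum_add_distrib]
  congr 2
  rw [dotProduct, mul_sum]
  refine sum_congr rfl fun i _ => ?_
  rw [mulVec_diagonal, mul_left_comm (sv x i), sv, E.spin_mul_self]; ring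

theorem IsProd.poinc (h : IsProd w) (g : Cube n → ℝ) : E.var w g ≤ dir w g := by
  simpa using h.at.poinc h.pos zero_le_one g

theorem IsProd.mlsi (h : IsProd w) {f : Cube n → ℝ} (hf : ∀ x, 0 < f x) :
    E.ent w f ≤ dir2 w f fun x => Real.log (f x) := by
  simpa using h.at.mlsi h.pos zero_le_one hf

theorem IsProd.lsi_cut (h : IsProd w) {L : ℝ} (hL : 0 ≤ L) (f : Cube n → ℝ) :
    E.ent w (fun x => f x ^ 2) ≤ (3 + L) * dir w f + E.mean w fun x => f x ^ 2 * big w L x := by
  simpa using h.at.lsi_cut h.pos zero_le_one hL f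

end Crest.Agent.T157.Ent
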