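import Crest.Agent.T157.PlD_37
import Crest.Agent.T157.ChainMix_22
import Crest.Agent.T157.EntE_34

/-!
# Row 157, part A (helper63): large local fields have a bounded exponential moment
-/

set_option autoImplicit false

noncomputable section

namespace Crest.Agent.T157.Q1

open MeasureTheory Filter Topology Set Real Matrix
open Crest.ProbabilityR.SpinGlassDynamics
open Crest.Agent.T157.SL Crest.Agent.T157.E Crest.Agent.T157.Pl

variable {n : ℕ}

/-- the majorant -/
def PP (q a : ℝ) (h : Fin n → ℝ) : ℝ := ∏ i, (1 + q * (exp (a * h i) + exp (-(a * h i))))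

theorem one_le_PP {q : ℝ} (hq : 0 ≤ q) (a : ℝ) (h : Fin n → ℝ) : 1 ≤ PP q a h :=
  Finset.one_le_prod fun _ _ => le_add_of_nonneg_right (by positivity)

theorem prod_exp (q : ℝ) (F : Fin n → ℝ → ℝ) (h0 : ∀ i, F i 0 = 0) :
    ∏ i, (1 + q * (exp (F i 1) + exp (F i (-1)))) = ∑ s : Fin n → Option Bool,
      (∏ i, (s i).elim 1 fun _ => q) * exp (∑ i, F i ((s i).elim 0 spin)) := by
  simp only [exp_sum, ← Finset.prod_mul_distrib]
  rw [← Fintype.piFinset_univ, ← Finset.prod_univ_sum (fun _ => Finset.univ) fun i (o : Option Bool) =>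
    (o.elim 1 fun _ => q) * exp (F i (o.elim 0 spin))]
  refine Finset.prod_congr rfl fun i _ => ?_
  simp [Fintype.sum_option, h0, spin, mul_add]

theorem int_PP {q a : ℝ} (hn : 0 < n) (hq : 0 ≤ q) (ha : 0 ≤ a) (x : Cube n) {d : Fin n → ℝ}
    (hd : ∀ i, |d i| ≤ 1) :
    Integrable (fun g => PP q a (Jmat n g *ᵥ sv x + d)) (disorderLaw n) ∧
      ∫ g, PP q a (Jmat n g *ᵥ sv x + d) ∂disorderLaw n ≤ exp (n * (2 * q * exp (a + a ^ 2))) := by
  have n0 : (0 : ℝ) < n := by exact_mod_cast hn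
  set e : (Fin n → Option Bool) → Fin n → ℝ := fun s i => (s i).elim 0 spin with he
  set v : (Fin n → Option Bool) → Pair n → ℝ := fun s p =>
    a * ((e s p.1.1 * sv x p.1.2 + e s p.1.2 * sv x p.1.1) / √n) with hv
  have e1 : ∀ g, PP q a (Jmat n g *ᵥ sv x + d) = ∑ s : Fin n → Option Bool,
      (∏ i, (s i).elim 1 fun _ => q) * exp (a * (e s ⬝ᵥ d)) * exp (g ⬝ᵥ v s) := fun g => by
    have := prod_exp q (fun i t => t * (a * (Jmat n g *ᵥ sv x + d) i)) fun _ => zero_mul _
    simp only [one_mul, neg_mul] at this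
    rw [PP, this]
    refine Finset.sum_congr rfl fun s _ => ?_
    rw [mul_assoc, ← exp_add]
    congr 2
    have : g ⬝ᵥ v s = a * (e s ⬝ᵥ Jmat n g *ᵥ sv x) := by
      rw [Nrm.bil_Jmat, Finset.mul_sum]
      exact Finset.sum_congr rfl fun p _ => by simp only [hv]; ring
    rw [this, ← mul_add, ← dotProduct_add, add_comm d, dotProduct, Finset.mul_sum]
    exact Finset.sum_congr rfl fun i _ => by simp only [he]; ring
  have i1 : ∀ s : Fin n → Option Bool, Integrable (fun g => (∏ i, (s i).elim 1 fun _ => q) *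
      exp (a * (e s ⬝ᵥ d)) * exp (g ⬝ᵥ v s)) (disorderLaw n) := fun s =>
    (integrable_exp_dot false (v s)).const_mul _
  simp only [e1]
  refine ⟨integrable_finsetSum _ fun s _ => i1 s, ?_⟩
  rw [integral_finsetSum _ fun s _ => i1 s]
  have e2 := prod_exp (n := n) q (fun _ t => (a + a ^ 2) * (t * t)) fun _ => by simp
  simp only [mul_one, mul_neg, neg_neg, Finset.prod_const, Finset.card_univ,
    Fintype.card_fin] at e2
  refine le_trans (Finset.sum_le_sum fun s _ => ?_) (e2.ge.trans ?_)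
  · rw [integral_const_mul, mul_assoc]
    refine mul_le_mul_of_nonneg_left ?_ (Finset.prod_nonneg fun i _ => by
      cases s i <;> simp [hq])
    rw [show ∫ g, exp (g ⬝ᵥ v s) ∂disorderLaw n = _ from integral_exp_dot false (v s), MM_false,
      ← exp_add, ← Finset.mul_sum]
    refine exp_le_exp.2 ?_
    have b1 : e s ⬝ᵥ d ≤ e s ⬝ᵥ e s := Finset.sum_le_sum fun i _ => by
      have := abs_le.1 (hd i)
      simp only [he]
      rcases s i with _ | _ | _ <;> simp [spin] <;> linarith
    have b2 : v s ⬝ᵥ v s ≤ 2 * a ^ 2 * (e s ⬝ᵥ e s) := by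
      have := Nrm.sum_pair_sq_le (e s) (sv x)
      rw [sv_dot_self] at this
      simp only [hv, dotProduct, ← sq, mul_pow, div_pow, sq_sqrt n0.le, ← Finset.mul_sum,
        ← Finset.sum_div] at this ⊢
      rw [mul_comm 2, mul_assoc]
      exact mul_le_mul_of_nonneg_left ((div_le_iff₀ n0).2 (by linarith)) (sq_nonneg a)
    change _ ≤ _ * (e s ⬝ᵥ e s)
    nlinarith [mul_le_mul_of_nonneg_left b1 ha]
  · rw [exp_nat_mul]
    exact pow_le_pow_left₀ (by positivity) (by linarith [add_one_le_exp (2 * q * exp (a + a ^ 2))]) n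

theorem exp_big_le {θ L : ℝ} (hθ : 0 ≤ θ) (hL : 2 ≤ L) (g : Pair n → ℝ) (x : Cube n) :
    exp (θ * Ent.big (gibbsWeight n 1 g) L x) ≤
      PP (exp (-(6 * θ * L / 4))) (6 * θ) (Jmat n g *ᵥ sv x) := by
  rw [Ent.big, Finset.mul_sum, exp_sum]
  refine Finset.prod_le_prod (fun _ _ => (exp_pos _).le) fun i _ => ?_
  have e : Ent.lf (gibbsWeight n 1 g) i x = 2 * |(Jmat n g *ᵥ sv x) i| := by
    rw [gibbsWeight_eq_ising, one_smul, Ent.lf_ising (by ext i j; exact Jmat_symm g j i), Jmat_diag]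
    simp
  set h := (Jmat n g *ᵥ sv x) i
  by_cases hl : L < Ent.lf (gibbsWeight n 1 g) i x
  · rw [Ent.ind_pos (p := fun y => L < Ent.lf (gibbsWeight n 1 g) i y) hl, mul_one, e]
    rw [e] at hl
    have : exp (6 * θ * |h|) ≤ exp (6 * θ * h) + exp (-(6 * θ * h)) := by
      rcases abs_cases h with h1 | h1 <;> rw [h1.1]
      · linarith [exp_pos (-(6 * θ * h))]
      · rw [mul_neg]; linarith [exp_pos (6 * θ * h)]
    refine le_trans ?_ (le_add_of_nonneg_left zero_le_one)
    refine le_trans ?_ (mul_le_mul_of_nonneg_left this (exp_pos _).le)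
    rw [← exp_add]
    exact exp_le_exp.2 (by nlinarith)
  · rw [Ent.ind_neg (p := fun y => L < Ent.lf (gibbsWeight n 1 g) i y) hl, mul_zero, mul_zero,
      exp_zero]
    exact le_add_of_nonneg_right (by positivity)

/-- **large local fields** -/
theorem fld_whp {θ δ : ℝ} (hθ : 1 ≤ θ) (hδ : 0 < δ) : Top.Whp disorderLaw fun n g =>
    mean (gibbsWeight n 1 g) (fun x => exp (θ * Ent.big (gibbsWeight n 1 g) ((n : ℝ) ^ δ) x)) ≤ 2 := by
  have l := Chain22.tendsto_exp_neg_rpow_mul hδ (4 * exp (6 * θ + (6 * θ) ^ 2))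
  refine Top.whp_of_real_le (by
    simpa using (tendsto_LR_lt_rpow false zero_le_one le_rfl hδ).add l) ?_
  filter_upwards [l.eventually (ge_mem_nhds one_pos), eventually_gt_atTop 0,
    ((tendsto_rpow_atTop hδ).comp tendsto_natCast_atTop_atTop).eventually_ge_atTop 2]
    with n h1 hn hL
  simp only [Function.comp] at hL
  set L := (n : ℝ) ^ δ
  set q := exp (-(6 * θ * L / 4))
  have n0 : (0 : ℝ) < n := by exact_mod_cast hn
  have key : ∀ x : Cube n, ∃ d : Fin n → ℝ, (∀ i, |d i| ≤ 1) ∧ ∀ g,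
      Jmat n (g + th n 1 • tau x) *ᵥ sv x = Jmat n g *ᵥ sv x + d := fun x => by
    refine ⟨((n - 1) / n : ℝ) • sv x, fun i => ?_, fun g => ?_⟩
    · have n1 : (1 : ℝ) ≤ n := by exact_mod_cast hn
      rw [Pi.smul_apply, smul_eq_mul, abs_mul, sv, abs_spin, mul_one,
        abs_of_nonneg (div_nonneg (by linarith) n0.le), div_le_one n0]
      linarith
    · rw [Jmat_add_tau, add_mulVec, smul_mulVec, sub_mulVec, one_mulVec, vecMulVec_mulVec,
        sv_dot_self]
      congr 1
      funext i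
      simp only [Pi.smul_apply, Pi.sub_apply, smul_eq_mul, MulOpposite.smul_eq_mul_unop,
        MulOpposite.unop_op]
      ring
  choose d d1 d2 using key
  have I := fun x => int_PP hn (exp_pos (-(6 * θ * L / 4))).le (a := 6 * θ) (by linarith) x (d1 x)
  have := transfer_mean (n := n) false 1 (F := fun x g => PP q (6 * θ) (Jmat n g *ᵥ sv x) - 1)
    (fun x g => sub_nonneg.2 (one_le_PP (exp_pos _).le _ _)) (fun x => by
      rw [← integrable_plant false 1 x fun g => PP q (6 * θ) (Jmat n g *ᵥ sv x) - 1,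
        integrable_tilted_false]
      simp only [d2]
      exact (I x).1.sub (integrable_const _)) one_pos (exp_pos (-L))
  refine le_trans (measureReal_mono fun g hg => ?_) (this.trans (add_le_add le_rfl ?_))
  · have hw := wt_gibbs (n := n) 1 g
    simp only [mem_ofPred_eq, not_le] at hg ⊢
    rw [mean_sub, hw.mean_const]
    linarith [hw.mean_mono (exp_big_le (by linarith : 0 ≤ θ) hL g)]
  set z := n * (2 * q * exp (6 * θ + (6 * θ) ^ 2))
  have z0 : 0 ≤ z := by positivity
  have z1 : 2 * z ≤ exp (-(L / 2)) * (n * (4 * exp (6 * θ + (6 * θ) ^ 2))) * exp (-L) := by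
    have : q ≤ exp (-(L / 2)) * exp (-L) := by
      rw [← exp_add]; exact exp_le_exp.2 (by nlinarith)
    nlinarith [mul_le_mul_of_nonneg_left this
      (show 0 ≤ n * (4 * exp (6 * θ + (6 * θ) ^ 2)) by positivity)]
  have z2 : z ≤ 1 := by
    nlinarith [mul_le_mul h1 (exp_le_one_iff.2 (show -L ≤ 0 by linarith)) (exp_pos _).le zero_le_one]
  rw [one_mul, div_le_iff₀ (exp_pos _), div_le_iff₀ (by positivity), ← card_cube]
  refine (Finset.sum_le_card_nsmul _ _ _ fun x _ => ?_).trans_eq (by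
    rw [nsmul_eq_mul, Finset.card_univ, mul_comm])
  rw [← integral_plant false 1 x fun g => PP q (6 * θ) (Jmat n g *ᵥ sv x) - 1,
    integral_tilted_false]
  simp only [d2]
  rw [show ∫ g, PP q (6 * θ) (Jmat n g *ᵥ sv x + d x) - 1 ∂gv (Pair n) = _ from
    integral_sub (I x).1 (integrable_const _)]
  simp only [integral_const, probReal_univ, smul_eq_mul, mul_one]
  have := abs_exp_sub_one_le (x := z) (by rwa [abs_of_nonneg z0])
  rw [abs_of_nonneg z0] at this
  have h2 : ∫ g, PP q (6 * θ) (Jmat n g *ᵥ sv x + d x) ∂gv (Pair n) ≤ exp z := (I x).2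
  linarith [le_abs_self (exp z - 1)]

end Crest.Agent.T157.Q1

end
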