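import Crest.Agent.T157.Q1G_63
import Crest.Agent.T157.CrA_63
import Crest.Agent.T157.CrC_63

/-!
# Row 157, part A (helper63): the high entropy levels from the covariance window `W2S`
-/

set_option autoImplicit false

noncomputable section

namespace Crest.Agent.T157.Q1

open MeasureTheory Filter Topology Set Matrix Real
open Crest.ProbabilityR.SpinGlassDynamics
open Crest.Agent.T157 Crest.Agent.T157.E Crest.Agent.T157.SL Crest.Agent.T157.Soft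

variable {n : ℕ} {w f : Cube n → ℝ}

theorem measurableSet_covLe (hw : Wt w) (K : ℝ) :
    MeasurableSet {y | ¬ Crit.CovLe (tilt w y) K} := by
  refine (IsClosed.measurableSet (s := {y | Crit.CovLe (tilt w y) K}) ?_).compl
  simp only [Crit.CovLe, ofPred_forall, ← covMat_post_sv w 0, covMat_quad]
  exact isClosed_iInter fun u => isClosed_le
    ((eg_cov (φ := sv) (I := univ) hw _ _).cont_at (mem_univ 0)) continuous_const

/-- transport with a power law -/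
theorem tp_pow (hw : Wt w) (hf : ∀ x, 0 ≤ f x) (h0 : 0 < mean w f) {M s T κ E p : ℝ}
    (hM : ∀ x, f x ≤ M) (hs : 0 < s) (hst : s ≤ T) (hκ : 0 ≤ κ) (hE : (T / s) ^ (κ - 1) ≤ E)
    (hp : 0 ≤ p) (h : ∀ r ∈ Ioo s T, Crit.CovAt w r (κ / r) p) :
    Tp sv w f s T E (T ^ 3 * E ^ 2 * (16 * n ^ 2 * (p * M))) := fun c => by
  have T0 := hs.trans_le hst
  have M0 := (hf _).trans (hM fun _ => true)
  have := tp_gen (φ := sv) hw hf h0 hs.le hst (k := fun r => κ / r)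
    (continuousOn_const.div continuousOn_id fun r hr => (hs.trans_le hr.1).ne')
    (fun r hr => div_nonneg hκ (hs.le.trans hr.1)) (by positivity) diam_sv (E := T / s * E) (by
      simp only [div_eq_mul_inv κ]
      rw [intervalIntegral.integral_const_mul, integral_inv_of_pos hs T0, mul_comm,
        ← rpow_def_of_pos (by positivity), show κ = 1 + (κ - 1) by ring, rpow_add (by positivity),
        rpow_one]
      exact mul_le_mul_of_nonneg_left hE (by positivity))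
    (fun r => measurableSet_covLe hw (κ / r)) (fun r _ y hy u => by
      rw [covMat_post_sv]; exact not_not.1 hy u) (mul_nonneg hp M0)
    (fun r hr => mean_px_le_law hw hM M0 (measurableSet_covLe hw _) (h r hr)) c
  rw [show (2 * √(n : ℝ)) ^ 4 = 16 * (√(n : ℝ) ^ 2) ^ 2 by ring, sq_sqrt n.cast_nonneg,
    ← mul_assoc c] at this
  refine this.trans (add_le_add le_rfl ?_)
  calc _ ≤ T * (c ^ 2 * (T / s * E) ^ 2 * (16 * n ^ 2 * (p * M))) := by gcongr; linarith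
    _ = _ := by ring

/-- transport through the two windows -/
theorem tp_two (hW : Wt w) (f0 : ∀ x, 0 ≤ f x) (h0 : 0 < mean w f) {t m T K κ E₁ E₂ M p r : ℝ}
    (hM : ∀ x, f x ≤ M) (t0 : 0 < t) (htT : t ≤ T) (htm : t ≤ m) (hK : 1 ≤ K) (hκ : 1 ≤ κ)
    (h1 : (m / t) ^ K ≤ E₁) (h2 : (T / t) ^ (κ - 1) ≤ E₂) (hp : 0 ≤ p)
    (c1 : ∀ r, r ≤ T → t ≤ r → r ≤ m → Crit.CovAt w r (K / r) p)
    (c2 : ∀ r, r ≤ T → m ≤ r → Crit.CovAt w r (κ / r) p) (hr : r ∈ Ioo t T) :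
    Tp sv w f r T (E₁ * E₂) (2 * (T ^ 3 * (E₁ * E₂) ^ 2 * (16 * n ^ 2 * (p * M)))) := by
  have T0 := t0.trans_le htT
  have M0 := (f0 _).trans (hM fun _ => true)
  have e1 : 1 ≤ E₁ := (one_le_rpow ((one_le_div t0).2 htm) (by linarith)).trans h1
  have e2 : 1 ≤ E₂ := (one_le_rpow ((one_le_div t0).2 htT) (by linarith)).trans h2
  have w2 : ∀ r, t ≤ r → r ≤ T → (r < T → m ≤ r) → Tp sv w f r T E₂
      (T ^ 3 * E₂ ^ 2 * (16 * n ^ 2 * (p * M))) := fun r h3 h4 h5 =>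
    tp_pow hW f0 h0 hM (t0.trans_le h3) h4 (by linarith) ((rpow_le_rpow
      (div_nonneg T0.le (t0.le.trans h3)) (div_le_div_of_nonneg_left T0.le t0 h3)
      (by linarith)).trans h2) hp fun q hq =>
      c2 q hq.2.le ((h5 (hq.1.trans hq.2)).trans hq.1.le)
  have r0 := t0.trans hr.1
  have q : 0 ≤ T ^ 3 * (16 * n ^ 2 * (p * M)) := by positivity
  have s1 : E₂ ^ 2 ≤ (E₁ * E₂) ^ 2 := by gcongr; nlinarith
  have s2 : E₁ ^ 2 ≤ (E₁ * E₂) ^ 2 := by gcongr; nlinarith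
  rcases le_total m r with h | h
  · exact (w2 r hr.1.le hr.2.le fun _ => h).mono hW s1 (by
      linarith [mul_le_mul_of_nonneg_left s1 q, mul_nonneg q (sq_nonneg (E₁ * E₂))])
  have hr' : r ≤ min m T := le_min h hr.2.le
  have w1 := tp_pow hW f0 h0 hM r0 hr' (κ := K) (E := E₁) (by linarith) (le_trans ((rpow_le_rpow
    (div_nonneg (r0.le.trans hr') r0.le) (div_le_div₀ (t0.le.trans htm) (min_le_left _ _) t0 hr.1.le)
    (by linarith)).trans (rpow_le_rpow_of_exponent_le ((one_le_div t0).2 htm) (by linarith))) h1)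
    hp fun u hu => c1 u (hu.2.le.trans (min_le_right _ _)) (hr.1.trans hu.1).le
      (hu.2.le.trans (min_le_left _ _))
  refine (w1.trans (w2 _ (hr.1.le.trans hr') (min_le_right _ _) fun h =>
    (min_lt_iff.1 h).elim (fun h => (min_eq_left h.le).ge) fun h => absurd h (lt_irrefl _))
    (r0.trans_le hr').ne').mono hW le_rfl ?_
  have : min m T ^ 3 ≤ T ^ 3 := pow_le_pow_left₀ (r0.le.trans hr') (min_le_right _ _) 3
  calc _ ≤ T ^ 3 * (E₁ * E₂) ^ 2 * (16 * n ^ 2 * (p * M)) +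
        E₁ ^ 2 * (T ^ 3 * E₂ ^ 2 * (16 * n ^ 2 * (p * M))) := by gcongr
    _ = _ := by ring

/-- the large local fields cost a fraction of the level -/
theorem big_le (hw : ∀ x, 0 < w x) (f0 : ∀ x, 0 ≤ f x) (f1 : mean w f = 1) {H A L θ : ℝ}
    (hM : ∀ x, f x ≤ exp (2 * H)) (A0 : 0 ≤ A)
    (hF : mean w (fun x => exp (θ * Ent.big w L x)) ≤ 2) (hθ : 24 * A < θ) (hH : 8 ≤ H) :
    A * Chain22.mean (prob w) (fun x => f x * Ent.big w L x) ≤ H / 8 := by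
  have hW := Wt.of_pos hw
  have θ0 : 0 < θ := by linarith
  have a6 := Ent.mean_mul_le_theta hW.isP f0 (Ent.big w L) θ0
  have a7 := Ent.ent_le_of_bdd hW.isP f0 (M := exp (2 * H)) fun x _ =>
    (hM x).trans_eq ((mul_one _).symm.trans (congrArg _ f1.symm))
  have a8 : log (mean w fun x => exp (θ * Ent.big w L x)) ≤ 1 :=
    (log_le_sub_one_of_pos (Ent.mean_exp_pos hW.isP _)).trans (by
      change mean w _ - 1 ≤ _; linarith)
  change _ ≤ (ent w _ + mean w _ * log (mean w _)) / θ at a6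
  change ent w _ ≤ _ * mean w _ at a7
  rw [f1, log_exp] at a7
  rw [f1, le_div_iff₀ θ0] at a6
  have b0 : 0 ≤ Chain22.mean (prob w) fun x => f x * Ent.big w L x :=
    hW.isP.mean_nonneg fun x => mul_nonneg (f0 x) (Ent.big_nonneg w L x)
  linarith [mul_le_mul_of_nonneg_left hθ.le b0]

/-- **one high level** -/
theorem sp_high (hw : ∀ x, 0 < w x) {t m T K κ E₁ E₂ H A L P θ δ lam : ℝ} (t0 : 0 < t)
    (htT : t ≤ T) (htm : t ≤ m) (hK : 1 ≤ K) (hκ : 1 ≤ κ) (h1 : (m / t) ^ K ≤ E₁)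
    (h2 : (T / t) ^ (κ - 1) ≤ E₂)
    (c1 : ∀ r, r ≤ T → t ≤ r → r ≤ m → Crit.CovAt w r (K / r) (exp (-(3 * H))))
    (c2 : ∀ r, r ≤ T → m ≤ r → Crit.CovAt w r (κ / r) (exp (-(3 * H))))
    (hX : XX sv w (65 * t) ≤ exp H) (hT : Glue.Tail w T A δ) (A0 : 0 ≤ A) (δ0 : 0 ≤ δ)
    (hJ : JT w T P (exp (-(3 * H)))) (P0 : 0 ≤ P) (L0 : 0 ≤ L)
    (hF : mean w (fun x => exp (θ * Ent.big w L x)) ≤ 2) (hθ : 24 * A < θ) (hH : 8 ≤ H)
    (hs : δ + 3 / 2 * ((E₁ * E₂) ^ 2 * (T ^ 2 + 32 * T ^ 3 * n ^ 2) * exp (-H)) / t ≤ 1)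
    (hl : lam * (A * (3 + L) + 3 / 2 * ((E₁ * E₂) ^ 2 * T ^ 2 * P) / t) ≤ H / 2) : SP w H lam :=
  SP.of_norm hw fun g g1 hM hent => by
  have hW := Wt.of_pos hw
  have T0 := t0.trans_le htT
  have f0 : ∀ x, 0 ≤ g x ^ 2 := fun x => sq_nonneg _
  have h0 : 0 < mean w fun x => g x ^ 2 := g1 ▸ one_pos
  have D0 := Ent.dir_nonneg hw g
  have e1 : 1 ≤ E₁ := (one_le_rpow ((one_le_div t0).2 htm) (by linarith)).trans h1
  have e2 : 1 ≤ E₂ := (one_le_rpow ((one_le_div t0).2 htT) (by linarith)).trans h2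
  have ee : exp (-(3 * H)) * exp (2 * H) = exp (-H) := by rw [← exp_add]; congr 1; ring
  have a1 := early_ent hW f0 g1 (by linarith) hM t0 hX
  have a2 := window hW f0 h0 (R₀ := 2 * √n + 1) (E := E₁ * E₂) (Q := 0) (L := log (T / t))
    (P := P * dir w g + exp (-H))
    (by positivity) (fun x x' => (diam_sv x x').trans (by gcongr; linarith)) t0 htT
    (by positivity) (by positivity) (by positivity) le_rfl
    (fun r hr => tp_two hW f0 h0 hM t0 htT htm hK hκ h1 h2 (exp_pos _).le c1 c2 hr)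
    (fun c _ => (hJ g _ hM h0 c).trans_eq (by rw [ee]; ring)) le_rfl
  have a3 := hT _ f0
  have a4 := mul_le_mul_of_nonneg_left (Ent.sum_entS_sq_le hw g L0) A0
  have a5 : var w (fun x => √(g x ^ 2)) ≤ 1 := (hW.var_le_mean _ 0).trans_eq (by
    simpa only [sub_zero, sq_sqrt (f0 _)] using g1)
  have a9 := big_le hw f0 g1 hM A0 hF hθ hH
  have a6 := mul_le_mul_of_nonneg_left a5 δ0
  rw [ee] at a2
  have key : H / 2 ≤ dir w g * (A * (3 + L) + 3 / 2 * ((E₁ * E₂) ^ 2 * T ^ 2 * P) / t) := by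
    simp only [div_eq_mul_inv _ t] at a2 hs ⊢
    linarith
  by_contra hc
  have p : 0 ≤ A * (3 + L) + 3 / 2 * ((E₁ * E₂) ^ 2 * T ^ 2 * P) / t := by positivity
  rcases p.eq_or_lt with p | p
  · rw [← p] at key; linarith
  · linarith [mul_lt_mul_of_pos_right (not_le.1 hc) p]

theorem xx_le (g : Pair n → ℝ) {B B' H : ℝ} (h : ∀ θ, 0 ≤ θ → Xth n g θ ≤
    B * exp (B * θ ^ (3 / 2 : ℝ))) (hB : B ≤ B') (B1 : 1 ≤ B') (hH : 2 * B' ≤ H) :
    XX sv (gibbsWeight n 1 g) (65 * ((65 * (2 * B'))⁻¹ * Crit.sH n H)) ≤ exp H := by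
  have H0 : 0 < H := by linarith
  rw [Crit.sH, div_rpow H0.le n.cast_nonneg, ← mul_div_assoc, ← mul_div_assoc,
    show (n : ℝ) ^ (2 / 3 : ℝ) = N23 n from rfl, XX_eq]
  refine (h _ (by positivity)).trans ?_
  have e1 : (65 * ((65 * (2 * B'))⁻¹ * H ^ (2 / 3 : ℝ))) ^ (3 / 2 : ℝ) ≤ (2 * B')⁻¹ * H := by
    rw [← mul_assoc, mul_rpow (by positivity) (by positivity), ← rpow_mul H0.le,
      show 65 * (65 * (2 * B'))⁻¹ = (2 * B')⁻¹ by field_simp,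
      show (2 / 3 * (3 / 2) : ℝ) = 1 by norm_num, rpow_one]
    exact mul_le_mul_of_nonneg_right (rpow_le_self_of_le_one (by positivity)
      (inv_le_one_of_one_le₀ (by linarith)) (by norm_num)) H0.le
  have e2 : B * (65 * ((65 * (2 * B'))⁻¹ * H ^ (2 / 3 : ℝ))) ^ (3 / 2 : ℝ) ≤ H / 2 :=
    (mul_le_mul hB e1 (by positivity) (by linarith)).trans (le_of_eq (by field_simp))
  refine le_trans (mul_le_mul (hB.trans (by linarith [add_one_le_exp (H / 2)])) (exp_le_exp.2 e2)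
    (exp_pos _).le (exp_pos (H / 2)).le) ?_
  rw [← exp_add, add_halves]

theorem covAt_mono (hw : Wt w) {r K K' p : ℝ} (h : Crit.CovAt w r K p) (hK : K ≤ K') :
    Crit.CovAt w r K' p := by
  have := isProb_law (φ := sv) (s := r) hw
  refine le_trans (measureReal_mono ?_) h
  exact fun y hy h => hy fun u => (h u).trans (mul_le_mul_of_nonneg_right hK (dot_self_nonneg u))

/-- the numerics of one high level -/
theorem sp_lev (hw : ∀ x, 0 < w x) {c T K δ d H A P θ e C : ℝ} (c0 : 0 < c) (c1 : c ≤ 1)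
    (T0 : 0 < T) (hK : 1 ≤ K) (δ0 : 0 < δ) (hδ : 4 * (K + 1) * δ ≤ min d 1) (hn : 1 ≤ n)
    (hH : 8 ≤ H) (hHn : H ≤ n) (hT : Crit.sH n H ≤ T / c)
    (hW : ∀ r : ℝ, r ≤ T → (c * Crit.sH n H ≤ r → r ≤ (n : ℝ) ^ δ * Crit.sH n H →
      Crit.CovAt w r (K / r) (exp (-(3 * H)))) ∧
      ((n : ℝ) ^ δ * Crit.sH n H ≤ r → Crit.CovAt w r ((1 + δ) / r) (exp (-(3 * H)))))
    (hX : XX sv w (65 * (c * Crit.sH n H)) ≤ exp H) (hTl : Glue.Tail w T A e) (A0 : 0 ≤ A)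
    (e0 : 0 ≤ e) (e1 : e ≤ 1 / 2) (hJ : JT w T P (exp (-(3 * H)))) (P0 : 0 ≤ P)
    (hF : mean w (fun x => exp (θ * Ent.big w ((n : ℝ) ^ δ) x)) ≤ 2) (hθ : 24 * A < θ)
    (hC : C = (c⁻¹ ^ K * (T / c) ^ δ) ^ 2)
    (v1 : 3 * C * (T ^ 2 + 32 * T ^ 3) / c * (n : ℝ) ^ 4 ≤ exp H)
    (v2 : (8 * A + 3 * C * T ^ 2 * P / c) * (n : ℝ) ^ (d / 2) ≤ (n : ℝ) ^ d) :
    SP w H ((n : ℝ) ^ (-d) * Crit.sH n H * H) := by
  have n1 : (1 : ℝ) ≤ n := by exact_mod_cast hn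
  have n0 : (0 : ℝ) < n := by linarith
  have H0 : 0 < H := by linarith
  have C0 : 0 ≤ C := by rw [hC]; positivity
  have s1 : Crit.sH n H ≤ 1 := rpow_le_one (by positivity) ((div_le_one n0).2 hHn) (by norm_num)
  have s2 : (n : ℝ)⁻¹ ≤ Crit.sH n H := le_trans (by rw [inv_eq_one_div]; gcongr; linarith)
    (self_le_rpow_of_le_one (by positivity) ((div_le_one n0).2 hHn) (by norm_num))
  generalize Crit.sH n H = s at *
  have s0 : 0 < s := lt_of_lt_of_le (by positivity) s2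
  have s3 : s⁻¹ ≤ n := inv_le_of_inv_le₀ n0 s2
  have d1 : 1 ≤ (n : ℝ) ^ δ := one_le_rpow n1 δ0.le
  have hE : (c⁻¹ ^ K * (n : ℝ) ^ (δ * K) * ((T / c) ^ δ * (n : ℝ) ^ δ)) ^ 2 ≤
      C * (n : ℝ) ^ (min d 1 / 2) := by
    rw [hC, mul_mul_mul_comm, mul_pow, ← rpow_add n0, ← rpow_natCast ((n : ℝ) ^ _),
      ← rpow_mul n0.le]
    exact mul_le_mul_of_nonneg_left (rpow_le_rpow_of_exponent_le n1 (by push_cast; linarith))
      (by positivity)
  have hE1 := hE.trans (mul_le_mul_of_nonneg_left ((rpow_le_rpow_of_exponent_le n1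
    (show _ ≤ (1 : ℝ) by linarith [min_le_right d 1])).trans_eq (rpow_one _)) C0)
  have hE2 := hE.trans (mul_le_mul_of_nonneg_left (rpow_le_rpow_of_exponent_le n1
    (show _ ≤ d / 2 by linarith [min_le_left d 1])) C0)
  have d2 : (n : ℝ) ^ δ ≤ (n : ℝ) ^ (d / 2) :=
    rpow_le_rpow_of_exponent_le n1 (by nlinarith [min_le_left d 1])
  refine sp_high hw (t := c * s) (m := (n : ℝ) ^ δ * s) (κ := 1 + δ)
    (E₁ := c⁻¹ ^ K * (n : ℝ) ^ (δ * K)) (E₂ := (T / c) ^ δ * (n : ℝ) ^ δ) (by positivity)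
    ((le_div_iff₀' c0).1 hT) (by gcongr; linarith) hK (by linarith) (le_of_eq ?_) ?_
    (fun r h1 => (hW r h1).1) (fun r h1 h2 => (hW r h1).2 h2) hX hTl A0 e0 hJ P0
    (by positivity) hF hθ hH ?_ ?_
  · rw [mul_div_mul_right _ _ s0.ne', div_eq_inv_mul, mul_rpow (by positivity) (by positivity),
      rpow_mul n0.le]
  · rw [add_sub_cancel_left, ← mul_rpow (by positivity) n0.le, ← div_div, div_eq_mul_inv _ s]
    gcongr
  · generalize (c⁻¹ ^ K * (n : ℝ) ^ (δ * K) * ((T / c) ^ δ * (n : ℝ) ^ δ)) ^ 2 = E at *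
    have : 3 / 2 * (E * (T ^ 2 + 32 * T ^ 3 * n ^ 2) * exp (-H)) / (c * s) ≤ 1 / 2 := by
      calc _ = 3 / 2 * (E * (T ^ 2 * 1 + 32 * T ^ 3 * n ^ 2) * exp (-H)) / c * s⁻¹ := by
            field_simp
        _ ≤ 3 / 2 * (C * n * (T ^ 2 * n ^ 2 + 32 * T ^ 3 * n ^ 2) * exp (-H)) / c * n := by
            gcongr; exact one_le_pow₀ n1
        _ = 3 * C * (T ^ 2 + 32 * T ^ 3) / c * (n : ℝ) ^ 4 * exp (-H) / 2 := by ring
        _ ≤ exp H * exp (-H) / 2 := by gcongr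
        _ = _ := by rw [← exp_add, add_neg_cancel, exp_zero]
    linarith
  · generalize (c⁻¹ ^ K * (n : ℝ) ^ (δ * K) * ((T / c) ^ δ * (n : ℝ) ^ δ)) ^ 2 = E at *
    calc _ = (n : ℝ) ^ (-d) * H * (s * (A * (3 * 1 + (n : ℝ) ^ δ)) + 3 / 2 * (E * T ^ 2 * P) / c) := by
          field_simp
      _ ≤ (n : ℝ) ^ (-d) * H * (1 * (A * (3 * (n : ℝ) ^ (d / 2) + (n : ℝ) ^ (d / 2))) +
          3 / 2 * (C * (n : ℝ) ^ (d / 2) * T ^ 2 * P) / c) := by gcongr; exact d1.trans d2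
      _ = (n : ℝ) ^ (-d) * H * ((8 * A + 3 * C * T ^ 2 * P / c) * (n : ℝ) ^ (d / 2)) / 2 := by ring
      _ ≤ (n : ℝ) ^ (-d) * H * (n : ℝ) ^ d / 2 := by gcongr
      _ = _ := by rw [mul_right_comm, ← rpow_add n0, neg_add_cancel, rpow_zero, one_mul]

/-- `W2S` restricted to the levels `H ≤ e₀ n` (and `K / r` only below `n^δ s_H`) -/
def W2R : Prop := ∀ c > (0 : ℝ), ∀ M : ℝ, ∃ K : ℝ, ∀ κ > (1 : ℝ), ∀ δ > (0 : ℝ),
  ∃ t0 > (0 : ℝ), ∃ e0 > (0 : ℝ), Top.Whp Tap.GOE fun n W => ∀ H : ℝ, (n : ℝ) ^ δ ≤ H →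
    H ≤ e0 * n → ∀ r : ℝ, r ≤ t0 →
    (c * Crit.sH n H ≤ r → r ≤ (n : ℝ) ^ δ * Crit.sH n H →
      Crit.CovAt (ising W 0) r (K / r) (exp (-(M * H)))) ∧
    ((n : ℝ) ^ δ * Crit.sH n H ≤ r → Crit.CovAt (ising W 0) r (κ / r) (exp (-(M * H))))

theorem w2r_of (h : Crit.W2SStmt) : W2R := fun c hc M => (h c hc M).imp fun _ h κ hκ δ hδ =>
  (h κ hκ δ hδ).imp fun _ h => ⟨h.1, 1, one_pos, h.2.imp fun _ _ h H h1 _ r hr =>
    ⟨fun h2 _ => (h H h1 r hr).1 h2, (h H h1 r hr).2⟩⟩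

/-- **the high levels from the sharp covariance window** -/
theorem levCrit_of (h1 : W2R) (h2 : Top.LpStmt) (h3 : Glue.TailStmt) (h4 : JTStmt) :
    Crit.LevCrit := fun κ hκ d hd => Top.whp_of_approx fun ε hε => by
  obtain ⟨B, hB⟩ := ldB_gauss ε hε
  refine ⟨fun n g => ∀ θ, 0 ≤ θ → Xth n g θ ≤ B * exp (B * θ ^ (3 / 2 : ℝ)),
    hB.mono fun n hn => le_trans (measure_mono fun g hg => ?_) hn, ?_⟩
  · simpa only [mem_ofPred_eq, not_forall, not_le, exists_prop] using hg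
  have B1 := le_max_right B 1
  set c := (65 * (2 * max B 1))⁻¹ with hc
  have c0 : 0 < c := by positivity
  have c1 : c ≤ 1 := inv_le_one_of_one_le₀ (by linarith)
  obtain ⟨K, h1⟩ := h1 c c0 3
  have K1 := le_max_right K 1
  obtain ⟨δ, δ0, δ1, δ2⟩ : ∃ δ > 0, δ ≤ κ ∧ 4 * (max K 1 + 1) * δ ≤ min d 1 :=
    ⟨min κ (min d 1 / (4 * (max K 1 + 1))), by positivity, min_le_left _ _,
      (le_div_iff₀' (by positivity)).1 (min_le_right _ _)⟩
  obtain ⟨T, T0, z, z0, h1⟩ := h1 (1 + δ) (by linarith) δ δ0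
  obtain ⟨A, A0, e, e0, h3⟩ := h3 1 ⟨one_pos, le_rfl⟩ T T0.le (.inr T0)
  obtain ⟨P, P0, j, j0, h4⟩ := h4 T T0
  obtain ⟨k, k0, h2⟩ := h2 1 zero_le_one le_rfl (min (min (j / 3) z) ((T / c) ^ (3 / 2 : ℝ)))
    (by positivity)
  have h5 := GoeT.transfer 1 (fun n w => ∀ H : ℝ, (n : ℝ) ^ δ ≤ H → H ≤ z * n → ∀ r : ℝ, r ≤ T →
      (c * Crit.sH n H ≤ r → r ≤ (n : ℝ) ^ δ * Crit.sH n H →
        Crit.CovAt w r (K / r) (exp (-(3 * H)))) ∧
      ((n : ℝ) ^ δ * Crit.sH n H ≤ r → Crit.CovAt w r ((1 + δ) / r) (exp (-(3 * H)))))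
    (fun n w hw => by simp only [Crit.CovAt, Crit.CovLe, GoeT.law_prob (GoeT.sum_pos hw).ne',
      GoeT.covM_tilt_prob (GoeT.sum_pos hw).ne']) (by simpa only [one_smul] using h1)
  refine ((((h2.and h3).and h4).and h5).and (fld_whp (θ := 24 * A + 1) (by linarith) δ0)).mono ?_
  filter_upwards [eventually_ge_atTop 1, ev_pow hκ 8, ev_pow hκ (2 * max B 1), ev_pow hd k⁻¹,
    ev_exp hκ (3 * (c⁻¹ ^ max K 1 * (T / c) ^ δ) ^ 2 * (T ^ 2 + 32 * T ^ 3) / c),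
    ev_pow (half_lt_self hd) (8 * A + 3 * (c⁻¹ ^ max K 1 * (T / c) ^ δ) ^ 2 * T ^ 2 * P / c),
    ((tendsto_exp_neg_atTop_nhds_zero.comp ((tendsto_natCast_atTop_atTop (R := ℝ)).const_mul_atTop
      e0)).eventually (ge_mem_nhds (show (0 : ℝ) < 1 / 2 by norm_num)))]
    with n hn v1 v2 v3 v4 v5 v6 g ⟨⟨⟨⟨g2, g3⟩, g4⟩, g5⟩, g6⟩ g1 H hH hHn
  have n1 : (1 : ℝ) ≤ n := by exact_mod_cast hn
  have n0 : (0 : ℝ) < n := zero_lt_one.trans_le n1
  have hw := gibbsWeight_pos (n := n) 1 g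
  rw [rpow_zero, mul_one] at v1 v2 v3
  have H0 : 0 < H := by linarith
  have s0 : 0 < Crit.sH n H := rpow_pos_of_pos (by positivity) _
  refine sp_iff.1 ?_
  rcases lt_or_ge (min (min (j / 3) z) ((T / c) ^ (3 / 2 : ℝ)) * n) H with h | h
  · refine (sp_of_lp hw g2 h).mono (.of_pos hw) ?_
    have s1 : Crit.sH n H ≤ 1 := rpow_le_one (by positivity) ((div_le_one n0).2 hHn) (by norm_num)
    have : (n : ℝ) ^ (-d) ≤ k := by rw [rpow_neg n0.le]; exact inv_le_of_inv_le₀ k0 v3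
    calc _ ≤ k * 1 * n := by gcongr
      _ = _ := by ring
  rw [← div_le_iff₀ n0, le_min_iff, le_min_iff] at h
  have g7 := g5 H ((rpow_le_rpow_of_exponent_le n1 δ1).trans hH) ((div_le_iff₀ n0).1 h.1.2)
  refine sp_lev hw c0 c1 T0 K1 δ0 δ2 hn (v1.trans hH) hHn ?_ (fun r hr => ⟨fun h h' => covAt_mono
    (.of_pos hw) ((g7 r hr).1 h h') (div_le_div_of_nonneg_right (le_max_left _ _)
      (le_trans (by positivity) h)), (g7 r hr).2⟩) (xx_le g g1 (le_max_left _ _) B1 (v2.trans hH))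
    g3 A0 (exp_pos _).le v6 (g4.mono (exp_le_exp.2 ?_)) P0 g6 (lt_add_one _) rfl
    (v4.trans (exp_le_exp.2 hH)) v5
  · refine (rpow_le_rpow (by positivity) h.2 (by norm_num)).trans_eq ?_
    rw [← rpow_mul (by positivity), show (3 / 2 * (2 / 3) : ℝ) = 1 by norm_num, rpow_one]
  · linarith [(div_le_iff₀ n0).1 h.1.1]

end Crest.Agent.T157.Q1

end
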