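import Crest.Agent.T157.PlA_37

/-!
# Row 157, part E: the planted model, B (helper37)

Gauge transformations, the planted SK model, transfer `planted ⇒ Gibbs`, replicas.
-/

set_option autoImplicit false
set_option linter.unusedSectionVars false

noncomputable section

namespace Crest.Agent.T157.Pl

open MeasureTheory ProbabilityTheory Matrix Real
open Crest.ProbabilityR.SpinGlassDynamics Crest.Agent.T157.E
open scoped ENNReal

variable {n : ℕ}

/-! ### reindexing a finite weighted space -/

section equiv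
variable {Ω Ω' : Type*} [Fintype Ω] [Fintype Ω'] (e : Ω ≃ Ω') (w : Ω' → ℝ)

lemma Zw_comp : Zw (fun x => w (e x)) = Zw w := Equiv.sum_comp e w
lemma prob_comp (x : Ω) : prob (fun x => w (e x)) x = prob w (e x) := by
  rw [prob, prob, Equiv.sum_comp e w]
lemma mean_comp (f : Ω' → ℝ) : mean (fun x => w (e x)) (fun x => f (e x)) = mean w f := by
  simp only [mean, prob_comp]; exact Equiv.sum_comp e fun y => prob w y * f y
lemma mean_comp' (f : Ω → ℝ) : mean (fun x => w (e x)) f = mean w fun y => f (e.symm y) := by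
  rw [← mean_comp e]; simp
lemma cov_comp (f g : Ω' → ℝ) :
    cov (fun x => w (e x)) (fun x => f (e x)) (fun x => g (e x)) = cov w f g := by
  simp only [cov, prob_comp, mean_comp]
  exact Equiv.sum_comp e fun y => prob w y * ((f y - mean w f) * (g y - mean w g))
lemma var_comp (f : Ω' → ℝ) : var (fun x => w (e x)) (fun x => f (e x)) = var w f := by
  simp only [SL.var_eq_cov, cov_comp]
lemma ent_comp (f : Ω' → ℝ) : ent (fun x => w (e x)) (fun x => f (e x)) = ent w f := by
  simp only [ent, prob_comp, mean_comp]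
  rw [Equiv.sum_comp e fun y => prob w y * (f y * log (f y))]
lemma kl_comp (v : Ω' → ℝ) : kl (fun x => v (e x)) (fun x => w (e x)) = kl v w := by
  simp only [kl, prob_comp]
  exact Equiv.sum_comp e fun y => prob v y * log (prob v y / prob w y)
lemma tv_comp (v : Ω' → ℝ) : tv (fun x => v (e x)) (fun x => w (e x)) = tv v w := by
  simp only [tv]; rw [Equiv.sum_comp e fun y => |v y - w y|]
lemma mass_comp (A : Set Ω') : mass (fun x => w (e x)) (e ⁻¹' A) = mass w A := by
  rw [mass_eq_mean, mass_eq_mean, ← mean_comp e w]; rfl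

end equiv

/-! ### gauge transformations of the cube -/

/-- the all-plus configuration -/
def one (n : ℕ) : Cube n := fun _ => true

/-- product of spins -/
def cmul (z x : Cube n) : Cube n := fun i => z i == x i

lemma spin_cmul (z x : Cube n) (i : Fin n) : spin (cmul z x i) = spin (z i) * spin (x i) := by
  unfold cmul; cases z i <;> cases x i <;> simp [spin]

lemma sv_cmul (z x : Cube n) : sv (cmul z x) = sv z * sv x := funext (spin_cmul z x)
lemma sv_one : sv (one n) = 1 := by funext i; simp [sv, one, spin]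
lemma cmul_cmul (z x : Cube n) : cmul z (cmul z x) = x := by
  funext i; unfold cmul; cases z i <;> cases x i <;> rfl
lemma cmul_self (z : Cube n) : cmul z z = one n := by funext i; simp [cmul, one]
lemma cmul_one (z : Cube n) : cmul z (one n) = z := by funext i; simp [cmul, one]
lemma cmul_comm (z x : Cube n) : cmul z x = cmul x z := by
  funext i; unfold cmul; cases z i <;> cases x i <;> rfl

/-- the gauge transformation as a permutation of the cube -/
def gauge (z : Cube n) : Cube n ≃ Cube n := ⟨cmul z, cmul z, cmul_cmul z, cmul_cmul z⟩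

@[simp] lemma gauge_apply (z x : Cube n) : gauge z x = cmul z x := rfl
@[simp] lemma gauge_symm (z : Cube n) : (gauge z).symm = gauge z := rfl

lemma isSign_sv (x : Cube n) : IsSign (sv x) := fun i => by unfold sv; cases x i <;> simp [spin]

lemma sv_dot_cmul (z x y : Cube n) : sv (cmul z x) ⬝ᵥ sv (cmul z y) = sv x ⬝ᵥ sv y := by
  refine Finset.sum_congr rfl fun i _ => ?_
  simp only [sv, spin_cmul]
  rw [mul_mul_mul_comm, spin_mul_self, one_mul]

lemma sv_dot_eq (x y : Cube n) : sv x ⬝ᵥ sv y = ∑ i, spin (cmul x y i) := by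
  simp only [spin_cmul]; rfl

lemma cmul_update (z x : Cube n) (i : Fin n) (s : Bool) :
    cmul z (Function.update x i s) = Function.update (cmul z x) i (z i == s) := by
  funext j
  rcases eq_or_ne j i with rfl | h
  · simp [cmul]
  · simp [cmul, h]

lemma siteM_gauge (z : Cube n) (w f : Cube n → ℝ) (i : Fin n) (x : Cube n) :
    siteM (fun x => w (cmul z x)) (fun x => f (cmul z x)) i x = siteM w f i (cmul z x) := by
  simp only [siteM, cmul_update]
  cases z i
  · simp only [Bool.false_beq, Bool.not_true, Bool.not_false]; rw [add_comm, add_comm (w _)]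
  · simp

lemma dir2_gauge (z : Cube n) (w f g : Cube n → ℝ) :
    dir2 (fun x => w (cmul z x)) (fun x => f (cmul z x)) (fun x => g (cmul z x)) = dir2 w f g := by
  simp only [dir2, siteM_gauge]
  refine Finset.sum_congr rfl fun i _ => ?_
  rw [← Equiv.sum_comp (gauge z) fun x => prob w x * ((f x - siteM w f i x) * (g x - siteM w g i x))]
  exact Finset.sum_congr rfl fun x _ => congrArg (· * _) (prob_comp (gauge z) w x)

lemma dir_gauge (z : Cube n) (w f : Cube n → ℝ) :
    dir (fun x => w (cmul z x)) (fun x => f (cmul z x)) = dir w f := by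
  simpa only [dir, dir2, sq] using dir2_gauge z w f f

lemma gen_gauge (z : Cube n) (w f : Cube n → ℝ) (x : Cube n) :
    gen (fun x => w (cmul z x)) (fun x => f (cmul z x)) x = gen w f (cmul z x) := by
  simp only [gen, siteM_gauge]

lemma hb_gauge (z : Cube n) (w : Cube n → ℝ) (x y : Cube n) :
    hb (fun x => w (cmul z x)) x y = hb w (cmul z x) (cmul z y) := by
  simp only [hb, cmul_update]
  congr 1
  refine Finset.sum_congr rfl fun i _ => ?_
  have : (∀ j : Fin n, j ≠ i → cmul z y j = cmul z x j) ↔ ∀ j : Fin n, j ≠ i → y j = x j :=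
    forall₂_congr fun j _ => by unfold cmul; cases z j <;> cases x j <;> cases y j <;> simp
  simp only [this]
  cases z i
  · simp only [Bool.false_beq, Bool.not_true, Bool.not_false]; rw [add_comm]
  · simp

lemma hbPow_gauge (z : Cube n) (w : Cube n → ℝ) (k : ℕ) (x y : Cube n) :
    hbPow (fun x => w (cmul z x)) k x y = hbPow w k (cmul z x) (cmul z y) := by
  induction k generalizing y with
  | zero => simp only [hbPow]; exact if_congr (gauge z).injective.eq_iff.symm rfl rfl
  | succ k ih =>
    simp only [hbPow, ih, hb_gauge]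
    exact Equiv.sum_comp (gauge z) fun u => hbPow w k (cmul z x) u * hb w u (cmul z y)

lemma hbCt_gauge (z : Cube n) (w : Cube n → ℝ) (t : ℝ) (x y : Cube n) :
    hbCt (fun x => w (cmul z x)) t x y = hbCt w t (cmul z x) (cmul z y) := by
  simp only [hbCt, hbPow_gauge]

lemma tilt_gauge (z : Cube n) (w : Cube n → ℝ) (y : Fin n → ℝ) :
    tilt (fun x => w (cmul z x)) (sv z * y) = fun x => tilt w y (cmul z x) := by
  funext x
  simp only [tilt, sv_cmul, dotProduct, Pi.mul_apply]
  congr 2
  exact Finset.sum_congr rfl fun i _ => by ring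

lemma mag_gauge (z : Cube n) (w : Cube n → ℝ) : mag (fun x => w (cmul z x)) = sv z * mag w := by
  funext i
  have := mean_comp' (gauge z) w fun x => sv x i
  simp only [gauge_apply, gauge_symm, sv_cmul, Pi.mul_apply, SL.mean_const_mul] at this
  exact this

lemma covM_gauge (z : Cube n) (w : Cube n → ℝ) :
    covM (fun x => w (cmul z x)) = diagonal (sv z) * covM w * diagonal (sv z) := by
  ext i j
  have := cov_comp (gauge z) w (fun x => sv z i * sv x i) fun x => sv z j * sv x j
  simp only [gauge_apply, sv_cmul, Pi.mul_apply, ← mul_assoc] at this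
  simp only [sv, spin_mul_self, one_mul] at this
  rw [SL.cov_const_mul, SL.cov_comm w, SL.cov_const_mul, SL.cov_comm w] at this
  rw [mul_diagonal, diagonal_mul]
  simp only [covM, covMat, sv]
  rw [this]; ring

lemma ising_gauge (z : Cube n) (A : Matrix (Fin n) (Fin n) ℝ) (h : Fin n → ℝ) :
    ising (diagonal (sv z) * A * diagonal (sv z)) (sv z * h) = fun x => ising A h (cmul z x) := by
  funext x
  have e : ∀ u : Fin n → ℝ, diagonal (sv z) *ᵥ u = sv z * u := fun u => by
    funext i; simp [mulVec_diagonal]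
  have e2 : ∀ u v : Fin n → ℝ, u ⬝ᵥ (sv z * v) = (sv z * u) ⬝ᵥ v := fun u v =>
    Finset.sum_congr rfl fun i _ => by simp only [Pi.mul_apply]; ring
  simp only [ising, sv_cmul, ← mulVec_mulVec, e, e2]

/-- the diagonal of the interaction does not change the law -/
lemma ising_add_diagonal (A : Matrix (Fin n) (Fin n) ℝ) (d h : Fin n → ℝ) :
    ising (A + diagonal d) h = fun x => ising A h x * exp ((∑ i, d i) / 2) := by
  funext x
  have : sv x ⬝ᵥ diagonal d *ᵥ sv x = ∑ i, d i := Finset.sum_congr rfl fun i _ => by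
    rw [mulVec_diagonal, mul_left_comm, sv, spin_mul_self, mul_one]
  rw [ising, ising, add_mulVec, dotProduct_add, this, ← exp_add]
  congr 1; ring

lemma prob_ising_add_diagonal (A : Matrix (Fin n) (Fin n) ℝ) (d h : Fin n → ℝ) :
    prob (ising (A + diagonal d) h) = prob (ising A h) := by
  rw [ising_add_diagonal, prob_smul _ (exp_pos _).ne']

/-- gauge fixing of the Gaussian channel -/
lemma integral_channel_gauge (x : Cube n) (s r : ℝ) (F : (Fin n → ℝ) → ℝ) :
    ∫ u, F (s • sv x + r • u) ∂gv (Fin n) = ∫ u, F (sv x * (s • 1 + r • u)) ∂gv (Fin n) := by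
  refine ((mp_sign_law false (isSign_sv x)).integral_comp (isSign_sv x).emb _).symm.trans ?_
  simp only [mul_add, mul_smul_comm, mul_one]
  rfl

/-! ### pair products -/

/-- products of spins over the pairs -/
def tau (x : Cube n) : Pair n → ℝ := fun p => spin (x p.1.1) * spin (x p.1.2)

/-- the coupling scale `β / √n` -/
def th (n : ℕ) (β : ℝ) : ℝ := β / √n

lemma th_sq (n : ℕ) (β : ℝ) : th n β ^ 2 = β ^ 2 / n := by
  rw [th, div_pow, sq_sqrt (Nat.cast_nonneg n)]

lemma isSign_tau (x : Cube n) : IsSign (tau x) := fun p => by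
  unfold tau; cases x p.1.1 <;> cases x p.1.2 <;> simp [spin]

lemma tau_cmul (z x : Cube n) : tau (cmul z x) = tau z * tau x := by
  funext p; simp only [tau, spin_cmul, Pi.mul_apply]; ring

lemma tau_one : tau (one n) = 1 := by funext p; simp [tau, one, spin]

lemma tau_dot (x y : Cube n) : tau x ⬝ᵥ tau y = ((sv x ⬝ᵥ sv y) ^ 2 - n) / 2 := by
  have h := sum_sum_eq_two_mul_pair
    (fun i j => sv x i * sv y i * (sv x j * sv y j) - if i = j then 1 else 0)
    (fun i j => by simp only [eq_comm (a := i)]; ring)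
    (fun i => by simp only [sv, if_true]; rw [mul_mul_mul_comm, spin_mul_self, spin_mul_self]; ring)
  simp only [Finset.sum_sub_distrib, Finset.sum_ite_eq, Finset.mem_univ, if_true,
    Finset.sum_const, Finset.card_univ, Fintype.card_fin, nsmul_eq_mul, mul_one,
    ← Finset.mul_sum, ← Finset.sum_mul] at h
  rw [sq, dotProduct, dotProduct, h, Finset.sum_eq_zero (f := fun p : Pair n =>
    if p.1.1 = p.1.2 then (1 : ℝ) else 0) fun p _ => if_neg p.2.ne, sub_zero,
    mul_div_cancel_left₀ _ two_ne_zero]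
  exact Finset.sum_congr rfl fun p _ => by simp only [tau, sv]; ring

lemma card_pair (n : ℕ) : (Fintype.card (Pair n) : ℝ) = n * (n - 1) / 2 := by
  have := tau_dot (one n) (one n)
  rw [sv_dot_self, tau_one] at this
  simp only [dotProduct, Pi.one_apply, mul_one, Finset.sum_const, Finset.card_univ,
    nsmul_eq_mul] at this
  rw [this]; ring

lemma tau_dot_self (x : Cube n) : tau x ⬝ᵥ tau x = n * (n - 1) / 2 := by
  rw [tau_dot, sv_dot_self]; ring

lemma card_cube (n : ℕ) : (Fintype.card (Cube n) : ℝ) = 2 ^ n := by simp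

lemma gibbsWeight_eq (β : ℝ) (g : Pair n → ℝ) (x : Cube n) :
    gibbsWeight n β g x = exp (g ⬝ᵥ th n β • tau x) := by
  rw [gibbsWeight, dotProduct]
  congr 1
  exact Finset.sum_congr rfl fun p _ => by simp only [th, tau, Pi.smul_apply, smul_eq_mul]; ring

lemma gibbsWeight_eq_rwt (β : ℝ) (g : Pair n → ℝ) :
    gibbsWeight n β g = rwt (fun _ => 1) (fun x => th n β • tau x) g := by
  funext x; rw [gibbsWeight_eq, rwt, one_mul]

lemma gibbsWeight_gauge (z : Cube n) (β : ℝ) (g : Pair n → ℝ) :
    gibbsWeight n β (tau z * g) = fun x => gibbsWeight n β g (cmul z x) := by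
  funext x
  simp only [gibbsWeight_eq, tau_cmul, dotProduct, Pi.mul_apply, Pi.smul_apply, smul_eq_mul]
  congr 1
  exact Finset.sum_congr rfl fun p _ => by ring

lemma Jmat_gauge (z : Cube n) (g : Pair n → ℝ) :
    Jmat n (tau z * g) = diagonal (sv z) * Jmat n g * diagonal (sv z) := by
  ext i j
  rw [mul_diagonal, diagonal_mul]
  rcases lt_trichotomy i j with h | rfl | h
  · simp only [Jmat_apply_lt _ h, Pi.mul_apply, tau, sv]; ring
  · simp [Jmat_diag]
  · simp only [Jmat_apply_gt _ h, Pi.mul_apply, tau, sv]; ring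

lemma Wmat_gauge (z : Cube n) (g : Pair n → ℝ) (d : Fin n → ℝ) :
    Wmat n (tau z * g) d = diagonal (sv z) * Wmat n g d * diagonal (sv z) := by
  rw [Wmat, Wmat, Jmat_gauge, Matrix.mul_add, Matrix.add_mul, diagonal_mul_diagonal,
    diagonal_mul_diagonal]
  congr 2
  funext i
  rw [mul_comm (sv z i), mul_assoc, sv, spin_mul_self, mul_one]

lemma Jmat_add (g g' : Pair n → ℝ) : Jmat n (g + g') = Jmat n g + Jmat n g' := by
  ext i j
  simp only [Jmat, Matrix.add_apply, Pi.add_apply]
  split_ifs <;> ring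

lemma Jmat_smul (c : ℝ) (g : Pair n → ℝ) : Jmat n (c • g) = c • Jmat n g := by
  ext i j
  simp only [Jmat, Matrix.smul_apply, Pi.smul_apply, smul_eq_mul]
  split_ifs <;> ring

lemma Jmat_tau (x : Cube n) : Jmat n (tau x) = (√n)⁻¹ • (vecMulVec (sv x) (sv x) - 1) := by
  ext i j
  simp only [Matrix.smul_apply, Matrix.sub_apply, vecMulVec_apply, smul_eq_mul]
  rcases lt_trichotomy i j with h | rfl | h
  · simp only [Jmat_apply_lt _ h, tau, sv, one_apply_ne h.ne]; ring
  · simp [Jmat_diag, sv, spin_mul_self]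
  · simp only [Jmat_apply_gt _ h, tau, sv, one_apply_ne h.ne']; ring

/-- the planted matrix: rank-one shift -/
lemma Jmat_add_tau (β : ℝ) (g : Pair n → ℝ) (x : Cube n) :
    Jmat n (g + th n β • tau x) = Jmat n g + (β / n) • (vecMulVec (sv x) (sv x) - 1) := by
  rw [Jmat_add, Jmat_smul, Jmat_tau, smul_smul, th, div_eq_mul_inv, mul_assoc, ← mul_inv,
    mul_self_sqrt (Nat.cast_nonneg n), div_eq_mul_inv]

lemma Jmat_add_th (β : ℝ) (g : Pair n → ℝ) :
    Jmat n (g + fun _ => th n β) = Jmat n g + (β / n) • (vecMulVec 1 1 - 1) := by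
  rw [← sv_one, ← Jmat_add_tau, tau_one]
  congr 2
  funext p; simp

/-! ### the planted model -/

lemma couplingLaw_eq_law (b : Bool) (n : ℕ) : couplingLaw b n = law b (Pair n) := couplingLaw_eq b n

lemma couplingLaw_false (n : ℕ) : couplingLaw false n = disorderLaw n := rfl

theorem mp_gauge (b : Bool) (z : Cube n) :
    MeasurePreserving (fun g => tau z * g) (couplingLaw b n) (couplingLaw b n) := by
  rw [couplingLaw_eq_law]; exact mp_sign_law b (isSign_tau z)

theorem integral_gauge (b : Bool) (z : Cube n) (F : (Pair n → ℝ) → ℝ) :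
    ∫ g, F (tau z * g) ∂couplingLaw b n = ∫ g, F g ∂couplingLaw b n :=
  (mp_gauge b z).integral_comp (isSign_tau z).emb F

/-- the annealed partition function -/
def EZ (b : Bool) (n : ℕ) (β : ℝ) : ℝ := 2 ^ n * M b (th n β) ^ Fintype.card (Pair n)

/-- the likelihood ratio `Z / E Z` -/
def LR (b : Bool) (n : ℕ) (β : ℝ) (g : Pair n → ℝ) : ℝ := Zw (gibbsWeight n β g) / EZ b n β

/-- the law of the couplings planted at the all-plus configuration -/
def pl (b : Bool) (n : ℕ) (β : ℝ) : Measure (Pair n → ℝ) := tilted b fun _ => th n β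

instance (b : Bool) (n : ℕ) (β : ℝ) : IsProbabilityMeasure (pl b n β) := by
  rw [pl]; infer_instance

lemma EZ_pos (b : Bool) (n : ℕ) (β : ℝ) : 0 < EZ b n β :=
  mul_pos (by positivity) (pow_pos (M_pos _ _) _)

lemma EZ_false (hn : n ≠ 0) (β : ℝ) : EZ false n β = 2 ^ n * exp (β ^ 2 * (n - 1) / 4) := by
  rw [EZ, M_false, ← exp_nat_mul, card_pair, th_sq]
  have : (n : ℝ) ≠ 0 := Nat.cast_ne_zero.2 hn
  congr 2
  field_simp
  ring

lemma wt_gibbs (β : ℝ) (g : Pair n → ℝ) : SL.Wt (gibbsWeight n β g) :=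
  .of_pos (gibbsWeight_pos β g)

lemma Z_pos (β : ℝ) (g : Pair n → ℝ) : 0 < Zw (gibbsWeight n β g) := (wt_gibbs β g).pos

lemma LR_pos (b : Bool) (β : ℝ) (g : Pair n → ℝ) : 0 < LR b n β g :=
  div_pos (Z_pos β g) (EZ_pos b n β)

lemma continuous_gibbsWeight (β : ℝ) (x : Cube n) : Continuous fun g => gibbsWeight n β g x := by
  unfold gibbsWeight; fun_prop

lemma continuous_Z (β : ℝ) : Continuous fun g => Zw (gibbsWeight n β g) :=
  continuous_finsetSum _ fun x _ => continuous_gibbsWeight β x

lemma continuous_LR (b : Bool) (β : ℝ) : Continuous (LR b n β) := (continuous_Z β).div_const _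

lemma continuous_prob (β : ℝ) (x : Cube n) : Continuous fun g => prob (gibbsWeight n β g) x :=
  (continuous_gibbsWeight β x).div (continuous_Z β) fun g => (Z_pos β g).ne'

lemma Z_gauge (z : Cube n) (β : ℝ) (g : Pair n → ℝ) :
    Zw (gibbsWeight n β (tau z * g)) = Zw (gibbsWeight n β g) := by
  rw [gibbsWeight_gauge]; exact Zw_comp (gauge z) _

lemma LR_gauge (b : Bool) (z : Cube n) (β : ℝ) (g : Pair n → ℝ) :
    LR b n β (tau z * g) = LR b n β g := by rw [LR, Z_gauge, LR]

lemma prob_gauge (z : Cube n) (β : ℝ) (g : Pair n → ℝ) (x : Cube n) :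
    prob (gibbsWeight n β (tau z * g)) x = prob (gibbsWeight n β g) (cmul z x) := by
  rw [gibbsWeight_gauge]; exact prob_comp (gauge z) _ x

lemma th_smul_tau (β : ℝ) (x : Cube n) : th n β • tau x = tau x * fun _ => th n β := by
  funext p; simp [mul_comm]

lemma MM_tau (b : Bool) (β : ℝ) (x : Cube n) :
    MM b (th n β • tau x) = M b (th n β) ^ Fintype.card (Pair n) := by
  rw [th_smul_tau, MM_sign b (isSign_tau x)]; simp [MM]

/-- planting at `x` = planting at the all-plus configuration and gauging by `x` -/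
theorem mp_plant (b : Bool) (β : ℝ) (x : Cube n) :
    MeasurePreserving (fun ξ => tau x * ξ) (pl b n β) (tilted b (th n β • tau x)) := by
  rw [th_smul_tau]; exact mp_sign b (isSign_tau x) _

lemma integral_plant (b : Bool) (β : ℝ) (x : Cube n) (F : (Pair n → ℝ) → ℝ) :
    ∫ g, F g ∂tilted b (th n β • tau x) = ∫ ξ, F (tau x * ξ) ∂pl b n β :=
  ((mp_plant b β x).integral_comp (isSign_tau x).emb F).symm

lemma integrable_plant (b : Bool) (β : ℝ) (x : Cube n) (F : (Pair n → ℝ) → ℝ) :
    Integrable F (tilted b (th n β • tau x)) ↔ Integrable (fun ξ => F (tau x * ξ)) (pl b n β) :=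
  ((mp_plant b β x).integrable_comp_emb (isSign_tau x).emb).symm

lemma real_plant (b : Bool) (β : ℝ) (x : Cube n) (A : Set (Pair n → ℝ)) :
    (tilted b (th n β • tau x)).real A = (pl b n β).real {ξ | tau x * ξ ∈ A} :=
  congrArg ENNReal.toReal ((mp_plant b β x).measure_preimage_emb (isSign_tau x).emb A).symm

/-- Gaussian couplings: the planted law is a shift -/
theorem mp_pl_false (n : ℕ) (β : ℝ) :
    MeasurePreserving (fun g => g + fun _ => th n β) (disorderLaw n) (pl false n β) := mp_shift _

lemma integral_pl_false (β : ℝ) (F : (Pair n → ℝ) → ℝ) :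
    ∫ ξ, F ξ ∂pl false n β = ∫ g, F (g + fun _ => th n β) ∂disorderLaw n :=
  integral_tilted_false _ F

lemma integrable_pl_false (β : ℝ) (F : (Pair n → ℝ) → ℝ) :
    Integrable F (pl false n β) ↔ Integrable (fun g => F (g + fun _ => th n β)) (disorderLaw n) :=
  integrable_tilted_false _ F

lemma real_pl_false (β : ℝ) (A : Set (Pair n → ℝ)) :
    (pl false n β).real A = (disorderLaw n).real {g | (g + fun _ => th n β) ∈ A} :=
  congrArg ENNReal.toReal (tilted_false_apply _ A)

lemma LR_mul_mean (b : Bool) (β : ℝ) (g : Pair n → ℝ) (f : Cube n → ℝ) :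
    LR b n β g * mean (gibbsWeight n β g) f = (∑ x, gibbsWeight n β g x * f x) / EZ b n β := by
  rw [LR, div_mul_eq_mul_div, Zw_mul_mean (Z_pos β g).ne']

theorem integrable_LR_mul_mean (b : Bool) (β : ℝ) {F : Cube n → (Pair n → ℝ) → ℝ}
    (hF : ∀ x, Integrable (fun ξ => F x (tau x * ξ)) (pl b n β)) :
    Integrable (fun g => LR b n β g * mean (gibbsWeight n β g) fun x => F x g) (couplingLaw b n) := by
  simp only [LR_mul_mean]
  simp only [couplingLaw_eq_law, gibbsWeight_eq_rwt]
  exact (integrable_finsetSum _ fun x _ => integrable_rwt_mul b _ _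
    (fun x => (integrable_plant b β x _).2 (hF x)) x).div_const _

/-- **the planted identity** -/
theorem planted (b : Bool) (β : ℝ) {F : Cube n → (Pair n → ℝ) → ℝ}
    (hF : ∀ x, Integrable (fun ξ => F x (tau x * ξ)) (pl b n β)) :
    ∫ g, LR b n β g * mean (gibbsWeight n β g) (fun x => F x g) ∂couplingLaw b n =
      (∑ x, ∫ ξ, F x (tau x * ξ) ∂pl b n β) / 2 ^ n := by
  simp only [LR_mul_mean]
  simp only [couplingLaw_eq_law, gibbsWeight_eq_rwt]
  rw [integral_div, integral_sum_rwt b _ _ fun x => (integrable_plant b β x _).2 (hF x)]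
  simp only [MM_tau, integral_plant, one_mul, ← Finset.mul_sum, EZ]
  have := (pow_pos (M_pos b (th n β)) (Fintype.card (Pair n))).ne'
  field_simp

/-- the planted identity for gauge-invariant observables -/
theorem planted_inv (b : Bool) (β : ℝ) {F : Cube n → (Pair n → ℝ) → ℝ} {G : (Pair n → ℝ) → ℝ}
    (h : ∀ x ξ, F x (tau x * ξ) = G ξ) (hG : Integrable G (pl b n β)) :
    ∫ g, LR b n β g * mean (gibbsWeight n β g) (fun x => F x g) ∂couplingLaw b n =
      ∫ ξ, G ξ ∂pl b n β := by
  rw [planted b β fun x => by simpa only [h] using hG]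
  simp [h]

theorem integrable_LR (b : Bool) (β : ℝ) : Integrable (LR b n β) (couplingLaw b n) := by
  simpa only [(wt_gibbs β _).mean_const, mul_one] using
    integrable_LR_mul_mean b β (F := fun _ _ => 1) fun _ => integrable_const _

theorem integral_LR (b : Bool) (β : ℝ) : ∫ g, LR b n β g ∂couplingLaw b n = 1 := by
  simpa [(wt_gibbs β _).mean_const] using
    planted_inv (n := n) b β (F := fun _ _ => 1) (G := fun _ => 1) (fun _ _ => rfl)
      (integrable_const _)

theorem integral_Z (b : Bool) (β : ℝ) :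
    ∫ g, Zw (gibbsWeight n β g) ∂couplingLaw b n = EZ b n β := by
  have := integral_LR (n := n) b β
  simp only [LR] at this
  rwa [integral_div, div_eq_one_iff_eq (EZ_pos b n β).ne'] at this

/-- gauge-invariant functions of the couplings: `E_pl G = E[LR · G]` -/
theorem integral_pl_inv (b : Bool) (β : ℝ) {G : (Pair n → ℝ) → ℝ}
    (h : ∀ x ξ, G (tau x * ξ) = G ξ) (hG : Integrable G (pl b n β)) :
    ∫ ξ, G ξ ∂pl b n β = ∫ g, LR b n β g * G g ∂couplingLaw b n := by
  simpa only [(wt_gibbs β _).mean_const] using (planted_inv b β (F := fun _ => G) h hG).symm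

lemma setOf_LR (b : Bool) (β η : ℝ) :
    {g | Zw (gibbsWeight n β g) < η * EZ b n β} = {g | LR b n β g < η} := by
  ext g; simp only [Set.mem_ofPred_eq, LR, div_lt_iff₀ (EZ_pos b n β)]

/-- **transfer**, function form -/
theorem transfer_mean (b : Bool) (β : ℝ) {F : Cube n → (Pair n → ℝ) → ℝ} (h0 : ∀ x g, 0 ≤ F x g)
    (hF : ∀ x, Integrable (fun ξ => F x (tau x * ξ)) (pl b n β)) {ε η : ℝ} (hε : 0 < ε)
    (hη : 0 < η) :
    (couplingLaw b n).real {g | ε ≤ mean (gibbsWeight n β g) fun x => F x g} ≤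
      (couplingLaw b n).real {g | LR b n β g < η} +
        (∑ x, ∫ ξ, F x (tau x * ξ) ∂pl b n β) / 2 ^ n / (ε * η) := by
  have h := transfer_fun b (c := fun _ => 1) (fun _ => zero_le_one) (fun x => th n β • tau x) h0
    (fun x => (integrable_plant b β x _).2 (hF x)) hε (mul_pos hη (EZ_pos b n β))
  simp only [← gibbsWeight_eq_rwt, ← couplingLaw_eq_law, setOf_LR, MM_tau, integral_plant, one_mul,
    ← Finset.mul_sum] at h
  refine h.trans_eq ?_
  have := (pow_pos (M_pos b (th n β)) (Fintype.card (Pair n))).ne'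
  rw [EZ]
  field_simp

theorem transfer_mean_inv (b : Bool) (β : ℝ) {F : Cube n → (Pair n → ℝ) → ℝ}
    {G : (Pair n → ℝ) → ℝ} (h0 : ∀ x g, 0 ≤ F x g) (h : ∀ x ξ, F x (tau x * ξ) = G ξ)
    (hG : Integrable G (pl b n β)) {ε η : ℝ} (hε : 0 < ε) (hη : 0 < η) :
    (couplingLaw b n).real {g | ε ≤ mean (gibbsWeight n β g) fun x => F x g} ≤
      (couplingLaw b n).real {g | LR b n β g < η} + (∫ ξ, G ξ ∂pl b n β) / (ε * η) := by
  simpa [h] using transfer_mean b β h0 (fun x => by simpa only [h] using hG) hε hη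

/-- **transfer** of arbitrary events -/
theorem transfer_mass (b : Bool) (β : ℝ) (A : Cube n → Set (Pair n → ℝ)) {ε η : ℝ} (hε : 0 < ε)
    (hη : 0 < η) :
    (couplingLaw b n).real {g | ε ≤ mass (gibbsWeight n β g) {x | g ∈ A x}} ≤
      (couplingLaw b n).real {g | LR b n β g < η} +
        (∑ x, (pl b n β).real {ξ | tau x * ξ ∈ A x}) / 2 ^ n / (ε * η) := by
  have h := transfer_set b (c := fun _ => 1) (fun _ => zero_le_one) (fun x => th n β • tau x) A
    hε (mul_pos hη (EZ_pos b n β))
  simp only [← gibbsWeight_eq_rwt, ← couplingLaw_eq_law, setOf_LR, MM_tau, real_plant, one_mul,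
    ← Finset.mul_sum] at h
  refine h.trans_eq ?_
  have := (pow_pos (M_pos b (th n β)) (Fintype.card (Pair n))).ne'
  rw [EZ]
  field_simp

theorem transfer_mass_inv (b : Bool) (β : ℝ) {A : Cube n → Set (Pair n → ℝ)}
    {B : Set (Pair n → ℝ)} (h : ∀ x ξ, tau x * ξ ∈ A x → ξ ∈ B) {ε η : ℝ} (hε : 0 < ε)
    (hη : 0 < η) :
    (couplingLaw b n).real {g | ε ≤ mass (gibbsWeight n β g) {x | g ∈ A x}} ≤
      (couplingLaw b n).real {g | LR b n β g < η} + (pl b n β).real B / (ε * η) := by
  refine (transfer_mass b β A hε hη).trans (add_le_add le_rfl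
    (div_le_div_of_nonneg_right ?_ (mul_pos hε hη).le))
  rw [div_le_iff₀ (by positivity), ← card_cube, mul_comm, ← nsmul_eq_mul, ← Finset.card_univ,
    ← Finset.sum_const]
  exact Finset.sum_le_sum fun x _ => measureReal_mono (h x)

/-- the disorder average of the Gibbs measure is uniform -/
theorem integral_prob (b : Bool) (β : ℝ) (x : Cube n) :
    ∫ g, prob (gibbsWeight n β g) x ∂couplingLaw b n = 1 / 2 ^ n := by
  have hI : ∀ x : Cube n, Integrable (fun g => prob (gibbsWeight n β g) x) (couplingLaw b n) :=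
    fun x => (integrable_const 1).mono' (continuous_prob β x).aestronglyMeasurable
      (.of_forall fun g => by
        rw [Real.norm_of_nonneg ((wt_gibbs β g).prob_nonneg x)]; exact (wt_gibbs β g).prob_le_one x)
  have h1 : ∀ y : Cube n, ∫ g, prob (gibbsWeight n β g) y ∂couplingLaw b n =
      ∫ g, prob (gibbsWeight n β g) x ∂couplingLaw b n := fun y => by
    rw [← integral_gauge b (cmul x y)]
    simp only [prob_gauge]
    rw [cmul_comm x y, cmul_comm _ y, cmul_cmul]
  have h2 := integral_finsetSum Finset.univ fun x _ => hI x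
  simp only [(wt_gibbs β _).sum_prob, h1, integral_const, probReal_univ, smul_eq_mul, mul_one,
    Finset.sum_const, Finset.card_univ, nsmul_eq_mul, card_cube] at h2
  rw [eq_div_iff (by positivity), mul_comm, ← h2]

theorem integrable_mean (b : Bool) (β : ℝ) (f : Cube n → ℝ) :
    Integrable (fun g => mean (gibbsWeight n β g) f) (couplingLaw b n) :=
  integrable_finsetSum _ fun x _ => ((integrable_const 1).mono'
    (continuous_prob β x).aestronglyMeasurable (.of_forall fun g => by
      rw [Real.norm_of_nonneg ((wt_gibbs β g).prob_nonneg x)]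
      exact (wt_gibbs β g).prob_le_one x)).mul_const _

theorem integral_mean (b : Bool) (β : ℝ) (f : Cube n → ℝ) :
    ∫ g, mean (gibbsWeight n β g) f ∂couplingLaw b n = (∑ x, f x) / 2 ^ n := by
  simp only [mean]
  rw [integral_finsetSum _ fun x _ => ((integrable_const 1).mono'
    (continuous_prob β x).aestronglyMeasurable (.of_forall fun g => by
      rw [Real.norm_of_nonneg ((wt_gibbs β g).prob_nonneg x)]
      exact (wt_gibbs β g).prob_le_one x)).mul_const _, Finset.sum_div]
  exact Finset.sum_congr rfl fun x _ => by rw [integral_mul_const, integral_prob]; ring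

/-! ### replicas -/

section rep
variable {Ω κ : Type*} [Fintype Ω] [Fintype κ] [DecidableEq κ]

/-- product weight of independent replicas -/
def rep (κ : Type*) [Fintype κ] (w : Ω → ℝ) (xs : κ → Ω) : ℝ := ∏ a, w (xs a)

lemma Zw_rep (w : Ω → ℝ) : Zw (rep κ w) = Zw w ^ Fintype.card κ := by
  classical
  rw [Zw, Zw, ← Finset.card_univ, ← Finset.prod_const, Finset.prod_univ_sum, Fintype.piFinset_univ]
  rfl

lemma prob_rep (w : Ω → ℝ) (xs : κ → Ω) : prob (rep κ w) xs = ∏ a, prob w (xs a) := by
  have := Zw_rep (κ := κ) w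
  simp only [Zw] at this
  rw [prob, this]
  simp only [prob, rep, Finset.prod_div_distrib, Finset.prod_const, Finset.card_univ]

lemma rep_gibbs (β : ℝ) (g : Pair n → ℝ) :
    rep κ (gibbsWeight n β g) = rwt (fun _ => 1) (fun xs => th n β • ∑ a, tau (xs a)) g := by
  funext xs
  simp only [rep, rwt, gibbsWeight_eq, one_mul, ← exp_sum, Finset.smul_sum, dotProduct_sum]

/-- the planted identity for replicas -/
theorem planted_rep (b : Bool) (β : ℝ) {F : (κ → Cube n) → (Pair n → ℝ) → ℝ}
    (hF : ∀ xs, Integrable (F xs) (tilted b (th n β • ∑ a, tau (xs a)))) :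
    ∫ g, LR b n β g ^ Fintype.card κ * mean (rep κ (gibbsWeight n β g)) (fun xs => F xs g)
        ∂couplingLaw b n =
      ∑ xs, MM b (th n β • ∑ a, tau (xs a)) / EZ b n β ^ Fintype.card κ *
        ∫ g, F xs g ∂tilted b (th n β • ∑ a, tau (xs a)) := by
  have e : ∀ g, LR b n β g ^ Fintype.card κ * mean (rep κ (gibbsWeight n β g)) (fun xs => F xs g) =
      (∑ xs, rep κ (gibbsWeight n β g) xs * F xs g) / EZ b n β ^ Fintype.card κ := fun g => by
    rw [LR, div_pow, div_mul_eq_mul_div, ← Zw_rep, Zw_mul_mean]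
    rw [Zw_rep]; exact (pow_pos (Z_pos β g) _).ne'
  simp only [e]
  simp only [couplingLaw_eq_law, rep_gibbs]
  rw [integral_div, integral_sum_rwt b _ _ hF, Finset.sum_div]
  exact Finset.sum_congr rfl fun xs _ => by ring

/-- transfer for replicas -/
theorem transfer_rep (b : Bool) (β : ℝ) [Nonempty κ] (A : (κ → Cube n) → Set (Pair n → ℝ))
    {ε η : ℝ} (hε : 0 < ε) (hη : 0 < η) :
    (couplingLaw b n).real {g | ε ≤ mass (rep κ (gibbsWeight n β g)) {xs | g ∈ A xs}} ≤
      (couplingLaw b n).real {g | LR b n β g < η} +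
        (∑ xs, MM b (th n β • ∑ a, tau (xs a)) / EZ b n β ^ Fintype.card κ *
          (tilted b (th n β • ∑ a, tau (xs a))).real (A xs)) / (ε * η ^ Fintype.card κ) := by
  have h := transfer_set b (c := fun _ => 1) (fun _ => zero_le_one)
    (fun xs : κ → Cube n => th n β • ∑ a, tau (xs a)) A hε
    (pow_pos (mul_pos hη (EZ_pos b n β)) (Fintype.card κ))
  simp only [← rep_gibbs, ← couplingLaw_eq_law, Zw_rep, one_mul] at h
  refine h.trans (add_le_add (measureReal_mono fun g hg => ?_) (le_of_eq ?_))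
  · rw [← setOf_LR]
    exact lt_of_pow_lt_pow_left₀ _ (mul_pos hη (EZ_pos b n β)).le hg
  · rw [Finset.sum_div, Finset.sum_div]
    have := (EZ_pos b n β).ne'
    exact Finset.sum_congr rfl fun xs _ => by rw [mul_pow]; field_simp

end rep

end Crest.Agent.T157.Pl

end
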