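import Crest.Agent.T157.CondA_53

/-!
# Row 157, part E (helper53): Gaussian conditioning, part B — revealing one vector

`R` is the projector on the *unrevealed* subspace, `A` the revealed part, `glue A R W = A + R W R`.
A query `v` gives the direction `dirv R v` (unit vector along `R v`, or `0`), the new projector
`nextR R v`, the new revealed part `nextA A R v r` (`r` = the response) and the simulated response
`resp s A R v ξ`.

* `goe_resample` : `W - R W R + R W' R` is again GOE;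
* `goe_step`     : `glue A R W` has the law of `glue (nextA A R v (resp s A R v ξ)) (nextR R v) W'`;
* `glue_step_mulVec` : the latter matrix answers `v` by `resp s A R v ξ`;
* `glue_next`    : the true matrix is `glue (nextA A R v (W v)) (nextR R v)` of the same remainder.
-/

set_option autoImplicit false
set_option linter.unusedSectionVars false

noncomputable section

namespace Crest.Agent.T157.Cond

open MeasureTheory ProbabilityTheory Matrix Complex
open Crest.Agent.T157.E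

variable {ι : Type*} [Fintype ι]

/-- orthogonal projector -/
structure IsProj (R : Matrix ι ι ℝ) : Prop where
  symm : Rᵀ = R
  idem : R * R = R

lemma IsProj.one [DecidableEq ι] : IsProj (1 : Matrix ι ι ℝ) :=
  ⟨Matrix.transpose_one, Matrix.mul_one _⟩

lemma IsProj.zero : IsProj (0 : Matrix ι ι ℝ) := ⟨Matrix.transpose_zero, Matrix.mul_zero _⟩

lemma IsProj.compl [DecidableEq ι] {R : Matrix ι ι ℝ} (h : IsProj R) : IsProj (1 - R) :=
  ⟨by rw [Matrix.transpose_sub, Matrix.transpose_one, h.symm], by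
    rw [Matrix.sub_mul, Matrix.mul_sub, Matrix.mul_sub, h.idem]; simp⟩

lemma dot_symm {S : Matrix ι ι ℝ} (h : Sᵀ = S) (x y : ι → ℝ) : x ⬝ᵥ S *ᵥ y = S *ᵥ x ⬝ᵥ y := by
  rw [Matrix.dotProduct_mulVec, ← Matrix.mulVec_transpose, h]

lemma IsProj.dot {R : Matrix ι ι ℝ} (h : IsProj R) (x y : ι → ℝ) :
    x ⬝ᵥ R *ᵥ y = R *ᵥ x ⬝ᵥ y := dot_symm h.symm x y

lemma IsProj.mulVec_mulVec {R : Matrix ι ι ℝ} (h : IsProj R) (x : ι → ℝ) :
    R *ᵥ (R *ᵥ x) = R *ᵥ x := by rw [Matrix.mulVec_mulVec, h.idem]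

lemma IsProj.dot_self {R : Matrix ι ι ℝ} (h : IsProj R) (x y : ι → ℝ) :
    R *ᵥ x ⬝ᵥ R *ᵥ y = x ⬝ᵥ R *ᵥ y := by rw [← h.dot, h.mulVec_mulVec]

lemma dot_self_nonneg (x : ι → ℝ) : 0 ≤ x ⬝ᵥ x :=
  Finset.sum_nonneg fun i _ => mul_self_nonneg (x i)

/-- a projector does not increase the Euclidean norm -/
lemma IsProj.dot_le {R : Matrix ι ι ℝ} (h : IsProj R) (x : ι → ℝ) :
    R *ᵥ x ⬝ᵥ R *ᵥ x ≤ x ⬝ᵥ x := by
  have h1 := dot_self_nonneg (x - R *ᵥ x)
  have h2 := h.dot_self x x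
  rw [sub_dotProduct, dotProduct_sub, dotProduct_sub, dotProduct_comm (R *ᵥ x) x] at h1
  linarith

/-- Euclidean length -/
def len (u : ι → ℝ) : ℝ := Real.sqrt (u ⬝ᵥ u)

lemma len_nonneg (u : ι → ℝ) : 0 ≤ len u := Real.sqrt_nonneg _

lemma len_sq (u : ι → ℝ) : len u ^ 2 = u ⬝ᵥ u := Real.sq_sqrt (dot_self_nonneg u)

lemma len_eq_zero {u : ι → ℝ} : len u = 0 ↔ u = 0 := by
  rw [len, Real.sqrt_eq_zero (dot_self_nonneg u), dotProduct_self_eq_zero]

@[fun_prop] lemma _root_.Measurable.t157_len {Ω : Type*} [MeasurableSpace Ω] {u : Ω → ι → ℝ}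
    (hu : Measurable u) : Measurable fun ω => len (u ω) := by
  unfold len; fun_prop

/-- normalised vector (`0` for the zero vector) -/
def unitv (u : ι → ℝ) : ι → ℝ := (len u)⁻¹ • u

@[fun_prop] lemma _root_.Measurable.t157_unitv {Ω : Type*} [MeasurableSpace Ω] {u : Ω → ι → ℝ}
    (hu : Measurable u) : Measurable fun ω => unitv (u ω) := by
  unfold unitv; fun_prop

lemma unitv_zero : unitv (0 : ι → ℝ) = 0 := by simp [unitv]

lemma unitv_dot {u : ι → ℝ} (hu : u ≠ 0) : unitv u ⬝ᵥ unitv u = 1 := by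
  have h : len u ≠ 0 := fun h => hu (len_eq_zero.1 h)
  rw [unitv, smul_dotProduct, dotProduct_smul, ← len_sq, smul_eq_mul, smul_eq_mul]
  field_simp

lemma unitv_cases (u : ι → ℝ) : unitv u ⬝ᵥ unitv u = 1 ∨ unitv u = 0 := by
  by_cases hu : u = 0
  · right; rw [hu, unitv_zero]
  · left; exact unitv_dot hu

lemma len_smul_unitv (u : ι → ℝ) : len u • unitv u = u := by
  by_cases hu : u = 0
  · rw [hu, unitv_zero, smul_zero]
  · have h : len u ≠ 0 := fun h => hu (len_eq_zero.1 h)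
    rw [unitv, smul_smul, mul_inv_cancel₀ h, one_smul]

lemma unitv_dot_self (u : ι → ℝ) : unitv u ⬝ᵥ u = len u := by
  by_cases hu : u = 0
  · rw [hu, dotProduct_zero, len_eq_zero.2 rfl]
  · have h : len u ≠ 0 := fun h => hu (len_eq_zero.1 h)
    rw [unitv, smul_dotProduct, ← len_sq, smul_eq_mul]
    field_simp

lemma unitv_dot_le (u : ι → ℝ) : unitv u ⬝ᵥ unitv u ≤ 1 := by
  rcases unitv_cases u with h | h
  · exact h.le
  · rw [h]; simp

/-- new direction revealed by the query `v` -/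
def dirv (R : Matrix ι ι ℝ) (v : ι → ℝ) : ι → ℝ := unitv (R *ᵥ v)

/-- projector on the subspace that stays unrevealed after the query `v` -/
def nextR (R : Matrix ι ι ℝ) (v : ι → ℝ) : Matrix ι ι ℝ := R - vecMulVec (dirv R v) (dirv R v)

/-- law of `R W e` for a unit GOE `W`, `e = dirv R v` -/
def noise (R : Matrix ι ι ℝ) (v ξ : ι → ℝ) : ι → ℝ :=
  nextR R v *ᵥ ξ + (Real.sqrt 2 * (dirv R v ⬝ᵥ ξ)) • dirv R v

/-- simulated response to the query `v` -/
def resp (s : ℝ) (A R : Matrix ι ι ℝ) (v ξ : ι → ℝ) : ι → ℝ :=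
  A *ᵥ v + (s * len (R *ᵥ v)) • noise R v ξ

/-- the symmetric rank-two matrix with `e`-column `w` -/
def rk2 (w e : ι → ℝ) : Matrix ι ι ℝ :=
  vecMulVec w e + vecMulVec e w - (e ⬝ᵥ w) • vecMulVec e e

/-- revealed part after the query `v` with response `r` -/
def nextA (A R : Matrix ι ι ℝ) (v r : ι → ℝ) : Matrix ι ι ℝ :=
  A + rk2 ((len (R *ᵥ v))⁻¹ • (r - A *ᵥ v)) (dirv R v)

/-- revealed part plus compressed remainder -/
def glue (A R W : Matrix ι ι ℝ) : Matrix ι ι ℝ := A + R * W * R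

section meas
variable {Ω : Type*} [MeasurableSpace Ω]

@[fun_prop] lemma _root_.Measurable.t157_dirv {R : Ω → Matrix ι ι ℝ} {v : Ω → ι → ℝ}
    (hR : Measurable R) (hv : Measurable v) : Measurable fun ω => dirv (R ω) (v ω) := by
  unfold dirv; fun_prop

@[fun_prop] lemma _root_.Measurable.t157_nextR {R : Ω → Matrix ι ι ℝ} {v : Ω → ι → ℝ}
    (hR : Measurable R) (hv : Measurable v) : Measurable fun ω => nextR (R ω) (v ω) := by
  unfold nextR; fun_prop

@[fun_prop] lemma _root_.Measurable.t157_noise {R : Ω → Matrix ι ι ℝ} {v ξ : Ω → ι → ℝ}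
    (hR : Measurable R) (hv : Measurable v) (hξ : Measurable ξ) :
    Measurable fun ω => noise (R ω) (v ω) (ξ ω) := by
  unfold noise; fun_prop

@[fun_prop] lemma _root_.Measurable.t157_resp (s : ℝ) {A R : Ω → Matrix ι ι ℝ} {v ξ : Ω → ι → ℝ}
    (hA : Measurable A) (hR : Measurable R) (hv : Measurable v) (hξ : Measurable ξ) :
    Measurable fun ω => resp s (A ω) (R ω) (v ω) (ξ ω) := by
  unfold resp; fun_prop

@[fun_prop] lemma _root_.Measurable.t157_rk2 {w e : Ω → ι → ℝ}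
    (hw : Measurable w) (he : Measurable e) : Measurable fun ω => rk2 (w ω) (e ω) := by
  unfold rk2; fun_prop

@[fun_prop] lemma _root_.Measurable.t157_nextA {A R : Ω → Matrix ι ι ℝ} {v r : Ω → ι → ℝ}
    (hA : Measurable A) (hR : Measurable R) (hv : Measurable v) (hr : Measurable r) :
    Measurable fun ω => nextA (A ω) (R ω) (v ω) (r ω) := by
  unfold nextA; fun_prop

@[fun_prop] lemma _root_.Measurable.t157_glue {A R W : Ω → Matrix ι ι ℝ}
    (hA : Measurable A) (hR : Measurable R) (hW : Measurable W) :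
    Measurable fun ω => glue (A ω) (R ω) (W ω) := by
  unfold glue; fun_prop

end meas

lemma vmv_mulVec (u v w : ι → ℝ) : vecMulVec u v *ᵥ w = (v ⬝ᵥ w) • u := by
  funext i
  simp only [Matrix.mulVec, dotProduct, vecMulVec_apply, Pi.smul_apply, smul_eq_mul,
    Finset.sum_mul]
  exact Finset.sum_congr rfl fun j _ => by ring

lemma vmv_mul (u v : ι → ℝ) (M : Matrix ι ι ℝ) : vecMulVec u v * M = vecMulVec u (Mᵀ *ᵥ v) := by
  rw [Matrix.vecMulVec_mul, Matrix.mulVec_transpose]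

lemma trace_mul_vmv (X : Matrix ι ι ℝ) (u v : ι → ℝ) :
    (X * vecMulVec u v).trace = v ⬝ᵥ X *ᵥ u := by
  rw [Matrix.mul_vecMulVec, Matrix.trace_vecMulVec, dotProduct_comm]

section step
variable {R : Matrix ι ι ℝ} (hR : IsProj R) (v : ι → ℝ)
include hR

lemma R_dirv : R *ᵥ dirv R v = dirv R v := by
  rw [dirv, unitv, Matrix.mulVec_smul, hR.mulVec_mulVec]

lemma dirv_dot_v : dirv R v ⬝ᵥ v = len (R *ᵥ v) := by
  rw [← R_dirv hR v, ← hR.dot, dirv, unitv_dot_self]

lemma nextR_dirv : nextR R v *ᵥ dirv R v = 0 := by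
  rw [nextR, Matrix.sub_mulVec, R_dirv hR, vmv_mulVec]
  rcases unitv_cases (R *ᵥ v) with h | h
  · rw [dirv, h, one_smul, sub_self]
  · rw [dirv, h]; simp

lemma nextR_v : nextR R v *ᵥ v = 0 := by
  rw [nextR, Matrix.sub_mulVec, vmv_mulVec, dirv_dot_v hR, dirv, len_smul_unitv, sub_self]

lemma R_mul_nextR : R * nextR R v = nextR R v := by
  rw [nextR, Matrix.mul_sub, hR.idem, Matrix.mul_vecMulVec, R_dirv hR]

lemma nextR_symm : (nextR R v)ᵀ = nextR R v := by
  rw [nextR, Matrix.transpose_sub, hR.symm, Matrix.transpose_vecMulVec]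

lemma nextR_mul_R : nextR R v * R = nextR R v := by
  have := congrArg Matrix.transpose (R_mul_nextR hR v)
  rwa [Matrix.transpose_mul, nextR_symm hR, hR.symm] at this

lemma IsProj.nextR : IsProj (nextR R v) := by
  refine ⟨nextR_symm hR v, ?_⟩
  conv_lhs => enter [2]; rw [Cond.nextR]
  rw [Matrix.mul_sub, nextR_mul_R hR, Matrix.mul_vecMulVec, nextR_dirv hR]
  simp

/-- what was killed stays killed -/
lemma nextR_mulVec_of {x : ι → ℝ} (hx : R *ᵥ x = 0) : nextR R v *ᵥ x = 0 := by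
  rw [← nextR_mul_R hR, ← Matrix.mulVec_mulVec, hx, Matrix.mulVec_zero]

lemma R_noise (ξ : ι → ℝ) : R *ᵥ noise R v ξ = noise R v ξ := by
  rw [noise, Matrix.mulVec_add, Matrix.mulVec_mulVec, R_mul_nextR hR, Matrix.mulVec_smul,
    R_dirv hR]

lemma dirv_dot_nextR (ξ : ι → ℝ) : dirv R v ⬝ᵥ nextR R v *ᵥ ξ = 0 := by
  rw [(hR.nextR v).dot, nextR_dirv hR, zero_dotProduct]

/-- second form of the noise: `R ξ + (√2 - 1) (e·ξ) e` -/
lemma noise_eq (ξ : ι → ℝ) :
    noise R v ξ = R *ᵥ ξ + ((Real.sqrt 2 - 1) * (dirv R v ⬝ᵥ ξ)) • dirv R v := by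
  rw [noise, nextR, Matrix.sub_mulVec, vmv_mulVec, sub_mul, sub_smul, one_mul]
  abel

omit hR in
lemma rk2_zero_right (w : ι → ℝ) : rk2 w (0 : ι → ℝ) = 0 := by simp [rk2]

omit hR in
lemma rk2_smul (c : ℝ) (w e : ι → ℝ) : rk2 (c • w) e = c • rk2 w e := by
  simp only [rk2, Matrix.smul_vecMulVec, Matrix.vecMulVec_smul, dotProduct_smul, smul_eq_mul,
    smul_sub, smul_add, smul_smul]

omit hR in
lemma rk2_symm (w e : ι → ℝ) : (rk2 w e)ᵀ = rk2 w e := by
  simp only [rk2, Matrix.transpose_sub, Matrix.transpose_add, Matrix.transpose_smul,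
    Matrix.transpose_vecMulVec]
  rw [add_comm]

omit hR in
lemma nextA_symm {A : Matrix ι ι ℝ} (hA : Aᵀ = A) (r : ι → ℝ) :
    (nextA A R v r)ᵀ = nextA A R v r := by
  rw [nextA, Matrix.transpose_add, hA, rk2_symm]

lemma nextR_rk2_nextR (w : ι → ℝ) : nextR R v * rk2 w (dirv R v) * nextR R v = 0 := by
  have h := nextR_dirv hR v
  simp only [rk2, Matrix.mul_sub, Matrix.mul_add, Matrix.sub_mul, Matrix.add_mul, Matrix.mul_smul,
    Matrix.smul_mul, Matrix.mul_vecMulVec, vmv_mul, nextR_symm hR, h]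
  simp

/-- the invariant `R A R = 0` is kept -/
lemma nextR_nextA_nextR {A : Matrix ι ι ℝ} (hA : R * A * R = 0) (r : ι → ℝ) :
    nextR R v * nextA A R v r * nextR R v = 0 := by
  rw [nextA, Matrix.mul_add, Matrix.add_mul, nextR_rk2_nextR hR, add_zero]
  calc nextR R v * A * nextR R v = (nextR R v * R) * A * (R * nextR R v) := by
        rw [nextR_mul_R hR, R_mul_nextR hR]
    _ = nextR R v * (R * A * R) * nextR R v := by simp only [Matrix.mul_assoc]
    _ = 0 := by rw [hA]; simp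

omit hR in
lemma nextA_resp (s : ℝ) (A : Matrix ι ι ℝ) (ξ : ι → ℝ) :
    nextA A R v (resp s A R v ξ) = A + s • rk2 (noise R v ξ) (dirv R v) := by
  rw [nextA, resp, add_sub_cancel_left, smul_smul, rk2_smul]
  by_cases h : len (R *ᵥ v) = 0
  · have h0 : dirv R v = 0 := by rw [dirv, len_eq_zero.1 h, unitv_zero]
    rw [h0, rk2_zero_right, smul_zero, smul_zero]
  · congr 2
    field_simp

lemma rk2_mulVec_v {w : ι → ℝ} (hw : R *ᵥ w = w) :
    rk2 w (dirv R v) *ᵥ v = len (R *ᵥ v) • w := by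
  have h1 : w ⬝ᵥ v = len (R *ᵥ v) * (dirv R v ⬝ᵥ w) := by
    rw [← hw, ← hR.dot, hw]
    conv_lhs => rw [← len_smul_unitv (R *ᵥ v)]
    rw [dotProduct_smul, smul_eq_mul, dirv, dotProduct_comm]
  rw [rk2, Matrix.sub_mulVec, Matrix.add_mulVec, Matrix.smul_mulVec, vmv_mulVec, vmv_mulVec,
    vmv_mulVec, dirv_dot_v hR, h1, smul_smul, mul_comm (dirv R v ⬝ᵥ w), add_sub_cancel_right]

/-- the simulated matrix answers the query `v` by the simulated response -/
theorem glue_step_mulVec (s : ℝ) (A W : Matrix ι ι ℝ) (ξ : ι → ℝ) :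
    glue (nextA A R v (resp s A R v ξ)) (nextR R v) W *ᵥ v = resp s A R v ξ := by
  rw [glue, Matrix.add_mulVec, ← Matrix.mulVec_mulVec, nextR_v hR, Matrix.mulVec_zero, add_zero,
    nextA_resp, Matrix.add_mulVec, Matrix.smul_mulVec, rk2_mulVec_v hR v (R_noise hR v ξ), resp,
    smul_smul]

/-- deterministic update: the true matrix in terms of the new frame -/
theorem glue_next (A : Matrix ι ι ℝ) {W : Matrix ι ι ℝ} (hW : Wᵀ = W) :
    glue (nextA A R v (glue A R W *ᵥ v)) (nextR R v) W = glue A R W := by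
  set e := dirv R v with he
  have hw : rk2 ((len (R *ᵥ v))⁻¹ • (glue A R W *ᵥ v - A *ᵥ v)) e = rk2 (R *ᵥ (W *ᵥ e)) e := by
    congr 1
    rw [glue, Matrix.add_mulVec, add_sub_cancel_left, ← Matrix.mulVec_mulVec,
      ← Matrix.mulVec_mulVec, he, dirv, unitv, Matrix.mulVec_smul, Matrix.mulVec_smul]
  have hRe : R *ᵥ e = e := R_dirv hR v
  rw [glue, nextA, hw, glue, add_assoc]
  congr 1
  rw [nextR, ← he, rk2, hR.dot, hRe]
  simp only [Matrix.mul_sub, Matrix.sub_mul, Matrix.mul_vecMulVec, vmv_mul, hW, hR.symm,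
    vmv_mulVec, Matrix.mulVec_mulVec, Matrix.sub_mulVec, Matrix.sub_vecMulVec, Matrix.smul_vecMulVec, dotProduct_comm (W *ᵥ e) e]
  abel

end step

/-! ### laws -/

lemma Vq_proj {R : Matrix ι ι ℝ} (hR : IsProj R) (M : Matrix ι ι ℝ) :
    Vq (R * M * R) = ((M + Mᵀ) * R * (M + Mᵀ) * R).trace / 2 := by
  have h1 : R * M * R + (R * M * R)ᵀ = R * (M + Mᵀ) * R := by
    simp only [Matrix.transpose_mul, hR.symm, Matrix.mul_add, Matrix.add_mul, Matrix.mul_assoc]
  rw [Vq, h1]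
  congr 1
  have h2 : R * (M + Mᵀ) * R * (R * (M + Mᵀ) * R) = R * ((M + Mᵀ) * (R * R) * (M + Mᵀ) * R) := by
    simp only [Matrix.mul_assoc]
  rw [h2, hR.idem, Matrix.trace_mul_comm, Matrix.mul_assoc _ R R, hR.idem]

lemma Vq_split {R : Matrix ι ι ℝ} (hR : IsProj R) (M : Matrix ι ι ℝ) :
    Vq M = Vq (M - R * M * R) + Vq (R * M * R) := by
  rw [Vq_proj hR]
  set S := M + Mᵀ with hS
  have h1 : M - R * M * R + (M - R * M * R)ᵀ = S - R * S * R := by
    simp only [hS, Matrix.transpose_sub, Matrix.transpose_mul, hR.symm, Matrix.mul_add,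
      Matrix.add_mul, Matrix.mul_assoc]
    abel
  rw [Vq, Vq, h1, ← hS]
  have h2 : (S * (R * S * R)).trace = (S * R * S * R).trace := by simp only [Matrix.mul_assoc]
  have h3 : (R * S * R * S).trace = (S * R * S * R).trace := by
    rw [Matrix.trace_mul_comm]; simp only [Matrix.mul_assoc]
  have h4 : (R * S * R * (R * S * R)).trace = (S * R * S * R).trace := by
    have : R * S * R * (R * S * R) = R * (S * (R * R) * S * R) := by simp only [Matrix.mul_assoc]
    rw [this, hR.idem, Matrix.trace_mul_comm, Matrix.mul_assoc _ R R, hR.idem]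
  simp only [Matrix.sub_mul, Matrix.mul_sub, Matrix.trace_sub, h2, h3, h4]
  ring

lemma CF_goe_compress {R : Matrix ι ι ℝ} (hR : IsProj R) (s : ℝ) (M : Matrix ι ι ℝ) :
    CF (goe ι s) (fun W => pair M (R * W * R)) =
      cexp (-((s ^ 2 * Vq (R * M * R) : ℝ) : ℂ) / 2) := by
  simp_rw [pair_mul_mul, hR.symm]
  exact CF_goe s _

/-- **resampling off a fixed frame**: `W - R W R + R W' R` is a GOE matrix -/
theorem goe_resample {R : Matrix ι ι ℝ} (hR : IsProj R) (s : ℝ) :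
    ((goe ι s).prod (goe ι s)).map (fun p => glue (p.1 - R * p.1 * R) R p.2) = goe ι s := by
  refine map_eq_goe (by fun_prop) fun M => ?_
  have h1 : ∀ p : Matrix ι ι ℝ × Matrix ι ι ℝ, pair M (glue (p.1 - R * p.1 * R) R p.2) =
      pair (M - R * M * R) p.1 + pair M (R * p.2 * R) := by
    intro p
    rw [glue, pair_add, pair_sub, sub_pair, pair_mul_mul M R p.1 R, hR.symm]
  simp_rw [h1]
  rw [CF_prod (goe ι s) (goe ι s) (fun W => pair (M - R * M * R) W)
    (fun W => pair M (R * W * R)), CF_goe, CF_goe_compress hR, ← Complex.exp_add, Vq_split hR M]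
  congr 1
  push_cast
  ring

/-- the linear form of the rank-two noise -/
def avec (R M : Matrix ι ι ℝ) (v : ι → ℝ) : ι → ℝ :=
  nextR R v *ᵥ ((M + Mᵀ) *ᵥ dirv R v) + (Real.sqrt 2 * (dirv R v ⬝ᵥ M *ᵥ dirv R v)) • dirv R v

lemma pair_rk2_noise {R : Matrix ι ι ℝ} (hR : IsProj R) (v : ι → ℝ) (M : Matrix ι ι ℝ)
    (ξ : ι → ℝ) : pair M (rk2 (noise R v ξ) (dirv R v)) = avec R M v ⬝ᵥ ξ := by
  rcases unitv_cases (R *ᵥ v) with h | h
  · set e := dirv R v with he
    have h' : e ⬝ᵥ e = 1 := h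
    have h0 : e ⬝ᵥ nextR R v *ᵥ ξ = 0 := dirv_dot_nextR hR v ξ
    have hT : ∀ x : ι → ℝ, e ⬝ᵥ M *ᵥ x = x ⬝ᵥ Mᵀ *ᵥ e := by
      intro x
      rw [Matrix.dotProduct_mulVec, ← Matrix.mulVec_transpose, dotProduct_comm]
    have h2 : nextR R v *ᵥ ((M + Mᵀ) *ᵥ e) ⬝ᵥ ξ =
        nextR R v *ᵥ ξ ⬝ᵥ M *ᵥ e + nextR R v *ᵥ ξ ⬝ᵥ Mᵀ *ᵥ e := by
      rw [← (hR.nextR v).dot, dotProduct_comm, Matrix.add_mulVec, dotProduct_add]
    rw [rk2, pair_sub, pair_add, pair_smul, pair_vecMulVec, pair_vecMulVec, pair_vecMulVec, avec,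
      ← he, add_dotProduct, h2, noise, ← he, Matrix.mulVec_add, dotProduct_add, dotProduct_add,
      add_dotProduct, h0, hT (nextR R v *ᵥ ξ)]
    simp only [smul_dotProduct, dotProduct_smul, Matrix.mulVec_smul, smul_eq_mul, h']
    ring
  · have h0 : dirv R v = 0 := h
    rw [avec, h0, rk2_zero_right]
    simp [pair]

lemma Vq_step {R : Matrix ι ι ℝ} (hR : IsProj R) (v : ι → ℝ) (M : Matrix ι ι ℝ) :
    Vq (R * M * R) = avec R M v ⬝ᵥ avec R M v + Vq (nextR R v * M * nextR R v) := by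
  rcases unitv_cases (R *ᵥ v) with h | h
  · set e := dirv R v with he
    have h' : e ⬝ᵥ e = 1 := h
    have hR' := hR.nextR v
    set R' := nextR R v with hR'def
    have hsum : R = R' + vecMulVec e e := by rw [hR'def, nextR, ← he, sub_add_cancel]
    rw [Vq_proj hR, Vq_proj hR']
    set S := M + Mᵀ with hS
    have hSs : Sᵀ = S := by rw [hS, Matrix.transpose_add, Matrix.transpose_transpose, add_comm]
    have h2 : Real.sqrt 2 ^ 2 = 2 := Real.sq_sqrt (by norm_num)
    have hSe : e ⬝ᵥ S *ᵥ e = 2 * (e ⬝ᵥ M *ᵥ e) := by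
      rw [hS, Matrix.add_mulVec, dotProduct_add, Matrix.mulVec_transpose,
        dotProduct_comm e (e ᵥ* M), ← Matrix.dotProduct_mulVec]
      ring
    have t1 : (S * R' * S * vecMulVec e e).trace = S *ᵥ e ⬝ᵥ R' *ᵥ (S *ᵥ e) := by
      rw [trace_mul_vmv, ← Matrix.mulVec_mulVec, ← Matrix.mulVec_mulVec, dot_symm hSs]
    have t2 : (S * vecMulVec e e * S * R').trace = S *ᵥ e ⬝ᵥ R' *ᵥ (S *ᵥ e) := by
      rw [← t1, Matrix.mul_assoc (S * vecMulVec e e), Matrix.trace_mul_comm]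
      simp only [Matrix.mul_assoc]
    have t3 : (S * vecMulVec e e * S * vecMulVec e e).trace = (e ⬝ᵥ S *ᵥ e) ^ 2 := by
      rw [trace_mul_vmv, ← Matrix.mulVec_mulVec, ← Matrix.mulVec_mulVec, vmv_mulVec,
        Matrix.mulVec_smul, dotProduct_smul, smul_eq_mul, sq]
    have t4 : avec R M v ⬝ᵥ avec R M v =
        S *ᵥ e ⬝ᵥ R' *ᵥ (S *ᵥ e) + 2 * (e ⬝ᵥ M *ᵥ e) ^ 2 := by
      have h0 : e ⬝ᵥ R' *ᵥ (S *ᵥ e) = 0 := dirv_dot_nextR hR v _
      rw [avec, ← he, ← hR'def, ← hS, add_dotProduct, dotProduct_add, dotProduct_add,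
        hR'.dot_self]
      simp only [smul_dotProduct, dotProduct_smul, smul_eq_mul, h',
        dotProduct_comm (R' *ᵥ (S *ᵥ e)) e, h0]
      linear_combination (e ⬝ᵥ M *ᵥ e) ^ 2 * h2
    rw [t4]
    conv_lhs => rw [hsum]
    simp only [Matrix.mul_add, Matrix.add_mul, Matrix.trace_add, t1, t2, t3, hSe]
    ring
  · have h0 : dirv R v = 0 := h
    have h1 : nextR R v = R := by rw [nextR, h0]; simp
    rw [avec, h0, h1]
    simp

/-- **one query, centred form** -/
theorem goe_step0 {R : Matrix ι ι ℝ} (hR : IsProj R) (v : ι → ℝ) (s : ℝ) :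
    (goe ι s).map (fun W => R * W * R) = ((gv ι).prod (goe ι s)).map
      (fun p => s • rk2 (noise R v p.1) (dirv R v) + nextR R v * p.2 * nextR R v) := by
  refine ext_mat (by fun_prop) (by fun_prop) fun M => ?_
  have h1 : ∀ p : (ι → ℝ) × Matrix ι ι ℝ,
      pair M (s • rk2 (noise R v p.1) (dirv R v) + nextR R v * p.2 * nextR R v) =
        (s • avec R M v) ⬝ᵥ p.1 + pair M (nextR R v * p.2 * nextR R v) := by
    intro p
    rw [pair_add, pair_smul, pair_rk2_noise hR, smul_dotProduct, smul_eq_mul]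
  simp_rw [h1]
  rw [CF_prod (gv ι) (goe ι s) (fun ξ => (s • avec R M v) ⬝ᵥ ξ)
    (fun W => pair M (nextR R v * W * nextR R v)), CF_gv, CF_goe_compress hR,
    CF_goe_compress (hR.nextR v), ← Complex.exp_add, Vq_step hR v M, smul_dotProduct,
    dotProduct_smul, smul_eq_mul, smul_eq_mul]
  congr 1
  push_cast
  ring

/-- **one query**: the law of `A + R W R` in terms of a fresh Gaussian vector and a fresh GOE -/
theorem goe_step {R : Matrix ι ι ℝ} (hR : IsProj R) (A : Matrix ι ι ℝ) (v : ι → ℝ) (s : ℝ) :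
    (goe ι s).map (fun W => glue A R W) = ((gv ι).prod (goe ι s)).map
      (fun p => glue (nextA A R v (resp s A R v p.1)) (nextR R v) p.2) := by
  have h := congrArg (Measure.map fun X : Matrix ι ι ℝ => A + X) (goe_step0 hR v s)
  rw [Measure.map_map (by fun_prop) (by fun_prop), Measure.map_map (by fun_prop) (by fun_prop)] at h
  refine h.trans ?_
  congr 1
  funext p
  simp only [Function.comp, glue, nextA_resp, add_assoc]

/-- law of `W v` for a fixed vector -/
theorem goe_mulVec [DecidableEq ι] (v : ι → ℝ) (s : ℝ) :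
    (goe ι s).map (fun W => W *ᵥ v) = (gv ι).map (fun ξ => resp s 0 1 v ξ) := by
  have h := congrArg (Measure.map fun X : Matrix ι ι ℝ => X *ᵥ v) (goe_step IsProj.one 0 v s)
  rw [Measure.map_map (by fun_prop) (by fun_prop), Measure.map_map (by fun_prop) (by fun_prop)] at h
  have e1 : ((fun X : Matrix ι ι ℝ => X *ᵥ v) ∘ fun W => glue 0 1 W) = fun W => W *ᵥ v := by
    funext W; simp [glue]
  have e2 : ((fun X : Matrix ι ι ℝ => X *ᵥ v) ∘ fun p : (ι → ℝ) × Matrix ι ι ℝ =>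
      glue (nextA 0 1 v (resp s 0 1 v p.1)) (nextR 1 v) p.2) =
      (fun ξ => resp s 0 1 v ξ) ∘ Prod.fst := by
    funext p; exact glue_step_mulVec IsProj.one v s 0 p.2 p.1
  rw [e1, e2, ← Measure.map_map (by fun_prop) measurable_fst, Measure.map_fst_prod] at h
  simpa using h

end Crest.Agent.T157.Cond

end
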