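import Crest.Agent.T157.SLD_23

/-!
# Row 157: stochastic localisation, Gronwall lemmas, conservation, the cube (helper23)
-/

set_option autoImplicit false
set_option linter.unusedSectionVars false

noncomputable section

namespace Crest.Agent.T157.SL

open MeasureTheory ProbabilityTheory Filter Topology Set Real Matrix
open Crest.Agent.T157.E
open Crest.ProbabilityR.SpinGlassDynamics (spin)

variable {Ω ι : Type*} [Fintype Ω] [Fintype ι] [DecidableEq ι] {φ : Ω → ι → ℝ} {v w f g : Ω → ℝ}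
  {I : Set ℝ} {G H a : Pt ι → ℝ} {b d : ι → Pt ι → ℝ} {s t : ℝ}

/-! ### Gronwall -/

/-- Gronwall's lemma, with antiderivatives -/
theorem gron0 {u u' K κ E e : ℝ → ℝ} (hst : s ≤ t) (hu : ContinuousOn u (Icc s t))
    (hK : ContinuousOn K (Icc s t)) (hE : ContinuousOn E (Icc s t))
    (du : ∀ r ∈ Ioo s t, HasDerivAt u (u' r) r) (dK : ∀ r ∈ Ioo s t, HasDerivAt K (κ r) r)
    (dE : ∀ r ∈ Ioo s t, HasDerivAt E (e r) r)
    (h : ∀ r ∈ Ioo s t, 0 ≤ exp (K r) * (u' r + κ r * u r) + e r) :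
    exp (K s) * u s + E s ≤ exp (K t) * u t + E t :=
  monotoneOn_of_hasDerivWithinAt_nonneg (f := fun r => exp (K r) * u r + E r) (convex_Icc s t)
    ((hK.rexp.mul hu).add hE) (fun r hr => (((dK r (by simpa using hr)).exp.mul
      (du r (by simpa using hr))).add (dE r (by simpa using hr))).hasDerivWithinAt)
    (fun r hr => (h r (by simpa using hr)).trans_eq (by ring)) (left_mem_Icc.2 hst)
    (right_mem_Icc.2 hst) hst

theorem prim {κ : ℝ → ℝ} (hst : s ≤ t) (hκ : ContinuousOn κ (Icc s t)) :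
    ContinuousOn (fun r => ∫ q in s..r, κ q) (Icc s t) ∧
      ∀ r ∈ Ioo s t, HasDerivAt (fun r => ∫ q in s..r, κ q) (κ r) r :=
  ⟨by simpa only [uIcc_of_le hst] using (intervalIntegral.continuousOn_primitive_interval'
      (hκ.intervalIntegrable_of_Icc hst) left_mem_uIcc), fun r hr =>
    intervalIntegral.integral_hasDerivAt_right
      ((hκ.mono (Icc_subset_Icc_right hr.2.le)).intervalIntegrable_of_Icc hr.1.le)
      ((hκ.mono Ioo_subset_Icc_self).stronglyMeasurableAtFilter isOpen_Ioo r hr)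
      (hκ.continuousAt (Icc_mem_nhds hr.1 hr.2))⟩

/-- `u' ≥ -κ u - ε` -/
theorem gron_lower {u u' κ ε : ℝ → ℝ} (hst : s ≤ t) (hu : ContinuousOn u (Icc s t))
    (du : ∀ r ∈ Ioo s t, HasDerivAt u (u' r) r) (hκ : ContinuousOn κ (Icc s t))
    (hε : ContinuousOn ε (Icc s t)) (κ0 : ∀ r ∈ Icc s t, 0 ≤ κ r) (ε0 : ∀ r ∈ Icc s t, 0 ≤ ε r)
    (h : ∀ r ∈ Ioo s t, -(κ r * u r) - ε r ≤ u' r) :
    u s ≤ exp (∫ r in s..t, κ r) * (u t + ∫ r in s..t, ε r) := by
  have := gron0 hst hu (prim hst hκ).1 (continuousOn_const.mul (prim hst hε).1) du (prim hst hκ).2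
    (fun r hr => ((prim hst hε).2 r hr).const_mul (exp (∫ r in s..t, κ r))) fun r hr => by
      have h1 : ∫ q in s..r, κ q ≤ ∫ q in s..t, κ q :=
        intervalIntegral.integral_mono_interval le_rfl hr.1.le hr.2.le
          ((ae_restrict_mem measurableSet_Ioc).mono fun q hq => κ0 q (Ioc_subset_Icc_self hq))
          (hκ.intervalIntegrable_of_Icc hst)
      have h2 := mul_le_mul_of_nonneg_right (exp_le_exp.2 h1) (ε0 r (Ioo_subset_Icc_self hr))
      nlinarith [mul_le_mul_of_nonneg_left (h r hr) (exp_pos (∫ q in s..r, κ q)).le]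
  simpa [mul_add] using this

/-- `u' ≤ κ u + ε` -/
theorem gron_upper {u u' κ ε : ℝ → ℝ} (hst : s ≤ t) (hu : ContinuousOn u (Icc s t))
    (du : ∀ r ∈ Ioo s t, HasDerivAt u (u' r) r) (hκ : ContinuousOn κ (Icc s t))
    (hε : ContinuousOn ε (Icc s t)) (κ0 : ∀ r ∈ Icc s t, 0 ≤ κ r) (ε0 : ∀ r ∈ Icc s t, 0 ≤ ε r)
    (h : ∀ r ∈ Ioo s t, u' r ≤ κ r * u r + ε r) :
    u t ≤ exp (∫ r in s..t, κ r) * (u s + ∫ r in s..t, ε r) := by
  have := gron0 hst hu.neg (prim hst hκ).1.neg (prim hst hε).1 (fun r hr => (du r hr).neg)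
    (fun r hr => ((prim hst hκ).2 r hr).neg) (prim hst hε).2 fun r hr => by
      have h1 : 0 ≤ ∫ q in s..r, κ q := intervalIntegral.integral_nonneg hr.1.le fun q hq =>
        κ0 q (Icc_subset_Icc_right hr.2.le hq)
      have h2 := mul_le_mul_of_nonneg_right (exp_le_one_iff.2 (neg_nonpos.2 h1))
        (ε0 r (Ioo_subset_Icc_self hr))
      simp only [Pi.neg_apply]
      nlinarith [mul_le_mul_of_nonneg_left (h r hr) (exp_pos (-∫ q in s..r, κ q)).le]
  simp only [Pi.neg_apply, intervalIntegral.integral_same, neg_zero, exp_zero, exp_neg] at this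
  rw [← inv_mul_le_iff₀ (exp_pos _)]
  linarith

/-- `u' ≤ -κ u + ε`, constant rates -/
theorem gron_decay {u u' : ℝ → ℝ} {κ ε : ℝ} (hst : s ≤ t) (hu : ContinuousOn u (Icc s t))
    (du : ∀ r ∈ Ioo s t, HasDerivAt u (u' r) r) (κ0 : 0 < κ) (ε0 : 0 ≤ ε)
    (h : ∀ r ∈ Ioo s t, u' r ≤ -(κ * u r) + ε) : u t ≤ exp (-(κ * (t - s))) * u s + ε / κ := by
  have := gron0 (K := fun r => κ * (r - t)) (E := fun r => exp (κ * (r - t)) * (ε / κ)) hst hu.neg
    (by fun_prop) (by fun_prop) (fun r hr => (du r hr).neg)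
    (fun r _ => ((hasDerivAt_id' r).sub_const t).const_mul κ)
    (fun r _ => (((hasDerivAt_id' r).sub_const t).const_mul κ).exp.mul_const _) fun r hr => by
      simp only [Pi.neg_apply, mul_one, mul_assoc, mul_div_cancel₀ _ κ0.ne']
      nlinarith [mul_le_mul_of_nonneg_left (h r hr) (exp_pos (κ * (r - t))).le]
  simp only [Pi.neg_apply, sub_self, mul_zero, exp_zero] at this
  rw [← mul_neg, neg_sub]
  nlinarith [mul_nonneg (exp_pos (κ * (s - t))).le (div_nonneg ε0 κ0.le)]

theorem Ito.ex_lower (hv : Wt v) (hs : 0 ≤ s) (hst : s ≤ t) (h : Ito (md φ v) (Ioo s t) G a b)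
    (hG : EG (Icc s t) G) {κ ε : ℝ → ℝ} (hκ : ContinuousOn κ (Icc s t))
    (hε : ContinuousOn ε (Icc s t)) (κ0 : ∀ r ∈ Icc s t, 0 ≤ κ r) (ε0 : ∀ r ∈ Icc s t, 0 ≤ ε r)
    (ha : ∀ r ∈ Ioo s t, -(κ r * ex φ v G r) - ε r ≤ ex φ v a r) :
    ex φ v G s ≤ Real.exp (∫ r in s..t, κ r) * (ex φ v G t + ∫ r in s..t, ε r) :=
  gron_lower hst hG.continuousOn_ex (fun _ hr => h.hasDerivAt_ex hv (hs.trans_lt hr.1)
    (Ioo_mem_nhds hr.1 hr.2)) hκ hε κ0 ε0 ha

theorem Ito.ex_upper (hv : Wt v) (hs : 0 ≤ s) (hst : s ≤ t) (h : Ito (md φ v) (Ioo s t) G a b)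
    (hG : EG (Icc s t) G) {κ ε : ℝ → ℝ} (hκ : ContinuousOn κ (Icc s t))
    (hε : ContinuousOn ε (Icc s t)) (κ0 : ∀ r ∈ Icc s t, 0 ≤ κ r) (ε0 : ∀ r ∈ Icc s t, 0 ≤ ε r)
    (ha : ∀ r ∈ Ioo s t, ex φ v a r ≤ κ r * ex φ v G r + ε r) :
    ex φ v G t ≤ Real.exp (∫ r in s..t, κ r) * (ex φ v G s + ∫ r in s..t, ε r) :=
  gron_upper hst hG.continuousOn_ex (fun _ hr => h.hasDerivAt_ex hv (hs.trans_lt hr.1)
    (Ioo_mem_nhds hr.1 hr.2)) hκ hε κ0 ε0 ha

/-! ### approximate conservation -/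

theorem Wt.var_le_mean (hw : Wt w) (f : Ω → ℝ) (c : ℝ) : var w f ≤ mean w fun x => (f x - c) ^ 2 :=
  hw.isP.var_le_sq f c

/-- the bad term of the variance: `R` bounds all covariance matrices -/
theorem bad_var_le (hw : Wt w) (ht : 0 ≤ t) {A : Set (ι → ℝ)} (hA : MeasurableSet A) {R : ℝ}
    (R0 : 0 ≤ R) (hR : ∀ y ∈ A, ∀ u, u ⬝ᵥ covMat (post φ w t y) φ *ᵥ u ≤ R * (u ⬝ᵥ u)) (f : Ω → ℝ)
    (c : ℝ) : (slE φ w t fun _ => A.indicator fun y => covV (post φ w t y) f φ ⬝ᵥ covV (post φ w t y) f φ)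
      ≤ R * mean w fun x => (f x - c) ^ 2 * px φ t A x := by
  have m := ((eg_mean (φ := φ) hw fun x => (f x - c) ^ 2).mg (mem_univ t)).indicator hA
  rw [← slE_indicator_mean hw ht hA, ← slE_const_mul]
  refine slE_mono hw (.of_mg fun _ => ((eg_covV_dot hw f f).mg (mem_univ t)).indicator hA)
    (.of_mg fun _ => m.const_mul R) fun _ y => ?_
  by_cases hy : y ∈ A
  · simp only [indicator_of_mem hy]
    exact ((hw.post _ _ _).covV_sq_le f R0 (hR y hy)).trans
      (mul_le_mul_of_nonneg_left ((hw.post _ _ _).var_le_mean f c) R0)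
  · simp [hy]

/-- **approximate conservation of variance** with bad events `A r` -/
theorem var_conserve (hw : Wt w) (hs : 0 ≤ s) (hst : s ≤ t) (f : Ω → ℝ) {κ ε : ℝ → ℝ}
    (hκ : ContinuousOn κ (Icc s t)) (hε : ContinuousOn ε (Icc s t)) (κ0 : ∀ r ∈ Icc s t, 0 ≤ κ r)
    (ε0 : ∀ r ∈ Icc s t, 0 ≤ ε r) {A : ℝ → Set (ι → ℝ)} (hA : ∀ r, MeasurableSet (A r))
    (good : ∀ r ∈ Ioo s t, ∀ y ∉ A r, ∀ u, u ⬝ᵥ covMat (post φ w r y) φ *ᵥ u ≤ κ r * (u ⬝ᵥ u))
    (bad : ∀ r ∈ Ioo s t, (slE φ w r fun _ => (A r).indicator fun y =>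
      covV (post φ w r y) f φ ⬝ᵥ covV (post φ w r y) f φ) ≤ ε r) :
    ex φ w (fun p => var (pw φ w p) f) s ≤
      exp (∫ r in s..t, κ r) * (ex φ w (fun p => var (pw φ w p) f) t + ∫ r in s..t, ε r) := by
  refine (ito_var hw f).ex_lower hw hs hst (eg_var hw f) hκ hε κ0 ε0 fun r hr => ?_
  have k0 := κ0 r (Ioo_subset_Icc_self hr)
  have := ex_le_of_good (φ := φ) (H := fun p => κ r * var (pw φ w p) f)
    (G := fun p => covV (pw φ w p) f φ ⬝ᵥ covV (pw φ w p) f φ) hw (hA r)
    ((eg_covV_dot hw f f).mg (mem_univ r)) (((eg_var hw f).const_mul _).mg (mem_univ r))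
    (fun y => mul_nonneg k0 ((hw.post _ _ _).var_nonneg f))
    fun y hy => (hw.post _ _ _).covV_sq_le f k0 (good r hr y hy)
  rw [ex_const_mul] at this
  rw [ex_neg]
  linarith [bad r hr]

theorem Wt.ent_nonneg (hw : Wt w) (hf : ∀ x, 0 ≤ f x) : 0 ≤ ent w f := hw.isP.ent_nonneg hf

/-- **approximate conservation of entropy** with bad events `A r` -/
theorem ent_conserve (hw : Wt w) (hs : 0 ≤ s) (hst : s ≤ t) (hf : ∀ x, 0 ≤ f x) (h0 : 0 < mean w f)
    {κ ε : ℝ → ℝ} (hκ : ContinuousOn κ (Icc s t)) (hε : ContinuousOn ε (Icc s t))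
    (κ0 : ∀ r ∈ Icc s t, 0 ≤ κ r) (ε0 : ∀ r ∈ Icc s t, 0 ≤ ε r) {A : ℝ → Set (ι → ℝ)}
    (hA : ∀ r, MeasurableSet (A r))
    (good : ∀ r ∈ Ioo s t, ∀ y ∉ A r, covV (post φ w r y) f φ ⬝ᵥ covV (post φ w r y) f φ /
      (2 * mean (post φ w r y) f) ≤ κ r * ent (post φ w r y) f)
    (bad : ∀ r ∈ Ioo s t, (slE φ w r fun _ => (A r).indicator fun y => covV (post φ w r y) f φ ⬝ᵥ
      covV (post φ w r y) f φ / (2 * mean (post φ w r y) f)) ≤ ε r) :
    ex φ w (fun p => ent (pw φ w p) f) s ≤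
      exp (∫ r in s..t, κ r) * (ex φ w (fun p => ent (pw φ w p) f) t + ∫ r in s..t, ε r) := by
  refine gron_lower hst (eg_ent hw f).continuousOn_ex (fun r hr => hasDerivAt_ex_ent hw hf h0
    (hs.trans_lt hr.1)) hκ hε κ0 ε0 fun r hr => ?_
  have := ex_le_of_good (φ := φ) (H := fun p => κ r * ent (pw φ w p) f) (G := fun p =>
    covV (pw φ w p) f φ ⬝ᵥ covV (pw φ w p) f φ / (2 * mean (pw φ w p) f)) hw (hA r)
    ((eg_entD (φ := φ) (Metric.isBounded_Icc r r) hw hf h0).mg (left_mem_Icc.2 le_rfl))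
    (((eg_ent hw f).const_mul _).mg (mem_univ r))
    (fun y => mul_nonneg (κ0 r (Ioo_subset_Icc_self hr)) ((hw.post _ _ _).ent_nonneg hf)) (good r hr)
  rw [ex_const_mul] at this
  linarith [bad r hr]

/-- the bad term of the entropy: `D` bounds the squared diameter of the range of `φ` -/
theorem bad_ent_le (hw : Wt w) (ht : 0 ≤ t) {A : Set (ι → ℝ)} (hA : MeasurableSet A) {D : ℝ}
    (hD : ∀ x x', (φ x - φ x') ⬝ᵥ (φ x - φ x') ≤ D) (hf : ∀ x, 0 ≤ f x) (h0 : 0 < mean w f) :
    (slE φ w t fun _ => A.indicator fun y => covV (post φ w t y) f φ ⬝ᵥ covV (post φ w t y) f φ /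
      (2 * mean (post φ w t y) f)) ≤ D / 2 * mean w fun x => f x * px φ t A x := by
  have m := ((eg_mean (φ := φ) hw f).mg (mem_univ t)).indicator hA
  rw [← slE_indicator_mean hw ht hA, ← slE_const_mul]
  refine slE_mono hw (.of_mg fun _ => ((eg_entD (Metric.isBounded_Icc t t) hw hf h0).mg
    (left_mem_Icc.2 le_rfl)).indicator hA) (.of_mg fun _ => m.const_mul _) fun _ y => ?_
  by_cases hy : y ∈ A
  swap
  · simp [hy]
  simp only [indicator_of_mem hy]
  have h1 := hw.mean_post_pos hf h0 φ t y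
  have h2 := hw.post φ t y
  set u := post φ w t y
  set c := covV u f φ
  have h3 : c ⬝ᵥ c ≤ mean u f * (√D * √(c ⬝ᵥ c)) := by
    nth_rewrite 1 [covV_dot, h2.cov_eq', ← mean_mul_const]
    refine h2.mean_mono fun x => mul_le_mul_of_nonneg_left ?_ (hf x)
    rw [sub_le_comm]
    refine h2.le_mean fun x' => ?_
    rw [sub_le_comm, ← dotProduct_sub, mul_comm]
    refine (Real.sum_mul_le_sqrt_mul_sqrt _ _ _).trans ?_
    simp only [sq]
    exact mul_le_mul_of_nonneg_left (sqrt_le_sqrt (hD x x')) (sqrt_nonneg _)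
  obtain ⟨x, -⟩ := hw.exists_pos
  have h4 := mul_self_sqrt ((dot_self_nonneg _).trans (hD x x))
  have h5 := mul_self_sqrt (dot_self_nonneg c)
  rw [div_le_iff₀ (by positivity)]
  nlinarith [sq_nonneg (√(c ⬝ᵥ c) - mean u f * √D), congrArg (mean u f ^ 2 * ·) h4]

/-! ### entropic stability -/

/-- a bound on the log-Laplace transform from bounds on tilted variances -/
theorem log_mgf_le (hw : Wt w) (l : Ω → ℝ) {β : ℝ}
    (h : ∀ r ∈ Ioo (0 : ℝ) 1, var (fun x => w x * exp (r * l x)) l ≤ β) :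
    log (mean w fun x => exp (l x)) ≤ mean w l + β / 2 := by
  have hu := fun r : ℝ => hw.mul_pos fun x => exp_pos (r * l x)
  have d1 : ∀ r, HasDerivAt (fun r => mean (fun x => w x * exp (r * l x)) l)
      (var (fun x => w x * exp (r * l x)) l) r := fun r => by
    rw [var_eq_cov]
    exact hasDerivAt_mean (hu r) (fun x => (((hasDerivAt_id' r).mul_const (l x)).exp.const_mul
      (w x)).congr_deriv (by ring)) l
  have d2 : ∀ r, HasDerivAt (Ent.lmgf (prob w) l) (mean (fun x => w x * exp (r * l x)) l) r :=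
    fun r => (Ent.hasDerivAt_lmgf hw.isP l r).congr_deriv (mean_mul_weight _ _ _ hw.pos.ne').symm
  have e1 : ∀ r ∈ Icc (0 : ℝ) 1, mean (fun x => w x * exp (r * l x)) l ≤ mean w l + β * r :=
    fun r hr => by
    have := (convex_Icc 0 r).image_sub_le_mul_sub_of_deriv_le (fun q _ => (d1 q).continuousAt.continuousWithinAt)
      (fun q _ => (d1 q).differentiableAt.differentiableWithinAt) (C := β) (fun q hq => by
        rw [interior_Icc] at hq
        rw [(d1 q).deriv]; exact h q ⟨hq.1, hq.2.trans_le hr.2⟩) 0 (left_mem_Icc.2 hr.1) r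
      (right_mem_Icc.2 hr.1) hr.1
    simp only [zero_mul, exp_zero, mul_one, sub_zero] at this
    linarith
  have d3 := fun r => (d2 r).sub (((hasDerivAt_id' r).const_mul (mean w l)).add
    ((hasDerivAt_pow 2 r).const_mul (β / 2)))
  have := antitoneOn_of_hasDerivWithinAt_nonpos (convex_Icc 0 1)
    (fun r _ => (d3 r).continuousAt.continuousWithinAt) (fun r _ => (d3 r).hasDerivWithinAt)
    (fun r hr => by
      have := e1 r (interior_subset hr)
      norm_num
      linarith) (left_mem_Icc.2 zero_le_one) (right_mem_Icc.2 zero_le_one) zero_le_one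
  simp only [Pi.sub_apply, Pi.add_apply, Ent.lmgf_zero hw.isP] at this
  simp only [Ent.lmgf, one_mul] at this
  change log (mean w fun x => exp (l x)) - _ ≤ _ at this
  linarith

theorem mean_sub_le_kl (hw : Wt w) (hv : Wt v) (hvw : ∀ x, w x = 0 → v x = 0) (l : Ω → ℝ) {β : ℝ}
    (h : ∀ r ∈ Ioo (0 : ℝ) 1, var (fun x => w x * exp (r * l x)) l ≤ β) :
    mean v l - mean w l ≤ kl v w + β / 2 := by
  have h1 : mean v l ≤ kl v w + log (mean w fun x => exp (l x)) :=
    Ent.mean_le_kl hv.isP hw.isP (fun x hx => by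
      rw [prob, div_eq_zero_iff, or_iff_left hw.pos.ne'] at hx
      rw [prob, hvw x hx, zero_div]) l
  linarith [log_mgf_le hw l h]

/-- **entropic stability** from covariance bounds on the tilts along one segment -/
theorem meanV_sub_sq_le (hw : Wt w) (hv : Wt v) (hvw : ∀ x, w x = 0 → v x = 0) {α : ℝ} (hα : 0 < α)
    (h : ∀ r ∈ Ioo (0 : ℝ) 1, ∀ u, u ⬝ᵥ covMat (post φ w 0 ((r / α) • (meanV v φ - meanV w φ))) φ *ᵥ u
      ≤ α * (u ⬝ᵥ u)) : (meanV v φ - meanV w φ) ⬝ᵥ (meanV v φ - meanV w φ) ≤ 2 * α * kl v w := by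
  set D := meanV v φ - meanV w φ with hD
  have := mean_sub_le_kl hw hv hvw (fun x => (α⁻¹ • D) ⬝ᵥ φ x) (β := α * ((α⁻¹ • D) ⬝ᵥ (α⁻¹ • D)))
    fun r hr => by
      refine le_of_eq_of_le ?_ (h r hr _)
      rw [covMat_quad, var_eq_cov]
      congr 1
      ext x
      simp [post, div_eq_mul_inv, mul_assoc]
  rw [← meanV_dot, ← meanV_dot, ← dotProduct_sub, ← hD] at this
  simp only [smul_dotProduct, dotProduct_smul, smul_eq_mul, mul_inv_cancel_left₀ hα.ne'] at this
  rw [← inv_mul_le_iff₀ (by positivity), mul_inv]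
  linarith

/-- entropic stability, in the form used by `ent_conserve` -/
theorem covV_sq_le_ent (hw : Wt w) (hf : ∀ x, 0 ≤ f x) (h0 : 0 < mean w f) {α : ℝ} (hα : 0 < α)
    (h : ∀ r ∈ Ioo (0 : ℝ) 1, ∀ u, u ⬝ᵥ covMat (post φ w 0 ((r / (α * mean w f)) • covV w f φ)) φ *ᵥ u
      ≤ α * (u ⬝ᵥ u)) : covV w f φ ⬝ᵥ covV w f φ / (2 * mean w f) ≤ α * ent w f := by
  have := meanV_sub_sq_le (φ := φ) hw (hw.mul hf h0) (fun x hx => by rw [hx, zero_mul]) hα (by
    simpa only [meanV_mul_sub hw h0.ne', smul_smul, ← div_eq_mul_inv, div_div] using h)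
  simp only [meanV_mul_sub hw h0.ne', kl_mul hw h0.ne', smul_dotProduct, dotProduct_smul,
    smul_eq_mul] at this
  rw [div_le_iff₀ (by positivity)]
  field_simp at this
  linarith

/-! ### the cube -/

section cube
variable {n : ℕ} {w f g : Cube n → ℝ}

theorem mean_post_sv (w : Cube n → ℝ) (s : ℝ) (y : Fin n → ℝ) :
    mean (post sv w s y) = mean (tilt w y) := by ext; simp only [mean, prob_post_sv]

theorem var_post_sv (w : Cube n → ℝ) (s : ℝ) (y : Fin n → ℝ) :
    var (post sv w s y) = var (tilt w y) := by ext; simp only [var, prob_post_sv, mean_post_sv]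

theorem cov_post_sv (w : Cube n → ℝ) (s : ℝ) (y : Fin n → ℝ) :
    cov (post sv w s y) = cov (tilt w y) := by ext; simp only [cov, prob_post_sv, mean_post_sv]

theorem cum3_post_sv (w : Cube n → ℝ) (s : ℝ) (y : Fin n → ℝ) :
    cum3 (post sv w s y) = cum3 (tilt w y) := by ext; simp only [cum3, mean_post_sv]

theorem ent_post_sv (w : Cube n → ℝ) (s : ℝ) (y : Fin n → ℝ) :
    ent (post sv w s y) = ent (tilt w y) := by ext; simp only [ent, prob_post_sv, mean_post_sv]

theorem kl_post_sv (v w : Cube n → ℝ) (s : ℝ) (y : Fin n → ℝ) :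
    kl (post sv v s y) (post sv w s y) = kl (tilt v y) (tilt w y) := by simp only [kl, prob_post_sv]

theorem meanV_post_sv {κ : Type*} (w : Cube n → ℝ) (s : ℝ) (y : Fin n → ℝ) (ψ : Cube n → κ → ℝ) :
    meanV (post sv w s y) ψ = meanV (tilt w y) ψ := by ext; simp only [meanV, mean_post_sv]

theorem covV_post_sv {κ : Type*} (w f : Cube n → ℝ) (s : ℝ) (y : Fin n → ℝ) (ψ : Cube n → κ → ℝ) :
    covV (post sv w s y) f ψ = covV (tilt w y) f ψ := by ext; simp only [covV, cov_post_sv]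

theorem covMat_post_sv (w : Cube n → ℝ) (s : ℝ) (y : Fin n → ℝ) :
    covMat (post sv w s y) sv = covM (tilt w y) := by ext; simp only [covM, covMat, cov_post_sv]

theorem md_sv (w : Cube n → ℝ) (i : Fin n) (p : Pt (Fin n)) : md sv w i p = mag (tilt w p.2) i := by
  rw [md, meanV_post_sv, mag]

theorem post_sv (w : Cube n → ℝ) (s : ℝ) (y : Fin n → ℝ) :
    post sv w s y = fun x => tilt w y x * exp (-(s / 2 * n)) := by
  ext x; rw [post, tilt, sv_dot_self, mul_assoc, ← exp_add, sub_eq_add_neg]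

theorem siteM_post_sv (w f : Cube n → ℝ) (s : ℝ) (y : Fin n → ℝ) :
    siteM (post sv w s y) f = siteM (tilt w y) f := by
  ext i x
  simp only [siteM, post_sv, mul_right_comm _ (exp _), ← add_mul]
  exact mul_div_mul_right _ _ (exp_pos _).ne'

theorem dir_post_sv (w f : Cube n → ℝ) (s : ℝ) (y : Fin n → ℝ) :
    dir (post sv w s y) f = dir (tilt w y) f := by simp only [dir, prob_post_sv, siteM_post_sv]

theorem dir2_post_sv (w f g : Cube n → ℝ) (s : ℝ) (y : Fin n → ℝ) :
    dir2 (post sv w s y) f g = dir2 (tilt w y) f g := by simp only [dir2, prob_post_sv, siteM_post_sv]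

theorem Wt.tilt (hw : Wt w) (y : Fin n → ℝ) : Wt (tilt w y) := hw.mul_pos fun _ => exp_pos _

theorem sv_injective : Function.Injective (sv (n := n)) := fun x x' h => by
  ext i
  have := congrFun h i
  revert this
  cases hx : x i <;> cases hx' : x' i <;> simp [sv, spin, hx, hx'] <;> norm_num

theorem sv_diam (x x' : Cube n) : (sv x - sv x') ⬝ᵥ (sv x - sv x') ≤ 4 * n := by
  refine (Finset.sum_le_card_nsmul _ _ 4 fun i _ => ?_).trans_eq (by simp [mul_comm])
  simp only [Pi.sub_apply, sv]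
  cases x i <;> cases x' i <;> norm_num [spin]

theorem covM_le (hw : Wt w) (u : Fin n → ℝ) : u ⬝ᵥ covM w *ᵥ u ≤ n * (u ⬝ᵥ u) := by
  rw [covM, covMat_quad, ← var_eq_cov]
  refine (hw.var_le_mean _ 0).trans (hw.mean_le fun x => ?_)
  rw [sub_zero, ← sv_dot_self x, mul_comm]
  simpa only [sq, dotProduct] using Finset.sum_mul_sq_le_sq_mul_sq Finset.univ u (sv x)

/-- the conductance of the edge at `x` in direction `i` -/
def edge (q : Cube n → ℝ) (i : Fin n) (x : Cube n) : ℝ :=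
  q (Function.update x i true) * q (Function.update x i false) /
    (q (Function.update x i true) + q (Function.update x i false))

/-- the increment along the edge at `x` in direction `i` -/
def incr (f : Cube n → ℝ) (i : Fin n) (x : Cube n) : ℝ :=
  f (Function.update x i true) - f (Function.update x i false)

theorem sum_flip (i : Fin n) (F : Cube n → ℝ) :
    ∑ x, F x = (∑ x, (F (Function.update x i true) + F (Function.update x i false))) / 2 := by
  have h := Equiv.sum_comp (Function.Involutive.toPerm (fun x : Cube n => Function.update x i (!x i))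
    fun x => by simp) F
  have e : ∀ x : Cube n, F (Function.update x i true) + F (Function.update x i false) =
      F x + F (Function.update x i (!x i)) := fun x => by
    cases hx : x i
    · rw [add_comm, ← hx, Function.update_eq_self, hx]; rfl
    · rw [← hx, Function.update_eq_self, hx]; rfl
  simp only [e, Finset.sum_add_distrib]
  simp only [Function.Involutive.coe_toPerm] at h
  rw [h]; ring

theorem dir2_eq (hw : ∀ x, 0 < w x) (f g : Cube n → ℝ) :
    dir2 w f g = (∑ i, ∑ x, edge (prob w) i x * (incr f i x * incr g i x)) / 2 := by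
  rw [dir2, Finset.sum_div]
  refine Finset.sum_congr rfl fun i _ => ?_
  rw [sum_flip i]
  refine congrArg (· / 2) (Finset.sum_congr rfl fun x _ => ?_)
  have h1 := hw (Function.update x i true)
  have h2 := hw (Function.update x i false)
  have h3 := (Wt.of_pos hw).pos
  simp only [siteM, edge, incr, prob, Function.update_idem]
  field_simp
  ring

theorem dir_eq_dir2 (w f : Cube n → ℝ) : dir w f = dir2 w f f := by simp only [dir, dir2, sq]

variable {φ : Cube n → ι → ℝ}

theorem eg_edge (hw : ∀ x, 0 < w x) (i : Fin n) (x : Cube n) :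
    EG I fun p => edge (prob (pw φ w p)) i x := by
  have hW := Wt.of_pos hw
  have h0 : ∀ (p : Pt ι) x, 0 < prob (pw φ w p) x := fun p x =>
    div_pos (mul_pos (hw x) (exp_pos _)) (hW.post _ _ _).pos
  refine (eg_prob (φ := φ) hW (Function.update x i true)).of_le (Continuous.div
    ((cont_prob hW φ _).mul (cont_prob hW φ _)) ((cont_prob hW φ _).add (cont_prob hW φ _))
    fun p => (add_pos (h0 p _) (h0 p _)).ne').continuousOn fun p _ => ?_
  have h1 := h0 p (Function.update x i true)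
  have h2 := h0 p (Function.update x i false)
  rw [edge, abs_of_pos h1, abs_of_pos (by positivity), div_le_iff₀ (by positivity)]
  nlinarith

/-- edge conductances are supermartingales -/
theorem ex_edge_le (hw : ∀ x, 0 < w x) (ht : 0 ≤ t) (i : Fin n) (x : Cube n) :
    ex φ w (fun p => edge (prob (pw φ w p)) i x) t ≤ edge (prob w) i x := by
  have hW := Wt.of_pos hw
  have h0 : ∀ (p : Pt ι) x, 0 < prob (pw φ w p) x := fun p x =>
    div_pos (mul_pos (hw x) (exp_pos _)) (hW.post _ _ _).pos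
  have m := fun x => (eg_prob (φ := φ) hW x).mg (mem_univ t)
  have e : ∀ x, ex φ w (fun p => prob (pw φ w p) x) t = prob w x := fun x => by
    simpa only [mean_single] using ex_mean (φ := φ) hW ht (Pi.single x 1)
  set A := prob w (Function.update x i true) with hA
  set B := prob w (Function.update x i false) with hB
  have a0 : 0 < A := div_pos (hw _) hW.pos
  have b0 : 0 < B := div_pos (hw _) hW.pos
  refine (ex_mono (H := fun p => (B / (A + B)) ^ 2 * prob (pw φ w p) (Function.update x i true) +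
    (1 - B / (A + B)) ^ 2 * prob (pw φ w p) (Function.update x i false)) hW
    ((eg_edge hw i x).mg (mem_univ t)) (((m _).const_mul _).add ((m _).const_mul _))
    fun y => ?_).trans_eq ?_
  · have h1 := h0 (t, y) (Function.update x i true)
    have h2 := h0 (t, y) (Function.update x i false)
    rw [edge, div_le_iff₀ (by positivity)]
    nlinarith [sq_nonneg (B / (A + B) * prob (pw φ w (t, y)) (Function.update x i true) -
      (1 - B / (A + B)) * prob (pw φ w (t, y)) (Function.update x i false))]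
  · rw [ex_add ((m _).const_mul _) ((m _).const_mul _), ex_const_mul, ex_const_mul, e, e, edge,
      ← hA, ← hB]
    field_simp
    ring

theorem eg_dir2 (hw : ∀ x, 0 < w x) (f g : Cube n → ℝ) : EG I fun p => dir2 (pw φ w p) f g :=
  ((EG.sum _ fun i _ => .sum _ fun x _ => (eg_edge hw i x).mul (.const _)).div_const 2).congr
    fun _ _ => dir2_eq (fun x => mul_pos (hw x) (exp_pos _)) f g

theorem eg_dir (hw : ∀ x, 0 < w x) (f : Cube n → ℝ) : EG I fun p => dir (pw φ w p) f := by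
  simpa only [dir_eq_dir2] using eg_dir2 hw f f

/-- **Dirichlet forms are supermartingales** (`g = f`, `g = log f`, `g = f ^ p`, …) -/
theorem ex_dir2_le (hw : ∀ x, 0 < w x) (ht : 0 ≤ t) (hfg : ∀ i x, 0 ≤ incr f i x * incr g i x) :
    ex φ w (fun p => dir2 (pw φ w p) f g) t ≤ dir2 w f g := by
  have m := fun i x => ((eg_edge (φ := φ) hw i x).const_mul (incr f i x * incr g i x / 2)).mg
    (mem_univ t)
  have e : ∀ u : Cube n → ℝ, (∀ x, 0 < u x) →
      dir2 u f g = ∑ i, ∑ x, incr f i x * incr g i x / 2 * edge (prob u) i x := fun u hu => by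
    simp only [dir2_eq hu, Finset.sum_div, mul_comm _ (edge _ _ _), mul_div_assoc]
  rw [ex_congr (H := fun p => ∑ i, ∑ x, incr f i x * incr g i x / 2 * edge (prob (pw φ w p)) i x)
    fun y => e (pw φ w (t, y)) fun x => mul_pos (hw x) (exp_pos _), e w hw,
    ex_sum (G := fun i p => ∑ x, incr f i x * incr g i x / 2 * edge (prob (pw φ w p)) i x) _
      fun i _ => .sum _ fun x _ => m i x]
  refine Finset.sum_le_sum fun i _ => ?_
  rw [ex_sum _ fun x _ => m i x]
  refine Finset.sum_le_sum fun x _ => ?_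
  rw [ex_const_mul]
  exact mul_le_mul_of_nonneg_left (ex_edge_le hw ht i x) (div_nonneg (hfg i x) two_pos.le)

theorem ex_dir_le (hw : ∀ x, 0 < w x) (ht : 0 ≤ t) (f : Cube n → ℝ) :
    ex φ w (fun p => dir (pw φ w p) f) t ≤ dir w f := by
  simpa only [dir_eq_dir2] using ex_dir2_le hw ht fun _ _ => mul_self_nonneg _

theorem incr_log_nonneg (hf : ∀ x, 0 < f x) (i : Fin n) (x : Cube n) :
    0 ≤ incr f i x * incr (fun x => log (f x)) i x := by
  simp only [incr]
  rcases le_total (f (Function.update x i true)) (f (Function.update x i false)) with h | h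
  · exact mul_nonneg_of_nonpos_of_nonpos (sub_nonpos.2 h) (sub_nonpos.2 (log_le_log (hf _) h))
  · exact mul_nonneg (sub_nonneg.2 h) (sub_nonneg.2 (log_le_log (hf _) h))

end cube

/-- a functional which decreases in mean from every starting weight is a supermartingale -/
theorem ex_anti_of_le (hw : Wt w) {Φ : (Ω → ℝ) → ℝ} (hs : 0 ≤ s) (hst : s ≤ t)
    (m : MG fun y => Φ (post φ w t y)) (m' : MG fun y => Φ (post φ w s y))
    (h : ∀ y, ex φ (post φ w s y) (fun p => Φ (pw φ (post φ w s y) p)) (t - s) ≤ Φ (post φ w s y)) :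
    ex φ w (fun p => Φ (pw φ w p)) t ≤ ex φ w (fun p => Φ (pw φ w p)) s := by
  obtain ⟨r, rfl⟩ := exists_add_of_le hst
  have r0 : 0 ≤ r := by linarith
  rw [ex_markov hw hs r0 m]
  refine ex_mono hw (mg_mean hw s fun x => m.conv (r • φ x) √r) m' fun y => le_of_eq_of_le
    (ex_congr fun z => ?_) (add_sub_cancel_left s r ▸ h y)
  simp only [pw, post_post, Prod.mk_add_mk]

end Crest.Agent.T157.SL
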