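import Crest.Agent.T157.Top_97
import Crest.Agent.T157.SLE_23
import Crest.Agent.T157.EigN_84
import Crest.Agent.T157.CondB_53

/-!
# Row 157, part A: TAP comparison and the covariance bound along stochastic localisation (helper29)

Definitions and the exact leaves; the paper proof is `docs/T157_A_cov.md`.
-/

set_option autoImplicit false

noncomputable section

namespace Crest.Agent.T157.Tap

open MeasureTheory ProbabilityTheory Matrix Filter Set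
open Crest.ProbabilityR.SpinGlassDynamics
open Crest.Agent.T157.E Crest.Agent.T157.Eig Crest.Agent.T157.Cond

abbrev V (n : ℕ) : Type := Fin n → ℝ
abbrev Mx (n : ℕ) : Type := Matrix (Fin n) (Fin n) ℝ
/-- GOE with off-diagonal variance `1/n` -/
abbrev GOE (n : ℕ) : Measure (Mx n) := goe (Fin n) (1 / Real.sqrt n)

variable {n : ℕ}

def avg (f : V n) : ℝ := (∑ i, f i) / n
/-- `p = tanh x` -/
def th (x : V n) : V n := fun i => Real.tanh (x i)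
/-- `D = 1 - p²` -/
def DD (p : V n) : V n := fun i => 1 - p i ^ 2
/-- `d = √D` -/
def dd (p : V n) : V n := fun i => Real.sqrt (1 - p i ^ 2)
/-- closed cube -/
def Cb (p : V n) : Prop := ∀ i, |p i| ≤ 1
/-- unit box -/
def Ub (d : V n) : Prop := ∀ i, 0 ≤ d i ∧ d i ≤ 1
/-- `M ⪰ c` -/
def Pos (c : ℝ) (M : Mx n) : Prop := ∀ u : V n, c * (u ⬝ᵥ u) ≤ u ⬝ᵥ M *ᵥ u
/-- `N = 1 - d B d` -/
def NN (B : Mx n) (d : V n) : Mx n := 1 - diagonal d * B * diagonal d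
/-- `G = d N⁻¹ d = (D⁻¹ - B)⁻¹` -/
def GG (B : Mx n) (d : V n) : Mx n := diagonal d * (NN B d)⁻¹ * diagonal d
/-- `R = 1 + B G = D⁻¹ G` -/
def RR (B : Mx n) (d : V n) : Mx n := 1 + B * GG B d
/-- bulk interaction with the Onsager shift -/
def B0 (J : Mx n) (b : ℝ) (d : V n) : Mx n := J - (b * avg fun i => d i ^ 2) • (1 : Mx n)
/-- the same with the rank-one term of the TAP Hessian -/
def B1 (J : Mx n) (b : ℝ) (p : V n) : Mx n := B0 J b (dd p) + (2 * b / n) • vecMulVec p p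
/-- the freeness error vector for the driver `S` -/
def err (B : Mx n) (d : V n) (b : ℝ) (S : Mx n) (k : ℝ) : V n := fun i =>
  k + b / n * (GG B d * S * GG B d).trace - (RR B d * S * (RR B d)ᵀ) i i
/-- the TAP map in the coordinate `x = atanh p` -/
def Ymap (J : Mx n) (b : ℝ) (x : V n) : V n := x - J *ᵥ th x + (b * avg (DD (th x))) • th x
/-- the TAP Hessian is `⪰ c` on the ball of radius `r` around `p` -/
def GoodB (J : Mx n) (b c r : ℝ) (p : V n) : Prop :=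
  ∀ p', Cb p' → nrm (p' - p) ≤ r → Pos c (NN (B1 J b p') (dd p')) ∧ b * avg (DD p') ≤ 1 - c
/-- covariance bound on the ball of fields of radius `ρ` around `y` -/
def CovOK (w : Cube n → ℝ) (K ρ : ℝ) (y : V n) : Prop :=
  ∀ v : V n, nrm v ≤ ρ → ∀ u : V n, u ⬝ᵥ covM (tilt w (y + v)) *ᵥ u ≤ K * (u ⬝ᵥ u)

/-! ### static events -/

/-- uniform freeness over all diagonals, `ℓ²` error `O(1)` -/
def UF (W : Mx n) (β c K : ℝ) : Prop :=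
  ∀ θ ∈ Icc 0 β, ∀ d : V n, Ub d → θ ^ 2 * avg (fun i => d i ^ 2) ≤ 1 - c →
    Pos c (NN (B0 (θ • W) (θ ^ 2) d) d) →
    nrm (err (B0 (θ • W) (θ ^ 2) d) d (θ ^ 2) 1 1) ≤ K ∧
    nrm (err (B0 (θ • W) (θ ^ 2) d) d (θ ^ 2) W (2 * θ * avg fun i => d i ^ 2)) ≤ K

/-- uniform upper bound of the Jacobian -/
def DET (W : Mx n) (β c ε : ℝ) : Prop :=
  ∀ p : V n, Cb p → avg (DD p) ≤ 1 - c →
    |(NN (B1 (β • W) (β ^ 2) p) (dd p)).det| ≤ Real.exp (n * (β ^ 2 * avg (DD p) ^ 2 / 2 + ε))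

/-- small principal blocks have small norm -/
def Frz (W : Mx n) (ε : ℝ) : Prop :=
  ∀ d : V n, Ub d → avg (fun i => d i ^ 2) ≤ ε → opn (diagonal d * W * diagonal d) ≤ 1 / 8

def UFStmt : Prop := ∀ β ∈ Icc (0 : ℝ) 1, ∀ c > (0 : ℝ), ∃ K : ℝ, Top.Whp GOE fun _ W => UF W β c K

def DETStmt : Prop := ∀ β ∈ Icc (0 : ℝ) 1, ∀ c > (0 : ℝ), ∀ ε > (0 : ℝ),
  Top.Whp GOE fun _ W => DET W β c ε

def FrzStmt : Prop := ∃ ε > (0 : ℝ), Top.Whp GOE fun _ W => Frz W ε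

/-! ### deterministic leaves -/

/-- existence of TAP solutions; inverse Lipschitz bound and existence on a good ball -/
def ExStmt : Prop := ∀ (n : ℕ) (J : Mx n) (b : ℝ), Jᵀ = J →
  (∀ y : V n, ∃ x, Ymap J b x = y) ∧
  ∀ (c r : ℝ) (p0 : V n), 0 < c → GoodB J b c r p0 →
    (∀ x x' : V n, nrm (th x - p0) ≤ r → nrm (th x' - p0) ≤ r →
      c * nrm (th x - th x') ≤ nrm (Ymap J b x - Ymap J b x')) ∧
    ∀ x0 y : V n, nrm (th x0 - p0) + nrm (y - Ymap J b x0) / c < r →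
      ∃ x, Ymap J b x = y ∧ nrm (th x - p0) < r

/-- the rank-one term changes the error vector by `O(1)` -/
def ErrStmt : Prop := ∀ c > (0 : ℝ), ∀ K : ℝ, ∃ K' : ℝ, ∀ (n : ℕ) (J S : Mx n) (b k : ℝ) (p : V n),
  Jᵀ = J → opn J ≤ K → opn S ≤ K → b ∈ Icc (0 : ℝ) 1 → Cb p → Pos c (NN (B1 J b p) (dd p)) →
    Pos c (NN (B0 J b (dd p)) (dd p)) ∧
    nrm (err (B1 J b p) (dd p) b S k) ≤ nrm (err (B0 J b (dd p)) (dd p) b S k) + K'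

/-- a coarse Lipschitz bound of the magnetisation bounds the covariance -/
def LipCovStmt : Prop := ∀ (n : ℕ) (w : Cube n → ℝ) (A : ℝ), (∀ x, 0 < w x) →
  (∀ v : V n, nrm v ≤ 1 → nrm (mag (tilt w v) - mag w) ≤ A) →
  ∀ u : V n, u ⬝ᵥ covM w *ᵥ u ≤ 2 * Real.exp A * (u ⬝ᵥ u)

/-- **window lemma**: localisation with driver `Qᵀ Q = κ J + c0`, interaction `(1 - κ t) J` -/
def WinStmt : Prop := ∀ c > (0 : ℝ), ∀ K > (0 : ℝ), ∃ K' > (0 : ℝ), ∀ (n : ℕ) (J Q : Mx n)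
    (b κ c0 h r R ε : ℝ) (y0 p0 : V n) (ψ : V n → ℝ),
  0 < n → Jᵀ = J → opn J ≤ K → b ∈ Icc (0 : ℝ) 1 → κ ∈ Icc (0 : ℝ) 1 → 0 ≤ h → κ * h ≤ 1 →
  |c0| ≤ K → Qᵀ * Q = κ • J + c0 • (1 : Mx n) → 0 < R → (n : ℝ) ≤ K * R ^ 2 →
  (∀ t ∈ Icc 0 h, GoodB ((1 - κ * t) • J) ((1 - κ * t) ^ 2 * b) c r p0) →
  (∀ t ∈ Icc 0 h, ∀ z : V n, nrm z ≤ 2 * R → ∃ x, nrm (th x - p0) < r ∧
    Ymap ((1 - κ * t) • J) ((1 - κ * t) ^ 2 * b) x = y0 + Qᵀ *ᵥ z) →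
  (∀ t ∈ Icc 0 h, ∀ p : V n, Cb p → nrm (p - p0) ≤ r →
    nrm (err (B1 ((1 - κ * t) • J) ((1 - κ * t) ^ 2 * b) p) (dd p) ((1 - κ * t) ^ 2 * b)
      (κ • J + c0 • (1 : Mx n)) (c0 + 2 * κ * (1 - κ * t) * b * avg (DD p))) ≤ K) →
  SL.MG ψ → (∀ z, 0 ≤ ψ z) →
  (∀ z : V n, nrm z ≤ R → ∀ x, nrm (th x - p0) < r →
    Ymap ((1 - κ * h) • J) ((1 - κ * h) ^ 2 * b) x = y0 + Qᵀ *ᵥ z →
    nrm (mag (ising ((1 - κ * h) • J) (y0 + Qᵀ *ᵥ z)) - th x) ^ 2 ≤ ψ z) →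
  (∀ t ∈ Icc 0 h, (SL.law (fun σ => Q *ᵥ sv σ) (ising J y0) t).real
    {z | R ^ 2 ≤ 2 * (z ⬝ᵥ z)} ≤ ε) →
  ∀ x0, nrm (th x0 - p0) < r → Ymap J b x0 = y0 →
    nrm (mag (ising J y0) - th x0) ^ 2 ≤ Real.exp (K' * h) *
      (slE (fun σ => Q *ᵥ sv σ) (ising J y0) h (fun _ z => ψ z) + K' * h + K' * n * h * ε)

/-- **frozen regime** (strong field along a spin configuration) -/
def FrozStmt : Prop := ∀ ε > (0 : ℝ), ∀ K : ℝ, ∃ η > (0 : ℝ), ∃ T0 M : ℝ, ∀ (n : ℕ) (W : Mx n)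
    (β : ℝ), 0 < n → Wᵀ = W → β ∈ Icc (0 : ℝ) 1 → opn W ≤ 3 → Frz W ε → UF W β (1 / 2) K →
  ∀ T ≥ T0, ∀ θ ∈ Icc 0 β, ∀ (σ : Cube n) (y : V n), nrm (y - T • sv σ) ≤ η * T * Real.sqrt n →
    (∀ x, Ymap (θ • W) (θ ^ 2) x = y → nrm (mag (ising (θ • W) y) - th x) ^ 2 ≤ M) ∧
    ∀ u : V n, u ⬝ᵥ covM (ising (θ • W) y) *ᵥ u ≤ M * (u ⬝ᵥ u)

def FrozGlue : Prop := ExStmt → ErrStmt → LipCovStmt → WinStmt → FrozStmt

/-! ### Kac-Rice: every TAP solution at a typical field is good -/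

/-- planted matrix -/
def plW (β : ℝ) (W : Mx n) (σ : V n) : Mx n := W + (β / n) • vecMulVec σ σ
/-- some TAP solution for the field `y` is not good -/
def BadY (β c r : ℝ) (W : Mx n) (y : V n) : Prop :=
  ∃ x, Ymap (β • W) (β ^ 2) x = y ∧ ¬ GoodB (β • W) (β ^ 2) c r (th x)

def KRStmt : Prop := ∀ β ∈ Ioc (0 : ℝ) 1, ∀ t0 > (0 : ℝ), ∀ T : ℝ, ∃ c > (0 : ℝ), ∃ r > (0 : ℝ),
  ∀ s ∈ Icc t0 T, ∃ c' > (0 : ℝ), ∃ ε > (0 : ℝ), ∃ κ > (0 : ℝ), ∀ᶠ n : ℕ in atTop,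
    ((GOE n).prod (gv (Fin n))) {z | opn (plW β z.1 1) ≤ 3 ∧ DET (plW β z.1 1) β c' ε ∧
      BadY β c (r * Real.sqrt n) (plW β z.1 1) (s • (1 : V n) + Real.sqrt s • z.2)} ≤
      ENNReal.ofReal (Real.exp (-κ * n))

/-- `a = |p|²/n` -/
def aS (x : V n) : ℝ := avg fun i => th x i ^ 2
/-- `b = 1·p/n` -/
def bS (x : V n) : ℝ := avg (th x)
/-- energy statistic of a solution -/
def SW (β : ℝ) (W : Mx n) (x : V n) : ℝ :=
  th x ⬝ᵥ W *ᵥ th x / (n * aS x) - 2 * β * (1 - aS x)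
/-- the same statistic in the reference model -/
def SS (β : ℝ) (x Z : V n) : ℝ :=
  avg (fun i => Z i * th x i) / Real.sqrt (aS x) - β * (1 - aS x)
/-- reference model: independent sites -/
def xv (β s a0 b0 : ℝ) (g Z : V n) : V n := fun i =>
  s + β ^ 2 * b0 + Real.sqrt s * g i + β * Real.sqrt a0 * Z i
/-- the GOE matrix rebuilt from its action on `p = th x` and an independent GOE -/
def glueW (β : ℝ) (x Z : V n) (W' : Mx n) : Mx n :=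
  rk2 ((1 / Real.sqrt n) • (Z + (β * (1 - aS x) / Real.sqrt (aS x)) • th x)) (unitv (th x)) +
    nextR 1 (th x) * W' * nextR 1 (th x)

/-- Kac-Rice bound of one cell of the statistics -/
def CellStmt : Prop := ∀ β ∈ Icc (0 : ℝ) 1, ∀ s > (0 : ℝ), ∀ am > (0 : ℝ), ∃ C : ℝ,
  ∀ (n : ℕ) (ε c' a0 b0 S0 : ℝ) (B : Set (Mx n × V n)), 0 < n → 0 < ε → ε ≤ am / 2 →
    a0 ∈ Icc am 1 → |S0| ≤ 10 → MeasurableSet B →
    ((GOE n).prod (gv (Fin n))) {z | opn (plW β z.1 1) ≤ 3 ∧ DET (plW β z.1 1) β c' ε ∧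
      nrm z.2 ≤ 2 * Real.sqrt n ∧ ∃ x, Ymap (β • plW β z.1 1) (β ^ 2) x =
        s • (1 : V n) + Real.sqrt s • z.2 ∧ avg (DD (th x)) ≤ 1 - c' ∧ |aS x - a0| ≤ ε ∧
        |bS x - b0| ≤ ε ∧ |SW β z.1 x - S0| ≤ ε ∧ (z.1, x) ∈ B} ≤
      ENNReal.ofReal (Real.exp (n * (S0 ^ 2 / 4 + C * ε))) *
        (((gv (Fin n)).prod (gv (Fin n))).prod (GOE n))
          {z | |aS (xv β s a0 b0 z.1.1 z.1.2) - a0| ≤ ε ∧ |bS (xv β s a0 b0 z.1.1 z.1.2) - b0| ≤ ε ∧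
            |SS β (xv β s a0 b0 z.1.1 z.1.2) z.1.2 - S0| ≤ ε ∧
            (glueW β (xv β s a0 b0 z.1.1 z.1.2) z.1.2 z.2, xv β s a0 b0 z.1.1 z.1.2) ∈ B}

/-- the rate of an atypical energy statistic beats `S²/4` -/
def RamStmt : Prop := ∀ am > (0 : ℝ), ∀ e1 > (0 : ℝ), ∃ m > (0 : ℝ), ∃ C : ℝ,
  ∀ (n : ℕ) (β s ε a0 b0 S0 : ℝ), 0 < n → β ∈ Icc (0 : ℝ) 1 → 0 < ε → ε ≤ am / 2 →
    a0 ∈ Icc am 1 → e1 ≤ |S0| → |S0| ≤ 10 →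
    ((gv (Fin n)).prod (gv (Fin n))) {z | |aS (xv β s a0 b0 z.1 z.2) - a0| ≤ ε ∧
      |SS β (xv β s a0 b0 z.1 z.2) z.2 - S0| ≤ ε} ≤
      ENNReal.ofReal (Real.exp (-n * (S0 ^ 2 / 4 + m - C * ε)))

/-- `E f (m + √v Z)` -/
def gE (f : ℝ → ℝ) (m v : ℝ) : ℝ := ∫ z, f (m + Real.sqrt v * z) ∂(gaussianReal 0 1)
/-- the state-evolution fixed point -/
def IsQ (β s q : ℝ) : Prop :=
  q ∈ Icc (0 : ℝ) 1 ∧ q = gE (fun x => Real.tanh x ^ 2) (s + β ^ 2 * q) (s + β ^ 2 * q)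

/-- scalar facts: Nishimori identities, fixed point, strong monotonicity -/
def SEStmt : Prop :=
  (∀ γ ≥ (0 : ℝ), gE Real.tanh γ γ = gE (fun x => Real.tanh x ^ 2) γ γ ∧
    gE (fun x => Real.tanh x ^ 3) γ γ = gE (fun x => Real.tanh x ^ 4) γ γ) ∧
  (∀ t0 > (0 : ℝ), ∃ a > (0 : ℝ), ∀ m : ℝ, ∀ v ≥ t0, a ≤ gE (fun x => Real.tanh x ^ 2) m v) ∧
  ∀ β ∈ Icc (0 : ℝ) 1, ∀ s > (0 : ℝ), ∃ q, IsQ β s q ∧ ∃ ν > (0 : ℝ), ∀ a ∈ Icc (0 : ℝ) 1, ∀ b : ℝ,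
    ν * (|a - q| + |b - q|) ≤ |a - gE (fun x => Real.tanh x ^ 2) (s + β ^ 2 * b) (s + β ^ 2 * a)| +
      |b - gE Real.tanh (s + β ^ 2 * b) (s + β ^ 2 * a)|

/-- Hoeffding in the reference model, and the lower bound of `a` at a typical field -/
def HoefStmt : Prop :=
  (∀ (n : ℕ) (β s a0 b0 t : ℝ), 0 < n → 0 ≤ s → 0 ≤ a0 → 0 ≤ t →
    ((gv (Fin n)).prod (gv (Fin n))) {z | t ≤ |aS (xv β s a0 b0 z.1 z.2) -
        gE (fun x => Real.tanh x ^ 2) (s + β ^ 2 * b0) (s + β ^ 2 * a0)| ∨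
      t ≤ |bS (xv β s a0 b0 z.1 z.2) - gE Real.tanh (s + β ^ 2 * b0) (s + β ^ 2 * a0)|} ≤
      ENNReal.ofReal (4 * Real.exp (-n * t ^ 2 / 2))) ∧
  ∀ s > (0 : ℝ), ∃ am > (0 : ℝ), ∃ κ > (0 : ℝ), ∀ n : ℕ, 0 < n →
    gv (Fin n) {g | 2 * Real.sqrt n < nrm g ∨ ∃ (J : Mx n) (b : ℝ) (x : V n), opn J ≤ 3 ∧
      b ∈ Icc (0 : ℝ) 1 ∧ Ymap J b x = s • (1 : V n) + Real.sqrt s • g ∧ aS x < am} ≤
      ENNReal.ofReal (2 * Real.exp (-κ * n))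

/-- Sudakov-Fernique: in the typical cell the TAP Hessian is positive on a macroscopic ball -/
def SFGStmt : Prop := ∀ β ∈ Ioc (0 : ℝ) 1, ∀ t0 > (0 : ℝ), ∀ T : ℝ, ∃ c > (0 : ℝ), ∃ r > (0 : ℝ),
  ∀ s ∈ Icc t0 T, ∀ q, IsQ β s q → ∃ ε > (0 : ℝ), ∃ κ > (0 : ℝ), ∀ᶠ n : ℕ in atTop,
    (((gv (Fin n)).prod (gv (Fin n))).prod (GOE n))
      {z | |aS (xv β s q q z.1.1 z.1.2) - q| ≤ ε ∧ |SS β (xv β s q q z.1.1 z.1.2) z.1.2| ≤ ε ∧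
        ¬ GoodB (β • plW β (glueW β (xv β s q q z.1.1 z.1.2) z.1.2 z.2) 1) (β ^ 2) c
          (r * Real.sqrt n) (th (xv β s q q z.1.1 z.1.2))} ≤ ENNReal.ofReal (Real.exp (-κ * n))

def SFGGlue : Prop := SEStmt → SFGStmt

/-- measurability of the bad sets -/
def MeasStmt : Prop := ∀ (n : ℕ) (β c r c' ε : ℝ),
  MeasurableSet {z : Mx n × V n | ¬ GoodB (β • z.1) (β ^ 2) c r (th z.2)} ∧
  MeasurableSet {z : Mx n × V n | BadY β c r z.1 z.2} ∧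
  MeasurableSet {W : Mx n | DET W β c' ε}

def KRGlue : Prop := MeasStmt → CellStmt → RamStmt → SEStmt → HoefStmt → SFGStmt → KRStmt

/-- transfer from the planted model to the localisation of the Gibbs measure -/
def PlantStmt : Prop := ∀ β ∈ Icc (0 : ℝ) 1, ∀ s ≥ (0 : ℝ), ∀ κ > (0 : ℝ),
  ∀ A : ∀ n : ℕ, Set (Mx n × V n), (∀ n, MeasurableSet (A n)) →
    (∀ᶠ n : ℕ in atTop, ∀ σ : Cube n, ((GOE n).prod (gv (Fin n)))
      {z | (plW β z.1 (sv σ), s • sv σ + Real.sqrt s • z.2) ∈ A n} ≤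
        ENNReal.ofReal (Real.exp (-κ * n))) →
    Top.Whp GOE fun n W =>
      (SL.law sv (ising (β • W) 0) s).real {y | (W, y) ∈ A n} ≤ Real.exp (-(κ / 2) * n)

/-- all TAP solutions along the localisation of the Gibbs measure are good -/
def AllGoodStmt : Prop := ∀ β ∈ Ioc (0 : ℝ) 1, ∀ t0 > (0 : ℝ), ∀ T : ℝ, ∃ c > (0 : ℝ),
  ∃ r > (0 : ℝ), ∀ s ∈ Icc t0 T, ∃ κ > (0 : ℝ), Top.Whp GOE fun n W =>
    (SL.law sv (ising (β • W) 0) s).real {y | BadY β c (r * Real.sqrt n) W y} ≤ Real.exp (-κ * n)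

def AllGoodGlue : Prop := MeasStmt → DETStmt → PlantStmt → KRStmt → AllGoodStmt

/-! ### the covariance bound -/

/-- **covariance bound along stochastic localisation**, robust in a macroscopic ball of fields -/
def CovStmt : Prop := ∀ β ∈ Ioc (0 : ℝ) 1, ∀ t0 ≥ (0 : ℝ), (β < 1 ∨ 0 < t0) → ∀ T : ℝ,
  ∃ K : ℝ, ∃ ρ > (0 : ℝ), ∃ κ > (0 : ℝ), Top.Whp GOE fun n W => ∀ s ∈ Icc t0 T,
    (SL.law sv (ising (β • W) 0) s).real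
      {y | ¬ CovOK (ising (β • W) 0) K (ρ * Real.sqrt n) y} ≤ Real.exp (-κ * n)

def CovGlue : Prop := MeasStmt → UFStmt → FrzStmt → ExStmt → ErrStmt → LipCovStmt → WinStmt →
  FrozStmt → AllGoodStmt → CovStmt

end Crest.Agent.T157.Tap
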