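import Crest.Agent.T157.RecD_77
import Crest.Agent.T157.TapDef_29
import Crest.Agent.T157.PlB_37
import Crest.Agent.T157.ConcH_16
import Crest.Agent.R164.HaarCpl

/-!
# Row 157, part C (helper82): the matrix `A_T` acts as a scalar on the soft directions

`DAStmt` (any field strength `r`), `DLStmt` (`r = 0`, the scalar converges); exact leaves.
-/

set_option autoImplicit false

noncomputable section

namespace Crest.Agent.T157.Da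

open MeasureTheory ProbabilityTheory Matrix Filter Set
open Crest.Agent.T157.E Crest.Agent.T157.Eig
open Crest.Agent.T157.Tap (V Mx GOE plW avg)
open Crest.Agent.T157.Top (Whp)
open Crest.Agent.T157.Rec (Am GR)
open Crest.Agent.T157.Chain22 (sg)
open Crest.Agent.T157.Conc (fro)
open Crest.Agent.T157.Pl (one)
open Crest.Agent.R164.Haar (Mat RHaar)

/-! ### very high probability -/

section vh
variable {X : ℕ → Type*} [∀ n, MeasurableSpace (X n)] {μ : ∀ n, Measure (X n)}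
  {P Q : ∀ n, X n → Prop}

/-- `P` holds off an event of (outer) probability `exp (-n^c)` -/
def Vh (μ : ∀ n, Measure (X n)) (P : ∀ n, X n → Prop) : Prop :=
  ∃ c : ℝ, 0 < c ∧ ∀ᶠ n : ℕ in atTop, μ n {z | ¬ P n z} ≤ ENNReal.ofReal (Real.exp (-(n : ℝ) ^ c))

theorem Vh.mono (h : Vh μ P) (hPQ : ∀ᶠ n : ℕ in atTop, ∀ z, P n z → Q n z) : Vh μ Q := by
  obtain ⟨c, hc, h⟩ := h
  refine ⟨c, hc, ?_⟩
  filter_upwards [h, hPQ] with n h1 h2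
  exact (measure_mono fun z (hz : ¬ Q n z) (hp : P n z) => hz (h2 z hp)).trans h1

end vh

variable {n : ℕ}

/-- law of the pair (GOE matrix, Gaussian vector) -/
abbrev PP (n : ℕ) : Measure (Mx n × V n) := (GOE n).prod (gv (Fin n))

/-- softest scale `n^(-0.65)` -/
def e0 (n : ℕ) : ℝ := (n : ℝ) ^ (-(13 / 20 : ℝ))
/-- scale `n^(-0.57)` -/
def es (n : ℕ) : ℝ := (n : ℝ) ^ (-(57 / 100 : ℝ))
/-- scale `n^(-0.52)` -/
def ep (n : ℕ) : ℝ := (n : ℝ) ^ (-(13 / 25 : ℝ))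
/-- `n η^(3/2)` -/
def Nb (n : ℕ) (η : ℝ) : ℝ := n * (η * √η)

/-- `2 - M` -/
def tm (M : Mx n) : Mx n := (2 : ℝ) • (1 : Mx n) - M
/-- the Lorentzian window -/
def fl (η l : ℝ) : ℝ := η ^ 2 / ((2 - l) ^ 2 + η ^ 2)
/-- the Lorentzian window of a matrix -/
def fE (η : ℝ) (M : Mx n) : Mx n := η ^ 2 • (tm M * tm M + η ^ 2 • (1 : Mx n))⁻¹
/-- `tr (f (G) (A - a))` -/
def dev (η a : ℝ) (A G : Mx n) : ℝ := (fE η G * (A - a • (1 : Mx n))).trace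
/-- `(A - a) f (G) (A - a)` -/
def Bm (η a : ℝ) (A G : Mx n) : Mx n := (A - a • (1 : Mx n)) * fE η G * (A - a • (1 : Mx n))
/-- conjugation -/
def cj (O : Mat (Fin n)) (G : Mx n) : Mx n := Matrix.of O * G * (Matrix.of O)ᵀ
/-- symmetric matrices of norm at most `3` -/
def Ball (G : Mx n) : Prop := Gᵀ = G ∧ opn G ≤ 3

/-- `A` acts as the scalar `a` between `e0`-soft and `η`-soft vectors of `W` -/
def DAev (W A : Mx n) (ε η a : ℝ) : Prop :=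
  ∀ u x : V n, nrm (tm W *ᵥ u) ≤ e0 n * nrm u → nrm (tm W *ᵥ x) ≤ η * nrm x →
    |x ⬝ᵥ A *ᵥ u - a * (x ⬝ᵥ u)| ≤ ε * (nrm x * nrm u)

/-- probability of failure under the joint law of the spin and the noise of the field -/
def badP (W : Mx n) (T r ε η a : ℝ) : ℝ :=
  mean (ising W 0) fun σ => (gv (Fin n)).real
    {ξ | ¬ DAev W (Am (ising W (r • sv σ + √r • ξ)) T σ) ε η a}

/-- **(DA)** -/
def DAStmt : Prop := ∀ T ≥ (0 : ℝ), ∀ r ≥ (0 : ℝ), ∀ ε > (0 : ℝ), ∃ η > (0 : ℝ), ∃ a : ℕ → ℝ,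
  ∃ c > (0 : ℝ), Whp GOE fun n W => badP W T r ε η (a n) ≤ Real.exp (-(n : ℝ) ^ c)

/-- **(DL)** -/
def DLStmt : Prop := ∀ T ≥ (0 : ℝ), ∃ α : ℝ, ∀ ε > (0 : ℝ), ∃ η > (0 : ℝ),
  ∃ c > (0 : ℝ), Whp GOE fun n W => badP W T 0 ε η α ≤ Real.exp (-(n : ℝ) ^ c)

/-! ### dynamics: deterministic leaves -/

/-- gradient estimate -/
def GRStmt : Prop := ∀ K : ℝ, ∃ C ≥ (0 : ℝ), ∀ (n : ℕ) (W : Mx n) (y : V n), 0 < n → Wᵀ = W →
  opn W ≤ K → GR (ising W y) C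

/-- the matrix `A_T` in the planted model -/
def Aq (T r : ℝ) (z : Mx n × V n) : Mx n :=
  Am (ising (plW 1 z.1 1) (r • (1 : V n) + √r • z.2)) T (one n)

/-- size of a perturbation -/
def cost (S : Mx n) (z z' : Mx n × V n) : ℝ :=
  ((z'.1 - z.1) * S * (z'.1 - z.1)).trace + (z'.2 - z.2) ⬝ᵥ (z'.2 - z.2)

/-- finite differences in the disorder -/
structure FD (C : ℝ) (A S : Mx n × V n → Mx n) : Prop where
  mA : Measurable A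
  mS : Measurable S
  psdA : ∀ z, Ball z.1 → (A z).PosSemidef
  psdS : ∀ z, Ball z.1 → (S z).PosSemidef
  bd : ∀ z, Ball z.1 → opn (A z) ≤ C
  tr : ∀ z, Ball z.1 → (S z).trace ≤ C * n
  lipA : ∀ z z', Ball z.1 → Ball z'.1 → fro (A z' - A z) ≤ C * cost (S z) z z'
  lipS : ∀ z z' (u : V n), Ball z.1 → Ball z'.1 →
    u ⬝ᵥ S z' *ᵥ u ≤ 2 * (u ⬝ᵥ S z *ᵥ u) + C * (u ⬝ᵥ u) * cost (S z) z z'

def FDStmt : Prop := ∀ T ≥ (0 : ℝ), ∀ r ≥ (0 : ℝ), ∃ C > (0 : ℝ), ∀ n : ℕ, 0 < n →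
  ∃ S : Mx n × V n → Mx n, FD C (Aq T r) S

/-- bounded positive matrix functions, Hilbert-Schmidt Lipschitz for `√n ‖·‖` -/
structure LipJ (C : ℝ) (B : Mx n × V n → Mx n) : Prop where
  meas : Measurable B
  psd : ∀ z, Ball z.1 → (B z).PosSemidef
  bd : ∀ z, Ball z.1 → opn (B z) ≤ C
  lip : ∀ z z', Ball z.1 → Ball z'.1 →
    fro (B z' - B z) ≤ C * (n * opn (z'.1 - z.1) ^ 2 + (z'.2 - z.2) ⬝ᵥ (z'.2 - z.2))

/-! ### the window function -/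

structure FeApi : Prop where
  meas : ∀ (n : ℕ) (η : ℝ), Measurable fun M : Mx n => fE η M
  psd : ∀ {n : ℕ} {M : Mx n} {η : ℝ}, Mᵀ = M → 0 < η → (fE η M).PosSemidef
  le_one : ∀ {n : ℕ} {M : Mx n} {η : ℝ}, Mᵀ = M → 0 < η → opn (fE η M) ≤ 1
  eig : ∀ {n : ℕ} {M : Mx n} {η : ℝ}, Mᵀ = M → 0 < η → ∀ k,
    fE η M *ᵥ vec M k = fl η (lam M k) • vec M k
  quad : ∀ {n : ℕ} {M : Mx n} {η : ℝ}, Mᵀ = M → 0 < η → ∀ u v : V n, u ⬝ᵥ fE η M *ᵥ v =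
    ∑ k ∈ Finset.range n, fl η (lam M k) * ((vec M k ⬝ᵥ u) * (vec M k ⬝ᵥ v))
  trace : ∀ {n : ℕ} {M : Mx n} {η : ℝ}, Mᵀ = M → 0 < η → ∀ B : Mx n, (fE η M * B).trace =
    ∑ k ∈ Finset.range n, fl η (lam M k) * (vec M k ⬝ᵥ B *ᵥ vec M k)
  conj : ∀ {n : ℕ} (M : Mx n) (η : ℝ) {O : Mat (Fin n)},
    Matrix.of O ∈ Matrix.orthogonalGroup (Fin n) ℝ → fE η (cj O M) = cj O (fE η M)
  cs : ∀ {n : ℕ} {M : Mx n} {η : ℝ}, Mᵀ = M → 0 < η → ∀ x v : V n,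
    nrm (tm M *ᵥ x) ≤ η * nrm x → (x ⬝ᵥ v) ^ 2 ≤ 2 * (x ⬝ᵥ x) * (v ⬝ᵥ fE η M *ᵥ v)
  rest : ∀ {n : ℕ} {M : Mx n} {η : ℝ}, Mᵀ = M → 0 < η → ∀ u a b : V n, tm M *ᵥ u = a + b →
    nrm (u - fE η M *ᵥ u) ≤ nrm a / η + √(b ⬝ᵥ fE η M *ᵥ b) / η
  lipop : ∀ {n : ℕ} {M M' : Mx n} {η : ℝ}, Mᵀ = M → M'ᵀ = M' → 0 < η →
    opn (fE η M' - fE η M) ≤ opn (M' - M) / η
  liptr : ∀ {n : ℕ} {M M' : Mx n} {η : ℝ}, Mᵀ = M → M'ᵀ = M' → 0 < η → ∀ F : Mx n,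
    |((fE η M' - fE η M) * F).trace| ≤
      √(fro (M' - M)) * opn F * (√(fE η M).trace + √(fE η M').trace) / η
  trcs : ∀ {n : ℕ} {M : Mx n} {η : ℝ}, Mᵀ = M → 0 < η → ∀ D : Mx n,
    |(fE η M * D).trace| ≤ √(fE η M).trace * √(fro D)

def LipStmt : Prop := ∀ C > (0 : ℝ), ∀ η > (0 : ℝ), ∃ C' > (0 : ℝ), ∀ (n : ℕ) (A S : Mx n × V n → Mx n),
  FD C A S → LipJ C' A ∧ LipJ C' (fun _ : Mx n × V n => (1 : Mx n)) ∧
    ∀ a : ℝ, |a| ≤ C → LipJ C' fun z => Bm η a (A z) z.1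

def LipGlue : Prop := FeApi → LipStmt

/-! ### random matrix inputs -/

/-- rigidity near the upper edge -/
structure Spec (G : Mx n) : Prop where
  symm : Gᵀ = G
  top : opn G ≤ 2 + e0 n
  lo : ∀ η ∈ Icc (e0 n) 1, Nb n η / 64 ≤ cnt G (2 - η)
  hi : ∀ η ∈ Icc (e0 n) 1, (cnt G (2 - η) : ℝ) ≤ 2 * Nb n η
  tr : ∀ η ∈ Icc (e0 n) 1, (fE η G).trace ≤ 4 * Nb n η

def SpecStmt : Prop := Vh PP fun _ z => Spec z.1

/-- isotropic bounds along the planted direction -/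
def IsoEv (G : Mx n) : Prop := ∀ η ∈ Icc (e0 n) (1 / 4),
  (1 : V n) ⬝ᵥ fE η G *ᵥ (1 : V n) ≤ 4 * Nb n η ∧
  (1 : V n) ⬝ᵥ fE η (plW 1 G 1) *ᵥ (1 : V n) ≤ 8 * (n * √η)

def IsoStmt : Prop := Vh PP fun _ z => IsoEv z.1

def TrStmt : Prop := ∀ η ∈ Ioc (0 : ℝ) (1 / 4), ∃ β > (0 : ℝ), ∀ δ > (0 : ℝ),
  Whp PP fun n z => |(fE η z.1).trace - β * n| ≤ δ * n

def RmtGlue : Prop := FeApi → SpecStmt ∧ IsoStmt ∧ TrStmt

/-- conditioning on the spectrum -/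
def HaarStmt : Prop := ∀ (n : ℕ) (ν : Measure (Mat (Fin n))), IsProbabilityMeasure ν → RHaar ν →
  ∀ (E E' : Set (Mx n × V n)) (Gd : Mx n × V n → Prop) (a b : ℝ), MeasurableSet E →
    MeasurableSet E' → 0 ≤ a → 0 ≤ b →
    (∀ z, Gd z → ν.real {O | (cj O z.1, z.2) ∈ E} ≤ a + b * ν.real {O | (cj O z.1, z.2) ∈ E'}) →
    (PP n).real E ≤ (PP n).real {z | ¬ Gd z} + a + b * (PP n).real E'

/-- entries of `A` in the rotated eigenbasis -/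
def Phi (A : Mx n → Mx n) (G : Mx n) (O : Mat (Fin n)) (k l : ℕ) : ℝ :=
  (Matrix.of O *ᵥ vec G k) ⬝ᵥ A (cj O G) *ᵥ (Matrix.of O *ᵥ vec G l)

def SwapOut (ν : Measure (Mat (Fin n))) (A : Mx n → Mx n) (G : Mx n) (η ε : ℝ) : Prop :=
  ∀ k < cnt G (2 - η),
    ∫ O, ∑ l ∈ (Finset.range (cnt G (2 - η))).erase k, Phi A G O l k ^ 2 ∂ν ≤ ε ∧
    ∀ l < cnt G (2 - η), ∫ O, (Phi A G O k k - Phi A G O l l) ^ 2 ∂ν ≤ ε

/-- rank-two rotations inside a macroscopic window -/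
def SwapStmt : Prop := ∀ C > (0 : ℝ), ∀ ε > (0 : ℝ), ∃ η ∈ Ioc (0 : ℝ) 1, ∀ᶠ n : ℕ in atTop,
  ∀ ν : Measure (Mat (Fin n)), IsProbabilityMeasure ν → RHaar ν →
  ∀ A S : Mx n × V n → Mx n, FD C A S → ∀ (G : Mx n) (ξ : V n), Spec G →
    SwapOut ν (fun M => A (M, ξ)) G η ε

/-- the mean of `B` over the microscopic window is small -/
def MeanStmt : Prop := ∀ C > (0 : ℝ), ∀ t > (0 : ℝ), ∀ ε > (0 : ℝ), ∃ ε1 > (0 : ℝ), ∃ δ > (0 : ℝ),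
  ∃ C' ≥ (0 : ℝ), ∀ η ∈ Ioc (0 : ℝ) 1, ∃ ηb > (0 : ℝ), ∀ η0 ∈ Ioc (0 : ℝ) ηb, ∀ᶠ n : ℕ in atTop,
  ∀ ν : Measure (Mat (Fin n)), IsProbabilityMeasure ν → RHaar ν → ∀ A : Mx n → Mx n, Measurable A →
  (∀ M, Ball M → (A M)ᵀ = A M ∧ opn (A M) ≤ C) → ∀ (G : Mx n) (a : ℝ), Spec G → |a| ≤ C →
    SwapOut ν A G η ε1 →
    ν.real {O | t * Nb n (ep n) < (fE (ep n) (cj O G) * Bm η0 a (A (cj O G)) (cj O G)).trace} ≤
      ε + C' * ν.real {O | δ * Nb n η0 < |dev η0 a (A (cj O G)) (cj O G)|}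

def MeanGlue : Prop := FeApi → MeanStmt

/-- random reflections inside the microscopic window -/
def RotStmt : Prop := ∃ c0 > (0 : ℝ), ∀ C > (0 : ℝ), ∀ t > (0 : ℝ), ∀ᶠ n : ℕ in atTop,
  ∀ ν : Measure (Mat (Fin n)), IsProbabilityMeasure ν → RHaar ν →
  ∀ B : Mx n × V n → Mx n, LipJ C B → ∀ (G : Mx n) (ξ : V n), Spec G →
    ν.real {O | c0 * t < opn (fE (es n) (cj O G) * B (cj O G, ξ) * fE (es n) (cj O G)) ∧
      (fE (ep n) (cj O G) * B (cj O G, ξ)).trace ≤ t * Nb n (ep n)} ≤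
      Real.exp (-(n : ℝ) ^ (1 / 5 : ℝ))

def RotGlue : Prop := FeApi → RotStmt

/-- Gaussian concentration of window traces -/
def ConcStmt : Prop := ∀ C > (0 : ℝ), ∃ c > (0 : ℝ), ∀ᶠ n : ℕ in atTop,
  ∀ B : Mx n × V n → Mx n, LipJ C B → ∀ η ∈ Icc (ep n) 1, ∃ m : ℝ, ∀ s ≥ (0 : ℝ),
    (PP n).real {z | Spec z.1 ∧ s * Nb n η ≤ |(fE η z.1 * B z).trace - m * Nb n η|} ≤
      2 * Real.exp (-(c * s ^ 2 * (n : ℝ) ^ (9 / 50 : ℝ)))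

def ConcGlue : Prop := FeApi → ConcStmt

/-- the last, deterministic step -/
def DetStmt : Prop := ∀ C > (0 : ℝ), ∀ ε > (0 : ℝ), ∃ t > (0 : ℝ), ∀ η0 > (0 : ℝ), ∃ η > (0 : ℝ),
  ∀ᶠ n : ℕ in atTop, ∀ (G A : Mx n) (a : ℝ), Ball G → IsoEv G → Aᵀ = A → opn A ≤ C → |a| ≤ C →
    opn (fE (es n) G * Bm η0 a A G * fE (es n) G) ≤ t → DAev (plW 1 G 1) A ε η a

def DetGlue : Prop := FeApi → DetStmt

/-- **(DA) in the planted model** -/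
def PDA : Prop := ∀ T ≥ (0 : ℝ), ∀ r ≥ (0 : ℝ), ∀ ε > (0 : ℝ), ∃ δ > (0 : ℝ),
  ∃ ηb ∈ Ioc (0 : ℝ) (1 / 4), ∀ η0 ∈ Ioc (0 : ℝ) ηb, ∃ η > (0 : ℝ), ∀ a : ℕ → ℝ,
    (Whp PP fun n z => |dev η0 (a n) (Aq T r z) z.1| ≤ δ * Nb n η0) →
    Vh PP fun n z => DAev (plW 1 z.1 1) (Aq T r z) ε η (a n)

def PDAGlue : Prop := FeApi → FDStmt → LipStmt → SpecStmt → IsoStmt → HaarStmt → SwapStmt →
  MeanStmt → RotStmt → ConcStmt → DetStmt → PDA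

/-- existence of the centre -/
def CenStmt : Prop := ∀ T ≥ (0 : ℝ), ∀ r ≥ (0 : ℝ), ∀ η0 ∈ Ioc (0 : ℝ) (1 / 4), ∃ a : ℕ → ℝ,
  ∀ δ > (0 : ℝ), Whp PP fun n z => |dev η0 (a n) (Aq T r z) z.1| ≤ δ * Nb n η0

def CenGlue : Prop := FeApi → FDStmt → LipStmt → SpecStmt → ConcStmt → CenStmt

/-! ### transfer to the Gibbs measure -/

def PlantC : Prop := ∀ (A : ∀ n : ℕ, Cube n → Set (Mx n × V n)) (c : ℝ), 0 < c →
  (∀ᶠ n : ℕ in atTop, ∀ σ : Cube n, PP n {z | (plW 1 z.1 (sv σ), z.2) ∈ A n σ} ≤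
    ENNReal.ofReal (Real.exp (-(n : ℝ) ^ c))) →
  ∃ c' > (0 : ℝ), Whp GOE fun n W =>
    mean (ising W 0) (fun σ => (gv (Fin n)).real {ξ | (W, ξ) ∈ A n σ}) ≤ Real.exp (-(n : ℝ) ^ c')

def GaugeStmt : Prop := ∀ (n : ℕ) (T r ε η a : ℝ) (σ : Cube n),
  PP n {z | ¬ DAev (plW 1 z.1 (sv σ))
      (Am (ising (plW 1 z.1 (sv σ)) (r • sv σ + √r • z.2)) T σ) ε η a} ≤
    PP n {z | ¬ DAev (plW 1 z.1 1) (Aq T r z) ε η a}

/-! ### the limit of the scalar: parallel chain and state evolution -/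

/-- one step of the chain with frozen field -/
def par (W : Mx n) (h : ℝ) (F : Cube n → ℝ) (x : Cube n) : ℝ := sg (ising 0 (W *ᵥ sv x)) h F x
/-- mean spin after `K` steps -/
def Yd (W : Mx n) (h : ℝ) (K : ℕ) (z : Cube n) : V n := fun i => (par W h)^[K] (fun x => sv x i) z
/-- overlap of two chains branching after `K0` steps -/
def br (W M : Mx n) (h : ℝ) (K0 K1 : ℕ) : ℝ :=
  (par W h)^[K0] (fun z => Yd W h K1 z ⬝ᵥ M *ᵥ Yd W h K1 z) (one n)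

def DiscStmt : Prop := ∀ T ≥ (0 : ℝ), ∃ C > (0 : ℝ), ∀ (n K : ℕ) (W M : Mx n), 0 < n → 0 < K →
  Wᵀ = W → opn W ≤ 4 →
    |(M * Am (ising W 0) T (one n)).trace - (br W M (T / K) K K - br W M (T / K) 0 (2 * K))| ≤
      C * opn M * (n / √K + √n * √(∑ i, W i i ^ 2))

/-- uniform law on `(0, 1]` -/
def unif : Measure ℝ := volume.restrict (Ioc 0 1)
/-- the update rule -/
def ph (d s b u : ℝ) : ℝ := if u < d * (1 + Real.tanh b) / 2 then 1 else if u < d then -1 else s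
/-- the update rule on the cube -/
def upd (d : ℝ) (x : Cube n) (b u : V n) : Cube n := fun i =>
  if u i < d * (1 + Real.tanh (b i)) / 2 then true else if u i < d then false else x i

def RepStmt : Prop := ∀ (n : ℕ) (h : ℝ) (b : V n) (F : Cube n → ℝ) (x : Cube n), 0 < n → 0 ≤ h →
  sg (ising 0 b) h F x = ∫ u, F (upd (1 - Real.exp (-h)) x b u) ∂(Measure.pi fun _ : Fin n => unif)

/-- site data and matrix -/
abbrev Sp (D : Type) (n : ℕ) : Type := (Fin n → D) × Mx n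
/-- random vectors -/
abbrev RV (D : Type) : Type := ∀ n : ℕ, Sp D n → V n
/-- law of the site data and the matrix -/
abbrev TL {D : Type} [MeasurableSpace D] (μ : Measure D) (n : ℕ) : Measure (Sp D n) :=
  (Measure.pi fun _ : Fin n => μ).prod (GOE n)
/-- forget the last site variable -/
def lift {D : Type} (x : RV D) : RV (D × ℝ) := fun n z => x n (fun i => (z.1 i).1, z.2)

/-- closure properties of first-order methods -/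
structure Gfom (Good : ∀ (D : Type) [MeasurableSpace D], Measure D → Set (RV D) → Prop) : Prop where
  init : Good Unit (Measure.dirac ()) {fun _ _ => 1}
  prob : ∀ {D : Type} [MeasurableSpace D] {μ : Measure D} {l : Set (RV D)}, Good D μ l →
    IsProbabilityMeasure μ
  meas : ∀ {D : Type} [MeasurableSpace D] {μ : Measure D} {l : Set (RV D)}, Good D μ l →
    ∀ x ∈ l, ∀ n, Measurable (x n)
  mul : ∀ {D : Type} [MeasurableSpace D] {μ : Measure D} {l : Set (RV D)}, Good D μ l →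
    ∀ x ∈ l, Good D μ (insert (fun n z => z.2 *ᵥ x n z) l)
  lin : ∀ {D : Type} [MeasurableSpace D] {μ : Measure D} {l : Set (RV D)}, Good D μ l →
    ∀ x ∈ l, ∀ y ∈ l, ∀ w ∈ l, Good D μ (insert (fun n z => x n z + avg (y n z) • w n z) l)
  noise : ∀ {D : Type} [MeasurableSpace D] {μ : Measure D} {l : Set (RV D)}, Good D μ l →
    ∀ s ∈ l, ∀ b ∈ l, ∀ d : ℝ, Good (D × ℝ) (μ.prod unif)
      (insert (fun n z i => ph d (lift s n z i) (lift b n z i) (z.1 i).2) (lift '' l))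
  ip : ∀ {D : Type} [MeasurableSpace D] {μ : Measure D} {l : Set (RV D)}, Good D μ l →
    ∀ x ∈ l, ∀ y ∈ l, ∃ α : ℝ, ∀ δ > (0 : ℝ),
      Whp (TL μ) fun n z => |x n z ⬝ᵥ y n z - α * n| ≤ δ * n

def GfomStmt : Prop := ∃ Good, Gfom Good

def SEStmt : Prop := ∀ h ≥ (0 : ℝ), ∀ K0 K1 p : ℕ, ∃ α : ℝ, ∀ δ > (0 : ℝ),
  Whp GOE fun n G => |br (plW 1 G 1) (G ^ p) h K0 K1 - α * n| ≤ δ * n

def SEGlue : Prop := GfomStmt → RepStmt → SEStmt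

/-- the centre converges -/
def SEF : Prop := ∀ T ≥ (0 : ℝ), ∀ η0 ∈ Ioc (0 : ℝ) (1 / 4), ∃ α : ℝ,
  ∀ δ > (0 : ℝ), Whp PP fun n z => |dev η0 α (Aq T 0 z) z.1| ≤ δ * Nb n η0

def SEFGlue : Prop := FeApi → FDStmt → SpecStmt → TrStmt → DiscStmt → SEStmt → SEF

/-- **(DL) in the planted model** -/
def PDL : Prop := ∀ T ≥ (0 : ℝ), ∃ α : ℝ, ∀ ε > (0 : ℝ), ∃ η > (0 : ℝ),
  Vh PP fun _ z => DAev (plW 1 z.1 1) (Aq T 0 z) ε η α

def PDLGlue : Prop := SpecStmt → PDA → SEF → PDL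

/-! ### assembly -/

theorem transfer (hP : PlantC) (hG : GaugeStmt) {T r ε η : ℝ} {a : ℕ → ℝ}
    (h : Vh PP fun n z => DAev (plW 1 z.1 1) (Aq T r z) ε η (a n)) :
    ∃ c > (0 : ℝ), Whp GOE fun n W => badP W T r ε η (a n) ≤ Real.exp (-(n : ℝ) ^ c) := by
  obtain ⟨c, hc, h⟩ := h
  exact hP (fun n σ => {z | ¬ DAev z.1 (Am (ising z.1 (r • sv σ + √r • z.2)) T σ) ε η (a n)}) c hc
    (h.mono fun n hn σ => (hG n T r ε η (a n) σ).trans hn)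

theorem da_of (h : PDA) (hC : CenStmt) (hP : PlantC) (hG : GaugeStmt) : DAStmt := by
  intro T hT r hr ε hε
  obtain ⟨δ, hδ, ηb, hb, h⟩ := h T hT r hr ε hε
  obtain ⟨η, hη, h⟩ := h ηb ⟨hb.1, le_rfl⟩
  obtain ⟨a, ha⟩ := hC T hT r hr ηb hb
  exact ⟨η, hη, a, transfer hP hG (h a (ha δ hδ))⟩

theorem dl_of (h : PDL) (hP : PlantC) (hG : GaugeStmt) : DLStmt := by
  intro T hT
  obtain ⟨α, h⟩ := h T hT
  refine ⟨α, fun ε hε => ?_⟩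
  obtain ⟨η, hη, h⟩ := h ε hε
  exact ⟨η, hη, transfer hP hG (a := fun _ => α) h⟩

end Crest.Agent.T157.Da

end
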