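import Crest.Agent.T157.Top3_97
import Crest.Agent.T157.PlB_37

/-!
# Row 157: from the GOE completion to the Prelude model; removing the normalisation (helper48)
-/

set_option autoImplicit false

noncomputable section

namespace Crest.Agent.T157.GoeT

open MeasureTheory Filter Topology Matrix
open Crest.ProbabilityR.SpinGlassDynamics
open Crest.Agent.T157.E

/-! ### weights with the same law -/

section finite
variable {Ω : Type*} [Fintype Ω] {w v : Ω → ℝ}

theorem prob_eq_mul (w : Ω → ℝ) : prob w = fun x => w x * (∑ y, w y)⁻¹ := by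
  funext x; rw [prob, div_eq_mul_inv]

theorem sum_pos [Nonempty Ω] (hw : ∀ x, 0 < w x) : 0 < ∑ y, w y :=
  Finset.sum_pos (fun y _ => hw y) Finset.univ_nonempty

theorem prob_pos [Nonempty Ω] (hw : ∀ x, 0 < w x) (x : Ω) : 0 < prob w x :=
  div_pos (hw x) (sum_pos hw)

theorem prob_prob' (hw : ∑ y, w y ≠ 0) : prob (prob w) = prob w := by
  conv_lhs => rw [prob_eq_mul w]
  exact prob_smul w (inv_ne_zero hw)

theorem mean_congr_prob (h : prob w = prob v) (f : Ω → ℝ) : mean w f = mean v f := by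
  simp only [mean, h]

theorem var_congr_prob (h : prob w = prob v) (f : Ω → ℝ) : var w f = var v f := by
  simp only [var, mean, h]

theorem cov_congr_prob (h : prob w = prob v) (f g : Ω → ℝ) : cov w f g = cov v f g := by
  simp only [cov, mean, h]

theorem ent_congr_prob (h : prob w = prob v) (f : Ω → ℝ) : ent w f = ent v f := by
  simp only [ent, mean, h]

theorem mass_congr_prob (h : prob w = prob v) (A : Set Ω) : mass w A = mass v A := by
  simp only [mass, h]

theorem kl_congr_prob {w' v' : Ω → ℝ} (h : prob w = prob v) (h' : prob w' = prob v') :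
    kl w w' = kl v v' := by
  simp only [kl, h, h']

theorem meanV_congr_prob {ι : Type*} (h : prob w = prob v) (φ : Ω → ι → ℝ) :
    meanV w φ = meanV v φ := by
  funext i; exact mean_congr_prob h _

theorem covV_congr_prob {ι : Type*} (h : prob w = prob v) (f : Ω → ℝ) (φ : Ω → ι → ℝ) :
    covV w f φ = covV v f φ := by
  funext i; exact cov_congr_prob h _ _

theorem covMat_congr_prob {ι : Type*} (h : prob w = prob v) (φ : Ω → ι → ℝ) :
    covMat w φ = covMat v φ := by
  funext i j; exact cov_congr_prob h _ _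

theorem slE_congr_prob {ι : Type*} [Fintype ι] (h : prob w = prob v) (φ : Ω → ι → ℝ) (s : ℝ)
    (F : Ω → (ι → ℝ) → ℝ) : slE φ w s F = slE φ v s F := by
  simp only [slE, h]

theorem law_congr_prob {ι : Type*} [Fintype ι] (h : prob w = prob v) (φ : Ω → ι → ℝ) (s : ℝ) :
    SL.law φ w s = SL.law φ v s := by
  simp only [SL.law, h]

/-- multiplying by a density: only the law of the base weight matters -/
theorem prob_prob_mul (hw : ∑ y, w y ≠ 0) (u : Ω → ℝ) :
    prob (fun x => prob w x * u x) = prob fun x => w x * u x := by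
  rw [← prob_smul (fun x => w x * u x) (inv_ne_zero hw)]
  congr 1
  funext x
  rw [prob_eq_mul w]; ring

theorem prob_mul_congr (hw : ∑ y, w y ≠ 0) (hv : ∑ y, v y ≠ 0) (h : prob w = prob v)
    (u : Ω → ℝ) : prob (fun x => w x * u x) = prob fun x => v x * u x := by
  rw [← prob_prob_mul hw, ← prob_prob_mul hv, h]

theorem prob_post_prob {ι : Type*} [Fintype ι] (hw : ∑ y, w y ≠ 0) (φ : Ω → ι → ℝ) (s : ℝ)
    (y : ι → ℝ) : prob (post φ (prob w) s y) = prob (post φ w s y) :=
  prob_prob_mul hw _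

theorem mean_prob (hw : ∑ y, w y ≠ 0) (f : Ω → ℝ) : mean (prob w) f = mean w f :=
  mean_congr_prob (prob_prob' hw) f

theorem var_prob (hw : ∑ y, w y ≠ 0) (f : Ω → ℝ) : var (prob w) f = var w f :=
  var_congr_prob (prob_prob' hw) f

theorem cov_prob (hw : ∑ y, w y ≠ 0) (f g : Ω → ℝ) : cov (prob w) f g = cov w f g :=
  cov_congr_prob (prob_prob' hw) f g

theorem ent_prob (hw : ∑ y, w y ≠ 0) (f : Ω → ℝ) : ent (prob w) f = ent w f :=
  ent_congr_prob (prob_prob' hw) f

theorem mass_prob (hw : ∑ y, w y ≠ 0) (A : Set Ω) : mass (prob w) A = mass w A :=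
  mass_congr_prob (prob_prob' hw) A

theorem covMat_prob {ι : Type*} (hw : ∑ y, w y ≠ 0) (φ : Ω → ι → ℝ) :
    covMat (prob w) φ = covMat w φ :=
  covMat_congr_prob (prob_prob' hw) φ

theorem slE_prob {ι : Type*} [Fintype ι] (hw : ∑ y, w y ≠ 0) (φ : Ω → ι → ℝ) (s : ℝ)
    (F : Ω → (ι → ℝ) → ℝ) : slE φ (prob w) s F = slE φ w s F :=
  slE_congr_prob (prob_prob' hw) φ s F

theorem law_prob {ι : Type*} [Fintype ι] (hw : ∑ y, w y ≠ 0) (φ : Ω → ι → ℝ) (s : ℝ) :
    SL.law φ (prob w) s = SL.law φ w s :=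
  law_congr_prob (prob_prob' hw) φ s

end finite

/-! ### heat-bath objects -/

section cube
variable {n : ℕ} {w v : Cube n → ℝ}

theorem ratio_prob (hw : ∑ y, w y ≠ 0) (a b c : Cube n) :
    prob w a / (prob w b + prob w c) = w a / (w b + w c) := by
  rw [prob, prob, prob, ← add_div, div_div_div_cancel_right₀ hw]

theorem siteM_prob (hw : ∑ y, w y ≠ 0) (f : Cube n → ℝ) : siteM (prob w) f = siteM w f := by
  funext i x
  simp only [siteM, add_div, mul_comm _ (f _), mul_div_assoc, ratio_prob hw]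

theorem cnd_prob (hw : ∑ y, w y ≠ 0) (i : Fin n) (x : Cube n) :
    Ent.cnd (prob w) i x = Ent.cnd w i x := by
  funext b
  simp only [Ent.cnd, ratio_prob hw]

theorem dir_prob (hw : ∑ y, w y ≠ 0) (f : Cube n → ℝ) : dir (prob w) f = dir w f := by
  simp only [dir, prob_prob' hw, siteM_prob hw]

theorem dir2_prob (hw : ∑ y, w y ≠ 0) (f g : Cube n → ℝ) : dir2 (prob w) f g = dir2 w f g := by
  simp only [dir2, prob_prob' hw, siteM_prob hw]

theorem gen_prob (hw : ∑ y, w y ≠ 0) (f : Cube n → ℝ) : gen (prob w) f = gen w f := by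
  funext x; simp only [gen, siteM_prob hw]

theorem entS_prob (hw : ∑ y, w y ≠ 0) (f : Cube n → ℝ) (i : Fin n) :
    Ent.entS (prob w) f i = Ent.entS w f i := by
  simp only [Ent.entS, prob_prob' hw, cnd_prob hw]

theorem dirS_prob (hw : ∑ y, w y ≠ 0) (f : Cube n → ℝ) (i : Fin n) :
    Ent.dirS (prob w) f i = Ent.dirS w f i := by
  simp only [Ent.dirS, prob_prob' hw, siteM_prob hw]

theorem hb_prob (hw : ∑ y, w y ≠ 0) : hb (prob w) = hb w := by
  funext x y; simp only [hb, ratio_prob hw]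

theorem hbPow_prob (hw : ∑ y, w y ≠ 0) (k : ℕ) : hbPow (prob w) k = hbPow w k := by
  induction k with
  | zero => funext x y; rfl
  | succ k ih => funext x y; simp only [hbPow, ih, hb_prob hw]

theorem hbCt_prob (hw : ∑ y, w y ≠ 0) (t : ℝ) : hbCt (prob w) t = hbCt w t := by
  funext x y; simp only [hbCt, hbPow_prob hw]

theorem mag_prob (hw : ∑ y, w y ≠ 0) : mag (prob w) = mag w :=
  meanV_congr_prob (prob_prob' hw) sv

theorem covM_prob (hw : ∑ y, w y ≠ 0) : covM (prob w) = covM w := covMat_prob hw sv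

theorem prob_tilt_prob (hw : ∑ y, w y ≠ 0) (y : Fin n → ℝ) :
    prob (tilt (prob w) y) = prob (tilt w y) :=
  prob_prob_mul hw _

theorem mag_tilt_prob (hw : ∑ y, w y ≠ 0) (y : Fin n → ℝ) :
    mag (tilt (prob w) y) = mag (tilt w y) :=
  meanV_congr_prob (prob_tilt_prob hw y) sv

theorem covM_tilt_prob (hw : ∑ y, w y ≠ 0) (y : Fin n → ℝ) :
    covM (tilt (prob w) y) = covM (tilt w y) :=
  covMat_congr_prob (prob_tilt_prob hw y) sv

theorem covOK_prob (hw : ∑ y, w y ≠ 0) (K ρ : ℝ) (y : Fin n → ℝ) :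
    Tap.CovOK (prob w) K ρ y ↔ Tap.CovOK w K ρ y := by
  simp only [Tap.CovOK, covM_tilt_prob hw]

theorem poin_prob (hw : ∑ y, w y ≠ 0) (C : ℝ) : Top.Poin (prob w) C ↔ Top.Poin w C := by
  simp only [Top.Poin, var_prob hw, dir_prob hw]

theorem lsi_prob (hw : ∑ y, w y ≠ 0) (K : ℝ) : Top.Lsi (prob w) K ↔ Top.Lsi w K := by
  simp only [Top.Lsi, ent_prob hw, dir_prob hw]

theorem slow_prob (hw : ∑ y, w y ≠ 0) (K : ℝ) : Top.Slow (prob w) K ↔ Top.Slow w K := by
  simp only [Top.Slow, var_prob hw, dir_prob hw]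

theorem at_prob (hw : ∑ y, w y ≠ 0) (K B : ℝ) : Ent.AT (prob w) K B ↔ Ent.AT w K B := by
  simp only [Ent.AT, ent_prob hw, mean_prob hw, entS_prob hw]

theorem lp_prob (hw : ∑ y, w y ≠ 0) (κ ε : ℝ) : Top.Lp (prob w) κ ε ↔ Top.Lp w κ ε := by
  simp only [Top.Lp, ent_prob hw, mean_prob hw, dir_prob hw]

theorem dLsi_prob (hw : ∑ y, w y ≠ 0) (K B : ℝ) : Top.DLsi (prob w) K B ↔ Top.DLsi w K B := by
  simp only [Top.DLsi, ent_prob hw, mean_prob hw, dir_prob hw]

theorem varLev_prob (hw : ∑ y, w y ≠ 0) (H K B : ℝ) :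
    Top.VarLev (prob w) H K B ↔ Top.VarLev w H K B := by
  simp only [Top.VarLev, var_prob hw, mean_prob hw, dir_prob hw]

theorem entLev_prob (hw : ∑ y, w y ≠ 0) (H K B : ℝ) :
    Top.EntLev (prob w) H K B ↔ Top.EntLev w H K B := by
  simp only [Top.EntLev, ent_prob hw, mean_prob hw, entS_prob hw]

theorem subG_prob (hw : ∑ y, w y ≠ 0) (K : ℝ) : Top.SubG (prob w) K ↔ Top.SubG w K := by
  simp only [Top.SubG, mean_prob hw, mag_prob hw]

theorem sum_gibbs_ne (β : ℝ) (g : Pair n → ℝ) : ∑ y, gibbsWeight n β g y ≠ 0 :=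
  (sum_pos (gibbsWeight_pos β g)).ne'

theorem sum_ising_ne (A : Matrix (Fin n) (Fin n) ℝ) (h : Fin n → ℝ) : ∑ y, ising A h y ≠ 0 :=
  (sum_pos fun _ => Real.exp_pos _).ne'

/-- the diagonal of the GOE completion does not change the law -/
theorem prob_ising_Wmat (β : ℝ) (g : Pair n → ℝ) (d : Fin n → ℝ) :
    prob (ising (β • Wmat n g d) 0) = prob (gibbsWeight n β g) := by
  rw [Wmat, smul_add, ← diagonal_smul, Pl.prob_ising_add_diagonal, gibbsWeight_eq_ising]

end cube

/-! ### the transfer -/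

theorem goeTransfer : Top.GoeTransfer := fun β P h => by
  have h1 := Top.Whp.comp (ν := fun n => (disorderLaw n).prod (gv (Fin n)))
    (T := fun n p => Wmat n p.1 p.2) (fun n => Cond.mp_Wmat) h
  refine Top.Whp.of_prod_fst (ν := fun n => gv (Fin n)) (h1.imp fun n p hp => ?_)
  rwa [prob_ising_Wmat] at hp

/-- the transfer for properties that depend on the law only -/
theorem transfer (β : ℝ) (P : ∀ n : ℕ, (Cube n → ℝ) → Prop)
    (hP : ∀ n (w : Cube n → ℝ), (∀ x, 0 < w x) → (P n (prob w) ↔ P n w))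
    (h : Top.Whp Tap.GOE fun n W => P n (ising (β • W) 0)) :
    Top.Whp disorderLaw fun n g => P n (gibbsWeight n β g) :=
  (goeTransfer β P (h.imp fun n W hW => (hP n _ fun _ => Real.exp_pos _).2 hW)).imp
    fun n g hg => (hP n _ (gibbsWeight_pos β g)).1 hg

/-- the converse transfer: from the Prelude model to the GOE completion -/
theorem transfer_back (β : ℝ) (P : ∀ n : ℕ, (Cube n → ℝ) → Prop)
    (hm : ∀ n, MeasurableSet {W : Tap.Mx n | ¬ P n (prob (ising (β • W) 0))})
    (h : Top.Whp disorderLaw fun n g => P n (prob (gibbsWeight n β g))) :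
    Top.Whp Tap.GOE fun n W => P n (prob (ising (β • W) 0)) := by
  have h1 := Top.Whp.comp (ν := fun n => (disorderLaw n).prod (gv (Fin n)))
    (T := fun n p => p.1) (fun n => measurePreserving_fst) h
  refine Tendsto.congr (fun n => ?_) h1
  rw [← (Cond.mp_Wmat (n := n)).measure_preimage (hm n).nullMeasurableSet]
  congr 1
  ext p
  simp only [Set.mem_setOf_eq, Set.mem_preimage, prob_ising_Wmat]

end Crest.Agent.T157.GoeT

end
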