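import Crest.Agent.T157.RecD_77

/-!
# Row 157, part C2 (helper77): recovery by the semigroup (I2) and the link inequality, at fixed `n`
-/

set_option autoImplicit false
set_option linter.unusedSectionVars false

noncomputable section

namespace Crest.Agent.T157.Rec

open MeasureTheory ProbabilityTheory Filter Topology Set Real Matrix Function
open Crest.Agent.T157.E Crest.Agent.T157.SL
open Crest.Agent.T157.Chain22 (sg)

variable {n : ℕ} {w : Cube n → ℝ} {s r T T' C α η : ℝ} {P : Matrix (Fin n) (Fin n) ℝ}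

theorem mass_eq_mean {Ω : Type*} [Fintype Ω] (w : Ω → ℝ) (B : Set Ω) :
    mass w B = mean w (B.indicator fun _ => 1) := by
  classical
  rw [mass, mean, Finset.sum_filter]
  refine Finset.sum_congr rfl fun x _ => ?_
  by_cases h : x ∈ B <;> simp [h]

/-- bounds for `T_s g`, `g` a bounded vector observable -/
theorem Tm_bounds {κ : Type*} [Fintype κ] (hW : Wt w) (hs : 0 ≤ s) {Q : Matrix (Fin n) (Fin n) ℝ}
    (hQ : ∀ a, (Q *ᵥ a) ⬝ᵥ (Q *ᵥ a) ≤ a ⬝ᵥ a) {θ : (Fin n → ℝ) → ℝ} (mθ : MG θ)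
    (θ0 : ∀ y, 0 ≤ θ y) (hθ : ∀ y f, (Q *ᵥ covV (post sv w s y) f sv) ⬝ᵥ
      (Q *ᵥ covV (post sv w s y) f sv) ≤ θ y * var (post sv w s y) f)
    (g : κ → Cube n → ℝ) {M : ℝ} (hg : ∀ x, ∑ k, g k x ^ 2 ≤ M) :
    (∀ x, ∑ k, grad (Tm w s (g k)) x ⬝ᵥ grad (Tm w s (g k)) x ≤ (exp (4 * s) - 1) / 4 * M) ∧
    (∀ x, ∑ k, ∑ i, grad (fun x => grad (Tm w s (g k)) x i) x ⬝ᵥ
      grad (fun x => grad (Tm w s (g k)) x i) x ≤ 2 * ((exp (4 * s) - 1) / 4) ^ 2 * M) ∧
    ∑ k, mean w (fun x => (Q *ᵥ grad (Tm w s (g k)) x) ⬝ᵥ (Q *ᵥ grad (Tm w s (g k)) x)) ≤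
      2 * s ^ 2 * (M * slE sv w s fun _ => θ) + 2 * ((exp (4 * s) - 1) / 4 - s) * M := by
  set v := (exp (4 * s) - 1) / 4 with hv
  have v0 : 0 ≤ v := vs_nonneg hs
  have v1 : 0 ≤ v - s := by have := add_one_le_exp (4 * s); rw [hv]; linarith
  have mp := fun k => mg_pm (φ := sv) hW s (g k)
  have q1 : ∀ y, ∑ k, mean (post sv w s y) (g k) ^ 2 ≤ M := fun y =>
    (Finset.sum_le_sum fun k _ => mean_sq_le (hW.post sv s y) (g k)).trans
      (by rw [← mean_sum]; exact (hW.post sv s y).mean_le hg)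
  have q2 : ∀ x, ∑ k, Pm sv s (fun _ y => mean (post sv w s y) (g k) ^ 2) x ≤ M := fun x => by
    rw [← Pm_sum _ fun k _ _ => mg_sq (mp k)]
    exact Pm_le (fun _ => .sum _ fun k _ => mg_sq (mp k)) q1
  have q3 : ∀ y, ∑ k, var (post sv w s y) (g k) ≤ M := fun y =>
    (Finset.sum_le_sum fun k _ => (hW.post sv s y).var_le_mean (g k) 0).trans
      (by rw [← mean_sum]; exact (hW.post sv s y).mean_le (by simpa only [sub_zero] using hg))
  refine ⟨fun x => (Finset.sum_le_sum fun k _ => grad_Pm_sq_le hs (mp k) 0 x).trans ?_,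
    fun x => (Finset.sum_le_sum fun k _ => grad_grad_Pm_sq_le hs (mp k) x).trans ?_,
    (Finset.sum_le_sum fun k _ => mean_proj_grad_Tm_le hW hs hQ mθ (g k) fun y => hθ y _).trans ?_⟩
  · simp only [sub_zero, ← Finset.mul_sum]
    exact mul_le_mul_of_nonneg_left (q2 x) v0
  · rw [← Finset.mul_sum]
    exact mul_le_mul_of_nonneg_left (q2 x) (by positivity)
  · rw [Finset.sum_add_distrib, ← Finset.mul_sum, ← Finset.mul_sum]
    refine add_le_add (mul_le_mul_of_nonneg_left ?_ (by positivity))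
      (mul_le_mul_of_nonneg_left ?_ (by positivity))
    · rw [← slE_sum _ fun k _ => .of_mg fun _ => mθ.mul (mg_pvar hW s _), ← slE_const_mul]
      refine slE_mono hW (.of_mg fun _ => .sum _ fun k _ => mθ.mul (mg_pvar hW s _))
        (.of_mg fun _ => mθ.const_mul _) fun _ y => ?_
      rw [← Finset.mul_sum, mul_comm M]
      exact mul_le_mul_of_nonneg_left (q3 y) (θ0 y)
    · simp only [slE_eq_Pm, ← mean_sum]
      exact hW.mean_le q2

/-- linearisation at the starting point -/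
theorem GR.vs_le_lin (h : GR w C) (hn : 0 < n) (hw : ∀ x, 0 < w x) (hC : 0 ≤ C) (hT : 0 ≤ T)
    (hη : 0 < η) (f : Cube n → ℝ) (x : Cube n) (a : Fin n → ℝ) :
    vs w T f x ≤ (1 + η) * (a ⬝ᵥ Am w T x *ᵥ a) + (1 + η⁻¹) * (4 * T * exp (2 * C * T)) *
      (2 * ∑ i, sg w (2 * T) (fun z => (grad f z i - grad f x i) ^ 2) x +
        2 * ((grad f x - a) ⬝ᵥ (grad f x - a))) := by
  have h1 := vs_add_le hn hw hT (fun z => a ⬝ᵥ sv z) (fun z => f z - a ⬝ᵥ sv z) hη x
  simp only [add_sub_cancel, ← Am_quad] at h1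
  refine h1.trans (add_le_add le_rfl ?_)
  rw [mul_assoc (1 + η⁻¹)]
  refine mul_le_mul_of_nonneg_left ((h.vs_le hn hw hC hT _ x).trans
    (mul_le_mul_of_nonneg_left ?_ (by positivity))) (by positivity)
  rw [← sg_sum, ← sg_const_mul, 
    ← sg_const hn hw (2 * T) (2 * ((grad f x - a) ⬝ᵥ (grad f x - a))) x, ← sg_add_fun]
  refine sg_mono hn hw (by positivity) (fun z => ?_) x
  have := dot_add_le one_pos (grad f z - grad f x) (grad f x - a)
  simp only [sub_add_sub_cancel, inv_one, one_add_one_eq_two] at this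
  rw [grad_sub, grad_lin]
  simpa only [dotProduct, sq, Pi.sub_apply] using this

/-- the energy of `P_{2T} f` -/
theorem GR.dir_sg_le_proj (h : GR w C) (hn : 0 < n) (hw : ∀ x, 0 < w x) (hC : 0 ≤ C) (hT : 0 ≤ T)
    (hη : 0 < η) (hα : 0 ≤ α) (hP : ∀ a, (P *ᵥ a) ⬝ᵥ (P *ᵥ a) ≤ a ⬝ᵥ a) {B : Set (Cube n)}
    (hA : ∀ x ∉ B, ∀ a, (P *ᵥ a) ⬝ᵥ Am w T x *ᵥ (P *ᵥ a) ≤ α * ((P *ᵥ a) ⬝ᵥ (P *ᵥ a)))
    (f : Cube n → ℝ) :
    2 * T * dir w (sg w (2 * T) f) ≤ (1 + η) * (α * mean w (fun x => grad f x ⬝ᵥ grad f x) +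
      4 * T * exp (2 * C * T) * mean w (fun x => grad f x ⬝ᵥ grad f x * B.indicator (fun _ => 1) x)) +
      (1 + η⁻¹) * (4 * T * exp (2 * C * T)) * (8 * T * mean w (fun x =>
        ∑ i, grad (fun x => grad f x i) x ⬝ᵥ grad (fun x => grad f x i) x) +
        2 * mean w fun x => ((1 - P) *ᵥ grad f x) ⬝ᵥ ((1 - P) *ᵥ grad f x)) := by
  have hW := Wt.of_pos hw
  refine (dir_sg_le_vs hn hw hT f).trans ((hW.mean_mono fun x =>
    h.vs_le_lin hn hw hC hT hη f x (P *ᵥ grad f x)).trans ?_)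
  simp only [mean_add, mean_const_mul, sub_mulVec, one_mulVec]
  refine add_le_add (mul_le_mul_of_nonneg_left ?_ (by positivity))
    (mul_le_mul_of_nonneg_left (add_le_add ?_ le_rfl) (by positivity))
  · rw [← mean_const_mul, ← mean_const_mul, ← mean_add]
    refine hW.mean_mono fun x => ?_
    have h1 := hP (grad f x)
    have h2 := dot_self_nonneg (grad f x)
    by_cases hx : x ∈ B
    · rw [indicator_of_mem hx, mul_one]
      refine (h.Am_le hn hw hC hT x _).trans (le_add_of_nonneg_of_le (by positivity)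
        (mul_le_mul_of_nonneg_left h1 (by positivity)))
    · rw [indicator_of_notMem hx, mul_zero, mul_zero, add_zero]
      exact (hA x hx _).trans (mul_le_mul_of_nonneg_left h1 hα)
  · rw [mean_sum, mean_sum, Finset.mul_sum, Finset.mul_sum]
    refine Finset.sum_le_sum fun i _ => ?_
    have h1 := mean_sg_sq_sub_le hn hw (2 * T) fun x => grad f x i
    have h2 := mul_le_mul_of_nonneg_left (dir_le_grad hw fun x => grad f x i) hT
    linarith

/-- **(I2) at fixed `n`**: `f = P_{2T} T_s g` -/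
theorem GR.recovery {κ : Type*} [Fintype κ] (h : GR w C) (hn : 0 < n) (hw : ∀ x, 0 < w x) (hC : 0 ≤ C)
    (hT : 0 ≤ T) (hs : 0 ≤ s) (hη : 0 < η) (hα : 0 ≤ α) (hP : ∀ a, (P *ᵥ a) ⬝ᵥ (P *ᵥ a) ≤ a ⬝ᵥ a)
    (hQ : ∀ a, ((1 - P) *ᵥ a) ⬝ᵥ ((1 - P) *ᵥ a) ≤ a ⬝ᵥ a) {B : Set (Cube n)}
    (hA : ∀ x ∉ B, ∀ a, (P *ᵥ a) ⬝ᵥ Am w T x *ᵥ (P *ᵥ a) ≤ α * ((P *ᵥ a) ⬝ᵥ (P *ᵥ a)))
    {θ : (Fin n → ℝ) → ℝ} (mθ : MG θ) (θ0 : ∀ y, 0 ≤ θ y)
    (hθ : ∀ y f, ((1 - P) *ᵥ covV (post sv w s y) f sv) ⬝ᵥ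
      ((1 - P) *ᵥ covV (post sv w s y) f sv) ≤ θ y * var (post sv w s y) f)
    (g : κ → Cube n → ℝ) {M : ℝ} (hg : ∀ x, ∑ k, g k x ^ 2 ≤ M) :
    2 * T * ∑ k, dir w (sg w (2 * T) (Tm w s (g k))) ≤
      (1 + η) * α * ((exp (4 * s) - 1) / 4) * ∑ k, (slE sv w s fun _ y => var (post sv w s y) (g k)) +
      4 * T * exp (2 * C * T) * M * ((1 + η) * ((exp (4 * s) - 1) / 4) * mass w B +
        (1 + η⁻¹) * (16 * T * ((exp (4 * s) - 1) / 4) ^ 2 + 4 * s ^ 2 * (slE sv w s fun _ => θ) +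
          4 * ((exp (4 * s) - 1) / 4 - s))) ∧
    ∑ k, mean w (fun x => (sg w (2 * T) (Tm w s (g k)) x - g k x) ^ 2) ≤
      (2 + 4 * T * ((exp (4 * s) - 1) / 4)) * ∑ k, slE sv w s fun _ y => var (post sv w s y) (g k) := by
  have hW := Wt.of_pos hw
  obtain ⟨b0, b2, b3⟩ := Tm_bounds hW hs hQ mθ θ0 hθ g hg
  have b1 := Finset.sum_le_sum fun k (_ : k ∈ Finset.univ) => mean_grad_Tm_le hW hs (g k)
  rw [← Finset.mul_sum] at b1
  set v := (exp (4 * s) - 1) / 4 with hv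
  constructor
  · have b2' : ∑ k, mean w (fun x => ∑ i, grad (fun x => grad (Tm w s (g k)) x i) x ⬝ᵥ
        grad (fun x => grad (Tm w s (g k)) x i) x) ≤ 2 * v ^ 2 * M := by
      rw [← mean_sum]; exact hW.mean_le b2
    have b4 : ∑ k, mean w (fun x => grad (Tm w s (g k)) x ⬝ᵥ grad (Tm w s (g k)) x *
        B.indicator (fun _ => 1) x) ≤ v * M * mass w B := by
      rw [← mean_sum, mass_eq_mean, ← mean_const_mul]
      refine hW.mean_mono fun x => ?_
      rw [← Finset.sum_mul]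
      exact mul_le_mul_of_nonneg_right (b0 x) (indicator_nonneg (fun _ _ => zero_le_one) x)
    rw [Finset.mul_sum]
    refine (Finset.sum_le_sum fun k _ => h.dir_sg_le_proj hn hw hC hT hη hα hP hA _).trans ?_
    simp only [Finset.sum_add_distrib, ← Finset.mul_sum]
    have c0 : 0 ≤ 4 * T * exp (2 * C * T) := by positivity
    have c1 := mul_le_mul_of_nonneg_left (add_le_add (mul_le_mul_of_nonneg_left b1 hα)
      (mul_le_mul_of_nonneg_left b4 c0)) (show 0 ≤ 1 + η by positivity)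
    have c2 := mul_le_mul_of_nonneg_left (add_le_add (mul_le_mul_of_nonneg_left b2'
      (show 0 ≤ 8 * T by positivity)) (mul_le_mul_of_nonneg_left b3 zero_le_two))
      (show 0 ≤ (1 + η⁻¹) * (4 * T * exp (2 * C * T)) by positivity)
    linarith
  · have c1 := mul_le_mul_of_nonneg_left b1 (show 0 ≤ 4 * T by positivity)
    have c2 := Finset.sum_le_sum fun k (_ : k ∈ Finset.univ) => mean_Tm_sub_sq_le hW hs (g k)
    have c3 : ∑ k, mean w (fun x => (sg w (2 * T) (Tm w s (g k)) x - g k x) ^ 2) ≤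
        2 * ∑ k, mean w (fun x => (Tm w s (g k) x - g k x) ^ 2) +
          4 * T * ∑ k, mean w (fun x => grad (Tm w s (g k)) x ⬝ᵥ grad (Tm w s (g k)) x) := by
      simp only [Finset.mul_sum, ← Finset.sum_add_distrib]
      refine Finset.sum_le_sum fun k _ => ?_
      have d1 := (mean_sg_sub_sq_le hn hw (t := 2 * T) (by positivity) (Tm w s (g k))).trans
        (mul_le_mul_of_nonneg_left (dir_le_grad hw _) (by positivity))
      have d2 := hW.mean_mono (f := fun x => (sg w (2 * T) (Tm w s (g k)) x - g k x) ^ 2)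
        (g := fun x => 2 * (Tm w s (g k) x - g k x) ^ 2 +
          2 * (sg w (2 * T) (Tm w s (g k)) x - Tm w s (g k) x) ^ 2) fun x => by
        nlinarith [sq_nonneg (sg w (2 * T) (Tm w s (g k)) x - 2 * Tm w s (g k) x + g k x)]
      rw [mean_add, mean_const_mul, mean_const_mul] at d2
      linarith
    linarith

/-- **(LINK) at fixed `n`** -/
theorem link (hn : 0 < n) (hw : ∀ x, 0 < w x) (hr : 0 ≤ r) (hT : 0 < T) (hT' : 0 < T') (hη : 0 < η)
    (u : Fin n → ℝ) :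
    mean w (fun x => u ⬝ᵥ Am w T' x *ᵥ u) / (2 * T') ≤
      (1 + η) ^ 2 * exp (4 * r) * ((slE sv w r fun x y => u ⬝ᵥ Am (post sv w r y) T x *ᵥ u) / (2 * T)) +
        (1 + η⁻¹) * ((1 + η) * (exp (4 * r) - 1) * (2 * T) + T / T') * (u ⬝ᵥ u) := by
  have hW := Wt.of_pos hw
  set l : Cube n → ℝ := fun x => u ⬝ᵥ sv x with hl
  have hp := post_pos hw sv r
  have m : ∀ x, MG fun y => sg (post sv w r y) (2 * T) l x := fun x =>
    mg_sg hn hw r (by positivity) (F := fun z _ => l z) (fun _ => .const _) x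
  have mv : ∀ x, MG fun y => vs (post sv w r y) T l x := fun x =>
    mg_vs hn hw r hT.le (F := fun z _ => l z) (fun _ => .const _) x
  set X := Pm sv r fun x y => sg (post sv w r y) (2 * T) l x with hX
  have h1 := shift_sv hw hr m l hη
  simp only [← dir_post_sv w _ r] at h1
  have h2 : (slE sv w r fun x y => (sg (post sv w r y) (2 * T) l x - l x) ^ 2) ≤ 2 * T * (u ⬝ᵥ u) := by
    have m2 := fun x => mg_sq ((m x).sub (.const (l x)))
    rw [bayes hW hr (.of_mg m2), ← hW.mean_const (2 * T * (u ⬝ᵥ u)), ← slE_fun (φ := sv) (s := r)]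
    exact slE_mono hW (.of_mg fun _ => mg_mean hW r m2) (.of_mg fun _ => .const _) fun _ y =>
      (mean_sg_sub_sq_le hn (hp y) (by positivity) l).trans
        (mul_le_mul_of_nonneg_left (dir_lin_le (hp y) u) (by positivity))
  have h3 : (slE sv w r fun _ y => dir (post sv w r y) fun x => sg (post sv w r y) (2 * T) l x) ≤
      (slE sv w r fun x y => u ⬝ᵥ Am (post sv w r y) T x *ᵥ u) / (2 * T) := by
    simp only [Am_quad]
    rw [le_div_iff₀ (by positivity), mul_comm, ← slE_const_mul, bayes hW hr (.of_mg mv)]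
    exact slE_mono hW (.of_mg fun _ => (mg_dir hw m).const_mul _) (.of_mg fun _ => mg_mean hW r mv)
      fun _ y => dir_sg_le_vs hn (hp y) hT.le l
  have h4 : mean w (fun x => u ⬝ᵥ Am w T' x *ᵥ u) / (2 * T') ≤ dir w (sg w T' l) := by
    simp only [Am_quad]
    rw [div_le_iff₀ (by positivity), mul_comm]
    exact vs_le_dir_sg hn hw hT'.le l
  have h5 := dir_add_le hw (sg w T' X) (sg w T' fun x => l x - X x) hη
  simp only [← sg_add_fun, add_sub_cancel] at h5
  have h6 := dir_sg_le hn hw hT'.le X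
  have h7 := dir_sg_le_sq hn hw hT' fun x => l x - X x
  simp only [sub_sq_comm (l _)] at h7
  have h8 : mean w (fun x => (X x - l x) ^ 2) / (2 * T') ≤ T / T' * (u ⬝ᵥ u) := by
    rw [div_le_iff₀ (by positivity)]
    exact ((mean_Pm_sub_sq_le hW m l).trans h2).trans_eq (by field_simp)
  have e1 := one_le_exp (show 0 ≤ 4 * r by positivity)
  have c1 := mul_le_mul_of_nonneg_left h3 (show 0 ≤ (1 + η) * exp (4 * r) by positivity)
  have c2 := mul_le_mul_of_nonneg_left h2 (show 0 ≤ (1 + η⁻¹) * (exp (4 * r) - 1) from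
    mul_nonneg (by positivity) (by linarith))
  have c3 := mul_le_mul_of_nonneg_left (h6.trans (h1.trans (add_le_add c1 c2)))
    (show 0 ≤ 1 + η by positivity)
  have c4 := mul_le_mul_of_nonneg_left (h7.trans h8) (show 0 ≤ 1 + η⁻¹ by positivity)
  refine h4.trans (h5.trans ?_)
  linarith

end Crest.Agent.T157.Rec

end
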