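import Crest.Agent.T157.TrE_64
import Crest.Agent.T157.PathQ_90
import Crest.Agent.T157.CondA_53

/-!
# Row 157, part C1 (helper64): the asymptotic statements around the form domination (I1)
-/

set_option autoImplicit false

noncomputable section

namespace Crest.Agent.T157.Tr

open MeasureTheory ProbabilityTheory Filter Topology Set Real Matrix
open Crest.ProbabilityR.SpinGlassDynamics
open Crest.Agent.T157.SL Crest.Agent.T157.E Crest.Agent.T157.Eig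
open Crest.Agent.T157.Soft (N23)

section off
variable {X Y : ℕ → Type*} [∀ n, MeasurableSpace (X n)] [∀ n, MeasurableSpace (Y n)]

/-- for large `n`, `P` holds off a set of outer measure `ε` -/
def Off (μ : ∀ n, Measure (X n)) (ε : ℝ) (P : ∀ n, X n → Prop) : Prop :=
  ∀ᶠ n in atTop, μ n {x | ¬ P n x} ≤ ENNReal.ofReal ε

variable {μ : ∀ n, Measure (X n)} {ν : ∀ n, Measure (Y n)} {P Q : ∀ n, X n → Prop} {ε ε' : ℝ}

theorem Off.mono (h : Off μ ε P) (hPQ : ∀ᶠ n in atTop, ∀ x, P n x → Q n x) : Off μ ε Q := by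
  filter_upwards [h, hPQ] with n h1 h2
  refine le_trans (measure_mono fun x hx => ?_) h1
  exact fun hp => hx (h2 x hp)

theorem Off.imp (h : Off μ ε P) (hPQ : ∀ n x, P n x → Q n x) : Off μ ε Q :=
  h.mono (.of_forall hPQ)

theorem Off.le (h : Off μ ε P) (he : ε ≤ ε') : Off μ ε' P :=
  Eventually.mono h fun _ h1 => h1.trans (ENNReal.ofReal_le_ofReal he)

theorem Off.and (h : Off μ ε P) (h' : Off μ ε' Q) (h0 : 0 ≤ ε) (h0' : 0 ≤ ε') :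
    Off μ (ε + ε') fun n x => P n x ∧ Q n x := by
  filter_upwards [h, h'] with n h1 h2
  refine Soft.measure_le_of_union h1 h2 h0 h0' fun x hx hp hq => hx ⟨not_not.1 hp, hq⟩

theorem off_of_whp (h : Top.Whp μ P) (hε : 0 < ε) : Off μ ε P := Top.whp_iff.1 h ε hε

theorem whp_of_off (h : ∀ ε : ℝ, 0 < ε → Off μ ε P) : Top.Whp μ P := Top.whp_iff.2 h

theorem Off.comp {T : ∀ n, Y n → X n} (hT : ∀ n, MeasurePreserving (T n) (ν n) (μ n))
    (h : Off μ ε P) : Off ν ε fun n y => P n (T n y) :=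
  Eventually.mono h fun n h1 => ((hT n).measure_preimage_le {x | ¬ P n x}).trans h1

theorem Off.fst [∀ n, IsProbabilityMeasure (ν n)] [∀ n, SFinite (μ n)] (h : Off μ ε P) :
    Off (fun n => (μ n).prod (ν n)) ε fun n z => P n z.1 :=
  Off.comp (Y := fun n => X n × Y n) (T := fun _ z => z.1) (fun _ => measurePreserving_fst) h

theorem Off.of_fst [∀ n, IsProbabilityMeasure (ν n)]
    (h : Off (fun n => (μ n).prod (ν n)) ε fun n z => P n z.1) : Off μ ε P :=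
  Eventually.mono h fun n h1 => by
    refine le_of_eq_of_le ?_ h1
    have : {z : X n × Y n | ¬ P n z.1} = {x | ¬ P n x} ×ˢ univ := by ext z; simp
    rw [this, Measure.prod_prod, measure_univ, mul_one]

end off

/-- couplings and diagonal -/
abbrev Om (n : ℕ) : Type := (Pair n → ℝ) × (Fin n → ℝ)
/-- their law; `Wmat n p.1 p.2` is a GOE matrix -/
abbrev PM (n : ℕ) : Measure (Om n) := (disorderLaw n).prod (gv (Fin n))

theorem Off.goe {ε : ℝ} {P : ∀ n : ℕ, Matrix (Fin n) (Fin n) ℝ → Prop}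
    (h : Off (fun n => Cond.goe (Fin n) (1 / √n)) ε P) :
    Off PM ε fun n p => P n (Wmat n p.1 p.2) :=
  Eventually.mono h fun n h1 =>
    ((Cond.mp_Wmat (n := n)).measure_preimage_le {W | ¬ P n W}).trans h1

variable {n : ℕ}

/-- spectral projection of `W` on the window `|2 - λ| ≤ η` -/
def Pw (W : Matrix (Fin n) (Fin n) ℝ) (η : ℝ) : Matrix (Fin n) (Fin n) ℝ :=
  fnK (fun x => if |2 - x| ≤ η then (1 : ℝ) else 0) W

/-- the covariance input on `[K / N, t1]`, with errors `e` on `[K / N, t0]` -/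
def HS (w : Cube n → ℝ) (N e K t0 t1 C : ℝ) : Prop := ∃ (ε p : ℝ → ℝ) (ρ : ℝ),
  HC sv w ε p (K / N) t1 ρ C √(e / N) ∧ t0 ≤ t1 ∧ (∀ r ∈ Icc (K / N) t0, ε r ≤ e) ∧
    ∫ u in K / N..t0, ε u / u ≤ e

/-- averaged Poincaré inequality at time `t` with defect `δ` -/
def P1 (w : Cube n → ℝ) (t G δ : ℝ) : Prop :=
  ∀ (κ : Type) [Fintype κ] (f : κ → Cube n → ℝ) (b : ℝ), (∀ x, ∑ a, f a x ^ 2 ≤ b ^ 2) →
    Ph sv w f t ≤ G * ∑ a, dir w (f a) + δ * b ^ 2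

/-- the covariance bound with power errors -/
def CovB (w : Cube n → ℝ) (N C c K t1 : ℝ) : Prop := ∀ r ∈ Icc (K / N) t1,
  pb sv w (fun r => C * (r ^ c + (N * r) ^ (-c))) 3 r ≤ C * (N * r) ^ (-(1 + c))

/-- **(A#)**, power form: `E[(1 + ‖r C_r‖)³; ‖r C_r‖ > 1 + C r^c + C (N r)^{-c}] ≤ C (N r)^{-1-c}` -/
def ASharp (μ : ∀ n, Measure (Pair n → ℝ)) : Prop := ∀ ε : ℝ, 0 < ε → ∃ C c K t1 : ℝ,
  0 < c ∧ 0 < K ∧ 0 < t1 ∧ Off μ ε fun n g => CovB (gibbsWeight n 1 g) (N23 n) C c K t1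

/-- **(A#)**, the form which is used -/
def AStmt (μ : ∀ n, Measure (Pair n → ℝ)) : Prop := ∀ ε : ℝ, 0 < ε → ∃ t1 C : ℝ, 0 < t1 ∧ 1 ≤ C ∧
  ∀ e : ℝ, 0 < e → ∃ t0 K : ℝ, 0 < t0 ∧ 0 < K ∧
    Off μ ε fun n g => HS (gibbsWeight n 1 g) (N23 n) e K t0 t1 C

/-- **(P1)** -/
def P1Stmt (μ : ∀ n, Measure (Pair n → ℝ)) : Prop := ∀ t ε : ℝ, 0 < t → 0 < ε → ∃ G : ℝ,
  ∀ e : ℝ, 0 < e → Off μ ε fun n g => P1 (gibbsWeight n 1 g) t G (e / N23 n)

/-- (A#) and (P1) with one constant -/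
def APStmt (μ : ∀ n, Measure (Pair n → ℝ)) : Prop := ∀ ε : ℝ, 0 < ε → ∃ t1 C : ℝ, 0 < t1 ∧ 1 ≤ C ∧
  ∀ e : ℝ, 0 < e → ∃ t0 K : ℝ, 0 < t0 ∧ 0 < K ∧ Off μ ε fun n g =>
    HS (gibbsWeight n 1 g) (N23 n) e K t0 t1 C ∧ P1 (gibbsWeight n 1 g) t1 C (e / N23 n)

/-- **(H)**: at times `≤ K / N`, `r C_r` lives in the edge window of `W` -/
def HStmt : Prop := ∀ K o ε : ℝ, 0 < o → 0 < ε → ∃ L : ℝ, 0 < L ∧ Off PM ε fun n p =>
  ∀ r ∈ Icc 0 (K / N23 n), ex sv (gibbsWeight n 1 p.1) (fun q =>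
    opn ((1 - Pw (Wmat n p.1 p.2) (L / N23 n)) * Xp sv (gibbsWeight n 1 p.1) q)) r ≤ o

/-- **(D*)** with constant `k` -/
def DStar (k : ℝ) : Prop := ∀ t0 e o L ε : ℝ, 0 < t0 → 0 < e → 0 < o → 0 < L → 0 < ε →
  ∃ τ : ℝ, 0 < τ ∧ Off PM ε fun n p => ∀ (κ : Type) [Fintype κ] (f : κ → Cube n → ℝ) (b : ℝ),
    0 ≤ b → (∀ x, ∑ a, f a x ^ 2 ≤ b ^ 2) → ∃ t ∈ Icc τ t0,
      DS sv (gibbsWeight n 1 p.1) f (Pw (Wmat n p.1 p.2) (L / N23 n)) t o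
        (((1 + e) * ∑ a, dir (gibbsWeight n 1 p.1) (f a) + e * b ^ 2 / N23 n) / k)

/-- **(I1)** with constant `k` -/
def I1Stmt (k : ℝ) : Prop := ∀ e ε : ℝ, 0 < e → 0 < ε → ∃ K₀ : ℝ, 0 < K₀ ∧ ∀ K, K₀ ≤ K →
  Off disorderLaw ε fun n g => ∀ (κ : Type) [Fintype κ] (f : κ → Cube n → ℝ) (B : ℝ),
    (∀ x, ∑ a, f a x ^ 2 ≤ B) → k * K * Ph sv (gibbsWeight n 1 g) f (K / N23 n) ≤
      (1 + e) * (N23 n * ∑ a, dir (gibbsWeight n 1 g) (f a)) + e * B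

/-- crude form domination for vector observables, at all scales -/
def CrudeV (μ : ∀ n, Measure (Pair n → ℝ)) : Prop := ∀ ε : ℝ, 0 < ε → ∃ t1 Γ : ℝ, 0 < t1 ∧ 0 < Γ ∧
  ∀ e : ℝ, 0 < e → ∃ K : ℝ, 0 < K ∧ Off μ ε fun n g =>
    ∀ (κ : Type) [Fintype κ] (f : κ → Cube n → ℝ) (B : ℝ), (∀ x, ∑ a, f a x ^ 2 ≤ B) →
      ∀ s ∈ Icc (K / N23 n) t1,
        N23 n * (s ^ 2 * psi sv (gibbsWeight n 1 g) f s) ≤
          Γ * (N23 n * ∑ a, dir (gibbsWeight n 1 g) (f a)) + e * B ∧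
        N23 n * (s * Ph sv (gibbsWeight n 1 g) f s) ≤
          Γ * (N23 n * ∑ a, dir (gibbsWeight n 1 g) (f a)) + e * B

section Pw
variable {W : Matrix (Fin n) (Fin n) ℝ} {η η' : ℝ}

theorem Pw_transpose (W : Matrix (Fin n) (Fin n) ℝ) (η : ℝ) : (Pw W η)ᵀ = Pw W η :=
  herm_iff.1 (fnK_herm _ W)

theorem Pw_mul (hW : W.IsHermitian) (h : η ≤ η') : Pw W η' * Pw W η = Pw W η := by
  rw [Pw, Pw, fnK_mul hW]
  refine fnK_congr fun k _ => ?_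
  by_cases h1 : |2 - lam W k| ≤ η
  · simp [h1, h1.trans h]
  · simp [h1]

theorem Pw_mul_self (hW : W.IsHermitian) (η : ℝ) : Pw W η * Pw W η = Pw W η := Pw_mul hW le_rfl

theorem one_sub_Pw (hW : W.IsHermitian) (η : ℝ) :
    1 - Pw W η = fnK (fun x => if |2 - x| ≤ η then (0 : ℝ) else 1) W := by
  rw [Pw, ← fnK_one (K := ℝ) hW, ← fnK_sub]
  refine fnK_congr fun k _ => ?_
  split_ifs <;> simp

theorem opn_Pw_le (hW : W.IsHermitian) (η : ℝ) : opn (Pw W η) ≤ 1 :=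
  opn_fnK_le hW zero_le_one fun k _ => by split_ifs <;> simp

theorem opn_one_sub_Pw_le (hW : W.IsHermitian) (η : ℝ) : opn (1 - Pw W η) ≤ 1 := by
  rw [one_sub_Pw hW]
  exact opn_fnK_le hW zero_le_one fun k _ => by split_ifs <;> simp

/-- the range of the projection is soft -/
theorem nrm_soft_le (hW : W.IsHermitian) (hη : 0 ≤ η) (a : Fin n → ℝ) :
    nrm (((2 : ℝ) • (1 : Matrix (Fin n) (Fin n) ℝ) - W) *ᵥ (Pw W η *ᵥ a)) ≤
      η * nrm (Pw W η *ᵥ a) := by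
  have e : (2 : ℝ) • (1 : Matrix (Fin n) (Fin n) ℝ) - W = fnK (fun x : ℝ => 2 - x) W := by
    rw [fnK_sub, fnK_const hW, fnK_id_real hW]
  have h : opn (((2 : ℝ) • (1 : Matrix (Fin n) (Fin n) ℝ) - W) * Pw W η) ≤ η := by
    rw [e, Pw, fnK_mul hW]
    refine opn_fnK_le hW hη fun k _ => ?_
    split_ifs with h1
    · rwa [mul_one]
    · simpa using hη
  conv_lhs => rw [← Pw_mul_self hW η, ← mulVec_mulVec, mulVec_mulVec]
  exact (nrm_mulVec_le _ _).trans (mul_le_mul_of_nonneg_right h (nrm_nonneg _))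

end Pw

end Crest.Agent.T157.Tr

end
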