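import Crest.Agent.T157.DsC_77
import Crest.Agent.T157.RecE_77
import Crest.Agent.T157.TrDef_64
import Crest.Agent.T157.DaDef_82
import Crest.Agent.T157.GoeT_48
import Crest.Agent.T157.NrmG_84

/-!
# Row 157, part C (helper77): consequences of (DA) at fixed size; asymptotic statements
-/

set_option autoImplicit false
set_option linter.unusedSectionVars false

noncomputable section

namespace Crest.Agent.T157.Rec

open MeasureTheory ProbabilityTheory Filter Topology Set Real Matrix Function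
open Crest.ProbabilityR.SpinGlassDynamics
open Crest.Agent.T157.E Crest.Agent.T157.SL Crest.Agent.T157.Eig Crest.Agent.T157.Tr
open Crest.Agent.T157.Chain22 (sg)
open Crest.Agent.T157.Da (DAev tm e0 badP DAStmt DLStmt GRStmt)
open Crest.Agent.T157.Soft (N23)
open Crest.Agent.T157.Top (Whp)

variable {n : ℕ}

/-- **(A'w)**: at small macroscopic times the covariance lives in a small spectral window -/
def AwStmt : Prop := ∀ η θ o : ℝ, 0 < η → 0 < θ → 0 < o → ∃ r0 : ℝ, 0 < r0 ∧ ∀ s : ℝ, 0 < s →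
  Whp PM fun n p => ∀ u ∈ Icc s r0, (law sv (gibbsWeight n 1 p.1) u).real
    (BH sv (gibbsWeight n 1 p.1) (Pw (Wmat n p.1 p.2) η) θ u) ≤ o

/-- **(I2)** with constant `k` -/
def I2Stmt (k : ℝ) : Prop := ∀ e ε : ℝ, 0 < e → 0 < ε → ∃ K₀ : ℝ, 0 < K₀ ∧ ∀ K, K₀ ≤ K →
  Off disorderLaw ε fun n g => ∀ (κ : Type) [Fintype κ] (f : κ → Cube n → ℝ) (B : ℝ),
    (∀ x, ∑ a, f a x ^ 2 ≤ B) → ∃ f' : κ → Cube n → ℝ,
      ∑ a, mean (gibbsWeight n 1 g) (fun x => (f' a x - f a x) ^ 2) ≤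
        e * (B + k * K * Ph sv (gibbsWeight n 1 g) f (K / N23 n)) ∧
      N23 n * ∑ a, dir (gibbsWeight n 1 g) (f' a) ≤
        (1 + e) * (k * K * Ph sv (gibbsWeight n 1 g) f (K / N23 n)) + e * B

/-- a soft unit vector -/
def Sf (W : Matrix (Fin n) (Fin n) ℝ) (u : Fin n → ℝ) : Prop := u ⬝ᵥ u = 1 ∧ nrm (tm W *ᵥ u) ≤ e0 n

/-- a soft direction with fluctuations of order `√N` -/
def TopStmt : Prop := ∀ ε : ℝ, 0 < ε → ∃ δ M : ℝ, 0 < δ ∧ Off PM ε fun n p => ∃ u,
  Sf (Wmat n p.1 p.2) u ∧ δ * N23 n ≤ mean (gibbsWeight n 1 p.1) (fun x => (u ⬝ᵥ sv x) ^ 2) ∧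
    mean (gibbsWeight n 1 p.1) (fun x => (u ⬝ᵥ sv x) ^ 4) ≤ M * N23 n ^ 2

/-- failure probability of (DA) -/
def bad (w : Cube n → ℝ) (W : Matrix (Fin n) (Fin n) ℝ) (T r ε η a : ℝ) : ℝ :=
  mean w fun σ => (gv (Fin n)).real
    {ξ | ¬ DAev W (Am (post sv w r (r • sv σ + √r • ξ)) T σ) ε η a}

/-- the standing assumptions -/
structure GE (w : Cube n → ℝ) (W : Matrix (Fin n) (Fin n) ℝ) (C : ℝ) : Prop where
  n0 : 0 < n
  pos : ∀ x, 0 < w x
  herm : W.IsHermitian
  C0 : 0 ≤ C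
  gr : ∀ r y, GR (post sv w r y) C

/-- the bound of `A_T` -/
def DT (C T : ℝ) : ℝ := 4 * T * exp (2 * C * T)

variable {w v : Cube n → ℝ} {W A : Matrix (Fin n) (Fin n) ℝ} {C T T' r ε ε' η η' a a' l : ℝ}
  {u : Fin n → ℝ}

theorem DT_nonneg (hT : 0 ≤ T) : 0 ≤ DT C T := by unfold DT; positivity

theorem hbCt_post (g : Pair n → ℝ) (d : Fin n → ℝ) (r : ℝ) (y : Fin n → ℝ) :
    hbCt (post sv (gibbsWeight n 1 g) r y) = hbCt (ising (Wmat n g d) y) := by
  have h1 := GoeT.prob_ising_Wmat 1 g d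
  rw [one_smul] at h1
  have h2 : prob (post sv (gibbsWeight n 1 g) r y) = prob (ising (Wmat n g d) y) := by
    rw [prob_post_sv, ← zero_add y, ← tilt_ising, zero_add]
    exact GoeT.prob_mul_congr (GoeT.sum_gibbs_ne 1 g) (GoeT.sum_ising_ne _ _) h1.symm _
  funext t
  rw [← GoeT.hbCt_prob (GoeT.sum_pos (post_pos (gibbsWeight_pos 1 g) sv r y)).ne', h2,
    GoeT.hbCt_prob (GoeT.sum_ising_ne _ _)]

theorem sg_congr (h : hbCt w = hbCt v) : sg w = sg v := by
  funext t f x; simp only [sg, h]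

theorem Am_congr (h : hbCt w = hbCt v) : Am w = Am v := by
  funext T x
  have : Psv w T = Psv v T := by funext z i; simp only [Psv, sg_congr h]
  rw [Am, Am, h, this]

theorem badP_eq (g : Pair n → ℝ) (d : Fin n → ℝ) (T r ε η a : ℝ) :
    badP (Wmat n g d) T r ε η a = bad (gibbsWeight n 1 g) (Wmat n g d) T r ε η a := by
  have h1 := GoeT.prob_ising_Wmat 1 g d
  rw [one_smul] at h1
  simp only [badP, bad, Am_congr (hbCt_post g d r _), GoeT.mean_congr_prob h1]

theorem whp_GE (h : GRStmt) : ∃ C, Whp PM fun n p => GE (gibbsWeight n 1 p.1) (Wmat n p.1 p.2) C := by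
  obtain ⟨C, hC, h⟩ := h 3
  have h1 : Whp Tap.GOE fun _ W => opn W ≤ 3 := by
    refine Top.whp_of_real_le (a := fun n => 2 * exp (-(n * 1 ^ 2 / 4))) ?_ (.of_forall fun n => ?_)
    · simpa using (tendsto_exp_neg_atTop_nhds_zero.comp ((tendsto_natCast_atTop_atTop (R := ℝ)
        ).atTop_div_const (r := 4) four_pos)).const_mul 2
    · refine le_trans (measureReal_mono (fun W hW => ?_) (measure_ne_top _ _))
        (Nrm.goe_opn_tail_n (n := n) zero_le_one)
      simp only [mem_ofPred_eq, not_le] at hW ⊢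
      linarith
  refine ⟨C, (h1.comp (ν := PM) (T := fun n p => Wmat n p.1 p.2) fun n => Cond.mp_Wmat).mono ?_⟩
  filter_upwards [eventually_gt_atTop 0] with n hn p hp
  refine ⟨hn, gibbsWeight_pos 1 _, Wmat_isHermitian _ _, hC, fun r y => ?_⟩
  have := h n _ y hn (Wmat_transpose p.1 p.2) hp
  simpa only [GR, sg_congr (hbCt_post p.1 p.2 r y)] using this

theorem whp_bad {a : ℕ → ℝ} {c δ : ℝ} (hc : 0 < c) (hδ : 0 < δ)
    (h : Whp Tap.GOE fun n W => badP W T r ε η (a n) ≤ exp (-(n : ℝ) ^ c)) :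
    Whp PM fun n p => bad (gibbsWeight n 1 p.1) (Wmat n p.1 p.2) T r ε η (a n) ≤ δ := by
  refine (h.comp (ν := PM) (T := fun n p => Wmat n p.1 p.2) fun n => Cond.mp_Wmat).mono ?_
  filter_upwards [(tendsto_exp_neg_atTop_nhds_zero.comp ((tendsto_rpow_atTop hc).comp
    tendsto_natCast_atTop_atTop)).eventually (ge_mem_nhds hδ)] with n hn p hp
  rw [← badP_eq]
  exact hp.trans hn

theorem int_le_of_bad {X : Type*} [MeasurableSpace X] {μ : Measure X} [IsProbabilityMeasure μ]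
    {f : X → ℝ} (hf : Integrable f μ) (hm : Measurable f) {D : ℝ} (D0 : 0 ≤ D)
    (hD : ∀ z, f z ≤ a + D) {B : Set X} (hB : ∀ z ∉ B, f z ≤ a) : ∫ z, f z ∂μ ≤ a + D * μ.real B := by
  have m : MeasurableSet {z | a < f z} := measurableSet_lt measurable_const hm
  have i := ((integrable_const (1 : ℝ) (μ := μ)).indicator m).const_mul D
  have h1 := integral_mono hf ((integrable_const a).add i) fun z => by
    by_cases hz : z ∈ {z | a < f z}
    · simpa [indicator_of_mem hz] using hD z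
    · simpa [indicator_of_notMem hz] using hz
  simp only [Pi.add_apply] at h1
  rw [integral_add (integrable_const a) i, integral_const_mul, integral_indicator_const _ m] at h1
  simp only [integral_const, probReal_univ, smul_eq_mul, one_mul, mul_one] at h1
  exact h1.trans (add_le_add le_rfl (mul_le_mul_of_nonneg_left (measureReal_mono fun z hz => by
    by_contra hc; exact not_le.2 hz (hB z hc)) D0))

theorem slE_le_bad (hw : Wt w) {F : Cube n → (Fin n → ℝ) → ℝ} (hF : ∀ x, MG (F x)) {c D : ℝ}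
    (D0 : 0 ≤ D) (hD : ∀ x y, F x y ≤ c + D)
    (hg : ∀ x y, DAev W (Am (post sv w r y) T x) ε η a → F x y ≤ c) :
    slE sv w r F ≤ c + D * bad w W T r ε η a := by
  rw [bad, ← mean_const_mul, ← hw.mean_const c, ← mean_add]
  exact hw.mean_mono fun x => int_le_of_bad ((hF x).affine _ _).int ((hF x).affine _ _).meas D0
    (fun _ => by simpa only [hw.mean_const] using hD x _)
    fun z hz => by simpa only [hw.mean_const] using hg x _ (not_not.1 hz)

theorem bad_nonneg (hw : Wt w) : 0 ≤ bad w W T r ε η a := hw.mean_nonneg fun _ => measureReal_nonneg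

theorem Sf.quad (hu : Sf W u) (he : e0 n ≤ η) (h : DAev W A ε η a) : |u ⬝ᵥ A *ᵥ u - a| ≤ ε := by
  have e : nrm u = 1 := by rw [nrm, hu.1, sqrt_one]
  simpa only [e, hu.1, mul_one] using h u u (by simpa only [e, mul_one] using hu.2)
    (by simpa only [e, mul_one] using hu.2.trans he)

namespace GE

theorem wt (h : GE w W C) : Wt w := .of_pos h.pos

theorem gr0 (h : GE w W C) : GR w C := by simpa only [post_zero] using h.gr 0 0

theorem quad (h : GE w W C) (hT : 0 ≤ T) (r : ℝ) (y : Fin n → ℝ) (x : Cube n) (u : Fin n → ℝ) :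
    0 ≤ u ⬝ᵥ Am (post sv w r y) T x *ᵥ u ∧ u ⬝ᵥ Am (post sv w r y) T x *ᵥ u ≤ DT C T * (u ⬝ᵥ u) :=
  ⟨(Am_quad _ T x u).ge.trans' (vs_nn h.n0 (post_pos h.pos sv r y) hT _ x),
    (h.gr r y).Am_le h.n0 (post_pos h.pos sv r y) h.C0 hT x u⟩

theorem mg_quad (h : GE w W C) (hT : 0 ≤ T) (r : ℝ) (x : Cube n) (u : Fin n → ℝ) :
    MG fun y => u ⬝ᵥ Am (post sv w r y) T x *ᵥ u :=
  mg_dot (fun _ => .const _) fun i => MG.sum Finset.univ fun j _ =>
    (mg_Am h.n0 h.pos r hT x i j).mul (.const (u j))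

/-- the scalar is bounded -/
theorem scalar (h : GE w W C) (hT : 0 ≤ T) (hu : Sf W u) (he : e0 n ≤ η)
    (hb : bad w W T r ε η a < 1) : -ε ≤ a ∧ a ≤ DT C T + ε := by
  by_contra hc
  have : ∀ x y, ¬ DAev W (Am (post sv w r y) T x) ε η a := fun x y hd => by
    have h1 := abs_le.1 (hu.quad he hd)
    have h2 := h.quad hT r y x u
    rw [hu.1, mul_one] at h2
    exact hc ⟨by linarith, by linarith⟩
  simp only [bad, this, not_false_eq_true, ofPred_true, probReal_univ, h.wt.mean_const] at hb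
  exact lt_irrefl _ hb

theorem quad_le (h : GE w W C) (hT : 0 ≤ T) (hu : Sf W u) (he : e0 n ≤ η)
    (hb : bad w W T r ε η a < 1) : (slE sv w r fun x y => u ⬝ᵥ Am (post sv w r y) T x *ᵥ u) ≤
      a + ε + DT C T * bad w W T r ε η a :=
  slE_le_bad h.wt (fun x => h.mg_quad hT r x u) (DT_nonneg hT) (fun x y => by
    have := (h.quad hT r y x u).2
    rw [hu.1, mul_one] at this
    linarith [(h.scalar hT hu he hb).1]) fun x y hd => by linarith [(abs_le.1 (hu.quad he hd)).2]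

theorem le_quad (h : GE w W C) (hT : 0 ≤ T) (hu : Sf W u) (he : e0 n ≤ η)
    (hb : bad w W T 0 ε η a < 1) :
    a - ε - DT C T * bad w W T 0 ε η a ≤ mean w fun x => u ⬝ᵥ Am w T x *ᵥ u := by
  have := slE_le_bad (r := 0) (c := ε - a) h.wt (fun x => (h.mg_quad hT 0 x u).neg) (DT_nonneg hT)
    (fun x y => by linarith [(h.scalar hT hu he hb).2, (h.quad hT 0 y x u).1])
    fun x y (hd : DAev W _ ε η a) => by linarith [(abs_le.1 (hu.quad he hd)).1]
  simp only [slE_zero, post_zero, mean_neg] at this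
  linarith

theorem bil (h : GE w W C) (l0 : 0 ≤ l) (hl : l ≤ e0 n) (η0 : 0 ≤ η') (hη : η' ≤ η)
    (hd : DAev W A ε η a) (x z : Fin n → ℝ) :
    |(Pw W η' *ᵥ x) ⬝ᵥ A *ᵥ (Pw W l *ᵥ z) - a * ((Pw W η' *ᵥ x) ⬝ᵥ (Pw W l *ᵥ z))| ≤
      ε * (nrm (Pw W η' *ᵥ x) * nrm (Pw W l *ᵥ z)) :=
  hd _ _ ((nrm_soft_le h.herm l0 z).trans (mul_le_mul_of_nonneg_right hl (nrm_nonneg _)))
    ((nrm_soft_le h.herm η0 x).trans (mul_le_mul_of_nonneg_right hη (nrm_nonneg _)))

theorem nrm_Pw_le (h : GE w W C) (η : ℝ) (x : Fin n → ℝ) : nrm (Pw W η *ᵥ x) ≤ nrm x :=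
  (nrm_mulVec_le _ _).trans (mul_le_of_le_one_left (nrm_nonneg _) (opn_Pw_le h.herm η))

theorem dA_le (h : GE w W C) (hT : 0 ≤ T) (hu : Sf W u) (l0 : 0 ≤ l) (hl : l ≤ e0 n) (he : e0 n ≤ η)
    (ε0 : 0 ≤ ε) (hb : bad w W T r ε η a < 1) :
    dA w (Pw W η) (Pw W l) r T a ≤ ε + 2 * DT C T * bad w W T r ε η a := by
  have D0 := DT_nonneg (C := C) hT
  refine slE_le_bad h.wt (fun x => mg_sandwich (mg_Am h.n0 h.pos r hT x) _ _ a) (by positivity)
    (fun x y => ?_) fun x y hd => opn_le_of_bil ε0 fun b c => ?_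
  · have h1 : opn (Am (post sv w r y) T x) ≤ DT C T :=
      opn_le_of_quad (herm_iff.2 (Am_transpose _ _ _)) D0 fun z => by
        rw [abs_of_nonneg (h.quad hT r y x z).1]; exact (h.quad hT r y x z).2
    have h2 : opn (a • (1 : Matrix (Fin n) (Fin n) ℝ)) ≤ DT C T + ε := by
      have := h.scalar hT hu he hb
      rw [opn_smul]
      exact (mul_le_of_le_one_right (abs_nonneg _) opn_one_le).trans
        (abs_le.2 ⟨by linarith, this.2⟩)
    refine (opn_mul_le _ _).trans ((mul_le_of_le_one_right (opn_nonneg _) (opn_Pw_le h.herm l)).trans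
      ((opn_mul_le _ _).trans ((mul_le_of_le_one_left (opn_nonneg _) (opn_Pw_le h.herm η)).trans
        ((opn_sub_le _ _).trans (by linarith)))))
  · have h1 := (abs_le.1 (h.bil l0 hl (l0.trans (hl.trans he)) le_rfl hd b c)).2
    rw [← mulVec_mulVec, ← mulVec_mulVec, dotProduct_mulVec, ← mulVec_transpose, Pw_transpose,
      sub_mulVec, dotProduct_sub, smul_mulVec, one_mulVec, dotProduct_smul, smul_eq_mul]
    exact h1.trans (mul_le_mul_of_nonneg_left (mul_le_mul (h.nrm_Pw_le _ _) (h.nrm_Pw_le _ _)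
      (nrm_nonneg _) (nrm_nonneg _)) ε0)

/-- the link between the scalars at field strength `r` and `0` -/
theorem link (h : GE w W C) (hr : 0 ≤ r) (hT : 0 < T) (hT' : 0 < T') {x : ℝ} (hx : 0 < x)
    (hu : Sf W u) (he : e0 n ≤ η) (he' : e0 n ≤ η') (hb : bad w W T r ε η a < 1)
    (hb' : bad w W T' 0 ε' η' a' < 1) :
    (a' - ε' - DT C T' * bad w W T' 0 ε' η' a') / (2 * T') ≤
      (1 + x) ^ 2 * exp (4 * r) * ((a + ε + DT C T * bad w W T r ε η a) / (2 * T)) +
        (1 + x⁻¹) * ((1 + x) * (exp (4 * r) - 1) * (2 * T) + T / T') := by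
  have h1 := Rec.link h.n0 h.pos hr hT hT' hx u
  rw [hu.1, mul_one] at h1
  exact (div_le_div_of_nonneg_right (h.le_quad hT'.le hu he' hb') (by positivity)).trans
    (h1.trans (add_le_add (mul_le_mul_of_nonneg_left (div_le_div_of_nonneg_right
      (h.quad_le hT.le hu he hb) (by positivity)) (by positivity)) le_rfl))

end GE

end Crest.Agent.T157.Rec

end
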