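import Crest.Agent.T157.St0B_5
import Crest.Agent.T157.CrD_63
import Crest.Agent.T157.DsD_77
import Crest.Agent.T157.TrF_64

/-!
# Row 157, block A2, section 7 (helper64): from the joint planted theorem to the four outputs

* `J0 … J3` : what is used of the joint planted theorem on `[n^d / N, t0]`;
* `Edge` : the edge window `[s0 / N, n^d / N]`, quenched, with a deterministic profile;
* `G0 … G3` : the quenched windows for an arbitrary coupling law;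
* the glue statements give `Q1.AStar`, `Q1.W2R`, `Tr.AStmt`, `Rec.AwStmt`.
-/

set_option autoImplicit false

noncomputable section

namespace Crest.Agent.T157.O7

open MeasureTheory Filter Set Matrix Real
open Crest.ProbabilityR.SpinGlassDynamics
open Crest.Agent.T157.E Crest.Agent.T157.SL
open Crest.Agent.T157.Tap (Mx V GOE)
open Crest.Agent.T157.Top (Whp)
open Crest.Agent.T157.Tr (Off)
open Crest.Agent.T157.Crit (CovLe CovAt)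
open Crest.Agent.T157.Soft (N23)
open Crest.Agent.T157.Ks.St0 (JP)

variable {n : ℕ}

/-- the natural level `M(t) = n t^{3/2}` -/
def Mt (n : ℕ) (t : ℝ) : ℝ := n * t ^ (3 / 2 : ℝ)

/-- `Bᵀ C B ≤ k` -/
def CvB (w : Cube n → ℝ) (B : Mx n) (k : ℝ) : Prop :=
  ∀ v : V n, (B *ᵥ v) ⬝ᵥ covM w *ᵥ (B *ᵥ v) ≤ k * (v ⬝ᵥ v)

/-- `‖r C_r‖ ≤ k r` off an event of size `exp (-H r)`, for all `r ∈ [a, b]` -/
def QW (w : Cube n → ℝ) (a b : ℝ) (k H : ℝ → ℝ) : Prop :=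
  ∀ r ∈ Icc a b, CovAt w r (k r / r) (exp (-H r))

/-! ### the joint planted theorem -/

/-- joint planted bound at level `H n t`, `t ∈ [lo n, hi]`, on an event of the couplings which is
typical in the null model for all `t` at once (no measurability is asked) -/
def JB (lo : ℕ → ℝ) (hi : ℝ) (H : ℕ → ℝ → ℝ) (G : ∀ n, ℝ → Mx n → V n → Prop) : Prop :=
  ∃ WW : ∀ n, ℝ → Mx n → Prop, Whp GOE (fun n W => ∀ t ∈ Icc (lo n) hi, WW n t W) ∧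
    ∀ᶠ n : ℕ in atTop, ∀ t ∈ Icc (lo n) hi,
      JP t n {z | WW n t z.1 ∧ ¬ G n t z.1 z.2} ≤ ENNReal.ofReal (exp (-H n t))

/-- lower end of the window -/
def lo (d : ℝ) (n : ℕ) : ℝ := (n : ℝ) ^ d / N23 n

/-- crude bound, all levels `L M(t)` -/
def J0 : Prop := ∀ L : ℝ, ∃ K : ℝ, ∀ d > (0 : ℝ), ∃ t0 > (0 : ℝ), ∃ e0 > (0 : ℝ),
  JB (lo d) t0 (fun n t => min (L * Mt n t) (e0 * n)) fun _ t W y => CovLe (ising W y) (K / t)

/-- sharp bound with a fixed error -/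
def J1 : Prop := ∀ e > (0 : ℝ), ∀ d > (0 : ℝ), ∃ c0 > (0 : ℝ), ∃ t0 > (0 : ℝ), ∃ e0 > (0 : ℝ),
  JB (lo d) t0 (fun n t => min (c0 * Mt n t) (e0 * n))
    fun _ t W y => CovLe (ising W y) ((1 + e) / t)

/-- sharp bound with power errors, at a level `n^c` -/
def J2 : Prop := ∀ d > (0 : ℝ), ∃ c > (0 : ℝ), ∃ C : ℝ, ∃ t0 > (0 : ℝ),
  JB (lo d) t0 (fun n _ => (n : ℝ) ^ c)
    fun n t W y => CovLe (ising W y) ((1 + C * t ^ c + (n : ℝ) ^ (-c)) / t)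

/-- (g1) and (g2) at small macroscopic times, with constants independent of the time -/
def J3 : Prop := ∃ K K₂ : ℝ, ∃ t0 > (0 : ℝ), ∀ s > (0 : ℝ), ∃ c > (0 : ℝ),
  JB (fun _ => s) t0 (fun n _ => (n : ℝ) ^ c) fun n t W y =>
    CovLe (ising W y) (K / t) ∧ CvB (ising W y) ((2 : ℝ) • (1 : Mx n) - W) K₂

/-! ### the edge window -/

def E0 (d : ℝ) : Prop := ∀ ε > (0 : ℝ), ∀ L : ℝ, ∃ K s0 : ℝ, Off GOE ε fun n W =>
  QW (ising W 0) (s0 / N23 n) (lo d n) (fun _ => K) fun r => L * Mt n r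

def E1 (d : ℝ) : Prop := ∀ ε > (0 : ℝ), ∀ e > (0 : ℝ), ∃ c0 > (0 : ℝ), ∃ s0 : ℝ,
  Off GOE ε fun n W => QW (ising W 0) (s0 / N23 n) (lo d n) (fun _ => 1 + e) fun r => c0 * Mt n r

def E2 (d : ℝ) : Prop := ∀ ε > (0 : ℝ), ∃ c > (0 : ℝ), ∃ C s0 : ℝ, Off GOE ε fun n W =>
  QW (ising W 0) (s0 / N23 n) (lo d n) (fun r => 1 + C * (N23 n * r) ^ (-c))
    fun r => (N23 n * r) ^ c

/-- **the edge window** (one `d` is enough) -/
def Edge : Prop := ∃ d > (0 : ℝ), E0 d ∧ E1 d ∧ E2 d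

/-! ### quenched windows for any coupling law -/

section
variable (μ : ∀ n, Measure (Pair n → ℝ))

def G0 : Prop := ∀ ε > (0 : ℝ), ∀ L : ℝ, ∃ K s0 : ℝ, ∃ t0 > (0 : ℝ), Off μ ε fun n g =>
  QW (gibbsWeight n 1 g) (s0 / N23 n) t0 (fun _ => K) fun r => min (L * Mt n r) √n

def G1 : Prop := ∀ ε > (0 : ℝ), ∀ e > (0 : ℝ), ∃ c0 > (0 : ℝ), ∃ s0 : ℝ, ∃ t0 > (0 : ℝ),
  Off μ ε fun n g =>
    QW (gibbsWeight n 1 g) (s0 / N23 n) t0 (fun _ => 1 + e) fun r => min (c0 * Mt n r) √n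

def G2 : Prop := ∀ ε > (0 : ℝ), ∃ c > (0 : ℝ), ∃ C s0 : ℝ, ∃ t0 > (0 : ℝ), Off μ ε fun n g =>
  QW (gibbsWeight n 1 g) (s0 / N23 n) t0 (fun r => 1 + C * (r ^ c + (N23 n * r) ^ (-c)))
    fun r => (N23 n * r) ^ c

def G3 (T : ℝ) : Prop := ∀ t0 > (0 : ℝ), ∃ K : ℝ, Whp μ fun n g =>
  QW (gibbsWeight n 1 g) t0 T (fun _ => K) fun _ => √n

end

/-! ### leaves -/

/-- planted to null, all times at once -/
def QuStmt : Prop := ∀ (a : ℕ → ℝ) (b c : ℝ) (H k : ℕ → ℝ → ℝ) (B : ∀ n, Mx n → Mx n), 0 < c →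
  (∀ᶠ n : ℕ in atTop, 0 ≤ a n ∧ ∀ t ∈ Icc (a n) b, (n : ℝ) ^ c ≤ H n t) →
  JB a b H (fun n t W y => CvB (ising W y) (B n W) (k n t)) →
  Whp GOE fun n W => ∀ r ∈ Icc (a n) b, ∃ t ∈ Icc r b, t ≤ r + ((n : ℝ) ^ 4)⁻¹ ∧
    (law sv (ising W 0) r).real {y | ¬ CvB (ising W y) (B n W) ((1 + 12 / n) * k n t)} ≤
      exp (-(H n t / 2)) + exp (-(n / 2))

def W2Glue : Prop := QuStmt → J0 → J1 → Q1.W2R
def AwGlue : Prop := QuStmt → J3 → Rec.AwStmt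
def GGlue : Prop := QuStmt → J0 → J1 → J2 → Edge →
  G0 disorderLaw ∧ G1 disorderLaw ∧ G2 disorderLaw
def G3Glue : Prop := Tap.CovStmt → ∀ T, G3 disorderLaw T
/-- the weighted bad event -/
def PbStmt : Prop := ∀ (n : ℕ) (g : Pair n → ℝ) (B r k p : ℝ) (e : ℝ → ℝ), 1 ≤ B →
  (∀ θ, 0 ≤ θ → Soft.Xth n g θ ≤ B * exp (B * θ ^ (3 / 2 : ℝ))) → 1 ≤ N23 n * r → k ≤ 1 + e r →
  CovAt (gibbsWeight n 1 g) r (k / r) p →
  Tr.pb sv (gibbsWeight n 1 g) e 3 r ≤ 10 ^ 4 * B ^ 3 * (N23 n * r) ^ 5 * √p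
/-- both coupling laws -/
def StarGlue : Prop := PbStmt → ∀ (b : Bool) (a κ T : ℝ), a < 2 / 3 → κ < 1 / 2 → 0 < T → Q1.LdB b →
  G0 (couplingLaw b) → G1 (couplingLaw b) → G2 (couplingLaw b) → G3 (couplingLaw b) T →
  Q1.AStar b a κ T
def SharpGlue : Prop := PbStmt → Q1.LdB false → G2 disorderLaw → Tr.ASharp disorderLaw

/-- the four outputs of block A2 -/
theorem out_of (qu : QuStmt) (w2 : W2Glue) (aw : AwGlue) (gg : GGlue) (g3 : G3Glue) (pb : PbStmt)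
    (st : StarGlue) (sh : SharpGlue) (cov : Tap.CovStmt) (ld : Q1.LdB false) (j0 : J0) (j1 : J1)
    (j2 : J2) (j3 : J3) (ed : Edge) {a κ T : ℝ} (ha : a < 2 / 3) (hκ : κ < 1 / 2) (hT : 0 < T) :
    Q1.AStar false a κ T ∧ Q1.W2R ∧ Tr.AStmt disorderLaw ∧ Rec.AwStmt :=
  have h := gg qu j0 j1 j2 ed
  ⟨st pb false a κ T ha hκ hT ld h.1 h.2.1 h.2.2 (g3 cov T), w2 qu j0 j1,
    Tr.aStmt_of_sharp (sh pb ld h.2.2), aw qu j3⟩

end Crest.Agent.T157.O7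

end
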