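import Crest.Agent.T157.O0Def_21
import Crest.Agent.T157.O7Def_64

/-!
# Row 157, block A2 (helper46): from the joint planted theorem to `J0 … J3`
-/

set_option autoImplicit false

noncomputable section

namespace Crest.Agent.T157.O0

open MeasureTheory Matrix Filter Topology Set
open Crest.Agent.T157.E Crest.Agent.T157.SL Crest.Agent.T157.Ks
open Crest.Agent.T157.Tap (Mx V GOE)
open Crest.Agent.T157.Ks.St0 (JP)

namespace J46

/-- choice of the parameters: `L, K` first, then `d` as small as we like -/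
lemma pick {Q : Pm → Prop} (hQ : ∀ᶠ p in FF, Q p) (L0 : ℝ) : ∃ L K : ℝ, L0 ≤ L ∧ ∀ d > (0 : ℝ),
    ∃ p : Pm, p.L = L ∧ p.K = K ∧ p.d ≤ d ∧ p.Ok ∧ ∀ᶠ n : ℕ in atTop, Q { p with n := n } := by
  have h := ev_iff.1 (hQ.and ev_ok)
  unfold Ev at h
  obtain ⟨L, hL, h⟩ := ((ev_ge L0).and h).exists
  obtain ⟨T, h⟩ := h.exists
  obtain ⟨C, h⟩ := h.exists
  obtain ⟨K, h⟩ := h.exists
  obtain ⟨A, h⟩ := h.exists
  obtain ⟨ch, h⟩ := h.exists
  refine ⟨L, K, hL, fun d hd => ?_⟩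
  obtain ⟨d', hd', h⟩ := ((ev_sm d).and h).exists
  iterate 13 obtain ⟨_, h⟩ := h.exists
  obtain ⟨n, hn⟩ := h.exists
  exact ⟨_, rfl, rfl, hd'.2 hd, hn.2, h.mono fun _ h => h.1⟩

lemma ev_neg {c a : ℝ} (hc : 0 < c) (ha : 0 < a) : ∀ᶠ n : ℕ in atTop, (n : ℝ) ^ (-c) ≤ a :=
  ((tendsto_rpow_neg_atTop hc).comp tendsto_natCast_atTop_atTop).eventually (ge_mem_nhds ha)

lemma ev_one : ∀ᶠ n : ℕ in atTop, (1 : ℝ) ≤ n :=
  (eventually_ge_atTop 1).mono fun _ h => by exact_mod_cast h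

lemma ev_pow {c a : ℝ} (hc : c < 1) (ha : 0 < a) : ∀ᶠ n : ℕ in atTop, (n : ℝ) ^ c ≤ a * n := by
  filter_upwards [ev_neg (sub_pos.2 hc) ha, ev_one] with n h h1
  have h0 : (0 : ℝ) < n := by linarith
  calc (n : ℝ) ^ c = n ^ (-(1 - c)) * n := by
        rw [← Real.rpow_add_one h0.ne']; congr 1; ring
    _ ≤ a * n := mul_le_mul_of_nonneg_right h h0.le

lemma lo_eq {n : ℕ} (h : (1 : ℝ) ≤ n) (d : ℝ) : O7.lo d n = (n : ℝ) ^ (-(2 / 3 - d)) := by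
  rw [O7.lo, Soft.N23, ← Real.rpow_sub (by linarith)]; congr 1; ring

lemma lo_mono {n : ℕ} (h : (1 : ℝ) ≤ n) {d d' : ℝ} (hd : d' ≤ d) : O7.lo d' n ≤ O7.lo d n := by
  rw [lo_eq h, lo_eq h]; exact Real.rpow_le_rpow_of_exponent_le h (by linarith)

lemma lo_pos {n : ℕ} (h : (1 : ℝ) ≤ n) (d : ℝ) : 0 < O7.lo d n := by
  rw [lo_eq h]; exact Real.rpow_pos_of_pos (by linarith) _

lemma ev_lo {d a : ℝ} (hd : d < 2 / 3) (ha : 0 < a) : ∀ᶠ n : ℕ in atTop, O7.lo d n ≤ a := by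
  filter_upwards [ev_neg (sub_pos.2 hd) ha, ev_one] with n h h1
  rwa [lo_eq h1]

variable {p : Pm}

lemma nums (h : p.Ok) : 0 < p.d ∧ p.d < 1 / 10 ∧ 0 < p.k3 ∧ p.k3 ≤ p.d ∧ p.cv ≤ p.A * p.cv ∧
    0 < p.t2 := by
  have hA : (1 : ℝ) ≤ p.A := by exact_mod_cast h.A
  refine ⟨h.d.1, by linarith [h.d.2, h.ch.2], h.k3.1,
    by linarith [h.d.1, h.k3.2, h.k2.2, h.k4.2], le_mul_of_one_le_left h.cv.le hA, ?_⟩
  exact Real.rpow_pos_of_pos (div_pos h.ef (by linarith [h.L])) _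

/-- the general reduction -/
lemma jb (hW : WStmt) (hP : WhpStmt) (h : p.Ok) {a : ℕ → ℝ} {b : ℝ} {H : ℕ → ℝ → ℝ}
    {G : ∀ n, ℝ → Mx n → V n → Prop} (e : ℕ → ℝ → ℝ)
    (hh : ∀ᶠ n : ℕ in atTop, ∀ t ∈ Icc (a n) b, O7.lo p.d n ≤ t ∧ (n : ℝ) ^ (-p.cv) ≤ e n t ∧
      ∃ (S : Set (Mx n × V n)) (H' : ℝ), Pm.Lev { p with n := n } t
        (Pm.Wt { p with n := n } (e n t) t) S H' ∧ H n t ≤ H' ∧
        ∀ z ∈ S, z.1ᵀ = z.1 → G n t z.1 z.2) : O7.JB a b H G := by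
  obtain ⟨d0, d1, k0, k1, c1, t2⟩ := nums h
  refine ⟨fun n t W => Cw.WW (min t p.t2) (e n t ^ p.A) p.k3 W, ?_, ?_⟩
  · refine (hP p.k3 k0 p.d ⟨d0, d1⟩).mono ?_
    filter_upwards [hh, ev_one, ev_lo (show p.d < 2 / 3 by linarith) t2] with n hn h1 h2 W hw t ht
    obtain ⟨h3, h4, -⟩ := hn t ht
    have h0 : (0 : ℝ) < n := by linarith
    refine (hW n p.k3 _ _ (Real.rpow_pos_of_pos h0 _) (lo_pos h1 p.d)).2.2 _ _ ?_ (le_min h3 h2) W hw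
    refine le_trans ?_ (pow_le_pow_left₀ (Real.rpow_pos_of_pos h0 _).le h4 p.A)
    rw [← Real.rpow_mul_natCast h0.le]
    exact Real.rpow_le_rpow_of_exponent_le h1 (by linarith [h.cv'])
  · filter_upwards [hh] with n hn t ht
    obtain ⟨-, -, S, H', h1, h2, h3⟩ := hn t ht
    refine le_trans (measure_mono ?_) (le_trans h1
      (ENNReal.ofReal_le_ofReal (Real.exp_le_exp.2 (neg_le_neg h2))))
    intro z hz
    obtain ⟨l, hl, -⟩ := id hz.1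
    exact ⟨hz.1, fun hS => hz.2 (h3 z hS hl.symm)⟩

lemma cb_mono {n : ℕ} {w : Cube n → ℝ} {k k' : ℝ} (h : CB w sv k) (hk : k ≤ k') : Crit.CovLe w k' :=
  fun u => (h u).trans (mul_le_mul_of_nonneg_right hk (Finset.sum_nonneg fun _ _ => mul_self_nonneg _))

lemma ef_le (h : p.Ok) (n : ℕ) {t : ℝ} (ht : 0 ≤ t) : p.ef * n ≤ p.ef * n * (1 + t) :=
  le_mul_of_one_le_right (mul_nonneg h.ef.le (Nat.cast_nonneg n)) (by linarith)

end J46

open J46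

theorem j0 (hW : WStmt) (hP : WhpStmt) (hT : Thm) : O7.J0 := fun L0 => by
  obtain ⟨L, K, hL, h⟩ := pick hT L0
  refine ⟨K, fun d hd => ?_⟩
  obtain ⟨p, rfl, rfl, h1, ho, h⟩ := h d hd
  refine ⟨p.t0, ho.t0.1, p.ef, ho.ef, jb hW hP ho (fun _ _ => p.e1) ?_⟩
  filter_upwards [h, ev_one, ev_neg ho.cv ho.e1.1] with n hn n1 he t ht
  have h2 := (lo_mono n1 h1).trans ht.1
  have h3 := ((lo_pos n1 _).trans_le h2).le
  exact ⟨h2, he, _, _, (hn t ⟨h2, ht.2⟩).2.1, min_le_min (mul_le_mul_of_nonneg_right hL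
    (by unfold O7.Mt; positivity)) (ef_le ho n h3), fun z hz _ => hz.g1⟩

theorem j1 (hW : WStmt) (hP : WhpStmt) (hT : Thm) : O7.J1 := fun e he d hd => by
  obtain ⟨L, K, -, h⟩ := pick hT 0
  obtain ⟨p, -, -, h1, ho, h⟩ := h d hd
  have e0 : 0 < min e p.e1 := lt_min he ho.e1.1
  refine ⟨min e p.e1 ^ p.A, pow_pos e0 _, min p.t0 (min e p.e1 ^ (1 / p.cv)),
    lt_min ho.t0.1 (Real.rpow_pos_of_pos e0 _), p.ef, ho.ef, jb hW hP ho (fun _ _ => min e p.e1) ?_⟩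
  filter_upwards [h, ev_one, ev_neg ho.cv e0] with n hn n1 he' t ht
  have h2 := (lo_mono n1 h1).trans ht.1
  have h3 := (lo_pos n1 _).trans_le h2
  have h4 : t ^ p.cv ≤ min e p.e1 := by
    refine (Real.rpow_le_rpow h3.le (ht.2.trans (min_le_right _ _)) ho.cv.le).trans_eq ?_
    rw [← Real.rpow_mul e0.le, one_div_mul_cancel ho.cv.ne', Real.rpow_one]
  exact ⟨h2, he', _, _, (hn t ⟨h2, ht.2.trans (min_le_left _ _)⟩).2.2 _
    ⟨e0, min_le_right _ _, h4, he'⟩, min_le_min le_rfl (ef_le ho n h3.le), fun z hz _ =>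
    cb_mono hz (div_le_div_of_nonneg_right (by linarith [min_le_left e p.e1]) h3.le)⟩

theorem j2 (hW : WStmt) (hP : WhpStmt) (hT : Thm) : O7.J2 := fun d hd => by
  obtain ⟨L, K, -, h⟩ := pick hT 0
  obtain ⟨p, -, -, h1, ho, h⟩ := h d hd
  obtain ⟨d0, d1, k0, k1, c1, -⟩ := nums ho
  refine ⟨p.cv, ho.cv, 1, p.t0, ho.t0.1,
    jb hW hP ho (fun n t => max (t ^ p.cv) ((n : ℝ) ^ (-p.cv))) ?_⟩
  filter_upwards [h, ev_one, ev_neg ho.cv ho.e1.1,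
    ev_pow (show p.cv < 1 by linarith [ho.cv']) ho.ef] with n hn n1 he hf t ht
  have n0 : (0 : ℝ) < n := by linarith
  have h2 := (lo_mono n1 h1).trans ht.1
  have h3 := (lo_pos n1 _).trans_le h2
  have h4 : t ^ p.cv ≤ p.e1 := (Real.rpow_le_rpow h3.le ht.2 ho.cv.le).trans ho.t0'
  have h5 := Real.rpow_pos_of_pos h3 p.cv
  have h6 := Real.rpow_pos_of_pos n0 (-p.cv)
  refine ⟨h2, le_max_right _ _, _, _, (hn t ⟨h2, ht.2⟩).2.2 _
    ⟨lt_max_of_lt_left h5, max_le h4 he, le_max_left _ _, le_max_right _ _⟩,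
    le_min ?_ (hf.trans (ef_le ho n h3.le)), fun z hz _ =>
    cb_mono hz (div_le_div_of_nonneg_right ?_ h3.le)⟩
  · have a1 := pow_le_pow_left₀ h6.le (le_max_right (t ^ p.cv) _) p.A
    have a2 := Real.rpow_le_rpow (lo_pos n1 _).le h2 (show (0 : ℝ) ≤ 3 / 2 by norm_num)
    rw [lo_eq n1, ← Real.rpow_mul n0.le] at a2
    refine le_trans ?_ (mul_le_mul a1 (mul_le_mul_of_nonneg_left a2 n0.le) (by positivity)
      (by positivity))
    rw [← Real.rpow_mul_natCast n0.le, mul_comm (n : ℝ), ← Real.rpow_add_one n0.ne',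
      ← Real.rpow_add n0]
    exact Real.rpow_le_rpow_of_exponent_le n1 (by linarith [ho.cv'])
  · linarith [max_le_add_of_nonneg h5.le h6.le]

theorem j3 (hW : WStmt) (hP : WhpStmt) (hT : Thm) : O7.J3 := by
  obtain ⟨L, K, -, h⟩ := pick hT 0
  obtain ⟨p, -, -, -, ho, h⟩ := h 1 one_pos
  obtain ⟨d0, d1, -⟩ := nums ho
  refine ⟨p.K, p.K, p.t0, ho.t0.1, fun s hs => ⟨1 / 2, by norm_num,
    jb hW hP ho (fun _ _ => p.e1) ?_⟩⟩
  have hL : 0 < p.L := by linarith [ho.L]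
  filter_upwards [h, ev_neg ho.cv ho.e1.1, ev_lo (show p.d < 2 / 3 by linarith) hs,
    ev_neg ho.ch.1 hs, ev_pow (show (1 / 2 : ℝ) < 1 by norm_num) ho.ef,
    ev_pow (show (1 / 2 : ℝ) < 1 by norm_num) (mul_pos hL (Real.rpow_pos_of_pos hs (3 / 2)))]
    with n hn he h1 h2 hf hf' t ht
  have h3 := hs.trans_le ht.1
  refine ⟨h1.trans ht.1, he, _, _, (hn t ⟨h1.trans ht.1, ht.2⟩).2.1,
    le_min (hf'.trans ?_) (hf.trans (ef_le ho n h3.le)), fun z hz hs => ⟨hz.g1, fun v => ?_⟩⟩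
  · rw [mul_assoc, mul_comm _ (n : ℝ)]
    exact mul_le_mul_of_nonneg_left (mul_le_mul_of_nonneg_left
      (Real.rpow_le_rpow hs.le ht.1 (by norm_num)) (Nat.cast_nonneg n)) hL.le
  · have h4 := hz.g2 v
    have h5 : (Pm.gc { p with n := n } t).K2 = p.K := if_pos (h2.trans ht.1)
    rw [h5] at h4
    refine le_of_eq_of_le ?_ h4
    have hA : (Oa.Az 2 z.1)ᵀ = Oa.Az 2 z.1 := by
      rw [transpose_sub, transpose_smul, transpose_one, hs]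
    rw [← Od.covV_lin, Od.covV_fA, Od.dot_fA hA, Od.covV_lin, Od.symm_dot hA]
    rfl

end Crest.Agent.T157.O0
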