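import Crest.Agent.T157.FinE_88
import Crest.Agent.T157.O0J_46
import Crest.Agent.T157.O0I_21
import Crest.Agent.T157.Kp_12
import Crest.Agent.T157.KbAll_5

/-!
# Row 157: the critical statements from the joint planted theorem (helper88)
-/

set_option autoImplicit false

namespace Crest.Agent.T157.TopZ

theorem jIn (h : O0.Thm) : JIn :=
  ⟨O0.j0 O0.wStmt O0.whpStmt h, O0.j1 O0.wStmt O0.whpStmt h, O0.j2 O0.wStmt O0.whpStmt h,
    O0.j3 O0.wStmt O0.whpStmt h, O0.edge_of_thm O0.wStmt O0.whpStmt h⟩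

/-- the open leaves of the joint planted theorem -/
theorem thm_of (pk : O0.Pack) (β : O0.Base) (kc : O0.KbC β) (ks : O0.KbS β) (oc : O0.OrbC β)
    (os : O0.OrbS β) : O0.Thm :=
  O0.indGlue O0.wStmt O0.gmStmt Kp.stepStmt pk O0.startStmt β kc ks oc os

theorem r29_thm (h : O0.Thm) : Top.R29 := r29_of (jIn h)

theorem r32_thm (h : O0.Thm) (K : KIn) : Top.R32 := r32_of (jIn h) (kOut K)

theorem r33_thm (h : O0.Thm) (K : KIn) : Top.R33 := r33_of (jIn h) (kOut K)

end Crest.Agent.T157.TopZ
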