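import Crest.Agent.T157.KbM_24

/-!
# Row 157, part A2, section 2 (helper27): `GoodGlue`
-/

set_option autoImplicit false

noncomputable section

namespace Crest.Agent.T157.Kb

open MeasureTheory Matrix Set Filter
open scoped ENNReal
open Crest.Agent.T157.E Crest.Agent.T157.Cond Crest.Agent.T157.Tap
open Crest.Agent.T157.Qe (Le R1 bv Wm Mm St Dv WS FS P3 Sg Tm zz gg uu)
open Crest.Agent.T157.Conc (ex)

namespace Gd27

variable {n : ℕ}

/-- `Pt` as a measure -/
def PM (n : ℕ) (t : ℝ) : Measure (V n × Mx n) :=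
  ((volume : Measure (V n)).prod (GOE n)).withDensity fun z => nuW t z * cX z.1

theorem Pt_eq (t : ℝ) {B : Set (V n × Mx n)} (hB : MeasurableSet B) :
    Pt t (B.indicator 1) = PM n t B := by
  have hm : Measurable fun z : V n × Mx n => nuW t z * cX z.1 :=
    (meas_nuW measurable_id).mul (meas_cX measurable_fst)
  rw [PM, withDensity_apply _ hB, ← lintegral_indicator hB,
    lintegral_prod _ (hm.indicator hB).aemeasurable, Pt]
  refine lintegral_congr fun x => lintegral_congr fun W => ?_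
  by_cases h : (x, W) ∈ B <;> simp [h]

theorem PM_x (hM : MargStmt) (hn : 0 < n) {t : ℝ} (ht : 0 < t) {E : Set (V n)}
    (hE : MeasurableSet E) : PM n t {z | z.1 ∈ E} ≤ Px t E := by
  have hB : MeasurableSet {z : V n × Mx n | z.1 ∈ E} := measurable_fst hE
  rw [← Pt_eq t hB, hM n t _ hn ht (measurable_one.indicator hB), Px_eq t hE]
  refine lintegral_mono fun x => ?_
  by_cases h : x ∈ E
  · have h1 := ga_pos ht x
    have h2 := aS_nonneg x
    have h3 : Real.sqrt (ga t x / (ga t x + aS x)) ≤ 1 :=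
      Real.sqrt_le_one.2 ((div_le_one (by linarith)).2 (by linarith))
    simp only [h, indicator_of_mem, mem_ofPred_eq, Pi.one_apply, lintegral_const, measure_univ, mul_one]
    exact ENNReal.ofReal_le_ofReal (mul_le_of_le_one_left (rho_nonneg t x) h3)
  · simp [h]

theorem col_le {W : Mx n} {a : V n} (h : Dq.Dg W a) (ha : ∀ i, |a i| ≤ 4) (x : V n) :
    (W *ᵥ ee x) ⬝ᵥ (W *ᵥ ee x) ≤ 16 := by
  obtain ⟨O, h1, rfl⟩ := h
  have h2 : Oᵀ * O = 1 := mul_eq_one_comm.1 h1
  have e1 : ∀ (G : Mx n), Gᵀ * G = 1 → ∀ v, G *ᵥ v ⬝ᵥ G *ᵥ v = v ⬝ᵥ v := fun G h v => by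
    rw [dotProduct_mulVec, ← mulVec_transpose, mulVec_mulVec, h, one_mulVec]
  have h3 : ee x ⬝ᵥ ee x ≤ 1 := by
    by_cases h : th x = 0
    · simp [ee, h, unitv_zero]
    · exact (unitv_dot h).le
  rw [← mulVec_mulVec, ← mulVec_mulVec, e1 O h2]
  rw [← e1 Oᵀ (by rwa [transpose_transpose])] at h3
  refine le_trans ?_ (mul_le_of_le_one_right (by norm_num) h3)
  simp only [dotProduct, mulVec_diagonal, Finset.mul_sum]
  refine Finset.sum_le_sum fun i _ => ?_
  have h4 : a i * a i ≤ 16 := by nlinarith [abs_le.1 (ha i)]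
  nlinarith [mul_self_nonneg ((Oᵀ *ᵥ ee x) i)]

/-- the number of small sets -/
theorem card_small {κ y : ℝ} (y0 : 0 < y) (y1 : y ≤ 1) (κ0 : 0 ≤ κ) :
    ((Finset.univ.filter fun S : Finset (Fin n) => (S.card : ℝ) ≤ κ * n).card : ℝ) ≤
      Real.exp (n * (y + κ / y)) := by
  have a0 : 0 ≤ -Real.log y := neg_nonneg.2 (Real.log_nonpos y0.le y1)
  have a1 : -Real.log y ≤ 1 / y := by
    have := Real.log_le_sub_one_of_pos (inv_pos.2 y0)
    rw [Real.log_inv] at this
    rw [one_div]; linarith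
  have h1 := Finset.prod_one_add (s := (Finset.univ : Finset (Fin n))) (f := fun _ => y)
  simp only [Finset.prod_const, Finset.card_univ, Fintype.card_fin, Finset.powerset_univ] at h1
  have h2 : (1 + y) ^ n ≤ Real.exp (n * y) := by
    rw [Real.exp_nat_mul]
    exact pow_le_pow_left₀ (by linarith) (by linarith [Real.add_one_le_exp y]) n
  rw [mul_add, Real.exp_add, Finset.card_eq_sum_ones, Nat.cast_sum, Finset.sum_filter]
  refine le_trans ?_ (mul_le_mul_of_nonneg_right (h1 ▸ h2) (Real.exp_pos _).le)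
  rw [Finset.sum_mul]
  refine Finset.sum_le_sum fun S _ => ?_
  split_ifs with h
  · rw [← Real.exp_log y0, ← Real.exp_nat_mul, ← Real.exp_add, Real.exp_log y0, Nat.cast_one]
    refine Real.one_le_exp ?_
    have b1 := mul_le_mul_of_nonneg_right h a0
    have b2 := mul_le_mul_of_nonneg_left a1 (mul_nonneg κ0 (Nat.cast_nonneg n))
    have e : κ * n * (1 / y) = n * (κ / y) := by ring
    linarith
  · positivity

theorem cover3 {α : Type*} [MeasurableSpace α] {μ : Measure α} {B A1 A2 A3 : Set α} {b : ℝ≥0∞}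
    (h : ∀ z ∈ B, z ∈ A1 ∨ z ∈ A2 ∨ z ∈ A3) (h1 : μ A1 ≤ b) (h2 : μ A2 ≤ b) (h3 : μ A3 ≤ b) :
    μ B ≤ ((3 : ℕ) : ℝ≥0∞) * b :=
  calc μ B ≤ μ (A1 ∪ (A2 ∪ A3)) := measure_mono h
    _ ≤ b + (b + b) :=
      (measure_union_le _ _).trans (add_le_add h1 ((measure_union_le _ _).trans (add_le_add h2 h3)))
    _ = _ := by push_cast; ring

theorem ev_log (C a : ℝ) (ha : 0 < a) : ∀ᶠ n : ℕ in atTop, C * Real.log n ≤ n * a := by
  have h := (Real.isLittleO_log_id_atTop.const_mul_left C).bound ha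
  filter_upwards [tendsto_natCast_atTop_atTop.eventually h] with n hn
  simp only [id, Real.norm_eq_abs, Nat.abs_cast] at hn
  linarith [le_abs_self (C * Real.log n)]

theorem exists_small (l : List ℝ) (h : ∀ a ∈ l, 0 < a) : ∃ s > (0 : ℝ), ∀ a ∈ l, s ≤ a := by
  induction l with
  | nil => exact ⟨1, one_pos, by simp⟩
  | cons b l ih =>
    obtain ⟨s, s0, hs⟩ := ih fun a ha => h a (List.mem_cons_of_mem _ ha)
    refine ⟨min s b, lt_min s0 (h b List.mem_cons_self), fun a ha => ?_⟩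
    rcases List.mem_cons.1 ha with rfl | ha
    · exact min_le_right _ _
    · exact (min_le_left _ _).trans (hs a ha)

end Gd27

open Gd27

set_option maxHeartbeats 800000 in
theorem goodGlue : GoodGlue := by
  intro hMe hA hKr hM hB1 hB2 hP hBall L L0 Cw Cw0
  obtain ⟨tK, tK0, CK, hK⟩ := hKr
  obtain ⟨K, K1, c1, c10, C1, h1⟩ := hB1 (2 * L + 2) (by linarith)
  obtain ⟨c2, c20, C2, h2⟩ := hB2 K K1
  obtain ⟨c3, c30, C3, h3⟩ := hP K K1 Cw Cw0
  obtain ⟨ε, ε0, hε⟩ := exists_small [1 / 4, c3, 1 / (10 * c3)] (by simp; positivity)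
  simp only [List.forall_mem_cons, List.not_mem_nil, false_imp_iff, imp_true_iff, and_true] at hε
  obtain ⟨ε1, ε2, ε3⟩ := hε
  have K0 : 0 < K := by linarith
  set e := c3 * ε ^ 9 with he
  have e0 : 0 < e := by positivity
  have e1 : e ≤ 1 / 10 := by
    have b1 : ε ^ 9 ≤ ε ^ 1 := pow_le_pow_of_le_one ε0.le (by linarith) (by norm_num)
    have b2 := (le_div_iff₀ (by positivity)).1 ε3
    have b3 := mul_le_mul_of_nonneg_left b1 c30.le
    linarith
  obtain ⟨s, s0, hs⟩ := exists_small [c1 * e ^ 2, c2 * e, c3 ^ 2 * ε ^ 9, c2 * e ^ 2 / (2 * L + 2),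
    c3 * ε ^ 18 / (2 * (2 * L + 2)), 1 / (9 * K), tK, 1] (by simp; refine ⟨?_, ?_, ?_, ?_, ?_, ?_, ?_⟩ <;> positivity)
  simp only [List.forall_mem_cons, List.not_mem_nil, false_imp_iff, imp_true_iff, and_true] at hs
  obtain ⟨s1, s2, s3, s4, s5, s6, s7, s8⟩ := hs
  refine ⟨K, K1, ε, ε0, s ^ 2, by positivity, fun t2 t20 => ?_⟩
  set g := c3 * ε ^ 18 * t2 / 4 with hg
  have g0 : 0 < g := by positivity
  set y := min (g / 2) 1 with hy
  have y0 : 0 < y := lt_min (by positivity) one_pos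
  set κ := min (e * (t2 / K * Real.sqrt (t2 / K))) (g * y / 2) with hκ
  have κ0 : 0 < κ := lt_min (by positivity) (by positivity)
  obtain ⟨c, c0, r, r0, hb⟩ := hBall (t2 / (2 * K)) (by positivity) κ κ0
  refine ⟨c, c0, r, r0, 2 * g, by positivity, ?_⟩
  have hn := tendsto_natCast_atTop_atTop (R := ℝ)
  filter_upwards [eventually_ge_atTop (max (max CK C1) (max (max C2 C3) 3)),
    hn.eventually_ge_atTop (1 / t2), hn.eventually_ge_atTop (K / (ε ^ 2 * t2)),
    ev_log (CK + (C1 + C2 + C3 + 1) / 2) (t2 * Real.sqrt t2) (by positivity)] with n n1 n2 n3 n4 t ht S0 hS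
  simp only [max_le_iff] at n1
  obtain ⟨⟨nK, n1⟩, ⟨n5, n6⟩, n7⟩ := n1
  have n0 : 0 < n := by omega
  have n0' : (1 : ℝ) ≤ n := by exact_mod_cast n0
  have t0 : 0 < t := t20.trans_le ht.1
  have t1 : Real.sqrt t ≤ s := Real.sqrt_le_iff.2 ⟨s0.le, ht.2⟩
  have t3 : 1 / (n : ℝ) ≤ t := by
    rw [div_le_iff₀ t20] at n2
    rw [div_le_iff₀ (by linarith)]
    have := mul_le_mul_of_nonneg_left ht.1 (Nat.cast_nonneg (α := ℝ) n)
    linarith
  have t4 : t ≤ s := ht.2.trans (by nlinarith only [s0, s8])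
  have t5 : K ≤ (n * ε) ^ 2 * t := by
    rw [div_le_iff₀ (by positivity)] at n3
    have b1 : (n : ℝ) ≤ n ^ 2 := by nlinarith only [n0']
    calc K ≤ n * (ε ^ 2 * t2) := n3
      _ ≤ n ^ 2 * (ε ^ 2 * t) := by gcongr; exact ht.1
      _ = _ := by ring
  have st := Real.sq_sqrt t0.le
  have st0 := Real.sqrt_pos.2 t0
  have hW := hS (Real.sqrt t) st0 (by rw [st]; nlinarith only [K1, t0]) (by rw [st]; nlinarith only [K1, t0])
  have lg0 : 0 ≤ Real.log n := Real.log_nonneg n0'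
  set B : Set (V n × Mx n) := {z | z.2 ∈ S0 ∧ ¬ GoodB z.2 1 c (r * Real.sqrt n) (th z.1)} with hB
  have mS : MeasurableSet {z : V n × Mx n | z.2 ∈ S0} := measurable_snd hW.meas
  have mB : MeasurableSet B := by
    have := measurable_swap (hMe n 1 c (r * Real.sqrt n) 0 0).1
    simp only [one_smul, one_pow] at this
    exact mS.inter this
  set R := (2 * L + 2) * n * (t * Real.sqrt t) with hR
  set C : ℝ := C1 + C2 + C3 with hC
  have C1' : (0 : ℝ) ≤ C1 := Nat.cast_nonneg _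
  have C2' : (0 : ℝ) ≤ C2 := Nat.cast_nonneg _
  have C3' : (0 : ℝ) ≤ C3 := Nat.cast_nonneg _
  have mC := measSet_Co K e t (measurable_id (α := V n))
  have mX := measSet_XM e (measurable_id (α := V n))
  have a1 : PM n t {z | z.1 ∈ {x : V n | ¬ Co K e t x}} ≤ ex (C * Real.log n - R) :=
    (PM_x hM n0 t0 mC.compl).trans ((h1 n t e n1 t3 ⟨e0, by linarith⟩ (t1.trans s1)).trans
      (Conc.ex_mono (by rw [hC]; linarith [mul_nonneg (add_nonneg C2' C3') lg0])))
  have nt : 0 ≤ (n : ℝ) * t := by positivity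
  have a2 : PM n t {z | z.1 ∈ {x : V n | Co K e t x ∧ ¬ XM e x}} ≤ ex (C * Real.log n - R) := by
    refine (PM_x hM n0 t0 (mC.inter mX.compl)).trans ((h2 n t e n5 t3 ⟨e0, e1⟩ (t1.trans s2)).trans
      (Conc.ex_mono ?_))
    have b1 := mul_le_mul_of_nonneg_left ((le_div_iff₀ (by linarith)).1 (t1.trans s4)) nt
    rw [hC, hR]; linarith [mul_nonneg (add_nonneg C1' C3') lg0]
  set T := Finset.univ.filter fun S : Finset (Fin n) => (S.card : ℝ) ≤ κ * n with hT
  set d0 : V n → ℝ := fun x => aS x ^ 2 / (1 - aS x) - t2 / (2 * K) with hd0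
  set BS : Finset (Fin n) → Set (V n × Mx n) := fun S => {z | z.2 ∈ S0 ∧ Co K e t z.1 ∧ XM e z.1 ∧
    ¬ Le z.2 (Mm (Dk 1 (d0 z.1) S z.1) (2 * 1 * aS z.1) (ee z.1))} with hBS
  have hq : ∀ x : V n, Co K e t x → t2 / K ≤ aS x ^ 2 ∧ aS x ≤ 1 / 9 := fun x hx => by
    refine ⟨(div_le_iff₀ K0).2 (by linarith [hx.q1, ht.1]), ?_⟩
    have b1 := (le_div_iff₀ (by positivity)).1 s6
    have b2 : K * t ≤ K * s ^ 2 := mul_le_mul_of_nonneg_left ht.2 K0.le
    have b3 : K * s ^ 2 ≤ (K * s) ^ 2 := by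
      nlinarith only [mul_nonneg (mul_nonneg K0.le (sub_nonneg.2 K1)) (sq_nonneg s)]
    have b4 : (K * s) ^ 2 ≤ (1 / 9) ^ 2 := pow_le_pow_left₀ (by positivity) (by linarith) 2
    exact (le_abs_self _).trans (abs_le_of_sq_le_sq (by linarith [hx.q2]) (by norm_num))
  have a3 : ∀ S ∈ T, PM n t (BS S) ≤ ex (C3 * Real.log n + 2 * g * n / 2 - c3 * ε ^ 18 * n * t) := by
    intro S hST
    have mBS : MeasurableSet (BS S) := by
      have md : Measurable fun z : V n × Mx n => d0 z.1 := by simp only [hd0]; fun_prop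
      exact mS.inter ((measSet_Co K e t measurable_fst).inter ((measSet_XM e measurable_fst).inter
        (Qe.measurableSet_le measurable_snd (meas_Mm (meas_Dk S measurable_const md measurable_fst)
          (by fun_prop) (meas_ee measurable_fst))).compl))
    rw [← Pt_eq t mBS]
    refine h3 n t ε (2 * g * n) S0 (BS S) (fun _ => 1) d0 (fun _ => S) n6 t3 ⟨ε0, ε2⟩ (t1.trans s3) t5
      (by positivity) mBS hS fun z hz => ⟨hz.1, hz.2.1, hz.2.2.1, ?_, hz.2.2.2⟩
    obtain ⟨q1, q2⟩ := hq _ hz.2.1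
    have q0 := aS_nonneg z.1
    have q3 : t2 / (2 * K) = t2 / K / 2 := by field_simp
    have q4 : aS z.1 ^ 2 ≤ aS z.1 ^ 2 / (1 - aS z.1) := by
      rw [le_div_iff₀ (by linarith)]; nlinarith only [mul_nonneg (sq_nonneg (aS z.1)) q0]
    have q5 : aS z.1 ^ 2 / (1 - aS z.1) ≤ 9 / 8 * aS z.1 ^ 2 := by
      rw [div_le_iff₀ (by linarith)]
      nlinarith only [mul_le_mul_of_nonneg_left q2 (sq_nonneg (aS z.1))]
    have q6 : 0 < t2 / K := by positivity
    refine ⟨le_rfl, by norm_num, ?_, ?_, (Finset.mem_filter.1 hST).2.trans ?_⟩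
    · simp only [hd0]; linarith [mul_le_mul_of_nonneg_right ε1 (sq_nonneg (aS z.1))]
    · simp only [hd0]; linarith
    · have q7 : Real.sqrt (t2 / K) ≤ aS z.1 := Real.sqrt_le_iff.2 ⟨q0, q1⟩
      have q8 : t2 / K * Real.sqrt (t2 / K) ≤ aS z.1 ^ 2 * aS z.1 := by gcongr
      refine mul_le_mul_of_nonneg_right ((min_le_left _ _).trans ?_) (Nat.cast_nonneg n)
      rw [pow_succ]; exact mul_le_mul_of_nonneg_left q8 e0.le
  have a4 : PM n t (⋃ S ∈ T, BS S) ≤ ex (C * Real.log n - R) := by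
    refine (measure_biUnion_finset_le _ _).trans ((Finset.sum_le_card_nsmul _ _ _ a3).trans ?_)
    have b1 := card_small (n := n) y0 (min_le_right _ _) κ0.le
    have b2 : (T.card : ℝ≥0∞) ≤ ex (n * (y + κ / y)) := by
      rw [← ENNReal.ofReal_natCast]; exact ENNReal.ofReal_le_ofReal b1
    rw [nsmul_eq_mul]
    refine (mul_le_mul_left b2 _).trans ?_
    rw [← Conc.ex_add]
    refine Conc.ex_mono ?_
    have b3 : κ / y ≤ g / 2 := (div_le_iff₀ y0).2 ((min_le_right _ _).trans (by linarith))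
    have b4 : y ≤ g / 2 := min_le_left _ _
    have b5 := mul_le_mul_of_nonneg_left ((le_div_iff₀ (by linarith)).1 (t1.trans s5)) nt
    have b6 : (n : ℝ) * (y + κ / y) ≤ n * g := mul_le_mul_of_nonneg_left (by linarith) (by linarith)
    have b7 : c3 * ε ^ 18 * n * t2 ≤ c3 * ε ^ 18 * n * t := mul_le_mul_of_nonneg_left ht.1 (by positivity)
    have b8 : g * n = c3 * ε ^ 18 * n * t2 / 4 := by rw [hg]; ring
    have b9 := mul_nonneg (add_nonneg C1' C2') lg0
    rw [hC, hR]; linarith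
  have a5 : PM n t B ≤ ex ((C + 1) * Real.log n - R) := by
    refine (cover3 (fun z hz => ?_) a1 a2 a4).trans (ex_sum n7 n0 C R)
    by_cases p1 : Co K e t z.1
    · by_cases p2 : XM e z.1
      · refine Or.inr (Or.inr ?_)
        by_contra p3
        obtain ⟨q1, q2⟩ := hq _ p1
        refine hz.2 (hb n z.1 z.2 n0 ?_ fun S hS' => ?_)
        · have q3 : t2 / (2 * K) = t2 / K / 2 := by field_simp
          have q4 : aS z.1 ^ 2 ≤ aS z.1 := by nlinarith only [aS_nonneg z.1, q2]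
          linarith only [aS_nonneg z.1, q1, q3, q4]
        · by_contra p4
          exact p3 (mem_biUnion (Finset.mem_filter.2 ⟨Finset.mem_univ S, hS'⟩) ⟨hz.1, p1, p2, p4⟩)
      · exact Or.inr (Or.inl ⟨p1, p2⟩)
    · exact Or.inl p1
  have a6 := hK n t B nK ⟨t3, t4.trans s7⟩ mB fun z hz => by
    obtain ⟨a, p1, p2, -⟩ := hW.sp _ hz.1
    refine col_le p1 (fun i => abs_le.2 ⟨(p2 i).1, (p2 i).2.trans ?_⟩) _
    have b1 : ε ^ 4 ≤ 1 := pow_le_one₀ ε0.le (by linarith)
    rw [st]; linarith [mul_le_mul_of_nonneg_right b1 t0.le]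
  refine le_trans (measure_mono fun z hz => ?_) (((hA n t n0 t0).1 B mB).trans (a6.trans ?_))
  · obtain ⟨p1, x, p2, p3⟩ := hz
    simp only [one_smul, one_pow] at p2 p3
    exact ⟨x, ⟨p1, p3⟩, p2⟩
  · rw [Pt_eq t mB]
    refine (mul_le_mul_right (ENNReal.rpow_le_rpow a5 (by norm_num)) _).trans ?_
    rw [Conc.ex_rpow, ← Conc.ex_add]
    refine Conc.ex_mono ?_
    have b1 : t2 * Real.sqrt t2 ≤ t * Real.sqrt t := by gcongr <;> exact ht.1
    have b2 := mul_le_mul_of_nonneg_left b1 (Nat.cast_nonneg (α := ℝ) n)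
    rw [hR]; linarith

end Crest.Agent.T157.Kb

end
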