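import Crest.Agent.T157.KbMg_67
import Crest.Agent.T157.KbGood_27

/-!
# Row 157, part A2, section 2 (helper9): the first moment of the bad event
-/

set_option autoImplicit false

noncomputable section

namespace Crest.Agent.T157.Kb

open MeasureTheory Matrix Set Filter
open scoped ENNReal
open Crest.Agent.T157.E Crest.Agent.T157.Cond Crest.Agent.T157.Tap
open Crest.Agent.T157.Qe (Le bv St WS zz gg Mm)
open Crest.Agent.T157.Kp (Sl P5)
open Crest.Agent.T157.Conc (ex ex_mono)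
open Crest.Agent.T157.Kb.Gd27 (PM Pt_eq PM_x)

namespace Bg9

variable {n : ℕ}

lemma co_mono {K T e e' t : ℝ} {x : V n} (h : Co K e t x) (ht : 0 ≤ t) (hK : K ≤ T)
    (he : e ≤ e') : Co T e' t x := by
  have q0 := aS_nonneg x
  have q2 := sq_nonneg (aS x)
  exact ⟨h.q1.trans (mul_le_mul_of_nonneg_right hK q2), h.q2.trans
    (mul_le_mul_of_nonneg_right hK ht), h.a1.trans (mul_le_mul_of_nonneg_right hK q0),
    h.u1.trans (mul_le_mul_of_nonneg_right hK q0), h.d1.trans (mul_le_mul_of_nonneg_right hK q2),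
    h.r4.trans (mul_le_mul_of_nonneg_right he q2), h.r3.trans (mul_le_mul_of_nonneg_right he q2)⟩

lemma xm_mono {e e' : ℝ} {x : V n} (h : XM e x) (he : e ≤ e') : XM e' x := by
  have q3 := pow_nonneg (aS_nonneg x) 3
  exact ⟨h.p3, h.p4.trans (mul_le_mul_of_nonneg_right he q3),
    h.p6.trans (mul_le_mul_of_nonneg_right he q3), h.e8.trans (mul_le_mul_of_nonneg_right he q3)⟩

/-- (B1) with the explicit upper bound of `q` -/
def B1g : Prop := ∀ L C5 : ℝ, 0 < L → 10 ≤ C5 → 2000 * L ≤ C5 ^ 3 →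
  ∃ K ≥ (1 : ℝ), ∃ c > (0 : ℝ), ∃ C : ℕ, ∀ (n : ℕ) (t e : ℝ), C ≤ n → 1 / (n : ℝ) ≤ t →
    e ∈ Set.Ioc (0 : ℝ) 1 → Real.sqrt t ≤ c * e ^ 2 →
    Px t {x : V n | ¬ (Co K e t x ∧ aS x ^ 2 ≤ C5 ^ 2 * t)} ≤
      ex (C * Real.log n - L * n * (t * Real.sqrt t))

lemma pw {η : ℝ} (h0 : 0 < η) (h1 : η ≤ 1) {a b : ℕ} (h : b + 1 ≤ a) : η ^ a ≤ η * η ^ b := by
  rw [← pow_succ']; exact pow_le_pow_of_le_one h0.le h1 h

lemma pw' {η c : ℝ} (h0 : 0 < η) (h1 : η ≤ 1) (hc : η ≤ c) {a b : ℕ} (h : b + 1 ≤ a) :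
    η ^ a ≤ c * η ^ b :=
  (pw h0 h1 h).trans (mul_le_mul_of_nonneg_right hc (pow_nonneg h0.le _))

lemma lev {η c X H : ℝ} (h0 : 0 < η) (h1 : η ≤ 1) (hc : 20 * η ≤ c) (X0 : 0 ≤ X) {a b : ℕ}
    (h : b + 1 ≤ a) (hH : H ≤ η ^ a * X) : 20 * H ≤ c * η ^ b * X := by
  have h2 := mul_le_mul_of_nonneg_right (pw h0 h1 h) X0
  have h3 := mul_le_mul_of_nonneg_right hc (mul_nonneg (pow_nonneg h0.le b) X0)
  nlinarith

lemma frac {q : ℝ} (q0 : 0 ≤ q) (q1 : q ≤ 1 / 10) :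
    q ^ 2 ≤ q ^ 2 / (1 - q) ∧ q ^ 2 / (1 - q) ≤ 9 / 8 * q ^ 2 := by
  have h : 0 < 1 - q := by linarith
  have h2 := sq_nonneg q
  constructor
  · rw [le_div_iff₀ h]; nlinarith [mul_nonneg h2 q0]
  · rw [div_le_iff₀ h]; nlinarith [mul_nonneg h2 (sub_nonneg.2 q1)]

set_option maxHeartbeats 4000000 in
theorem base_of (hM : MargStmt) (h1 : B1g) (h1s : B1sStmt) (h2 : B2Stmt) (h3 : B3Stmt)
    (h4 : CntStmt) (h5 : CntS) (h6 : PosStmt) (hAt : AtStmt) (h9 : HaStmt) : BaseGlue := by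
  intro _ h8 ⟨C1, h10⟩ Cw hCw L hL
  obtain ⟨K, hK, c1, hc1, N1, h1⟩ := h1 (10 * L) (L / 50) (by linarith) (by linarith)
    (by nlinarith [mul_le_mul hL hL (by norm_num) (by linarith : (0 : ℝ) ≤ L)])
  obtain ⟨c2, hc2, N2, h2⟩ := h2 K hK
  obtain ⟨c3, hc3, N3, h3⟩ := h3 K hK
  obtain ⟨c4, hc4, N4, h4⟩ := h4 K hK
  obtain ⟨c5, hc5, N5, h5⟩ := h5 K hK
  obtain ⟨c6, hc6, N6, h6⟩ := h6 K hK Cw hCw
  obtain ⟨C8, -, c8, hc8, N8, h8⟩ := h8 K hK
  obtain ⟨c9, hc9, N9, h9⟩ := h9 K hK Cw hCw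
  obtain ⟨c10, hc10, N10, h10⟩ := h10 K hK
  obtain ⟨c11, hc11, N11, h11⟩ := h1s K hK
  refine ⟨max (max (max K C8) (max (10 * C1) N5)) (max ((10 + N4) / c4) (K ^ 2 * (10 + N5) / c5)),
    fun T hT => ?_⟩
  simp only [ge_iff_le, max_le_iff] at hT
  obtain ⟨⟨⟨T1, T2⟩, T3, T4⟩, T5, T6⟩ := hT
  rw [div_le_iff₀ hc4] at T5
  rw [div_le_iff₀ hc5] at T6
  obtain ⟨m, m0, m1', m2, m3, m4, m5, m6, m8, m9, m10, m11, mK⟩ : ∃ m > (0 : ℝ), m ≤ c1 ∧ m ≤ c2 ∧
      m ≤ c3 ∧ m ≤ c4 ∧ m ≤ c5 ∧ m ≤ c6 ∧ m ≤ c8 ∧ m ≤ c9 ∧ m ≤ c10 ∧ m ≤ c11 ∧ m ≤ 1 / (5 * K) :=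
    ⟨min (min (min (min c1 c2) (min c3 c4)) (min (min c5 c6) (min c8 c9)))
      (min (min c10 c11) (1 / (5 * K))), by positivity, by
      simp only [min_le_iff, le_refl, true_or, or_true, and_self]⟩
  obtain ⟨Cs, hCs⟩ : ∃ Cs : ℕ, Cs = N1 + N2 + N3 + N4 + N5 + N6 + N8 + N9 + N10 + N11 := ⟨_, rfl⟩
  refine ⟨m / 20, by positivity, Cs + 11 + ⌈Real.exp N4⌉₊, fun n t η E H S0 z hW => ?_⟩
  have n1 := z.n1
  have n0 : 0 < n := by omega
  have nR : (1 : ℝ) ≤ n := by exact_mod_cast n0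
  have t0 : 0 < t := lt_of_lt_of_le (by positivity) z.t1
  have e0 := z.e0
  have K0 : 0 ≤ K := zero_le_one.trans hK
  have em : 20 * η ≤ m := by linarith only [z.e1]
  have eK : 100 * K * η ≤ 1 := by
    have := em.trans mK
    rw [le_div_iff₀ (by positivity)] at this; linarith
  have e2 : η ≤ 1 / 100 := by nlinarith only [eK, mul_le_mul_of_nonneg_right hK e0.le]
  have e1 : η ≤ 1 := by linarith
  have em' : η ≤ m := by linarith
  have lg0 : 0 ≤ Real.log n := Real.log_nonneg nR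
  have s0 := Real.sqrt_nonneg t
  have ss := Real.mul_self_sqrt t0.le
  have s1 : √t ≤ η := z.t2.trans (by simpa using pw e0 e1 (a := 63) (b := 0) (by norm_num))
  have tη : t ≤ η := by nlinarith only [ss, s1, s0, e1, mul_le_mul s1 s1 s0 e0.le, e0]
  have HN : ((Cs : ℝ) + 1) * Real.log n ≤ H := by
    refine le_trans (mul_le_mul_of_nonneg_right ?_ lg0) z.H0
    push_cast; linarith [Nat.cast_nonneg (α := ℝ) ⌈Real.exp N4⌉₊]
  have Hl : Real.log n ≤ H := by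
    linarith only [HN, mul_nonneg (Nat.cast_nonneg (α := ℝ) Cs) lg0]
  have H0 : 0 ≤ H := lg0.trans Hl
  have l4 : (N4 : ℝ) ≤ Real.log n := by
    rw [Real.le_log_iff_exp_le (by linarith)]
    exact (Nat.le_ceil _).trans (by exact_mod_cast (by omega))
  have lt1 : 1 ≤ Real.log (1 / t) := by
    rw [Real.le_log_iff_exp_le (by positivity), le_div_iff₀ t0]
    nlinarith only [Real.exp_one_lt_d9, Real.exp_pos 1, tη, e2, t0]
  have nt0 : 0 ≤ (n : ℝ) * t := by positivity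
  have nts : 0 ≤ (n : ℝ) * (t * √t) := by positivity
  have p30 : η ^ 30 ≤ 1 / 10 :=
    (by simpa using pw e0 e1 (a := 30) (b := 0) (by norm_num) : η ^ 30 ≤ η).trans (by linarith)
  have p3 : η ^ 3 ≤ η := by simpa using pw e0 e1 (a := 3) (b := 0) (by norm_num)
  have q30 : 0 < η ^ 30 := by positivity
  have q3 : 0 < η ^ 3 := by positivity
  have hWK : WT K Cw (η ^ 3) E t S0 := fun q hq a b => hW q hq
    (a.trans (mul_le_mul_of_nonneg_right T1 (sq_nonneg _)))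
    (b.trans (mul_le_mul_of_nonneg_right T1 t0.le))
  have mS : MeasurableSet S0 := (hWK √t (Real.sqrt_pos.2 t0) 
    (by rw [Real.sq_sqrt t0.le]; exact le_mul_of_one_le_left t0.le hK)
    (by rw [Real.sq_sqrt t0.le]; exact le_mul_of_one_le_left t0.le hK)).1.meas
  have mS' : MeasurableSet {z : V n × Mx n | z.2 ∈ S0} := measurable_snd mS
  have mf : Measurable (Prod.fst : V n × Mx n → V n) := measurable_fst
  have ms : Measurable (Prod.snd : V n × Mx n → Mx n) := measurable_snd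
  have mi : Measurable (fun x : V n => x) := measurable_id
  have mCo : MeasurableSet {x : V n | Co K (η ^ 30) t x} := measSet_Co K _ t mi
  have mXM : MeasurableSet {x : V n | XM (η ^ 30) x} := measSet_XM _ mi
  have mC : MeasurableSet {z : V n × Mx n | ((Sl (lam T t) z.1).card : ℝ) ≤
      η ^ 30 * aS z.1 ^ 3 * n} := measurableSet_le (Mg67.m_card _ mf) (by fun_prop)
  obtain ⟨b, hb⟩ : ∃ b, b = ex (Cs * Real.log n - 10 * H) := ⟨_, rfl⟩
  have lv : ∀ (N : ℕ) (R : ℝ), N ≤ Cs → R ≤ N * Real.log n - 10 * H → ex R ≤ b := fun N R a r => by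
    rw [hb]
    refine ex_mono (r.trans (sub_le_sub_right (mul_le_mul_of_nonneg_right ?_ lg0) _))
    exact_mod_cast a
  have a27 : (η ^ 3) ^ 9 = η ^ 27 := by ring
  have a30 : (η ^ 3) ^ 10 = η ^ 30 := by ring
  have a54 : (η ^ 3) ^ 18 = η ^ 54 := by ring
  have a60 : (η ^ 30) ^ 2 = η ^ 60 := by ring
  have a6 : (η ^ 3) ^ 2 = η ^ 6 := by ring
  have a63 : (η ^ 3) ^ 21 = η ^ 63 := by ring
  have H2 : H ≤ η ^ 66 * (n * t) := by linarith only [z.H2]
  have E2 : E ≤ η ^ 57 * (n * t) := by linarith only [z.E1]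
  have qs : ∀ x : V n, Co K (η ^ 30) t x → aS x ≤ 1 / 10 := fun x h => by
    have h1 := h.q2
    have h2 := mul_le_mul_of_nonneg_left tη K0
    nlinarith only [aS_nonneg x, h1, h2, eK]
  have sq2 : ∀ c, m ≤ c → √t ≤ c ^ 2 * (η ^ 3) ^ 9 := fun c hc => by
    rw [a27]
    have h1 := pw' e0 e1 (em'.trans hc) (a := 63) (b := 28) (by norm_num)
    have h2 := pw' e0 e1 (em'.trans hc) (a := 28) (b := 27) (by norm_num)
    have h3 := mul_le_mul_of_nonneg_left h2 (m0.le.trans hc)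
    linarith only [z.t2, h1, h3]
  have e27 : ∀ c, m ≤ c → η ^ 30 ≤ c * (η ^ 3) ^ 9 := fun c hc => by
    rw [a27]; exact pw' e0 e1 (em'.trans hc) (by norm_num)
  have lp : ∀ c, m ≤ c → E / 2 - c * (η ^ 3) ^ 18 * n * t ≤ -(10 * H) := fun c hc => by
    rw [a54]
    have h1 := lev e0 e1 (em.trans hc) nt0 (b := 54) (by norm_num) H2
    have h2 := lev e0 e1 (em.trans hc) nt0 (b := 54) (by norm_num) E2
    linarith only [z.E0, h1, h2, H0]
  have nK : K ≤ (n * η ^ 3) ^ 2 * t := T1.trans z.n2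
  -- the events
  have b1 : PM n t {z | z.1 ∈ {x : V n | ¬ (Co K (η ^ 30) t x ∧ aS x ^ 2 ≤ (L / 50) ^ 2 * t)}} ≤ b := by
    refine (PM_x hM n0 t0 (mCo.inter (measurableSet_le (f := fun x : V n => aS x ^ 2) (by fun_prop)
      measurable_const)).compl).trans
      ((h1 n t _ (by omega) z.t1 ⟨q30, by linarith only [p30]⟩ ?_).trans (lv N1 _ (by omega) ?_))
    · rw [a60]; exact z.t2.trans (pw' e0 e1 (em'.trans m1') (by norm_num))
    · linarith only [z.H1]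
  have b2 : PM n t {z | z.1 ∈ {x : V n | Co K (η ^ 30) t x ∧ ¬ XM (η ^ 30) x}} ≤ b := by
    refine (PM_x hM n0 t0 (mCo.inter mXM.compl)).trans
      ((h2 n t _ (by omega) z.t1 ⟨q30, p30⟩ ?_).trans (lv N2 _ (by omega) ?_))
    · exact z.t2.trans (pw' e0 e1 (em'.trans m2) (by norm_num))
    · have := lev e0 e1 (em.trans m2) nt0 (b := 60) (by norm_num) H2
      rw [a60]; linarith only [this, H0]
  have b3 : PM n t {z | z.1 ∈ {x : V n | Co K (η ^ 30) t x ∧ ¬ B3 (η ^ 30) x}} ≤ b := by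
    refine (PM_x hM n0 t0 (mCo.inter (Mg67.m_B3 _ mi).compl)).trans
      ((h3 n t _ _ (by omega) z.t1 p30 ⟨q30, by linarith only [p30]⟩ ?_).trans (lv N3 _ (by omega) ?_))
    · exact z.t2.trans (pw' e0 e1 (em'.trans m3) (by norm_num))
    · have := lev e0 e1 (em.trans m3) nt0 (b := 30) (by norm_num) H2
      linarith only [this, H0]
  have b4 : PM n t {z | z.1 ∈ {x : V n | Co K (η ^ 30) t x ∧
      m1 n T H t ≤ (Sl (Real.log n ^ 2) x).card}} ≤ b := by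
    have l0 : 0 < Real.log n := Real.log_pos (by exact_mod_cast (by omega : 1 < n))
    refine (PM_x hM n0 t0 (mCo.inter (measurableSet_le measurable_const (Mg67.m_card _ mi)))).trans
      ((h4 n t _ (Real.log n ^ 2) (m1 n T H t) (by omega) z.t1 p30 (s1.trans (em'.trans m4))
        (by linarith only [mul_le_mul_of_nonneg_right l4 lg0])).trans (lv N4 _ (by omega) ?_))
    have e : c4 * Real.log n ^ 2 * m1 n T H t = T * c4 * (H + n * t ^ 2 + Real.log n) := by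
      unfold m1; field_simp
    have h0 : 0 ≤ (n : ℝ) * t ^ 2 := by positivity
    have := mul_le_mul_of_nonneg_right T5 (by positivity : 0 ≤ H + n * t ^ 2 + Real.log n)
    have N0 := Nat.cast_nonneg (α := ℝ) N4
    rw [e]
    linarith only [mul_nonneg N0 H0, mul_nonneg N0 lg0, this, h0, lg0]
  have b5 : PM n t {z | z.1 ∈ {x : V n | Co K (η ^ 30) t x ∧
      η ^ 30 * (t * √t / K ^ 2) * n ≤ (Sl (lam T t) x).card}} ≤ b := by
    refine (PM_x hM n0 t0 (mCo.inter (measurableSet_le measurable_const (Mg67.m_card _ mi)))).trans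
      ((h5 n t _ (lam T t) (η ^ 30 * (t * √t / K ^ 2) * n) (by omega) z.t1 p30
        (s1.trans (em'.trans m5)) (mul_le_mul_of_nonneg_right T4 (zero_le_one.trans lt1))).trans
        (lv N5 _ (by omega) ?_))
    obtain ⟨X, hX⟩ : ∃ X, X = η ^ 30 * (n * (t * √t)) := ⟨_, rfl⟩
    have X0 : 0 ≤ X := by rw [hX]; positivity
    have N0 := Nat.cast_nonneg (α := ℝ) N5
    have e : c5 * lam T t * (η ^ 30 * (t * √t / K ^ 2) * n) =
        T * c5 / K ^ 2 * (Real.log (1 / t) * X) := by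
      unfold lam; rw [hX]; field_simp
    have k1 : (10 + N5 : ℝ) ≤ T * c5 / K ^ 2 := by
      rw [le_div_iff₀ (by positivity)]; linarith only [T6]
    have k2 : H ≤ Real.log (1 / t) * X := by
      have := mul_le_mul_of_nonneg_right (pow_le_pow_of_le_one e0.le e1 (by norm_num : 30 ≤ 33))
        (mul_nonneg (zero_le_one.trans lt1) nts)
      rw [hX]; linarith only [z.H3, this]
    have k3 : (n : ℝ) * t ^ 2 ≤ Real.log (1 / t) * X := by
      have h1 := mul_le_mul_of_nonneg_right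
        (z.t2.trans (pow_le_pow_of_le_one e0.le e1 (by norm_num : 30 ≤ 63))) nts
      have h2 : √t * (n * (t * √t)) = n * t ^ 2 := by
        rw [show √t * (n * (t * √t)) = n * t * (√t * √t) by ring, ss]; ring
      have h3 := mul_le_mul_of_nonneg_right lt1 X0
      linarith only [h1, h2, h3, hX]
    have k4 := mul_le_mul_of_nonneg_right k1 (H0.trans k2)
    have k5 := mul_le_mul_of_nonneg_left k3 N0
    rw [e]; linarith only [k2, k4, k5]
  have bp : ∀ (k : ℝ) (d0 : V n → ℝ) (Q : V n × Mx n → Prop), MeasurableSet {z | Q z} → 1 ≤ k →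
      k ≤ 5 / 4 → (∀ x, aS x ≤ 1 / 10 → (2 * k * (k - 1) + 2 * η ^ 3) * aS x ^ 2 ≤ d0 x ∧
        d0 x ≤ 9 / 8 * aS x ^ 2) →
      (∀ z : V n × Mx n, Le z.2 (Mm (Dk k (d0 z.1) (Sl (lam T t) z.1) z.1) (2 * k * aS z.1) (ee z.1))
        → Q z) →
      PM n t {z | z.2 ∈ S0 ∧ Co K (η ^ 30) t z.1 ∧ XM (η ^ 30) z.1 ∧
        ((Sl (lam T t) z.1).card : ℝ) ≤ η ^ 30 * aS z.1 ^ 3 * n ∧ ¬ Q z} ≤ b := by
    intro k d0 Q mQ k1 k2 hd hQ
    have mB : MeasurableSet {z : V n × Mx n | z.2 ∈ S0 ∧ Co K (η ^ 30) t z.1 ∧ XM (η ^ 30) z.1 ∧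
        ((Sl (lam T t) z.1).card : ℝ) ≤ η ^ 30 * aS z.1 ^ 3 * n ∧ ¬ Q z} :=
      mS'.inter ((mf mCo).inter ((mf mXM).inter (mC.inter mQ.compl)))
    rw [← Pt_eq t mB]
    refine (h6 n t (η ^ 3) E S0 _ (fun _ => k) d0 (fun x => Sl (lam T t) x) (by omega) z.t1
      ⟨q3, p3.trans (em'.trans m6)⟩ (sq2 _ m6) nK z.E0 mB (fun q hq a b => (hWK q hq a b).1)
      fun z ⟨a, b, c, d, e⟩ => ⟨a, co_mono b t0.le le_rfl (e27 _ m6), xm_mono c (e27 _ m6),
        ⟨k1, k2, (hd _ (qs _ b)).1, (hd _ (qs _ b)).2, d.trans ?_⟩, fun h => e (hQ z h)⟩).trans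
      (lv N6 _ (by omega) (by linarith only [lp _ m6]))
    exact mul_le_mul_of_nonneg_right (mul_le_mul_of_nonneg_right (e27 _ m6)
      (pow_nonneg (aS_nonneg _) 3)) (Nat.cast_nonneg _)
  have b6 := bp 1 (fun x => aS x ^ 2 / (1 - aS x) - (1 - 2 * η ^ 3) * aS x ^ 2)
    (fun z => Pos ((1 - 2 * η ^ 3) * aS z.1 ^ 2) (AT (Sl (lam T t) z.1) z.1 z.2))
    (Mg67.m_Pos (by fun_prop) (Mg67.m_AT _ mf ms)) le_rfl (by norm_num)
    (fun x hx => by
      obtain ⟨f1, f2⟩ := frac (aS_nonneg x) hx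
      have := mul_nonneg (by linarith only [p3, e2] : 0 ≤ 1 - 2 * η ^ 3) (sq_nonneg (aS x))
      constructor <;> linarith only [this, f1, f2])
    fun z h => (hAt n _ z.1 z.2 n0).1 _ h
  have b7 := bp (5 / 4) (fun x => aS x ^ 2 / (1 - aS x))
    (fun z => P5 (Sl (lam T t) z.1) z.1 z.2) (Mg67.m_P5 _ mf ms) (by norm_num) le_rfl
    (fun x hx => by
      obtain ⟨f1, f2⟩ := frac (aS_nonneg x) hx
      have := mul_nonneg (by linarith only [p3, e2] : 0 ≤ 3 / 8 - 2 * η ^ 3) (sq_nonneg (aS x))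
      constructor <;> linarith only [this, f1, f2])
    fun z h => (hAt n _ z.1 z.2 n0).2.1 h
  have b8 : PM n t {z : V n × Mx n | Co K (η ^ 30) t z.1 ∧ XM (η ^ 30) z.1 ∧
      ¬ Col T (η ^ 27) z.1 z.2} ≤ b := by
    have mB : MeasurableSet {z : V n × Mx n | Co K (η ^ 30) t z.1 ∧ XM (η ^ 30) z.1 ∧
        ¬ Col T (η ^ 27) z.1 z.2} := (mf mCo).inter ((mf mXM).inter (Mg67.m_Col _ _ mf ms).compl)
    have := h8 T T2 n t (η ^ 3) (by omega) z.t1 ⟨q3, p3.trans (em'.trans m8)⟩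
      (by rw [a63]; exact z.t2)
    rw [a27, a30] at this
    rw [← Pt_eq t mB]
    exact this.trans (lv N8 _ (by omega) (by linarith only [lp _ m8, z.E0]))
  have b9 : PM n t {z : V n × Mx n | z.2 ∈ S0 ∧ Co K (η ^ 30) t z.1 ∧ XM (η ^ 30) z.1 ∧
      ¬ HA (η ^ 3) η z.1 z.2} ≤ b := by
    have mB : MeasurableSet {z : V n × Mx n | z.2 ∈ S0 ∧ Co K (η ^ 30) t z.1 ∧ XM (η ^ 30) z.1 ∧
        ¬ HA (η ^ 3) η z.1 z.2} :=
      mS'.inter ((mf mCo).inter ((mf mXM).inter (Mg67.m_HA _ _ mf ms).compl))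
    rw [← Pt_eq t mB]
    exact (h9 n t (η ^ 3) η E S0 _ (by omega) z.t1 q3 e0 e1
      (pw' e0 e1 (em'.trans m9) (by norm_num)) (sq2 _ m9) nK z.E0 mB hWK
      fun z ⟨a, b, c, d⟩ => ⟨a, co_mono b t0.le le_rfl (e27 _ m9), xm_mono c (e27 _ m9), d⟩).trans
      (lv N9 _ (by omega) (by linarith only [lp _ m9]))
  have b10 : PM n t {z : V n × Mx n | z.2 ∈ S0 ∧ Co K (η ^ 30) t z.1 ∧
      ¬ TR (C1 * (10 * H)) z.1 z.2} ≤ b := by
    have mB : MeasurableSet {z : V n × Mx n | z.2 ∈ S0 ∧ Co K (η ^ 30) t z.1 ∧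
        ¬ TR (C1 * (10 * H)) z.1 z.2} :=
      mS'.inter ((mf mCo).inter (Mg67.m_TR _ mf ms).compl)
    rw [← Pt_eq t mB]
    exact (h10 n t (η ^ 3) (η ^ 30) E Cw (10 * H) S0 (by omega) z.t1 ⟨q3, p3.trans e1⟩
      (s1.trans (em'.trans m10)) ((pow_le_pow_left₀ K0 T1 3).trans z.n3)
      (by linarith only [Hl, H0]) hWK).trans (lv N10 _ (by omega) le_rfl)
  -- the cover
  have mG : MeasurableSet {z : V n × Mx n | G1 L T η H t z.1 z.2} := Mg67.m_G1 _ _ _ _ _ mf ms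
  have mSh : MeasurableSet {x : V n | Sh (η ^ 3) t x} := Mg67.m_Sh _ _ mi
  have fin : 11 * b ≤ ex (-(9 * H)) := by
    have := ex_sum (k := 11) (n := n) (by omega) n0 Cs (10 * H)
    rw [hb]
    exact (by exact_mod_cast this : 11 * ex (Cs * Real.log n - 10 * H) ≤ _).trans
      (ex_mono (by push_cast; linarith only [HN]))
  have un : ∀ {A B : Set (V n × Mx n)} {j : ℝ≥0∞}, PM n t A ≤ j * b → PM n t B ≤ b →
      PM n t (A ∪ B) ≤ (j + 1) * b := fun hA hB =>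
    (measure_union_le _ _).trans ((add_le_add hA hB).trans (by rw [add_mul, one_mul]))
  have u10 := un (un (un (un (un (un (un (un (un (j := 1) (b1.trans (by rw [one_mul])) b2) b3) b4)
    b5) b6) b7) b8) b9) b10
  have cov : PM n t {z : V n × Mx n | z.2 ∈ S0 ∧ (¬ G1 L T η H t z.1 z.2 ∨
      ¬ Co K (η ^ 30) t z.1)} ≤ 10 * b := by
    refine (measure_mono fun z hz => ?_).trans (u10.trans (by norm_num))
    by_contra hc
    simp only [mem_union, mem_setOf_eq, not_or, not_not] at hc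
    obtain ⟨⟨⟨⟨⟨⟨⟨⟨⟨⟨g1, g1'⟩, g2⟩, g3⟩, g4⟩, g5⟩, g6⟩, g7⟩, g8⟩, g9⟩, g10⟩ := hc
    simp only [not_and, not_not, not_le] at g2 g3 g4 g5 g6 g7 g8 g9 g10
    obtain ⟨hS, hz⟩ := hz
    have c2 : ((Sl (lam T t) z.1).card : ℝ) ≤ η ^ 30 * aS z.1 ^ 3 * n := by
      refine (g5 g1).le.trans (mul_le_mul_of_nonneg_right (mul_le_mul_of_nonneg_left ?_ q30.le)
        (Nat.cast_nonneg _))
      have q0 := aS_nonneg z.1
      have r1 := g1.q1
      have r2 : √t ≤ K * aS z.1 := Real.sqrt_le_iff.2 ⟨by positivity, by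
        linarith only [r1, mul_le_mul_of_nonneg_right hK (mul_nonneg K0 (sq_nonneg (aS z.1)))]⟩
      rw [div_le_iff₀ (by positivity)]
      linarith only [mul_le_mul r1 r2 s0 (by positivity)]
    refine hz.elim (fun h => h ⟨co_mono g1 t0.le T1 le_rfl, g1', g2 g1, g3 g1, (g4 g1).le, c2,
      g6 hS g1 (g2 g1) c2, g7 hS g1 (g2 g1) c2, g8 g1 (g2 g1), g9 hS g1 (g2 g1),
      le_trans (g10 hS g1) ?_⟩) fun h => h g1
    linarith only [mul_le_mul_of_nonneg_right T3 H0]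
  constructor
  · refine (Pt_eq t (mS'.inter mG.compl)).le.trans ?_
    refine (measure_mono fun z hz => ?_).trans (cov.trans (le_trans ?_ fin))
    · exact ⟨hz.1, Or.inl hz.2⟩
    · gcongr; norm_num
  · intro hH
    have b11 : PM n t {z | z.1 ∈ {x : V n | Co K (η ^ 30) t x ∧ ¬ Sh (η ^ 3) t x}} ≤ b := by
      refine (PM_x hM n0 t0 (mCo.inter mSh.compl)).trans
        ((h11 n t _ (η ^ 3) (by omega) z.t1 ⟨q3, p3.trans e1⟩
          (pw' e0 e1 (em'.trans m11) (by norm_num))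
          (z.t2.trans (pw' e0 e1 (em'.trans m11) (by norm_num)))).trans (lv N11 _ (by omega) ?_))
      have := lev e0 e1 (em.trans m11) nts (a := 9) (b := 6) (by norm_num) (H := H)
        (by linarith only [hH])
      rw [a6]; linarith only [this, H0]
    refine (Pt_eq t (mS'.inter (mG.inter (mf mSh)).compl)).le.trans ?_
    refine (measure_mono fun z hz => ?_).trans ((un cov b11).trans (le_trans (by norm_num) fin))
    by_cases hC : Co K (η ^ 30) t z.1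
    · by_cases hG : G1 L T η H t z.1 z.2
      · exact Or.inr ⟨hC, fun h => hz.2 ⟨hG, h⟩⟩
      · exact Or.inl ⟨hz.1, Or.inl hG⟩
    · exact Or.inl ⟨hz.1, Or.inr hC⟩

end Bg9

end Crest.Agent.T157.Kb

end
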