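import Crest.Agent.T157.O0All_21
import Crest.Agent.T157.KbBg_9
import Crest.Agent.T157.KbAll_5
import Crest.Agent.T157.FinF_88

/-!
# Row 157, block A2: the joint planted theorem, unconditional (assembly, helper1)
-/

set_option autoImplicit false

namespace Crest.Agent.T157

theorem Kb.baseGlue1 : Kb.BaseGlue :=
  Kb.Bg9.base_of Kb.margStmt (fun _ _ a b c => Kb.All.b1G a b c) Kb.All.b1s Kb.All.b2 Kb.All.b3
    Kb.All.cnt Kb.All.cntS Kb.All.pos Kb.atStmt (Kb.haStmt Kb.margStmt Kb.All.all Kb.xdStmt)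

/-- the joint planted theorem -/
theorem O0.thm1 : O0.Thm := O0.thm_of_base Kb.baseGlue1

theorem TopZ.jIn1 : TopZ.JIn := TopZ.jIn O0.thm1

theorem TopZ.r29_1 : Top.R29 := TopZ.r29_thm O0.thm1

end Crest.Agent.T157
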