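import Crest.Agent.T157.ConcM_16

/-!
# Row 157, part E (helper16): Gaussian logarithmic Sobolev and Poincare inequalities on `gv ι`

`gr2 F x = ∑ᵢ (∂ᵢ F x)²` (through `fderiv`; Lipschitz functions are a.e. differentiable).
* `lsi_exp` : `Ent(e^g) ≤ ½ E[gr2 g e^g]` for Lipschitz `g` (Bobkov-Ledoux argument);
* `lsi_sq` : `Ent(f²) ≤ 2 E gr2 f`; `poincare` : `Var f ≤ E gr2 f`;
* `_partial` versions: Lipschitz plus coordinate derivatives, no Frechet derivative needed.
-/

set_option autoImplicit false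

noncomputable section

namespace Crest.Agent.T157.Conc

open MeasureTheory ProbabilityTheory Set Filter Topology
open scoped ENNReal NNReal

variable {ι : Type*} [Fintype ι] [DecidableEq ι]

/-- gradient vector -/
def grad (F : (ι → ℝ) → ℝ) (x : ι → ℝ) : ι → ℝ := fun i => fderiv ℝ F x (Pi.single i 1)

/-- squared Euclidean norm of the gradient -/
def gr2 (F : (ι → ℝ) → ℝ) (x : ι → ℝ) : ℝ := ∑ i, grad F x i ^ 2

lemma gr2_eq (F : (ι → ℝ) → ℝ) (x : ι → ℝ) : gr2 F x = en (grad F x) ^ 2 := (en_sq _).symm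

lemma gr2_nonneg (F : (ι → ℝ) → ℝ) (x : ι → ℝ) : 0 ≤ gr2 F x :=
  Finset.sum_nonneg fun _ _ => sq_nonneg _

@[fun_prop] lemma measurable_gr2 (F : (ι → ℝ) → ℝ) : Measurable (gr2 F) :=
  Finset.measurable_sum _ fun i _ => (measurable_fderiv_apply_const ℝ F (Pi.single i 1)).pow_const 2

lemma fderiv_eq_dot (F : (ι → ℝ) → ℝ) (x v : ι → ℝ) :
    fderiv ℝ F x v = ∑ i, grad F x i * v i := by
  conv_lhs => rw [show v = ∑ i, v i • (Pi.single i (1:ℝ) : ι → ℝ) by
    ext j; simp [Finset.sum_apply, Pi.single_apply]]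
  simp only [map_sum, map_smul, smul_eq_mul, grad, mul_comm]

omit [DecidableEq ι] in
lemma norm_le_en (x : ι → ℝ) : ‖x‖ ≤ en x :=
  (pi_norm_le_iff_of_nonneg (en_nonneg x)).2 fun i => abs_le_en x i

omit [DecidableEq ι] in
lemma en_le_card_norm (x : ι → ℝ) : en x ≤ Fintype.card ι * ‖x‖ := by
  refine (en_le_sum x).trans ?_
  refine (Finset.sum_le_sum fun i _ => norm_le_pi_norm x i).trans (le_of_eq ?_)
  simp

theorem pi_wd {J : Type*} [Fintype J] {α : J → Type*} [∀ j, MeasurableSpace (α j)]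
    (μ : ∀ j, Measure (α j)) [∀ j, SigmaFinite (μ j)] (f : ∀ j, α j → ℝ)
    (h0 : ∀ j x, 0 ≤ f j x) (hi : ∀ j, Integrable (f j) (μ j))
    [∀ j, SigmaFinite ((μ j).withDensity fun x => ENNReal.ofReal (f j x))] :
    Measure.pi (fun j => (μ j).withDensity fun x => ENNReal.ofReal (f j x)) =
      (Measure.pi μ).withDensity fun y => ENNReal.ofReal (∏ j, f j (y j)) := by
  refine Measure.pi_eq fun s hs => ?_
  rw [withDensity_apply _ (MeasurableSet.univ_pi hs), ← lintegral_indicator
    (MeasurableSet.univ_pi hs)]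
  have h1 : ∀ y : ∀ j, α j, (Set.pi Set.univ s).indicator
      (fun y => ENNReal.ofReal (∏ j, f j (y j))) y =
      ENNReal.ofReal (∏ j, (s j).indicator (f j) (y j)) := by
    intro y
    by_cases hy : y ∈ Set.pi Set.univ s
    · rw [Set.indicator_of_mem hy]
      congr 1
      exact Finset.prod_congr rfl fun j _ => (Set.indicator_of_mem (hy j trivial) _).symm
    · rw [Set.indicator_of_notMem hy]
      simp only [Set.mem_pi, Set.mem_univ, forall_const, not_forall] at hy
      obtain ⟨j, hj⟩ := hy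
      rw [Finset.prod_eq_zero (Finset.mem_univ j) (Set.indicator_of_notMem hj _),
        ENNReal.ofReal_zero]
  simp_rw [h1]
  have h2 : ∀ j x, 0 ≤ (s j).indicator (f j) x := fun j x =>
    Set.indicator_nonneg (fun x _ => h0 j x) x
  rw [← ofReal_integral_eq_lintegral_ofReal
    (Integrable.fintype_prod_dep fun j => (hi j).indicator (hs j))
    (ae_of_all _ fun y => Finset.prod_nonneg fun j _ => h2 j _), integral_fintype_prod_eq_prod,
    ENNReal.ofReal_prod_of_nonneg fun j _ => integral_nonneg (h2 j)]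
  refine Finset.prod_congr rfl fun j _ => ?_
  rw [withDensity_apply _ (hs j), integral_indicator (hs j),
    ofReal_integral_eq_lintegral_ofReal (hi j).integrableOn (ae_of_all _ (h0 j))]

omit [DecidableEq ι] in
lemma gv_eq_withDensity : gv ι = (volume : Measure (ι → ℝ)).withDensity
    fun y => ENNReal.ofReal (∏ j, gaussianPDFReal 0 1 (y j)) := by
  have e : gaussianReal 0 1 =
      (volume : Measure ℝ).withDensity fun x => ENNReal.ofReal (gaussianPDFReal 0 1 x) :=
    gaussianReal_of_var_ne_zero _ (by norm_num)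
  have : ∀ _ : ι, SigmaFinite ((volume : Measure ℝ).withDensity
      fun x => ENNReal.ofReal (gaussianPDFReal 0 1 x)) := fun _ => by rw [← e]; infer_instance
  rw [gv, e]
  exact pi_wd (fun _ => volume) (fun _ => gaussianPDFReal 0 1)
    (fun _ => gaussianPDFReal_nonneg _ _) fun _ => integrable_gaussianPDFReal _ _

omit [DecidableEq ι] in
lemma gv_ac : gv ι ≪ (volume : Measure (ι → ℝ)) := by
  rw [gv_eq_withDensity]; exact withDensity_absolutelyContinuous _ _

omit [DecidableEq ι] in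
lemma ELip.ae_differentiable {L : ℝ} {F : (ι → ℝ) → ℝ} (h : ELip L F) :
    ∀ᵐ x ∂gv ι, DifferentiableAt ℝ F x := by
  have hl : LipschitzWith (Real.toNNReal (|L| * Fintype.card ι)) F :=
    LipschitzWith.of_dist_le' fun x y => by
      rw [Real.dist_eq, dist_eq_norm, mul_assoc]
      exact (h.abs x y).trans (mul_le_mul_of_nonneg_left (en_le_card_norm _) (abs_nonneg _))
  exact gv_ac.ae_le hl.ae_differentiableAt

omit [DecidableEq ι] in
lemma hasDerivAt_line {F : (ι → ℝ) → ℝ} {x : ι → ℝ} (h : DifferentiableAt ℝ F x) (v : ι → ℝ) :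
    HasDerivAt (fun t : ℝ => F (x + t • v)) (fderiv ℝ F x v) 0 := h.hasFDerivAt.hasLineDerivAt v

lemma ELip.gr2_le {L : ℝ} {F : (ι → ℝ) → ℝ} (h : ELip L F) (x : ι → ℝ) : gr2 F x ≤ L ^ 2 := by
  by_cases hd : DifferentiableAt ℝ F x
  · have h1 := (hasDerivAt_line hd (grad F x)).le_of_lip' (C := |L| * en (grad F x))
      (mul_nonneg (abs_nonneg _) (en_nonneg _)) (Eventually.of_forall fun t => by
        have := h.abs (x + t • grad F x) (x + (0:ℝ) • grad F x)
        rw [Real.norm_eq_abs, Real.norm_eq_abs]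
        refine this.trans (le_of_eq ?_)
        rw [zero_smul, add_zero, add_sub_cancel_left, en_smul, sub_zero]; ring)
    rw [fderiv_eq_dot, Real.norm_eq_abs] at h1
    have h2 : en (grad F x) ^ 2 ≤ |L| * en (grad F x) := by
      rw [en_sq]; simpa only [sq] using (le_abs_self _).trans h1
    rw [gr2_eq, ← sq_abs L]
    nlinarith [sq_nonneg (|L| - en (grad F x)), abs_nonneg L, en_nonneg (grad F x)]
  · simp only [gr2, grad, fderiv_zero_of_not_differentiableAt hd]
    simpa using sq_nonneg L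

lemma grad_eq_of_partial {F : (ι → ℝ) → ℝ} {x : ι → ℝ} (h : DifferentiableAt ℝ F x) {i : ι} {d : ℝ}
    (hd : HasDerivAt (fun t => F (Function.update x i t)) d (x i)) : grad F x i = d := by
  have h1 := hasDerivAt_line h (Pi.single i 1)
  have h2 : HasDerivAt (fun t : ℝ => F (Function.update x i (x i + t))) d 0 := by
    have := HasDerivAt.comp_const_add (x i) 0 (f := fun t => F (Function.update x i t))
      (by simpa using hd)
    exact this
  refine h1.unique (h2.congr_of_eventuallyEq (Eventually.of_forall fun t => ?_))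
  simp only
  congr 1
  ext j
  by_cases hj : j = i
  · subst hj; simp
  · simp [hj]

lemma gr2_comp {F : (ι → ℝ) → ℝ} {x : ι → ℝ} (h : DifferentiableAt ℝ F x) {φ : ℝ → ℝ} {d : ℝ}
    (hφ : HasDerivAt φ d (F x)) : gr2 (fun y => φ (F y)) x = d ^ 2 * gr2 F x := by
  have h1 := (hφ.comp_hasFDerivAt x h.hasFDerivAt).fderiv
  simp only [gr2, grad, Finset.mul_sum]
  refine Finset.sum_congr rfl fun i _ => ?_
  rw [show (fun y => φ (F y)) = φ ∘ F from rfl, h1]
  simp [mul_pow]

/-- the sup-convolution of the Bobkov-Ledoux argument -/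
def kk (g : (ι → ℝ) → ℝ) (t : ℝ) (z : ι → ℝ) : ℝ :=
  ⨆ r : ι → ℝ, ((g (z + t • r) - g z) / t - (1 - t) * (en r ^ 2 / 2))

section lsi
variable {L : ℝ} {g : (ι → ℝ) → ℝ}

omit [DecidableEq ι] in
lemma kk_term_le (h : ELip L g) {t : ℝ} (ht0 : 0 < t) (z r : ι → ℝ) :
    (g (z + t • r) - g z) / t ≤ |L| * en r := by
  rw [div_le_iff₀ ht0]
  have := (le_abs_self _).trans (h.abs (z + t • r) z)
  rw [add_sub_cancel_left, en_smul, abs_of_pos ht0] at this
  linarith

omit [DecidableEq ι] in
lemma kk_term_le' (h : ELip L g) {t : ℝ} (ht0 : 0 < t) (ht : t ≤ 1 / 2) (z r : ι → ℝ) :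
    (g (z + t • r) - g z) / t - (1 - t) * (en r ^ 2 / 2) ≤ L ^ 2 := by
  have h1 := kk_term_le h ht0 z r
  have h2 : 1 / 2 * (en r ^ 2 / 2) ≤ (1 - t) * (en r ^ 2 / 2) :=
    mul_le_mul_of_nonneg_right (by linarith) (by positivity)
  rw [← sq_abs L]
  nlinarith [sq_nonneg (|L| - en r / 2)]

omit [DecidableEq ι] in
lemma kk_le (h : ELip L g) {t : ℝ} (ht0 : 0 < t) (ht : t ≤ 1 / 2) (z : ι → ℝ) :
    kk g t z ≤ L ^ 2 := ciSup_le (kk_term_le' h ht0 ht z)

omit [DecidableEq ι] in
lemma le_kk (h : ELip L g) {t : ℝ} (ht0 : 0 < t) (ht : t ≤ 1 / 2) (z r : ι → ℝ) :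
    (g (z + t • r) - g z) / t - (1 - t) * (en r ^ 2 / 2) ≤ kk g t z :=
  le_ciSup (f := fun r => (g (z + t • r) - g z) / t - (1 - t) * (en r ^ 2 / 2))
    ⟨L ^ 2, by rintro _ ⟨r, rfl⟩; exact kk_term_le' h ht0 ht z r⟩ r

omit [DecidableEq ι] in
lemma kk_nonneg (h : ELip L g) {t : ℝ} (ht0 : 0 < t) (ht : t ≤ 1 / 2) (z : ι → ℝ) :
    0 ≤ kk g t z := by simpa [en_zero] using le_kk h ht0 ht z 0

omit [DecidableEq ι] in
lemma measurable_kk (h : ELip L g) {t : ℝ} (ht0 : 0 < t) (ht : t ≤ 1 / 2) :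
    Measurable (kk g t) := by
  have hc := h.continuous
  refine LowerSemicontinuous.measurable (lowerSemicontinuous_ciSup (fun z => ?_) fun r => ?_)
  · exact ⟨L ^ 2, by rintro _ ⟨r, rfl⟩; exact kk_term_le' h ht0 ht z r⟩
  · exact Continuous.lowerSemicontinuous (by fun_prop)

lemma tendsto_kk (h : ELip L g) {z : ι → ℝ} (hd : DifferentiableAt ℝ g z) :
    Tendsto (fun t => max (kk g t z) (gr2 g z / 2)) (𝓝[>] 0) (𝓝 (gr2 g z / 2)) := by
  refine tendsto_order.2 ⟨fun a ha => Eventually.of_forall fun t => ha.trans_le (le_max_right _ _),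
    fun b hb => ?_⟩
  set a := en (grad g z)
  have ha : 0 ≤ a := en_nonneg _
  have hc : ContinuousAt (fun p : ℝ => (a + p) ^ 2 / (2 * (1 - p))) 0 :=
    ContinuousAt.div (by fun_prop) (by fun_prop) (by norm_num)
  have h1 : ∀ᶠ p in 𝓝 (0:ℝ), (a + p) ^ 2 / (2 * (1 - p)) < b :=
    hc.tendsto.eventually (gt_mem_nhds (by rw [gr2_eq] at hb; simpa using hb))
  obtain ⟨δ, hδ, hδ0, hδ1⟩ := ((h1.filter_mono (nhdsWithin_le_nhds (s := Ioi 0))).and
    (Ioo_mem_nhdsGT (by norm_num : (0:ℝ) < 1 / 2))).exists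
  have h2 := hd.hasFDerivAt.isLittleO.bound hδ0
  obtain ⟨ρ, hρ, h3⟩ := Metric.eventually_nhds_iff.1 h2
  have hR : 0 < 4 * |L| + 1 := by positivity
  filter_upwards [Ioo_mem_nhdsGT (lt_min hδ0 (div_pos hρ hR))] with t ht
  have ht0 : 0 < t := ht.1
  have htδ : t < δ := ht.2.trans_le (min_le_left _ _)
  have htρ : t * (4 * |L| + 1) < ρ := (lt_div_iff₀ hR).1 (ht.2.trans_le (min_le_right _ _))
  refine max_lt (lt_of_le_of_lt (ciSup_le fun r => ?_) hδ) hb
  have hq : (1 - δ) * (en r ^ 2 / 2) ≤ (1 - t) * (en r ^ 2 / 2) :=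
    mul_le_mul_of_nonneg_right (by linarith) (by positivity)
  have h1δ : 0 < 1 - δ := by linarith
  rcases le_total (en r) (4 * |L|) with hr | hr
  · have h4 : dist (z + t • r) z < ρ := by
      rw [dist_eq_norm, add_sub_cancel_left]
      refine (norm_le_en _).trans_lt ?_
      rw [en_smul, abs_of_pos ht0]
      nlinarith
    have h5 := h3 h4
    rw [add_sub_cancel_left, Real.norm_eq_abs, map_smul, fderiv_eq_dot, smul_eq_mul] at h5
    have h6 : ‖t • r‖ ≤ t * en r := by
      refine (norm_le_en _).trans ?_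
      rw [en_smul, abs_of_pos ht0]
    have h7 : ∑ i, grad g z i * r i ≤ a * en r := (le_abs_self _).trans (abs_dot_le _ _)
    have h8 : (g (z + t • r) - g z) / t ≤ (a + δ) * en r := by
      rw [div_le_iff₀ ht0]
      have := (le_abs_self _).trans h5
      nlinarith [mul_le_mul_of_nonneg_left h6 hδ0.le, mul_le_mul_of_nonneg_left h7 ht0.le]
    have h9 : (a + δ) * en r - (1 - δ) * (en r ^ 2 / 2) ≤ (a + δ) ^ 2 / (2 * (1 - δ)) := by
      rw [le_div_iff₀ (by positivity)]
      nlinarith [sq_nonneg ((a + δ) - (1 - δ) * en r)]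
    linarith
  · have h4 := kk_term_le h ht0 z r
    have h5 : 1 / 2 * (en r ^ 2 / 2) ≤ (1 - δ) * (en r ^ 2 / 2) :=
      mul_le_mul_of_nonneg_right (by linarith) (by positivity)
    have h6 : 0 ≤ (a + δ) ^ 2 / (2 * (1 - δ)) := by positivity
    nlinarith [mul_le_mul_of_nonneg_right hr (en_nonneg r)]

omit [DecidableEq ι] in
lemma ELip.integrable_mul_exp (h : ELip L g) (s : ℝ) :
    Integrable (fun x => g x * Real.exp (s * g x)) (gv ι) := by
  have hc := h.continuous
  refine ((h.integrable_exp (s + 1)).add (h.integrable_exp (s - 1))).mono' (by fun_prop)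
    (ae_of_all _ fun x => ?_)
  simp only [Pi.add_apply, Real.norm_eq_abs, abs_mul, abs_of_pos (Real.exp_pos _), add_mul,
    one_mul, Real.exp_add, sub_eq_add_neg, neg_mul]
  rw [← mul_add, mul_comm]
  refine mul_le_mul_of_nonneg_left ?_ (Real.exp_pos _).le
  have h1 := Real.add_one_le_exp (g x)
  have h2 := Real.add_one_le_exp (-g x)
  have h3 := Real.exp_pos (g x)
  have h4 := Real.exp_pos (-g x)
  rw [_root_.abs_le]; constructor <;> linarith

omit [DecidableEq ι] in
lemma lsi_step (h : ELip L g) {t : ℝ} (ht0 : 0 < t) (ht : t ≤ 1 / 2) :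
    ∫ x, g x * Real.exp (g x) ∂gv ι -
      (∫ x, Real.exp (g x) ∂gv ι) * Real.log (∫ x, Real.exp (g x) ∂gv ι) ≤
      Real.exp (t * L ^ 2) * ∫ x, kk g t x * Real.exp (g x) ∂gv ι := by
  have hc := h.continuous
  have hk := measurable_kk h ht0 ht
  have h1t : 0 < 1 - t := by linarith
  have i1 : Integrable (fun x => Real.exp (g x)) (gv ι) := by
    simpa only [one_mul] using h.integrable_exp 1
  have i2 : Integrable (fun x => g x * Real.exp (g x)) (gv ι) := by
    simpa only [one_mul] using h.integrable_mul_exp 1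
  have i3 : Integrable (fun x => kk g t x * Real.exp (g x)) (gv ι) :=
    i1.bdd_mul (c := L ^ 2) hk.aestronglyMeasurable (ae_of_all _ fun x => by
      rw [Real.norm_eq_abs, abs_of_nonneg (kk_nonneg h ht0 ht x)]; exact kk_le h ht0 ht x)
  have hp : ∀ x, Real.exp (g x + t * kk g t x) ≤
      Real.exp (g x) + t * Real.exp (t * L ^ 2) * (kk g t x * Real.exp (g x)) := fun x => by
    have a1 := Real.add_one_le_exp (-(t * kk g t x))
    have a2 := mul_le_mul_of_nonneg_right a1 (Real.exp_pos (t * kk g t x)).le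
    rw [← Real.exp_add, neg_add_cancel, Real.exp_zero] at a2
    have a3 : Real.exp (t * kk g t x) ≤ Real.exp (t * L ^ 2) :=
      Real.exp_le_exp.2 (mul_le_mul_of_nonneg_left (kk_le h ht0 ht x) ht0.le)
    have a4 := mul_le_mul_of_nonneg_left a3 (mul_nonneg ht0.le (kk_nonneg h ht0 ht x))
    rw [Real.exp_add]
    nlinarith [mul_le_mul_of_nonneg_left (show Real.exp (t * kk g t x) ≤
      1 + t * kk g t x * Real.exp (t * L ^ 2) by linarith) (Real.exp_pos (g x)).le]
  have i4 : Integrable (fun x => Real.exp (g x) +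
      t * Real.exp (t * L ^ 2) * (kk g t x * Real.exp (g x))) (gv ι) := i1.add (i3.const_mul _)
  have i5 : Integrable (fun x => Real.exp (g x + t * kk g t x)) (gv ι) :=
    i4.mono' (by fun_prop) (ae_of_all _ fun x => by
      rw [Real.norm_eq_abs, abs_of_pos (Real.exp_pos _)]; exact hp x)
  have key := gpl_gv (ι := ι) t ht0 (by linarith) (fun x => ex ((1 - t)⁻¹ * g x)) (fun _ => 1)
    (fun x => ex (g x + t * kk g t x)) (by fun_prop) (by fun_prop) (by fun_prop) (fun x y => by
      rw [ex_rpow, ENNReal.one_rpow, mul_one, ← ex_add]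
      refine ex_mono ?_
      simp only [← en_sq]
      have a1 := mul_le_mul_of_nonneg_left (le_kk h ht0 ht ((1 - t) • x + t • y) (x - y)) ht0.le
      rw [show (1 - t) • x + t • y + t • (x - y) = x by module, mul_sub,
        mul_div_cancel₀ _ ht0.ne'] at a1
      rw [← mul_assoc, mul_inv_cancel₀ h1t.ne', one_mul]
      linarith)
  rw [lintegral_ex (h.integrable_exp _), lintegral_ex i5, lintegral_const, measure_univ, mul_one,
    ENNReal.one_rpow, mul_one] at key
  have hA : 0 < ∫ x, Real.exp (g x) ∂gv ι := integral_exp_pos i1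
  set A := ∫ x, Real.exp (g x) ∂gv ι with hAd
  set B := ∫ x, g x * Real.exp (g x) ∂gv ι with hBd
  set s := t / (1 - t) with hs
  have b1 : A * Real.exp (s * (B / A)) ≤ ∫ x, Real.exp ((1 - t)⁻¹ * g x) ∂gv ι := by
    have i6 : Integrable (fun x => (1 - s * (B / A)) * Real.exp (g x) + s * (g x * Real.exp (g x)))
        (gv ι) := (i1.const_mul _).add (i2.const_mul _)
    have c1 := integral_mono (i6.const_mul (Real.exp (s * (B / A)))) (h.integrable_exp (1 - t)⁻¹)
      fun x => by
        have a1 := Real.add_one_le_exp (s * g x - s * (B / A))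
        have e : (1 - t)⁻¹ * g x = s * (B / A) + ((s * g x - s * (B / A)) + g x) := by
          rw [hs]; field_simp; ring
        simp only
        rw [e, Real.exp_add, Real.exp_add]
        refine mul_le_mul_of_nonneg_left ?_ (Real.exp_pos _).le
        nlinarith [mul_le_mul_of_nonneg_right a1 (Real.exp_pos (g x)).le]
    rw [integral_const_mul, integral_add (i1.const_mul _) (i2.const_mul _), integral_const_mul,
      integral_const_mul, ← hAd, ← hBd] at c1
    refine le_trans (le_of_eq ?_) c1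
    field_simp; ring
  have b2 : ex (Real.log A + s * (B / A)) ^ (1 - t) ≤
      ENNReal.ofReal (∫ x, Real.exp (g x + t * kk g t x) ∂gv ι) := by
    refine le_trans (ENNReal.rpow_le_rpow (ENNReal.ofReal_le_ofReal ?_) h1t.le) key
    rwa [Real.exp_add, Real.exp_log hA]
  rw [ex_rpow, ex, ENNReal.ofReal_le_ofReal_iff (integral_nonneg fun _ => (Real.exp_pos _).le)]
    at b2
  have b3 := b2.trans (integral_mono i5 i4 hp)
  rw [integral_add i1 (i3.const_mul _), integral_const_mul, ← hAd,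
    show (1 - t) * (Real.log A + s * (B / A)) = Real.log A + t * ((B - A * Real.log A) / A) by
      rw [hs]; field_simp; ring, Real.exp_add, Real.exp_log hA] at b3
  have b4 := mul_le_mul_of_nonneg_left (Real.add_one_le_exp (t * ((B - A * Real.log A) / A))) hA.le
  rw [mul_add, mul_one, show A * (t * ((B - A * Real.log A) / A)) = t * (B - A * Real.log A) by
    field_simp] at b4
  refine le_of_mul_le_mul_left ?_ ht0
  linarith

/-- **Gaussian logarithmic Sobolev inequality**, exponential form -/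
theorem lsi_exp (h : ELip L g) :
    ∫ x, g x * Real.exp (g x) ∂gv ι -
      (∫ x, Real.exp (g x) ∂gv ι) * Real.log (∫ x, Real.exp (g x) ∂gv ι) ≤
      1 / 2 * ∫ x, gr2 g x * Real.exp (g x) ∂gv ι := by
  have hc := h.continuous
  have i1 : Integrable (fun x => Real.exp (g x)) (gv ι) := by
    simpa only [one_mul] using h.integrable_exp 1
  have hev : ∀ᶠ t in 𝓝[>] (0:ℝ), 0 < t ∧ t ≤ 1 / 2 :=
    Ioc_mem_nhdsGT (by norm_num : (0:ℝ) < 1 / 2)
  have hb : ∀ t, 0 < t → t ≤ 1 / 2 → ∀ x, ‖max (kk g t x) (gr2 g x / 2)‖ ≤ L ^ 2 :=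
    fun t ht0 ht x => by
      rw [Real.norm_eq_abs, abs_of_nonneg ((kk_nonneg h ht0 ht x).trans (le_max_left _ _))]
      exact max_le (kk_le h ht0 ht x) (by linarith [h.gr2_le x, gr2_nonneg g x])
  have h1 : Tendsto (fun t => ∫ x, max (kk g t x) (gr2 g x / 2) * Real.exp (g x) ∂gv ι) (𝓝[>] 0)
      (𝓝 (∫ x, gr2 g x / 2 * Real.exp (g x) ∂gv ι)) := by
    refine tendsto_integral_filter_of_dominated_convergence (fun x => L ^ 2 * Real.exp (g x))
      ?_ ?_ (i1.const_mul _) ?_
    · filter_upwards [hev] with t ht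
      have hk := measurable_kk h ht.1 ht.2
      exact Measurable.aestronglyMeasurable (by fun_prop)
    · filter_upwards [hev] with t ht
      refine ae_of_all _ fun x => ?_
      rw [norm_mul, Real.norm_of_nonneg (Real.exp_pos _).le]
      exact mul_le_mul_of_nonneg_right (hb t ht.1 ht.2 x) (Real.exp_pos _).le
    · filter_upwards [h.ae_differentiable] with x hx
      exact (tendsto_kk h hx).mul_const _
  have h2 : Tendsto (fun t : ℝ => Real.exp (t * L ^ 2)) (𝓝[>] 0) (𝓝 1) := by
    have : ContinuousAt (fun t : ℝ => Real.exp (t * L ^ 2)) 0 := by fun_prop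
    simpa using this.tendsto.mono_left nhdsWithin_le_nhds
  have h3 := h2.mul h1
  rw [one_mul] at h3
  have e : ∫ x, gr2 g x / 2 * Real.exp (g x) ∂gv ι = 1 / 2 * ∫ x, gr2 g x * Real.exp (g x) ∂gv ι := by
    rw [← integral_const_mul]; congr 1; ext x; ring
  rw [← e]
  refine ge_of_tendsto h3 ?_
  filter_upwards [hev] with t ht
  refine (lsi_step h ht.1 ht.2).trans (mul_le_mul_of_nonneg_left ?_ (Real.exp_pos _).le)
  have hk := measurable_kk h ht.1 ht.2
  refine integral_mono_of_nonneg (ae_of_all _ fun x =>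
    mul_nonneg (kk_nonneg h ht.1 ht.2 x) (Real.exp_pos _).le)
    (i1.bdd_mul (c := L ^ 2) (Measurable.aestronglyMeasurable (by fun_prop))
      (ae_of_all _ (hb t ht.1 ht.2))) (ae_of_all _ fun x => ?_)
  exact mul_le_mul_of_nonneg_right (le_max_left _ _) (Real.exp_pos _).le

end lsi

end Crest.Agent.T157.Conc
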