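import Crest.Agent.T157.AtD_39
import Crest.Agent.T157.EigN_84

/-!
# Row 157, part B (helper85): Cameron–Martin bounds and the resampling kernel of a Gaussian channel
-/

set_option autoImplicit false
set_option linter.unusedSectionVars false

noncomputable section

namespace Crest.Agent.T157.Kc

open MeasureTheory Real Matrix Set
open Crest.Agent.T157.E Crest.Agent.T157.SL Crest.Agent.T157.Rec

section gauss

variable {ι κ : Type*} [Fintype ι] [DecidableEq ι] [Fintype κ] {v : κ → ι → ℝ} {lam d : ℝ}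
  {F : (ι → ℝ) → ℝ}

theorem dot_comb (v : κ → ι → ℝ) (c : κ → ℝ) :
    (∑ k, c k • v k) ⬝ᵥ (∑ k, c k • v k) = ∑ k, ∑ l, c k * c l * (v k ⬝ᵥ v l) := by
  rw [sum_dotProduct]
  refine Finset.sum_congr rfl fun k _ => ?_
  rw [dotProduct_sum]
  exact Finset.sum_congr rfl fun l _ => by
    rw [smul_dotProduct, dotProduct_smul, smul_eq_mul, smul_eq_mul, mul_assoc]

/-- the Gram matrix of the Cameron–Martin densities -/
theorem gram_exp (h0 : 0 ≤ lam)
    (hl : ∀ c : κ → ℝ, (∑ k, c k • v k) ⬝ᵥ (∑ k, c k • v k) ≤ lam * ∑ k, c k ^ 2)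
    (hd : ∀ k, v k ⬝ᵥ v k ≤ d) (a : κ → ℝ) :
    ∑ k, ∑ l, a k * a l * (exp (v k ⬝ᵥ v l) - 1) ≤ lam * exp d * ∑ k, a k ^ 2 := by
  have hD : ∀ t : ℝ, HasDerivAt (fun t => ∑ k, ∑ l, a k * a l * exp (t * (v k ⬝ᵥ v l)))
      (∑ k, ∑ l, a k * a l * (exp (t * (v k ⬝ᵥ v l)) * (v k ⬝ᵥ v l))) t := fun t =>
    .fun_sum fun k _ => .fun_sum fun l _ => by
      simpa using ((hasDerivAt_id t).mul_const (v k ⬝ᵥ v l)).exp.const_mul (a k * a l)
  obtain ⟨t, ⟨t0, t1⟩, e⟩ := exists_hasDerivAt_eq_slope _ _ (zero_lt_one (α := ℝ))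
    (fun s _ => (hD s).continuousAt.continuousWithinAt) fun s _ => hD s
  simp only [one_mul, zero_mul, exp_zero, sub_zero, div_one, ← Finset.sum_sub_distrib,
    ← mul_sub] at e
  rw [← e]
  have m := fun k => mg_eh (√t • v k)
  have e1 : ∀ k l, exp (t * (v k ⬝ᵥ v l)) = ∫ z, eh (√t • v k) z * eh (√t • v l) z ∂Gs ι :=
    fun k l => by rw [int_eh_mul, dot_sqrt t0.le]
  have m2 := fun k l => ((m k).mul (m l)).const_mul (a k * a l * (v k ⬝ᵥ v l))
  have m3 := fun k => ((m k).mul (m k)).const_mul (lam * a k ^ 2)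
  calc _ = ∫ z, ∑ k, ∑ l, a k * a l * (v k ⬝ᵥ v l) * (eh (√t • v k) z * eh (√t • v l) z) ∂Gs ι := by
        rw [integral_finsetSum _ fun k _ => (MG.sum _ fun l _ => m2 k l).int]
        refine Finset.sum_congr rfl fun k _ => ?_
        rw [integral_finsetSum _ fun l _ => (m2 k l).int]
        exact Finset.sum_congr rfl fun l _ => by rw [integral_const_mul, ← e1]; ring
    _ ≤ ∫ z, ∑ k, lam * a k ^ 2 * (eh (√t • v k) z * eh (√t • v k) z) ∂Gs ι := by
        refine integral_mono (MG.sum _ fun k _ => MG.sum _ fun l _ => m2 k l).int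
          (MG.sum _ fun k _ => m3 k).int fun z => ?_
        have := hl fun k => a k * eh (√t • v k) z
        rw [dot_comb, Finset.mul_sum] at this
        refine le_of_eq_of_le ?_ (this.trans_eq ?_)
        · exact Finset.sum_congr rfl fun k _ => Finset.sum_congr rfl fun l _ => by ring
        · exact Finset.sum_congr rfl fun k _ => by ring
    _ ≤ _ := by
        rw [integral_finsetSum _ fun k _ => (m3 k).int, Finset.mul_sum]
        refine Finset.sum_le_sum fun k _ => ?_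
        rw [integral_const_mul, ← e1, mul_right_comm]
        refine mul_le_mul_of_nonneg_right (mul_le_mul_of_nonneg_left (exp_le_exp.2 ?_) h0)
          (sq_nonneg _)
        exact (mul_le_of_le_one_left (dot_self_nonneg _) t1.le).trans (hd k)

/-- **(CM)** shifts of a Gaussian mean -/
theorem cm_le (h0 : 0 ≤ lam)
    (hl : ∀ c : κ → ℝ, (∑ k, c k • v k) ⬝ᵥ (∑ k, c k • v k) ≤ lam * ∑ k, c k ^ 2)
    (hd : ∀ k, v k ⬝ᵥ v k ≤ d) (hF : MG F) (c : ℝ) :
    ∑ k, (∫ z, F z ∂Gs ι - ∫ z, F (v k + z) ∂Gs ι) ^ 2 ≤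
      lam * exp d * ∫ z, (F z - c) ^ 2 ∂Gs ι := by
  have m := hF.sub (.const c)
  refine le_of_eq_of_le (Finset.sum_congr rfl fun k _ => congrArg (· ^ 2) ?_)
    (bessel (fun k => (MG.const 1).sub (mg_eh (v k))) (by positivity)
      (fun a => by simpa only [int_one_sub_eh] using gram_exp h0 hl hd a) m)
  simp only [mul_sub, mul_one]
  rw [integral_sub m.int (m.mul (mg_eh _)).int, ← int_shift (v k) fun z => F z - c,
    integral_sub hF.int (integrable_const _),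
    integral_sub (by simpa using (hF.affine (v k) 1).int) (integrable_const _)]
  ring

/-- one shift -/
theorem shift_sq_le (hF : MG F) (h : ι → ℝ) :
    (∫ z, F (h + z) ∂Gs ι) ^ 2 ≤ exp (h ⬝ᵥ h) * ∫ z, F z ^ 2 ∂Gs ι := by
  have := int_mul_sq_le hF (mg_eh h)
  simp only [sq (eh h _), int_eh_mul] at this
  rwa [int_shift, mul_comm (exp _)]

end gauss

section cube

variable {n : ℕ} {ι : Type*} [Fintype ι] [DecidableEq ι] {φ : Cube n → ι → ℝ} {lam t : ℝ}
  {F : (ι → ℝ) → ℝ} {Ψ : Cube n → (ι → ℝ) → ℝ}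

/-- the flips of the features have Gram matrix at most `4 lam` -/
def FG (φ : Cube n → ι → ℝ) (lam : ℝ) : Prop := 0 ≤ lam ∧ ∀ (x : Cube n) (c : Fin n → ℝ),
  (∑ j, c j • (φ (fl x j) - φ x)) ⬝ᵥ (∑ j, c j • (φ (fl x j) - φ x)) ≤ 4 * lam * ∑ j, c j ^ 2

theorem fg_lin {R : Matrix ι (Fin n) ℝ} (h0 : 0 ≤ lam)
    (h : ∀ u, (R *ᵥ u) ⬝ᵥ (R *ᵥ u) ≤ lam * (u ⬝ᵥ u)) : FG (fun x => R *ᵥ sv x) lam := by
  refine ⟨h0, fun x c => ?_⟩
  have e : ∑ j, c j • (R *ᵥ sv (fl x j) - R *ᵥ sv x) = R *ᵥ fun j => c j * (-2 * sv x j) := by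
    simp only [← mulVec_sub, sv_fl_sub, ← mulVec_smul, ← mulVec_sum]
    congr 1; ext j
    simp [Finset.sum_apply, Pi.single_apply]
  rw [e]
  refine (h _).trans_eq ?_
  rw [dotProduct, mul_comm 4, mul_assoc, Finset.mul_sum Finset.univ _ 4]
  congr 1
  exact Finset.sum_congr rfl fun j _ => by linear_combination 4 * c j ^ 2 * sv_mul_self x j

theorem fg_opn {R : Matrix ι (Fin n) ℝ} (h : Eig.opn (Rᵀ * R) ≤ lam) :
    FG (fun x => R *ᵥ sv x) lam :=
  fg_lin ((Eig.opn_nonneg _).trans h) fun u => (Eig.mulVec_dot_le R u).trans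
    (mul_le_mul_of_nonneg_right (by rwa [sq, ← Eig.opn_transpose_mul_self]) (dot_self_nonneg u))

theorem fg_sv : FG (sv (n := n)) 1 := by
  simpa using fg_lin (R := (1 : Matrix (Fin n) (Fin n) ℝ)) zero_le_one fun u => by simp

theorem FG.one (h : FG φ lam) (x : Cube n) (j : Fin n) :
    (φ (fl x j) - φ x) ⬝ᵥ (φ (fl x j) - φ x) ≤ 4 * lam := by
  simpa [Pi.single_apply, ite_smul] using h.2 x (Pi.single j 1)

/-- the constant of the Cameron–Martin bound -/
def Ga (t lam : ℝ) : ℝ := t * lam * exp (4 * t * lam)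

theorem Ga_nonneg (ht : 0 ≤ t) (h : 0 ≤ lam) : 0 ≤ Ga t lam := by unfold Ga; positivity

theorem Pm_shift (ht : 0 ≤ t) (F : (ι → ℝ) → ℝ) (x x' : Cube n) :
    Pm φ t (fun _ => F) x' = ∫ z, F (t • φ x + √t • (√t • (φ x' - φ x) + z)) ∂Gs ι := by
  simp only [smul_add, smul_smul, mul_self_sqrt ht, smul_sub, ← add_assoc, add_sub_cancel]; rfl

theorem FG.sh (h : FG φ lam) (ht : 0 ≤ t) (x : Cube n) (j : Fin n) :
    (√t • (φ (fl x j) - φ x)) ⬝ᵥ (√t • (φ (fl x j) - φ x)) ≤ 4 * t * lam := by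
  rw [dot_sqrt ht]; linarith [mul_le_mul_of_nonneg_left (h.one x j) ht]

/-- **(CM)** on the cube -/
theorem FG.grad_le (h : FG φ lam) (ht : 0 ≤ t) (hF : MG F) (c : ℝ) (x : Cube n) :
    grad (Pm φ t fun _ => F) x ⬝ᵥ grad (Pm φ t fun _ => F) x ≤
      Ga t lam * Pm φ t (fun _ u => (F u - c) ^ 2) x := by
  have l0 := h.1
  have k := cm_le (v := fun j => √t • (φ (fl x j) - φ x)) (lam := 4 * t * lam) (by positivity)
    (fun a => by
      simp only [smul_comm (a _) √t, ← Finset.smul_sum]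
      rw [dot_sqrt ht]; linarith [mul_le_mul_of_nonneg_left (h.2 x a) ht])
    (h.sh ht x) (hF.affine (t • φ x) √t) c
  have e : grad (Pm φ t fun _ => F) x ⬝ᵥ grad (Pm φ t fun _ => F) x =
      (∑ j, (Pm φ t (fun _ => F) x - Pm φ t (fun _ => F) (fl x j)) ^ 2) / 4 := by
    rw [dotProduct, Finset.sum_div]
    refine Finset.sum_congr rfl fun j _ => ?_
    rw [grad_eq]
    linear_combination (Pm φ t (fun _ => F) x - Pm φ t (fun _ => F) (fl x j)) ^ 2 / 4 *
      sv_mul_self x j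
  simp only [← Pm_shift ht F x] at k
  rw [e, Ga, div_le_iff₀ four_pos]
  exact k.trans_eq (by rw [Pm]; ring)

/-- the value after a flip -/
theorem FG.fl_sq_le (h : FG φ lam) (ht : 0 ≤ t) (hF : MG F) (x : Cube n) (j : Fin n) :
    Pm φ t (fun _ => F) (fl x j) ^ 2 ≤ exp (4 * t * lam) * Pm φ t (fun _ u => F u ^ 2) x := by
  rw [Pm_shift ht F x]
  exact (shift_sq_le (hF.affine (t • φ x) √t) _).trans
    (mul_le_mul_of_nonneg_right (exp_le_exp.2 (h.sh ht x j)) (int_sq_nonneg _))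

theorem mg_grad (h : ∀ x, MG (Ψ x)) (x : Cube n) (j : Fin n) :
    MG fun u => grad (fun x => Ψ x u) x j := by
  simp only [grad_eq, mul_div_right_comm]
  exact ((h x).sub (h _)).const_mul _

/-- noise part and explicit part of the gradient -/
theorem grad_Pm_eq (h : ∀ x, MG (Ψ x)) (x : Cube n) (j : Fin n) :
    grad (Pm φ t Ψ) x j = grad (Pm φ t fun _ => Ψ x) x j +
      Pm φ t (fun _ u => grad (fun x => Ψ x u) x j) (fl x j) := by
  simp only [grad_eq, mul_div_right_comm]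
  rw [Pm_mul (fun _ => sv x j / 2), Pm_sub (fun _ => h x) fun _ => h _]
  simp only [Pm]; ring

theorem FG.grad_le' (h : FG φ lam) (ht : 0 ≤ t) (hΨ : ∀ x, MG (Ψ x)) (c : ℝ) (x : Cube n) :
    grad (Pm φ t Ψ) x ⬝ᵥ grad (Pm φ t Ψ) x ≤
      2 * Ga t lam * Pm φ t (fun x u => (Ψ x u - c) ^ 2) x + 2 * exp (4 * t * lam) *
        Pm φ t (fun x u => grad (fun x => Ψ x u) x ⬝ᵥ grad (fun x => Ψ x u) x) x := by
  have h1 := h.grad_le ht (hΨ x) c x
  have h2 := Finset.sum_le_sum fun j (_ : j ∈ Finset.univ) => h.fl_sq_le ht (mg_grad hΨ x j) x j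
  rw [← Finset.mul_sum, ← Pm_sum _ fun j _ _ => mg_sq (mg_grad hΨ x j)] at h2
  have h3 : grad (Pm φ t Ψ) x ⬝ᵥ grad (Pm φ t Ψ) x ≤
      2 * (grad (Pm φ t fun _ => Ψ x) x ⬝ᵥ grad (Pm φ t fun _ => Ψ x) x) +
        2 * ∑ j, Pm φ t (fun _ u => grad (fun x => Ψ x u) x j) (fl x j) ^ 2 := by
    simp only [dotProduct, Finset.mul_sum, ← Finset.sum_add_distrib]
    refine Finset.sum_le_sum fun j _ => ?_
    rw [grad_Pm_eq hΨ]
    nlinarith [sq_nonneg (grad (Pm φ t fun _ => Ψ x) x j -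
      Pm φ t (fun _ u => grad (fun x => Ψ x u) x j) (fl x j))]
  have e1 : Pm φ t (fun x u => (Ψ x u - c) ^ 2) x = Pm φ t (fun _ u => (Ψ x u - c) ^ 2) x := rfl
  have e2 : Pm φ t (fun x u => grad (fun x => Ψ x u) x ⬝ᵥ grad (fun x => Ψ x u) x) x =
      Pm φ t (fun _ u => ∑ j, grad (fun x => Ψ x u) x j ^ 2) x := by
    simp only [Pm, dotProduct, sq]
  rw [e1, e2]
  linarith

end cube

section kernel

variable {Ω ι : Type*} [Fintype Ω] [Fintype ι] [DecidableEq ι] {φ : Ω → ι → ℝ} {w f g : Ω → ℝ}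
  {t : ℝ}

/-- observe `u = t φ(σ) + √t Z`, resample from the posterior -/
def Kf (φ : Ω → ι → ℝ) (w : Ω → ℝ) (t : ℝ) (g : Ω → ℝ) : Ω → ℝ :=
  Pm φ t fun _ u => mean (post φ w t u) g

theorem mean_mul_Kf (hw : Wt w) (ht : 0 ≤ t) (f g : Ω → ℝ) :
    mean w (fun x => f x * Kf φ w t g x) =
      slE φ w t fun _ u => mean (post φ w t u) f * mean (post φ w t u) g := by
  simp only [Kf, ← Pm_mul, ← slE_eq_Pm]
  rw [bayes hw ht (.of_mg fun x => (mg_pm hw t g).const_mul (f x))]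
  simp only [mean_mul_const]

/-- **(REV)** -/
theorem Kf_symm (hw : Wt w) (ht : 0 ≤ t) (f g : Ω → ℝ) :
    mean w (fun x => f x * Kf φ w t g x) = mean w fun x => Kf φ w t f x * g x := by
  simp only [mul_comm (Kf φ w t f _), mean_mul_Kf hw ht, mul_comm (mean _ f)]

theorem Kf_const (hw : Wt w) (c : ℝ) : Kf φ w t (fun _ => c) = fun _ => c := by
  ext x; simp [Kf, Pm, (hw.post _ _ _).mean_const]

theorem mean_Kf (hw : Wt w) (ht : 0 ≤ t) (g : Ω → ℝ) : mean w (Kf φ w t g) = mean w g := by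
  simpa only [one_mul, Kf_const hw] using Kf_symm (φ := φ) hw ht (fun _ => 1) g

theorem Kf_add (hw : Wt w) (f g : Ω → ℝ) :
    Kf φ w t (fun x => f x + g x) = fun x => Kf φ w t f x + Kf φ w t g x := by
  ext x; simp only [Kf, mean_add]; exact Pm_add (fun _ => mg_pm hw t f) (fun _ => mg_pm hw t g) x

theorem Kf_sub (hw : Wt w) (f g : Ω → ℝ) :
    Kf φ w t (fun x => f x - g x) = fun x => Kf φ w t f x - Kf φ w t g x := by
  ext x; simp only [Kf, mean_sub]; exact Pm_sub (fun _ => mg_pm hw t f) (fun _ => mg_pm hw t g) x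

theorem Kf_const_mul (c : ℝ) (g : Ω → ℝ) :
    Kf φ w t (fun x => c * g x) = fun x => c * Kf φ w t g x := by
  ext x; simp only [Kf, mean_const_mul]; exact Pm_mul (fun _ => c) _ x

theorem Kf_sum (hw : Wt w) {σ : Type*} (S : Finset σ) (g : σ → Ω → ℝ) :
    Kf φ w t (fun x => ∑ k ∈ S, g k x) = fun x => ∑ k ∈ S, Kf φ w t (g k) x := by
  ext x; simp only [Kf, mean_sum]; exact Pm_sum S (fun k _ _ => mg_pm hw t (g k)) x

theorem Kf_mono (hw : Wt w) (h : ∀ x, f x ≤ g x) (x : Ω) : Kf φ w t f x ≤ Kf φ w t g x :=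
  Pm_mono (fun _ => mg_pm hw t f) (fun _ => mg_pm hw t g) fun _ => (hw.post _ _ _).mean_mono h

theorem Kf_nonneg (hw : Wt w) (h : ∀ x, 0 ≤ g x) (x : Ω) : 0 ≤ Kf φ w t g x :=
  Pm_nonneg fun _ => (hw.post _ _ _).mean_nonneg h

theorem abs_Kf_sub_le (hw : Wt w) {c B : ℝ} (h : ∀ x, |g x - c| ≤ B) (x : Ω) :
    |Kf φ w t g x - c| ≤ B := by
  have h1 := Kf_mono (φ := φ) (t := t) hw (f := g) (g := fun _ => c + B)
    (fun x => by linarith [(abs_le.1 (h x)).2]) x
  have h2 := Kf_mono (φ := φ) (t := t) hw (g := g) (f := fun _ => c - B)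
    (fun x => by linarith [(abs_le.1 (h x)).1]) x
  rw [Kf_const hw] at h1 h2
  exact abs_le.2 ⟨by linarith, by linarith⟩

theorem mean_sub_sq_le (hw : Wt w) (g : Ω → ℝ) (c : ℝ) :
    (mean w g - c) ^ 2 ≤ mean w fun x => (g x - c) ^ 2 := by
  have := hw.isP.mean_sq_le fun x => g x - c
  rw [show Chain22.mean (prob w) (fun x => g x - c) = mean w g - c from
    (mean_sub w g fun _ => c).trans (by rw [hw.mean_const])] at this
  simpa only [Chain22.ip, mean, sq] using this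

/-- Jensen -/
theorem Kf_sq_le (hw : Wt w) (g : Ω → ℝ) (c : ℝ) (x : Ω) :
    (Kf φ w t g x - c) ^ 2 ≤ Kf φ w t (fun x => (g x - c) ^ 2) x := by
  have m := (mg_pm (φ := φ) hw t g).sub (.const c)
  have h1 := Pm_sq_le (φ := φ) (t := t) (fun _ : Ω => m) x
  rw [Pm_sub (fun _ => mg_pm hw t g) fun _ => .const c, Pm_fun] at h1
  exact h1.trans (Pm_mono (fun _ => mg_sq m) (fun _ => mg_pm hw t _)
    fun _ => mean_sub_sq_le (hw.post _ _ _) g c)

/-- explained variance -/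
def Vx (φ : Ω → ι → ℝ) (w : Ω → ℝ) (t : ℝ) (g : Ω → ℝ) : ℝ :=
  slE φ w t fun _ u => (mean (post φ w t u) g - mean w g) ^ 2

theorem var_split (hw : Wt w) (ht : 0 ≤ t) (g : Ω → ℝ) :
    var w g = Vx φ w t g + slE φ w t fun _ u => var (post φ w t u) g := by
  rw [Vx, ← slE_add (.of_mg fun _ => mg_sq ((mg_pm hw t g).sub (.const _)))
    (.of_mg fun _ => mg_pvar hw t g), show var w g = mean w fun x => (g x - mean w g) ^ 2 from rfl,
    ← slE_fun (φ := φ) (s := t), bayes hw ht (.of_mg fun _ => .const _)]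
  congr 1; ext _ u
  have hp := hw.post φ t u
  generalize post φ w t u = p at *
  have e : ∀ x, (g x - mean w g) ^ 2 = (mean p g - mean w g) ^ 2 + ((g x - mean p g) ^ 2 +
      2 * (mean p g - mean w g) * (g x - mean p g)) := fun x => by ring
  simp only [e, mean_add, mean_const_mul, mean_sub, hp.mean_const, sub_self, mul_zero, add_zero]
  rfl

theorem var_Kf_le (hw : Wt w) (ht : 0 ≤ t) (g : Ω → ℝ) : var w (Kf φ w t g) ≤ Vx φ w t g := by
  rw [show var w (Kf φ w t g) = mean w fun x => (Kf φ w t g x - mean w (Kf φ w t g)) ^ 2 from rfl,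
    mean_Kf hw ht]
  exact mean_Pm_sub_sq_le hw (fun _ => mg_pm hw t g) fun _ => mean w g

theorem cov_Kf (hw : Wt w) (ht : 0 ≤ t) (g : Ω → ℝ) : cov w g (Kf φ w t g) = Vx φ w t g := by
  have := mean_mul_Kf (φ := φ) hw ht (fun x => g x - mean w g) fun x => g x - mean w g
  simp only [Kf_sub hw, Kf_const hw, mean_sub, (hw.post _ _ _).mean_const, ← sq] at this
  rw [Vx, ← this, cov_eq_mean, mean_Kf hw ht]

end kernel

section gap

variable {n : ℕ} {ι : Type*} [Fintype ι] [DecidableEq ι] {φ : Cube n → ι → ℝ} {lam t K δ : ℝ}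
  {w g : Cube n → ℝ}

/-- pointwise smoothing: `|∇ K g|² ≤ C K (g - c)²` -/
theorem FG.grad_Kf (h : FG φ lam) (hw : Wt w) (ht : 0 ≤ t) (g : Cube n → ℝ) (c : ℝ) (x : Cube n) :
    grad (Kf φ w t g) x ⬝ᵥ grad (Kf φ w t g) x ≤ Ga t lam * Kf φ w t (fun x => (g x - c) ^ 2) x :=
  (h.grad_le ht (mg_pm hw t g) c x).trans (mul_le_mul_of_nonneg_left
    (Pm_mono (fun _ => mg_sq ((mg_pm hw t g).sub (.const c))) (fun _ => mg_pm hw t _)
      fun _ => mean_sub_sq_le (hw.post _ _ _) g c) (Ga_nonneg ht h.1))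

theorem FG.mean_grad_Kf (h : FG φ lam) (hw : Wt w) (ht : 0 ≤ t) (g : Cube n → ℝ) :
    mean w (fun x => grad (Kf φ w t g) x ⬝ᵥ grad (Kf φ w t g) x) ≤
      Ga t lam * slE φ w t fun _ u => var (post φ w t u) g := by
  rw [← slE_var hw ht, slE_eq_Pm, ← mean_const_mul]
  exact hw.mean_mono fun x => h.grad_le ht (mg_pm hw t g) (g x) x

/-- **(Gap)** from a Poincaré inequality, with a defect, for the function `K g` -/
theorem FG.gap (h : FG φ lam) (hw : ∀ x, 0 < w x) (ht : 0 ≤ t) (hK : 0 ≤ K) {ε : ℝ}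
    (hP : var w (Kf φ w t g) ≤ K * dir w (Kf φ w t g) + ε) :
    (1 + K * Ga t lam) * var w (Kf φ w t g) ≤ K * Ga t lam * var w g + ε := by
  have W := Wt.of_pos hw
  have h1 := mul_le_mul_of_nonneg_left ((dir_le_grad hw _).trans (h.mean_grad_Kf W ht g)) hK
  have h2 := mul_le_mul_of_nonneg_left (var_Kf_le (φ := φ) W ht g)
    (mul_nonneg hK (Ga_nonneg ht h.1))
  rw [var_split (φ := φ) W ht g]
  linarith

theorem abs_iter_le (hw : Wt w) {c B : ℝ} (hg : ∀ x, |g x - c| ≤ B) (k : ℕ) (x : Cube n) :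
    |(Kf φ w t)^[k] g x - c| ≤ B := by
  induction k generalizing x with
  | zero => exact hg x
  | succ k ih => rw [Function.iterate_succ_apply']; exact abs_Kf_sub_le hw ih x

theorem mean_iter (hw : Wt w) (ht : 0 ≤ t) (g : Cube n → ℝ) (k : ℕ) :
    mean w ((Kf φ w t)^[k] g) = mean w g := by
  induction k with
  | zero => rfl
  | succ k ih => rw [Function.iterate_succ_apply', mean_Kf hw ht, ih]

/-- **(Gap)** for the iterates, under approximate tensorisation with a defect -/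
theorem FG.gap_iter (h : FG φ lam) (hw : ∀ x, 0 < w x) (ht : 0 ≤ t) (hK : 0 ≤ K) (hδ : 0 ≤ δ)
    (hA : Atd.ATd w K δ) {c B : ℝ} (hg : ∀ x, |g x - c| ≤ B) (k : ℕ) :
    var w ((Kf φ w t)^[k] g) ≤
      (1 - (1 + K * Ga t lam)⁻¹) ^ k * var w g + 2 * δ * B ^ 2 := by
  have C0 : 0 ≤ K * Ga t lam := mul_nonneg hK (Ga_nonneg ht h.1)
  have e0 : 0 ≤ 2 * δ * B ^ 2 := by positivity
  induction k with
  | zero => simpa using e0
  | succ k ih =>
    have h1 := h.gap (g := (Kf φ w t)^[k] g) hw ht hK (hA.poinc hw hK hδ _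
      (abs_Kf_sub_le (Wt.of_pos hw) (abs_iter_le (Wt.of_pos hw) hg k)))
    rw [Function.iterate_succ_apply']
    refine le_of_mul_le_mul_left (h1.trans ?_) (show 0 < 1 + K * Ga t lam by positivity)
    have e : (1 + K * Ga t lam) * (1 - (1 + K * Ga t lam)⁻¹) = K * Ga t lam := by
      field_simp; ring
    rw [pow_succ' _ k, mul_add, mul_assoc (1 - _), ← mul_assoc (1 + _), e]
    linarith [mul_le_mul_of_nonneg_left ih C0]

/-- the posterior of the Hubbard–Stratonovich channel is a product measure -/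
theorem prob_post_hs {R : Matrix ι (Fin n) ℝ} {J : Matrix (Fin n) (Fin n) ℝ} {c : ℝ}
    (h : t • (Rᵀ * R) = J + c • (1 : Matrix (Fin n) (Fin n) ℝ)) (y : Fin n → ℝ) (u : ι → ℝ) :
    prob (post (fun x => R *ᵥ sv x) (ising J y) t u) = prob (ising 0 (y + Rᵀ *ᵥ u)) := by
  have e : ∀ x, post (fun x => R *ᵥ sv x) (ising J y) t u x =
      exp (-(c * n / 2)) * ising 0 (y + Rᵀ *ᵥ u) x := fun x => by
    have e1 : t * ((R *ᵥ sv x) ⬝ᵥ (R *ᵥ sv x)) = sv x ⬝ᵥ J *ᵥ sv x + c * n := by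
      have := congrArg (fun M => sv x ⬝ᵥ M *ᵥ sv x) h
      simp only [smul_mulVec, add_mulVec, one_mulVec, dotProduct_add, dotProduct_smul,
        smul_eq_mul, ← mulVec_mulVec, dotProduct_mulVec _ Rᵀ, vecMul_transpose] at this
      rw [this]; simp [dotProduct, sv_mul_self]
    rw [post, ising, ising, ← exp_add, ← exp_add, add_dotProduct, dotProduct_mulVec u,
      mulVec_transpose, zero_mulVec, dotProduct_zero]
    congr 1; linear_combination (-1 / 2 : ℝ) * e1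
  ext x
  simp only [prob, e, ← Finset.mul_sum]
  exact mul_div_mul_left _ _ (exp_pos _).ne'

theorem mean_post_hs {R : Matrix ι (Fin n) ℝ} {J : Matrix (Fin n) (Fin n) ℝ} {c : ℝ}
    (h : t • (Rᵀ * R) = J + c • (1 : Matrix (Fin n) (Fin n) ℝ)) (y : Fin n → ℝ) (u : ι → ℝ)
    (f : Cube n → ℝ) :
    mean (post (fun x => R *ᵥ sv x) (ising J y) t u) f = mean (ising 0 (y + Rᵀ *ᵥ u)) f := by
  simp only [mean, prob_post_hs h]

end gap

end Crest.Agent.T157.Kc

end
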