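import Crest.Agent.T157.RvDef_32

/-!
# Row 157, part B (helper85): the words of the collective lower bound
-/

set_option autoImplicit false

noncomputable section

namespace Crest.Agent.T157.Low

open Matrix Real
open Crest.ProbabilityR.SpinGlassDynamics
open Crest.Agent.T157.E Crest.Agent.T157.Top
open Crest.Agent.T157.Chain22 (sg)
open Crest.Agent.T157.Rec (grad)
open Crest.Agent.T157.Rv (Warm)

variable {n : ℕ}

/-- carré du champ; `mean w (Gm w F G) = dir2 w F G` -/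
def Gm (w F G : Cube n → ℝ) (x : Cube n) : ℝ :=
  n / 2 * ∑ y, hb w x y * ((F x - F y) * (G x - G y))

/-- the part of `Gm w F F` carried by the jumps of size more than `η` -/
def Ex (w F : Cube n → ℝ) (η : ℝ) (x : Cube n) : ℝ :=
  n / 2 * ∑ y, hb w x y * if η < |F x - F y| then (F x - F y) ^ 2 else 0

/-- combinations of `P_u Φ`, `u ∈ [lo, hi]`, with weights of total size at most `A` -/
def Cl (w Φ : Cube n → ℝ) (lo hi A : ℝ) (G : Cube n → ℝ) : Prop :=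
  ∃ (ι : Type) (_ : Fintype ι) (c u : ι → ℝ), (∀ i, lo ≤ u i ∧ u i ≤ hi) ∧ ∑ i, |c i| ≤ A ∧
    ∀ x, G x = ∑ i, c i * sg w (u i) Φ x

/-- a regular collective observable with Rayleigh quotient at most `ρ` -/
structure Col (w Φ : Cube n → ℝ) (ρ Lp W m k η : ℝ) : Prop where
  mean0 : mean w Φ = 0
  lip : ∀ x, grad Φ x ⬝ᵥ grad Φ x ≤ Lp
  sup : ∀ x, |Φ x| ≤ √n * Lp
  var_ge : Lp⁻¹ ≤ var w Φ
  ray : dir w Φ ≤ ρ * var w Φ
  ex : ∀ f, Warm w m f → mean w (fun x => f x * Ex w Φ η x) ≤ k ^ 2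
  rg : ∀ f, Warm w m f → ∀ A G, Cl w Φ 0 W A G →
    mean w (fun x => f x * |Gm w G G x - dir w G|) ≤ A ^ 2 * k ^ 2

/-- **(LC)** a slow collective observable, regular up to time `δ log n` -/
def LBC (β lam : ℝ) : Prop := ∀ c > (0 : ℝ), ∃ δ > (0 : ℝ), ∃ c' > (0 : ℝ), ∀ e > (0 : ℝ),
  Whp disorderLaw fun n g => ∃ Φ, Col (gibbsWeight n β g) Φ (lam + e) ((n : ℝ) ^ e) (δ * log n)
    ((n : ℝ) ^ (1 - c)) ((n : ℝ) ^ (-c')) ((n : ℝ) ^ (c - 1 / 2))

/-- **(UWs)** entropy decay from warm starts, proportional to the initial entropy -/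
def UWs (β lam : ℝ) : Prop := ∀ c > (0 : ℝ), ∀ e > (0 : ℝ), Whp disorderLaw fun n g =>
  ∀ f, Warm (gibbsWeight n β g) ((n : ℝ) ^ (1 - c)) f → ∀ t, 0 ≤ t → t ≤ tn lam n →
    ent (gibbsWeight n β g) (sg (gibbsWeight n β g) t f) ≤
      (n : ℝ) ^ e * (ent (gibbsWeight n β g) f * exp (-(2 * lam * t)) + 1)

end Crest.Agent.T157.Low

end
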