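import Crest.Agent.T157.RegDef_94
import Crest.Agent.T157.ClDef_85

/-!
# Row 157, part B (helper94): structural form of REG and the bridge to the collective lower bound
-/

set_option autoImplicit false

noncomputable section

namespace Crest.Agent.T157.Reg

open Matrix Real Filter Topology
open Crest.ProbabilityR.SpinGlassDynamics (disorderLaw gibbsWeight)
open Crest.Agent.T157.E hiding mean
open Crest.Agent.T157.Eig
open Crest.Agent.T157.Tap (V Mx)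
open Crest.Agent.T157.Rec (grad fl)
open Crest.Agent.T157.Chain22 (sg IsP mean)

variable {n : ℕ}

/-- `ω` is an odd field, bounded with bounded Jacobian, close to `grad Φ` at warm measures -/
structure Fld (w Φ : Cube n → ℝ) (ω : VF n) (e ρ H : ℝ) : Prop where
  odd : Odd ω
  sup : ∀ x i, |ω x i| ≤ e
  op : ∀ x, opn (jac ω x) ≤ e
  cl : ∀ v, Wm w H v → mean v (sq2 (grad Φ - ω)) ≤ ρ

/-- **REG, structural form**: `Fld` propagates along the semigroup -/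
def RegS : Prop := ∀ K > (0 : ℝ), ∃ C ≥ (1 : ℝ), ∀ (n : ℕ) (W : Mx n), 0 < n → Nice W K →
  Ent.AT (mu W) K 0 → ∀ (Φ : Cube n → ℝ) (ω0 : VF n) (e ρ H U L : ℝ), 0 < e → 0 ≤ U → 1 ≤ L →
  Fld (mu W) Φ ω0 e ρ H → ∀ (d : ℕ) (u α : Fin d → ℝ) (a : ℝ), (∀ j, 0 ≤ u j ∧ u j ≤ U) →
  ∑ j, |α j| ≤ a → ∀ ε > (0 : ℝ), ∃ ω ω' : VF n,
    Fld (mu W) (fun x => ∑ j, α j * sg (mu W) (u j) Φ x) ω (C * L * exp (C * U) * a * e)
      (C * exp (C * U) * a ^ 2 * (ρ + n * e ^ 2 / L ^ 2 + L ^ 2 * e ^ 2 * H) + ε) H ∧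
    mean (prob (mu W)) (fun x => ∑ k, ω' x k ^ 4) ≤ C * exp (C * U) * a ^ 4 * (n * e ^ 4) ∧
    mean (prob (mu W)) (sq2 (ω - ω')) ≤ C * exp (C * U) * a ^ 2 * (n * e ^ 2 / L ^ 2)

/-- two-sided concentration of the carré du champ; large jumps -/
def RgStmt : Prop := ∀ K > (0 : ℝ), ∃ C ≥ (1 : ℝ), ∀ (n : ℕ) (W : Mx n), 0 < n → Nice W K →
  Ent.AT (mu W) K 0 → ∀ (G : Cube n → ℝ) (ω : VF n) (e ρ H : ℝ), Fld (mu W) G ω e ρ H →
  ∀ v, Wm (mu W) H v →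
  (∀ N, mean (prob (mu W)) (sq2 ω) ≤ N → mean v (fun x => |Low.Gm (mu W) G G x - dir (mu W) G|) ≤
    C * (ρ + √(ρ * (N + e ^ 2 * H)) + e ^ 2 * √(n * (H + 1)))) ∧
  ∀ η, 4 * e ≤ η → mean v (Low.Ex (mu W) G η) ≤ 8 * ρ

/-- a slow collective observable with a regular field -/
def LBF (β lam : ℝ) : Prop := ∀ c > (0 : ℝ), ∃ c' > (0 : ℝ), ∀ e > (0 : ℝ),
  Top.Whp disorderLaw fun n g => ∃ (Φ : Cube n → ℝ) (ω : VF n),
    E.mean (gibbsWeight n β g) Φ = 0 ∧ (∀ x, grad Φ x ⬝ᵥ grad Φ x ≤ (n : ℝ) ^ e) ∧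
    (∀ x, |Φ x| ≤ √n * (n : ℝ) ^ e) ∧ ((n : ℝ) ^ e)⁻¹ ≤ var (gibbsWeight n β g) Φ ∧
    dir (gibbsWeight n β g) Φ ≤ (lam + e) * var (gibbsWeight n β g) Φ ∧
    Fld (gibbsWeight n β g) Φ ω ((n : ℝ) ^ (e - 1 / 2)) ((n : ℝ) ^ (-c')) ((n : ℝ) ^ (1 - c))

def RegSGlue : Prop := ToolStmt → BasStmt → JbStmt → BoStmt → OpStmt → S4Stmt → ClStmt → SbStmt →
  P4Stmt → RegS
def RegOfS : Prop := BasStmt → SbStmt → P4Stmt → RegS → RegStmt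
def RgGlue : Prop := ToolStmt → BasStmt → CoefStmt → SbStmt → RgStmt
def ColGlue : Prop := RegS → RgStmt → NiceStmt → Rv.At0 →
  ∀ β lam : ℝ, 0 ≤ β → β < 1 → LBF β lam → Low.LBC β lam

end Crest.Agent.T157.Reg

end
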