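import Crest.Agent.T157.S3Hb_80
import Crest.Agent.T157.AtD_39

/-!
# Row 157, block B/S3, section 0 (helper39): (H1)–(H3), (TR) from tensorisation with a defect

Same names as in `S3Hb_80`, the hypothesis being `AD w K ε`.
-/

set_option autoImplicit false
set_option linter.unusedSectionVars false

noncomputable section

namespace Crest.Agent.T157.S3.Hd

open Finset Matrix Function Filter Topology Real
open Crest.Agent.T157.Chain22 Crest.Agent.T157.Ent
open Crest.Agent.T157.E (Cube prob siteM dir sv)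
open Crest.Agent.T157.Rec (grad fl)
open Crest.Agent.T157.Atd (ATd)
open Crest.Agent.T157.S3.Hb (Vp Dw Gam OpL Vp_nonneg Vp_le_grad Vp_const_mul kl0 acw dsn mean_neg'
  grad_neg_dot sub_le_of_lmgf le_two_sqrt herbst_fun tl mean_tl isP_tl kl_tl dir_eq_Gam dir_le_Vp
  Gam_le Vp_sq max_sq_le)

variable {n : ℕ} {w ν F Z R : Cube n → ℝ} {K ε A L c θ : ℝ} {κ : Type*} [Fintype κ]

/-- the working hypothesis -/
def AD (w : Cube n → ℝ) (K ε : ℝ) : Prop := ∃ K₀ k : ℝ, 0 ≤ K₀ ∧ 0 < k ∧ K₀ + 32 / k ≤ K ∧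
  5120 * n ^ 2 * exp (-(k * n / 2)) ≤ ε ∧ ATd w K₀ (exp (-(k * n)))

theorem AD.pos (h : AD w K ε) : 0 < K := by
  obtain ⟨K₀, k, h0, h1, h2, -, -⟩ := h
  have : 0 < 32 / k := by positivity
  linarith

theorem AD.nn (h : AD w K ε) : 0 ≤ ε := by
  obtain ⟨K₀, k, -, -, -, h3, -⟩ := h
  exact le_trans (by positivity) h3

theorem AD.mono {K' ε' : ℝ} (h : AD w K ε) (hK : K ≤ K') (hε : ε ≤ ε') : AD w K' ε' := by
  obtain ⟨K₀, k, h0, h1, h2, h3, h4⟩ := h
  exact ⟨K₀, k, h0, h1, h2.trans hK, h3.trans hε, h4⟩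

/-- along a filter: one constant, superpolynomially small defect -/
theorem ev_ad {I : Type*} {l : Filter I} {N : I → ℕ} (hN : Tendsto N l atTop)
    {W : ∀ i, Cube (N i) → ℝ} {K₀ k : ℝ} (h0 : 0 ≤ K₀) (hk : 0 < k)
    (h : ∀ᶠ i in l, ATd (W i) K₀ (exp (-(k * N i)))) (p : ℕ) :
    ∀ᶠ i in l, AD (W i) (K₀ + 32 / k) (1 / (N i : ℝ) ^ p) := by
  have t1 : Tendsto (fun i => (N i : ℝ)) l atTop := tendsto_natCast_atTop_atTop.comp hN
  have t2 := ((tendsto_pow_mul_exp_neg_atTop_nhds_zero (p + 2)).comp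
    (t1.const_mul_atTop (half_pos hk))).const_mul (5120 / (k / 2) ^ (p + 2))
  filter_upwards [h, t2.eventually_le_const (u := 1) (by simp), t1.eventually_gt_atTop 0] with
    i h1 h2 h3
  refine ⟨K₀, k, h0, hk, le_rfl, ?_, h1⟩
  rw [le_div_iff₀ (by positivity)]
  refine le_of_eq_of_le ?_ h2
  simp only [Function.comp_apply]
  rw [show k * (N i : ℝ) / 2 = k / 2 * N i by ring, mul_pow]
  field_simp
  ring

theorem osc (hA : ∀ x, Vp F x ≤ A) (x y : Cube n) : F x - F y ≤ 2 * √A * √n :=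
  Atd.osc (sqrt_nonneg A) (fun x => (hA x).trans_eq
    (sq_sqrt ((Vp_nonneg F x).trans (hA x))).symm) x y

theorem sub_mean_le (hw : ∀ x, 0 < w x) {Ω : ℝ} (h : ∀ x y, F x - F y ≤ Ω) (x : Cube n) :
    |F x - mean (prob w) F| ≤ Ω := by
  have hp := isP_prob' hw
  have a : mean (prob w) (fun _ => F x - Ω) ≤ mean (prob w) F :=
    hp.mean_mono fun y => by linarith [h x y]
  have b : mean (prob w) F ≤ mean (prob w) fun _ => F x + Ω :=
    hp.mean_mono fun y => by linarith [h y x]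
  rw [hp.mean_const] at a b
  exact abs_le.2 ⟨by linarith, by linarith⟩

/-- exponentials: the defect is `η Ω²` -/
theorem AD.expo (h : AD w K ε) (hw : ∀ x, 0 < w x) : ∃ η : ℝ, 0 ≤ η ∧ 20480 * n ^ 2 * η ≤ ε ∧
    512 * n ^ 2 * η ≤ K ^ 2 ∧ ∀ (g : Cube n → ℝ) (G : Cube n → Fin n → ℝ) (Ω : ℝ),
      (∀ x y, g x - g y ≤ Ω) → K * Ω ≤ 16 * n →
      (∀ j, entS w (fun x => exp (g x)) j ≤ mean (prob w) fun x => exp (g x) * G x j) →
      ent (prob w) (fun x => exp (g x)) ≤ K * mean (prob w) (fun x => exp (g x) * ∑ j, G x j) +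
        η * Ω ^ 2 * mean (prob w) fun x => exp (g x) := by
  have K0 := h.pos
  obtain ⟨K₀, k, h0, h1, h2, h3, h4⟩ := h
  have n0 : (0 : ℝ) ≤ n := n.cast_nonneg
  have kK : 32 ≤ K * k := (div_le_iff₀ h1).1 (by linarith)
  refine ⟨exp (-(k * n / 2)) / 4, by positivity, by linarith, ?_, fun g G Ω hΩ hK hG => ?_⟩
  · have a := mul_le_mul_of_nonneg_right (pow_div_factorial_le_exp (k * n / 2) (by positivity) 2)
      (exp_pos (-(k * n / 2))).le
    rw [← exp_add, add_neg_cancel, exp_zero] at a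
    have b := pow_le_pow_left₀ (by norm_num) kK 2
    have e0 : 0 ≤ (n : ℝ) ^ 2 * exp (-(k * n / 2)) := by positivity
    norm_num [Nat.factorial] at a b
    refine le_of_mul_le_mul_right ?_ (pow_pos h1 2)
    nlinarith
  · have a := (h4.mono hw (K' := K) (by have : 0 < 32 / k := by positivity
                                        linarith) le_rfl).expo hw (exp_pos _).le hΩ
    have m0 := (mean_exp_pos (isP_prob' hw) g).le
    have b : Ω ≤ k * n / 2 := by
      refine le_of_mul_le_mul_left (hK.trans ?_) K0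
      nlinarith [mul_le_mul_of_nonneg_right kK n0]
    have d : exp (-(k * n)) * exp Ω ≤ exp (-(k * n / 2)) := by
      rw [← exp_add]; exact exp_le_exp.2 (by linarith)
    refine a.trans (add_le_add (mul_le_mul_of_nonneg_left ((sum_le_sum fun j _ => hG j).trans_eq ?_)
      K0.le) (mul_le_mul_of_nonneg_right ?_ m0))
    · simp only [mul_sum, mean_sum']
    · nlinarith [mul_le_mul_of_nonneg_left d (sq_nonneg Ω)]

theorem entS_Vp (hw : ∀ x, 0 < w x) (g : Cube n → ℝ) (j : Fin n) :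
    entS w (fun x => exp (g x)) j ≤
      mean (prob w) fun x => exp (g x) * max (g x - g (fl x j)) 0 ^ 2 :=
  Hb.entS_exp_le hw g _ j fun x => by
    simp only [Hb.fl_update, Bool.not_true, Bool.not_false]
    exact Hb.two_A (cnd_pos hw _ _ _).le (cnd_pos hw _ _ _).le (Hb.cnd_add hw j x) _ _

/-- Poincare inequality, oscillation form -/
theorem AD.poinc (h : AD w K ε) (hw : ∀ x, 0 < w x) (g : Cube n → ℝ) {m Ω a : ℝ}
    (hΩ : ∀ x, |g x - m| ≤ Ω) (a0 : 0 ≤ a) (ha : Ω ^ 2 ≤ 2560 * n ^ 2 * a) :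
    var (prob w) g ≤ K * dir w g + ε * a := by
  obtain ⟨K₀, k, h0, h1, h2, h3, h4⟩ := h
  have k0 : 0 < 32 / k := by positivity
  have n0 : (0 : ℝ) ≤ n := n.cast_nonneg
  refine (h4.poinc hw h0 (exp_pos _).le g hΩ).trans (add_le_add
    (mul_le_mul_of_nonneg_right (by linarith) (dir_nonneg hw g)) ?_)
  have e : exp (-(k * n)) ≤ exp (-(k * n / 2)) := exp_le_exp.2 (by nlinarith)
  nlinarith [mul_le_mul_of_nonneg_right h3 a0, mul_le_mul e ha (sq_nonneg _) (exp_pos _).le]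

theorem n_le_sq (n : ℕ) : (n : ℝ) ≤ n ^ 2 := by exact_mod_cast Nat.le_self_pow two_ne_zero n

theorem osc_sq (hA : 0 ≤ A) : (2 * √A * √n) ^ 2 = 4 * A * n := by
  rw [mul_pow, mul_pow, sq_sqrt hA, sq_sqrt n.cast_nonneg]; norm_num

/-! ### (H1) -/

theorem lmgf_le (hw : ∀ x, 0 < w x) (h : AD w K ε) (hA : ∀ x, Vp F x ≤ A) {t : ℝ} (ht : 0 ≤ t) :
    lmgf (prob w) F t ≤ t * mean (prob w) F + K * A * t ^ 2 := by
  obtain ⟨K₀, k, h0, h1, h2, -, h4⟩ := h
  have A0 := (Vp_nonneg F default).trans (hA _)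
  have := h4.lmgf_le hw h0 h1 (sqrt_nonneg A) (G := F)
    (fun x => (hA x).trans_eq (sq_sqrt A0).symm) ht
  rw [sq_sqrt A0] at this
  refine this.trans (add_le_add le_rfl (mul_le_mul_of_nonneg_right
    (mul_le_mul_of_nonneg_right (le_trans ?_ h2) A0) (sq_nonneg t)))
  gcongr; norm_num

theorem mgf_le (hw : ∀ x, 0 < w x) (h : AD w K ε) (hA : ∀ x, Vp F x ≤ A) {t : ℝ} (ht : 0 ≤ t) :
    mean (prob w) (fun x => exp (t * F x)) ≤ exp (t * mean (prob w) F + K * A * t ^ 2) :=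
  (log_le_iff_le_exp (mean_exp_pos (isP_prob' hw) _)).1 (lmgf_le hw h hA ht)

theorem h1_theta (hw : ∀ x, 0 < w x) (h : AD w K ε) (hA : ∀ x, Vp F x ≤ A) (hν : IsP ν)
    (hθ : 0 < θ) : mean ν F - mean (prob w) F ≤ kl ν (prob w) / θ + K * A * θ :=
  sub_le_of_lmgf hw hν hθ (lmgf_le hw h hA hθ.le)

theorem h1 (hw : ∀ x, 0 < w x) (h : AD w K ε) (hA : ∀ x, Vp F x ≤ A) (hν : IsP ν) :
    mean ν F - mean (prob w) F ≤ 2 * √(K * A * kl ν (prob w)) :=
  le_two_sqrt (kl0 hw hν) (mul_nonneg h.pos.le ((Vp_nonneg F default).trans (hA _))) fun _ hθ =>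
    h1_theta hw h hA hν hθ

theorem mgf_le_grad (hw : ∀ x, 0 < w x) (h : AD w K ε) (hA : ∀ x, grad F x ⬝ᵥ grad F x ≤ A)
    (t : ℝ) :
    mean (prob w) (fun x => exp (t * F x)) ≤ exp (t * mean (prob w) F + 4 * K * A * t ^ 2) := by
  rcases le_total 0 t with ht | ht
  · exact (mgf_le hw h (A := 4 * A) (fun x => (Vp_le_grad F x).trans (by linarith [hA x]))
      ht).trans_eq (by ring_nf)
  · have := mgf_le hw h (F := fun x => -1 * F x) (A := 4 * A) (fun x => (Vp_le_grad _ x).trans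
      (by rw [grad_neg_dot]; linarith [hA x])) (neg_nonneg.2 ht)
    rw [mean_neg'] at this
    exact (mean_congr fun x => by ring_nf).trans_le (this.trans_eq (by ring_nf))

theorem h1_abs_theta (hw : ∀ x, 0 < w x) (h : AD w K ε) (hA : ∀ x, grad F x ⬝ᵥ grad F x ≤ A)
    (hν : IsP ν) (hθ : 0 < θ) :
    |mean ν F - mean (prob w) F| ≤ kl ν (prob w) / θ + 4 * K * A * θ := by
  have a := h1_theta hw h (A := 4 * A) (fun x => (Vp_le_grad F x).trans (by linarith [hA x])) hν hθ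
  have b := h1_theta hw h (F := fun x => -1 * F x) (A := 4 * A)
    (fun x => (Vp_le_grad _ x).trans (by rw [grad_neg_dot]; linarith [hA x])) hν hθ
  rw [mean_neg', mean_neg'] at b
  exact abs_le.2 ⟨by linarith, by linarith⟩

theorem h1_sq (hw : ∀ x, 0 < w x) (h : AD w K ε) (hA : ∀ x, grad F x ⬝ᵥ grad F x ≤ A)
    (hν : IsP ν) : (mean ν F - mean (prob w) F) ^ 2 ≤ 16 * K * A * kl ν (prob w) := by
  have K0 := h.pos
  have a0 : 0 ≤ 4 * K * A := mul_nonneg (by positivity) ((dsn _).trans (hA default))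
  have := pow_le_pow_left₀ (abs_nonneg _) (le_two_sqrt (kl0 hw hν) a0 fun _ hθ =>
    h1_abs_theta hw h hA hν hθ) 2
  rw [sq_abs, mul_pow, sq_sqrt (mul_nonneg a0 (kl0 hw hν))] at this
  linarith

/-! ### Poincare -/

/-- sup form, no defect -/
theorem var_le_sup (hw : ∀ x, 0 < w x) (h : AD w K ε) (hA : ∀ x, Vp F x ≤ A) :
    var (prob w) F ≤ K * A := by
  obtain ⟨K₀, k, h0, h1, h2, -, h4⟩ := h
  have hp := isP_prob' hw
  have A0 := (Vp_nonneg F default).trans (hA _)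
  have a := h4.poinc hw h0 (exp_pos _).le F (sub_mean_le hw (osc hA))
  have b := (dir_le_Vp hw F).trans ((hp.mean_mono hA).trans_eq (hp.mean_const A))
  have d : 8 * (n * exp (-(k * n))) ≤ 32 / k := by
    have := mul_le_mul_of_nonneg_right (add_one_le_exp (k * n)) (exp_pos (-(k * n))).le
    rw [← exp_add, add_neg_cancel, exp_zero] at this
    rw [le_div_iff₀ h1]
    nlinarith [exp_pos (-(k * n))]
  rw [osc_sq A0] at a
  refine a.trans ?_
  nlinarith [mul_le_mul_of_nonneg_left b h0, mul_le_mul_of_nonneg_right d A0,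
    mul_le_mul_of_nonneg_right h2 A0]

theorem var_le_dir (hw : ∀ x, 0 < w x) (h : AD w K ε) (hA : ∀ x, Vp F x ≤ 4 * A) :
    var (prob w) F ≤ K * dir w F + ε * A := by
  have A0 := (Vp_nonneg F default).trans (hA _)
  refine h.poinc hw F (sub_mean_le hw (osc hA)) (by linarith) ?_
  rw [osc_sq A0]
  nlinarith [mul_le_mul_of_nonneg_left (n_le_sq n) A0, mul_nonneg A0 (sq_nonneg (n : ℝ))]

theorem vp4 (hA : ∀ x, grad F x ⬝ᵥ grad F x ≤ A) (x : Cube n) : Vp F x ≤ 4 * A :=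
  (Vp_le_grad F x).trans (by linarith [hA x])

theorem var_le_Gam (hw : ∀ x, 0 < w x) (h : AD w K ε) (hA : ∀ x, grad F x ⬝ᵥ grad F x ≤ A) :
    var (prob w) F ≤ K * mean (prob w) (Gam w F) + ε * A :=
  dir_eq_Gam hw F ▸ var_le_dir hw h (vp4 hA)

theorem var_le_Vp (hw : ∀ x, 0 < w x) (h : AD w K ε) (hA : ∀ x, Vp F x ≤ 4 * A) :
    var (prob w) F ≤ K * mean (prob w) (Vp F) + ε * A :=
  (var_le_dir hw h hA).trans
    (add_le_add (mul_le_mul_of_nonneg_left (dir_le_Vp hw F) h.pos.le) le_rfl)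

theorem var_le_grad (hw : ∀ x, 0 < w x) (h : AD w K ε) (hA : ∀ x, grad F x ⬝ᵥ grad F x ≤ A) :
    var (prob w) F ≤ K * mean (prob w) (fun x => grad F x ⬝ᵥ grad F x) + ε * A :=
  (var_le_Gam hw h hA).trans (add_le_add
    (mul_le_mul_of_nonneg_left ((isP_prob' hw).mean_mono (Gam_le hw F)) h.pos.le) le_rfl)

/-! ### (H2) -/

theorem Vp_up (F : Cube n → ℝ) (m : ℝ) (x : Cube n) :
    Vp (fun x => max (F x - m) 0 ^ 2) x ≤ 4 * Vp F x * max (F x - m) 0 ^ 2 := by
  simp only [Vp, mul_sum, sum_mul]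
  refine sum_le_sum fun j _ => (max_sq_le
    (b := 2 * max (F x - F (fl x j)) 0 * max (F x - m) 0) ?_).trans_eq (by ring)
  have a := le_max_left (F (fl x j) - m) 0
  have b := le_max_left (F x - F (fl x j)) 0
  have d := le_max_right (F x - F (fl x j)) 0
  rcases le_total (F x - m) 0 with h0 | h0
  · rw [max_eq_right h0]; nlinarith [sq_nonneg (max (F (fl x j) - m) 0)]
  · rw [max_eq_left h0]
    nlinarith [sq_nonneg (F x - m - max (F (fl x j) - m) 0), mul_le_mul_of_nonneg_left a h0,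
      mul_le_mul_of_nonneg_left b h0]

/-- upper deviations under any law -/
theorem up_sq (hw : ∀ x, 0 < w x) (h : AD w K ε) (hA : ∀ x, Vp F x ≤ A) (hν : IsP ν) :
    mean ν (fun x => max (F x - mean (prob w) F) 0 ^ 2) ≤ 8 * K * A * kl ν (prob w) + 3 * K * A := by
  have hp := isP_prob' hw
  have K0 := h.pos
  have H0 := kl0 hw hν
  have n0 : (0 : ℝ) ≤ n := n.cast_nonneg
  set Z := fun x => max (F x - mean (prob w) F) 0 ^ 2 with hZ
  have z0 : ∀ x, 0 ≤ Z x := fun _ => sq_nonneg _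
  have A0 := (Vp_nonneg F default).trans (hA _)
  have z1 : ∀ x, Z x ≤ 4 * A * n := fun x => by
    rw [← osc_sq A0]; exact max_sq_le (abs_le.1 (sub_mean_le hw (osc hA) x)).2
  rcases A0.eq_or_lt with e | A1
  · refine (hν.mean_mono z1).trans ?_
    rw [hν.mean_const, ← e]; simp
  have m : mean (prob w) Z ≤ K * A :=
    (hp.mean_mono fun x => max_sq_le le_rfl).trans (var_le_sup hw h hA)
  obtain ⟨η, η0, -, η2, hE⟩ := h.expo hw
  have t0 : 0 < (2 * (4 * K * A))⁻¹ := by positivity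
  have e := herbst_fun hp Z (φ := fun u => 4 * K * A * lmgf (prob w) Z u + K ^ 2 * A ^ 2 / 32 * u)
    (fun u => ((hasDerivAt_lmgf hp Z u).const_mul _).add ((hasDerivAt_id u).const_mul _)) t0
    fun u hu hu' => by
    have M := mean_exp_pos hp fun x => u * Z x
    rw [lt_inv_comm₀ hu (by positivity), inv_eq_one_div, lt_div_iff₀ hu] at hu'
    refine (hE (fun x => u * Z x) _ (u * (4 * A * n)) (fun x y => by
      nlinarith [mul_le_mul_of_nonneg_left (z1 x) hu.le, mul_nonneg hu.le (z0 y)])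
      (by nlinarith [mul_le_mul_of_nonneg_right hu'.le n0]) (entS_Vp hw _)).trans ?_
    rw [mul_one, mul_add, add_mul, mul_assoc (u ^ 2), mul_assoc (4 * K * A), div_mul_cancel₀ _ M.ne']
    refine add_le_add ?_ (mul_le_mul_of_nonneg_right ?_ M.le)
    · rw [← mean_const_mul, ← mean_const_mul, ← mean_const_mul]
      refine hp.mean_mono fun x => ?_
      have a : ∑ j, max (u * Z x - u * Z (fl x j)) 0 ^ 2 ≤ u ^ 2 * (4 * A * Z x) :=
        (Vp_const_mul hu.le Z x).trans_le (mul_le_mul_of_nonneg_left ((Vp_up F _ x).trans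
          (mul_le_mul_of_nonneg_right (by linarith [hA x]) (z0 x))) (sq_nonneg u))
      nlinarith [mul_le_mul_of_nonneg_left a (mul_pos K0 (exp_pos (u * Z x))).le]
    · nlinarith [mul_le_mul_of_nonneg_left η2 (by positivity : 0 ≤ u ^ 2 * A ^ 2)]
  have f := mean_le_kl_theta hν hp (acw hw ν) Z t0
  have e' : K ^ 2 * A ^ 2 / 32 * (2 * (4 * K * A))⁻¹ = K * A / 256 := by field_simp; norm_num
  rw [lmgf_zero hp, div_inv_eq_mul, e'] at e
  rw [div_inv_eq_mul] at f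
  unfold lmgf at e
  nlinarith [mul_pos K0 A1]

/-- **(H2)** -/
theorem h2 (hw : ∀ x, 0 < w x) (h : AD w K ε) (h0 : ∀ x, 0 ≤ F x) (hA : ∀ x, Vp F x ≤ A)
    (hν : IsP ν) : mean ν (fun x => F x ^ 2) ≤
      2 * mean (prob w) F ^ 2 + 16 * K * A * (kl ν (prob w) + 1) := by
  have a := up_sq hw h hA hν
  have m0 := (isP_prob' hw).mean_nonneg h0
  have b : mean ν (fun x => F x ^ 2) ≤ mean ν fun x =>
      2 * mean (prob w) F ^ 2 + 2 * max (F x - mean (prob w) F) 0 ^ 2 := hν.mean_mono fun x => by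
    have := le_max_left (F x - mean (prob w) F) 0
    have := le_max_right (F x - mean (prob w) F) 0
    nlinarith [h0 x, sq_nonneg (mean (prob w) F - max (F x - mean (prob w) F) 0)]
  rw [mean_add', hν.mean_const, mean_const_mul] at b
  nlinarith [mul_nonneg h.pos.le ((Vp_nonneg F default).trans (hA _))]

theorem Vp_sqrt (hc : 0 ≤ c) (h0 : ∀ x, 0 ≤ Z x) (hZ : ∀ x, Vp Z x ≤ c * Z x) (x : Cube n) :
    Vp (fun x => √(Z x)) x ≤ c := by
  rcases (h0 x).eq_or_lt with e | e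
  · refine le_trans (le_of_eq (sum_eq_zero fun j _ => ?_)) hc
    simp only [← e, sqrt_zero, zero_sub]
    rw [max_eq_right (neg_nonpos.2 (sqrt_nonneg _))]; simp
  refine le_of_mul_le_mul_right (le_trans ?_ (hZ x)) e
  simp only [Vp, sum_mul]
  refine sum_le_sum fun j _ => ?_
  have a := sq_sqrt e.le
  have b := sq_sqrt (h0 (fl x j))
  have a0 := sqrt_nonneg (Z x)
  have b0 := sqrt_nonneg (Z (fl x j))
  generalize √(Z x) = s at *
  generalize √(Z (fl x j)) = r at *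
  rw [← a, ← b, ← mul_pow, max_mul_of_nonneg _ _ a0, zero_mul]
  rcases le_total ((s - r) * s) 0 with h1 | h1
  · rw [max_eq_right h1]; simpa using sq_nonneg _
  · rw [max_eq_left h1]
    refine pow_le_pow_left₀ h1 (le_max_of_le_left ?_) 2
    have : r ≤ s := by
      by_contra h2
      have : 0 < s := by nlinarith
      nlinarith
    nlinarith

/-- **self-bounded observables** -/
theorem sb (hw : ∀ x, 0 < w x) (h : AD w K ε) (hc : 0 ≤ c) (h0 : ∀ x, 0 ≤ Z x)
    (hZ : ∀ x, Vp Z x ≤ c * Z x) (hν : IsP ν) :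
    mean ν Z ≤ 2 * mean (prob w) Z + 16 * K * c * (kl ν (prob w) + 1) := by
  have a := h2 hw h (fun x => sqrt_nonneg (Z x)) (Vp_sqrt hc h0 hZ) hν
  have b := (isP_prob' hw).mean_sq_le fun x => √(Z x)
  rw [ip_eq_mean] at b
  simp only [sq_sqrt (h0 _), mul_self_sqrt (h0 _)] at a b
  linarith

theorem h2_cen (hw : ∀ x, 0 < w x) (h : AD w K ε) (hA : ∀ x, grad F x ⬝ᵥ grad F x ≤ A)
    (hν : IsP ν) :
    mean ν (fun x => (F x - mean (prob w) F) ^ 2) ≤ 64 * K * A * (kl ν (prob w) + 1) := by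
  have a := up_sq hw h (vp4 hA) hν
  have b := up_sq hw h (F := fun x => -1 * F x) (vp4 fun x => (grad_neg_dot F x).trans_le (hA x)) hν
  have d : mean ν (fun x => (F x - mean (prob w) F) ^ 2) ≤ mean ν fun x =>
      max (F x - mean (prob w) F) 0 ^ 2 + max (-1 * F x - -mean (prob w) F) 0 ^ 2 :=
    hν.mean_mono fun x => by
      rcases le_total (F x - mean (prob w) F) 0 with h0 | h0
      · rw [max_eq_right h0, max_eq_left (by linarith)]; nlinarith
      · rw [max_eq_left h0, max_eq_right (by linarith)]; nlinarith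
  rw [mean_neg'] at b
  rw [mean_add'] at d
  nlinarith [mul_nonneg h.pos.le ((dsn _).trans (hA default))]

theorem OpL.h2 (hw : ∀ x, 0 < w x) (h : AD w K ε) {u : Cube n → κ → ℝ} (hL : 0 ≤ L)
    (hu : OpL u L) (hν : IsP ν) : mean ν (fun x => ∑ k, u x k ^ 2) ≤
      2 * mean (prob w) (fun x => ∑ k, u x k ^ 2) + 256 * K * L * (kl ν (prob w) + 1) :=
  (sb hw h (c := 16 * L) (by positivity) (fun _ => by positivity) hu.vp_sq hν).trans_eq (by ring)

theorem OpL.h2_clip (hw : ∀ x, 0 < w x) (h : AD w K ε) {u : Cube n → κ → ℝ} (hL : 0 ≤ L)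
    (hu : OpL u L) (η : ℝ) (hν : IsP ν) : mean ν (fun x => ∑ k, max (|u x k| - η) 0 ^ 2) ≤
      2 * mean (prob w) (fun x => ∑ k, max (|u x k| - η) 0 ^ 2) +
        256 * K * L * (kl ν (prob w) + 1) :=
  (sb hw h (c := 16 * L) (by positivity) (fun _ => by positivity) (hu.vp_clip η) hν).trans_eq
    (by ring)

/-! ### (H3) -/

theorem h3 (hw : ∀ x, 0 < w x) (h : AD w K ε) (hA : ∀ x, grad F x ⬝ᵥ grad F x ≤ A) :
    mean (prob w) (fun x => (F x - mean (prob w) F) ^ 4) ≤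
      4 * K ^ 2 * mean (prob w) (fun x => grad F x ⬝ᵥ grad F x) ^ 2 +
        256 * K ^ 2 * mean (prob w) (fun x => (grad F x ⬝ᵥ grad F x) ^ 2) +
        (2 * ε + 4 * ε ^ 2) * A ^ 2 := by
  have hp := isP_prob' hw
  have hK := h.pos.le
  have A0 := (dsn _).trans (hA default)
  have a := h.poinc hw (fun x => (F x - mean (prob w) F) ^ 2) (m := 0) (Ω := 4 * (4 * A) * n)
    (a := A ^ 2) (fun x => by
      rw [sub_zero, abs_of_nonneg (sq_nonneg _), ← osc_sq (by linarith), ← sq_abs]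
      exact pow_le_pow_left₀ (abs_nonneg _) (sub_mean_le hw (osc (vp4 hA)) x) 2) (sq_nonneg _)
    (by nlinarith [sq_nonneg (A * n)])
  replace a := a.trans (add_le_add (mul_le_mul_of_nonneg_left (dir_le_Vp hw _) hK) le_rfl)
  have b := pow_le_pow_left₀ (hp.var_nonneg F) (var_le_grad hw h hA) 2
  have d : K * mean (prob w) (Vp fun x => (F x - mean (prob w) F) ^ 2) ≤
      1 / 2 * mean (prob w) (fun x => (F x - mean (prob w) F) ^ 4) +
        128 * K ^ 2 * mean (prob w) fun x => (grad F x ⬝ᵥ grad F x) ^ 2 := by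
    rw [← mean_const_mul, ← mean_const_mul, ← mean_const_mul, ← mean_add']
    refine hp.mean_mono fun x => (mul_le_mul_of_nonneg_left (Vp_sq F _ x) hK).trans ?_
    nlinarith [sq_nonneg ((F x - mean (prob w) F) ^ 2 - 16 * K * (grad F x ⬝ᵥ grad F x))]
  rw [hp.var_eq, ip_eq_mean] at a
  have e : (mean (prob w) fun x => (F x - mean (prob w) F) ^ 2 * (F x - mean (prob w) F) ^ 2) =
      mean (prob w) fun x => (F x - mean (prob w) F) ^ 4 := mean_congr fun x => by ring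
  have e' : var (prob w) F = mean (prob w) fun x => (F x - mean (prob w) F) ^ 2 := rfl
  rw [e, ← e'] at a
  nlinarith [sq_nonneg (K * mean (prob w) (fun x => grad F x ⬝ᵥ grad F x) - ε * A)]

theorem h3_sup (hw : ∀ x, 0 < w x) (h : AD w K ε) (hε : ε ≤ 1)
    (hA : ∀ x, grad F x ⬝ᵥ grad F x ≤ A) :
    mean (prob w) (fun x => (F x - mean (prob w) F) ^ 4) ≤
      260 * K ^ 2 * A * mean (prob w) (fun x => grad F x ⬝ᵥ grad F x) + 6 * ε * A ^ 2 := by
  have hp := isP_prob' hw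
  have a := hp.mean_sq_le fun x => grad F x ⬝ᵥ grad F x
  have b : (mean (prob w) fun x => (grad F x ⬝ᵥ grad F x) ^ 2) ≤
      A * mean (prob w) fun x => grad F x ⬝ᵥ grad F x := by
    rw [← mean_const_mul]
    exact hp.mean_mono fun x => by
      rw [sq]; exact mul_le_mul_of_nonneg_right (hA x) (dsn _)
  rw [ip_eq_mean] at a
  simp only [← sq] at a
  nlinarith [h3 hw h hA, mul_le_mul_of_nonneg_left (a.trans b) (sq_nonneg K),
    mul_le_mul_of_nonneg_left b (sq_nonneg K),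
    mul_le_mul_of_nonneg_left hε (mul_nonneg h.nn (sq_nonneg A))]

/-! ### (TR) -/

theorem ent_exp_tr (hw : ∀ x, 0 < w x) (h : AD w K ε) (hA : ∀ x, grad R x ⬝ᵥ grad R x ≤ A)
    {Om : Cube n → Fin n → ℝ} (hθ : 0 ≤ θ) (hn : K ^ 2 * θ ^ 2 * A ≤ n)
    (he : ∀ x j, 4 * θ * |Om x j| ≤ 1) :
    ent (prob w) (fun x => exp (θ * R x)) ≤ K * mean (prob w) (fun x => exp (θ * R x) *
      (θ ^ 2 * (6 * ∑ j, Dw w x j * Om x j ^ 2 + 16 * ∑ j, (grad R x j - Om x j) ^ 2))) +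
      ε * A * θ ^ 2 * mean (prob w) fun x => exp (θ * R x) := by
  obtain ⟨η, η0, η1, -, hE⟩ := h.expo hw
  have A0 := (dsn _).trans (hA default)
  have K0 := h.pos
  have n0 : (0 : ℝ) ≤ n := n.cast_nonneg
  have e := osc_sq (n := n) (by linarith : 0 ≤ 4 * A)
  simp only [mul_sum univ _ (6 : ℝ), mul_sum univ _ (16 : ℝ), ← sum_add_distrib,
    mul_sum univ _ (θ ^ 2)]
  refine (hE _ _ (θ * (2 * √(4 * A) * √n)) (fun x y => by
    rw [← mul_sub]; exact mul_le_mul_of_nonneg_left (osc (vp4 hA) x y) hθ) ?_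
    fun j => Hb.entS_exp_le hw _ _ j fun x => ?_).trans (add_le_add le_rfl
      (mul_le_mul_of_nonneg_right ?_ (mean_exp_pos (isP_prob' hw) _).le))
  · refine le_of_sq_le_sq ?_ (by positivity)
    rw [mul_pow, mul_pow, e]
    nlinarith [mul_le_mul_of_nonneg_right hn n0, sq_nonneg (n : ℝ)]
  · have k : ∀ y, 4 * |θ * Om y j| ≤ 1 := fun y => by
      rw [abs_mul, abs_of_nonneg hθ, ← mul_assoc]; exact he y j
    refine (Hb.two_C (cnd_pos hw _ _ _).le (cnd_pos hw _ _ _).le (Hb.cnd_add hw j x)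
      (δ := θ * grad R x j) (by rw [grad, SL.incr]; ring) (k (update x j true))
      (k (update x j false))).trans_eq ?_
    simp only [Hb.Dw_update, Rec.grad_update]
    rw [Dw]; ring
  · rw [mul_pow, e]
    have a0 : 0 ≤ A * θ ^ 2 := by positivity
    nlinarith [mul_le_mul_of_nonneg_left η1 a0, mul_le_mul_of_nonneg_left (n_le_sq n)
      (mul_nonneg a0 η0), mul_nonneg (mul_nonneg a0 η0) (sq_nonneg (n : ℝ))]

theorem tr_one (hw : ∀ x, 0 < w x) (h : AD w K ε) (hA : ∀ x, grad R x ⬝ᵥ grad R x ≤ A)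
    {Om : Cube n → Fin n → ℝ} {a B : ℝ} (hL : 0 ≤ L) (ha : 0 ≤ a) (hθ : 0 < θ)
    (hn : K ^ 2 * θ ^ 2 * A ≤ n) (he : ∀ x j, 4 * θ * |Om x j| ≤ 1)
    (hZ : ∀ ν, IsP ν → mean ν (fun x => ∑ j, Dw w x j * Om x j ^ 2) ≤
      2 * mean (prob w) (fun x => ∑ j, Dw w x j * Om x j ^ 2) + L * (kl ν (prob w) + 1))
    (hB : ∀ ν, IsP ν → mean ν (fun x => ∑ j, (grad R x j - Om x j) ^ 2) ≤ a * kl ν (prob w) + B)
    (hs : 2 * K * θ ^ 2 * (6 * L + 16 * a) ≤ 1) :
    lmgf (prob w) R θ ≤ θ * mean (prob w) R +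
      (K * (48 * dir w R + 80 * B + 12 * L) + 2 * ε * A) * θ ^ 2 := by
  have hp := isP_prob' hw
  have hK := h.pos.le
  have A0 := (dsn _).trans (hA default)
  have b0 := hB _ hp
  rw [kl_self, mul_zero, zero_add] at b0
  have z0 : mean (prob w) (fun x => ∑ j, Dw w x j * Om x j ^ 2) ≤ 2 * dir w R + 2 * B := by
    refine le_trans ?_ (add_le_add le_rfl (mul_le_mul_of_nonneg_left b0 zero_le_two))
    rw [dir_eq_Gam hw, ← mean_const_mul, ← mean_const_mul, ← mean_add']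
    refine hp.mean_mono fun x => ?_
    simp only [Gam, mul_sum, ← sum_add_distrib]
    refine sum_le_sum fun j _ => ?_
    nlinarith [mul_nonneg (Hb.Dw_pos hw x j).le (sq_nonneg (2 * grad R x j - Om x j)),
      mul_le_mul_of_nonneg_right (Hb.Dw_le_one hw x j) (sq_nonneg (grad R x j - Om x j))]
  refine herbst hp R hθ.le fun u hu hu' => ?_
  have M := mean_exp_pos hp fun x => u * R x
  have hP := isP_tl hp fun x => u * R x
  have H0 := kl0 hw hP
  have e1 := ent_exp_tr hw h hA hu.le (le_trans (by gcongr) hn) fun x j => le_trans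
    (mul_le_mul_of_nonneg_right (by linarith) (abs_nonneg _)) (he x j)
  have e2 := div_le_div_of_nonneg_right e1 M.le
  rw [← kl_tl hp, add_div, mul_div_cancel_right₀ _ M.ne', mul_div_assoc, ← mean_tl, mean_const_mul,
    mean_add', mean_const_mul, mean_const_mul] at e2
  rw [← div_le_iff₀ M, ← kl_tl hp]
  have e3 := hZ _ hP
  have e4 := hB _ hP
  have k0 : 0 ≤ K * u ^ 2 := by positivity
  have e5 : 2 * (K * u ^ 2) * (6 * L + 16 * a) ≤ 1 := by
    refine le_trans ?_ hs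
    rw [← mul_assoc]
    gcongr
  generalize kl (tl (prob w) fun x => u * R x) (prob w) = H at *
  nlinarith [mul_le_mul_of_nonneg_right e5 H0, mul_le_mul_of_nonneg_left e3 k0,
    mul_le_mul_of_nonneg_left e4 k0, mul_le_mul_of_nonneg_left z0 k0]

/-- **(TR)**, abstract form -/
theorem tr' (hw : ∀ x, 0 < w x) (h : AD w K ε) (hA : ∀ x, grad R x ⬝ᵥ grad R x ≤ A)
    {Om : Cube n → Fin n → ℝ} {a B : ℝ} (hL : 0 ≤ L) (ha : 0 ≤ a) (hθ : 0 < θ)
    (hn : K ^ 2 * θ ^ 2 * A ≤ n) (he : ∀ x j, 4 * θ * |Om x j| ≤ 1)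
    (hZ : ∀ ν, IsP ν → mean ν (fun x => ∑ j, Dw w x j * Om x j ^ 2) ≤
      2 * mean (prob w) (fun x => ∑ j, Dw w x j * Om x j ^ 2) + L * (kl ν (prob w) + 1))
    (hB : ∀ ν, IsP ν → mean ν (fun x => ∑ j, (grad R x j - Om x j) ^ 2) ≤ a * kl ν (prob w) + B)
    (hs : 2 * K * θ ^ 2 * (6 * L + 16 * a) ≤ 1) (hν : IsP ν) :
    |mean ν R - mean (prob w) R| ≤ kl ν (prob w) / θ +
      (K * (48 * dir w R + 80 * B + 12 * L) + 2 * ε * A) * θ := by
  have a1 := sub_le_of_lmgf hw hν hθ (tr_one hw h hA hL ha hθ hn he hZ hB hs)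
  have a2 := sub_le_of_lmgf hw hν hθ (tr_one hw h (R := fun x => -1 * R x)
    (fun x => (grad_neg_dot R x).trans_le (hA x))
    (Om := fun x j => -Om x j) (B := B) hL ha hθ hn (by simpa only [abs_neg] using he)
    (by simpa only [neg_sq] using hZ) (fun ν hν => (mean_congr fun x => sum_congr rfl fun j _ => by
      rw [Rec.grad_const_mul, Pi.smul_apply, smul_eq_mul]; ring).trans_le (hB ν hν)) hs)
  have e : dir w (fun x => -1 * R x) = dir w R := by
    rw [dir_eq_Gam hw, dir_eq_Gam hw]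
    exact mean_congr fun x => sum_congr rfl fun j _ => by
      rw [Rec.grad_const_mul, Pi.smul_apply, smul_eq_mul]; ring
  rw [mean_neg', mean_neg', e] at a2
  exact abs_le.2 ⟨by linarith, a1⟩

/-- **(TR)**: `u = D^{1/2} Ω` has a small Jacobian -/
theorem tr (hw : ∀ x, 0 < w x) (h : AD w K ε) (hA : ∀ x, grad R x ⬝ᵥ grad R x ≤ A)
    {Om u : Cube n → Fin n → ℝ} {a B : ℝ} (hL : 0 ≤ L) (ha : 0 ≤ a) (hθ : 0 < θ)
    (hn : K ^ 2 * θ ^ 2 * A ≤ n) (he : ∀ x j, 4 * θ * |Om x j| ≤ 1)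
    (hu : ∀ x j, u x j ^ 2 = Dw w x j * Om x j ^ 2) (hO : OpL u L)
    (hB : ∀ ν, IsP ν → mean ν (fun x => ∑ j, (grad R x j - Om x j) ^ 2) ≤ a * kl ν (prob w) + B)
    (hs : 2 * K * θ ^ 2 * (1536 * K * L + 16 * a) ≤ 1) (hν : IsP ν) :
    |mean ν R - mean (prob w) R| ≤ kl ν (prob w) / θ +
      (K * (48 * dir w R + 80 * B + 3072 * K * L) + 2 * ε * A) * θ :=
  (tr' hw h hA (L := 256 * K * L) (by have := h.pos; positivity) ha hθ hn he
    (fun ν hν => by simpa only [hu] using OpL.h2 hw h hL hO hν) hB (le_of_eq_of_le (by ring) hs)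
    hν).trans_eq (by ring)

end Crest.Agent.T157.S3.Hd

end
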