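import Crest.Agent.T157.ZDef_73
import Crest.Agent.T157.KCm_85
import Crest.Agent.T157.S3Hd_39
import Crest.Agent.T157.RegDefB_94
import Crest.Agent.T157.ConcL_16
import Crest.Agent.T157.ConcP_16

/-!
# Row 157, part B, block S5 (helper36): the resampling kernel, deterministic part

Text: `docs/T157_B_S5.md`.  One instance `(n, J, Q)`, `Q ^ 2 = J + 4`.  Directions have entries of
order one; observables are divided by `√n` only in `PhiStmt`.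
-/

set_option autoImplicit false

noncomputable section

namespace Crest.Agent.T157.K

open MeasureTheory ProbabilityTheory Real Matrix Finset
open Crest.Agent.T157.E Crest.Agent.T157.Eig
open Crest.Agent.T157.Tap (V Mx th DD)
open Crest.Agent.T157.Rec (grad)
open Crest.Agent.T157.Conc (ELip)
open Crest.Agent.T157.Reg (jac neg Fld)
open Crest.Agent.T157.S3.Hb (Vp)
open Crest.Agent.T157.S3.Hd (AD)
open Crest.Agent.T157.Z (Nt Nw Bd cp)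
open Crest.Agent.T157.SL (Wt)

variable {n : ℕ} {κ : Type} [Fintype κ]

/-! ### Gaussian channels `ζ = P s + z` -/

/-- average over the channel -/
def cav (P : Matrix κ (Fin n) ℝ) (F : Cube n → (κ → ℝ) → ℝ) (s : Cube n) : ℝ :=
  ∫ z, F s (P *ᵥ sv s + z) ∂gv κ
/-- weighted average of a field -/
def cwv (P R : Matrix κ (Fin n) ℝ) (w : ℝ → ℝ) (u : Cube n → (κ → ℝ) → V n) (s : Cube n) : V n :=
  fun j => ∫ z, w (sv s j * (Rᵀ *ᵥ z) j) * u s (P *ᵥ sv s + z) j ∂gv κ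
/-- density of a flip -/
def Lw (k u : ℝ) : ℝ := exp (-2 * u - 2 * k)
/-- density of the path of a flip -/
def rho (k u : ℝ) : ℝ := ∫ t in (0 : ℝ)..1, exp (-2 * t * u - 2 * t ^ 2 * k)
/-- one-sided clip with a Lipschitz derivative -/
def cl (Λ u : ℝ) : ℝ := max u (-Λ) + (exp (min (u + Λ) 0) - 1)
def Lh (k Λ u : ℝ) : ℝ := Lw k (cl Λ u)
def rh (k Λ u : ℝ) : ℝ := rho k (cl Λ u)
/-- bounded, with a bounded Lipschitz derivative -/
def W2 (B : ℝ) (w : ℝ → ℝ) : Prop := Differentiable ℝ w ∧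
  ∀ u v, |w u| ≤ B ∧ |deriv w u| ≤ B ∧ |deriv w u - deriv w v| ≤ B * |u - v|
/-- squared excess over the level `η` -/
def exc (η : ℝ) (v : V n) : ℝ := ∑ i, max (|v i| - η) 0 ^ 2

theorem cav_eq (P : Matrix κ (Fin n) ℝ) (F : Cube n → (κ → ℝ) → ℝ) :
    cav P F = Rec.Pm (fun x => P *ᵥ sv x) 1 F := by
  ext s; simp [cav, Rec.Pm]

/-! ### regular fields and regular errors -/

/-- small entries, small Jacobian -/
structure R0 (e : ℝ) (u : Cube n → V n) : Prop where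
  sup : ∀ s i, |u s i| ≤ e
  op : ∀ s, opn (jac u s) ≤ e
/-- the same with a continuous variable -/
structure RF (e : ℝ) (u : Cube n → (κ → ℝ) → V n) : Prop where
  r0 : ∀ ζ, R0 e fun s => u s ζ
  lip : ∀ s ζ ζ', nrm (u s ζ - u s ζ') ≤ e * nrm (ζ - ζ')
/-- self-bounded -/
def SB (c : ℝ) (X : Cube n → ℝ) : Prop := ∀ s, 0 ≤ X s ∧ Vp X s ≤ c * X s
/-- the same with a continuous variable -/
structure RE (e : ℝ) (X : Cube n → (κ → ℝ) → ℝ) : Prop where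
  sb : ∀ ζ, SB (e ^ 2) fun s => X s ζ
  lip : ∀ s, ELip e fun ζ => √(X s ζ)
  bd : ∃ B, ∀ s ζ, X s ζ ≤ B
/-- `g` is the gradient of `F` in the continuous variable -/
def Der (F : Cube n → (κ → ℝ) → ℝ) (g : Cube n → (κ → ℝ) → κ → ℝ) : Prop := ∀ s,
  Differentiable ℝ (F s) ∧ Continuous (g s) ∧ ∀ ζ v, fderiv ℝ (F s) ζ v = g s ζ ⬝ᵥ v
/-- jointly odd -/
def OddJ (u : Cube n → (κ → ℝ) → V n) : Prop := ∀ s ζ, u (neg s) (-ζ) = -u s ζ

abbrev F2 (n : ℕ) : Type := Cube n → V n → ℝ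
abbrev U2 (n : ℕ) : Type := Cube n → V n → V n

/-- the gradient of `F` on the cube is `ω`, up to the error `X` -/
structure BS0 (F : Cube n → ℝ) (ω : Cube n → V n) (X : Cube n → ℝ) (e L : ℝ) : Prop where
  gr : ∀ s, nrm (grad F s) ≤ L
  app : ∀ s, nrm (grad F s - ω s) ^ 2 ≤ X s
  r0 : R0 e ω
  sb : SB (e ^ 2) X
/-- both gradients of `F (s, y)` are regular fields, up to the error `X` -/
structure BS (F : F2 n) (g ω β : U2 n) (X : F2 n) (e L : ℝ) : Prop where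
  der : Der F g
  gr : ∀ s y, nrm (grad (fun s => F s y) s) ≤ L ∧ nrm (g s y) ≤ L
  app : ∀ s y, nrm (grad (fun s => F s y) s - ω s y) ^ 2 + nrm (g s y - β s y) ^ 2 ≤ X s y
  rω : RF e ω
  rβ : RF e β
  rX : RE e X
  oω : OddJ ω
  oβ : OddJ β

/-! ### the kernel -/

/-- couplings and a root of `J + 4` -/
structure JQ (J Q : Mx n) : Prop where
  symm : Jᵀ = J
  diag : ∀ i, J i i = 0
  op : opn J ≤ 3
  qs : Qᵀ = Q
  qq : Q * Q = J + (4 : ℝ) • (1 : Mx n)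

/-- the product law given the channel -/
def pw (Q : Mx n) (y ζ : V n) : Cube n → ℝ := ising 0 (y + Q *ᵥ ζ)
/-- its magnetisation -/
def pt (Q : Mx n) (y ζ : V n) : V n := th (y + Q *ᵥ ζ)
/-- **the kernel** `K^y` -/
def Ky (Q : Mx n) (y : V n) (F : Cube n → ℝ) : Cube n → ℝ := cav Q fun _ ζ => mean (pw Q y ζ) F
/-- the kernel on functions of `(s, y)` -/
def Kop (Q : Mx n) (F : F2 n) : F2 n := fun s y => Ky Q y (fun t => F t y) s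
/-- `∑_{l<k} K^l` -/
def Ks (Q : Mx n) (y : V n) (k : ℕ) (F : Cube n → ℝ) : Cube n → ℝ :=
  ∑ l ∈ range k, (Ky Q y)^[l] F
/-- linear observable -/
def lin (e : V n) (s : Cube n) : ℝ := e ⬝ᵥ sv s
/-- planted mean at the level `r` -/
def PM (J : Mx n) (r : ℝ) (X : F2 n) : ℝ := slE sv (ising J 0) r X

/-- the field pulled back through the product law -/
def ub (Q : Mx n) (y : V n) (ω : Cube n → V n) (ζ : V n) : V n :=
  DD (pt Q y ζ) * meanV (pw Q y ζ) ω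
/-- one step of the program for the gradient on the cube -/
def kw (Q : Mx n) (Λ η : ℝ) (ω : U2 n) : U2 n := fun s y =>
  cwv Q Q (rh 4 Λ) (fun _ ζ => cp η ((Q * Q) *ᵥ ub Q y (fun t => ω t y) ζ)) s
/-- one step of the program for the gradient in the field -/
def kb (Q : Mx n) (ω β : U2 n) : U2 n := fun s y j =>
  cav Q (fun _ ζ => ub Q y (fun t => ω t y) ζ j + mean (pw Q y ζ) fun t => β t y j) s
/-- the clipped mass of one step -/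
def kx (Q : Mx n) (η : ℝ) (ω : U2 n) : F2 n := fun s y =>
  cav Q (fun _ ζ => exc η ((Q * Q) *ᵥ ub Q y (fun t => ω t y) ζ)) s
/-- the programs: `wS l` represents the gradient of `K^l F` if `ω` represents that of `F` -/
def wS (Q : Mx n) (c Λ e : ℝ) (ω : U2 n) : ℕ → U2 n
  | 0 => ω
  | l + 1 => kw Q Λ (Λ * (exp (c * l * Λ) * e)) (wS Q c Λ e ω l)
/-- their clipped masses -/
def xS (Q : Mx n) (c Λ e : ℝ) (ω : U2 n) (l : ℕ) : F2 n :=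
  kx Q (Λ * (exp (c * l * Λ) * e)) (wS Q c Λ e ω l)

/-- a direction seen from the configuration -/
def dirS (Q : Mx n) (E : V n → V n → V n) : U2 n := fun s y j => cav Q (fun _ ζ => E (Q *ᵥ ζ) y j) s
/-- distance of a direction field to a vector -/
def dev (Q : Mx n) (E : V n → V n → V n) (e y : V n) (s : Cube n) : ℝ :=
  cav Q (fun _ ζ => nrm (E (Q *ᵥ ζ) y - e) ^ 2) s
/-- the one-step observable -/
def psi0 (Q : Mx n) (E : V n → V n → V n) : F2 n := fun s y =>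
  cav Q (fun s ζ => E (Q *ᵥ ζ) y ⬝ᵥ (sv s - pt Q y ζ)) s
/-- **the local observable** -/
def psi (Q : Mx n) (E : V n → V n → V n) (k : ℕ) : F2 n := fun s y =>
  Ks Q y k (fun t => psi0 Q E t y) s
/-- its prediction from level zero, normalised -/
def phi (Q : Mx n) (E : V n → V n → V n) (k : ℕ) (r : ℝ) (s : Cube n) : ℝ :=
  (∫ z, psi Q E k s (r • sv s + √r • z) ∂gv (Fin n)) / √n
/-- the predicted square -/
def phq (Q : Mx n) (E : V n → V n → V n) (k : ℕ) (r : ℝ) (s : Cube n) : ℝ :=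
  (∫ z, psi Q E k s (r • sv s + √r • z) ^ 2 ∂gv (Fin n)) / n
/-- bounded, Lipschitz, odd -/
structure BLO (M : ℝ) (E : V n → V n → V n) : Prop where
  sup : ∀ x y i, |E x y i| ≤ M
  lip : ∀ x y x' y', nrm (E x y - E x' y') ≤ M * (nrm (x - x') + nrm (y - y'))
  odd : ∀ x y, E (-x) (-y) = -E x y

/-- multilinear extension -/
def ml (F : Cube n → ℝ) (m : V n) : ℝ := ∑ t, (∏ i, (1 + m i * sv t i) / 2) * F t
/-- a field along the segment from `t` to `s` -/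
def vO (Ω : Cube n → V n) (t : V n) (s : Cube n) : V n := fun j =>
  ∫ a in (0 : ℝ)..1, ml (fun x => Ω x j) (a • sv s + (1 - a) • t)
/-- **the response field** -/
def gt (Q : Mx n) (Ω : U2 n) : U2 n := fun s y j =>
  cav Q (fun s ζ => DD (pt Q y ζ) j * vO (fun t => Ω t y) (pt Q y ζ) s j) s

/-! ### networks with the rows `x`, `y` and labels -/

def lab2 {m : ℕ} (x y : V n) (w : Fin m × Fin n → ℝ) : Bool ⊕ Fin m → V n :=
  Sum.elim (fun b => if b then x else y) fun l i => w (l, i)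
/-- the network averaged over its labels -/
def Eh {m : ℕ} (E : Nt (Bool ⊕ Fin m)) (n : ℕ) (J : Mx n) (x y : V n) : V n :=
  fun i => ∫ w, E n J (lab2 x y w) i ∂gv (Fin m × Fin n)
/-- certificate of back-propagation for weights of size `b` -/
structure BP (E : V n → V n → V n) (Bx By : V n → V n → V n → V n) (Er : V n → V n → V n → ℝ)
    (b M : ℝ) : Prop where
  c1 : ContDiff ℝ 1 fun p : V n × V n => E p.1 p.2
  app : ∀ x y v, (∀ i, |v i| ≤ b) →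
    nrm (Conc.grad (fun x => v ⬝ᵥ E x y) x - Bx x y v) ^ 2 +
      nrm (Conc.grad (fun y => v ⬝ᵥ E x y) y - By x y v) ^ 2 ≤ Er x y v
  sup : ∀ x y v i, |Bx x y v i| ≤ M ∧ |By x y v i| ≤ M
  lip : ∀ x y v x' y' v', nrm (Bx x y v - Bx x' y' v') + nrm (By x y v - By x' y' v') +
    |√(Er x y v) - √(Er x' y' v')| ≤ M * (nrm (x - x') + nrm (y - y') + nrm (v - v'))
  odd : ∀ x y v, Bx (-x) (-y) (-v) = -Bx x y v ∧ By (-x) (-y) (-v) = -By x y v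
  bd : ∃ B, ∀ x y v, 0 ≤ Er x y v ∧ Er x y v ≤ B
/-- odd Lipschitz map -/
def OM (B : ℝ) (x : (κ → ℝ) → V n) : Prop :=
  (∀ ζ, x (-ζ) = -x ζ) ∧ ∀ ζ ζ', nrm (x ζ - x ζ') ≤ B * nrm (ζ - ζ')
/-- even weight with approximate tensorisation -/
def EA (w : Cube n → ℝ) (K0 : ℝ) : Prop := (∀ s, 0 < w s) ∧ (∀ s, w (neg s) = w s) ∧ Ent.AT w K0 0

/-! ### leaves: channels -/

/-- **exact gradient** -/
def GradStmt : Prop := ∀ (n : ℕ) (κ : Type) [Fintype κ] [DecidableEq κ] (P : Matrix κ (Fin n) ℝ)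
  (F : Cube n → (κ → ℝ) → ℝ) (g : Cube n → (κ → ℝ) → κ → ℝ) (L k : ℝ), Der F g →
  (∀ s ζ, nrm (g s ζ) ≤ L) → (∀ j, (Pᵀ * P) j j = k) → ∀ s, grad (cav P F) s =
    cwv P P (Lw k) (fun s ζ => grad (fun s => F s ζ) s) s +
      cwv P P (rho k) (fun s ζ => Pᵀ *ᵥ g s ζ) s

/-- the clipped weights -/
def WStmt : Prop := ∀ B : ℝ, ∃ C ≥ (1 : ℝ), ∀ k Λ : ℝ, 0 ≤ k → k ≤ B → 0 ≤ Λ →
  ∀ f ∈ [Lw k, rho k], W2 (C * exp (2 * Λ)) (fun u => f (cl Λ u)) ∧ Continuous f ∧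
    (∀ u, 0 < f (cl Λ u) ∧ f (cl Λ u) ≤ f u ∧ f u ≤ 1 + exp (-2 * u)) ∧
    ∫ u, f (√k * u) ^ 2 ∂gaussianReal 0 1 ≤ C ∧
    ∫ u, (f (√k * u) - f (cl Λ (√k * u))) ^ 2 ∂gaussianReal 0 1 ≤ C * exp (-(Λ ^ 2 / C))

/-- Cauchy–Schwarz for weighted averages -/
def CsStmt : Prop := ∀ (n : ℕ) (κ : Type) [Fintype κ] [DecidableEq κ] (P R : Matrix κ (Fin n) ℝ)
  (w : ℝ → ℝ) (u : Cube n → (κ → ℝ) → V n) (k a b A B : ℝ), Continuous w →
  (∀ t, |w t| ≤ a * exp (b * |t|)) → (∀ j, (Rᵀ * R) j j = k) →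
  ∫ t, w (√k * t) ^ 2 ∂gaussianReal 0 1 ≤ A → (∀ s, Continuous (u s)) →
  (∀ s ζ, nrm (u s ζ) ≤ B * (1 + nrm ζ)) →
  ∀ s, nrm (cwv P R w u s) ^ 2 ≤ A * cav P (fun s ζ => nrm (u s ζ) ^ 2) s

/-- **regular fields pass through channels** -/
def RFStmt : Prop := ∀ B : ℝ, ∃ C ≥ (1 : ℝ), ∀ (n : ℕ) (κ : Type) [Fintype κ] [DecidableEq κ]
  (P R : Matrix κ (Fin n) ℝ) (w : ℝ → ℝ) (u : Cube n → (κ → ℝ) → V n) (M e : ℝ), opn P ≤ B →
  opn R ≤ B → W2 M w → RF e u → R0 (C * M * e) (cwv P R w u)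

/-- **regular errors pass through channels** -/
def REStmt : Prop := ∀ B : ℝ, ∃ C ≥ (1 : ℝ), ∀ (n : ℕ) (κ : Type) [Fintype κ] [DecidableEq κ]
  (P : Matrix κ (Fin n) ℝ) (X : Cube n → (κ → ℝ) → ℝ) (e : ℝ), opn P ≤ B → 0 ≤ e → RE e X →
  SB ((C * e) ^ 2) (cav P X)

/-- **tails of odd Lipschitz functions** under the planted law -/
def ConcStmt : Prop := ∀ K0 B : ℝ, ∃ C ≥ (1 : ℝ), ∀ (n : ℕ) (κ : Type) [Fintype κ] [DecidableEq κ]
  (P : Matrix κ (Fin n) ℝ) (w : Cube n → ℝ) (u : Cube n → (κ → ℝ) → V n) (e η : ℝ), EA w K0 →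
  opn P ≤ B → 0 < e → 0 ≤ η → OddJ u → (∀ s ζ, opn (jac (fun s => u s ζ) s) ≤ e) →
  (∀ s ζ ζ', nrm (u s ζ - u s ζ') ≤ e * nrm (ζ - ζ')) →
  mean w (cav P fun s ζ => exc η (u s ζ)) ≤ C * n * e ^ 2 * exp (-((η / e) ^ 2 / C))

/-- the product law: derivatives and regularity in the field -/
structure PrStmt : Prop where
  der : ∀ (n : ℕ) (F : Cube n → ℝ), ContDiff ℝ 1 (fun h : V n => mean (ising 0 h) F) ∧ ∀ h v,
    fderiv ℝ (fun h : V n => mean (ising 0 h) F) h v = (DD (th h) * meanV (ising 0 h) (grad F)) ⬝ᵥ v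
  ml : ∀ (n : ℕ) (F : Cube n → ℝ) (h : V n), mean (ising 0 h) F = ml F (th h)
  lip : ∀ (n : ℕ) (ω : Cube n → V n) (e : ℝ), R0 e ω → ∀ h h',
    nrm (meanV (ising 0 h) ω - meanV (ising 0 h') ω) ≤ e * nrm (h - h')
  sq : ∀ (n : ℕ) (X : Cube n → ℝ) (e : ℝ), 0 ≤ e → SB (e ^ 2) X →
    ELip (2 * e) fun h : V n => √(mean (ising 0 h) X)
  neg : ∀ (n : ℕ) (F : Cube n → ℝ) (h : V n),
    mean (ising 0 (-h)) F = mean (ising 0 h) fun s => F (neg s)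
  seg : ∀ (n : ℕ) (ω : Cube n → V n) (e : ℝ), R0 e ω →
    RF (2 * e) fun s (h : V n) => DD (th h) * vO ω (th h) s

/-! ### leaves: the kernel -/

/-- **reversibility** -/
structure RevStmt : Prop where
  bayes : ∀ (n : ℕ) (J Q : Mx n) (y : V n) (F : F2 n), JQ J Q → (∀ s, SL.MG (F s)) →
    mean (ising J y) (cav Q F) = mean (ising J y) (cav Q fun _ ζ => mean (pw Q y ζ) fun t => F t ζ)
  inv : ∀ (n : ℕ) (J Q : Mx n) (y : V n) (F : Cube n → ℝ), JQ J Q →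
    mean (ising J y) (Ky Q y F) = mean (ising J y) F
  kf : ∀ (n : ℕ) (J Q : Mx n) (y : V n), JQ J Q →
    Ky Q y = Kc.Kf (fun x => Q *ᵥ sv x) (ising J y) 1
  pm : ∀ (n : ℕ) (J : Mx n) (r : ℝ) (X : F2 n), 0 ≤ r → (∀ s, SL.MG (X s)) →
    PM J r X = PM J r fun _ y => mean (ising J y) fun t => X t y
  pmK : ∀ (n : ℕ) (J Q : Mx n) (r : ℝ) (X : F2 n), JQ J Q → 0 ≤ r → (∀ s, Continuous (X s)) →
    (∃ B, ∀ s y, |X s y| ≤ B) → PM J r (Kop Q X) = PM J r X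
  opQ : ∀ (n : ℕ) (J Q : Mx n), JQ J Q → opn Q ≤ 3 ∧ opn (Q * Q) ≤ 7 ∧ ∀ j, (Qᵀ * Q) j j = 4

/-- **the gap**, with constants that depend on the tensorisation constant only -/
def GapStmt : Prop := ∀ K0 : ℝ, ∃ γ C : ℝ, 0 < γ ∧ γ < 1 ∧ 1 ≤ C ∧ ∀ (n : ℕ) (J Q : Mx n) (y : V n)
  (ε A : ℝ) (F : Cube n → ℝ) (k : ℕ), JQ J Q → AD (ising J y) K0 ε →
  (∀ s, nrm (grad F s) ^ 2 ≤ A) →
  (∀ s, nrm (grad ((Ky Q y)^[k] F) s) ^ 2 ≤ C ^ k * A) ∧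
  var (ising J y) ((Ky Q y)^[k] F) ≤ (1 - γ) ^ k * var (ising J y) F + C * ε * A ∧
  (mean (ising J y) fun s => nrm (grad ((Ky Q y)^[k] F) s) ^ 2) ≤
    C * (1 - γ) ^ k * (mean (ising J y) fun s => nrm (grad F s) ^ 2) + C * ε * A ∧
  (mean (ising J y) fun s => nrm (grad (Ks Q y k F) s) ^ 2) ≤
    C * (mean (ising J y) fun s => nrm (grad F s) ^ 2) + C * k ^ 2 * ε * A

/-- **one step** -/
def StepStmt : Prop := ∃ C ≥ (1 : ℝ), ∀ (n : ℕ) (J Q : Mx n) (Λ η e L : ℝ) (ω : U2 n), JQ J Q →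
  1 ≤ Λ → 0 ≤ e → e ≤ η → RF e ω →
  RF (exp (C * Λ) * η) (kw Q Λ η ω) ∧ RE (C * e) (kx Q η ω) ∧ (OddJ ω → OddJ (kw Q Λ η ω)) ∧
  (∀ y F X, BS0 F (fun s => ω s y) X e L → BS0 (Ky Q y F) (fun s => kw Q Λ η ω s y)
    (fun s => C * (Ky Q y X s + kx Q η ω s y + exp (-(Λ ^ 2 / C)) * L ^ 2))
    (exp (C * Λ) * η) (C * L)) ∧
  ∀ F g β X, BS F g ω β X e L → ∃ g', BS (Kop Q F) g' (kw Q Λ η ω) (kb Q ω β)
    (fun s y => C * (Kop Q X s y + kx Q η ω s y + exp (-(Λ ^ 2 / C)) * L ^ 2))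
    (exp (C * Λ) * η) (C * L)

/-- the clipped mass is small under the planted law -/
def TailStmt : Prop := ∀ K0 r : ℝ, 0 ≤ r → ∃ C ≥ (1 : ℝ), ∀ (n : ℕ) (J Q : Mx n) (η e : ℝ)
  (ω : U2 n), JQ J Q → Ent.AT (ising J 0) K0 0 → 0 < e → 0 ≤ η → RF e ω → OddJ ω →
  PM J r (kx Q η ω) ≤ C * n * e ^ 2 * exp (-((η / e) ^ 2 / C))

/-- **the programs** -/
def ProgStmt : Prop := ∃ c0 : ℝ, ∀ c ≥ c0, ∀ (n : ℕ) (J Q : Mx n) (Λ e : ℝ) (ω : U2 n) (l : ℕ),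
  JQ J Q → 1 ≤ Λ → 0 ≤ e → RF e ω →
  RF (exp (c * l * Λ) * e) (wS Q c Λ e ω l) ∧ (OddJ ω → OddJ (wS Q c Λ e ω l)) ∧
  RE (exp (c * (l + 1) * Λ) * e) (xS Q c Λ e ω l) ∧
  ∀ y F X L, BS0 F (fun s => ω s y) X e L → ∃ X', BS0 ((Ky Q y)^[l] F)
    (fun s => wS Q c Λ e ω l s y) X' (exp (c * l * Λ) * e) (c ^ l * L) ∧
    mean (ising J y) X' ≤ c ^ l * (mean (ising J y) X + exp (-(Λ ^ 2 / c)) * L ^ 2 +
      ∑ j ∈ range l, mean (ising J y) fun s => xS Q c Λ e ω j s y)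

/-- **quantitative back-propagation** -/
def BpStmt : Prop := ∀ (m : ℕ) (E : Nt (Bool ⊕ Fin m)), Nw True E → Bd E → ∀ b K0 B : ℝ,
  ∃ C ≥ (1 : ℝ), ∀ (n : ℕ) (J : Mx n), BLO C (Eh E n J) ∧ ∀ Λ ≥ (1 : ℝ), ∃ Bx By Er,
    BP (Eh E n J) Bx By Er b (exp (C * Λ)) ∧ ∀ (κ : Type) [Fintype κ] [DecidableEq κ]
      (P : Matrix κ (Fin n) ℝ) (w : Cube n → ℝ) (x y v : (κ → ℝ) → V n), EA w K0 → opn P ≤ B →
      OM B x → OM B y → OM B v →
      mean w (cav P fun _ ζ => Er (x ζ) (y ζ) (v ζ)) ≤ n * exp (C * Λ - Λ ^ 2 / C)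

/-- the output of the backward pass for a family of observables `F` -/
def Good (F : ∀ n, Mx n → Mx n → F2 n) : Prop := ∀ K0 r : ℝ, 0 ≤ r → ∃ C ≥ (1 : ℝ),
  ∀ (n : ℕ) (J Q : Mx n), JQ J Q → ∀ Λ ≥ (1 : ℝ), ∃ g ω β X,
    BS (F n J Q) g ω β X (exp (C * Λ)) (C * √n) ∧
    (Ent.AT (ising J 0) K0 0 → PM J r X ≤ n * exp (C * Λ - Λ ^ 2 / C))

def BaseStmt : Prop := ∀ (m : ℕ) (E : Nt (Bool ⊕ Fin m)), Nw True E → Bd E →
  Good fun n J Q => psi0 Q (Eh E n J)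
def PsiStmt : Prop := ∀ (m : ℕ) (E : Nt (Bool ⊕ Fin m)), Nw True E → Bd E → ∀ k,
  Good fun n J Q => psi Q (Eh E n J) k

/-- directions: representation, centring, first comparison **(Z1)** -/
def DirStmt : Prop := ∃ C ≥ (1 : ℝ), ∀ (n : ℕ) (J Q : Mx n) (E : V n → V n → V n) (M : ℝ), JQ J Q →
  0 ≤ M → BLO M E → RF (C * M) (dirS Q E) ∧ OddJ (dirS Q E) ∧
  (∀ k s y, psi Q E k (neg s) (-y) = psi Q E k s y) ∧
  (∀ k y, (mean (ising J y) fun s => psi Q E k s y) = 0) ∧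
  (∀ s y, nrm (grad (fun s => psi0 Q E s y) s) ≤ C * M * √n) ∧
  (∀ e : V n, RE (C * M) fun s y => nrm (e - dirS Q E s y) ^ 2) ∧
  (∀ e : V n, RE (C * M) fun s y => dev Q E e y s) ∧
  ∀ e y : V n, (∀ s, nrm (e - dirS Q E s y) ^ 2 ≤ dev Q E e y s) ∧
    (mean (ising J y) fun s =>
      nrm (grad (fun s => psi0 Q E s y - (lin e s - Ky Q y (lin e) s)) s) ^ 2) ≤
      C * mean (ising J y) (dev Q E e y)

/-- transfer of small means to warm laws and nearby fields -/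
def TrfStmt : Prop := ∀ K0 : ℝ, ∃ C ≥ (1 : ℝ), ∀ (n : ℕ) (w v : Cube n → ℝ) (X : F2 n) (e ε : ℝ)
  (y y' : V n), (∀ s, 0 < w s) → AD w K0 ε → Wt v → RE e X → (mean v fun s => X s y') ≤
    4 * (mean w fun s => X s y) + C * e ^ 2 * (kl v w + nrm (y' - y) ^ 2 + 1)

/-- transport for an observable with a regular gradient -/
def TrStmt : Prop := ∀ K0 : ℝ, ∃ C ≥ (1 : ℝ), ∀ (n : ℕ) (w v F X : Cube n → ℝ) (ω : Cube n → V n)
  (e L ε θ : ℝ) (J : Mx n) (y : V n), Jᵀ = J → (∀ i, J i i = 0) → opn J ≤ 3 → w = ising J y →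
  AD w K0 ε → Wt v → BS0 F ω X e L → 0 < θ → C * θ * e ≤ 1 → C * θ * L ≤ √n →
  |mean v F - mean w F| ≤ kl v w / θ +
    C * θ * ((mean w fun s => nrm (grad F s) ^ 2) + mean w X + e ^ 2 + ε * L ^ 2)

/-- **(Z0)** the local observable acts as the linear one -/
def Z0Stmt : Prop := ∀ K0 : ℝ, ∃ γ C : ℝ, 0 < γ ∧ γ < 1 ∧ 1 ≤ C ∧ ∀ (n : ℕ) (J Q : Mx n)
  (E : V n → V n → V n) (k : ℕ) (a y : V n) (ω : Cube n → V n) (X v : Cube n → ℝ) (M e L ε θ : ℝ),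
  JQ J Q → AD (ising J y) K0 ε → Wt v → 0 ≤ M → M ≤ e → BLO M E → nrm a ≤ L → M * √n ≤ L →
  BS0 (fun s => psi Q E k s y) ω X e L → 0 < θ → C * θ * e ≤ 1 → C * θ * L ≤ √n →
  |(mean v fun s => psi Q E k s y) - (mean v (lin a) - mean (ising J y) (lin a))| ≤
    kl v (ising J y) / θ + C * θ * (mean (ising J y) (dev Q E a y) + (1 - γ) ^ k * nrm a ^ 2 +
      mean (ising J y) X + e ^ 2 + (k + 1) ^ 2 * ε * L ^ 2)

/-- pinned and tilted law -/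
def slc (J : Mx n) (y : V n) (S : Finset (Fin n)) (σ : Cube n) (G : Cube n → ℝ) (s : Cube n) : ℝ :=
  if ∀ k ∈ S, s k = σ k then ising J y s * exp (G s) else 0

/-- **(FO)** first-order response -/
def FoStmt : Prop := ∀ K0 : ℝ, ∃ C ≥ (1 : ℝ), ∀ (n : ℕ) (J Q : Mx n) (y : V n) (F X G : Cube n → ℝ)
  (Ω : U2 n) (e L ε : ℝ) (S : Finset (Fin n)) (σ : Cube n) (p : Cube n → ℝ) (d x : ℝ), JQ J Q →
  AD (ising J y) K0 ε → BS0 F (fun s => Ω s y) X e L → p = slc J y S σ G →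
  d = (mean p fun s => ∑ j ∈ Sᶜ, grad G s j ^ 2) + #S →
  x = mean (ising J y) X + e ^ 2 * (kl p (ising J y) + 1) →
  |mean p (F - Ky Q y F) - mean p fun s => ∑ j ∈ Sᶜ, grad G s j * gt Q Ω s y j| ≤
    C * (e * d + √d * √x)

/-- the response field -/
def GtStmt : Prop := ∃ C ≥ (1 : ℝ), ∀ (n : ℕ) (J Q : Mx n) (Ω : U2 n) (e : ℝ), JQ J Q → RF e Ω →
  RF (C * e) (gt Q Ω) ∧ (OddJ Ω → OddJ (gt Q Ω)) ∧
  (∀ y, (mean (ising J y) fun s => nrm (gt Q Ω s y) ^ 2) ≤ mean (ising J y) fun s => nrm (Ω s y) ^ 2) ∧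
  ∀ (ι : Type) [Fintype ι] (c : ι → ℝ) (U : ι → U2 n), (∀ l, RF e (U l)) →
    gt Q (∑ l, c l • U l) = ∑ l, c l • gt Q (U l)

/-- **level zero** -/
def PhiStmt : Prop := ∀ (m : ℕ) (E : Nt (Bool ⊕ Fin m)), Nw True E → Bd E → ∀ (k : ℕ) (K0 r : ℝ),
  0 ≤ r → ∃ C ≥ (1 : ℝ), ∀ (n : ℕ) (J Q : Mx n) (Φ : Cube n → ℝ), 0 < n → JQ J Q →
  Φ = phi Q (Eh E n J) k r → mean (ising J 0) Φ = 0 ∧ (∀ s, Φ (neg s) = Φ s) ∧
  (∀ s, nrm (grad Φ s) ≤ C) ∧ (∀ s, |Φ s| ≤ C * √n) ∧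
  (∀ s, 0 ≤ phq Q (Eh E n J) k r s ∧ phq Q (Eh E n J) k r s ≤ Φ s ^ 2 + C) ∧
  (Ent.AT (ising J 0) K0 0 → ∀ Λ ≥ (1 : ℝ), ∃ ω, ∀ H ≥ (0 : ℝ), Fld (ising J 0) Φ ω
    (exp (C * Λ) / √n) (exp (C * Λ - Λ ^ 2 / C) + exp (C * Λ) * (H + 1) / n) H)

/-! ### glue -/

def StepGlue : Prop := GradStmt → WStmt → CsStmt → RFStmt → REStmt → PrStmt → RevStmt → StepStmt
def TailGlue : Prop := ConcStmt → PrStmt → RevStmt → TailStmt
def ProgGlue : Prop := RevStmt → StepStmt → ProgStmt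
def BpGlue : Prop := Z.LipStmt → ConcStmt → BpStmt
def BaseGlue : Prop := GradStmt → WStmt → CsStmt → RFStmt → REStmt → ConcStmt → RevStmt → BpStmt →
  BaseStmt
def PsiGlue : Prop := RevStmt → StepStmt → TailStmt → BaseStmt → PsiStmt
def DirGlue : Prop := RFStmt → REStmt → RevStmt → DirStmt
def Z0Glue : Prop := RevStmt → GapStmt → DirStmt → TrStmt → Z0Stmt
def FoGlue : Prop := PrStmt → RevStmt → FoStmt
def GtGlue : Prop := RFStmt → PrStmt → RevStmt → GtStmt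
def PhiGlue : Prop := GradStmt → WStmt → CsStmt → RFStmt → REStmt → RevStmt → BpStmt → DirStmt →
  PsiStmt → PhiStmt

end Crest.Agent.T157.K

end
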