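import Crest.Agent.T157.KBpA_91
import Crest.Agent.T157.KDef_36

/-!
# Row 157, part B, block S5 (helper91): quantitative back-propagation, `BpStmt`
-/

set_option autoImplicit false
set_option linter.unusedSectionVars false

noncomputable section

namespace Crest.Agent.T157.K

open MeasureTheory ProbabilityTheory Real Matrix Finset
open Crest.Agent.T157.E Crest.Agent.T157.Eig
open Crest.Agent.T157.Tap (V Mx)
open Crest.Agent.T157.Z (Nt Nw Bd cp nA)
open Crest.Agent.T157.SL (Wt)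

namespace Bp91

section avg
variable {Ω : Type} [TopologicalSpace Ω] [MeasurableSpace Ω] [OpensMeasurableSpace Ω]
  [SecondCountableTopology Ω] {μ : Measure Ω} [IsProbabilityMeasure μ] {n : ℕ}

lemma int_of {f : Ω → ℝ} (hf : Continuous f) {B : ℝ} (h : ∀ ω, |f ω| ≤ B) : Integrable f μ :=
  .of_bound hf.aestronglyMeasurable B (.of_forall h)

lemma int_sq {f : Ω → ℝ} (hf : Continuous f) {B : ℝ} (h : ∀ ω, |f ω| ≤ B) :
    Integrable (fun ω => f ω ^ 2) μ :=
  int_of (hf.pow 2) (B := B ^ 2) fun ω => by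
    rw [abs_pow]; exact pow_le_pow_left₀ (abs_nonneg _) (h ω) 2

/-- averaging a bounded `C¹` function over translations -/
lemma avg_c1 {H : Type} [NormedAddCommGroup H] [NormedSpace ℝ H] [FiniteDimensional ℝ H]
    {f : H → ℝ} (hf : ContDiff ℝ 1 f) {C C' : ℝ} (h0 : ∀ p, |f p| ≤ C)
    (h1 : ∀ p, ‖fderiv ℝ f p‖ ≤ C') {c : Ω → H} (hc : Continuous c) :
    ContDiff ℝ 1 (fun p => ∫ ω, f (p + c ω) ∂μ) ∧ ∀ p v,
      fderiv ℝ (fun p => ∫ ω, f (p + c ω) ∂μ) p v = ∫ ω, fderiv ℝ f (p + c ω) v ∂μ := by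
  have c0 := hf.continuous
  have c1 := hf.continuous_fderiv one_ne_zero
  have iF : ∀ p, Integrable (fun ω => fderiv ℝ f (p + c ω)) μ := fun p =>
    .of_bound (Continuous.aestronglyMeasurable (by fun_prop)) C' (.of_forall fun _ => h1 _)
  have hd : ∀ p, HasFDerivAt (fun p => ∫ ω, f (p + c ω) ∂μ) (∫ ω, fderiv ℝ f (p + c ω) ∂μ) p :=
    fun p => hasFDerivAt_integral_of_dominated_of_fderiv_le (s := Set.univ)
      (F' := fun p ω => fderiv ℝ f (p + c ω)) Filter.univ_mem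
      (.of_forall fun q => Continuous.aestronglyMeasurable (by fun_prop))
      (int_of (by fun_prop) fun _ => h0 _) (iF p).1 (.of_forall fun ω q _ => h1 _)
      (integrable_const C') (.of_forall fun ω q _ => (hasFDerivAt_comp_add_right (c ω)).2
        (hf.differentiable one_ne_zero (q + c ω)).hasFDerivAt)
  refine ⟨contDiff_one_iff_fderiv.2 ⟨fun p => (hd p).differentiableAt, ?_⟩, fun p v => ?_⟩
  · rw [funext fun p => (hd p).fderiv]
    exact continuous_of_dominated (fun p => (iF p).1) (fun p => .of_forall fun _ => h1 _)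
      (integrable_const C') (.of_forall fun ω => by fun_prop)
  · rw [(hd p).fderiv, ContinuousLinearMap.integral_apply (iF p)]

omit [TopologicalSpace Ω] [OpensMeasurableSpace Ω] [SecondCountableTopology Ω]
  [IsProbabilityMeasure μ] in
lemma dot_int {f : Ω → V n} (hf : ∀ k, Integrable (fun ω => f ω k) μ) (u : V n) :
    u ⬝ᵥ (fun k => ∫ ω, f ω k ∂μ) = ∫ ω, u ⬝ᵥ f ω ∂μ := by
  simp only [dotProduct]
  rw [integral_finsetSum _ fun i _ => (hf i).const_mul (u i)]
  simp only [integral_const_mul]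

omit [TopologicalSpace Ω] [OpensMeasurableSpace Ω] [SecondCountableTopology Ω]
  [IsProbabilityMeasure μ] in
lemma nrm_int {f g : Ω → V n} {r : Ω → ℝ} (hf : ∀ k, Integrable (fun ω => f ω k) μ)
    (hg : ∀ k, Integrable (fun ω => g ω k) μ) (hr : Integrable r μ)
    (h : ∀ ω, nrm (f ω - g ω) ≤ r ω) :
    nrm ((fun k => ∫ ω, f ω k ∂μ) - fun k => ∫ ω, g ω k ∂μ) ≤ ∫ ω, r ω ∂μ := by
  have i : ∀ k, Integrable (fun ω => (f ω - g ω) k) μ := fun k => (hf k).sub (hg k)
  have e : ((fun k => ∫ ω, f ω k ∂μ) - fun k => ∫ ω, g ω k ∂μ) = fun k => ∫ ω, (f ω - g ω) k ∂μ :=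
    funext fun k => (integral_sub (hf k) (hg k)).symm
  rw [e]
  set u := fun k => ∫ ω, (f ω - g ω) k ∂μ with hu
  have h1 : nrm u * nrm u ≤ nrm u * ∫ ω, r ω ∂μ := by
    rw [nrm_mul_self, ← integral_const_mul]
    refine (dot_int i u).trans_le (integral_mono ?_ (hr.const_mul _) fun ω =>
      (dot_le _ _).trans (mul_le_mul_of_nonneg_left (h ω) (nrm_nonneg _)))
    exact integrable_finsetSum _ fun k _ => (i k).const_mul (u k)
  rcases (nrm_nonneg u).eq_or_lt with h0 | h0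
  · rw [← h0]; exact integral_nonneg fun ω => (nrm_nonneg _).trans (h ω)
  · exact le_of_mul_le_mul_left h1 h0

lemma sq_int {f : Ω → ℝ} (hf : Continuous f) {B : ℝ} (h : ∀ ω, |f ω| ≤ B) :
    (∫ ω, f ω ∂μ) ^ 2 ≤ ∫ ω, f ω ^ 2 ∂μ := by
  have h1 := variance_nonneg f μ
  rw [variance_eq_sub (MemLp.of_bound hf.aestronglyMeasurable B (.of_forall h))] at h1
  exact sub_nonneg.1 h1

lemma root_le {f g : Ω → ℝ} (hf : Continuous f) (hg : Continuous g) {B c : ℝ} (h : ∀ ω, |f ω| ≤ B)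
    (h' : ∀ ω, |g ω| ≤ B) (g0 : ∀ ω, 0 ≤ g ω) (c0 : 0 ≤ c) (e : ∀ ω, |f ω - g ω| ≤ c) :
    √(∫ ω, f ω ^ 2 ∂μ) - √(∫ ω, g ω ^ 2 ∂μ) ≤ c := by
  have h1 := le_sqrt_of_sq_le (sq_int (μ := μ) hg h')
  have i : Integrable (fun ω => g ω ^ 2 + 2 * c * g ω) μ :=
    (int_sq hg h').add ((int_of hg h').const_mul _)
  have h2 : ∫ ω, f ω ^ 2 ∂μ ≤ ∫ ω, (g ω ^ 2 + 2 * c * g ω + c ^ 2) ∂μ :=
    integral_mono (int_sq hf h) (i.add (integrable_const _)) fun ω => by
        have := abs_le.1 (e ω)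
        have := g0 ω
        beta_reduce
        nlinarith
  rw [integral_add i (integrable_const _),
    integral_add (int_sq hg h') ((int_of hg h').const_mul _), integral_const_mul, integral_const,
    probReal_univ, one_smul] at h2
  rw [sub_le_iff_le_add', sqrt_le_left (by positivity), add_sq,
    sq_sqrt (integral_nonneg fun _ => sq_nonneg _)]
  linarith [mul_le_mul_of_nonneg_left h1 c0]

end avg

variable {n m : ℕ}

/-- the point seen by the network -/
def pp (x y v : V n) (ω : Fin m × Fin n → ℝ) : Pa (Bool ⊕ Fin m) n := (lab2 x y ω, v)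
/-- average over the labels -/
def av (B : Pa (Bool ⊕ Fin m) n → V n) (x y v : V n) : V n :=
  fun k => ∫ ω, B (pp x y v ω) k ∂gv (Fin m × Fin n)

lemma cont_lab2 {X : Type} [TopologicalSpace X] {x y : X → V n} {ω : X → Fin m × Fin n → ℝ}
    (hx : Continuous x) (hy : Continuous y) (h : Continuous ω) :
    Continuous fun t => lab2 (x t) (y t) (ω t) := by
  refine continuous_pi fun l => ?_
  rcases l with (_ | _) | l
  exacts [hy, hx, continuous_pi fun i => (continuous_apply (l, i)).comp h]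

lemma cont_pp (x y v : V n) : Continuous (pp (m := m) x y v) :=
  (cont_lab2 continuous_const continuous_const continuous_id).prodMk continuous_const

lemma dn_pp (x y v x' y' v' : V n) (ω ω' : Fin m × Fin n → ℝ) : dn (pp x y v ω) (pp x' y' v' ω') =
    nrm (x - x') + nrm (y - y') + ∑ l, nrm (fun i => (ω - ω') (l, i)) + nrm (v - v') := by
  simp only [dn, nA, pp, Fintype.sum_sum_type, Fintype.sum_bool]; rfl

lemma dn_pp' (x y v x' y' v' : V n) (ω : Fin m × Fin n → ℝ) : dn (pp x y v ω) (pp x' y' v' ω) =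
    nrm (x - x') + nrm (y - y') + nrm (v - v') := by
  rw [dn_pp]; simp [nrm, dotProduct]

lemma pp_neg (x y v : V n) (ω : Fin m × Fin n → ℝ) : pp (-x) (-y) (-v) (-ω) = -pp x y v ω := by
  refine Prod.ext (funext fun l => ?_) rfl
  rcases l with (_ | _) | l <;> rfl

variable {M Λ : ℝ} {B : Pa (Bool ⊕ Fin m) n → V n}

lemma OB.int (h : OB M B) (x y v : V n) (k : Fin n) :
    Integrable (fun ω => B (pp x y v ω) k) (gv (Fin m × Fin n)) :=
  int_of ((cont_of_lip fun p q => (abs_apply_le_nrm (B p - B q) k).trans (h.lip p q)).comp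
    (cont_pp x y v)) fun _ => h.sup _ k

lemma OB.av_sup (h : OB M B) (x y v : V n) (k : Fin n) : |av B x y v k| ≤ M := by
  have := norm_integral_le_of_norm_le_const (μ := gv (Fin m × Fin n))
    (f := fun ω => B (pp x y v ω) k) (.of_forall fun _ => h.sup _ k)
  rwa [probReal_univ, mul_one] at this

lemma OB.av_lip (h : OB M B) (x y v x' y' v' : V n) : nrm (av B x y v - av B x' y' v') ≤
    M * (nrm (x - x') + nrm (y - y') + nrm (v - v')) := by
  have := nrm_int (h.int x y v) (h.int x' y' v') (integrable_const _)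
    fun ω => (h.lip _ _).trans_eq (by rw [dn_pp'])
  rwa [integral_const, probReal_univ, one_smul] at this

lemma OB.av_odd (h : OB M B) (x y v : V n) : av B (-x) (-y) (-v) = -av B x y v := by
  funext k
  have : (gaussianReal 0 1).IsNegInvariant :=
    ⟨by simpa [Measure.neg] using gaussianReal_map_neg (μ := 0) (v := 1)⟩
  rw [av, ← integral_neg_eq_self]
  simp only [pp_neg, h.odd, Pi.neg_apply, integral_neg, av]

lemma lab2_add (x y : V n) (ω : Fin m × Fin n → ℝ) : lab2 x y 0 + lab2 0 0 ω = lab2 x y ω := by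
  funext l; rcases l with (_ | _) | l <;> simp [lab2]; rfl

lemma lab2_x (x y : V n) : lab2 (m := m) 0 y 0 + Pi.single (.inl true) x = lab2 x y 0 := by
  funext l; rcases l with (_ | _) | l <;> simp [lab2]

lemma lab2_y (x y : V n) : lab2 (m := m) x 0 0 + Pi.single (.inl false) y = lab2 x y 0 := by
  funext l; rcases l with (_ | _) | l <;> simp [lab2]

section net
variable {E : Nt (Bool ⊕ Fin m)} (hE : Nw True E) (hb : Bd E) (J : Mx n)
include hE hb

omit hb in
lemma c1_dot (v : V n) : ContDiff ℝ 1 fun a => v ⬝ᵥ E n J a :=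
  (LinearMap.toContinuousLinearMap (dotProductBilin ℝ ℝ v)).contDiff.comp (c1 hE n J)

lemma avg_dot (v : V n) :
    ContDiff ℝ 1 (fun a => ∫ ω, v ⬝ᵥ E n J (a + lab2 0 0 ω) ∂gv (Fin m × Fin n)) ∧ ∀ a h,
      fderiv ℝ (fun a => ∫ ω, v ⬝ᵥ E n J (a + lab2 0 0 ω) ∂gv (Fin m × Fin n)) a h =
        ∫ ω, fderiv ℝ (fun a => v ⬝ᵥ E n J a) (a + lab2 0 0 ω) h ∂gv (Fin m × Fin n) := by
  obtain ⟨L, L0, hL⟩ := lipA hE
  obtain ⟨M, hM⟩ := hb
  refine avg_c1 (c1_dot hE J v) (C := nrm v * (|M| * √n))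
    (C' := nrm v * (L * ∑ _l : Bool ⊕ Fin m, (Fintype.card (Fin n) : ℝ)))
    (fun a => (abs_dot_le _ _).trans (mul_le_mul_of_nonneg_left (Z.L85.nrm_le_of_bd (hM n J a))
      (nrm_nonneg _))) (fun a => norm_fderiv_le_of_lip' ℝ (mul_nonneg (nrm_nonneg _) (by positivity))
        (.of_forall fun a' => ?_)) (cont_lab2 continuous_const continuous_const continuous_id)
  rw [← dotProduct_sub, mul_assoc, mul_assoc, sum_mul]
  refine (abs_dot_le _ _).trans (mul_le_mul_of_nonneg_left ((hL n J _ _).trans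
    (mul_le_mul_of_nonneg_left (sum_le_sum fun l _ => ?_) L0)) (nrm_nonneg _))
  rw [← Nrm.en_eq_nrm]
  exact (Conc.en_le_card_norm _).trans
    (mul_le_mul_of_nonneg_left (norm_le_pi_norm _ l) (Nat.cast_nonneg _))

lemma dot_Eh (v x y : V n) : v ⬝ᵥ Eh E n J x y =
    ∫ ω, v ⬝ᵥ E n J (lab2 x y 0 + lab2 0 0 ω) ∂gv (Fin m × Fin n) := by
  obtain ⟨M, hM⟩ := ob_net hE hb
  simp only [lab2_add]
  exact dot_int ((hM n J).int x y 0) v

lemma c1_Eh : ContDiff ℝ 1 fun p : V n × V n => Eh E n J p.1 p.2 := contDiff_pi.2 fun i => by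
  have e : ∀ p : V n × V n, Eh E n J p.1 p.2 i = Pi.single i 1 ⬝ᵥ Eh E n J p.1 p.2 := by simp
  simp only [e, dot_Eh hE hb]
  refine (avg_dot hE hb J _).1.comp (f := fun p : V n × V n => lab2 p.1 p.2 0)
    (contDiff_pi.2 fun l => ?_)
  rcases l with (_ | _) | l
  exacts [contDiff_snd, contDiff_fst, contDiff_const]

lemma grad_Eh (v x y : V n) :
    Conc.grad (fun x => v ⬝ᵥ Eh E n J x y) x = av (fun p => ad (E n J) (.inl true) p.1 v) x y v ∧
    Conc.grad (fun y => v ⬝ᵥ Eh E n J x y) y = av (fun p => ad (E n J) (.inl false) p.1 v) x y v := by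
  obtain ⟨h1, h2⟩ := avg_dot hE hb J v
  have d := h1.differentiable one_ne_zero
  refine ⟨?_, ?_⟩
  · have := grad_row d (lab2 0 y 0) (.inl true) x
    simp only [lab2_x, h2] at this
    simp only [dot_Eh hE hb, this]
    simp only [lab2_add]; rfl
  · have := grad_row d (lab2 x 0 0) (.inl false) y
    simp only [lab2_y, h2] at this
    simp only [dot_Eh hE hb, this]
    simp only [lab2_add]; rfl

omit hb in
lemma app_le {R : Pa (Bool ⊕ Fin m) n → ℝ} {j : Bool ⊕ Fin m} {b : ℝ} (h1 : OB M B) (h2 : EC Λ M R)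
    (h3 : ∀ p, nrm (ad (E n J) j p.1 (cp |b| p.2) - B p) ≤ R p) (x y : V n) {v : V n}
    (hv : ∀ i, |v i| ≤ b) : nrm (av (fun p => ad (E n J) j p.1 v) x y v - av B x y v) ^ 2 ≤
      ∫ ω, R (pp x y v ω) ^ 2 ∂gv (Fin m × Fin n) := by
  have e : cp |b| v = v := funext fun i => by
    have := abs_le.1 ((hv i).trans (le_abs_self b))
    rw [cp, min_eq_right this.2, max_eq_right this.1]
  have h4 : ∀ ω, nrm (ad (E n J) j (pp x y v ω).1 v - B (pp x y v ω)) ≤ R (pp x y v ω) := fun ω => by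
    simpa only [pp, e] using h3 (pp x y v ω)
  obtain ⟨c, K, hK⟩ := h2.bc
  have c' := c.comp (cont_pp (m := m) x y v)
  refine le_trans (pow_le_pow_left₀ (nrm_nonneg _) (nrm_int (fun k => ?_) (h1.int x y v)
    (int_of c' fun _ => hK _) h4) 2) (sq_int c' fun _ => hK _)
  refine int_of ((((c1_dot hE J v).continuous_fderiv one_ne_zero).comp (cont_pp x y v).fst).clm_apply
    continuous_const) (B := K + M) fun ω => ?_
  have h5 := ((abs_apply_le_nrm _ k).trans (h4 ω)).trans ((le_abs_self _).trans (hK _))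
  have h6 := abs_add_le (ad (E n J) j (pp x y v ω).1 v k - B (pp x y v ω) k) (B (pp x y v ω) k)
  rw [sub_add_cancel] at h6
  exact h6.trans (add_le_add h5 (h1.sup _ k))

end net

/-! ### the tail -/

lemma nrm_comp {α β : Type} [Fintype α] [Fintype β] (e : α ↪ β) (v : β → ℝ) :
    nrm (fun a => v (e a)) ≤ nrm v :=
  sqrt_le_sqrt ((sum_map univ e fun b => v b * v b).symm.trans_le
    (sum_le_univ_sum_of_nonneg fun _ => mul_self_nonneg _))

lemma exc_eq {η : ℝ} (h : 0 ≤ η) (u : V n) : exc η u = nrm (u - cp η u) ^ 2 := by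
  rw [nrm_sq]
  refine sum_congr rfl fun i _ => ?_
  simp only [Pi.sub_apply, cp, max_def, min_def]
  rcases abs_cases (u i) with h | h <;> rw [h.1] <;> split_ifs <;> nlinarith

section tail
variable {κ : Type} [Fintype κ] [DecidableEq κ] {x y v : (κ → ℝ) → V n} {B : ℝ}

/-- the parametrisation by the channel and the labels -/
def qq (x y v : (κ → ℝ) → V n) (ζ : κ ⊕ Fin m × Fin n → ℝ) : Pa (Bool ⊕ Fin m) n :=
  pp (x fun k => ζ (.inl k)) (y fun k => ζ (.inl k)) (v fun k => ζ (.inl k)) fun k => ζ (.inr k)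

lemma om_cont (h : OM B x) : Continuous x := continuous_pi fun i =>
  Conc.ELip.continuous (L := B) fun a b => by
    rw [Nrm.en_eq_nrm]; exact (abs_apply_le_nrm (x a - x b) i).trans (h.2 a b)

lemma cont_qq (hx : OM B x) (hy : OM B y) (hv : OM B v) : Continuous (qq (m := m) x y v) :=
  (cont_lab2 ((om_cont hx).comp (by fun_prop)) ((om_cont hy).comp (by fun_prop))
    (by fun_prop)).prodMk ((om_cont hv).comp (by fun_prop))

lemma dn_qq (hx : OM B x) (hy : OM B y) (hv : OM B v) (ζ ζ' : κ ⊕ Fin m × Fin n → ℝ) :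
    dn (qq x y v ζ) (qq x y v ζ') ≤ (3 * |B| + m + 1) * nrm (ζ - ζ') := by
  have t : ∀ {u : (κ → ℝ) → V n}, OM B u →
      nrm (u (fun k => ζ (.inl k)) - u fun k => ζ' (.inl k)) ≤ |B| * nrm (ζ - ζ') := fun h =>
    (h.2 _ _).trans (mul_le_mul (le_abs_self B) (nrm_comp .inl (ζ - ζ')) (nrm_nonneg _)
      (abs_nonneg _))
  have s : ∑ l : Fin m, nrm (fun i => (ζ - ζ') (.inr (l, i))) ≤ m * nrm (ζ - ζ') := by
    refine (sum_le_sum fun l _ => nrm_comp
      ⟨fun i : Fin n => .inr (l, i), fun _ _ h => by simpa using h⟩ (ζ - ζ')).trans_eq (by simp)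
  rw [qq, qq, dn_pp]
  change _ + ∑ l : Fin m, nrm (fun i => (ζ - ζ') (.inr (l, i))) + _ ≤ _
  linarith [t hx, t hy, t hv, nrm_nonneg (ζ - ζ')]

/-- the second moment under the planted law -/
def TT (w : Cube n → ℝ) (P : Matrix κ (Fin n) ℝ) (x y v : (κ → ℝ) → V n)
    (R : Pa (Bool ⊕ Fin m) n → ℝ) : ℝ :=
  mean w (cav (fromRows P (0 : Matrix (Fin m × Fin n) (Fin n) ℝ)) fun _ ζ => R (qq x y v ζ) ^ 2)

lemma TT_eq (w : Cube n → ℝ) (P : Matrix κ (Fin n) ℝ) (hx : OM B x) (hy : OM B y) (hv : OM B v)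
    {R : Pa (Bool ⊕ Fin m) n → ℝ} (hR : BC R) : (mean w (cav P fun _ ζ =>
      ∫ ω, R (pp (x ζ) (y ζ) (v ζ) ω) ^ 2 ∂gv (Fin m × Fin n))) = TT w P x y v R := by
  obtain ⟨c, K, hK⟩ := hR
  refine congrArg (mean w) (funext fun s => ?_)
  have mp := measurePreserving_sumPiEquivProdPi_symm (X := fun _ : κ ⊕ Fin m × Fin n => ℝ)
    fun _ => gaussianReal 0 1
  have i : Integrable (fun z => R (qq x y v (fromRows P 0 *ᵥ sv s + z)) ^ 2)
      (gv (κ ⊕ Fin m × Fin n)) :=
    int_sq (c.comp ((cont_qq hx hy hv).comp (by fun_prop))) fun _ => hK _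
  rw [cav, cav, ← mp.integral_comp']
  refine Eq.trans ?_ (integral_prod _ (mp.integrable_comp_of_integrable i)).symm
  refine integral_congr_ae (.of_forall fun z => integral_congr_ae (.of_forall fun ω => ?_))
  simp only [qq, fromRows_mulVec, Pi.add_apply, Sum.elim_inl, Sum.elim_inr, zero_mulVec,
    Pi.zero_apply, zero_add]
  rfl

lemma fn_TT {K0 C : ℝ} (C1 : 1 ≤ C) {w : Cube n → ℝ} {P : Matrix κ (Fin n) ℝ} (hw : EA w K0)
    (hC : ∀ (u : Cube n → (κ ⊕ Fin m × Fin n → ℝ) → V n) (e η : ℝ), 0 < e → 0 ≤ η → OddJ u →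
      (∀ s ζ, opn (Reg.jac (fun s => u s ζ) s) ≤ e) →
      (∀ s ζ ζ', nrm (u s ζ - u s ζ') ≤ e * nrm (ζ - ζ')) →
      mean w (cav (fromRows P 0) fun s ζ => exc η (u s ζ)) ≤
        C * n * e ^ 2 * exp (-((η / e) ^ 2 / C)))
    (hx : OM B x) (hy : OM B y) (hv : OM B v) (h0 : 0 ≤ Λ) {D : ℝ} (hD : D = 3 * |B| + m + 1) :
    Fn Λ (C * D ^ 2 * (n * exp (-(Λ ^ 2 / (D ^ 2 * C))))) (TT (m := m) w P x y v) := by
  have D0 : 0 < D := by rw [hD]; positivity
  refine ⟨by positivity, fun R R1 R2 c hR h1 h2 c0 h => ?_, fun u L L0 hu => ?_⟩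
  · have i : ∀ {R : Pa (Bool ⊕ Fin m) n → ℝ}, BC R → ∀ a : κ ⊕ Fin m × Fin n → ℝ,
        Integrable (fun z => R (qq x y v (a + z)) ^ 2) (gv _) := fun ⟨c, K, hK⟩ a =>
      int_sq (c.comp ((cont_qq hx hy hv).comp (by fun_prop))) fun _ => hK _
    rw [TT, TT, TT, ← SL.mean_add, ← SL.mean_const_mul]
    refine (Wt.of_pos hw.1).mean_mono fun s => ?_
    rw [cav, cav, cav, ← integral_add (i h1 _) (i h2 _), ← integral_const_mul]
    exact integral_mono (i hR _) (((i h1 _).add (i h2 _)).const_mul c) fun z => h _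
  · have h1 := hC (fun _ ζ => u (qq x y v ζ)) (L * D) (Λ * L) (by positivity) (by positivity)
      (fun s ζ => by
        rw [← hu.odd]
        simp only [qq]
        rw [← pp_neg, ← hx.1, ← hy.1, ← hv.1]; rfl)
      (fun s ζ => by
        rw [show Reg.jac (fun _ => u (qq x y v ζ)) s = 0 by ext; simp [Reg.jac], opn_zero]
        positivity)
      fun s ζ ζ' => (hu.lip _ _).trans (by
        rw [mul_assoc, hD]; exact mul_le_mul_of_nonneg_left (dn_qq hx hy hv ζ ζ') L0.le)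
    simp only [exc_eq (mul_nonneg h0 L0.le)] at h1
    refine le_trans h1 (le_of_eq ?_)
    rw [show (Λ * L / (L * D)) ^ 2 / C = Λ ^ 2 / (D ^ 2 * C) by field_simp]
    ring

end tail

end Bp91

open Bp91 in
theorem bpGlue : BpGlue := by
  intro _ hConc m E hE hb b K0 B
  obtain ⟨C0, C1, hC⟩ := hConc K0 B
  obtain ⟨M0, hM0⟩ := ob_net hE hb
  obtain ⟨M1, g1, h1⟩ := net hE (.inl true) _ (Gr.const (|b| + 1))
  obtain ⟨M2, g2, h2⟩ := net hE (.inl false) _ (Gr.const (|b| + 1))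
  obtain ⟨D, hD⟩ : ∃ D : ℝ, D = 3 * |B| + m + 1 := ⟨_, rfl⟩
  have g := (Gr.const (2 * 1)).mul (g1.add g2)
  obtain ⟨c1, k1⟩ := (g1.add g2).add g
  obtain ⟨c2, k2⟩ := (g.mul g).mul (Gr.const (C0 * D ^ 2))
  have D0 : 0 < D ^ 2 * C0 := by rw [hD]; positivity
  obtain ⟨C, hC'⟩ : ∃ C, C = 1 + |M0| + |c1| + |c2| + D ^ 2 * C0 := ⟨_, rfl⟩
  have a0 := abs_nonneg M0
  have a1 := abs_nonneg c1
  have a2 := abs_nonneg c2
  refine ⟨C, by linarith, fun n J => ⟨?_, fun Λ hΛ => ?_⟩⟩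
  · have o := (hM0 n J).mono (show M0 ≤ C by linarith [le_abs_self M0])
    exact ⟨fun x y => o.av_sup x y 0,
      fun x y x' y' => (o.av_lip x y 0 x' y' 0).trans_eq (by simp), fun x y => o.av_odd x y 0⟩
  have ov : OB (|b| + 1) fun p : Pa (Bool ⊕ Fin m) n => cp |b| p.2 :=
    ⟨⟨by positivity, fun p => funext fun i => Z.ApB11.clip_neg (abs_nonneg b) _, fun p q =>
      (Z.L85.nrm_mono (v := p.2 - q.2) fun i => (clip_lip _ _ _).1).trans
        ((le_add_of_nonneg_left (Z.L85.nA_nonneg _)).trans (le_mul_of_one_le_left (dn_nonneg p q)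
          (by linarith [abs_nonneg b])))⟩,
      fun p i => (Z.L85.abs_cp_le (abs_nonneg b) _ i).trans (by linarith)⟩
  obtain ⟨B1, R1, o1, e1, r1⟩ := h1 n J Λ hΛ _ ov
  obtain ⟨B2, R2, o2, e2, r2⟩ := h2 n J Λ hΛ _ ov
  have ec := e1.comb e2 o1.nn o2.nn zero_le_one
  obtain ⟨cR, K, hK⟩ := ec.bc
  have cR' := fun x y v => cR.comp (cont_pp (m := m) x y v)
  have ex : ∀ c, |c| ≤ C → exp (c * Λ) ≤ exp (C * Λ) := fun c h => exp_le_exp.2
    (mul_le_mul_of_nonneg_right ((le_abs_self c).trans h) (by linarith))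
  have m1 := ((le_abs_self _).trans (k1 Λ hΛ)).trans (ex c1 (by linarith))
  have m2 := ((le_abs_self _).trans (k2 Λ hΛ)).trans (ex c2 (by linarith))
  have n1 := o1.nn
  have n2 := o2.nn
  refine ⟨av B1, av B2, fun x y v => ∫ ω, (1 * (R1 (pp x y v ω) + R2 (pp x y v ω))) ^ 2 ∂gv _,
    ⟨c1_Eh hE hb J, fun x y v hv => ?_, fun x y v i => ⟨(o1.av_sup x y v i).trans (by linarith),
      (o2.av_sup x y v i).trans (by linarith)⟩, fun x y v x' y' v' => ?_,
      fun x y v => ⟨o1.av_odd x y v, o2.av_odd x y v⟩, K ^ 2, fun x y v =>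
        ⟨integral_nonneg fun _ => sq_nonneg _, ?_⟩⟩, fun κ _ _ P w x y v hw hP hx hy hv => ?_⟩
  · obtain ⟨d1, K1, b1⟩ := e1.bc
    obtain ⟨d2, K2, b2⟩ := e2.bc
    have i1 := int_sq (μ := gv _) (d1.comp (cont_pp (m := m) x y v)) fun _ => b1 _
    have i2 := int_sq (μ := gv _) (d2.comp (cont_pp (m := m) x y v)) fun _ => b2 _
    rw [(grad_Eh hE hb J v x y).1, (grad_Eh hE hb J v x y).2]
    refine (add_le_add (app_le hE J o1 e1 r1 x y hv) (app_le hE J o2 e2 r2 x y hv)).trans ?_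
    refine (integral_add i1 i2).symm.trans_le (integral_mono (i1.add i2)
      (int_sq (cR' x y v) fun _ => hK _) fun ω => ?_)
    have := mul_nonneg (e1.nn (pp x y v ω)) (e2.nn (pp x y v ω))
    simp only [Function.comp]
    linarith
  · have d0 : 0 ≤ nrm (x - x') + nrm (y - y') + nrm (v - v') :=
      dn_pp' x y v x' y' v' (0 : Fin m × Fin n → ℝ) ▸ dn_nonneg _ _
    have c0 := mul_nonneg (show 0 ≤ 2 * 1 * (M1 Λ + M2 Λ) by positivity) d0
    have l := fun ω => (ec.lip (pp x y v ω) (pp x' y' v' ω)).trans_eq (by rw [dn_pp'])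
    have s1 := root_le (μ := gv _) (cR' x y v) (cR' x' y' v') (fun _ => hK _) (fun _ => hK _)
      (fun _ => ec.nn _) c0 l
    have s2 := root_le (μ := gv _) (cR' x' y' v') (cR' x y v) (fun _ => hK _) (fun _ => hK _)
      (fun _ => ec.nn _) c0 fun ω => (abs_sub_comm _ _).trans_le (l ω)
    have s3 := abs_sub_le_iff.2 ⟨s1, s2⟩
    simp only [Function.comp] at s3
    linarith [o1.av_lip x y v x' y' v', o2.av_lip x y v x' y' v', mul_le_mul_of_nonneg_right m1 d0]
  · simpa using integral_mono (μ := gv _) (int_sq (cR' x y v) fun _ => hK _) (integrable_const (K ^ 2))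
      fun ω => sq_le_sq' (abs_le.1 (hK _)).1 (abs_le.1 (hK _)).2
  · rw [TT_eq w P hx hy hv ec.bc]
    refine (ec.tl _ _ (fn_TT C1 hw (fun u e η => hC n _ _ w u e η hw (le_trans ?_ hP)) hx hy hv
      (by linarith) hD)).trans ?_
    · refine opn_le_of_nrm (opn_nonneg P) fun u => le_trans (le_of_eq ?_) (nrm_mulVec_le P u)
      simp [fromRows_mulVec, nrm, dotProduct]
    · have t : exp (-(Λ ^ 2 / (D ^ 2 * C0))) ≤ exp (-(Λ ^ 2 / C)) :=
        exp_le_exp.2 (neg_le_neg (div_le_div_of_nonneg_left (sq_nonneg _) D0 (by linarith)))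
      rw [sub_eq_add_neg, exp_add, mul_left_comm (n : ℝ), ← mul_assoc, sq]
      exact mul_le_mul m2 (mul_le_mul_of_nonneg_left t (Nat.cast_nonneg n)) (by positivity)
        (exp_pos _).le

end Crest.Agent.T157.K

end
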