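import Crest.Agent.T157.KDef_36

/-!
# Row 157, part B, block S5 (helper46): tails under the planted law

`K.concStmt : ConcStmt`, `K.Co46.tailGlue46 : TailGlue`.
-/

set_option autoImplicit false
set_option linter.unusedSectionVars false

noncomputable section

namespace Crest.Agent.T157.K

open MeasureTheory ProbabilityTheory Real Matrix Finset
open Crest.Agent.T157.E Crest.Agent.T157.Eig
open Crest.Agent.T157.Tap (V Mx th DD)
open Crest.Agent.T157.Rec (grad)
open Crest.Agent.T157.Conc (ELip)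
open Crest.Agent.T157.Reg (jac neg Fld)
open Crest.Agent.T157.S3.Hd (AD)
open Crest.Agent.T157.SL (Wt MG)

namespace Co46

variable {n : ℕ} {κ : Type} [Fintype κ] [DecidableEq κ]

lemma en_eq (x : κ → ℝ) : Conc.en x = nrm x := by simp only [Conc.en, nrm, dotProduct, sq]

lemma mg_lip {H : (κ → ℝ) → ℝ} {b : ℝ} (h : ELip b H) : MG H := by
  have h1 : MG fun u : κ → ℝ => |H 0| + |b| * ∑ i, |u i| :=
    (MG.const _).add ((MG.sum _ fun i _ => (Rec.mg_coord i).abs).const_mul _)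
  exact h1.of_le h.continuous.measurable fun u => (h.abs_le u).trans (le_abs_self _)

lemma elip_sh {H : (κ → ℝ) → ℝ} {b : ℝ} (h : ELip b H) (u : κ → ℝ) : ELip b fun z => H (u + z) :=
  fun z z' => by simpa only [add_sub_add_left_eq_sub] using h (u + z) (u + z')

lemma int_neg (f : (κ → ℝ) → ℝ) : ∫ z, f (-z) ∂gv κ = ∫ z, f z ∂gv κ := by
  have h : (gv κ).IsNegInvariant := by
    have : (gaussianReal 0 1).IsNegInvariant :=
      ⟨by simpa [Measure.neg] using gaussianReal_map_neg (μ := 0) (v := 1)⟩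
    infer_instance
  exact integral_neg_eq_self f (gv κ)

lemma sv_neg (x : Cube n) : sv (neg x) = -sv x := funext fun _ => spin_not _

lemma mean_odd {w F : Cube n → ℝ} (hw : ∀ s, w (neg s) = w s) (hF : ∀ s, F (neg s) = -F s) :
    mean w F = 0 := by
  let e : Cube n ≃ Cube n :=
    ⟨neg, neg, fun x => by ext i; simp [Reg.neg], fun x => by ext i; simp [Reg.neg]⟩
  have h1 : mean w F = ∑ x, prob w (neg x) * F (neg x) := (e.sum_comp fun x => prob w x * F x).symm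
  have h2 : ∑ x, prob w (neg x) * F (neg x) = -mean w F := by
    simp only [mean, prob, hw, hF, mul_neg, sum_neg_distrib]
  linarith

/-- the sub-Gaussian constant -/
def cc (K0 B : ℝ) : ℝ :=
  1 / 2 + 4 * (max K0 0 + 32) * (2 * Kc.Ga 1 (B ^ 2) + 2 * exp (4 * 1 * B ^ 2))

lemma cc_pos (K0 B : ℝ) : 0 < cc K0 B := by
  have := Kc.Ga_nonneg zero_le_one (sq_nonneg B)
  unfold cc; positivity

lemma mgf {P : Matrix κ (Fin n) ℝ} {w : Cube n → ℝ} {f : Cube n → (κ → ℝ) → ℝ} {K0 B e : ℝ}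
    (hw : EA w K0) (hP : opn P ≤ B) (ho : ∀ s ζ, f (neg s) (-ζ) = -f s ζ)
    (hg : ∀ s ζ, grad (fun s => f s ζ) s ⬝ᵥ grad (fun s => f s ζ) s ≤ e ^ 2)
    (hl : ∀ s, ELip e (f s)) (t : ℝ) :
    mean w (cav P fun s ζ => exp (t * f s ζ)) ≤ exp (cc K0 B * e ^ 2 * t ^ 2) := by
  obtain ⟨w0, we, hat⟩ := hw
  have hW := Wt.of_pos w0
  have hA : AD w (max K0 0 + 32) (5120 * n ^ 2 * exp (-(1 * n / 2))) :=
    ⟨max K0 0, 1, le_max_right _ _, one_pos, by norm_num, le_rfl,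
      Atd.atd_of_at (hat.mono w0 (le_max_left _ _) le_rfl) (exp_pos _).le⟩
  have hF : Kc.FG (fun x => P *ᵥ sv x) (B ^ 2) := Kc.fg_lin (sq_nonneg B) fun u =>
    (mulVec_dot_le P u).trans (mul_le_mul_of_nonneg_right
      (pow_le_pow_left₀ (opn_nonneg P) hP 2) (dot_self_nonneg u))
  have hm := fun s => mg_lip (hl s)
  have G0 := Kc.Ga_nonneg zero_le_one (sq_nonneg B)
  have g1 : ∀ s, grad (cav P f) s ⬝ᵥ grad (cav P f) s ≤
      (2 * Kc.Ga 1 (B ^ 2) + 2 * exp (4 * 1 * B ^ 2)) * e ^ 2 := fun s => by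
    have h1 := hF.grad_le' zero_le_one hm (cav P f s) s
    have h2 : cav P (fun x u => (f x u - cav P f s) ^ 2) s ≤ e ^ 2 :=
      Conc.var_lip (elip_sh (hl s) (P *ᵥ sv s))
    have h3 : Rec.Pm (fun x => P *ᵥ sv x) 1
        (fun x u => grad (fun x => f x u) x ⬝ᵥ grad (fun x => f x u) x) s ≤ e ^ 2 :=
      Rec.Pm_le (fun x => MG.sum _ fun j _ => (Kc.mg_grad hm x j).mul (Kc.mg_grad hm x j)) (hg s)
    rw [← cav_eq, ← cav_eq] at h1
    rw [add_mul]
    exact h1.trans (add_le_add (mul_le_mul_of_nonneg_left h2 (by positivity))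
      (mul_le_mul_of_nonneg_left h3 (by positivity)))
  have g2 : mean w (cav P f) = 0 := mean_odd we fun s => by
    simp only [cav, sv_neg, mulVec_neg]
    rw [← int_neg, ← integral_neg]
    simp only [← neg_add, ho]
  have g3 : mean w (fun s => exp (t * cav P f s)) ≤ exp (t * mean w (cav P f) + _) :=
    S3.Hd.mgf_le_grad w0 hA g1 t
  have g4 : ∀ s, cav P (fun s ζ => exp (t * f s ζ)) s ≤
      exp (e ^ 2 * t ^ 2 / 2) * exp (t * cav P f s) := fun s => by
    have := mul_le_mul_of_nonneg_right (Conc.mgf_lip (elip_sh (hl s) (P *ᵥ sv s)) t)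
      (exp_pos (t * cav P f s)).le
    rw [← integral_mul_const] at this
    refine le_of_eq_of_le ?_ this
    simp only [cav, ← exp_add]
    congr 1; ext z; congr 1; ring
  refine (hW.mean_mono g4).trans ?_
  rw [SL.mean_const_mul]
  refine (mul_le_mul_of_nonneg_left g3 (exp_pos _).le).trans_eq ?_
  rw [← exp_add, g2, cc]; congr 1; ring

lemma exc_le (x η : ℝ) {l : ℝ} (hl : 0 < l) :
    max (|x| - η) 0 ^ 2 ≤ 2 / l ^ 2 * exp (-(l * η)) * (exp (l * x) + exp (-l * x)) := by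
  rcases le_total (|x| - η) 0 with h | h
  · rw [max_eq_right h]; norm_num; positivity
  rw [max_eq_left h]
  have h1 := quadratic_le_exp_of_nonneg (mul_nonneg hl.le h)
  have h2 : exp (l * |x|) ≤ exp (l * x) + exp (-l * x) := by
    rcases abs_choice x with a | a <;> rw [a]
    · linarith [exp_pos (-l * x)]
    · rw [mul_neg, neg_mul]; linarith [exp_pos (l * x)]
  have h3 : exp (l * (|x| - η)) = exp (-(l * η)) * exp (l * |x|) := by
    rw [← exp_add]; congr 1; ring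
  have h4 := mul_le_mul_of_nonneg_left h2 (exp_pos (-(l * η))).le
  rw [mul_assoc, div_mul_eq_mul_div, le_div_iff₀ (by positivity)]
  nlinarith [mul_nonneg hl.le h]

lemma elip_co {u : (κ → ℝ) → V n} {e : ℝ} (h : ∀ ζ ζ', nrm (u ζ - u ζ') ≤ e * nrm (ζ - ζ'))
    (i : Fin n) : ELip e fun ζ => u ζ i := fun ζ ζ' => by
  rw [en_eq]; exact (abs_apply_le_nrm (u ζ - u ζ') i).trans (h ζ ζ')

lemma row_le {u : Cube n → V n} {e : ℝ} {s : Cube n} (h : opn (jac u s) ≤ e) (i : Fin n) :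
    grad (fun s => u s i) s ⬝ᵥ grad (fun s => u s i) s ≤ e ^ 2 := by
  have h1 := mulVec_dot_le (jac u s)ᵀ (Pi.single i 1)
  rw [opn_transpose] at h1
  have h2 := pow_le_pow_left₀ (opn_nonneg _) h 2
  simp only [single_dotProduct, Pi.single_eq_same, mul_one] at h1
  refine le_trans (sum_le_sum fun j _ => ?_) (h1.trans h2)
  simp only [mulVec_single_one, col_apply, transpose_apply, jac, of_apply, Rec.grad_eq]
  have := Rec.sv_mul_self s j
  have e1 : sv s j * (u s i - u (Rec.fl s j) i) / 2 * (sv s j * (u s i - u (Rec.fl s j) i) / 2) =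
      (u (Rec.fl s j) i - u s i) ^ 2 / 4 := by
    linear_combination (u (Rec.fl s j) i - u s i) ^ 2 / 4 * this
  rw [e1]; nlinarith [sq_nonneg (u (Rec.fl s j) i - u s i)]

end Co46

open Co46 in
theorem concStmt : ConcStmt := fun K0 B => by
  have c0 := cc_pos K0 B
  set c := cc K0 B with hc
  have c1 := one_le_exp (by positivity : 0 ≤ 2 * c)
  refine ⟨4 * exp (2 * c) + 8 * c, by linarith, fun n κ _ _ P w u e η hw hP he hη ho hj hl => ?_⟩
  have hW := Wt.of_pos hw.1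
  obtain ⟨x, hx⟩ : ∃ x, x = η / e := ⟨_, rfl⟩
  have x0 : 0 ≤ x := hx ▸ div_nonneg hη he.le
  obtain ⟨l, hl'⟩ : ∃ l, l = (1 + x / (4 * c)) / e := ⟨_, rfl⟩
  have l0 : 0 < l := by rw [hl']; positivity
  obtain ⟨a, ha⟩ : ∃ a, a = 2 / l ^ 2 * exp (-(l * η)) := ⟨_, rfl⟩
  have a0 : 0 ≤ a := by rw [ha]; positivity
  have hm : ∀ i t, mean w (cav P fun s ζ => exp (t * u s ζ i)) ≤ exp (c * e ^ 2 * t ^ 2) :=
    fun i t => mgf hw hP (fun s ζ => congrFun (ho s ζ) i) (fun s ζ => row_le (hj s ζ) i)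
      (fun s => elip_co (hl s) i) t
  have h1 : ∀ s, cav P (fun s ζ => exc η (u s ζ)) s ≤ ∑ i, a *
      (cav P (fun s ζ => exp (l * u s ζ i)) s + cav P (fun s ζ => exp (-l * u s ζ i)) s) := fun s => by
    have i1 := fun i t => (elip_sh (elip_co (hl s) i) (P *ᵥ sv s)).integrable_exp t
    have i2 := fun i => ((i1 i l).add (i1 i (-l))).const_mul a
    refine (integral_mono_of_nonneg (.of_forall fun z => sum_nonneg fun _ _ => sq_nonneg _)
      (integrable_finsetSum univ fun i _ => i2 i)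
      (.of_forall fun z => sum_le_sum fun i _ => ?_)).trans_eq ?_
    · rw [ha]; exact exc_le _ _ l0
    · rw [integral_finsetSum _ fun i _ => i2 i]
      refine sum_congr rfl fun i _ => ?_
      rw [integral_const_mul]
      exact congrArg _ (integral_add (i1 i l) (i1 i (-l)))
  have h2 : a * (2 * exp (c * e ^ 2 * l ^ 2)) ≤
      (4 * exp (2 * c) + 8 * c) * e ^ 2 * exp (-(x ^ 2 / (4 * exp (2 * c) + 8 * c))) := by
    obtain ⟨b, hb⟩ : ∃ b, b = x / (4 * c) := ⟨_, rfl⟩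
    have b0 : 0 ≤ b := by rw [hb]; positivity
    have e1 : l * η = (1 + b) * x := by rw [hl', ← hb, hx]; ring
    have e2 : c * e ^ 2 * l ^ 2 = c * (1 + b) ^ 2 := by rw [hl', ← hb]; field_simp
    have e3 : 2 / l ^ 2 ≤ 2 * e ^ 2 := by
      rw [hl', ← hb, div_pow, div_div_eq_mul_div]
      exact div_le_self (by positivity) (one_le_pow₀ (by linarith))
    have e4 : x = 4 * c * b := by rw [hb]; field_simp
    have e5 : x ^ 2 / (4 * exp (2 * c) + 8 * c) ≤ 2 * c * b ^ 2 := by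
      rw [div_le_iff₀ (by positivity), e4]
      nlinarith [mul_nonneg (mul_nonneg c0.le (sq_nonneg b)) (exp_pos (2 * c)).le]
    have e6 : exp (-(l * η)) * exp (c * e ^ 2 * l ^ 2) ≤
        exp (2 * c) * exp (-(x ^ 2 / (4 * exp (2 * c) + 8 * c))) := by
      rw [← exp_add, ← exp_add, e1, e2, exp_le_exp, e4]
      rw [e4] at e5
      nlinarith [mul_nonneg c0.le (sq_nonneg (b - 1)), mul_nonneg c0.le b0]
    calc _ = 2 * (2 / l ^ 2) * (exp (-(l * η)) * exp (c * e ^ 2 * l ^ 2)) := by rw [ha]; ring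
      _ ≤ 2 * (2 * e ^ 2) * (exp (2 * c) * exp (-(x ^ 2 / (4 * exp (2 * c) + 8 * c)))) := by gcongr
      _ ≤ _ := by
        nlinarith [mul_nonneg (mul_nonneg c0.le (sq_nonneg e))
          (exp_pos (-(x ^ 2 / (4 * exp (2 * c) + 8 * c)))).le]
  refine (hW.mean_mono h1).trans ?_
  rw [SL.mean_sum, ← hx]
  refine (sum_le_card_nsmul _ _ _ fun i _ => le_trans ?_ h2).trans_eq (by simp; ring)
  rw [SL.mean_const_mul, SL.mean_add]
  refine mul_le_mul_of_nonneg_left ?_ a0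
  have h3 := hm i (-l)
  rw [neg_sq] at h3
  linarith [hm i l]

namespace Co46

variable {n : ℕ}

lemma nrm_mul_le {a b c : V n} {k : ℝ} (hk : 0 ≤ k) (h : ∀ i, |a i * b i| ≤ k * |c i|) :
    nrm (a * b) ≤ k * nrm c := by
  rw [nrm_le_iff (mul_nonneg hk (nrm_nonneg c)), mul_pow, nrm_sq, dotProduct, dotProduct, mul_sum]
  refine sum_le_sum fun i _ => ?_
  have := pow_le_pow_left₀ (abs_nonneg _) (h i) 2
  rw [mul_pow, sq_abs, sq_abs] at this
  simpa only [Pi.mul_apply, sq] using this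

lemma nrm_meanV {w : Cube n → ℝ} (hw : Wt w) {u : Cube n → V n} {b : ℝ} (h : ∀ s, nrm (u s) ≤ b) :
    nrm (meanV w u) ≤ b := by
  have b0 := (nrm_nonneg _).trans (h default)
  have h1 : meanV w u ⬝ᵥ meanV w u = mean w fun s => meanV w u ⬝ᵥ u s := by
    simp only [dotProduct, SL.mean_sum, SL.mean_const_mul]; rfl
  have h2 : meanV w u ⬝ᵥ meanV w u ≤ nrm (meanV w u) * b := h1 ▸ hw.mean_le fun s =>
    (dot_le _ _).trans (mul_le_mul_of_nonneg_left (h s) (nrm_nonneg _))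
  rw [← nrm_mul_self] at h2
  by_contra hc
  nlinarith [not_le.1 hc]

lemma DD_le (h : V n) (i : Fin n) : |DD (th h) i| ≤ 1 := by
  rw [DD, th, abs_of_nonneg (Da.Gr.sech_nonneg _)]; exact sub_le_self _ (sq_nonneg _)

lemma DD_lip (h h' : V n) (i : Fin n) : |DD (th h) i - DD (th h') i| ≤ 2 * |h i - h' i| := by
  simp only [DD, th]
  rw [show 1 - tanh (h i) ^ 2 - (1 - tanh (h' i) ^ 2) =
    -((tanh (h i) + tanh (h' i)) * (tanh (h i) - tanh (h' i))) by ring, abs_neg, abs_mul]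
  refine mul_le_mul ((abs_add_le _ _).trans ?_) (Da.Gr.tanh_lip _ _) (abs_nonneg _) zero_le_two
  linarith [abs_tanh_lt_one (h i), abs_tanh_lt_one (h' i)]

lemma wt_ising (J : Mx n) (h : V n) : Wt (ising J h) := Wt.of_pos fun _ => exp_pos _

lemma ub_lip (hp : PrStmt) {Q : Mx n} {ω : U2 n} {e : ℝ} (he : 0 ≤ e) (hQ : opn Q ≤ 3) (hω : RF e ω)
    (y y' ζ ζ' : V n) : nrm (ub Q y (fun t => ω t y) ζ - ub Q y' (fun t => ω t y') ζ') ≤
      e * (4 * nrm (y - y') + 9 * nrm (ζ - ζ')) := by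
  obtain ⟨h, hh⟩ : ∃ h, h = y + Q *ᵥ ζ := ⟨_, rfl⟩
  obtain ⟨h', hh'⟩ : ∃ h', h' = y' + Q *ᵥ ζ' := ⟨_, rfl⟩
  have a0 : nrm (h - h') ≤ nrm (y - y') + 3 * nrm (ζ - ζ') := by
    rw [hh, hh', add_sub_add_comm, ← mulVec_sub]
    exact (nrm_add_le _ _).trans (add_le_add le_rfl ((nrm_mulVec_le _ _).trans
      (mul_le_mul_of_nonneg_right hQ (nrm_nonneg _))))
  simp only [ub, pt, pw, ← hh, ← hh']
  set M := meanV (ising 0 h) fun t => ω t y
  set M1 := meanV (ising 0 h') fun t => ω t y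
  set M2 := meanV (ising 0 h') fun t => ω t y'
  have a1 : nrm ((DD (th h) - DD (th h')) * M) ≤ 2 * e * nrm (h - h') :=
    nrm_mul_le (by positivity) fun i => by
      have : |M i| ≤ e := abs_le.2 ⟨((wt_ising 0 h).mean_const (-e)).symm.trans_le
        ((wt_ising 0 h).mean_mono fun t => (abs_le.1 ((hω.r0 y).sup t i)).1),
        (wt_ising 0 h).mean_le fun t => (abs_le.1 ((hω.r0 y).sup t i)).2⟩
      rw [abs_mul, mul_right_comm]
      exact mul_le_mul (DD_lip h h' i) this (abs_nonneg _) (by positivity)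
  have a2 : nrm (DD (th h') * (M - M2)) ≤ 1 * nrm (M - M2) := nrm_mul_le zero_le_one fun i => by
    rw [abs_mul]; exact mul_le_mul_of_nonneg_right (DD_le h' i) (abs_nonneg _)
  have a3 : nrm (M - M1) ≤ e * nrm (h - h') := hp.lip n _ e (hω.r0 y) h h'
  have a4 : nrm (M1 - M2) ≤ e * nrm (y - y') := by
    have : M1 - M2 = meanV (ising 0 h') fun t => ω t y - ω t y' := by
      ext i; exact (SL.mean_sub _ _ _).symm
    rw [this]
    exact nrm_meanV (wt_ising 0 h') fun t => hω.lip t y y'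
  have a5 := nrm_add_le (M - M1) (M1 - M2)
  have a6 := nrm_add_le ((DD (th h) - DD (th h')) * M) (DD (th h') * (M - M2))
  rw [sub_add_sub_cancel] at a5
  rw [show (DD (th h) - DD (th h')) * M + DD (th h') * (M - M2) =
    DD (th h) * M - DD (th h') * M2 by ring] at a6
  nlinarith [mul_le_mul_of_nonneg_left a0 he]

lemma ub_odd (hp : PrStmt) (Q : Mx n) {ω : U2 n} (ho : OddJ ω) (y ζ : V n) :
    ub Q (-y) (fun t => ω t (-y)) (-ζ) = -ub Q y (fun t => ω t y) ζ := by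
  ext i
  simp only [ub, pt, pw, mulVec_neg, ← neg_add, Pi.mul_apply, Pi.neg_apply, meanV, hp.neg, ho _ _,
    DD, th, tanh_neg, neg_sq]
  simp only [mean, mul_neg, sum_neg_distrib]

lemma nrm_inl (v : Fin n ⊕ Fin n → ℝ) : nrm (v ∘ Sum.inl) ≤ nrm v :=
  sqrt_le_sqrt (by
    simp only [dotProduct, Fintype.sum_sum_type, Function.comp_apply]
    exact le_add_of_nonneg_right (sum_nonneg fun _ _ => mul_self_nonneg _))

lemma nrm_inr (v : Fin n ⊕ Fin n → ℝ) : nrm (v ∘ Sum.inr) ≤ nrm v :=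
  sqrt_le_sqrt (by
    simp only [dotProduct, Fintype.sum_sum_type, Function.comp_apply]
    exact le_add_of_nonneg_left (sum_nonneg fun _ _ => mul_self_nonneg _))

lemma fubini {H : (Fin n ⊕ Fin n → ℝ) → ℝ} (h : Integrable H (gv (Fin n ⊕ Fin n))) :
    ∫ z, H z ∂gv (Fin n ⊕ Fin n) = ∫ g, ∫ z, H (Sum.elim z g) ∂gv (Fin n) ∂gv (Fin n) := by
  have mp := measurePreserving_sumPiEquivProdPi_symm (X := fun _ : Fin n ⊕ Fin n => ℝ)
    fun _ => gaussianReal 0 1
  refine (mp.integral_comp' H).symm.trans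
    ((integral_prod_symm _ (mp.integrable_comp_of_integrable h)).trans ?_)
  rfl

end Co46

open Co46 in
theorem Co46.tailGlue46 : TailGlue := fun hc hp hr K0 r r0 => by
  obtain ⟨C, C1, hC⟩ := hc K0 (3 + √r)
  have s0 := sqrt_nonneg r
  obtain ⟨a, ha⟩ : ∃ a, a = 7 * (4 * √r + 9) := ⟨_, rfl⟩
  have a1 : 1 ≤ a := by linarith
  refine ⟨C * a ^ 2, one_le_mul_of_one_le_of_one_le C1 (one_le_pow₀ a1),
    fun n J Q η e ω hJ hat he hη hω ho => ?_⟩
  obtain ⟨q1, q2, -⟩ := hr.opQ n J Q hJ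
  let U : (Fin n ⊕ Fin n → ℝ) → V n := fun ζ =>
    (Q * Q) *ᵥ ub Q (√r • ζ ∘ Sum.inr) (fun t => ω t (√r • ζ ∘ Sum.inr)) (ζ ∘ Sum.inl)
  have hU : ∀ ζ ζ', nrm (U ζ - U ζ') ≤ a * e * nrm (ζ - ζ') := fun ζ ζ' => by
    have h1 := ub_lip hp he.le q1 hω (√r • ζ ∘ Sum.inr) (√r • ζ' ∘ Sum.inr) (ζ ∘ Sum.inl)
      (ζ' ∘ Sum.inl)
    rw [← smul_sub, nrm_smul, abs_of_nonneg s0] at h1
    have h2 : nrm (ζ ∘ Sum.inl - ζ' ∘ Sum.inl) ≤ nrm (ζ - ζ') := nrm_inl (ζ - ζ')
    have h3 : nrm (ζ ∘ Sum.inr - ζ' ∘ Sum.inr) ≤ nrm (ζ - ζ') := nrm_inr (ζ - ζ')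
    simp only [U, ← mulVec_sub]
    refine (nrm_mulVec_le _ _).trans ((mul_le_mul q2 h1 (nrm_nonneg _) (by norm_num)).trans ?_)
    calc _ ≤ 7 * (e * (4 * (√r * nrm (ζ - ζ')) + 9 * nrm (ζ - ζ'))) := by gcongr
      _ = _ := by rw [ha]; ring
  have hP : opn (fromRows Q (√r • (1 : Mx n))) ≤ 3 + √r := opn_le_of_sq (by positivity) fun v => by
    have h1 := mulVec_dot_le Q v
    have h2 := mul_le_mul_of_nonneg_right (pow_le_pow_left₀ (opn_nonneg Q) q1 2) (dot_self_nonneg v)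
    rw [fromRows_mulVec, sumElim_dotProduct_sumElim, smul_mulVec, one_mulVec, smul_dotProduct,
      dotProduct_smul, smul_eq_mul, smul_eq_mul]
    nlinarith [mul_nonneg s0 (dot_self_nonneg v)]
  have key := hC n (Fin n ⊕ Fin n) (fromRows Q (√r • (1 : Mx n))) (ising J 0) (fun _ => U) (a * e) η
    ⟨fun _ => exp_pos _, fun s => by simp [ising, sv_neg, mulVec_neg], hat⟩ hP (by positivity) hη
    (fun _ ζ => by
      have := ub_odd hp Q ho (√r • ζ ∘ Sum.inr) (ζ ∘ Sum.inl)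
      simp only [U, ← mulVec_neg, ← this, ← smul_neg]; rfl)
    (fun s ζ => by
      rw [show jac (fun _ => U ζ) s = 0 by ext; simp [jac], opn_zero]; positivity)
    fun _ => hU
  refine le_of_eq_of_le ?_ (key.trans_eq ?_)
  · refine sum_congr rfl fun s _ => congrArg _ (Eq.symm ?_)
    have hi : Integrable (fun z => exc η (U (fromRows Q (√r • (1 : Mx n)) *ᵥ sv s + z)))
        (gv (Fin n ⊕ Fin n)) := integrable_finsetSum _ fun i _ =>
      (((elip_sh (elip_co hU i) _).abs_comp.sub_const η).comp (φ := fun x => max x 0) zero_le_one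
        fun x y => by simpa using abs_max_sub_max_le_abs x y 0).integrable_pow 2
    refine (fubini hi).trans ?_
    congr 1; ext g
    have e1 : ∀ z, √r • (fromRows Q (√r • (1 : Mx n)) *ᵥ sv s + Sum.elim z g) ∘ Sum.inr =
        r • sv s + √r • g := fun z => by
      ext i
      simp only [fromRows_mulVec, smul_mulVec, one_mulVec, Pi.smul_apply, Function.comp_apply,
        Pi.add_apply, Sum.elim_inr, smul_eq_mul, mul_add, ← mul_assoc, mul_self_sqrt r0]
    have e2 : ∀ z, (fromRows Q (√r • (1 : Mx n)) *ᵥ sv s + Sum.elim z g) ∘ Sum.inl =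
        Q *ᵥ sv s + z := fun z => rfl
    simp only [U, e1, e2]
    rfl
  · have : a ≠ 0 := by positivity
    rw [show (η / (a * e)) ^ 2 / C = (η / e) ^ 2 / (C * a ^ 2) by field_simp]
    ring

end Crest.Agent.T157.K

end
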