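import Crest.Agent.T157.ConcS_16

/-!
# Row 157, part E (helper16): Lipschitz on a good set, variance, quantiles, maximal inequality
-/

set_option autoImplicit false

noncomputable section

namespace Crest.Agent.T157.Conc

open MeasureTheory ProbabilityTheory Set
open scoped ENNReal NNReal

section general
variable {Ω : Type*} [MeasurableSpace Ω] {μ : Measure Ω}

lemma one_add_sq_le_cosh (x : ℝ) : 1 + x ^ 2 / 2 ≤ (Real.exp x + Real.exp (-x)) / 2 := by
  have h := sum_le_hasSum (Finset.range 2) (fun i _ => by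
    have : 0 ≤ x ^ (2 * i) := by rw [pow_mul]; positivity
    positivity) (Real.hasSum_cosh x)
  rw [Real.cosh_eq] at h
  simp only [Finset.sum_range_succ, Finset.sum_range_zero, Nat.factorial] at h
  norm_num at h
  linarith

lemma subG_integrable_sq {X : Ω → ℝ} {c : ℝ≥0} (h : HasSubgaussianMGF X c μ) :
    Integrable (fun x => X x ^ 2) μ := by
  simpa only [sq_abs] using (SubE.of_subG h 1).integrable_pow one_pos 2

/-- second moment of a variable with sub-Gaussian mgf -/
theorem subG_sq_le [IsProbabilityMeasure μ] {X : Ω → ℝ} {c : ℝ≥0} (h : HasSubgaussianMGF X c μ) :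
    ∫ x, X x ^ 2 ∂μ ≤ c := by
  have i2 := subG_integrable_sq h
  have key : ∀ t : ℝ, 1 + t ^ 2 / 2 * ∫ x, X x ^ 2 ∂μ ≤ Real.exp (c * t ^ 2 / 2) := fun t => by
    have a1 := h.integrable_exp_mul t
    have a2 := h.integrable_exp_mul (-t)
    have b1 := h.mgf_le t
    have b2 := h.mgf_le (-t)
    simp only [mgf, neg_sq] at b1 b2
    have c1 : Integrable (fun x => 1 + t ^ 2 / 2 * X x ^ 2) μ :=
      (integrable_const _).add (i2.const_mul _)
    have c3 : Integrable (fun x => Real.exp (t * X x) + Real.exp (-t * X x)) μ := a1.add a2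
    have h3 := integral_mono c1 (c3.div_const 2) fun x => by
      have := one_add_sq_le_cosh (t * X x)
      simp only [neg_mul]
      rw [mul_pow] at this
      linarith
    rw [integral_add (integrable_const _) (i2.const_mul _), integral_div, integral_add a1 a2,
      integral_const_mul] at h3
    simp only [integral_const, probReal_univ, smul_eq_mul, mul_one] at h3
    linarith
  have hc : ContinuousAt (fun s : ℝ => (c : ℝ) * Real.exp (c * s)) 0 := by fun_prop
  have ht := hc.tendsto.mono_left (nhdsWithin_le_nhds (s := Ioi 0))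
  simp only [mul_zero, Real.exp_zero, mul_one] at ht
  refine ge_of_tendsto ht ?_
  filter_upwards [self_mem_nhdsWithin] with s hs
  have hs' : 0 < s := hs
  have h1 := key (Real.sqrt (2 * s))
  rw [Real.sq_sqrt (by linarith), show 2 * s / 2 = s by ring,
    show (c : ℝ) * (2 * s) / 2 = c * s by ring] at h1
  have h2 : Real.exp (c * s) ≤ 1 + c * s * Real.exp (c * s) := by
    have := Real.add_one_le_exp (-(c * s))
    have h4 := mul_le_mul_of_nonneg_right this (Real.exp_pos (c * s)).le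
    rw [← Real.exp_add, neg_add_cancel, Real.exp_zero] at h4
    linarith
  refine le_of_mul_le_mul_left ?_ hs'
  linarith

lemma integral_abs_le_sqrt [IsProbabilityMeasure μ] {X : Ω → ℝ} (h1 : Integrable X μ)
    (h2 : Integrable (fun x => X x ^ 2) μ) : ∫ x, |X x| ∂μ ≤ Real.sqrt (∫ x, X x ^ 2 ∂μ) := by
  refine Real.le_sqrt_of_sq_le ?_
  have := (even_two.convexOn_pow (𝕜 := ℝ)).map_integral_le (μ := μ) (f := fun x => |X x|)
    (by fun_prop) isClosed_univ (ae_of_all _ fun _ => mem_univ _) h1.abs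
    (by simpa only [Function.comp_def, sq_abs] using h2)
  simpa only [sq_abs] using this

theorem subG_abs_le [IsProbabilityMeasure μ] {X : Ω → ℝ} {c : ℝ≥0} (h : HasSubgaussianMGF X c μ) :
    ∫ x, |X x| ∂μ ≤ Real.sqrt c :=
  (integral_abs_le_sqrt h.integrable (subG_integrable_sq h)).trans (Real.sqrt_le_sqrt (subG_sq_le h))

/-- **maximal inequality**: `E max_i X_i ≤ √(2 c log N)` -/
theorem subG_max [IsProbabilityMeasure μ] {κ : Type*} [Fintype κ] {X : κ → Ω → ℝ} {c : ℝ≥0}
    (h : ∀ i, HasSubgaussianMGF (X i) c μ) {Y : Ω → ℝ} (hY : Integrable Y μ)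
    (hle : ∀ ω, ∃ i, Y ω ≤ X i ω) {t : ℝ} (ht : 0 < t) :
    ∫ ω, Y ω ∂μ ≤ Real.log (Fintype.card κ) / t + c * t / 2 := by
  have hs : Integrable (fun ω => ∑ i, Real.exp (t * X i ω)) μ :=
    integrable_finsetSum _ fun i _ => (h i).integrable_exp_mul t
  have hp : ∀ ω, Real.exp (t * Y ω) ≤ ∑ i, Real.exp (t * X i ω) := fun ω => by
    obtain ⟨i, hi⟩ := hle ω
    exact (Real.exp_le_exp.2 (mul_le_mul_of_nonneg_left hi ht.le)).trans
      (Finset.single_le_sum (f := fun i => Real.exp (t * X i ω))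
        (fun _ _ => (Real.exp_pos _).le) (Finset.mem_univ i))
  have hYm := hY.aestronglyMeasurable
  have hi : Integrable (fun ω => Real.exp (t * Y ω)) μ :=
    hs.mono' (by fun_prop) (ae_of_all _ fun ω => by
      rw [Real.norm_eq_abs, abs_of_pos (Real.exp_pos _)]; exact hp ω)
  have h1 := (exp_integral_le (hY.const_mul t) hi).trans (integral_mono hi hs hp)
  rw [integral_finsetSum _ fun i _ => (h i).integrable_exp_mul t, integral_const_mul] at h1
  have h2 : ∑ i, ∫ ω, Real.exp (t * X i ω) ∂μ ≤ Fintype.card κ * Real.exp (c * t ^ 2 / 2) := by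
    refine (Finset.sum_le_sum fun i _ => (h i).mgf_le t).trans (le_of_eq ?_)
    simp
  have h3 := h1.trans h2
  have hN : (0:ℝ) < Fintype.card κ := 
    (mul_pos_iff_of_pos_right (Real.exp_pos _)).1 ((Real.exp_pos _).trans_le h3)
  have h4 := Real.log_le_log (Real.exp_pos _) h3
  rw [Real.log_exp, Real.log_mul hN.ne' (Real.exp_pos _).ne', Real.log_exp] at h4
  refine le_of_mul_le_mul_left ?_ ht
  rw [mul_add, mul_div_cancel₀ _ ht.ne']
  linarith

end general

variable {ι : Type*} [Fintype ι]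

theorem var_lip {L : ℝ} {F : (ι → ℝ) → ℝ} (h : ELip L F) :
    ∫ x, (F x - ∫ y, F y ∂gv ι) ^ 2 ∂gv ι ≤ L ^ 2 := subG_sq_le (subG_lip h)

theorem abs_dev_lip {L : ℝ} {F : (ι → ℝ) → ℝ} (h : ELip L F) :
    ∫ x, |F x - ∫ y, F y ∂gv ι| ∂gv ι ≤ |L| := by
  have := subG_abs_le (subG_lip' h (c := NNReal.mk (L ^ 2) (sq_nonneg _)) le_rfl)
  rwa [NNReal.coe_mk, Real.sqrt_sq_eq_abs] at this

/-- McShane extension -/
def mcs (A : Set (ι → ℝ)) (F : (ι → ℝ) → ℝ) (L : ℝ) (x : ι → ℝ) : ℝ :=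
  ⨅ a : A, (F a + L * en (x - a.1))

/-- `F` is `L`-Lipschitz on `A` -/
def ELipOn (L : ℝ) (F : (ι → ℝ) → ℝ) (A : Set (ι → ℝ)) : Prop :=
  ∀ x ∈ A, ∀ y ∈ A, |F x - F y| ≤ L * en (x - y)

section mcs
variable {A : Set (ι → ℝ)} {F : (ι → ℝ) → ℝ} {L : ℝ}

lemma en_sub_le (x y z : ι → ℝ) : en (x - z) ≤ en (x - y) + en (y - z) := by
  have := en_add_le (x - y) (y - z)
  rwa [sub_add_sub_cancel] at this

lemma mcs_le (hL : 0 ≤ L) (h : ELipOn L F A) (x : ι → ℝ) {a : ι → ℝ} (ha : a ∈ A) :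
    mcs A F L x ≤ F a + L * en (x - a) := by
  refine ciInf_le (f := fun a : A => F a + L * en (x - a.1)) ⟨F a - L * en (x - a), ?_⟩ ⟨a, ha⟩
  rintro _ ⟨b, rfl⟩
  have h1 := (le_abs_self _).trans (h a ha b b.2)
  have h2 := mul_le_mul_of_nonneg_left (en_sub_le a x b) hL
  rw [en_sub_comm a x] at h2
  simp only
  linarith

lemma mcs_eq (hL : 0 ≤ L) (h : ELipOn L F A) {x : ι → ℝ} (hx : x ∈ A) : mcs A F L x = F x := by
  have : Nonempty A := ⟨⟨x, hx⟩⟩
  refine le_antisymm (by simpa [en_zero] using mcs_le hL h x hx) (le_ciInf fun a => ?_)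
  linarith [(le_abs_self _).trans (h x hx a a.2)]

lemma elip_mcs (hL : 0 ≤ L) (h : ELipOn L F A) : ELip L (mcs A F L) := by
  rcases A.eq_empty_or_nonempty with rfl | ⟨a, ha⟩
  · intro x y
    simp only [mcs, Real.iInf_of_isEmpty, sub_self, abs_zero]
    exact mul_nonneg hL (en_nonneg _)
  have : Nonempty A := ⟨⟨a, ha⟩⟩
  have key : ∀ x y, mcs A F L x ≤ mcs A F L y + L * en (x - y) := fun x y => by
    rw [← one_mul (mcs A F L y)]
    refine le_mul_ciInf zero_le_one fun b => ?_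
    have h1 := mcs_le hL h x b.2
    have h2 := mul_le_mul_of_nonneg_left (en_sub_le x y b) hL
    linarith
  intro x y
  have h1 := key x y
  have h2 := key y x
  rw [en_sub_comm] at h2
  rw [abs_le]; constructor <;> linarith

lemma convexOn_mcs (hL : 0 ≤ L) (h : ELipOn L F A) (hF : ConvexOn ℝ A F) :
    ConvexOn ℝ univ (mcs A F L) := by
  rcases A.eq_empty_or_nonempty with rfl | ⟨a, ha⟩
  · refine ⟨convex_univ, fun x _ y _ s t _ _ _ => ?_⟩
    simp [mcs]
  have : Nonempty A := ⟨⟨a, ha⟩⟩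
  refine ⟨convex_univ, fun x _ y _ s t hs ht hst => ?_⟩
  simp only [smul_eq_mul]
  refine le_mul_ciInf hs fun a => ?_
  rw [add_comm (s * _)]
  refine le_mul_ciInf ht fun b => ?_
  refine (mcs_le hL h _ (hF.1 a.2 b.2 hs ht hst)).trans ?_
  have h1 := hF.2 a.2 b.2 hs ht hst
  have h2 : en (s • x + t • y - (s • (a : ι → ℝ) + t • (b : ι → ℝ))) ≤
      s * en (x - a.1) + t * en (y - b.1) := by
    have := en_add_le (s • (x - a.1)) (t • (y - b.1))
    rw [en_smul, en_smul, abs_of_nonneg hs, abs_of_nonneg ht] at this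
    refine le_trans (le_of_eq ?_) this
    congr 1; simp only [smul_sub]; abel
  simp only [smul_eq_mul] at h1
  nlinarith [mul_le_mul_of_nonneg_left h2 hL]

theorem ELipOn.exists_ext (hL : 0 ≤ L) (h : ELipOn L F A) :
    ∃ G, ELip L G ∧ ∀ x ∈ A, G x = F x :=
  ⟨mcs A F L, elip_mcs hL h, fun _ hx => mcs_eq hL h hx⟩

/-- concentration on a set where `F` is Lipschitz (no measurability needed) -/
theorem tail_lip_on (hL : 0 ≤ L) (h : ELipOn L F A) : ∃ m : ℝ, ∀ t, 0 ≤ t →
    (gv ι).real {x | x ∈ A ∧ t ≤ |F x - m|} ≤ 2 * Real.exp (-t ^ 2 / (2 * L ^ 2)) :=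
  ⟨_, fun t ht => le_trans (measureReal_mono fun x hx => by
    have := hx.2
    rwa [← mcs_eq hL h hx.1] at this) (tail_lip_abs (elip_mcs hL h) ht)⟩

/-- the same for convex functions on a convex set, both entry laws -/
theorem tail_convex_on (b : Bool) (hL : 0 ≤ L) (h : ELipOn L F A) (hF : ConvexOn ℝ A F) :
    ∃ m : ℝ, ∀ t, 0 ≤ t → (Measure.pi fun _ : ι => E.entryLaw b).real
      {x | x ∈ A ∧ t ≤ |F x - m|} ≤ 2 * Real.exp (-t ^ 2 / (16 * L ^ 2)) :=
  ⟨_, fun t ht => le_trans (measureReal_mono fun x hx => by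
    have := hx.2
    rwa [← mcs_eq hL h hx.1] at this)
    (tail_convex_entry b (convexOn_mcs hL h hF) (elip_mcs hL h) ht)⟩

/-- a lower level set of probability `> exp(-s²/2)` bounds the mean -/
theorem mean_le_of_prob (hL : 0 < L) (h : ELip L F) {a s : ℝ} (hs : 0 ≤ s)
    (hp : Real.exp (-s ^ 2 / 2) < (gv ι).real {x | F x ≤ a}) : ∫ y, F y ∂gv ι ≤ a + L * s := by
  by_contra hcon
  push Not at hcon
  have h1 := tail_lip_lower h (t := L * s) (by positivity)
  rw [show -(L * s) ^ 2 / (2 * L ^ 2) = -s ^ 2 / 2 by field_simp] at h1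
  refine absurd (hp.trans_le (le_trans (measureReal_mono fun x hx => ?_) h1)) (lt_irrefl _)
  simp only [mem_ofPred_eq] at hx ⊢
  linarith

/-- from a set of probability `> exp(-s²/2)` to probability `≥ 1 - exp(-t²/2)` -/
theorem tail_of_prob (hL : 0 < L) (h : ELipOn L F A) {a s t : ℝ} (hs : 0 ≤ s) (ht : 0 ≤ t)
    (hp : Real.exp (-s ^ 2 / 2) < (gv ι).real {x | x ∈ A ∧ F x ≤ a}) :
    (gv ι).real {x | x ∈ A ∧ a + L * (s + t) ≤ F x} ≤ Real.exp (-t ^ 2 / 2) := by
  have hG := elip_mcs hL.le h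
  have h1 := mean_le_of_prob hL hG (a := a) hs (hp.trans_le (measureReal_mono fun x hx => by
    have := hx.2
    rwa [← mcs_eq hL.le h hx.1] at this))
  have h2 := tail_lip hG (t := L * t) (by positivity)
  rw [show -(L * t) ^ 2 / (2 * L ^ 2) = -t ^ 2 / 2 by field_simp] at h2
  refine le_trans (measureReal_mono fun x hx => ?_) h2
  have := hx.2
  rw [← mcs_eq hL.le h hx.1] at this
  simp only [mem_ofPred_eq]
  linarith

/-- enlargement of a set -/
theorem enlarge (A : Set (ι → ℝ)) {s t : ℝ} (hs : 0 ≤ s) (ht : 0 ≤ t)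
    (hp : Real.exp (-s ^ 2 / 2) < (gv ι).real A) :
    (gv ι).real {x | ∀ a ∈ A, s + t ≤ en (x - a)} ≤ Real.exp (-t ^ 2 / 2) := by
  have h0 : ELipOn 1 (fun _ => (0:ℝ)) A := fun x _ y _ => by simpa using en_nonneg _
  have hG := elip_mcs zero_le_one h0
  have hne : Nonempty A := by
    rcases A.eq_empty_or_nonempty with rfl | ⟨a, ha⟩
    · simp only [measureReal_empty] at hp; linarith [Real.exp_pos (-s ^ 2 / 2)]
    · exact ⟨⟨a, ha⟩⟩
  have h1 := mean_le_of_prob one_pos hG (a := 0) hs (hp.trans_le (measureReal_mono fun x hx =>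
    (mcs_eq zero_le_one h0 hx).le))
  have h2 := tail_lip hG ht
  rw [one_pow, mul_one] at h2
  refine le_trans (measureReal_mono fun x hx => ?_) h2
  have : s + t ≤ mcs A (fun _ => 0) 1 x := le_ciInf fun a => by simpa using hx a a.2
  simp only [mem_ofPred_eq]
  linarith

end mcs

end Crest.Agent.T157.Conc
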