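import Crest.Agent.T157.KCm_85
import Crest.Agent.T157.ConcM_16
import Crest.Agent.T157.ConcP_16

/-!
# Row 157, part B (helper75): first order regularity passes backwards through the random steps

A state space `P` carries moves `m j` (joint flips of the site `j` in some copies of the spins).
-/

set_option autoImplicit false
set_option linter.unusedSectionVars false

noncomputable section

namespace Crest.Agent.T157.K75

open MeasureTheory Real Matrix Set Function
open Crest.Agent.T157.E Crest.Agent.T157.SL Crest.Agent.T157.Rec Crest.Agent.T157.Kc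
open Crest.Agent.T157.Conc (en ELip)
open Crest.Agent.T157.Eig (nrm opn)

section moves
variable {P Q J Ω ι : Type*} [Fintype J] [Fintype Ω] [Fintype ι] [DecidableEq ι]
  {m : J → P → P} {p : P} {F G : P → ℝ} {φ : P → ι → ℝ} {Ψ : P → (ι → ℝ) → ℝ} {t lam a b : ℝ}

/-- energy of the moves -/
def En (m : J → P → P) (F : P → ℝ) (p : P) : ℝ := ∑ j, (F p - F (m j p)) ^ 2

theorem en_nonneg (m : J → P → P) (F : P → ℝ) (p : P) : 0 ≤ En m F p :=
  Finset.sum_nonneg fun _ _ => sq_nonneg _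

theorem en_add_le (m : J → P → P) (F G : P → ℝ) (p : P) :
    En m (fun q => F q + G q) p ≤ 2 * En m F p + 2 * En m G p := by
  simp only [En, Finset.mul_sum, ← Finset.sum_add_distrib]
  exact Finset.sum_le_sum fun j _ => by nlinarith [sq_nonneg (F p - F (m j p) - (G p - G (m j p)))]

theorem en_const_mul (m : J → P → P) (c : ℝ) (F : P → ℝ) (p : P) :
    En m (fun q => c * F q) p = c ^ 2 * En m F p := by
  simp only [En, Finset.mul_sum]; exact Finset.sum_congr rfl fun j _ => by ring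

/-- averaging over a finite label -/
theorem en_mean {w : Ω → ℝ} (hw : Wt w) (F : P → Ω → ℝ) :
    En m (fun q => mean w (F q)) p ≤ mean w fun ω => En m (fun q => F q ω) p := by
  simp only [En, mean_sum, ← mean_sub]
  exact Finset.sum_le_sum fun j _ => by simpa using mean_sub_sq_le hw (fun ω => F p ω - F (m j p) ω) 0

/-- averaging over any label -/
theorem en_int {α : Type*} [MeasurableSpace α] {μ : Measure α} [IsProbabilityMeasure μ]
    {F : P → α → ℝ} (h : ∀ q, MemLp (F q) 2 μ) :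
    En m (fun q => ∫ ω, F q ω ∂μ) p ≤ ∫ ω, En m (fun q => F q ω) p ∂μ := by
  have h2 := fun j => (h p).sub (h (m j p))
  have h3 : ∀ j, Integrable (fun ω => (F p ω - F (m j p) ω) ^ 2) μ := fun j => (h2 j).integrable_sq
  simp only [En]
  rw [integral_finsetSum _ fun j _ => h3 j]
  refine Finset.sum_le_sum fun j _ => ?_
  rw [← integral_sub ((h p).integrable one_le_two) ((h _).integrable one_le_two)]
  have := ProbabilityTheory.variance_nonneg (F p - F (m j p)) μ
  rw [ProbabilityTheory.variance_eq_sub (h2 j)] at this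
  exact sub_nonneg.1 this

/-- a random map of the states under which a move is one of two moves (mixing of copies) -/
theorem en_mix {w : Ω → ℝ} (hw : Wt w) {m1 m2 : J → Q → Q} {ψ : P → Ω → Q} (H : Q → ℝ)
    (h : ∀ ω j, ψ (m j p) ω = m1 j (ψ p ω) ∨ ψ (m j p) ω = m2 j (ψ p ω)) :
    En m (fun q => mean w fun ω => H (ψ q ω)) p ≤
      mean w fun ω => En m1 H (ψ p ω) + En m2 H (ψ p ω) := by
  refine (en_mean hw _).trans (hw.mean_mono fun ω => ?_)
  simp only [En, ← Finset.sum_add_distrib]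
  refine Finset.sum_le_sum fun j _ => ?_
  rcases h ω j with e | e <;> rw [e]
  · exact le_add_of_nonneg_right (sq_nonneg _)
  · exact le_add_of_nonneg_left (sq_nonneg _)

/-- Gram bound for the moves of the features -/
def MG2 (m : J → P → P) (φ : P → ι → ℝ) (lam : ℝ) (p : P) : Prop := 0 ≤ lam ∧ ∀ c : J → ℝ,
  (∑ j, c j • (φ (m j p) - φ p)) ⬝ᵥ (∑ j, c j • (φ (m j p) - φ p)) ≤ lam * ∑ j, c j ^ 2

theorem mg_en (hΨ : ∀ q, MG (Ψ q)) : MG fun u => En m (fun q => Ψ q u) p :=
  MG.sum _ fun _ _ => mg_sq ((hΨ p).sub (hΨ _))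

/-- **Gaussian step**: noise part and explicit part -/
theorem en_Pm [DecidableEq J] (ht : 0 ≤ t) (hG : MG2 m φ lam p) (hΨ : ∀ q, MG (Ψ q)) (c : ℝ) :
    En m (Pm φ t Ψ) p ≤ 2 * (t * lam * exp (t * lam)) * Pm φ t (fun q u => (Ψ q u - c) ^ 2) p +
      2 * exp (t * lam) * Pm φ t (fun q u => En m (fun q => Ψ q u) q) p := by
  have l0 := hG.1
  have sh : ∀ (F : (ι → ℝ) → ℝ) (q : P), ∫ z, F (t • φ q + √t • z) ∂Gs ι =
      ∫ z, F (t • φ p + √t • (√t • (φ q - φ p) + z)) ∂Gs ι := fun F q => by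
    simp only [smul_add, smul_smul, mul_self_sqrt ht, smul_sub, ← add_assoc, add_sub_cancel]
  have one : ∀ j, (√t • (φ (m j p) - φ p)) ⬝ᵥ (√t • (φ (m j p) - φ p)) ≤ t * lam := fun j => by
    rw [dot_sqrt ht]
    refine mul_le_mul_of_nonneg_left ?_ ht
    simpa [Pi.single_apply, ite_smul] using hG.2 (Pi.single j 1)
  have k := cm_le (v := fun j => √t • (φ (m j p) - φ p)) (lam := t * lam) (by positivity)
    (fun a => by
      simp only [smul_comm (a _) √t, ← Finset.smul_sum]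
      rw [dot_sqrt ht, mul_assoc]; exact mul_le_mul_of_nonneg_left (hG.2 a) ht)
    one ((hΨ p).affine (t • φ p) √t) c
  have hd := fun j => (hΨ p).sub (hΨ (m j p))
  have k2 : ∑ j, (∫ z, (Ψ p (t • φ (m j p) + √t • z) - Ψ (m j p) (t • φ (m j p) + √t • z)) ∂Gs ι) ^ 2 ≤
      exp (t * lam) * Pm φ t (fun q u => En m (fun q => Ψ q u) q) p := by
    rw [Pm, show (fun z => En m (fun q => Ψ q (t • φ p + √t • z)) p) = fun z => ∑ j,
        (Ψ p (t • φ p + √t • z) - Ψ (m j p) (t • φ p + √t • z)) ^ 2 from rfl,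
      integral_finsetSum _ fun j _ => ((mg_sq (hd j)).affine _ _).int, Finset.mul_sum]
    refine Finset.sum_le_sum fun j _ => ?_
    rw [sh (fun u => Ψ p u - Ψ (m j p) u)]
    exact (shift_sq_le ((hd j).affine (t • φ p) √t) _).trans
      (mul_le_mul_of_nonneg_right (exp_le_exp.2 (one j)) (int_sq_nonneg _))
  simp only [← sh (Ψ p)] at k
  have k3 : En m (Pm φ t Ψ) p ≤ 2 * ∑ j, (∫ z, Ψ p (t • φ p + √t • z) ∂Gs ι -
      ∫ z, Ψ p (t • φ (m j p) + √t • z) ∂Gs ι) ^ 2 + 2 * ∑ j, (∫ z, (Ψ p (t • φ (m j p) + √t • z) -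
        Ψ (m j p) (t • φ (m j p) + √t • z)) ∂Gs ι) ^ 2 := by
    simp only [En, Pm, Finset.mul_sum, ← Finset.sum_add_distrib]
    refine Finset.sum_le_sum fun j _ => ?_
    rw [integral_sub ((hΨ p).affine _ _).int ((hΨ _).affine _ _).int]
    exact (by intro x y z; nlinarith [sq_nonneg (x - y - (y - z))] :
      ∀ x y z : ℝ, (x - z) ^ 2 ≤ 2 * (x - y) ^ 2 + 2 * (y - z) ^ 2) _ _ _
  rw [Pm]
  linarith

theorem en_eq (x : ι → ℝ) : en x = nrm x := by simp only [en, nrm, dotProduct, sq]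

theorem norm_le_en (x : ι → ℝ) : ‖x‖ ≤ en x :=
  (pi_norm_le_iff_of_nonneg (Conc.en_nonneg x)).2 fun i => Conc.abs_le_en x i

theorem mg_of_elip {H : (ι → ℝ) → ℝ} (h : ELip b H) : MG H := by
  have h1 : MG fun u : ι → ℝ => |H 0| + |b| * ∑ i, |u i| :=
    (MG.const _).add ((MG.sum _ fun i _ => (mg_coord i).abs).const_mul _)
  refine h1.of_le h.continuous.measurable fun u => (le_trans ?_ (le_abs_self _))
  have := h.abs u 0
  rw [sub_zero] at this
  have h2 := mul_le_mul_of_nonneg_left (Conc.en_le_sum u) (abs_nonneg b)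
  have h3 := abs_sub_abs_le_abs_sub (H u) (H 0)
  linarith

theorem elip_aff {H : (ι → ℝ) → ℝ} (h : ELip b H) (u : ι → ℝ) (s : ℝ) :
    ELip (|b| * |s|) fun z => H (u + s • z) := fun z z' => by
  have := h.abs (u + s • z) (u + s • z')
  rwa [add_sub_add_left_eq_sub, ← smul_sub, Conc.en_smul, ← mul_assoc] at this

/-- the noise part for a Lipschitz function -/
theorem var_Pm (ht : 0 ≤ t) (h : ELip b (Ψ p)) :
    Pm φ t (fun q u => (Ψ q u - Pm φ t Ψ p) ^ 2) p ≤ t * b ^ 2 := by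
  have := Conc.var_lip (elip_aff h (t • φ p) √t)
  rw [mul_pow, sq_abs, sq_abs, sq_sqrt ht, mul_comm] at this
  exact this

/-- **Gaussian step**, uniform form -/
theorem en_Pm_le [DecidableEq J] (ht : 0 ≤ t) (hG : MG2 m φ lam p) (h : ∀ q, ELip b (Ψ q))
    (ha : ∀ u, En m (fun q => Ψ q u) p ≤ a) :
    En m (Pm φ t Ψ) p ≤ 2 * exp (t * lam) * (t ^ 2 * lam * b ^ 2 + a) := by
  have hΨ := fun q => mg_of_elip (h q)
  have l0 := hG.1
  have h1 := en_Pm ht hG hΨ (Pm φ t Ψ p)
  have h2 := mul_le_mul_of_nonneg_left (var_Pm (φ := φ) ht (h p))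
    (by positivity : 0 ≤ 2 * (t * lam * exp (t * lam)))
  have h3 : Pm φ t (fun q u => En m (fun q => Ψ q u) q) p ≤ a := by
    simpa [Pm] using integral_mono ((mg_en (m := m) (p := p) hΨ).affine (t • φ p) √t).int
      (integrable_const a) fun z => ha _
  have h4 := mul_le_mul_of_nonneg_left h3 (by positivity : 0 ≤ 2 * exp (t * lam))
  nlinarith

/-- two Gaussian means -/
theorem abs_gauss_sub {H H' : (ι → ℝ) → ℝ} {δ : ℝ} (hH : MG H) (h' : ELip b H')
    (hδ : ∀ u, |H u - H' u| ≤ δ) (c c' : ι → ℝ) (s : ℝ) :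
    |∫ z, H (c + s • z) ∂Gs ι - ∫ z, H' (c' + s • z) ∂Gs ι| ≤ δ + b * en (c - c') := by
  have i1 := (hH.affine c s).int
  have i2 := ((mg_of_elip h').affine c' s).int
  rw [← integral_sub i1 i2]
  refine abs_integral_le_integral_abs.trans ?_
  simpa using integral_mono (i1.sub i2).abs (integrable_const (δ + b * en (c - c'))) fun z => by
    have h1 := h' (c + s • z) (c' + s • z)
    rw [add_sub_add_right_eq_sub] at h1
    exact (abs_sub_le _ _ _).trans (add_le_add (hδ _) h1)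

end moves

section cube
variable {n : ℕ} {F F' : Cube n → ℝ} {a : ℝ} {ι : Type*} [Fintype ι] [DecidableEq ι]

theorem en_fl (F : Cube n → ℝ) (x : Cube n) :
    En (fun j x => fl x j) F x = 4 * (grad F x ⬝ᵥ grad F x) := by
  rw [En, dotProduct, Finset.mul_sum]
  refine Finset.sum_congr rfl fun j _ => ?_
  rw [grad_eq]
  linear_combination -(F x - F (fl x j)) ^ 2 * sv_mul_self x j

theorem FG.mg2 {φ : Cube n → ι → ℝ} {lam : ℝ} (h : FG φ lam) (x : Cube n) :
    MG2 (fun j x => fl x j) φ (4 * lam) x := ⟨by linarith [h.1], h.2 x⟩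

/-- linear features of a copy `σ` that is flipped by the moves -/
theorem mg2_lin {P : Type*} {m : Fin n → P → P} {p : P} {σ : P → Cube n} {R : Matrix ι (Fin n) ℝ}
    {lam : ℝ} (h : opn (Rᵀ * R) ≤ lam) (hσ : ∀ j, σ (m j p) = fl (σ p) j) :
    MG2 m (fun q => R *ᵥ sv (σ q)) (4 * lam) p := by
  refine ⟨by linarith [(fg_opn h).1], fun c => ?_⟩
  simp only [hσ]
  exact (fg_opn h).2 (σ p) c

theorem wt_prod (h : Fin n → ℝ) : Wt (ising 0 h) := .of_pos fun _ => exp_pos _

/-- integration by parts under a product measure -/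
theorem mean_prod_ibp (h : Fin n → ℝ) (F : Cube n → ℝ) (j : Fin n) :
    mean (ising 0 h) (fun x => F x * (sv x j - tanh (h j))) =
      (1 - tanh (h j) ^ 2) * mean (ising 0 h) fun x => grad F x j := by
  rw [mean_eq_div, mean_eq_div, ← mul_div_assoc, Finset.mul_sum, sum_flip j, sum_flip j fun x => _ * _]
  congr 2
  refine Finset.sum_congr rfl fun x _ => ?_
  have e : ising 0 h (update x j true) = ising 0 h (update x j false) * (exp (h j) * exp (h j)) := by
    have h1 := sv_update_sub (update x j false) j true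
    rw [update_idem] at h1
    simp only [ising, zero_mulVec, dotProduct_zero, mul_zero, zero_add, ← exp_add]
    rw [eq_add_of_sub_eq h1, dotProduct_add, dotProduct_single]
    simp [sv, Crest.ProbabilityR.SpinGlassDynamics.spin]; ring
  have h0 := exp_pos (h j)
  rw [grad_update, grad_update, e, grad, incr, tanh_eq, exp_neg]
  simp only [sv, update_self, Crest.ProbabilityR.SpinGlassDynamics.spin, if_true, Bool.false_eq_true,
    if_false]
  field_simp
  ring

theorem cov_prod (h : Fin n → ℝ) (F : Cube n → ℝ) (j : Fin n) :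
    cov (ising 0 h) F (fun x => sv x j) = (1 - tanh (h j) ^ 2) * mean (ising 0 h) fun x => grad F x j := by
  have h1 := mean_prod_ibp h (fun _ => 1) j
  simp only [one_mul, grad_const, Pi.zero_apply, mean_sub, (wt_prod h).mean_const, mul_zero] at h1
  rw [(wt_prod h).cov_eq', sub_eq_zero.1 h1, mean_prod_ibp]

/-- the gradient of a product mean in the field -/
def dP (F : Cube n → ℝ) (h : Fin n → ℝ) : Fin n → ℝ :=
  fun j => (1 - tanh (h j) ^ 2) * mean (ising 0 h) fun x => grad F x j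

theorem dP_sq_le (F : Cube n → ℝ) (h : Fin n → ℝ) :
    dP F h ⬝ᵥ dP F h ≤ mean (ising 0 h) fun x => grad F x ⬝ᵥ grad F x := by
  simp only [dotProduct, mean_sum]
  refine Finset.sum_le_sum fun j _ => ?_
  have h1 := mean_sub_sq_le (wt_prod h) (fun x => grad F x j) 0
  simp only [sub_zero, sq] at h1
  have h2 : tanh (h j) ^ 2 < 1 := by
    have := Real.abs_tanh_lt_one (h j)
    rw [← sq_abs]; nlinarith [abs_nonneg (tanh (h j))]
  have h3 : (1 - tanh (h j) ^ 2) ^ 2 ≤ 1 := by nlinarith [sq_nonneg (tanh (h j))]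
  have h4 := mul_le_mul_of_nonneg_right h3 (mul_self_nonneg (mean (ising 0 h) fun x => grad F x j))
  rw [dP]; nlinarith

theorem hasDerivAt_prod (F : Cube n → ℝ) (h v : Fin n → ℝ) (s : ℝ) :
    HasDerivAt (fun s : ℝ => mean (ising 0 (h + s • v)) F) (v ⬝ᵥ dP F (h + s • v)) s := by
  refine (hasDerivAt_mean (u := fun s : ℝ => ising 0 (h + s • v)) (l := fun x => v ⬝ᵥ sv x)
    (wt_prod _) (fun x => ?_) F).congr_deriv ?_
  · simp only [ising, add_dotProduct, smul_dotProduct, smul_eq_mul]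
    simpa using (((hasDerivAt_id s).mul_const (v ⬝ᵥ sv x)).const_add (h ⬝ᵥ sv x)).exp
  · simp only [dotProduct, cov_sum, cov_const_mul, cov_prod, dP]

/-- **sampling step**: a product mean is Lipschitz in the field -/
theorem elip_prod (ha : 0 ≤ a) (hF : ∀ x, grad F x ⬝ᵥ grad F x ≤ a ^ 2) :
    ELip a fun h => mean (ising 0 h) F := fun h h' => by
  have := convex_univ.norm_image_sub_le_of_norm_hasDerivWithin_le (C := a * en (h - h'))
    (fun s _ => (hasDerivAt_prod F h' (h - h') s).hasDerivWithinAt)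
    (fun s _ => by
      rw [Real.norm_eq_abs, mul_comm, en_eq]
      exact (Eig.abs_dot_le _ _).trans (mul_le_mul_of_nonneg_left ((Eig.nrm_le_iff ha).2
        ((dP_sq_le F _).trans ((wt_prod _).mean_le hF))) (Eig.nrm_nonneg _)))
    (mem_univ 0) (mem_univ 1)
  simpa using this

/-- two product means -/
theorem abs_prod_sub {δ : ℝ} (ha : 0 ≤ a) (hF : ∀ x, grad F' x ⬝ᵥ grad F' x ≤ a ^ 2)
    (hδ : ∀ x, |F x - F' x| ≤ δ) (h h' : Fin n → ℝ) :
    |mean (ising 0 h) F - mean (ising 0 h') F'| ≤ δ + a * en (h - h') := by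
  refine (abs_sub_le _ (mean (ising 0 h) F') _).trans (add_le_add ?_ (elip_prod ha hF h h'))
  rw [← mean_sub]; exact (wt_prod h).abs_mean_le hδ

theorem elip_prod_lin (ha : 0 ≤ a) (hF : ∀ x, grad F x ⬝ᵥ grad F x ≤ a ^ 2) (y : Fin n → ℝ)
    (R : Matrix ι (Fin n) ℝ) : ELip (a * opn R) fun u => mean (ising 0 (y + Rᵀ *ᵥ u)) F := fun u u' => by
  refine (elip_prod ha hF _ _).trans ?_
  rw [add_sub_add_left_eq_sub, ← mulVec_sub, mul_assoc, en_eq, en_eq, ← Eig.opn_transpose]
  exact mul_le_mul_of_nonneg_left (Eig.nrm_mulVec_le _ _) ha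

/-- **the kernel preserves gradient bounds**, pointwise form -/
theorem grad_Kf_le {R : Matrix ι (Fin n) ℝ} {J : Matrix (Fin n) (Fin n) ℝ} {c t lam : ℝ} (ht : 0 ≤ t)
    (hJ : t • (Rᵀ * R) = J + c • (1 : Matrix (Fin n) (Fin n) ℝ)) (hl : opn (Rᵀ * R) ≤ lam)
    (y : Fin n → ℝ) (g : Cube n → ℝ) (x : Cube n) :
    grad (Kf (fun x => R *ᵥ sv x) (ising J y) t g) x ⬝ᵥ grad (Kf (fun x => R *ᵥ sv x) (ising J y) t g) x ≤
      Ga t lam * (t * lam) *
        Kf (fun x => R *ᵥ sv x) (ising J y) t (fun x => grad g x ⬝ᵥ grad g x) x := by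
  have hw : Wt (ising J y) := .of_pos fun _ => exp_pos _
  have hG := fg_opn hl
  obtain ⟨B, hB⟩ := (Set.finite_range fun x => nrm (grad g x)).bddAbove
  have hB' : ∀ x, nrm (grad g x) ≤ B := fun x => hB ⟨x, rfl⟩
  have B0 : 0 ≤ B := (Eig.nrm_nonneg _).trans (hB' x)
  have hL := elip_aff (elip_prod_lin B0 (fun x => (Eig.nrm_le_iff B0).1 (hB' x)) y R)
    (t • R *ᵥ sv x) √t
  have hP := Conc.poincare_partial hL
    (D := fun i z => √t * (R *ᵥ dP g (y + Rᵀ *ᵥ (t • R *ᵥ sv x + √t • z))) i) fun z i => by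
      have h1 := hasDerivAt_prod g (y + Rᵀ *ᵥ (t • R *ᵥ sv x + √t • update z i 0)) (√t • R i) (z i)
      have e : ∀ s : ℝ, y + Rᵀ *ᵥ (t • R *ᵥ sv x + √t • update z i 0) + s • √t • R i =
          y + Rᵀ *ᵥ (t • R *ᵥ sv x + √t • update z i s) := fun s => by
        have : update z i s = update z i 0 + s • Pi.single i (1 : ℝ) := by
          ext k; by_cases hk : k = i
          · subst hk; simp
          · simp [hk]
        rw [this, smul_add, ← add_assoc, mulVec_add _ _ (√t • s • _), mulVec_smul, mulVec_smul,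
          mulVec_single_one, smul_comm, add_assoc]
        rfl
      simp only [e, update_eq_self] at h1
      exact h1.congr_deriv (by rw [smul_dotProduct]; rfl)
  have h1 := hG.grad_le ht (mg_pm (φ := fun x => R *ᵥ sv x) hw t g) (Kf (fun x => R *ᵥ sv x) (ising J y) t g x) x
  refine h1.trans ?_
  rw [mul_assoc]
  refine mul_le_mul_of_nonneg_left ?_ (Ga_nonneg ht hG.1)
  simp only [Kf, Pm, mean_post_hs hJ]
  refine hP.trans ?_
  rw [← integral_const_mul]
  have m2 := ((mg_pm (φ := fun x => R *ᵥ sv x) hw t fun x => grad g x ⬝ᵥ grad g x).affine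
    (t • R *ᵥ sv x) √t).const_mul (t * lam)
  simp only [mean_post_hs hJ] at m2
  refine integral_mono_of_nonneg (.of_forall fun z => Finset.sum_nonneg fun _ _ => sq_nonneg _) m2.int
    (.of_forall fun z => ?_)
  simp only [mul_pow, sq_sqrt ht, ← Finset.mul_sum, mul_assoc]
  refine mul_le_mul_of_nonneg_left ?_ ht
  have h2 := Eig.mulVec_dot_le R (dP g (y + Rᵀ *ᵥ (t • R *ᵥ sv x + √t • z)))
  rw [sq, ← Eig.opn_transpose_mul_self] at h2
  simp only [sq]
  exact h2.trans (mul_le_mul hl (dP_sq_le g _) (dot_self_nonneg _) hG.1)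

theorem grad_iter_le {R : Matrix ι (Fin n) ℝ} {J : Matrix (Fin n) (Fin n) ℝ} {c t lam : ℝ}
    (ht : 0 ≤ t) (hJ : t • (Rᵀ * R) = J + c • (1 : Matrix (Fin n) (Fin n) ℝ))
    (hl : opn (Rᵀ * R) ≤ lam) (y : Fin n → ℝ) (k : ℕ) (g : Cube n → ℝ) (x : Cube n) :
    grad ((Kf (fun x => R *ᵥ sv x) (ising J y) t)^[k] g) x ⬝ᵥ
        grad ((Kf (fun x => R *ᵥ sv x) (ising J y) t)^[k] g) x ≤ (Ga t lam * (t * lam)) ^ k *
      (Kf (fun x => R *ᵥ sv x) (ising J y) t)^[k] (fun x => grad g x ⬝ᵥ grad g x) x := by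
  have hw : Wt (ising J y) := .of_pos fun _ => exp_pos _
  have l0 := (fg_opn hl).1
  have c0 : 0 ≤ Ga t lam * (t * lam) := mul_nonneg (Ga_nonneg ht l0) (mul_nonneg ht l0)
  induction k generalizing x with
  | zero => simp
  | succ k ih =>
    rw [iterate_succ_apply', iterate_succ_apply', pow_succ', mul_assoc _ (_ ^ k)]
    refine (grad_Kf_le ht hJ hl y _ x).trans (mul_le_mul_of_nonneg_left ?_ c0)
    exact (Kf_mono hw ih x).trans_eq (congrFun (Kf_const_mul _ _) x)

end cube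

section vec
variable {P J ι : Type*} [Fintype J] [Fintype ι] [DecidableEq J] [DecidableEq ι] {m : J → P → P}
  {p : P} {U : P → ι → ℝ} {C : ℝ}

/-- the Jacobian of the moves (`Reg.jac` for flips) -/
def jm (m : J → P → P) (U : P → ι → ℝ) (p : P) : Matrix ι J ℝ := of fun i j => U (m j p) i - U p i

theorem en_dot (a : ι → ℝ) :
    En m (fun q => a ⬝ᵥ U q) p = ((jm m U p)ᵀ *ᵥ a) ⬝ᵥ ((jm m U p)ᵀ *ᵥ a) := by
  refine Finset.sum_congr rfl fun j _ => ?_
  have : ((jm m U p)ᵀ *ᵥ a) j = a ⬝ᵥ U (m j p) - a ⬝ᵥ U p := by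
    rw [← dotProduct_sub, dotProduct_comm]; rfl
  rw [this]; ring

theorem en_dot_le (h : opn (jm m U p) ≤ C) (a : ι → ℝ) :
    En m (fun q => a ⬝ᵥ U q) p ≤ C ^ 2 * (a ⬝ᵥ a) := by
  rw [en_dot]
  refine (Eig.mulVec_dot_le _ a).trans (mul_le_mul_of_nonneg_right ?_ (dot_self_nonneg a))
  rw [Eig.opn_transpose]; exact pow_le_pow_left₀ (Eig.opn_nonneg _) h 2

theorem opn_jm_le (hC : 0 ≤ C) (h : ∀ a, En m (fun q => a ⬝ᵥ U q) p ≤ C ^ 2 * (a ⬝ᵥ a)) :
    opn (jm m U p) ≤ C := by
  rw [← Eig.opn_transpose]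
  exact Eig.opn_le_of_sq hC fun a => by rw [← en_dot]; exact h a

end vec

end Crest.Agent.T157.K75
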