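import Crest.Agent.T157.KDef_36
import Crest.Agent.T157.KCov_47
import Crest.Agent.T157.KRg_75

/-!
# Row 157, block S5 (helper8): directions
-/

set_option autoImplicit false
set_option linter.unusedSectionVars false

noncomputable section

namespace Crest.Agent.T157.K

namespace Di

open MeasureTheory ProbabilityTheory Real Matrix Finset
open Crest.Agent.T157.E Crest.Agent.T157.Eig Crest.Agent.T157.SL Crest.Agent.T157.Rec
open Crest.Agent.T157.Kc
open Crest.Agent.T157.Tap (V Mx th DD)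
open Crest.Agent.T157.Conc (ELip)
open Crest.Agent.T157.Reg (jac neg)
open Crest.Agent.T157.S3.Hb (Vp OpL)
open Crest.Agent.T157.K75 (en_eq mg_of_elip wt_prod)

variable {n : ℕ} {κ ι : Type} [Fintype κ] [DecidableEq κ] [Fintype ι] [DecidableEq ι]

theorem ng_eq (s : Cube n) : Kv.ng s = neg s := by
  ext i; simp [Kv.ng, Reg.neg, Pl.cmul]

theorem sv_neg (s : Cube n) : sv (neg s) = -sv s := by rw [← ng_eq, Kv.sv_ng]

theorem cav_neg (P : Matrix κ (Fin n) ℝ) {F F' : Cube n → (κ → ℝ) → ℝ} {s : Cube n}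
    (h : ∀ ζ, F' (neg s) (-ζ) = F s ζ) : cav P F' (neg s) = cav P F s := by
  rw [cav_eq, cav_eq]; exact Kv.iso_neg.pm (by rw [sv_neg, mulVec_neg]) h

theorem mg_nsq {u : (κ → ℝ) → ι → ℝ} (h : ∀ j, MG fun ζ => u ζ j) : MG fun ζ => nrm (u ζ) ^ 2 := by
  simp only [nrm_sq, dotProduct]; exact .sum _ fun j _ => (h j).mul (h j)

/-- Jensen for vectors -/
theorem jen (P : Matrix κ (Fin n) ℝ) {u : Cube n → (κ → ℝ) → ι → ℝ} (h : ∀ s j, MG fun ζ => u s ζ j)
    (s : Cube n) : nrm (fun j => cav P (fun s ζ => u s ζ j) s) ^ 2 ≤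
      cav P (fun s ζ => nrm (u s ζ) ^ 2) s := by
  simp only [nrm_sq, dotProduct, cav_eq, ← sq]
  rw [Pm_sum _ fun j _ s => mg_sq (h s j)]
  exact sum_le_sum fun j _ => Pm_sq_le (fun s => h s j) s

/-- Minkowski with a uniform distance -/
theorem mink (P : Matrix κ (Fin n) ℝ) {f g : (κ → ℝ) → ℝ} {δ : ℝ} (hf : MG f) (hg : MG g)
    (f0 : ∀ ζ, 0 ≤ f ζ) (δ0 : 0 ≤ δ) (h : ∀ ζ, f ζ ≤ g ζ + δ) (s : Cube n) :
    √(cav P (fun _ ζ => f ζ ^ 2) s) ≤ √(cav P (fun _ ζ => g ζ ^ 2) s) + δ := by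
  rw [cav_eq, cav_eq]
  set φ := fun x : Cube n => P *ᵥ sv x
  have h1 : Pm φ 1 (fun _ => g) s ≤ √(Pm φ 1 (fun _ ζ => g ζ ^ 2) s) :=
    le_sqrt_of_sq_le (Pm_sq_le (Ψ := fun _ => g) (fun _ => hg) s)
  have h2 : Pm φ 1 (fun _ ζ => f ζ ^ 2) s ≤ Pm φ 1 (fun _ ζ => g ζ ^ 2 + (2 * δ * g ζ + δ ^ 2)) s :=
    Pm_mono (fun _ => mg_sq hf) (fun _ => (mg_sq hg).add ((hg.const_mul _).add (.const _))) fun ζ => by
      nlinarith [pow_le_pow_left₀ (f0 ζ) (h ζ) 2]
  rw [Pm_add (fun _ => mg_sq hg) fun _ => (hg.const_mul _).add (.const _),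
    Pm_add (fun _ => hg.const_mul _) fun _ => .const _, Pm_mul (fun _ => 2 * δ) fun _ => g,
    Pm_fun fun _ => δ ^ 2] at h2
  refine sqrt_le_iff.2 ⟨by positivity, ?_⟩
  nlinarith [sq_sqrt (Pm_nonneg (φ := φ) (t := 1) (Ψ := fun _ ζ => g ζ ^ 2) (x := s) fun _ => sq_nonneg _),
    mul_le_mul_of_nonneg_left h1 δ0]

theorem nrm_le_sup {v : V n} {M : ℝ} (hM : 0 ≤ M) (h : ∀ i, |v i| ≤ M) : nrm v ≤ M * √n := by
  rw [nrm_le_iff (by positivity), mul_pow, sq_sqrt n.cast_nonneg]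
  calc v ⬝ᵥ v ≤ ∑ _i : Fin n, M ^ 2 := sum_le_sum fun i _ => by
        rw [← sq, ← sq_abs]; exact pow_le_pow_left₀ (abs_nonneg _) (h i) 2
    _ = _ := by simp [mul_comm]

theorem nrm_th (x x' : V n) : nrm (th x - th x') ≤ nrm (x - x') := by
  rw [nrm_le_iff (nrm_nonneg _), nrm_sq]
  refine sum_le_sum fun i _ => ?_
  rw [← sq, ← sq]
  exact sq_le_sq.2 (Da.Gr.tanh_lip _ _)

theorem opL_jac {u : Cube n → V n} {e : ℝ} (h : ∀ s, opn (jac u s) ≤ e) : OpL u (e ^ 2 / 4) :=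
  fun x v => by
  have e1 : grad (fun y => v ⬝ᵥ u y) x ⬝ᵥ grad (fun y => v ⬝ᵥ u y) x =
      ((jac u x)ᵀ *ᵥ v) ⬝ᵥ ((jac u x)ᵀ *ᵥ v) / 4 := by
    rw [dotProduct, dotProduct, sum_div]
    refine sum_congr rfl fun j _ => ?_
    have e2 : ((jac u x)ᵀ *ᵥ v) j = v ⬝ᵥ u (fl x j) - v ⬝ᵥ u x := by
      simp only [mulVec, dotProduct, transpose_apply, jac, of_apply, ← sum_sub_distrib]
      exact sum_congr rfl fun _ _ => by ring
    rw [grad_eq, e2]
    linear_combination (v ⬝ᵥ u x - v ⬝ᵥ u (fl x j)) ^ 2 / 4 * sv_mul_self x j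
  have h2 := mulVec_dot_le (jac u x)ᵀ v
  rw [opn_transpose] at h2
  have := mul_le_mul_of_nonneg_right (pow_le_pow_left₀ (opn_nonneg _) (h x) 2) (Eig.dot_self_nonneg v)
  rw [e1]; linarith

/-- squared distances of regular fields are self-bounded -/
theorem sb_dist {u : Cube n → V n} {e : ℝ} (h : ∀ s, opn (jac u s) ≤ e) (a : V n) :
    SB ((2 * e) ^ 2) fun s => nrm (a - u s) ^ 2 := fun s => by
  refine ⟨sq_nonneg _, ?_⟩
  have h1 := (opL_jac (u := fun s => a - u s) (e := e) fun s => by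
    rw [show jac (fun s => a - u s) s = -jac u s by ext; simp [jac], opn_neg]; exact h s).vp_sq s
  simp only [nrm_sq, dotProduct, ← sq]
  exact h1.trans_eq (by ring)

theorem SB.mono {c c' : ℝ} {X : Cube n → ℝ} (h : SB c X) (hc : c ≤ c') : SB c' X := fun s =>
  ⟨(h s).1, (h s).2.trans (mul_le_mul_of_nonneg_right hc (h s).1)⟩

theorem R0.mono {e e' : ℝ} {u : Cube n → V n} (h : R0 e u) (he : e ≤ e') : R0 e' u :=
  ⟨fun s i => (h.sup s i).trans he, fun s => (h.op s).trans he⟩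

theorem var_prod (h a : V n) : mean (ising 0 h) (fun t => (a ⬝ᵥ (sv t - th h)) ^ 2) ≤ nrm a ^ 2 := by
  have e : ∀ t : Cube n, (a ⬝ᵥ (sv t - th h)) ^ 2 =
      ∑ j, a j * ((a ⬝ᵥ sv t - a ⬝ᵥ th h) * (sv t j - tanh (h j))) := fun t => by
    rw [sq, ← dotProduct_sub]
    nth_rewrite 1 [dotProduct]
    rw [sum_mul]
    exact sum_congr rfl fun j _ => by simp only [Pi.sub_apply, th]; ring
  simp only [e, mean_sum, mean_const_mul, K75.mean_prod_ibp, grad_sub, grad_lin, grad_const, sub_zero,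
    (wt_prod h).mean_const, nrm_sq]
  exact sum_le_sum fun j _ => by nlinarith [mul_nonneg (sq_nonneg (tanh (h j))) (sq_nonneg (a j))]

theorem mean_dot (h a : V n) : mean (ising 0 h) (fun t => a ⬝ᵥ (sv t - th h)) = 0 := by
  simp only [dotProduct, mean_sum, mean_const_mul]
  refine sum_eq_zero fun j _ => ?_
  have := K75.mean_prod_ibp h (fun _ => 1) j
  simp only [one_mul, grad_const, Pi.zero_apply, (wt_prod h).mean_const, mul_zero] at this
  exact mul_eq_zero_of_right _ this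

variable {Q : Mx n} {E : V n → V n → V n} {M : ℝ}

theorem lipE (hE : BLO M E) (hM : 0 ≤ M) (hQ : opn Q ≤ 3) (y ζ ζ' : V n) :
    nrm (E (Q *ᵥ ζ) y - E (Q *ᵥ ζ') y) ≤ 3 * M * nrm (ζ - ζ') := by
  have h1 := hE.lip (Q *ᵥ ζ) y (Q *ᵥ ζ') y
  rw [sub_self, nrm_zero, add_zero, ← mulVec_sub] at h1
  have h2 := (nrm_mulVec_le Q (ζ - ζ')).trans (mul_le_mul_of_nonneg_right hQ (nrm_nonneg _))
  nlinarith

theorem mgE (hE : BLO M E) (hM : 0 ≤ M) (hQ : opn Q ≤ 3) (y : V n) (j : Fin n) :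
    MG fun ζ => E (Q *ᵥ ζ) y j := mg_of_elip (b := 3 * M) fun ζ ζ' => by
  rw [en_eq]; exact (abs_apply_le_nrm (E (Q *ᵥ ζ) y - E (Q *ᵥ ζ') y) j).trans (lipE hE hM hQ y ζ ζ')

theorem mgP (Q : Mx n) (y : V n) (j : Fin n) : MG fun ζ => pt Q y ζ j :=
  .of_bdd ((continuous_iff_continuousAt.2 fun x => (Da.Gr.hasDerivAt_tanh x).continuousAt).measurable.comp
    (by fun_prop : Measurable fun ζ => (y + Q *ᵥ ζ) j)) 1 fun _ => (Real.abs_tanh_lt_one _).le

theorem mgD {u : V n → V n} (h : ∀ j, MG fun ζ => u ζ j) (y : V n) (s : Cube n) :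
    MG fun ζ => u ζ ⬝ᵥ (sv s - pt Q y ζ) := .sum _ fun j _ => (h j).mul ((MG.const _).sub (mgP Q y j))

theorem abs_nrm_sub (u v : V n) : |nrm u - nrm v| ≤ nrm (u - v) := by
  simp only [nrm_eq_norm, WithLp.toLp_sub]; exact abs_norm_sub_norm_le _ _

theorem fgQ (hQ : opn Q ≤ 3) : FG (fun x : Cube n => Q *ᵥ sv x) 9 := fg_opn (by
  rw [opn_transpose_mul_self]; nlinarith [opn_nonneg Q])

/-- the gradient of a one-step observable -/
theorem grad_one (hQ : opn Q ≤ 3) {u : V n → V n} (h : ∀ j, MG fun ζ => u ζ j) (y : V n) (c : ℝ)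
    (s : Cube n) : nrm (grad (cav Q fun s ζ => u ζ ⬝ᵥ (sv s - pt Q y ζ)) s) ^ 2 ≤
      2 * Ga 1 9 * cav Q (fun s ζ => (u ζ ⬝ᵥ (sv s - pt Q y ζ) - c) ^ 2) s +
        2 * exp (4 * 1 * 9) * cav Q (fun _ ζ => nrm (u ζ) ^ 2) s := by
  have := (fgQ hQ).grad_le' zero_le_one (mgD (Q := Q) h y) c s
  simp only [dotProduct_sub, grad_sub, grad_lin, grad_const, sub_zero] at this
  simpa only [cav_eq, nrm_sq, dotProduct_sub] using this

end Di

open Di MeasureTheory Real Matrix Finset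
open Crest.Agent.T157.E Crest.Agent.T157.Eig Crest.Agent.T157.SL Crest.Agent.T157.Rec
open Crest.Agent.T157.Kc
open Crest.Agent.T157.Tap (V Mx th DD)
open Crest.Agent.T157.Conc (ELip)
open Crest.Agent.T157.Reg (jac neg)
open Crest.Agent.T157.S3.Hb (Vp)
open Crest.Agent.T157.K75 (en_eq mg_of_elip wt_prod)

theorem dirGlue : DirGlue := fun hRF hRE hR => by
  obtain ⟨C1, c1, hRF⟩ := hRF 3
  obtain ⟨C2, c2, hRE⟩ := hRE 3
  have g0 : 0 ≤ Ga 1 9 := Ga_nonneg zero_le_one (by norm_num)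
  have x0 := exp_pos (4 * 1 * 9 : ℝ)
  obtain ⟨C, hC⟩ : ∃ C, C = 6 * C1 + 3 * C2 + 162 * Ga 1 9 + 2 * exp (4 * 1 * 9) := ⟨_, rfl⟩
  have C1' : 1 ≤ C := by linarith
  refine ⟨C, C1', fun n J Q E M hJ hM hE => ?_⟩
  have hQ := (hR.opQ n J Q hJ).1
  have mE := mgE hE hM hQ
  have hw : ∀ y, Wt (ising J y) := fun y => .of_pos fun _ => exp_pos _
  have r0 : ∀ y, R0 (3 * C1 * M) fun s => dirS Q E s y := fun y => by
    have := hRF n (Fin n) Q Q (fun _ => 1) (fun _ ζ => E (Q *ᵥ ζ) y) 1 (3 * M) hQ hQ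
      ⟨differentiable_const _, fun u v => by simp⟩
      ⟨fun ζ => ⟨fun _ i => (hE.sup _ _ i).trans (by linarith), fun s => by
        rw [show jac (fun _ : Cube n => E (Q *ᵥ ζ) y) s = 0 by ext; simp [jac], opn_zero]; positivity⟩,
        fun _ => lipE hE hM hQ y⟩
    rw [show C1 * 1 * (3 * M) = 3 * C1 * M by ring] at this
    convert this using 2 with s
    ext j; simp [dirS, cav, cwv]
  have lp : ∀ s y y', nrm (dirS Q E s y - dirS Q E s y') ≤ M * nrm (y - y') := fun s y y' => by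
    have h1 := jen Q (u := fun _ ζ => E (Q *ᵥ ζ) y - E (Q *ᵥ ζ) y')
      (fun _ j => (mE y j).sub (mE y' j)) s
    have e : dirS Q E s y - dirS Q E s y' =
        fun j => cav Q (fun _ ζ => (E (Q *ᵥ ζ) y - E (Q *ᵥ ζ) y') j) s := by
      ext j; simp only [dirS, cav_eq, Pi.sub_apply]
      exact (Pm_sub (fun _ => mE y j) (fun _ => mE y' j) s).symm
    have p0 : 0 ≤ M * nrm (y - y') := mul_nonneg hM (nrm_nonneg _)
    refine (abs_le_of_sq_le_sq' ?_ p0).2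
    rw [e]
    refine h1.trans ?_
    rw [cav_eq]
    refine Pm_le (fun _ => mg_nsq fun j => (mE y j).sub (mE y' j)) fun ζ =>
      pow_le_pow_left₀ (nrm_nonneg _) ((hE.lip (Q *ᵥ ζ) y (Q *ᵥ ζ) y').trans_eq ?_) 2
    rw [sub_self, nrm_zero, zero_add]
  have k1 : M ≤ C * M := le_mul_of_one_le_left hM C1'
  have k2 : 6 * C1 * M ≤ C * M := mul_le_mul_of_nonneg_right (by linarith) hM
  have k3 : 0 ≤ C1 * M := by positivity
  have ev : ∀ s y, psi0 Q E (neg s) (-y) = psi0 Q E s y := fun s y => cav_neg Q fun ζ => by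
    have e : pt Q (-y) (-ζ) = -pt Q y ζ := by
      ext i; simp only [pt, th, mulVec_neg, Pi.add_apply, Pi.neg_apply, ← neg_add, tanh_neg]
    rw [mulVec_neg, hE.odd, sv_neg, e, neg_sub_neg, neg_dotProduct, ← dotProduct_neg, neg_sub]
  have sE : ∀ x y, nrm (E x y) ≤ M * √n := fun x y => nrm_le_sup hM (hE.sup x y)
  have mN : ∀ e y, MG fun ζ => nrm (E (Q *ᵥ ζ) y - e) := fun e y =>
    mg_of_elip (b := 3 * M) fun ζ ζ' => (abs_nrm_sub _ _).trans (by
      rw [sub_sub_sub_cancel_right, en_eq]; exact lipE hE hM hQ y ζ ζ')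
  refine ⟨⟨fun y => R0.mono (r0 y) (by linarith), fun s y y' => (lp s y y').trans
    (mul_le_mul_of_nonneg_right k1 (nrm_nonneg _))⟩, fun s y => ?_, fun k s y => ?_, fun k y => ?_,
    fun s y => ?_, fun e => ⟨fun y => SB.mono (sb_dist (r0 y).op e)
      (pow_le_pow_left₀ (by positivity) (by linarith) 2), fun s y y' => ?_,
      (nrm e + 3 * C1 * M * √n) ^ 2, fun s y => ?_⟩,
    fun e => ⟨fun y => ?_, fun s y y' => ?_, (M * √n + nrm e) ^ 2, fun s y => ?_⟩,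
    fun e y => ⟨fun s => ?_, ?_⟩⟩
  · ext j
    refine (cav_neg Q (F := fun _ ζ => -1 * E (Q *ᵥ ζ) y j) fun ζ => by
      rw [mulVec_neg, hE.odd]; simp).trans ?_
    rw [cav_eq, Pm_mul (fun _ => -1), Pi.neg_apply, dirS, cav_eq, neg_one_mul]
  · simp only [psi, Ks, Finset.sum_apply, hR.kf n J Q _ hJ]
    refine sum_congr rfl fun l _ => ?_
    rw [← ng_eq]
    exact Kv.kf_ng (fun x => by rw [ng_eq, ev]) l s
  · have h0 : (mean (ising J y) fun s => psi0 Q E s y) = 0 := by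
      refine (hR.bayes n J Q y _ hJ (mgD (mE y) y)).trans ?_
      simp only [pw, pt, mean_dot, cav_eq, Pm_fun fun _ => (0 : ℝ), (hw y).mean_const]
    simp only [psi, Ks, Finset.sum_apply, mean_sum, hR.kf n J Q _ hJ]
    exact sum_eq_zero fun l _ => (mean_iter (hw y) zero_le_one _ l).trans h0
  · have h1 := grad_one hQ (mE y) y (psi0 Q E s y) s
    have h2 : cav Q (fun _ ζ => nrm (E (Q *ᵥ ζ) y) ^ 2) s ≤ (M * √n) ^ 2 := by
      rw [cav_eq]
      exact Pm_le (fun _ => mg_nsq (mE y)) fun ζ => pow_le_pow_left₀ (nrm_nonneg _) (sE _ _) 2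
    have h3 := K75.var_Pm (φ := fun x => Q *ᵥ sv x) (t := 1) (p := s) (b := 9 * (M * √n))
      (Ψ := fun s ζ => E (Q *ᵥ ζ) y ⬝ᵥ (sv s - pt Q y ζ)) zero_le_one fun ζ ζ' => by
        have a1 := abs_dot_le (E (Q *ᵥ ζ) y - E (Q *ᵥ ζ') y) (sv s - pt Q y ζ)
        have a2 := abs_dot_le (E (Q *ᵥ ζ') y) (pt Q y ζ - pt Q y ζ')
        have a3 : nrm (sv s - pt Q y ζ) ≤ 2 * √n := nrm_le_sup zero_le_two fun i => by
          have := sv_mul_self s i
          have := abs_lt.1 (Real.abs_tanh_lt_one ((y + Q *ᵥ ζ) i))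
          simp only [Pi.sub_apply, pt, th]
          rw [abs_le]; constructor <;> nlinarith
        have a4 : nrm (pt Q y ζ - pt Q y ζ') ≤ 3 * nrm (ζ - ζ') := (nrm_th _ _).trans (by
          rw [add_sub_add_left_eq_sub, ← mulVec_sub]
          exact (nrm_mulVec_le Q _).trans (mul_le_mul_of_nonneg_right hQ (nrm_nonneg _)))
        have a5 := mul_le_mul (lipE hE hM hQ y ζ ζ') a3 (nrm_nonneg _)
          (mul_nonneg (by positivity) (nrm_nonneg _))
        have a6 := mul_le_mul (sE (Q *ᵥ ζ') y) a4 (nrm_nonneg _) (by positivity)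
        have e : E (Q *ᵥ ζ) y ⬝ᵥ (sv s - pt Q y ζ) - E (Q *ᵥ ζ') y ⬝ᵥ (sv s - pt Q y ζ') =
            (E (Q *ᵥ ζ) y - E (Q *ᵥ ζ') y) ⬝ᵥ (sv s - pt Q y ζ) -
              E (Q *ᵥ ζ') y ⬝ᵥ (pt Q y ζ - pt Q y ζ') := by
          simp only [dotProduct_sub, sub_dotProduct]; ring
        rw [en_eq, e]
        linarith [abs_sub ((E (Q *ᵥ ζ) y - E (Q *ᵥ ζ') y) ⬝ᵥ (sv s - pt Q y ζ))
          (E (Q *ᵥ ζ') y ⬝ᵥ (pt Q y ζ - pt Q y ζ'))]
    rw [← cav_eq, ← cav_eq] at h3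
    refine (abs_le_of_sq_le_sq' ((h1.trans (add_le_add (mul_le_mul_of_nonneg_left h3 (by positivity))
      (mul_le_mul_of_nonneg_left h2 (by positivity)))).trans ?_) (by positivity)).2
    rw [mul_assoc C, mul_pow C]
    nlinarith [mul_le_mul_of_nonneg_right (show 162 * Ga 1 9 + 2 * exp (4 * 1 * 9) ≤ C ^ 2 by nlinarith)
      (sq_nonneg (M * √n))]
  · simp only [sqrt_sq (nrm_nonneg _)]
    refine (abs_nrm_sub _ _).trans ?_
    rw [sub_sub_sub_cancel_left, ← nrm_neg, neg_sub, en_eq]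
    exact (lp s y y').trans (mul_le_mul_of_nonneg_right k1 (nrm_nonneg _))
  · exact pow_le_pow_left₀ (nrm_nonneg _) ((nrm_sub_le _ _).trans
      (add_le_add le_rfl (nrm_le_sup (by positivity) ((r0 y).sup s)))) 2
  · refine SB.mono (hRE n (Fin n) Q (fun _ ζ => nrm (E (Q *ᵥ ζ) y - e) ^ 2) (3 * M) hQ (by positivity)
      ⟨fun ζ s => ⟨sq_nonneg _, by simp only [Vp, sub_self, max_self]; simp; positivity⟩,
        fun s ζ ζ' => ?_, (M * √n + nrm e) ^ 2, fun s ζ => pow_le_pow_left₀ (nrm_nonneg _)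
          ((nrm_sub_le _ _).trans (add_le_add (sE _ _) le_rfl)) 2⟩)
      (pow_le_pow_left₀ (by positivity) (by nlinarith) 2)
    simp only [sqrt_sq (nrm_nonneg _)]
    refine (abs_nrm_sub _ _).trans ?_
    rw [sub_sub_sub_cancel_right, en_eq]; exact lipE hE hM hQ y ζ ζ'
  · have d : ∀ ζ, |nrm (E (Q *ᵥ ζ) y - e) - nrm (E (Q *ᵥ ζ) y' - e)| ≤ C * M * nrm (y - y') :=
      fun ζ => (abs_nrm_sub _ _).trans (by
        rw [sub_sub_sub_cancel_right]
        refine le_trans ?_ (mul_le_mul_of_nonneg_right k1 (nrm_nonneg _))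
        simpa using hE.lip (Q *ᵥ ζ) y (Q *ᵥ ζ) y')
    have d0 := (abs_nonneg _).trans (d 0)
    rw [en_eq, abs_sub_le_iff]
    exact ⟨sub_le_iff_le_add'.2 (mink Q (mN e y) (mN e y') (fun _ => nrm_nonneg _) d0
      (fun ζ => by linarith [(abs_le.1 (d ζ)).2]) s), sub_le_iff_le_add'.2 (mink Q (mN e y') (mN e y)
      (fun _ => nrm_nonneg _) d0 (fun ζ => by linarith [(abs_le.1 (d ζ)).1]) s)⟩
  · rw [dev, cav_eq]
    exact Pm_le (fun _ => mg_sq (mN e y)) fun ζ => pow_le_pow_left₀ (nrm_nonneg _)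
      ((nrm_sub_le _ _).trans (add_le_add (sE _ _) le_rfl)) 2
  · have h1 := jen Q (u := fun _ ζ => E (Q *ᵥ ζ) y - e) (fun _ j => (mE y j).sub (.const _)) s
    refine le_of_eq_of_le ?_ h1
    rw [← nrm_neg, neg_sub]
    congr 2; ext j; simp only [dirS, cav_eq, Pi.sub_apply]
    rw [Pm_sub (fun _ => mE y j) (fun _ => .const _), Pm_fun fun _ => e j]
  · have mU : ∀ j, MG fun ζ => (E (Q *ᵥ ζ) y - e) j := fun j => (mE y j).sub (.const _)
    have e1 : (fun s => psi0 Q E s y - (lin e s - Ky Q y (lin e) s)) =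
        cav Q fun s ζ => (E (Q *ᵥ ζ) y - e) ⬝ᵥ (sv s - pt Q y ζ) := by
      ext s
      have e2 : ∀ ζ, mean (pw Q y ζ) (lin e) = e ⬝ᵥ pt Q y ζ := fun ζ => by
        have := mean_dot (y + Q *ᵥ ζ) e
        simp only [dotProduct_sub, mean_sub, (wt_prod _).mean_const] at this
        exact sub_eq_zero.1 this
      have m1 : MG fun ζ => e ⬝ᵥ pt Q y ζ := .sum _ fun j _ => (mgP Q y j).const_mul _
      simp only [psi0, Ky, e2, cav_eq, sub_dotProduct]
      rw [Pm_sub (mgD (mE y) y) (mgD (u := fun _ => e) (fun _ => .const _) y)]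
      simp only [dotProduct_sub e]
      rw [Pm_sub (fun _ => .const _) (fun _ => m1), Pm_fun fun x => e ⬝ᵥ sv x]
      rfl
    have h2 := hR.bayes n J Q y _ hJ fun s => mg_sq (mgD (Q := Q) mU y s)
    have h3 : (mean (ising J y) (cav Q fun s ζ => ((E (Q *ᵥ ζ) y - e) ⬝ᵥ (sv s - pt Q y ζ)) ^ 2)) ≤
        mean (ising J y) (dev Q E e y) := by
      rw [h2]
      refine (hw y).mean_mono fun s => integral_mono_of_nonneg
        (.of_forall fun z => (wt_prod _).mean_nonneg fun _ => sq_nonneg _) ?_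
        (.of_forall fun z => var_prod _ _)
      simpa using ((mg_sq (mN e y)).affine (Q *ᵥ sv s) 1).int
    have h4 := (hw y).mean_mono fun s => grad_one hQ mU y 0 s
    simp only [sub_zero, mean_add, mean_const_mul] at h4
    have h5 : 0 ≤ mean (ising J y) (dev Q E e y) :=
      (hw y).mean_nonneg fun s => integral_nonneg fun _ => sq_nonneg _
    rw [e1]
    refine h4.trans ((add_le_add (mul_le_mul_of_nonneg_left h3 (by positivity)) le_rfl).trans ?_)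
    change _ + _ * mean (ising J y) (dev Q E e y) ≤ _
    nlinarith [mul_le_mul_of_nonneg_right
      (show 2 * Ga 1 9 + 2 * exp (4 * 1 * 9) ≤ C by linarith) h5]

end Crest.Agent.T157.K

end
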