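import Crest.Agent.T157.TaB_40
import Crest.Agent.T157.TapAlg_29
import Crest.Agent.T157.KCm_85

/-!
# Row 157, block B, S5: the exact first order identity of the resampling kernel (helper54)

`Ext F m` is the mean of `F` under the product law with means `m`; at `m = λ s + (1 - λ) t` it is the
mean of `F (s^λ)`, each spin being kept with probability `λ` and resampled otherwise.
-/

set_option autoImplicit false
set_option linter.unusedVariables false
set_option linter.unusedSectionVars false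

noncomputable section

namespace Crest.Agent.T157.Fo

open MeasureTheory Real Matrix Function Set
open Crest.Agent.T157.E Crest.Agent.T157.SL Crest.Agent.T157.Ta
open Crest.Agent.T157.Rec (grad Pm)
open Crest.Agent.T157.Kc (Kf)
open Crest.Agent.T157.Tap (th Cb)
open Crest.ProbabilityR.SpinGlassDynamics (spin)

variable {n : ℕ} {F G v w : Cube n → ℝ} {m m' t h : Fin n → ℝ} {j : Fin n} {x : Cube n}

/-- the product law with means `m` -/
def pm (m : Fin n → ℝ) (x : Cube n) : ℝ := ∏ i, (1 + m i * sv x i) / 2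
/-- multilinear extension -/
def Ext (F : Cube n → ℝ) (m : Fin n → ℝ) : ℝ := ∑ x, pm m x * F x
/-- the means of `s^λ` -/
def mix (t : Fin n → ℝ) (x : Cube n) (l : ℝ) : Fin n → ℝ := l • sv x + (1 - l) • t
/-- the interpolated gradient -/
def Vv (F : Cube n → ℝ) (t : Fin n → ℝ) (x : Cube n) (j : Fin n) : ℝ :=
  ∫ l in (0 : ℝ)..1, Ext (fun y => grad F y j) (mix t x l)

theorem sum_pm (m : Fin n → ℝ) : ∑ x, pm m x = 1 := by
  have := Finset.prod_univ_sum (fun _ : Fin n => (Finset.univ : Finset Bool))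
    fun i b => (1 + m i * spin b) / 2
  rw [Fintype.piFinset_univ] at this
  refine this.symm.trans (Finset.prod_eq_one fun i _ => ?_)
  simp [spin]; ring

theorem abs_sv (x : Cube n) (i : Fin n) : |sv x i| = 1 := by
  unfold sv; cases x i <;> simp [spin]

theorem pm_nonneg (hm : Cb m) (x : Cube n) : 0 ≤ pm m x := Finset.prod_nonneg fun i _ => by
  have : |m i * sv x i| ≤ 1 := by rw [abs_mul, abs_sv, mul_one]; exact hm i
  linarith [neg_abs_le (m i * sv x i)]

theorem wt_pm (hm : Cb m) : Wt (pm m) := ⟨pm_nonneg hm, by rw [sum_pm]; exact one_pos⟩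

theorem mean_pm (m : Fin n → ℝ) (F : Cube n → ℝ) : mean (pm m) F = Ext F m := by
  rw [mean_eq_div, sum_pm, div_one, Ext]

theorem abs_Ext_le (hm : Cb m) {c : ℝ} (hF : ∀ x, |F x| ≤ c) : |Ext F m| ≤ c :=
  mean_pm m F ▸ (wt_pm hm).abs_mean_le hF

theorem Ext_sv (F : Cube n → ℝ) (x : Cube n) : Ext F (sv x) = F x := by
  rw [Ext, Finset.sum_eq_single x (fun y _ hy => ?_) (by simp), pm, Finset.prod_eq_one, one_mul]
  · intro i _; rw [Rec.sv_mul_self]; norm_num
  · obtain ⟨i, hi⟩ := Function.ne_iff.1 hy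
    rw [pm, Finset.prod_eq_zero (Finset.mem_univ i), zero_mul]
    unfold sv
    revert hi
    cases x i <;> cases y i <;> simp [spin]

/-- the product without the site `j` -/
def pq (m : Fin n → ℝ) (j : Fin n) (x : Cube n) : ℝ := ∏ i ∈ Finset.univ.erase j, (1 + m i * sv x i) / 2

theorem off_pq (m : Fin n → ℝ) (j : Fin n) : OffAt j (pq m j) := fun x b =>
  Finset.prod_congr rfl fun i hi => by simp [sv, Finset.ne_of_mem_erase hi]

theorem Ext_off (hF : OffAt j F) (m : Fin n → ℝ) : Ext F m = (∑ x, pq m j x * F x) / 2 := by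
  have e : ∀ x, pm m x = (1 + m j * sv x j) / 2 * pq m j x := fun x =>
    (Finset.mul_prod_erase _ _ (Finset.mem_univ j)).symm
  rw [Ext, sum_flip j]
  congr 1
  refine Finset.sum_congr rfl fun x _ => ?_
  simp only [e, off_pq m j x, hF x, sv, update_self, spin]
  simp; ring

theorem Ext_congr (hF : OffAt j F) (e : ∀ i, i ≠ j → m i = m' i) : Ext F m = Ext F m' := by
  rw [Ext_off hF, Ext_off hF]
  congr 2; ext x; congr 1
  exact Finset.prod_congr rfl fun i hi => by rw [e i (Finset.ne_of_mem_erase hi)]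

theorem hasDerivAt_Ext {M : ℝ → Fin n → ℝ} {l : ℝ} (hM : HasDerivAt M m' l) (F : Cube n → ℝ) :
    HasDerivAt (fun l => Ext F (M l)) (∑ j, m' j * Ext (fun y => grad F y j) (M l)) l := by
  refine (HasDerivAt.fun_sum fun x _ => (HasDerivAt.fun_finsetProd fun i _ =>
    ((((hasDerivAt_pi.1 hM i).mul_const (sv x i)).const_add 1).div_const 2)).mul_const (F x)).congr_deriv ?_
  simp only [Finset.sum_mul]
  rw [Finset.sum_comm]
  refine Finset.sum_congr rfl fun j _ => ?_
  rw [Ext_off (off_grad F j), sum_flip j, ← mul_div_assoc, Finset.mul_sum]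
  congr 1
  refine Finset.sum_congr rfl fun x _ => ?_
  change pq (M l) j _ • _ * _ + pq (M l) j _ • _ * _ = _
  simp only [off_pq (M l) j x, sv, update_self, spin, grad, incr, smul_eq_mul]
  simp; ring

theorem continuous_Ext (F : Cube n → ℝ) : Continuous (Ext F) := by
  unfold Ext pm; fun_prop

theorem cb_mix (ht : Cb t) (x : Cube n) {l : ℝ} (hl : l ∈ Icc (0 : ℝ) 1) : Cb (mix t x l) := fun i => by
  refine (abs_add_le _ _).trans ?_
  simp only [Pi.smul_apply, smul_eq_mul, abs_mul, abs_sv, abs_of_nonneg hl.1,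
    abs_of_nonneg (sub_nonneg.2 hl.2)]
  nlinarith [ht i, hl.2]

theorem off_Vv (F : Cube n → ℝ) (t : Fin n → ℝ) (j : Fin n) : OffAt j fun x => Vv F t x j := fun x b => by
  simp only [Vv]
  congr 1; ext l
  exact Ext_congr (off_grad F j) fun i hi => by simp [mix, sv, hi]

theorem abs_Vv_le (ht : Cb t) {c : ℝ} (hF : ∀ y, |grad F y j| ≤ c) (x : Cube n) : |Vv F t x j| ≤ c := by
  simpa [Vv] using intervalIntegral.norm_integral_le_of_norm_le_const (a := 0) (b := 1) (C := c)
    (f := fun l => Ext (fun y => grad F y j) (mix t x l)) fun l hl =>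
      abs_Ext_le (cb_mix ht x (by rw [uIoc_of_le zero_le_one] at hl; exact Ioc_subset_Icc_self hl)) hF

theorem continuous_Vv (F : Cube n → ℝ) (x : Cube n) (j : Fin n) : Continuous fun t => Vv F t x j :=
  intervalIntegral.continuous_parametric_intervalIntegral_of_continuous'
    (f := fun t l => Ext (fun y => grad F y j) (mix t x l))
    ((continuous_Ext _).comp (f := fun p : (Fin n → ℝ) × ℝ => mix p.1 x p.2) (by unfold mix; fun_prop)) 0 1

/-- linear functionals of the interpolated gradient -/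
theorem dot_Vv (F : Cube n → ℝ) (t u : Fin n → ℝ) (x : Cube n) :
    u ⬝ᵥ Vv F t x = ∫ l in (0 : ℝ)..1, Ext (fun y => u ⬝ᵥ grad F y) (mix t x l) := by
  have hc : ∀ j, Continuous fun l => u j * Ext (fun y => grad F y j) (mix t x l) := fun j =>
    continuous_const.mul ((continuous_Ext _).comp (by unfold mix; fun_prop))
  simp only [dotProduct, Vv, ← intervalIntegral.integral_const_mul]
  rw [← intervalIntegral.integral_finsetSum fun j _ => (hc j).intervalIntegrable _ _]
  simp only [Ext, Finset.mul_sum]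
  congr 1; ext l
  rw [Finset.sum_comm]
  simp only [mul_left_comm]

theorem abs_dot_Vv_le (ht : Cb t) {u : Fin n → ℝ} {c : ℝ} (hF : ∀ y, |u ⬝ᵥ grad F y| ≤ c) (x : Cube n) :
    |u ⬝ᵥ Vv F t x| ≤ c := by
  simpa [dot_Vv] using intervalIntegral.norm_integral_le_of_norm_le_const (a := 0) (b := 1) (C := c)
    (f := fun l => Ext (fun y => u ⬝ᵥ grad F y) (mix t x l)) fun l hl =>
      abs_Ext_le (cb_mix ht x (by rw [uIoc_of_le zero_le_one] at hl; exact Ioc_subset_Icc_self hl)) hF

theorem nrm_Vv_le (ht : Cb t) {c : ℝ} (hF : ∀ y, Eig.nrm (grad F y) ≤ c) (x : Cube n) :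
    Eig.nrm (Vv F t x) ≤ c := by
  have h := (le_abs_self _).trans (abs_dot_Vv_le ht (u := Vv F t x) (fun y => (Eig.abs_dot_le _ _).trans
    (mul_le_mul_of_nonneg_left (hF y) (Eig.nrm_nonneg _))) x)
  rw [← Eig.nrm_mul_self] at h
  rcases (Eig.nrm_nonneg (Vv F t x)).eq_or_lt with h0 | h0
  · exact h0 ▸ (Eig.nrm_nonneg _).trans (hF x)
  · exact le_of_mul_le_mul_left h h0

/-- `s^λ` has the law of `s` -/
theorem Ext_mix (F : Cube n → ℝ) (t : Fin n → ℝ) (l : ℝ) : Ext (fun x => Ext F (mix t x l)) t = Ext F t := by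
  simp only [Ext, Finset.mul_sum, ← mul_assoc]
  rw [Finset.sum_comm]
  refine Finset.sum_congr rfl fun y _ => ?_
  have := Finset.prod_univ_sum (fun _ : Fin n => (Finset.univ : Finset Bool))
    fun i b => (1 + t i * spin b) / 2 * ((1 + (l * spin b + (1 - l) * t i) * sv y i) / 2)
  rw [Fintype.piFinset_univ] at this
  rw [← Finset.sum_mul]
  congr 1
  simp only [pm, ← Finset.prod_mul_distrib]
  refine this.symm.trans (Finset.prod_congr rfl fun i _ => ?_)
  simp [spin]; ring

theorem Ext_Vv (F : Cube n → ℝ) (t : Fin n → ℝ) (j : Fin n) :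
    Ext (fun x => Vv F t x j) t = Ext (fun x => grad F x j) t := by
  have hc : ∀ x, Continuous fun l => pm t x * Ext (fun y => grad F y j) (mix t x l) := fun x =>
    continuous_const.mul ((continuous_Ext _).comp (by unfold mix; fun_prop))
  rw [Ext]
  simp only [Vv, ← intervalIntegral.integral_const_mul]
  rw [← intervalIntegral.integral_finsetSum fun x _ => (hc x).intervalIntegrable _ _]
  simp [show ∀ l, ∑ x, pm t x * Ext (fun y => grad F y j) (mix t x l) = _ from Ext_mix _ t]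

/-- Stein's identity for product laws -/
theorem Ext_stein (F : Cube n → ℝ) (t : Fin n → ℝ) (j : Fin n) :
    Ext (fun x => (sv x j - t j) * F x) t = (1 - t j ^ 2) * Ext (fun x => grad F x j) t := by
  have e : ∀ x, pm t x = (1 + t j * sv x j) / 2 * pq t j x := fun x =>
    (Finset.mul_prod_erase _ _ (Finset.mem_univ j)).symm
  rw [Ext_off (off_grad F j), Ext, sum_flip j, ← mul_div_assoc, Finset.mul_sum]
  congr 1
  refine Finset.sum_congr rfl fun x _ => ?_
  simp only [e, off_pq t j x, sv, update_self, spin, grad, incr]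
  simp; ring

/-- **interpolation** -/
theorem interp (F : Cube n → ℝ) (t : Fin n → ℝ) (x : Cube n) :
    F x - Ext F t = ∑ j, (sv x j - t j) * Vv F t x j := by
  have hd : ∀ l, HasDerivAt (mix t x) (sv x - t) l := fun l =>
    (((hasDerivAt_id l).smul_const (sv x)).add
      (((hasDerivAt_id l).const_sub 1).smul_const t)).congr_deriv (by simp [sub_eq_add_neg])
  have hc : ∀ j, Continuous fun l => (sv x - t) j * Ext (fun y => grad F y j) (mix t x l) := fun j =>
    continuous_const.mul ((continuous_Ext _).comp (by unfold mix; fun_prop))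
  have := intervalIntegral.integral_eq_sub_of_hasDerivAt (a := 0) (b := 1)
    (fun l _ => hasDerivAt_Ext (hd l) F) ((continuous_finsetSum _ fun j _ => hc j).intervalIntegrable _ _)
  rw [intervalIntegral.integral_finsetSum fun j _ => (hc j).intervalIntegrable _ _] at this
  simp only [intervalIntegral.integral_const_mul] at this
  rw [show mix t x 1 = sv x by simp [mix], show mix t x 0 = t by simp [mix], Ext_sv] at this
  exact this.symm

/-- **exact first order identity**, any weight -/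
theorem fo_exact (hv : Wt v) (F : Cube n → ℝ) (t : Fin n → ℝ) :
    mean v F - Ext F t = mean v fun x => ∑ j, (cm v j x - t j) * Vv F t x j := by
  rw [← hv.mean_const (Ext F t), ← mean_sub]
  simp only [interp, mean_sum, mul_comm _ (Vv F t _ _), mul_sub, mean_sub, mean_cm hv (off_Vv F t _)]

theorem min0 {f f' : ℝ → ℝ} (hf : ∀ u, HasDerivAt f (f' u) u) (h : ∀ u, 0 ≤ u * f' u) (e : ℝ) :
    f 0 ≤ f e := by
  have hc : ∀ s, ContinuousOn f s := fun s u _ => (hf u).continuousAt.continuousWithinAt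
  rcases lt_trichotomy e 0 with he | rfl | he
  · obtain ⟨u, hu, e1⟩ := exists_hasDerivAt_eq_slope f f' he (hc _) fun u _ => hf u
    rw [eq_div_iff (by linarith)] at e1
    nlinarith [h u, hu.2, nonpos_of_mul_nonneg_right (h u) hu.2]
  · exact le_rfl
  · obtain ⟨u, hu, e1⟩ := exists_hasDerivAt_eq_slope f f' he (hc _) fun u _ => hf u
    rw [eq_div_iff (by linarith)] at e1
    nlinarith [nonneg_of_mul_nonneg_right (h u) hu.1]

theorem tanh_t2 (a e : ℝ) : |tanh (a + e) - tanh a - (1 - tanh a ^ 2) * e| ≤ e ^ 2 := by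
  have d : ∀ u, HasDerivAt (fun u => tanh (a + u)) (1 - tanh (a + u) ^ 2) u := fun u =>
    (Tap.hasDerivAt_tanh' (a + u)).comp_const_add a u
  have b : ∀ u, |tanh u| ≤ 1 := fun u => (abs_tanh_lt_one u).le
  have l : ∀ u, |tanh (a + u) ^ 2 - tanh a ^ 2| ≤ 2 * |u| := fun u => by
    have := convex_univ.norm_image_sub_le_of_norm_hasDerivWithin_le (C := 1)
      (fun u _ => (d u).hasDerivWithinAt) (fun u _ => by
        rw [Real.norm_eq_abs, abs_le]
        constructor <;> nlinarith [sq_abs (tanh (a + u)), b (a + u), abs_nonneg (tanh (a + u))])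
      (mem_univ 0) (mem_univ u)
    rw [sq_sub_sq, abs_mul]
    exact mul_le_mul ((abs_add_le _ _).trans (by linarith [b a, b (a + u)])) (by simpa using this)
      (abs_nonneg _) zero_le_two
  have k : ∀ u, |u * (tanh (a + u) ^ 2 - tanh a ^ 2)| ≤ 2 * (u * u) := fun u => by
    rw [abs_mul, ← abs_mul_abs_self u]; nlinarith [l u, abs_nonneg u]
  have h1 := min0 (fun u => ((hasDerivAt_pow 2 u).add (d u)).sub
    ((hasDerivAt_id u).const_mul (1 - tanh a ^ 2))) (fun u => by
      norm_num; nlinarith [abs_le.1 (k u)]) e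
  have h2 := min0 (fun u => ((hasDerivAt_pow 2 u).sub (d u)).add
    ((hasDerivAt_id u).const_mul (1 - tanh a ^ 2))) (fun u => by
      norm_num; nlinarith [abs_le.1 (k u)]) e
  simp at h1 h2
  rw [abs_le]; constructor <;> linarith

/-- **first order form**: logits `h + e` on `C` -/
theorem fo_first (hv : Wt v) (F : Cube n → ℝ) (h : Fin n → ℝ) (C : Finset (Fin n))
    (e : Cube n → Fin n → ℝ) (he : ∀ x, v x ≠ 0 → ∀ j ∈ C, cm v j x = tanh (h j + e x j)) :
    |mean v F - Ext F (th h) - mean v fun x => ∑ j ∈ C, e x j * ((1 - tanh (h j) ^ 2) * Vv F (th h) x j)| ≤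
      mean v fun x => ∑ j ∈ C, e x j ^ 2 * |Vv F (th h) x j| + 2 * ∑ j ∈ Cᶜ, |Vv F (th h) x j| := by
  rw [fo_exact hv, ← mean_sub]
  have key : ∀ x, v x ≠ 0 → |∑ j, (cm v j x - th h j) * Vv F (th h) x j -
      ∑ j ∈ C, e x j * ((1 - tanh (h j) ^ 2) * Vv F (th h) x j)| ≤
      ∑ j ∈ C, e x j ^ 2 * |Vv F (th h) x j| + 2 * ∑ j ∈ Cᶜ, |Vv F (th h) x j| := fun x hx => by
    rw [← Finset.sum_add_sum_compl C, add_sub_right_comm, ← Finset.sum_sub_distrib, Finset.mul_sum]
    refine (abs_add_le _ _).trans (add_le_add ((Finset.abs_sum_le_sum_abs _ _).trans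
      (Finset.sum_le_sum fun j hj => ?_)) ((Finset.abs_sum_le_sum_abs _ _).trans
      (Finset.sum_le_sum fun j hj => ?_)))
    · rw [he x hx j hj, ← mul_assoc, ← sub_mul, abs_mul, mul_comm (e x j)]
      exact mul_le_mul_of_nonneg_right (tanh_t2 _ _) (abs_nonneg _)
    · rw [abs_mul]
      refine mul_le_mul_of_nonneg_right ((abs_sub _ _).trans ?_) (abs_nonneg _)
      linarith [abs_cm_le hv.nn j x, Tap.cb_th h j]
  refine abs_le.2 ⟨?_, mean_mono_supp hv fun x hx => (abs_le.1 (key x hx)).2⟩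
  rw [← mean_neg]
  exact mean_mono_supp hv fun x hx => (abs_le.1 (key x hx)).1

/-! ### product weights, logits -/

theorem exp_dot (h : Fin n → ℝ) (x : Cube n) :
    exp (h ⬝ᵥ sv x) = (∏ i, 2 * cosh (h i)) * pm (th h) x := by
  rw [dotProduct, exp_sum, pm, ← Finset.prod_mul_distrib]
  refine Finset.prod_congr rfl fun i _ => ?_
  have := (cosh_pos (h i)).ne'
  rw [th, tanh_eq_sinh_div_cosh, sv]
  cases x i <;> simp only [spin] <;> simp <;> field_simp
  · rw [cosh_eq, sinh_eq]; ring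
  · rw [cosh_eq, sinh_eq]; ring

theorem mean_prod {c : ℝ} (hc : c ≠ 0) (h : Fin n → ℝ) (F : Cube n → ℝ) :
    mean (fun x => c * exp (h ⬝ᵥ sv x)) F = Ext F (th h) := by
  have : (∏ i, 2 * cosh (h i)) ≠ 0 := Finset.prod_ne_zero_iff.2 fun i _ => by positivity
  simp only [mean_eq_div, exp_dot, mul_assoc, ← Finset.mul_sum, sum_pm, Ext]
  field_simp

theorem mean_ising0 (h : Fin n → ℝ) (F : Cube n → ℝ) : mean (ising 0 h) F = Ext F (th h) := by
  rw [← mean_prod one_ne_zero]; congr 1; ext x; simp [ising]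

theorem tanh_half {c : ℝ} (hc : c ≠ 0) (a b : ℝ) :
    (c * exp a * 1 + c * exp b * -1) / (c * exp a + c * exp b) = tanh ((a - b) / 2) := by
  have e1 : exp a = exp ((a + b) / 2) * exp ((a - b) / 2) := by rw [← exp_add]; congr 1; ring
  have e2 : exp b = exp ((a + b) / 2) * exp (-((a - b) / 2)) := by rw [← exp_add]; congr 1; ring
  rw [tanh_eq_sinh_div_cosh, sinh_eq, cosh_eq, e1, e2]
  have := exp_pos ((a - b) / 2)
  have := exp_pos (-((a - b) / 2))
  field_simp
  ring

theorem cm_exp {c : ℝ} (hc : c ≠ 0) (U : Cube n → ℝ) (j : Fin n) (x : Cube n) :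
    cm (fun x => c * exp (U x)) j x = tanh (grad U x j) := by
  simpa only [Ta.cm, siteM, sv, update_self, spin, grad, incr, if_true, Bool.false_eq_true, if_false] using
    tanh_half hc (U (update x j true)) (U (update x j false))

/-- a tilt shifts the logit -/
theorem cm_wt (hw : Wt w) (hx : w x ≠ 0) {a : ℝ} (h : cm w j x = tanh a) (U : Cube n → ℝ) :
    cm (wt w U) j x = tanh (a + grad U x j) := by
  have h0 := den_pos hw j hx
  simp only [Ta.cm, siteM, sv, update_self, spin, grad, incr, if_true, Bool.false_eq_true, if_false, wt,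
    den] at h h0 ⊢
  generalize w (update x j true) = p at *
  generalize w (update x j false) = q at *
  have a1 := exp_pos a
  have a2 := exp_pos (-a)
  have a3 : exp a * exp (-a) = 1 := by rw [← exp_add]; simp
  rw [tanh_eq_sinh_div_cosh, sinh_eq, cosh_eq, div_eq_div_iff h0.ne' (by positivity)] at h
  have e1 : q = p * exp (-a) * exp (-a) := by linear_combination (-exp (-a)) * h - q * a3
  have e2 : p = p * exp (-a) * exp a := by linear_combination (-p) * a3
  have hc : p * exp (-a) ≠ 0 := fun e => by rw [e, zero_mul] at e1 e2; linarith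
  rw [show a + (U (update x j true) - U (update x j false)) / 2 =
    (a + U (update x j true) - (-a + U (update x j false))) / 2 by ring, ← tanh_half hc, exp_add, exp_add,
    ← mul_assoc, ← mul_assoc, ← e1, ← e2]

theorem grad_quad {J : Matrix (Fin n) (Fin n) ℝ} (hJ : Jᵀ = J) (h0 : ∀ j, J j j = 0) (x : Cube n)
    (j : Fin n) : grad (fun x => sv x ⬝ᵥ J *ᵥ sv x) x j = 2 * (J *ᵥ sv x) j := by
  have e : sv x ⬝ᵥ J *ᵥ Pi.single j (-2 * sv x j) = -2 * sv x j * (J *ᵥ sv x) j := by
    rw [dotProduct_mulVec, ← mulVec_transpose, hJ, dotProduct_single, mul_comm]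
  rw [Rec.grad_eq, eq_add_of_sub_eq (Rec.sv_fl_sub x j), mulVec_add, add_dotProduct, dotProduct_add,
    dotProduct_add, e, single_dotProduct, single_dotProduct, mulVec_single, Pi.smul_apply, col_apply, h0]
  simp only [smul_zero]
  linear_combination 2 * (J *ᵥ sv x) j * Rec.sv_mul_self x j

theorem sv_dot (x : Cube n) : sv x ⬝ᵥ sv x = n := by simp [dotProduct, Rec.sv_mul_self]

theorem cm_ising {J : Matrix (Fin n) (Fin n) ℝ} (hJ : Jᵀ = J) (h0 : ∀ j, J j j = 0) (y : Fin n → ℝ)
    (j : Fin n) (x : Cube n) : cm (ising J y) j x = tanh ((J *ᵥ sv x + y) j) := by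
  have := cm_exp one_ne_zero (fun x => 1 / 2 * (sv x ⬝ᵥ J *ᵥ sv x) + y ⬝ᵥ sv x) j x
  rw [Rec.grad_add, Rec.grad_const_mul, Rec.grad_lin, Pi.add_apply, Pi.smul_apply, grad_quad hJ h0,
    smul_eq_mul, ← mul_assoc] at this
  simp only [one_mul] at this
  exact this.trans (by simp)

section chan
variable {ι : Type*} [Fintype ι] [DecidableEq ι] {J : Matrix (Fin n) (Fin n) ℝ} {R : Matrix ι (Fin n) ℝ}
  {c : ℝ} {y : Fin n → ℝ}

/-- the logit after the Hubbard–Stratonovich channel -/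
theorem cm_post (hJ : Jᵀ = J) (h0 : ∀ j, J j j = 0) {s : ℝ} (hR : s • (Rᵀ * R) = J + c • 1) (hv : Wt v)
    (hx : v x ≠ 0) {e : ℝ} (he : cm v j x = tanh ((J *ᵥ sv x + y) j + e)) (u : ι → ℝ) :
    cm (post (fun x => R *ᵥ sv x) v s u) j x = tanh ((y + Rᵀ *ᵥ u) j + e) := by
  have e1 : (fun x => lk (fun x => R *ᵥ sv x) s x u) =
      fun x => (Rᵀ *ᵥ u) ⬝ᵥ sv x + (-(1 / 2) * (sv x ⬝ᵥ J *ᵥ sv x) + -(c * n / 2)) := by
    ext x
    have e : s * (R *ᵥ sv x ⬝ᵥ R *ᵥ sv x) = sv x ⬝ᵥ J *ᵥ sv x + c * n := by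
      rw [dotProduct_mulVec, vecMul_mulVec, ← dotProduct_mulVec, ← smul_eq_mul, ← dotProduct_smul,
        ← smul_mulVec, hR, add_mulVec, dotProduct_add, smul_mulVec, one_mulVec, dotProduct_smul, sv_dot,
        smul_eq_mul]
    rw [lk, dotProduct_mulVec u, mulVec_transpose]
    linear_combination -e / 2
  rw [post_eq, cm_wt hv hx he, e1, Rec.grad_add, Rec.grad_add, Rec.grad_lin, Rec.grad_const_mul,
    Rec.grad_const]
  simp only [Pi.add_apply, Pi.smul_apply, grad_quad hJ h0, smul_eq_mul, Pi.zero_apply]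
  congr 1; ring

variable {φ : Cube n → ι → ℝ} {s : ℝ} {H : (ι → ℝ) → Fin n → ℝ}

theorem mg_Ext (hH : Measurable H) (F : Cube n → ℝ) : MG fun z => Ext F (th (H z)) :=
  .of_bdd (((continuous_Ext F).comp Tap.continuous_th).measurable.comp hH) (∑ x, |F x|) fun z =>
    abs_Ext_le (Tap.cb_th _) fun x =>
      Finset.single_le_sum (f := fun x => |F x|) (fun _ _ => abs_nonneg _) (Finset.mem_univ x)

theorem mg_Vv (hH : Measurable H) (F : Cube n → ℝ) (x : Cube n) (j : Fin n) :
    MG fun z => Vv F (th (H z)) x j :=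
  .of_bdd (((continuous_Vv F x j).comp Tap.continuous_th).measurable.comp hH) (∑ y, |grad F y j|) fun z =>
    abs_Vv_le (Tap.cb_th _) (fun y => Finset.single_le_sum (f := fun y => |grad F y j|)
      (fun _ _ => abs_nonneg _) (Finset.mem_univ y)) x

theorem mg_D (hH : Measurable H) (j : Fin n) : MG fun z => 1 - tanh (H z j) ^ 2 :=
  .of_bdd (((Tap.continuous_tanh'.measurable.comp ((measurable_pi_apply j).comp hH)).pow_const 2).const_sub 1)
    1 fun z => by
      have := (Tap.cb_th (H z)).DD_nonneg j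
      exact (abs_of_nonneg this).trans_le (Tap.DD_le (th (H z)) j)

/-- **first order form along a channel**: `v F - v (K F)`, `K F x = E Ext F (th (H z))` -/
theorem fo_chan (hv : Wt v) (hs : 0 ≤ s) (hH : Measurable H) (F : Cube n → ℝ) (C : Finset (Fin n))
    (e : Cube n → Fin n → ℝ)
    (he : ∀ z x, v x ≠ 0 → ∀ j ∈ C, cm (post φ v s z) j x = tanh (H z j + e x j)) :
    |mean v F - slE φ v s (fun _ z => Ext F (th (H z))) -
        slE φ v s fun x z => ∑ j ∈ C, e x j * ((1 - tanh (H z j) ^ 2) * Vv F (th (H z)) x j)| ≤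
      slE φ v s fun x z => ∑ j ∈ C, e x j ^ 2 * |Vv F (th (H z)) x j| +
        2 * ∑ j ∈ Cᶜ, |Vv F (th (H z)) x j| := by
  have m1 : ∀ x, MG fun z => ∑ j ∈ C, e x j * ((1 - tanh (H z j) ^ 2) * Vv F (th (H z)) x j) := fun x =>
    .sum _ fun j _ => ((mg_D hH j).mul (mg_Vv hH F x j)).const_mul _
  have m2 : ∀ x, MG fun z => ∑ j ∈ C, e x j ^ 2 * |Vv F (th (H z)) x j| +
      2 * ∑ j ∈ Cᶜ, |Vv F (th (H z)) x j| := fun x =>
    (MG.sum _ fun j _ => (mg_Vv hH F x j).abs.const_mul _).add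
      ((MG.sum _ fun j _ => (mg_Vv hH F x j).abs).const_mul 2)
  have m0 := mg_mean (φ := φ) hv s fun x => MG.const (F x)
  have m3 := (m0.sub (mg_Ext hH F)).sub (mg_mean (φ := φ) hv s m1)
  have m4 := mg_mean (φ := φ) hv s m2
  have key := fun z => abs_le.1 (fo_first (hv.post φ s z) F (H z) C e fun x hx =>
    he z x (left_ne_zero_of_mul hx))
  rw [← slE_mean (φ := φ) hv hs F, bayes hv hs (.of_mg m1), bayes hv hs (.of_mg m2),
    ← slE_sub (.of_mg fun _ => m0) (.of_mg fun _ => mg_Ext hH F),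
    ← slE_sub (.of_mg fun _ => m0.sub (mg_Ext hH F)) (.of_mg fun _ => mg_mean hv s m1)]
  refine abs_le.2 ⟨?_, slE_mono hv (.of_mg fun _ => m3) (.of_mg fun _ => m4) fun _ z => (key z).2⟩
  rw [← slE_neg]
  exact slE_mono hv (.of_mg fun _ => m4.neg) (.of_mg fun _ => m3) fun _ z => (key z).1

/-- exact form along a channel -/
theorem fo_chan_exact (hv : Wt v) (hs : 0 ≤ s) (hH : Measurable H) (F : Cube n → ℝ) :
    mean v F - slE φ v s (fun _ z => Ext F (th (H z))) =
      slE φ v s fun x z => ∑ j, (cm (post φ v s z) j x - tanh (H z j)) * Vv F (th (H z)) x j := by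
  have m0 := mg_mean (φ := φ) hv s fun x => MG.const (F x)
  rw [← slE_mean (φ := φ) hv hs F, ← slE_sub (.of_mg fun _ => m0) (.of_mg fun _ => mg_Ext hH F),
    bayes hv hs (F := fun x z => ∑ j, (cm (post φ v s z) j x - tanh (H z j)) * Vv F (th (H z)) x j)
      (.of_mg fun x => .sum _ fun j _ => ((xg_cm hv (fun x => (lg_lk φ s x).meas) j x).mg.sub
        (.of_bdd (Tap.continuous_tanh'.measurable.comp ((measurable_pi_apply j).comp hH)) 1
          fun z => Tap.cb_th (H z) j)).mul (mg_Vv hH F x j))]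
  simp only [fo_exact (hv.post φ s _), th]

/-- the first order response field `E [D V | σ]` -/
def gK (R : Matrix ι (Fin n) ℝ) (y : Fin n → ℝ) (s : ℝ) (F : Cube n → ℝ) (x : Cube n) (j : Fin n) : ℝ :=
  Pm (fun x => R *ᵥ sv x) s
    (fun x u => (1 - tanh ((y + Rᵀ *ᵥ u) j) ^ 2) * Vv F (th (y + Rᵀ *ᵥ u)) x j) x
/-- `E [|V| | σ]` -/
def aK (R : Matrix ι (Fin n) ℝ) (y : Fin n → ℝ) (s : ℝ) (F : Cube n → ℝ) (x : Cube n) (j : Fin n) : ℝ :=
  Pm (fun x => R *ᵥ sv x) s (fun x u => |Vv F (th (y + Rᵀ *ᵥ u)) x j|) x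

theorem meas_H (R : Matrix ι (Fin n) ℝ) (y : Fin n → ℝ) : Measurable fun u : ι → ℝ => y + Rᵀ *ᵥ u :=
  (continuous_const.add (continuous_const.matrix_mulVec continuous_id)).measurable

theorem Kf_eq (hR : s • (Rᵀ * R) = J + c • 1) (y : Fin n → ℝ) (F : Cube n → ℝ) :
    Kf (fun x => R *ᵥ sv x) (ising J y) s F =
      Pm (fun x => R *ᵥ sv x) s fun _ u => Ext F (th (y + Rᵀ *ᵥ u)) := by
  simp only [Kf, Kc.mean_post_hs hR, mean_ising0]

theorem aK_le {b : ℝ} (hF : ∀ y, |grad F y j| ≤ b) (x : Cube n) : aK R y s F x j ≤ b := by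
  exact Rec.Pm_le (fun x => (mg_Vv (meas_H R y) F x j).abs) fun u => abs_Vv_le (Tap.cb_th _) hF x

/-- **(FO)**: `v` has the logits `J σ + y + e` on `C` -/
theorem fo_K (hJ : Jᵀ = J) (h0 : ∀ j, J j j = 0) (hR : s • (Rᵀ * R) = J + c • 1) (hs : 0 ≤ s) (hv : Wt v)
    (C : Finset (Fin n)) (e : Cube n → Fin n → ℝ)
    (he : ∀ x, v x ≠ 0 → ∀ j ∈ C, cm v j x = tanh ((J *ᵥ sv x + y) j + e x j)) (F : Cube n → ℝ) :
    |mean v F - mean v (Kf (fun x => R *ᵥ sv x) (ising J y) s F) -
        mean v fun x => ∑ j ∈ C, e x j * gK R y s F x j| ≤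
      mean v fun x => ∑ j ∈ C, e x j ^ 2 * aK R y s F x j + 2 * ∑ j ∈ Cᶜ, aK R y s F x j := by
  have hH := meas_H R y
  have := fo_chan (φ := fun x => R *ᵥ sv x) hv hs hH F C e fun z x hx j hj =>
    cm_post hJ h0 hR hv hx (he x hx j hj) z
  have m := fun x j => mg_Vv hH F x j
  have e1 : (fun x => ∑ j ∈ C, e x j * gK R y s F x j) = Pm (fun x => R *ᵥ sv x) s fun x z =>
      ∑ j ∈ C, e x j * ((1 - tanh ((y + Rᵀ *ᵥ z) j) ^ 2) * Vv F (th (y + Rᵀ *ᵥ z)) x j) := by
    ext x
    rw [Rec.Pm_sum _ fun j _ x => ((mg_D hH j).mul (m x j)).const_mul _]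
    exact Finset.sum_congr rfl fun j _ => (Rec.Pm_mul (fun x => e x j) _ x).symm
  have e2 : (fun x => ∑ j ∈ C, e x j ^ 2 * aK R y s F x j + 2 * ∑ j ∈ Cᶜ, aK R y s F x j) =
      Pm (fun x => R *ᵥ sv x) s fun x z => ∑ j ∈ C, e x j ^ 2 * |Vv F (th (y + Rᵀ *ᵥ z)) x j| +
        2 * ∑ j ∈ Cᶜ, |Vv F (th (y + Rᵀ *ᵥ z)) x j| := by
    ext x
    rw [Rec.Pm_add (fun x => .sum _ fun j _ => (m x j).abs.const_mul _)
      (fun x => (MG.sum _ fun j _ => (m x j).abs).const_mul 2), Rec.Pm_mul (fun _ => 2),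
      Rec.Pm_sum _ fun j _ x => (m x j).abs.const_mul _, Rec.Pm_sum _ fun j _ x => (m x j).abs]
    exact congrArg (· + _) (Finset.sum_congr rfl fun j _ => (Rec.Pm_mul (fun x => e x j ^ 2) _ x).symm)
  rw [Kf_eq hR, e1, e2]
  exact this

/-- the mean response is a covariance -/
theorem mean_gK (hR : s • (Rᵀ * R) = J + c • 1) (hs : 0 ≤ s) (F : Cube n → ℝ) (j : Fin n) :
    mean (ising J y) (fun x => gK R y s F x j) = mean (ising J y)
      fun x => sv x j * (F x - Kf (fun x => R *ᵥ sv x) (ising J y) s F x) := by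
  have hw : Wt (ising J y) := .of_pos fun _ => exp_pos _
  have hH := meas_H R y
  have m := fun f : Cube n → ℝ => mg_mean (φ := fun x => R *ᵥ sv x) hw s fun x => MG.const (f x)
  simp only [mul_sub, mean_sub, Kc.mean_mul_Kf hw hs]
  rw [← slE_mean (φ := fun x => R *ᵥ sv x) hw hs fun x => sv x j * F x,
    ← slE_sub (.of_mg fun _ => m _) (.of_mg fun _ => (m _).mul (m _))]
  refine (bayes hw hs (.of_mg fun x => (mg_D hH j).mul (mg_Vv hH F x j))).trans ?_
  congr 1; ext _ u
  have e := Ext_stein (fun _ => 1) (th (y + Rᵀ *ᵥ u)) j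
  simp only [← mean_pm, mul_one, mean_sub, (wt_pm (Tap.cb_th _)).mean_const, Rec.grad_const,
    Pi.zero_apply, mul_zero, sub_eq_zero] at e
  have e2 := Ext_stein F (th (y + Rᵀ *ᵥ u)) j
  simp only [← mean_pm, sub_mul, mean_sub, mean_const_mul] at e2
  simp only [mean_const_mul, Kc.mean_post_hs hR, mean_ising0, Ext_Vv]
  simp only [← mean_pm, e, sub_mul]
  exact e2.symm

/-- telescoping of `ξ = ∑ K^l f` -/
theorem tele {Ω : Type*} [Fintype Ω] {φ : Ω → ι → ℝ} {w : Ω → ℝ} (hw : Wt w) (v f : Ω → ℝ) (k : ℕ) :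
    mean v (fun x => ∑ l ∈ Finset.range k, (Kf φ w s)^[l] f x) -
      mean v (Kf φ w s fun x => ∑ l ∈ Finset.range k, (Kf φ w s)^[l] f x) =
        mean v f - mean v ((Kf φ w s)^[k] f) := by
  rw [Kc.Kf_sum hw, mean_sum, mean_sum, ← Finset.sum_sub_distrib]
  simpa only [← Function.iterate_succ_apply', Function.iterate_zero_apply] using
    Finset.sum_range_sub' (fun l => mean v ((Kf φ w s)^[l] f)) k

end chan

end Crest.Agent.T157.Fo
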