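import Crest.Agent.T157.KDef_36
import Crest.Agent.T157.KFo_54

/-!
# Row 157, part B, block S5 (helper38): the leaves FO and GT
-/

set_option autoImplicit false

noncomputable section

namespace Crest.Agent.T157.K

open MeasureTheory ProbabilityTheory Real Matrix Finset
open Crest.Agent.T157.E Crest.Agent.T157.Eig Crest.Agent.T157.SL
open Crest.Agent.T157.Tap (V Mx th DD Cb cb_th)
open Crest.Agent.T157.Rec (grad Pm)
open Crest.Agent.T157.Reg (neg)
open Crest.Agent.T157.Fo (pm mix Vv)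
open Crest.Agent.T157.Chain22 (IsP)

namespace Fo38

variable {n : ℕ}

/-- the law of the mixed configuration -/
def kk (t : V n) (x z : Cube n) : ℝ := ∫ l in (0 : ℝ)..1, pm (mix t x l) z

lemma cont_pm (t : V n) (x z : Cube n) : Continuous fun l => pm (mix t x l) z := by
  unfold pm mix; fun_prop

lemma W_eq (f : Cube n → ℝ) (t : V n) (x : Cube n) :
    ∫ l in (0 : ℝ)..1, Fo.Ext f (mix t x l) = ∑ z, kk t x z * f z := by
  simp only [Fo.Ext, kk, ← intervalIntegral.integral_mul_const]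
  exact intervalIntegral.integral_finsetSum fun z _ =>
    ((cont_pm t x z).mul continuous_const).intervalIntegrable _ _

lemma vO_eq (Ω : Cube n → V n) (t : V n) (s : Cube n) (j : Fin n) :
    vO Ω t s j = ∑ z, kk t s z * Ω z j := W_eq (fun x => Ω x j) t s

lemma Vv_eq (F : Cube n → ℝ) (t : V n) (s : Cube n) (j : Fin n) :
    Vv F t s j = ∑ z, kk t s z * grad F z j := W_eq _ t s

lemma isP_kk {t : V n} (ht : Cb t) (x : Cube n) : IsP (kk t x) := by
  refine ⟨fun z => intervalIntegral.integral_nonneg zero_le_one fun l hl =>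
    Fo.pm_nonneg (Fo.cb_mix ht x hl) z, ?_⟩
  have := W_eq (fun _ => 1) t x
  simp only [Fo.Ext, mul_one, Fo.sum_pm] at this
  simpa using this.symm

lemma cont_kk (x z : Cube n) : Continuous fun t => kk t x z :=
  intervalIntegral.continuous_parametric_intervalIntegral_of_continuous'
    (f := fun t l => pm (mix t x l) z) (by unfold pm mix; fun_prop) 0 1

lemma Ext_kk (f : Cube n → ℝ) (t : V n) : Fo.Ext (fun x => ∑ z, kk t x z * f z) t = Fo.Ext f t := by
  have hc : ∀ x, Continuous fun l => pm t x * Fo.Ext f (mix t x l) := fun x =>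
    continuous_const.mul ((Fo.continuous_Ext _).comp (by unfold mix; fun_prop))
  rw [Fo.Ext]
  simp only [← W_eq, ← intervalIntegral.integral_const_mul]
  rw [← intervalIntegral.integral_finsetSum fun x _ => (hc x).intervalIntegrable _ _]
  simp [show ∀ l, ∑ x, pm t x * Fo.Ext f (mix t x l) = _ from Fo.Ext_mix _ t]

lemma cont_pt (Q : Mx n) (y : V n) : Continuous (pt Q y) :=
  Tap.continuous_th.comp (continuous_const.add (continuous_const.matrix_mulVec continuous_id))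

lemma mg_kk (Q : Mx n) (y : V n) (x z : Cube n) : MG fun ζ => kk (pt Q y ζ) x z :=
  .of_bdd ((cont_kk x z).comp (cont_pt Q y)).measurable 1 fun ζ => by
    have P := isP_kk (cb_th (y + Q *ᵥ ζ)) x
    exact (abs_of_nonneg (P.nn z)).trans_le (P.le_one z)

lemma mg_W (Q : Mx n) (y : V n) (f : Cube n → ℝ) (x : Cube n) :
    MG fun ζ => ∑ z, kk (pt Q y ζ) x z * f z := .sum _ fun z _ => (mg_kk Q y x z).mul (.const _)

lemma mg_DD (Q : Mx n) (y : V n) (j : Fin n) : MG fun ζ => DD (pt Q y ζ) j :=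
  Fo.mg_D (H := fun ζ => y + Q *ᵥ ζ)
    (continuous_const.add (continuous_const.matrix_mulVec continuous_id)).measurable j

lemma mg_u (Q : Mx n) (y : V n) (Ω : Cube n → V n) (s : Cube n) (j : Fin n) :
    MG fun ζ => DD (pt Q y ζ) j * vO Ω (pt Q y ζ) s j := by
  simp only [vO_eq]; exact (mg_DD Q y j).mul (mg_W Q y _ s)

/-- the mixing kernel -/
def TT (Q : Mx n) (y : V n) (x z : Cube n) : ℝ := cav Q (fun x ζ => kk (pt Q y ζ) x z) x

lemma cav_W (Q : Mx n) (y : V n) (f : Cube n → ℝ) (x : Cube n) :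
    cav Q (fun x ζ => ∑ z, kk (pt Q y ζ) x z * f z) x = ∑ z, TT Q y x z * f z := by
  simp only [TT, cav_eq]
  rw [Rec.Pm_sum _ fun z _ x => (mg_kk Q y x z).mul (.const _)]
  exact sum_congr rfl fun z _ => integral_mul_const _ _

lemma isP_TT (Q : Mx n) (y : V n) (x : Cube n) : IsP (TT Q y x) := by
  refine ⟨fun z => integral_nonneg fun _ => (isP_kk (cb_th _) x).nn z, ?_⟩
  have := cav_W Q y (fun _ => 1) x
  simp only [mul_one, pt, (isP_kk (cb_th _) _).sum1] at this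
  simpa [cav] using this.symm

lemma inv_TT (hR : RevStmt) {J Q : Mx n} (h : JQ J Q) (y : V n) (f : Cube n → ℝ) :
    (mean (ising J y) fun x => ∑ z, TT Q y x z * f z) = mean (ising J y) f := by
  have := hR.bayes n J Q y (fun x ζ => ∑ z, kk (pt Q y ζ) x z * f z) h (mg_W Q y f)
  simp only [← cav_W]
  refine this.trans (Eq.trans ?_ (hR.inv n J Q y f h))
  simp only [Ky, pw, Fo.mean_ising0, pt, Ext_kk]

lemma jen {p : Cube n → ℝ} (hp : IsP p) (u : Cube n → V n) :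
    ∑ j, (∑ z, p z * u z j) ^ 2 ≤ ∑ z, p z * nrm (u z) ^ 2 := by
  simp only [nrm_sq, dotProduct, mul_sum]
  rw [sum_comm]
  exact sum_le_sum fun j _ => hp.mean_sq_le fun z => u z j

lemma tanh_lip (a d : ℝ) : |tanh (a + d) - tanh a| ≤ |d| := by
  have := convex_univ.norm_image_sub_le_of_norm_hasDerivWithin_le (C := 1)
    (fun u _ => (Tap.hasDerivAt_tanh' u).hasDerivWithinAt) (fun u _ => by
      have := abs_le.1 (abs_tanh_lt_one u).le
      rw [Real.norm_eq_abs, abs_le]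
      constructor <;> nlinarith) (Set.mem_univ a) (Set.mem_univ (a + d))
  simpa using this

lemma amgm {θ : ℝ} (hθ : 0 < θ) (c E : ℝ) : |c * E| ≤ E ^ 2 / θ + θ * (c ^ 2 / 4) := by
  have h : 0 ≤ (|E| - θ * |c| / 2) ^ 2 / θ := by positivity
  have e : (|E| - θ * |c| / 2) ^ 2 / θ = |E| ^ 2 / θ + θ * (|c| ^ 2 / 4) - |c| * |E| := by
    field_simp; ring
  rw [e, sq_abs, sq_abs] at h
  rw [abs_mul]; linarith

/-- the pointwise bound -/
lemma point {θ e : ℝ} (hθ : 0 < θ) (S : Finset (Fin n)) (c h δ O E : V n) (hc : ∀ j, |c j| ≤ 1)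
    (hS : ∀ j ∉ S, c j = tanh (h j + δ j)) (hO : ∀ j, |O j| ≤ e) (e0 : 0 ≤ e) :
    |∑ j, (c j - tanh (h j)) * (O j + E j) - ∑ j ∈ Sᶜ, δ j * (DD (th h) j * O j)| ≤
      (2 * e + θ) * (∑ j ∈ Sᶜ, δ j ^ 2 + #S) + (∑ j, E j ^ 2) / θ := by
  rw [← sum_add_sum_compl S, ← sum_add_sum_compl S (fun j => E j ^ 2), add_sub_assoc,
    ← sum_sub_distrib]
  have h1 : |∑ j ∈ S, (c j - tanh (h j)) * (O j + E j)| ≤ ∑ j ∈ S, (2 * e + θ + E j ^ 2 / θ) := by
    refine (abs_sum_le_sum_abs _ _).trans (sum_le_sum fun j _ => ?_)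
    have a : |c j - tanh (h j)| ≤ 2 := (abs_sub _ _).trans (by
      linarith [hc j, abs_tanh_lt_one (h j)])
    have b := amgm hθ (c j - tanh (h j)) (E j)
    have a2 : (c j - tanh (h j)) ^ 2 / 4 ≤ 1 := by
      have := pow_le_pow_left₀ (abs_nonneg _) a 2
      rw [sq_abs] at this; linarith
    rw [mul_add]
    refine (abs_add_le _ _).trans ?_
    rw [abs_mul]
    linarith [mul_le_mul a (hO j) (abs_nonneg _) zero_le_two, mul_le_mul_of_nonneg_left a2 hθ.le]
  have h2 : |∑ j ∈ Sᶜ, ((c j - tanh (h j)) * (O j + E j) - δ j * (DD (th h) j * O j))| ≤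
      ∑ j ∈ Sᶜ, ((2 * e + θ) * δ j ^ 2 + E j ^ 2 / θ) := by
    refine (abs_sum_le_sum_abs _ _).trans (sum_le_sum fun j hj => ?_)
    rw [hS j (mem_compl.1 hj)]
    have b := amgm hθ (tanh (h j + δ j) - tanh (h j)) (E j)
    have a2 := pow_le_pow_left₀ (abs_nonneg _) (tanh_lip (h j) (δ j)) 2
    rw [sq_abs, sq_abs] at a2
    have a3 := mul_le_mul (Fo.tanh_t2 (h j) (δ j)) (hO j) (abs_nonneg _) (sq_nonneg _)
    rw [show (tanh (h j + δ j) - tanh (h j)) * (O j + E j) - δ j * (DD (th h) j * O j) =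
      (tanh (h j + δ j) - tanh (h j) - (1 - tanh (h j) ^ 2) * δ j) * O j +
        (tanh (h j + δ j) - tanh (h j)) * E j by simp only [DD, th]; ring]
    refine (abs_add_le _ _).trans ?_
    rw [abs_mul]
    linarith [mul_le_mul_of_nonneg_left a2 hθ.le, mul_nonneg hθ.le (sq_nonneg (δ j)),
      mul_nonneg e0 (sq_nonneg (δ j))]
  refine (abs_add_le _ _).trans ((add_le_add h1 h2).trans_eq ?_)
  simp only [sum_add_distrib, ← mul_sum, ← sum_div, sum_const, nsmul_eq_mul]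
  ring

lemma wt_slc (J : Mx n) (y : V n) (S : Finset (Fin n)) (σ : Cube n) (G : Cube n → ℝ) :
    Wt (slc J y S σ G) := by
  have h : ∀ x, 0 ≤ slc J y S σ G x := fun x => by
    unfold slc ising; split_ifs <;> positivity
  refine ⟨h, sum_pos' (fun x _ => h x) ⟨σ, mem_univ _, ?_⟩⟩
  rw [slc, if_pos fun _ _ => rfl, ising]; positivity

lemma cm_slc {J : Mx n} (hJ : Jᵀ = J) (h0 : ∀ j, J j j = 0) (y : V n) {S : Finset (Fin n)}
    {σ : Cube n} {G : Cube n → ℝ} {x : Cube n} (hx : slc J y S σ G x ≠ 0) {j : Fin n} (hj : j ∉ S) :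
    Ta.cm (slc J y S σ G) j x = tanh ((J *ᵥ sv x + y) j + grad G x j) := by
  have h1 : ∀ k ∈ S, x k = σ k := by by_contra hc; exact hx (if_neg hc)
  have h2 : ∀ b, slc J y S σ G (Function.update x j b) =
      Ta.wt (ising J y) G (Function.update x j b) := fun b =>
    if_pos fun k hk => by rw [Function.update_of_ne (ne_of_mem_of_not_mem hk hj), h1 k hk]
  rw [← Fo.cm_wt (w := ising J y) (.of_pos fun _ => exp_pos _) (exp_pos _).ne'
    (Fo.cm_ising hJ h0 y j x) G]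
  simp only [Ta.cm, siteM, h2]

/-- the mass of the error under the mixed law -/
lemma mass (hR : RevStmt) {J Q : Mx n} (h : JQ J Q) {y : V n} {K0 ε e : ℝ} {X p : Cube n → ℝ}
    (hA : S3.Hd.AD (ising J y) K0 ε) (hX : SB (e ^ 2) X) (hv : Wt p) :
    (mean p fun s => ∑ z, TT Q y s z * X z) ≤
      (2 + 16 * K0) * (mean (ising J y) X + e ^ 2 * (kl p (ising J y) + 1)) := by
  have hw : ∀ s, 0 < ising J y s := fun _ => exp_pos _
  have K1 := hA.pos
  have k0 : 0 ≤ kl p (ising J y) :=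
    Ta.Pr.kl_nonneg ⟨hv, .of_pos hw, fun x e => absurd e (hw x).ne'⟩
  have m0 : 0 ≤ mean (ising J y) X := (Wt.of_pos hw).mean_nonneg fun s => (hX s).1
  have hP := Wt.isP (.of_pos hw)
  have i1 : Ent.mix (prob (ising J y)) (TT Q y) = prob (ising J y) := by
    ext z
    simpa [mean, Ent.mix] using inv_TT hR h y (fun x => if x = z then 1 else 0)
  have a := S3.Hd.sb hw hA (sq_nonneg e) (fun s => (hX s).1) (fun s => (hX s).2)
    (Ent.isP_mix hv.isP (isP_TT Q y))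
  have b := Ent.kl_mix_le hv.isP.nn hP.nn (fun x e => absurd e
    (div_pos (hw x) (Wt.of_pos hw).pos).ne') (isP_TT Q y)
  rw [i1] at b
  rw [Ent.mean_mix] at a
  change _ ≤ kl p (ising J y) at b
  change mean p (fun s => ∑ z, TT Q y s z * X z) ≤ 2 * mean (ising J y) X + _ at a
  have c := mul_le_mul_of_nonneg_left b (show 0 ≤ 16 * K0 * e ^ 2 by positivity)
  have c2 : 0 ≤ e ^ 2 * (kl p (ising J y) + 1) := by positivity
  linarith [mul_nonneg K1.le m0]

lemma abs_le_Pm {φ : Cube n → V n} {A B C : Cube n → V n → ℝ} {p : Cube n → ℝ} (hv : Wt p)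
    (mA : ∀ s, MG (A s)) (mB : ∀ s, MG (B s)) (mC : ∀ s, MG (C s))
    (h : ∀ s, p s ≠ 0 → ∀ ζ, |A s ζ - B s ζ| ≤ C s ζ) :
    |mean p (Pm φ 1 A) - mean p (Pm φ 1 B)| ≤ mean p (Pm φ 1 C) := by
  rw [← mean_sub]
  simp only [← Rec.Pm_sub mA mB]
  refine abs_le.2 ⟨?_, Ta.mean_mono_supp hv fun s hs => Rec.Pm_mono (fun s => (mA s).sub (mB s)) mC
    fun ζ => (abs_le.1 (h s hs ζ)).2⟩
  rw [← mean_neg]
  refine Ta.mean_mono_supp hv fun s hs => ?_
  rw [Pm, ← integral_neg]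
  exact Rec.Pm_mono (φ := φ) (t := 1) (fun s => (mC s).neg) (fun s => (mA s).sub (mB s))
    fun ζ => (abs_le.1 (h s hs ζ)).1

lemma point2 {J Q : Mx n} (h : JQ J Q) {y : V n} {F X G : Cube n → ℝ} {ω : Cube n → V n} {e L θ : ℝ}
    (hB : BS0 F ω X e L) {S : Finset (Fin n)} {σ s : Cube n} (hθ : 0 < θ) (hs : slc J y S σ G s ≠ 0)
    (ζ : V n) : |∑ j, (Ta.cm (post (fun x => Q *ᵥ sv x) (slc J y S σ G) 1 ζ) j s -
        tanh ((y + Q *ᵥ ζ) j)) * Vv F (th (y + Q *ᵥ ζ)) s j - ∑ j ∈ Sᶜ, grad G s j *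
        (DD (pt Q y ζ) j * vO ω (pt Q y ζ) s j)| ≤
        (2 * e + θ) * (∑ j ∈ Sᶜ, grad G s j ^ 2 + #S) + 1 / θ * ∑ z, kk (pt Q y ζ) s z * X z := by
  have hv := wt_slc J y S σ G
  have e0 : 0 ≤ e := (opn_nonneg _).trans (hB.r0.op default)
  have hQ : (1 : ℝ) • (Qᵀ * Q) = J + (4 : ℝ) • (1 : Mx n) := by rw [one_smul, h.qs, h.qq]
  have P := isP_kk (cb_th (y + Q *ᵥ ζ)) s
  have := point hθ S (fun j => Ta.cm (post (fun x => Q *ᵥ sv x) (slc J y S σ G) 1 ζ) j s) (y + Q *ᵥ ζ)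
    (grad G s) (vO ω (pt Q y ζ) s) (fun j => ∑ z, kk (pt Q y ζ) s z * (grad F z - ω z) j)
    (fun j => Ta.abs_cm_le (hv.post _ _ _).nn j s) (fun j hj => by
      have := Fo.cm_post h.symm h.diag hQ hv hs (cm_slc h.symm h.diag y hs hj) ζ
      rwa [h.qs] at this)
    (fun j => by rw [vO_eq]; exact P.abs_mean_le fun z => hB.r0.sup z j) e0
  have e3 : ∀ j, vO ω (pt Q y ζ) s j +
      ∑ z, kk (pt Q y ζ) s z * (grad F z - ω z) j = Vv F (th (y + Q *ᵥ ζ)) s j := fun j => by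
    rw [vO_eq, Vv_eq, ← sum_add_distrib]
    exact sum_congr rfl fun z _ => by simp only [Pi.sub_apply, pt]; ring
  simp only [e3] at this
  refine this.trans (add_le_add le_rfl ?_)
  rw [one_div_mul_eq_div]
  exact div_le_div_of_nonneg_right ((jen P _).trans (sum_le_sum fun z _ =>
    mul_le_mul_of_nonneg_left (hB.app z) (P.nn z))) hθ.le

lemma meas_h (Q : Mx n) (y : V n) : Measurable fun ζ : V n => y + Q *ᵥ ζ :=
  (continuous_const.add (continuous_const.matrix_mulVec continuous_id)).measurable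

lemma e_Ky (Q : Mx n) (y : V n) (p F : Cube n → ℝ) : mean p (F - Ky Q y F) = mean p F -
    slE (fun x => Q *ᵥ sv x) p 1 fun _ z => Fo.Ext F (th (y + Q *ᵥ z)) := by
  rw [Rec.slE_eq_Pm, ← mean_sub, Ky, cav_eq]
  simp only [pw, Fo.mean_ising0]; rfl

lemma mg_A (Q : Mx n) (y : V n) {p : Cube n → ℝ} (hv : Wt p) (F : Cube n → ℝ) (s : Cube n) :
    MG fun ζ => ∑ j, (Ta.cm (post (fun x => Q *ᵥ sv x) p 1 ζ) j s -
      tanh ((y + Q *ᵥ ζ) j)) * Vv F (th (y + Q *ᵥ ζ)) s j := by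
  refine .sum _ fun j _ => MG.mul (MG.sub ?_ ?_) (Fo.mg_Vv (meas_h Q y) F s j)
  · exact (Ta.xg_cm hv (fun x => (Ta.lg_lk (fun x => Q *ᵥ sv x) 1 x).meas) j s).mg
  · exact .of_bdd (Tap.continuous_tanh'.measurable.comp ((measurable_pi_apply j).comp (meas_h Q y))) 1
      fun z => cb_th (y + Q *ᵥ z) j

lemma e_gt (Q : Mx n) (y : V n) (Ω : U2 n) (a : Cube n → V n) (S : Finset (Fin n)) :
    (fun s => ∑ j ∈ S, a s j * gt Q Ω s y j) = Pm (fun x => Q *ᵥ sv x) 1 fun s ζ =>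
      ∑ j ∈ S, a s j * (DD (pt Q y ζ) j * vO (fun t => Ω t y) (pt Q y ζ) s j) := by
  ext s
  rw [Rec.Pm_sum _ fun j _ s => (mg_u Q y _ s j).const_mul _]
  refine sum_congr rfl fun j _ => ?_
  rw [Rec.Pm_mul (fun s => a s j), gt, cav_eq]

lemma e_C (Q : Mx n) (y : V n) {p : Cube n → ℝ} (hv : Wt p) (X D : Cube n → ℝ) (a b c : ℝ) :
    mean p (Pm (fun x => Q *ᵥ sv x) 1 fun s ζ => a * (D s + c) + b * ∑ z, kk (pt Q y ζ) s z * X z) =
      a * (mean p D + c) + b * mean p fun s => ∑ z, TT Q y s z * X z := by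
  rw [← Rec.slE_eq_Pm, slE_add (.of_mg fun _ => .const _)
    (.of_mg fun s => (mg_W Q y X s).const_mul _), slE_fun, slE_const_mul, mean_const_mul, mean_add,
    hv.mean_const, Rec.slE_eq_Pm, ← cav_eq]
  congr 3; ext s; exact cav_W Q y X s

lemma key {J Q : Mx n} (h : JQ J Q) {y : V n} {F X G : Cube n → ℝ} {Ω : U2 n} {e L θ : ℝ}
    (hB : BS0 F (fun s => Ω s y) X e L) (S : Finset (Fin n)) (σ : Cube n) (hθ : 0 < θ) :
    |mean (slc J y S σ G) (F - Ky Q y F) -
      mean (slc J y S σ G) fun s => ∑ j ∈ Sᶜ, grad G s j * gt Q Ω s y j| ≤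
      (2 * e + θ) * ((mean (slc J y S σ G) fun s => ∑ j ∈ Sᶜ, grad G s j ^ 2) + #S) +
        1 / θ * mean (slc J y S σ G) fun s => ∑ z, TT Q y s z * X z := by
  have hv := wt_slc J y S σ G
  rw [e_Ky, Fo.fo_chan_exact (φ := fun x => Q *ᵥ sv x) hv zero_le_one (meas_h Q y) F, e_gt,
    Rec.slE_eq_Pm, ← e_C Q y hv]
  exact abs_le_Pm hv (mg_A Q y hv F) (fun s => .sum _ fun j _ => (mg_u Q y _ s j).const_mul _)
    (fun s => (MG.const _).add ((mg_W Q y X s).const_mul _)) fun s hs => point2 h hB hθ hs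

end Fo38

open Fo38

/-- **(FO)** -/
theorem foGlue : FoGlue := fun _ hR K0 => by
  refine ⟨4 + 32 * |K0|, by linarith [abs_nonneg K0], fun n J Q y F X G Ω e L ε S σ p d x h hA hB hp
    hd hx => ?_⟩
  have hv : Wt p := hp ▸ wt_slc J y S σ G
  have hw : ∀ s, 0 < ising J y s := fun _ => exp_pos _
  have e0 : 0 ≤ e := (opn_nonneg _).trans (hB.r0.op default)
  have K1 := hA.pos
  have hYx := mass hR h hA hB.sb hv
  have k := fun θ hθ => key h (G := G) hB S σ (θ := θ) hθ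
  rw [← hx] at hYx
  rw [← hp, ← hd] at k
  have X0 : ∀ s, 0 ≤ X s := fun s => (hB.sb s).1
  have Y0 : 0 ≤ mean p fun s => ∑ z, TT Q y s z * X z := hv.mean_nonneg fun s =>
    sum_nonneg fun z _ => mul_nonneg ((isP_TT Q y s).nn z) (X0 z)
  have d0 : 0 ≤ d := hd ▸ add_nonneg (hv.mean_nonneg fun s => sum_nonneg fun _ _ => sq_nonneg _)
    (Nat.cast_nonneg _)
  have x0 : 0 ≤ x := nonneg_of_mul_nonneg_right (Y0.trans hYx) (by positivity)
  generalize (mean p fun s => ∑ z, TT Q y s z * X z) = Y at *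
  generalize |mean p (F - Ky Q y F) - mean p fun s => ∑ j ∈ Sᶜ, grad G s j * gt Q Ω s y j| = T at *
  have fin := S3.Hb.le_two_sqrt (X := T - 2 * e * d) Y0 d0 fun θ hθ => by
    have := k θ hθ
    rw [one_div_mul_eq_div] at this
    linarith
  have s1 : √(d * Y) ≤ (2 + 16 * K0) * (√d * √x) := by
    rw [← sqrt_mul d0]
    refine sqrt_le_iff.2 ⟨by positivity, ?_⟩
    rw [mul_pow, sq_sqrt (mul_nonneg d0 x0)]
    have := mul_le_mul_of_nonneg_left hYx d0
    have h2 : 0 ≤ (2 + 16 * K0) * (1 + 16 * K0) * (d * x) := by positivity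
    linarith
  rw [abs_of_pos K1]
  linarith [mul_nonneg e0 d0, mul_nonneg K1.le (mul_nonneg e0 d0)]

end Crest.Agent.T157.K

end
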