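import Crest.Agent.T157.KDef_36
import Crest.Agent.T157.KGr_47

/-!
# Row 157, part B, block S5 (helper85): exact gradient and Cauchy–Schwarz for Gaussian channels
-/

set_option autoImplicit false
set_option linter.unusedSectionVars false

noncomputable section

namespace Crest.Agent.T157.K

open MeasureTheory ProbabilityTheory Real Matrix Finset
open Crest.Agent.T157.E Crest.Agent.T157.Eig Crest.Agent.T157.SL
open Crest.Agent.T157.Rec (grad)

namespace Gc85

variable {n : ℕ} {κ : Type} [Fintype κ] [DecidableEq κ]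

theorem map_dot (a : κ → ℝ) :
    (gv κ).map (fun x => a ⬝ᵥ x) = gaussianReal 0 (a ⬝ᵥ a).toNNReal := by
  have : IsProbabilityMeasure ((gv κ).map fun x => a ⬝ᵥ x) :=
    Measure.isProbabilityMeasure_map (by fun_prop)
  refine Measure.ext_of_charFun (funext fun t => ?_)
  have h := Cond.CF_gv (t • a)
  rw [charFun_gaussianReal, charFun_apply_real, integral_map (by fun_prop) (by fun_prop)]
  simp only [Cond.CF, smul_dotProduct, dotProduct_smul, smul_eq_mul] at h
  rw [Real.coe_toNNReal _ (Eig.dot_self_nonneg a)]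
  push_cast at h ⊢
  rw [h]
  congr 1; ring

/-- the law of a linear form -/
theorem int_dot (a : κ → ℝ) {f : ℝ → ℝ} (hf : Measurable f) :
    ∫ z, f (a ⬝ᵥ z) ∂gv κ = ∫ t, f (√(a ⬝ᵥ a) * t) ∂gaussianReal 0 1 := by
  rw [← integral_map (φ := fun z => a ⬝ᵥ z) (by fun_prop) hf.aestronglyMeasurable, map_dot,
    ← integral_map (φ := fun t => √(a ⬝ᵥ a) * t) (by fun_prop) hf.aestronglyMeasurable,
    gaussianReal_map_const_mul]
  congr 2
  · simp
  · ext; simp [sq_sqrt (Eig.dot_self_nonneg a), Eig.dot_self_nonneg a]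

theorem mg_dot (a : κ → ℝ) : MG fun z : κ → ℝ => a ⬝ᵥ z :=
  MG.sum _ fun i _ => (Rec.mg_coord i).const_mul _

theorem mg_nrm : MG (nrm : (κ → ℝ) → ℝ) :=
  ((MG.const 1).add (MG.sum univ fun i _ => (Rec.mg_coord i).mul (Rec.mg_coord i))).of_le
    continuous_nrm.measurable fun z => by
      refine le_trans ?_ (le_abs_self _)
      rw [abs_of_nonneg (nrm_nonneg z)]
      change _ ≤ 1 + z ⬝ᵥ z
      nlinarith [nrm_sq z, sq_nonneg (nrm z - 1)]

/-- a weight of exponential growth of a linear form -/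
theorem mg_w {w : ℝ → ℝ} {a b : ℝ} (hw : Measurable w) (h : ∀ t, |w t| ≤ a * exp (b * |t|))
    (v : κ → ℝ) : MG fun z => w (v ⬝ᵥ z) := by
  refine ⟨hw.comp (by fun_prop), |a|, |b| * ∑ i, |v i|, by positivity, by positivity,
    fun z => (h _).trans ?_⟩
  have : |v ⬝ᵥ z| ≤ (∑ i, |v i|) * ‖z‖ := by
    rw [sum_mul]
    exact (abs_sum_le_sum_abs _ _).trans (sum_le_sum fun i _ => by
      rw [abs_mul]; exact mul_le_mul_of_nonneg_left (norm_le_pi_norm z i) (abs_nonneg _))
  rw [mul_assoc]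
  gcongr <;> exact le_abs_self _

/-- fields of linear growth -/
theorem mg_lin {u : (κ → ℝ) → Fin n → ℝ} {B : ℝ} (hc : Continuous u)
    (h : ∀ ζ, nrm (u ζ) ≤ B * (1 + nrm ζ)) (c : κ → ℝ) (j : Fin n) : MG fun z => u (c + z) j := by
  simpa using ((((MG.const 1).add mg_nrm).const_mul B).of_le (F' := fun ζ => u ζ j)
    (by fun_prop) fun ζ => (abs_apply_le_nrm _ j).trans ((h ζ).trans (le_abs_self _))).affine c 1

theorem cs {f g : (κ → ℝ) → ℝ} (hf : MG f) (hg : MG g) :
    (∫ z, f z * g z ∂gv κ) ^ 2 ≤ (∫ z, f z ^ 2 ∂gv κ) * ∫ z, g z ^ 2 ∂gv κ := by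
  have := discrim_le_zero (a := ∫ z, f z * f z ∂gv κ) (b := 2 * ∫ z, f z * g z ∂gv κ)
    (c := ∫ z, g z * g z ∂gv κ) fun t => by
      have i1 := (hf.mul hf).int.mul_const (t * t)
      have i2 := ((hf.mul hg).int.const_mul 2).mul_const t
      rw [← integral_mul_const, ← integral_const_mul, ← integral_mul_const, ← integral_add i1 i2,
        ← integral_add (i1.fun_add i2) (hg.mul hg).int]
      exact integral_nonneg fun z => (sq_nonneg (f z * t + g z)).trans_eq (by ring)
  simp only [sq]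
  rw [discrim] at this
  linarith

variable {F : Cube n → (κ → ℝ) → ℝ} {g : Cube n → (κ → ℝ) → κ → ℝ} {L : ℝ}

theorem der_line (h : Der F g) (s : Cube n) (u v : κ → ℝ) (r : ℝ) :
    HasDerivAt (fun r : ℝ => F s (u + r • v)) (g s (u + r • v) ⬝ᵥ v) r := by
  rw [← (h s).2.2, ← one_smul ℝ v]
  simp only [smul_smul, mul_one]
  exact ((h s).1 _).hasFDerivAt.comp_hasDerivAt r (((hasDerivAt_id r).smul_const v).const_add u)

theorem der_lip (h : Der F g) (hL : ∀ s ζ, nrm (g s ζ) ≤ L) (s : Cube n) (v u : κ → ℝ) :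
    LipschitzWith (L * nrm v).toNNReal fun r : ℝ => F s (u + r • v) :=
  lipschitzWith_of_nnnorm_deriv_le (fun r => (der_line h s u v r).differentiableAt) fun r => by
    rw [(der_line h s u v r).deriv, ← NNReal.coe_le_coe, coe_nnnorm, Real.norm_eq_abs]
    exact (abs_dot_le _ _).trans
      ((mul_le_mul_of_nonneg_right (hL _ _) (nrm_nonneg _)).trans (Real.le_coe_toNNReal _))

theorem der_sub (h : Der F g) (hL : ∀ s ζ, nrm (g s ζ) ≤ L) (s : Cube n) (ζ ζ' : κ → ℝ) :
    |F s ζ - F s ζ'| ≤ L * nrm (ζ - ζ') := by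
  have := (der_lip h hL s (ζ - ζ') ζ').dist_le_mul 1 0
  rw [Real.coe_toNNReal _ (mul_nonneg ((nrm_nonneg _).trans (hL s 0)) (nrm_nonneg _))] at this
  simpa [Real.dist_eq] using this

theorem der_mg (h : Der F g) (hL : ∀ s ζ, nrm (g s ζ) ≤ L) (s : Cube n) : MG (F s) :=
  ((MG.const |F s 0|).add (mg_nrm.const_mul L)).of_le (h s).1.continuous.measurable fun ζ => by
    have := der_sub h hL s ζ 0
    rw [sub_zero] at this
    linarith [abs_sub_abs_le_abs_sub (F s ζ) (F s 0), le_abs_self (|F s 0| + L * nrm ζ)]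

theorem rho_eq (k u : ℝ) : rho k u = Kv.rho k u := by
  rw [rho, Kv.rho]; congr 1; ext t; congr 1; ring

end Gc85

open Gc85

theorem gradStmt : GradStmt := fun n κ _ _ P F g L k hD hL hk s => by
  ext j
  rw [cav_eq, Kv.grad_Pm_full zero_le_one (der_mg hD hL) s (hD s).1.continuous j (der_lip hD hL s _),
    integral_add (Kv.flip_lin zero_le_one (hD s).1.continuous j (der_lip hD hL s _) s).1
      (Kv.int_wE zero_le_one (Kc.mg_grad (der_mg hD hL) s j) s j), add_comm]
  simp only [cwv, Kv.wN, Kv.wE, one_smul, sqrt_one, one_mul, hk, Pi.add_apply, Lw, rho_eq,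
    ((hD s).1 _).lineDeriv_eq_fderiv, (hD s).2.2, Kv.col_dot]

theorem csStmt : CsStmt := fun n κ _ _ P R w u k a b A B hw hb hk hA hc hu s => by
  have e : ∀ j z, sv s j * (Rᵀ *ᵥ z) j = (sv s j • Rᵀ j) ⬝ᵥ z := fun j z => by
    rw [smul_dotProduct]; rfl
  have m := fun j => mg_lin (hc s) (hu s) (P *ᵥ sv s) j
  have e2 : ∀ v : Fin n → ℝ, nrm v ^ 2 = ∑ j, v j ^ 2 := fun v => by
    rw [nrm_sq]; simp only [dotProduct, sq]
  simp only [cav, e2, cwv, e]
  rw [integral_finsetSum _ fun j _ => by simpa only [sq] using ((m j).mul (m j)).int, mul_sum]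
  refine sum_le_sum fun j _ => (cs (mg_w hw.measurable hb _) (m j)).trans
    (mul_le_mul_of_nonneg_right ?_ (integral_nonneg fun _ => sq_nonneg _))
  rw [int_dot _ (f := fun t => w t ^ 2) (by fun_prop), smul_dotProduct, dotProduct_smul, smul_smul,
    Rec.sv_mul_self, one_smul, show Rᵀ j ⬝ᵥ Rᵀ j = k from hk j]
  exact hA

end Crest.Agent.T157.K

end
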