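import Crest.Agent.T157.KDef_36

/-!
# Row 157, part B, block S5: the clipped mass under the planted law (helper48)
-/

set_option autoImplicit false
set_option linter.unusedVariables false

noncomputable section

namespace Crest.Agent.T157.K

open MeasureTheory ProbabilityTheory Real Matrix Finset
open Crest.Agent.T157.E Crest.Agent.T157.Eig
open Crest.Agent.T157.Tap (V Mx th DD)
open Crest.Agent.T157.Reg (jac neg)
open Crest.Agent.T157.SL (Wt)

namespace Tl48

variable {n : ℕ}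

/-- Fubini over a sum of index types -/
theorem fub {ι κ : Type} [Fintype ι] [Fintype κ] {F : (ι ⊕ κ → ℝ) → ℝ} (hc : Continuous F) {B : ℝ}
    (hB : ∀ z, |F z| ≤ B) :
    ∫ z, F z ∂gv (ι ⊕ κ) = ∫ g, ∫ z, F (Sum.elim z g) ∂gv ι ∂gv κ := by
  have h := measurePreserving_sumPiEquivProdPi_symm (X := fun _ : ι ⊕ κ => ℝ)
    fun _ => gaussianReal 0 1
  rw [← h.integral_comp' F, integral_prod_symm]
  · rfl
  · exact (integrable_const B).mono'
      (hc.measurable.comp h.measurable).aestronglyMeasurable (.of_forall fun z => hB _)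

theorem nrm_mono {ι : Type} [Fintype ι] [DecidableEq ι] {u v : ι → ℝ} {c : ℝ} (hc : 0 ≤ c)
    (h : ∀ i, |u i| ≤ c * |v i|) : nrm u ≤ c * nrm v := by
  refine (nrm_le_iff (mul_nonneg hc (nrm_nonneg v))).2 ?_
  rw [mul_pow, nrm_sq, dotProduct, dotProduct, Finset.mul_sum]
  refine Finset.sum_le_sum fun i _ => ?_
  have := pow_le_pow_left₀ (abs_nonneg _) (h i) 2
  rw [mul_pow, sq_abs, sq_abs] at this
  simpa only [sq] using this

theorem nrm_inl {ι κ : Type} [Fintype ι] [Fintype κ] [DecidableEq ι] [DecidableEq κ]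
    (z : ι ⊕ κ → ℝ) :
    nrm (fun i => z (.inl i)) ≤ nrm z ∧ nrm (fun i => z (.inr i)) ≤ nrm z := by
  have e : z ⬝ᵥ z = (fun i => z (.inl i)) ⬝ᵥ (fun i => z (.inl i)) +
      (fun i => z (.inr i)) ⬝ᵥ fun i => z (.inr i) := Fintype.sum_sum_type _
  exact ⟨sqrt_le_sqrt (by linarith [dot_self_nonneg fun i => z (.inr i)]),
    sqrt_le_sqrt (by linarith [dot_self_nonneg fun i => z (.inl i)])⟩

theorem nrm_elim {ι κ : Type} [Fintype ι] [Fintype κ] [DecidableEq ι] [DecidableEq κ]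
    (u : ι → ℝ) (v : κ → ℝ) :
    nrm (Sum.elim u v) ≤ nrm u + nrm v := by
  refine (nrm_le_iff (add_nonneg (nrm_nonneg u) (nrm_nonneg v))).2 ?_
  rw [sumElim_dotProduct_sumElim, ← nrm_sq, ← nrm_sq]
  nlinarith [mul_nonneg (nrm_nonneg u) (nrm_nonneg v)]

theorem nrm_meanV {w : Cube n → ℝ} (hw : Wt w) {u : Cube n → V n} {c : ℝ} (h : ∀ x, nrm (u x) ≤ c) :
    nrm (meanV w u) ≤ c := by
  have c0 : 0 ≤ c := (nrm_nonneg _).trans (h fun _ => true)
  have e : meanV w u ⬝ᵥ meanV w u = mean w fun x => meanV w u ⬝ᵥ u x := by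
    simp only [dotProduct, SL.mean_sum, SL.mean_const_mul]; rfl
  have h1 : meanV w u ⬝ᵥ meanV w u ≤ nrm (meanV w u) * c := by
    rw [e]
    exact hw.mean_le fun x => (dot_le _ _).trans (mul_le_mul_of_nonneg_left (h x) (nrm_nonneg _))
  rw [← nrm_mul_self] at h1
  by_contra hn
  nlinarith [not_le.1 hn]

theorem wt_is (A : Mx n) (h : V n) : Wt (ising A h) := .of_pos fun _ => exp_pos _

theorem abs_DD (h : V n) (i : Fin n) : |DD (th h) i| ≤ 1 := by
  have := abs_tanh_lt_one (h i)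
  have h1 : tanh (h i) ^ 2 ≤ 1 := by rw [← sq_abs]; nlinarith [abs_nonneg (tanh (h i))]
  rw [abs_le]; constructor <;> simp only [DD, th] <;> nlinarith [sq_nonneg (tanh (h i))]

theorem th_lip (a b : ℝ) : |tanh a - tanh b| ≤ |a - b| := by
  have hd : ∀ x : ℝ, HasDerivAt tanh (1 / cosh x ^ 2) x := fun x => by
    have c := cosh_pos x
    have := (hasDerivAt_sinh x).div (hasDerivAt_cosh x) c.ne'
    rw [← sq, ← sq, cosh_sq_sub_sinh_sq] at this
    rwa [show tanh = sinh / cosh from funext fun y => tanh_eq_sinh_div_cosh y]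
  have := convex_univ.norm_image_sub_le_of_norm_hasDerivWithin_le (C := 1)
    (fun x _ => (hd x).hasDerivWithinAt) (fun x _ => by
      rw [Real.norm_eq_abs, abs_of_nonneg (by positivity), div_le_one (by have := cosh_pos x; positivity)]
      exact one_le_pow₀ (one_le_cosh x)) (Set.mem_univ b) (Set.mem_univ a)
  simpa using this

theorem DD_lip (h h' : V n) (i : Fin n) : |DD (th h) i - DD (th h') i| ≤ 2 * |(h - h') i| := by
  have e : DD (th h) i - DD (th h') i =
      -((tanh (h i) + tanh (h' i)) * (tanh (h i) - tanh (h' i))) := by simp only [DD, th]; ring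
  rw [e, abs_neg, abs_mul]
  refine mul_le_mul ?_ (th_lip _ _) (abs_nonneg _) zero_le_two
  linarith [abs_add_le (tanh (h i)) (tanh (h' i)), abs_tanh_lt_one (h i), abs_tanh_lt_one (h' i)]

/-- the pulled-back field as a function of the total field and of `y` -/
def fb (ω : U2 n) (h y : V n) : V n := DD (th h) * meanV (ising 0 h) fun t => ω t y

theorem abs_mV {ω : U2 n} {e : ℝ} (hω : RF e ω) (h y : V n) (i : Fin n) :
    |meanV (ising 0 h) (fun t => ω t y) i| ≤ e := by
  have := fun t => abs_le.1 ((hω.r0 y).sup t i)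
  exact abs_le.2 ⟨(wt_is 0 h).le_mean fun t => (this t).1, (wt_is 0 h).mean_le fun t => (this t).2⟩

theorem fb_lip (pr : PrStmt) {ω : U2 n} {e : ℝ} (e0 : 0 ≤ e) (hω : RF e ω) (h y h' y' : V n) :
    nrm (fb ω h y - fb ω h' y') ≤ 3 * e * nrm (h - h') + e * nrm (y - y') := by
  set m := meanV (ising 0 h) fun t => ω t y
  set m1 := meanV (ising 0 h') fun t => ω t y
  set m2 := meanV (ising 0 h') fun t => ω t y'
  have e1 : fb ω h y - fb ω h' y' =
      (DD (th h) - DD (th h')) * m + DD (th h') * (m - m1) + DD (th h') * (m1 - m2) := by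
    simp only [fb]; ring
  have h1 : nrm ((DD (th h) - DD (th h')) * m) ≤ 2 * e * nrm (h - h') :=
    nrm_mono (by positivity) fun i => by
      rw [Pi.mul_apply, abs_mul, Pi.sub_apply]
      have := mul_le_mul (DD_lip h h' i) (abs_mV hω h y i) (abs_nonneg _) (by positivity)
      linarith
  have hD : ∀ v : V n, nrm (DD (th h') * v) ≤ nrm v := fun v => by
    simpa using nrm_mono (u := DD (th h') * v) (v := v) zero_le_one fun i => by
      rw [Pi.mul_apply, abs_mul]
      exact mul_le_mul_of_nonneg_right (abs_DD h' i) (abs_nonneg _)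
  have h2 : nrm (m - m1) ≤ e * nrm (h - h') := pr.lip n _ e (hω.r0 y) h h'
  have h3 : nrm (m1 - m2) ≤ e * nrm (y - y') := by
    have : m1 - m2 = meanV (ising 0 h') fun t => ω t y - ω t y' := by
      ext i; simp only [m1, m2, meanV, Pi.sub_apply, SL.mean_sub]
    rw [this]
    exact nrm_meanV (wt_is 0 h') fun t => hω.lip t y y'
  rw [e1]
  linarith [nrm_add_le ((DD (th h) - DD (th h')) * m + DD (th h') * (m - m1)) (DD (th h') * (m1 - m2)),
    nrm_add_le ((DD (th h) - DD (th h')) * m) (DD (th h') * (m - m1)), hD (m - m1), hD (m1 - m2)]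

theorem fb_odd (pr : PrStmt) {ω : U2 n} (ho : OddJ ω) (h y : V n) : fb ω (-h) (-y) = -fb ω h y := by
  ext i
  simp only [fb, Pi.mul_apply, Pi.neg_apply, meanV, pr.neg, ho _ y, DD, th, tanh_neg, SL.mean_neg]
  ring

theorem fb_bd {ω : U2 n} {e : ℝ} (e0 : 0 ≤ e) (hω : RF e ω) (h y : V n) :
    nrm (fb ω h y) ≤ e * nrm fun _ : Fin n => (1 : ℝ) := nrm_mono e0 fun i => by
  rw [fb, Pi.mul_apply, abs_mul, abs_one, mul_one]
  simpa using mul_le_mul (abs_DD h i) (abs_mV hω h y i) (abs_nonneg _) zero_le_one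

theorem exc_le {η : ℝ} (hη : 0 ≤ η) (v : V n) : |exc η v| ≤ nrm v ^ 2 := by
  rw [abs_of_nonneg (Finset.sum_nonneg fun _ _ => sq_nonneg _), nrm_sq]
  refine Finset.sum_le_sum fun i _ => ?_
  rw [← abs_mul_abs_self, ← sq]
  exact pow_le_pow_left₀ (le_max_right _ _) (max_le (by linarith) (abs_nonneg _)) 2

theorem exc_cont (η : ℝ) : Continuous (exc (n := n) η) := by unfold exc; fun_prop

theorem cont_of_lip {κ : Type} [Fintype κ] {u : (κ → ℝ) → V n} {c : ℝ}
    (h : ∀ ζ ζ', nrm (u ζ - u ζ') ≤ c * nrm (ζ - ζ')) : Continuous u := by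
  refine continuous_pi fun i => Conc.ELip.continuous (L := c) fun x y => ?_
  have h1 : |(u x - u y) i| ≤ nrm (u x - u y) := abs_le_sqrt (by
    rw [sq]
    exact Finset.single_le_sum (f := fun i => (u x - u y) i * (u x - u y) i)
      (fun _ _ => mul_self_nonneg _) (mem_univ i))
  have h2 : Conc.en (x - y) = nrm (x - y) := by simp [Conc.en, nrm, dotProduct, sq]
  rw [h2]; exact h1.trans (h x y)

theorem sv_neg (x : Cube n) : sv (neg x) = -sv x := by
  ext i; simp only [sv, Reg.neg, Pi.neg_apply]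
  cases x i <;> simp [Crest.ProbabilityR.SpinGlassDynamics.spin]

end Tl48

open Tl48 in
theorem tailGlue : TailGlue := by
  intro cc pr rv K0 r r0
  obtain ⟨C, hC, cc⟩ := cc K0 (3 + √r)
  have q0 := sqrt_nonneg r
  set c : ℝ := 7 * (4 * √r + 9) with hc
  have c1 : 1 ≤ c := by rw [hc]; linarith
  refine ⟨C * c ^ 2, one_le_mul_of_one_le_of_one_le hC (one_le_pow₀ c1), ?_⟩
  intro n J Q η e ω jq hat e0 η0 hω ho
  obtain ⟨q1, q2, -⟩ := rv.opQ n J Q jq
  set P : Matrix (Fin n ⊕ Fin n) (Fin n) ℝ := fromRows Q (√r • (1 : Mx n)) with hP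
  have Pv : ∀ v : V n, P *ᵥ v = Sum.elim (Q *ᵥ v) (√r • v) := fun v => by
    rw [hP, fromRows_mulVec, smul_mulVec, one_mulVec]
  set u : (Fin n ⊕ Fin n → ℝ) → V n := fun ζ => (Q * Q) *ᵥ
    fb ω (√r • (fun i => ζ (.inr i)) + Q *ᵥ fun i => ζ (.inl i)) (√r • fun i => ζ (.inr i)) with hu
  have hl : ∀ ζ ζ', nrm (u ζ - u ζ') ≤ c * e * nrm (ζ - ζ') := fun ζ ζ' => by
    obtain ⟨a1, a2⟩ := nrm_inl (ζ - ζ')
    have N0 := nrm_nonneg (ζ - ζ')
    have b1 : nrm ((√r • fun i => ζ (.inr i)) - √r • fun i => ζ' (.inr i)) ≤ √r * nrm (ζ - ζ') := by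
      rw [← smul_sub, nrm_smul, abs_of_nonneg q0]
      exact mul_le_mul_of_nonneg_left a2 q0
    have b2 : nrm ((Q *ᵥ fun i => ζ (.inl i)) - Q *ᵥ fun i => ζ' (.inl i)) ≤ 3 * nrm (ζ - ζ') := by
      rw [← mulVec_sub]
      exact (nrm_mulVec_le _ _).trans (mul_le_mul q1 a1 (nrm_nonneg _) (by norm_num))
    have b3 := nrm_add_le ((√r • fun i => ζ (.inr i)) - √r • fun i => ζ' (.inr i))
      ((Q *ᵥ fun i => ζ (.inl i)) - Q *ᵥ fun i => ζ' (.inl i))
    rw [← add_sub_add_comm] at b3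
    simp only [hu]
    rw [← mulVec_sub]
    refine (nrm_mulVec_le _ _).trans ((mul_le_mul q2 (fb_lip pr e0.le hω _ _ _ _) (nrm_nonneg _)
      (by norm_num)).trans ?_)
    have b4 := mul_le_mul_of_nonneg_left (b3.trans (add_le_add b1 b2)) e0.le
    have b5 := mul_le_mul_of_nonneg_left b1 e0.le
    rw [hc]; linarith
  have key := cc n (Fin n ⊕ Fin n) P (ising J 0) (fun _ => u) (c * e) η
    ⟨fun _ => exp_pos _, fun s => by simp [ising, sv_neg, mulVec_neg], hat⟩
    (opn_le_of_nrm (by linarith) fun v => by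
      rw [Pv]
      refine (nrm_elim _ _).trans ?_
      rw [nrm_smul, abs_of_nonneg q0, add_mul]
      exact add_le_add ((nrm_mulVec_le _ _).trans (mul_le_mul_of_nonneg_right q1 (nrm_nonneg _))) le_rfl)
    (by positivity) η0
    (fun s ζ => by
      simp only [hu]
      rw [← mulVec_neg, ← fb_odd pr ho, neg_add, ← mulVec_neg, ← smul_neg]
      rfl)
    (fun s ζ => by
      rw [show jac (fun _ : Cube n => u ζ) s = 0 from by ext; simp [jac], opn_zero]; positivity)
    fun s => hl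
  have e1 : PM J r (kx Q η ω) = mean (ising J 0) (cav P fun _ ζ => exc η (u ζ)) := by
    refine Finset.sum_congr rfl fun s _ => congrArg _ ?_
    have hb : ∀ z, |exc η (u (P *ᵥ sv s + z))| ≤ (7 * (e * nrm fun _ : Fin n => (1 : ℝ))) ^ 2 :=
      fun z => (exc_le η0 _).trans (pow_le_pow_left₀ (nrm_nonneg _) ((nrm_mulVec_le _ _).trans
        (mul_le_mul q2 (fb_bd e0.le hω _ _) (nrm_nonneg _) (by norm_num))) 2)
    rw [cav, fub (F := fun z => exc η (u (P *ᵥ sv s + z)))
      (((exc_cont η).comp (cont_of_lip hl)).comp (continuous_const.add continuous_id)) hb]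
    refine integral_congr_ae (.of_forall fun g => integral_congr_ae (.of_forall fun z => ?_))
    have e2 : (√r • fun i => (P *ᵥ sv s + Sum.elim z g) (.inr i)) = r • sv s + √r • g := by
      ext i
      simp only [Pv, Pi.smul_apply, Pi.add_apply, Sum.elim_inr, smul_eq_mul, mul_add, ← mul_assoc,
        mul_self_sqrt r0]
    have e3 : (fun i => (P *ᵥ sv s + Sum.elim z g) (.inl i)) = Q *ᵥ sv s + z := by
      ext i; simp only [Pv, Pi.add_apply, Sum.elim_inl]
    simp only [hu, e2, e3]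
    rfl
  rw [e1]
  refine key.trans (le_of_eq ?_)
  have : (η / (c * e)) ^ 2 / C = (η / e) ^ 2 / (C * c ^ 2) := by field_simp
  rw [this]; ring

end Crest.Agent.T157.K

end
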