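import Crest.Agent.T157.KPr_23
import Crest.Agent.T157.KTl_48

/-!
# Row 157, part B, block S5: the response field (helper48)
-/

set_option autoImplicit false
set_option linter.unusedVariables false

noncomputable section

namespace Crest.Agent.T157.K

open MeasureTheory ProbabilityTheory Real Matrix Finset
open Crest.Agent.T157.E Crest.Agent.T157.Eig
open Crest.Agent.T157.Tap (V Mx th DD Cb)
open Crest.Agent.T157.Reg (jac)
open Crest.Agent.T157.SL (Wt MG)
open Crest.Agent.T157.Fo (pm Ext mix)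

namespace Gt48

variable {n : ℕ}

theorem int_bd {κ : Type} [Fintype κ] {f : (κ → ℝ) → ℝ} (hc : Continuous f) {B : ℝ}
    (hB : ∀ z, |f z| ≤ B) : Integrable f (gv κ) :=
  (integrable_const B).mono' hc.aestronglyMeasurable (.of_forall hB)

theorem int_neg {κ : Type} [Fintype κ] (f : (κ → ℝ) → ℝ) :
    ∫ z, f (-z) ∂gv κ = ∫ z, f z ∂gv κ := by
  have h : MeasurePreserving (MeasurableEquiv.neg (κ → ℝ)) (gv κ) (gv κ) :=
    measurePreserving_pi (fun _ : κ => gaussianReal 0 1) (fun _ => gaussianReal 0 1)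
      (f := fun _ x => -x) fun _ =>
        ⟨measurable_neg, by simpa using gaussianReal_map_neg (μ := 0) (v := 1)⟩
  exact h.integral_comp' f

theorem ii (c : ℝ) (F : Cube n → ℝ) (t : V n) (s : Cube n) :
    IntervalIntegrable (fun l => c * Ext F (mix t s l)) volume 0 1 :=
  (continuous_const.mul (Pr23.cont_mix F t s)).intervalIntegrable _ _

theorem nrm_sq_sum (v : V n) : nrm v ^ 2 = ∑ j, v j ^ 2 := by rw [nrm_sq]; simp only [dotProduct, sq]

/-- Jensen for Gaussian averages of fields -/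
theorem nrm_int_sq {κ : Type} [Fintype κ] {u : (κ → ℝ) → V n} (hc : Continuous u) {B : ℝ}
    (hB : ∀ z j, |u z j| ≤ B) :
    nrm (fun j => ∫ z, u z j ∂gv κ) ^ 2 ≤ ∫ z, nrm (u z) ^ 2 ∂gv κ := by
  have c1 : ∀ j, Continuous fun z => u z j := fun j => (continuous_apply j).comp hc
  have i2 : ∀ j, Integrable (fun z => u z j ^ 2) (gv κ) := fun j =>
    int_bd ((c1 j).pow 2) (B := B ^ 2) fun z => by
      rw [abs_pow]; exact pow_le_pow_left₀ (abs_nonneg _) (hB z j) 2
  simp only [nrm_sq_sum]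
  rw [integral_finsetSum _ fun j _ => i2 j]
  refine Finset.sum_le_sum fun j _ => ?_
  have i1 := int_bd (c1 j) (hB · j)
  set m := ∫ z, u z j ∂gv κ with hm
  have h := integral_mono (i1.const_mul (2 * m)) ((i2 j).add (integrable_const (m ^ 2)))
    fun z => by simp only [Pi.add_apply]; nlinarith [sq_nonneg (u z j - m)]
  rw [integral_const_mul, integral_add' (i2 j) (integrable_const _), integral_const] at h
  simp only [probReal_univ, smul_eq_mul, one_mul] at h
  nlinarith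

theorem vO_eq (ω : Cube n → V n) (t : V n) (s : Cube n) (j : Fin n) :
    vO ω t s j = ∫ l in (0 : ℝ)..1, Ext (fun x => ω x j) (mix t s l) := rfl

theorem vO_sq (ω : Cube n → V n) {t : V n} (ht : Cb t) (s : Cube n) :
    nrm (vO ω t s) ^ 2 ≤ ∫ l in (0 : ℝ)..1, Ext (fun x => nrm (ω x) ^ 2) (mix t s l) := by
  have h := Pr23.dot_vO (vO ω t s) ω t s
  set v := vO ω t s
  have h1 : ∫ l in (0 : ℝ)..1, Ext (fun y => v ⬝ᵥ ω y) (mix t s l) ≤
      ∫ l in (0 : ℝ)..1, (nrm v ^ 2 / 2 + 1 / 2 * Ext (fun x => nrm (ω x) ^ 2) (mix t s l)) := by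
    refine intervalIntegral.integral_mono_on zero_le_one
      ((Pr23.cont_mix _ t s).intervalIntegrable _ _)
      ((continuous_const.add (continuous_const.mul (Pr23.cont_mix _ t s))).intervalIntegrable _ _)
      fun l hl => ?_
    have w := Fo.wt_pm (Fo.cb_mix ht s hl)
    rw [← Fo.mean_pm, ← Fo.mean_pm, ← SL.mean_const_mul, ← w.mean_const (nrm v ^ 2 / 2),
      ← SL.mean_add]
    exact w.mean_mono fun x => by nlinarith [dot_le v (ω x), sq_nonneg (nrm v - nrm (ω x))]
  rw [intervalIntegral.integral_add (continuous_const.intervalIntegrable _ _) (ii _ _ t s),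
    intervalIntegral.integral_const_mul, intervalIntegral.integral_const] at h1
  simp only [sub_zero, smul_eq_mul, one_mul] at h1
  rw [← nrm_sq] at h
  linarith

theorem vO_nrm {ω : Cube n → V n} {t : V n} (ht : Cb t) {c : ℝ} (h : ∀ x, nrm (ω x) ≤ c)
    (s : Cube n) : nrm (vO ω t s) ≤ c := by
  have c0 : 0 ≤ c := (nrm_nonneg _).trans (h s)
  refine abs_le_of_sq_le_sq' ((vO_sq ω ht s).trans ((le_abs_self _).trans
    (Pr23.abs_int_le fun l hl => Fo.abs_Ext_le (Fo.cb_mix ht s hl) fun x => ?_))) c0 |>.2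
  rw [abs_pow, abs_of_nonneg (nrm_nonneg _)]
  exact pow_le_pow_left₀ (nrm_nonneg _) (h x) 2

theorem vO_sum {ι : Type} [Fintype ι] (c : ι → ℝ) (U : ι → Cube n → V n) (t : V n) (s : Cube n) :
    vO (fun x => ∑ l, c l • U l x) t s = ∑ l, c l • vO (U l) t s := by
  ext j
  simp only [vO_eq, Finset.sum_apply, Pi.smul_apply, smul_eq_mul,
    ← intervalIntegral.integral_const_mul]
  rw [← intervalIntegral.integral_finsetSum fun l _ => ii (c l) (fun x => U l x j) t s]
  congr 1; ext a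
  simp only [Fo.Ext, Finset.mul_sum]
  rw [Finset.sum_comm]
  simp only [mul_left_comm]

theorem vO_sub (ω ω' : Cube n → V n) (t : V n) (s : Cube n) :
    vO ω t s - vO ω' t s = vO (fun x => ω x - ω' x) t s := by
  ext j
  simp only [vO_eq, Pi.sub_apply]
  rw [← intervalIntegral.integral_sub ((Pr23.cont_mix _ t s).intervalIntegrable _ _)
    ((Pr23.cont_mix _ t s).intervalIntegrable _ _)]
  simp only [Fo.Ext, mul_sub, Finset.sum_sub_distrib]

theorem neg_neg' (x : Cube n) : Reg.neg (Reg.neg x) = x := by ext i; simp [Reg.neg]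

theorem Ext_neg (F : Cube n → ℝ) (m : V n) : Ext F (-m) = Ext (fun x => F (Reg.neg x)) m := by
  rw [Fo.Ext, Fo.Ext, ← Equiv.sum_comp (Function.Involutive.toPerm Reg.neg neg_neg')]
  refine Finset.sum_congr rfl fun x _ => ?_
  show pm (-m) (Reg.neg x) * F (Reg.neg x) = _
  simp only [Fo.pm, Tl48.sv_neg, Pi.neg_apply, neg_mul_neg]

theorem vO_neg {ω ω' : Cube n → V n} (h : ∀ x, ω' (Reg.neg x) = -ω x) (t : V n) (s : Cube n) :
    vO ω' (-t) (Reg.neg s) = -vO ω t s := by
  ext j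
  simp only [vO_eq, Pi.neg_apply, ← intervalIntegral.integral_neg]
  congr 1; ext l
  rw [show mix (-t) (Reg.neg s) l = -mix t s l by simp [Fo.mix, Tl48.sv_neg, add_comm], Ext_neg]
  simp [Fo.Ext, h]

/-- the integrand of the response field -/
def uf (ω : Cube n → V n) (h : V n) (s : Cube n) : V n := DD (th h) * vO ω (th h) s

theorem gt_eq (Q : Mx n) (Ω : U2 n) (s : Cube n) (y : V n) : gt Q Ω s y = fun j =>
    ∫ z, uf (fun t => Ω t y) (y + Q *ᵥ (Q *ᵥ sv s + z)) s j ∂gv (Fin n) := rfl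

theorem uf_cont (pr : PrStmt) {ω : Cube n → V n} {e : ℝ} (h : R0 e ω) (s : Cube n) :
    Continuous fun h => uf ω h s := Tl48.cont_of_lip ((pr.seg n ω e h).lip s)

theorem uf_abs (pr : PrStmt) {ω : Cube n → V n} {e : ℝ} (h : R0 e ω) (s : Cube n) (a : V n)
    (j : Fin n) : |uf ω a s j| ≤ 2 * e := ((pr.seg n ω e h).r0 a).sup s j

theorem cont_h (Q : Mx n) (y a : V n) : Continuous fun z : V n => y + Q *ᵥ (a + z) :=
  continuous_const.add (continuous_const.matrix_mulVec (continuous_const.add continuous_id))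

theorem uf_int (pr : PrStmt) {ω : Cube n → V n} {e : ℝ} (h : R0 e ω) (Q : Mx n) (y a : V n)
    (s : Cube n) (j : Fin n) : Integrable (fun z => uf ω (y + Q *ᵥ (a + z)) s j) (gv (Fin n)) :=
  int_bd ((continuous_apply j).comp ((uf_cont pr h s).comp (cont_h Q y a))) fun z => uf_abs pr h s _ j

theorem gt_lip (pr : PrStmt) (Q : Mx n) {Ω : U2 n} {e : ℝ} (hΩ : RF e Ω) (s : Cube n) (y y' : V n) :
    nrm (gt Q Ω s y - gt Q Ω s y') ≤ 3 * e * nrm (y - y') := by
  have e0 := Pr23.e_nonneg (hΩ.r0 y)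
  have N0 := nrm_nonneg (y - y')
  have e1 : gt Q Ω s y - gt Q Ω s y' = fun j => ∫ z,
      (uf (fun t => Ω t y) (y + Q *ᵥ (Q *ᵥ sv s + z)) s -
        uf (fun t => Ω t y') (y' + Q *ᵥ (Q *ᵥ sv s + z)) s) j ∂gv (Fin n) := by
    ext j
    simp only [gt_eq, Pi.sub_apply]
    rw [integral_sub (uf_int pr (hΩ.r0 y) _ _ _ _ _) (uf_int pr (hΩ.r0 y') _ _ _ _ _)]
  have hp : ∀ a : V n, nrm (uf (fun t => Ω t y) (y + a) s - uf (fun t => Ω t y') (y' + a) s) ≤
      3 * e * nrm (y - y') := fun a => by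
    have h1 : nrm (uf (fun t => Ω t y) (y + a) s - uf (fun t => Ω t y) (y' + a) s) ≤ _ :=
      (pr.seg n _ e (hΩ.r0 y)).lip s (y + a) (y' + a)
    rw [add_sub_add_right_eq_sub] at h1
    have h2 : nrm (uf (fun t => Ω t y) (y' + a) s - uf (fun t => Ω t y') (y' + a) s) ≤
        e * nrm (y - y') := by
      rw [uf, uf, ← mul_sub, vO_sub]
      exact (Pr23.nrm_DD (Tap.cb_th _) _).trans (vO_nrm (Tap.cb_th _) (fun x => hΩ.lip x y y') s)
    have h3 := nrm_add_le (uf (fun t => Ω t y) (y + a) s - uf (fun t => Ω t y) (y' + a) s)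
      (uf (fun t => Ω t y) (y' + a) s - uf (fun t => Ω t y') (y' + a) s)
    rw [sub_add_sub_cancel] at h3
    linarith
  have hc := ((uf_cont pr (hΩ.r0 y) s).comp (cont_h Q y (Q *ᵥ sv s))).sub
    ((uf_cont pr (hΩ.r0 y') s).comp (cont_h Q y' (Q *ᵥ sv s)))
  rw [e1]
  refine (abs_le_of_sq_le_sq' ((nrm_int_sq (B := 2 * e + 2 * e) hc fun z j => ?_).trans ?_)
    (by positivity)).2
  · exact (abs_sub _ _).trans (add_le_add (uf_abs pr (hΩ.r0 y) s _ j) (uf_abs pr (hΩ.r0 y') s _ j))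
  · have := integral_mono_of_nonneg (μ := gv (Fin n)) (.of_forall fun z => sq_nonneg _)
      (integrable_const ((3 * e * nrm (y - y')) ^ 2))
      (.of_forall fun z => pow_le_pow_left₀ (nrm_nonneg _) (hp (Q *ᵥ (Q *ᵥ sv s + z))) 2)
    simpa using this

theorem gt_odd (Q : Mx n) {Ω : U2 n} (ho : OddJ Ω) : OddJ (gt Q Ω) := fun s y => by
  ext j
  simp only [gt_eq, Pi.neg_apply]
  rw [← int_neg, ← integral_neg]
  refine integral_congr_ae (.of_forall fun z => ?_)
  have e1 : -y + Q *ᵥ (Q *ᵥ sv (Reg.neg s) + -z) = -(y + Q *ᵥ (Q *ᵥ sv s + z)) := by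
    rw [Tl48.sv_neg, mulVec_neg, ← neg_add, mulVec_neg, ← neg_add]
  have e2 : ∀ h : V n, th (-h) = -th h := fun h => by ext i; simp [th]
  simp only [e1, uf, e2, vO_neg (ω := fun t => Ω t y) (ω' := fun t => Ω t (-y)) fun x => ho x y,
    Pi.mul_apply, Pi.neg_apply, DD]
  ring

theorem gt_sum (pr : PrStmt) (Q : Mx n) {e : ℝ} {ι : Type} [Fintype ι] (c : ι → ℝ) (U : ι → U2 n)
    (h : ∀ l, RF e (U l)) : gt Q (∑ l, c l • U l) = ∑ l, c l • gt Q (U l) := by
  ext s y j
  simp only [gt_eq, Finset.sum_apply, Pi.smul_apply, smul_eq_mul, ← integral_const_mul]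
  rw [← integral_finsetSum _ fun l _ => (uf_int pr ((h l).r0 y) _ _ _ _ _).const_mul (c l)]
  refine integral_congr_ae (.of_forall fun z => ?_)
  simp only [uf, vO_sum c fun l t => U l t y, Pi.mul_apply, Finset.sum_apply, Pi.smul_apply,
    smul_eq_mul, Finset.mul_sum, mul_left_comm]

/-- the mixed average -/
def mx (X : Cube n → ℝ) (t : V n) (s : Cube n) : ℝ := ∫ l in (0 : ℝ)..1, Ext X (mix t s l)

theorem mx_cont (X : Cube n → ℝ) (s : Cube n) : Continuous fun t => mx X t s :=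
  intervalIntegral.continuous_parametric_intervalIntegral_of_continuous'
    (f := fun t l => Ext X (mix t s l))
    ((Fo.continuous_Ext _).comp (f := fun p : V n × ℝ => mix p.1 s p.2) (by unfold mix; fun_prop)) 0 1

theorem mx_abs (X : Cube n → ℝ) {t : V n} (ht : Cb t) (s : Cube n) : |mx X t s| ≤ ∑ x, |X x| :=
  Pr23.abs_int_le fun l hl => Fo.abs_Ext_le (Fo.cb_mix ht s hl) fun x =>
    Finset.single_le_sum (f := fun x => |X x|) (fun _ _ => abs_nonneg _) (mem_univ x)

theorem Ext_mx (X : Cube n → ℝ) (t : V n) : Ext (mx X t) t = Ext X t := by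
  rw [Fo.Ext]
  simp only [mx, ← intervalIntegral.integral_const_mul]
  rw [← intervalIntegral.integral_finsetSum fun x _ => ii (pm t x) X t x]
  have : ∀ l, ∑ x, pm t x * Ext X (mix t x l) = Ext X t := fun l => Fo.Ext_mix X t l
  simp [this]

theorem gt_mean (pr : PrStmt) (rv : RevStmt) {J Q : Mx n} (jq : JQ J Q) {Ω : U2 n} {e : ℝ}
    (hΩ : RF e Ω) (y : V n) : (mean (ising J y) fun s => nrm (gt Q Ω s y) ^ 2) ≤
      mean (ising J y) fun s => nrm (Ω s y) ^ 2 := by
  set X : Cube n → ℝ := fun s => nrm (Ω s y) ^ 2 with hX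
  have cp : Continuous (pt Q y) :=
    Tap.continuous_th.comp (continuous_const.add (continuous_const.matrix_mulVec continuous_id))
  have h1 : ∀ s, nrm (gt Q Ω s y) ^ 2 ≤ cav Q (fun s ζ => mx X (pt Q y ζ) s) s := fun s => by
    rw [gt_eq]
    refine (nrm_int_sq ((uf_cont pr (hΩ.r0 y) s).comp (cont_h Q y (Q *ᵥ sv s)))
      fun z j => uf_abs pr (hΩ.r0 y) s _ j).trans ?_
    refine integral_mono_of_nonneg (.of_forall fun z => sq_nonneg _)
      (int_bd (((mx_cont X s).comp cp).comp (continuous_const.add continuous_id))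
        fun z => mx_abs X (Tap.cb_th _) s) (.of_forall fun z => ?_)
    exact (pow_le_pow_left₀ (nrm_nonneg _) (Pr23.nrm_DD (Tap.cb_th _) _) 2).trans
      (vO_sq _ (Tap.cb_th _) s)
  refine ((Tl48.wt_is J y).mean_mono h1).trans (le_of_eq ?_)
  rw [rv.bayes n J Q y (fun s ζ => mx X (pt Q y ζ) s) jq fun s => .of_bdd ((mx_cont X s).comp cp).measurable _
    fun z => mx_abs X (Tap.cb_th _) s, ← rv.inv n J Q y X jq, Ky]
  congr 2
  ext s ζ
  rw [pw, Fo.mean_ising0, Fo.mean_ising0]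
  exact Ext_mx X _

end Gt48

open Gt48 in
theorem gtGlue : GtGlue := by
  intro rf pr rv
  obtain ⟨C, hC, rf⟩ := rf 3
  refine ⟨6 * C, by linarith, fun n J Q Ω e jq hΩ => ⟨⟨fun y => ?_, fun s y y' => ?_⟩, gt_odd Q,
    gt_mean pr rv jq hΩ, fun ι _ c U h => gt_sum pr Q c U h⟩⟩
  · have e0 := Pr23.e_nonneg (hΩ.r0 y)
    have q1 := (rv.opQ n J Q jq).1
    have sg := pr.seg n _ e (hΩ.r0 y)
    have h := rf n (Fin n) Q Q (fun _ => 1) (fun s ζ => uf (fun t => Ω t y) (y + Q *ᵥ ζ) s) 1 (6 * e)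
      q1 q1 ⟨differentiable_const _, fun u v => by simp⟩
      ⟨fun ζ => ⟨fun s i => ((sg.r0 _).sup s i).trans (by linarith),
        fun s => ((sg.r0 (y + Q *ᵥ ζ)).op s).trans (by linarith)⟩, fun s ζ ζ' => by
        refine (sg.lip s _ _).trans ?_
        rw [add_sub_add_left_eq_sub, ← mulVec_sub]
        have := (nrm_mulVec_le Q (ζ - ζ')).trans (mul_le_mul_of_nonneg_right q1 (nrm_nonneg _))
        nlinarith⟩
    have e1 : (cwv Q Q (fun _ => 1) fun s ζ => uf (fun t => Ω t y) (y + Q *ᵥ ζ) s) =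
        fun s => gt Q Ω s y := by
      ext s j; simp only [cwv, one_mul, gt_eq]
    rw [e1, show C * 1 * (6 * e) = 6 * C * e by ring] at h
    exact h
  · have e0 := Pr23.e_nonneg (hΩ.r0 y)
    exact (gt_lip pr Q hΩ s y y').trans (mul_le_mul_of_nonneg_right (by nlinarith) (nrm_nonneg _))

end Crest.Agent.T157.K

end
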