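import Crest.Agent.T157.KDef_36

/-!
# Row 157, block S5 (helper11): the programs and the local observable
-/

set_option autoImplicit false
set_option linter.unusedSectionVars false

noncomputable section

namespace Crest.Agent.T157.K

open MeasureTheory ProbabilityTheory Real Matrix Finset
open Crest.Agent.T157.E Crest.Agent.T157.Eig
open Crest.Agent.T157.Tap (V Mx)
open Crest.Agent.T157.Rec (grad)
open Crest.Agent.T157.Conc (ELip)
open Crest.Agent.T157.Reg (jac neg)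
open Crest.Agent.T157.S3.Hb (Vp)
open Crest.Agent.T157.SL (Wt MG SInt)

namespace Pg11

variable {n : ℕ} {κ : Type} [Fintype κ] [DecidableEq κ] {e e' L L' : ℝ}

theorem r0_mono {u : Cube n → V n} (h : R0 e u) (he : e ≤ e') : R0 e' u :=
  ⟨fun s i => (h.sup s i).trans he, fun s => (h.op s).trans he⟩

theorem rf_mono {u : Cube n → (κ → ℝ) → V n} (h : RF e u) (he : e ≤ e') : RF e' u :=
  ⟨fun ζ => r0_mono (h.r0 ζ) he, fun s ζ ζ' =>
    (h.lip s ζ ζ').trans (mul_le_mul_of_nonneg_right he (nrm_nonneg _))⟩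

theorem sb_mono {X : Cube n → ℝ} (h : SB (e ^ 2) X) (h0 : 0 ≤ e) (he : e ≤ e') : SB (e' ^ 2) X :=
  fun s => ⟨(h s).1, (h s).2.trans
    (mul_le_mul_of_nonneg_right (pow_le_pow_left₀ h0 he 2) (h s).1)⟩

theorem re_mono {X : Cube n → (κ → ℝ) → ℝ} (h : RE e X) (h0 : 0 ≤ e) (he : e ≤ e') : RE e' X :=
  ⟨fun ζ => sb_mono (h.sb ζ) h0 he, fun s => (h.lip s).mono he, h.bd⟩

theorem bs0_mono {F X : Cube n → ℝ} {ω : Cube n → V n} (h : BS0 F ω X e L) (h0 : 0 ≤ e)
    (he : e ≤ e') (hL : L ≤ L') : BS0 F ω X e' L' :=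
  ⟨fun s => (h.gr s).trans hL, h.app, r0_mono h.r0 he, sb_mono h.sb h0 he⟩

theorem bs_mono {F X : F2 n} {g ω β : U2 n} (h : BS F g ω β X e L) (h0 : 0 ≤ e)
    (he : e ≤ e') (hL : L ≤ L') : BS F g ω β X e' L' :=
  ⟨h.der, fun s y => ⟨(h.gr s y).1.trans hL, (h.gr s y).2.trans hL⟩, h.app, rf_mono h.rω he,
    rf_mono h.rβ he, re_mono h.rX h0 he, h.oω, h.oβ⟩

theorem re_nn {X : Cube n → (κ → ℝ) → ℝ} (h : RE e X) (s : Cube n) (ζ : κ → ℝ) : 0 ≤ X s ζ :=
  (h.sb ζ s).1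

theorem re_cont {X : Cube n → (κ → ℝ) → ℝ} (h : RE e X) (s : Cube n) : Continuous (X s) :=
  ((h.lip s).continuous.pow 2).congr fun ζ => sq_sqrt (re_nn h s ζ)

theorem re_abs {X : Cube n → (κ → ℝ) → ℝ} (h : RE e X) : ∃ B, ∀ s ζ, |X s ζ| ≤ B :=
  h.bd.imp fun _ hB s ζ => (abs_of_nonneg (re_nn h s ζ)).trans_le (hB s ζ)

theorem re_mg {X : Cube n → (κ → ℝ) → ℝ} (h : RE e X) (s : Cube n) : MG (X s) :=
  (re_abs h).elim fun B hB => .of_bdd (re_cont h s).measurable B (hB s)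

theorem vp_add (F G : Cube n → ℝ) (s : Cube n) :
    Vp (fun s => F s + G s) s ≤ 2 * Vp F s + 2 * Vp G s := by
  simp only [Vp, mul_sum, ← sum_add_distrib]
  refine sum_le_sum fun j _ => ?_
  set a := F s - F (Rec.fl s j)
  set b := G s - G (Rec.fl s j)
  have h : F s + G s - (F (Rec.fl s j) + G (Rec.fl s j)) ≤ max a 0 + max b 0 := by
    linarith [le_max_left a 0, le_max_left b 0]
  nlinarith [S3.Hb.max_sq_le h, sq_nonneg (max a 0 - max b 0)]

theorem sqrt_add_le {a b c d : ℝ} (ha : 0 ≤ a) (hb : 0 ≤ b) (hc : 0 ≤ c) (hd : 0 ≤ d) :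
    √(a + b) ≤ √(c + d) + (|√a - √c| + |√b - √d|) := by
  refine sqrt_le_iff.2 ⟨by positivity, ?_⟩
  have h1 : √c ≤ √(c + d) := sqrt_le_sqrt (by linarith)
  have h2 : √d ≤ √(c + d) := sqrt_le_sqrt (by linarith)
  have h3 := mul_le_mul h1 (le_abs_self (√a - √c))
  have h4 : √c * (√a - √c) ≤ √(c + d) * |√a - √c| :=
    (mul_le_mul_of_nonneg_left (le_abs_self _) (sqrt_nonneg _)).trans
      (mul_le_mul_of_nonneg_right h1 (abs_nonneg _))
  have h5 : √d * (√b - √d) ≤ √(c + d) * |√b - √d| :=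
    (mul_le_mul_of_nonneg_left (le_abs_self _) (sqrt_nonneg _)).trans
      (mul_le_mul_of_nonneg_right h2 (abs_nonneg _))
  nlinarith [sq_sqrt ha, sq_sqrt hb, sq_sqrt hc, sq_sqrt hd, sq_sqrt (add_nonneg hc hd),
    sq_abs (√a - √c), sq_abs (√b - √d),
    mul_nonneg (abs_nonneg (√a - √c)) (abs_nonneg (√b - √d))]

theorem re_add {X Y : Cube n → (κ → ℝ) → ℝ} (h : RE e X) (h' : RE e Y) :
    RE (2 * e) fun s ζ => X s ζ + Y s ζ := by
  refine ⟨fun ζ s => ⟨add_nonneg (re_nn h s ζ) (re_nn h' s ζ), ?_⟩, fun s x y => ?_, ?_⟩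
  · have h1 := vp_add (fun s => X s ζ) (fun s => Y s ζ) s
    nlinarith [(h.sb ζ s).2, (h'.sb ζ s).2, mul_nonneg (sq_nonneg e) (re_nn h s ζ),
      mul_nonneg (sq_nonneg e) (re_nn h' s ζ)]
  · have h1 := sqrt_add_le (re_nn h s x) (re_nn h' s x) (re_nn h s y) (re_nn h' s y)
    have h2 := sqrt_add_le (re_nn h s y) (re_nn h' s y) (re_nn h s x) (re_nn h' s x)
    rw [abs_sub_comm (√(X s y)), abs_sub_comm (√(Y s y))] at h2
    have h3 := h.lip s x y
    have h4 := h'.lip s x y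
    exact abs_le.2 ⟨by linarith, by linarith⟩
  · obtain ⟨B, hB⟩ := h.bd
    obtain ⟨B', hB'⟩ := h'.bd
    exact ⟨B + B', fun s ζ => add_le_add (hB s ζ) (hB' s ζ)⟩

theorem re_mul {X : Cube n → (κ → ℝ) → ℝ} (h : RE e X) {c : ℝ} (hc : 0 ≤ c) :
    RE (c * e) fun s ζ => c ^ 2 * X s ζ := by
  refine ⟨fun ζ s => ⟨mul_nonneg (sq_nonneg c) (re_nn h s ζ), ?_⟩, fun s x y => ?_, ?_⟩
  · rw [S3.Hb.Vp_const_mul (sq_nonneg c)]
    exact (mul_le_mul_of_nonneg_left (h.sb ζ s).2 (sq_nonneg _)).trans_eq (by ring)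
  · simp only [sqrt_mul (sq_nonneg c), sqrt_sq hc]
    simpa only [abs_of_nonneg hc] using (h.lip s).const_mul c x y
  · obtain ⟨B, hB⟩ := h.bd
    exact ⟨c ^ 2 * B, fun s ζ => mul_le_mul_of_nonneg_left (hB s ζ) (sq_nonneg c)⟩

theorem rf_add {u v : Cube n → (κ → ℝ) → V n} (h : RF e u) (h' : RF e v) :
    RF (2 * e) fun s ζ => u s ζ + v s ζ := by
  refine ⟨fun ζ => ⟨fun s i => ?_, fun s => ?_⟩, fun s ζ ζ' => ?_⟩
  · linarith [abs_add_le (u s ζ i) (v s ζ i), (h.r0 ζ).sup s i, (h'.r0 ζ).sup s i,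
      show |(u s ζ + v s ζ) i| = |u s ζ i + v s ζ i| from rfl]
  · have e1 : jac (fun s => u s ζ + v s ζ) s = jac (fun s => u s ζ) s + jac (fun s => v s ζ) s := by
      ext i j; simp only [jac, of_apply, Pi.add_apply, Matrix.add_apply]; ring
    rw [e1]
    linarith [opn_add_le (jac (fun s => u s ζ) s) (jac (fun s => v s ζ) s), (h.r0 ζ).op s,
      (h'.r0 ζ).op s]
  · rw [add_sub_add_comm]
    linarith [nrm_add_le (u s ζ - u s ζ') (v s ζ - v s ζ'), h.lip s ζ ζ', h'.lip s ζ ζ']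

theorem nrm_add_sq (u v : V n) : nrm (u + v) ^ 2 ≤ 2 * nrm u ^ 2 + 2 * nrm v ^ 2 := by
  nlinarith [pow_le_pow_left₀ (nrm_nonneg _) (nrm_add_le u v) 2, sq_nonneg (nrm u - nrm v)]

theorem bs_add {F F' X X' : F2 n} {g g' ω ω' β β' : U2 n} (h : BS F g ω β X e L)
    (h' : BS F' g' ω' β' X' e L') (h0 : 0 ≤ e) :
    BS (fun s y => F s y + F' s y) (fun s y => g s y + g' s y) (fun s y => ω s y + ω' s y)
      (fun s y => β s y + β' s y) (fun s y => 2 ^ 2 * (X s y + X' s y)) (4 * e) (L + L') := by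
  refine ⟨fun s => ⟨(h.der s).1.add (h'.der s).1, (h.der s).2.1.add (h'.der s).2.1, fun ζ v => ?_⟩,
    fun s y => ⟨?_, (nrm_add_le _ _).trans (add_le_add (h.gr s y).2 (h'.gr s y).2)⟩, fun s y => ?_,
    rf_mono (rf_add h.rω h'.rω) (by linarith), rf_mono (rf_add h.rβ h'.rβ) (by linarith),
    re_mono (re_mul (re_add h.rX h'.rX) zero_le_two) (by linarith) (by linarith),
    fun s y => ?_, fun s y => ?_⟩
  · rw [fderiv_fun_add ((h.der s).1 ζ) ((h'.der s).1 ζ), _root_.add_apply,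
      (h.der s).2.2, (h'.der s).2.2, add_dotProduct]
  · rw [Rec.grad_add (fun s => F s y)]
    exact (nrm_add_le _ _).trans (add_le_add (h.gr s y).1 (h'.gr s y).1)
  · rw [Rec.grad_add (fun s => F s y), add_sub_add_comm, add_sub_add_comm (g s y)]
    linarith [nrm_add_sq (grad (fun s => F s y) s - ω s y) (grad (fun s => F' s y) s - ω' s y),
      nrm_add_sq (g s y - β s y) (g' s y - β' s y), h.app s y, h'.app s y, re_nn h.rX s y,
      re_nn h'.rX s y]
  · simp only [h.oω s y, h'.oω s y, neg_add]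
  · simp only [h.oβ s y, h'.oβ s y, neg_add]

theorem rf_zero (h0 : 0 ≤ e) : RF e fun (_ : Cube n) (_ : κ → ℝ) => (0 : V n) :=
  ⟨fun _ => ⟨fun _ _ => by simpa, fun s => by
    rw [show jac (fun _ : Cube n => (0 : V n)) s = 0 by ext; simp [jac]]; simpa⟩,
    fun _ _ _ => by simpa using mul_nonneg h0 (nrm_nonneg _)⟩

theorem re_zero (h0 : 0 ≤ e) : RE e fun (_ : Cube n) (_ : κ → ℝ) => (0 : ℝ) :=
  ⟨fun _ _ => by simp [Vp], fun _ _ _ => by simpa using mul_nonneg h0 (Conc.en_nonneg _),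
    0, fun _ _ => le_rfl⟩

theorem bs_zero (h0 : 0 ≤ e) (hL : 0 ≤ L) : BS (fun (_ : Cube n) _ => 0) (fun _ _ => 0)
    (fun _ _ => 0) (fun _ _ => 0) (fun _ _ => 0) e L :=
  ⟨fun _ => ⟨differentiable_const _, continuous_const, fun _ _ => by simp⟩,
    fun _ _ => by simpa [Rec.grad_const], fun _ _ => by simp [Rec.grad_const], rf_zero h0,
    rf_zero h0, re_zero h0, fun _ _ => by simp, fun _ _ => by simp⟩

theorem le_ex {a Λ : ℝ} (ha : 0 ≤ a) (hΛ : 1 ≤ Λ) : a ≤ exp (a * Λ) := by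
  nlinarith [add_one_le_exp (a * Λ)]

theorem tl_mono {C D Λ : ℝ} (hC : 1 ≤ C) (h : C ≤ D) : exp (-(Λ ^ 2 / C)) ≤ exp (-(Λ ^ 2 / D)) :=
  exp_le_exp.2 (neg_le_neg (div_le_div_of_nonneg_left (sq_nonneg _) (by linarith) h))

theorem wt (J : Mx n) (y : V n) : Wt (ising J y) := .of_pos fun _ => exp_pos _

theorem good_zero : Good fun _ _ _ _ _ => 0 := fun _ _ _ =>
  ⟨1, le_rfl, fun _ _ _ _ _ _ => ⟨_, _, _, _, bs_zero (exp_pos _).le (by positivity), fun _ => by
    rw [PM, SL.slE_fun fun _ => 0, (wt _ _).mean_const]; positivity⟩⟩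

theorem good_add {F G : ∀ n, Mx n → Mx n → F2 n} (hF : Good F) (hG : Good G) :
    Good fun n J Q s y => F n J Q s y + G n J Q s y := fun K0 r hr => by
  obtain ⟨C, hC, h⟩ := hF K0 r hr
  obtain ⟨D, hD, h'⟩ := hG K0 r hr
  refine ⟨C + D + 8, by linarith, fun n J Q hJ Λ hΛ => ?_⟩
  obtain ⟨g, ω, β, X, b, p⟩ := h n J Q hJ Λ hΛ
  obtain ⟨g', ω', β', X', b', p'⟩ := h' n J Q hJ Λ hΛ
  have e1 : exp (C * Λ) ≤ exp ((C + D) * Λ) := exp_le_exp.2 (by nlinarith)
  have e2 : exp (D * Λ) ≤ exp ((C + D) * Λ) := exp_le_exp.2 (by nlinarith)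
  have e3 : 8 * exp ((C + D) * Λ) ≤ exp ((C + D + 8) * Λ) := by
    rw [add_mul (C + D), exp_add, mul_comm]
    exact mul_le_mul_of_nonneg_left (le_ex (by norm_num) hΛ) (exp_pos _).le
  have p0 := exp_pos ((C + D) * Λ)
  refine ⟨_, _, _, _, bs_mono (bs_add (bs_mono b (exp_pos _).le e1 le_rfl)
    (bs_mono b' (exp_pos _).le e2 le_rfl) p0.le) (by linarith) (by linarith)
    (by nlinarith [sqrt_nonneg (n : ℝ)]), fun hA => ?_⟩
  have q := p hA
  have q' := p' hA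
  have t := tl_mono (Λ := Λ) hC (show C ≤ C + D + 8 by linarith)
  have t' := tl_mono (Λ := Λ) hD (show D ≤ C + D + 8 by linarith)
  rw [PM, SL.slE_const_mul, SL.slE_add (.of_mg (re_mg b.rX)) (.of_mg (re_mg b'.rX))]
  rw [PM, sub_eq_add_neg, exp_add] at q q'
  rw [sub_eq_add_neg, exp_add]
  have u := mul_le_mul e1 t (exp_pos _).le p0.le
  have u' := mul_le_mul e2 t' (exp_pos _).le p0.le
  have u'' := mul_le_mul_of_nonneg_right e3 (exp_pos (-(Λ ^ 2 / (C + D + 8)))).le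
  have hn : (0 : ℝ) ≤ n := n.cast_nonneg
  linarith [mul_le_mul_of_nonneg_left u hn, mul_le_mul_of_nonneg_left u' hn,
    mul_le_mul_of_nonneg_left u'' hn]

theorem good_kop (hR : RevStmt) (hS : StepStmt) (hT : TailStmt) {F : ∀ n, Mx n → Mx n → F2 n}
    (hF : Good F) : Good fun n J Q => Kop Q (F n J Q) := fun K0 r hr => by
  obtain ⟨C1, hC1, h⟩ := hF K0 r hr
  obtain ⟨C, hC, hs⟩ := hS
  obtain ⟨C2, hC2, ht⟩ := hT K0 r hr
  have hCC : 1 ≤ C * C1 := one_le_mul_of_one_le_of_one_le hC hC1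
  set D := C + C2 + 2 * C1 + 3 + C * C1 with hD
  refine ⟨D, by linarith, fun n J Q hJ Λ hΛ => ?_⟩
  obtain ⟨g, ω, β, X, b, p⟩ := h n J Q hJ Λ hΛ
  set E := exp (C1 * Λ) with hE
  have pE : 0 < E := exp_pos _
  have hE1 : C1 ≤ E := le_ex (by linarith) hΛ
  obtain ⟨-, s2, -, -, s5⟩ := hs n J Q Λ (Λ * E) E (C1 * √n) ω hJ hΛ pE.le (by nlinarith) b.rω
  obtain ⟨g', b'⟩ := s5 _ g β X b
  refine ⟨g', _, _, _, bs_mono b' (by positivity) ?_ (by nlinarith [sqrt_nonneg (n : ℝ)]),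
    fun hA => ?_⟩
  · calc exp (C * Λ) * (Λ * E) ≤ exp (C * Λ) * (exp Λ * E) := by
          gcongr; linarith [add_one_le_exp Λ]
      _ ≤ _ := by rw [hE, ← exp_add, ← exp_add]; exact exp_le_exp.2 (by nlinarith)
  have q := p hA
  have q2 := ht n J Q (Λ * E) E ω hJ hA pE (by positivity) b.rω b.oω
  rw [mul_div_cancel_right₀ _ pE.ne'] at q2
  have m1 : ∀ s, MG (Kop Q X s) := fun s => by
    convert (((re_mg b'.rX s).const_mul C⁻¹).sub (re_mg s2 s)).sub
      (.const (exp (-(Λ ^ 2 / C)) * (C1 * √n) ^ 2)) using 2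
    field_simp; ring
  have q3 := hR.pmK n J Q r X hJ hr (re_cont b.rX) (re_abs b.rX)
  rw [PM, SL.slE_const_mul, SL.slE_add (.of_mg fun s => (m1 s).add (re_mg s2 s))
    (.of_mg fun _ => .const _), SL.slE_add (.of_mg m1) (.of_mg (re_mg s2)),
    SL.slE_fun fun _ => _, (wt _ _).mean_const, mul_pow, sq_sqrt n.cast_nonneg]
  rw [← q3, sub_eq_add_neg, exp_add] at q
  rw [sub_eq_add_neg, exp_add]
  unfold PM at q q2
  have t := tl_mono (Λ := Λ) hC (show C ≤ D by linarith)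
  have t1 := tl_mono (Λ := Λ) hC1 (show C1 ≤ D by linarith)
  have t2 := tl_mono (Λ := Λ) hC2 (show C2 ≤ D by linarith)
  set T := exp (-(Λ ^ 2 / D))
  have pT : 0 < T := exp_pos _
  have hn : (0 : ℝ) ≤ n := n.cast_nonneg
  have hE2 : E ^ 2 ≤ C2 * E ^ 2 := le_mul_of_one_le_left (sq_nonneg _) hC2
  have k : C * (3 * (C2 * E ^ 2)) ≤ exp (D * Λ) := by
    calc C * (3 * (C2 * E ^ 2)) ≤ exp (C * Λ) * (exp (3 * Λ) * (exp (C2 * Λ) * E ^ 2)) := by
          gcongr <;> exact le_ex (by linarith) hΛ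
      _ ≤ _ := by
          rw [hE, sq, ← exp_add, ← exp_add, ← exp_add, ← exp_add]
          exact exp_le_exp.2 (by nlinarith)
  calc _ ≤ C * (n * (C2 * E ^ 2 * T) + n * (C2 * E ^ 2 * T) + n * (C2 * E ^ 2 * T)) := by
        refine mul_le_mul_of_nonneg_left (add_le_add_three ?_ ?_ ?_) (by linarith)
        · refine q.trans ?_
          gcongr
          nlinarith
        · refine q2.trans ?_
          rw [show n * (C2 * E ^ 2 * T) = C2 * n * E ^ 2 * T by ring]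
          gcongr
        · rw [show n * (C2 * E ^ 2 * T) = T * (C2 * E ^ 2 * n) by ring]
          gcongr
          exact (pow_le_pow_left₀ (by linarith) hE1 2).trans hE2
    _ = n * (C * (3 * (C2 * E ^ 2)) * T) := by ring
    _ ≤ _ := by gcongr

end Pg11

open Pg11

theorem psiGlue : PsiGlue := fun hR hS hT hB m E h1 h2 k => by
  have a : ∀ l, Good fun n J Q s y => (Ky Q y)^[l] (fun t => psi0 Q (Eh E n J) t y) s := fun l => by
    induction l with
    | zero => exact hB m E h1 h2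
    | succ l ih =>
      simp only [Function.iterate_succ_apply']
      exact good_kop hR hS hT ih
  induction k with
  | zero => exact good_zero
  | succ k ih =>
    convert good_add ih (a k) using 6
    simp only [psi, Ks, sum_range_succ, Pi.add_apply]

theorem progGlue : ProgGlue := fun hR ⟨C, hC, hs⟩ => by
  refine ⟨2 * C ^ 2 + 2, fun c hc n J Q Λ e ω l hJ hΛ he hω => ?_⟩
  have c1 : C + 1 ≤ c := by nlinarith
  have c2 : C ^ 2 ≤ c := by nlinarith
  have c3 : 2 * C ≤ c := by nlinarith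
  have p : ∀ l : ℕ, 0 ≤ exp (c * l * Λ) * e := fun l => by positivity
  have p' : ∀ l : ℕ, exp (c * l * Λ) * e ≤ Λ * (exp (c * l * Λ) * e) := fun l =>
    le_mul_of_one_le_left (p l) hΛ
  have x1 : ∀ l : ℕ, exp (c * (l + 1) * Λ) * e = exp (c * Λ) * (exp (c * l * Λ) * e) := fun l => by
    rw [← mul_assoc, ← exp_add]; congr 2; ring
  have x2 : ∀ l : ℕ, exp (C * Λ) * (Λ * (exp (c * l * Λ) * e)) ≤
      exp (c * (l + 1 : ℕ) * Λ) * e := fun l => by
    rw [Nat.cast_succ, x1, ← mul_assoc]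
    refine mul_le_mul_of_nonneg_right ?_ (p l)
    calc exp (C * Λ) * Λ ≤ exp (C * Λ) * exp Λ := by gcongr; linarith [add_one_le_exp Λ]
      _ ≤ _ := by rw [← exp_add]; exact exp_le_exp.2 (by nlinarith)
  have a : ∀ l : ℕ, RF (exp (c * l * Λ) * e) (wS Q c Λ e ω l) ∧
      (OddJ ω → OddJ (wS Q c Λ e ω l)) := fun l => by
    induction l with
    | zero => exact ⟨by simpa [wS] using hω, id⟩
    | succ l ih =>
      obtain ⟨s1, -, s3, -⟩ := hs n J Q Λ _ _ 0 _ hJ hΛ (p l) (p' l) ih.1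
      exact ⟨rf_mono s1 (x2 l), fun h => s3 (ih.2 h)⟩
  have b : ∀ l : ℕ, RE (exp (c * (l + 1) * Λ) * e) (xS Q c Λ e ω l) := fun l => by
    refine re_mono (hs n J Q Λ _ _ 0 _ hJ hΛ (p l) (p' l) (a l).1).2.1
      (mul_nonneg (by linarith) (p l)) ?_
    rw [x1]
    exact mul_le_mul_of_nonneg_right ((show C ≤ c by linarith).trans (le_ex (by linarith) hΛ)) (p l)
  refine ⟨(a l).1, (a l).2, b l, fun y F X L h => ?_⟩
  have hL : 0 ≤ L := (nrm_nonneg _).trans (h.gr default)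
  have w := wt J y
  have key : ∃ X', BS0 ((Ky Q y)^[l] F) (fun s => wS Q c Λ e ω l s y) X' (exp (c * l * Λ) * e)
      (C ^ l * L) ∧ mean (ising J y) X' ≤ c ^ l * (mean (ising J y) X + exp (-(Λ ^ 2 / c)) * L ^ 2 +
      ∑ j ∈ range l, mean (ising J y) fun s => xS Q c Λ e ω j s y) := by
    induction l with
    | zero =>
      refine ⟨X, by simpa [wS] using h, ?_⟩
      simp only [pow_zero, one_mul, sum_range_zero, add_zero]
      exact le_add_of_nonneg_right (by positivity)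
    | succ l ih =>
      obtain ⟨X', i1, i2⟩ := ih
      have s4 := (hs n J Q Λ _ _ (C ^ l * L) _ hJ hΛ (p l) (p' l) (a l).1).2.2.2.1 y _ X' i1
      refine ⟨_, by
        rw [Function.iterate_succ_apply']
        exact bs0_mono s4 (mul_nonneg (exp_pos _).le ((p l).trans (p' l))) (x2 l)
          (by rw [pow_succ', mul_assoc]), ?_⟩
      rw [SL.mean_const_mul, SL.mean_add, SL.mean_add, w.mean_const, hR.inv n J Q y X' hJ,
        sum_range_succ]
      have n1 : 0 ≤ mean (ising J y) X := w.mean_nonneg fun s => (h.sb s).1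
      have n2 : ∀ j, 0 ≤ mean (ising J y) fun s => xS Q c Λ e ω j s y := fun j =>
        w.mean_nonneg fun s => re_nn (b j) s y
      have n3 := sum_nonneg fun j (_ : j ∈ range l) => n2 j
      have t := tl_mono (Λ := Λ) hC (show C ≤ c by linarith)
      have c4 : 1 ≤ c ^ l := one_le_pow₀ (by linarith)
      have c5 : (C ^ l * L) ^ 2 ≤ c ^ l * L ^ 2 := by
        rw [mul_pow, ← pow_mul, mul_comm l 2, pow_mul]
        gcongr
      have t2 := mul_le_mul t c5 (sq_nonneg _) (exp_pos _).le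
      have n4 : 0 ≤ exp (-(Λ ^ 2 / c)) * L ^ 2 := by positivity
      have t3 := le_mul_of_one_le_left (n2 l) c4
      have n5 := n2 l
      change C * (_ + (mean (ising J y) fun s => xS Q c Λ e ω l s y) + _) ≤ _
      generalize (mean (ising J y) fun s => xS Q c Λ e ω l s y) = u at *
      generalize (∑ j ∈ range l, mean (ising J y) fun s => xS Q c Λ e ω j s y) = v at *
      calc _ ≤ C * (2 * (c ^ l * (mean (ising J y) X + exp (-(Λ ^ 2 / c)) * L ^ 2 + (v + u)))) := by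
            gcongr
            nlinarith [mul_nonneg (zero_le_one.trans c4) n1, mul_nonneg (zero_le_one.trans c4) n3]
        _ ≤ _ := by
            rw [← mul_assoc, pow_succ' c, mul_assoc c]
            gcongr
            linarith
  obtain ⟨X', k1, k2⟩ := key
  exact ⟨X', bs0_mono k1 (p l) le_rfl (by gcongr; linarith), k2⟩

end Crest.Agent.T157.K

end
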