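import Crest.Agent.T157.KDef_36

/-!
# Row 157, part B, block S5: level zero (helper58)
-/

set_option autoImplicit false
set_option linter.unusedSectionVars false

noncomputable section

namespace Crest.Agent.T157.K

open MeasureTheory ProbabilityTheory Real Matrix Finset
open Crest.Agent.T157.E Crest.Agent.T157.Eig
open Crest.Agent.T157.Tap (V Mx)
open Crest.Agent.T157.Rec (grad)
open Crest.Agent.T157.Conc (ELip en)
open Crest.Agent.T157.Reg (jac neg Fld)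
open Crest.Agent.T157.S3.Hb (Vp)
open Crest.Agent.T157.SL (Wt)

namespace Ph58

variable {n : ℕ} {κ : Type} [Fintype κ] [DecidableEq κ]

theorem en_eq (x : κ → ℝ) : en x = nrm x := by rw [Conc.en_eq_norm, nrm_eq_norm]

instance : (gv κ).IsNegInvariant := by
  have : (gaussianReal 0 1).IsNegInvariant :=
    ⟨by simpa [Measure.neg] using gaussianReal_map_neg (μ := 0) (v := 1)⟩
  infer_instance

theorem sv_neg (s : Cube n) : sv (neg s) = -sv s := by
  funext i; simp only [sv, Reg.neg, Pi.neg_apply]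
  cases s i <;> simp [Crest.ProbabilityR.SpinGlassDynamics.spin]

theorem abs_sv (s : Cube n) (i : Fin n) : |sv s i| = 1 := by
  rw [← sq_eq_sq₀ (abs_nonneg _) zero_le_one, sq_abs, sq, Rec.sv_mul_self, one_pow]

theorem nrm_add_sq {ι : Type} [Fintype ι] [DecidableEq ι] (a b : ι → ℝ) :
    nrm (a + b) ^ 2 ≤ 2 * nrm a ^ 2 + 2 * nrm b ^ 2 := by
  have := pow_le_pow_left₀ (nrm_nonneg _) (nrm_add_le a b) 2
  nlinarith [sq_nonneg (nrm a - nrm b)]

/-! ### Lipschitz functions -/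

theorem elip_of_der {F : (κ → ℝ) → ℝ} {g : (κ → ℝ) → κ → ℝ} {L : ℝ} (hF : Differentiable ℝ F)
    (hg : ∀ ζ v, fderiv ℝ F ζ v = g ζ ⬝ᵥ v) (hL : ∀ ζ, nrm (g ζ) ≤ L) : ELip L F := fun x y => by
  have h := Conc.lip_of_deriv (φ := fun t : ℝ => F (y + t • (x - y)))
    (φ' := fun t => g (y + t • (x - y)) ⬝ᵥ (x - y)) (c := L * nrm (x - y)) (fun t => by
      rw [← hg]
      exact (hF _).hasFDerivAt.comp_hasDerivAt t
        (by simpa using ((hasDerivAt_id t).smul_const (x - y)).const_add y))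
    (fun t => (abs_dot_le _ _).trans (mul_le_mul_of_nonneg_right (hL _) (nrm_nonneg _))) 1 0
  rw [en_eq]
  simpa using h

theorem mg_of_elip {F : (κ → ℝ) → ℝ} {L : ℝ} (h : ELip L F) : SL.MG F := by
  refine ⟨h.continuous.measurable, |F 0| + |L| * Fintype.card κ, 1, by positivity, zero_le_one,
    fun y => (h.abs_le y).trans ?_⟩
  have a : ∑ i, |y i| ≤ Fintype.card κ * ‖y‖ :=
    (sum_le_card_nsmul _ _ _ fun i _ => norm_le_pi_norm y i).trans_eq (by rw [nsmul_eq_mul, card_univ])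
  have b := add_one_le_exp ‖y‖
  have c := norm_nonneg y
  rw [one_mul, add_mul, mul_assoc]
  refine add_le_add (le_mul_of_one_le_right (abs_nonneg _) (by linarith))
    (mul_le_mul_of_nonneg_left (a.trans ?_) (abs_nonneg _))
  exact mul_le_mul_of_nonneg_left (by linarith) (Nat.cast_nonneg _)

theorem elip_aff {F : (κ → ℝ) → ℝ} {L c : ℝ} (h : ELip L F) (hc : 0 ≤ c) (u : κ → ℝ) :
    ELip (c * L) fun z => F (u + c • z) := fun x y => by
  refine (h _ _).trans_eq ?_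
  rw [add_sub_add_left_eq_sub, ← smul_sub, Conc.en_smul, abs_of_nonneg hc]; ring

theorem RF.cont {e : ℝ} {u : Cube n → (κ → ℝ) → V n} (h : RF e u) (s : Cube n) : Continuous (u s) :=
  continuous_pi fun j => ELip.continuous (L := e) fun x y => by
    rw [en_eq]; exact (abs_apply_le_nrm (u s x - u s y) j).trans (h.lip s x y)

theorem RE.cont {e : ℝ} {X : Cube n → (κ → ℝ) → ℝ} (h : RE e X) (s : Cube n) : Continuous (X s) :=
  ((h.lip s).continuous.pow 2).congr fun ζ => sq_sqrt (h.sb ζ s).1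

theorem cont_grad {F : Cube n → (κ → ℝ) → ℝ} (h : ∀ s, Continuous (F s)) (s : Cube n) :
    Continuous fun ζ => grad (fun s => F s ζ) s :=
  continuous_pi fun _ => ((h _).sub (h _)).div_const 2

/-! ### rescaling of the continuous variable -/

theorem der_sc {F : Cube n → (κ → ℝ) → ℝ} {g : Cube n → (κ → ℝ) → κ → ℝ} (h : Der F g) (c : ℝ) :
    Der (fun s ζ => F s (c • ζ)) fun s ζ => c • g s (c • ζ) := fun s => by
  obtain ⟨h1, h2, h3⟩ := h s
  refine ⟨h1.comp (by fun_prop), by fun_prop, fun ζ v => ?_⟩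
  have := ((h1 (c • ζ)).hasFDerivAt.comp ζ ((hasFDerivAt_id ζ).const_smul c)).fderiv
  change fderiv ℝ (F s ∘ HSMul.hSMul c) ζ v = _
  rw [this]
  simp [h3]

theorem jac_smul (a : ℝ) (u : Cube n → V n) (s : Cube n) : jac (fun s => a • u s) s = a • jac u s := by
  ext i j; simp [jac, mul_sub]

theorem jac_add (u u' : Cube n → V n) (s : Cube n) :
    jac (fun s => u s + u' s) s = jac u s + jac u' s := by
  ext i j; simp only [jac, of_apply, Pi.add_apply, Matrix.add_apply]; ring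

theorem r0_smul {e a : ℝ} {u : Cube n → V n} (h : R0 e u) (ha : 0 ≤ a) :
    R0 (a * e) fun s => a • u s :=
  ⟨fun s i => by
    rw [Pi.smul_apply, smul_eq_mul, abs_mul, abs_of_nonneg ha]
    exact mul_le_mul_of_nonneg_left (h.sup s i) ha, fun s => by
    rw [jac_smul, opn_smul, abs_of_nonneg ha]
    exact mul_le_mul_of_nonneg_left (h.op s) ha⟩

theorem r0_add {e e' : ℝ} {u u' : Cube n → V n} (h : R0 e u) (h' : R0 e' u') :
    R0 (e + e') fun s => u s + u' s :=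
  ⟨fun s i => (abs_add_le _ _).trans (add_le_add (h.sup s i) (h'.sup s i)), fun s => by
    rw [jac_add]; exact (opn_add_le _ _).trans (add_le_add (h.op s) (h'.op s))⟩

theorem r0_mono {e e' : ℝ} {u : Cube n → V n} (h : R0 e u) (he : e ≤ e') : R0 e' u :=
  ⟨fun s i => (h.sup s i).trans he, fun s => (h.op s).trans he⟩

theorem rf_sc {e a c : ℝ} {u : Cube n → (κ → ℝ) → V n} (h : RF e u) (he : 0 ≤ e) (ha : 0 ≤ a)
    (hc : 0 ≤ c) : RF (a * ((1 + c) * e)) fun s ζ => a • u s (c • ζ) :=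
  ⟨fun ζ => r0_smul (r0_mono (h.r0 _) (by nlinarith)) ha, fun s ζ ζ' => by
    have a1 := h.lip s (c • ζ) (c • ζ')
    rw [← smul_sub, nrm_smul, abs_of_nonneg hc] at a1
    rw [← smul_sub, nrm_smul, abs_of_nonneg ha, mul_assoc]
    refine mul_le_mul_of_nonneg_left (a1.trans ?_) ha
    nlinarith [mul_nonneg he (nrm_nonneg (ζ - ζ'))]⟩

theorem re_sc {e c : ℝ} {X : Cube n → (κ → ℝ) → ℝ} (h : RE e X) (he : 0 ≤ e) (hc : 0 ≤ c) :
    RE ((1 + c) * e) fun s ζ => X s (c • ζ) :=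
  ⟨fun ζ s => ⟨(h.sb _ s).1, (h.sb _ s).2.trans (mul_le_mul_of_nonneg_right
      (pow_le_pow_left₀ he (by nlinarith) 2) (h.sb _ s).1)⟩,
    fun s => by simpa using (elip_aff (h.lip s) hc 0).mono (L' := (1 + c) * e) (by linarith),
    h.bd.imp fun _ hB s _ => hB s _⟩

/-! ### weighted averages -/

section cw
variable {P R : Matrix κ (Fin n) ℝ} {w w' : ℝ → ℝ} {u u' : Cube n → (κ → ℝ) → V n} {B B' : ℝ}

theorem int_cwv (hw : Continuous w) (hb : ∀ t, |w t| ≤ 2 * exp (2 * |t|)) (s : Cube n)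
    (hu : Continuous (u s)) (j : Fin n) (hB : ∀ ζ, |u s ζ j| ≤ B) :
    Integrable (fun z => w (sv s j * (Rᵀ *ᵥ z) j) * u s (P *ᵥ sv s + z) j) (gv κ) := by
  have i := ((Conc.elip_dot fun k => R k j).abs_comp.integrable_exp 2).const_mul (2 * B)
  refine i.mono' (by fun_prop) (.of_forall fun z => ?_)
  have a := hb (sv s j * (Rᵀ *ᵥ z) j)
  rw [abs_mul (sv s j), abs_sv, one_mul] at a
  rw [Real.norm_eq_abs, abs_mul, mul_right_comm]
  exact mul_le_mul a (hB _) (abs_nonneg _) (by positivity)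

theorem cwv_neg (hu : OddJ u) (s : Cube n) : cwv P R w u (neg s) = -cwv P R w u s := by
  funext j
  rw [Pi.neg_apply, cwv, cwv, ← integral_neg, ← integral_neg_eq_self]
  congr 1; funext z
  rw [sv_neg, mulVec_neg, mulVec_neg, ← neg_add, hu]
  simp

theorem cav_le {F G : Cube n → (κ → ℝ) → ℝ} {s : Cube n} (h0 : ∀ ζ, 0 ≤ F s ζ)
    (h : ∀ ζ, F s ζ ≤ G s ζ) (hc : Continuous (G s)) (hB : ∀ ζ, G s ζ ≤ B) : cav P F s ≤ cav P G s :=
  integral_mono_of_nonneg (.of_forall fun _ => h0 _) ((integrable_const B).mono' (by fun_prop)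
    (.of_forall fun _ => by rw [Real.norm_of_nonneg ((h0 _).trans (h _))]; exact hB _))
    (.of_forall fun _ => h _)

theorem cav_le_const {F : Cube n → (κ → ℝ) → ℝ} {s : Cube n} (h0 : ∀ ζ, 0 ≤ F s ζ)
    (h : ∀ ζ, F s ζ ≤ B) : cav P F s ≤ B :=
  (cav_le (G := fun _ _ => B) h0 h continuous_const fun _ => le_rfl).trans_eq (by simp [cav])

theorem wt_bd {a : ℝ} (t : ℝ) (h0 : 0 ≤ a) (h : a ≤ 1 + exp (-2 * t)) : |a| ≤ 2 * exp (2 * |t|) := by
  have a1 : exp (-2 * t) ≤ exp (2 * |t|) := exp_le_exp.2 (by linarith [neg_abs_le t])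
  have a2 : 1 ≤ exp (2 * |t|) := one_le_exp (by positivity)
  rw [abs_of_nonneg h0]; linarith

theorem cwv_le (hC : CsStmt) {k A : ℝ} (hw : Continuous w) (hb : ∀ t, |w t| ≤ 2 * exp (2 * |t|))
    (hk : ∀ j, (Rᵀ * R) j j = k) (hA : ∫ t, w (√k * t) ^ 2 ∂gaussianReal 0 1 ≤ A)
    (hu : ∀ s, Continuous (u s)) (hB : ∀ s ζ, nrm (u s ζ) ≤ B) (s : Cube n) :
    nrm (cwv P R w u s) ^ 2 ≤ A * cav P (fun s ζ => nrm (u s ζ) ^ 2) s ∧
      nrm (cwv P R w u s) ^ 2 ≤ A * B ^ 2 := by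
  have B0 := (nrm_nonneg _).trans (hB s 0)
  have h := hC n κ P R w u k 2 2 A B hw hb hk hA hu
    (fun s ζ => (hB s ζ).trans (le_mul_of_one_le_right B0 (by linarith [nrm_nonneg ζ]))) s
  exact ⟨h, h.trans (mul_le_mul_of_nonneg_left (cav_le_const (fun _ => sq_nonneg _) fun ζ =>
    pow_le_pow_left₀ (nrm_nonneg _) (hB s ζ) 2) ((integral_nonneg fun _ => sq_nonneg _).trans hA))⟩

/-- **clipping the weight and replacing the field** -/
theorem cwv_err (hC : CsStmt) {k A A' : ℝ} (hw : Continuous w) (hw' : Continuous w')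
    (hb : ∀ t, 0 < w' t ∧ w' t ≤ w t ∧ w t ≤ 1 + exp (-2 * t)) (hk : ∀ j, (Rᵀ * R) j j = k)
    (hA : ∫ t, w (√k * t) ^ 2 ∂gaussianReal 0 1 ≤ A)
    (hA' : ∫ t, (w (√k * t) - w' (√k * t)) ^ 2 ∂gaussianReal 0 1 ≤ A')
    (hu : ∀ s, Continuous (u s)) (hu' : ∀ s, Continuous (u' s)) (hB : ∀ s ζ, nrm (u s ζ) ≤ B)
    {X : Cube n → (κ → ℝ) → ℝ} (hX : ∀ s ζ, nrm (u s ζ - u' s ζ) ^ 2 ≤ X s ζ)
    (hc : ∀ s, Continuous (X s)) (hB' : ∀ s ζ, X s ζ ≤ B') (s : Cube n) :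
    nrm (cwv P R w u s - cwv P R w' u' s) ^ 2 ≤ 2 * (A' * B ^ 2) + 2 * (A * cav P X s) := by
  have b1 : ∀ t, |w t| ≤ 2 * exp (2 * |t|) := fun t =>
    wt_bd t ((hb t).1.le.trans (hb t).2.1) (hb t).2.2
  have b2 : ∀ t, |w' t| ≤ 2 * exp (2 * |t|) := fun t =>
    wt_bd t (hb t).1.le ((hb t).2.1.trans (hb t).2.2)
  have b3 : ∀ t, |w t - w' t| ≤ 2 * exp (2 * |t|) := fun t =>
    wt_bd t (sub_nonneg.2 (hb t).2.1) (by linarith [(hb t).1, (hb t).2.2])
  have d : ∀ s ζ, nrm (u s ζ - u' s ζ) ≤ √B' := fun s ζ =>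
    le_sqrt_of_sq_le ((hX s ζ).trans (hB' s ζ))
  have e : cwv P R w u s - cwv P R w' u' s = cwv P R (fun t => w t - w' t) u s +
      cwv P R w' (fun s ζ => u s ζ - u' s ζ) s := by
    funext j
    have c1 : ∀ ζ, |u s ζ j| ≤ B := fun ζ => (abs_apply_le_nrm _ j).trans (hB s ζ)
    have c2 : ∀ ζ, |(u s ζ - u' s ζ) j| ≤ √B' := fun ζ => (abs_apply_le_nrm _ j).trans (d s ζ)
    have c3 : ∀ ζ, |u' s ζ j| ≤ B + √B' := fun ζ => by
      rw [show u' s ζ j = u s ζ j - (u s ζ - u' s ζ) j by simp]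
      exact (abs_sub _ _).trans (add_le_add (c1 ζ) (c2 ζ))
    rw [Pi.add_apply, Pi.sub_apply, cwv, cwv, cwv, cwv,
      ← integral_sub (int_cwv hw b1 s (hu s) j c1) (int_cwv hw' b2 s (hu' s) j c3),
      ← integral_add (int_cwv (w := fun t => w t - w' t) (hw.sub hw') b3 s (hu s) j c1)
        (int_cwv (u := fun s ζ => u s ζ - u' s ζ) hw' b2 s ((hu s).sub (hu' s)) j c2)]
    congr 1; funext z
    simp only [Pi.sub_apply]; ring
  have i : Integrable (fun t => w (√k * t) ^ 2) (gaussianReal 0 1) :=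
    ((R339.Guerra.integrable_exp_abs1 (4 * √k)).const_mul 4).mono' (by fun_prop) (.of_forall fun t => by
      have a := pow_le_pow_left₀ (abs_nonneg _) (b1 (√k * t)) 2
      rw [sq_abs, mul_pow, ← exp_nat_mul, abs_mul, abs_of_nonneg (sqrt_nonneg k)] at a
      rw [Real.norm_of_nonneg (sq_nonneg _)]
      refine a.trans_eq ?_
      congr 1
      · norm_num
      · congr 1; push_cast; ring)
  have hA2 : ∫ t, w' (√k * t) ^ 2 ∂gaussianReal 0 1 ≤ A :=
    (integral_mono_of_nonneg (.of_forall fun _ => sq_nonneg _) i (.of_forall fun t =>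
      pow_le_pow_left₀ (hb _).1.le (hb _).2.1 2)).trans hA
  have a1 := (cwv_le (P := P) (w := fun t => w t - w' t) hC (hw.sub hw') b3 hk hA' hu hB s).2
  have a2 := (cwv_le (P := P) (u := fun s ζ => u s ζ - u' s ζ) hC hw' b2 hk hA2
    (fun s => (hu s).sub (hu' s)) d s).1
  have a3 := mul_le_mul_of_nonneg_left (cav_le (P := P) (F := fun s ζ => nrm (u s ζ - u' s ζ) ^ 2)
    (fun _ => sq_nonneg _) (hX s) (hc s) (hB' s)) ((integral_nonneg fun _ => sq_nonneg _).trans hA)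
  rw [e]
  linarith [nrm_add_sq (cwv P R (fun t => w t - w' t) u s)
    (cwv P R w' (fun s ζ => u s ζ - u' s ζ) s)]

end cw

/-! ### the channel of the localisation -/

/-- the channel `ζ = √r s + z` -/
def Pr (n : ℕ) (r : ℝ) : Mx n := √r • (1 : Mx n)

theorem Pr_mulVec (r : ℝ) (v : V n) : Pr n r *ᵥ v = √r • v := by rw [Pr, smul_mulVec, one_mulVec]

theorem Pr_T (r : ℝ) : (Pr n r)ᵀ = Pr n r := by rw [Pr, transpose_smul, transpose_one]

theorem Pr_sq {r : ℝ} (hr : 0 ≤ r) (j : Fin n) : ((Pr n r)ᵀ * Pr n r) j j = r := by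
  rw [Pr_T, Pr]; simp [mul_self_sqrt hr]

theorem opn_Pr (r : ℝ) : opn (Pr n r) ≤ √r := by
  rw [Pr, opn_smul, abs_of_nonneg (sqrt_nonneg r)]
  exact mul_le_of_le_one_right (sqrt_nonneg r) opn_one_le

theorem cav_r {r : ℝ} (hr : 0 ≤ r) (F : F2 n) (s : Cube n) :
    cav (Pr n r) (fun s ζ => F s (√r • ζ)) s = ∫ z, F s (r • sv s + √r • z) ∂gv (Fin n) := by
  simp only [cav, Pr_mulVec, smul_add, smul_smul, mul_self_sqrt hr]

theorem mean_cav_r {r : ℝ} (hr : 0 ≤ r) (J : Mx n) (F : F2 n) :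
    mean (ising J 0) (cav (Pr n r) fun s ζ => F s (√r • ζ)) = PM J r F := by
  rw [show (cav (Pr n r) fun s ζ => F s (√r • ζ)) = _ from funext (cav_r hr F)]; rfl

theorem grad_cav (hG : GradStmt) {r L : ℝ} (hr : 0 ≤ r) {F : F2 n} {g : U2 n} (hD : Der F g)
    (hL : ∀ s y, nrm (g s y) ≤ L) (s : Cube n) :
    grad (cav (Pr n r) fun s ζ => F s (√r • ζ)) s =
      cwv (Pr n r) (Pr n r) (Lw r) (fun s ζ => grad (fun s => F s (√r • ζ)) s) s +
        cwv (Pr n r) (Pr n r) (rho r) (fun s ζ => r • g s (√r • ζ)) s := by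
  rw [hG n (Fin n) (Pr n r) _ _ (√r * L) r (der_sc hD √r) (fun s ζ => by
    rw [nrm_smul, abs_of_nonneg (sqrt_nonneg r)]
    exact mul_le_mul_of_nonneg_left (hL _ _) (sqrt_nonneg r)) (Pr_sq hr)]
  simp only [Pr_T, Pr_mulVec, smul_smul, mul_self_sqrt hr]

theorem var_le {f : (κ → ℝ) → ℝ} {L : ℝ} (h : ELip L f) :
    ∫ z, f z ^ 2 ∂gv κ ≤ (∫ z, f z ∂gv κ) ^ 2 + L ^ 2 := by
  have a : _ ≤ L ^ 2 := (Conc.poincare h).trans ((integral_mono h.integrable_gr2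
    (integrable_const (L ^ 2)) h.gr2_le).trans_eq (by simp))
  set m := ∫ z, f z ∂gv κ with hm
  have e : ∀ z, (f z - m) ^ 2 = f z ^ 2 - 2 * m * f z + m ^ 2 := fun z => by ring
  simp only [e] at a
  have i : Integrable (fun z => f z ^ 2 - 2 * m * f z) (Conc.gv κ) :=
    (h.integrable_pow 2).sub (h.integrable.const_mul _)
  rw [integral_add i (integrable_const _),
    integral_sub (h.integrable_pow 2) (h.integrable.const_mul _), integral_const_mul, ← hm] at a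
  simp only [integral_const, probReal_univ, one_smul] at a
  linarith

theorem le_exp_mul {A Λ : ℝ} (hA : 0 ≤ A) (hΛ : 1 ≤ Λ) : A ≤ exp (A * Λ) := by
  linarith [add_one_le_exp (A * Λ), le_mul_of_one_le_right hA hΛ]

theorem mul_exp_le {A a C Λ : ℝ} (hA : 0 ≤ A) (hΛ : 1 ≤ Λ) (h : A + a ≤ C) :
    A * exp (a * Λ) ≤ exp (C * Λ) := by
  refine (mul_le_mul_of_nonneg_right (le_exp_mul hA hΛ) (exp_pos _).le).trans ?_
  rw [← exp_add, ← add_mul]
  exact exp_le_exp.2 (mul_le_mul_of_nonneg_right h (by linarith))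

/-- the program of level zero, not normalised -/
def om (r Λ : ℝ) (ω β : U2 n) (s : Cube n) : V n :=
  cwv (Pr n r) (Pr n r) (fun u => Lw r (cl Λ u)) (fun s ζ => (1 : ℝ) • ω s (√r • ζ)) s +
    cwv (Pr n r) (Pr n r) (fun u => rho r (cl Λ u)) (fun s ζ => r • β s (√r • ζ)) s

/-- what `WStmt` gives for one weight -/
def WOk (C r Λ : ℝ) (f : ℝ → ℝ) : Prop := W2 (C * exp (2 * Λ)) (fun u => f (cl Λ u)) ∧ Continuous f ∧
  (∀ u, 0 < f (cl Λ u) ∧ f (cl Λ u) ≤ f u ∧ f u ≤ 1 + exp (-2 * u)) ∧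
  ∫ u, f (√r * u) ^ 2 ∂gaussianReal 0 1 ≤ C ∧
  ∫ u, (f (√r * u) - f (cl Λ (√r * u))) ^ 2 ∂gaussianReal 0 1 ≤ C * exp (-(Λ ^ 2 / C))

section main
variable {r Λ C e L : ℝ} {F X : F2 n} {g ω β : U2 n}

theorem BS.cont (h : BS F g ω β X e L) (s : Cube n) : Continuous (F s) := (h.der s).1.continuous

theorem grad_le (hG : GradStmt) (hC : CsStmt) (hr : 0 ≤ r) (C1 : 1 ≤ C) (w1 : WOk C r Λ (Lw r))
    (w2 : WOk C r Λ (rho r)) (h : BS F g ω β X e L) (s : Cube n) :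
    nrm (grad (cav (Pr n r) fun s ζ => F s (√r • ζ)) s) ≤ C * (1 + r) * L := by
  have L0 := (nrm_nonneg _).trans (h.gr s 0).1
  have k : ∀ {f : ℝ → ℝ} {u : U2 n} {B : ℝ}, WOk C r Λ f → (∀ s, Continuous (u s)) →
      (∀ s ζ, nrm (u s ζ) ≤ B) → nrm (cwv (Pr n r) (Pr n r) f u s) ≤ C * B := fun w hu hB => by
    have B0 := (nrm_nonneg _).trans (hB s 0)
    refine le_of_sq_le_sq ((cwv_le hC w.2.1 (fun t => wt_bd t ((w.2.2.1 t).1.le.trans (w.2.2.1 t).2.1)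
      (w.2.2.1 t).2.2) (Pr_sq hr) w.2.2.2.1 hu hB s).2.trans ?_) (by positivity)
    rw [mul_pow]
    exact mul_le_mul_of_nonneg_right (by nlinarith) (sq_nonneg _)
  rw [grad_cav hG hr h.der fun s y => (h.gr s y).2]
  refine (nrm_add_le _ _).trans ((add_le_add (k (B := L) w1 (cont_grad (F := fun s ζ => F s (√r • ζ))
    fun s => (BS.cont h s).comp (by fun_prop)) fun s ζ => (h.gr s _).1) (k (B := r * L) (u := fun s ζ => r • g s (√r • ζ)) w2
      (fun s => (((h.der s).2.1.comp (by fun_prop)).const_smul r)) fun s ζ => ?_)).trans_eq (by ring))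
  rw [nrm_smul, abs_of_nonneg hr]
  exact mul_le_mul_of_nonneg_left (h.gr s _).2 hr

theorem err_le (hG : GradStmt) (hC : CsStmt) (hr : 0 ≤ r) (w1 : WOk C r Λ (Lw r))
    (w2 : WOk C r Λ (rho r)) (h : BS F g ω β X e L) (s : Cube n) :
    nrm (grad (cav (Pr n r) fun s ζ => F s (√r • ζ)) s - om r Λ ω β s) ^ 2 ≤ 4 * (1 + r ^ 2) *
      (C * exp (-(Λ ^ 2 / C)) * L ^ 2 + C * cav (Pr n r) (fun s ζ => X s (√r • ζ)) s) := by
  obtain ⟨B, hB⟩ := h.rX.bd
  have cX : ∀ s, Continuous fun ζ => X s (√r • ζ) := fun s => (RE.cont h.rX s).comp (by fun_prop)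
  have a1 := cwv_err (P := Pr n r) (u := fun s ζ => grad (fun s => F s (√r • ζ)) s)
    (u' := fun s ζ => (1 : ℝ) • ω s (√r • ζ)) (X := fun s ζ => X s (√r • ζ)) hC w1.2.1
    w1.1.1.continuous w1.2.2.1 (Pr_sq hr) w1.2.2.2.1 w1.2.2.2.2
    (cont_grad (F := fun s ζ => F s (√r • ζ)) fun s => (BS.cont h s).comp (by fun_prop))
    (fun s => ((RF.cont h.rω s).comp (by fun_prop)).const_smul (1 : ℝ)) (fun s ζ => (h.gr s _).1)
    (fun s ζ => by rw [one_smul]; exact le_trans (le_add_of_nonneg_right (sq_nonneg _)) (h.app s _))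
    cX (fun s ζ => hB s _) s
  have a2 := cwv_err (P := Pr n r) (u := fun s ζ => r • g s (√r • ζ)) (B := r * L)
    (u' := fun s ζ => r • β s (√r • ζ)) (X := fun s ζ => r ^ 2 * X s (√r • ζ)) hC w2.2.1
    w2.1.1.continuous w2.2.2.1 (Pr_sq hr) w2.2.2.2.1 w2.2.2.2.2
    (fun s => ((h.der s).2.1.comp (by fun_prop)).const_smul r)
    (fun s => ((RF.cont h.rβ s).comp (by fun_prop)).const_smul r)
    (fun s ζ => by
      rw [nrm_smul, abs_of_nonneg hr]; exact mul_le_mul_of_nonneg_left (h.gr s _).2 hr)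
    (fun s ζ => by
      rw [← smul_sub, nrm_smul, mul_pow, sq_abs]
      exact mul_le_mul_of_nonneg_left
        (le_trans (le_add_of_nonneg_left (sq_nonneg _)) (h.app s _)) (sq_nonneg r))
    (fun s => (cX s).const_mul _) (fun s ζ => mul_le_mul_of_nonneg_left (hB s _) (sq_nonneg r)) s
  have e1 : cav (Pr n r) (fun s ζ => r ^ 2 * X s (√r • ζ)) s =
      r ^ 2 * cav (Pr n r) (fun s ζ => X s (√r • ζ)) s := integral_const_mul _ _
  rw [grad_cav hG hr h.der fun s y => (h.gr s y).2, om, add_sub_add_comm]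
  rw [e1] at a2
  refine (nrm_add_sq _ _).trans ?_
  linarith

theorem om_odd (h : BS F g ω β X e L) (s : Cube n) : om r Λ ω β (neg s) = -om r Λ ω β s := by
  rw [om, om, cwv_neg, cwv_neg, neg_add]
  · intro s ζ; simp only [smul_neg, h.oβ s]
  · intro s ζ; simp only [smul_neg, h.oω s]

end main

theorem rho_le {n r C1 CW K CE C Λ H m : ℝ} (n0 : 0 < n) (C11 : 1 ≤ C1) (CW1 : 1 ≤ CW) (K0 : 0 ≤ K)
    (hΛ : 1 ≤ Λ) (H0 : 0 ≤ H) (h1 : CW ≤ C) (h2 : 4 * (1 + r ^ 2) * CW * (C1 ^ 2 + 2) + C1 ≤ C)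
    (h3 : 8 * (1 + r ^ 2) * CW * K * CE ^ 2 + 2 * C1 ≤ C)
    (hm : m ≤ 2 * (n * exp (C1 * Λ - Λ ^ 2 / C1)) + 2 * K * (CE * exp (C1 * Λ)) ^ 2 * H) :
    1 / n * (4 * (1 + r ^ 2) * (CW * exp (-(Λ ^ 2 / CW)) * (C1 ^ 2 * n) + CW * m)) ≤
      exp (C * Λ - Λ ^ 2 / C) + exp (C * Λ) * (H + 1) / n := by
  have A0 : 0 ≤ 4 * (1 + r ^ 2) * CW := by positivity
  have h4 : C1 ≤ C := le_trans (le_add_of_nonneg_left (by positivity)) h2
  have a1 : exp (-(Λ ^ 2 / CW)) ≤ exp (C1 * Λ) * exp (-(Λ ^ 2 / C)) :=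
    (exp_le_exp.2 (neg_le_neg (div_le_div_of_nonneg_left (sq_nonneg _) (by linarith) h1))).trans
      (le_mul_of_one_le_left (exp_pos _).le (one_le_exp (by positivity)))
  have a2 : exp (C1 * Λ - Λ ^ 2 / C1) ≤ exp (C1 * Λ) * exp (-(Λ ^ 2 / C)) := by
    rw [← exp_add]
    exact exp_le_exp.2 (add_le_add le_rfl
      (neg_le_neg (div_le_div_of_nonneg_left (sq_nonneg _) (by linarith) h4)))
  have a3 := mul_le_mul_of_nonneg_right (mul_exp_le (by positivity) hΛ h2)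
    (exp_pos (-(Λ ^ 2 / C))).le
  have a4 := mul_le_mul_of_nonneg_right (mul_exp_le (by positivity) hΛ h3) H0
  rw [show 2 * C1 * Λ = C1 * Λ + C1 * Λ by ring, exp_add] at a4
  have a5 := mul_le_mul_of_nonneg_left hm A0
  have a6 := mul_le_mul_of_nonneg_left a1 (by positivity : 0 ≤ 4 * (1 + r ^ 2) * CW * C1 ^ 2 * n)
  have a7 := mul_le_mul_of_nonneg_left a2 (by positivity : 0 ≤ 4 * (1 + r ^ 2) * CW * 2 * n)
  have a8 := mul_le_mul_of_nonneg_left a3 n0.le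
  have a9 := exp_pos (C * Λ)
  rw [sub_eq_add_neg (C * Λ), exp_add, one_div, inv_mul_le_iff₀ n0, mul_add n, mul_div_cancel₀ _ n0.ne']
  linarith

end Ph58

open Ph58 in
theorem phiGlue : PhiGlue := by
  intro hG hW hCs hRF hRE hRev hBp hDir hPsi m E hE hB k K0 r hr
  obtain ⟨C1, C11, hP⟩ := hPsi m E hE hB k K0 r hr
  obtain ⟨C2, C21, hb⟩ := hBp m E hE hB 0 0 0
  obtain ⟨C3, -, hD⟩ := hDir
  obtain ⟨CW, CW1, hw⟩ := hW r
  obtain ⟨CR, CR1, hR⟩ := hRF √r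
  obtain ⟨CE, CE1, hX⟩ := hRE √r
  have t0 := sqrt_nonneg r
  have K0' := le_max_right K0 0
  have A1 : 0 ≤ CR * CW * (1 + r) * (1 + √r) := by positivity
  have A2 : 0 ≤ 4 * (1 + r ^ 2) * CW * (C1 ^ 2 + 2) := by positivity
  have A3 : 0 ≤ 8 * (1 + r ^ 2) * CW * max K0 0 * (CE * (1 + √r)) ^ 2 := by positivity
  have A4 : 0 ≤ CW * (1 + r) * C1 := by positivity
  have A5 : 0 ≤ r * C1 ^ 2 := by positivity
  obtain ⟨C, hC⟩ : ∃ C, C = 2 + 2 * C1 + CW + CR * CW * (1 + r) * (1 + √r) +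
      4 * (1 + r ^ 2) * CW * (C1 ^ 2 + 2) + 8 * (1 + r ^ 2) * CW * max K0 0 * (CE * (1 + √r)) ^ 2 +
      4 * (CW * (1 + r) * C1) + r * C1 ^ 2 := ⟨_, rfl⟩
  refine ⟨C, by linarith, fun n J Q Φ hn hJ hΦ => ?_⟩
  have n0 : (0 : ℝ) < n := Nat.cast_pos.2 hn
  have sn := sqrt_pos.2 n0
  have w1 : ∀ Λ ≥ (1 : ℝ), WOk CW r Λ (Lw r) := fun Λ h => hw r Λ hr le_rfl (by linarith) _ (by simp)
  have w2 : ∀ Λ ≥ (1 : ℝ), WOk CW r Λ (rho r) := fun Λ h => hw r Λ hr le_rfl (by linarith) _ (by simp)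
  obtain ⟨-, -, ev, mz, -⟩ := hD n J Q (Eh E n J) C2 hJ (by linarith) (hb n J).1
  have ev := ev k
  have mz := mz k
  have hP := hP n J Q hJ
  have hq : ∀ s, phq Q (Eh E n J) k r s =
      (∫ z, psi Q (Eh E n J) k s (r • sv s + √r • z) ^ 2 ∂gv (Fin n)) / n := fun _ => rfl
  have e0 : ∀ s, Φ s = (∫ z, psi Q (Eh E n J) k s (r • sv s + √r • z) ∂gv (Fin n)) / √n :=
    fun s => by rw [hΦ]; rfl
  simp only [hq]
  beta_reduce at hP
  clear hq hD hb hw hΦ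
  generalize psi Q (Eh E n J) k = ψ at ev mz hP e0 ⊢
  have e1 : Φ = fun s => 1 / √n * cav (Pr n r) (fun s ζ => ψ s (√r • ζ)) s :=
    funext fun s => by rw [e0, cav_r hr]; ring
  have e2 : ∀ s, grad Φ s = (1 / √n) • grad (cav (Pr n r) fun s ζ => ψ s (√r • ζ)) s := fun s => by
    rw [e1, Rec.grad_const_mul]
  have μ0 := Wt.of_pos (w := ising J 0) fun _ => exp_pos _
  obtain ⟨g, ω, β, X, h, -⟩ := hP 1 le_rfl
  have lip : ∀ s, ELip (C1 * √n) (ψ s) := fun s =>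
    elip_of_der (h.der s).1 (h.der s).2.2 fun ζ => (h.gr s ζ).2
  have m0 : mean (ising J 0) Φ = 0 := by
    rw [e1, SL.mean_const_mul, mean_cav_r hr, hRev.pm n J r ψ hr fun s => mg_of_elip (lip s)]
    simp [mz, PM, slE]
  have g0 : ∀ s, nrm (grad Φ s) ≤ CW * (1 + r) * C1 := fun s => by
    rw [e2, nrm_smul, abs_of_nonneg (by positivity), one_div, inv_mul_le_iff₀ sn]
    exact (grad_le hG hCs hr CW1 (w1 1 le_rfl) (w2 1 le_rfl) h s).trans_eq (by ring)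
  have os : ∀ s t, Φ s - Φ t ≤ C * √n := fun s t => by
    refine (S3.Hd.osc (A := (2 * (CW * (1 + r) * C1)) ^ 2) (fun x => (S3.Hb.Vp_le_grad Φ x).trans ?_)
      s t).trans ?_
    · rw [← nrm_sq, mul_pow]
      exact mul_le_mul (by norm_num) (pow_le_pow_left₀ (nrm_nonneg _) (g0 x) 2) (sq_nonneg _)
        (by norm_num)
    · rw [sqrt_sq (by positivity)]
      exact mul_le_mul_of_nonneg_right (by linarith) sn.le
  refine ⟨m0, fun s => ?_, fun s => (g0 s).trans (by linarith), fun s => ?_,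
    fun s => ⟨div_nonneg (integral_nonneg fun _ => sq_nonneg _) n0.le, ?_⟩, fun hA Λ hΛ => ?_⟩
  · rw [e0, e0, ← integral_neg_eq_self]
    simp only [sv_neg, smul_neg, ← neg_add, ev]
  · have a1 := μ0.mean_le (f := fun t => Φ s - Φ t) fun t => os s t
    have a2 := μ0.mean_le (f := fun t => Φ t - Φ s) fun t => os t s
    rw [SL.mean_sub, μ0.mean_const, m0] at a1 a2
    exact abs_le.2 ⟨by linarith, by linarith⟩
  · have a := var_le (elip_aff (lip s) t0 (r • sv s))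
    rw [mul_pow, mul_pow, sq_sqrt hr, sq_sqrt n0.le] at a
    rw [e0, div_pow, sq_sqrt n0.le, div_le_iff₀ n0, add_mul, div_mul_cancel₀ _ n0.ne']
    nlinarith
  obtain ⟨g, ω, β, X, h, hPM⟩ := hP Λ hΛ
  have e3 := (exp_pos (C1 * Λ)).le
  have r0 := r0_mono (r0_smul (r0_add
    (hR n (Fin n) _ _ _ _ _ _ (opn_Pr r) (opn_Pr r) (w1 Λ hΛ).1 (rf_sc h.rω e3 zero_le_one t0))
    (hR n (Fin n) _ _ _ _ _ _ (opn_Pr r) (opn_Pr r) (w2 Λ hΛ).1 (rf_sc h.rβ e3 hr t0)))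
    (by positivity : 0 ≤ 1 / √(n : ℝ))) (e' := exp (C * Λ) / √n) (by
      have a := mul_exp_le A1 hΛ (a := 2 + C1) (C := C) (by linarith)
      rw [add_mul, exp_add] at a
      rw [one_div, inv_mul_eq_div]
      exact div_le_div_of_nonneg_right (le_trans (le_of_eq (by ring)) a) sn.le)
  refine ⟨fun s => (1 / √n) • om r Λ ω β s, fun H H0 => ⟨fun s => ?_, r0.sup, r0.op, fun v hv => ?_⟩⟩
  · simp only [om_odd h, smul_neg]
  have sb := hX n (Fin n) _ _ _ (opn_Pr r) (by positivity) (re_sc h.rX e3 t0)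
  have a1 := S3.Hb.sb (fun _ => exp_pos _) K0' (hA.mono (fun _ => exp_pos _) (le_max_left K0 0) le_rfl)
    (sq_nonneg _) (fun s => (sb s).1) (fun s => (sb s).2) hv.1
  have a2 := Ent.kl_le_log hv.1 μ0.isP hv.2
  rw [log_exp] at a2
  have a3 := (mean_cav_r hr J X).trans_le (hPM hA)
  have a4 := mul_le_mul_of_nonneg_left a2
    (by positivity : 0 ≤ 2 * max K0 0 * (CE * ((1 + √r) * exp (C1 * Λ))) ^ 2)
  refine le_trans (hv.1.mean_mono (g := fun s => 1 / n * (4 * (1 + r ^ 2) *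
    (CW * exp (-(Λ ^ 2 / CW)) * (C1 ^ 2 * n) + CW * cav (Pr n r) (fun s ζ => X s (√r • ζ)) s)))
    fun s => ?_) ?_
  · have a := err_le hG hCs hr (w1 Λ hΛ) (w2 Λ hΛ) h s
    rw [mul_pow, sq_sqrt n0.le] at a
    rw [Reg.sq2, ← nrm_sq, Pi.sub_apply, e2, ← smul_sub, nrm_smul, mul_pow, sq_abs, div_pow, one_pow,
      sq_sqrt n0.le]
    exact mul_le_mul_of_nonneg_left a (by positivity)
  · rw [Ent.mean_const_mul, Ent.mean_const_mul, Ent.mean_add', hv.1.mean_const, Ent.mean_const_mul]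
    refine rho_le (CE := CE * (1 + √r)) n0 C11 CW1 K0' hΛ H0 (by linarith) (by linarith) (by linarith) ?_
    change Chain22.mean (prob (ising J 0)) _ ≤ _ at a3
    rw [mul_assoc CE]
    exact a1.trans (add_le_add (mul_le_mul_of_nonneg_left a3 zero_le_two) a4)

end Crest.Agent.T157.K

end
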