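import Crest.Agent.T157.KRg_75
import Crest.Agent.T157.KFo_54

/-!
# Row 157, part B (helper75): the mixing step `s ↦ s^λ` in the words of the multilinear extension
-/

set_option autoImplicit false
set_option linter.unusedSectionVars false

noncomputable section

namespace Crest.Agent.T157.K75

open MeasureTheory Real Matrix Set Function
open Crest.Agent.T157.E Crest.Agent.T157.SL Crest.Agent.T157.Rec Crest.Agent.T157.Kc
open Crest.Agent.T157.Fo (pm Ext mix pq)
open Crest.Agent.T157.Tap (Cb)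
open Crest.Agent.T157.Conc (en ELip)
open Crest.Agent.T157.Eig (nrm opn)

variable {n : ℕ} {F F' : Cube n → ℝ} {a l : ℝ} {m m' t : Fin n → ℝ}

theorem Ext_grad_sq (hm : Cb m) (F : Cube n → ℝ) :
    (fun j => Ext (fun y => grad F y j) m) ⬝ᵥ (fun j => Ext (fun y => grad F y j) m) ≤
      Ext (fun y => grad F y ⬝ᵥ grad F y) m := by
  simp only [← Fo.mean_pm, dotProduct, mean_sum]
  exact Finset.sum_le_sum fun j _ => by
    simpa only [sub_zero, sq] using mean_sub_sq_le (Fo.wt_pm hm) (fun y => grad F y j) 0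

/-- the multilinear extension is Lipschitz on the solid cube -/
theorem abs_Ext_sub (ha : 0 ≤ a) (hF : ∀ x, grad F x ⬝ᵥ grad F x ≤ a ^ 2) (hm : Cb m) (hm' : Cb m') :
    |Ext F m - Ext F m'| ≤ a * en (m - m') := by
  have hd : ∀ s : ℝ, HasDerivAt (fun s : ℝ => m' + s • (m - m')) (m - m') s := fun s => by
    simpa using ((hasDerivAt_id s).smul_const (m - m')).const_add m'
  have := (convex_Icc (0 : ℝ) 1).norm_image_sub_le_of_norm_hasDerivWithin_le (C := a * en (m - m'))
    (fun s _ => (Fo.hasDerivAt_Ext (hd s) F).hasDerivWithinAt)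
    (fun s hs => by
      have hc : Cb (m' + s • (m - m')) := fun i => by
        have h1 := abs_le.1 (hm i)
        have h2 := abs_le.1 (hm' i)
        simp only [Pi.add_apply, Pi.smul_apply, Pi.sub_apply, smul_eq_mul]
        exact abs_le.2 ⟨by nlinarith [hs.1, hs.2], by nlinarith [hs.1, hs.2]⟩
      rw [Real.norm_eq_abs, mul_comm, en_eq]
      exact (Eig.abs_dot_le _ _).trans (mul_le_mul_of_nonneg_left ((Eig.nrm_le_iff ha).2
        ((Ext_grad_sq hc F).trans (Fo.mean_pm _ _ ▸ (Fo.wt_pm hc).mean_le hF))) (Eig.nrm_nonneg _)))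
    (left_mem_Icc.2 zero_le_one) (right_mem_Icc.2 zero_le_one)
  simpa using this

theorem abs_Ext_sub' {δ : ℝ} (ha : 0 ≤ a) (hF : ∀ x, grad F' x ⬝ᵥ grad F' x ≤ a ^ 2)
    (hδ : ∀ x, |F x - F' x| ≤ δ) (hm : Cb m) (hm' : Cb m') :
    |Ext F m - Ext F' m'| ≤ δ + a * en (m - m') := by
  refine (abs_sub_le _ (Ext F' m) _).trans (add_le_add ?_ (abs_Ext_sub ha hF hm hm'))
  rw [← Fo.mean_pm, ← Fo.mean_pm, ← mean_sub]; exact (Fo.wt_pm hm).abs_mean_le hδ

theorem mix_sub (t t' : Fin n → ℝ) (x : Cube n) (hl : l ∈ Icc (0 : ℝ) 1) :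
    en (mix t x l - mix t' x l) ≤ en (t - t') := by
  rw [mix, mix, add_sub_add_left_eq_sub, ← smul_sub, Conc.en_smul, abs_of_nonneg (by linarith [hl.2])]
  exact mul_le_of_le_one_left (Conc.en_nonneg _) (by linarith [hl.1])

theorem sum_fl (j : Fin n) (G : Cube n → ℝ) : ∑ y, G (fl y j) = ∑ y, G y :=
  Equiv.sum_comp (Involutive.toPerm (fun x : Cube n => fl x j) fun x => by simp [fl]) G

theorem sv_fl_self (x : Cube n) (j : Fin n) : sv (fl x j) j = -sv x j := by
  have := congrFun (sv_fl_sub x j) j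
  simp only [Pi.sub_apply, Pi.single_eq_same] at this
  linarith

/-- one site of the mixing step -/
theorem mix_site (ht : Cb t) (hl : l ∈ Icc (0 : ℝ) 1) (H H' : Cube n → ℝ) (x : Cube n) (j : Fin n) :
    (Ext H (mix t x l) - Ext H' (mix t (fl x j) l)) ^ 2 ≤
      Ext (fun y => (H y - H' y) ^ 2 + (H y - H' (fl y j)) ^ 2) (mix t x l) := by
  have e : ∀ M y, pm M y = (1 + M j * sv y j) / 2 * pq M j y := fun M y =>
    (Finset.mul_prod_erase _ _ (Finset.mem_univ j)).symm
  have eq : ∀ y, pq (mix t (fl x j) l) j y = pq (mix t x l) j y := fun y =>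
    Finset.prod_congr rfl fun i hi => by simp [mix, sv_fl_ne x (Finset.ne_of_mem_erase hi)]
  have qf : ∀ y, pq (mix t x l) j (fl y j) = pq (mix t x l) j y := fun y => Fo.off_pq _ j y _
  have q0 : ∀ y, 0 ≤ pq (mix t x l) j y := fun y => Finset.prod_nonneg fun i _ => by
    have : |mix t x l i * sv y i| ≤ 1 := by rw [abs_mul, Fo.abs_sv, mul_one]; exact Fo.cb_mix ht x hl i
    linarith [neg_abs_le (mix t x l i * sv y i)]
  set α : Cube n → ℝ := fun y => l * (1 + sv x j * sv y j) / 2 * pq (mix t x l) j y with hα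
  set β : Cube n → ℝ := fun y => (1 - l) * (1 + t j * sv y j) / 2 * pq (mix t x l) j y with hβ
  have a0 : ∀ y, 0 ≤ α y := fun y => by
    have : |sv x j * sv y j| ≤ 1 := by rw [abs_mul, Fo.abs_sv, Fo.abs_sv, mul_one]
    exact mul_nonneg (div_nonneg (mul_nonneg hl.1 (by linarith [neg_abs_le (sv x j * sv y j)]))
      zero_le_two) (q0 y)
  have b0 : ∀ y, 0 ≤ β y := fun y => by
    have : |t j * sv y j| ≤ 1 := by rw [abs_mul, Fo.abs_sv, mul_one]; exact ht j
    exact mul_nonneg (div_nonneg (mul_nonneg (by linarith [hl.2])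
      (by linarith [neg_abs_le (t j * sv y j)])) zero_le_two) (q0 y)
  have ab : ∀ y, pm (mix t x l) y = α y + β y := fun y => by
    rw [e]; simp only [hα, hβ, mix, Pi.add_apply, Pi.smul_apply, smul_eq_mul]; ring
  have e2 : Ext H' (mix t (fl x j) l) = ∑ y, (α y * H' (fl y j) + β y * H' y) := by
    rw [Finset.sum_add_distrib, ← sum_fl j fun y => α y * H' (fl y j), ← Finset.sum_add_distrib, Fo.Ext]
    refine Finset.sum_congr rfl fun y _ => ?_
    rw [e, eq, show fl (fl y j) j = y by simp [fl]]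
    simp only [hα, hβ, qf]
    simp only [sv_fl_self, mix, Pi.add_apply, Pi.smul_apply, smul_eq_mul]; ring
  have e3 : Ext H (mix t x l) - Ext H' (mix t (fl x j) l) =
      ∑ y, (α y * (H y - H' (fl y j)) + β y * (H y - H' y)) := by
    rw [e2, Fo.Ext, ← Finset.sum_sub_distrib]
    exact Finset.sum_congr rfl fun y _ => by rw [ab]; ring
  have e4 : ∑ y, (α y + β y) = 1 := by simp only [← ab, Fo.sum_pm]
  set S := Ext H (mix t x l) - Ext H' (mix t (fl x j) l)
  calc S ^ 2 = ∑ y, (2 * S * (α y * (H y - H' (fl y j)) + β y * (H y - H' y)) - S ^ 2 * (α y + β y)) := by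
        rw [Finset.sum_sub_distrib, ← Finset.mul_sum, ← Finset.mul_sum, ← e3, e4]; ring
    _ ≤ _ := Finset.sum_le_sum fun y _ => by
        rw [ab]
        nlinarith [mul_nonneg (a0 y) (sq_nonneg (H y - H' (fl y j) - S)),
          mul_nonneg (b0 y) (sq_nonneg (H y - H' y - S)), mul_nonneg (a0 y) (sq_nonneg (H y - H' y)),
          mul_nonneg (b0 y) (sq_nonneg (H y - H' (fl y j)))]

/-- **mixing step**: the copy `σ` is flipped by the moves, the means `τ` are not moved -/
theorem en_Ext_mix {P : Type*} {mv : Fin n → P → P} {p : P} {σ : P → Cube n} {τ : P → Fin n → ℝ}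
    (hσ : ∀ j, σ (mv j p) = fl (σ p) j) (hτ : ∀ j, τ (mv j p) = τ p) (ht : Cb (τ p))
    (hl : l ∈ Icc (0 : ℝ) 1) (H : P × Cube n → ℝ) :
    En mv (fun q => Ext (fun y => H (q, y)) (mix (τ q) (σ q) l)) p ≤
      Ext (fun y => En (fun j q => (mv j q.1, q.2)) H (p, y) +
        En (fun j q => (mv j q.1, fl q.2 j)) H (p, y)) (mix (τ p) (σ p) l) := by
  simp only [En, hσ, hτ, ← Finset.sum_add_distrib, ← Fo.mean_pm (mix (τ p) (σ p) l) fun _ => ∑ _, _,
    mean_sum, Fo.mean_pm]
  exact Finset.sum_le_sum fun j _ => mix_site ht hl _ _ _ j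

/-- the law does not move -/
theorem en_Ext {P J : Type*} [Fintype J] {mv : J → P → P} {p : P} {M : P → Fin n → ℝ}
    (hM : ∀ j, M (mv j p) = M p) (hc : Cb (M p)) (H : P → Cube n → ℝ) :
    En mv (fun q => Ext (H q) (M q)) p ≤ Ext (fun y => En mv (fun q => H q y) p) (M p) := by
  have := en_mean (m := mv) (p := p) (Fo.wt_pm hc) H
  simpa only [En, hM, Fo.mean_pm] using this

end Crest.Agent.T157.K75
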