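import Crest.Agent.T157.KDef_36
import Crest.Agent.T157.KRgB_75

/-!
# Row 157, part B, block S5 (helper23): the product law, `K.prStmt`
-/

set_option autoImplicit false

noncomputable section

namespace Crest.Agent.T157.K

open MeasureTheory Real Matrix Set Function
open Crest.Agent.T157.E Crest.Agent.T157.Eig Crest.Agent.T157.SL
open Crest.Agent.T157.Tap (V Mx th DD Cb)
open Crest.Agent.T157.Rec (grad fl)
open Crest.Agent.T157.Reg (jac)
open Crest.Agent.T157.S3.Hb (Vp)
open Crest.Agent.T157.Fo (pm Ext mix pq)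
open Crest.Agent.T157.K75 (wt_prod dP hasDerivAt_prod en_eq)

namespace Pr23

variable {n : ℕ} {ω : Cube n → V n} {e : ℝ} {m m' t t' : V n}

theorem nrm_le_of_dot {v : V n} {c : ℝ} (hc : 0 ≤ c) (h : v ⬝ᵥ v ≤ c * nrm v) : nrm v ≤ c := by
  rcases (nrm_nonneg v).eq_or_lt with h0 | h0
  · exact h0 ▸ hc
  · rw [← nrm_mul_self] at h; exact le_of_mul_le_mul_right h h0

theorem nrm_le_of_abs {u v : V n} {c : ℝ} (hc : 0 ≤ c) (h : ∀ i, |u i| ≤ c * |v i|) :
    nrm u ≤ c * nrm v := by
  rw [nrm_le_iff (mul_nonneg hc (nrm_nonneg v)), mul_pow, nrm_sq, dotProduct, dotProduct,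
    Finset.mul_sum]
  refine Finset.sum_le_sum fun i _ => ?_
  have := pow_le_pow_left₀ (abs_nonneg _) (h i) 2
  rw [mul_pow, sq_abs, sq_abs] at this
  simpa only [sq] using this

theorem abs_DD (ht : Cb t) (i : Fin n) : |DD t i| ≤ 1 :=
  (abs_of_nonneg (ht.DD_nonneg i)).trans_le (Tap.DD_le t i)

theorem nrm_DD (ht : Cb t) (v : V n) : nrm (DD t * v) ≤ nrm v := by
  simpa using nrm_le_of_abs (u := DD t * v) (v := v) zero_le_one fun i => by
    rw [Pi.mul_apply, abs_mul]; exact mul_le_mul_of_nonneg_right (abs_DD ht i) (abs_nonneg _)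

theorem e_nonneg (h : R0 e ω) : 0 ≤ e := (opn_nonneg _).trans (h.op fun _ => true)

theorem grad_dot (h : R0 e ω) (a : V n) (x : Cube n) :
    grad (fun x => a ⬝ᵥ ω x) x ⬝ᵥ grad (fun x => a ⬝ᵥ ω x) x ≤ (e / 2 * nrm a) ^ 2 := by
  have h0 := e_nonneg h
  rw [← nrm_le_iff (mul_nonneg (by linarith) (nrm_nonneg a))]
  refine (nrm_le_of_abs (v := (jac ω x)ᵀ *ᵥ a) (c := 1 / 2) (by norm_num) fun j => le_of_eq ?_).trans ?_
  · have : ((jac ω x)ᵀ *ᵥ a) j = a ⬝ᵥ ω (fl x j) - a ⬝ᵥ ω x := by
      simp only [mulVec, dotProduct, transpose_apply, jac, of_apply, ← Finset.sum_sub_distrib]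
      exact Finset.sum_congr rfl fun i _ => by ring
    rw [Rec.grad_eq, this, abs_div, abs_mul, Fo.abs_sv, abs_sub_comm, abs_two]; ring
  · have := (nrm_mulVec_le (jac ω x)ᵀ a).trans
      (mul_le_mul_of_nonneg_right ((opn_transpose _).trans_le (h.op x)) (nrm_nonneg a))
    linarith

theorem abs_tanh_sub (a b : ℝ) : |tanh a - tanh b| ≤ |a - b| := by
  simpa using convex_univ.norm_image_sub_le_of_norm_hasDerivWithin_le (C := 1)
    (fun u _ => (Tap.hasDerivAt_tanh' u).hasDerivWithinAt) (fun u _ => by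
      have := abs_lt.1 (abs_tanh_lt_one u)
      rw [Real.norm_eq_abs, abs_le]; constructor <;> nlinarith) (mem_univ b) (mem_univ a)

theorem abs_tanh_sq_sub (a b : ℝ) : |tanh a ^ 2 - tanh b ^ 2| ≤ |a - b| := by
  simpa using convex_univ.norm_image_sub_le_of_norm_hasDerivWithin_le (C := 1)
    (fun u _ => ((Tap.hasDerivAt_tanh' u).pow 2).hasDerivWithinAt) (fun u _ => by
      have := abs_lt.1 (abs_tanh_lt_one u)
      rw [Real.norm_eq_abs, abs_le]
      norm_num
      generalize tanh u = x at *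
      constructor
      · nlinarith [mul_nonneg (sq_nonneg (2 * x + 1)) (by linarith : 0 ≤ 1 - x), sq_nonneg x]
      · nlinarith [mul_nonneg (sq_nonneg (2 * x - 1)) (by linarith : 0 ≤ 1 + x), sq_nonneg x])
    (mem_univ b) (mem_univ a)

/-- the multilinear extension is affine in each coordinate -/
theorem Ext_site (F : Cube n → ℝ) (j : Fin n) (h : ∀ i, i ≠ j → m' i = m i) :
    Ext F m' - Ext F m = (m' j - m j) * Ext (fun y => grad F y j) m := by
  have e : ∀ M x, pm M x = (1 + M j * sv x j) / 2 * pq M j x := fun M x =>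
    (Finset.mul_prod_erase _ _ (Finset.mem_univ j)).symm
  have eq : ∀ y, pq m' j y = pq m j y := fun y =>
    Finset.prod_congr rfl fun i hi => by rw [h i (Finset.ne_of_mem_erase hi)]
  rw [Fo.Ext_off (Ta.off_grad F j), Fo.Ext, Fo.Ext, ← Finset.sum_sub_distrib, sum_flip j,
    ← mul_div_assoc, Finset.mul_sum]
  congr 1
  refine Finset.sum_congr rfl fun x _ => ?_
  simp only [e, eq, Fo.off_pq m j x, sv, update_self, Crest.ProbabilityR.SpinGlassDynamics.spin, grad,
    incr]
  simp; ring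

theorem cont_mix (F : Cube n → ℝ) (t : V n) (s : Cube n) : Continuous fun l => Ext F (mix t s l) :=
  (Fo.continuous_Ext _).comp (by unfold mix; fun_prop)

theorem dot_vO (a : V n) (ω : Cube n → V n) (t : V n) (s : Cube n) :
    a ⬝ᵥ vO ω t s = ∫ l in (0 : ℝ)..1, Ext (fun y => a ⬝ᵥ ω y) (mix t s l) := by
  change ∑ j, a j * ∫ l in (0 : ℝ)..1, Ext (fun y => ω y j) (mix t s l) = _
  simp only [← intervalIntegral.integral_const_mul]
  have hc : ∀ j, Continuous fun l => a j * Ext (fun y => ω y j) (mix t s l) := fun j =>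
    continuous_const.mul (cont_mix _ t s)
  rw [← intervalIntegral.integral_finsetSum fun j _ => (hc j).intervalIntegrable _ _]
  simp only [Fo.Ext, Finset.mul_sum, dotProduct]
  congr 1; ext l
  rw [Finset.sum_comm]
  simp only [mul_left_comm]

theorem abs_int_le {f : ℝ → ℝ} {c : ℝ} (h : ∀ l ∈ Icc (0 : ℝ) 1, |f l| ≤ c) :
    |∫ l in (0 : ℝ)..1, f l| ≤ c := by
  simpa using intervalIntegral.norm_integral_le_of_norm_le_const (a := 0) (b := 1) (C := c) (f := f)
    fun l hl => h l (by rw [uIoc_of_le zero_le_one] at hl; exact Ioc_subset_Icc_self hl)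

theorem abs_vO (h : R0 e ω) (ht : Cb t) (s : Cube n) (j : Fin n) : |vO ω t s j| ≤ e :=
  abs_int_le (f := fun l => Ext (fun y => ω y j) (mix t s l)) fun _ hl =>
    Fo.abs_Ext_le (Fo.cb_mix ht s hl) fun y => h.sup y j

theorem vO_lip (h : R0 e ω) (ht : Cb t) (ht' : Cb t') (s : Cube n) :
    nrm (vO ω t s - vO ω t' s) ≤ e / 2 * nrm (t - t') := by
  have h0 : 0 ≤ e / 2 := by linarith [e_nonneg h]
  refine nrm_le_of_dot (mul_nonneg h0 (nrm_nonneg _)) ?_
  generalize hv : vO ω t s - vO ω t' s = v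
  nth_rewrite 2 [← hv]
  rw [dotProduct_sub, dot_vO, dot_vO, ← intervalIntegral.integral_sub
    ((cont_mix _ t s).intervalIntegrable _ _) ((cont_mix _ t' s).intervalIntegrable _ _)]
  refine (le_abs_self _).trans (abs_int_le fun l hl => ?_)
  refine (K75.abs_Ext_sub (mul_nonneg h0 (nrm_nonneg v)) (grad_dot h v) (Fo.cb_mix ht s hl)
    (Fo.cb_mix ht' s hl)).trans ?_
  rw [mul_right_comm _ _ (nrm v), ← en_eq (t - t')]
  exact mul_le_mul_of_nonneg_left (K75.mix_sub t t' s hl) (mul_nonneg h0 (nrm_nonneg v))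

theorem vO_op (h : R0 e ω) (ht : Cb t) (s : Cube n) : opn (jac (fun s => DD t * vO ω t s) s) ≤ e := by
  have h0 := e_nonneg h
  refine opn_le_of_bil h0 fun u c => ?_
  set G : Cube n → ℝ := fun y => (DD t * u) ⬝ᵥ ω y with hG
  have e1 : u ⬝ᵥ jac (fun s => DD t * vO ω t s) s *ᵥ c =
      ∑ j, c j * ((DD t * u) ⬝ᵥ vO ω t (fl s j) - (DD t * u) ⬝ᵥ vO ω t s) := by
    simp only [mulVec, dotProduct, jac, of_apply, Finset.mul_sum, ← Finset.sum_sub_distrib,
      Pi.mul_apply]
    rw [Finset.sum_comm]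
    exact Finset.sum_congr rfl fun j _ => Finset.sum_congr rfl fun i _ => by ring
  have e2 : ∀ l, ∑ j, c j * (Ext G (mix t (fl s j) l) - Ext G (mix t s l)) =
      -2 * l * Ext (fun y => (sv s * c) ⬝ᵥ grad G y) (mix t s l) := fun l => by
    simp only [dotProduct, ← Fo.mean_pm (mix t s l) fun _ => ∑ _, _, mean_sum, mean_const_mul,
      Fo.mean_pm, Finset.mul_sum]
    refine Finset.sum_congr rfl fun j _ => ?_
    rw [Ext_site G j fun i hi => by simp [mix, Rec.sv_fl_ne s hi]]
    simp only [mix, Pi.add_apply, Pi.smul_apply, smul_eq_mul, K75.sv_fl_self, Pi.mul_apply]; ring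
  have hi : ∀ s, IntervalIntegrable (fun l => Ext G (mix t s l)) volume 0 1 := fun s =>
    (cont_mix G t s).intervalIntegrable _ _
  simp only [e1, dot_vO, ← hG, ← intervalIntegral.integral_sub (hi _) (hi _),
    ← intervalIntegral.integral_const_mul]
  rw [← intervalIntegral.integral_finsetSum fun j _ => ((hi _).sub (hi _)).const_mul _]
  refine (le_abs_self _).trans (abs_int_le fun l hl => ?_)
  have b1 : nrm (sv s * c) ≤ nrm c := by
    simpa using nrm_le_of_abs (u := sv s * c) (v := c) zero_le_one fun i => by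
      rw [Pi.mul_apply, abs_mul, Fo.abs_sv]
  have b2 : |Ext (fun y => (sv s * c) ⬝ᵥ grad G y) (mix t s l)| ≤ nrm c * (e / 2 * nrm u) :=
    Fo.abs_Ext_le (Fo.cb_mix ht s hl) fun y => (abs_dot_le _ _).trans (mul_le_mul b1
      (((nrm_le_iff (mul_nonneg (by linarith) (nrm_nonneg _))).2 (grad_dot h _ y)).trans
        (mul_le_mul_of_nonneg_left (nrm_DD ht u) (by linarith))) (nrm_nonneg _) (nrm_nonneg _))
  rw [e2, abs_mul, abs_mul, abs_neg, abs_two, abs_of_nonneg hl.1]
  nlinarith [hl.1, hl.2, abs_nonneg (Ext (fun y => (sv s * c) ⬝ᵥ grad G y) (mix t s l))]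

/-- the covariance with a spin is controlled by the one-sided increments -/
theorem abs_dP (X : Cube n → ℝ) (h : V n) (j : Fin n) :
    |dP X h j| ≤ 2 * mean (ising 0 h) fun x => max (X x - X (fl x j)) 0 := by
  have ht := Tap.cb_th h
  have e : ∀ x, pm (th h) x = (1 + th h j * sv x j) / 2 * pq (th h) j x := fun x =>
    (Finset.mul_prod_erase _ _ (Finset.mem_univ j)).symm
  have q0 : ∀ y, 0 ≤ pq (th h) j y := fun y => Finset.prod_nonneg fun i _ => by
    have : |th h i * sv y i| ≤ 1 := by rw [abs_mul, Fo.abs_sv, mul_one]; exact ht i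
    linarith [neg_abs_le (th h i * sv y i)]
  rw [dP, Fo.mean_ising0, Fo.mean_ising0, Fo.Ext_off (Ta.off_grad X j), Fo.Ext, sum_flip j
    fun x => pm _ x * _, ← mul_div_assoc, Finset.mul_sum, abs_div, abs_two, mul_div_cancel₀ _ two_ne_zero,
    div_le_iff₀ two_pos, Finset.sum_mul]
  refine (Finset.abs_sum_le_sum_abs _ _).trans (Finset.sum_le_sum fun x _ => ?_)
  have hj := abs_le.1 (ht j)
  have hq := q0 x
  simp only [e, Fo.off_pq (th h) j x, sv, update_self, Crest.ProbabilityR.SpinGlassDynamics.spin, grad,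
    incr, fl, update_idem, th] at hj ⊢
  simp only [Bool.not_true, Bool.not_false, if_true, Bool.false_eq_true, if_false]
  generalize tanh (h j) = τ at *
  generalize pq _ j x = q at *
  generalize X (update x j true) = a
  generalize X (update x j false) = b
  have p1 := mul_nonneg hq (sq_nonneg (1 + τ))
  have p2 := mul_nonneg hq (sq_nonneg (1 - τ))
  have p3 : 0 ≤ q * (1 - τ ^ 2) := mul_nonneg hq (by nlinarith)
  rcases le_total a b with hab | hab
  · rw [max_eq_right (by linarith), max_eq_left (by linarith), abs_of_nonpos (by nlinarith)]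
    nlinarith
  · rw [max_eq_left (by linarith), max_eq_right (by linarith), abs_of_nonneg (by nlinarith)]
    nlinarith

theorem abs_dot_dP {X : Cube n → ℝ} (he : 0 ≤ e) (hX : SB (e ^ 2) X) (h v : V n) :
    |v ⬝ᵥ dP X h| ≤ 2 * (e * nrm v) * √(mean (ising 0 h) X) := by
  have h1 : |v ⬝ᵥ dP X h| ≤ 2 * mean (ising 0 h) fun x => ∑ j, |v j| * max (X x - X (fl x j)) 0 := by
    rw [mean_sum, Finset.mul_sum]
    refine (Finset.abs_sum_le_sum_abs _ _).trans (Finset.sum_le_sum fun j _ => ?_)
    rw [abs_mul, mean_const_mul, mul_left_comm]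
    exact mul_le_mul_of_nonneg_left (abs_dP X h j) (abs_nonneg _)
  have h2 : ∀ x, ∑ j, |v j| * max (X x - X (fl x j)) 0 ≤ e * nrm v * √(X x) := fun x => by
    refine (dot_le (fun j => |v j|) fun j => max (X x - X (fl x j)) 0).trans ?_
    rw [mul_comm e, mul_assoc]
    refine mul_le_mul (le_of_eq ?_) ?_ (nrm_nonneg _) (nrm_nonneg _)
    · simp only [nrm, dotProduct, abs_mul_abs_self]
    · rw [nrm_le_iff (mul_nonneg he (sqrt_nonneg _)), mul_pow, sq_sqrt (hX x).1]
      simpa only [Vp, dotProduct, sq] using (hX x).2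
  have h3 : (mean (ising 0 h) fun x => √(X x)) ≤ √(mean (ising 0 h) X) := by
    refine le_sqrt_of_sq_le ?_
    simpa only [sub_zero, sq_sqrt (hX _).1] using Kc.mean_sub_sq_le (wt_prod h) (fun x => √(X x)) 0
  have h4 := (wt_prod h).mean_mono h2
  rw [mean_const_mul] at h4
  have h5 := mul_le_mul_of_nonneg_left h3 (mul_nonneg he (nrm_nonneg v))
  linarith

end Pr23

open Pr23 in
theorem prStmt : PrStmt where
  der n F := by
    have hc : ContDiff ℝ 1 fun h : V n => mean (ising 0 h) F := by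
      have h1 : ∀ x : Cube n, ContDiff ℝ 1 fun h : V n => ising 0 h x := fun x => by
        unfold ising dotProduct; fun_prop
      simp only [mean_eq_div]
      exact (ContDiff.sum fun x _ => (h1 x).mul contDiff_const).div (ContDiff.sum fun x _ => h1 x)
        fun h => (wt_prod h).2.ne'
    refine ⟨hc, fun h v => ?_⟩
    have h1 := ((hc.differentiable one_ne_zero h).hasFDerivAt.hasLineDerivAt v).unique
      (hasDerivAt_prod F h v 0)
    rw [h1, zero_smul, add_zero, dotProduct_comm]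
    rfl
  ml n F h := Fo.mean_ising0 h F
  lip n ω e hω h h' := by
    have h0 := e_nonneg hω
    refine nrm_le_of_dot (mul_nonneg h0 (nrm_nonneg _)) ?_
    generalize hv : meanV (ising 0 h) ω - meanV (ising 0 h') ω = v
    nth_rewrite 2 [← hv]
    have e1 : ∀ w, v ⬝ᵥ meanV w ω = mean w fun x => v ⬝ᵥ ω x := fun w => by
      simp only [dotProduct, meanV, mean_sum, mean_const_mul]
    have := (le_abs_self _).trans (K75.elip_prod (mul_nonneg (by linarith) (nrm_nonneg v))
      (grad_dot hω v) h h')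
    rw [dotProduct_sub, e1, e1]
    rw [en_eq] at this
    nlinarith [mul_nonneg h0 (mul_nonneg (nrm_nonneg v) (nrm_nonneg (h - h')))]
  sq n X e he hX h h' := by
    by_cases h0 : ∀ x, X x = 0
    · simpa [funext h0, (wt_prod _).mean_const] using
        mul_nonneg (mul_nonneg zero_le_two he) (Conc.en_nonneg (h - h'))
    obtain ⟨x0, hx⟩ := not_forall.1 h0
    have hp : ∀ h : V n, 0 < mean (ising 0 h) X := fun h => by
      rw [mean_eq_div]
      exact div_pos (Finset.sum_pos' (fun x _ => mul_nonneg (exp_pos _).le (hX x).1)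
        ⟨x0, Finset.mem_univ _, mul_pos (exp_pos _) ((hX x0).1.lt_of_ne' hx)⟩) (wt_prod h).2
    have := convex_univ.norm_image_sub_le_of_norm_hasDerivWithin_le (C := e * nrm (h - h'))
      (fun s _ => ((hasDerivAt_prod X h' (h - h') s).sqrt (hp _).ne').hasDerivWithinAt)
      (fun s _ => by
        have h1 := sqrt_pos.2 (hp (h' + s • (h - h')))
        rw [Real.norm_eq_abs, abs_div, abs_of_pos (mul_pos two_pos h1), div_le_iff₀ (mul_pos two_pos h1)]
        linarith [abs_dot_dP he hX (h' + s • (h - h')) (h - h')])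
      (mem_univ 0) (mem_univ 1)
    simp only [one_smul, add_sub_cancel, zero_smul, add_zero, sub_zero, norm_one, mul_one,
      Real.norm_eq_abs] at this
    rw [en_eq]
    linarith [mul_nonneg he (nrm_nonneg (h - h'))]
  neg n F h := by
    have s1 : ∀ G : Cube n → ℝ, ∑ x, G x = ∑ x, G (Reg.neg x) := fun G =>
      (Equiv.sum_comp (Involutive.toPerm Reg.neg fun x => by ext i; simp [Reg.neg]) G).symm
    have s2 : ∀ x : Cube n, ising 0 (-h) (Reg.neg x) = ising 0 h x := fun x => by
      have : sv (Reg.neg x) = -sv x := funext fun _ => spin_not _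
      simp [ising, this]
    rw [mean_eq_div, mean_eq_div, s1, s1 (ising 0 (-h))]
    simp only [s2]
  seg n ω e hω := by
    have h0 := e_nonneg hω
    refine ⟨fun h => ⟨fun s i => ?_, fun s => (vO_op hω (Tap.cb_th h) s).trans (by linarith)⟩,
      fun s h h' => ?_⟩
    · rw [Pi.mul_apply, abs_mul]
      nlinarith [abs_DD (Tap.cb_th h) i, abs_vO hω (Tap.cb_th h) s i, abs_nonneg (vO ω (th h) s i)]
    have b1 : nrm (th h - th h') ≤ 1 * nrm (h - h') := nrm_le_of_abs zero_le_one fun i => by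
      rw [one_mul]; exact abs_tanh_sub _ _
    have b2 : nrm ((DD (th h) - DD (th h')) * vO ω (th h') s) ≤ e * nrm (h - h') :=
      nrm_le_of_abs h0 fun i => by
        rw [Pi.mul_apply, abs_mul, mul_comm]
        refine mul_le_mul (abs_vO hω (Tap.cb_th h') s i) ?_ (abs_nonneg _) h0
        simpa only [Pi.sub_apply, DD, th, sub_sub_sub_cancel_left, abs_sub_comm (h i)] using
          abs_tanh_sq_sub (h' i) (h i)
    have b3 := (nrm_DD (Tap.cb_th h) _).trans (vO_lip hω (Tap.cb_th h) (Tap.cb_th h') s)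
    have b4 := nrm_add_le (DD (th h) * (vO ω (th h) s - vO ω (th h') s))
      ((DD (th h) - DD (th h')) * vO ω (th h') s)
    rw [mul_sub, sub_mul, sub_add_sub_cancel, ← mul_sub, ← sub_mul] at b4
    nlinarith [mul_nonneg h0 (nrm_nonneg (h - h'))]

end Crest.Agent.T157.K

end
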