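import Crest.Agent.T157.KDef_36

/-!
# Row 157, part B, block S5 (helper74): regular errors pass through channels
-/

set_option autoImplicit false
set_option linter.unusedSectionVars false

noncomputable section

namespace Crest.Agent.T157.K

open MeasureTheory Real Matrix Finset
open Crest.Agent.T157.E Crest.Agent.T157.Eig
open Crest.Agent.T157.Rec (fl)
open Crest.Agent.T157.Conc (ELip gr2)
open Crest.Agent.T157.S3.Hb (Vp)
open Crest.Agent.T157.SL (MG)

namespace Re74

variable {κ : Type} [Fintype κ] [DecidableEq κ]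

/-- variance of the square of a bounded Lipschitz function -/
theorem var_sq_le {g : (κ → ℝ) → ℝ} {e M : ℝ} (h : ELip e g) (hM : ∀ z, |g z| ≤ M) :
    ∫ z, (g z ^ 2 - ∫ y, g y ^ 2 ∂gv κ) ^ 2 ∂gv κ ≤ 4 * e ^ 2 * ∫ z, g z ^ 2 ∂gv κ := by
  have M0 : 0 ≤ M := (abs_nonneg _).trans (hM 0)
  have h2 : ELip (2 * M * e) fun z => g z ^ 2 := fun x y => by
    rw [sq_sub_sq, abs_mul, mul_assoc (2 * M)]
    exact mul_le_mul ((abs_add_le _ _).trans (by linarith [hM x, hM y])) (h x y) (abs_nonneg _)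
      (by positivity)
  refine (Conc.poincare h2).trans ?_
  rw [← integral_const_mul]
  refine integral_mono_ae h2.integrable_gr2 ((h.integrable_pow 2).const_mul _) ?_
  filter_upwards [h.ae_differentiable] with z hz
  rw [Conc.gr2_comp (φ := fun u => u ^ 2) hz (hasDerivAt_pow 2 (g z))]
  have := mul_le_mul_of_nonneg_left (h.gr2_le z) (show 0 ≤ 4 * g z ^ 2 by positivity)
  simp only [Nat.cast_ofNat, Nat.add_one_sub_one, pow_one]
  linarith

variable {n : ℕ} {X : Cube n → (κ → ℝ) → ℝ} {e : ℝ}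

theorem nn (h : RE e X) (s : Cube n) (ζ : κ → ℝ) : 0 ≤ X s ζ := (h.sb ζ s).1

theorem cont (h : RE e X) (s : Cube n) : Continuous (X s) := by
  have : X s = fun ζ => √(X s ζ) ^ 2 := funext fun ζ => (sq_sqrt (nn h s ζ)).symm
  rw [this]; exact (h.lip s).continuous.pow 2

theorem mg (h : RE e X) (s : Cube n) (a : κ → ℝ) : MG fun z => X s (a + z) := by
  obtain ⟨M, hM⟩ := h.bd
  exact .of_bdd ((cont h s).comp (continuous_const.add continuous_id)).measurable M fun z => by
    rw [abs_of_nonneg (nn h s _)]; exact hM _ _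

theorem var_le (h : RE e X) (s : Cube n) (a : κ → ℝ) :
    ∫ z, (X s (a + z) - ∫ y, X s (a + y) ∂gv κ) ^ 2 ∂gv κ ≤ 4 * e ^ 2 * ∫ z, X s (a + z) ∂gv κ := by
  obtain ⟨M, hM⟩ := h.bd
  have := var_sq_le (g := fun z => √(X s (a + z))) (M := √M) (fun x y => by
    simpa only [add_sub_add_left_eq_sub] using h.lip s (a + x) (a + y)) fun z => by
    rw [abs_of_nonneg (sqrt_nonneg _)]; exact sqrt_le_sqrt (hM _ _)
  simpa only [sq_sqrt (nn h s _)] using this

end Re74

open Re74

theorem reStmt : REStmt := fun B => by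
  set l := 4 * B ^ 2 with hl
  have l0 : 0 ≤ l := by positivity
  have x1 : 1 ≤ exp l := one_le_exp l0
  refine ⟨(8 * l + 2) * exp l, by nlinarith, fun n κ _ _ P X e hP _ h s =>
    ⟨integral_nonneg fun z => nn h s _, ?_⟩⟩
  have fg : Kc.FG (fun x => P *ᵥ sv x) (B ^ 2) := Kc.fg_lin (sq_nonneg B) fun u => by
    rw [← nrm_sq, ← nrm_sq, ← mul_pow]
    exact pow_le_pow_left₀ (nrm_nonneg _) ((nrm_mulVec_le P u).trans
      (mul_le_mul_of_nonneg_right hP (nrm_nonneg u))) 2
  set a := P *ᵥ sv s with ha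
  set v : Fin n → κ → ℝ := fun j => P *ᵥ sv (fl s j) - a with hv
  have hd : ∀ j, v j ⬝ᵥ v j ≤ l := fun j => fg.one s j
  have k1 := (Kc.cm_le (v := v) l0 (fg.2 s) hd (mg h s a) _).trans
    (mul_le_mul_of_nonneg_left (var_le h s a) (by positivity))
  set H : Fin n → (κ → ℝ) → ℝ := fun j z => max (X s (a + z) - X (fl s j) (a + z)) 0 with hH
  have mH : ∀ j, MG (H j) := fun j => ((mg h s a).sub (mg h _ a)).of_le
    (((mg h s a).sub (mg h (fl s j) a)).meas.max measurable_const) fun z => by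
      rw [abs_of_nonneg (le_max_right _ _)]; exact max_le (le_abs_self _) (abs_nonneg _)
  have mH2 : ∀ j, MG fun z => H j z ^ 2 := fun j => by simpa only [sq] using (mH j).mul (mH j)
  have k2 : ∑ j, (∫ z, H j (v j + z) ∂gv κ) ^ 2 ≤ exp l * (e ^ 2 * ∫ z, X s (a + z) ∂gv κ) := by
    refine (sum_le_sum fun j _ => (Kc.shift_sq_le (mH j) (v j)).trans (mul_le_mul_of_nonneg_right
      (exp_le_exp.2 (hd j)) (integral_nonneg fun z => sq_nonneg _))).trans ?_
    rw [← mul_sum, ← integral_finsetSum _ fun j _ => (mH2 j).int, ← integral_const_mul (e ^ 2)]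
    exact mul_le_mul_of_nonneg_left (integral_mono (MG.sum _ fun j _ => mH2 j).int
      ((mg h s a).int.const_mul _) fun z => (h.sb (a + z) s).2) (exp_pos _).le
  have k3 : ∀ j, max (cav P X s - cav P X (fl s j)) 0 ^ 2 ≤
      2 * (∫ z, X s (a + z) ∂gv κ - ∫ z, X s (a + (v j + z)) ∂gv κ) ^ 2 +
        2 * (∫ z, H j (v j + z) ∂gv κ) ^ 2 := fun j => by
    have e1 : cav P X (fl s j) = ∫ z, X (fl s j) (a + (v j + z)) ∂gv κ := by
      simp only [cav, hv, ← add_assoc, add_sub_cancel]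
    have i1 : ∀ t, Integrable (fun z => X t (a + (v j + z))) (gv κ) := fun t => by
      simpa only [add_assoc] using (mg h t (a + v j)).int
    have i2 : Integrable (fun z => H j (v j + z)) (gv κ) := by
      simpa only [one_smul] using ((mH j).affine (v j) 1).int
    have b1 : ∫ z, X s (a + (v j + z)) ∂gv κ - ∫ z, X (fl s j) (a + (v j + z)) ∂gv κ ≤
        ∫ z, H j (v j + z) ∂gv κ := by
      rw [← integral_sub (i1 _) (i1 _)]
      exact integral_mono ((i1 _).sub (i1 _)) i2 fun z => le_max_left _ _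
    have b2 : 0 ≤ ∫ z, H j (v j + z) ∂gv κ := integral_nonneg fun z => le_max_right _ _
    rw [e1]
    change max (∫ z, X s (a + z) ∂gv κ - _) 0 ^ 2 ≤ _
    generalize ∫ z, X s (a + z) ∂gv κ = p, ∫ z, X s (a + (v j + z)) ∂gv κ = q,
      ∫ z, X (fl s j) (a + (v j + z)) ∂gv κ = r, ∫ z, H j (v j + z) ∂gv κ = b at b1 b2 ⊢
    refine (pow_le_pow_left₀ (le_max_right _ _) (max_le (show _ ≤ |p - q| + b by
      linarith [le_abs_self (p - q)]) (by positivity)) 2).trans ?_
    nlinarith [sq_nonneg (|p - q| - b), sq_abs (p - q)]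
  have I0 : 0 ≤ e ^ 2 * ∫ z, X s (a + z) ∂gv κ :=
    mul_nonneg (sq_nonneg e) (integral_nonneg fun z => nn h s _)
  refine (sum_le_sum fun j _ => k3 j).trans ?_
  rw [sum_add_distrib, ← mul_sum, ← mul_sum]
  change _ ≤ _ * ∫ z, X s (a + z) ∂gv κ
  have c1 : 1 ≤ (8 * l + 2) * exp l := by nlinarith
  have := mul_le_mul_of_nonneg_right (le_self_pow₀ c1 two_ne_zero) I0
  rw [mul_pow, mul_assoc]
  linarith

end Crest.Agent.T157.K

end
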