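import Crest.Agent.T157.KDef_36
import Crest.Agent.T157.KRg_75

/-!
# Row 157, part B, block S5 (helper53): `K.RevStmt`, `K.GapStmt`
-/

set_option autoImplicit false

noncomputable section

namespace Crest.Agent.T157.K

open MeasureTheory ProbabilityTheory Real Matrix Finset
open Crest.Agent.T157.E Crest.Agent.T157.Eig Crest.Agent.T157.Kc
open Crest.Agent.T157.Tap (V Mx)
open Crest.Agent.T157.Rec (grad)
open Crest.Agent.T157.SL (Wt MG)

namespace Rev53

variable {n : ℕ} {J Q : Mx n}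

theorem wt (J : Mx n) (y : V n) : Wt (ising J y) := .of_pos fun _ => exp_pos _

theorem hs (h : JQ J Q) : (1 : ℝ) • (Qᵀ * Q) = J + (4 : ℝ) • (1 : Mx n) := by
  rw [one_smul, h.qs, h.qq]

theorem post_eq (h : JQ J Q) (y u : V n) (f : Cube n → ℝ) :
    mean (post (fun x => Q *ᵥ sv x) (ising J y) 1 u) f = mean (pw Q y u) f := by
  rw [mean_post_hs (hs h), h.qs, pw]

theorem kf (h : JQ J Q) (y : V n) : Ky Q y = Kf (fun x => Q *ᵥ sv x) (ising J y) 1 := by
  funext F
  simp only [Ky, cav_eq, Kf, post_eq h]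

theorem inv (h : JQ J Q) (y : V n) (F : Cube n → ℝ) :
    mean (ising J y) (Ky Q y F) = mean (ising J y) F := by
  rw [kf h, mean_Kf (wt J y) zero_le_one]

theorem pm (J : Mx n) {r : ℝ} {X : F2 n} (hr : 0 ≤ r) (hX : ∀ s, MG (X s)) :
    PM J r X = PM J r fun _ y => mean (ising J y) fun t => X t y := by
  rw [PM, SL.bayes (wt J 0) hr (.of_mg hX)]
  simp only [PM, mean, prob_post_sv, tilt_ising, zero_add]

theorem cont_prob (s : Cube n) : Continuous fun x : V n => prob (ising 0 x) s := by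
  have c : ∀ s, Continuous fun x : V n => ising 0 x s := fun s => by
    simp only [ising, dotProduct]; fun_prop
  exact (c s).div (continuous_finsetSum _ fun x _ => c x) fun x => (wt 0 x).pos.ne'

theorem mg_Kop (Q : Mx n) {X : F2 n} (hc : ∀ s, Continuous (X s)) {B : ℝ} (hB : ∀ s y, |X s y| ≤ B)
    (s : Cube n) : MG (Kop Q X s) := by
  have c : Continuous fun p : V n × V n => mean (pw Q p.1 (Q *ᵥ sv s + p.2)) fun t => X t p.1 :=
    continuous_finsetSum _ fun t _ =>
      ((cont_prob t).comp (f := fun p : V n × V n => p.1 + Q *ᵥ (Q *ᵥ sv s + p.2))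
        (by fun_prop)).mul ((hc t).comp continuous_fst)
  refine .of_bdd c.stronglyMeasurable.integral_prod_right'.measurable B fun y => ?_
  exact (norm_integral_le_of_norm_le_const (μ := gv (Fin n)) (C := B)
    (f := fun z => mean (pw Q y (Q *ᵥ sv s + z)) fun t => X t y)
    (.of_forall fun z => (wt 0 _).abs_mean_le fun t => hB t y)).trans_eq (by simp)

theorem opQ (h : JQ J Q) : opn Q ≤ 3 ∧ opn (Q * Q) ≤ 7 ∧ ∀ j, (Qᵀ * Q) j j = 4 := by
  have h1 : opn (Q * Q) ≤ 7 := by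
    rw [h.qq]
    refine (opn_add_le _ _).trans ?_
    rw [opn_smul, abs_of_pos four_pos]
    linarith [h.op, opn_one_le (ι := Fin n)]
  refine ⟨?_, h1, fun j => by simp [h.qs, h.qq, h.diag]⟩
  have := opn_transpose_mul_self Q
  rw [h.qs] at this
  nlinarith

end Rev53

open Rev53

theorem revStmt : RevStmt where
  bayes n J Q y F h hF := by
    rw [cav_eq, cav_eq, ← Rec.slE_eq_Pm, ← Rec.slE_eq_Pm,
      SL.bayes (wt J y) zero_le_one (.of_mg hF)]
    simp only [post_eq h]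
  inv _ _ _ y F h := inv h y F
  kf _ _ _ y h := kf h y
  pm _ J _ _ hr hX := pm J hr hX
  pmK n J Q r X h hr hc hB := by
    obtain ⟨B, hB⟩ := hB
    rw [pm J hr (mg_Kop Q hc hB), pm J hr fun s => .of_bdd (hc s).measurable B (hB s)]
    exact congrArg (PM J r) (funext fun _ => funext fun y => inv h y _)
  opQ _ _ _ h := opQ h

theorem gapStmt : GapStmt := by
  intro K0
  obtain ⟨G, hG⟩ : ∃ G, G = Ga 1 7 := ⟨_, rfl⟩
  have G1 : 1 ≤ G := by
    rw [hG, Ga]; nlinarith [one_le_exp (show (0 : ℝ) ≤ 4 * 1 * 7 by norm_num)]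
  obtain ⟨a, ha⟩ : ∃ a, a = (|K0| + 1) * G := ⟨_, rfl⟩
  have a1 : 1 ≤ a := ha ▸ one_le_mul_of_one_le_of_one_le (by linarith [abs_nonneg K0]) G1
  obtain ⟨γ, hγ⟩ : ∃ γ, γ = (1 + a)⁻¹ := ⟨_, rfl⟩
  have γ0 : 0 < γ := hγ ▸ by positivity
  have γ1 : γ * (1 + a) = 1 := hγ ▸ inv_mul_cancel₀ (by positivity)
  have γ2 : γ < 1 := by nlinarith
  obtain ⟨C, hC⟩ : ∃ C, C = 1 + a + 7 * G := ⟨_, rfl⟩
  obtain ⟨D, hD⟩ : ∃ D, D = 2 / γ + 1 := ⟨_, rfl⟩
  have D1 : 1 ≤ D := hD ▸ le_add_of_nonneg_left (by positivity)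
  have C1 : 1 ≤ C := by linarith
  have CD : C ≤ D ^ 2 * C := le_mul_of_one_le_left (by linarith) (one_le_pow₀ D1)
  refine ⟨γ, D ^ 2 * C, γ0, γ2, C1.trans CD, fun n J Q y ε A F k h hA hF => ?_⟩
  simp only [nrm_sq, Ks, kf h] at hF ⊢
  have hw : ∀ x, 0 < ising J y x := fun _ => exp_pos _
  have W := wt J y
  have hl : opn (Qᵀ * Q) ≤ 7 := by rw [h.qs]; exact (opQ h).2.1
  have fg := fg_opn hl
  have A0 : 0 ≤ A := (dot_self_nonneg _).trans (hF default)
  have εA : 0 ≤ ε * A := mul_nonneg hA.nn A0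
  have V0 := W.var_nonneg F
  have M0 : 0 ≤ mean (ising J y) fun s => grad F s ⬝ᵥ grad F s :=
    W.mean_nonneg fun _ => dot_self_nonneg _
  have KG : K0 * G ≤ a := ha ▸ mul_le_mul_of_nonneg_right (by linarith [le_abs_self K0]) (by linarith)
  have q0 : 0 ≤ 1 - γ := by linarith
  have p1 : var (ising J y) F ≤ K0 * (mean (ising J y) fun s => grad F s ⬝ᵥ grad F s) + ε * A :=
    S3.Hd.var_le_grad hw hA hF
  have g1 := fun k x => K75.grad_iter_le zero_le_one (hs h) hl y k F x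
  have g2 := fun g => (fg.mean_grad_Kf W zero_le_one g).trans (mul_le_mul_of_nonneg_left
    ((le_add_of_nonneg_left (SL.slE_nonneg W fun _ _ => sq_nonneg _)).trans_eq
      (var_split W zero_le_one g).symm) (Ga_nonneg zero_le_one fg.1))
  have hB := S3.Hd.sub_mean_le hw (S3.Hd.osc (S3.Hd.vp4 hF))
  have g3 : ∀ k, var (ising J y) ((Kf (fun x => Q *ᵥ sv x) (ising J y) 1)^[k] F) ≤
      (1 - γ) ^ k * var (ising J y) F + ε * A := fun k => by
    induction k with
    | zero => simpa using εA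
    | succ k ih =>
      have h1 := fg.gap (g := (Kf (fun x => Q *ᵥ sv x) (ising J y) 1)^[k] F) hw zero_le_one
        (K := |K0| + 1) (by positivity) (ε := ε * A)
        ((hA.mono (by linarith [le_abs_self K0]) le_rfl).poinc hw _
          (abs_Kf_sub_le W (abs_iter_le W hB k)) A0 (by
            rw [S3.Hd.osc_sq (by positivity)]
            nlinarith [mul_le_mul_of_nonneg_left (S3.Hd.n_le_sq n) A0,
              mul_nonneg A0 (sq_nonneg (n : ℝ))]))
      rw [← hG, ← ha] at h1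
      rw [Function.iterate_succ_apply']
      refine le_of_mul_le_mul_left (h1.trans ?_) (show 0 < 1 + a by positivity)
      rw [pow_succ' _ k, mul_add, mul_assoc (1 - _), ← mul_assoc (1 + _),
        show (1 + a) * (1 - γ) = a by linarith]
      linarith [mul_le_mul_of_nonneg_left ih (show 0 ≤ a by linarith)]
  have g0 : ∀ k x, (Kf (fun x => Q *ᵥ sv x) (ising J y) 1)^[k] (fun x => grad F x ⬝ᵥ grad F x) x ≤ A :=
    fun k x => by
      simpa using (abs_le.1 (abs_iter_le W (c := 0) (fun x => by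
        rw [sub_zero, abs_of_nonneg (dot_self_nonneg _)]; exact hF x) k x)).2
  rw [← hG] at g1 g2
  generalize Kf (fun x => Q *ᵥ sv x) (ising J y) 1 = T at *
  generalize hM : (mean (ising J y) fun s => grad F s ⬝ᵥ grad F s) = M at *
  have CA : ∀ {x}, 0 ≤ x → C * x ≤ D ^ 2 * C * x := fun hx => mul_le_mul_of_nonneg_right CD hx
  have g4 : ∀ k, (mean (ising J y) fun s => grad (T^[k] F) s ⬝ᵥ grad (T^[k] F) s) ≤
      C * ((1 - γ) ^ k * M) + C * (ε * A) := fun k => by
    cases k with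
    | zero =>
      rw [pow_zero, one_mul]
      exact hM.trans_le ((le_mul_of_one_le_left M0 C1).trans
        (le_add_of_nonneg_right (mul_nonneg (zero_le_one.trans C1) εA)))
    | succ k =>
      rw [Function.iterate_succ_apply', pow_succ]
      have q1 := pow_nonneg q0 k
      have h1 := mul_le_mul_of_nonneg_left ((g3 k).trans (add_le_add_left
        (mul_le_mul_of_nonneg_left p1 q1) _)) (zero_le_one.trans G1)
      have h2 := mul_le_mul_of_nonneg_right KG (mul_nonneg q1 M0)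
      have h3 := mul_le_of_le_one_left (mul_nonneg (zero_le_one.trans G1) εA)
        (pow_le_one₀ (n := k) q0 (by linarith))
      have h4 : a ≤ C * (1 - γ) := by nlinarith
      have h5 := mul_le_mul_of_nonneg_right h4 (mul_nonneg q1 M0)
      have h6 := mul_le_mul_of_nonneg_right (show 2 * G ≤ C by linarith) εA
      linarith [g2 (T^[k] F)]
  refine ⟨fun s => (g1 k s).trans ((mul_le_mul_of_nonneg_left (g0 k s) (by positivity)).trans
    (mul_le_mul_of_nonneg_right (pow_le_pow_left₀ (by positivity) (by linarith) k) A0)),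
    (g3 k).trans (by linarith [CA εA, le_mul_of_one_le_left εA C1]),
    (g4 k).trans (by linarith [CA εA, CA (mul_nonneg (pow_nonneg q0 k) M0)]), ?_⟩
  obtain ⟨r, hr⟩ : ∃ r, r = 1 - γ / 2 := ⟨_, rfl⟩
  have r0 : 0 < r := by linarith
  have s1 : ∑ l ∈ range k, r ^ l ≤ 2 / γ := by
    rw [le_div_iff₀ γ0]
    have := geom_sum_mul r k
    rw [show r - 1 = -(γ / 2) by linarith] at this
    linarith [pow_pos r0 k]
  have u0 : ∀ l, 0 < r ^ l + (k : ℝ)⁻¹ := fun l => by positivity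
  have s2 : ∑ l ∈ range k, (r ^ l + (k : ℝ)⁻¹) ≤ D := by
    rw [sum_add_distrib, sum_const, card_range, nsmul_eq_mul, hD]
    exact add_le_add s1 mul_inv_le_one
  have s3 : ∀ s, grad (∑ l ∈ range k, T^[l] F) s ⬝ᵥ grad (∑ l ∈ range k, T^[l] F) s ≤
      D * ∑ l ∈ range k, (r ^ l + (k : ℝ)⁻¹)⁻¹ * (grad (T^[l] F) s ⬝ᵥ grad (T^[l] F) s) := fun s => by
    simp only [dotProduct, mul_sum _ _ (_⁻¹)]
    rw [sum_comm, mul_sum, sum_fn]
    refine sum_le_sum fun j _ => ?_
    rw [Da.Gr.grad_sum, ← sq]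
    refine (sum_sq_le_sum_mul_sum_of_sq_le_mul _ (fun l _ => (u0 l).le)
      (fun l _ => mul_nonneg (inv_pos.2 (u0 l)).le (mul_self_nonneg _)) fun l _ => ?_).trans
      (mul_le_mul_of_nonneg_right s2 (sum_nonneg fun l _ =>
        mul_nonneg (inv_pos.2 (u0 l)).le (mul_self_nonneg _)))
    rw [mul_inv_cancel_left₀ (u0 l).ne', sq]
  refine (W.mean_mono s3).trans ?_
  rw [SL.mean_const_mul, SL.mean_sum]
  have s4 : ∀ l ∈ range k, (mean (ising J y) fun s => (r ^ l + (k : ℝ)⁻¹)⁻¹ *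
      (grad (T^[l] F) s ⬝ᵥ grad (T^[l] F) s)) ≤ C * M * r ^ l + C * (k * (ε * A)) := fun l hl => by
    have k0 : (0 : ℝ) < k := by exact_mod_cast (Nat.zero_le l).trans_lt (mem_range.1 hl)
    rw [SL.mean_const_mul, inv_mul_le_iff₀ (u0 l)]
    refine (g4 l).trans ?_
    have h1 : (1 - γ) ^ l ≤ r ^ l * r ^ l := by
      rw [← mul_pow]; exact pow_le_pow_left₀ q0 (by nlinarith) l
    have h2 : (k : ℝ)⁻¹ * (C * (k * (ε * A))) = C * (ε * A) := by field_simp
    have h3 : 0 ≤ (k : ℝ)⁻¹ * (C * M * r ^ l) := by positivity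
    have h4 : 0 ≤ r ^ l * (C * (k * (ε * A))) := by positivity
    linarith [mul_le_mul_of_nonneg_left h1 (show 0 ≤ C * M by positivity)]
  refine (mul_le_mul_of_nonneg_left (sum_le_sum s4) (by linarith)).trans ?_
  rw [sum_add_distrib, ← mul_sum, sum_const, card_range, nsmul_eq_mul]
  have h1 := mul_le_mul_of_nonneg_left (s1.trans (show _ ≤ D by linarith))
    (show 0 ≤ D * (C * M) by positivity)
  have h2 := mul_le_mul_of_nonneg_right D1 (show 0 ≤ D * (C * (k ^ 2 * (ε * A))) by positivity)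
  linarith

end Crest.Agent.T157.K

end
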