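import Crest.Agent.T157.RegDef_94

/-!
# Row 157, part B (helper31): the matrix toolbox `Reg.ToolStmt`
-/

set_option autoImplicit false

noncomputable section

namespace Crest.Agent.T157.Reg

open Matrix Real Finset
open Crest.Agent.T157.Eig
open Crest.Agent.T157.Tap (V Mx)

namespace X31

variable {n : ℕ}

/-! ### operator norm -/

theorem op_had (A B M : Mx n) {a b : ℝ} (ha : 0 ≤ a) (hb : 0 ≤ b) (hA : ∀ i, ∑ j, A i j ^ 2 ≤ a ^ 2)
    (hB : ∀ j, ∑ i, B i j ^ 2 ≤ b ^ 2) (h : ∀ i j, |M i j| ≤ |A i j| * |B i j|) : opn M ≤ a * b := by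
  refine opn_le_of_bil (mul_nonneg ha hb) fun u v => ?_
  set f : Fin n × Fin n → ℝ := fun p => |A p.1 p.2| * |u p.1| with hf
  set g : Fin n × Fin n → ℝ := fun p => |B p.1 p.2| * |v p.2| with hg
  have h1 : u ⬝ᵥ M *ᵥ v ≤ f ⬝ᵥ g := by
    simp only [dotProduct, mulVec, Fintype.sum_prod_type, mul_sum, hf, hg]
    refine sum_le_sum fun i _ => sum_le_sum fun j _ => (le_abs_self _).trans ?_
    rw [abs_mul, abs_mul]
    calc |u i| * (|M i j| * |v j|) ≤ |u i| * (|A i j| * |B i j| * |v j|) := by gcongr; exact h i j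
      _ = _ := by ring
  have h2 : nrm f ≤ a * nrm u := by
    rw [nrm_le_iff (mul_nonneg ha (nrm_nonneg _)), mul_pow, nrm_sq]
    simp only [dotProduct, Fintype.sum_prod_type, mul_sum, hf, ← sq, mul_pow, sq_abs]
    exact sum_le_sum fun i _ => by
      rw [← sum_mul]; exact mul_le_mul_of_nonneg_right (hA i) (sq_nonneg _)
  have h3 : nrm g ≤ b * nrm v := by
    rw [nrm_le_iff (mul_nonneg hb (nrm_nonneg _)), mul_pow, nrm_sq]
    simp only [dotProduct, Fintype.sum_prod_type_right, mul_sum, hg, ← sq, mul_pow, sq_abs]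
    exact sum_le_sum fun i _ => by
      rw [← sum_mul]; exact mul_le_mul_of_nonneg_right (hB i) (sq_nonneg _)
  refine h1.trans ((dot_le f g).trans ((mul_le_mul h2 h3 (nrm_nonneg _)
    (mul_nonneg ha (nrm_nonneg _))).trans_eq (by ring)))

theorem op_schur (M : Mx n) {r : ℝ} (hr : 0 ≤ r) (h1 : ∀ i, ∑ j, |M i j| ≤ r)
    (h2 : ∀ j, ∑ i, |M i j| ≤ r) : opn M ≤ r := by
  have := op_had (of fun i j => √|M i j|) (of fun i j => √|M i j|) M (sqrt_nonneg r) (sqrt_nonneg r)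
    (fun i => by simpa only [of_apply, sq_sqrt (abs_nonneg _), sq_sqrt hr] using h1 i)
    (fun i => by simpa only [of_apply, sq_sqrt (abs_nonneg _), sq_sqrt hr] using h2 i)
    fun i j => by rw [of_apply, abs_mul_abs_self, mul_self_sqrt (abs_nonneg _)]
  rwa [mul_self_sqrt hr] at this

theorem nrm_abs (u : V n) : nrm (fun i => |u i|) = nrm u := by
  simp only [nrm, dotProduct, abs_mul_abs_self]

theorem op_dom (M N : Mx n) (h : ∀ i j, |M i j| ≤ N i j) : opn M ≤ opn N := by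
  refine opn_le_of_bil (opn_nonneg N) fun u v => ?_
  have h1 := (le_abs_self _).trans (abs_bil_le N (fun i => |u i|) fun i => |v i|)
  rw [nrm_abs, nrm_abs] at h1
  refine le_trans ?_ h1
  simp only [dotProduct, mulVec, mul_sum]
  refine sum_le_sum fun i _ => sum_le_sum fun j _ => (le_abs_self _).trans ?_
  rw [abs_mul, abs_mul]
  gcongr
  exact h i j

theorem col_le (M : Mx n) (i : Fin n) : ∑ j, M j i ^ 2 ≤ opn M ^ 2 := by
  simpa [dotProduct, sq, Pi.single_apply] using mulVec_dot_le M (Pi.single i 1)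

theorem row_le (M : Mx n) (i : Fin n) : ∑ j, M i j ^ 2 ≤ opn M ^ 2 := by
  simpa only [transpose_apply, opn_transpose] using col_le Mᵀ i

theorem off_eq (M : Mx n) : off M = M - diagonal fun i => M i i := by
  ext i j
  by_cases h : i = j
  · subst h; simp [off]
  · simp [off, h]

theorem op_off (M : Mx n) : opn (off M) ≤ 2 * opn M := by
  rw [off_eq]
  linarith [opn_sub_le M (diagonal fun i => M i i),
    opn_diagonal_le (opn_nonneg M) fun i => abs_entry_le M i i]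

/-! ### the Frobenius pairing -/

/-- a matrix as a vector -/
def vc (M : Mx n) : Fin n × Fin n → ℝ := fun p => M p.1 p.2
/-- Frobenius norm -/
def fn (M : Mx n) : ℝ := nrm (vc M)
/-- `√ S4` -/
def qq (M : Mx n) : ℝ := fn (M * Mᵀ)

variable (A B C M : Mx n)

theorem fp_vc : fp A B = vc A ⬝ᵥ vc B := by simp only [fp, vc, dotProduct, Fintype.sum_prod_type]
theorem fn_nonneg : 0 ≤ fn A := nrm_nonneg _
theorem qq_nonneg : 0 ≤ qq A := nrm_nonneg _
theorem fn_sq : fn A ^ 2 = fp A A := by rw [fp_vc, fn, nrm_sq]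
theorem fp_nonneg : 0 ≤ fp A A := fn_sq A ▸ sq_nonneg _
theorem fn_add : fn (A + B) ≤ fn A + fn B := nrm_add_le (vc A) (vc B)
theorem fn_sub : fn (A - B) ≤ fn A + fn B := nrm_sub_le (vc A) (vc B)
theorem abs_fp : |fp A B| ≤ fn A * fn B := by rw [fp_vc]; exact abs_dot_le _ _
theorem fp_self : fp A A = ∑ i, ∑ j, A i j ^ 2 := by simp only [fp, sq]
theorem S4_eq : S4 M = fp (M * Mᵀ) (M * Mᵀ) := (fp_self _).symm
theorem qq_sq : qq M ^ 2 = S4 M := by rw [qq, fn_sq, S4_eq]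
theorem S4_nonneg : 0 ≤ S4 M := qq_sq M ▸ sq_nonneg _
theorem fp_comm : fp A B = fp B A := by simp only [fp, mul_comm]
theorem fp_tr : fp A B = (A * Bᵀ).trace := by simp [fp, trace, mul_apply]
theorem fp_transpose : fp Aᵀ Bᵀ = fp A B := by rw [fp, sum_comm]; rfl
theorem fn_transpose : fn Aᵀ = fn A := by simp only [fn, nrm, ← fp_vc, fp_transpose]
theorem fp_add : fp (A + B) C = fp A C + fp B C := by simp only [fp, Matrix.add_apply, add_mul, sum_add_distrib]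
theorem fp_add' : fp C (A + B) = fp C A + fp C B := by simp only [fp, Matrix.add_apply, mul_add, sum_add_distrib]
theorem fp_smul' (c : ℝ) : fp A (c • B) = c * fp A B := by
  simp only [fp, Matrix.smul_apply, smul_eq_mul, mul_sum, mul_left_comm]
theorem fp_mul_left : fp (A * B) C = fp B (Aᵀ * C) := by
  rw [fp_tr, fp_tr, transpose_mul, transpose_transpose, Matrix.mul_assoc, trace_mul_comm,
    Matrix.mul_assoc]
theorem fp_mul_right : fp (A * B) C = fp A (C * Bᵀ) := by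
  rw [fp_tr, fp_tr, transpose_mul, transpose_transpose, Matrix.mul_assoc]

theorem fp_op_left : fp (A * B) (A * B) ≤ opn A ^ 2 * fp B B := by
  rw [← fp_transpose, ← fp_transpose B, fp, fp, mul_sum]
  exact sum_le_sum fun j _ => mulVec_dot_le A fun k => B k j

theorem fp_op_right : fp (A * B) (A * B) ≤ opn B ^ 2 * fp A A := by
  have := fp_op_left Bᵀ Aᵀ
  rwa [← transpose_mul, fp_transpose, fp_transpose, opn_transpose] at this

theorem s4_tr : S4 Mᵀ = S4 M := by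
  rw [S4_eq, S4_eq, transpose_transpose, fp_mul_left, fp_mul_right M, transpose_transpose,
    Matrix.mul_assoc]

theorem qq_tr : qq Mᵀ = qq M := by
  rw [← sq_eq_sq₀ (qq_nonneg _) (qq_nonneg _), qq_sq, qq_sq, s4_tr]

theorem fp_cross : fp (Aᵀ * B) (Aᵀ * B) = fp (A * Aᵀ) (B * Bᵀ) := by
  rw [fp_mul_left, transpose_transpose, fp_comm (A * Aᵀ), fp_mul_right B, transpose_transpose,
    Matrix.mul_assoc]

theorem cross_le : fn (Aᵀ * B) ^ 2 ≤ qq A * qq B := by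
  rw [fn_sq, fp_cross]; exact (le_abs_self _).trans (abs_fp _ _)

theorem cross_le' : fn (A * Bᵀ) ^ 2 ≤ qq A * qq B := by
  simpa only [transpose_transpose, qq_tr] using cross_le Aᵀ Bᵀ

theorem fn_swap : fn (B * Aᵀ) = fn (A * Bᵀ) := by
  rw [← fn_transpose, transpose_mul, transpose_transpose]

theorem s4_add : S4 (A + B) ≤ 8 * (S4 A + S4 B) := by
  have e : (A + B) * (A + B)ᵀ = A * Aᵀ + A * Bᵀ + (B * Aᵀ + B * Bᵀ) := by
    rw [transpose_add, Matrix.add_mul, Matrix.mul_add, Matrix.mul_add]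
  have h1 : qq (A + B) ≤ qq A + fn (A * Bᵀ) + (fn (A * Bᵀ) + qq B) := by
    rw [qq, e]
    refine (fn_add _ _).trans (add_le_add (fn_add _ _) ((fn_add _ _).trans ?_))
    rw [fn_swap]; rfl
  have h2 : 2 * fn (A * Bᵀ) ≤ qq A + qq B :=
    abs_le_of_sq_le_sq' (by nlinarith [cross_le' A B, sq_nonneg (qq A - qq B)])
      (add_nonneg (qq_nonneg _) (qq_nonneg _)) |>.2
  rw [← qq_sq, ← qq_sq, ← qq_sq]
  have h3 := pow_le_pow_left₀ (qq_nonneg _) (show qq (A + B) ≤ 2 * (qq A + qq B) by linarith) 2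
  nlinarith [sq_nonneg (qq A - qq B)]

theorem s4_left (P : Mx n) : S4 (P * M) ≤ opn P ^ 4 * S4 M := by
  rw [S4_eq, S4_eq, transpose_mul, Matrix.mul_assoc, ← Matrix.mul_assoc M]
  refine (fp_op_left _ _).trans ((mul_le_mul_of_nonneg_left (fp_op_right _ _) (sq_nonneg _)).trans_eq ?_)
  rw [opn_transpose]; ring

theorem s4_mul (P Q : Mx n) : S4 (P * M * Q) ≤ opn P ^ 4 * opn Q ^ 4 * S4 M := by
  have h := s4_left Mᵀ Qᵀ
  rw [← transpose_mul, s4_tr, s4_tr, opn_transpose] at h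
  rw [Matrix.mul_assoc, mul_assoc]
  exact (s4_left _ P).trans (mul_le_mul_of_nonneg_left h (by positivity))

theorem s4_dom (N : Mx n) (h : ∀ i j, |M i j| ≤ N i j) : S4 M ≤ S4 N := by
  refine sum_le_sum fun i _ => sum_le_sum fun j _ => ?_
  rw [← sq_abs]
  refine pow_le_pow_left₀ (abs_nonneg _) ?_ 2
  simp only [mul_apply, transpose_apply]
  refine (abs_sum_le_sum_abs _ _).trans (sum_le_sum fun k _ => ?_)
  rw [abs_mul]
  exact mul_le_mul (h i k) (h j k) (abs_nonneg _) ((abs_nonneg _).trans (h i k))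

theorem s4_row : ∑ i, (∑ j, M i j ^ 2) ^ 2 ≤ S4 M :=
  sum_le_sum fun i _ => le_trans (le_of_eq (by simp only [mul_apply, transpose_apply, sq]))
    (single_le_sum (f := fun j => (M * Mᵀ) i j ^ 2) (fun _ _ => sq_nonneg _) (mem_univ i))

theorem s4_le : S4 M ≤ opn M ^ 2 * fp M M := by
  rw [S4_eq, ← fp_transpose M]; exact fp_op_left _ _

theorem s4_fro : S4 M ≤ fp M M ^ 2 ∧ fp M M ^ 2 ≤ n * S4 M := by
  refine ⟨(s4_le M).trans ?_, ?_⟩
  · rw [sq (fp M M)]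
    exact mul_le_mul_of_nonneg_right ((opn_sq_le_frob M).trans_eq (fp_self M).symm) (fp_nonneg M)
  · rw [fp_self]
    refine (sq_sum_le_card_mul_sum_sq).trans ?_
    rw [card_univ, Fintype.card_fin]
    exact mul_le_mul_of_nonneg_left (s4_row M) n.cast_nonneg

theorem s4_op : S4 M ≤ n * opn M ^ 4 := by
  have : fp M M ≤ n * opn M ^ 2 := by
    rw [fp_self]
    exact (sum_le_sum fun i _ => row_le M i).trans_eq (by simp)
  exact (s4_le M).trans ((mul_le_mul_of_nonneg_left this (sq_nonneg _)).trans_eq (by ring))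

theorem s4_diag (θ : V n) : S4 (diagonal θ) = ∑ i, θ i ^ 4 := by
  rw [S4, diagonal_transpose, diagonal_mul_diagonal]
  refine sum_congr rfl fun i _ => ?_
  rw [sum_eq_single i (fun j _ hj => by simp [diagonal_apply_ne' _ hj]) (by simp), diagonal_apply_eq]
  ring

theorem so_le : So M ≤ 17 * S4 M ∧ S4 M ≤ 8 * So M := by
  have h1 : ∑ i, M i i ^ 4 ≤ S4 M := le_trans (sum_le_sum fun i _ => by
    rw [show M i i ^ 4 = (M i i ^ 2) ^ 2 by ring]
    exact pow_le_pow_left₀ (sq_nonneg _) (single_le_sum (f := fun j => M i j ^ 2)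
      (fun _ _ => sq_nonneg _) (mem_univ i)) 2) (s4_row M)
  have h2 := s4_add M (diagonal fun i => -M i i)
  have h3 := s4_add (off M) (diagonal fun i => M i i)
  rw [s4_diag] at h2 h3
  rw [← diagonal_neg, ← sub_eq_add_neg, ← off_eq] at h2
  rw [off_eq, sub_add_cancel, ← off_eq] at h3
  simp only [Even.neg_pow (show Even 4 by decide)] at h2
  exact ⟨by rw [So]; linarith, h3⟩

variable (X Y : Mx n)

theorem s4_pair (N : Mx n) : 4 * |fp (X * Xᵀ * X) N| ≤ 3 * S4 X + S4 N := by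
  have h1 := abs_fp (Xᵀ * X) (Xᵀ * N)
  have h2 : fn (Xᵀ * X) = qq X := by rw [← qq_tr, qq, transpose_transpose]
  rw [← fp_mul_left, ← Matrix.mul_assoc, h2] at h1
  rw [← qq_sq, ← qq_sq]
  nlinarith [cross_le X N, sq_nonneg (qq X - fn (Xᵀ * N)), sq_nonneg (qq X - qq N)]

theorem s4_cube : fp (X * Xᵀ * X) (X * Xᵀ * X) ^ 2 ≤ S4 X ^ 3 := by
  have h2 : fn (Xᵀ * X) = qq X := by rw [← qq_tr, qq, transpose_transpose]
  have h1 := fp_op_left X (Xᵀ * X)
  have h3 : opn X ^ 2 ≤ qq X := by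
    rw [sq, ← opn_transpose_mul_self, ← h2]
    exact abs_le_of_sq_le_sq' ((opn_sq_le_frob _).trans_eq (by rw [fn_sq, fp_self])) (fn_nonneg _) |>.2
  rw [← Matrix.mul_assoc, ← fn_sq (Xᵀ * X), h2] at h1
  rw [← qq_sq]
  exact (pow_le_pow_left₀ (fp_nonneg _) (h1.trans (mul_le_mul_of_nonneg_right h3 (sq_nonneg _))) 2).trans_eq
    (by ring)

theorem s4_expand : S4 (X + Y) = S4 X + 4 * fp (X * Xᵀ * X) Y + 2 * fn (Xᵀ * Y) ^ 2 +
    fn (X * Yᵀ + Y * Xᵀ + Y * Yᵀ) ^ 2 := by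
  have e : (X + Y) * (X + Y)ᵀ = X * Xᵀ + (X * Yᵀ + Y * Xᵀ + Y * Yᵀ) := by
    rw [transpose_add, Matrix.add_mul, Matrix.mul_add, Matrix.mul_add]; abel
  have h1 : fp (X * Xᵀ) (Y * Xᵀ) = fp (X * Xᵀ * X) Y := by
    rw [fp_comm, fp_mul_right, transpose_transpose, fp_comm]
  have h2 : fp (X * Xᵀ) (X * Yᵀ) = fp (X * Xᵀ * X) Y := by
    rw [← h1, ← fp_transpose, transpose_mul, transpose_mul, transpose_transpose, transpose_transpose]
  rw [S4_eq, S4_eq X, e, fn_sq, fn_sq, fp_cross]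
  generalize hE : X * Yᵀ + Y * Xᵀ + Y * Yᵀ = E
  have h3 : fp (X * Xᵀ) E = 2 * fp (X * Xᵀ * X) Y + fp (X * Xᵀ) (Y * Yᵀ) := by
    rw [← hE, fp_add', fp_add', h1, h2]; ring
  rw [fp_add, fp_add', fp_add', fp_comm E, h3]
  ring

theorem s4_gain :
    2 * fp (Xᵀ * Y) (Xᵀ * Y) ≤ S4 (X + Y) - S4 X - 4 * fp (X * Xᵀ * X) Y ∧
    2 * fp (Y * Xᵀ) (Y * Xᵀ) ≤ S4 (X + Y) - S4 X - 4 * fp (X * Xᵀ * X) Y ∧
    S4 Y ≤ 6 * (S4 (X + Y) - S4 X - 4 * fp (X * Xᵀ * X) Y) := by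
  have h1 := s4_expand X Y
  have h2 := s4_expand Xᵀ Yᵀ
  have e : Xᵀ * Xᵀᵀ * Xᵀ = (X * Xᵀ * X)ᵀ := by simp only [transpose_mul, Matrix.mul_assoc]
  rw [← transpose_add, s4_tr, s4_tr, e, fp_transpose, transpose_transpose] at h2
  have h3 : qq Y ≤ fn (X * Yᵀ + Y * Xᵀ + Y * Yᵀ) + 2 * fn (X * Yᵀ) := by
    have a := fn_sub (X * Yᵀ + Y * Xᵀ + Y * Yᵀ) (X * Yᵀ + Y * Xᵀ)
    have b := fn_add (X * Yᵀ) (Y * Xᵀ)
    rw [add_sub_cancel_left] at a
    rw [fn_swap X Y] at b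
    rw [qq]; linarith
  have h4 := pow_le_pow_left₀ (qq_nonneg _) h3 2
  rw [← fn_sq, ← fn_sq, fn_swap X Y, ← qq_sq Y]
  refine ⟨by linarith [sq_nonneg (fn (X * Yᵀ + Y * Xᵀ + Y * Yᵀ))],
    by linarith [sq_nonneg (fn (Xᵀ * Yᵀᵀ + Yᵀ * X + Yᵀ * Yᵀᵀ))], ?_⟩
  nlinarith [sq_nonneg (fn (Xᵀ * Yᵀᵀ + Yᵀ * X + Yᵀ * Yᵀᵀ)), sq_nonneg (fn (Xᵀ * Y)),
    sq_nonneg (fn (X * Yᵀ + Y * Xᵀ + Y * Yᵀ) - fn (X * Yᵀ))]

theorem fn_smul (c : ℝ) : fn (c • A) = |c| * fn A := nrm_smul c (vc A)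

theorem s4_taylor {h : ℝ} (h0 : 0 ≤ h) (h1 : h ≤ 1) :
    S4 (X + h • Y) ≤ S4 X + 4 * h * fp (X * Xᵀ * X) Y + 20 * h ^ 2 * (S4 X + S4 Y) := by
  have e : X * (h • Y)ᵀ + h • Y * Xᵀ + h • Y * (h • Y)ᵀ = h • (X * Yᵀ + Y * Xᵀ + h • (Y * Yᵀ)) := by
    simp only [transpose_smul, Matrix.mul_smul, Matrix.smul_mul, smul_add]
  have h2 : 2 * fn (X * Yᵀ) ≤ qq X + qq Y :=
    abs_le_of_sq_le_sq' (by nlinarith [cross_le' X Y, sq_nonneg (qq X - qq Y)])
      (add_nonneg (qq_nonneg _) (qq_nonneg _)) |>.2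
  have h3 : fn (X * Yᵀ + Y * Xᵀ + h • (Y * Yᵀ)) ≤ qq X + 2 * qq Y := by
    have a := fn_add (X * Yᵀ + Y * Xᵀ) (h • (Y * Yᵀ))
    have b := fn_add (X * Yᵀ) (Y * Xᵀ)
    rw [fn_smul, abs_of_nonneg h0] at a
    rw [fn_swap X Y] at b
    have c : h * fn (Y * Yᵀ) ≤ qq Y := mul_le_of_le_one_left (fn_nonneg _) h1
    linarith
  have h4 := pow_le_pow_left₀ (fn_nonneg _) h3 2
  rw [s4_expand, e, Matrix.mul_smul, fn_smul, fn_smul, fp_smul', abs_of_nonneg h0, mul_pow, mul_pow,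
    ← qq_sq Y]
  have h5 : 2 * fn (Xᵀ * Y) ^ 2 + fn (X * Yᵀ + Y * Xᵀ + h • (Y * Yᵀ)) ^ 2 ≤ 20 * (S4 X + qq Y ^ 2) := by
    rw [← qq_sq X]
    nlinarith [cross_le X Y, sq_nonneg (qq X - qq Y), sq_nonneg (qq X), sq_nonneg (qq Y)]
  nlinarith [mul_le_mul_of_nonneg_left h5 (sq_nonneg h)]

end X31

open X31 in
/-- **task 774** -/
theorem toolStmt : ToolStmt where
  op_dom _ := op_dom
  op_schur _ M _ := op_schur M
  op_had _ A B M _ _ := op_had A B M
  row_le _ M i := ⟨row_le M i, col_le M i⟩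
  op_off _ := op_off
  s4_tr _ := s4_tr
  s4_add _ := s4_add
  s4_mul _ P M Q := s4_mul M P Q
  s4_dom _ := s4_dom
  s4_fro _ := s4_fro
  s4_op _ := s4_op
  s4_row _ := s4_row
  s4_diag _ := s4_diag
  so_le _ := so_le
  s4_pair _ := s4_pair
  s4_cube _ := s4_cube
  s4_gain _ := s4_gain
  s4_taylor _ X Y _ := s4_taylor X Y

end Crest.Agent.T157.Reg

end
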