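import Crest.Agent.T157.KDef_36
import Crest.Agent.T157.KRg_75
import Crest.Agent.T157.RegTool_31

/-!
# Row 157, part B, block S5 (helper75): regular fields pass through channels
-/

set_option autoImplicit false
set_option linter.unusedSectionVars false

noncomputable section

namespace Crest.Agent.T157.K

open MeasureTheory Real Matrix Finset
open Crest.Agent.T157.E Crest.Agent.T157.Eig
open Crest.Agent.T157.Tap (V Mx)
open Crest.Agent.T157.Rec (grad fl Pm)
open Crest.Agent.T157.Conc (ELip)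
open Crest.Agent.T157.Reg (jac)

namespace Rf75

variable {n : ℕ} {κ : Type} [Fintype κ] [DecidableEq κ] {w : ℝ → ℝ} {M e B : ℝ}

theorem W2.nonneg (h : W2 M w) : 0 ≤ M := (abs_nonneg _).trans (h.2 0 0).1

theorem W2.lip (h : W2 M w) (a b : ℝ) : |w a - w b| ≤ M * |a - b| := by
  have := convex_univ.norm_image_sub_le_of_norm_hasDerivWithin_le (f := w) (f' := deriv w) (C := M)
    (fun t _ => (h.1 t).hasDerivAt.hasDerivWithinAt) (fun t _ => (h.2 t t).2.1) (Set.mem_univ b)
    (Set.mem_univ a)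
  simpa only [Real.norm_eq_abs] using this

theorem W2.tay (h : W2 M w) (x d : ℝ) : |w (x + d) - w x - deriv w x * d| ≤ M * d ^ 2 := by
  have := (convex_closedBall x |d|).norm_image_sub_le_of_norm_hasDerivWithin_le
    (f := fun u => w u - deriv w x * u) (f' := fun u => deriv w u - deriv w x) (C := M * |d|)
    (x := x) (y := x + d)
    (fun t _ => by
      simpa using ((h.1 t).hasDerivAt.fun_sub ((hasDerivAt_id t).const_mul (deriv w x))).hasDerivWithinAt)
    (fun t ht => by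
      rw [Metric.mem_closedBall, Real.dist_eq] at ht
      exact (h.2 t x).2.2.trans (mul_le_mul_of_nonneg_left ht (W2.nonneg h)))
    (Metric.mem_closedBall_self (abs_nonneg d)) (by simp)
  simp only [Real.norm_eq_abs, add_sub_cancel_left] at this
  calc _ = |w (x + d) - deriv w x * (x + d) - (w x - deriv w x * x)| := by congr 1; ring
    _ ≤ M * |d| * |d| := this
    _ = M * d ^ 2 := by rw [mul_assoc, abs_mul_abs_self, sq]

theorem abs_sv (s : Cube n) (i : Fin n) : |sv s i| = 1 := by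
  have h2 : |sv s i| * |sv s i| = 1 := by rw [abs_mul_abs_self, Rec.sv_mul_self]
  nlinarith [abs_nonneg (sv s i)]

theorem nrm_mono {ι : Type*} [Fintype ι] {u v : ι → ℝ} (h : ∀ i, |u i| ≤ v i) : nrm u ≤ nrm v :=
  sqrt_le_sqrt (sum_le_sum fun i _ => by
    rw [← abs_mul_abs_self]; exact mul_self_le_mul_self (abs_nonneg _) (h i))

theorem RF.nonneg {u : Cube n → (κ → ℝ) → V n} (h : RF e u) : 0 ≤ e :=
  (opn_nonneg _).trans ((h.r0 0).op fun _ => true)

/-- a weight read at a point that moves with the flips -/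
theorem op_comp (hw : W2 M w) {u : Cube n → V n} (hu : R0 e u) (s : Cube n) {x : Cube n → V n}
    {D : Mx n} {δ : ℝ} (hD : opn D ≤ δ) (hx : ∀ i j, x (fl s j) i = x s i + D i j) :
    opn (jac (fun t i => w (x t i) * u t i) s) ≤ M * e * (1 + 2 * δ + δ ^ 2) := by
  have M0 := W2.nonneg hw
  have e0 : 0 ≤ e := (opn_nonneg _).trans (hu.op s)
  have d0 : 0 ≤ δ := (opn_nonneg _).trans hD
  have r1 : ∀ i, ∑ j, D i j ^ 2 ≤ δ ^ 2 := fun i =>
    (Reg.X31.row_le D i).trans (pow_le_pow_left₀ (opn_nonneg _) hD 2)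
  have c1 : ∀ {A : Mx n} {a : ℝ}, opn A ≤ a → ∀ j, ∑ i, A i j ^ 2 ≤ a ^ 2 := fun h j =>
    (Reg.X31.col_le _ j).trans (pow_le_pow_left₀ (opn_nonneg _) h 2)
  have E : jac (fun t i => w (x t i) * u t i) s = diagonal (fun i => w (x s i)) * jac u s +
      diagonal (fun i => deriv w (x s i) * u s i) * D +
      (of fun i j => deriv w (x s i) * D i j * jac u s i j) +
      of fun i j => (w (x s i + D i j) - w (x s i) - deriv w (x s i) * D i j) * u (fl s j) i := by
    ext i j
    simp only [jac, Matrix.add_apply, diagonal_mul, of_apply, hx]; ring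
  have h1 : opn (diagonal (fun i => w (x s i)) * jac u s) ≤ M * e := (opn_mul_le _ _).trans
    (mul_le_mul (opn_diagonal_le M0 fun i => (hw.2 _ 0).1) (hu.op s) (opn_nonneg _) M0)
  have h2 : opn (diagonal (fun i => deriv w (x s i) * u s i) * D) ≤ M * e * δ := (opn_mul_le _ _).trans
    (mul_le_mul (opn_diagonal_le (by positivity) fun i => by
      rw [abs_mul]; exact mul_le_mul (hw.2 _ 0).2.1 (hu.sup s i) (abs_nonneg _) M0) hD
      (opn_nonneg _) (by positivity))
  have h3 : opn (of fun i j => deriv w (x s i) * D i j * jac u s i j : Mx n) ≤ δ * (M * e) :=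
    Reg.X31.op_had D (M • jac u s) _ d0 (by positivity) r1 (c1 (by
      rw [opn_smul, abs_of_nonneg M0]; exact mul_le_mul_of_nonneg_left (hu.op s) M0)) fun i j => by
      simp only [of_apply, Matrix.smul_apply, smul_eq_mul, abs_mul, abs_of_nonneg M0]
      have := mul_le_mul_of_nonneg_right (hw.2 (x s i) 0).2.1
        (mul_nonneg (abs_nonneg (D i j)) (abs_nonneg (jac u s i j)))
      linarith
  have h4 : opn (of fun i j => (w (x s i + D i j) - w (x s i) - deriv w (x s i) * D i j) *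
      u (fl s j) i : Mx n) ≤ δ * (M * e * δ) :=
    Reg.X31.op_had D ((M * e) • D) _ d0 (by positivity) r1 (c1 (by
      rw [opn_smul, abs_of_nonneg (by positivity)]
      exact mul_le_mul_of_nonneg_left hD (by positivity))) fun i j => by
      simp only [of_apply, Matrix.smul_apply, smul_eq_mul, abs_mul, abs_of_nonneg M0, abs_of_nonneg e0]
      refine (mul_le_mul (W2.tay hw _ _) (hu.sup _ i) (abs_nonneg _) (by positivity)).trans_eq ?_
      rw [← sq_abs]; ring
  rw [E]
  have := (opn_add_le _ _).trans (add_le_add ((opn_add_le _ _).trans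
    (add_le_add ((opn_add_le _ _).trans (add_le_add h1 h2)) h3)) h4)
  linarith

theorem abs_int_le {ι : Type} [Fintype ι] {f : (ι → ℝ) → ℝ} {c : ℝ} (h : ∀ z, |f z| ≤ c) :
    |∫ z, f z ∂gv ι| ≤ c := by
  simpa using norm_integral_le_of_norm_le_const (μ := gv ι) (f := f) (C := c) (.of_forall h)

end Rf75

open Rf75

theorem rfStmt : RFStmt := by
  intro B
  set C1 : ℝ := 1 + 2 * (2 * B ^ 2) + (2 * B ^ 2) ^ 2 with hC1
  set C2 : ℝ := 2 * exp (4 * B ^ 2) * (4 * B ^ 2 * (B + 1) ^ 2 + C1 ^ 2) with hC2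
  have C0 : 0 ≤ C2 := by positivity
  refine ⟨C2 + 3, by linarith, fun n κ _ _ P R w u M e hP hR hw hu => ?_⟩
  have M0 := W2.nonneg hw
  have e0 := RF.nonneg hu
  have B0 : 0 ≤ B := (opn_nonneg _).trans hP
  have Me : 0 ≤ M * e := mul_nonneg M0 e0
  have bd : ∀ (x : ℝ) t ζ i, |w x * u t ζ i| ≤ M * e := fun x t ζ i => by
    rw [abs_mul]; exact mul_le_mul (hw.2 _ 0).1 ((hu.r0 ζ).sup t i) (abs_nonneg _) M0
  refine ⟨fun s i => (abs_int_le fun z => bd _ _ _ _).trans (by nlinarith), fun s => ?_⟩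
  set x : (κ → ℝ) → Cube n → V n := fun ζ t i => sv s i * (Rᵀ *ᵥ ζ - (Rᵀ * P) *ᵥ sv t) i with hx
  set Φ : Cube n → (κ → ℝ) → V n := fun t ζ i => w (x ζ t i) * u t ζ i with hΦ
  set U : Cube n → V n := fun t i => Pm (fun t => P *ᵥ sv t) 1 (fun t ζ => Φ t ζ i) t with hU
  have hUe : ∀ t i, U t i = ∫ z, w (sv s i * (Rᵀ *ᵥ z) i) * u t (P *ᵥ sv t + z) i ∂gv κ := by
    intro t i
    simp [hU, hΦ, hx, Pm, mulVec_add]
  have hG : opn (Rᵀ * P) ≤ B ^ 2 := (opn_mul_le _ _).trans (by
    rw [opn_transpose, sq]; exact mul_le_mul hR hP (opn_nonneg _) B0)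
  have hPP : opn (Pᵀ * P) ≤ B ^ 2 := by
    rw [opn_transpose_mul_self, sq]; exact mul_self_le_mul_self (opn_nonneg _) hP
  have hD : opn (diagonal (sv s) * ((2 : ℝ) • (Rᵀ * P)) * diagonal (sv s)) ≤ 2 * B ^ 2 := by
    have h1 : opn (diagonal (sv s)) ≤ 1 := opn_diagonal_le zero_le_one fun i => (abs_sv s i).le
    have h2 : opn ((2 : ℝ) • (Rᵀ * P)) ≤ 2 * B ^ 2 := by rw [opn_smul, abs_two]; linarith
    refine (opn_mul_le _ _).trans ((mul_le_mul ((opn_mul_le _ _).trans
      (mul_le_mul h1 h2 (opn_nonneg _) zero_le_one)) h1 (opn_nonneg _) (by positivity)).trans_eq ?_)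
    ring
  have h1 : ∀ ζ, opn (jac (fun t => Φ t ζ) s) ≤ M * e * C1 := fun ζ =>
    op_comp hw (hu.r0 ζ) s hD fun i j => by
      have := eq_add_of_sub_eq (Rec.sv_fl_sub s j)
      simp only [hx, this, mulVec_add, mulVec_single, mul_diagonal, diagonal_mul, Pi.sub_apply,
        Pi.add_apply, Matrix.smul_apply, smul_eq_mul, Pi.smul_apply, op_smul_eq_smul, col_apply]
      ring
  have h2 : ∀ t ζ ζ', nrm (Φ t ζ - Φ t ζ') ≤ M * e * (B + 1) * nrm (ζ - ζ') := by
    intro t ζ ζ'
    have a1 : nrm (Φ t ζ - Φ t ζ') ≤ nrm ((M * e) • (fun i => |(Rᵀ *ᵥ (ζ - ζ')) i|) +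
        M • fun i => |(u t ζ - u t ζ') i|) := nrm_mono fun i => by
      have b1 := W2.lip hw (x ζ t i) (x ζ' t i)
      have b2 : |x ζ t i - x ζ' t i| = |(Rᵀ *ᵥ (ζ - ζ')) i| := by
        simp only [hx, ← mul_sub, abs_mul, abs_sv, one_mul, mulVec_sub, Pi.sub_apply,
          sub_sub_sub_cancel_right]
      have b3 : (Φ t ζ - Φ t ζ') i = (w (x ζ t i) - w (x ζ' t i)) * u t ζ i +
          w (x ζ' t i) * (u t ζ - u t ζ') i := by simp only [hΦ, Pi.sub_apply]; ring
      rw [b2] at b1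
      rw [b3]
      refine (abs_add_le _ _).trans (add_le_add ?_ ?_) <;> rw [abs_mul]
      · exact (mul_le_mul b1 ((hu.r0 ζ).sup t i) (abs_nonneg _) (by positivity)).trans_eq
          (by simp only [Pi.smul_apply, smul_eq_mul]; ring)
      · exact mul_le_mul_of_nonneg_right (hw.2 _ 0).1 (abs_nonneg _)
    have a2 := nrm_mulVec_le Rᵀ (ζ - ζ')
    rw [opn_transpose] at a2
    have a3 := a2.trans (mul_le_mul_of_nonneg_right hR (nrm_nonneg _))
    have a4 := a1.trans (nrm_add_le _ _)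
    rw [nrm_smul, nrm_smul, Reg.X31.nrm_abs, Reg.X31.nrm_abs, abs_of_nonneg Me, abs_of_nonneg M0] at a4
    nlinarith [mul_le_mul_of_nonneg_left a3 Me, mul_le_mul_of_nonneg_left (hu.lip t ζ ζ') M0]
  have h3 : ∀ (a : V n) t, ELip (nrm a * (M * e * (B + 1))) fun ζ => a ⬝ᵥ Φ t ζ := fun a t ζ ζ' => by
    rw [← dotProduct_sub, K75.en_eq, mul_assoc]
    exact (abs_dot_le _ _).trans (mul_le_mul_of_nonneg_left (h2 t ζ ζ') (nrm_nonneg a))
  have h4 : ∀ i t, SL.MG fun ζ => Φ t ζ i := fun i t => by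
    simpa using K75.mg_of_elip (h3 (Pi.single i 1) t)
  have h5 : opn (jac U s) ≤ (C2 + 1) * (M * e) :=
    K75.opn_jm_le (m := fun j t => fl t j) (by positivity) fun a => by
      have b1 : (fun t => a ⬝ᵥ U t) = Pm (fun t => P *ᵥ sv t) 1 fun t ζ => a ⬝ᵥ Φ t ζ := by
        funext t
        simp only [dotProduct, hU]
        rw [Rec.Pm_sum _ fun i _ t => (h4 i t).const_mul (a i)]
        exact sum_congr rfl fun i _ => (Rec.Pm_mul (fun _ => a i) _ t).symm
      have b0 : ∀ ζ, K75.En (fun j t => fl t j) (fun t => a ⬝ᵥ Φ t ζ) s ≤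
          (M * e * C1) ^ 2 * (a ⬝ᵥ a) := fun ζ =>
        K75.en_dot_le (m := fun j t => fl t j) (U := fun t => Φ t ζ) (p := s) (h1 ζ) a
      have b2 := K75.en_Pm_le (Ψ := fun t ζ => a ⬝ᵥ Φ t ζ) zero_le_one
        (K75.FG.mg2 (Kc.fg_opn hPP) s) (h3 a) b0
      rw [b1]
      refine b2.trans ?_
      have b3 : C2 ≤ (C2 + 1) ^ 2 := by nlinarith
      have b4 := mul_le_mul_of_nonneg_right b3 (mul_nonneg (sq_nonneg (M * e)) (sq_nonneg (nrm a)))
      rw [← nrm_sq]
      refine le_of_eq_of_le ?_ (b4.trans_eq ?_)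
      · rw [hC2, one_mul]; ring
      · ring
  have E : jac (cwv P R w u) s = jac U s +
      diagonal fun i => cwv P R w u (fl s i) i - U (fl s i) i := by
    ext i j
    by_cases h : i = j
    · subst h; simp only [jac, Matrix.add_apply, of_apply, diagonal_apply_eq, hUe s, cwv]; ring
    · simp only [jac, Matrix.add_apply, of_apply, diagonal_apply_ne _ h, hUe, cwv,
        Rec.sv_fl_ne s h, add_zero]
  have h6 : opn (diagonal fun i => cwv P R w u (fl s i) i - U (fl s i) i) ≤ M * e + M * e :=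
    opn_diagonal_le (by positivity) fun i => (abs_sub _ _).trans (add_le_add
      (abs_int_le fun z => bd _ _ _ _) (by rw [hUe]; exact abs_int_le fun z => bd _ _ _ _))
  rw [E]
  exact (opn_add_le _ _).trans ((add_le_add h5 h6).trans_eq (by ring))

end Crest.Agent.T157.K

end
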