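import Crest.Agent.T157.KDef_36

/-!
# Row 157, block S5 (helper63): one step of the kernel, the part in the field
-/

set_option autoImplicit false
set_option linter.unusedSectionVars false

noncomputable section

namespace Crest.Agent.T157.K.StB

open MeasureTheory ProbabilityTheory Real Matrix Finset
open Crest.Agent.T157.E Crest.Agent.T157.Eig
open Crest.Agent.T157.Tap (V Mx th DD)
open Crest.Agent.T157.Rec (grad)
open Crest.Agent.T157.Conc (ELip en)
open Crest.Agent.T157.Reg (jac neg)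
open Crest.Agent.T157.S3.Hb (Vp)
open Crest.Agent.T157.SL (Wt)

variable {n : ℕ} {κ : Type} [Fintype κ]

/-- continuous and bounded -/
structure CB (f : (κ → ℝ) → ℝ) : Prop where
  c : Continuous f
  b : ∃ B, ∀ z, |f z| ≤ B

lemma CB.int {f : (κ → ℝ) → ℝ} (h : CB f) : Integrable f (gv κ) :=
  let ⟨B, hB⟩ := h.b
  (integrable_const B).mono' h.c.aestronglyMeasurable (.of_forall hB)

lemma CB.sq {f : (κ → ℝ) → ℝ} (h : CB f) : CB fun z => f z ^ 2 :=
  let ⟨B, hB⟩ := h.b
  ⟨h.c.pow 2, B ^ 2, fun z => by rw [abs_pow]; exact pow_le_pow_left₀ (abs_nonneg _) (hB z) 2⟩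

lemma CB.sq_int {f : (κ → ℝ) → ℝ} (h : CB f) : (∫ z, f z ∂gv κ) ^ 2 ≤ ∫ z, f z ^ 2 ∂gv κ := by
  have := variance_nonneg f (gv κ)
  rw [variance_eq_sub ((memLp_two_iff_integrable_sq h.c.aestronglyMeasurable).2 h.sq.int)] at this
  exact sub_nonneg.1 this

lemma nsq (v : V n) : nrm v ^ 2 = ∑ j, v j ^ 2 := by rw [nrm_sq]; simp only [dotProduct, sq]

lemma en_nrm (x : V n) : en x = nrm x := by rw [Conc.en_eq_norm, nrm_eq_norm]

lemma nrm_int {u : (κ → ℝ) → V n} (hu : ∀ j, CB fun z => u z j) {g : (κ → ℝ) → ℝ}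
    (hg : Integrable g (gv κ)) (h : ∀ z, nrm (u z) ^ 2 ≤ g z) :
    nrm (fun j => ∫ z, u z j ∂gv κ) ^ 2 ≤ ∫ z, g z ∂gv κ := by
  rw [nsq]
  refine (sum_le_sum fun j _ => (hu j).sq_int).trans ?_
  rw [← integral_finsetSum _ fun j _ => (hu j).sq.int]
  exact integral_mono (integrable_finsetSum _ fun j _ => (hu j).sq.int) hg
    fun z => (nsq _).symm.trans_le (h z)

lemma nrm_int_le {u : (κ → ℝ) → V n} (hu : ∀ j, CB fun z => u z j) {B : ℝ}
    (h : ∀ z, nrm (u z) ≤ B) : nrm (fun j => ∫ z, u z j ∂gv κ) ≤ B :=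
  le_of_sq_le_sq₀' ((nrm_nonneg _).trans (h 0)) (by
    simpa using nrm_int hu (integrable_const (B ^ 2))
      fun z => pow_le_pow_left₀ (nrm_nonneg _) (h z) 2)
where le_of_sq_le_sq₀' {a b : ℝ} (hb : 0 ≤ b) (h : a ^ 2 ≤ b ^ 2) : a ≤ b :=
  le_of_pow_le_pow_left₀ two_ne_zero hb h

lemma wt (h : V n) : Wt (ising 0 h) := .of_pos fun _ => exp_pos _

lemma nrm_mean {w : Cube n → ℝ} (hw : Wt w) (u : Cube n → V n) :
    nrm (meanV w u) ^ 2 ≤ mean w fun t => nrm (u t) ^ 2 := by
  simp only [nsq, SL.mean_sum]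
  exact sum_le_sum fun j _ => by simpa [meanV] using Kc.mean_sub_sq_le hw (fun t => u t j) 0

lemma nrm_mul {a v : V n} {c : ℝ} (hc : 0 ≤ c) (h : ∀ j, |a j| ≤ c) : nrm (a * v) ≤ c * nrm v := by
  refine le_of_pow_le_pow_left₀ two_ne_zero (mul_nonneg hc (nrm_nonneg _)) ?_
  rw [mul_pow, nsq, nsq, mul_sum]
  refine sum_le_sum fun j _ => ?_
  rw [Pi.mul_apply, mul_pow, ← sq_abs (a j)]
  exact mul_le_mul_of_nonneg_right (pow_le_pow_left₀ (abs_nonneg _) (h j) 2) (sq_nonneg _)

lemma DD_le (h : V n) (j : Fin n) : |DD (th h) j| ≤ 1 :=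
  abs_le.2 ⟨by have := tanh_sq_lt_one (h j); simp only [DD, th]; linarith,
    sub_le_self _ (sq_nonneg _)⟩

lemma sqrt_le {A B m δ : ℝ} (hδ : 0 ≤ δ) (hm : m ^ 2 ≤ B) (h : A ≤ B + 2 * δ * m + δ ^ 2) :
    √A ≤ √B + δ := by
  have h1 : m ≤ √B := le_sqrt_of_sq_le hm
  have h2 := sq_sqrt ((sq_nonneg m).trans hm)
  exact sqrt_le_iff.2 ⟨by positivity, by nlinarith [mul_le_mul_of_nonneg_left h1 hδ]⟩

lemma pt_le {A B δ : ℝ} (hA : 0 ≤ A) (_ : 0 ≤ B) (h : √A ≤ √B + δ) :
    A ≤ √B ^ 2 + 2 * δ * √B + δ ^ 2 := by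
  have := pow_le_pow_left₀ (sqrt_nonneg _) h 2
  rw [sq_sqrt hA] at this; linarith

lemma mk_mean {w A B : Cube n → ℝ} (hw : Wt w) {δ : ℝ} (hδ : 0 ≤ δ) (hA : ∀ t, 0 ≤ A t)
    (hB : ∀ t, 0 ≤ B t) (h : ∀ t, √(A t) ≤ √(B t) + δ) : √(mean w A) ≤ √(mean w B) + δ := by
  refine sqrt_le (m := mean w fun t => √(B t)) hδ ?_ ?_
  · simpa [sq_sqrt (hB _)] using Kc.mean_sub_sq_le hw (fun t => √(B t)) 0
  · refine (hw.mean_mono fun t => pt_le (hA t) (hB t) (h t)).trans_eq ?_
    simp only [SL.mean_add, SL.mean_const_mul, hw.mean_const, sq_sqrt (hB _)]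

lemma mk_int {A B : (κ → ℝ) → ℝ} (cA : CB A) (cB : CB B) {δ : ℝ} (hδ : 0 ≤ δ) (hA : ∀ t, 0 ≤ A t)
    (hB : ∀ t, 0 ≤ B t) (h : ∀ t, √(A t) ≤ √(B t) + δ) :
    √(∫ z, A z ∂gv κ) ≤ √(∫ z, B z ∂gv κ) + δ := by
  have c : CB fun z => √(B z) := let ⟨M, hM⟩ := cB.b
    ⟨cB.c.sqrt, √M, fun z => (abs_of_nonneg (sqrt_nonneg _)).trans_le
      (sqrt_le_sqrt ((le_abs_self _).trans (hM z)))⟩
  refine sqrt_le (m := ∫ z, √(B z) ∂gv κ) hδ ?_ ?_
  · simpa [sq_sqrt (hB _)] using c.sq_int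
  · have i1 : Integrable (fun z => √(B z) ^ 2 + 2 * δ * √(B z)) (gv κ) :=
      c.sq.int.add (c.int.const_mul (2 * δ))
    refine (integral_mono cA.int (i1.add (integrable_const (δ ^ 2)))
      fun t => pt_le (hA t) (hB t) (h t)).trans_eq ?_
    simp only [Pi.add_apply]
    rw [integral_add i1 (integrable_const _), integral_add c.sq.int (c.int.const_mul _),
      integral_const_mul]
    simp [sq_sqrt (hB _)]

lemma dp (t : Cube n) : Differentiable ℝ fun h : V n => prob (ising 0 h) t := by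
  have h1 : ∀ t, Differentiable ℝ fun h : V n => ising 0 h t := fun t => by
    unfold ising dotProduct; fun_prop
  simp only [prob, div_eq_mul_inv]
  exact (h1 t).mul ((Differentiable.fun_sum fun t _ => h1 t).inv fun h => (wt h).pos.ne')

lemma cm {X : Type} [TopologicalSpace X] {a : Cube n → X → ℝ} {hh : X → V n}
    (ha : ∀ t, Continuous (a t)) (h : Continuous hh) :
    Continuous fun x => mean (ising 0 (hh x)) fun t => a t x :=
  continuous_finsetSum _ fun t _ => ((dp t).continuous.comp h).mul (ha t)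

/-- the field pulled back -/
def UU (a b : Cube n → V n) (h : V n) : V n :=
  DD (th h) * meanV (ising 0 h) a + meanV (ising 0 h) b

lemma UU_cont {X : Type} [TopologicalSpace X] {a b : Cube n → X → V n} {hh : X → V n}
    (ha : ∀ t, Continuous (a t)) (hb : ∀ t, Continuous (b t)) (h : Continuous hh) (j : Fin n) :
    Continuous fun x => UU (fun t => a t x) (fun t => b t x) (hh x) j := by
  refine Continuous.add (Continuous.mul ?_ (cm (a := fun t x => a t x j)
    (fun t => (continuous_apply j).comp (ha t)) h)) (cm (a := fun t x => b t x j)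
    (fun t => (continuous_apply j).comp (hb t)) h)
  have : Continuous Real.tanh := by
    simp only [funext tanh_eq_sinh_div_cosh]
    exact continuous_sinh.div continuous_cosh fun x => (cosh_pos x).ne'
  exact continuous_const.sub ((this.comp ((continuous_apply j).comp h)).pow 2)

lemma UU_sq (a b : Cube n → V n) (h : V n) :
    nrm (UU a b h) ^ 2 ≤ 2 * mean (ising 0 h) fun t => nrm (a t) ^ 2 + nrm (b t) ^ 2 := by
  have h1 := pow_le_pow_left₀ (nrm_nonneg _) ((nrm_add_le _ (meanV (ising 0 h) b)).trans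
    (add_le_add (nrm_mul (v := meanV (ising 0 h) a) zero_le_one (DD_le h)) le_rfl)) 2
  rw [SL.mean_add]
  nlinarith [nrm_mean (wt h) a, nrm_mean (wt h) b,
    sq_nonneg (nrm (meanV (ising 0 h) a) - nrm (meanV (ising 0 h) b)), UU.eq_1 a b h ▸ h1]

lemma UU_le {a b : Cube n → V n} {A : ℝ} (ha : ∀ t, nrm (a t) ≤ A) (hb : ∀ t, nrm (b t) ≤ A)
    (h : V n) : nrm (UU a b h) ≤ 2 * A := by
  have A0 := (nrm_nonneg _).trans (ha default)
  refine le_of_pow_le_pow_left₀ two_ne_zero (by positivity) ((UU_sq a b h).trans ?_)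
  have := (wt h).mean_le fun t => add_le_add (pow_le_pow_left₀ (nrm_nonneg _) (ha t) 2)
    (pow_le_pow_left₀ (nrm_nonneg _) (hb t) 2)
  linarith

lemma UU_sub (a b a' b' : Cube n → V n) (h : V n) :
    UU a b h - UU a' b' h = UU (fun t => a t - a' t) (fun t => b t - b' t) h := by
  funext j; simp only [UU, meanV, Pi.sub_apply, Pi.add_apply, Pi.mul_apply, SL.mean_sub]; ring

lemma UU_sup {a b : Cube n → V n} {e : ℝ} (ha : ∀ t j, |a t j| ≤ e) (hb : ∀ t j, |b t j| ≤ e)
    (h : V n) (j : Fin n) : |UU a b h j| ≤ 2 * e := by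
  have h1 := (wt h).abs_mean_le fun t => ha t j
  have h2 := (wt h).abs_mean_le fun t => hb t j
  refine (abs_add_le _ _).trans ?_
  have := mul_le_mul (DD_le h j) h1 (abs_nonneg _) zero_le_one
  rw [← abs_mul] at this
  exact (add_le_add this h2).trans_eq (by ring)

lemma UU_cb (a b : Cube n → V n) {hh : (κ → ℝ) → V n} (h : Continuous hh) (j : Fin n) :
    CB fun z => UU a b (hh z) j :=
  ⟨UU_cont (a := fun t _ => a t) (b := fun t _ => b t) (fun _ => continuous_const)
    (fun _ => continuous_const) h j, _, fun _ => UU_sup (e := ‖a‖ + ‖b‖)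
      (fun t j => ((norm_le_pi_norm (a t) j).trans (norm_le_pi_norm a t)).trans
        (le_add_of_nonneg_right (norm_nonneg _)))
      (fun t j => ((norm_le_pi_norm (b t) j).trans (norm_le_pi_norm b t)).trans
        (le_add_of_nonneg_left (norm_nonneg _))) _ j⟩

lemma UU_lip (hP : PrStmt) {a b : Cube n → V n} {e : ℝ} (he : 0 ≤ e) (ha : R0 e a) (hb : R0 e b)
    (h h' : V n) : nrm (UU a b h - UU a b h') ≤ 4 * e * nrm (h - h') := by
  have e1 : UU a b h - UU a b h' = DD (th h) * (meanV (ising 0 h) a - meanV (ising 0 h') a) +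
      meanV (ising 0 h') a * (DD (th h) - DD (th h')) +
      (meanV (ising 0 h) b - meanV (ising 0 h') b) := by unfold UU; ring
  have a1 := nrm_mul (v := meanV (ising 0 h) a - meanV (ising 0 h') a) zero_le_one (DD_le h)
  have a2 := nrm_mul (a := meanV (ising 0 h') a) (v := DD (th h) - DD (th h')) he
    fun j => (wt h').abs_mean_le fun t => ha.sup t j
  have a3 : nrm (DD (th h) - DD (th h')) ≤ 2 * nrm (h - h') := by
    refine le_of_pow_le_pow_left₀ two_ne_zero (mul_nonneg two_pos.le (nrm_nonneg _)) ?_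
    rw [mul_pow, nsq, nsq, mul_sum]
    refine sum_le_sum fun j _ => ?_
    have b1 := sq_le_sq.2 (Da.Gr.tanh_lip (h j) (h' j))
    have b2 : (tanh (h j) + tanh (h' j)) ^ 2 ≤ 2 ^ 2 := by
      nlinarith [tanh_sq_lt_one (h j), tanh_sq_lt_one (h' j), sq_nonneg (tanh (h j) - tanh (h' j))]
    calc _ = (tanh (h j) + tanh (h' j)) ^ 2 * (tanh (h j) - tanh (h' j)) ^ 2 := by
          simp only [DD, th, Pi.sub_apply]; ring
      _ ≤ _ := mul_le_mul b2 b1 (sq_nonneg _) (by norm_num)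
  rw [e1]
  refine (nrm_add_le _ _).trans ((add_le_add (nrm_add_le _ _) le_rfl).trans ?_)
  nlinarith [hP.lip n a e ha h h', hP.lip n b e hb h h', mul_le_mul_of_nonneg_left a3 he]

lemma UU_neg (hP : PrStmt) {a b a' b' : Cube n → V n} (ha : ∀ t, a' (neg t) = -a t)
    (hb : ∀ t, b' (neg t) = -b t) (h : V n) : UU a' b' (-h) = -UU a b h := by
  funext j
  simp only [UU, meanV, DD, th, Pi.add_apply, Pi.mul_apply, Pi.neg_apply, hP.neg, ha, hb,
    SL.mean_neg, tanh_neg]
  ring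

/-- the linear form of a vector -/
def dL (u : V n) : V n →L[ℝ] ℝ := ∑ j, u j • ContinuousLinearMap.proj j

lemma dL_apply (u v : V n) : dL u v = u ⬝ᵥ v := by simp [dL, dotProduct]

lemma dL_le (u : V n) : ‖dL u‖ ≤ n * nrm u := by
  refine ContinuousLinearMap.opNorm_le_bound _ (by have := nrm_nonneg u; positivity) fun v => ?_
  rw [dL_apply, dotProduct]
  refine (norm_sum_le _ _).trans ((sum_le_card_nsmul _ _ (nrm u * ‖v‖) fun j _ => ?_).trans_eq
    (by simp [mul_assoc]))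
  rw [norm_mul]
  exact mul_le_mul (abs_apply_le_nrm u j) (norm_le_pi_norm v j) (norm_nonneg _) (nrm_nonneg _)

lemma der1 (hP : PrStmt) {F : F2 n} {g : U2 n} (hF : Der F g) (c y : V n) :
    HasFDerivAt (fun y => mean (ising 0 (y + c)) fun t => F t y)
      (dL (UU (grad fun t => F t y) (fun t => g t y) (y + c))) y := by
  have hp := fun t => (dp t (y + c)).hasFDerivAt.comp y ((hasFDerivAt_id y).add_const c)
  have h1 := HasFDerivAt.fun_sum (u := univ) fun t _ => (hp t).mul ((hF t).1 y).hasFDerivAt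
  have h2 := (HasFDerivAt.fun_sum (u := univ) fun t _ =>
    (dp t (y + c)).hasFDerivAt.mul_const (F t y)).fderiv
  refine HasFDerivAt.congr_fderiv h1 (ContinuousLinearMap.ext fun v => ?_)
  have h3 := (hP.der n fun t => F t y).2 (y + c) v
  rw [show (fun h : V n => mean (ising 0 h) fun t => F t y) =
    fun h => ∑ t, prob (ising 0 h) t * F t y from rfl, h2] at h3
  rw [dL_apply, UU, add_dotProduct, ← h3, dotProduct_comm (meanV _ _), SL.meanV_dot]
  simp [sum_add_distrib, (hF _).2.2, mean, dotProduct_comm v, add_comm]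

lemma kb_eq (Q : Mx n) (ω β : U2 n) (s : Cube n) (y : V n) : kb Q ω β s y = fun j =>
    ∫ z, UU (fun t => ω t y) (fun t => β t y) (y + Q *ᵥ (Q *ᵥ sv s + z)) j ∂gv (Fin n) := rfl

lemma cQ (Q : Mx n) (y c : V n) : Continuous fun z : V n => y + Q *ᵥ (c + z) := by fun_prop

lemma mean_cb (G : Cube n → ℝ) {hh : (κ → ℝ) → V n} (h : Continuous hh) :
    CB fun z => mean (ising 0 (hh z)) G :=
  ⟨cm (a := fun t _ => G t) (fun _ => continuous_const) h, ‖G‖,
    fun _ => (wt _).abs_mean_le fun t => norm_le_pi_norm G t⟩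

lemma der2 (hP : PrStmt) (Q : Mx n) {F : F2 n} {g : U2 n} {L : ℝ} (hF : Der F g)
    (hL : ∀ s y, nrm (grad (fun s => F s y) s) ≤ L ∧ nrm (g s y) ≤ L) :
    Der (Kop Q F) (kb Q (fun s y => grad (fun s => F s y) s) g) := fun s => by
  have bd := fun y h => UU_le (fun t => (hL t y).1) (fun t => (hL t y).2) h
  have ci : ∀ y, Continuous fun z : V n => dL (UU (grad fun t => F t y) (fun t => g t y)
      (y + Q *ᵥ (Q *ᵥ sv s + z))) := fun y =>
    continuous_finsetSum _ fun j _ => (UU_cb _ _ (cQ Q y _) j).c.smul continuous_const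
  have bL : ∀ y h, ‖dL (UU (grad fun t => F t y) (fun t => g t y) h)‖ ≤ n * (2 * L) := fun y h =>
    (dL_le _).trans (mul_le_mul_of_nonneg_left (bd y h) n.cast_nonneg)
  have h1 : ∀ y, HasFDerivAt (Kop Q F s) (∫ z, dL (UU (grad fun t => F t y) (fun t => g t y)
      (y + Q *ᵥ (Q *ᵥ sv s + z))) ∂gv (Fin n)) y := fun y =>
    hasFDerivAt_integral_of_dominated_of_fderiv_le (s := Set.univ) (bound := fun _ => n * (2 * L))
      (F := fun y z => mean (ising 0 (y + Q *ᵥ (Q *ᵥ sv s + z))) fun t => F t y)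
      (F' := fun y z => dL (UU (grad fun t => F t y) (fun t => g t y)
        (y + Q *ᵥ (Q *ᵥ sv s + z)))) Filter.univ_mem
      (.of_forall fun y => (mean_cb _ (cQ Q y _)).c.aestronglyMeasurable)
      (mean_cb _ (cQ Q y _)).int (ci y).aestronglyMeasurable (.of_forall fun z y _ => bL y _)
      (integrable_const _) (.of_forall fun z y _ => der1 hP hF _ y)
  refine ⟨fun y => (h1 y).differentiableAt, continuous_pi fun j => continuous_of_dominated
    (bound := fun _ => 2 * L) (fun y => (UU_cb _ _ (cQ Q y _) j).c.aestronglyMeasurable)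
    (fun y => .of_forall fun z => (abs_apply_le_nrm _ j).trans (bd y _)) (integrable_const _)
    (.of_forall fun z => UU_cont (fun t => continuous_pi fun i => ?_) (fun t => (hF t).2.1)
      (continuous_id.add continuous_const) j), fun y v => ?_⟩
  · exact (((hF _).1.continuous).sub (hF _).1.continuous).div_const 2
  · rw [(h1 y).fderiv, ContinuousLinearMap.integral_apply ((integrable_const _).mono'
      (ci y).aestronglyMeasurable (.of_forall fun z => bL y _)), kb_eq]
    simp only [dL_apply, dotProduct, ← integral_mul_const]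
    exact integral_finsetSum _ fun j _ => (UU_cb _ _ (cQ Q y _) j).int.mul_const _

theorem yhalf (hRF : RFStmt) (hRE : REStmt) (hP : PrStmt) (hR : RevStmt) :
    ∃ C ≥ (1 : ℝ), ∀ (n : ℕ) (J Q : Mx n) (e L : ℝ) (ω : U2 n) (F : F2 n) (g β : U2 n) (X : F2 n),
    JQ J Q → 0 ≤ e → BS F g ω β X e L → ∃ g', Der (Kop Q F) g' ∧
      (∀ s y, nrm (g' s y) ≤ C * L ∧ nrm (g' s y - kb Q ω β s y) ^ 2 ≤ C * Kop Q X s y) ∧
      RF (C * e) (kb Q ω β) ∧ OddJ (kb Q ω β) ∧ RE (C * e) (Kop Q X) := by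
  obtain ⟨C1, c1, hRF⟩ := hRF 3
  obtain ⟨C2, c2, hRE⟩ := hRE 3
  refine ⟨12 * (C1 + C2), by linarith, fun n J Q e L ω F g β X hJ he h => ?_⟩
  have oQ := (hR.opQ n J Q hJ).1
  have lQ : ∀ y ζ ζ' : V n, nrm (y + Q *ᵥ ζ - (y + Q *ᵥ ζ')) ≤ 3 * nrm (ζ - ζ') := fun y ζ ζ' => by
    rw [add_sub_add_left_eq_sub, ← mulVec_sub]
    exact (nrm_mulVec_le _ _).trans (mul_le_mul_of_nonneg_right oQ (nrm_nonneg _))
  have L0 := (nrm_nonneg _).trans (h.gr default 0).1
  have X0 : ∀ s y, 0 ≤ X s y := fun s y => (h.rX.sb y s).1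
  have K0 : ∀ s y, 0 ≤ Kop Q X s y := fun s y =>
    integral_nonneg fun z => (wt _).mean_nonneg fun t => X0 t y
  obtain ⟨B, hB⟩ := h.rX.bd
  have e1 : C1 * 1 * (12 * e) ≤ 12 * (C1 + C2) * e := by nlinarith
  have e2 : C2 * (6 * e) ≤ 12 * (C1 + C2) * e := by nlinarith
  have e3 : 8 * e ≤ 12 * (C1 + C2) * e := by nlinarith
  refine ⟨_, der2 hP Q h.der h.gr, fun s y => ⟨?_, ?_⟩, ⟨fun y => ?_, fun s y y' => ?_⟩,
    fun s y => ?_, fun y s => ⟨K0 s y, ?_⟩, fun s y y' => ?_, B, fun s y => ?_⟩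
  · exact (nrm_int_le (UU_cb _ _ (cQ Q y _)) fun z => UU_le (fun t => (h.gr t y).1)
      (fun t => (h.gr t y).2) _).trans (by nlinarith)
  · have := nrm_int (UU_cb (fun t => grad (fun s => F s y) t - ω t y) (fun t => g t y - β t y)
      (cQ Q y (Q *ᵥ sv s))) ((mean_cb (fun t => X t y) (cQ Q y (Q *ᵥ sv s))).int.const_mul 2)
      fun z => (UU_sq _ _ _).trans (mul_le_mul_of_nonneg_left
        ((wt _).mean_mono fun t => h.app t y) two_pos.le)
    rw [integral_const_mul] at this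
    refine le_trans (le_of_eq ?_) (this.trans (mul_le_mul_of_nonneg_right (by linarith) (K0 s y)))
    congr 2; funext j
    simp only [← UU_sub, Pi.sub_apply, kb_eq]
    exact (integral_sub (UU_cb _ _ (cQ Q y _) j).int (UU_cb _ _ (cQ Q y _) j).int).symm
  · have := hRF n (Fin n) Q Q (fun _ => 1)
      (fun _ ζ => UU (fun t => ω t y) (fun t => β t y) (y + Q *ᵥ ζ)) 1 (12 * e) oQ oQ
      ⟨differentiable_const _, fun u v => by simp⟩ ⟨fun ζ => ⟨fun _ i => (UU_sup (h.rω.r0 y).sup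
        (h.rβ.r0 y).sup _ i).trans (by linarith), fun s => by
          rw [show jac _ s = 0 from Matrix.ext fun _ _ => sub_self _]
          exact opn_zero.trans_le (by positivity)⟩, fun _ ζ ζ' =>
        (UU_lip hP he (h.rω.r0 y) (h.rβ.r0 y) _ _).trans
          (by nlinarith [mul_le_mul_of_nonneg_left (lQ y ζ ζ') he])⟩
    have e : cwv Q Q (fun _ => 1) (fun _ ζ => UU (fun t => ω t y) (fun t => β t y) (y + Q *ᵥ ζ)) =
        fun s => kb Q ω β s y := funext fun s => funext fun j => by simp only [cwv, one_mul, kb_eq]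
    rw [e] at this
    exact ⟨fun s i => (this.sup s i).trans e1, fun s => (this.op s).trans e1⟩
  · have := nrm_int_le (u := fun z => UU (fun t => ω t y) (fun t => β t y)
      (y + Q *ᵥ (Q *ᵥ sv s + z)) - UU (fun t => ω t y') (fun t => β t y') (y' + Q *ᵥ (Q *ᵥ sv s + z)))
      (B := 6 * e * nrm (y - y')) (fun j => ?_) fun z => ?_
    · refine le_trans (le_of_eq ?_) (this.trans
        (mul_le_mul_of_nonneg_right (by linarith) (nrm_nonneg _)))
      congr 1; funext j
      exact (integral_sub (UU_cb _ _ (cQ Q y _) j).int (UU_cb _ _ (cQ Q y' _) j).int).symm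
    · obtain ⟨c, M, hM⟩ := UU_cb (fun t => ω t y) (fun t => β t y) (cQ Q y (Q *ᵥ sv s)) j
      obtain ⟨c', M', hM'⟩ := UU_cb (fun t => ω t y') (fun t => β t y') (cQ Q y' (Q *ᵥ sv s)) j
      exact ⟨c.sub c', M + M', fun z => (abs_sub _ _).trans (add_le_add (hM z) (hM' z))⟩
    · have a1 := UU_lip hP he (h.rω.r0 y) (h.rβ.r0 y) (y + Q *ᵥ (Q *ᵥ sv s + z))
        (y' + Q *ᵥ (Q *ᵥ sv s + z))
      have a2 := UU_le (fun t => h.rω.lip t y y') (fun t => h.rβ.lip t y y')
        (y' + Q *ᵥ (Q *ᵥ sv s + z))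
      rw [← UU_sub] at a2
      rw [add_sub_add_right_eq_sub] at a1
      rw [← sub_add_sub_cancel]
      exact (nrm_add_le _ _).trans ((add_le_add a1 a2).trans_eq (by ring))
  · have : (gv (Fin n)).IsNegInvariant := by
      have : (gaussianReal 0 1).IsNegInvariant :=
        ⟨by simpa [Measure.neg] using gaussianReal_map_neg (μ := 0) (v := 1)⟩
      infer_instance
    have es : sv (neg s) = -sv s := funext fun i => by
      simp only [sv, Reg.neg, Pi.neg_apply]
      cases s i <;> simp [ProbabilityR.SpinGlassDynamics.spin]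
    funext j
    rw [kb_eq, kb_eq, Pi.neg_apply, ← integral_neg]
    refine (integral_neg_eq_self _ _).symm.trans (integral_congr_ae (.of_forall fun z => ?_))
    beta_reduce
    rw [es, mulVec_neg, ← neg_add, mulVec_neg, ← neg_add,
      UU_neg hP (fun t => h.oω t y) fun t => h.oβ t y, Pi.neg_apply]
  · refine ((hRE n (Fin n) Q (fun _ ζ => mean (ising 0 (y + Q *ᵥ ζ)) fun t => X t y) (6 * e) oQ
      (by positivity) ⟨fun ζ _ => ⟨(wt _).mean_nonneg fun t => X0 t y, ?_⟩, fun _ ζ ζ' => ?_, B,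
      fun _ _ => (wt _).mean_le fun t => hB t y⟩ s).2).trans (mul_le_mul_of_nonneg_right
        (pow_le_pow_left₀ (by positivity) e2 2) (K0 s y))
    · simp only [Vp, sub_self, max_self, zero_pow two_ne_zero, sum_const_zero]
      exact mul_nonneg (sq_nonneg _) ((wt _).mean_nonneg fun t => X0 t y)
    · refine (hP.sq n _ e he (h.rX.sb y) _ _).trans ?_
      rw [en_nrm, en_nrm]
      nlinarith [mul_le_mul_of_nonneg_left (lQ y ζ ζ') he]
  · have key : ∀ y y' : V n, √(Kop Q X s y) ≤ √(Kop Q X s y') + 3 * e * en (y - y') := fun y y' => by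
      have n0 := Conc.en_nonneg (y - y')
      refine mk_int (mean_cb _ (cQ Q y _)) (mean_cb _ (cQ Q y' _)) (by positivity)
        (fun _ => (wt _).mean_nonneg fun t => X0 t y) (fun _ => (wt _).mean_nonneg fun t => X0 t y')
        fun z => ?_
      have a1 := (abs_le.1 (hP.sq n _ e he (h.rX.sb y) (y + Q *ᵥ (Q *ᵥ sv s + z))
        (y' + Q *ᵥ (Q *ᵥ sv s + z)))).2
      have a2 := mk_mean (wt (y' + Q *ᵥ (Q *ᵥ sv s + z))) (mul_nonneg he n0) (X0 · y) (X0 · y')
        fun t => by linarith [(abs_le.1 (h.rX.lip t y y')).2]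
      rw [add_sub_add_right_eq_sub] at a1
      linarith
    have a1 := key y y'
    have a2 := key y' y
    have n0 := mul_le_mul_of_nonneg_right (show 3 * e ≤ 12 * (C1 + C2) * e by linarith)
      (Conc.en_nonneg (y - y'))
    rw [Conc.en_sub_comm] at a2
    exact abs_le.2 ⟨by linarith, by linarith⟩
  · exact (integral_mono (mean_cb _ (cQ Q y _)).int (integrable_const B)
      fun z => (wt _).mean_le fun t => hB t y).trans_eq (by simp)

end Crest.Agent.T157.K.StB

end
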