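import Crest.Agent.T157.KStA_47
import Crest.Agent.T157.KStB_63

/-!
# Row 157, part B, block S5 (helper47): one step of the resampling kernel
-/

set_option autoImplicit false
set_option linter.unusedSectionVars false

noncomputable section

namespace Crest.Agent.T157.K

open MeasureTheory ProbabilityTheory Real Matrix Finset
open Crest.Agent.T157.E Crest.Agent.T157.Eig Crest.Agent.T157.SL
open Crest.Agent.T157.Tap (V Mx th DD)
open Crest.Agent.T157.Rec (grad)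
open Crest.Agent.T157.Conc (ELip)
open Crest.Agent.T157.Reg (jac neg)
open Crest.Agent.T157.Z (cp)

namespace St47

variable {n : ℕ} {J Q : Mx n} {Λ η e L CW CR CE : ℝ} {ω : U2 n}

/-- what is used of the weights -/
structure WF (C Λ : ℝ) : Prop where
  gr : GW (rho 4)
  gh : GW (rh 4 Λ)
  gd : GW fun t => rho 4 t - rh 4 Λ t
  w2 : W2 (C * exp (2 * Λ)) (rh 4 Λ)
  ir : ∫ t, rho 4 (√4 * t) ^ 2 ∂gaussianReal 0 1 ≤ C
  ih : ∫ t, rh 4 Λ (√4 * t) ^ 2 ∂gaussianReal 0 1 ≤ C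
  id : ∫ t, (rho 4 (√4 * t) - rh 4 Λ (√4 * t)) ^ 2 ∂gaussianReal 0 1 ≤ C * exp (-(Λ ^ 2 / C))

theorem wf (hW : WStmt) : ∃ C ≥ (1 : ℝ), ∀ Λ ≥ (0 : ℝ), WF C Λ := by
  obtain ⟨C, C1, h⟩ := hW 4
  refine ⟨C, C1, fun Λ hΛ => ?_⟩
  obtain ⟨w2, c, b, i1, i2⟩ := h 4 Λ (by norm_num) le_rfl hΛ (rho 4) (by simp)
  have p : ∀ u, 0 < rho 4 u := fun u => (b u).1.trans_le (b u).2.1
  have gr : GW (rho 4) := ⟨c, 2, 2, fun t => by
    rw [abs_of_pos (p t)]
    have h1 : exp (-2 * t) ≤ exp (2 * |t|) := exp_le_exp.2 (by linarith [neg_abs_le t])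
    linarith [(b t).2.2, one_le_exp (by positivity : 0 ≤ 2 * |t|)]⟩
  refine ⟨gr, ⟨w2.1.continuous, C * exp (2 * Λ), 0, fun t => by simpa [rh] using (w2.2 t t).1⟩,
    gr.sub w2.1.continuous fun t => ⟨(b t).1.le, (b t).2.1⟩, w2, i1, le_trans ?_ i1, i2⟩
  refine integral_mono_of_nonneg (.of_forall fun _ => sq_nonneg _) ?_
    (.of_forall fun t => pow_le_pow_left₀ (b _).1.le (b _).2.1 2)
  refine ((integrable_const (2 : ℝ)).add ((integrable_exp_mul_gaussianReal (μ := 0) (v := 1)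
    (-4 * √4)).const_mul 2)).mono' ((c.comp (by fun_prop)).pow 2).aestronglyMeasurable
    (.of_forall fun t => ?_)
  have h1 := pow_le_pow_left₀ (p _).le (b (√4 * t)).2.2 2
  have h2 : exp (-4 * √4 * t) = exp (-2 * (√4 * t)) ^ 2 := by rw [← exp_nat_mul]; congr 1; push_cast; ring
  rw [Real.norm_eq_abs, abs_of_nonneg (sq_nonneg _), Pi.add_apply, h2]
  nlinarith [sq_nonneg (1 - exp (-2 * (√4 * t)))]

/-- the field before clipping -/
def T (Q : Mx n) (y : V n) (ω : Cube n → V n) (ζ : V n) : V n := (Q * Q) *ᵥ U (y + Q *ᵥ ζ) ω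

theorem kw_eq (s : Cube n) (y : V n) :
    kw Q Λ η ω s y = cwv Q Q (rh 4 Λ) (fun _ ζ => cp η (T Q y (fun t => ω t y) ζ)) s := rfl

theorem kx_eq (s : Cube n) (y : V n) :
    kx Q η ω s y = cav Q (fun _ ζ => exc η (T Q y (fun t => ω t y) ζ)) s := rfl

theorem cont_T (Q : Mx n) (y : V n) (ω : Cube n → V n) : Continuous (T Q y ω) :=
  continuous_const.matrix_mulVec ((cont_U ω).comp (by fun_prop))

theorem bu_T (Q : Mx n) (y : V n) (ω : Cube n → V n) : BU (T Q y ω) :=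
  ⟨cont_T Q y ω, opn (Q * Q) * ∑ s, nrm (ω s), fun _ => (nrm_mulVec_le _ _).trans
    (mul_le_mul_of_nonneg_left (U_bd ω _) (opn_nonneg _))⟩

theorem bu_cp (hη : 0 ≤ η) (Q : Mx n) (y : V n) (ω : Cube n → V n) : BU fun ζ => cp η (T Q y ω ζ) :=
  ⟨(cont_cp η).comp (cont_T Q y ω), _, fun _ => nrm_le_of_sup (abs_cp hη _)⟩

section
variable (hR : RevStmt) (h : JQ J Q)
include hR h

theorem nA (v : V n) : nrm ((Q * Q) *ᵥ v) ≤ 7 * nrm v :=
  (nrm_mulVec_le _ _).trans (mul_le_mul_of_nonneg_right (hR.opQ n J Q h).2.1 (nrm_nonneg _))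

theorem nQ (v : V n) : nrm (Q *ᵥ v) ≤ 3 * nrm v :=
  (nrm_mulVec_le _ _).trans (mul_le_mul_of_nonneg_right (hR.opQ n J Q h).1 (nrm_nonneg _))

theorem T_le (y : V n) {ω : Cube n → V n} {c : ℝ} (hc : ∀ s, nrm (ω s) ≤ c) (ζ : V n) :
    nrm (T Q y ω ζ) ≤ 7 * c := (nA hR h _).trans (by linarith [U_le (y + Q *ᵥ ζ) hc])

theorem T_lip (hP : PrStmt) (he : 0 ≤ e) (y : V n) {ω : Cube n → V n} (hω : R0 e ω) (ζ ζ' : V n) :
    nrm (T Q y ω ζ - T Q y ω ζ') ≤ 63 * e * nrm (ζ - ζ') := by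
  have h1 := U_lip hP he hω (y + Q *ᵥ ζ) (y + Q *ᵥ ζ')
  rw [add_sub_add_left_eq_sub, ← mulVec_sub] at h1
  rw [T, T, ← mulVec_sub]
  refine (nA hR h _).trans ?_
  nlinarith [mul_le_mul_of_nonneg_left (nQ hR h (ζ - ζ')) he]

theorem T_two (hP : PrStmt) (he : 0 ≤ e) (hω : RF e ω) (ζ y y' : V n) :
    nrm (T Q y (fun t => ω t y) ζ - T Q y' (fun t => ω t y') ζ) ≤ 28 * e * nrm (y - y') := by
  rw [T, T, ← mulVec_sub]
  exact (nA hR h _).trans (by linarith [U_two hP he hω (Q *ᵥ ζ) y y'])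

theorem kw_rf (hC : CsStmt) (hP : PrStmt) (hw : WF CW Λ) (W1 : 1 ≤ CW) (R1 : 1 ≤ CR) (hΛ : 0 ≤ Λ)
    (hRF : ∀ (w : ℝ → ℝ) (u : Cube n → V n → V n) (M e : ℝ), W2 M w → RF e u →
      R0 (CR * M * e) (cwv Q Q w u)) (he : 0 ≤ e) (hη : e ≤ η) (hω : RF e ω) :
    RF (CR * (CW * exp (2 * Λ)) * (63 * η)) (kw Q Λ η ω) := by
  have η0 := he.trans hη
  refine ⟨fun y => hRF _ _ _ _ hw.w2 (rf_const (by positivity)
    (fun ζ i => (abs_cp η0 _ i).trans (by linarith)) fun ζ ζ' => (cp_lip η _ _).trans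
      ((T_lip hR h hP he y (hω.r0 y) ζ ζ').trans (by gcongr; exact nrm_nonneg _))), fun s y y' => ?_⟩
  have d0 := nrm_nonneg (y - y')
  rw [kw_eq, kw_eq, cwv_sub hw.gh (bu_cp η0 Q y _) (bu_cp η0 Q y' _)]
  have h1 := cs' hC hw.gh ((bu_cp η0 Q y fun t => ω t y).sub (bu_cp η0 Q y' fun t => ω t y')).1
    (hR.opQ n J Q h).2.2 hw.ih (fun ζ => (cp_lip η _ _).trans (T_two hR h hP he hω ζ y y')) s
  have h2 : CW * (28 * e * nrm (y - y')) ^ 2 ≤ (CW * (28 * e * nrm (y - y'))) ^ 2 := by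
    rw [mul_pow CW]; gcongr; nlinarith
  refine (le_of_sq (by positivity) (h1.trans h2)).trans ?_
  have E1 : 1 ≤ exp (2 * Λ) := one_le_exp (by positivity)
  calc CW * (28 * e * nrm (y - y')) = 1 * (CW * 1) * (28 * e) * nrm (y - y') := by ring
    _ ≤ _ := by gcongr; norm_num

theorem kx_re (hP : PrStmt) (E1 : 1 ≤ CE)
    (hRE : ∀ (X : Cube n → V n → ℝ) (e : ℝ), 0 ≤ e → RE e X → SB ((CE * e) ^ 2) (cav Q X))
    (he : 0 ≤ e) (η0 : 0 ≤ η) (hω : RF e ω) : RE (CE * (63 * e)) (kx Q η ω) := by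
  have hb : ∀ y ζ, exc η (T Q y (fun t => ω t y) ζ) ≤ (7 * ∑ _i : Fin n, e) ^ 2 := fun y ζ =>
    (exc_le η0 _).trans (pow_le_pow_left₀ (nrm_nonneg _)
      (T_le hR h y (fun s => nrm_le_of_sup ((hω.r0 y).sup s)) ζ) 2)
  have hi : ∀ s y, Integrable (fun z => exc η (T Q y (fun t => ω t y) (Q *ᵥ sv s + z))) (gv (Fin n)) :=
    fun s y => int_bdd ((cont_exc η).comp ((cont_T Q y _).comp (by fun_prop))) fun z => by
      rw [abs_of_nonneg (exc_nonneg _ _)]; exact hb y _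
  refine ⟨fun y => hRE _ _ (by positivity) (re_const (fun _ => exc_nonneg _ _) (fun ζ ζ' => ?_)
    ⟨_, hb y⟩), fun s y y' => ?_, _, fun s y => int_le (fun _ => exc_nonneg _ _) fun _ => hb y _⟩
  · rw [en_nrm]; exact (sqrt_exc_lip η _ _).trans (T_lip hR h hP he y (hω.r0 y) ζ ζ')
  · refine (abs_sqrt_int (fun _ => exc_nonneg _ _) (fun _ => exc_nonneg _ _) (hi s y) (hi s y')
      fun z => (sqrt_exc_lip η _ _).trans (T_two hR h hP he hω _ y y')).trans ?_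
    have d0 := nrm_nonneg (y - y')
    rw [en_nrm]
    calc 28 * e * nrm (y - y') = 1 * (28 * e) * nrm (y - y') := by ring
      _ ≤ _ := by gcongr; norm_num

theorem ky_sb (hP : PrStmt)
    (hRE : ∀ (X : Cube n → V n → ℝ) (e : ℝ), 0 ≤ e → RE e X → SB ((CE * e) ^ 2) (cav Q X))
    (he : 0 ≤ e) (y : V n) {X : Cube n → ℝ} (hX : SB (e ^ 2) X) :
    SB ((CE * (63 * e)) ^ 2) (Ky Q y X) := by
  refine hRE _ _ (by positivity) (re_const
    (fun _ => (Kv.wt_ising 0 _).mean_nonneg fun s => (hX s).1) (fun ζ ζ' => ?_)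
    ⟨∑ s, X s, fun _ => (Kv.wt_ising 0 _).mean_le fun s =>
      single_le_sum (f := X) (fun t _ => (hX t).1) (mem_univ s)⟩)
  have h1 := hP.sq n X e he hX (y + Q *ᵥ ζ) (y + Q *ᵥ ζ')
  rw [add_sub_add_left_eq_sub, ← mulVec_sub, en_nrm] at h1
  rw [en_nrm]
  refine h1.trans ?_
  nlinarith [mul_le_mul_of_nonneg_left (nQ hR h (ζ - ζ')) he, mul_nonneg he (nrm_nonneg (ζ - ζ'))]

theorem ky_gr (hC : CsStmt) (hw : WF CW Λ) (W1 : 1 ≤ CW) (y : V n) {F : Cube n → ℝ}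
    (hL : ∀ s, nrm (grad F s) ≤ L) (s : Cube n) : nrm (grad (Ky Q y F) s) ≤ 7 * CW * L := by
  have L0 : 0 ≤ L := (nrm_nonneg _).trans (hL s)
  have h1 := cs' hC hw.gr (cont_T Q y (grad F)) (hR.opQ n J Q h).2.2 hw.ir (T_le hR h y hL) s
  rw [grad_Ky hR h]
  refine le_of_sq (by positivity) (h1.trans ?_)
  rw [show (7 * CW * L) ^ 2 = CW ^ 2 * (7 * L) ^ 2 by ring]
  gcongr; nlinarith

theorem ky_app (hC : CsStmt) (hw : WF CW Λ) (W1 : 1 ≤ CW) (η0 : 0 ≤ η) (y : V n) {F X : Cube n → ℝ}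
    (hL : ∀ s, nrm (grad F s) ≤ L) (hX : ∀ s, nrm (grad F s - ω s y) ^ 2 ≤ X s) (s : Cube n) :
    nrm (grad (Ky Q y F) s - kw Q Λ η ω s y) ^ 2 ≤
      147 * CW * (Ky Q y X s + kx Q η ω s y + exp (-(Λ ^ 2 / CW)) * L ^ 2) := by
  have hk := (hR.opQ n J Q h).2.2
  have b1 := bu_T Q y (grad F)
  have b2 := bu_T Q y fun t => ω t y
  have b3 := bu_cp η0 Q y fun t => ω t y
  have h1 := cs' hC hw.gd b1.1 hk hw.id (T_le hR h y hL) s
  have h2 := cs hC hw.gh (b1.sub b2) hk hw.ih s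
  have h3 := cs hC hw.gh (b2.sub b3) hk hw.ih s
  rw [← cwv_subw hw.gr hw.gh b1] at h1
  rw [← cwv_sub hw.gh b1 b2] at h2
  rw [← cwv_sub hw.gh b2 b3] at h3
  simp only [exc_eq η0, ← kx_eq] at h3
  have h4 : cav Q (fun _ ζ => nrm (T Q y (grad F) ζ - T Q y (fun t => ω t y) ζ) ^ 2) s ≤
      49 * Ky Q y X s := by
    rw [Ky, cav, cav, ← integral_const_mul]
    refine integral_mono_of_nonneg (.of_forall fun _ => sq_nonneg _)
      ((int_pw Q y _ X).const_mul _) (.of_forall fun z => ?_)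
    beta_reduce
    rw [T, T, ← mulVec_sub, U_sub]
    refine (pow_le_pow_left₀ (nrm_nonneg _) (nA hR h _) 2).trans ?_
    have := (U_sq (y + Q *ᵥ (Q *ᵥ sv s + z)) fun t => grad F t - ω t y).trans
      ((Kv.wt_ising 0 _).mean_mono hX)
    rw [mul_pow, pw]; linarith
  have h5 := sq3 (cwv Q Q (rho 4) (fun _ => T Q y (grad F)) s - cwv Q Q (rh 4 Λ) (fun _ => T Q y (grad F)) s)
    (cwv Q Q (rh 4 Λ) (fun _ => T Q y (grad F)) s - cwv Q Q (rh 4 Λ) (fun _ => T Q y fun t => ω t y) s)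
    (cwv Q Q (rh 4 Λ) (fun _ => T Q y fun t => ω t y) s -
      cwv Q Q (rh 4 Λ) (fun _ ζ => cp η (T Q y (fun t => ω t y) ζ)) s)
  rw [sub_add_sub_cancel, sub_add_sub_cancel] at h5
  have x0 : 0 ≤ kx Q η ω s y := integral_nonneg fun _ => exc_nonneg _ _
  rw [grad_Ky hR h, kw_eq]
  refine h5.trans ?_
  have h6 := mul_le_mul_of_nonneg_left h4 (zero_le_one.trans W1)
  nlinarith [mul_nonneg (zero_le_one.trans W1) x0]

end

theorem kw_odd (hP : PrStmt) (η0 : 0 ≤ η) (ho : OddJ ω) : OddJ (kw Q Λ η ω) := fun s y => by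
  rw [kw_eq, kw_eq]
  refine cwv_odd Q (fun ζ => ?_) s
  rw [T, T, mulVec_neg, ← neg_add, U_neg hP ho, mulVec_neg, cp_neg η0]

theorem exp_big {C c Λ : ℝ} (hΛ : 1 ≤ Λ) (hc : 0 ≤ c) (h : c + 2 ≤ C) :
    c * exp (2 * Λ) ≤ exp (C * Λ) := by
  have h1 : c ≤ exp (c * Λ) := by nlinarith [add_one_le_exp (c * Λ)]
  calc c * exp (2 * Λ) ≤ exp (c * Λ) * exp (2 * Λ) := by gcongr
    _ = exp ((c + 2) * Λ) := by rw [← exp_add]; congr 1; ring
    _ ≤ _ := by gcongr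

end St47

open St47

theorem stepGlue : StepGlue := fun _ hW hC hRF hRE hP hR => by
  obtain ⟨CW, W1, hw⟩ := wf hW
  obtain ⟨CR, R1, hr⟩ := hRF 3
  obtain ⟨CE, E1, hre⟩ := hRE 3
  obtain ⟨CY, Y1, hy⟩ := StB.yhalf hRF hRE hP hR
  obtain ⟨K, K1, kW, kRW, kE, kY⟩ : ∃ K : ℝ, 1 ≤ K ∧ CW ≤ K ∧ CR * CW ≤ K ∧ CE ≤ K ∧ CY ≤ K :=
    ⟨CR * CW + CE + CY, by nlinarith, by nlinarith, by linarith, by nlinarith, by nlinarith⟩
  obtain ⟨C, hC1, hC2⟩ : ∃ C : ℝ, 200 * K ≤ C ∧ 4 * (63 * K) ^ 2 ≤ C :=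
    ⟨4 * (63 * K) ^ 2, by nlinarith, le_rfl⟩
  refine ⟨C, by linarith, fun n J Q Λ η e L ω h hΛ he hη hω => ?_⟩
  have η0 := he.trans hη
  have C0 : 0 ≤ C := by linarith
  have oQ := (hR.opQ n J Q h).1
  have w := hw Λ (by linarith)
  have hr' := fun w u M e => hr n (Fin n) Q Q w u M e oQ oQ
  have hre' := fun X e => hre n (Fin n) Q X e oQ
  have eC : C ≤ exp (C * Λ) := by nlinarith [add_one_le_exp (C * Λ)]
  have e0 := (exp_pos (C * Λ)).le
  have r1 : RF (exp (C * Λ) * η) (kw Q Λ η ω) :=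
    rf_mono (kw_rf hR h hC hP w W1 R1 (by linarith) hr' he hη hω) (by
      have := exp_big (C := C) (c := 63 * (CR * CW)) hΛ (by positivity) (by linarith)
      calc _ = 63 * (CR * CW) * exp (2 * Λ) * η := by ring
        _ ≤ _ := by gcongr)
  have le1 : CE * (63 * e) ≤ 63 * K * e := by nlinarith
  have r2 : RE (63 * K * e) (kx Q η ω) :=
    re_mono (kx_re hR h hP E1 hre' he η0 hω) (by positivity) le1
  have big : 4 * C * (63 * K * e) ^ 2 ≤ (exp (C * Λ) * η) ^ 2 := by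
    calc 4 * C * (63 * K * e) ^ 2 = C * (4 * (63 * K) ^ 2) * e ^ 2 := by ring
      _ ≤ exp (C * Λ) * exp (C * Λ) * η ^ 2 := by gcongr; exact hC2.trans eC
      _ = _ := by ring
  have c0 : 0 ≤ exp (-(Λ ^ 2 / C)) * L ^ 2 := by positivity
  have ce : exp (-(Λ ^ 2 / CW)) * L ^ 2 ≤ exp (-(Λ ^ 2 / C)) * L ^ 2 := by
    gcongr; linarith
  have x0 : ∀ s y, 0 ≤ kx Q η ω s y := fun s y => (r2.sb y s).1
  refine ⟨r1, re_mono r2 (by positivity) (by gcongr; linarith), kw_odd hP η0,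
    fun y F X hB => ?_, fun F g β X hB => ?_⟩
  · have s1 := sb_mono (ky_sb hR h hP hre' he y hB.sb) (pow_le_pow_left₀ (by positivity) le1 2)
    refine ⟨fun s => (ky_gr hR h hC w W1 y hB.gr s).trans ?_, fun s =>
      (ky_app hR h hC w W1 η0 y hB.gr hB.app s).trans ?_, r1.r0 y,
      sb_mono (sb_comb s1 (r2.sb y) (sq_nonneg _) c0 C0)
        (le_trans (by nlinarith [mul_nonneg C0 (sq_nonneg (63 * K * e))]) big)⟩
    · have := (nrm_nonneg _).trans (hB.gr s)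
      gcongr; linarith
    · have := (s1 s).1
      have := x0 s y
      gcongr; linarith
  · obtain ⟨g', d, a, rb, ob, rx⟩ := hy n J Q e L ω F g β X h he hB
    have rx' := re_mono rx (by positivity) (show CY * e ≤ 63 * K * e by gcongr; linarith)
    refine ⟨g', d, fun s y => ?_, fun s y => ?_, r1, rf_mono rb ?_, re_comb rx' r2 c0 C0
      (by positivity) big, kw_odd hP η0 hB.oω, ob⟩
    · have := (nrm_nonneg _).trans (hB.gr s y).1
      exact ⟨(ky_gr hR h hC w W1 y (fun t => (hB.gr t y).1) s).trans (by gcongr; linarith),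
        (a s y).1.trans (by gcongr; linarith)⟩
    · have h1 := ky_app hR h hC w W1 η0 y (X := fun t => X t y) (fun t => (hB.gr t y).1)
        (fun t => le_trans (le_add_of_nonneg_right (sq_nonneg _)) (hB.app t y)) s
      have h2 := (a s y).2
      have k0 := (rx.sb y s).1
      have k1 := x0 s y
      change _ ≤ 147 * CW * (Kop Q X s y + _ + _) at h1
      refine (add_le_add h1 h2).trans ?_
      calc _ ≤ 147 * K * (Kop Q X s y + kx Q η ω s y + exp (-(Λ ^ 2 / C)) * L ^ 2) +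
            K * (Kop Q X s y + kx Q η ω s y + exp (-(Λ ^ 2 / C)) * L ^ 2) := by
            gcongr; linarith
        _ = 148 * K * (Kop Q X s y + kx Q η ω s y + exp (-(Λ ^ 2 / C)) * L ^ 2) := by ring
        _ ≤ _ := by gcongr; linarith
    · gcongr; linarith

end Crest.Agent.T157.K
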