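import Crest.Agent.T157.KDef_36

/-!
# Row 157, part B, block S5 (helper62): transfer of small means, transport with a regular gradient
-/

set_option autoImplicit false

noncomputable section

namespace Crest.Agent.T157.K

namespace Tr62

open Finset Matrix Real
open Crest.Agent.T157.Chain22 Crest.Agent.T157.Ent
open Crest.Agent.T157.E (Cube prob sv)
open Crest.Agent.T157.Eig (nrm opn)
open Crest.Agent.T157.Rec (grad fl)
open Crest.Agent.T157.S3.Hb (Dw OpL kl0 dsn mean_neg' grad_neg_dot sub_le_of_lmgf tl mean_tl isP_tl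
  kl_tl)
open Crest.Agent.T157.S3.Hd

variable {n : ℕ} {w ν R : Cube n → ℝ} {K ε A θ e : ℝ}

theorem opL {ω : Cube n → Fin n → ℝ} (h : ∀ s, opn (Reg.jac ω s) ≤ e) : OpL ω (e ^ 2) := fun x v => by
  have e0 : 0 ≤ e := (Eig.opn_nonneg _).trans (h x)
  have a : nrm ((Reg.jac ω x)ᵀ *ᵥ v) ≤ e * nrm v := (Eig.nrm_mulVec_le _ _).trans
    (mul_le_mul_of_nonneg_right ((Eig.opn_transpose _).trans_le (h x)) (Eig.nrm_nonneg _))
  have b := pow_le_pow_left₀ (Eig.nrm_nonneg _) a 2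
  rw [mul_pow, Eig.nrm_sq, Eig.nrm_sq] at b
  refine le_trans (sum_le_sum fun j _ => ?_) b
  have c : ((Reg.jac ω x)ᵀ *ᵥ v) j = v ⬝ᵥ ω (fl x j) - v ⬝ᵥ ω x := by
    simp only [mulVec, dotProduct, Reg.jac, transpose_apply, of_apply, ← sum_sub_distrib]
    exact sum_congr rfl fun i _ => by ring
  rw [c, Rec.grad_eq]
  have := Rec.sv_mul_self x j
  nlinarith [mul_self_nonneg (v ⬝ᵥ ω (fl x j) - v ⬝ᵥ ω x)]

theorem one (hw : ∀ x, 0 < w x) (h : AD w K ε) (hA : ∀ x, grad R x ⬝ᵥ grad R x ≤ A)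
    {Om : Cube n → Fin n → ℝ} {a B : ℝ} (ha : 0 ≤ a) (hθ : 0 < θ)
    (hn : K ^ 2 * θ ^ 2 * A ≤ n) (he : ∀ x j, 4 * θ * |Om x j| ≤ 1)
    (hZ : ∀ ν, IsP ν → mean ν (fun x => 6 * ∑ j, Dw w x j * Om x j ^ 2 +
      16 * ∑ j, (grad R x j - Om x j) ^ 2) ≤ a * kl ν (prob w) + B)
    (hs : 2 * K * θ ^ 2 * a ≤ 1) :
    lmgf (prob w) R θ ≤ θ * mean (prob w) R + (2 * K * B + 2 * ε * A) * θ ^ 2 := by
  have hp := isP_prob' hw
  have hK := h.pos.le
  refine herbst hp R hθ.le fun u hu hu' => ?_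
  have M := mean_exp_pos hp fun x => u * R x
  have hP := isP_tl hp fun x => u * R x
  have H0 := kl0 hw hP
  have A0 := (dsn _).trans (hA default)
  have e1 := ent_exp_tr hw h hA hu.le (le_trans (by gcongr) hn) fun x j => le_trans
    (mul_le_mul_of_nonneg_right (by linarith) (abs_nonneg _)) (he x j)
  have e2 := div_le_div_of_nonneg_right e1 M.le
  rw [← kl_tl hp, add_div, mul_div_cancel_right₀ _ M.ne', mul_div_assoc, ← mean_tl,
    mean_const_mul] at e2
  rw [← div_le_iff₀ M, ← kl_tl hp]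
  have e3 := hZ _ hP
  have k0 : 0 ≤ K * u ^ 2 := by positivity
  have e5 : 2 * (K * u ^ 2) * a ≤ 1 := by
    refine le_trans ?_ hs
    rw [← mul_assoc]
    gcongr
  generalize kl (tl (prob w) fun x => u * R x) (prob w) = H at *
  nlinarith [mul_le_mul_of_nonneg_right e5 H0, mul_le_mul_of_nonneg_left e3 k0]

/-- **(TR)** with one budget for the whole carré du champ -/
theorem two (hw : ∀ x, 0 < w x) (h : AD w K ε) (hA : ∀ x, grad R x ⬝ᵥ grad R x ≤ A)
    {Om : Cube n → Fin n → ℝ} {a B : ℝ} (ha : 0 ≤ a) (hθ : 0 < θ)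
    (hn : K ^ 2 * θ ^ 2 * A ≤ n) (he : ∀ x j, 4 * θ * |Om x j| ≤ 1)
    (hZ : ∀ ν, IsP ν → mean ν (fun x => 6 * ∑ j, Dw w x j * Om x j ^ 2 +
      16 * ∑ j, (grad R x j - Om x j) ^ 2) ≤ a * kl ν (prob w) + B)
    (hs : 2 * K * θ ^ 2 * a ≤ 1) (hν : IsP ν) :
    |mean ν R - mean (prob w) R| ≤ kl ν (prob w) / θ + (2 * K * B + 2 * ε * A) * θ := by
  have a1 := sub_le_of_lmgf hw hν hθ (one hw h hA ha hθ hn he hZ hs)
  have a2 := sub_le_of_lmgf hw hν hθ (one hw h (R := fun x => -1 * R x)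
    (fun x => (grad_neg_dot R x).trans_le (hA x))
    (Om := fun x j => -Om x j) (B := B) ha hθ hn (by simpa only [abs_neg] using he)
    (fun ν hν => (mean_congr fun x => by
      simp only [neg_sq, Rec.grad_const_mul, Pi.smul_apply, smul_eq_mul]
      congr 2
      exact sum_congr rfl fun j _ => by ring).trans_le (hZ ν hν)) hs)
  rw [mean_neg', mean_neg'] at a2
  exact abs_le.2 ⟨by linarith, a1⟩

theorem nsq (u : Fin n → ℝ) : nrm u ^ 2 = ∑ j, u j ^ 2 := by
  rw [Eig.nrm_sq]; simp only [dotProduct, sq]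

theorem trf : TrfStmt := fun K => ⟨32 * |K| + 2, by linarith [abs_nonneg K],
  fun n w v X e ε y y' hw h hv hX => by
  have K0 := h.pos
  have a := sb hw h (sq_nonneg e) (fun s => (hX.sb y s).1) (fun s => (hX.sb y s).2) hv.isP
  have b : mean (prob v) (fun s => X s y') ≤
      mean (prob v) fun s => 2 * X s y + 2 * (e ^ 2 * nrm (y' - y) ^ 2) := hv.isP.mean_mono fun s => by
    have c := pow_le_pow_left₀ (abs_nonneg _) (hX.lip s y' y) 2
    rw [sq_abs, mul_pow, Conc.en, sq_sqrt (sum_nonneg fun _ _ => sq_nonneg _), ← nsq] at c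
    nlinarith [sq_sqrt (hX.sb y s).1, sq_sqrt (hX.sb y' s).1, sq_nonneg (√(X s y') - 2 * √(X s y))]
  rw [mean_add', mean_const_mul, hv.isP.mean_const] at b
  have H0 := kl0 hw hv.isP
  change mean (prob v) _ ≤ 4 * mean (prob w) _ + _ * (kl (prob v) (prob w) + _ + 1)
  rw [abs_of_pos K0]
  have := mul_nonneg (sq_nonneg e) H0
  have := mul_nonneg K0.le (mul_nonneg (sq_nonneg e) (sq_nonneg (nrm (y' - y))))
  nlinarith [sq_nonneg e]⟩

theorem tr : TrStmt := fun K => ⟨4000 * (K ^ 2 + 1), by nlinarith [sq_nonneg K],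
  fun n w v F X ω e L ε θ J y _ _ _ ew h hv hF hθ h1 h2 => by
  have hw : ∀ x, 0 < w x := fun x => ew ▸ exp_pos _
  have hp := isP_prob' hw
  have K0 := h.pos
  have e0 : 0 ≤ e := (Eig.opn_nonneg _).trans (hF.r0.op default)
  have L0 : 0 ≤ L := (Eig.nrm_nonneg _).trans (hF.gr default)
  have ε0 := h.nn
  have c1 : 2000 * K ≤ 4000 * (K ^ 2 + 1) := by nlinarith [sq_nonneg (K - 1)]
  have t1 : 0 ≤ θ * e := by positivity
  have t2 : 0 ≤ θ * L := by positivity
  have ap : ∀ x, ∑ j, (grad F x j - ω x j) ^ 2 ≤ X x := fun x =>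
    (nsq (grad F x - ω x)).symm.trans_le (hF.app x)
  obtain ⟨G, hG⟩ : ∃ G, G = mean (prob w) fun s => nrm (grad F s) ^ 2 := ⟨_, rfl⟩
  have G0 : 0 ≤ G := hG ▸ hp.mean_nonneg fun _ => sq_nonneg _
  have X0 : 0 ≤ mean (prob w) X := hp.mean_nonneg fun s => (hF.sb s).1
  have z0 : mean (prob w) (fun x => ∑ j, ω x j ^ 2) ≤ 2 * G + 2 * mean (prob w) X := by
    rw [hG, ← mean_const_mul, ← mean_const_mul, ← mean_add']
    refine hp.mean_mono fun x => le_trans ?_
      (add_le_add le_rfl (mul_le_mul_of_nonneg_left (ap x) zero_le_two))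
    simp only [nsq, mul_sum, ← sum_add_distrib]
    exact sum_le_sum fun j _ => by nlinarith [sq_nonneg (2 * grad F x j - ω x j)]
  have k := two hw h (A := L ^ 2) (Om := ω) (a := 1792 * K * e ^ 2)
    (B := 24 * G + 56 * mean (prob w) X + 1792 * K * e ^ 2)
    (fun x => (Eig.nrm_le_iff L0).1 (hF.gr x)) (by positivity) hθ
    (by
      have := pow_le_pow_left₀ (by positivity) (show K * (θ * L) ≤ √n by nlinarith) 2
      rw [sq_sqrt n.cast_nonneg] at this
      linarith)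
    (fun x j => by nlinarith [mul_le_mul_of_nonneg_left (hF.r0.sup x j) hθ.le, sq_nonneg K])
    (fun ν hν => by
      have a := OpL.h2 hw h (sq_nonneg e) (opL hF.r0.op) hν
      have b := sb hw h (sq_nonneg e) (fun s => (hF.sb s).1) (fun s => (hF.sb s).2) hν
      have c : mean ν (fun x => 6 * ∑ j, Dw w x j * ω x j ^ 2 + 16 * ∑ j, (grad F x j - ω x j) ^ 2) ≤
          mean ν fun x => 6 * ∑ j, ω x j ^ 2 + 16 * X x := hν.mean_mono fun x => by
        linarith [ap x, sum_le_sum (s := univ) fun j _ =>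
          mul_le_of_le_one_left (sq_nonneg (ω x j)) (S3.Hb.Dw_le_one hw x j)]
      rw [mean_add' (fun x => 6 * ∑ j, ω x j ^ 2), mean_const_mul, mean_const_mul] at c
      linarith)
    (by
      have := pow_le_pow_left₀ (by positivity) (show 2000 * K * (θ * e) ≤ 1 by nlinarith) 2
      nlinarith [sq_nonneg (K * (θ * e))]) hv.isP
  change |mean (prob v) F - mean (prob w) F| ≤ kl (prob v) (prob w) / θ +
    _ * (mean (prob w) _ + mean (prob w) X + _ + _)
  rw [← hG, mul_right_comm]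
  refine k.trans (add_le_add le_rfl (mul_le_mul_of_nonneg_right ?_ hθ.le))
  have q := mul_nonneg ε0 (sq_nonneg L)
  nlinarith [mul_le_mul_of_nonneg_right c1 G0, mul_le_mul_of_nonneg_right c1 X0, sq_nonneg e,
    mul_nonneg K0.le G0, mul_nonneg K0.le X0, mul_nonneg (sq_nonneg K) q, sq_nonneg (K * e)]⟩

end Tr62

theorem trfStmt : TrfStmt := Tr62.trf
theorem trStmt : TrStmt := Tr62.tr

end Crest.Agent.T157.K

end
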