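import Crest.Agent.T157.KDef_36

/-!
# Row 157, part B, block S5 (helper74): (Z0), the local observable acts as the linear one
-/

set_option autoImplicit false

noncomputable section

namespace Crest.Agent.T157.K

open Real Matrix Finset
open Crest.Agent.T157.E Crest.Agent.T157.Eig
open Crest.Agent.T157.Tap (V Mx)
open Crest.Agent.T157.Rec (grad fl)
open Crest.Agent.T157.Reg (jac)
open Crest.Agent.T157.S3.Hb (Vp)
open Crest.Agent.T157.Z (cp)
open Crest.Agent.T157.SL (Wt)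

namespace Z074

variable {n : ℕ} {J Q : Mx n}

theorem sq_sub (u v : V n) : nrm (u - v) ^ 2 ≤ 2 * nrm u ^ 2 + 2 * nrm v ^ 2 :=
  (pow_le_pow_left₀ (nrm_nonneg _) (nrm_sub_le u v) 2).trans
    (by nlinarith [sq_nonneg (nrm u - nrm v)])

theorem wt_is (J : Mx n) (y : V n) : Wt (ising J y) := .of_pos fun _ => exp_pos _

theorem iter_sub (hR : RevStmt) (h : JQ J Q) (y : V n) (l : ℕ) (F G : Cube n → ℝ) :
    (Ky Q y)^[l] (fun x => F x - G x) = fun x => (Ky Q y)^[l] F x - (Ky Q y)^[l] G x := by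
  induction l generalizing F G with
  | zero => rfl
  | succ l ih =>
    rw [Function.iterate_succ_apply, Function.iterate_succ_apply, Function.iterate_succ_apply, ← ih,
      hR.kf n J Q y h, Kc.Kf_sub (wt_is J y)]

/-- telescoping -/
theorem Ks_tel (hR : RevStmt) (h : JQ J Q) (y : V n) (k : ℕ) (F G : Cube n → ℝ) (s : Cube n) :
    Ks Q y k F s - G s = Ks Q y k (fun x => F x - (G x - Ky Q y G x)) s - (Ky Q y)^[k] G s := by
  simp only [Ks, Finset.sum_apply, iter_sub hR h, sum_sub_distrib, ← Function.iterate_succ_apply]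
  have := sum_range_sub' (fun l => (Ky Q y)^[l] G s) k
  simp only [sum_sub_distrib, Function.iterate_zero, id] at this
  simp only [Nat.succ_eq_add_one]
  linarith

theorem cp_le {M : ℝ} (a d : V n) (hd : ∀ i, |d i| ≤ M) :
    nrm (a - cp M a) ^ 2 ≤ nrm (a - d) ^ 2 ∧ ∀ i, |cp M a i| ≤ M := by
  refine ⟨?_, fun i => abs_le.2 ⟨le_max_left _ _,
    max_le (by linarith [abs_nonneg (d i), hd i]) (min_le_left _ _)⟩⟩
  rw [nrm_sq, nrm_sq]
  refine sum_le_sum fun i _ => ?_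
  have := abs_le.1 (hd i)
  simp only [Pi.sub_apply, cp]
  rcases le_total (a i) M with h1 | h1
  · rw [min_eq_right h1]
    rcases le_total (-M) (a i) with h2 | h2
    · rw [max_eq_right h2, sub_self, mul_zero]; exact mul_self_nonneg _
    · rw [max_eq_left h2]; nlinarith
  · rw [min_eq_left h1, max_eq_right (by linarith)]; nlinarith

theorem grad_lin' (a : V n) (s : Cube n) : grad (lin a) s = a := Rec.grad_lin a s

/-- subtracting a linear observable -/
theorem bs0_sub {F X : Cube n → ℝ} {ω : Cube n → V n} {e L M : ℝ} (h : BS0 F ω X e L) {a b : V n}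
    (he : 0 ≤ e) (hM : e ≤ M) (ha : nrm a ≤ L) (hb : ∀ i, |b i| ≤ M) :
    BS0 (fun s => F s - lin a s) (fun s => ω s - b) (fun s => 2 * X s + 2 * nrm (a - b) ^ 2)
      (2 * M) (2 * L) where
  gr s := by
    rw [Rec.grad_sub, grad_lin']
    exact (nrm_sub_le _ _).trans (by linarith [h.gr s])
  app s := by
    rw [Rec.grad_sub, grad_lin', show grad F s - a - (ω s - b) = grad F s - ω s - (a - b) by abel]
    linarith [sq_sub (grad F s - ω s) (a - b), h.app s]
  r0 := ⟨fun s i => (abs_sub _ _).trans (by linarith [h.r0.sup s i, hb i]), fun s => by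
    have : jac (fun s => ω s - b) s = jac ω s := by
      ext i j; simp only [jac, of_apply, Pi.sub_apply, sub_sub_sub_cancel_right]
    rw [this]; linarith [h.r0.op s]⟩
  sb s := by
    have x0 := (h.sb s).1
    refine ⟨by positivity, ?_⟩
    have e1 : Vp (fun s => 2 * X s + 2 * nrm (a - b) ^ 2) s = 4 * Vp X s := by
      simp only [Vp, mul_sum]
      refine sum_congr rfl fun j _ => ?_
      rw [add_sub_add_right_eq_sub, ← mul_sub, ← mul_zero (2 : ℝ), ← mul_max_of_nonneg _ _ zero_le_two,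
        mul_zero]
      ring
    have q1 := mul_le_mul_of_nonneg_right (pow_le_pow_left₀ he hM 2) x0
    have q2 : 0 ≤ M ^ 2 * X s := by positivity
    have q3 : 0 ≤ M ^ 2 * nrm (a - b) ^ 2 := by positivity
    rw [e1]
    linarith [(h.sb s).2]

end Z074

open Z074

theorem z0Glue : Z0Glue := fun hR hG ⟨Cd, d1, hD⟩ hT K0 => by
  obtain ⟨γ, Cg, γ0, γ1, g1, hG⟩ := hG K0
  obtain ⟨Ct, t1, hT⟩ := hT K0
  refine ⟨γ, 32 * Ct * Cd ^ 2 * Cg ^ 2, γ0, γ1, ?_,
    fun n J Q E k a y ω X v M e L ε θ hJ hA hv M0 Me hE ha hL hB θ0 c1 c2 => ?_⟩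
  · have := one_le_mul_of_one_le_of_one_le (one_le_mul_of_one_le_of_one_le t1 (one_le_pow₀ d1 (n := 2)))
      (one_le_pow₀ g1 (n := 2))
    linarith
  obtain ⟨r1, -, -, m0, gr0, -, -, hz⟩ := hD n J Q E M hJ M0 hE
  obtain ⟨z1, z2⟩ := hz a y
  have hw := wt_is J y
  have ε0 := hA.nn
  have e0 : 0 ≤ e := M0.trans Me
  have L0 : 0 ≤ L := (nrm_nonneg a).trans ha
  have d2 : Cd ≤ Cd ^ 2 := by nlinarith
  have g2 : Cg ≤ Cg ^ 2 := by nlinarith
  have s1 : ∀ s i, |dirS Q E s y i| ≤ Cd * e := fun s i =>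
    ((r1.r0 y).sup s i).trans (mul_le_mul_of_nonneg_left Me (by linarith))
  have b1 := bs0_sub hB (b := cp (Cd * e) a) e0 (le_mul_of_one_le_left e0 d1) ha
    (cp_le a _ (s1 fun _ => true)).2
  have P1 : 2 * Ct * Cd ≤ 32 * Ct * Cd ^ 2 * Cg ^ 2 := by
    have q1 := mul_le_mul_of_nonneg_left d2 (show 0 ≤ Ct by linarith)
    have q2 : Ct * Cd ^ 2 ≤ Ct * Cd ^ 2 * Cg ^ 2 := le_mul_of_one_le_right (by positivity) (by linarith)
    have q3 : 0 ≤ Ct * Cd ^ 2 * Cg ^ 2 := by positivity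
    linarith
  have kk := hT n _ v _ _ _ _ _ ε θ J y hJ.symm hJ.diag hJ.op rfl hA hv b1 θ0
    (le_trans (by linarith [mul_le_mul_of_nonneg_right P1 (mul_nonneg θ0.le e0)]) c1)
    (le_trans (by
      have q1 := mul_le_mul_of_nonneg_right P1 (mul_nonneg θ0.le L0)
      have q2 : Ct * (θ * L) ≤ Ct * (θ * L) * Cd := le_mul_of_one_le_right (by positivity) d1
      linarith) c2)
  have e1 : ∀ u : Cube n → ℝ, mean u (fun s => psi Q E k s y - lin a s) =
      (mean u fun s => psi Q E k s y) - mean u (lin a) := fun u => SL.mean_sub _ _ _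
  rw [e1, e1, m0 k y] at kk
  rw [show (mean v fun s => psi Q E k s y) - (mean v (lin a) - mean (ising J y) (lin a)) =
    (mean v fun s => psi Q E k s y) - mean v (lin a) - (0 - mean (ising J y) (lin a)) by ring]
  refine kk.trans (add_le_add le_rfl ?_)
  set D0 : Cube n → ℝ := fun s => psi0 Q E s y - (lin a s - Ky Q y (lin a) s) with hD0
  have a2 : nrm a ^ 2 ≤ L ^ 2 := pow_le_pow_left₀ (nrm_nonneg a) ha 2
  obtain ⟨-, -, u3, -⟩ := hG n J Q y ε (nrm a ^ 2) (lin a) k hJ hA fun s => by rw [grad_lin']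
  obtain ⟨u1, -, -, -⟩ := hG n J Q y ε (nrm a ^ 2) (lin a) 1 hJ hA fun s => by rw [grad_lin']
  have L2 : 0 ≤ L ^ 2 := sq_nonneg L
  have dg : 1 ≤ Cd ^ 2 * Cg := one_le_mul_of_one_le_of_one_le (by linarith) g1
  obtain ⟨-, -, -, u4⟩ := hG n J Q y ε (10 * (Cd ^ 2 * Cg) * L ^ 2) D0 k hJ hA fun s => by
    have q1 := u1 s
    rw [Function.iterate_one, pow_one] at q1
    have q2 : nrm (grad (fun s => psi0 Q E s y) s) ^ 2 ≤ (Cd * L) ^ 2 :=
      pow_le_pow_left₀ (nrm_nonneg _) ((gr0 s y).trans (by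
        rw [mul_assoc]; exact mul_le_mul_of_nonneg_left hL (by linarith))) 2
    rw [hD0, Rec.grad_sub, Rec.grad_sub, grad_lin']
    have q3 := sq_sub (grad (fun s => psi0 Q E s y) s) (a - grad (Ky Q y (lin a)) s)
    have q4 := sq_sub a (grad (Ky Q y (lin a)) s)
    have q5 := mul_le_mul_of_nonneg_left a2 (show 0 ≤ Cg by linarith)
    have q6 : Cd ^ 2 * L ^ 2 ≤ Cd ^ 2 * L ^ 2 * Cg := le_mul_of_one_le_right (by positivity) g1
    have q7 : Cg * L ^ 2 ≤ Cd ^ 2 * (Cg * L ^ 2) := le_mul_of_one_le_left (by positivity) (by linarith)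
    have q8 := mul_le_mul_of_nonneg_right dg L2
    linarith
  simp only [grad_lin', hw.mean_const] at u3
  have u5 : (mean (ising J y) fun s => nrm (grad (fun s => psi Q E k s y - lin a s) s) ^ 2) ≤
      2 * (mean (ising J y) fun s => nrm (grad (Ks Q y k D0) s) ^ 2) +
        2 * mean (ising J y) fun s => nrm (grad ((Ky Q y)^[k] (lin a)) s) ^ 2 := by
    rw [← SL.mean_const_mul, ← SL.mean_const_mul, ← SL.mean_add]
    refine hw.mean_mono fun s => ?_
    have : (fun s => psi Q E k s y - lin a s) = fun s => Ks Q y k D0 s - (Ky Q y)^[k] (lin a) s :=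
      funext fun s => Ks_tel hR hJ y k _ _ s
    rw [this, Rec.grad_sub]
    exact sq_sub _ _
  have u6 : nrm (a - cp (Cd * e) a) ^ 2 ≤ mean (ising J y) (dev Q E a y) :=
    (hw.mean_const _).symm.trans_le (hw.mean_mono fun s => (cp_le a _ (s1 s)).1.trans (z1 s))
  rw [SL.mean_add, SL.mean_const_mul, hw.mean_const]
  have x0 : 0 ≤ mean (ising J y) X := hw.mean_nonneg fun s => (hB.sb s).1
  have v0 : 0 ≤ mean (ising J y) (dev Q E a y) := (sq_nonneg _).trans u6
  have p0 : 0 ≤ (1 - γ) ^ k * nrm a ^ 2 := mul_nonneg (pow_nonneg (by linarith) _) (sq_nonneg _)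
  have k0 : (0 : ℝ) ≤ k := Nat.cast_nonneg k
  have εL : 0 ≤ ε * L ^ 2 := by positivity
  generalize mean (ising J y) (dev Q E a y) = dv at *
  generalize mean (ising J y) X = x at *
  rw [mul_assoc Cg] at u3
  generalize (1 - γ) ^ k * nrm a ^ 2 = p at *
  have W1 : 1 ≤ Cd ^ 2 * Cg ^ 2 := one_le_mul_of_one_le_of_one_le (by linarith) (by linarith)
  have W2 : Cg ≤ Cd ^ 2 * Cg ^ 2 := g2.trans (le_mul_of_one_le_left (by positivity) (by linarith))
  have W3 : Cg * Cd ≤ Cd ^ 2 * Cg ^ 2 := by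
    rw [mul_comm]; exact mul_le_mul d2 g2 (by linarith) (by positivity)
  have W4 : Cd ^ 2 ≤ Cd ^ 2 * Cg ^ 2 := le_mul_of_one_le_right (by positivity) (by linarith)
  rw [show 32 * Ct * Cd ^ 2 * Cg ^ 2 * θ = Ct * θ * (32 * (Cd ^ 2 * Cg ^ 2)) by ring, mul_assoc (Ct * θ)]
  refine mul_le_mul_of_nonneg_left ?_ (by positivity)
  have q1 := mul_le_mul_of_nonneg_left z2 (show 0 ≤ Cg by linarith)
  have q2 := mul_le_mul_of_nonneg_right W3 v0
  have q3 := mul_le_mul_of_nonneg_right W1 v0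
  have q4 := mul_le_mul_of_nonneg_right W2 p0
  have q5 := mul_le_mul_of_nonneg_right W1 x0
  have q6 := mul_le_mul_of_nonneg_right W4 (sq_nonneg e)
  have q7 := mul_le_mul_of_nonneg_left a2 (show 0 ≤ Cg * ε by positivity)
  have q8 := mul_le_mul_of_nonneg_right W2 εL
  have q9 := mul_le_mul_of_nonneg_right W1 εL
  have q10 : 0 ≤ Cd ^ 2 * Cg ^ 2 * (ε * L ^ 2) * k := by positivity
  have q11 : 0 ≤ Cd ^ 2 * Cg ^ 2 * (ε * L ^ 2) * k ^ 2 := by positivity
  have q12 : 0 ≤ Cd ^ 2 * Cg ^ 2 * e ^ 2 := by positivity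
  have q13 : 0 ≤ Cd ^ 2 * Cg ^ 2 * p := by positivity
  linarith

end Crest.Agent.T157.K

end
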