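import Crest.Agent.T157.KBa_66
import Crest.Agent.T157.KBp_91
import Crest.Agent.T157.KCo_46
import Crest.Agent.T157.KDi_8
import Crest.Agent.T157.KFoG_38
import Crest.Agent.T157.KGc_85
import Crest.Agent.T157.KGt_48
import Crest.Agent.T157.KPg_11
import Crest.Agent.T157.KPh_58
import Crest.Agent.T157.KPr_23
import Crest.Agent.T157.KRe_74
import Crest.Agent.T157.KRev_53
import Crest.Agent.T157.KRf_75
import Crest.Agent.T157.KSt_47
import Crest.Agent.T157.KTl_48
import Crest.Agent.T157.KTr_62
import Crest.Agent.T157.KW_15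
import Crest.Agent.T157.KZ0_74

/-!
# Row 157, block S5 (helper66): the statements of `KDef_36`, unconditionally
-/

namespace Crest.Agent.T157.K

theorem stepStmt : StepStmt := stepGlue gradStmt wStmt csStmt rfStmt reStmt prStmt revStmt
theorem tailStmt : TailStmt := tailGlue concStmt prStmt revStmt
theorem progStmt : ProgStmt := progGlue revStmt stepStmt
theorem bpStmt : BpStmt := bpGlue Z.lipStmt concStmt
theorem baseStmt : BaseStmt := baseGlue gradStmt wStmt csStmt rfStmt reStmt concStmt revStmt bpStmt
theorem psiStmt : PsiStmt := psiGlue revStmt stepStmt tailStmt baseStmt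
theorem dirStmt : DirStmt := dirGlue rfStmt reStmt revStmt
theorem z0Stmt : Z0Stmt := z0Glue revStmt gapStmt dirStmt trStmt
theorem foStmt : FoStmt := foGlue prStmt revStmt
theorem gtStmt : GtStmt := gtGlue rfStmt prStmt revStmt
theorem phiStmt : PhiStmt :=
  phiGlue gradStmt wStmt csStmt rfStmt reStmt revStmt bpStmt dirStmt psiStmt

end Crest.Agent.T157.K
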