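import Crest.Agent.T157.RecC_77

/-!
# Row 157, part C2 (helper77): semigroup facts, the matrix `A_T(x) = Cov_{P_T(x,·)}(P_T σ)`
-/

set_option autoImplicit false
set_option linter.unusedSectionVars false

noncomputable section

namespace Crest.Agent.T157.Rec

open MeasureTheory ProbabilityTheory Filter Topology Set Real Matrix Function
open Crest.Agent.T157.E Crest.Agent.T157.SL
open Crest.Agent.T157.Chain22 (sg hbRC RC ip sg_eq sg_add sg_zero hasDerivAt_sg isP_hbCt dir_eq_D)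

/-! ### spectral inequalities -/

section rc
variable {Ω : Type*} [Fintype Ω] [DecidableEq Ω] (c : RC Ω) (f : Ω → ℝ) {t : ℝ}

theorem ip_H_H (s t : ℝ) : ip c.π (c.H s *ᵥ f) (c.H t *ᵥ f) =
    ∑ j, exp (-((s + t) * (1 - c.ev j))) * (ip c.π f (c.φ j) * ip c.π f (c.φ j)) := by
  rw [← c.ip_H_symm, mulVec_mulVec, ← c.H_add, c.ip_H_spec]

theorem D_H_two_le : 2 * t * c.D (c.H (2 * t) *ᵥ f) (c.H (2 * t) *ᵥ f) ≤
    ip c.π (c.H t *ᵥ f) (c.H t *ᵥ f) - ip c.π (c.H (2 * t) *ᵥ f) (c.H (2 * t) *ᵥ f) := by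
  rw [ip_H_H, ip_H_H, c.D_H_spec, ← Finset.sum_sub_distrib, Finset.mul_sum]
  refine Finset.sum_le_sum fun j _ => ?_
  rw [← sub_mul, ← mul_assoc]
  refine mul_le_mul_of_nonneg_right ?_ (mul_self_nonneg _)
  have e : exp (-((t + t) * (1 - c.ev j))) =
      exp (-((2 * t + 2 * t) * (1 - c.ev j))) * exp (2 * t * (1 - c.ev j)) := by
    rw [← exp_add]; congr 1; ring
  rw [e]
  nlinarith [mul_le_mul_of_nonneg_left (add_one_le_exp (2 * t * (1 - c.ev j)))
    (exp_pos (-((2 * t + 2 * t) * (1 - c.ev j)))).le]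

theorem le_D_H :
    ip c.π (c.H t *ᵥ f) (c.H t *ᵥ f) - ip c.π (c.H (2 * t) *ᵥ f) (c.H (2 * t) *ᵥ f) ≤
    2 * t * c.D (c.H t *ᵥ f) (c.H t *ᵥ f) := by
  rw [ip_H_H, ip_H_H, c.D_H_spec, ← Finset.sum_sub_distrib, Finset.mul_sum]
  refine Finset.sum_le_sum fun j _ => ?_
  rw [← sub_mul, ← mul_assoc (2 * t)]
  refine mul_le_mul_of_nonneg_right ?_ (mul_self_nonneg _)
  have e : exp (-((2 * t + 2 * t) * (1 - c.ev j))) =
      exp (-((t + t) * (1 - c.ev j))) * exp (-(2 * t * (1 - c.ev j))) := by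
    rw [← exp_add]; congr 1; ring
  rw [e]
  nlinarith [mul_le_mul_of_nonneg_left (add_one_le_exp (-(2 * t * (1 - c.ev j))))
    (exp_pos (-((t + t) * (1 - c.ev j)))).le]

theorem D_H_le_D (ht : 0 ≤ t) : c.D (c.H t *ᵥ f) (c.H t *ᵥ f) ≤ c.D f f := by
  rw [c.D_H_spec, c.D_spec]
  refine Finset.sum_le_sum fun j _ => mul_le_mul_of_nonneg_right ?_ (mul_self_nonneg _)
  have h := sub_nonneg.2 (c.ev_le_one j)
  exact mul_le_of_le_one_right h (exp_le_one_iff.2 (neg_nonpos.2 (by positivity)))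

theorem ip_sub_H_le : ip c.π f f - ip c.π f (c.H t *ᵥ f) ≤ t * c.D f f := by
  rw [c.ip_H_spec, c.D_spec, c.parseval f f, ← Finset.sum_sub_distrib, Finset.mul_sum]
  refine Finset.sum_le_sum fun j _ => ?_
  nlinarith [mul_le_mul_of_nonneg_right (add_one_le_exp (-(t * (1 - c.ev j))))
    (mul_self_nonneg (ip c.π f (c.φ j)))]

theorem ip_H_sub_le (ht : 0 ≤ t) : ip c.π (c.H t *ᵥ f - f) (c.H t *ᵥ f - f) ≤ t * c.D f f := by
  have h1 := ip_sub_H_le c f (t := t)
  have h2 := c.ip_H_self_anti f (show t ≤ t + t by linarith)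
  simp only at h2
  rw [Chain22.ip_sub_left, Chain22.ip_sub_right, Chain22.ip_sub_right, ← c.ip_H_symm, mulVec_mulVec,
    ← c.H_add, ← c.ip_H_symm, Chain22.ip_comm _ f f] 
  linarith

end rc

variable {n : ℕ} {w f g : Cube n → ℝ} {t T C : ℝ}

theorem mean_sq_eq_ip (w f : Cube n → ℝ) : mean w (fun x => f x ^ 2) = ip (prob w) f f := by
  simp only [sq]; rfl

theorem wt_hbCt (hn : 0 < n) (hw : ∀ x, 0 < w x) (ht : 0 ≤ t) (x : Cube n) : Wt (hbCt w t x) :=
  ⟨(isP_hbCt hn hw ht x).nn, by rw [(isP_hbCt hn hw ht x).sum1]; exact one_pos⟩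

theorem mean_hbCt (hn : 0 < n) (hw : ∀ x, 0 < w x) (ht : 0 ≤ t) (f : Cube n → ℝ) (x : Cube n) :
    mean (hbCt w t x) f = sg w t f x := by
  rw [mean_eq_div, (isP_hbCt hn hw ht x).sum1, div_one, sg]

theorem sg_add_fun (w : Cube n → ℝ) (t : ℝ) (f g : Cube n → ℝ) (x : Cube n) :
    sg w t (fun z => f z + g z) x = sg w t f x + sg w t g x := by
  simp only [sg, mul_add, Finset.sum_add_distrib]

theorem sg_sub_fun (w : Cube n → ℝ) (t : ℝ) (f g : Cube n → ℝ) (x : Cube n) :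
    sg w t (fun z => f z - g z) x = sg w t f x - sg w t g x := by
  simp only [sg, mul_sub, Finset.sum_sub_distrib]

theorem sg_const_mul (w : Cube n → ℝ) (t c : ℝ) (f : Cube n → ℝ) (x : Cube n) :
    sg w t (fun z => c * f z) x = c * sg w t f x := by
  simp only [sg, Finset.mul_sum, mul_left_comm c]

theorem sg_sum {κ : Type*} (S : Finset κ) (w : Cube n → ℝ) (t : ℝ) (f : κ → Cube n → ℝ) (x : Cube n) :
    sg w t (fun z => ∑ k ∈ S, f k z) x = ∑ k ∈ S, sg w t (f k) x := by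
  simp only [sg, Finset.mul_sum]; exact Finset.sum_comm

theorem sg_const (hn : 0 < n) (hw : ∀ x, 0 < w x) (t c : ℝ) (x : Cube n) : sg w t (fun _ => c) x = c := by
  rw [sg_eq hn hw, RC.H_const]

theorem sg_mono (hn : 0 < n) (hw : ∀ x, 0 < w x) (ht : 0 ≤ t) (h : ∀ z, f z ≤ g z) (x : Cube n) :
    sg w t f x ≤ sg w t g x := (isP_hbCt hn hw ht x).mean_mono h

theorem sg_nonneg (hn : 0 < n) (hw : ∀ x, 0 < w x) (ht : 0 ≤ t) (h : ∀ z, 0 ≤ f z) (x : Cube n) :
    0 ≤ sg w t f x := (isP_hbCt hn hw ht x).mean_nonneg h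

theorem mean_sg' (hn : 0 < n) (hw : ∀ x, 0 < w x) (t : ℝ) (f : Cube n → ℝ) :
    mean w (sg w t f) = mean w f := Chain22.mean_sg hn hw t f

theorem gen_sg (hn : 0 < n) (hw : ∀ x, 0 < w x) (t : ℝ) (f : Cube n → ℝ) (x : Cube n) :
    gen w (sg w t f) x = sg w t (gen w f) x := by
  have e : gen w f = (n : ℝ) • ((hbRC hn hw).P *ᵥ f - f) := funext fun x => Chain22.gen_eq hn hw f x
  rw [Chain22.gen_eq hn hw, e, sg_eq hn hw, sg_eq hn hw, mulVec_mulVec, RC.P_H_comm, mulVec_smul,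
    mulVec_sub, mulVec_mulVec]
  rfl

theorem dir_sg_le (hn : 0 < n) (hw : ∀ x, 0 < w x) (ht : 0 ≤ t) (f : Cube n → ℝ) :
    dir w (sg w t f) ≤ dir w f := by
  rw [dir_eq_D hn hw, dir_eq_D hn hw, sg_eq hn hw]
  exact mul_le_mul_of_nonneg_left (D_H_le_D _ f (by positivity)) (Nat.cast_nonneg n)

theorem dir_sg_anti (hn : 0 < n) (hw : ∀ x, 0 < w x) {s : ℝ} (hst : s ≤ t) (f : Cube n → ℝ) :
    dir w (sg w t f) ≤ dir w (sg w s f) := by
  rw [← sub_add_cancel t s, sg_add hn hw]; exact dir_sg_le hn hw (sub_nonneg.2 hst) _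

/-- smoothing -/
theorem dir_sg_le_sq (hn : 0 < n) (hw : ∀ x, 0 < w x) (ht : 0 < t) (f : Cube n → ℝ) :
    dir w (sg w t f) ≤ mean w (fun x => f x ^ 2) / (2 * t) := by
  have hn' : (0 : ℝ) < n := by exact_mod_cast hn
  rw [dir_eq_D hn hw, sg_eq hn hw, mean_sq_eq_ip]
  refine (mul_le_mul_of_nonneg_left ((hbRC hn hw).D_H_le f (by positivity)) hn'.le).trans_eq ?_
  rw [Chain22.hbRC_π]; field_simp

theorem mean_sg_sub_sq_le (hn : 0 < n) (hw : ∀ x, 0 < w x) (ht : 0 ≤ t) (f : Cube n → ℝ) :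
    mean w (fun x => (sg w t f x - f x) ^ 2) ≤ t * dir w f := by
  rw [dir_eq_D hn hw, sg_eq hn hw, mean_sq_eq_ip, ← mul_assoc, mul_comm t]
  exact ip_H_sub_le (hbRC hn hw) f (by positivity)

/-- mean square displacement of an observable -/
theorem mean_sg_sq_sub_le (hn : 0 < n) (hw : ∀ x, 0 < w x) (t : ℝ) (f : Cube n → ℝ) :
    mean w (fun x => sg w t (fun z => (f z - f x) ^ 2) x) ≤ 2 * t * dir w f := by
  have e : ∀ x, sg w t (fun z => (f z - f x) ^ 2) x =
      sg w t (fun z => f z ^ 2) x + f x ^ 2 - 2 * (f x * sg w t f x) := fun x => by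
    rw [← mul_assoc, ← sg_const_mul, ← sg_const hn hw t (f x ^ 2) x, ← sg_add_fun, ← sg_sub_fun]
    congr 1; ext z; ring
  have h := ip_sub_H_le (hbRC hn hw) f (t := n * t)
  rw [← sg_eq hn hw, Chain22.hbRC_π] at h
  simp only [e, mean_sub, mean_add, mean_const_mul]
  rw [mean_sg' hn hw, mean_sq_eq_ip, dir_eq_D hn hw]
  change _ - 2 * ip (prob w) f (sg w t f) ≤ _
  linarith

/-- the variance of `P_T f` at time `T`, started from `x` -/
def vs (w : Cube n → ℝ) (T : ℝ) (f : Cube n → ℝ) (x : Cube n) : ℝ := var (hbCt w T x) (sg w T f)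

theorem vs_eq (hn : 0 < n) (hw : ∀ x, 0 < w x) (hT : 0 ≤ T) (f : Cube n → ℝ) (x : Cube n) :
    vs w T f x = sg w T (fun z => sg w T f z ^ 2) x - sg w (2 * T) f x ^ 2 := by
  rw [vs, var_eq_cov, (wt_hbCt hn hw hT x).cov_eq, mean_hbCt hn hw hT, mean_hbCt hn hw hT, two_mul,
    sg_add hn hw]
  simp only [sq]

theorem vs_nn (hn : 0 < n) (hw : ∀ x, 0 < w x) (hT : 0 ≤ T) (f : Cube n → ℝ) (x : Cube n) :
    0 ≤ vs w T f x := (wt_hbCt hn hw hT x).var_nonneg _

theorem mean_vs (hn : 0 < n) (hw : ∀ x, 0 < w x) (hT : 0 ≤ T) (f : Cube n → ℝ) :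
    mean w (vs w T f) =
      ip (prob w) (sg w T f) (sg w T f) - ip (prob w) (sg w (2 * T) f) (sg w (2 * T) f) := by
  rw [funext (vs_eq hn hw hT f), mean_sub, mean_sg' hn hw, mean_sq_eq_ip, mean_sq_eq_ip]

theorem dir_sg_le_vs (hn : 0 < n) (hw : ∀ x, 0 < w x) (hT : 0 ≤ T) (f : Cube n → ℝ) :
    2 * T * dir w (sg w (2 * T) f) ≤ mean w (vs w T f) := by
  have := D_H_two_le (hbRC hn hw) f (t := n * T)
  rw [mean_vs hn hw hT, dir_eq_D hn hw, sg_eq hn hw, sg_eq hn hw, mul_left_comm (n : ℝ) 2 T]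
  exact le_of_eq_of_le (by ring) this

theorem vs_le_dir_sg (hn : 0 < n) (hw : ∀ x, 0 < w x) (hT : 0 ≤ T) (f : Cube n → ℝ) :
    mean w (vs w T f) ≤ 2 * T * dir w (sg w T f) := by
  have := le_D_H (hbRC hn hw) f (t := n * T)
  rw [mean_vs hn hw hT, dir_eq_D hn hw, sg_eq hn hw, sg_eq hn hw, mul_left_comm (n : ℝ) 2 T]
  exact this.trans_eq (by ring)

theorem var_add_le {Ω : Type*} [Fintype Ω] {u : Ω → ℝ} (hu : Wt u) (f g : Ω → ℝ) {η : ℝ} (hη : 0 < η) :
    var u (fun x => f x + g x) ≤ (1 + η) * var u f + (1 + η⁻¹) * var u g := by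
  refine (hu.var_le_mean _ (mean u f + mean u g)).trans ((hu.mean_mono (g := fun x =>
    (1 + η) * (f x - mean u f) ^ 2 + (1 + η⁻¹) * (g x - mean u g) ^ 2) fun x => ?_).trans_eq ?_)
  · rw [add_sub_add_comm]; exact add_sq_le hη _ _
  · rw [mean_add, mean_const_mul, mean_const_mul]; rfl

theorem vs_add_le (hn : 0 < n) (hw : ∀ x, 0 < w x) (hT : 0 ≤ T) (f g : Cube n → ℝ) {η : ℝ} (hη : 0 < η)
    (x : Cube n) : vs w T (fun z => f z + g z) x ≤ (1 + η) * vs w T f x + (1 + η⁻¹) * vs w T g x := by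
  rw [vs, funext (sg_add_fun w T f g)]
  exact var_add_le (wt_hbCt hn hw hT x) _ _ hη

/-- `P_T σ` -/
def Psv (w : Cube n → ℝ) (T : ℝ) (z : Cube n) (i : Fin n) : ℝ := sg w T (fun x => sv x i) z

/-- the matrix `A_T(x) = Cov_{z ∼ P_T(x,·)}(P_T σ (z))` -/
def Am (w : Cube n → ℝ) (T : ℝ) (x : Cube n) : Matrix (Fin n) (Fin n) ℝ :=
  covMat (hbCt w T x) (Psv w T)

theorem dot_Psv (w : Cube n → ℝ) (T : ℝ) (a : Fin n → ℝ) (z : Cube n) :
    a ⬝ᵥ Psv w T z = sg w T (fun x => a ⬝ᵥ sv x) z := by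
  simp only [dotProduct, sg_sum, sg_const_mul, Psv]

theorem Am_quad (w : Cube n → ℝ) (T : ℝ) (x : Cube n) (a : Fin n → ℝ) :
    a ⬝ᵥ Am w T x *ᵥ a = vs w T (fun x => a ⬝ᵥ sv x) x := by
  rw [Am, covMat_quad, vs, var_eq_cov, funext (dot_Psv w T a)]

theorem Am_transpose (w : Cube n → ℝ) (T : ℝ) (x : Cube n) : (Am w T x)ᵀ = Am w T x :=
  covMat_transpose _ _

theorem Am_psd (hn : 0 < n) (hw : ∀ x, 0 < w x) (hT : 0 ≤ T) (x : Cube n) : (Am w T x).PosSemidef :=
  (wt_hbCt hn hw hT x).covMat_psd _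

theorem Am_apply (hn : 0 < n) (hw : ∀ x, 0 < w x) (hT : 0 ≤ T) (x : Cube n) (i j : Fin n) :
    Am w T x i j = sg w T (fun z => Psv w T z i * Psv w T z j) x -
      Psv w (2 * T) x i * Psv w (2 * T) x j := by
  rw [Am, covMat, (wt_hbCt hn hw hT x).cov_eq, mean_hbCt hn hw hT, mean_hbCt hn hw hT,
    mean_hbCt hn hw hT, two_mul, Psv, Psv, sg_add hn hw, sg_add hn hw]
  rfl

theorem dir_lin_le (hw : ∀ x, 0 < w x) (a : Fin n → ℝ) : dir w (fun x => a ⬝ᵥ sv x) ≤ a ⬝ᵥ a := by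
  simpa only [grad_lin, (Wt.of_pos hw).mean_const] using dir_le_grad hw fun x => a ⬝ᵥ sv x

/-! ### the gradient estimate and its consequences -/

/-- pointwise commutation of the gradient with the semigroup -/
def GR (w : Cube n → ℝ) (C : ℝ) : Prop := ∀ t, 0 ≤ t → ∀ (f : Cube n → ℝ) (x : Cube n),
  grad (sg w t f) x ⬝ᵥ grad (sg w t f) x ≤ exp (C * t) * sg w t (fun z => grad f z ⬝ᵥ grad f z) x

theorem hasDerivAt_sg_fam (hn : 0 < n) (hw : ∀ x, 0 < w x) {F : ℝ → Cube n → ℝ} {F' : Cube n → ℝ}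
    (hF : ∀ z, HasDerivAt (fun u => F u z) (F' z) t) (x : Cube n) :
    HasDerivAt (fun u => sg w u (F u) x) (sg w t (fun z => gen w (F t) z + F' z) x) t := by
  have e : ∀ u y, hbCt w u x y = sg w u (Pi.single y 1) x := fun u y => by
    simp [sg, Pi.single_apply]
  have h := HasDerivAt.fun_sum (u := Finset.univ) fun y _ =>
    (hasDerivAt_sg hn hw (Pi.single y 1) x t).mul (hF y)
  simp only [← e] at h
  refine HasDerivAt.congr_deriv h ?_
  rw [Finset.sum_add_distrib, sg_add_fun]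
  congr 1
  simp only [gen_sg hn hw, mul_comm _ (F t _), ← sg_const_mul, ← sg_sum]
  congr 1; ext z
  simp only [gen, siteM, Finset.mul_sum]
  rw [Finset.sum_comm]
  refine Finset.sum_congr rfl fun i _ => ?_
  simp only [mul_sub, Finset.sum_sub_distrib, ← mul_div_assoc, ← Finset.sum_div, mul_add,
    Finset.sum_add_distrib, Pi.single_apply, mul_ite, mul_one,
    mul_zero, Finset.sum_ite_eq, Finset.mem_univ, if_true]
  ring

/-- carré du champ -/
theorem gen_sq_le (hw : ∀ x, 0 < w x) (h : Cube n → ℝ) (z : Cube n) :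
    gen w (fun z => h z ^ 2) z - 2 * h z * gen w h z ≤ 4 * (grad h z ⬝ᵥ grad h z) := by
  simp only [gen, dotProduct, Finset.mul_sum, ← Finset.sum_sub_distrib]
  refine Finset.sum_le_sum fun i _ => ?_
  have h1 := hw (update z i true)
  have h2 := hw (update z i false)
  have e : h z = h (update z i (z i)) := by rw [update_eq_self]
  have key : siteM w (fun z => h z ^ 2) i z - h z ^ 2 - 2 * h z * (siteM w h i z - h z) =
      (w (update z i true) * (h (update z i true) - h z) ^ 2 +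
        w (update z i false) * (h (update z i false) - h z) ^ 2) /
        (w (update z i true) + w (update z i false)) := by
    simp only [siteM]; field_simp; ring
  rw [key, div_le_iff₀ (add_pos h1 h2), grad, incr, e]
  cases z i
  · nlinarith [mul_nonneg h2.le (sq_nonneg (h (update z i true) - h (update z i false)))]
  · nlinarith [mul_nonneg h1.le (sq_nonneg (h (update z i true) - h (update z i false)))]

theorem GR.vs_le (h : GR w C) (hn : 0 < n) (hw : ∀ x, 0 < w x) (hC : 0 ≤ C) (hT : 0 ≤ T)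
    (f : Cube n → ℝ) (x : Cube n) :
    vs w T f x ≤ 4 * T * exp (2 * C * T) * sg w (2 * T) (fun z => grad f z ⬝ᵥ grad f z) x := by
  have d : ∀ u, HasDerivAt (fun u => sg w u (fun z => sg w (2 * T - u) f z ^ 2) x)
      (sg w u (fun z => gen w (fun z => sg w (2 * T - u) f z ^ 2) z -
        2 * sg w (2 * T - u) f z * gen w (sg w (2 * T - u) f) z) x) u := fun u => by
    refine hasDerivAt_sg_fam hn hw (F := fun u z => sg w (2 * T - u) f z ^ 2) (fun z => ?_) x
    have := ((hasDerivAt_sg hn hw f z (2 * T - u)).comp u ((hasDerivAt_id' u).const_sub (2 * T))).pow 2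
    exact this.congr_deriv (by simp)
  have := (convex_Icc 0 T).image_sub_le_mul_sub_of_deriv_le
    (fun q _ => (d q).continuousAt.continuousWithinAt)
    (fun q _ => (d q).differentiableAt.differentiableWithinAt)
    (C := 4 * exp (2 * C * T) * sg w (2 * T) (fun z => grad f z ⬝ᵥ grad f z) x) (fun u hu => by
      rw [interior_Icc] at hu
      have e := sg_add hn hw u (2 * T - u) fun z => grad f z ⬝ᵥ grad f z
      rw [add_sub_cancel] at e
      rw [(d u).deriv, e, ← sg_const_mul]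
      refine sg_mono hn hw hu.1.le (fun z => (gen_sq_le hw _ z).trans ?_) x
      rw [mul_assoc]
      refine mul_le_mul_of_nonneg_left ((h _ (by linarith [hu.2]) f z).trans
        (mul_le_mul_of_nonneg_right (exp_le_exp.2 (by nlinarith [hu.1])) (sg_nonneg hn hw
          (by linarith [hu.2]) (fun z => dot_self_nonneg _) z))) (by norm_num))
    0 (left_mem_Icc.2 hT) T (right_mem_Icc.2 hT) hT
  simp only [sub_zero, sg_zero hn hw, show 2 * T - T = T by ring] at this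
  rw [vs_eq hn hw hT]
  linarith

theorem GR.Am_le (h : GR w C) (hn : 0 < n) (hw : ∀ x, 0 < w x) (hC : 0 ≤ C) (hT : 0 ≤ T)
    (x : Cube n) (a : Fin n → ℝ) : a ⬝ᵥ Am w T x *ᵥ a ≤ 4 * T * exp (2 * C * T) * (a ⬝ᵥ a) := by
  simpa only [Am_quad, grad_lin, sg_const hn hw] using h.vs_le hn hw hC hT (fun x => a ⬝ᵥ sv x) x

/-! ### measurability in the weight -/

section meas
variable {X : Type*} [MeasurableSpace X] {W : X → Cube n → ℝ}

theorem measurable_hbPow (hW : ∀ x, Measurable fun p => W p x) (k : ℕ) (x y : Cube n) :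
    Measurable fun p => hbPow (W p) k x y := by
  induction k generalizing y with
  | zero => exact measurable_const
  | succ k ih =>
    refine Finset.measurable_sum _ fun z _ => (ih z).mul
      (measurable_const.mul (Finset.measurable_sum _ fun i _ => ?_))
    split_ifs
    · exact (hW _).div ((hW _).add (hW _))
    · exact measurable_const

theorem measurable_hbCt (hW : ∀ x, Measurable fun p => W p x) (t : ℝ) (x y : Cube n) :
    Measurable fun p => hbCt (W p) t x y :=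
  Measurable.tsum fun k => (measurable_hbPow hW k x y).const_mul _

end meas

variable {ι : Type*} [Fintype ι] [DecidableEq ι] {φ : Cube n → ι → ℝ}

theorem mg_hbCt (hn : 0 < n) (hw : ∀ x, 0 < w x) (r : ℝ) (ht : 0 ≤ t) (x z : Cube n) :
    MG fun y => hbCt (post φ w r y) t x z :=
  .of_bdd (measurable_hbCt (fun x => ((cont_pw φ w x).comp (f := fun y : ι → ℝ => (r, y))
    (by fun_prop)).measurable) t x z) 1 fun y => by
      have := isP_hbCt hn (post_pos hw φ r y) ht x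
      exact (abs_of_nonneg (this.nn z)).trans_le (this.le_one z)

theorem mg_sg (hn : 0 < n) (hw : ∀ x, 0 < w x) (r : ℝ) (ht : 0 ≤ t) {F : Cube n → (ι → ℝ) → ℝ}
    (hF : ∀ z, MG (F z)) (x : Cube n) : MG fun y => sg (post φ w r y) t (fun z => F z y) x :=
  .sum _ fun z _ => (mg_hbCt hn hw r ht x z).mul (hF z)

theorem mg_vs (hn : 0 < n) (hw : ∀ x, 0 < w x) (r : ℝ) (hT : 0 ≤ T) {F : Cube n → (ι → ℝ) → ℝ}
    (hF : ∀ z, MG (F z)) (x : Cube n) : MG fun y => vs (post φ w r y) T (fun z => F z y) x := by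
  simp only [vs_eq hn (post_pos hw φ r _) hT]
  exact (mg_sg hn hw r hT (fun z => mg_sq (mg_sg hn hw r hT hF z)) x).sub
    (mg_sq (mg_sg hn hw r (by positivity) hF x))

theorem mg_Am (hn : 0 < n) (hw : ∀ x, 0 < w x) (r : ℝ) (hT : 0 ≤ T) (x : Cube n) (i j : Fin n) :
    MG fun y => Am (post φ w r y) T x i j := by
  have m := fun t (ht : 0 ≤ t) z i =>
    mg_sg (φ := φ) hn hw r ht (F := fun x _ => sv x i) (fun _ => .const _) z
  simp only [Am_apply hn (post_pos hw φ r _) hT]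
  exact (mg_sg hn hw r hT (fun z => (m T hT z i).mul (m T hT z j)) x).sub
    ((m _ (by positivity) x i).mul (m _ (by positivity) x j))

end Crest.Agent.T157.Rec

end
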