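import Crest.Agent.T157.AtU_39
import Crest.Agent.T157.RecD_77

/-!
# Row 157, block S3 (helper39): level-uniform covariance bound at typical fields
-/

set_option autoImplicit false

noncomputable section

namespace Crest.Agent.T157.Atd

open MeasureTheory Set Real Matrix Filter
open Crest.ProbabilityR.SpinGlassDynamics
open Crest.Agent.T157.E Crest.Agent.T157.SL Crest.Agent.T157.Tap Crest.Agent.T157.Top
open Crest.Agent.T157.Eig (nrm)

variable {n : ℕ} {w : Cube n → ℝ} {K δ : ℝ}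

theorem ATd.cov (h : ATd w K δ) (hw : ∀ x, 0 < w x) (hK : 0 ≤ K) (hδ : 0 ≤ δ) (u : V n) :
    u ⬝ᵥ covM w *ᵥ u ≤ (K + 2 * (δ * n)) * (u ⬝ᵥ u) := by
  have h1 := h.poinc hw hK hδ (fun x => u ⬝ᵥ sv x) (c := 0) (Ω := nrm u * √n) fun x => by
    rw [sub_zero, ← Glue.nrm_sv x]; exact Eig.abs_dot_le u _
  have e : u ⬝ᵥ covM w *ᵥ u = var w fun x => u ⬝ᵥ sv x := by
    rw [covM, covMat_quad]; simp only [E.cov, var, sq]
  rw [mul_pow, sq_sqrt n.cast_nonneg, Eig.nrm_sq] at h1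
  rw [e]
  nlinarith [mul_le_mul_of_nonneg_left (Rec.dir_lin_le hw u) hK]

/-- `ATd` and the covariance bound on the same ball, constants uniform in the level -/
def ATyC : Prop := ∀ β ∈ Ioo (0 : ℝ) 1, ∃ K > (0 : ℝ), ∃ ρ > (0 : ℝ), ∃ κ > (0 : ℝ),
  Whp disorderLaw fun n g => ∀ r ≥ (0 : ℝ), (law sv (gibbsWeight n β g) r).real
    {y | ¬ ∀ v : V n, nrm v ≤ ρ * √n → ATd (tilt (gibbsWeight n β g) (y + v)) K (exp (-(κ * n))) ∧
      ∀ u : V n, u ⬝ᵥ covM (tilt (gibbsWeight n β g) (y + v)) *ᵥ u ≤ K * (u ⬝ᵥ u)} ≤ exp (-(κ * n))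

def CovU : Prop := ∀ β ∈ Ioo (0 : ℝ) 1, ∃ K > (0 : ℝ), ∃ ρ > (0 : ℝ), ∃ κ > (0 : ℝ),
  Whp disorderLaw fun n g => ∀ r ≥ (0 : ℝ), (law sv (gibbsWeight n β g) r).real
    {y | ¬ CovOK (gibbsWeight n β g) K (ρ * √n) y} ≤ exp (-(κ * n))

theorem atyC : ATyC := fun β hβ => by
  obtain ⟨K, hK, ρ, hρ, κ, hκ, h⟩ := atyU β hβ
  refine ⟨K + 2, by positivity, ρ, hρ, κ, hκ, h.mono ?_⟩
  filter_upwards [Glue.ev_small 1 hκ] with n hn g h r hr
  have hw := gibbsWeight_pos β g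
  have := isProb_law (φ := sv) (s := r) (Wt.of_pos hw)
  refine le_trans (measureReal_mono fun y hy => ?_) (h r r ⟨hr, le_rfl⟩)
  refine fun h' => hy fun v hv => ⟨(h' v hv).mono (tilt_pos hw _) (by linarith) le_rfl, fun u => ?_⟩
  refine ((h' v hv).cov (tilt_pos hw _) hK.le (exp_pos _).le u).trans
    (mul_le_mul_of_nonneg_right ?_ (Eig.dot_self_nonneg u))
  have : exp (-(κ / 2 * n)) ≤ 1 := exp_le_one_iff.2 (neg_nonpos.2 (by positivity))
  linarith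

theorem covU : CovU := fun β hβ => by
  obtain ⟨K, hK, ρ, hρ, κ, hκ, h⟩ := atyC β hβ
  refine ⟨K, hK, ρ, hρ, κ, hκ, h.mono (Eventually.of_forall fun n g h r hr => ?_)⟩
  have := isProb_law (φ := sv) (s := r) (Wt.of_pos (gibbsWeight_pos β g))
  refine le_trans (measureReal_mono fun y hy => ?_) (h r hr)
  exact fun h' => hy fun v hv => (h' v hv).2

end Crest.Agent.T157.Atd

end
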