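import Crest.Agent.T157.KTc_36

/-!
# Row 157, part B, block S5 (helper68): the dictionary of the thermal calculus
-/

set_option autoImplicit false

noncomputable section

namespace Crest.Agent.T157.K

open MeasureTheory ProbabilityTheory Matrix Set Filter
open Crest.ProbabilityR.SpinGlassDynamics
open Crest.Agent.T157.E Crest.Agent.T157.Eig
open Crest.Agent.T157.Tap (V Mx)
open Crest.Agent.T157.Z (Nt Nw Bd cp Ap Hp Ty Rq RL rows hpStmt apA lipStmt)
open Crest.Agent.T157.Zf (QQ Vf)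
open Crest.Agent.T157.SL (Wt px MG SInt)

namespace Td68

variable {n : ℕ}

lemma cbsv (s : Cube n) : cb (sv s) = s := by
  funext i
  change decide (0 ≤ spin (s i)) = s i
  cases s i <;> simp [spin]

lemma svcb {v : V n} (h : ∀ i, v i = 1 ∨ v i = -1) : sv (cb v) = v := by
  funext i
  change spin (decide (0 ≤ v i)) = v i
  rcases h i with e | e <;> simp [e, spin]

lemma wtI (J : Mx n) (y : V n) : Wt (ising J y) := Wt.of_pos fun _ => Real.exp_pos _

/-- the two rows -/
def tw (σ y : V n) : Bool → V n := fun t => if t then σ else y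

lemma emb_tw (σ : V n) : MeasurableEmbedding (tw σ) := by
  refine .of_measurable_inverse (g := fun a => a false) ?_ ?_ (measurable_pi_apply false) fun _ => rfl
  · refine measurable_pi_lambda _ fun t => ?_
    cases t
    · exact measurable_id
    · exact measurable_const
  · have e : range (tw σ) = (fun a : Bool → V n => a true) ⁻¹' {σ} := by
      ext a
      constructor
      · rintro ⟨y, rfl⟩; rfl
      · intro h
        refine ⟨a false, funext fun t => ?_⟩
        cases t
        · rfl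
        · exact (show a true = σ from h).symm
    rw [e]
    exact measurable_pi_apply true (measurableSet_singleton σ)

/-- the law of the rows is the image of the channel -/
lemma RL_tw (r : ℝ) (σ : V n) : RL (wc r) (wd r) σ =
    ((SL.Gs (Fin n)).map fun z => r • σ + √r • z).map (tw σ) := by
  have hm := R339.Guerra.mp_comp (ι := Bool × Fin n) (fun i : Fin n => (false, i))
    fun _ _ h => congrArg Prod.snd h
  have m1 : Measurable fun z : V n => r • σ + √r • z := by fun_prop
  rw [Measure.map_map (emb_tw σ).measurable m1]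
  conv_rhs => rw [show SL.Gs (Fin n) = _ from hm.map_eq.symm]
  rw [Measure.map_map ((emb_tw σ).measurable.comp m1) hm.measurable, RL]
  congr 1
  funext w t i
  cases t
  · rfl
  · simp [rows, wc, wd, tw]

lemma RL_real (r : ℝ) (x : Cube n) (P : Cube n → V n → Prop) :
    (RL (wc r) (wd r) (sv x)).real {a | ¬ P (cb (a true)) (a false)} = px sv r {y | ¬ P x y} x := by
  rw [RL_tw, Measure.real, (emb_tw _).map_apply, px, Measure.real]
  congr 2
  ext y
  change ¬ P (cb (sv x)) y ↔ ¬ P x y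
  rw [cbsv]

lemma law_px {v : Cube n → ℝ} (hv : Wt v) (r : ℝ) (B : Set (V n)) :
    (SL.law sv v r).real B = mean v (px sv r B) := by
  have := fun x : Cube n => SL.isProb_path (r • sv x) √r
  simp only [SL.law, Measure.real, Measure.coe_finsetSum, Finset.sum_apply, Measure.smul_apply,
    smul_eq_mul, mean, px]
  rw [ENNReal.toReal_sum fun x _ => ENNReal.mul_ne_top ENNReal.ofReal_ne_top (measure_ne_top _ _)]
  exact Finset.sum_congr rfl fun x _ => by
    rw [ENNReal.toReal_mul, ENNReal.toReal_ofReal (hv.prob_nonneg x)]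

/-- likely events of the world `(s, y)` -/
lemma hp_iff (β r : ℝ) (P : ∀ n, Mx n → Cube n → V n → Prop) :
    (Hp β (wc r) (wd r) fun n J a => P n J (cb (a true)) (a false)) ↔ ∃ κ > (0 : ℝ),
      Top.Whp disorderLaw fun n g => mean (ising (β • Jmat n g) 0)
        (fun x => px sv r {y | ¬ P n (β • Jmat n g) x y} x) ≤ Real.exp (-κ * n) := by
  simp only [Hp, RL_real, gibbsWeight_eq_ising]

lemma ty_iff (β r : ℝ) (P : ∀ n, Mx n → V n → Prop) :
    Ty β r P ↔ Hp β (wc r) (wd r) fun n J a => P n J (a false) := by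
  rw [hp_iff β r fun n J _ y => P n J y]
  simp only [Ty, gibbsWeight_eq_ising, law_px (wtI _ _)]

lemma meas_mean (J : Mx n) {X : F2 n} (hX : ∀ s, Measurable (X s)) :
    Measurable fun y => mean (ising J y) fun s => X s y := by
  have a : ∀ s, Measurable fun y : V n => ising J y s := fun s =>
    (Real.continuous_exp.comp (continuous_const.add (continuous_id.dotProduct
      continuous_const))).measurable
  exact Finset.measurable_sum _ fun s _ =>
    ((a s).div (Finset.measurable_sum _ fun s _ => a s)).mul (hX s)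

/-- Bayes formula for bounded measurable functions -/
lemma int_mean (J : Mx n) {r B : ℝ} (hr : 0 ≤ r) {X : F2 n} (hX : ∀ s, Measurable (X s))
    (hB : ∀ s y, 0 ≤ X s y ∧ X s y ≤ B) :
    Integrable (fun y => mean (ising J y) fun s => X s y) (SL.law sv (ising J 0) r) ∧
    ∫ y, (mean (ising J y) fun s => X s y) ∂SL.law sv (ising J 0) r = PM J r X := by
  have hb : ∀ s y, |X s y| ≤ B := fun s y => by rw [abs_of_nonneg (hB s y).1]; exact (hB s y).2
  have m : MG fun y => mean (ising J y) fun s => X s y :=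
    .of_bdd (meas_mean J hX) B fun y => (wtI J y).abs_mean_le fun s => hb s y
  refine ⟨m.int_law, ?_⟩
  rw [SL.integral_law (wtI J 0) m.meas (.of_mg fun _ => m), PM,
    SL.bayes (wtI J 0) hr (.of_mg fun s => .of_bdd (hX s) B (hb s))]
  simp only [SL.mean_post_sv, tilt_ising, zero_add]

lemma mkv (J : Mx n) {r t B : ℝ} (hr : 0 ≤ r) (ht : 0 < t) {X : F2 n} (hX : ∀ s, Measurable (X s))
    (hB : ∀ s y, 0 ≤ X s y ∧ X s y ≤ B) :
    (SL.law sv (ising J 0) r).real {y | t < mean (ising J y) fun s => X s y} ≤ PM J r X / t := by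
  have := SL.isProb_law (φ := sv) (s := r) (wtI J 0)
  obtain ⟨h1, h2⟩ := int_mean J hr hX hB
  have h3 := mul_meas_ge_le_integral_of_nonneg
    (ae_of_all _ fun y => (wtI J y).mean_nonneg fun s => (hB s y).1) h1 t
  rw [h2, mul_comm, ← le_div_iff₀ ht] at h3
  refine le_trans (measureReal_mono fun y hy => ?_) h3
  exact le_of_lt (show t < _ from hy)

lemma PM_ind (J : Mx n) (r : ℝ) {B : Cube n → Set (V n)} (hB : ∀ s, MeasurableSet (B s)) :
    PM J r (fun s => (B s).indicator 1) = mean (ising J 0) fun x => px sv r (B x) x := by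
  rw [PM, SL.slE_eq_mean]
  congr 1; ext x
  rw [← integral_map (f := (B x).indicator 1) (by fun_prop)
    (measurable_one.indicator (hB x)).aestronglyMeasurable, integral_indicator_one (hB x), px]

lemma ind01 (B : Set (V n)) (y : V n) : 0 ≤ B.indicator (1 : V n → ℝ) y ∧ B.indicator 1 y ≤ (1 : ℝ) := by
  by_cases h : y ∈ B <;> simp [h]

lemma mass_eq (w : Cube n → ℝ) (P : Cube n → V n → Prop) (y : V n) :
    mass w {s | ¬ P s y} = mean w fun s => {y | ¬ P s y}.indicator 1 y := by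
  classical
  simp only [mass, mean, Finset.sum_filter, indicator, mem_ofPred_eq, Pi.one_apply, mul_ite, mul_one,
    mul_zero]

lemma gib (J : Mx n) {r t : ℝ} (hr : 0 ≤ r) (ht : 0 < t) (P : Cube n → V n → Prop) :
    (SL.law sv (ising J 0) r).real {y | ¬ mass (ising J y) {s | ¬ P s y} ≤ t} ≤
      (mean (ising J 0) fun x => px sv r {y | ¬ P x y} x) / t := by
  have := SL.isProb_law (φ := sv) (s := r) (wtI J 0)
  let B : Cube n → Set (V n) := fun x =>
    toMeasurable ((SL.Gs (Fin n)).map fun z => r • sv x + √r • z) {y | ¬ P x y}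
  have mB : ∀ x, MeasurableSet (B x) := fun x => measurableSet_toMeasurable _ _
  have h := mkv J hr ht (X := fun s => (B s).indicator 1)
    (fun s => measurable_one.indicator (mB s)) fun s => ind01 (B s)
  have e : (fun x => px sv r (B x) x) = fun x => px sv r {y | ¬ P x y} x := funext fun x => by
    simp only [px, B, Measure.real, measure_toMeasurable]
  rw [PM_ind J r mB, e] at h
  refine (measureReal_mono fun y hy => ?_).trans h
  refine (not_le.1 hy).trans_le ?_
  rw [mass_eq]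
  exact (wtI J y).mean_mono fun s =>
    indicator_le_indicator_of_subset (subset_toMeasurable _ _) (fun _ => zero_le_one) y

lemma gib' (J : Mx n) {r t : ℝ} (hr : 0 ≤ r) (ht : 0 ≤ t) (P : Cube n → V n → Prop)
    (hP : ∀ s, MeasurableSet {y | P s y}) :
    (mean (ising J 0) fun x => px sv r {y | ¬ P x y} x) ≤
      t + (SL.law sv (ising J 0) r).real {y | ¬ mass (ising J y) {s | ¬ P s y} ≤ t} := by
  have := SL.isProb_law (φ := sv) (s := r) (wtI J 0)
  have mB : ∀ s, MeasurableSet {y | ¬ P s y} := fun s => (hP s).compl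
  have mX : ∀ s, Measurable ({y | ¬ P s y}.indicator (1 : V n → ℝ)) := fun s =>
    measurable_one.indicator (mB s)
  obtain ⟨h1, h2⟩ := int_mean J hr mX fun s => ind01 _
  simp only [mass_eq]
  have mA : MeasurableSet {y | ¬ (mean (ising J y) fun s => {y | ¬ P s y}.indicator 1 y) ≤ t} :=
    (measurableSet_le (meas_mean J mX) measurable_const).compl
  rw [← PM_ind J r mB, ← h2, ← integral_indicator_one mA]
  refine (integral_mono h1 ((integrable_const t).add ((integrable_const 1).indicator mA))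
    fun y => ?_).trans_eq ?_
  · by_cases hy : (mean (ising J y) fun s => {y | ¬ P s y}.indicator 1 y) ≤ t
    · exact le_add_of_le_of_nonneg hy (indicator_nonneg (fun _ _ => zero_le_one) y)
    · rw [Pi.add_apply, indicator_of_mem (show y ∈ {y | ¬ (mean (ising J y) fun s =>
        {y | ¬ P s y}.indicator 1 y) ≤ t} from hy)]
      exact le_add_of_nonneg_of_le ht ((wtI J y).mean_le fun s => (ind01 _ y).2)
  · rw [integral_add' (integrable_const t) ((integrable_const 1).indicator mA), integral_const,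
      probReal_univ, one_smul]
    rfl

lemma whp_gj {β : ℝ} (hβ : β ∈ Icc (0 : ℝ) 1) : Top.Whp disorderLaw fun n g => GJ (β • Jmat n g) :=
  Z.Hp58.whp_opn.imp fun n g hg => ⟨by rw [transpose_smul, Jmat_transpose],
    fun i => by rw [Matrix.smul_apply, Jmat_diag, smul_zero], by
      rw [opn_smul, abs_of_nonneg hβ.1]
      exact (mul_le_of_le_one_left (opn_nonneg _) hβ.2).trans hg⟩

lemma gj (ι : Type) [Fintype ι] (β : ℝ) (hβ : β ∈ Icc (0 : ℝ) 1) (c d : ι → ℝ) :
    Hp β c d fun _ J _ => GJ J :=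
  ⟨1, one_pos, (whp_gj hβ).imp fun n g hg => (Z.Hp58.wt_gibbs n β g).mean_le fun x => by
    simp only [hg, not_true_eq_false, ofPred_false, measureReal_empty]
    exact (Real.exp_pos _).le⟩

/-- words which agree on a likely event -/
lemma ap_congr {ι : Type} [Fintype ι] {β : ℝ} {c d : ι → ℝ} {U U' : Nt ι} (h : Ap β c d U)
    (e : Hp β c d fun n J a => U' n J a = U n J a) : Ap β c d U' :=
  apA.lim ι β c d U' fun ε hε => ⟨U, h, hpStmt.mono ι β c d _ _ e (.of_forall fun n J a ha => by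
    rw [ha, sub_self, nrm_zero]; positivity)⟩

lemma jq (n : ℕ) (J : Mx n) (h : GJ J) : JQ J (QQ J) := ⟨h.1, h.2.1, h.2.2, Sq.rt_symm _, by
  have e : Zf.AA J = J + (4 : ℝ) • (1 : Mx n) := by rw [Zf.AA, (lipStmt.tJ_le n J).2 h.2.2]
  rw [QQ, e]
  exact (Sq.g1_shift (herm_iff.2 h.1) h.2.2 (by norm_num)).mul⟩

lemma rq (β r : ℝ) (u : ∀ n, Mx n → V n → V n) (h : Rq β r u) : TY β r u :=
  apA.emb Unit Bool β (wc r) (wd r) ⟨fun _ => false, fun _ _ _ => rfl⟩
    (fun n J a => u n J (a ())) h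

lemma spn (β : ℝ) (hβ : β ∈ Icc (0 : ℝ) 1) (r : ℝ) : TC β r fun _ _ s _ => sv s :=
  ap_congr (apA.net Bool β hβ _ _ _ (Nw.inp true))
    (hpStmt.mono _ β _ _ _ _ (hpStmt.spin Bool β (wc r) (wd r) true rfl rfl)
      (.of_forall fun _ _ _ ha => svcb ha))

lemma fld (β : ℝ) (hβ : β ∈ Icc (0 : ℝ) 1) (r : ℝ) : TY β r fun _ _ y => y :=
  apA.net Bool β hβ (wc r) (wd r) (fun _ _ a => a false) (Nw.inp false)

lemma cgr (β : ℝ) (hβ : β ∈ Icc (0 : ℝ) 1) (r : ℝ) (U U' : Vf) (e : ∀ n J, GJ J → U n J = U' n J)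
    (h : TC β r U) : TC β r U' :=
  ap_congr h (hpStmt.mono _ β _ _ _ _ (gj Bool β hβ _ _)
    (.of_forall fun n J _ hJ => by rw [e n J hJ]))

lemma tl (β r : ℝ) (m : ℕ) (U : Vf) (h : TC β r U) : TL β r m fun n J s y _ => U n J s y :=
  apA.emb Bool (Bool ⊕ Fin m) β (Sum.elim (wc r) 0) (Sum.elim (wd r) 1)
    Function.Embedding.inl (fun n J a => U n J (cb (a true)) (a false)) h

lemma lab (β : ℝ) (hβ : β ∈ Icc (0 : ℝ) 1) (r : ℝ) (m : ℕ) (l : Fin m) :
    TL β r m fun _ _ _ _ w => w l :=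
  apA.net (Bool ⊕ Fin m) β hβ (Sum.elim (wc r) 0) (Sum.elim (wd r) 1) (fun _ _ a => a (.inr l))
    (Nw.inp (Sum.inr l))

lemma lim (β r : ℝ) (u : ∀ n, Mx n → V n → V n) (h : ∀ ε > (0 : ℝ), ∃ u', TY β r u' ∧
    Ty β r fun n J y => nrm (u n J y - u' n J y) ≤ ε * √n) : TY β r u :=
  apA.lim Bool β (wc r) (wd r) (fun n J a => u n J (a false)) fun ε hε => by
    obtain ⟨u', h1, h2⟩ := h ε hε
    exact ⟨fun n J a => u' n J (a false), h1,
      (ty_iff β r fun n J y => nrm (u n J y - u' n J y) ≤ ε * √n).1 h2⟩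

lemma flat (β r : ℝ) (u : ∀ n, Mx n → V n → V n) (h : TY β r u) :
    (∃ C ≥ (0 : ℝ), Ty β r fun n J y => nrm (u n J y) ≤ C * √n) ∧
    ∀ ε > (0 : ℝ), ∃ M ≥ (0 : ℝ), Ty β r fun n J y => nrm (u n J y - cp M (u n J y)) ≤ ε * √n ∧
      ∀ S : Finset (Fin n), √(∑ i ∈ S, u n J y i ^ 2) ≤ ε * √n + M * √S.card := by
  obtain ⟨⟨C, hC, h1⟩, h2⟩ := apA.bd Bool β (wc r) (wd r) (fun n J a => u n J (a false)) h
  refine ⟨⟨C, hC, (ty_iff β r fun n J y => nrm (u n J y) ≤ C * √n).2 h1⟩, fun ε hε => ?_⟩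
  obtain ⟨M, hM, h3⟩ := h2 ε hε
  exact ⟨M, hM, (ty_iff β r fun n J y => nrm (u n J y - cp M (u n J y)) ≤ ε * √n ∧
    ∀ S : Finset (Fin n), √(∑ i ∈ S, u n J y i ^ 2) ≤ ε * √n + M * √S.card).2 h3⟩

lemma gibbs (β r : ℝ) (hr : 0 ≤ r) (P : ∀ n, Mx n → Cube n → V n → Prop)
    (h : Hp β (wc r) (wd r) fun n J a => P n J (cb (a true)) (a false)) : ∃ κ > (0 : ℝ),
    Ty β r fun n J y => mass (ising J y) {s | ¬ P n J s y} ≤ Real.exp (-κ * n) := by
  obtain ⟨κ, hκ, h⟩ := (hp_iff β r P).1 h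
  refine ⟨κ / 2, half_pos hκ, κ / 2, half_pos hκ, h.imp fun n g hg => ?_⟩
  rw [gibbsWeight_eq_ising]
  refine (gib _ hr (Real.exp_pos _) (P n (β • Jmat n g))).trans ?_
  rw [div_le_iff₀ (Real.exp_pos _), ← Real.exp_add]
  exact hg.trans_eq (congrArg _ (by ring))

lemma gibbs' (β : ℝ) (hβ : β ∈ Icc (0 : ℝ) 1) (r : ℝ) (hr : 0 ≤ r)
    (P : ∀ n, Mx n → Cube n → V n → Prop) (hP : ∀ n J s, GJ J → MeasurableSet {y | P n J s y})
    (κ : ℝ) (hκ : 0 < κ)
    (h : Ty β r fun n J y => mass (ising J y) {s | ¬ P n J s y} ≤ Real.exp (-κ * n)) :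
    Hp β (wc r) (wd r) fun n J a => P n J (cb (a true)) (a false) := by
  obtain ⟨k, hk, h⟩ := h
  have h0 := lt_min hκ hk
  refine (hp_iff β r P).2 ⟨min κ k / 2, half_pos h0, (h.and (whp_gj hβ)).mono ?_⟩
  filter_upwards [Z.Hp58.two_exp h0] with n hn g hg
  have n0 : (0 : ℝ) ≤ n := Nat.cast_nonneg n
  have a1 : Real.exp (-κ * n) ≤ Real.exp (-min κ k * n) :=
    Real.exp_le_exp.2 (by nlinarith only [min_le_left κ k, n0])
  have a2 : Real.exp (-k * n) ≤ Real.exp (-min κ k * n) :=
    Real.exp_le_exp.2 (by nlinarith only [min_le_right κ k, n0])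
  have a3 := gib' (β • Jmat n g) hr (Real.exp_pos (-κ * n)).le (P n (β • Jmat n g))
    fun s => hP n _ s hg.2
  have a4 := hg.1
  rw [gibbsWeight_eq_ising] at a4
  linarith

end Td68

open Td68 in
theorem tcStmt : TcStmt where
  jq := jq
  gj := gj
  cbsv _ := cbsv
  ty β r _ P := ty_iff β r P
  rq := rq
  spin := spn
  fld := fld
  congr := cgr
  tl := tl
  lab := lab
  lim β r _ := lim β r
  flat β r _ := flat β r
  gibbs := gibbs
  gibbs' := gibbs'
  mkv _ J _ _ _ hr ht hX := fun ⟨_, hB⟩ => mkv J hr ht (fun s => (hX s).measurable) hB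

end Crest.Agent.T157.K

end
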