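import Crest.Agent.T157.KTmD_8
import Crest.Agent.T157.KAv_46
import Crest.Agent.T157.KTd_68
import Crest.Agent.T157.AtC_39

/-!
# Row 157, block S5 (helper8): thermal means are in the calculus
-/

set_option autoImplicit false

noncomputable section

namespace Crest.Agent.T157.K

namespace Tm8

open Di MeasureTheory Real Matrix Finset Filter
open Crest.Agent.T157.E Crest.Agent.T157.Eig Crest.Agent.T157.SL Crest.Agent.T157.Z
open Crest.Agent.T157.Tap (V Mx)
open Crest.Agent.T157.Reg (jac)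
open Crest.Agent.T157.Zf (QQ Vf)
open Crest.Agent.T157.K.Td68 (tw wtI)
open Crest.Agent.T157.K.Av46 (av Lb)

variable {n : ℕ} {β r : ℝ}

theorem mean_mass {w F : Cube n → ℝ} (hw : Wt w) {δ K : ℝ} (δ0 : 0 ≤ δ) (K0 : 0 ≤ K)
    (hK : ∀ s, F s ≤ K) : mean w F ≤ δ + K * mass w {s | ¬ F s ≤ δ} := by
  rw [Td68.mass_eq w (fun s _ => F s ≤ δ) 0, ← mean_const_mul, ← hw.mean_const δ, ← mean_add,
    hw.mean_const δ]
  refine hw.mean_mono fun s => ?_
  by_cases h : F s ≤ δ
  · simpa [h] using h
  · simp only [h, not_false_eq_true, Set.setOf_true, Set.indicator_univ, Pi.one_apply]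
    linarith [hK s]

theorem nrm_meanV {w : Cube n → ℝ} (hw : Wt w) (a b : Cube n → V n) :
    nrm (meanV w a - meanV w b) ≤ mean w fun s => nrm (a s - b s) := by
  have e : meanV w a - meanV w b = ∑ s, prob w s • (a s - b s) := by
    ext i; simp only [meanV, mean, Pi.sub_apply, Finset.sum_apply, Pi.smul_apply, smul_eq_mul, mul_sub,
      sum_sub_distrib]
  rw [e]
  exact (ApB11.nrm_sum_le _ _).trans_eq (sum_congr rfl fun s _ => by
    rw [nrm_smul, abs_of_nonneg (hw.isP.nn s)])

theorem nrm_sg {σ : V n} (h : ∀ i, σ i * σ i = 1) (v : V n) : nrm (σ * v) = nrm v := by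
  simp only [nrm, dotProduct, Pi.mul_apply, mul_mul_mul_comm (σ _), h, one_mul]

theorem meas_Kit (Q : Mx n) {u : Cube n → V n → V n} (h : ∀ s, Measurable (u s)) (T : ℕ) (s : Cube n) :
    Measurable fun y => Kit Q y T (fun t => u t y) s := measurable_pi_lambda _ fun j => by
  induction T generalizing s with
  | zero => exact (h s).eval
  | succ T ih =>
    simp only [Kit, Function.iterate_succ_apply'] at ih ⊢
    have a : ∀ t, Measurable fun p : V n × V n => pw Q p.1 (Q *ᵥ sv s + p.2) t := fun t => by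
      unfold pw ising; fun_prop
    refine (StronglyMeasurable.integral_prod_right' (f := fun p : V n × V n =>
      mean (pw Q p.1 (Q *ᵥ sv s + p.2)) ((Ky Q p.1)^[T] fun t => u t p.1 j))
      (Measurable.stronglyMeasurable ?_)).measurable
    exact Finset.measurable_sum _ fun t _ => ((a t).div (Finset.measurable_sum _ fun x _ => a x)).mul
      ((ih t).comp measurable_fst)

/-- regularisation -/
theorem reg (hJac : JacStmt) (hβ : β ∈ Set.Icc (0 : ℝ) 1) {U : Vf} (hU : TC β r U) (hL : L2 U) {ε : ℝ}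
    (hε : 0 < ε) : ∃ (u : Vf) (e : ℝ), TC β r u ∧ (∀ n J y, R0 e fun s => u n J s y) ∧
      (∀ n J s, Measurable (u n J s)) ∧ Hp β (wc r) (wd r) fun n J a =>
        nrm (U n J (cb (a true)) (a false) - u n J (cb (a true)) (a false)) ≤ ε * √n := by
  obtain ⟨C, hC⟩ := hL
  obtain ⟨m, X, hX, hb, hp⟩ := apA.smo Bool β (wc r) (wd r) _ hU (ε / 2) (half_pos hε)
  obtain ⟨M, M0, hM⟩ := A48.Bd.pos hb
  obtain ⟨L, L0, hL⟩ := hJac _ X hX (Sum.elim (fun t => if t then 1 else 0) 0)
  have mX : ∀ n J, Measurable (X n J) := fun n J => (lipStmt.diff _ _ hX n J).continuous.measurable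
  have bX : ∀ n J a, nrm (X n J a) ≤ M * √n := fun n J a => nrm_le_sup M0 (hM n J a)
  have iX : ∀ n J (a : Bool → V n) i, Integrable (fun b => X n J (Sum.elim a b) i) (Lb (Fin m) n) :=
    fun n J a => Av46.ico _ ((mX n J).comp (Av46.mel1 a)) fun b => bX n J _
  have sp : Hp β (wc r) (wd r) fun _ _ a => tw (sv (cb (a true))) (a false) = a :=
    hpStmt.mono _ β _ _ _ _ (hpStmt.spin Bool β (wc r) (wd r) true rfl rfl)
      (.of_forall fun _ _ a ha => by rw [Td68.svcb ha]; ext1 t; cases t <;> rfl)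
  have h1 := Av46.cond (K := |C| + M) (η := ε / (2 * (|C| + M + 1))) hβ (by positivity)
    (half_pos hε).le (by positivity) (fun n J hJ a => ⟨by
      exact (measurable_const (a := U n J (cb (a true)) (a false))).sub
        ((mX n J).comp (Av46.mel1 a)), fun b => (nrm_sub_le _ _).trans (by
        have := (hC n J (cb (a true)) (a false) hJ).trans
          (mul_le_mul_of_nonneg_right (le_abs_self C) (sqrt_nonneg _))
        rw [add_mul]; exact add_le_add this (bX n J _))⟩) hp
  refine ⟨fun n J s y => av X n J (tw (sv s) y), M + L, Td68.ap_congr (Av46.ap_av β _ _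
    (lipStmt.mono _ _ _ hX) hb) (hpStmt.mono _ β _ _ _ _ sp (.of_forall fun n J a ha => by simp only [ha])),
    fun n J y => ⟨fun s i => ?_, fun s => opn_le_of_nrm (by positivity) fun v => ?_⟩,
    fun n J s => (Av46.meas_av (mX n J)).comp (Td68.emb_tw _).measurable,
    hpStmt.mono _ β _ _ _ _ (hpStmt.and _ β _ _ _ _ sp h1) (.of_forall fun n J a ha => ?_)⟩
  · refine le_trans ?_ (le_add_of_nonneg_right L0)
    simpa [av] using norm_integral_le_of_norm_le_const (μ := Lb (Fin m) n) (C := M)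
      (f := fun b => X n J (Sum.elim (tw (sv s) y) b) i) (.of_forall fun b => hM _ _ _ _)
  · have e : ∀ (b : Fin m → V n) (t : Cube n), (fun l => Sum.elim (tw 0 y) b l + Sum.elim
        (fun t => if t then (1 : ℝ) else 0) (0 : Fin m → ℝ) l • sv t) = Sum.elim (tw (sv t) y) b := fun b t => by
      ext1 l
      rcases l with l | l
      · cases l <;> simp [tw]
      · simp
    have hb : ∀ b, nrm (jac (fun t => X n J (Sum.elim (tw (sv t) y) b)) s *ᵥ v) ≤ L * nrm v :=
      fun b => (nrm_mulVec_le _ v).trans (mul_le_mul_of_nonneg_right (by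
        simpa only [e] using hL n J (Sum.elim (tw 0 y) b) s) (nrm_nonneg v))
    have mY : ∀ (a : Bool → V n) i, Measurable fun b : Fin m → V n => X n J (Sum.elim a b) i :=
      fun a i => ((mX n J).comp (Av46.mel1 a)).eval
    have h2 := Av46.nrm_int (Lb (Fin m) n)
      (D := fun b => jac (fun t => X n J (Sum.elim (tw (sv t) y) b)) s *ᵥ v)
      (measurable_pi_lambda _ fun i => by
        simp only [mulVec, dotProduct, jac, of_apply]
        exact Finset.measurable_sum _ fun j _ => ((mY _ i).sub (mY _ i)).mul_const _) hb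
    have h3 := norm_integral_le_of_norm_le_const (μ := Lb (Fin m) n) (C := L * nrm v)
      (f := fun b => nrm (jac (fun t => X n J (Sum.elim (tw (sv t) y) b)) s *ᵥ v))
      (.of_forall fun b => (abs_of_nonneg (nrm_nonneg _)).trans_le (hb b))
    rw [probReal_univ, mul_one] at h3
    refine le_of_eq_of_le (congrArg nrm (funext fun i => ?_)) ((h2.trans ((le_abs_self _).trans h3)).trans
      (mul_le_mul_of_nonneg_right (le_add_of_nonneg_left M0) (nrm_nonneg v)))
    simp only [mulVec, dotProduct, jac, of_apply, av]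
    rw [integral_finsetSum _ fun j _ => by exact ((iX n J _ i).sub (iX n J _ i)).mul_const _]
    exact sum_congr rfl fun j _ => by rw [integral_mul_const, integral_sub (iX n J _ i) (iX n J _ i)]
  · beta_reduce
    rw [ha.1]
    refine le_of_eq_of_le (congrArg nrm (funext fun i => ?_)) (ha.2.2.trans
      (mul_le_mul_of_nonneg_right ?_ (sqrt_nonneg _)))
    · simp only [av, Pi.sub_apply, Sum.elim_inl]
      rw [integral_sub (integrable_const _) (iX n J a i)]; simp
    · rw [mul_div_assoc', ← le_sub_iff_add_le', div_le_iff₀ (by positivity)]; linarith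

/-- typical fields satisfy the approximate tensorisation -/
theorem ty_atd (hβ : β ∈ Set.Ioo (0 : ℝ) 1) (hr : 0 ≤ r) : ∃ K ≥ (0 : ℝ), ∃ k > (0 : ℝ),
    Ty β r fun n J y => GJ J ∧ Atd.ATd (ising J y) K (exp (-(k * n))) := by
  obtain ⟨K, K0, ρ, ρ0, k, k0, h⟩ := Atd.atyC β hβ
  refine ⟨K, K0.le, k, k0, k, k0, (h.and (Td68.whp_gj ⟨hβ.1.le, hβ.2.le⟩)).imp fun n g hg => ?_⟩
  have := isProb_law (φ := sv) (s := r) (Hp58.wt_gibbs n β g)
  rw [neg_mul]
  refine le_trans (measureReal_mono ?_) (hg.1 r hr)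
  refine fun y hy h' => hy ⟨hg.2, ?_⟩
  have := (h' 0 (by rw [nrm_zero]; positivity)).1
  rwa [gibbsWeight_eq_ising, tilt_ising, zero_add, add_zero] at this

theorem ty_mono (hT : TcStmt) (hr : 0 ≤ r) {P Q : ∀ n, Mx n → V n → Prop} (h : Ty β r P)
    (e : ∀ᶠ n in atTop, ∀ J y, P n J y → Q n J y) : Ty β r Q :=
  (hT.ty β r hr Q).2 (hpStmt.mono _ β _ _ _ _ ((hT.ty β r hr P).1 h)
    (e.mono fun _ hn J a => hn J (a false)))

/-- both forms at once -/
theorem gen (hT : TcStmt) (hJac : JacStmt) (hRF : RFStmt) (hP : PrStmt) (hR : RevStmt)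
    (hβ : β ∈ Set.Ioo (0 : ℝ) 1) (hr : 0 ≤ r) (σ : ∀ n, Cube n → V n)
    (hσ : ∀ n s i, σ n s i * σ n s i = 1)
    (h0 : ∀ n e (u : Cube n → V n), R0 e u → R0 (3 * e) fun s => σ n s * u s)
    (hK : ∀ U : Vf, TC β r U → L2 U →
      TC β r fun n J s y j => σ n s j * Ky (QQ J) y (fun t => σ n t j * U n J t y j) s)
    {U : Vf} (hU : TC β r U) (hL : L2 U) :
    TC β r fun n J s y => σ n s * meanV (ising J y) fun t => σ n t * U n J t y := by
  have hβ' : β ∈ Set.Icc (0 : ℝ) 1 := ⟨hβ.1.le, hβ.2.le⟩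
  refine apA.lim Bool β (wc r) (wd r) _ fun ε hε => ?_
  obtain ⟨u, e, tu, ru, mu, hp⟩ := reg hJac hβ' hU hL (show 0 < ε / 3 by positivity)
  obtain ⟨C, hC⟩ := hL
  obtain ⟨K, K0, k, k0, hA⟩ := ty_atd hβ hr
  obtain ⟨T, κ, κ0, hc⟩ := core hRF hP hR K k (3 * e) (ε / 3) K0 k0 (by positivity)
  obtain ⟨C1, c1, hI⟩ := r0_iter hRF hP
  have e0 : 0 ≤ e := R0.nn (ru 0 0 0)
  have ss : ∀ n (t : Cube n) (v : V n), σ n t * (σ n t * v) = v := fun n t v => by
    ext i; rw [Pi.mul_apply, Pi.mul_apply, ← mul_assoc, hσ, one_mul]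
  have tV : ∀ T, TC β r fun n J s y => σ n s * Kit (QQ J) y T (fun t => σ n t * u n J t y) s := by
    intro T
    induction T with
    | zero => exact hT.congr β hβ' r _ _ (fun n J _ => funext₂ fun s y => (ss n s _).symm) tu
    | succ T ih =>
      refine hT.congr β hβ' r _ _ (fun n J _ => funext₂ fun s y => funext fun j => ?_)
        (hK _ ih ⟨C1 ^ T * (3 * e), fun n J s y hJ => ?_⟩)
      · simp only [Kit, Function.iterate_succ_apply', Pi.mul_apply, ← mul_assoc, hσ, one_mul]
      · rw [nrm_sg (hσ n s)]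
        exact nrm_le_sup (by positivity)
          ((hI n _ y _ _ (hR.opQ n J _ (hT.jq n J hJ)).1 (h0 n e _ (ru n J y)) T).sup s)
  have p1 := hT.gibbs' β hβ' r hr (fun n J s y => nrm (Kit (QQ J) y T (fun t => σ n t * u n J t y) s -
      meanV (ising J y) fun t => σ n t * u n J t y) ≤ ε / 3 * √n)
    (fun n J s _ => measurableSet_le (continuous_nrm.measurable.comp ((meas_Kit (QQ J)
      (u := fun t y => σ n t * u n J t y) (fun t => (mu n J t).const_mul _) T s).sub
      (measurable_pi_lambda _ fun i => Td68.meas_mean J (X := fun t y => (σ n t * u n J t y) i)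
        fun t => ((mu n J t).const_mul _).eval))) measurable_const) κ κ0
    (ty_mono hT hr hA (hc.mono fun n hn J y h => hn J _ y _ (hT.jq n J h.1) h.2 (h0 n e _ (ru n J y))))
  obtain ⟨κ', κ0', p2⟩ := hT.gibbs β r hr
    (fun n J s y => nrm (U n J s y - u n J s y) ≤ ε / 3 * √n) hp
  have t1 : Tendsto (fun n : ℕ => exp (-κ' * n)) atTop (nhds 0) :=
    tendsto_exp_atBot.comp (tendsto_natCast_atTop_atTop.const_mul_atTop_of_neg (by linarith))
  refine ⟨_, tV T, hpStmt.mono _ β _ _ _ _ (hpStmt.and _ β _ _ _ _ p1 (hpStmt.and _ β _ _ _ _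
    ((hT.ty β r hr _).1 p2) (hT.gj Bool β hβ' _ _))) ((t1.eventually_le_const
      (show 0 < ε / (3 * (|C| + e + 1)) by positivity)).mono fun n hn J a ha => ?_)⟩
  have s0 := sqrt_nonneg (n : ℝ)
  have h1 := nrm_meanV (wtI J (a false)) (fun t => σ n t * U n J t (a false))
    fun t => σ n t * u n J t (a false)
  simp only [← mul_sub, nrm_sg (hσ n _)] at h1 ⊢
  have h2 := mean_mass (F := fun s => nrm (U n J s (a false) - u n J s (a false))) (wtI J (a false))
    (show 0 ≤ ε / 3 * √n by positivity) (show 0 ≤ (|C| + e) * √n by positivity) fun s =>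
      (nrm_sub_le _ _).trans (by
        rw [add_mul]
        exact add_le_add ((hC n J s _ ha.2.2).trans (mul_le_mul_of_nonneg_right (le_abs_self C) s0))
          (nrm_le_sup e0 ((ru n J _).sup s)))
  have h3 := mul_le_mul_of_nonneg_left (ha.2.1.trans hn) (show 0 ≤ (|C| + e) * √n by positivity)
  have h4 : (|C| + e) * (ε / (3 * (|C| + e + 1))) ≤ ε / 3 := by
    rw [mul_div_assoc', div_le_iff₀ (by positivity)]; linarith
  have h5 := ha.1
  rw [← nrm_neg, neg_sub] at h5
  refine (ApB11.nrm_tri _ (meanV (ising J (a false)) fun t => σ n t * u n J t (a false)) _).trans ?_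
  linarith [mul_le_mul_of_nonneg_right h4 s0]

end Tm8

open Crest.Agent.T157.E in
theorem tmGlue8 : TmGlue := fun hT _ hJ hK hRF hP hR β hβ r hr U hU hL =>
  ⟨by
      have := Tm8.gen hT hJ hRF hP hR hβ hr (fun _ _ => 1) (fun _ _ _ => one_mul _)
        (fun n e u h => by
          simpa only [one_mul] using Di.R0.mono h (by linarith [Tm8.R0.nn h]))
        (fun U hU hL => by
          simp only [Pi.one_apply, one_mul]
          exact (hK β ⟨hβ.1.le, hβ.2.le⟩ r hr U hU hL).1) hU hL
      simp only [one_mul] at this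
      exact this,
    Tm8.gen hT hJ hRF hP hR hβ hr (fun _ => sv) (fun _ => Rec.sv_mul_self) (fun _ _ _ => Tm8.r0_spin)
      (fun U hU hL => (hK β ⟨hβ.1.le, hβ.2.le⟩ r hr U hU hL).2) hU hL⟩

end Crest.Agent.T157.K

end
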