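import Crest.Agent.T157.KTAll_42
import Crest.Agent.T157.KTmP_8

/-!
# Row 157, part B (helper42): thermal means, unconditional
-/

namespace Crest.Agent.T157.K

theorem tmStmt : TmStmt := tm_of tmGlue8

end Crest.Agent.T157.K
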