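import Crest.Agent.T157.KMdB_93

/-!
# Row 157, block S5 (helper14): the tail certificate
-/

set_option autoImplicit false
set_option linter.all false

noncomputable section

namespace Crest.Agent.T157.Md

open MeasureTheory Real Matrix Finset Filter
open Crest.Agent.T157.E Crest.Agent.T157.Eig Crest.Agent.T157.K
open Crest.Agent.T157.Tap (V Mx)
open Crest.Agent.T157.Rec (grad)
open Crest.Agent.T157.SL (Wt)
open Crest.Agent.T157.S3.Hd (AD)

namespace CT14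

variable {n : ℕ}

theorem grad_lin (a : V n) (s : Cube n) : grad (lin a) s = a := Rec.grad_lin a s

theorem rf_mono {e e' : ℝ} {u : U2 n} (h : RF e u) (he : e ≤ e') : RF e' u :=
  ⟨fun ζ => ⟨fun s i => ((h.r0 ζ).sup s i).trans he, fun s => ((h.r0 ζ).op s).trans he⟩,
    fun s ζ ζ' => (h.lip s ζ ζ').trans (mul_le_mul_of_nonneg_right he (nrm_nonneg _))⟩

theorem inv_it (hR : RevStmt) {J Q : Mx n} (hJ : JQ J Q) (y : V n) (F : Cube n → ℝ) (k : ℕ) :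
    mean (ising J y) ((Ky Q y)^[k] F) = mean (ising J y) F := by
  induction k with
  | zero => rfl
  | succ k ih => rw [Function.iterate_succ_apply', hR.inv n J Q y _ hJ, ih]

theorem na {a : V n} {A0 : ℝ} (h : nrm a ≤ A0 * √n) : nrm a ≤ |A0| * √n :=
  h.trans (mul_le_mul_of_nonneg_right (le_abs_self _) (sqrt_nonneg _))

theorem sq_A (A0 : ℝ) (n : ℕ) : (|A0| * √n) ^ 2 = A0 ^ 2 * n := by
  rw [mul_pow, sq_abs, sq_sqrt (Nat.cast_nonneg n)]

/-- the programs at the running field -/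
theorem prog_y (hP : ProgStmt) (hD : DirStmt) (hT : TrfStmt) (K : ℝ) : ∃ c0 ≥ (1 : ℝ),
    ∃ C ≥ (1 : ℝ), ∀ c ≥ c0, ∀ (n : ℕ) (J Q : Mx n) (y0 y : V n) (Λ M e η δ A0 ε T : ℝ) (k l : ℕ)
      (E : V n → V n → V n) (a : V n), JQ J Q → 1 ≤ Λ → 0 ≤ M → Tgt J Q y0 c Λ M e η δ A0 k E a →
      AD (ising J y0) K ε → nrm (y - y0) ^ 2 ≤ T → l ≤ k →
      ∃ X', BS0 ((Ky Q y)^[l] (lin a)) (fun s => wS Q c Λ (c * M) (dirS Q E) l s y) X'
        (exp (c * l * Λ) * (c * M)) (c ^ l * (|A0| * √n)) ∧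
        mean (ising J y) X' ≤ c ^ l * ((l + 1) * (4 * (δ * n) +
          C * (exp (c * k * Λ) * (c * M)) ^ 2 * (T + 1)) + exp (-(Λ ^ 2 / c)) * (A0 ^ 2 * n)) := by
  obtain ⟨cp, hP⟩ := hP
  obtain ⟨Cd, d1, hD⟩ := hD
  obtain ⟨C, C1, hN⟩ := near hT K
  refine ⟨max cp Cd, d1.trans (le_max_right _ _), C, C1,
    fun c hc n J Q y0 y Λ M e η δ A0 ε T k l E a hJ hΛ hM tg hA hy hl => ?_⟩
  have c1 : Cd ≤ c := (le_max_right _ _).trans hc
  have c0 : 0 ≤ c := by linarith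
  have m0 : 0 ≤ Cd * M := by positivity
  have m1 : Cd * M ≤ c * M := mul_le_mul_of_nonneg_right c1 hM
  have m2 : 0 ≤ c * M := by positivity
  obtain ⟨r1, -, -, -, -, r6, r7, r8⟩ := hD n J Q E M hJ hM tg.blo
  have rf := rf_mono r1 m1
  have pr := fun j => hP c ((le_max_left _ _).trans hc) n J Q Λ (c * M) (dirS Q E) j hJ hΛ m2 rf
  obtain ⟨X', b1, b2⟩ := (pr l).2.2.2 y (lin a) (fun s => nrm (a - dirS Q E s y) ^ 2) (|A0| * √n)
    ⟨fun s => by rw [grad_lin]; exact na tg.na, fun s => by rw [grad_lin], rf.r0 y, fun s =>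
      ⟨((r6 a).sb y s).1, ((r6 a).sb y s).2.trans (mul_le_mul_of_nonneg_right
        (pow_le_pow_left₀ m0 m1 2) (sq_nonneg _))⟩⟩
  refine ⟨X', b1, b2.trans (mul_le_mul_of_nonneg_left ?_ (by positivity))⟩
  have T0 : 0 ≤ T + 1 := by linarith [sq_nonneg (nrm (y - y0))]
  have key : ∀ (X : F2 n) (e' : ℝ), 0 ≤ e' → e' ≤ exp (c * k * Λ) * (c * M) → RE e' X →
      (mean (ising J y0) fun s => X s y0) ≤ δ * n → (mean (ising J y) fun s => X s y) ≤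
      4 * (δ * n) + C * (exp (c * k * Λ) * (c * M)) ^ 2 * (T + 1) := fun X e' h0 h1 h2 h3 =>
    (hN n J y0 y X e' ε T hA h2 hy).trans (by gcongr)
  have h1 : (mean (ising J y) fun s => nrm (a - dirS Q E s y) ^ 2) ≤ _ :=
    ((wt_is J y).mean_mono fun s => (r8 a y).1 s).trans (key _ _ m0 (m1.trans
      (le_mul_of_one_le_left m2 (one_le_exp (by positivity)))) (r7 a) tg.dv)
  have h2 := sum_le_card_nsmul (range l) _ _ fun j hj => key _ _ (by positivity)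
    (mul_le_mul_of_nonneg_right (exp_le_exp.2 (by
      have : (j : ℝ) + 1 ≤ k := by exact_mod_cast (mem_range.1 hj).trans_le hl
      gcongr)) m2) (pr j).2.2.1 (tg.xs j ((mem_range.1 hj).trans_le hl))
  rw [card_range, nsmul_eq_mul] at h2
  rw [sq_A]
  linarith

theorem ex_k {γ : ℝ} (h0 : 0 < γ) (h1 : γ < 1) (A : ℝ) {b : ℝ} (hb : 0 < b) :
    ∃ k0 : ℕ, ∀ k ≥ k0, A * (1 - γ) ^ k ≤ b := by
  have h := (tendsto_pow_atTop_nhds_zero_of_lt_one (show 0 ≤ 1 - γ by linarith)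
    (show 1 - γ < 1 by linarith)).const_mul A
  rw [mul_zero] at h
  exact eventually_atTop.1 (h.eventually (ge_mem_nhds hb))

theorem ex_L {c : ℝ} (hc : 0 < c) (A : ℝ) {b : ℝ} (hb : 0 < b) :
    ∃ Λ0 : ℝ, ∀ Λ ≥ Λ0, 1 ≤ Λ ∧ A * exp (-(Λ ^ 2 / c)) ≤ b := by
  have h := (tendsto_exp_neg_atTop_nhds_zero.comp
    ((tendsto_pow_atTop two_ne_zero).atTop_div_const hc)).const_mul A
  rw [mul_zero] at h
  exact eventually_atTop.1 ((eventually_ge_atTop 1).and (h.eventually (ge_mem_nhds hb)))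

end CT14

open CT14 in
/-- **the tail certificate** -/
theorem certTGlue : CertTGlue := by
  intro hR hG hP hD hT hTr K
  obtain ⟨c0, c1, Cn, n1, hp⟩ := prog_y hP hD hT K
  obtain ⟨γ, Cg, g0, g1, g2, hG⟩ := hG K
  obtain ⟨C, C1, hTr⟩ := hTr K
  refine ⟨c0, fun c hc A0 lam l0 => ?_⟩
  have c2 : 1 ≤ c := c1.trans hc
  obtain ⟨b, b0, hb⟩ : ∃ b > (0 : ℝ), C * (5 * b) = lam / 4 :=
    ⟨lam / (20 * C), by positivity, by field_simp; norm_num⟩
  obtain ⟨k0, hk0⟩ := ex_k g0 g1 (Cg * A0 ^ 2) b0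
  refine ⟨k0, fun k hk => ?_⟩
  have ck : 1 ≤ c ^ k := one_le_pow₀ c2
  obtain ⟨Λ0, hΛ0⟩ := ex_L (show 0 < c by linarith) (c ^ k * A0 ^ 2) b0
  refine ⟨b / (c ^ k * (k + 1) * 4), by positivity, Λ0, fun Λ hΛ M e η hM _ => ?_⟩
  obtain ⟨Λ1, hΛ1⟩ := hΛ0 Λ hΛ
  obtain ⟨ek, hek⟩ : ∃ ek, ek = exp (c * k * Λ) * (c * M) := ⟨_, rfl⟩
  have e0 : 0 ≤ ek := by rw [hek]; positivity
  obtain ⟨Z, Z1, Z2, Z3⟩ : ∃ Z : ℝ, 1 ≤ Z ∧ ek ≤ Z ∧ c ^ k * |A0| ≤ Z :=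
    ⟨1 + ek + c ^ k * |A0|, by linarith [mul_nonneg (zero_le_one.trans ck) (abs_nonneg A0)],
      by linarith [mul_nonneg (zero_le_one.trans ck) (abs_nonneg A0)], by linarith⟩
  obtain ⟨G, hGd⟩ : ∃ G, G = c ^ k * (k + 1) * Cn * ek ^ 2 := ⟨_, rfl⟩
  have G0 : 0 ≤ G := by rw [hGd]; positivity
  have t0 : 0 < (C * Z)⁻¹ := by positivity
  refine ⟨min (b / (G + 1)) (lam * (C * Z)⁻¹ ^ 2 / 8), by positivity, ?_⟩
  filter_upwards [tendsto_natCast_atTop_atTop.eventually_ge_atTop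
    ((Cg * A0 ^ 2 + G + 2 * Z ^ 2) / b), tendsto_natCast_atTop_atTop.eventually_ge_atTop
    (8 / (lam * (C * Z)⁻¹ ^ 2)), eventually_gt_atTop 0] with n n2 n3 n4
  intro J Q y0 y E a δ T hJ hδ tg hA0 hA hy hT v hv hk1
  have n0 : (0 : ℝ) < n := by exact_mod_cast n4
  obtain ⟨X', b1, b2⟩ := hp c hc n J Q y0 y Λ M e η δ A0 _ T k k E a hJ Λ1 hM tg hA0 hy le_rfl
  rw [← hek] at b1 b2
  have a2 : nrm a ^ 2 ≤ A0 ^ 2 * n := sq_A A0 n ▸ pow_le_pow_left₀ (nrm_nonneg a) (na tg.na) 2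
  obtain ⟨-, -, u3, -⟩ := hG n J Q y (1 / n) (A0 ^ 2 * n) (lin a) k hJ hA fun s => by
    rw [grad_lin]; exact a2
  have u4 : (mean (ising J y) fun s => nrm (grad (lin a) s) ^ 2) ≤ A0 ^ 2 * n := by
    simp only [grad_lin]; rw [(wt_is J y).mean_const]; exact a2
  have t1 : T ≤ b / (G + 1) * n := hT.trans (mul_le_mul_of_nonneg_right (min_le_left _ _) n0.le)
  have t2 : T ≤ lam * (C * Z)⁻¹ ^ 2 / 8 * n :=
    hT.trans (mul_le_mul_of_nonneg_right (min_le_right _ _) n0.le)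
  have s1 : (mean (ising J y) fun s => nrm (grad ((Ky Q y)^[k] (lin a)) s) ^ 2) ≤
      b * n + Cg * A0 ^ 2 := by
    refine u3.trans (add_le_add ?_ (le_of_eq (by field_simp)))
    have p0 : 0 ≤ Cg * (1 - γ) ^ k := mul_nonneg (by linarith) (pow_nonneg (by linarith) k)
    linarith [mul_le_mul_of_nonneg_left u4 p0, mul_le_mul_of_nonneg_right (hk0 k hk) n0.le]
  have s2 : mean (ising J y) X' ≤ 3 * (b * n) + G := by
    rw [le_div_iff₀ (by positivity)] at hδ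
    have q1 : G * T ≤ b * n := by
      rw [div_mul_eq_mul_div, le_div_iff₀ (by positivity)] at t1
      linarith [sq_nonneg (nrm (y - y0))]
    refine b2.trans ?_
    rw [hGd] at q1 ⊢
    linarith [mul_le_mul_of_nonneg_right hδ n0.le, mul_le_mul_of_nonneg_right hΛ1 n0.le]
  have s3 : 1 / n * (c ^ k * (|A0| * √n)) ^ 2 ≤ Z ^ 2 := by
    rw [← mul_assoc (c ^ k), mul_pow, sq_sqrt n0.le, one_div, mul_comm, mul_inv_cancel_right₀ n0.ne']
    exact pow_le_pow_left₀ (by positivity) Z3 2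
  have s4 := pow_le_pow_left₀ e0 Z2 2
  rw [div_le_iff₀ b0] at n2
  rw [div_le_iff₀ (by positivity)] at n3
  rw [← inv_it hR hJ y (lin a) k]
  refine (opt (B := lam * n / 4) (kl_nn J y hv) t0 (by linarith) fun θ θ0 θ1 => ?_).trans_eq
    (by ring)
  have z1 : C * θ * Z ≤ 1 := by
    rw [← one_div, le_div_iff₀ (by positivity)] at θ1
    linarith
  have Cθ : 0 ≤ C * θ := by positivity
  refine (hTr n _ v _ X' _ ek _ _ θ J y hJ.symm hJ.diag hJ.op rfl hA hv b1 θ0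
    ((mul_le_mul_of_nonneg_left Z2 Cθ).trans z1) ?_).trans (add_le_add le_rfl ?_)
  · rw [← mul_assoc (c ^ k), ← mul_assoc]
    exact mul_le_of_le_one_left (sqrt_nonneg _) ((mul_le_mul_of_nonneg_left Z3 Cθ).trans z1)
  · calc _ ≤ C * θ * (5 * b * n) := mul_le_mul_of_nonneg_left (by linarith) Cθ
      _ = θ * (C * (5 * b) * n) := by ring
      _ = _ := by rw [hb]; ring

end Crest.Agent.T157.Md

end
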