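import Crest.Agent.T157.KMdDef_93
import Crest.Agent.T157.KPh_58

/-!
# Row 157, block S5: regularity of the response fields; from the targets to the modes (helper58)
-/

set_option autoImplicit false
set_option linter.unusedSectionVars false

noncomputable section

namespace Crest.Agent.T157.Md

open Real Matrix Finset
open Crest.Agent.T157.E Crest.Agent.T157.Eig Crest.Agent.T157.K Crest.Agent.T157.K.Ph58
open Crest.Agent.T157.Tap (V Mx)
open Crest.Agent.T157.Reg (jac)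
open Crest.Agent.T157.S3.Hb (Vp)

namespace Rl58

variable {n : ℕ} {κ : Type} [Fintype κ] [DecidableEq κ] {e e' : ℝ} {u u' : Cube n → (κ → ℝ) → V n}

theorem RF.nn (h : RF e u) : 0 ≤ e := (opn_nonneg _).trans ((h.r0 0).op default)

theorem RF.mono (h : RF e u) (he : e ≤ e') : RF e' u :=
  ⟨fun ζ => r0_mono (h.r0 ζ) he, fun s ζ ζ' =>
    (h.lip s ζ ζ').trans (mul_le_mul_of_nonneg_right he (nrm_nonneg _))⟩

theorem RF.add (h : RF e u) (h' : RF e' u') : RF (e + e') (u + u') :=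
  ⟨fun ζ => r0_add (h.r0 ζ) (h'.r0 ζ), fun s ζ ζ' => by
    simp only [Pi.add_apply]
    rw [add_sub_add_comm, add_mul]
    exact (nrm_add_le _ _).trans (add_le_add (h.lip s ζ ζ') (h'.lip s ζ ζ'))⟩

theorem RF.smul (h : RF e u) (a : ℝ) : RF (|a| * e) (a • u) :=
  ⟨fun ζ => ⟨fun s i => by
      simp only [Pi.smul_apply, smul_eq_mul, abs_mul]
      exact mul_le_mul_of_nonneg_left ((h.r0 ζ).sup s i) (abs_nonneg a), fun s => by
      simp only [Pi.smul_apply]
      rw [jac_smul, opn_smul]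
      exact mul_le_mul_of_nonneg_left ((h.r0 ζ).op s) (abs_nonneg a)⟩, fun s ζ ζ' => by
    simp only [Pi.smul_apply]
    rw [← smul_sub, nrm_smul, mul_assoc]
    exact mul_le_mul_of_nonneg_left (h.lip s ζ ζ') (abs_nonneg a)⟩

theorem RF.zero : RF 0 (0 : Cube n → (κ → ℝ) → V n) :=
  ⟨fun _ => ⟨fun _ _ => by simp, fun s => by
    rw [show jac (fun s => (0 : Cube n → (κ → ℝ) → V n) s _) s = 0 by ext; simp [jac], opn_zero]⟩,
    fun _ _ _ => by simp⟩

theorem RF.sum {ι : Type*} (S : Finset ι) {c : ι → ℝ} {U : ι → Cube n → (κ → ℝ) → V n}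
    (h : ∀ l ∈ S, RF (c l) (U l)) : RF (∑ l ∈ S, c l) (∑ l ∈ S, U l) := by
  classical
  induction S using Finset.induction_on with
  | empty => simpa using RF.zero
  | insert a S ha ih =>
    rw [sum_insert ha, sum_insert ha]
    exact RF.add (h a (mem_insert_self _ _)) (ih fun l hl => h l (mem_insert_of_mem hl))

theorem oddJ_sum {ι : Type*} (S : Finset ι) {U : ι → Cube n → (κ → ℝ) → V n}
    (h : ∀ l ∈ S, OddJ (U l)) : OddJ (∑ l ∈ S, U l) := fun s ζ => by
  simp only [Finset.sum_apply, ← sum_neg_distrib]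
  exact sum_congr rfl fun l hl => h l hl s ζ

theorem RF.nrm_le (h : RF e u) (s : Cube n) (ζ : κ → ℝ) : nrm (u s ζ) ≤ e * √n := by
  rw [nrm_le_iff (mul_nonneg (RF.nn h) (sqrt_nonneg _)), mul_pow, sq_sqrt (Nat.cast_nonneg n)]
  refine (sum_le_card_nsmul _ _ (e ^ 2) fun i _ => ?_).trans_eq (by simp [mul_comm])
  rw [← sq, ← sq_abs]
  exact pow_le_pow_left₀ (abs_nonneg _) ((h.r0 ζ).sup s i) 2

/-- soft threshold -/
def st (η t : ℝ) : ℝ := max (t - η) 0 - max (-t - η) 0

theorem st_sq {η : ℝ} (hη : 0 ≤ η) (t : ℝ) : st η t ^ 2 = max (|t| - η) 0 ^ 2 := by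
  unfold st
  rcases le_total 0 t with h | h
  · rw [abs_of_nonneg h, max_eq_right (a := -t - η) (by linarith), sub_zero]
  · rw [abs_of_nonpos h, max_eq_right (a := t - η) (by linarith), zero_sub, neg_sq]

theorem st_cvx {η : ℝ} (hη : 0 ≤ η) (a b : ℝ) :
    max (|a| - η) 0 ^ 2 - max (|b| - η) 0 ^ 2 ≤ 2 * (st η a * (a - b)) := by
  have h1 := le_max_left (|b| - η) 0
  have h2 := le_abs_self b
  have h3 := neg_abs_le b
  unfold st
  rcases le_total 0 a with h | h
  · rw [abs_of_nonneg h, max_eq_right (a := -a - η) (by linarith), sub_zero]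
    rcases le_total (a - η) 0 with k | k
    · rw [max_eq_right k]; nlinarith [sq_nonneg (max (|b| - η) 0)]
    · rw [max_eq_left k]; nlinarith [sq_nonneg (max (|b| - η) 0 - (a - η))]
  · rw [abs_of_nonpos h, max_eq_right (a := a - η) (by linarith), zero_sub]
    rcases le_total (-a - η) 0 with k | k
    · rw [max_eq_right k]; nlinarith [sq_nonneg (max (|b| - η) 0)]
    · rw [max_eq_left k]; nlinarith [sq_nonneg (max (|b| - η) 0 - (-a - η))]

theorem sum_sq (v : V n) : ∑ j, v j ^ 2 = nrm v ^ 2 := by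
  rw [nrm_sq]; simp only [dotProduct, sq]

theorem exc_nonneg (η : ℝ) (v : V n) : 0 ≤ exc η v := sum_nonneg fun _ _ => sq_nonneg _

theorem sqrt_exc (η : ℝ) (v : V n) : √(exc η v) = nrm fun i => max (|v i| - η) 0 := by
  rw [exc, sum_sq, sqrt_sq (nrm_nonneg _)]

theorem nrm_mono {v w : V n} (h : ∀ i, |v i| ≤ |w i|) : nrm v ≤ nrm w :=
  le_of_sq_le_sq (by
    rw [← sum_sq, ← sum_sq]; exact sum_le_sum fun i _ => sq_le_sq.2 (h i)) (nrm_nonneg _)

theorem sqrt_exc_lip (η : ℝ) (v w : V n) : |√(exc η v) - √(exc η w)| ≤ nrm (v - w) := by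
  rw [sqrt_exc, sqrt_exc, ← en_eq, ← en_eq]
  refine (Conc.abs_en_sub_le _ _).trans ?_
  rw [en_eq]
  refine nrm_mono fun i => (abs_max_sub_max_le_abs _ _ _).trans ?_
  rw [sub_sub_sub_cancel_right]
  exact abs_abs_sub_abs_le_abs_sub _ _

theorem exc_le {η : ℝ} (hη : 0 ≤ η) (v : V n) : exc η v ≤ nrm v ^ 2 := by
  rw [← sum_sq]
  refine sum_le_sum fun i _ => ?_
  rw [← sq_abs (v i)]
  exact pow_le_pow_left₀ (le_max_right _ _) (max_le (by linarith) (abs_nonneg _)) 2

theorem sb_exc {A : Mx n} {a η : ℝ} {ω : Cube n → V n} (hA : opn A ≤ a)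
    (h : ∀ s, opn (jac ω s) ≤ e) (hη : 0 ≤ η) : SB ((2 * a * e) ^ 2) fun s => exc η (A *ᵥ ω s) :=
  fun s => ⟨exc_nonneg _ _, by
    set p : V n := fun i => st η ((A *ᵥ ω s) i) with hp
    have p2 : nrm p ^ 2 = exc η (A *ᵥ ω s) := by
      rw [← sum_sq]; exact sum_congr rfl fun i _ => st_sq hη _
    have k : ∀ j, exc η (A *ᵥ ω s) - exc η (A *ᵥ ω (Rec.fl s j)) ≤
        -2 * ((A * jac ω s)ᵀ *ᵥ p) j := fun j => by
      rw [exc, exc, ← sum_sub_distrib]
      refine (sum_le_sum fun i _ => st_cvx hη _ _).trans_eq ?_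
      simp only [mulVec, dotProduct, transpose_apply, mul_apply, jac, of_apply, mul_sum, hp,
        ← sum_sub_distrib, sum_mul]
      exact sum_congr rfl fun i _ => sum_congr rfl fun l _ => by ring
    have o : opn (A * jac ω s)ᵀ ≤ a * e := by
      rw [opn_transpose]
      exact (opn_mul_le _ _).trans (mul_le_mul hA (h s) (opn_nonneg _) ((opn_nonneg _).trans hA))
    have b := pow_le_pow_left₀ (nrm_nonneg _) ((nrm_mulVec_le (A * jac ω s)ᵀ p).trans
      (mul_le_mul_of_nonneg_right o (nrm_nonneg p))) 2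
    rw [mul_pow, p2, ← sum_sq] at b
    calc Vp (fun s => exc η (A *ᵥ ω s)) s ≤ ∑ j, 4 * ((A * jac ω s)ᵀ *ᵥ p) j ^ 2 :=
          sum_le_sum fun j _ => by
            refine (pow_le_pow_left₀ (le_max_right _ _) (max_le ((k j).trans (le_abs_self _))
              (abs_nonneg _)) 2).trans_eq ?_
            rw [sq_abs]; ring
      _ ≤ _ := by rw [← mul_sum]; linarith⟩

theorem re_excA {A : Mx n} {a η : ℝ} (hA : opn A ≤ a) (h : RF e u) (hη : 0 ≤ η) :
    RE (2 * a * e) fun s ζ => exc η (A *ᵥ u s ζ) := by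
  have a0 := (opn_nonneg _).trans hA
  have e0 := RF.nn h
  refine ⟨fun ζ => sb_exc hA (h.r0 ζ).op hη, fun s x y => (sqrt_exc_lip η _ _).trans ?_,
    (a * (e * √n)) ^ 2, fun s ζ => (exc_le hη _).trans (pow_le_pow_left₀ (nrm_nonneg _)
      ((nrm_mulVec_le _ _).trans (mul_le_mul hA (RF.nrm_le h s ζ) (nrm_nonneg _) a0)) 2)⟩
  rw [← mulVec_sub, en_eq]
  refine ((nrm_mulVec_le _ _).trans (mul_le_mul hA (h.lip s x y) (nrm_nonneg _) a0)).trans ?_
  nlinarith [mul_nonneg (mul_nonneg a0 e0) (nrm_nonneg (x - y))]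

theorem re_exc {J : Mx n} {η : ℝ} (hJ : opn J ≤ 3) (h : RF e u) (hη : 0 ≤ η) :
    RE (6 * e) fun s ζ => exc η (J *ᵥ u s ζ) := by
  have := re_excA hJ h hη
  rwa [show 2 * 3 * e = 6 * e by ring] at this

theorem exc_zero (v : V n) : exc 0 v = nrm v ^ 2 := by
  rw [← sum_sq]; exact sum_congr rfl fun i _ => by rw [sub_zero, max_eq_left (abs_nonneg _), sq_abs]

theorem re_sq (h : RF e u) : RE (2 * e) fun s ζ => nrm (u s ζ) ^ 2 := by
  simpa only [mul_one, one_mulVec, exc_zero] using re_excA opn_one_le h le_rfl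

end Rl58

open Rl58 in
theorem regGlue : RegGlue := by
  rintro ⟨c0, hP⟩ ⟨C1, C11, hD⟩ ⟨C2, C21, hG⟩
  refine ⟨max c0 (max C1 C2), fun c hc n J Q Λ M k E hJ hΛ hM hE => ?_⟩
  have h0 : c0 ≤ c := (le_max_left _ _).trans hc
  have h1 : C1 ≤ c := ((le_max_left _ _).trans (le_max_right _ _)).trans hc
  have h2 : C2 ≤ c := ((le_max_right _ _).trans (le_max_right _ _)).trans hc
  have c0' : 0 ≤ c := by linarith
  obtain ⟨d1, d2, -⟩ := hD n J Q E M hJ hM hE
  have d1' := RF.mono d1 (mul_le_mul_of_nonneg_right h1 hM)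
  have p := fun l => hP c h0 n J Q Λ (c * M) _ l hJ hΛ (by positivity) d1'
  have r : RF ((k + 1) * (exp (c * (k + 1) * Λ) * (c * M))) (Om Q c Λ M k E) := by
    refine RF.mono (RF.sum (range k) fun l _ => (p l).1) ((sum_le_card_nsmul _ _
      (exp (c * (k + 1) * Λ) * (c * M)) fun l hl => ?_).trans ?_)
    · have : (l : ℝ) ≤ k + 1 := by exact_mod_cast (mem_range.1 hl).le.trans (Nat.le_succ k)
      gcongr
    · rw [card_range, nsmul_eq_mul]; gcongr; linarith
  obtain ⟨g1, g2, -⟩ := hG n J Q _ _ hJ r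
  have g1' : RF (eR c Λ M k) (gR Q c Λ M k E) :=
    RF.mono g1 (mul_le_mul_of_nonneg_right h2 (by positivity))
  exact ⟨g1', g2 (oddJ_sum _ fun l _ => (p l).2.1 d2), fun η hη => re_exc hJ.op g1' hη⟩

theorem linStmt : LinStmt := by
  intro n ι _ J a0 q Δ k v f T C1 R Z hn hJ hop hq hon hv hT hZ H
  have sn : 0 < √(n : ℝ) := sqrt_pos.2 (Nat.cast_pos.2 hn)
  set x : ℕ → ℝ := fun a => v a ⬝ᵥ (q * (a0 * Δ - J *ᵥ Δ)) with hx
  change ∑ a ∈ range k, x a ^ 2 ≤ Z
  have X0 : 0 ≤ ∑ a ∈ range k, x a ^ 2 := sum_nonneg fun _ _ => sq_nonneg _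
  rcases X0.eq_or_lt with h0 | h0
  · rwa [← h0]
  set s := √(∑ a ∈ range k, x a ^ 2) with hs
  have s0 : 0 < s := sqrt_pos.2 h0
  have s2 : s ^ 2 = ∑ a ∈ range k, x a ^ 2 := sq_sqrt X0
  have y1 : ∑ a ∈ range k, (x a / s) ^ 2 = 1 := by
    simp only [div_pow]; rw [← sum_div, ← s2, div_self (by positivity)]
  set w : V n := ∑ a ∈ range k, (x a / s) • v a with hw
  have w1 : nrm w = 1 := by
    have : w ⬝ᵥ w = 1 := by
      rw [← y1, hw, sum_dotProduct]
      refine sum_congr rfl fun a ha => ?_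
      rw [dotProduct_sum, sum_eq_single a (fun b hb hab => by
        rw [smul_dotProduct, dotProduct_smul, hon a (mem_range.1 ha) b (mem_range.1 hb),
          if_neg hab.symm]; simp) fun h => absurd ha h, smul_dotProduct, dotProduct_smul,
        hon a (mem_range.1 ha) a (mem_range.1 ha), if_pos rfl]
      simp [sq]
    rw [nrm, this, sqrt_one]
  have f1 : ∑ b, (∑ a ∈ range k, x a / s * T a b) • f b = √(n : ℝ) • w := by
    rw [hw, smul_sum]
    simp only [sum_smul]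
    rw [sum_comm]
    refine sum_congr rfl fun a ha => ?_
    rw [hv a (mem_range.1 ha), smul_comm, smul_smul (√(n : ℝ)), mul_inv_cancel₀ sn.ne', one_smul,
      smul_sum]
    simp only [smul_smul]
  have f2 : ∑ b, (∑ a ∈ range k, x a / s * T a b) • (a0 * (q * f b) - J *ᵥ (q * f b)) =
      √(n : ℝ) • (a0 * (q * w) - J *ᵥ (q * w)) := by
    rw [smul_sub, ← mul_smul_comm, ← mulVec_smul, ← mul_smul_comm, ← f1]
    simp only [smul_sub, sum_sub_distrib, mul_sum, mulVec_sum, mul_smul_comm, mulVec_smul]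
  have n1 : nrm (a0 * (q * w)) ≤ 2 * C1 := by
    have := nrm_mulVec_le (diagonal (q * a0)) w
    rw [w1, mul_one, show diagonal (q * a0) *ᵥ w = a0 * (q * w) from funext fun i => by
      rw [mulVec_diagonal]; simp only [Pi.mul_apply]; ring] at this
    exact this.trans (opn_diagonal_le ((abs_nonneg _).trans (hq ⟨0, hn⟩).1) fun i => (hq i).1)
  have n2 : nrm (q * w) ≤ 2 := by
    have := nrm_mulVec_le (diagonal q) w
    rw [w1, mul_one, show diagonal q *ᵥ w = q * w from funext fun i => mulVec_diagonal _ _ _] at this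
    exact this.trans (opn_diagonal_le zero_le_two fun i => (hq i).2)
  have n3 := (nrm_mulVec_le J (q * w)).trans (mul_le_mul hop n2 (nrm_nonneg _) (by norm_num))
  have a := H (fun b => ∑ a ∈ range k, x a / s * T a b) (by simpa only [y1, mul_one] using hT (x · / s))
    (by
      rw [f2, nrm_smul, abs_of_pos sn, mul_comm]
      exact mul_le_mul_of_nonneg_right ((nrm_sub_le _ _).trans (by linarith)) sn.le)
  have d : (a0 * (q * w) - J *ᵥ (q * w)) ⬝ᵥ Δ = s := by
    have d1 : (a0 * (q * w) - J *ᵥ (q * w)) ⬝ᵥ Δ = w ⬝ᵥ (q * (a0 * Δ - J *ᵥ Δ)) := by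
      rw [sub_dotProduct, dotProduct_comm (J *ᵥ _), dotProduct_mulVec, ← mulVec_transpose, hJ]
      simp only [dotProduct, Pi.mul_apply, Pi.sub_apply, ← sum_sub_distrib]
      exact sum_congr rfl fun i _ => by ring
    rw [d1, hw, sum_dotProduct]
    simp only [smul_dotProduct, smul_eq_mul]
    change ∑ a ∈ range k, x a / s * x a = s
    simp only [div_mul_eq_mul_div, ← sq]
    rw [← sum_div, ← s2, sq, mul_div_cancel_right₀ _ s0.ne']
  rw [f2, smul_dotProduct, d, smul_eq_mul, mul_pow, sq_sqrt (Nat.cast_nonneg n),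
    mul_div_cancel_left₀ _ (Nat.cast_pos.2 hn).ne', s2] at a
  exact a

end Crest.Agent.T157.Md

end
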