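import Crest.Agent.T157.KMdB_93
import Crest.Agent.T157.KRl_58
import Crest.Agent.T157.KPg_11

/-!
# Row 157, block S5 (helper11): the certificate of the program at the running field
-/

set_option autoImplicit false

noncomputable section

namespace Crest.Agent.T157.Md

open Real Matrix Finset Filter
open Crest.Agent.T157.E Crest.Agent.T157.Eig Crest.Agent.T157.K
open Crest.Agent.T157.Tap (V Mx)
open Crest.Agent.T157.Rec (grad)
open Crest.Agent.T157.S3.Hb (Vp)

namespace Cb11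

variable {n : ℕ}

theorem nrm_sum (k : ℕ) (u : ℕ → V n) : nrm (∑ l ∈ range k, u l) ≤ ∑ l ∈ range k, nrm (u l) :=
  le_sum_of_subadditive nrm nrm_zero.le nrm_add_le _ u

theorem sq_sum (k : ℕ) (a : ℕ → ℝ) : (∑ l ∈ range k, a l) ^ 2 ≤ k * ∑ l ∈ range k, a l ^ 2 := by
  simpa using sq_sum_le_card_mul_sum_sq (s := range k) (f := a)

theorem vp_sum (k : ℕ) (X : ℕ → Cube n → ℝ) (s : Cube n) :
    Vp (fun s => ∑ l ∈ range k, X l s) s ≤ k * ∑ l ∈ range k, Vp (X l) s := by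
  simp only [Vp]
  rw [sum_comm, mul_sum]
  refine sum_le_sum fun j _ => le_trans (S3.Hb.max_sq_le ?_) (sq_sum k _)
  rw [← sum_sub_distrib]
  exact sum_le_sum fun l _ => le_max_left _ _

/-- certificates of finite sums -/
theorem bs0_sum {k : ℕ} {F X : ℕ → Cube n → ℝ} {ω : ℕ → Cube n → V n} {e e' L : ℝ}
    (h : ∀ l < k, BS0 (F l) (ω l) (X l) e L) (hr : R0 e' fun s => ∑ l ∈ range k, ω l s)
    (h0 : 0 ≤ e) (he : k * e ≤ e') : BS0 (∑ l ∈ range k, F l) (fun s => ∑ l ∈ range k, ω l s)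
      (fun s => k * ∑ l ∈ range k, X l s) e' (k * L) := by
  have g : ∀ s, grad (∑ l ∈ range k, F l) s = ∑ l ∈ range k, grad (F l) s := fun s => by
    ext i
    simp only [grad, SL.incr, Finset.sum_apply, ← sum_sub_distrib, sum_div]
  have k0 : (0 : ℝ) ≤ k := k.cast_nonneg
  refine ⟨fun s => ?_, fun s => ?_, hr, Pg11.sb_mono (e := k * e) (fun s => ⟨mul_nonneg k0
    (sum_nonneg fun l hl => ((h l (mem_range.1 hl)).sb s).1), ?_⟩) (mul_nonneg k0 h0) he⟩
  · rw [g]
    exact (nrm_sum _ _).trans ((sum_le_card_nsmul _ _ L fun l hl =>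
      (h l (mem_range.1 hl)).gr s).trans_eq (by simp))
  · rw [g, ← sum_sub_distrib]
    exact (pow_le_pow_left₀ (nrm_nonneg _) (nrm_sum _ _) 2).trans ((sq_sum _ _).trans
      (mul_le_mul_of_nonneg_left (sum_le_sum fun l hl => (h l (mem_range.1 hl)).app s) k0))
  · rw [S3.Hb.Vp_const_mul k0]
    refine (mul_le_mul_of_nonneg_left ((vp_sum k X s).trans (mul_le_mul_of_nonneg_left
      (sum_le_sum fun l hl => ((h l (mem_range.1 hl)).sb s).2) k0)) (sq_nonneg _)).trans_eq ?_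
    rw [← mul_sum]; ring

end Cb11

open Cb11 in
theorem certBGlue : CertBGlue := fun _ ⟨c1, hP⟩ ⟨Cd, d1, hD⟩ hT ⟨c2, hG⟩ K => by
  obtain ⟨C, hC, hn⟩ := near hT K
  refine ⟨max (max c1 c2) Cd, fun c hc A0 lam hl => ⟨0, fun k _ => ?_⟩⟩
  have cd : Cd ≤ c := (le_max_right _ _).trans hc
  have c0 : 1 ≤ c := d1.le.trans cd
  have k0 : (0 : ℝ) ≤ k := k.cast_nonneg
  have ck : 1 ≤ c ^ k := one_le_pow₀ c0
  obtain ⟨b, b0, hb⟩ : ∃ b > (0 : ℝ), (k + 1) * ((k + 1) * (c ^ k * ((k + 2) * b))) = lam :=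
    ⟨lam / ((k + 1) * ((k + 1) * (c ^ k * (k + 2)))), by positivity, by field_simp⟩
  refine ⟨b / 8, by positivity, max 1 (c * A0 ^ 2 / b), fun Λ hΛ M e η hM hη => ?_⟩
  have Λ1 : 1 ≤ Λ := (le_max_left _ _).trans hΛ
  set x := exp (c * (k + 1) * Λ) * (c * M) with hx
  have cM : 0 ≤ c * M := by positivity
  have xl : ∀ l : ℝ, 0 ≤ l → l ≤ k + 1 → c * M ≤ exp (c * l * Λ) * (c * M) ∧
      exp (c * l * Λ) * (c * M) ≤ x := fun l l0 hl =>
    ⟨le_mul_of_one_le_left cM (one_le_exp (by positivity)), by rw [hx]; gcongr⟩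
  have x0 : 0 ≤ x := by positivity
  set Z := 6 * eR c Λ M k with hZ
  have xZ : x ≤ Z := by
    rw [hZ, eR, ← hx]
    nlinarith [mul_le_mul_of_nonneg_right c0 (mul_nonneg k0 x0), mul_le_mul_of_nonneg_right c0 x0,
      mul_nonneg k0 x0]
  have Z0 : 0 < C * Z ^ 2 + 1 := by positivity
  refine ⟨b / 4 / (C * Z ^ 2 + 1), by positivity, ?_⟩
  filter_upwards [tendsto_natCast_atTop_atTop.eventually_ge_atTop (4 * (C * Z ^ 2) / b)]
    with n hN J Q y0 y E a δ T hJ hδ t hA _ hy hT'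
  have n0 : (0 : ℝ) ≤ n := n.cast_nonneg
  have nr : ∀ (X : F2 n) (z : ℝ), 0 ≤ z → z ≤ Z → RE z X →
      (mean (ising J y0) fun s => X s y0) ≤ δ * n → (mean (ising J y) fun s => X s y) ≤ b * n :=
    fun X z z0 hz hX h0 => by
      have h1 := hn n J y0 y X Z _ T hA (Pg11.re_mono hX z0 hz) hy
      have h2 := mul_le_mul_of_nonneg_left hT' Z0.le
      rw [← mul_assoc, mul_div_cancel₀ _ Z0.ne'] at h2
      rw [div_le_iff₀ b0] at hN
      nlinarith [mul_le_mul_of_nonneg_right hδ n0, (sq_nonneg _).trans hy]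
  obtain ⟨D1, -, -, -, -, D6, D7, D8⟩ := hD n J Q E M hJ hM t.blo
  have dM : Cd * M ≤ c * M := mul_le_mul_of_nonneg_right cd hM
  have d0 : 0 ≤ Cd * M := by positivity
  have P := fun l => hP c (((le_max_left _ _).trans (le_max_left _ _)).trans hc) n J Q Λ (c * M) _ l
    hJ Λ1 cM (Pg11.rf_mono D1 dM)
  have w := wt_is J y
  have B0 : BS0 (lin a) (fun s => dirS Q E s y) (fun s => nrm (a - dirS Q E s y) ^ 2) (c * M)
      (|A0| * √n) := by
    have g : ∀ s, grad (lin a) s = a := Rec.grad_lin a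
    exact ⟨fun s => (g s).symm ▸ t.na.trans (mul_le_mul_of_nonneg_right (le_abs_self _)
      (sqrt_nonneg _)), fun s => by rw [g], Pg11.r0_mono (D1.r0 y) dM,
      Pg11.sb_mono ((D6 a).sb y) d0 dM⟩
  choose X hX mX using fun l => (P l).2.2.2 y _ _ _ B0
  have rf : RF (eO c Λ M k) (Om Q c Λ M k E) := by
    refine Pg11.rf_mono (Rl58.RF.sum (c := fun _ => x) _ fun l hl => Pg11.rf_mono (P l).1
      (xl l l.cast_nonneg ?_).2) ?_
    · linarith [(Nat.cast_le (α := ℝ)).2 (mem_range.1 hl).le]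
    · simp only [sum_const, card_range, nsmul_eq_mul, eO, ← hx]; linarith
  have bl : b ≤ lam := by
    rw [← hb]
    have h1 : b ≤ (k + 2) * b := le_mul_of_one_le_left b0.le (by linarith)
    have h2 := h1.trans (le_mul_of_one_le_left (b0.le.trans h1) ck)
    have h3 := h2.trans (le_mul_of_one_le_left (b0.le.trans h2) (show 1 ≤ (k : ℝ) + 1 by linarith))
    exact h3.trans (le_mul_of_one_le_left (b0.le.trans h3) (by linarith))
  refine ⟨⟨_, _, by
    have := bs0_sum (e := x) (L := c ^ k * (|A0| * √n)) (fun l hl => Pg11.bs0_mono (hX l)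
      (by positivity) (xl l l.cast_nonneg (by linarith [(Nat.cast_le (α := ℝ)).2 hl.le])).2
      (mul_le_mul_of_nonneg_right (pow_le_pow_right₀ c0 hl.le) (by positivity)))
      (by simpa only [Om, Finset.sum_apply] using rf.r0 y) x0
      (show k * x ≤ eO c Λ M k by rw [eO, ← hx]; linarith)
    simpa only [Om, Finset.sum_apply, Ks] using this, ?_⟩, rf,
    (nr _ _ (x0.trans xZ) le_rfl ((hG c (((le_max_right _ _).trans (le_max_left _ _)).trans hc) n J Q
      Λ M k E hJ Λ1 hM t.blo).2.2 η hη) t.jx).trans (mul_le_mul_of_nonneg_right bl n0)⟩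
  have m0 : (mean (ising J y) fun s => nrm (a - dirS Q E s y) ^ 2) ≤ b * n :=
    (w.mean_mono fun s => (D8 a y).1 s).trans
      (nr _ _ d0 ((dM.trans ((xl 0 le_rfl (by linarith)).1.trans (xl 0 le_rfl (by linarith)).2)).trans
        xZ) (D7 a) t.dv)
  have m1 : exp (-(Λ ^ 2 / c)) * (|A0| * √n) ^ 2 ≤ b * n := by
    rw [mul_pow, sq_abs, sq_sqrt n0, ← mul_assoc]
    refine mul_le_mul_of_nonneg_right ?_ n0
    have h1 := (div_le_iff₀ b0).1 ((le_max_right _ _).trans hΛ)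
    have h2 : A0 ^ 2 ≤ Λ ^ 2 / c * b := by
      rw [div_mul_eq_mul_div, le_div_iff₀ (by linarith)]
      nlinarith [mul_le_mul_of_nonneg_left Λ1 (mul_nonneg (zero_le_one.trans Λ1) b0.le)]
    rw [exp_neg, inv_mul_le_iff₀ (exp_pos _)]
    nlinarith [add_one_le_exp (Λ ^ 2 / c)]
  have m2 : ∀ l ∈ range k, mean (ising J y) (X l) ≤ c ^ k * ((k + 2) * b) * n := fun l hl => by
    have lk := (mem_range.1 hl).le
    have h1 := sum_le_card_nsmul (range l) _ (b * n) fun j hj => nr _ _ (by positivity)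
      ((xl (j + 1) (by positivity) (by
        linarith [(Nat.cast_le (α := ℝ)).2 ((mem_range.1 hj).le.trans lk)])).2.trans xZ)
      (P j).2.2.1 (t.xs j ((mem_range.1 hj).trans_le lk))
    rw [card_range, nsmul_eq_mul] at h1
    have h2 := mul_le_mul_of_nonneg_right ((Nat.cast_le (α := ℝ)).2 lk) (mul_nonneg b0.le n0)
    calc _ ≤ c ^ l * ((k + 2) * b * n) :=
          (mX l).trans (mul_le_mul_of_nonneg_left (by linarith) (by positivity))
      _ ≤ c ^ k * ((k + 2) * b * n) :=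
          mul_le_mul_of_nonneg_right (pow_le_pow_right₀ c0 lk) (by positivity)
      _ = _ := by ring
  rw [SL.mean_const_mul, SL.mean_sum, ← hb]
  refine (mul_le_mul_of_nonneg_left (sum_le_card_nsmul _ _ _ m2) k0).trans ?_
  rw [card_range, nsmul_eq_mul, mul_assoc ((k : ℝ) + 1), mul_assoc ((k : ℝ) + 1)]
  gcongr <;> linarith

end Crest.Agent.T157.Md

end
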