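import Crest.Agent.T157.S1Def_97
import Crest.Agent.T157.ChainMix_22

/-!
# Row 157, part B, block S1: conditional means of pinned states (helper33)
-/

set_option autoImplicit false

noncomputable section

namespace Crest.Agent.T157.S1.Pin33

open Real Matrix Finset Function
open Crest.ProbabilityR.SpinGlassDynamics (spin)
open Crest.Agent.T157.E Crest.Agent.T157.SL
open Crest.Agent.T157.Ta (cm wt)
open Crest.Agent.T157.Ue (Fr)
open Crest.Agent.T157.Hd (hl)
open Crest.Agent.T157.Rec (grad)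
open Crest.Agent.T157.Eig (nrm opn)
open Crest.Agent.T157.S3 (V Mx hf)

variable {n : ℕ} {D : Dat n} {s : St n} {x : Cube n} {i : Fin n}

lemma ell_nonneg (x : Cube n) : 0 ≤ ell D s x := by
  unfold ell; split_ifs; exacts [(exp_pos _).le, le_rfl]

lemma loc_nonneg (x : Cube n) : 0 ≤ loc D s x := mul_nonneg (exp_pos _).le (ell_nonneg x)

lemma pins (hx : loc D s x ≠ 0) : ∀ k ∈ s.S, x k = s.sS k := by
  by_contra h
  exact hx (by rw [loc, ell, if_neg h, mul_zero])

lemma loc_of_nu (hx : nu D s x ≠ 0) : loc D s x ≠ 0 := left_ne_zero_of_mul hx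
lemma loc_of_pi (hx : pi D s x ≠ 0) : loc D s x ≠ 0 := left_ne_zero_of_mul hx

lemma loc_update (hx : loc D s x ≠ 0) (hi : i ∉ s.S) (b : Bool) :
    loc D s (update x i b) = ising D.J s.y (update x i b) * exp (-U D s (update x i b)) := by
  rw [loc, ell, if_pos fun k hk => by
    rw [update_of_ne (fun h : k = i => hi (h ▸ hk))]; exact pins hx k hk]

lemma fr_loc (hx : loc D s x ≠ 0) (hi : i ∉ s.S) : Fr (loc D s) i x := by
  constructor <;> (rw [loc_update hx hi]; exact mul_pos (exp_pos _) (exp_pos _))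

/-- at a pinned site the conditional mean of every `loc * g` is the spin -/
lemma cm_pin (hx : loc D s x ≠ 0) (hi : i ∈ s.S) {g : Cube n → ℝ} (hg : ∀ x, 0 < g x) :
    cm (fun x => loc D s x * g x) i x = sv x i := by
  have h0 : loc D s (update x i (!x i)) = 0 := by
    by_contra h
    have h1 := pins h i hi
    rw [update_self, ← pins hx i hi] at h1
    exact absurd h1 (by simp)
  have h1 : loc D s (update x i (x i)) * g (update x i (x i)) ≠ 0 := by
    rw [update_eq_self]; exact mul_ne_zero hx (hg x).ne'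
  simp only [Ta.cm, siteM, sv, update_self]
  cases h : x i <;> simp only [h, Bool.not_true, Bool.not_false] at h0 h1 <;>
    simp only [h0, zero_mul, zero_add, add_zero] <;> exact mul_div_cancel_left₀ _ h1

lemma cm_nu_pin (hD : D.Ok) (hx : loc D s x ≠ 0) (hi : i ∈ s.S) : cm (nu D s) i x = sv x i :=
  cm_pin hx hi hD.fpos

lemma cm_pi_pin (hx : loc D s x ≠ 0) (hi : i ∈ s.S) : cm (pi D s) i x = sv x i :=
  cm_pin hx hi fun _ => exp_pos _

lemma cm_loc_pin (hx : loc D s x ≠ 0) (hi : i ∈ s.S) : cm (loc D s) i x = sv x i := by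
  simpa only [mul_one] using cm_pin hx hi (g := fun _ => 1) fun _ => one_pos

lemma hl_loc (hD : D.Ok) (hx : loc D s x ≠ 0) (hi : i ∉ s.S) :
    hl (loc D s) i x = hf D.J s.y x i - grad (U D s) x i := by
  have p : 0 < ising D.J s.y x := exp_pos _
  rw [hl, loc_update hx hi, loc_update hx hi, Chain22.ising_update hD.symm hD.diag,
    Chain22.ising_update hD.symm hD.diag]
  simp only [mul_assoc, ← exp_add, log_mul p.ne' (exp_pos _).ne']
  simp only [log_exp, grad, incr, hf, Pi.add_apply, spin, if_true, Bool.false_eq_true, if_false]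
  ring

lemma cm_loc (hD : D.Ok) (hx : loc D s x ≠ 0) (hi : i ∉ s.S) :
    cm (loc D s) i x = tanh (hf D.J s.y x i - grad (U D s) x i) := by
  rw [(fr_loc hx hi).cm, hl_loc hD hx hi]

lemma cm_wt (hD : D.Ok) (hx : loc D s x ≠ 0) (hi : i ∉ s.S) (G : Cube n → ℝ) :
    cm (wt (loc D s) G) i x = tanh (hf D.J s.y x i - grad (U D s) x i + grad G x i) := by
  have h := (fr_loc hx hi).hl_mul fun x => exp_pos (G x)
  simp only [log_exp] at h
  rw [← hl_loc hD hx hi, ← h]
  exact ((fr_loc hx hi).mul fun x => exp_pos (G x)).cm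

lemma grad_tilt (x : Cube n) :
    grad (fun σ => del s ⬝ᵥ sv σ + s.Th σ) x = del s + grad s.Th x := by
  rw [Rec.grad_add, Rec.grad_lin]

lemma cm_pi (hD : D.Ok) (hx : loc D s x ≠ 0) (hi : i ∉ s.S) :
    cm (pi D s) i x = tanh (hf D.J s.y' x i - grad (U D s) x i + grad s.Th x i) := by
  rw [pi, cm_wt hD hx hi, grad_tilt]
  simp only [hf, del, Pi.add_apply, Pi.sub_apply]
  congr 1; ring

/-- the masked residual -/
def um (D : Dat n) (s : St n) (x : Cube n) : V n := fun k => if k ∈ s.S then uu D s x k else 0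

lemma um_dot (x : Cube n) : D.P / 2 * (um D s x ⬝ᵥ um D s x) = U D s x := by
  rw [U, dotProduct, ← sum_subset (subset_univ s.S) fun k _ hk => by simp [um, hk]]
  congr 1
  exact sum_congr rfl fun k hk => by simp [um, hk, sq]

lemma uu_update (x : Cube n) (j : Fin n) (b : Bool) (k : Fin n) :
    uu D s (update x j b) k = uu D s x k + (spin b - sv x j) * D.J k j := by
  simp only [uu, Chain22.sv_update, mulVec_add, mulVec_smul, Pi.add_apply, Pi.smul_apply,
    smul_eq_mul, mulVec_single_one, col_apply, sv]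
  ring

/-- the gradient of the burst energy -/
lemma grad_U (hD : D.Ok) (x : Cube n) (j : Fin n) : grad (U D s) x j =
    D.P * (D.J *ᵥ um D s x) j - D.P * sv x j * ∑ k ∈ s.S, D.J k j ^ 2 := by
  have e : (D.J *ᵥ um D s x) j = ∑ k ∈ s.S, D.J k j * uu D s x k := by
    rw [mulVec, dotProduct, ← sum_subset (subset_univ s.S) fun k _ hk => by simp [um, hk]]
    refine sum_congr rfl fun k hk => ?_
    rw [um, if_pos hk, ← transpose_apply D.J k j, hD.symm]
  rw [e, grad, incr, U, U, ← mul_sub, ← sum_sub_distrib, mul_sum, mul_sum, mul_sum, sum_div,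
    ← sum_sub_distrib]
  refine sum_congr rfl fun k _ => ?_
  simp only [uu_update, spin, if_true, Bool.false_eq_true, if_false]
  ring

lemma U_nonneg (hD : D.Ok) (x : Cube n) : 0 ≤ U D s x :=
  mul_nonneg (by linarith [hD.P1]) (sum_nonneg fun _ _ => sq_nonneg _)

lemma opn_sq (hD : D.Ok) : opn D.J ^ 2 ≤ 9 := by nlinarith [hD.op, Eig.opn_nonneg D.J]

lemma colS_le (hD : D.Ok) (j : Fin n) : ∑ k ∈ s.S, D.J k j ^ 2 ≤ 9 :=
  ((sum_le_sum_of_subset_of_nonneg (subset_univ _) fun _ _ _ => sq_nonneg _).trans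
    (S3F.col_sq_le D.J j)).trans (opn_sq hD)

lemma sum_colS_le (hD : D.Ok) : ∑ j, ∑ k ∈ s.S, D.J k j ^ 2 ≤ 9 * #s.S := by
  rw [sum_comm, mul_comm, ← nsmul_eq_mul, ← sum_const]
  exact sum_le_sum fun k _ => (S3F.row_sq_le D.J k).trans (opn_sq hD)

lemma sum_Jum_le (hD : D.Ok) (x : Cube n) :
    ∑ j, (D.P * (D.J *ᵥ um D s x) j) ^ 2 ≤ 18 * D.P * U D s x := by
  have h1 := Eig.mulVec_dot_le D.J (um D s x)
  have h2 := um_dot (D := D) (s := s) x
  have h3 := Eig.dot_self_nonneg (um D s x)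
  have h4 := mul_le_mul_of_nonneg_right (opn_sq hD) h3
  simp only [mul_pow, ← mul_sum]
  simp only [sq (_ : ℝ)]
  rw [← h2]
  have h5 := mul_le_mul_of_nonneg_left (h1.trans h4) (mul_self_nonneg D.P)
  rw [dotProduct] at h5
  linarith

lemma sum_grad_U_le (hD : D.Ok) (x : Cube n) :
    ∑ j, grad (U D s) x j ^ 2 ≤ 36 * D.P * U D s x + 162 * D.P ^ 2 * #s.S := by
  have h : ∀ j, grad (U D s) x j ^ 2 ≤ 2 * (D.P * (D.J *ᵥ um D s x) j) ^ 2 +
      18 * D.P ^ 2 * ∑ k ∈ s.S, D.J k j ^ 2 := fun j => by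
    rw [grad_U hD]
    have h1 := colS_le (s := s) hD j
    have h0 : 0 ≤ ∑ k ∈ s.S, D.J k j ^ 2 := sum_nonneg fun _ _ => sq_nonneg _
    set t := ∑ k ∈ s.S, D.J k j ^ 2
    have h2 : (D.P * sv x j * t) ^ 2 ≤ 9 * D.P ^ 2 * t := by
      rw [mul_pow, mul_pow, sq (sv x j), Rec.sv_mul_self, mul_one]
      nlinarith [mul_le_mul_of_nonneg_left (mul_le_mul_of_nonneg_right h1 h0) (sq_nonneg D.P)]
    nlinarith [sq_nonneg (D.P * (D.J *ᵥ um D s x) j + D.P * sv x j * t)]
  refine (sum_le_sum fun j _ => h j).trans ?_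
  rw [sum_add_distrib, ← mul_sum, ← mul_sum]
  have := mul_le_mul_of_nonneg_left (sum_colS_le (s := s) hD) (sq_nonneg D.P)
  linarith [sum_Jum_le (s := s) hD x]

/-- the pointwise shift seen from the base point `y0` -/
def sh (D : Dat n) (s : St n) (y0 : V n) (x : Cube n) (i : Fin n) : ℝ :=
  (s.y - y0) i ^ 2 + del s i ^ 2 + grad s.Th x i ^ 2 + grad (U D s) x i ^ 2

lemma c_loc (hD : D.Ok) (hx : loc D s x ≠ 0) (hi : i ∉ s.S) (y0 : V n) :
    (cm (loc D s) i x - tanh (hf D.J y0 x i)) ^ 2 ≤ 4 * sh D s y0 x i := by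
  rw [cm_loc hD hx hi]
  refine (sq_le_sq.2 ((Ue.abs_tanh_sub_le _ _).trans_eq (abs_abs _).symm)).trans ?_
  simp only [sh, hf, Pi.add_apply, Pi.sub_apply, sq_abs]
  nlinarith [sq_nonneg (s.y i - y0 i + grad (U D s) x i), sq_nonneg (del s i),
    sq_nonneg (grad s.Th x i), sq_nonneg (s.y i - y0 i), sq_nonneg (grad (U D s) x i)]

lemma c_pi (hD : D.Ok) (hx : loc D s x ≠ 0) (hi : i ∉ s.S) (y0 : V n) :
    (cm (pi D s) i x - tanh (hf D.J y0 x i)) ^ 2 ≤ 4 * sh D s y0 x i := by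
  rw [cm_pi hD hx hi]
  refine (sq_le_sq.2 ((Ue.abs_tanh_sub_le _ _).trans_eq (abs_abs _).symm)).trans ?_
  have e : hf D.J s.y' x i - grad (U D s) x i + grad s.Th x i - hf D.J y0 x i =
      (s.y - y0) i + del s i + grad s.Th x i - grad (U D s) x i := by
    simp only [hf, del, Pi.add_apply, Pi.sub_apply]; ring
  rw [sq_abs, e, sh]
  set a := (s.y - y0) i
  set b := del s i
  set c := grad s.Th x i
  set d := grad (U D s) x i
  nlinarith [sq_nonneg (a - b), sq_nonneg (a - c), sq_nonneg (a + d), sq_nonneg (b - c),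
    sq_nonneg (b + d), sq_nonneg (c + d)]

lemma sh_nonneg (y0 : V n) (x : Cube n) (i : Fin n) : 0 ≤ sh D s y0 x i := by unfold sh; positivity

lemma sum_sh_le (hD : D.Ok) {e A : ℝ} (hc : Cl e A s) (y0 : V n) (x : Cube n) :
    ∑ i, sh D s y0 x i ≤
      162 * D.P ^ 2 * (nrm (s.y - y0) ^ 2 + del s ⬝ᵥ del s + s.L ^ 2 + U D s x + #s.S) := by
  have h1 := sum_grad_U_le (s := s) hD x
  have h2 : ∑ i, grad s.Th x i ^ 2 ≤ s.L ^ 2 := by
    have := pow_le_pow_left₀ (Eig.nrm_nonneg _) (hc.gr x) 2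
    rw [Eig.nrm_sq] at this
    simpa only [sq (grad _ _ _), dotProduct] using this
  have h3 : ∑ i, (s.y - y0) i ^ 2 = nrm (s.y - y0) ^ 2 := by
    rw [Eig.nrm_sq]; simp only [sq, dotProduct]
  have h4 : ∑ i, del s i ^ 2 = del s ⬝ᵥ del s := by simp only [sq, dotProduct]
  simp only [sh, sum_add_distrib, h3, h4]
  have hP := hD.P1
  have hU := U_nonneg (s := s) hD x
  have h5 : 1 ≤ D.P ^ 2 := one_le_pow₀ hP
  have h6 : D.P ≤ D.P ^ 2 := by nlinarith
  have h7 := Eig.dot_self_nonneg (del s)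
  nlinarith [mul_le_mul_of_nonneg_right h5 (add_nonneg (add_nonneg (sq_nonneg (nrm (s.y - y0))) h7)
    (sq_nonneg s.L)), mul_le_mul_of_nonneg_right h6 hU, sq_nonneg (nrm (s.y - y0)), sq_nonneg s.L,
    mul_nonneg (sq_nonneg D.P) hU]

/-- the mean shift under `ν` is paid by the budget -/
lemma mean_sh_le (hD : D.Ok) {e A : ℝ} (hc : Cl e A s) (hv : Wt (nu D s)) (hH : 0 ≤ Hy D s)
    (y0 : V n) : (mean (nu D s) fun x => ∑ i, sh D s y0 x i) ≤ 162 * D.P ^ 2 * Bb D s y0 := by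
  refine (hv.mean_mono fun x => sum_sh_le hD hc y0 x).trans ?_
  simp only [mean_const_mul, mean_add, hv.mean_const, Bb, Bd]
  exact mul_le_mul_of_nonneg_left (by linarith) (by positivity)

end Crest.Agent.T157.S1.Pin33

end
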