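import Crest.Agent.T157.KMdB_93
import Crest.Agent.T157.KZ0_74
import Crest.Agent.T157.S1Pin_33

/-!
# Row 157, block S5 (helper89): the first-order identity for one target
-/

set_option autoImplicit false

noncomputable section

namespace Crest.Agent.T157.Md

open MeasureTheory Real Matrix Finset Filter
open Crest.Agent.T157.E Crest.Agent.T157.Eig Crest.Agent.T157.K
open Crest.Agent.T157.Tap (V Mx)
open Crest.Agent.T157.Rec (grad)
open Crest.Agent.T157.SL (Wt)
open Crest.Agent.T157.S1 (Dat St Cl Del del nu pi U)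

namespace F89

variable {n : ℕ}

/-- the exponent of `π` -/
def Gp (D : Dat n) (s : St n) (σ : Cube n) : ℝ := (del s ⬝ᵥ sv σ + s.Th σ) - U D s σ

theorem pi_eq (D : Dat n) (s : St n) : pi D s = slc D.J s.y s.S s.sS (Gp D s) := by
  funext σ
  simp only [S1.pi, Ta.wt, S1.loc, S1.ell, slc, Gp]
  split_ifs
  · rw [mul_assoc, ← exp_add]; congr 2; ring
  · simp

theorem grad_Gp (D : Dat n) (s : St n) (σ : Cube n) :
    grad (Gp D s) σ = del s + grad s.Th σ - grad (U D s) σ := by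
  rw [← S1.Pin33.grad_tilt]; exact Rec.grad_sub _ _ σ

theorem tel (hR : RevStmt) {J Q : Mx n} (h : JQ J Q) (y : V n) (k : ℕ) (G : Cube n → ℝ) :
    Ks Q y k G - Ky Q y (Ks Q y k G) = fun s => G s - (Ky Q y)^[k] G s := by
  induction k with
  | zero =>
    funext s
    have := congrFun (Kc.Kf_sub (φ := fun x => Q *ᵥ sv x) (t := 1) (wt_is J y) G G) s
    simp only [sub_self] at this
    simp only [Ks, range_zero, sum_empty, Function.iterate_zero, id, sub_self, Pi.sub_apply,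
      Pi.zero_apply, hR.kf n J Q y h]
    rw [zero_sub, neg_eq_zero]; exact this
  | succ k ih =>
    funext s
    have e : Ks Q y (k + 1) G = fun x => Ks Q y k G x + (Ky Q y)^[k] G x := by
      funext x; simp only [Ks, sum_range_succ, Pi.add_apply]
    have i := congrFun ih s
    have a := congrFun (Kc.Kf_add (φ := fun x => Q *ᵥ sv x) (t := 1) (wt_is J y) (Ks Q y k G)
      ((Ky Q y)^[k] G)) s
    rw [← hR.kf n J Q y h] at a
    rw [Function.iterate_succ_apply', Pi.sub_apply, e, a]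
    rw [Pi.sub_apply] at i
    linarith

theorem del_eq (D : Dat n) (s : St n) (a : V n) :
    a ⬝ᵥ Del D s = mean (nu D s) (lin a) - mean (pi D s) (lin a) := by
  have : ∀ v : Cube n → ℝ, mean v (lin a) = a ⬝ᵥ mag v := fun v => by
    unfold lin
    simp only [dotProduct, SL.mean_sum, SL.mean_const_mul]; rfl
  rw [this, this, ← dotProduct_sub]; rfl

theorem arith {A1 A2 A3 C e d x P β m : ℝ} {n0 : 0 ≤ m} (P1 : 1 ≤ P) (β1 : 1 ≤ β) (d0 : 0 ≤ d)
    (x0 : 0 ≤ x) (d1 : d ≤ 601 * P ^ 2 * β) (x1 : x ≤ m + e ^ 2 * β) (a1 : A1 ^ 2 ≤ m * β)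
    (a2 : A2 ^ 2 ≤ m * β) (a3 : |A3| ≤ C * (e * d + √d * √x)) :
    (A1 + A2 + A3) ^ 2 ≤ (6 + 6 * C ^ 2 * (601 ^ 2 + 601)) * P ^ 4 * β * (m + e ^ 2 * β) := by
  set Y := m + e ^ 2 * β with hY
  have Y0 : m ≤ Y := le_add_of_nonneg_right (by positivity)
  have Y1 : e ^ 2 * β ≤ Y := le_add_of_nonneg_left n0
  have p2 : 1 ≤ P ^ 2 := one_le_pow₀ P1
  have p4 : P ^ 2 ≤ P ^ 4 := pow_le_pow_right₀ P1 (by norm_num)
  set Z := P ^ 4 * β * Y with hZ
  have z0 : m * β ≤ Z := by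
    rw [hZ, mul_assoc, mul_comm m]
    exact (mul_le_mul_of_nonneg_left Y0 (by linarith)).trans
      (le_mul_of_one_le_left (by nlinarith) (p2.trans p4))
  have z1 := a1.trans z0
  have z2 := a2.trans z0
  have z3 : A3 ^ 2 ≤ C ^ 2 * (2 * ((601 ^ 2 + 601) * Z)) := by
    have h1 : A3 ^ 2 ≤ (C * (e * d + √d * √x)) ^ 2 := by
      rw [← sq_abs A3]; exact pow_le_pow_left₀ (abs_nonneg _) a3 2
    have h2 : (√d * √x) ^ 2 = d * x := by rw [mul_pow, sq_sqrt d0, sq_sqrt x0]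
    have h3 : d * x ≤ 601 * Z := by
      calc d * x ≤ 601 * P ^ 4 * β * Y := mul_le_mul (d1.trans (by gcongr)) x1 x0 (by positivity)
        _ = _ := by rw [hZ]; ring
    have h4 : (e * d) ^ 2 ≤ 601 ^ 2 * Z := by
      calc (e * d) ^ 2 = e ^ 2 * d ^ 2 := mul_pow _ _ _
        _ ≤ e ^ 2 * (601 * P ^ 2 * β) ^ 2 := by gcongr
        _ = 601 ^ 2 * (P ^ 4 * β * (e ^ 2 * β)) := by ring
        _ ≤ _ := by rw [hZ]; gcongr
    have h5 : (e * d + √d * √x) ^ 2 ≤ 2 * ((601 ^ 2 + 601) * Z) := by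
      nlinarith [sq_nonneg (e * d - √d * √x)]
    rw [mul_pow] at h1
    exact h1.trans (mul_le_mul_of_nonneg_left h5 (sq_nonneg C))
  rw [mul_assoc, mul_assoc, ← mul_assoc (P ^ 4), ← hZ]
  nlinarith [sq_nonneg (A1 - A2), sq_nonneg (A1 - A3), sq_nonneg (A2 - A3)]

end F89

open F89 in
theorem foTGlue : FoTGlue := by
  intro hR hF K
  obtain ⟨C, C1, hC⟩ := hF K
  refine ⟨6 + 6 * C ^ 2 * (601 ^ 2 + 601), by nlinarith [sq_nonneg C], ?_⟩
  intro n D s Q ε ec lam T e η β k ψ Ω a g hD hJ hc hA hB hT l0 cz ct cb hg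
  obtain ⟨X, L, hb, hX⟩ := cb.bs
  have wn := (S1.W6.pr_pi s hD).hv
  have wp := (S1.W6.pr_pi s hD).hw
  have kn := kl_nn D.J s.y wn
  have kp := kl_nn D.J s.y wp
  have b1 := hB.kn
  have b2 := hB.kp
  have a1 := cz _ wn (by linarith)
  have a2 := ct _ wp (by linarith)
  have a3 := hC n D.J Q s.y _ X (Gp D s) Ω e L ε s.S s.sS _ _ _ hJ hA hb (pi_eq D s) rfl rfl
  set d := (mean (pi D s) fun σ => ∑ j ∈ s.Sᶜ, grad (Gp D s) σ j ^ 2) + #s.S with hd
  set x := mean (ising D.J s.y) X + e ^ 2 * (kl (pi D s) (ising D.J s.y) + 1) with hx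
  have P1 := hD.P1
  have β1 : 1 ≤ β := by linarith
  have n0 : (0 : ℝ) ≤ lam * n := by positivity
  have x0 : 0 ≤ x := add_nonneg ((wt_is _ _).mean_nonneg fun σ => (hb.sb σ).1) (by positivity)
  have x1 : x ≤ lam * n + e ^ 2 * β := add_le_add hX (by gcongr)
  have d0 : 0 ≤ d := add_nonneg (wp.mean_nonneg fun σ => sum_nonneg fun _ _ => sq_nonneg _) (by positivity)
  have d1 : d ≤ 601 * D.P ^ 2 * β := by
    have h1 : (mean (pi D s) fun σ => ∑ j ∈ s.Sᶜ, grad (Gp D s) σ j ^ 2) ≤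
        mean (pi D s) fun σ => 108 * D.P * U D s σ + (6 * β + 486 * D.P ^ 2 * β) := by
      refine wp.mean_mono fun σ => ?_
      have u1 := S1.Pin33.sum_grad_U_le (s := s) hD σ
      have u2 : ∑ j, grad s.Th σ j ^ 2 ≤ β := by
        have := pow_le_pow_left₀ (nrm_nonneg _) (hc.gr σ) 2
        rw [nrm_sq] at this
        simpa only [dotProduct, ← sq] using this.trans hB.ll
      have u3 : ∑ j, del s j ^ 2 ≤ β := by simpa only [dotProduct, ← sq] using hB.dl
      have u4 := mul_le_mul_of_nonneg_left hB.ss (by positivity : 0 ≤ 162 * D.P ^ 2)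
      calc _ ≤ ∑ j, grad (Gp D s) σ j ^ 2 :=
            sum_le_sum_of_subset_of_nonneg (subset_univ _) fun _ _ _ => sq_nonneg _
        _ ≤ ∑ j, (3 * del s j ^ 2 + 3 * grad s.Th σ j ^ 2 + 3 * grad (U D s) σ j ^ 2) := by
            refine sum_le_sum fun j _ => ?_
            rw [grad_Gp, Pi.sub_apply, Pi.add_apply]
            nlinarith [sq_nonneg (del s j - grad s.Th σ j), sq_nonneg (del s j + grad (U D s) σ j),
              sq_nonneg (grad s.Th σ j + grad (U D s) σ j)]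
        _ ≤ _ := by
            rw [sum_add_distrib, sum_add_distrib, ← mul_sum, ← mul_sum, ← mul_sum]
            linarith
    rw [SL.mean_add, SL.mean_const_mul, wp.mean_const] at h1
    have h2 := mul_le_mul_of_nonneg_left hB.up (by positivity : 0 ≤ 108 * D.P)
    have h3 := hB.ss
    have h4 : D.P * β ≤ D.P ^ 2 * β := by gcongr; nlinarith
    have h5 : β ≤ D.P ^ 2 * β := by nlinarith
    have h6 : mean (pi D s) (fun σ => U D s σ) = mean (pi D s) (U D s) := rfl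
    linarith
  have e1 : (mean (pi D s) fun σ => ∑ j ∈ s.Sᶜ, grad (Gp D s) σ j * gt Q Ω σ s.y j) =
      pr D s (fun _ => del s) g + pr D s (grad s.Th) g - pr D s (grad (U D s)) g := by
    subst hg
    simp only [pr, grad_Gp, Pi.sub_apply, Pi.add_apply, sub_mul, add_mul, sum_sub_distrib,
      sum_add_distrib, SL.mean_sub, SL.mean_add]
  rw [tel hR hJ, SL.mean_sub, e1] at a3
  rw [del_eq]
  refine le_of_eq_of_le ?_ (arith (n0 := n0) P1 β1 d0 x0 d1 x1
    (a1.trans (mul_le_mul_of_nonneg_left b1 n0)) (a2.trans (mul_le_mul_of_nonneg_left b2 n0)) a3)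
  ring

end Crest.Agent.T157.Md

end
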