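import Crest.Agent.T157.KMdB_93
import Crest.Agent.T157.KRl_58

/-!
# Row 157, block S5 (helper52): the size of a combination of response fields, `Md.gsTGlue`
-/

set_option autoImplicit false

noncomputable section

namespace Crest.Agent.T157.Md

open MeasureTheory Real Matrix Finset Filter
open Crest.Agent.T157.E Crest.Agent.T157.Eig Crest.Agent.T157.K
open Crest.Agent.T157.Tap (V Mx)
open Crest.Agent.T157.Rec (grad)
open Crest.Agent.T157.SL (Wt)
open Crest.Agent.T157.S3.Hd (AD)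

namespace Gs52

variable {n : ℕ} {ι : Type} [Fintype ι]

theorem Ks_lin (hR : RevStmt) {J Q : Mx n} (h : JQ J Q) (y : V n) (k : ℕ) (κ : ι → ℝ)
    (F : ι → Cube n → ℝ) :
    Ks Q y k (fun x => ∑ b, κ b * F b x) = fun x => ∑ b, κ b * Ks Q y k (F b) x := by
  have it : ∀ l, (Ky Q y)^[l] (fun x => ∑ b, κ b * F b x) =
      fun x => ∑ b, κ b * (Ky Q y)^[l] (F b) x := by
    intro l
    induction l with
    | zero => rfl
    | succ l ih =>
      simp only [Function.iterate_succ_apply', ih]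
      rw [hR.kf n J Q y h, Kc.Kf_sum (wt_is J y)]
      simp only [Kc.Kf_const_mul]
  ext x
  simp only [Ks, Finset.sum_apply, it, mul_sum]
  exact sum_comm

theorem grad_comb (κ : ι → ℝ) (F : ι → Cube n → ℝ) (s : Cube n) :
    grad (fun x => ∑ b, κ b * F b x) s = ∑ b, κ b • grad (F b) s := by
  ext j
  simp only [Rec.grad_eq, Finset.sum_apply, Pi.smul_apply, smul_eq_mul, ← sum_sub_distrib, mul_sum,
    sum_div]
  exact sum_congr rfl fun b _ => by ring

theorem cs (κ : ι → ℝ) (d : ι → V n) (S : Finset (Fin n)) {R : ℝ} (h : ∑ b, κ b ^ 2 ≤ R ^ 2) :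
    ∑ i ∈ S, (∑ b, κ b • d b) i ^ 2 ≤ R ^ 2 * ∑ b, ∑ i ∈ S, d b i ^ 2 := by
  rw [sum_comm, mul_sum]
  refine sum_le_sum fun i _ => ?_
  simp only [Finset.sum_apply, Pi.smul_apply, smul_eq_mul]
  exact (sum_mul_sq_le_sq_mul_sq _ _ _).trans
    (mul_le_mul_of_nonneg_right h (sum_nonneg fun _ _ => sq_nonneg _))

theorem sq_exc {η : ℝ} (v : V n) (S : Finset (Fin n)) :
    ∑ i ∈ S, v i ^ 2 ≤ 2 * (η ^ 2 * #S) + 2 * exc η v := by
  have h1 : ∑ i ∈ S, max (|v i| - η) 0 ^ 2 ≤ exc η v :=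
    sum_le_sum_of_subset_of_nonneg (subset_univ S) fun _ _ _ => sq_nonneg _
  have h2 : ∑ i ∈ S, v i ^ 2 ≤ ∑ i ∈ S, (2 * η ^ 2 + 2 * max (|v i| - η) 0 ^ 2) :=
    sum_le_sum fun i _ => by
      have a := le_max_left (|v i| - η) 0
      have b := pow_le_pow_left₀ (abs_nonneg (v i)) (show |v i| ≤ η + max (|v i| - η) 0 by linarith) 2
      rw [sq_abs] at b
      nlinarith [sq_nonneg (η - max (|v i| - η) 0)]
  rw [sum_add_distrib, ← mul_sum, ← mul_sum, sum_const, nsmul_eq_mul] at h2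
  linarith

theorem sum_le_sq {f : ι → ℝ} {x N : ℝ} (hx : 0 ≤ x) (hN : (Fintype.card ι : ℝ) ≤ N)
    (h : ∀ b, f b ≤ x) : ∑ b, f b ≤ N ^ 2 * x := by
  have h1 : ∑ b, f b ≤ (Fintype.card ι : ℝ) * x := by
    simpa using sum_le_card_nsmul univ f x fun b _ => h b
  have h2 : (Fintype.card ι : ℝ) ≤ (Fintype.card ι : ℝ) ^ 2 := by
    exact_mod_cast Nat.le_self_pow two_ne_zero _
  have h3 := pow_le_pow_left₀ (Nat.cast_nonneg _) hN 2
  exact h1.trans (mul_le_mul_of_nonneg_right (h2.trans h3) hx)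

end Gs52

open Gs52 Rl58 in
theorem gsTGlue : GsTGlue := fun hR hG hT ⟨Cq, q1, hQ⟩ K => by
  obtain ⟨γ, Cg, -, -, g1, hG⟩ := hG K
  obtain ⟨Ct, t1, hT⟩ := hT K
  have tq : Cq ≤ Ct * Cq ^ 2 := by nlinarith [mul_le_mul t1 (le_refl (Cq ^ 2)) (sq_nonneg _) (by linarith)]
  refine ⟨16 * Cg + 72 * (Ct * Cq ^ 2), by linarith,
    fun n ι _ J Q y ε lam e η R A N k Ω a κ G hJ hA hB l0 e0 η0 R0' hN hκ ha hk hG' => ?_⟩
  have hw := wt_is J y
  have N0 : 0 ≤ N := (Nat.cast_nonneg _).trans hN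
  have hW : RF (N * R * e) (∑ b, κ b • Ω b) := by
    refine RF.mono (RF.sum univ fun b _ => RF.smul (hB b).rf (κ b)) ?_
    have h1 : ∀ b ∈ univ, |κ b| * e ≤ R * e := fun b _ => mul_le_mul_of_nonneg_right
      (abs_le_of_sq_le_sq' ((single_le_sum (f := fun b => κ b ^ 2) (fun _ _ => sq_nonneg _)
        (mem_univ b)).trans hκ) R0' |> abs_le.2) e0
    have h2 := sum_le_card_nsmul univ _ _ h1
    rw [nsmul_eq_mul, card_univ] at h2
    rw [mul_assoc]
    exact h2.trans (mul_le_mul_of_nonneg_right hN (mul_nonneg R0' e0))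
  have hg : G = fun σ => gt Q (∑ b, κ b • Ω b) σ y := by
    rw [hG', (hQ n J Q 0 e hJ (RF.mono RF.zero e0)).2.2.2 ι κ Ω fun b => (hB b).rf]
    simp only [Finset.sum_apply, Pi.smul_apply]
  obtain ⟨r1, -, r2, -⟩ := hQ n J Q _ _ hJ hW
  have P0 : 0 ≤ N * R * e := by positivity
  refine ⟨hg ▸ (RF.mono r1 ?_).r0 y, fun v β hv hβ => ?_⟩
  · have : Cq ≤ 16 * Cg + 72 * (Ct * Cq ^ 2) := by linarith
    calc _ ≤ (16 * Cg + 72 * (Ct * Cq ^ 2)) * (N * R * e) := mul_le_mul_of_nonneg_right this P0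
      _ = _ := by ring
  have β0 : 0 ≤ β := by linarith [kl_nn J y hv]
  have tr : ∀ (X : F2 n) (c : ℝ), RE c X → (mean v fun s => X s y) ≤
      4 * (mean (ising J y) fun s => X s y) + Ct * c ^ 2 * β := fun X c hX => by
    have := hT n _ v X c ε y y (is_pos J y) hA hv hX
    rw [sub_self, nrm_zero, zero_pow two_ne_zero, add_zero] at this
    exact this.trans (add_le_add_right (mul_le_mul_of_nonneg_left hβ (by positivity)) _)
  have ln : 0 ≤ lam * n := by positivity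
  have eb : 0 ≤ e ^ 2 * β := by positivity
  have nr : 0 ≤ (N * R) ^ 2 := sq_nonneg _
  have a1 := mul_nonneg nr ln
  have a2 := mul_nonneg nr eb
  constructor
  · choose X L hX mX using fun b => (hB b).bs
    have an : 0 ≤ A ^ 2 * n := by positivity
    have ha2 : ∀ s, nrm (grad (lin (∑ b, κ b • a b)) s) ^ 2 ≤ A ^ 2 * n := fun s => by
      have := pow_le_pow_left₀ (nrm_nonneg _) ha 2
      rw [mul_pow, sq_sqrt (Nat.cast_nonneg n)] at this
      exact (congrArg (fun u => nrm u ^ 2) (Rec.grad_lin _ s)).trans_le this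
    have g4 := (hG n J Q y ε _ _ k hJ hA ha2).2.2.2
    have g5 := mul_le_mul_of_nonneg_left (hw.mean_le ha2) (by linarith : 0 ≤ Cg)
    have g6 := mul_le_mul_of_nonneg_left hk (mul_nonneg (by linarith : 0 ≤ Cg) an)
    have el : lin (∑ b, κ b • a b) = fun x => ∑ b, κ b * lin (a b) x := by
      ext x; simp only [lin, sum_dotProduct, smul_dotProduct, smul_eq_mul]
    have pt : ∀ s, nrm ((∑ b, κ b • Ω b) s y) ^ 2 ≤
        2 * nrm (grad (Ks Q y k (lin (∑ b, κ b • a b))) s) ^ 2 + 2 * R ^ 2 * ∑ b, X b s := fun s => by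
      have c1 := cs κ (fun b => grad (Ks Q y k (lin (a b))) s - Ω b s y) univ hκ
      simp only [sum_sq] at c1
      have c2 := mul_le_mul_of_nonneg_left (sum_le_sum fun b (_ : b ∈ univ) => (hX b).app s)
        (sq_nonneg R)
      have c3 : (∑ b, κ b • Ω b) s y = grad (Ks Q y k (lin (∑ b, κ b • a b))) s -
          ∑ b, κ b • (grad (Ks Q y k (lin (a b))) s - Ω b s y) := by
        rw [el, Ks_lin hR hJ, grad_comb]
        simp only [Finset.sum_apply, Pi.smul_apply, smul_sub, sum_sub_distrib, sub_sub_cancel]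
      rw [c3]
      have c4 := pow_le_pow_left₀ (nrm_nonneg _) (nrm_sub_le
        (grad (Ks Q y k (lin (∑ b, κ b • a b))) s)
        (∑ b, κ b • (grad (Ks Q y k (lin (a b))) s - Ω b s y))) 2
      nlinarith [sq_nonneg (nrm (grad (Ks Q y k (lin (∑ b, κ b • a b))) s) -
        nrm (∑ b, κ b • (grad (Ks Q y k (lin (a b))) s - Ω b s y)))]
    have m1 := hw.mean_mono pt
    rw [SL.mean_add, SL.mean_const_mul, SL.mean_const_mul, SL.mean_sum] at m1
    have m2 := mul_le_mul_of_nonneg_left (sum_le_sq ln hN mX) (sq_nonneg R)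
    have m3 := tr _ _ (re_sq r1)
    have m4 := r2 y
    have a3 := mul_nonneg (by linarith : 0 ≤ Cg - 1) a1
    have a4 := mul_nonneg (by linarith : 0 ≤ Cg) a2
    have a5 := mul_nonneg (by linarith : 0 ≤ Ct * Cq ^ 2) a1
    have a6 := mul_nonneg (by linarith : 0 ≤ Ct * Cq ^ 2) a2
    have a7 := mul_nonneg (by linarith : 0 ≤ Ct * Cq ^ 2) an
    rw [hg]
    linarith
  · intro S
    have s0 : 0 ≤ η ^ 2 * #S := by positivity
    have pt : ∀ σ, ∑ i ∈ S, (J *ᵥ G σ) i ^ 2 ≤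
        R ^ 2 * ∑ b, (2 * (η ^ 2 * #S) + 2 * exc η (J *ᵥ gt Q (Ω b) σ y)) := fun σ => by
      have c1 : J *ᵥ G σ = ∑ b, κ b • (J *ᵥ gt Q (Ω b) σ y) := by
        simp only [hG', mulVec_sum, mulVec_smul]
      rw [c1]
      exact (cs κ _ S hκ).trans (mul_le_mul_of_nonneg_left (sum_le_sum fun b _ => sq_exc _ S)
        (sq_nonneg R))
    have m1 := hv.mean_mono pt
    rw [SL.mean_const_mul, SL.mean_sum (s := univ)] at m1
    have tq0 : 0 ≤ Ct * Cq ^ 2 := by linarith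
    have m2 : ∀ b, (mean v fun σ => 2 * (η ^ 2 * #S) + 2 * exc η (J *ᵥ gt Q (Ω b) σ y)) ≤
        2 * (η ^ 2 * #S) + 8 * (lam * n) + 72 * (Ct * Cq ^ 2) * (e ^ 2 * β) := fun b => by
      have := tr _ _ (re_exc hJ.op (hQ n J Q _ e hJ (hB b).rf).1 η0)
      rw [SL.mean_add, hv.mean_const, SL.mean_const_mul]
      linarith [(hB b).jx]
    have m3 := mul_le_mul_of_nonneg_left (sum_le_sq (by positivity) hN m2) (sq_nonneg R)
    have a0 := mul_nonneg nr s0
    have a3 := mul_nonneg (by linarith : 0 ≤ Cg - 1) a1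
    have a4 := mul_nonneg (by linarith : 0 ≤ Cg) a2
    have a5 := mul_nonneg tq0 a1
    have a6 := mul_nonneg tq0 a0
    have a7 := mul_nonneg (by linarith : 0 ≤ Cg - 1) a0
    linarith

end Crest.Agent.T157.Md

end
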