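import Crest.Agent.T157.KMdB_93
import Crest.Agent.T157.S1Pin_33

/-!
# Row 157, block S5 (helper43): the part of the bursts in `ModGlue`
-/

set_option autoImplicit false

noncomputable section

namespace Crest.Agent.T157.Md

open Real Matrix Finset
open Crest.Agent.T157.E Crest.Agent.T157.Eig Crest.Agent.T157.SL
open Crest.Agent.T157.Tap (V)
open Crest.Agent.T157.Rec (grad)
open Crest.Agent.T157.S1 (Dat St pi U loc ell)
open Crest.Agent.T157.S1.Pin33

namespace U43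

variable {n : ℕ} {D : Dat n} {s : St n}

/-- restriction to `S` -/
def mk (S : Finset (Fin n)) (u : V n) : V n := fun i => if i ∈ S then u i else 0

theorem dot_mk (S : Finset (Fin n)) (a u : V n) : a ⬝ᵥ mk S u = ∑ i ∈ S, a i * u i := by
  simp [mk, dotProduct, sum_ite_mem]

theorem mk_sq (S : Finset (Fin n)) (u : V n) : nrm (mk S u) ^ 2 = ∑ i ∈ S, u i ^ 2 := by
  rw [nrm_sq, dot_mk]
  exact sum_congr rfl fun i hi => by rw [mk, if_pos hi, sq]

theorem wt_pi (D : Dat n) (s : St n) : Wt (pi D s) :=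
  Ta.wt_wt ⟨loc_nonneg, sum_pos' (fun x _ => loc_nonneg x) ⟨s.sS, mem_univ _, by
    rw [loc, ell, if_pos fun _ _ => rfl]; exact mul_pos (exp_pos _) (exp_pos _)⟩⟩ _

theorem pt (hD : D.Ok) {e : ℝ} (e0 : 0 ≤ e) {g : V n} (hg : ∀ i, |g i| ≤ e) (σ : Cube n) :
    |∑ j ∈ s.Sᶜ, grad (U D s) σ j * g j| ≤
      D.P * (nrm (um D s σ) * (nrm (mk s.S (D.J *ᵥ g)) + 3 * nrm (mk s.S g)) + e * (9 * #s.S)) := by
  have e1 : (D.J *ᵥ um D s σ) ⬝ᵥ g = um D s σ ⬝ᵥ mk s.S (D.J *ᵥ g) := by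
    rw [← hD.symm, mulVec_transpose, ← dotProduct_mulVec, hD.symm, dot_mk, dotProduct]
    exact (sum_subset (subset_univ _) fun k _ hk => by simp [um, hk]).symm
  have e2 := sum_add_sum_compl s.S fun j => (D.J *ᵥ um D s σ) j * g j
  rw [← dot_mk] at e2
  have e3 : ∑ j ∈ s.Sᶜ, grad (U D s) σ j * g j = D.P * (um D s σ ⬝ᵥ mk s.S (D.J *ᵥ g) -
      (D.J *ᵥ um D s σ) ⬝ᵥ mk s.S g - ∑ j ∈ s.Sᶜ, sv σ j * (∑ k ∈ s.S, D.J k j ^ 2) * g j) := by
    rw [← e1, dotProduct.eq_1 _ g, ← e2, add_sub_cancel_left, ← sum_sub_distrib, mul_sum]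
    exact sum_congr rfl fun j _ => by rw [grad_U hD]; ring
  have a1 := abs_dot_le (um D s σ) (mk s.S (D.J *ᵥ g))
  have a2 := (abs_dot_le (D.J *ᵥ um D s σ) (mk s.S g)).trans (mul_le_mul_of_nonneg_right
    ((nrm_mulVec_le _ _).trans (mul_le_mul_of_nonneg_right hD.op (nrm_nonneg _))) (nrm_nonneg _))
  have a3 : |∑ j ∈ s.Sᶜ, sv σ j * (∑ k ∈ s.S, D.J k j ^ 2) * g j| ≤ e * (9 * #s.S) := by
    refine (abs_sum_le_sum_abs _ _).trans ((sum_le_sum_of_subset_of_nonneg (subset_univ _)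
      fun _ _ _ => abs_nonneg _).trans (le_trans ?_
        (mul_le_mul_of_nonneg_left (sum_colS_le (s := s) hD) e0)))
    rw [mul_sum]
    refine sum_le_sum fun j _ => ?_
    have h0 : 0 ≤ ∑ k ∈ s.S, D.J k j ^ 2 := sum_nonneg fun _ _ => sq_nonneg _
    have h1 : |sv σ j| = 1 := by
      rw [← sq_eq_sq₀ (abs_nonneg _) zero_le_one, sq_abs, sq, Rec.sv_mul_self, one_pow]
    rw [abs_mul, abs_mul, h1, one_mul, abs_of_nonneg h0, mul_comm]
    exact mul_le_mul_of_nonneg_right (hg j) h0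
  rw [e3, abs_mul, abs_of_nonneg (by linarith [hD.P1])]
  refine mul_le_mul_of_nonneg_left ?_ (by linarith [hD.P1])
  rw [abs_le] at a1 a2 a3 ⊢
  constructor <;> linarith [a1.1, a1.2, a2.1, a2.2, a3.1, a3.2]

end U43

open U43 in
theorem uT : UT := by
  refine ⟨234, by norm_num, fun n D s e W β G hD hB hG hW => ?_⟩
  have hw := wt_pi D s
  have hP := hD.P1
  have S0 : (0 : ℝ) ≤ #s.S := Nat.cast_nonneg _
  have b0 : 0 ≤ β := S0.trans hB.ss
  have W0 : 0 ≤ W := (hw.mean_nonneg fun σ => sum_nonneg fun _ _ => sq_nonneg _).trans hW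
  have hG' : ∀ σ i, |G σ i| ≤ |e| := fun σ i => (hG σ i).trans (le_abs_self e)
  rw [← sq_abs e]
  have e0 := abs_nonneg e
  generalize |e| = e at hG' e0
  set a : Cube n → ℝ := fun σ => nrm (um D s σ)
  set b : Cube n → ℝ := fun σ => nrm (mk s.S (D.J *ᵥ G σ)) + 3 * nrm (mk s.S (G σ))
  have h1 := hw.mean_mono fun σ => (abs_le.1 (pt (s := s) hD e0 (hG' σ) σ)).2
  have h2 := hw.mean_mono (f := fun σ => -1 * (D.P * (a σ * b σ + e * (9 * #s.S)))) fun σ =>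
    (neg_one_mul _).trans_le (abs_le.1 (pt (s := s) hD e0 (hG' σ) σ)).1
  rw [mean_const_mul, mean_const_mul, mean_add, hw.mean_const, neg_one_mul] at h2
  rw [mean_const_mul, mean_add, hw.mean_const] at h1
  have h3 : (mean (pi D s) fun σ => a σ * b σ) ^ 2 ≤
      (mean (pi D s) fun σ => a σ * a σ) * mean (pi D s) fun σ => b σ * b σ :=
    hw.isP.ip_sq_le a b
  have h4 : (mean (pi D s) fun σ => a σ * a σ) ≤ 2 * β := by
    refine (hw.mean_mono (g := fun σ => 2 * U D s σ) fun σ => ?_).trans ?_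
    · have := um_dot (D := D) (s := s) σ
      rw [nrm_mul_self]
      nlinarith [Eig.dot_self_nonneg (um D s σ)]
    · rw [mean_const_mul]; linarith [hB.up]
  have h5 : (mean (pi D s) fun σ => b σ * b σ) ≤ 2 * W + 18 * (e ^ 2 * β) := by
    refine (hw.mean_mono (g := fun σ => 2 * ∑ i ∈ s.S, (D.J *ᵥ G σ) i ^ 2 + 18 * (e ^ 2 * β))
      fun σ => ?_).trans ?_
    · have c1 := mk_sq s.S (D.J *ᵥ G σ)
      have c2 : nrm (mk s.S (G σ)) ^ 2 ≤ e ^ 2 * β := by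
        rw [mk_sq]
        refine (sum_le_card_nsmul _ _ (e ^ 2) fun i _ =>
          sq_le_sq' (abs_le.1 (hG' σ i)).1 (abs_le.1 (hG' σ i)).2).trans ?_
        rw [nsmul_eq_mul, mul_comm]
        exact mul_le_mul_of_nonneg_left hB.ss (sq_nonneg _)
      nlinarith [sq_nonneg (nrm (mk s.S (D.J *ᵥ G σ)) - 3 * nrm (mk s.S (G σ)))]
    · rw [mean_add, mean_const_mul, hw.mean_const]; linarith
  have h6 := h3.trans (mul_le_mul h4 h5 (hw.mean_nonneg fun σ => mul_self_nonneg _) (by positivity))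
  have h7 := sq_le_sq' h2 h1
  have h8 : (e * (9 * #s.S)) ^ 2 ≤ (e * (9 * β)) ^ 2 :=
    pow_le_pow_left₀ (by positivity) (mul_le_mul_of_nonneg_left (by linarith [hB.ss]) e0) 2
  refine h7.trans ?_
  rw [mul_pow, mul_comm 234, mul_assoc, mul_assoc]
  refine mul_le_mul_of_nonneg_left ?_ (sq_nonneg _)
  change ((mean (pi D s) fun σ => a σ * b σ) + _) ^ 2 ≤ _
  nlinarith [sq_nonneg ((mean (pi D s) fun σ => a σ * b σ) - e * (9 * #s.S)), mul_nonneg b0 W0]

end Crest.Agent.T157.Md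

end
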