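import Crest.Agent.T157.KMdB_93

/-!
# Row 157, block S5 (helper78): the certificate `CertZ`
-/

set_option autoImplicit false

noncomputable section

namespace Crest.Agent.T157.Md

open MeasureTheory Real Matrix Finset Filter
open Crest.Agent.T157.E Crest.Agent.T157.Eig Crest.Agent.T157.K
open Crest.Agent.T157.Tap (V Mx)

namespace Z78

variable {n : ℕ}

/-- the part on the cube of a joint certificate, with larger constants -/
theorem bs0 {F X : F2 n} {g ω β : U2 n} {e L e' L' : ℝ} (h : BS F g ω β X e L) (h0 : 0 ≤ e)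
    (he : e ≤ e') (hL : L ≤ L') (y : V n) :
    BS0 (fun s => F s y) (fun s => ω s y) (fun s => X s y) e' L' :=
  ⟨fun s => (h.gr s y).1.trans hL, fun s => (le_add_of_nonneg_right (sq_nonneg _)).trans (h.app s y),
    ⟨fun s i => ((h.rω.r0 y).sup s i).trans he, fun s => ((h.rω.r0 y).op s).trans he⟩,
    fun s => ⟨(h.rX.sb y s).1, (h.rX.sb y s).2.trans
      (mul_le_mul_of_nonneg_right (pow_le_pow_left₀ h0 he 2) (h.rX.sb y s).1)⟩⟩

theorem ev_ge (x : ℝ) {b : ℝ} (hb : 0 < b) : ∀ᶠ n : ℕ in atTop, x ≤ b * n :=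
  (tendsto_natCast_atTop_atTop.const_mul_atTop hb).eventually_ge_atTop x

end Z78

theorem certZGlue : CertZGlue := by
  intro hD hT hZ K
  obtain ⟨C1, hC1, hD⟩ := hD
  obtain ⟨C2, hC2, hN⟩ := near hT K
  obtain ⟨γ, C, hγ0, hγ1, hC, hZ⟩ := hZ K
  refine ⟨0, fun c _ A0 lam hl => ?_⟩
  obtain ⟨b, hb, hbl⟩ : ∃ b : ℝ, 0 < b ∧ 16 * C * b = lam :=
    ⟨lam / (16 * C), by positivity, by field_simp⟩
  have hk : ∀ᶠ k : ℕ in atTop, (1 - γ) ^ k * A0 ^ 2 ≤ b := by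
    have h := (tendsto_pow_atTop_nhds_zero_of_lt_one (by linarith : 0 ≤ 1 - γ)
      (by linarith)).mul_const (A0 ^ 2)
    rw [zero_mul] at h
    exact h.eventually (eventually_le_nhds hb)
  obtain ⟨k0, hk⟩ := eventually_atTop.1 hk
  refine ⟨k0, fun k hk0 => ⟨b / 8, by positivity, 0, fun Λ _ M e η hM _ => ?_⟩⟩
  obtain ⟨Z, hZ1, hZe, hZM, hZA⟩ : ∃ Z : ℝ, 1 ≤ Z ∧ e ≤ Z ∧ M ≤ Z ∧ A0 ≤ Z :=
    ⟨|e| + M + |A0| + 1, by linarith [abs_nonneg e, abs_nonneg A0],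
      by linarith [le_abs_self e, abs_nonneg A0], by linarith [abs_nonneg e, abs_nonneg A0],
      by linarith [abs_nonneg e, le_abs_self A0]⟩
  obtain ⟨W, hW, hW0⟩ : ∃ W : ℝ, W = C2 * (C1 ^ 2 + 1) * Z ^ 2 ∧ 0 < W := ⟨_, rfl, by positivity⟩
  obtain ⟨m, hm, hm0⟩ : ∃ m : ℝ, m = 1 / (C * Z) ∧ 0 < m := ⟨_, rfl, by positivity⟩
  have hCm : C * m * Z = 1 := by rw [hm]; field_simp
  refine ⟨min (b / W) (lam / 8 * m ^ 2), by positivity, ?_⟩
  filter_upwards [Z78.ev_ge (W + Z ^ 2 + (k + 1) ^ 2 * Z ^ 2) hb,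
    Z78.ev_ge 1 (by positivity : 0 < lam / 8 * m ^ 2), eventually_gt_atTop 0]
    with n hn1 hn2 hn0 J Q y0 y E a δ T hJ hδ hg h0 h1 hy hTn v hv hH
  have n0 : (0 : ℝ) < n := by exact_mod_cast hn0
  have s0 : 0 ≤ √(n : ℝ) := sqrt_nonneg _
  have s2 : √(n : ℝ) ^ 2 = n := sq_sqrt n0.le
  have T0 : 0 ≤ T := (sq_nonneg _).trans hy
  have T1 : W * T ≤ b * n := by
    calc W * T ≤ W * (b / W * n) := by
          gcongr; exact hTn.trans (mul_le_mul_of_nonneg_right (min_le_left _ _) n0.le)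
      _ = _ := by field_simp
  have T2 : T ≤ lam / 8 * m ^ 2 * n :=
    hTn.trans (mul_le_mul_of_nonneg_right (min_le_right _ _) n0.le)
  have d1 : δ * n ≤ b / 8 * n := mul_le_mul_of_nonneg_right hδ n0.le
  obtain ⟨g, ω, β, X, e', L, hB, e0, e1, L1, hX⟩ := hg.ps
  have a1 : mean (ising J y) (dev Q E a y) ≤ 4 * (δ * n) + C2 * (C1 * Z) ^ 2 * (T + 1) := by
    refine (hN n J y0 y (fun s y => dev Q E a y s) (C1 * M) _ T h0
      ((hD n J Q E M hJ hM hg.blo).2.2.2.2.2.2.1 a) hy).trans ?_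
    have := hg.dv
    gcongr
  have a2 : (mean (ising J y) fun s => X s y) ≤ 4 * (δ * n) + C2 * Z ^ 2 * (T + 1) := by
    refine (hN n J y0 y X e' _ T h0 hB.rX hy).trans ?_
    gcongr
    exact e1.trans hZe
  have a3 : (1 - γ) ^ k * nrm a ^ 2 ≤ b * n := by
    have h2 : nrm a ^ 2 ≤ A0 ^ 2 * n := by
      rw [← s2, ← mul_pow]; exact pow_le_pow_left₀ (nrm_nonneg a) hg.na 2
    have h3 : 0 ≤ (1 - γ) ^ k := pow_nonneg (by linarith) k
    calc _ ≤ (1 - γ) ^ k * (A0 ^ 2 * n) := mul_le_mul_of_nonneg_left h2 h3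
      _ = (1 - γ) ^ k * A0 ^ 2 * n := by ring
      _ ≤ _ := mul_le_mul_of_nonneg_right (hk k hk0) n0.le
  have a4 : ((k : ℝ) + 1) ^ 2 * (1 / n) * (Z * √n) ^ 2 = (k + 1) ^ 2 * Z ^ 2 := by
    rw [mul_pow, s2]; field_simp
  have a5 : C2 * (C1 * Z) ^ 2 * (T + 1) + C2 * Z ^ 2 * (T + 1) = W * T + W := by rw [hW]; ring
  refine (opt (B := lam * n / 4) (kl_nn J y hv) hm0 (by linarith) fun θ θ0 θ1 => ?_).trans_eq
    (by ring)
  have c1 : C * θ * Z ≤ 1 := by rw [← hCm]; gcongr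
  refine (hZ n J Q E k a y _ _ v M Z (Z * √n) (1 / n) θ hJ h1 hv hM hZM hg.blo
    (hg.na.trans (by gcongr)) (by gcongr)
    (Z78.bs0 hB e0 (e1.trans hZe) (L1.trans (by gcongr)) y) θ0 c1
    (by rw [← mul_assoc]; exact mul_le_of_le_one_left s0 c1)).trans (add_le_add_right ?_ _)
  calc _ ≤ C * θ * (4 * b * n) := by gcongr; linarith
    _ = _ := by rw [← hbl]; ring

end Crest.Agent.T157.Md

end
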