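import Crest.Agent.T157.S3W_43
import Crest.Agent.T157.S3Ja_82
import Crest.Agent.T157.AtD_39

/-!
# Row 157, part B, block S3 (helper69): words and leaves of the deterministic layer

Text: `docs/T157_B_S3.md`.  A *family* is a set of good instances `(n, J, y)`; structural properties hold for all
instances with constants that do not depend on the instance (classes of `S3W.Cx`), asymptotic properties hold
eventually along a filter `l` (in the end: the filter of typical events).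
-/

set_option autoImplicit false
set_option linter.unusedVariables false

noncomputable section

namespace Crest.Agent.T157.S3

open Matrix Filter Finset
open Crest.ProbabilityR.SpinGlassDynamics (spin)
open Crest.Agent.T157.E (Cube sv ising mean meanV prob)
open Crest.Agent.T157.Rec (grad fl)
open Crest.Agent.T157.Eig (nrm opn)
open Crest.Agent.T157.Chain22 (IsP)
open Crest.Agent.T157.Uw (eta Vk Wk UW)
open Crest.Agent.T157.S3F (bar jac barM hsJ)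
open Crest.Agent.T157.S3W (Cx)
open Crest.Agent.T157.Atd (ATd vp)

abbrev V (n : ℕ) : Type := Fin n → ℝ
abbrev Mx (n : ℕ) : Type := Matrix (Fin n) (Fin n) ℝ

/-! ### one instance -/

section inst
variable {n N : ℕ}

/-- local field -/
def hf (J : Mx n) (y : V n) (x : Cube n) : V n := J *ᵥ sv x + y
/-- `τ = σ - tanh h`; the divergence of a flow `U` is `U x ⬝ᵥ tau J y x` -/
def tau (J : Mx n) (y : V n) (x : Cube n) : V n := fun j => sv x j - Real.tanh (hf J y x j)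
/-- `D = 1 - tanh² h` -/
def Dg (J : Mx n) (y : V n) (x : Cube n) : V n := fun j => 1 - Real.tanh (hf J y x j) ^ 2
/-- every row is a flow; the divergences of the rows are `M x *ᵥ tau J y x` -/
def FreeM (M : Cube n → Mx n) : Prop := ∀ x k j b, M (Function.update x j b) k j = M x k j
/-- two-sided Lipschitz bound -/
def TS (A : ℝ) (G : Cube n → ℝ) : Prop := ∀ x, ∑ j, (G x - G (fl x j)) ^ 2 ≤ A

/-- site dependent local functions of the spin and of the fields -/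
abbrev LF (n N : ℕ) : Type := Fin n → Bool → (Fin N → ℝ) → ℝ
/-- partial derivative in the field `m` -/
def pd (m : Fin N) (g : LF n N) : LF n N := fun k s ξ => fderiv ℝ (g k s) ξ (Pi.single m 1)
/-- discrete derivative in the spin -/
def gs (g : LF n N) : LF n N := fun k _ ξ => (g k true ξ - g k false ξ) / 2
/-- `g` depends on the fields `m < l` only -/
def Dep (l : Fin N) (g : LF n N) : Prop :=
  ∀ k s ξ ξ', (∀ m, m < l → ξ m = ξ' m) → g k s ξ = g k s ξ'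

/-- triangular recursion with sources (matrices) -/
def RecM {P : ℕ} (J : Mx n) (a : Fin P → Fin P → V n) (ot : Fin P → Fin P → ℝ)
    (S T Y : Fin P → Mx n) : Prop :=
  ∀ l, T l = S l + ∑ m, diagonal (a l m) * Y m ∧ Y l = J * T l - ∑ m, ot l m • T m
/-- the same for vectors -/
def RecV {P : ℕ} (J : Mx n) (a : Fin P → Fin P → V n) (ot : Fin P → Fin P → ℝ)
    (g c c' : Fin P → V n) : Prop :=
  ∀ l, c l = g l + ∑ m, a l m * c' m ∧ c' l = J *ᵥ c l - ∑ m, ot l m • c m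
/-- backpropagation of the weights `z l`: `u l` arrives at `Y l`, `v l` arrives at `T l` -/
def Back {P : ℕ} (J : Mx n) (a : Fin P → Fin P → V n) (ot : Fin P → Fin P → ℝ)
    (z u v : Fin P → V n) : Prop :=
  ∀ l, u l = z l + ∑ p, a p l * v p ∧ v l = J *ᵥ u l - ∑ p, ot p l • u p

end inst

/-! ### families -/

/-- a family of instances with a gauge `K = n^{o(1)}` and a filter -/
structure Fam where
  I : Type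
  l : Filter I
  n : I → ℕ
  β : ℝ
  K : I → ℝ
  J : ∀ i, Mx (n i)
  y : ∀ i, V (n i)

namespace Fam
variable (F : Fam)

/-- instance and configuration -/
abbrev Ω : Type := Σ i : F.I, Cube (F.n i)
abbrev Sf : Type := F.Ω → ℝ
abbrev Vf : Type := ∀ ω : F.Ω, V (F.n ω.1)
abbrev Mf : Type := ∀ ω : F.Ω, Mx (F.n ω.1)
/-- deterministic vectors -/
abbrev Df : Type := ∀ i, V (F.n i)
abbrev Lf (N : ℕ) : Type := ∀ i, LF (F.n i) N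

/-- the Gibbs weight -/
def w (i : F.I) : Cube (F.n i) → ℝ := ising (F.J i) (F.y i)
/-- the standard deviation of the couplings -/
def s (i : F.I) : ℝ := F.β / √(F.n i)
/-- `H(ν | μ)` -/
def H (i : F.I) (ν : Cube (F.n i) → ℝ) : ℝ := Ent.kl ν (prob (F.w i))
/-- Gibbs mean -/
def E (f : F.Sf) (i : F.I) : ℝ := mean (F.w i) fun x => f ⟨i, x⟩
/-- Gibbs mean of a vector -/
def EV (u : F.Vf) (i : F.I) : V (F.n i) := meanV (F.w i) fun x => u ⟨i, x⟩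
/-- `E_μ η(u)` -/
def me (u : F.Vf) (i : F.I) : ℝ := F.E (fun ω => eta (F.s ω.1) (u ω)) i
/-- Jacobian -/
def jc (u : F.Vf) : F.Mf := fun ω => jac (fun x => u ⟨ω.1, x⟩) ω.2
/-- the matrix `(bar^j u_k)` -/
def bm (u : F.Vf) : F.Mf := fun ω => barM (fun x => u ⟨ω.1, x⟩) ω.2
def τ : F.Vf := fun ω => tau (F.J ω.1) (F.y ω.1) ω.2

/-- good instances -/
structure Ok : Prop where
  lim : Tendsto F.n F.l atTop
  pos : ∀ i, 0 < F.n i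
  beta : F.β ∈ Set.Icc (0 : ℝ) 1
  K1 : ∀ i, 1 ≤ F.K i
  Ko : ∀ κ > (0 : ℝ), ∀ᶠ i in F.l, F.K i ≤ (F.n i : ℝ) ^ κ
  symm : ∀ i, (F.J i)ᵀ = F.J i
  diag : ∀ i j, F.J i j j = 0
  hAT : ∃ K0 κ0 : ℝ, 0 < κ0 ∧ ∀ i, ATd (F.w i) K0 (Real.exp (-(κ0 * F.n i)))
  uw : ∃ R, ∀ k, ∃ C, ∀ i, UW (F.s i) (F.J i) R k (C * √(F.K i))

variable {F}

/-- class `S`: bounded scalars with gradient `O(n^{-1/2})` -/
def Sb (s : F.Sf) : Prop := ∃ C : ℝ, ∀ i, (∀ x, |s ⟨i, x⟩| ≤ C) ∧ TS (C / F.n i) fun x => s ⟨i, x⟩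
/-- class `ϑ`: almost centred elements of `S` -/
def Th (s : F.Sf) : Prop := Sb s ∧ ∃ C : ℝ, ∀ i, |F.E s i| ≤ C / √(F.n i)
/-- `f ≤ C (K + n ∑ ϑ²)` -/
def Sq (f : F.Sf) : Prop := ∃ (C : ℝ) (L : List F.Sf), 0 ≤ C ∧ (∀ θ ∈ L, Th θ) ∧
  ∀ ω, f ω ≤ C * (F.K ω.1 + F.n ω.1 * (L.map fun θ => θ ω ^ 2).sum)
/-- negligible at the level `e` -/
def Ng (e : ℝ) (d : F.Df) : Prop := ∃ C : ℝ, ∀ᶠ i in F.l, ∑ k, max (|d i k| - e) 0 ^ 2 ≤ C * F.K i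
/-- negligible -/
def Neg (d : F.Df) : Prop := ∀ e > (0 : ℝ), Ng e d
/-- size of the collective part of `w` -/
def Pi (D : List F.Df) (i : F.I) (w : V (F.n i)) : ℝ :=
  (D.map fun d => |w ⬝ᵥ d i|).sum / √(F.n i)
/-- the error `e |w|² + C K + C |Π w|²` -/
def E0 (e C : ℝ) (D : List F.Df) (i : F.I) (w : V (F.n i)) : ℝ :=
  e * (w ⬝ᵥ w) + C * F.K i + C * Pi D i w ^ 2

end Fam

open Fam

/-- a realised network with its class of letters -/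
structure Net (F : Fam) (N : ℕ) where
  X : Fin (N + 1) → F.Vf
  b : F.Df
  f : Fin (N + 1) → F.Lf (N + 1)
  C : Set (F.Lf (N + 1))

namespace Net
variable {F : Fam} {N : ℕ} (R : Net F N)

/-- evaluation of a local function -/
def ev (g : F.Lf (N + 1)) : F.Vf := fun ω k => g ω.1 k (ω.2 k) fun l => R.X l ω k
def dg (g : F.Lf (N + 1)) : F.Mf := fun ω => diagonal (R.ev g ω)
/-- the spin as a letter -/
def sp (R : Net F N) : F.Lf (N + 1) := fun _ _ s _ => spin s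
/-- `tanh h` as a letter -/
def th : F.Lf (N + 1) := fun i k _ ξ => Real.tanh (R.b i k + ξ 0)
/-- `1 - tanh² h` -/
def D : F.Lf (N + 1) := 1 - R.th * R.th
/-- `1 - σ tanh h` -/
def Dt : F.Lf (N + 1) := 1 - R.sp * R.th
def pd (R : Net F N) (m : Fin (N + 1)) (g : F.Lf (N + 1)) : F.Lf (N + 1) := fun i => S3.pd m (g i)
def gs (R : Net F N) (g : F.Lf (N + 1)) : F.Lf (N + 1) := fun i => S3.gs (g i)
/-- Onsager constants -/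
def o (l m : Fin (N + 1)) : F.I → ℝ := F.me (R.ev (R.pd m (R.f l)))
/-- the context of the matrix classes -/
@[reducible] def cx : Cx F.Ω where
  n ω := F.n ω.1
  s ω := F.s ω.1
  K ω := F.K ω.1
  J ω := F.J ω.1
  BL u := ∃ g ∈ R.C, u = R.ev g
  Sc := Sb
  Th := Th
/-- Wick word `J a₁ J … a_k J` -/
def W (l : List (F.Lf (N + 1))) : F.Mf :=
  fun ω => Wk (F.s ω.1) (F.J ω.1) (l.map fun a => R.ev a ω)
/-- local functions, possibly unbounded, with derivatives in the class -/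
def Top (g : F.Lf (N + 1)) : Prop :=
  (∀ i k s, Differentiable ℝ (g i k s)) ∧ R.gs g ∈ R.C ∧ ∀ m, R.pd m g ∈ R.C

structure Ok : Prop where
  bd : ∀ g ∈ R.C, ∃ C : ℝ, ∀ i k s ξ, |g i k s ξ| ≤ C
  diff : ∀ g ∈ R.C, ∀ i k s, Differentiable ℝ (g i k s)
  one : 1 ∈ R.C
  sp : R.sp ∈ R.C
  th : R.th ∈ R.C
  add : ∀ g ∈ R.C, ∀ g' ∈ R.C, g + g' ∈ R.C
  smul : ∀ c : ℝ, ∀ g ∈ R.C, c • g ∈ R.C
  mul : ∀ g ∈ R.C, ∀ g' ∈ R.C, g * g' ∈ R.C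
  pd : ∀ g ∈ R.C, ∀ m, R.pd m g ∈ R.C
  gs : ∀ g ∈ R.C, R.gs g ∈ R.C
  fC : ∀ l, R.f l ∈ R.C
  f0 : R.f 0 = R.sp
  dep : ∀ l i, Dep l (R.f l i)
  X0 : ∀ ω, R.X 0 ω = hf (F.J ω.1) (F.y ω.1) ω.2 - R.b ω.1
  hX : ∀ l, ∃ κ : F.Df, ∀ ω, R.X l ω =
    F.J ω.1 *ᵥ R.ev (R.f l) ω - ∑ m, R.o l m ω.1 • R.ev (R.f m) ω - κ ω.1

/-- bounded, a product up to a small Hilbert-Schmidt error -/
def AK (A : F.Mf) : Prop := R.cx.Op A ∧ R.cx.PK A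
/-- bounded, a word with a clean end up to `M_K` -/
def BK (A : F.Mf) : Prop := R.cx.Op A ∧ ∃ B, R.cx.CW B ∧ R.cx.MK fun ω => A ω - B ω
/-- cubic remainders -/
def RK (A : F.Mf) : Prop := R.cx.Op A ∧ R.cx.Sm fun ω => ∑ j, (∑ k, |A ω k j|) ^ 2
/-- the means of the letters are types -/
def Ty (𝒯 : Set F.Df) : Prop := ∀ d ∈ R.C, ∃ t ∈ 𝒯, Neg fun i => F.EV (R.ev d) i - t i
/-- `R'` extends `R` -/
def Ext {N' : ℕ} (R' : Net F N') : Prop := ∀ g ∈ R.C, ∃ g' ∈ R'.C, R'.ev g' = R.ev g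
/-- the remainder of the chain rule -/
def rem (g : F.Lf (N + 1)) : F.Mf := fun ω => F.jc (R.ev g) ω -
  (diagonal (F.bm (R.ev (R.gs g)) ω).diag + ∑ m, F.bm (R.ev (R.pd m g)) ω ⊙ F.jc (R.X m) ω)

end Net

/-- a flow family: letters, words `Y`, fields `Yb` -/
structure Flow {F : Fam} {N : ℕ} (R : Net F N) (P : ℕ) where
  al : Fin P → F.Lf (N + 1)
  a : Fin P → Fin P → F.Lf (N + 1)
  Y : Fin P → F.Mf
  Yb : Fin P → F.Mf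

namespace Flow
variable {F : Fam} {N P P' : ℕ} {R : Net F N} (Φ : Flow R P)

def ot (i : F.I) (l m : Fin P) : ℝ := F.me (R.ev (Φ.a l m)) i
/-- letters at a point -/
def av (ω : F.Ω) (l m : Fin P) : V (F.n ω.1) := R.ev (Φ.a l m) ω
/-- top word -/
def tT (al : F.Lf (N + 1)) (a : Fin P → F.Lf (N + 1)) : F.Mf :=
  fun ω => R.dg al ω + ∑ m, R.dg (a m) ω * Φ.Y m ω
/-- top flow -/
def tTb (al : F.Lf (N + 1)) (a : Fin P → F.Lf (N + 1)) : F.Mf :=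
  fun ω => diagonal (F.bm (R.ev al) ω).diag + ∑ m, F.bm (R.ev (a m)) ω ⊙ Φ.Yb m ω
def T (l : Fin P) : F.Mf := Φ.tT (Φ.al l) (Φ.a l)
def Tb (l : Fin P) : F.Mf := Φ.tTb (Φ.al l) (Φ.a l)
/-- admissible top letters -/
def Let (Φ : Flow R P) (al : F.Lf (N + 1)) (a : Fin P → F.Lf (N + 1)) : Prop :=
  al ∈ R.C ∧ R.gs al = 0 ∧ ∀ m, a m ∈ R.C

structure Ok : Prop where
  lt : ∀ l, Φ.Let (Φ.al l) (Φ.a l)
  tri : ∀ l m, l ≤ m → Φ.a l m = 0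
  hY : ∀ l ω, Φ.Y l ω = F.J ω.1 * Φ.T l ω - ∑ m, Φ.ot ω.1 l m • Φ.T m ω
  hYb : ∀ l ω, Φ.Yb l ω = F.J ω.1 * Φ.Tb l ω - ∑ m, Φ.ot ω.1 l m • Φ.Tb m ω

/-- the gradient family -/
def IsGrad (Γ : Flow R (N + 1)) : Prop :=
  Γ.Ok ∧ (∀ l, Γ.al l = R.gs (R.f l)) ∧ ∀ l m, Γ.a l m = R.pd m (R.f l)

/-- the pairing constants of two families with the weight `d` -/
def IsP (Φ' : Flow R P') (d : F.Lf (N + 1)) (Pb : Fin P → Fin P' → F.I → ℝ) : Prop :=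
  ∀ l m i, Pb l m i = F.me (R.ev (Φ.al l * d * Φ'.al m)) i +
    ∑ p, ∑ q, F.me (R.ev (Φ.a l p * Φ'.a m q)) i * Pb p q i

/-- drift of a top flow -/
def tA (Φ : Flow R P) (Pb : Fin P → Fin (N + 1) → F.I → ℝ) (Z : Fin P → F.Vf) (al : F.Lf (N + 1))
    (a : Fin P → F.Lf (N + 1)) : F.Vf := fun ω =>
  F.τ ω * R.ev al ω + ∑ m, R.ev (a m) ω * Z m ω - ∑ m, ∑ p, Pb m p ω.1 • R.ev (R.pd p (a m)) ω
/-- `J A - ∑ ot A` -/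
def U (Pb : Fin P → Fin (N + 1) → F.I → ℝ) (Z : Fin P → F.Vf) (l : Fin P) : F.Vf := fun ω =>
  F.J ω.1 *ᵥ Φ.tA Pb Z (Φ.al l) (Φ.a l) ω - ∑ m, Φ.ot ω.1 l m • Φ.tA Pb Z (Φ.al m) (Φ.a m) ω
/-- the drift fields -/
def IsDrift (Γ : Flow R (N + 1)) (Pb : Fin P → Fin (N + 1) → F.I → ℝ) (Z : Fin P → F.Vf) : Prop :=
  Γ.IsGrad ∧ Φ.IsP Γ R.Dt Pb ∧ ∀ l ω, Z l ω = Φ.U Pb Z l ω - F.EV (Φ.U Pb Z l) ω.1
/-- the collective vectors -/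
def IsCol (g c c' : Fin P → F.Vf) : Prop := (∀ l, R.cx.TV (g l)) ∧
  ∀ ω, RecV (F.J ω.1) (Φ.av ω) (Φ.ot ω.1) (fun l => g l ω) (fun l => c l ω) fun l => c' l ω

end Flow

/-- **centred multiplier**, the conclusion of (BIL) -/
def Bil {F : Fam} {N : ℕ} (R : Net F N) (𝒯 : Set F.Df) (ρ : F.Vf) : Prop :=
  ∀ (al : F.Lf (N + 1)) (l : List (F.Lf (N + 1))), al ∈ R.C → (∀ a ∈ l, a ∈ R.C) → ∀ e > (0 : ℝ),
    ∃ D : List F.Df, (∀ d ∈ D, d ∈ 𝒯) ∧ ∃ C : ℝ, ∀ᶠ i in F.l, ∀ z w : V (F.n i),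
      |mean (F.w i) fun x => (z * R.ev al ⟨i, x⟩) ⬝ᵥ R.W l ⟨i, x⟩ *ᵥ (w * ρ ⟨i, x⟩)| ≤
        nrm z * (e * nrm w + C * √(F.K i) * ‖w‖ + C * Fam.Pi D i w)

/-- **(ST) realised**: `ρ` is close to the drift of a top flow of an extension -/
def ST {F : Fam} {N : ℕ} (R : Net F N) (𝒯 : Set F.Df) (ρ : F.Vf) : Prop :=
  ∀ e > (0 : ℝ), ∃ (N' P : ℕ) (R' : Net F N') (Φ : Flow R' P) (Γ : Flow R' (N' + 1))
    (Pb : Fin P → Fin (N' + 1) → F.I → ℝ) (Z : Fin P → F.Vf) (al : F.Lf (N' + 1))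
    (a : Fin P → F.Lf (N' + 1)), R'.Ok ∧ R.Ext R' ∧ R'.Ty 𝒯 ∧ Φ.Ok ∧ Φ.IsDrift Γ Pb Z ∧ Φ.Let al a ∧
      Ng e fun i k => √(mean (F.w i) fun x => (Φ.tA Pb Z al a ⟨i, x⟩ k - ρ ⟨i, x⟩ k) ^ 2)

/-- a two-sided Lipschitz majorant `G` of the excess `g`, small in `L²(μ)` -/
def Exc {n : ℕ} (w : Cube n → ℝ) (e B : ℝ) (g : Cube n → ℝ) : Prop :=
  ∃ G : Cube n → ℝ, (∀ x, g x ≤ G x) ∧ (∀ x, 0 ≤ G x) ∧ TS e G ∧ (mean w fun x => G x ^ 2) ≤ B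

/-- a regular field -/
def Rg {n : ℕ} (e L : ℝ) (Ω : Cube n → V n) : Prop :=
  ∀ x, ‖Ω x‖ ≤ e ∧ opn (jac Ω x) ≤ e ∧ nrm (Ω x) ≤ L ∧ hsJ Ω x ≤ L ^ 2

/-! ### leaves -/

/-- consequences of `ATd`: (H2), (H3), (TR) -/
def HBStmt : Prop := ∀ K0 κ0 RJ : ℝ, 0 < κ0 → ∃ C c : ℝ, 0 < c ∧ ∀ (n : ℕ) (w : Cube n → ℝ),
  (∀ x, 0 < w x) → ATd w K0 (Real.exp (-(κ0 * n))) →
  (∀ (G : Cube n → ℝ) (A : ℝ), (∀ x, 0 ≤ G x) → (∀ x, vp G x ≤ A) → ∀ ν, IsP ν →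
    Chain22.mean ν (fun x => G x ^ 2) ≤ 2 * mean w G ^ 2 + C * A * (Ent.kl ν (prob w) + 1)) ∧
  (∀ (G : Cube n → ℝ) (A : ℝ), TS A G →
    (mean w fun x => (G x - mean w G) ^ 2) ≤
      C * (mean w fun x => grad G x ⬝ᵥ grad G x) + C * A * Real.exp (-(c * n)) ∧
    (mean w fun x => (G x - mean w G) ^ 4) ≤
      C * A * (mean w fun x => grad G x ⬝ᵥ grad G x) + C * A ^ 2 * Real.exp (-(c * n))) ∧
  ∀ (J : Mx n) (y : V n), Jᵀ = J → (∀ j, J j j = 0) → opn J ≤ RJ → w = ising J y →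
  ∀ (G : Cube n → ℝ) (Ω : Cube n → V n) (e L B θ : ℝ), Rg e L Ω →
    Exc w (e ^ 2) B (fun x => nrm (grad G x - Ω x)) → (∀ x, nrm (grad G x) ≤ L) → 0 < θ →
    θ * e ≤ c → θ * L ≤ c * √n → ∀ ν, IsP ν →
    |Chain22.mean ν G - mean w G| ≤ (Ent.kl ν (prob w) + C) / θ +
      C * θ * ((mean w fun x => grad G x ⬝ᵥ (Dg J y x * grad G x)) + B + e ^ 2)

/-- existence of the words, fields, pairing constants and of the recursions -/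
def ExStmt : Prop := ∀ (F : Fam) (N P : ℕ) (R : Net F N),
  (∀ (al : Fin P → F.Lf (N + 1)) (a : Fin P → Fin P → F.Lf (N + 1)),
    (∀ l, al l ∈ R.C ∧ R.gs (al l) = 0 ∧ ∀ m, a l m ∈ R.C) → (∀ l m, l ≤ m → a l m = 0) →
    ∃ Φ : Flow R P, Φ.Ok ∧ Φ.al = al ∧ Φ.a = a) ∧
  (R.Ok → ∃ Γ : Flow R (N + 1), Γ.IsGrad) ∧
  (∀ (P' : ℕ) (Φ : Flow R P) (Φ' : Flow R P') (d : F.Lf (N + 1)), Φ.Ok → ∃ Pb, Φ.IsP Φ' d Pb) ∧
  ∀ Φ : Flow R P, Φ.Ok → ∀ ω : F.Ω,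
    (∀ z, ∃ u v, Back (F.J ω.1) (Φ.av ω) (Φ.ot ω.1) z u v) ∧
    ∀ g, ∃ c c', RecV (F.J ω.1) (Φ.av ω) (Φ.ot ω.1) g c c'

/-- duality between the recursions and the backpropagation -/
def DualStmt : Prop := ∀ (n P : ℕ) (J : Mx n) (a : Fin P → Fin P → V n) (ot : Fin P → Fin P → ℝ)
    (z u v : Fin P → V n), Jᵀ = J → Back J a ot z u v →
  (∀ S T Y, RecM J a ot S T Y → ∑ l, (Y l)ᵀ *ᵥ z l = ∑ l, (S l)ᵀ *ᵥ v l) ∧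
  ∀ g c c', RecV J a ot g c c' → ∑ l, z l ⬝ᵥ c' l = ∑ l, v l ⬝ᵥ g l

/-- the scalar classes -/
def ClsStmt : Prop := ∀ F : Fam, F.Ok →
  (∀ s : F.Sf, Sb s → Th fun ω => s ω - F.E s ω.1) ∧
  (∀ s t : F.Sf, Sb s → Th t → Th fun ω => s ω * t ω) ∧
  (∀ s : F.Sf, Th s → ∃ C : ℝ, ∀ i ν, IsP ν →
    Chain22.mean ν (fun x => s ⟨i, x⟩ ^ 2) ≤ C * (F.H i ν + 1) / F.n i) ∧
  (∀ f : F.Sf, Sq f → ∃ C : ℝ, ∀ i ν, IsP ν →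
    Chain22.mean ν (fun x => f ⟨i, x⟩) ≤ C * (F.K i + F.H i ν)) ∧
  ∀ (N : ℕ) (R : Net F N) (f : F.Sf), R.cx.Sm f → Sq f ∧ ∃ C : ℝ, ∀ i ν, IsP ν →
    Chain22.mean ν (fun x => √(f ⟨i, x⟩)) ≤ C * (√(F.K i) + F.H i ν / √(F.n i))

/-- **(J1)** the context, operator norms, chain rule with remainder, freeness -/
def J1Stmt : Prop := ∀ (F : Fam) (N : ℕ) (R : Net F N), F.Ok → R.Ok → R.cx.Ok ∧
  (∀ l, R.cx.Op (F.jc (R.X l))) ∧ (∀ g ∈ R.C, R.Top g) ∧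
  (∀ g, R.Top g → R.cx.Op (F.jc (R.ev g)) ∧ ∃ C : ℝ, ∀ ω k j,
    |R.rem g ω k j| ≤ C * ∑ m, |F.jc (R.X m) ω k j| ^ (if k = j then 2 else 3)) ∧
  ∀ (P : ℕ) (Φ : Flow R P), Φ.Ok → (∀ l, R.cx.Op (Φ.Y l) ∧ R.cx.Op (Φ.Yb l)) ∧
    ∀ al a, Φ.Let al a → R.cx.Op (Φ.tT al a) ∧ R.cx.Op (Φ.tTb al a) ∧
      ∀ i, FreeM fun x => Φ.tTb al a ⟨i, x⟩

/-- **(DG)** diagonal of a product with an arbitrary weight in the middle -/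
def DGStmt : Prop := ∀ (F : Fam) (N : ℕ) (R : Net F N), R.cx.Ok → ∀ A B, R.BK A → R.AK B →
  ∃ (D : List (F.Lf (N + 1))) (f : F.Sf) (C : ℝ), (∀ d ∈ D, d ∈ R.C) ∧ Sq f ∧
    ∀ (ω : F.Ω) (v : V (F.n ω.1)), nrm (A ω * diagonal v * B ω).diag ≤
      ‖v‖ * √(f ω) + C * (D.map fun d => |v ⬝ᵥ R.ev d ω|).sum / √(F.n ω.1)

/-- **(WX)** -/
def WXStmt : Prop := ∀ (F : Fam) (N P : ℕ) (R : Net F N) (Φ : Flow R P), F.Ok → R.Ok → Φ.Ok →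
  (∃ (Ω : Fin P → Fin P → F.Mf) (L : Fin P → Fin P → List (List (F.Lf (N + 1)))),
    (∀ l m, (∀ u ∈ L l m, ∀ a ∈ u, a ∈ R.C) ∧
      R.cx.TP fun ω => Ω l m ω - ((L l m).map fun u => R.W u ω).sum) ∧
    ∀ ω S T Y, RecM (F.J ω.1) (Φ.av ω) (Φ.ot ω.1) S T Y → ∀ l, Y l = ∑ m, Ω l m ω * S m) ∧
  ∀ (P' : ℕ) (Φ' : Flow R P') (d : F.Lf (N + 1)) (Pb : Fin P → Fin P' → F.I → ℝ), Φ'.Ok → d ∈ R.C →
    Φ.IsP Φ' d Pb → ∀ l m, (∃ C : ℝ, ∀ i, |Pb l m i| ≤ C) ∧ ∃ B, R.cx.CW B ∧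
      R.cx.TP fun ω => Φ.Y l ω * R.dg d ω * (Φ'.Y m ω)ᵀ - Pb l m ω.1 • 1 - B ω

/-- **(J2), (J3)** -/
def J2Stmt : Prop := ∀ (F : Fam) (N : ℕ) (R : Net F N), F.Ok → R.Ok →
  (∀ (P : ℕ) (Φ : Flow R P), Φ.Ok →
    (∀ l, R.cx.MK (fun ω => Φ.Yb l ω - Φ.Y l ω) ∧ R.BK (Φ.Y l) ∧ R.BK (Φ.Yb l)) ∧
    ∀ al a, Φ.Let al a → R.cx.MK (fun ω => Φ.tTb al a ω - Φ.tT al a ω) ∧
      R.AK (Φ.tT al a) ∧ R.AK (Φ.tTb al a)) ∧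
  ∀ Γ : Flow R (N + 1), Γ.IsGrad →
    (∀ l, R.cx.MK (fun ω => F.jc (R.X l) ω - Γ.Y l ω) ∧ R.BK (F.jc (R.X l))) ∧
    ∀ g, R.Top g →
      R.cx.MK (fun ω => F.jc (R.ev g) ω - Γ.tT (R.gs g) (fun m => R.pd m g) ω) ∧
      R.AK (F.jc (R.ev g)) ∧ R.RK (R.rem g)

/-- **(CL)** -/
def CLStmt : Prop := ∀ (F : Fam) (N P : ℕ) (R : Net F N) (Φ : Flow R P) (Γ : Flow R (N + 1))
    (Pb : Fin P → Fin (N + 1) → F.I → ℝ) (Z : Fin P → F.Vf),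
  F.Ok → R.Ok → Φ.Ok → Φ.IsDrift Γ Pb Z → ∃ g c c' : Fin P → F.Vf, Φ.IsCol g c c' ∧
    (∀ l, Sq fun ω => c' l ω ⬝ᵥ c' l ω) ∧
    ∀ al a, Φ.Let al a → ∃ g0, R.cx.TV g0 ∧ R.cx.O2 fun ω =>
      Φ.tTb al a ω *ᵥ F.τ ω - Φ.tA Pb Z al a ω - (g0 ω + ∑ m, R.ev (a m) ω * c' m ω)

/-- **(BIL)** -/
def BILStmt : Prop := ∀ (F : Fam) (N : ℕ) (R : Net F N) (𝒯 : Set F.Df) (ρ : F.Vf),
  F.Ok → R.Ok → ST R 𝒯 ρ → Bil R 𝒯 ρ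

/-- **(GRAM)**, bilinear form -/
def GRAMStmt : Prop := ∀ (F : Fam) (N P P' : ℕ) (R : Net F N) (𝒯 : Set F.Df) (Φ : Flow R P)
    (Φ' : Flow R P') (d al al' : F.Lf (N + 1)) (a : Fin P → F.Lf (N + 1))
    (a' : Fin P' → F.Lf (N + 1)) (Pb : Fin P → Fin P' → F.I → ℝ),
  F.Ok → R.Ok → Φ.Ok → Φ'.Ok → d ∈ R.C → Φ.IsP Φ' d Pb → Φ.Let al a → Φ'.Let al' a' →
  (∀ m, Bil R 𝒯 (R.ev (a m))) → (∀ m, Bil R 𝒯 (R.ev (a' m))) → ∀ e > (0 : ℝ),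
  ∃ D : List F.Df, (∀ t ∈ D, t ∈ 𝒯) ∧ ∃ C : ℝ, ∀ᶠ i in F.l, ∀ w : V (F.n i),
    |(mean (F.w i) fun x =>
        ((Φ.tT al a ⟨i, x⟩)ᵀ *ᵥ w) ⬝ᵥ (R.ev d ⟨i, x⟩ * (Φ'.tT al' a' ⟨i, x⟩)ᵀ *ᵥ w)) -
      (w * w) ⬝ᵥ (F.EV (R.ev (al * d * al')) i +
        ∑ l, ∑ m, Pb l m i • F.EV (R.ev (a l * a' m)) i)| ≤
      e * (w ⬝ᵥ w) + C * F.K i * ‖w‖ ^ 2 + C * Fam.Pi D i w ^ 2

/-- **(REG), first half**: the clipped backpropagation -/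
def REG1Stmt : Prop := ∀ (F : Fam) (N P : ℕ) (R : Net F N) (𝒯 : Set F.Df) (Φ : Flow R P)
    (a : Fin P → F.Lf (N + 1)),
  F.Ok → R.Ok → Φ.Ok → (∀ m, a m ∈ R.C) → (∀ m, Bil R 𝒯 (R.ev (a m))) →
  ∃ C0 : ℝ, ∀ e > (0 : ℝ), ∃ η > (0 : ℝ), ∃ D : List F.Df, (∀ t ∈ D, t ∈ 𝒯) ∧ ∃ C : ℝ,
    ∀ᶠ i in F.l, ∀ w : V (F.n i), ‖w‖ ≤ η → ∃ vt : Fin P → Cube (F.n i) → V (F.n i),
      (∀ l, Rg e (C0 * nrm w) (vt l)) ∧ ∀ u v : Fin P → Cube (F.n i) → V (F.n i),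
        (∀ x, Back (F.J i) (Φ.av ⟨i, x⟩) (Φ.ot i) (fun l => w * R.ev (a l) ⟨i, x⟩)
          (fun l => u l x) fun l => v l x) →
        ∀ l, Exc (F.w i) e (E0 e C D i w) fun x => nrm (v l x - vt l x)

/-- **(REG)** -/
def REGStmt : Prop := ∀ (F : Fam) (N P : ℕ) (R : Net F N) (𝒯 : Set F.Df) (Φ : Flow R P)
    (al : F.Lf (N + 1)) (a : Fin P → F.Lf (N + 1)),
  F.Ok → R.Ok → R.Ty 𝒯 → Φ.Ok → Φ.Let al a → (∀ m, Bil R 𝒯 (R.ev (a m))) →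
  ∃ C0 : ℝ, ∀ e > (0 : ℝ), ∃ η > (0 : ℝ), ∃ D : List F.Df, (∀ t ∈ D, t ∈ 𝒯) ∧ ∃ C : ℝ,
    ∀ᶠ i in F.l, ∀ w : V (F.n i), ‖w‖ ≤ η → ∃ Ω, Rg e (C0 * nrm w) Ω ∧
      Exc (F.w i) e (E0 e C D i w) (fun x => nrm ((Φ.tT al a ⟨i, x⟩)ᵀ *ᵥ w - Ω x)) ∧
      Exc (F.w i) e (E0 e C D i w) fun x => nrm ((Φ.tTb al a ⟨i, x⟩)ᵀ *ᵥ w - Ω x)

/-- **(REG)** for gradients -/
def REGgStmt : Prop := ∀ (F : Fam) (N : ℕ) (R : Net F N) (𝒯 : Set F.Df) (Γ : Flow R (N + 1))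
    (ψ : F.Lf (N + 1)),
  F.Ok → R.Ok → R.Ty 𝒯 → Γ.IsGrad → R.Top ψ → (∀ m, Bil R 𝒯 (R.ev (R.pd m ψ))) →
  ∃ C0 : ℝ, ∀ e > (0 : ℝ), ∃ η > (0 : ℝ), ∃ D : List F.Df, (∀ t ∈ D, t ∈ 𝒯) ∧ ∃ C : ℝ,
    ∀ᶠ i in F.l, ∀ w : V (F.n i), ‖w‖ ≤ η → ∃ Ω, Rg e (C0 * nrm w) Ω ∧
      Exc (F.w i) e (E0 e C D i w)
        (fun x => nrm ((Γ.tT (R.gs ψ) (fun m => R.pd m ψ) ⟨i, x⟩)ᵀ *ᵥ w - Ω x)) ∧
      Exc (F.w i) e (E0 e C D i w) fun x => nrm (grad (fun z => w ⬝ᵥ R.ev ψ ⟨i, z⟩) x - Ω x)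

/-- **(COL)** the collective part of (CL) -/
def COLStmt : Prop := ∀ (F : Fam) (N P : ℕ) (R : Net F N) (𝒯 : Set F.Df) (Φ : Flow R P)
    (a : Fin P → F.Lf (N + 1)) (g c c' : Fin P → F.Vf) (g0 : F.Vf),
  F.Ok → R.Ok → R.Ty 𝒯 → Φ.Ok → (∀ m, a m ∈ R.C) → (∀ m, Bil R 𝒯 (R.ev (a m))) →
  Φ.IsCol g c c' → R.cx.TV g0 →
  ∀ e > (0 : ℝ), ∃ η > (0 : ℝ), ∃ D : List F.Df, (∀ t ∈ D, t ∈ 𝒯) ∧ ∃ C : ℝ,
    ∀ᶠ i in F.l, ∀ w : V (F.n i), ‖w‖ ≤ η → ∀ ν, IsP ν →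
      Chain22.mean ν (fun x => |w ⬝ᵥ (g0 ⟨i, x⟩ + ∑ m, R.ev (a m) ⟨i, x⟩ * c' m ⟨i, x⟩)|) ≤
        E0 e C D i w + e * F.H i ν

/-- glue: the leaves and what they may use -/
def ClsGlue : Prop := HBStmt → ClsStmt
def J1Glue : Prop := ClsStmt → J1Stmt
def WXGlue : Prop := ClsStmt → J1Stmt → WXStmt
def J2Glue : Prop := ClsStmt → J1Stmt → WXStmt → J2Stmt
def CLGlue : Prop := ExStmt → ClsStmt → J1Stmt → WXStmt → J2Stmt → CLStmt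
def BILGlue : Prop := HBStmt → ExStmt → ClsStmt → J1Stmt → J2Stmt → DGStmt → CLStmt → BILStmt
def GRAMGlue : Prop := ClsStmt → J1Stmt → WXStmt → GRAMStmt
def REG1Glue : Prop := HBStmt → ExStmt → DualStmt → ClsStmt → J1Stmt → WXStmt → REG1Stmt
def REGGlue : Prop := HBStmt → ExStmt → DualStmt → ClsStmt → J1Stmt → WXStmt → J2Stmt → DGStmt →
  REG1Stmt → REGStmt ∧ REGgStmt
def COLGlue : Prop := HBStmt → ExStmt → DualStmt → ClsStmt → J1Stmt → WXStmt → REG1Stmt → COLStmt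

end Crest.Agent.T157.S3

end
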