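import Crest.Agent.T157.S3RgA_78
import Crest.Agent.T157.EntE_34

/-!
# Row 157, part B, block S3 (helper78): the clipped backpropagation (one instance)

`HB w K` collects the three concentration inequalities which are used.  `BP.exists_clip` builds the
clipped weights, `BP.err_le` is the pointwise bound of the error by the excess, `BP.mean_exc` the
bound of the mean excess.
-/

set_option autoImplicit false
set_option linter.unusedSectionVars false

noncomputable section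

namespace Crest.Agent.T157.S3.Rg

open Matrix Finset
open Crest.Agent.T157.E (Cube sv prob meanV)
open Crest.Agent.T157.Eig Crest.Agent.T157.Rec
open Crest.Agent.T157.Chain22 (mean IsP isP_prob')
open Crest.Agent.T157.Ent (kl)

variable {n P : ℕ}

/-! ### triangular inductions -/

/-- rank for the backpropagation -/
def rk (l : Fin P) : ℕ := P - 1 - l

lemma rk_lt {l p : Fin P} (h : l < p) : rk p < rk l := by
  have := p.2; have : (l : ℕ) < p := h; unfold rk; omega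

lemma rk_lt' (l : Fin P) : rk l < P := by have := l.2; unfold rk; omega

lemma rk_ind {Q : Fin P → ℕ → Prop} (mono : ∀ l i j, i ≤ j → Q l i → Q l j)
    (step : ∀ l, (∀ p, l < p → Q p (rk l)) → Q l (rk l + 1)) (l : Fin P) : Q l (rk l + 1) := by
  induction h : rk l using Nat.strong_induction_on generalizing l with
  | _ i ih =>
    subst h
    exact step l fun p hp => mono p _ _ (rk_lt hp) (ih _ (rk_lt hp) p rfl)

lemma exists_rec {X : Type*} [Inhabited X] (F : (Fin P → X) → Fin P → X)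
    (hF : ∀ v v' l, (∀ p, l < p → v p = v' p) → F v l = F v' l) : ∃ v, ∀ l, v l = F v l := by
  have key : ∀ i l, rk l < i → F^[i] default l = F^[i + 1] default l := by
    intro i
    induction i with
    | zero => intro l h; omega
    | succ i ih =>
      intro l h
      rw [Function.iterate_succ_apply' F (i + 1), Function.iterate_succ_apply' F i]
      refine hF _ _ l fun p hp => ?_
      rw [ih p (by have := rk_lt hp; omega), Function.iterate_succ_apply' F i]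
  exact ⟨F^[P] default, fun l => by rw [key P l (rk_lt' l), Function.iterate_succ_apply' F P]⟩

lemma sum_le_of_le {f : Fin P → ℝ} {c A : ℝ} (hP : (P : ℝ) ≤ A) (hc : 0 ≤ c) (h : ∀ p, f p ≤ c) :
    ∑ p, f p ≤ A * c := by
  refine (sum_le_sum fun p _ => h p).trans ?_
  rw [sum_const, card_univ, Fintype.card_fin, nsmul_eq_mul]
  exact mul_le_mul_of_nonneg_right hP hc

lemma tri_gron {a : Fin P → ℝ} {c Q A : ℝ} (hP : (P : ℝ) ≤ A) (hc : 0 ≤ c) (hQ : 0 ≤ Q)
    (h : ∀ l, a l ≤ c * (∑ p, if l < p then a p else 0) + Q) (l : Fin P) :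
    a l ≤ (1 + c * A) ^ P * Q := by
  have hA : 0 ≤ A := (Nat.cast_nonneg _).trans hP
  have h1 : 1 ≤ 1 + c * A := le_add_of_nonneg_right (mul_nonneg hc hA)
  have mono : ∀ (l : Fin P) (i j : ℕ), i ≤ j → a l ≤ (1 + c * A) ^ i * Q →
      a l ≤ (1 + c * A) ^ j * Q := fun l i j hij h =>
    h.trans (mul_le_mul_of_nonneg_right (pow_le_pow_right₀ h1 hij) hQ)
  refine mono l _ _ (rk_lt' l) (rk_ind mono (fun l ih => (h l).trans ?_) l)
  have h2 : 0 ≤ (1 + c * A) ^ rk l * Q := by positivity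
  have h3 := mul_le_mul_of_nonneg_left (sum_le_of_le (f := fun p => if l < p then a p else 0) hP h2
    fun p => by split_ifs with hp; exacts [ih p hp, h2]) hc
  have h4 := mul_le_mul_of_nonneg_right (one_le_pow₀ (n := rk l) h1) hQ
  rw [pow_succ]; nlinarith

/-! ### means -/

section mean
variable {Ω : Type*} [Fintype Ω] {ν : Ω → ℝ}

lemma mean_add' (f g : Ω → ℝ) : mean ν (fun x => f x + g x) = mean ν f + mean ν g :=
  Chain22.mean_add ν f g
lemma mean_sub' (f g : Ω → ℝ) : mean ν (fun x => f x - g x) = mean ν f - mean ν g :=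
  Chain22.mean_sub ν f g
lemma mean_mul' (c : ℝ) (f : Ω → ℝ) : mean ν (fun x => c * f x) = c * mean ν f :=
  Chain22.mean_smul ν c f
lemma mean_sum' {σ : Type*} (t : Finset σ) (f : σ → Ω → ℝ) :
    mean ν (fun x => ∑ i ∈ t, f i x) = ∑ i ∈ t, mean ν (f i) := by
  simp only [mean, mul_sum]; exact sum_comm
lemma mean_sq (h : IsP ν) (f : Ω → ℝ) : mean ν f ^ 2 ≤ mean ν fun x => f x ^ 2 := by
  have := h.mean_sq_le f
  rw [Chain22.ip_eq_mean] at this
  simpa only [sq] using this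
lemma abs_mean (h : IsP ν) (f : Ω → ℝ) : |mean ν f| ≤ mean ν fun x => |f x| := by
  refine abs_le.2 ⟨?_, h.mean_mono fun x => le_abs_self _⟩
  have := h.mean_mono (f := fun x => -1 * |f x|) (g := f) fun x => by linarith [neg_abs_le (f x)]
  rw [mean_mul'] at this; linarith

end mean

lemma nrm_meanV_sq {w : Cube n → ℝ} (hw : ∀ x, 0 < w x) (u : VF n) :
    nrm (meanV w u) ^ 2 ≤ mean (prob w) fun x => nrm (u x) ^ 2 := by
  simp only [nrm_sq']
  rw [mean_sum']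
  exact sum_le_sum fun k _ => mean_sq (isP_prob' hw) _

/-- the excess over the level `η` -/
def exc (η : ℝ) (z : Fin n → ℝ) : ℝ := ∑ k, max (|z k| - η) 0 ^ 2

lemma exc_nonneg (η : ℝ) (z : Fin n → ℝ) : 0 ≤ exc η z := sum_nonneg fun _ _ => sq_nonneg _

lemma nrm_sub_cv {η : ℝ} (hη : 0 < η) (z : Fin n → ℝ) : nrm (z - cv η z) ^ 2 ≤ exc η z := by
  rw [nrm_sq']
  refine sum_le_sum fun k _ => ?_
  rw [← sq_abs]
  exact pow_le_pow_left₀ (abs_nonneg _) (abs_sub_clip hη (z k)) 2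

lemma exc_le {η : ℝ} (hη : 0 < η) (z m : Fin n → ℝ) :
    exc η z ≤ 2 * nrm m ^ 2 + (∑ k, (z k - m k) ^ 4) / (8 * η ^ 2) := by
  rw [nrm_sq', mul_sum, sum_div, ← sum_add_distrib]
  refine sum_le_sum fun k _ => ?_
  have h1 : max (|z k| - η) 0 ≤ |m k| + (z k - m k) ^ 2 / (4 * η) := by
    refine max_le ?_ (by positivity)
    have h2 : |z k - m k| - η ≤ (z k - m k) ^ 2 / (4 * η) := by
      rw [le_div_iff₀ (by positivity), ← sq_abs (z k - m k)]
      nlinarith [sq_nonneg (|z k - m k| - 2 * η)]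
    have := abs_sub_abs_le_abs_sub (z k) (m k)
    linarith
  have h3 := pow_le_pow_left₀ (le_max_right _ _) h1 2
  have h4 : (z k - m k) ^ 4 / (8 * η ^ 2) = 2 * ((z k - m k) ^ 2 / (4 * η)) ^ 2 := by
    field_simp; ring
  rw [h4, ← sq_abs (m k)]
  nlinarith [sq_nonneg (|m k| - (z k - m k) ^ 2 / (4 * η))]

/-- the concentration inequalities which are used -/
structure HB (w : Cube n → ℝ) (K : ℝ) : Prop where
  pos : ∀ x, 0 < w x
  K0 : 0 ≤ K
  four : ∀ (u : VF n) (δ h : ℝ), (∀ x, opn (dM u x) ≤ δ) → (∀ x, fro (dM u x) ≤ h) →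
    mean (prob w) (fun x => ∑ k, (u x k - meanV w u k) ^ 4) ≤ K * δ ^ 2 * (h ^ 2 + δ ^ 2)
  var : ∀ (F : Cube n → ℝ) (A : ℝ), (∀ x, nrm (grad F x) ≤ A) →
    mean (prob w) (fun x => (F x - mean (prob w) F) ^ 2) ≤ K * A ^ 2
  sq : ∀ (G : Cube n → ℝ) (A : ℝ) (ν : Cube n → ℝ), (∀ x, 0 ≤ G x) →
    (∀ x, ∑ j, (G x - G (fl x j)) ^ 2 ≤ A) → IsP ν → mean ν (fun x => G x ^ 2) ≤
      2 * mean (prob w) (fun x => G x ^ 2) + K * A * (kl ν (prob w) + 1)

/-! ### backpropagation -/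

/-- the letters -/
structure BP (n P : ℕ) where
  J : Matrix (Fin n) (Fin n) ℝ
  a0 : Fin P → VF n
  a : Fin P → Fin P → VF n
  ot : Fin P → Fin P → ℝ

/-- a bounded field with bounded Jacobian -/
def Bd (A : ℝ) (a : VF n) : Prop := ∀ x, (∀ k, |a x k| ≤ A) ∧ opn (dM a x) ≤ A
/-- the same in the Euclidean norms -/
def Bd2 (h : ℝ) (a : VF n) : Prop := ∀ x, nrm (a x) ≤ h ∧ fro (dM a x) ≤ h

lemma Bd.mono {A B : ℝ} {a : VF n} (h : Bd A a) (e : A ≤ B) : Bd B a :=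
  fun x => ⟨fun k => ((h x).1 k).trans e, (h x).2.trans e⟩
lemma Bd2.mono {A B : ℝ} {a : VF n} (h : Bd2 A a) (e : A ≤ B) : Bd2 B a :=
  fun x => ⟨(h x).1.trans e, (h x).2.trans e⟩
lemma bd_const {w : Fin n → ℝ} {s : ℝ} (hs : 0 ≤ s) (h : ∀ k, |w k| ≤ s) : Bd s fun _ => w :=
  fun x => ⟨h, by rw [dM_const, ← zero_smul ℝ (0 : Matrix (Fin n) (Fin n) ℝ), opn_smul]; simpa⟩
lemma bd2_const {w : Fin n → ℝ} {s : ℝ} (h : nrm w ≤ s) : Bd2 s fun _ => w :=
  fun x => ⟨h, by rw [dM_const, fro_zero]; exact (nrm_nonneg _).trans h⟩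
lemma Bd.mul {A s : ℝ} {a v : VF n} (hA : 0 ≤ A) (hs : 0 ≤ s) (ha : Bd A a) (hv : Bd s v) :
    Bd (4 * A * s) fun x => a x * v x := fun x =>
  ⟨fun k => by
    change |a x k * v x k| ≤ _
    rw [abs_mul]
    nlinarith [mul_le_mul ((ha x).1 k) ((hv x).1 k) (abs_nonneg _) hA, mul_nonneg hA hs],
   (opn_dM_mul hA hs (ha x).1 (ha x).2 (hv x).1 (hv x).2).trans_eq (by ring)⟩
lemma Bd.mul2 {A s : ℝ} {a v : VF n} (hA : 0 ≤ A) (ha : Bd A a) (hv : Bd2 s v) :
    Bd2 (4 * A * s) fun x => a x * v x := fun x =>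
  ⟨(nrm_mul_le hA (ha x).1).trans (by
    nlinarith [mul_le_mul_of_nonneg_left (hv x).1 hA,
      mul_nonneg hA ((nrm_nonneg _).trans (hv x).1)]),
   fro_dM_mul hA (ha x).1 (ha x).2 (hv x).1 (hv x).2⟩
lemma Bd.add {s t : ℝ} {u v : VF n} (hu : Bd s u) (hv : Bd t v) : Bd (s + t) fun x => u x + v x :=
  fun x => ⟨fun k => (abs_add_le _ _).trans (add_le_add ((hu x).1 k) ((hv x).1 k)), by
    rw [dM_add]; exact (opn_add_le _ _).trans (add_le_add (hu x).2 (hv x).2)⟩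
lemma Bd2.add {s t : ℝ} {u v : VF n} (hu : Bd2 s u) (hv : Bd2 t v) :
    Bd2 (s + t) fun x => u x + v x :=
  fun x => ⟨(nrm_add_le _ _).trans (add_le_add (hu x).1 (hv x).1), by
    rw [dM_add]; exact (fro_add_le _ _).trans (add_le_add (hu x).2 (hv x).2)⟩
lemma Bd.sum {s A : ℝ} {u : Fin P → VF n} (hP : (P : ℝ) ≤ A) (hs : 0 ≤ s) (hu : ∀ p, Bd s (u p)) :
    Bd (A * s) fun x => ∑ p, u p x := fun x =>
  ⟨fun k => by
    simp only [Finset.sum_apply]
    exact (abs_sum_le_sum_abs _ _).trans (sum_le_of_le hP hs fun p => (hu p x).1 k), by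
    rw [dM_sum]; exact (opn_sum_le _ _).trans (sum_le_of_le hP hs fun p => (hu p x).2)⟩
lemma Bd2.sum {s A : ℝ} {u : Fin P → VF n} (hP : (P : ℝ) ≤ A) (hs : 0 ≤ s)
    (hu : ∀ p, Bd2 s (u p)) : Bd2 (A * s) fun x => ∑ p, u p x := fun x =>
  ⟨(nrm_sum_le _ _).trans (sum_le_of_le hP hs fun p => (hu p x).1), by
    rw [dM_sum]; exact (fro_sum_le _ _).trans (sum_le_of_le hP hs fun p => (hu p x).2)⟩

namespace BP

variable (d : BP n P)

structure Ok (A : ℝ) : Prop where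
  A1 : 1 ≤ A
  hP : (P : ℝ) ≤ A
  J : opn d.J ≤ A
  a0 : ∀ l, Bd A (d.a0 l)
  a : ∀ p l, Bd A (d.a p l)
  ot : ∀ p l, |d.ot p l| ≤ A
  tri : ∀ p l, p ≤ l → d.a p l = 0 ∧ d.ot p l = 0

/-- the weight arriving at `Y l` -/
def U (w : Fin n → ℝ) (v : Fin P → VF n) (l : Fin P) : VF n :=
  fun x => w * d.a0 l x + ∑ p, d.a p l x * v p x
/-- the weight arriving at `T l` -/
def Z (w : Fin n → ℝ) (v : Fin P → VF n) (l : Fin P) : VF n :=
  fun x => d.J *ᵥ d.U w v l x - ∑ p, d.ot p l • d.U w v p x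

variable {d} {A s : ℝ} {w : Fin n → ℝ} {v v' : Fin P → VF n} {l : Fin P}

lemma Ok.A0 (h : d.Ok A) : 0 ≤ A := zero_le_one.trans h.A1

lemma U_congr (h : d.Ok A) (e : ∀ p, l < p → v p = v' p) : d.U w v l = d.U w v' l := by
  funext x
  unfold U
  congr 1
  refine sum_congr rfl fun p _ => ?_
  rcases lt_or_ge l p with hp | hp
  · rw [e p hp]
  · simp [(h.tri p l hp).1]

lemma Z_congr (h : d.Ok A) (e : ∀ p, l < p → v p = v' p) : d.Z w v l = d.Z w v' l := by
  funext x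
  unfold Z
  rw [U_congr h e]
  congr 1
  refine sum_congr rfl fun p _ => ?_
  rcases lt_or_ge l p with hp | hp
  · rw [U_congr h fun q hq => e q (hp.trans hq)]
  · simp [(h.tri p l hp).2]

lemma Z_sub (w : Fin n → ℝ) (v v' : Fin P → VF n) (l : Fin P) (x : Cube n) :
    d.Z w v l x - d.Z w v' l x = d.Z 0 (fun p y => v p y - v' p y) l x := by
  have e : ∀ l, d.U 0 (fun p y => v p y - v' p y) l x = d.U w v l x - d.U w v' l x := fun l => by
    simp only [U, mul_sub, sum_sub_distrib, zero_mul]; abel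
  simp only [Z, e, mulVec_sub, smul_sub, sum_sub_distrib]; abel

lemma U_nrm (h : d.Ok A) {x : Cube n} (hw : nrm w ≤ s) (hv : ∀ p, l < p → nrm (v p x) ≤ s) :
    nrm (d.U w v l x) ≤ 2 * A ^ 2 * s := by
  have hs : 0 ≤ s := (nrm_nonneg _).trans hw
  have hA := h.A0
  have h1 : nrm (w * d.a0 l x) ≤ A * s := by
    rw [mul_comm w]
    exact (nrm_mul_le hA (h.a0 l x).1).trans (mul_le_mul_of_nonneg_left hw hA)
  have h2 : nrm (∑ p, d.a p l x * v p x) ≤ A * (A * s) :=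
    (nrm_sum_le _ _).trans (sum_le_of_le h.hP (by positivity) fun p => by
      rcases lt_or_ge l p with hp | hp
      · exact (nrm_mul_le hA (h.a p l x).1).trans (mul_le_mul_of_nonneg_left (hv p hp) hA)
      · rw [(h.tri p l hp).1, Pi.zero_apply, zero_mul, nrm_zero]; positivity)
  have h3 := mul_le_mul_of_nonneg_right h.A1 (mul_nonneg hA hs)
  exact (nrm_add_le _ _).trans (by nlinarith)

lemma Z_nrm (h : d.Ok A) {x : Cube n} (hw : nrm w ≤ s) (hv : ∀ p, l < p → nrm (v p x) ≤ s) :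
    nrm (d.Z w v l x) ≤ 4 * A ^ 4 * s := by
  have hs : 0 ≤ s := (nrm_nonneg _).trans hw
  have hA := h.A0
  have h1 := (nrm_mulVec_le d.J _).trans (mul_le_mul h.J (U_nrm h hw hv) (nrm_nonneg _) hA)
  have h2 : nrm (∑ p, d.ot p l • d.U w v p x) ≤ A * (A * (2 * A ^ 2 * s)) :=
    (nrm_sum_le _ _).trans (sum_le_of_le h.hP (by positivity) fun p => by
      rw [nrm_smul]
      rcases lt_or_ge l p with hp | hp
      · exact mul_le_mul (h.ot p l) (U_nrm h hw fun q hq => hv q (hp.trans hq)) (nrm_nonneg _) hA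
      · rw [(h.tri p l hp).2, abs_zero, zero_mul]; positivity)
  have h3 := mul_le_mul_of_nonneg_right h.A1 (by positivity : 0 ≤ A * (2 * A ^ 2 * s))
  exact (nrm_sub_le _ _).trans (by nlinarith)

lemma U_bd (h : d.Ok A) (hs : 0 ≤ s) (hw : ∀ k, |w k| ≤ s) (hv : ∀ p, l < p → Bd s (v p)) :
    Bd (8 * A ^ 2 * s) (d.U w v l) := by
  have hA := h.A0
  have h1 : Bd (4 * A * s) fun x => w * d.a0 l x := by
    simpa only [mul_comm w] using (h.a0 l).mul hA hs (bd_const hs hw)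
  have h2 := Bd.sum (u := fun p x => d.a p l x * v p x) h.hP (by positivity : 0 ≤ 4 * A * s)
    fun p => by
      rcases lt_or_ge l p with hp | hp
      · exact (h.a p l).mul hA hs (hv p hp)
      · simp only [(h.tri p l hp).1, Pi.zero_apply, zero_mul]
        exact bd_const (by positivity) fun k => by simp; positivity
  have h3 := mul_le_mul_of_nonneg_right h.A1 (by positivity : 0 ≤ 4 * A * s)
  exact (h1.add h2).mono (by nlinarith)

lemma U_bd2 (h : d.Ok A) (hw : nrm w ≤ s) (hv : ∀ p, l < p → Bd2 s (v p)) :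
    Bd2 (8 * A ^ 2 * s) (d.U w v l) := by
  have hA := h.A0
  have hs : 0 ≤ s := (nrm_nonneg _).trans hw
  have h1 : Bd2 (4 * A * s) fun x => w * d.a0 l x := by
    simpa only [mul_comm w] using (h.a0 l).mul2 hA (bd2_const hw)
  have h2 := Bd2.sum (u := fun p x => d.a p l x * v p x) h.hP (by positivity : 0 ≤ 4 * A * s)
    fun p => by
      rcases lt_or_ge l p with hp | hp
      · exact (h.a p l).mul2 hA (hv p hp)
      · simp only [(h.tri p l hp).1, Pi.zero_apply, zero_mul]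
        exact bd2_const (by rw [nrm_zero]; positivity)
  have h3 := mul_le_mul_of_nonneg_right h.A1 (by positivity : 0 ≤ 4 * A * s)
  exact (h1.add h2).mono (by nlinarith)

lemma dM_Z (x : Cube n) :
    dM (d.Z w v l) x = d.J * dM (d.U w v l) x - ∑ p, d.ot p l • dM (d.U w v p) x := by
  unfold Z
  rw [dM_sub, dM_mulVec, dM_sum]
  simp only [dM_smul]

lemma Z_opn (h : d.Ok A) (hs : 0 ≤ s) (hw : ∀ k, |w k| ≤ s) (hv : ∀ p, l < p → Bd s (v p))
    (x : Cube n) : opn (dM (d.Z w v l) x) ≤ 16 * A ^ 4 * s := by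
  have hA := h.A0
  have h1 := (opn_mul_le d.J _).trans (mul_le_mul h.J (U_bd h hs hw hv x).2 (opn_nonneg _) hA)
  have h2 : opn (∑ p, d.ot p l • dM (d.U w v p) x) ≤ A * (A * (8 * A ^ 2 * s)) :=
    (opn_sum_le _ _).trans (sum_le_of_le h.hP (by positivity) fun p => by
      rw [opn_smul]
      rcases lt_or_ge l p with hp | hp
      · exact mul_le_mul (h.ot p l) (U_bd h hs hw (fun q hq => hv q (hp.trans hq)) x).2
          (opn_nonneg _) hA
      · rw [(h.tri p l hp).2, abs_zero, zero_mul]; positivity)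
  have h3 := mul_le_mul_of_nonneg_right h.A1 (by positivity : 0 ≤ A * (8 * A ^ 2 * s))
  rw [dM_Z]
  exact (opn_sub_le _ _).trans (by nlinarith)

lemma Z_bd2 (h : d.Ok A) (hw : nrm w ≤ s) (hv : ∀ p, l < p → Bd2 s (v p)) :
    Bd2 (16 * A ^ 4 * s) (d.Z w v l) := fun x => by
  have hA := h.A0
  have hs : 0 ≤ s := (nrm_nonneg _).trans hw
  refine ⟨(Z_nrm h hw fun p hp => (hv p hp x).1).trans (by
    nlinarith [(by positivity : 0 ≤ A ^ 4 * s)]), ?_⟩
  have h1 := (fro_mul_le d.J _).trans (mul_le_mul h.J (U_bd2 h hw hv x).2 (fro_nonneg _) hA)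
  have h2 : fro (∑ p, d.ot p l • dM (d.U w v p) x) ≤ A * (A * (8 * A ^ 2 * s)) :=
    (fro_sum_le _ _).trans (sum_le_of_le h.hP (by positivity) fun p => by
      rw [fro_smul]
      rcases lt_or_ge l p with hp | hp
      · exact mul_le_mul (h.ot p l) (U_bd2 h hw (fun q hq => hv q (hp.trans hq)) x).2
          (fro_nonneg _) hA
      · rw [(h.tri p l hp).2, abs_zero, zero_mul]; positivity)
  have h3 := mul_le_mul_of_nonneg_right h.A1 (by positivity : 0 ≤ A * (8 * A ^ 2 * s))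
  rw [dM_Z]
  exact (fro_sub_le _ _).trans (by nlinarith)

/-- the size at the rank `i` -/
def sz (A M η0 : ℝ) (i : ℕ) : ℝ := η0 * (32 * A ^ 4 * M) ^ i
/-- the threshold at the node `l` -/
def thr (A M η0 : ℝ) (l : Fin P) : ℝ := M * (16 * A ^ 4 * sz A M η0 (rk l))

variable {M η0 : ℝ}

lemma one_le_B (hA : 1 ≤ A) : 1 ≤ 16 * A ^ 4 := by nlinarith [one_le_pow₀ (n := 4) hA]

lemma sz_pos (hA : 1 ≤ A) (hM : 1 ≤ M) (hη : 0 < η0) (i : ℕ) : 0 < sz A M η0 i := by
  unfold sz; positivity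

lemma sz_mono (hA : 1 ≤ A) (hM : 1 ≤ M) (hη : 0 < η0) {i j : ℕ} (h : i ≤ j) :
    sz A M η0 i ≤ sz A M η0 j :=
  mul_le_mul_of_nonneg_left (pow_le_pow_right₀ (by nlinarith [one_le_B hA]) h) hη.le

lemma le_sz (hA : 1 ≤ A) (hM : 1 ≤ M) (hη : 0 < η0) (i : ℕ) : η0 ≤ sz A M η0 i := by
  simpa [sz] using sz_mono hA hM hη (Nat.zero_le i)

lemma thr_pos (hA : 1 ≤ A) (hM : 1 ≤ M) (hη : 0 < η0) (l : Fin P) : 0 < thr A M η0 l := by
  have := sz_pos hA hM hη (rk l)
  unfold thr; positivity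

/-- the clipped weights -/
def IsClip (d : BP n P) (A M η0 : ℝ) (w : Fin n → ℝ) (vt : Fin P → VF n) : Prop :=
  ∀ l x, vt l x = cv (thr A M η0 l) (d.Z w vt l x)

lemma exists_clip (h : d.Ok A) (M η0 : ℝ) (w : Fin n → ℝ) : ∃ vt, d.IsClip A M η0 w vt := by
  obtain ⟨v, hv⟩ := exists_rec (fun v l x => cv (thr A M η0 l) (d.Z w v l x))
    fun v v' l e => by rw [Z_congr h e]
  exact ⟨v, fun l x => congrFun (hv l) x⟩

lemma exists_back (h : d.Ok A) (w : Fin n → ℝ) : ∃ v, ∀ l, v l = d.Z w v l :=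
  exists_rec (fun v l => d.Z w v l) fun _ _ _ e => Z_congr h e

variable {vt : Fin P → VF n}

lemma IsClip.bd' (c : d.IsClip A M η0 w vt) (h : d.Ok A) (hM : 1 ≤ M) (hη : 0 < η0)
    (hw : ∀ k, |w k| ≤ η0) (l : Fin P) : Bd (sz A M η0 (rk l + 1)) (vt l) := by
  refine rk_ind (Q := fun l i => Bd (sz A M η0 i) (vt l))
    (fun l i j hij e => e.mono (sz_mono h.A1 hM hη hij)) (fun l ih x => ?_) l
  have ht := thr_pos h.A1 hM hη l
  have hs := sz_pos h.A1 hM hη (rk l)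
  have e : sz A M η0 (rk l + 1) = 2 * thr A M η0 l := by unfold thr sz; ring
  have h1 := Z_opn h hs.le (fun k => (hw k).trans (le_sz h.A1 hM hη _)) ih x
  have h2 : 16 * A ^ 4 * sz A M η0 (rk l) ≤ thr A M η0 l :=
    le_mul_of_one_le_left (by have := h.A0; positivity) hM
  rw [e, show vt l = fun y => cv (thr A M η0 l) (d.Z w vt l y) from funext (c l)]
  refine ⟨fun k => abs_clip_le ht _, (opn_dM_cv ht _ x).trans ?_⟩
  have h3 : opn (dM (d.Z w vt l) x) ^ 2 / thr A M η0 l ≤ thr A M η0 l := by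
    rw [div_le_iff₀ ht, ← sq]
    exact pow_le_pow_left₀ (opn_nonneg _) (h1.trans h2) 2
  linarith

lemma IsClip.bd (c : d.IsClip A M η0 w vt) (h : d.Ok A) (hM : 1 ≤ M) (hη : 0 < η0)
    (hw : ∀ k, |w k| ≤ η0) (l : Fin P) : Bd (sz A M η0 P) (vt l) :=
  (c.bd' h hM hη hw l).mono (sz_mono h.A1 hM hη (rk_lt' l))

lemma IsClip.opn_Z (c : d.IsClip A M η0 w vt) (h : d.Ok A) (hM : 1 ≤ M) (hη : 0 < η0)
    (hw : ∀ k, |w k| ≤ η0) (l : Fin P) (x : Cube n) :
    opn (dM (d.Z w vt l) x) ≤ 16 * A ^ 4 * sz A M η0 (rk l) :=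
  Z_opn h (sz_pos h.A1 hM hη _).le (fun k => (hw k).trans (le_sz h.A1 hM hη _))
    (fun p hp => (c.bd' h hM hη hw p).mono (sz_mono h.A1 hM hη (rk_lt hp))) x

lemma B_sz_le (hA : 1 ≤ A) (hM : 1 ≤ M) (hη : 0 < η0) (l : Fin P) :
    16 * A ^ 4 * sz A M η0 (rk l) ≤ sz A M η0 P := by
  refine le_trans ?_ (sz_mono hA hM hη (rk_lt' l))
  have e : sz A M η0 (rk l + 1) = 2 * M * (16 * A ^ 4 * sz A M η0 (rk l)) := by unfold sz; ring
  have := sz_pos hA hM hη (rk l)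
  rw [e]
  exact le_mul_of_one_le_left (by positivity) (by linarith)

lemma IsClip.bd2' (c : d.IsClip A M η0 w vt) (h : d.Ok A) (hM : 1 ≤ M) (hη : 0 < η0) (l : Fin P) :
    Bd2 ((16 * A ^ 4) ^ (rk l + 1) * nrm w) (d.Z w vt l) ∧
      Bd2 ((16 * A ^ 4) ^ (rk l + 1) * nrm w) (vt l) := by
  have hm : ∀ i j, i ≤ j → (16 * A ^ 4) ^ i * nrm w ≤ (16 * A ^ 4) ^ j * nrm w := fun i j e =>
    mul_le_mul_of_nonneg_right (pow_le_pow_right₀ (one_le_B h.A1) e) (nrm_nonneg _)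
  refine rk_ind (Q := fun l i => Bd2 ((16 * A ^ 4) ^ i * nrm w) (d.Z w vt l) ∧
      Bd2 ((16 * A ^ 4) ^ i * nrm w) (vt l))
    (fun l i j hij e => ⟨e.1.mono (hm i j hij), e.2.mono (hm i j hij)⟩) (fun l ih => ?_) l
  have ht := thr_pos h.A1 hM hη l
  have h1 := (Z_bd2 h (by simpa using hm 0 (rk l) (Nat.zero_le _)) fun p hp => (ih p hp).2).mono
    (le_of_eq (by ring : _ = (16 * A ^ 4) ^ (rk l + 1) * nrm w))
  refine ⟨h1, fun x => ?_⟩
  rw [show vt l = fun y => cv (thr A M η0 l) (d.Z w vt l y) from funext (c l)]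
  exact ⟨(nrm_cv ht _).trans (h1 x).1, (fro_dM_cv ht _ x).trans (h1 x).2⟩

lemma IsClip.bd2 (c : d.IsClip A M η0 w vt) (h : d.Ok A) (hM : 1 ≤ M) (hη : 0 < η0) (l : Fin P) :
    Bd2 ((16 * A ^ 4) ^ P * nrm w) (d.Z w vt l) ∧ Bd2 ((16 * A ^ 4) ^ P * nrm w) (vt l) :=
  have e := mul_le_mul_of_nonneg_right (pow_le_pow_right₀ (one_le_B h.A1) (rk_lt' l)) (nrm_nonneg w)
  ⟨(c.bd2' h hM hη l).1.mono e, (c.bd2' h hM hη l).2.mono e⟩

lemma pre_err (h : d.Ok A) (hv : ∀ l, v l = d.Z w v l) (vt : Fin P → VF n) (l : Fin P)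
    (x : Cube n) : nrm (v l x - d.Z w vt l x) ^ 2 ≤
      16 * A ^ 8 * ∑ p, if l < p then nrm (v p x - vt p x) ^ 2 else 0 := by
  have h0 : ∀ p, 0 ≤ if l < p then nrm (v p x - vt p x) ^ 2 else 0 := fun p => by positivity
  have h1 := sum_nonneg fun p (_ : p ∈ univ) => h0 p
  have h2 := Z_nrm (w := 0) (v := fun p y => v p y - vt p y) (l := l) (x := x) h
    (s := √(∑ p, if l < p then nrm (v p x - vt p x) ^ 2 else 0))
    (by rw [nrm_zero]; positivity) fun p hp => Real.le_sqrt_of_sq_le (by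
      simpa [hp] using single_le_sum (fun p _ => h0 p) (mem_univ p))
  rw [← Z_sub w, ← hv l] at h2
  refine (pow_le_pow_left₀ (nrm_nonneg _) h2 2).trans_eq ?_
  rw [mul_pow, Real.sq_sqrt h1]; ring

lemma IsClip.step (c : d.IsClip A M η0 w vt) (h : d.Ok A) (hM : 1 ≤ M) (hη : 0 < η0)
    (hv : ∀ l, v l = d.Z w v l) (l : Fin P) (x : Cube n) : nrm (v l x - vt l x) ^ 2 ≤
      32 * A ^ 8 * (∑ p, if l < p then nrm (v p x - vt p x) ^ 2 else 0) +
        2 * exc (thr A M η0 l) (d.Z w vt l x) := by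
  have h1 := pre_err h hv vt l x
  have h2 := nrm_sub_cv (thr_pos h.A1 hM hη l) (d.Z w vt l x)
  rw [← c l x] at h2
  have h3 := nrm_add_le (v l x - d.Z w vt l x) (d.Z w vt l x - vt l x)
  rw [sub_add_sub_cancel] at h3
  have h4 := pow_le_pow_left₀ (nrm_nonneg _) h3 2
  nlinarith [sq_nonneg (nrm (v l x - d.Z w vt l x) - nrm (d.Z w vt l x - vt l x))]

/-- the error is bounded by the excess, pointwise -/
theorem IsClip.err_le (c : d.IsClip A M η0 w vt) (h : d.Ok A) (hM : 1 ≤ M) (hη : 0 < η0)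
    (hv : ∀ l, v l = d.Z w v l) (l : Fin P) (x : Cube n) : nrm (v l x - vt l x) ^ 2 ≤
      (1 + 32 * A ^ 8 * A) ^ P * (2 * ∑ p, exc (thr A M η0 p) (d.Z w vt p x)) :=
  tri_gron (a := fun l => nrm (v l x - vt l x) ^ 2) h.hP (by positivity)
    (mul_nonneg zero_le_two (sum_nonneg fun _ _ => exc_nonneg _ _)) (fun l =>
      (c.step h hM hη hv l x).trans (by
        have := single_le_sum (f := fun p => exc (thr A M η0 p) (d.Z w vt p x))
          (fun _ _ => exc_nonneg _ _) (mem_univ l)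
        linarith)) l

/-- the constant of `mean_exc` -/
def cE (A K : ℝ) (P : ℕ) : ℝ :=
  (1 + 128 * A ^ 9 * (1 + 160 * A ^ 8 * A) ^ P) * (4 + K * ((16 * A ^ 4) ^ P) ^ 2)

lemma cE_nonneg {A K : ℝ} (hA : 0 ≤ A) (hK : 0 ≤ K) (P : ℕ) : 0 ≤ cE A K P := by
  unfold cE; positivity

/-- the mean excess -/
theorem IsClip.mean_exc (c : d.IsClip A M η0 w vt) (h : d.Ok A) (hM : 1 ≤ M) (hη : 0 < η0)
    (hw : ∀ k, |w k| ≤ η0) (hv : ∀ l, v l = d.Z w v l) {μ : Cube n → ℝ} {K m : ℝ} (hb : HB μ K)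
    (hm : ∀ l, nrm (meanV μ (v l)) ≤ m) (l : Fin P) :
    mean (prob μ) (fun x => exc (thr A M η0 l) (d.Z w vt l x)) ≤
      cE A K P * (m ^ 2 + (nrm w ^ 2 + sz A M η0 P ^ 2) / M ^ 2) := by
  have hp := isP_prob' hb.pos
  have hA := h.A0
  have hK := hb.K0
  have hB : 1 ≤ ((16 * A ^ 4) ^ P) ^ 2 := one_le_pow₀ (one_le_pow₀ (one_le_B h.A1))
  obtain ⟨R, hR⟩ : ∃ R, R = (nrm w ^ 2 + sz A M η0 P ^ 2) / M ^ 2 := ⟨_, rfl⟩
  have hR0 : 0 ≤ R := by rw [hR]; positivity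
  obtain ⟨Q, hQ⟩ : ∃ Q, Q = (4 + K * ((16 * A ^ 4) ^ P) ^ 2) * (m ^ 2 + R) := ⟨_, rfl⟩
  have hQ0 : 0 ≤ Q := by rw [hQ]; positivity
  obtain ⟨a, ha⟩ : ∃ a : Fin P → ℝ, ∀ l, a l = mean (prob μ) fun x => nrm (v l x - vt l x) ^ 2 :=
    ⟨_, fun _ => rfl⟩
  have hs : ∀ l : Fin P, mean (prob μ) (fun x => ∑ p,
      if l < p then nrm (v p x - vt p x) ^ 2 else 0) = ∑ p, if l < p then a p else 0 := fun l => by
    rw [mean_sum']
    refine sum_congr rfl fun p _ => ?_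
    split_ifs
    · rw [ha]
    · exact hp.mean_const 0
  have k1 : ∀ l, mean (prob μ) (fun x => exc (thr A M η0 l) (d.Z w vt l x)) ≤
      64 * A ^ 8 * (∑ p, if l < p then a p else 0) + Q := fun l => by
    have ht := thr_pos h.A1 hM hη l
    have hs0 := sz_pos h.A1 hM hη (rk l)
    have b1 := hp.mean_mono fun x => exc_le ht (d.Z w vt l x) (meanV μ (d.Z w vt l))
    simp only [div_eq_inv_mul] at b1
    rw [mean_add', hp.mean_const, mean_mul'] at b1
    have b2 := hb.four _ _ _ (c.opn_Z h hM hη hw l) fun x => ((c.bd2 h hM hη l).1 x).2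
    have b3 : (8 * thr A M η0 l ^ 2)⁻¹ * mean (prob μ)
        (fun x => ∑ k, (d.Z w vt l x k - meanV μ (d.Z w vt l) k) ^ 4) ≤
        K * ((16 * A ^ 4) ^ P) ^ 2 * R := by
      refine (mul_le_mul_of_nonneg_left b2 (by positivity)).trans ?_
      have b4 := pow_le_pow_left₀ (by positivity) (B_sz_le h.A1 hM hη l) 2
      have b5 := mul_le_mul_of_nonneg_right hB (sq_nonneg (sz A M η0 P))
      have e : (8 * thr A M η0 l ^ 2)⁻¹ * (K * (16 * A ^ 4 * sz A M η0 (rk l)) ^ 2 *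
          (((16 * A ^ 4) ^ P * nrm w) ^ 2 + (16 * A ^ 4 * sz A M η0 (rk l)) ^ 2)) =
          K * ((((16 * A ^ 4) ^ P * nrm w) ^ 2 + (16 * A ^ 4 * sz A M η0 (rk l)) ^ 2) / 8) /
            M ^ 2 := by
        have : 0 < A := by linarith [h.A1]
        unfold thr; field_simp
      rw [e, hR, ← mul_div_assoc (K * ((16 * A ^ 4) ^ P) ^ 2), mul_assoc K]
      refine div_le_div_of_nonneg_right (mul_le_mul_of_nonneg_left ?_ hK) (sq_nonneg _)
      nlinarith [sq_nonneg ((16 * A ^ 4) ^ P * nrm w), sq_nonneg (sz A M η0 P)]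
    have b6 := (nrm_meanV_sq hb.pos fun x => v l x - d.Z w vt l x).trans
      (hp.mean_mono fun x => pre_err h hv vt l x)
    rw [mean_mul', hs] at b6
    have b7 : meanV μ (d.Z w vt l) = meanV μ (v l) - meanV μ fun x => v l x - d.Z w vt l x := by
      funext k
      have := mean_sub' (ν := prob μ) (fun x => v l x k) fun x => d.Z w vt l x k
      change mean (prob μ) _ = mean (prob μ) _ - mean (prob μ) fun x => v l x k - d.Z w vt l x k
      linarith
    have b8 := pow_le_pow_left₀ (nrm_nonneg _) ((nrm_sub_le (meanV μ (v l))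
      (meanV μ fun x => v l x - d.Z w vt l x)).trans (add_le_add (hm l) le_rfl)) 2
    rw [← b7] at b8
    have b9 := mul_nonneg (mul_nonneg hK (zero_le_one.trans hB)) (sq_nonneg m)
    rw [hQ]
    nlinarith [sq_nonneg (m - nrm (meanV μ fun x => v l x - d.Z w vt l x))]
  have k2 := tri_gron (a := a) (c := 160 * A ^ 8) (Q := 2 * Q) h.hP (by positivity) (by positivity)
    fun l => by
      have := hp.mean_mono fun x => c.step h hM hη hv l x
      rw [mean_add', mean_mul', mean_mul', hs, ← ha] at this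
      linarith [k1 l]
  have k3 := mul_le_mul_of_nonneg_left (sum_le_of_le (f := fun p => if l < p then a p else 0) h.hP
    (c := (1 + 160 * A ^ 8 * A) ^ P * (2 * Q)) (by positivity) fun p => by
      split_ifs; exacts [k2 p, by positivity]) (by positivity : 0 ≤ 64 * A ^ 8)
  refine (k1 l).trans ((add_le_add k3 le_rfl).trans_eq ?_)
  rw [← hR, cE, mul_assoc _ _ (m ^ 2 + R), ← hQ]; ring

end BP

/-- **(COL)**: pairing of a small regular field with a letter -/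
theorem HB.col {μ : Cube n → ℝ} {K A e : ℝ} (hb : HB μ K) (hA : 0 ≤ A) (he : 0 ≤ e) {d u : VF n}
    (hd : Bd A d) (hu : Bd e u) :
    (∀ x, nrm (grad (fun x => u x ⬝ᵥ d x) x) ≤ 4 * A * e * √n) ∧
      mean (prob μ) (fun x => (u x ⬝ᵥ d x) ^ 2) ≤ mean (prob μ) (fun x => u x ⬝ᵥ d x) ^ 2 +
        16 * K * A ^ 2 * e ^ 2 * n := by
  have h1 : ∀ x, nrm (grad (fun x => u x ⬝ᵥ d x) x) ≤ 4 * A * e * √n := fun x => by
    have e1 : grad (fun x => u x ⬝ᵥ d x) x = (dM (fun x => d x * u x) x)ᵀ *ᵥ 1 := by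
      funext j
      simp only [dotProduct, grad_sum, mulVec, transpose_apply, dM, of_apply, Pi.mul_apply,
        Pi.one_apply, mul_one, mul_comm (u _ _)]
    have e2 := nrm_le_sqrt (v := (1 : Fin n → ℝ)) zero_le_one fun i => by simp
    rw [one_mul, Fintype.card_fin] at e2
    rw [e1]
    refine (nrm_mulVec_le _ _).trans ?_
    rw [opn_transpose]
    exact mul_le_mul (hd.mul hA he hu x).2 e2 (nrm_nonneg _) (by positivity)
  refine ⟨h1, ?_⟩
  have hp := isP_prob' hb.pos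
  have h2 := hb.var _ _ h1
  obtain ⟨m, hm⟩ : ∃ m, m = mean (prob μ) fun x => u x ⬝ᵥ d x := ⟨_, rfl⟩
  rw [← hm] at h2 ⊢
  have h3 : mean (prob μ) (fun x => (u x ⬝ᵥ d x) ^ 2) = mean (prob μ)
      fun x => (u x ⬝ᵥ d x - m) ^ 2 + (2 * m * (u x ⬝ᵥ d x) + -m ^ 2) := by
    congr 1; funext x; ring
  rw [h3, mean_add', mean_add', mean_mul', hp.mean_const, ← hm]
  rw [mul_pow, Real.sq_sqrt (Nat.cast_nonneg _)] at h2
  nlinarith

end Crest.Agent.T157.S3.Rg

end
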