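import Crest.Agent.T157.AtD_39
import Crest.Agent.T157.S3RgB_78
import Crest.Agent.T157.ConcH_16

/-!
# Row 157, part B (helper25): the transfer (X) of two-sided Lipschitz excess functionals
-/

set_option autoImplicit false
set_option linter.unusedVariables false

noncomputable section

namespace Crest.Agent.T157.Xt

open Finset Matrix MeasureTheory ProbabilityTheory
open Crest.Agent.T157.E (Cube sv prob)
open Crest.Agent.T157.Rec (fl grad)
open Crest.Agent.T157.Chain22 Crest.Agent.T157.Ent Crest.Agent.T157.Atd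
open Crest.Agent.T157.Eig (nrm opn nrm_nonneg opn_nonneg nrm_add_le nrm_smul nrm_mulVec_le
  opn_transpose)
open Crest.Agent.T157.S3.Rg (exc dM fro VF nrm_sq' exc_nonneg fro_sq col_le fl_eq)

section gen
variable {Ω : Type*} [Fintype Ω] {μ ν π X G : Ω → ℝ} {c : ℝ}

/-- sub-Gaussian variables have a square exponential moment -/
theorem exp_sq_le (hμ : IsP μ) (hc : 0 < c)
    (h : ∀ t, mean μ (fun x => Real.exp (t * X x)) ≤ Real.exp (c * t ^ 2)) :
    mean μ (fun x => Real.exp (X x ^ 2 / (8 * c))) ≤ Real.exp (3 / 8) := by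
  set a := √(1 / (4 * c)) with ha
  have a2 : a ^ 2 = 1 / (4 * c) := Real.sq_sqrt (by positivity)
  have i1 : ∀ x, Integrable (fun z => μ x * Real.exp (a * X x * z)) (gaussianReal 0 1) :=
    fun x => (integrable_exp_mul_gaussianReal _).const_mul _
  have e : mean μ (fun x => Real.exp (X x ^ 2 / (8 * c))) =
      ∫ z, ∑ x, μ x * Real.exp (a * X x * z) ∂gaussianReal 0 1 := by
    rw [integral_finsetSum _ fun x _ => i1 x]
    refine sum_congr rfl fun x _ => ?_
    rw [integral_const_mul, Conc.int_exp_gauss, mul_pow, a2]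
    congr 2
    field_simp
    ring
  rw [e, ← ENNReal.ofReal_le_ofReal_iff (Real.exp_pos _).le, ofReal_integral_eq_lintegral_ofReal
    (integrable_finsetSum _ fun x _ => i1 x) (ae_of_all _ fun z => sum_nonneg fun x _ =>
      mul_nonneg (hμ.nn x) (Real.exp_pos _).le)]
  have h2 := Conc.lint_sq_gauss (s := 1 / 4) (by norm_num [abs_of_pos])
  rw [show (1 / 4 + 2 * (1 / 4) ^ 2 : ℝ) = 3 / 8 by norm_num] at h2
  refine le_trans (lintegral_mono fun z => ENNReal.ofReal_le_ofReal ?_) h2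
  have h3 := h (a * z)
  rw [mul_pow, a2, show c * (1 / (4 * c) * z ^ 2) = 1 / 4 * z ^ 2 by field_simp] at h3
  refine le_trans (le_of_eq ?_) h3
  exact sum_congr rfl fun x _ => by rw [mul_right_comm]

/-- quadratic transport inequality -/
theorem mean_sq_le (hμ : IsP μ) (hν : IsP ν) (hac : AC ν μ) (hc : 0 < c)
    (h : ∀ t, mean μ (fun x => Real.exp (t * X x)) ≤ Real.exp (c * t ^ 2)) :
    mean ν (fun x => X x ^ 2) ≤ c * (8 * kl ν μ + 3) := by
  have h1 := mean_le_kl hν hμ hac fun x => X x ^ 2 / (8 * c)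
  have h2 := (Real.log_le_iff_le_exp (mean_exp_pos hμ _)).2 (exp_sq_le hμ hc h)
  simp only [div_eq_mul_inv, mean_mul_const] at h1 h2
  have h3 := h1.trans (add_le_add le_rfl h2)
  rw [mul_inv_le_iff₀ (by positivity)] at h3
  linarith

/-- **transfer**, abstract form -/
theorem xfer_gen (hμ : IsP μ) (hν : IsP ν) (hπ : IsP π) (a1 : AC ν μ) (a2 : AC π μ) (hc : 0 < c)
    {m : ℝ} (h : ∀ t, mean μ (fun x => Real.exp (t * (G x - m))) ≤ Real.exp (c * t ^ 2)) :
    mean π (fun x => G x ^ 2) ≤ 4 * mean ν (fun x => G x ^ 2) +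
      c * (32 * kl ν μ + 16 * kl π μ + 18) := by
  have h1 := mean_sq_le hμ hν a1 hc h
  have h2 := mean_sq_le hμ hπ a2 hc h
  have h3 := hπ.mean_mono (f := fun x => G x ^ 2) (g := fun x => 2 * (G x - m) ^ 2 + 2 * m ^ 2)
    fun x => by nlinarith [sq_nonneg (G x - 2 * m)]
  have h4 := hν.mean_mono (f := fun _ => m ^ 2) (g := fun x => 2 * (G x - m) ^ 2 + 2 * G x ^ 2)
    fun x => by nlinarith [sq_nonneg (2 * G x - m)]
  simp only [mean_add', mean_const_mul, hπ.mean_const, hν.mean_const] at h3 h4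
  nlinarith

end gen

variable {n : ℕ} {w ν π F G : Cube n → ℝ} {A B K : ℝ}

/-- two-sided Lipschitz bound -/
def Lip2 (A : ℝ) (F : Cube n → ℝ) : Prop := ∀ x, nrm (fun j => F x - F (fl x j)) ≤ A

lemma lip2_iff (hA : 0 ≤ A) : Lip2 A F ↔ ∀ x, ∑ j, (F x - F (fl x j)) ^ 2 ≤ A ^ 2 :=
  forall_congr' fun x => by
    rw [← nrm_sq', pow_le_pow_iff_left₀ (nrm_nonneg _) hA two_ne_zero]

lemma Lip2.nn (h : Lip2 A F) : 0 ≤ A := (nrm_nonneg _).trans (h default)

lemma Lip2.mono (h : Lip2 A F) (hA : A ≤ B) : Lip2 B F := fun x => (h x).trans hA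

lemma lip2_const (c : ℝ) : Lip2 0 fun _ : Cube n => c := (lip2_iff le_rfl).2 fun x => by simp

lemma Lip2.add (h : Lip2 A F) (h' : Lip2 B G) : Lip2 (A + B) fun x => F x + G x := fun x => by
  refine le_trans (le_of_eq ?_) ((nrm_add_le _ _).trans (add_le_add (h x) (h' x)))
  congr 1; funext j; simp only [Pi.add_apply]; ring

lemma Lip2.const_mul (h : Lip2 A F) (c : ℝ) : Lip2 (|c| * A) fun x => c * F x := fun x => by
  refine le_trans (le_of_eq ?_) (mul_le_mul_of_nonneg_left (h x) (abs_nonneg c))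
  rw [← nrm_smul]; congr 1; funext j; simp only [Pi.smul_apply, smul_eq_mul]; ring

lemma Lip2.neg (h : Lip2 A F) : Lip2 A fun x => -F x := by
  simpa using h.const_mul (-1)

lemma Lip2.vp (h : Lip2 A F) (x : Cube n) : vp F x ≤ A ^ 2 :=
  le_trans (sum_le_sum fun j _ => by
    rcases le_total (F x - F (fl x j)) 0 with h | h
    · rw [max_eq_right h]; simpa using sq_nonneg _
    · rw [max_eq_left h]) ((lip2_iff h.nn).1 h x)

lemma lip2_of_vp (hA : 0 ≤ A) (h : ∀ x, vp F x ≤ A ^ 2) (h' : ∀ x, vp (fun x => -F x) x ≤ A ^ 2) :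
    Lip2 (2 * A) F := (lip2_iff (by positivity)).2 fun x => by
  have e : ∑ j, (F x - F (fl x j)) ^ 2 = vp F x + vp (fun x => -F x) x := by
    rw [vp, vp, ← sum_add_distrib]
    refine sum_congr rfl fun j _ => ?_
    rcases le_total (F x - F (fl x j)) 0 with h | h
    · rw [max_eq_right h, max_eq_left (by linarith)]; ring
    · rw [max_eq_left h, max_eq_right (by linarith)]; ring
  nlinarith [h x, h' x, sq_nonneg A]

lemma lip2_of_grad (h : ∀ x, nrm (grad F x) ≤ A) : Lip2 (2 * A) F := fun x => by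
  have h0 := (nrm_nonneg _).trans (h x)
  have h1 := pow_le_pow_left₀ (nrm_nonneg _) (h x) 2
  rw [← pow_le_pow_iff_left₀ (nrm_nonneg _) (by positivity) two_ne_zero, nrm_sq', mul_pow]
  rw [nrm_sq'] at h1
  refine le_trans (le_of_eq ?_) (mul_le_mul_of_nonneg_left h1 (by norm_num))
  rw [mul_sum]
  refine sum_congr rfl fun j _ => ?_
  rw [fl_eq F]
  linear_combination (4 * grad F x j ^ 2) * Rec.sv_mul_self x j

/-- **(H1)** as a hypothesis on a positive weight -/
def H1 (w : Cube n → ℝ) (K : ℝ) : Prop := ∀ (G : Cube n → ℝ) (A : ℝ), 0 ≤ A →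
  (∀ x, vp G x ≤ A ^ 2) → ∀ t, 0 ≤ t → lmgf (prob w) G t ≤ t * mean (prob w) G + K * A ^ 2 * t ^ 2

lemma h1_of_atd {κ : ℝ} (h : ATd w K (Real.exp (-(κ * n)))) (hw : ∀ x, 0 < w x) (hK : 0 ≤ K)
    (hκ : 0 < κ) : H1 w (K + 8 / κ) := fun _ _ hA hG _ ht => h.lmgf_le hw hK hκ hA hG ht

lemma H1.mgf (h : H1 w K) (hw : ∀ x, 0 < w x) (hA : 0 ≤ A) (h1 : ∀ x, vp G x ≤ A ^ 2)
    (h2 : ∀ x, vp (fun x => -G x) x ≤ A ^ 2) (t : ℝ) :
    mean (prob w) (fun x => Real.exp (t * (G x - mean (prob w) G))) ≤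
      Real.exp (K * A ^ 2 * t ^ 2) := by
  have hp := isP_prob' hw
  have key : ∀ (G : Cube n → ℝ) (t : ℝ), (∀ x, vp G x ≤ A ^ 2) → 0 ≤ t →
      mean (prob w) (fun x => Real.exp (t * (G x - mean (prob w) G))) ≤
        Real.exp (K * A ^ 2 * t ^ 2) := fun G t hG ht => by
    have h3 := (Real.log_le_iff_le_exp (mean_exp_pos hp _)).1 (h G A hA hG t ht)
    simp only [mul_sub, Real.exp_sub, div_eq_mul_inv, mean_mul_const]
    rwa [mul_inv_le_iff₀ (Real.exp_pos _), ← Real.exp_add, add_comm]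
  rcases le_total 0 t with ht | ht
  · exact key G t h1 ht
  · have h3 := key (fun x => -G x) (-t) h2 (by linarith)
    have e : mean (prob w) (fun x => -G x) = -mean (prob w) G := by
      simpa using mean_const_mul (π := prob w) (-1) G
    rw [e, neg_sq] at h3
    exact le_trans (le_of_eq (mean_congr fun x => by congr 1; ring)) h3

/-- centred second moment under any law -/
theorem H1.cen (h : H1 w K) (hw : ∀ x, 0 < w x) (hK : 0 < K) (hG : Lip2 A G) (hν : IsP ν) :
    mean ν (fun x => (G x - mean (prob w) G) ^ 2) ≤ K * A ^ 2 * (8 * kl ν (prob w) + 3) := by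
  have ac := AC.of_pos ν (prob_pos' hw)
  have H0 := kl_nonneg hν (isP_prob' hw) ac
  refine le_of_forall_pos_le_add fun e he => ?_
  set d := e / (K * (8 * kl ν (prob w) + 3)) with hd
  have d0 : 0 < d := by positivity
  have a2 : √(A ^ 2 + d) ^ 2 = A ^ 2 + d := Real.sq_sqrt (by positivity)
  have h1 := mean_sq_le (isP_prob' hw) hν ac (c := K * √(A ^ 2 + d) ^ 2)
    (by rw [a2]; positivity) (h.mgf hw (Real.sqrt_nonneg _)
      (fun x => by rw [a2]; linarith [hG.vp x]) fun x => by rw [a2]; linarith [hG.neg.vp x])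
  rw [a2] at h1
  have : K * d * (8 * kl ν (prob w) + 3) = e := by rw [hd]; field_simp
  linarith

/-- **(X)** -/
theorem H1.xfer (h : H1 w K) (hw : ∀ x, 0 < w x) (hK : 0 < K) (hG : Lip2 A G) (hν : IsP ν)
    (hπ : IsP π) : mean π (fun x => G x ^ 2) ≤ 4 * mean ν (fun x => G x ^ 2) +
      K * A ^ 2 * (32 * kl ν (prob w) + 16 * kl π (prob w) + 18) := by
  have h1 := h.cen hw hK hG hν
  have h2 := h.cen hw hK hG hπ
  set m := mean (prob w) G
  have h3 := hπ.mean_mono (f := fun x => G x ^ 2) (g := fun x => 2 * (G x - m) ^ 2 + 2 * m ^ 2)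
    fun x => by nlinarith [sq_nonneg (G x - 2 * m)]
  have h4 := hν.mean_mono (f := fun _ => m ^ 2) (g := fun x => 2 * (G x - m) ^ 2 + 2 * G x ^ 2)
    fun x => by nlinarith [sq_nonneg (2 * G x - m)]
  simp only [mean_add', mean_const_mul, hπ.mean_const, hν.mean_const] at h3 h4
  nlinarith

/-- difference of means -/
theorem H1.sub_sq (h : H1 w K) (hw : ∀ x, 0 < w x) (hK : 0 < K) (hG : Lip2 A G) (hν : IsP ν)
    (hπ : IsP π) : (mean ν G - mean π G) ^ 2 ≤
      K * A ^ 2 * (16 * kl ν (prob w) + 16 * kl π (prob w) + 12) := by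
  have h1 := h.cen hw hK hG hν
  have h2 := h.cen hw hK hG hπ
  set m := mean (prob w) G
  have h3 := S3.Rg.mean_sq hν fun x => G x - m
  have h4 := S3.Rg.mean_sq hπ fun x => G x - m
  simp only [mean_sub', hπ.mean_const, hν.mean_const] at h3 h4
  nlinarith [sq_nonneg (mean ν G - m + (mean π G - m))]

/-! ### the excess functional -/

/-- half of the derivative of `(|t| - η)₊²` -/
def ps (η t : ℝ) : ℝ := max (t - η) 0 - max (-t - η) 0

lemma ps_sq {η : ℝ} (hη : 0 ≤ η) (t : ℝ) : ps η t ^ 2 = max (|t| - η) 0 ^ 2 := by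
  unfold ps
  rcases le_total 0 t with h | h
  · rw [abs_of_nonneg h, max_eq_right (a := -t - η) (by linarith), sub_zero]
  · rw [abs_of_nonpos h, max_eq_right (a := t - η) (by linarith), zero_sub, neg_sq]

lemma pos_tay (a b : ℝ) : 0 ≤ max b 0 ^ 2 - max a 0 ^ 2 - 2 * max a 0 * (b - a) ∧
    max b 0 ^ 2 - max a 0 ^ 2 - 2 * max a 0 * (b - a) ≤ (b - a) ^ 2 := by
  rcases le_total a 0 with h | h <;> rcases le_total b 0 with h' | h' <;>
    simp only [max_eq_left, max_eq_right, h, h'] <;> constructor <;> nlinarith [sq_nonneg (b - a)]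

lemma ps_tay {η : ℝ} (hη : 0 ≤ η) (a b : ℝ) :
    |ps η b ^ 2 - ps η a ^ 2 - 2 * ps η a * (b - a)| ≤ 2 * (b - a) ^ 2 := by
  have z : ∀ t : ℝ, max (t - η) 0 * max (-t - η) 0 = 0 := fun t => by
    rcases le_total 0 t with h | h
    · rw [max_eq_right (a := -t - η) (by linarith), mul_zero]
    · rw [max_eq_right (a := t - η) (by linarith), zero_mul]
  obtain ⟨h1, h2⟩ := pos_tay (a - η) (b - η)
  obtain ⟨h3, h4⟩ := pos_tay (-a - η) (-b - η)
  unfold ps
  rw [abs_le]
  constructor <;> nlinarith [z a, z b, sq_nonneg (b - a)]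

/-- **the regularised excess is two-sided Lipschitz** -/
theorem lip2_exc {u : VF n} {η e h ρ : ℝ} (hη : 0 ≤ η) (hρ : 0 < ρ) (he : ∀ x, opn (dM u x) ≤ e)
    (hh : ∀ x, fro (dM u x) ≤ h) : Lip2 (4 * e + 4 * e * h / ρ) fun x => √(exc η (u x) + ρ ^ 2) := by
  intro x
  have e0 : 0 ≤ e := (opn_nonneg _).trans (he x)
  have h0 : 0 ≤ h := (S3.Rg.fro_nonneg _).trans (hh x)
  set F : Cube n → ℝ := fun x => √(exc η (u x) + ρ ^ 2) with hF
  have F2 : ∀ y, F y ^ 2 = exc η (u y) + ρ ^ 2 := fun y =>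
    Real.sq_sqrt (add_nonneg (exc_nonneg _ _) (sq_nonneg _))
  have Fρ : ∀ y, ρ ≤ F y := fun y => Real.le_sqrt_of_sq_le (by linarith [exc_nonneg η (u y)])
  set g : Fin n → ℝ := fun k => ps η (u x k) with hg
  have ex : ∀ y, exc η (u y) = ∑ k, ps η (u y k) ^ 2 := fun y =>
    sum_congr rfl fun k _ => (ps_sq hη _).symm
  have g1 : nrm g ≤ F x := by
    rw [← pow_le_pow_iff_left₀ (nrm_nonneg _) (hρ.le.trans (Fρ x)) two_ne_zero, F2, nrm_sq', ex]
    linarith [sq_nonneg ρ]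
  set p : Fin n → ℝ := fun j => 4 / F x * |((dM u x)ᵀ *ᵥ g) j| with hp
  set q : Fin n → ℝ := fun j => 4 / ρ * ∑ k, dM u x k j ^ 2 with hq
  have Fx : 0 < F x := hρ.trans_le (Fρ x)
  have key : ∀ j, |F x - F (fl x j)| ≤ 1 * |(p + q) j| := fun j => by
    have s0 : 0 ≤ ∑ k, dM u x k j ^ 2 := sum_nonneg fun _ _ => sq_nonneg _
    have d : ∀ k, u (fl x j) k - u x k = -2 * sv x j * dM u x k j := fun k => by
      rw [fl_eq (fun y => u y k)]; simp only [dM, of_apply]; ring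
    have h1 : |exc η (u (fl x j)) - exc η (u x) + 4 * sv x j * ((dM u x)ᵀ *ᵥ g) j| ≤
        8 * ∑ k, dM u x k j ^ 2 := by
      rw [ex, ex, mul_sum]
      simp only [mulVec, dotProduct, transpose_apply, mul_sum, ← sum_sub_distrib,
        ← sum_add_distrib]
      refine (abs_sum_le_sum_abs _ _).trans (sum_le_sum fun k _ => ?_)
      have h2 := ps_tay hη (u x k) (u (fl x j) k)
      rw [d] at h2
      refine le_trans (le_of_eq ?_) (h2.trans (le_of_eq ?_))
      · congr 1; simp only [hg]; ring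
      · linear_combination (8 * dM u x k j ^ 2) * Rec.sv_mul_self x j
    have h3 : |4 * sv x j * ((dM u x)ᵀ *ᵥ g) j| = 4 * |((dM u x)ᵀ *ᵥ g) j| := by
      rw [abs_mul, abs_mul, S3.Rg.abs_sv]; norm_num
    have h4 : |F x - F (fl x j)| * (F x + F (fl x j)) ≤
        4 * |((dM u x)ᵀ *ᵥ g) j| + 8 * ∑ k, dM u x k j ^ 2 := by
      have := Fρ (fl x j)
      rw [← abs_of_pos (show 0 < F x + F (fl x j) by linarith), ← abs_mul,
        show (F x - F (fl x j)) * (F x + F (fl x j)) = F x ^ 2 - F (fl x j) ^ 2 by ring, F2, F2, ← h3]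
      rw [abs_le] at h1 ⊢
      constructor <;> linarith [h1.1, h1.2, le_abs_self (4 * sv x j * ((dM u x)ᵀ *ᵥ g) j),
        neg_abs_le (4 * sv x j * ((dM u x)ᵀ *ᵥ g) j)]
    have p0 : 0 ≤ p j := by positivity
    have q0 : 0 ≤ q j := by positivity
    rw [one_mul, Pi.add_apply, abs_of_nonneg (add_nonneg p0 q0)]
    refine le_of_mul_le_mul_right (h4.trans ?_) (show 0 < F x + F (fl x j) by linarith [Fρ (fl x j)])
    have e1 : p j * F x = 4 * |((dM u x)ᵀ *ᵥ g) j| := by simp only [hp]; field_simp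
    have e2 : q j * ρ = 4 * ∑ k, dM u x k j ^ 2 := by simp only [hq]; field_simp
    nlinarith [mul_le_mul_of_nonneg_left (Fρ x) q0, mul_le_mul_of_nonneg_left (Fρ (fl x j)) q0,
      mul_nonneg p0 (hρ.le.trans (Fρ (fl x j)))]
  refine (S3.Rg.nrm_mono zero_le_one key).trans ?_
  rw [one_mul]
  refine (nrm_add_le _ _).trans (add_le_add ?_ ?_)
  · have h1 : nrm p ≤ 4 / F x * nrm ((dM u x)ᵀ *ᵥ g) := S3.Rg.nrm_mono (by positivity) fun j => by
      simp only [hp]; rw [abs_of_nonneg (by positivity)]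
    have h2 := (nrm_mulVec_le (dM u x)ᵀ g).trans
      (mul_le_mul ((opn_transpose _).trans_le (he x)) g1 (nrm_nonneg _) e0)
    refine h1.trans ((mul_le_mul_of_nonneg_left h2 (by positivity)).trans (le_of_eq ?_))
    field_simp
  · refine S3.Rg.nrm_le_of_sq (by positivity) ?_
    have h1 := pow_le_pow_left₀ (S3.Rg.fro_nonneg _) (hh x) 2
    rw [fro_sq, sum_comm] at h1
    have h2 : ∀ j, q j ^ 2 ≤ (4 / ρ * e) ^ 2 * ∑ k, dM u x k j ^ 2 := fun j => by
      have s0 : 0 ≤ ∑ k, dM u x k j ^ 2 := sum_nonneg fun _ _ => sq_nonneg _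
      have := (col_le (dM u x) j).trans (pow_le_pow_left₀ (opn_nonneg _) (he x) 2)
      simp only [hq, mul_pow]
      nlinarith [mul_le_mul_of_nonneg_left (mul_le_mul_of_nonneg_right this s0) (sq_nonneg (4 / ρ))]
    refine (sum_le_sum fun j _ => h2 j).trans ?_
    rw [← mul_sum]
    exact (mul_le_mul_of_nonneg_left h1 (sq_nonneg _)).trans (le_of_eq (by ring))

/-- **(X) for the excess** -/
theorem H1.xfer_exc (h1 : H1 w K) (hw : ∀ x, 0 < w x) (hK : 0 < K) {u : VF n} {η e h ρ : ℝ}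
    (hη : 0 ≤ η) (hρ : 0 < ρ) (he : ∀ x, opn (dM u x) ≤ e) (hh : ∀ x, fro (dM u x) ≤ h)
    (hν : IsP ν) (hπ : IsP π) : mean π (fun x => exc η (u x)) ≤
      4 * mean ν (fun x => exc η (u x)) + 3 * ρ ^ 2 +
        K * (4 * e + 4 * e * h / ρ) ^ 2 * (32 * kl ν (prob w) + 16 * kl π (prob w) + 18) := by
  have h2 := h1.xfer hw hK (lip2_exc hη hρ he hh) hν hπ
  have e : ∀ x, √(exc η (u x) + ρ ^ 2) ^ 2 = exc η (u x) + ρ ^ 2 := fun x =>
    Real.sq_sqrt (add_nonneg (exc_nonneg _ _) (sq_nonneg _))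
  simp only [e, mean_add', hν.mean_const, hπ.mean_const] at h2
  linarith

end Crest.Agent.T157.Xt

end
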