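import Crest.Agent.T157.BrSt_91
import Crest.Agent.T157.Xtr_25
import Crest.Agent.T157.S3Def_69

/-!
# Row 157, block B, S1 (helper91): tools for the mismatch term of a tilt
-/

set_option autoImplicit false

noncomputable section

namespace Crest.Agent.T157.S1.Tb91

open Real Matrix Finset
open Crest.Agent.T157.E Crest.Agent.T157.SL Crest.Agent.T157.Ta
open Crest.Agent.T157.Rec (grad fl)
open Crest.Agent.T157.Eig (nrm opn nrm_nonneg opn_nonneg nrm_add_le nrm_sub_le nrm_smul nrm_sq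
  nrm_mulVec_le opn_transpose abs_dot_le opn_neg)
open Crest.Agent.T157.S3 (V Mx hf tau Dg TS Rg Exc)
open Crest.Agent.T157.S3F (jac hsJ jac_apply opn_jac_mul opn_jac_loc Tay col_sq_le row_sq_le)
open Crest.Agent.T157.S3.Rg (nrm_sq' nrm_le_of_sq nrm_mul_le fl_eq)
open Crest.Agent.T157.Xt (H1 Lip2 lip2_iff)
open Crest.Agent.T157.Br.St91 (tanh_tay)

variable {n : ℕ}

lemma abs_th (t : ℝ) : |tanh t| ≤ 1 := (abs_lt.2 ⟨neg_one_lt_tanh t, tanh_lt_one t⟩).le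

lemma abs_Dg (J : Mx n) (y : V n) (x : Cube n) (k : Fin n) : |Dg J y x k| ≤ 1 := by
  have := tanh_sq_lt_one (hf J y x k)
  rw [Dg, abs_le]; constructor <;> nlinarith [sq_nonneg (tanh (hf J y x k))]

lemma jac_th {J : Mx n} (hJ : opn J ≤ 3) (y : V n) (x : Cube n) :
    opn (jac (fun z k => tanh (hf J y z k)) x) ≤ 46 := by
  have h := opn_jac_loc (σ := Unit) (L := 2) (C := 1) (by norm_num) zero_le_one
    (g := fun _ _ ξ => tanh (ξ ())) (g' := fun _ _ ξ _ => 1 - tanh (ξ ()) ^ 2)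
    (fun k b ξ h => by simpa [dotProduct] using (tanh_tay (ξ ()) (h ())).1)
    (fun k b ξ m => by
      have := tanh_sq_lt_one (ξ ())
      rw [abs_le]; constructor <;> nlinarith [sq_nonneg (tanh (ξ ()))])
    (fun k ξ => by simp) (fun _ => hf J y) x
  have e : jac (hf J y) x = J := by
    have := S3F.jac_add (fun z => J *ᵥ sv z) (fun _ => y) x
    rwa [S3F.jac_const, add_zero, S3F.jac_mulVec, S3F.jac_sv, Matrix.mul_one] at this
  simp only [univ_unique, sum_singleton, e] at h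
  nlinarith [opn_nonneg J]

lemma jac_Dg {J : Mx n} (hJ : opn J ≤ 3) (y : V n) (x : Cube n) : opn (jac (Dg J y) x) ≤ 4324 := by
  have e : Dg J y = fun z => (1 : V n) - (fun k => tanh (hf J y z k)) * fun k => tanh (hf J y z k) := by
    funext z k; simp [Dg, sq]
  have h := opn_jac_mul (a := fun z k => tanh (hf J y z k)) (u := fun z k => tanh (hf J y z k))
    (x := x) zero_le_one zero_le_one (fun _ => abs_th _) fun _ => abs_th _
  rw [e, S3F.jac_sub, S3F.jac_const, zero_sub, opn_neg]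
  nlinarith [jac_th hJ y x, opn_nonneg (jac (fun z k => tanh (hf J y z k)) x)]

lemma jac_DO {J : Mx n} (hJ : opn J ≤ 3) (y : V n) {Ω : Cube n → V n} {e L : ℝ} (h : Rg e L Ω)
    (x : Cube n) : opn (jac (fun z => Dg J y z * Ω z) x) ≤ 13000 * e := by
  have e0 : 0 ≤ e := (norm_nonneg _).trans (h x).1
  refine (opn_jac_mul zero_le_one e0 (abs_Dg J y x)
    fun k => (norm_le_pi_norm (Ω x) k).trans (h x).1).trans ?_
  have e1 := mul_le_mul (add_le_add (le_refl 1) (jac_Dg hJ y x)) (h x).2.1 (opn_nonneg _)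
    (by positivity)
  have e2 := mul_le_mul (add_le_add (le_refl e) (h x).2.1) (jac_Dg hJ y x) (opn_nonneg _)
    (by positivity)
  linarith

/-- the scalar product of two regular fields -/
lemma lip_dot {u b : Cube n → V n} {a1 a2 Lb Lu H : ℝ} (H0 : 0 ≤ H)
    (h1 : ∀ x, opn (jac u x) ≤ a1) (h2 : ∀ x, opn (jac b x) ≤ a2) (h3 : ∀ x, nrm (b x) ≤ Lb)
    (h4 : ∀ x, nrm (u x) ≤ Lu) (h5 : ∀ x, hsJ b x ≤ H ^ 2) :
    Lip2 (2 * (a1 * Lb) + 2 * (a2 * Lu) + 4 * (a1 * H)) fun x => u x ⬝ᵥ b x := fun x => by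
  have a0 : 0 ≤ a1 := (opn_nonneg _).trans (h1 x)
  have b0 : 0 ≤ a2 := (opn_nonneg _).trans (h2 x)
  have e : (fun j => u x ⬝ᵥ b x - u (fl x j) ⬝ᵥ b (fl x j)) =
      (2 : ℝ) • (sv x * (jac u x)ᵀ *ᵥ b x) + (2 : ℝ) • (sv x * (jac b x)ᵀ *ᵥ u x) -
        (4 : ℝ) • fun j => ∑ k, jac u x k j * jac b x k j := by
    funext j
    simp only [dotProduct, mulVec, transpose_apply, Pi.add_apply, Pi.sub_apply, Pi.smul_apply,
      Pi.mul_apply, smul_eq_mul, mul_sum, ← sum_add_distrib, ← sum_sub_distrib]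
    refine sum_congr rfl fun k _ => ?_
    rw [fl_eq (fun y => u y k), fl_eq (fun y => b y k), jac_apply, jac_apply]
    linear_combination (-4 * grad (fun y => u y k) x j * grad (fun y => b y k) x j) *
      Rec.sv_mul_self x j
  have t : ∀ (A : Mx n) (v : V n) (a L : ℝ), opn A ≤ a → nrm v ≤ L → nrm (sv x * Aᵀ *ᵥ v) ≤ a * L :=
    fun A v a L hA hv => (nrm_mul_le zero_le_one (S3F.abs_sv x)).trans ((one_mul _).trans_le
      ((nrm_mulVec_le _ _).trans (mul_le_mul ((opn_transpose _).trans_le hA) hv (nrm_nonneg _)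
        ((opn_nonneg _).trans hA))))
  have t3 : nrm (fun j => ∑ k, jac u x k j * jac b x k j) ≤ a1 * H := by
    refine nrm_le_of_sq (by positivity) ?_
    have h6 := h5 x
    rw [hsJ, sum_comm] at h6
    rw [mul_pow]
    refine le_trans ?_ (mul_le_mul_of_nonneg_left h6 (sq_nonneg _))
    rw [mul_sum]
    refine sum_le_sum fun j _ => (sum_mul_sq_le_sq_mul_sq _ _ _).trans ?_
    exact mul_le_mul_of_nonneg_right ((col_sq_le _ j).trans
      (pow_le_pow_left₀ (opn_nonneg _) (h1 x) 2)) (sum_nonneg fun _ _ => sq_nonneg _)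
  change nrm (fun j => u x ⬝ᵥ b x - u (fl x j) ⬝ᵥ b (fl x j)) ≤ _
  rw [e]
  refine (nrm_sub_le _ _).trans (add_le_add ((nrm_add_le _ _).trans (add_le_add ?_ ?_)) ?_) <;>
    rw [nrm_smul, abs_of_pos (by norm_num)]
  · linarith [t _ _ _ _ (h1 x) (h3 x)]
  · linarith [t _ _ _ _ (h2 x) (h4 x)]
  · linarith

/-- second moment of a two-sided Lipschitz function under any law -/
lemma sq_le {w v G : Cube n → ℝ} {K A : ℝ} (h : H1 w K) (hw : ∀ x, 0 < w x) (hK : 0 < K)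
    (hA : 0 ≤ A) (hG : TS A G) (hv : Wt v) : (mean v fun x => G x ^ 2) ≤
      4 * (mean w fun x => G x ^ 2) + K * A * (16 * kl v w + 18) := by
  have h1 := h.xfer hw hK ((lip2_iff (sqrt_nonneg A)).2 (by rw [sq_sqrt hA]; exact hG))
    (Wt.of_pos hw).isP hv.isP
  have e : Ent.kl (prob w) (prob w) = 0 := by
    refine sum_eq_zero fun x _ => ?_
    rw [div_self (show prob w x ≠ 0 from (div_pos (hw x) (Wt.of_pos hw).pos).ne'), log_one, mul_zero]
  rw [sq_sqrt hA, e, mul_zero, zero_add] at h1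
  exact h1

lemma young {l : ℝ} (hl : 0 < l) (a b : ℝ) : a * b ≤ l * a ^ 2 + l⁻¹ * b ^ 2 / 4 := by
  have : 0 ≤ l⁻¹ * (2 * l * a - b) ^ 2 / 4 := by positivity
  have e : l⁻¹ * (2 * l * a - b) ^ 2 / 4 = l * a ^ 2 + l⁻¹ * b ^ 2 / 4 - a * b := by
    field_simp; ring
  linarith

/-- linearisation of the mismatch -/
lemma lin {S : Finset (Fin n)} {h ε c Ω : V n} {e : ℝ} (hΩ : ‖Ω‖ ≤ e)
    (h1 : ∀ j, j ∉ S → c j = tanh (h j + ε j) - tanh (h j)) (h2 : ∀ j, |c j| ≤ 2) :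
    nrm c ^ 2 ≤ ε ⬝ᵥ ε + 4 * #S ∧
    |Ω ⬝ᵥ c - ((fun j => 1 - tanh (h j) ^ 2) * Ω) ⬝ᵥ ε| ≤ e * (2 * (ε ⬝ᵥ ε) + 3 * #S) := by
  have e0 : 0 ≤ e := (norm_nonneg _).trans hΩ
  have eS : (#S : ℝ) = ∑ j, if j ∈ S then (1 : ℝ) else 0 := by simp
  refine ⟨?_, ?_⟩
  · rw [nrm_sq', eS, mul_sum, dotProduct, ← sum_add_distrib]
    refine sum_le_sum fun j _ => ?_
    split_ifs with hj
    · nlinarith [abs_le.1 (h2 j), mul_self_nonneg (ε j)]
    · have := Ue.abs_tanh_sub_le (h j + ε j) (h j)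
      rw [← h1 j hj, add_sub_cancel_left, ← sq_le_sq] at this
      linarith
  · rw [eS, dotProduct, dotProduct, dotProduct, ← sum_sub_distrib, mul_sum, mul_sum,
      ← sum_add_distrib, mul_sum]
    refine (abs_sum_le_sum_abs _ _).trans (sum_le_sum fun j _ => ?_)
    rw [Pi.mul_apply, show Ω j * c j - (1 - tanh (h j) ^ 2) * Ω j * ε j =
      Ω j * (c j - (1 - tanh (h j) ^ 2) * ε j) by ring, abs_mul]
    refine mul_le_mul ((norm_le_pi_norm Ω j).trans hΩ) ?_ (abs_nonneg _) e0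
    split_ifs with hj
    · have h3 : |(1 - tanh (h j) ^ 2) * ε j| ≤ 1 * |ε j| := by
        rw [abs_mul]
        refine mul_le_mul_of_nonneg_right ?_ (abs_nonneg _)
        have := tanh_sq_lt_one (h j)
        rw [abs_le]; constructor <;> nlinarith [sq_nonneg (tanh (h j))]
      have := abs_sub (c j) ((1 - tanh (h j) ^ 2) * ε j)
      nlinarith [h2 j, abs_mul_abs_self (ε j), sq_nonneg (|ε j| - 1), abs_nonneg (ε j)]
    · rw [h1 j hj]
      linarith [(tanh_tay (h j) (ε j)).1]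

/-- the pinned residual against a vector with a small excess -/
lemma pin_le {S : Finset (Fin n)} {z g : V n} {P e l : ℝ} (hz : ∀ k, k ∉ S → z k = 0) (hP : 0 ≤ P)
    (he : 0 ≤ e) (hl : 0 < l) : |P * (z ⬝ᵥ g)| ≤ e * (P * (z ⬝ᵥ z) + P * #S) +
      l * (P * (P * (z ⬝ᵥ z))) + l⁻¹ * nrm (fun i => max (|g i| - e) 0) ^ 2 := by
  have eS : (#S : ℝ) = ∑ j, if j ∈ S then (1 : ℝ) else 0 := by simp
  rw [nrm_sq', eS]
  simp only [dotProduct, mul_sum, ← sum_add_distrib]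
  refine (abs_sum_le_sum_abs _ _).trans (sum_le_sum fun k _ => ?_)
  have m0 : 0 ≤ l⁻¹ * max (|g k| - e) 0 ^ 2 := by positivity
  split_ifs with hk
  · have h1 := young hl (P * |z k|) (max (|g k| - e) 0)
    have h2 : |g k| ≤ e + max (|g k| - e) 0 := by linarith [le_max_left (|g k| - e) 0]
    have h3 := mul_le_mul_of_nonneg_left h2 (mul_nonneg hP (abs_nonneg (z k)))
    have h4 : |z k| ≤ z k * z k + 1 := by nlinarith [abs_mul_abs_self (z k), sq_nonneg (|z k| - 1)]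
    have h5 := mul_le_mul_of_nonneg_left h4 (mul_nonneg he hP)
    rw [mul_pow, sq_abs] at h1
    rw [abs_mul, abs_mul, abs_of_nonneg hP]
    linarith
  · simpa [hz k hk] using m0

lemma num1 {A P CN ω T X M e ec l : ℝ} (hA : 1 ≤ A) (hP : 1 ≤ P) (hC : 1 ≤ CN) (o0 : 0 < ω)
    (o1 : ω ≤ 1) (hT : 0 ≤ T) (hX : 0 ≤ X) (c0 : 0 ≤ ec) (M0 : 0 ≤ M)
    (hE : 10 ^ 7 * A ^ 2 * P ^ 2 * e ≤ ω ^ 2) (hc : 10 ^ 7 * A ^ 2 * P ^ 2 * CN ^ 2 * ec ≤ ω ^ 2)
    (hM : 10 ^ 7 * A ^ 2 * P ^ 2 * CN ^ 2 ≤ M * ω ^ 2) (hl : l = ω / (8000 * P ^ 2 * A)) :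
    (654 * l + 1320 * ec) * (P ^ 2 * (2 * A * T)) + l * T +
      l⁻¹ * (e * A * T + 88 * (A * CN ^ 2 * ec * T) + 63 * (A * CN ^ 2 * X)) ≤
      ω * T / 3 + M * X / 3 := by
  have P2 : 1 ≤ P ^ 2 := one_le_pow₀ hP
  have C2 : 1 ≤ CN ^ 2 := one_le_pow₀ hC
  have h1 : l * (P ^ 2 * A) = ω / 8000 := by rw [hl]; field_simp
  have l0 : 0 < l := by rw [hl]; positivity
  have h2 : l ≤ ω / 8000 := h1 ▸ le_mul_of_one_le_right l0.le (one_le_mul_of_one_le_of_one_le P2 hA)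
  have h3 : l⁻¹ * ω = 8000 * P ^ 2 * A := by rw [hl]; field_simp
  have h4 : l⁻¹ * (e * A) ≤ ω / 1250 := le_of_mul_le_mul_right (by
    rw [mul_right_comm, h3]; linarith) o0
  have h5 : l⁻¹ * (A * CN ^ 2 * ec) ≤ ω / 1250 := le_of_mul_le_mul_right (by
    rw [mul_right_comm, h3]; linarith) o0
  have h6 : l⁻¹ * (A * CN ^ 2) ≤ M / 1250 := le_of_mul_le_mul_right (by
    rw [mul_right_comm, h3]
    linarith [mul_le_mul_of_nonneg_left o1 (mul_nonneg M0 o0.le)]) o0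
  have h7 : P ^ 2 * A * ec ≤ ω / 10 ^ 7 := by
    have a : P ^ 2 * A * ec * 1 ≤ P ^ 2 * A * ec * (A * CN ^ 2) :=
      mul_le_mul_of_nonneg_left (one_le_mul_of_one_le_of_one_le hA C2) (by positivity)
    linarith [mul_le_mul_of_nonneg_left o1 o0.le]
  have h8 : l * (P ^ 2 * A) * T = ω / 8000 * T := by rw [h1]
  linarith [mul_le_mul_of_nonneg_right h2 hT, mul_le_mul_of_nonneg_right h4 hT,
    mul_le_mul_of_nonneg_right h5 hT, mul_le_mul_of_nonneg_right h6 hX,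
    mul_le_mul_of_nonneg_right h7 hT, mul_nonneg o0.le hT, mul_nonneg M0 hX]

lemma num2 {A CN ω T ec x : ℝ} (hA : 1 ≤ A) (hC : 1 ≤ CN) (o0 : 0 < ω) (o1 : ω ≤ 1) (hT : 0 ≤ T)
    (c0 : 0 ≤ ec) (hc : 10 ^ 7 * A ^ 2 * CN ^ 2 * ec ≤ ω ^ 2)
    (hx : x ^ 2 ≤ (78000 * ec * CN) ^ 2 * (6 * T) * (32 * A * (T + 1))) : x ≤ ω * (T + 1) / 4 := by
  refine (le_abs_self x).trans (abs_le_of_sq_le_sq (hx.trans ?_) (by positivity))
  have C2 : 1 ≤ CN ^ 2 := one_le_pow₀ hC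
  have a1 : 10 ^ 7 * A * CN * ec ≤ ω := by
    have a : A * CN * ec * 1 ≤ A * CN * ec * (A * CN) :=
      mul_le_mul_of_nonneg_left (one_le_mul_of_one_le_of_one_le hA hC) (by positivity)
    linarith [mul_le_mul_of_nonneg_left o1 o0.le]
  have a2 := pow_le_pow_left₀ (by positivity) a1 2
  have a3 : A * (CN * ec) ^ 2 * 1 ≤ A * (CN * ec) ^ 2 * A :=
    mul_le_mul_of_nonneg_left hA (by positivity)
  have a4 : 2 * 10 ^ 13 * (A * (CN * ec) ^ 2) ≤ ω ^ 2 := by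
    linarith [show 0 ≤ A * (CN * ec) ^ 2 by positivity]
  have a5 := mul_le_mul a4 (show T * (T + 1) ≤ (T + 1) ^ 2 by nlinarith) (by positivity)
    (by positivity)
  linarith [show 0 ≤ A * (CN * ec) ^ 2 * (T * (T + 1)) by positivity]

end Crest.Agent.T157.S1.Tb91

end
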