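import Crest.Agent.T157.RecB_77
import Crest.Agent.T157.EntE_34

/-!
# Row 157, block B/S3, section 0 (helper80): consequences of approximate tensorisation

(H0)–(H3) and the transport inequality (TR).
-/

set_option autoImplicit false
set_option linter.unusedSectionVars false

noncomputable section

namespace Crest.Agent.T157.S3.Hb

open Finset Matrix Function Filter Topology Real
open Crest.Agent.T157.Chain22 Crest.Agent.T157.Ent
open Crest.Agent.T157.E (Cube prob siteM dir sv)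
open Crest.Agent.T157.Rec (grad fl)

/-! ### general finite spaces -/

section gen

variable {Ω : Type*} [Fintype Ω] {ρ ν : Ω → ℝ}

/-- Herbst's argument with a general right-hand side -/
theorem herbst_fun (h : IsP ρ) (F : Ω → ℝ) {φ φ' : ℝ → ℝ} (hφ : ∀ u, HasDerivAt φ (φ' u) u) {t : ℝ}
    (ht : 0 < t) (hE : ∀ u, 0 < u → u < t → ent ρ (fun x => exp (u * F x)) ≤
      u ^ 2 * φ' u * mean ρ fun x => exp (u * F x)) :
    lmgf ρ F t / t ≤ mean ρ F + (φ t - φ 0) := by
  have hd : ∀ u, 0 < u → HasDerivAt (fun u => lmgf ρ F u / u - φ u)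
      (ent ρ (fun x => exp (u * F x)) / (mean ρ fun x => exp (u * F x)) / u ^ 2 - φ' u) u :=
    fun u hu => by
      refine (((hasDerivAt_lmgf h F u).fun_div (hasDerivAt_id u) hu.ne').fun_sub
        (hφ u)).congr_deriv ?_
      rw [ent_exp]
      have := (mean_exp_pos h fun x => u * F x).ne'
      simp only [id]
      field_simp
  have ha : AntitoneOn (fun u => lmgf ρ F u / u - φ u) (Set.Ioc 0 t) :=
    antitoneOn_of_deriv_nonpos (convex_Ioc 0 t)
      (fun u hu => (hd u hu.1).continuousAt.continuousWithinAt)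
      (fun u hu => by
        rw [interior_Ioc] at hu
        exact (hd u hu.1).differentiableAt.differentiableWithinAt)
      fun u hu => by
        rw [interior_Ioc] at hu
        rw [(hd u hu.1).deriv, sub_nonpos, div_le_iff₀ (pow_pos hu.1 2),
          div_le_iff₀ (mean_exp_pos h _), mul_comm (φ' u)]
        exact hE u hu.1 hu.2
  have h0 := hasDerivAt_lmgf h F 0
  simp only [zero_mul, exp_zero, one_mul, h.mean_const, div_one] at h0
  have hl : Tendsto (fun s => lmgf ρ F s / s - φ s) (𝓝[>] 0) (𝓝 (mean ρ F - φ 0)) := by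
    refine Tendsto.sub ?_ ((hφ 0).continuousAt.tendsto.mono_left nhdsWithin_le_nhds)
    have := h0.tendsto_slope_zero_right
    simp only [zero_add, lmgf_zero h, sub_zero, smul_eq_mul] at this
    exact this.congr fun s => by rw [div_eq_inv_mul]
  have : lmgf ρ F t / t - φ t ≤ mean ρ F - φ 0 := by
    refine ge_of_tendsto hl ?_
    filter_upwards [Ioo_mem_nhdsGT ht] with s hs
    exact ha ⟨hs.1, hs.2.le⟩ ⟨ht, le_rfl⟩ hs.2.le
  linarith

/-- exponential tilt of a law -/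
def tl (ρ F : Ω → ℝ) (x : Ω) : ℝ := ρ x * (exp (F x) / mean ρ fun x => exp (F x))

theorem mean_tl (F G : Ω → ℝ) :
    mean (tl ρ F) G = (mean ρ fun x => exp (F x) * G x) / mean ρ fun x => exp (F x) := by
  rw [div_eq_mul_inv, ← mean_mul_const]
  exact (mean_dens _ _).trans (mean_congr fun x => by ring)

theorem mean_dens_one (h : IsP ρ) (F : Ω → ℝ) :
    mean ρ (fun x => exp (F x) / mean ρ fun x => exp (F x)) = 1 := by
  simp only [div_eq_mul_inv, mean_mul_const]
  exact mul_inv_cancel₀ (mean_exp_pos h F).ne'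

theorem isP_tl (h : IsP ρ) (F : Ω → ℝ) : IsP (tl ρ F) :=
  isP_dens h (fun _ => div_nonneg (exp_pos _).le (mean_exp_pos h F).le) (mean_dens_one h F)

theorem kl_tl (h : IsP ρ) (F : Ω → ℝ) :
    kl (tl ρ F) ρ = ent ρ (fun x => exp (F x)) / mean ρ fun x => exp (F x) := by
  refine (ent_eq_kl (mean_dens_one h F)).symm.trans ?_
  rw [div_eq_inv_mul, ← ent_smul]
  congr 1
  funext x
  rw [div_eq_inv_mul]; rfl

theorem le_two_sqrt {X H c : ℝ} (hH : 0 ≤ H) (hc : 0 ≤ c) (h : ∀ θ, 0 < θ → X ≤ H / θ + c * θ) :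
    X ≤ 2 * √(c * H) := by
  refine le_of_forall_pos_le_add fun ε hε => ?_
  have a0 := sqrt_nonneg H
  have b0 := sqrt_nonneg c
  obtain ⟨δ, d0, d1⟩ : ∃ δ : ℝ, 0 < δ ∧ δ * (√H + √c) ≤ ε :=
    ⟨ε / (√H + √c + 1), by positivity, by
      rw [div_mul_eq_mul_div, div_le_iff₀ (by positivity)]; nlinarith⟩
  refine (h ((√H + δ) / (√c + δ)) (by positivity)).trans ?_
  have e1 : H / ((√H + δ) / (√c + δ)) ≤ √H * (√c + δ) := by
    rw [div_div_eq_mul_div, div_le_iff₀ (by positivity)]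
    have := mul_self_sqrt hH
    nlinarith [mul_nonneg (mul_nonneg a0 d0.le) (add_nonneg b0 d0.le)]
  have e2 : c * ((√H + δ) / (√c + δ)) ≤ √c * (√H + δ) := by
    rw [← mul_div_assoc, div_le_iff₀ (by positivity)]
    have := mul_self_sqrt hc
    nlinarith [mul_nonneg (mul_nonneg b0 d0.le) (add_nonneg a0 d0.le)]
  rw [sqrt_mul hc]
  nlinarith

end gen

/-! ### words -/

variable {n : ℕ} {w ν F Z R : Cube n → ℝ} {K A L c θ : ℝ} {κ : Type*} [Fintype κ]

/-- one-sided energy -/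
def Vp (F : Cube n → ℝ) (x : Cube n) : ℝ := ∑ j, max (F x - F (fl x j)) 0 ^ 2
/-- conditional variance of the spin `j` -/
def Dw (w : Cube n → ℝ) (x : Cube n) (j : Fin n) : ℝ := 4 * (cnd w j x true * cnd w j x false)
/-- carré du champ -/
def Gam (w F : Cube n → ℝ) (x : Cube n) : ℝ := ∑ j, Dw w x j * grad F x j ^ 2
/-- the Jacobian has squared operator norm at most `L` -/
def OpL (u : Cube n → κ → ℝ) (L : ℝ) : Prop := ∀ x v,
  grad (fun y => v ⬝ᵥ u y) x ⬝ᵥ grad (fun y => v ⬝ᵥ u y) x ≤ L * (v ⬝ᵥ v)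

theorem dsn (v : κ → ℝ) : 0 ≤ v ⬝ᵥ v := sum_nonneg fun _ _ => mul_self_nonneg _

theorem cnd_add (hw : ∀ x, 0 < w x) (j : Fin n) (x : Cube n) :
    cnd w j x true + cnd w j x false = 1 := by
  simpa only [Fintype.sum_bool] using (isP_cnd hw j x).sum1

theorem Dw_pos (hw : ∀ x, 0 < w x) (x : Cube n) (j : Fin n) : 0 < Dw w x j :=
  mul_pos four_pos (mul_pos (cnd_pos hw _ _ _) (cnd_pos hw _ _ _))

theorem Dw_eq (hw : ∀ x, 0 < w x) (x : Cube n) (j : Fin n) :
    Dw w x j = 1 - siteM w (fun y => sv y j) j x ^ 2 := by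
  have e := cnd_add hw j x
  rw [← mean_cnd, mean, Fintype.sum_bool, Dw]
  simp only [sv, update_self, Crest.ProbabilityR.SpinGlassDynamics.spin, if_true,
    Bool.false_eq_true, if_false]
  linear_combination (cnd w j x true + cnd w j x false + 1) * e

theorem Dw_le_one (hw : ∀ x, 0 < w x) (x : Cube n) (j : Fin n) : Dw w x j ≤ 1 := by
  rw [Dw_eq hw]; exact sub_le_self _ (sq_nonneg _)

theorem Dw_update (x : Cube n) (j : Fin n) (b : Bool) : Dw w (update x j b) j = Dw w x j := by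
  simp only [Dw, cnd_update]

theorem fl_update (x : Cube n) (j : Fin n) (b : Bool) : fl (update x j b) j = update x j (!b) := by
  simp only [fl, update_self, update_idem]

theorem Vp_nonneg (F : Cube n → ℝ) (x : Cube n) : 0 ≤ Vp F x := sum_nonneg fun _ _ => sq_nonneg _

theorem Gam_nonneg (hw : ∀ x, 0 < w x) (F : Cube n → ℝ) (x : Cube n) : 0 ≤ Gam w F x :=
  sum_nonneg fun j _ => mul_nonneg (Dw_pos hw x j).le (sq_nonneg _)

theorem Gam_le (hw : ∀ x, 0 < w x) (F : Cube n → ℝ) (x : Cube n) :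
    Gam w F x ≤ grad F x ⬝ᵥ grad F x :=
  sum_le_sum fun j _ => (mul_le_of_le_one_left (sq_nonneg _) (Dw_le_one hw x j)).trans_eq (sq _)

theorem sq_fl (f : Cube n → ℝ) (x : Cube n) (i : Fin n) :
    (f x - f (fl x i)) ^ 2 = 4 * (grad f x i * grad f x i) := by
  rw [Rec.grad_eq]
  linear_combination (-(f x - f (fl x i)) ^ 2) * Rec.sv_mul_self x i

theorem max_sq_le {a b : ℝ} (h : a ≤ b) : max a 0 ^ 2 ≤ b ^ 2 := by
  rcases le_total a 0 with h0 | h0
  · rw [max_eq_right h0]; simpa using sq_nonneg b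
  · rw [max_eq_left h0]; exact pow_le_pow_left₀ h0 h 2

theorem Vp_le_of_le {G : Cube n → ℝ} {x : Cube n} (h : ∀ y, F x - F y ≤ G x - G y) :
    Vp F x ≤ 4 * (grad G x ⬝ᵥ grad G x) := by
  rw [dotProduct, mul_sum]
  exact sum_le_sum fun j _ => (max_sq_le (h _)).trans_eq (sq_fl G x j)

theorem Vp_le_grad (F : Cube n → ℝ) (x : Cube n) : Vp F x ≤ 4 * (grad F x ⬝ᵥ grad F x) :=
  Vp_le_of_le fun _ => le_rfl

theorem Vp_const_mul (hc : 0 ≤ c) (F : Cube n → ℝ) (x : Cube n) :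
    Vp (fun x => c * F x) x = c ^ 2 * Vp F x := by
  simp only [Vp, mul_sum, ← mul_pow, mul_max_of_nonneg _ _ hc, mul_sub, mul_zero]

theorem grad_dot (u : Cube n → κ → ℝ) (v : κ → ℝ) (x : Cube n) (j : Fin n) :
    grad (fun y => v ⬝ᵥ u y) x j = ∑ k, v k * grad (fun y => u y k) x j := by
  simp only [grad, SL.incr, dotProduct, ← sum_sub_distrib, sum_div]
  exact sum_congr rfl fun k _ => by ring

/-- convex functionals of a vector field -/
theorem OpL.vp {u : Cube n → κ → ℝ} (h : OpL u L) {x : Cube n} (g : κ → ℝ)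
    (hg : ∀ y, Z x - Z y ≤ g ⬝ᵥ u x - g ⬝ᵥ u y) : Vp Z x ≤ 4 * (L * (g ⬝ᵥ g)) :=
  (Vp_le_of_le (G := fun y => g ⬝ᵥ u y) hg).trans (mul_le_mul_of_nonneg_left (h x g) four_pos.le)

theorem OpL.vp_sq {u : Cube n → κ → ℝ} (h : OpL u L) (x : Cube n) :
    Vp (fun x => ∑ k, u x k ^ 2) x ≤ 16 * L * ∑ k, u x k ^ 2 := by
  refine (h.vp (fun k => 2 * u x k) fun y => ?_).trans_eq ?_
  · simp only [dotProduct, ← sum_sub_distrib]
    exact sum_le_sum fun k _ => by nlinarith [sq_nonneg (u x k - u y k)]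
  · simp only [dotProduct, mul_sum]
    exact sum_congr rfl fun k _ => by ring

theorem OpL.vp_clip {u : Cube n → κ → ℝ} (h : OpL u L) (η : ℝ) (x : Cube n) :
    Vp (fun x => ∑ k, max (|u x k| - η) 0 ^ 2) x ≤ 16 * L * ∑ k, max (|u x k| - η) 0 ^ 2 := by
  refine (h.vp (fun k => 2 * max (|u x k| - η) 0 * if 0 ≤ u x k then 1 else -1)
    fun y => ?_).trans_eq ?_
  · simp only [dotProduct, ← sum_sub_distrib]
    refine sum_le_sum fun k _ => ?_
    have h1 := le_max_left (|u y k| - η) 0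
    have h2 := sq_nonneg (max (|u x k| - η) 0 - max (|u y k| - η) 0)
    have h3 := le_abs_self (u y k)
    have h4 := neg_abs_le (u y k)
    rcases le_total (|u x k| - η) 0 with h0 | h0
    · rw [max_eq_right h0]; nlinarith [sq_nonneg (max (|u y k| - η) 0)]
    · rw [max_eq_left h0] at h2 ⊢
      split_ifs with hs
      · rw [abs_of_nonneg hs] at h0 h2 ⊢; nlinarith
      · rw [abs_of_neg (not_le.1 hs)] at h0 h2 ⊢; nlinarith
  · simp only [dotProduct, mul_sum]
    exact sum_congr rfl fun k _ => by split_ifs <;> ring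

/-! ### (H0) -/

theorem two_A {p q : ℝ} (hp : 0 ≤ p) (hq : 0 ≤ q) (e : p + q = 1) (a b : ℝ) :
    p * q * ((exp a - exp b) * (a - b)) ≤
      p * (exp a * max (a - b) 0 ^ 2) + q * (exp b * max (b - a) 0 ^ 2) := by
  have h1 := mul_le_mul_of_nonneg_left (exp_sub_mul_le a b) (mul_nonneg hp hq)
  have h2 : 0 ≤ exp a * max (a - b) 0 ^ 2 := by positivity
  have h3 : 0 ≤ exp b * max (b - a) 0 ^ 2 := by positivity
  have h4 := mul_nonneg (mul_nonneg hp hp) h2
  have h5 := mul_nonneg (mul_nonneg hq hq) h3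
  obtain rfl : q = 1 - p := by linarith
  nlinarith

theorem two_B {p q a b : ℝ} (hp : 0 ≤ p) (hq : 0 ≤ q) (e : p + q = 1) (h : |a - b| ≤ 1) :
    (exp a - exp b) * (a - b) ≤ 3 * (p * exp a + q * exp b) * (a - b) ^ 2 := by
  have k : ∀ {a b : ℝ}, a - b ≤ 1 → exp a ≤ 3 * exp b := fun {a b} h => by
    have := exp_le_exp.2 (by linarith : a ≤ 1 + b)
    rw [exp_add] at this
    nlinarith [exp_one_lt_three, exp_pos b]
  have h1 := mul_le_mul_of_nonneg_left (k (abs_le.1 h).2) hq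
  have h2 := mul_le_mul_of_nonneg_left (k (a := b) (b := a) (by linarith [(abs_le.1 h).1])) hp
  have h3 := mul_nonneg hp (exp_pos a).le
  have h4 := mul_nonneg hq (exp_pos b).le
  have a1 : exp a ≤ 3 * (p * exp a + q * exp b) := by nlinarith
  have a2 : exp b ≤ 3 * (p * exp a + q * exp b) := by nlinarith
  refine (exp_sub_mul_le a b).trans ?_
  rcases le_total a b with h0 | h0
  · rw [max_eq_right (sub_nonpos.2 h0), max_eq_left (sub_nonneg.2 h0)]
    nlinarith [mul_le_mul_of_nonneg_right a2 (sq_nonneg (b - a))]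
  · rw [max_eq_left (sub_nonneg.2 h0), max_eq_right (sub_nonpos.2 h0)]
    nlinarith [mul_le_mul_of_nonneg_right a1 (sq_nonneg (a - b))]

theorem two_C {p q a b δ ω ω' : ℝ} (hp : 0 ≤ p) (hq : 0 ≤ q) (e : p + q = 1) (h : a - b = 2 * δ)
    (h1 : 4 * |ω| ≤ 1) (h2 : 4 * |ω'| ≤ 1) : p * q * ((exp a - exp b) * (a - b)) ≤
      p * (exp a * (6 * (4 * (p * q) * ω ^ 2) + 16 * (δ - ω) ^ 2)) +
        q * (exp b * (6 * (4 * (p * q) * ω' ^ 2) + 16 * (δ - ω') ^ 2)) := by
  have pq := mul_nonneg hp hq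
  have h3 := mul_nonneg hp (exp_pos a).le
  have h4 := mul_nonneg hq (exp_pos b).le
  rcases le_total |a - b| 1 with h0 | h0
  · have pq' : 4 * (p * q) ≤ 1 := by nlinarith [sq_nonneg (p - q)]
    have k : ∀ ω : ℝ, p * q * (3 * (a - b) ^ 2) ≤ 6 * (4 * (p * q) * ω ^ 2) + 16 * (δ - ω) ^ 2 :=
      fun ω => by
        rw [h]
        nlinarith [mul_nonneg pq (sq_nonneg (δ - 2 * ω)), sq_nonneg (δ - ω),
          mul_le_mul_of_nonneg_right pq' (sq_nonneg (δ - ω))]
    nlinarith [mul_le_mul_of_nonneg_left (two_B hp hq e h0) pq, mul_le_mul_of_nonneg_left (k ω) h3,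
      mul_le_mul_of_nonneg_left (k ω') h4]
  · have k : ∀ ω : ℝ, 4 * |ω| ≤ 1 →
        (a - b) ^ 2 ≤ 6 * (4 * (p * q) * ω ^ 2) + 16 * (δ - ω) ^ 2 := fun ω hω => by
      have e1 := abs_sub_abs_le_abs_sub δ ω
      rw [h, abs_mul, abs_two] at h0
      have e2 : |δ| ≤ 2 * |δ - ω| := by linarith
      have e3 := pow_le_pow_left₀ (abs_nonneg _) e2 2
      rw [mul_pow, sq_abs, sq_abs] at e3
      rw [h]
      nlinarith [mul_nonneg pq (sq_nonneg ω)]
    have m1 := (max_sq_le (le_refl (a - b))).trans (k ω h1)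
    have m2 := (max_sq_le (le_refl (b - a))).trans ((by ring : (b - a) ^ 2 = (a - b) ^ 2).trans_le
      (k ω' h2))
    nlinarith [two_A hp hq e a b, mul_le_mul_of_nonneg_left m1 h3, mul_le_mul_of_nonneg_left m2 h4]

/-- site entropy of an exponential from a two-point inequality -/
theorem entS_exp_le (hw : ∀ x, 0 < w x) (g G : Cube n → ℝ) (j : Fin n)
    (h : ∀ x, cnd w j x true * cnd w j x false * ((exp (g (update x j true)) -
      exp (g (update x j false))) * (g (update x j true) - g (update x j false))) ≤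
      cnd w j x true * (exp (g (update x j true)) * G (update x j true)) +
        cnd w j x false * (exp (g (update x j false)) * G (update x j false))) :
    entS w (fun x => exp (g x)) j ≤ mean (prob w) fun x => exp (g x) * G x := by
  rw [← mean_siteM hw j fun x => exp (g x) * G x]
  refine (isP_prob' hw).mean_mono fun x => ?_
  rw [← mean_cnd, mean, Fintype.sum_bool]
  refine (ent_le_cov (isP_cnd hw j x) fun _ => exp_pos _).trans (le_trans (le_of_eq ?_) (h x))
  simp only [mean, Fintype.sum_bool, log_exp]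
  have e : cnd w j x false = 1 - cnd w j x true := by linarith [cnd_add hw j x]
  rw [e]; ring

theorem ent_exp_sum (hK : 0 ≤ K) (h : AT w K 0) (g : Cube n → ℝ)
    (G : Cube n → Fin n → ℝ)
    (hG : ∀ j, entS w (fun x => exp (g x)) j ≤ mean (prob w) fun x => exp (g x) * G x j) :
    ent (prob w) (fun x => exp (g x)) ≤ K * mean (prob w) fun x => exp (g x) * ∑ j, G x j := by
  have := h (fun x => exp (g x)) fun _ => (exp_pos _).le
  rw [zero_mul, add_zero] at this
  refine this.trans (mul_le_mul_of_nonneg_left ((sum_le_sum fun j _ => hG j).trans_eq ?_) hK)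
  simp only [mul_sum, mean_sum']

/-- **(H0)**, one-sided form -/
theorem ent_exp_Vp (hw : ∀ x, 0 < w x) (hK : 0 ≤ K) (h : AT w K 0) (g : Cube n → ℝ) :
    ent (prob w) (fun x => exp (g x)) ≤ K * mean (prob w) fun x => exp (g x) * Vp g x :=
  ent_exp_sum hK h g _ fun j => entS_exp_le hw g _ j fun x => by
    simp only [fl_update, Bool.not_true, Bool.not_false]
    exact two_A (cnd_pos hw _ _ _).le (cnd_pos hw _ _ _).le (cnd_add hw j x) _ _

/-- **(H0)**, weighted form -/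
theorem ent_exp_Gam (hw : ∀ x, 0 < w x) (hK : 0 ≤ K) (h : AT w K 0) {g : Cube n → ℝ}
    (hg : ∀ x j, 2 * |grad g x j| ≤ 1) :
    ent (prob w) (fun x => exp (g x)) ≤ K * mean (prob w) fun x => exp (g x) * (3 * Gam w g x) := by
  simp only [Gam, mul_sum univ _ (3 : ℝ)]
  refine ent_exp_sum hK h g _ fun j => entS_exp_le hw g _ j fun x => ?_
  have e : g (update x j true) - g (update x j false) = 2 * grad g x j := by
    rw [grad, SL.incr]; ring
  have p0 := (cnd_pos hw j x true).le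
  have q0 := (cnd_pos hw j x false).le
  have := mul_le_mul_of_nonneg_left (two_B p0 q0 (cnd_add hw j x)
    (a := g (update x j true)) (b := g (update x j false))
    (by rw [e, abs_mul, abs_two]; exact hg x j)) (mul_nonneg p0 q0)
  simp only [Dw_update, Rec.grad_update]
  refine this.trans_eq ?_
  rw [e, Dw]; ring

/-! ### (H1) -/

theorem acw (hw : ∀ x, 0 < w x) (ν : Cube n → ℝ) : AC ν (prob w) := AC.of_pos _ (prob_pos' hw)

theorem kl0 (hw : ∀ x, 0 < w x) (hν : IsP ν) : 0 ≤ kl ν (prob w) :=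
  kl_nonneg hν (isP_prob' hw) (acw hw ν)

theorem sub_le_of_lmgf (hw : ∀ x, 0 < w x) (hν : IsP ν) (hθ : 0 < θ)
    (h : lmgf (prob w) F θ ≤ θ * mean (prob w) F + c * θ ^ 2) :
    mean ν F - mean (prob w) F ≤ kl ν (prob w) / θ + c * θ := by
  have := mean_le_kl_theta hν (isP_prob' hw) (acw hw ν) F hθ
  rw [le_div_iff₀ hθ] at this
  rw [← mul_le_mul_iff_left₀ hθ, add_mul, div_mul_cancel₀ _ hθ.ne']
  unfold lmgf at h
  nlinarith

/-- **(H1)** -/
theorem lmgf_le (hw : ∀ x, 0 < w x) (hK : 0 ≤ K) (h : AT w K 0) (hA : ∀ x, Vp F x ≤ A) {t : ℝ}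
    (ht : 0 ≤ t) : lmgf (prob w) F t ≤ t * mean (prob w) F + K * A * t ^ 2 :=
  herbst (isP_prob' hw) F ht fun u hu _ => (ent_exp_Vp hw hK h _).trans (by
    rw [← mean_const_mul, ← mean_const_mul]
    refine (isP_prob' hw).mean_mono fun x => ?_
    rw [Vp_const_mul hu.le]
    nlinarith [mul_le_mul_of_nonneg_left (hA x)
      (mul_nonneg hK (mul_pos (exp_pos (u * F x)) (pow_pos hu 2)).le)])

theorem mgf_le (hw : ∀ x, 0 < w x) (hK : 0 ≤ K) (h : AT w K 0) (hA : ∀ x, Vp F x ≤ A) {t : ℝ}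
    (ht : 0 ≤ t) : mean (prob w) (fun x => exp (t * F x)) ≤
      exp (t * mean (prob w) F + K * A * t ^ 2) :=
  (log_le_iff_le_exp (mean_exp_pos (isP_prob' hw) _)).1 (lmgf_le hw hK h hA ht)

theorem h1_theta (hw : ∀ x, 0 < w x) (hK : 0 ≤ K) (h : AT w K 0) (hA : ∀ x, Vp F x ≤ A)
    (hν : IsP ν) (hθ : 0 < θ) : mean ν F - mean (prob w) F ≤ kl ν (prob w) / θ + K * A * θ :=
  sub_le_of_lmgf hw hν hθ (lmgf_le hw hK h hA hθ.le)

theorem h1 (hw : ∀ x, 0 < w x) (hK : 0 ≤ K) (h : AT w K 0) (hA : ∀ x, Vp F x ≤ A) (hν : IsP ν) :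
    mean ν F - mean (prob w) F ≤ 2 * √(K * A * kl ν (prob w)) :=
  le_two_sqrt (kl0 hw hν) (mul_nonneg hK ((Vp_nonneg F default).trans (hA _))) fun _ hθ =>
    h1_theta hw hK h hA hν hθ

theorem mean_neg' (ν F : Cube n → ℝ) : mean ν (fun x => -1 * F x) = -mean ν F := by
  rw [mean_const_mul, neg_one_mul]

theorem grad_neg_dot (F : Cube n → ℝ) (x : Cube n) :
    grad (fun x => -1 * F x) x ⬝ᵥ grad (fun x => -1 * F x) x = grad F x ⬝ᵥ grad F x := by
  rw [Rec.grad_const_mul]; simp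

/-- two-sided mgf bound, every real `t` -/
theorem mgf_le_grad (hw : ∀ x, 0 < w x) (hK : 0 ≤ K) (h : AT w K 0)
    (hA : ∀ x, grad F x ⬝ᵥ grad F x ≤ A) (t : ℝ) :
    mean (prob w) (fun x => exp (t * F x)) ≤ exp (t * mean (prob w) F + 4 * K * A * t ^ 2) := by
  rcases le_total 0 t with ht | ht
  · exact (mgf_le hw hK h (A := 4 * A) (fun x => (Vp_le_grad F x).trans (by linarith [hA x]))
      ht).trans_eq (by ring_nf)
  · have := mgf_le hw hK h (F := fun x => -1 * F x) (A := 4 * A) (fun x => (Vp_le_grad _ x).trans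
      (by rw [grad_neg_dot]; linarith [hA x])) (neg_nonneg.2 ht)
    rw [mean_neg'] at this
    exact (mean_congr fun x => by ring_nf).trans_le (this.trans_eq (by ring_nf))

theorem h1_abs_theta (hw : ∀ x, 0 < w x) (hK : 0 ≤ K) (h : AT w K 0)
    (hA : ∀ x, grad F x ⬝ᵥ grad F x ≤ A) (hν : IsP ν) (hθ : 0 < θ) :
    |mean ν F - mean (prob w) F| ≤ kl ν (prob w) / θ + 4 * K * A * θ := by
  have a := h1_theta hw hK h (A := 4 * A) (fun x => (Vp_le_grad F x).trans (by linarith [hA x]))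
    hν hθ
  have b := h1_theta hw hK h (F := fun x => -1 * F x) (A := 4 * A)
    (fun x => (Vp_le_grad _ x).trans (by rw [grad_neg_dot]; linarith [hA x])) hν hθ
  rw [mean_neg', mean_neg'] at b
  exact abs_le.2 ⟨by linarith, by linarith⟩

/-- **T1** for Lipschitz observables -/
theorem h1_sq (hw : ∀ x, 0 < w x) (hK : 0 ≤ K) (h : AT w K 0)
    (hA : ∀ x, grad F x ⬝ᵥ grad F x ≤ A) (hν : IsP ν) :
    (mean ν F - mean (prob w) F) ^ 2 ≤ 16 * K * A * kl ν (prob w) := by
  have a0 : 0 ≤ 4 * K * A :=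
    mul_nonneg (by positivity) ((dsn _).trans (hA default))
  have := pow_le_pow_left₀ (abs_nonneg _) (le_two_sqrt (kl0 hw hν) a0 fun _ hθ =>
    h1_abs_theta hw hK h hA hν hθ) 2
  rw [sq_abs, mul_pow, sq_sqrt (mul_nonneg a0 (kl0 hw hν))] at this
  linarith

/-! ### (H2), (H3) -/

/-- **self-bounded observables** -/
theorem sb (hw : ∀ x, 0 < w x) (hK : 0 ≤ K) (h : AT w K 0) (hc : 0 ≤ c) (h0 : ∀ x, 0 ≤ Z x)
    (hZ : ∀ x, Vp Z x ≤ c * Z x) (hν : IsP ν) :
    mean ν Z ≤ 2 * mean (prob w) Z + 2 * K * c * kl ν (prob w) := by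
  have hp := isP_prob' hw
  have H0 := kl0 hw hν
  refine le_of_forall_pos_le_add fun ε hε => ?_
  obtain ⟨a, a0, a1, a2⟩ : ∃ a : ℝ, 0 < a ∧ K * c ≤ a ∧
      2 * a * kl ν (prob w) ≤ 2 * K * c * kl ν (prob w) + ε := by
    refine ⟨K * c + ε / (2 * kl ν (prob w) + 1), by positivity,
      le_add_of_nonneg_right (by positivity), ?_⟩
    have : ε / (2 * kl ν (prob w) + 1) * (2 * kl ν (prob w)) ≤ ε := by
      rw [div_mul_eq_mul_div, div_le_iff₀ (by positivity)]; nlinarith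
    nlinarith
  have t0 : 0 < (2 * a)⁻¹ := by positivity
  have e := herbst_fun hp Z (fun u => (hasDerivAt_lmgf hp Z u).const_mul a) t0 fun u hu _ => by
    rw [mul_assoc, mul_assoc, div_mul_cancel₀ _ (mean_exp_pos hp _).ne']
    refine (ent_exp_Vp hw hK h _).trans ?_
    rw [← mean_const_mul, ← mean_const_mul, ← mean_const_mul]
    refine hp.mean_mono fun x => ?_
    rw [Vp_const_mul hu.le]
    have b := mul_pos (exp_pos (u * Z x)) (pow_pos hu 2)
    nlinarith [mul_le_mul_of_nonneg_left (hZ x) (mul_nonneg hK b.le),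
      mul_le_mul_of_nonneg_right a1 (mul_nonneg b.le (h0 x))]
  have f := mean_le_kl_theta hν hp (acw hw ν) Z t0
  rw [lmgf_zero hp, div_inv_eq_mul] at e
  rw [div_inv_eq_mul] at f
  unfold lmgf at e
  nlinarith

theorem var_cnd (hw : ∀ x, 0 < w x) (F : Cube n → ℝ) (j : Fin n) (x : Cube n) :
    var (cnd w j x) (fun b => F (update x j b)) = Dw w x j * grad F x j ^ 2 := by
  have e : cnd w j x false = 1 - cnd w j x true := by linarith [cnd_add hw j x]
  simp only [var, mean, Fintype.sum_bool, Dw, grad, SL.incr, e]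
  ring

theorem dir_eq_Gam (hw : ∀ x, 0 < w x) (F : Cube n → ℝ) : dir w F = mean (prob w) (Gam w F) := by
  rw [dir_eq_sum]
  simp only [dirS_eq hw, var_cnd hw, ← mean_sum']
  rfl

theorem dir_le_Vp (hw : ∀ x, 0 < w x) (F : Cube n → ℝ) : dir w F ≤ mean (prob w) (Vp F) := by
  rw [dir_eq_sum]
  refine le_trans (sum_le_sum fun j _ => ?_) (mean_sum' univ _).ge
  rw [dirS_eq hw, ← mean_siteM hw j fun x => max (F x - F (fl x j)) 0 ^ 2]
  refine (isP_prob' hw).mean_mono fun x => ?_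
  rw [← mean_cnd, var_cnd hw, mean, Fintype.sum_bool, Dw, grad, SL.incr]
  simp only [fl_update, Bool.not_true, Bool.not_false]
  have p0 := (cnd_pos hw j x true).le
  have q0 := (cnd_pos hw j x false).le
  have e := cnd_add hw j x
  generalize cnd w j x true = p at *
  generalize cnd w j x false = q at *
  generalize F (update x j true) = a
  generalize F (update x j false) = b
  obtain rfl : q = 1 - p := by linarith
  rcases le_total a b with h0 | h0
  · rw [max_eq_right (sub_nonpos.2 h0), max_eq_left (sub_nonneg.2 h0)]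
    nlinarith [mul_nonneg (mul_nonneg q0 q0) (sq_nonneg (b - a))]
  · rw [max_eq_left (sub_nonneg.2 h0), max_eq_right (sub_nonpos.2 h0)]
    nlinarith [mul_nonneg (mul_nonneg p0 p0) (sq_nonneg (a - b))]

theorem var_le_Gam (hw : ∀ x, 0 < w x) (hK : 0 ≤ K) (h : AT w K 0) (F : Cube n → ℝ) :
    var (prob w) F ≤ K * mean (prob w) (Gam w F) := dir_eq_Gam hw F ▸ h.poinc hw hK F

theorem var_le_Vp (hw : ∀ x, 0 < w x) (hK : 0 ≤ K) (h : AT w K 0) (F : Cube n → ℝ) :
    var (prob w) F ≤ K * mean (prob w) (Vp F) :=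
  (h.poinc hw hK F).trans (mul_le_mul_of_nonneg_left (dir_le_Vp hw F) hK)

/-- **Poincaré** -/
theorem var_le_grad (hw : ∀ x, 0 < w x) (hK : 0 ≤ K) (h : AT w K 0) (F : Cube n → ℝ) :
    var (prob w) F ≤ K * mean (prob w) fun x => grad F x ⬝ᵥ grad F x :=
  (var_le_Gam hw hK h F).trans
    (mul_le_mul_of_nonneg_left ((isP_prob' hw).mean_mono (Gam_le hw F)) hK)

theorem Vp_sq_of_nonneg (h0 : ∀ x, 0 ≤ F x) (x : Cube n) :
    Vp (fun x => F x ^ 2) x ≤ 4 * Vp F x * F x ^ 2 := by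
  simp only [Vp, mul_sum, sum_mul]
  refine sum_le_sum fun j _ => (max_sq_le (b := 2 * max (F x - F (fl x j)) 0 * F x) ?_).trans_eq
    (by ring)
  nlinarith [sq_nonneg (F x - F (fl x j)),
    mul_le_mul_of_nonneg_right (le_max_left (F x - F (fl x j)) 0) (h0 x)]

theorem Vp_sq (F : Cube n → ℝ) (m : ℝ) (x : Cube n) :
    Vp (fun x => (F x - m) ^ 2) x ≤ 16 * (grad F x ⬝ᵥ grad F x) * (F x - m) ^ 2 := by
  refine (Vp_le_of_le (G := fun y => 2 * (F x - m) * F y) fun y => ?_).trans_eq ?_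
  · nlinarith [sq_nonneg (F x - F y)]
  · rw [Rec.grad_const_mul, smul_dotProduct, dotProduct_smul, smul_eq_mul, smul_eq_mul]; ring

/-- **(H2)** -/
theorem h2 (hw : ∀ x, 0 < w x) (hK : 0 ≤ K) (h : AT w K 0) (h0 : ∀ x, 0 ≤ F x)
    (hA : ∀ x, Vp F x ≤ A) (hν : IsP ν) : mean ν (fun x => F x ^ 2) ≤
      2 * mean (prob w) F ^ 2 + 2 * K * A + 8 * K * A * kl ν (prob w) := by
  have hp := isP_prob' hw
  have a := sb hw hK h (c := 4 * A) (by linarith [Vp_nonneg F default, hA default])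
    (fun x => sq_nonneg (F x)) (fun x => (Vp_sq_of_nonneg h0 x).trans
      (mul_le_mul_of_nonneg_right (by linarith [hA x]) (sq_nonneg _))) hν
  have b := (var_le_Vp hw hK h F).trans (mul_le_mul_of_nonneg_left
    ((hp.mean_mono hA).trans_eq (hp.mean_const A)) hK)
  rw [hp.var_eq, ip_eq_mean] at b
  simp only [sq] at a b ⊢
  linarith

/-- (H2) for a centred Lipschitz observable -/
theorem h2_cen (hw : ∀ x, 0 < w x) (hK : 0 ≤ K) (h : AT w K 0)
    (hA : ∀ x, grad F x ⬝ᵥ grad F x ≤ A) (hν : IsP ν) :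
    mean ν (fun x => (F x - mean (prob w) F) ^ 2) ≤ 2 * K * A + 32 * K * A * kl ν (prob w) := by
  have hp := isP_prob' hw
  have a := sb hw hK h (c := 16 * A) (by linarith [dsn (grad F default), hA default])
    (fun x => sq_nonneg (F x - mean (prob w) F)) (fun x => (Vp_sq F _ x).trans
      (mul_le_mul_of_nonneg_right (by linarith [hA x]) (sq_nonneg _))) hν
  have b : mean (prob w) (fun x => (F x - mean (prob w) F) ^ 2) ≤ _ :=
    (var_le_grad hw hK h F).trans (mul_le_mul_of_nonneg_left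
      ((hp.mean_mono hA).trans_eq (hp.mean_const A)) hK)
  linarith

/-- (H2) for the norm of a vector field -/
theorem OpL.h2 (hw : ∀ x, 0 < w x) (hK : 0 ≤ K) (h : AT w K 0) {u : Cube n → κ → ℝ} (hL : 0 ≤ L)
    (hu : OpL u L) (hν : IsP ν) : mean ν (fun x => ∑ k, u x k ^ 2) ≤
      2 * mean (prob w) (fun x => ∑ k, u x k ^ 2) + 32 * K * L * kl ν (prob w) :=
  (sb hw hK h (c := 16 * L) (by positivity) (fun _ => by positivity) hu.vp_sq hν).trans_eq (by ring)

/-- (H2) for the excess over a threshold -/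
theorem OpL.h2_clip (hw : ∀ x, 0 < w x) (hK : 0 ≤ K) (h : AT w K 0) {u : Cube n → κ → ℝ}
    (hL : 0 ≤ L) (hu : OpL u L) (η : ℝ) (hν : IsP ν) :
    mean ν (fun x => ∑ k, max (|u x k| - η) 0 ^ 2) ≤
      2 * mean (prob w) (fun x => ∑ k, max (|u x k| - η) 0 ^ 2) + 32 * K * L * kl ν (prob w) :=
  (sb hw hK h (c := 16 * L) (by positivity) (fun _ => by positivity) (hu.vp_clip η) hν).trans_eq
    (by ring)

/-- **(H3)** -/
theorem h3 (hw : ∀ x, 0 < w x) (hK : 0 ≤ K) (h : AT w K 0) (F : Cube n → ℝ) :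
    mean (prob w) (fun x => (F x - mean (prob w) F) ^ 4) ≤
      2 * K ^ 2 * mean (prob w) (fun x => grad F x ⬝ᵥ grad F x) ^ 2 +
        256 * K ^ 2 * mean (prob w) fun x => (grad F x ⬝ᵥ grad F x) ^ 2 := by
  have hp := isP_prob' hw
  have a := var_le_Vp hw hK h fun x => (F x - mean (prob w) F) ^ 2
  have b := pow_le_pow_left₀ (hp.var_nonneg F) (var_le_grad hw hK h F) 2
  have d : K * mean (prob w) (Vp fun x => (F x - mean (prob w) F) ^ 2) ≤
      1 / 2 * mean (prob w) (fun x => (F x - mean (prob w) F) ^ 4) +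
        128 * K ^ 2 * mean (prob w) fun x => (grad F x ⬝ᵥ grad F x) ^ 2 := by
    rw [← mean_const_mul, ← mean_const_mul, ← mean_const_mul, ← mean_add']
    refine hp.mean_mono fun x => (mul_le_mul_of_nonneg_left (Vp_sq F _ x) hK).trans ?_
    nlinarith [sq_nonneg ((F x - mean (prob w) F) ^ 2 - 16 * K * (grad F x ⬝ᵥ grad F x))]
  rw [hp.var_eq, ip_eq_mean] at a
  have e : (mean (prob w) fun x => (F x - mean (prob w) F) ^ 2 * (F x - mean (prob w) F) ^ 2) =
      mean (prob w) fun x => (F x - mean (prob w) F) ^ 4 := mean_congr fun x => by ring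
  have e' : var (prob w) F = mean (prob w) fun x => (F x - mean (prob w) F) ^ 2 := rfl
  rw [e, ← e'] at a
  rw [mul_pow] at b
  linarith

/-- (H3) with a uniform gradient bound -/
theorem h3_sup (hw : ∀ x, 0 < w x) (hK : 0 ≤ K) (h : AT w K 0)
    (hA : ∀ x, grad F x ⬝ᵥ grad F x ≤ A) :
    mean (prob w) (fun x => (F x - mean (prob w) F) ^ 4) ≤
      258 * K ^ 2 * A * mean (prob w) fun x => grad F x ⬝ᵥ grad F x := by
  have hp := isP_prob' hw
  have a := hp.mean_sq_le fun x => grad F x ⬝ᵥ grad F x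
  have b : (mean (prob w) fun x => (grad F x ⬝ᵥ grad F x) ^ 2) ≤
      A * mean (prob w) fun x => grad F x ⬝ᵥ grad F x := by
    rw [← mean_const_mul]
    exact hp.mean_mono fun x => by
      rw [sq]; exact mul_le_mul_of_nonneg_right (hA x) (dsn _)
  rw [ip_eq_mean] at a
  simp only [← sq] at a
  nlinarith [h3 hw hK h F, mul_le_mul_of_nonneg_left (a.trans b) (sq_nonneg K),
    mul_le_mul_of_nonneg_left b (sq_nonneg K)]

/-! ### (TR) -/

theorem ent_exp_tr (hw : ∀ x, 0 < w x) (hK : 0 ≤ K) (h : AT w K 0) (R : Cube n → ℝ)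
    {Om : Cube n → Fin n → ℝ} (hθ : 0 ≤ θ) (he : ∀ x j, 4 * θ * |Om x j| ≤ 1) :
    ent (prob w) (fun x => exp (θ * R x)) ≤ K * mean (prob w) fun x => exp (θ * R x) *
      (θ ^ 2 * (6 * ∑ j, Dw w x j * Om x j ^ 2 + 16 * ∑ j, (grad R x j - Om x j) ^ 2)) := by
  simp only [mul_sum univ _ (6 : ℝ), mul_sum univ _ (16 : ℝ), ← sum_add_distrib,
    mul_sum univ _ (θ ^ 2)]
  refine ent_exp_sum hK h _ _ fun j => entS_exp_le hw _ _ j fun x => ?_
  have k : ∀ y, 4 * |θ * Om y j| ≤ 1 := fun y => by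
    rw [abs_mul, abs_of_nonneg hθ, ← mul_assoc]; exact he y j
  refine (two_C (cnd_pos hw _ _ _).le (cnd_pos hw _ _ _).le (cnd_add hw j x)
    (δ := θ * grad R x j) (by rw [grad, SL.incr]; ring) (k (update x j true))
    (k (update x j false))).trans_eq ?_
  simp only [Dw_update, Rec.grad_update]
  rw [Dw]; ring

theorem tr_one (hw : ∀ x, 0 < w x) (hK : 0 ≤ K) (h : AT w K 0) {Om : Cube n → Fin n → ℝ}
    {a B : ℝ} (hL : 0 ≤ L) (ha : 0 ≤ a) (hθ : 0 < θ) (he : ∀ x j, 4 * θ * |Om x j| ≤ 1)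
    (hZ : ∀ ν, IsP ν → mean ν (fun x => ∑ j, Dw w x j * Om x j ^ 2) ≤
      2 * mean (prob w) (fun x => ∑ j, Dw w x j * Om x j ^ 2) + L * kl ν (prob w))
    (hB : ∀ ν, IsP ν → mean ν (fun x => ∑ j, (grad R x j - Om x j) ^ 2) ≤ a * kl ν (prob w) + B)
    (hs : 2 * K * θ ^ 2 * (6 * L + 16 * a) ≤ 1) :
    lmgf (prob w) R θ ≤ θ * mean (prob w) R + K * (48 * dir w R + 80 * B) * θ ^ 2 := by
  have hp := isP_prob' hw
  have b0 := hB _ hp
  rw [kl_self, mul_zero, zero_add] at b0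
  have z0 : mean (prob w) (fun x => ∑ j, Dw w x j * Om x j ^ 2) ≤ 2 * dir w R + 2 * B := by
    refine le_trans ?_ (add_le_add le_rfl (mul_le_mul_of_nonneg_left b0 zero_le_two))
    rw [dir_eq_Gam hw, ← mean_const_mul, ← mean_const_mul, ← mean_add']
    refine hp.mean_mono fun x => ?_
    simp only [Gam, mul_sum, ← sum_add_distrib]
    refine sum_le_sum fun j _ => ?_
    nlinarith [mul_nonneg (Dw_pos hw x j).le (sq_nonneg (2 * grad R x j - Om x j)),
      mul_le_mul_of_nonneg_right (Dw_le_one hw x j) (sq_nonneg (grad R x j - Om x j))]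
  refine herbst hp R hθ.le fun u hu hu' => ?_
  have M := mean_exp_pos hp fun x => u * R x
  have hP := isP_tl hp fun x => u * R x
  have H0 := kl0 hw hP
  have e1 := ent_exp_tr hw hK h R hu.le fun x j => le_trans
    (mul_le_mul_of_nonneg_right (by linarith) (abs_nonneg _)) (he x j)
  have e2 := div_le_div_of_nonneg_right e1 M.le
  rw [← kl_tl hp, mul_div_assoc, ← mean_tl, mean_const_mul, mean_add', mean_const_mul,
    mean_const_mul] at e2
  rw [← div_le_iff₀ M, ← kl_tl hp]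
  have e3 := hZ _ hP
  have e4 := hB _ hP
  have k0 : 0 ≤ K * u ^ 2 := by positivity
  have e5 : 2 * (K * u ^ 2) * (6 * L + 16 * a) ≤ 1 := by
    refine le_trans ?_ hs
    rw [← mul_assoc]
    gcongr
  generalize kl (tl (prob w) fun x => u * R x) (prob w) = H at *
  nlinarith [mul_le_mul_of_nonneg_right e5 H0, mul_le_mul_of_nonneg_left e3 k0,
    mul_le_mul_of_nonneg_left e4 k0, mul_le_mul_of_nonneg_left z0 k0]

/-- **(TR)**, abstract form -/
theorem tr' (hw : ∀ x, 0 < w x) (hK : 0 ≤ K) (h : AT w K 0) {Om : Cube n → Fin n → ℝ}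
    {a B : ℝ} (hL : 0 ≤ L) (ha : 0 ≤ a) (hθ : 0 < θ) (he : ∀ x j, 4 * θ * |Om x j| ≤ 1)
    (hZ : ∀ ν, IsP ν → mean ν (fun x => ∑ j, Dw w x j * Om x j ^ 2) ≤
      2 * mean (prob w) (fun x => ∑ j, Dw w x j * Om x j ^ 2) + L * kl ν (prob w))
    (hB : ∀ ν, IsP ν → mean ν (fun x => ∑ j, (grad R x j - Om x j) ^ 2) ≤ a * kl ν (prob w) + B)
    (hs : 2 * K * θ ^ 2 * (6 * L + 16 * a) ≤ 1) (hν : IsP ν) :
    |mean ν R - mean (prob w) R| ≤ kl ν (prob w) / θ + K * (48 * dir w R + 80 * B) * θ := by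
  have a1 := sub_le_of_lmgf hw hν hθ (tr_one hw hK h hL ha hθ he hZ hB hs)
  have a2 := sub_le_of_lmgf hw hν hθ (tr_one hw hK h (R := fun x => -1 * R x)
    (Om := fun x j => -Om x j) (B := B) hL ha hθ (by simpa only [abs_neg] using he)
    (by simpa only [neg_sq] using hZ) (fun ν hν => (mean_congr fun x => sum_congr rfl fun j _ => by
      rw [Rec.grad_const_mul, Pi.smul_apply, smul_eq_mul]; ring).trans_le (hB ν hν)) hs)
  have e : dir w (fun x => -1 * R x) = dir w R := by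
    rw [dir_eq_Gam hw, dir_eq_Gam hw]
    exact mean_congr fun x => sum_congr rfl fun j _ => by
      rw [Rec.grad_const_mul, Pi.smul_apply, smul_eq_mul]; ring
  rw [mean_neg', mean_neg', e] at a2
  exact abs_le.2 ⟨by linarith, a1⟩

/-- **(TR)**: `u = D^{1/2} Ω` has a small Jacobian -/
theorem tr (hw : ∀ x, 0 < w x) (hK : 0 ≤ K) (h : AT w K 0) {Om u : Cube n → Fin n → ℝ}
    {a B : ℝ} (hL : 0 ≤ L) (ha : 0 ≤ a) (hθ : 0 < θ) (he : ∀ x j, 4 * θ * |Om x j| ≤ 1)
    (hu : ∀ x j, u x j ^ 2 = Dw w x j * Om x j ^ 2) (hO : OpL u L)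
    (hB : ∀ ν, IsP ν → mean ν (fun x => ∑ j, (grad R x j - Om x j) ^ 2) ≤ a * kl ν (prob w) + B)
    (hs : 2 * K * θ ^ 2 * (192 * K * L + 16 * a) ≤ 1) (hν : IsP ν) :
    |mean ν R - mean (prob w) R| ≤ kl ν (prob w) / θ + K * (48 * dir w R + 80 * B) * θ :=
  tr' hw hK h (L := 32 * K * L) (by positivity) ha hθ he
    (fun ν hν => by simpa only [hu] using hO.h2 hw hK h hL hν) hB (le_of_eq_of_le (by ring) hs) hν

end Crest.Agent.T157.S3.Hb

end
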