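import Crest.Agent.T157.S1N_6
import Crest.Agent.T157.S3Hb_80

/-!
# Row 157, block B/S1, section 4 (helper6): (B1), the budget controls the entropies
-/

set_option autoImplicit false

noncomputable section

namespace Crest.Agent.T157.S1n

open Real Matrix
open Crest.Agent.T157.E Crest.Agent.T157.SL Crest.Agent.T157.Ta
open Crest.Agent.T157.Xt (H1 Lip2 lip2_of_grad)
open Crest.Agent.T157.Eig (nrm nrm_nonneg nrm_sq)

variable {n : ℕ} {K A θ M : ℝ} {v w p g U l f : Cube n → ℝ}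

lemma pr_of (hw : ∀ x, 0 < w x) (hv : Wt v) : Pr v w := ⟨hv, .of_pos hw, fun x e => absurd e (hw x).ne'⟩

lemma lip2_lin (u : Fin n → ℝ) : Lip2 (2 * nrm u) fun x => u ⬝ᵥ sv x :=
  lip2_of_grad fun x => by rw [Rec.grad_lin]

/-- change of the reference weight: tilt `g`, pins and penalty `l = e^{-U}` on its support -/
lemma kl_pin (hw : ∀ x, 0 < w x) (hp : Pr v p) (hq : ∀ x, p x = w x * exp (g x) * l x)
    (hl : ∀ x, l x ≠ 0 → l x = exp (-U x)) :
    kl v p = kl v w - mean v g + mean v U + (log (∑ x, p x) - log (∑ x, w x)) := by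
  rw [kl_eq_mean hp, kl_eq_mean (pr_of hw hp.hv), mean_congr_supp (v := v)
    (g := fun x => log (v x) - log (w x) - g x + U x) fun x hx => ?_, mean_add, mean_sub _ _ g]
  · ring
  have h1 := (hp.pos hx).2.ne'
  rw [hq] at h1 ⊢
  rw [hl x (right_ne_zero_of_mul h1), mul_assoc, ← exp_add, log_mul (hw x).ne' (exp_pos _).ne', log_exp]
  ring

/-- **Gibbs**: the size `log sup f - log μ(f l)` dominates `H(ν|μ) + ν U` -/
theorem dy_le (hw : ∀ x, 0 < w x) (hv : Wt v) (e : ∀ x, v x = w x * l x * f x)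
    (hl : ∀ x, l x ≠ 0 → l x = exp (-U x)) (f0 : ∀ x, 0 ≤ f x) (hf : ∀ x, f x ≤ M) :
    kl v w + mean v U ≤ log M - log (mean w fun x => f x * l x) := by
  have h1 := kl_eq_mean (pr_of hw hv)
  have h2 := mean_mono_supp hv (f := fun x => log (v x) - log (w x)) (g := fun x => log M - U x)
    fun x hx => by
      rw [e] at hx ⊢
      have a := right_ne_zero_of_mul hx
      have b := hl x (right_ne_zero_of_mul (left_ne_zero_of_mul hx))
      rw [b, log_mul (mul_pos (hw x) (exp_pos _)).ne' a, log_mul (hw x).ne' (exp_pos _).ne', log_exp]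
      linarith [log_le_log ((f0 x).lt_of_ne' a) (hf x)]
  have h3 : (∑ x, w x * (f x * l x)) = ∑ x, v x := Finset.sum_congr rfl fun x _ => by rw [e]; ring
  rw [mean_sub _ _ U, hv.mean_const] at h2
  rw [mean_eq_div w, h3, log_div hv.pos.ne' (Wt.of_pos hw).pos.ne']
  linarith

variable (hw : ∀ x, 0 < w x) (h : H1 w K)
include hw h

lemma lmgf_le (hg : Lip2 A g) : log (mean w fun x => exp (g x)) ≤ mean w g + K * A ^ 2 := by
  have _ := hw
  have := h g A hg.nn hg.vp 1 zero_le_one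
  simp only [Ent.lmgf, one_mul, one_pow, mul_one] at this
  exact this

lemma h1_up (hg : Lip2 A g) (hv : Wt v) (hθ : 0 < θ) :
    mean v g - mean w g ≤ kl v w / θ + K * A ^ 2 * θ := by
  have h1 := mean_le_kl (pr_of hw hv) fun x => θ * g x
  have h2 := lmgf_le hw h (hg.const_mul θ)
  rw [mean_const_mul] at h1 h2
  rw [mul_pow, sq_abs] at h2
  refine le_of_mul_le_mul_left ?_ hθ
  rw [mul_add, mul_div_cancel₀ _ hθ.ne']
  linarith

lemma h1_lo (hg : Lip2 A g) (hv : Wt v) (hθ : 0 < θ) :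
    mean w g - mean v g ≤ kl v w / θ + K * A ^ 2 * θ := by
  have := h1_up hw h hg.neg hv hθ
  rw [mean_neg, mean_neg] at this
  linarith

/-- transport inequality -/
theorem h1_sq (hK : 0 ≤ K) (hg : Lip2 A g) (hv : Wt v) :
    (mean v g - mean w g) ^ 2 ≤ 4 * (K * A ^ 2) * kl v w := by
  have H0 := (pr_of hw hv).kl_nonneg
  have c0 : 0 ≤ K * A ^ 2 := by positivity
  have h1 := S3.Hb.le_two_sqrt H0 c0 fun θ hθ => h1_up hw h hg hv hθ
  have h2 := S3.Hb.le_two_sqrt H0 c0 fun θ hθ => h1_lo hw h hg hv hθ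
  refine (sq_le_sq' (by linarith) h1).trans_eq ?_
  rw [mul_pow, sq_sqrt (by positivity)]
  ring

/-- magnetisations, against the reference law -/
theorem Dm_ref (hK : 0 < K) (hv : Wt v) : Dm v w ⬝ᵥ Dm v w ≤ 16 * K * kl v w := by
  have h1 := h1_up hw h (lip2_lin (Dm v w)) hv (θ := (8 * K)⁻¹) (by positivity)
  rw [← meanV_dot, ← meanV_dot, ← dotProduct_sub, mul_pow, nrm_sq, div_inv_eq_mul] at h1
  have e : K * (2 ^ 2 * (Dm v w ⬝ᵥ Dm v w)) * (8 * K)⁻¹ = Dm v w ⬝ᵥ Dm v w / 2 := by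
    field_simp; ring
  change Dm v w ⬝ᵥ Dm v w ≤ _ at h1
  linarith

/-- magnetisations of two laws -/
theorem Dm_le (hK : 0 < K) (hv : Wt v) (hq : Wt p) :
    Dm v p ⬝ᵥ Dm v p ≤ 32 * K * (kl v w + kl p w) := by
  have e : Dm v p = Dm v w - Dm p w := by simp [Dm]
  have h1 := dot_self_nonneg (Dm v w + Dm p w)
  have h2 := Dm_ref hw h hK hv
  have h3 := Dm_ref hw h hK hq
  rw [e]
  simp only [add_dotProduct, dotProduct_add, sub_dotProduct, dotProduct_sub] at h1 ⊢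
  linarith

/-- removing a Lipschitz tilt from the reference law -/
theorem kl_le_wt (hg : Lip2 A g) (hv : Wt v) : kl v w ≤ 2 * kl v (wt w g) + 4 * (K * A ^ 2) := by
  linarith [kl_wt_ge (pr_of hw hv) g, h1_up hw h hg hv two_pos]

/-- adding a Lipschitz tilt to the reference law -/
theorem kl_wt_le (hg : Lip2 A g) (hv : Wt v) : kl v (wt w g) ≤ 2 * kl v w + 2 * (K * A ^ 2) := by
  linarith [kl_wt (pr_of hw hv) g, h1_lo hw h hg hv one_pos, lmgf_le hw h hg]

theorem kl_wt_self (hg : Lip2 A g) : kl (wt w g) w ≤ 4 * (K * A ^ 2) := by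
  have := kl_le_wt hw h hg (wt_wt (.of_pos hw) g)
  rwa [show kl (wt w g) (wt w g) = 0 from Ent.kl_self _, mul_zero, zero_add] at this

/-- change of the field: `μ_y = tilt μ₀ u`, `u = y - y₀` -/
theorem kl_le_tilt (u : Fin n → ℝ) (hv : Wt v) : kl v w ≤ 2 * kl v (tilt w u) + 16 * K * (u ⬝ᵥ u) :=
  (kl_le_wt hw h (lip2_lin u) hv).trans_eq (by rw [mul_pow, nrm_sq]; exact congrArg₂ _ rfl (by ring))

theorem kl_tilt_le (u : Fin n → ℝ) (hv : Wt v) : kl v (tilt w u) ≤ 2 * kl v w + 8 * K * (u ⬝ᵥ u) :=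
  (kl_wt_le hw h (lip2_lin u) hv).trans_eq (by rw [mul_pow, nrm_sq]; ring)

theorem kl_tilt_self (u : Fin n → ℝ) : kl (tilt w u) w ≤ 16 * K * (u ⬝ᵥ u) :=
  (kl_wt_self hw h (lip2_lin u)).trans_eq (by rw [mul_pow, nrm_sq]; ring)

variable (hg : Lip2 A g) (hp : Pr v p) (hq : ∀ x, p x = w x * exp (g x) * l x)
  (hl : ∀ x, l x ≠ 0 → l x = exp (-U x))
include hg hp hq hl

/-- **(B1)** entropy and penalty of `p` -/
theorem b1 : kl p w / 2 + mean p U ≤ 2 * kl v w + mean v U + 3 * (K * A ^ 2) := by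
  have h1 := kl_pin hw hp hq hl
  have h2 := kl_pin hw (Pr.refl hp.hw) hq hl
  rw [show kl p p = 0 from Ent.kl_self _] at h2
  linarith [hp.kl_nonneg, h1_up hw h hg hp.hw two_pos, h1_lo hw h hg hp.hv one_pos]

variable (U0 : ∀ x, 0 ≤ U x)
include U0

/-- **(B1)** relative entropy of the pair -/
theorem b1_pair : kl v p ≤ 2 * kl v w + mean v U + 2 * (K * A ^ 2) := by
  have h1 := kl_pin hw hp hq hl
  have h2 := kl_pin hw (Pr.refl hp.hw) hq hl
  rw [show kl p p = 0 from Ent.kl_self _] at h2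
  linarith [h1_up hw h hg hp.hw one_pos, h1_lo hw h hg hp.hv one_pos, hp.hw.mean_nonneg U0]

theorem b1_kl : kl p w ≤ 4 * kl v w + 2 * mean v U + 6 * (K * A ^ 2) := by
  linarith [b1 hw h hg hp hq hl, hp.hw.mean_nonneg U0]

/-- **(B1)** difference of the magnetisations -/
theorem b1_Dm (hK : 0 < K) :
    Dm v p ⬝ᵥ Dm v p ≤ 32 * K * (5 * kl v w + 2 * mean v U + 6 * (K * A ^ 2)) :=
  (Dm_le hw h hK hp.hv hp.hw).trans (mul_le_mul_of_nonneg_left
    (by linarith [b1_kl hw h hg hp hq hl U0]) (by positivity))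

omit U0 in
theorem b1_U : mean p U ≤ 2 * kl v w + mean v U + 3 * (K * A ^ 2) := by
  linarith [b1 hw h hg hp hq hl, (pr_of hw hp.hw).kl_nonneg]

end Crest.Agent.T157.S1n
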