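import Crest.Agent.T157.TaB_40

/-!
# Row 157, block B/S1, section 1 (helper6): the martingale potentials `Fut`, `Mt`
-/

set_option autoImplicit false

noncomputable section

namespace Crest.Agent.T157.S1m

open MeasureTheory Real Matrix
open Crest.Agent.T157.E Crest.Agent.T157.SL Crest.Agent.T157.Ta

variable {n : ℕ}

/-- observables of the spins and of the field -/
abbrev Ob2 (n : ℕ) : Type := Cube n → (Fin n → ℝ) → ℝ

/-- the average over a window of length `t` -/
def Ch (t : ℝ) (G : Ob2 n) : Ob2 n := fun x y => ∫ z, G x (y + (t • sv x + √t • z)) ∂Gs (Fin n)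

/-- the sum of the observables of the levels `m, …, m + k` -/
def Fut (τ : ℝ) (F : ℕ → Ob2 n) : ℕ → ℕ → Ob2 n
  | 0, m => F m
  | k + 1, m => fun x y => F m x y + Ch τ (Fut τ F k (m + 1)) x y

/-- the potential, `k` windows before the end -/
def Mt (τ : ℝ) (F : ℕ → Ob2 n) (k m : ℕ) (v : Cube n → ℝ) (y : Fin n → ℝ) : ℝ :=
  mean v fun x => Fut τ F k m x y

variable {G G' : Ob2 n} {F F' : ℕ → Ob2 n} {s t τ : ℝ} {v : Cube n → ℝ} {k m : ℕ} {y : Fin n → ℝ}

lemma mg_shift {K : (Fin n → ℝ) → ℝ} (h : MG K) (y : Fin n → ℝ) : MG fun z => K (y + z) := by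
  simpa using h.affine y 1

lemma mean_Ch (v : Cube n → ℝ) (t : ℝ) (G : Ob2 n) (y : Fin n → ℝ) :
    mean v (fun x => Ch t G x y) = slE sv v t fun x z => G x (y + z) := rfl

lemma mg_Ch (h : ∀ x, MG (G x)) (t : ℝ) (x : Cube n) : MG (Ch t G x) := (h x).conv _ _

lemma int_Ch (h : ∀ x, MG (G x)) (t : ℝ) (x : Cube n) (y : Fin n → ℝ) :
    Integrable (fun z => G x (y + (t • sv x + √t • z))) (Gs (Fin n)) :=
  ((mg_shift (h x) y).affine _ _).int

lemma Ch_nonneg (h : ∀ x y, 0 ≤ G x y) (t : ℝ) (x : Cube n) (y : Fin n → ℝ) : 0 ≤ Ch t G x y :=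
  integral_nonneg fun _ => h _ _

lemma Ch_mono (h : ∀ x, MG (G x)) (h' : ∀ x, MG (G' x)) (e : ∀ x y, G x y ≤ G' x y) (t : ℝ)
    (x : Cube n) (y : Fin n → ℝ) : Ch t G x y ≤ Ch t G' x y :=
  integral_mono (int_Ch h t x y) (int_Ch h' t x y) fun _ => e _ _

lemma Ch_add (h : ∀ x, MG (G x)) (h' : ∀ x, MG (G' x)) (t : ℝ) :
    Ch t (fun x y => G x y + G' x y) = fun x y => Ch t G x y + Ch t G' x y :=
  funext fun x => funext fun y => integral_add (int_Ch h t x y) (int_Ch h' t x y)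

lemma Ch_mul (c t : ℝ) (G : Ob2 n) : Ch t (fun x y => c * G x y) = fun x y => c * Ch t G x y :=
  funext fun _ => funext fun _ => integral_const_mul _ _

lemma Ch_zero (G : Ob2 n) : Ch 0 G = G := by
  funext x y; simp [Ch]

/-- **window**: `P.map fst = law sv v t` (the field `Win.fst`) -/
theorem win_Ch {Y : Type*} [MeasurableSpace Y] {P : Measure ((Fin n → ℝ) × Y)} (hv : Wt v) (ht : 0 ≤ t)
    (hP : P.map Prod.fst = law sv v t) (h : ∀ x, MG (G x)) (y : Fin n → ℝ) :
    Integrable (fun p => mean (tilt v p.1) fun x => G x (y + p.1)) P ∧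
      ∫ p, mean (tilt v p.1) (fun x => G x (y + p.1)) ∂P = mean v fun x => Ch t G x y := by
  have m := mg_mean (φ := sv) hv t fun x => mg_shift (h x) y
  have i := m.int_law (φ := sv) (v := v) (s := t)
  rw [mean_Ch, bayes hv ht (.of_mg fun x => mg_shift (h x) y),
    ← integral_law hv m.meas (.of_mg fun _ => m), ← hP,
    integral_map measurable_fst.aemeasurable m.meas.aestronglyMeasurable]
  rw [← hP, integrable_map_measure m.meas.aestronglyMeasurable measurable_fst.aemeasurable] at i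
  simp only [mean_post_sv] at i ⊢
  exact ⟨i, trivial⟩

/-- semigroup property -/
theorem Ch_Ch (hs : 0 ≤ s) (ht : 0 ≤ t) (h : ∀ x, MG (G x)) : Ch s (Ch t G) = Ch (s + t) G := by
  funext x y
  have hv : Wt (Pi.single x 1 : Cube n → ℝ) := ⟨fun z => by
    rw [Pi.single_apply]; split_ifs <;> norm_num, by simp⟩
  have e : ∀ f, mean (Pi.single x 1 : Cube n → ℝ) f = f x := fun f => by
    simp [mean, prob, Pi.single_apply]
  have h1 := markov (φ := sv) hv hs ht fun x => mg_shift (h x) y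
  rw [← mean_Ch, e] at h1
  rw [h1, ← e fun x => Ch s (Ch t G) x y, mean_Ch,
    bayes hv hs (.of_mg fun x => mg_shift (mg_Ch h t x) y)]
  simp only [mean_Ch, add_assoc]

lemma mg_Fut (h : ∀ m x, MG (F m x)) (τ : ℝ) (k m : ℕ) (x : Cube n) : MG (Fut τ F k m x) := by
  induction k generalizing m x with
  | zero => exact h m x
  | succ k ih => exact (h m x).add (mg_Ch (ih _) τ x)

lemma Fut_nonneg (h : ∀ m x y, 0 ≤ F m x y) (τ : ℝ) (k m : ℕ) (x : Cube n) (y : Fin n → ℝ) :
    0 ≤ Fut τ F k m x y := by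
  induction k generalizing m x y with
  | zero => exact h m x y
  | succ k ih => exact add_nonneg (h m x y) (Ch_nonneg (ih _) τ x y)

lemma le_Fut (h : ∀ m x y, 0 ≤ F m x y) (τ : ℝ) (k m : ℕ) (x : Cube n) (y : Fin n → ℝ) :
    F m x y ≤ Fut τ F k m x y := by
  cases k with
  | zero => exact le_rfl
  | succ k => exact le_add_of_nonneg_right (Ch_nonneg (Fut_nonneg h τ k _) τ x y)

lemma Fut_mono (h : ∀ m x, MG (F m x)) (h' : ∀ m x, MG (F' m x))
    (e : ∀ j, m ≤ j → j ≤ m + k → ∀ x y, F j x y ≤ F' j x y) (τ : ℝ) (x : Cube n) (y : Fin n → ℝ) :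
    Fut τ F k m x y ≤ Fut τ F' k m x y := by
  induction k generalizing m x y with
  | zero => exact e m le_rfl le_rfl x y
  | succ k ih =>
    exact add_le_add (e m le_rfl (by omega) x y) (Ch_mono (mg_Fut h τ k _) (mg_Fut h' τ k _)
      (ih fun j h1 h2 => e j (by omega) (by omega)) τ x y)

lemma Fut_add (h : ∀ m x, MG (F m x)) (h' : ∀ m x, MG (F' m x)) (τ : ℝ) (k m : ℕ) :
    Fut τ (fun j x y => F j x y + F' j x y) k m = fun x y => Fut τ F k m x y + Fut τ F' k m x y := by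
  induction k generalizing m with
  | zero => rfl
  | succ k ih =>
    funext x y
    simp only [Fut, ih, Ch_add (mg_Fut h τ k _) (mg_Fut h' τ k _)]
    ring

lemma Fut_mul (c τ : ℝ) (F : ℕ → Ob2 n) (k m : ℕ) :
    Fut τ (fun j x y => c * F j x y) k m = fun x y => c * Fut τ F k m x y := by
  induction k generalizing m with
  | zero => rfl
  | succ k ih =>
    funext x y
    simp only [Fut, ih, Ch_mul]
    ring

/-- closed form -/
theorem Fut_eq (hτ : 0 ≤ τ) (h : ∀ m x, MG (F m x)) (k m : ℕ) : Fut τ F k m =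
    fun x y => ∑ j ∈ Finset.range (k + 1), Ch (j * τ) (F (m + j)) x y := by
  induction k generalizing m with
  | zero => funext x y; simp [Fut, Ch_zero]
  | succ k ih =>
    funext x y
    rw [Finset.sum_range_succ']
    simp only [Nat.cast_zero, zero_mul, Ch_zero, add_zero, Fut, ih]
    rw [add_comm (F m x y)]
    congr 1
    refine (integral_finsetSum _ fun j _ => int_Ch (mg_Ch (h _) _) τ x y).trans ?_
    refine Finset.sum_congr rfl fun j _ => ?_
    rw [show ((j + 1 : ℕ) : ℝ) * τ = τ + j * τ by push_cast; ring, ← Ch_Ch hτ (by positivity) (h _),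
      show m + 1 + j = m + (j + 1) by ring]
    rfl

theorem Mt_eq (hτ : 0 ≤ τ) (h : ∀ m x, MG (F m x)) (k m : ℕ) (v : Cube n → ℝ) (y : Fin n → ℝ) :
    Mt τ F k m v y = ∑ j ∈ Finset.range (k + 1), slE sv v (j * τ) fun x z => F (m + j) x (y + z) := by
  simp only [Mt, Fut_eq hτ h, mean_sum, mean_Ch]

lemma Mt_nonneg (hv : Wt v) (h : ∀ m x y, 0 ≤ F m x y) : 0 ≤ Mt τ F k m v y :=
  hv.mean_nonneg fun x => Fut_nonneg h τ k m x y

lemma le_Mt (hv : Wt v) (h : ∀ m x y, 0 ≤ F m x y) : mean v (fun x => F m x y) ≤ Mt τ F k m v y :=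
  hv.mean_mono fun x => le_Fut h τ k m x y

lemma Mt_mono (hv : Wt v) (h : ∀ m x, MG (F m x)) (h' : ∀ m x, MG (F' m x))
    (e : ∀ j, m ≤ j → j ≤ m + k → ∀ x y, F j x y ≤ F' j x y) : Mt τ F k m v y ≤ Mt τ F' k m v y :=
  hv.mean_mono fun x => Fut_mono h h' e τ x y

lemma Mt_add (h : ∀ m x, MG (F m x)) (h' : ∀ m x, MG (F' m x)) :
    Mt τ (fun j x y => F j x y + F' j x y) k m v y = Mt τ F k m v y + Mt τ F' k m v y := by
  simp only [Mt, Fut_add h h', mean_add]

lemma Mt_mul (c : ℝ) : Mt τ (fun j x y => c * F j x y) k m v y = c * Mt τ F k m v y := by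
  simp only [Mt, Fut_mul, mean_const_mul]

/-- **martingale property** in a window -/
theorem Mt_win {Y : Type*} [MeasurableSpace Y] {P : Measure ((Fin n → ℝ) × Y)} (hv : Wt v) (hτ : 0 ≤ τ)
    (hP : P.map Prod.fst = law sv v τ) (h : ∀ m x, MG (F m x)) (k m : ℕ) (y : Fin n → ℝ) :
    Integrable (fun p => Mt τ F k (m + 1) (tilt v p.1) (y + p.1)) P ∧
      Mt τ F (k + 1) m v y =
        mean v (fun x => F m x y) + ∫ p, Mt τ F k (m + 1) (tilt v p.1) (y + p.1) ∂P := by
  obtain ⟨h1, h2⟩ := win_Ch hv hτ hP (mg_Fut h τ k (m + 1)) y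
  exact ⟨h1, by simp only [Mt, Fut, mean_add, h2]⟩

/-- **martingale property** along any channel (bursts) -/
theorem Mt_chan {ι : Type*} [Fintype ι] [DecidableEq ι] (φ : Cube n → ι → ℝ) (hv : Wt v) (hs : 0 ≤ s) :
    slE φ v s (fun _ z => Mt τ F k m (post φ v s z) y) = Mt τ F k m v y := slE_mean hv hs _

end Crest.Agent.T157.S1m
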