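import Crest.Agent.T157.S1Def_97
import Crest.Agent.T157.S1Bud_6
import Crest.Agent.T157.S1Mt_6

/-!
# Row 157, block B/S1 (helper6): `CrudeStmt`, `B1Stmt`, `NStmt`, `MtStmt`
-/

set_option autoImplicit false

noncomputable section

namespace Crest.Agent.T157.S1

open MeasureTheory Real Matrix Finset
open Crest.Agent.T157.E Crest.Agent.T157.SL Crest.Agent.T157.Ta
open Crest.Agent.T157.S1n Crest.Agent.T157.S1m
open Crest.Agent.T157.Xt (H1 Lip2 lip2_of_grad h1_of_atd)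
open Crest.Agent.T157.Eig (nrm nrm_nonneg nrm_sq nrm_eq_norm)
open Crest.Agent.T157.S3 (V)

namespace W6

variable {n : ℕ} {D : Dat n} (s : St n)

lemma is_pos (J : S3.Mx n) (y : V n) (σ : Cube n) : 0 < ising J y σ := exp_pos _

lemma ell_nonneg (D : Dat n) (σ : Cube n) : 0 ≤ ell D s σ := by
  unfold ell; split_ifs; exacts [(exp_pos _).le, le_rfl]

lemma ell_eq (D : Dat n) (σ : Cube n) (h : ell D s σ ≠ 0) : ell D s σ = exp (-U D s σ) := by
  unfold ell at h ⊢; split_ifs at h ⊢; exacts [rfl, absurd rfl h]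

lemma ell_supp (D : Dat n) {σ : Cube n} (h : ell D s σ ≠ 0) : ∀ k ∈ s.S, σ k = s.sS k := by
  unfold ell at h; split_ifs at h with e; exacts [e, absurd rfl h]

lemma U_nonneg (h : D.Ok) (σ : Cube n) : 0 ≤ U D s σ :=
  mul_nonneg (by linarith [h.P1]) (sum_nonneg fun _ _ => sq_nonneg _)

lemma U6_nonneg (h : D.Ok) (σ : Cube n) : 0 ≤ U6 D s σ :=
  sum_nonneg fun _ _ => pow_nonneg (mul_nonneg (by linarith [h.P1]) (sq_nonneg _)) _

lemma wt_loc (D : Dat n) : Wt (loc D s) :=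
  ⟨fun σ => mul_nonneg (is_pos _ _ σ).le (ell_nonneg s D σ), sum_pos'
    (fun σ _ => mul_nonneg (is_pos _ _ σ).le (ell_nonneg s D σ)) ⟨s.sS, mem_univ _, mul_pos (is_pos _ _ _)
      (by rw [ell, if_pos fun _ _ => rfl]; exact exp_pos _)⟩⟩

lemma pr_pi (h : D.Ok) : Pr (nu D s) (pi D s) := (Pr.refl (wt_loc s D)).mul h.fpos fun _ => exp_pos _

lemma pr_loc (h : D.Ok) : Pr (nu D s) (loc D s) :=
  ⟨(pr_pi s h).hv, wt_loc s D, fun σ e => by rw [nu, e, zero_mul]⟩

lemma loc_pr (h : D.Ok) : Pr (loc D s) (nu D s) :=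
  ⟨wt_loc s D, (pr_pi s h).hv, fun σ e => (mul_eq_zero.1 e).resolve_right (h.fpos σ).ne'⟩

lemma Hy_nonneg (h : D.Ok) : 0 ≤ Hy D s := (pr_of (is_pos _ _) (pr_pi s h).hv).kl_nonneg

lemma nuU_nonneg (h : D.Ok) : 0 ≤ mean (nu D s) (U D s) := (pr_pi s h).hv.mean_nonneg (U_nonneg s h)

lemma gibbs (h : D.Ok) : Hy D s + mean (nu D s) (U D s) ≤ Dz D s := by
  have := dy_le (is_pos D.J s.y) (pr_pi s h).hv (fun _ => rfl) (ell_eq s D) (fun x => (h.fpos x).le) h.fle
  simp only [log_exp, mul_comm (D.f _)] at this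
  exact this

lemma Dm_sq_le {v w : Cube n → ℝ} (hv : Wt v) (hw : Wt w) : Dm v w ⬝ᵥ Dm v w ≤ 4 * n := by
  have : ∀ i, Dm v w i * Dm v w i ≤ 4 := fun i => by
    have e : ∀ x : Cube n, |sv x i| ≤ 1 := fun x => abs_le_one_iff_mul_self_le_one.2 (Rec.sv_mul_self x i).le
    have a := abs_le.1 (hv.abs_mean_le e)
    have b := abs_le.1 (hw.abs_mean_le e)
    change (mean v (fun x => sv x i) - mean w fun x => sv x i) *
      (mean v (fun x => sv x i) - mean w fun x => sv x i) ≤ 4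
    nlinarith
  simpa [dotProduct, mul_comm] using sum_le_card_nsmul univ _ 4 fun i _ => this i

lemma mag_pin {v : Cube n → ℝ} (hv : Wt v) (e : ∀ σ, v σ ≠ 0 → ell D s σ ≠ 0) {i : Fin n} (hi : i ∈ s.S) :
    mag v i = sv s.sS i :=
  (mean_congr_supp (g := fun _ => sv s.sS i) fun σ hσ => by
    simp only [sv, ell_supp s D (e σ hσ) i hi]).trans (hv.mean_const _)

lemma Del_pin (h : D.Ok) {i : Fin n} (hi : i ∈ s.S) : Del D s i = 0 := by
  have a := mag_pin s (pr_pi s h).hv (fun σ e => right_ne_zero_of_mul (left_ne_zero_of_mul e)) hi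
  have b := mag_pin s (pr_pi s h).hw (fun σ e => right_ne_zero_of_mul (left_ne_zero_of_mul e)) hi
  exact sub_eq_zero.2 (a.trans b.symm)

lemma pi_eq (D : Dat n) (y0 : V n) (σ : Cube n) : pi D s σ =
    ising D.J y0 σ * exp ((s.y - y0) ⬝ᵥ sv σ + (del s ⬝ᵥ sv σ + s.Th σ)) * ell D s σ := by
  rw [pi, wt, loc, show s.y = y0 + (s.y - y0) by abel, ← tilt_ising, tilt, add_sub_cancel_left,
    exp_add ((s.y - y0) ⬝ᵥ sv σ)]
  ring

variable {s}

lemma lip_pi {e A : ℝ} (c : Cl e A s) :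
    Lip2 (2 * nrm (del s) + 2 * s.L) fun σ => del s ⬝ᵥ sv σ + s.Th σ :=
  (lip2_lin _).add (lip2_of_grad c.gr)

lemma HH_le (h : D.Ok) {e A : ℝ} (c : Cl e A s) : HH D s ≤ Dz D s + 4 * √n * (s.L + nrm (del s)) := by
  set g : Cube n → ℝ := fun σ => del s ⬝ᵥ sv σ + s.Th σ with hg
  have hp := pr_pi s h
  have h1 := kl_pin (g := g) (is_pos D.J s.y) hp (fun σ => by rw [pi, wt, loc]; ring) (ell_eq s D)
  set M := mean (nu D s) g + 4 * √n * (s.L + nrm (del s)) with hM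
  have h2 : ∀ σ, g σ ≤ M := fun σ => by
    have := hp.hv.mean_mono (f := fun _ => g σ - 4 * √n * (s.L + nrm (del s))) (g := g) fun τ => by
      linarith [Atd.osc (lip_pi c).nn (lip_pi c).vp σ τ]
    rw [hp.hv.mean_const] at this
    linarith
  have h3 : ∑ σ, pi D s σ ≤ exp M * ∑ σ, ising D.J s.y σ := by
    rw [mul_sum]
    refine sum_le_sum fun σ _ => ?_
    have a : ell D s σ ≤ 1 := by
      rcases eq_or_ne (ell D s σ) 0 with e | e
      · rw [e]; exact zero_le_one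
      · rw [ell_eq s D σ e]; exact exp_le_one_iff.2 (neg_nonpos.2 (U_nonneg s h σ))
    rw [pi, wt, loc, mul_comm]
    exact mul_le_mul (exp_le_exp.2 (h2 σ)) (mul_le_of_le_one_right (is_pos _ _ _).le a)
      ((wt_loc s D).nn σ) (exp_pos _).le
  have h4 := log_le_log hp.hw.pos h3
  rw [log_mul (exp_pos _).ne' (Wt.of_pos (is_pos D.J s.y)).pos.ne', log_exp] at h4
  have := gibbs s h
  unfold HH Hy at *
  linarith

lemma h1_of {w : Cube n → ℝ} {K0 κ0 : ℝ} (hκ : 0 < κ0) (hw : ∀ x, 0 < w x)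
    (h : Atd.ATd w K0 (exp (-(κ0 * n)))) : H1 w (max K0 0 + 8 / κ0) :=
  h1_of_atd (h.mono hw (le_max_left _ _) le_rfl) hw (le_max_right _ _) hκ

lemma Ew_eq (t : ℝ) (F : Fy n) : Ew t F = Ch t F := by
  funext σ y; simp only [Ew, Ch, add_assoc]

lemma mg_dG (G : Set (V n)) : MG fun y => dG G y ^ 2 := (XG.of_mg (mg_lip (elip_dS G))).sq.mg

lemma ms_far (G : Set (V n)) (t : ℝ) : MeasurableSet {y | t < dG G y ^ 2} :=
  measurableSet_lt measurable_const (mg_dG G).meas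

lemma far_eq (G : Set (V n)) (t : ℝ) : far G t = {y | t < dG G y ^ 2}.indicator fun _ => 1 := by
  funext y; simp only [far, Set.indicator_apply, Set.mem_ofPred_eq]

lemma mg_far (G : Set (V n)) (t : ℝ) : MG (far G t) := far_eq G t ▸ (MG.const 1).indicator (ms_far G t)

end W6

open W6

theorem W6.crude : CrudeStmt := fun n D s h => by
  have hp := pr_pi s h
  refine ⟨hp, pr_loc s h, loc_pr s h, add_nonneg (hp.Ar_nonneg fun i x => (Ue.rw_mem h.e0.le
      (by linarith [h.e1]) h.t0 (by linarith [h.t1, h.e0]) _ i x).1) (mul_nonneg (by linarith [h.t1, h.e0])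
      (Ue.El_nonneg (pr_loc s h) (loc_pr s h) fun i x => ?_)), hp.kl_nonneg, Hy_nonneg s h,
    nuU_nonneg s h, hp.hv.mean_nonneg (U6_nonneg s h),
    fun g => sum_nonneg (s := univ) fun i _ => Cs_nonneg hp.hv (fun σ => sq_nonneg (Rec.grad g σ i)) i,
    hp.hv.mean_nonneg fun _ => sq_nonneg _, gibbs s h, Dm_sq_le hp.hv hp.hw, fun i => Del_pin s h,
    fun e A c => HH_le h c⟩
  unfold Ue.Lw; split_ifs; exacts [zero_le_one, le_rfl]

theorem b1Stmt : B1Stmt := fun K0 κ0 hκ => by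
  obtain ⟨K, hK⟩ : ∃ K, K = max K0 0 + 8 / κ0 := ⟨_, rfl⟩
  have K0' : 0 < K := hK ▸ add_pos_of_nonneg_of_pos (le_max_right _ _) (by positivity)
  refine ⟨(1 + 32 * K) * (12 + 152 * K), by nlinarith, fun n D s y0 e A h c b => ?_⟩
  have hw := is_pos D.J y0
  have H : H1 (ising D.J y0) K := hK ▸ h1_of hκ hw b
  have hp := pr_pi s h
  have hg := (lip2_lin (s.y - y0)).add (lip_pi c)
  have h1 := kl_le_tilt hw H (s.y - y0) hp.hv
  rw [tilt_ising, add_sub_cancel, ← nrm_sq] at h1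
  have h2 := b1_kl hw H hg hp (pi_eq s D y0) (ell_eq s D) (U_nonneg s h)
  have h3 := b1_U hw H hg hp (pi_eq s D y0) (ell_eq s D)
  have h4 := b1_Dm hw H hg hp (pi_eq s D y0) (ell_eq s D) (U_nonneg s h) K0'
  have h5 := b1_pair hw H hg hp (pi_eq s D y0) (ell_eq s D) (U_nonneg s h)
  have a1 := Hy_nonneg s h
  have a2 := nuU_nonneg s h
  have a3 : (0 : ℝ) ≤ #s.S := Nat.cast_nonneg _
  have a4 := (pr_of hw hp.hv).kl_nonneg
  have eB : Bb D s y0 = Hy D s + nrm (del s) ^ 2 + s.L ^ 2 + mean (nu D s) (U D s) + #s.S +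
      nrm (s.y - y0) ^ 2 := by rw [Bb, Bd, nrm_sq (del s)]
  generalize nrm (s.y - y0) = a at *
  generalize nrm (del s) = d at *
  generalize Bb D s y0 = B at *
  have q1 : K * (2 * a + (2 * d + 2 * s.L)) ^ 2 ≤ K * (12 * B) := mul_le_mul_of_nonneg_left
    (by nlinarith [sq_nonneg (a - d), sq_nonneg (a - s.L), sq_nonneg (d - s.L)]) K0'.le
  have q2 : K * a ^ 2 ≤ K * B := mul_le_mul_of_nonneg_left (by nlinarith) K0'.le
  have q3 : Hy D s ≤ B := by nlinarith
  have q4 : mean (nu D s) (U D s) ≤ B := by nlinarith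
  have B0 : 0 ≤ B := a1.trans q3
  have q5 : 0 ≤ K * B := by positivity
  have q6 : kl (nu D s) (ising D.J y0) ≤ 2 * B + 16 * (K * B) := by unfold Hy at q3; linarith
  have q7 : (12 + 152 * K) * B ≤ (1 + 32 * K) * (12 + 152 * K) * B := by
    nlinarith [mul_nonneg K0'.le B0, mul_nonneg K0'.le q5]
  refine ⟨by linarith, by linarith, by linarith, h4.trans ?_, by unfold HH; linarith⟩
  refine (mul_le_mul_of_nonneg_left (show _ ≤ (12 + 152 * K) * B by linarith) (by positivity)).trans ?_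
  linarith

theorem nStmt : NStmt := fun K0 κ0 S hκ => by
  obtain ⟨K, hK⟩ : ∃ K, K = max K0 0 + 8 / κ0 := ⟨_, rfl⟩
  have K0' : 0 < K := hK ▸ add_pos_of_nonneg_of_pos (le_max_right _ _) (by positivity)
  have c1 := one_le_CN K0'.le (le_max_right S 0)
  refine ⟨20 * CN K (max S 0), by linarith, fun n w f T0 r G hw b hf r0 rS hG => ?_⟩
  have H : H1 w K := hK ▸ h1_of hκ hw b
  have wt : Wt w := .of_pos hw
  have := isProb_law (φ := sv) (s := r) wt
  have hm : 1 / 2 ≤ (law sv w r).real G := by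
    have h1 := measureReal_union_le (μ := law sv w r) G Gᶜ
    rw [Set.union_compl_self, probReal_univ] at h1
    linarith
  have c2 := CN_mono K0'.le r0 (rS.trans (le_max_left S 0))
  have c3 := one_le_CN K0'.le r0
  have wv : Wt fun x => w x * f x := wt.mul_pos hf.1
  have e1 : ∀ F : V n → ℝ, (fun σ => Ew r (fun _ => F) σ 0) =
      fun σ => ∫ z, F (r • sv σ + √r • z) ∂Gs (Fin n) := fun F => by simp only [Ew, zero_add]
  refine ⟨Set.nonempty_iff_ne_empty.2 fun e => by rw [e, measureReal_empty] at hm; linarith, ?_,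
    fun t t0 => ?_⟩
  · have h1 := n_sq hw H K0' (elip_dS G) r0 dS_zero hm wv
    have h2 := (pr_of hw wv).kl_nonneg
    rw [slE_eq_mean, mean_mul_weight _ _ _ wt.pos.ne', hf.2.1, div_one] at h1
    rw [kl_mul wt (hf.2.1 ▸ one_ne_zero), hf.2.1, div_one] at h1 h2
    simp only [Ew, zero_add]
    exact h1.trans (by gcongr)
  · have h1 := n_tail hw H K0' (elip_dS G) r0 dS_zero hm (dS_nonneg G) t
    have h2 : mean w (fun σ => Ew r (fun _ => far G t) σ 0) = (law sv w r).real {y | t < dG G y ^ 2} := by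
      rw [← integral_indicator_one (ms_far G t), e1, ← slE_eq_mean (F := fun _ => far G t),
        ← integral_law wt (mg_far G t).meas (.of_mg fun _ => mg_far G t), far_eq]
      rfl
    have h3 : (law sv w r).real {y | t < dG G y ^ 2} ≤ (law sv w r).real {y | t ≤ dS G y ^ 2} :=
      measureReal_mono fun y (hy : t < dG G y ^ 2) => show t ≤ dG G y ^ 2 from hy.le
    have h4 := wt.mean_mono (f := fun σ => f σ * Ew r (fun _ => far G t) σ 0)
      (g := fun σ => exp T0 * Ew r (fun _ => far G t) σ 0) fun σ => mul_le_mul_of_nonneg_right (hf.2.2 σ)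
        (integral_nonneg fun _ => by simp only [far]; split_ifs <;> norm_num)
    rw [mean_const_mul, h2] at h4
    refine h4.trans ((mul_le_mul_of_nonneg_left (h3.trans h1) (exp_pos _).le).trans ?_)
    rw [← exp_add, exp_le_exp]
    have : t / (20 * CN K (max S 0)) ≤ t / (8 * CN K r) := by gcongr; linarith
    linarith

theorem mtStmt : MtStmt := fun n => by
  refine ⟨fun F => by rw [Ew_eq, Ch_zero], fun F t h _ => ?_, fun F t u h t0 u0 => ?_,
    fun F F' t h h' _ => ?_, fun F t c => ?_, fun F F' c h h' c0 => ⟨⟨fun σ => (h.1 σ).add (h'.1 σ),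
      fun σ y => add_nonneg (h.2 σ y) (h'.2 σ y)⟩, fun σ => (h.1 σ).const_mul c,
      fun σ y => mul_nonneg c0 (h.2 σ y)⟩, ⟨fun _ => .const 0, fun _ _ => le_rfl⟩,
    fun G t => ⟨⟨fun _ => .of_mg (mg_dG G), fun _ _ => sq_nonneg _⟩, fun _ => .of_mg (mg_far G t),
      fun _ y => ?_⟩, fun G y hG => ?_⟩
  · rw [Ew_eq]
    exact ⟨fun σ => .of_mg (mg_Ch (fun x => (h.1 x).mg) t σ), Ch_nonneg h.2 t⟩
  · simp only [Ew_eq, Ch_Ch t0 u0 fun x => (h.1 x).mg]
  · simp only [Ew_eq]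
    exact Ch_add (fun x => (h.1 x).mg) (fun x => (h'.1 x).mg) t
  · simp only [Ew_eq]
    exact Ch_mul c t F
  · simp only [far]; split_ifs <;> norm_num
  · obtain ⟨_, ⟨y0, h0, rfl⟩, h⟩ := (Metric.infDist_lt_iff (hG.image (WithLp.toLp 2))).1
      (show dG G y < √(dG G y ^ 2 + 1) from lt_sqrt_of_sq_lt (lt_add_one _))
    rw [dist_eq_norm, ← WithLp.toLp_sub, ← nrm_eq_norm] at h
    exact ⟨y0, h0, (pow_le_pow_left₀ (nrm_nonneg _) h.le 2).trans_eq (sq_sqrt (by positivity))⟩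

end Crest.Agent.T157.S1
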