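import Crest.Agent.T157.S3Cls_80

/-!
# Row 157, block B/S3 (helper90): tools for the output of the ansatz

`Qs 𝒯 p`: for every accuracy `e` the property `p e B` holds for sup-small weights with an error `B = E0 e C D`.
-/

set_option autoImplicit false

noncomputable section

namespace Crest.Agent.T157.S3.An90

open Matrix Filter Finset
open Crest.Agent.T157.E (Cube sv ising prob)
open Crest.Agent.T157.Rec (grad fl)
open Crest.Agent.T157.Eig
open Crest.Agent.T157.Chain22 (IsP mean isP_prob' emean_eq)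
open Crest.Agent.T157.Ent (mean_add' mean_sub' mean_const_mul mean_mul_const mean_congr)
open Crest.Agent.T157.S3F (jac hsJ)
open Crest.Agent.T157.Atd (ATd vp)
open Fam Cls80

variable {F : Fam} {n : ℕ}

/-! ### the quantifier -/

/-- properties of an accuracy, an error, an instance and a weight -/
abbrev Pr (F : Fam) : Type := ℝ → ℝ → ∀ i : F.I, V (F.n i) → Prop

def Qs (𝒯 : Set F.Df) (p : Pr F) : Prop :=
  ∀ e > (0 : ℝ), ∃ η > (0 : ℝ), ∃ D : List F.Df, (∀ t ∈ D, t ∈ 𝒯) ∧ ∃ C : ℝ,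
    ∀ᶠ i in F.l, ∀ w : V (F.n i), ‖w‖ ≤ η → p e (E0 e C D i w) i w

/-- monotone in the error -/
def Mo (p : Pr F) : Prop := ∀ e B B' i w, B ≤ B' → p e B i w → p e B' i w

variable {𝒯 : Set F.Df} {p q : Pr F}

theorem Mo.and (hp : Mo p) (hq : Mo q) : Mo fun e B i w => p e B i w ∧ q e B i w :=
  fun e B B' i w h H => ⟨hp e B B' i w h H.1, hq e B B' i w h H.2⟩

theorem Pi_nonneg (D : List F.Df) (i : F.I) (w : V (F.n i)) : 0 ≤ Fam.Pi D i w :=
  div_nonneg (List.sum_nonneg fun x hx => by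
    obtain ⟨d, -, rfl⟩ := List.mem_map.1 hx; exact abs_nonneg _) (Real.sqrt_nonneg _)

theorem Pi_append (D D' : List F.Df) (i : F.I) (w : V (F.n i)) :
    Fam.Pi (D ++ D') i w = Fam.Pi D i w + Fam.Pi D' i w := by
  simp only [Fam.Pi, List.map_append, List.sum_append, add_div]

theorem E0_le (hF : F.Ok) {e e' A M C C' : ℝ} {D D' : List F.Df} {i : F.I} {w : V (F.n i)}
    (hA : 0 ≤ A) (he : A * e' ≤ e) (hC : A * |C| + |M| ≤ C')
    (hD : Fam.Pi D i w ≤ Fam.Pi D' i w) : A * E0 e' C D i w + M * F.K i ≤ E0 e C' D' i w := by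
  have k0 : 0 ≤ F.K i := zero_le_one.trans (hF.K1 i)
  have h1 := mul_le_mul_of_nonneg_right he (Hb.dsn w)
  have h2 : A * C ≤ A * |C| := mul_le_mul_of_nonneg_left (le_abs_self C) hA
  have h3 : (A * C + M) * F.K i ≤ C' * F.K i :=
    mul_le_mul_of_nonneg_right (by linarith [le_abs_self M]) k0
  have h4 : A * C * Fam.Pi D i w ^ 2 ≤ C' * Fam.Pi D' i w ^ 2 :=
    mul_le_mul (by linarith [abs_nonneg M]) (pow_le_pow_left₀ (Pi_nonneg D i w) hD 2) (sq_nonneg _)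
      ((add_nonneg (mul_nonneg hA (abs_nonneg _)) (abs_nonneg _)).trans hC)
  unfold E0
  nlinarith

theorem E0_mono (hF : F.Ok) {e C C' : ℝ} {D D' : List F.Df} {i : F.I} {w : V (F.n i)}
    (hC : |C| ≤ C') (hD : Fam.Pi D i w ≤ Fam.Pi D' i w) : E0 e C D i w ≤ E0 e C' D' i w := by
  simpa using E0_le hF (e := e) (e' := e) (A := 1) (M := 0) (C := C) (C' := C') zero_le_one
    (by simp) (by simpa using hC) hD

theorem Qs.and (hF : F.Ok) (hp : Mo p) (hq : Mo q) (h : Qs 𝒯 p) (h' : Qs 𝒯 q) :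
    Qs 𝒯 fun e B i w => p e B i w ∧ q e B i w := fun e he => by
  obtain ⟨η, η0, D, hD, C, H⟩ := h e he
  obtain ⟨η', η0', D', hD', C', H'⟩ := h' e he
  refine ⟨min η η', lt_min η0 η0', D ++ D', List.forall_mem_append.2 ⟨hD, hD'⟩, |C| + |C'|, ?_⟩
  filter_upwards [H, H'] with i a b w hw
  refine ⟨hp _ _ _ _ _ (E0_mono hF ?_ ?_) (a w (hw.trans (min_le_left _ _))),
    hq _ _ _ _ _ (E0_mono hF ?_ ?_) (b w (hw.trans (min_le_right _ _)))⟩
  · linarith [abs_nonneg C']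
  · rw [Pi_append]; linarith [Pi_nonneg D' i w]
  · linarith [abs_nonneg C]
  · rw [Pi_append]; linarith [Pi_nonneg D i w]

/-- change of the accuracy -/
theorem Qs.imp (hF : F.Ok) (hp : Mo p) (hq : Mo q) (h : Qs 𝒯 p)
    (H : ∀ e > (0 : ℝ), ∃ e' > (0 : ℝ), ∃ η > (0 : ℝ), ∃ A M : ℝ, 0 ≤ A ∧ A * e' ≤ e ∧
      ∀ᶠ i in F.l, ∀ (w : V (F.n i)) (B : ℝ), ‖w‖ ≤ η → e' * (w ⬝ᵥ w) ≤ B → p e' B i w →
        q e (A * B + M * F.K i) i w) : Qs 𝒯 q := fun e he => by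
  obtain ⟨e', he', η', η0', A, M, hA, hAe, H'⟩ := H e he
  obtain ⟨η, η0, D, hD, C, H⟩ := h e' he'
  refine ⟨min η η', lt_min η0 η0', D, hD, A * |C| + |M|, ?_⟩
  filter_upwards [H, H'] with i a b w hw
  refine hq _ _ _ _ _ (E0_le hF (C := |C|) hA hAe (by rw [abs_abs]) le_rfl)
    (b w _ (hw.trans (min_le_right _ _)) ?_
      (hp _ _ _ _ _ (E0_mono hF le_rfl le_rfl) (a w (hw.trans (min_le_left _ _)))))
  have k0 : 0 ≤ F.K i := zero_le_one.trans (hF.K1 i)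
  unfold E0
  have := abs_nonneg C
  linarith [mul_nonneg this k0, mul_nonneg this (sq_nonneg (Fam.Pi D i w))]

theorem Qs.triv : Qs 𝒯 fun _ _ _ _ => True := fun _ _ =>
  ⟨1, one_pos, [], by simp, 0, Eventually.of_forall fun _ _ _ => trivial⟩

/-- a fixed factor `A` and side conditions `A' e' ≤ e` -/
theorem ex_acc {e A : ℝ} (he : 0 < e) (hA : 0 ≤ A) :
    ∃ e' > (0 : ℝ), e' ≤ 1 ∧ e' ≤ e ∧ A * e' ≤ e := by
  refine ⟨min 1 (e / (A + 1)), lt_min one_pos (by positivity), min_le_left _ _, ?_, ?_⟩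
  · exact (min_le_right _ _).trans (div_le_self he.le (by linarith))
  · have h1 : min 1 (e / (A + 1)) ≤ e / (A + 1) := min_le_right _ _
    have h2 : (A + 1) * (e / (A + 1)) = e := by field_simp
    nlinarith [mul_le_mul_of_nonneg_left h1 hA, div_pos he (by linarith : 0 < A + 1)]

/-- small scalars -/
def Sml (𝒯 : Set F.Df) (f : ∀ i : F.I, V (F.n i) → (Cube (F.n i) → ℝ) → ℝ) : Prop :=
  Qs 𝒯 fun e B i w => ∀ ν, IsP ν → f i w ν ≤ B + e * F.H i ν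

theorem mo_sml (f : ∀ i : F.I, V (F.n i) → (Cube (F.n i) → ℝ) → ℝ) :
    Mo fun e B i w => ∀ ν, IsP ν → f i w ν ≤ B + e * F.H i ν :=
  fun _ _ _ _ _ h H ν hν => (H ν hν).trans (by linarith)

theorem mo_le (f : ∀ i : F.I, V (F.n i) → ℝ) : Mo fun _ B i w => f i w ≤ B :=
  fun _ _ _ _ _ h H => H.trans h

variable {f g : ∀ i : F.I, V (F.n i) → (Cube (F.n i) → ℝ) → ℝ}

theorem Sml.le (hF : F.Ok) (hg : Sml 𝒯 g) {A : ℝ} (hA : 0 ≤ A)
    (h : ∀ i w ν, IsP ν → f i w ν ≤ A * g i w ν) : Sml 𝒯 f :=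
  Qs.imp hF (mo_sml _) (mo_sml _) hg fun e he => by
    obtain ⟨e', he', -, -, h3⟩ := ex_acc he hA
    refine ⟨e', he', 1, one_pos, A, 0, hA, h3, Eventually.of_forall fun i w B _ _ H ν hν => ?_⟩
    nlinarith [h i w ν hν, mul_le_mul_of_nonneg_left (H ν hν) hA,
      mul_le_mul_of_nonneg_right h3 (H_nonneg i hν)]

theorem Sml.mono (hF : F.Ok) (hg : Sml 𝒯 g) (h : ∀ i w ν, IsP ν → f i w ν ≤ g i w ν) : Sml 𝒯 f :=
  hg.le hF zero_le_one fun i w ν hν => by rw [one_mul]; exact h i w ν hν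

theorem Sml.add (hF : F.Ok) (hf : Sml 𝒯 f) (hg : Sml 𝒯 g) :
    Sml 𝒯 fun i w ν => f i w ν + g i w ν :=
  Qs.imp hF ((mo_sml f).and (mo_sml g)) (mo_sml _) (Qs.and hF (mo_sml f) (mo_sml g) hf hg)
    fun e he => ⟨e / 2, half_pos he, 1, one_pos, 2, 0, zero_le_two, by linarith,
      Eventually.of_forall fun i w B _ _ H ν hν => by linarith [H.1 ν hν, H.2 ν hν]⟩

/-- the value at the Gibbs measure -/
theorem Sml.self (hf : Sml 𝒯 f) : Qs 𝒯 fun _ B i w => f i w (prob (F.w i)) ≤ B := fun e he => by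
  obtain ⟨η, η0, D, hD, C, H⟩ := hf e he
  refine ⟨η, η0, D, hD, C, H.mono fun i a w hw => ?_⟩
  simpa only [H_self, mul_zero, add_zero] using a w hw _ (isP F i)

theorem Qs.sml {f : ∀ i : F.I, V (F.n i) → ℝ} (h : Qs 𝒯 fun _ B i w => f i w ≤ B) :
    Sml 𝒯 fun i w _ => f i w := fun e he => by
  obtain ⟨η, η0, D, hD, C, H⟩ := h e he
  exact ⟨η, η0, D, hD, C, H.mono fun i a w hw ν hν =>
    (a w hw).trans (le_add_of_nonneg_right (mul_nonneg he.le (H_nonneg i hν)))⟩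

/-! ### norms -/

theorem nrm_le_sup (w : V n) : nrm w ≤ ‖w‖ * √n := by
  refine (nrm_le_iff (by positivity)).2 ?_
  rw [mul_pow, Real.sq_sqrt (Nat.cast_nonneg _)]
  calc w ⬝ᵥ w ≤ ∑ _k : Fin n, ‖w‖ ^ 2 := sum_le_sum fun k _ => by
        rw [← sq, ← sq_abs]; exact pow_le_pow_left₀ (abs_nonneg _) (norm_le_pi_norm w k) 2
    _ = _ := by simp [mul_comm]

theorem nrm_sub_comm (u v : V n) : nrm (u - v) = nrm (v - u) := by rw [← nrm_neg, neg_sub]

theorem nrm_tri (u v z : V n) : nrm (u - z) ≤ nrm (u - v) + nrm (v - z) := by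
  have := nrm_add_le (u - v) (v - z)
  rwa [sub_add_sub_cancel] at this

theorem young {a b e : ℝ} (he : 0 < e) : a * b ≤ e * a ^ 2 + b ^ 2 / e := by
  have h : b ^ 2 / e = e * (b / e) ^ 2 := by field_simp
  have h2 : a * b = e * (a * (b / e)) := by field_simp
  rw [h, h2]
  nlinarith [mul_nonneg he.le (sq_nonneg (a - b / e)), mul_nonneg he.le (sq_nonneg a),
    mul_nonneg he.le (sq_nonneg (b / e))]

theorem msq {ν : Cube n → ℝ} (hν : IsP ν) (G : Cube n → ℝ) :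
    mean ν G ^ 2 ≤ mean ν fun x => G x ^ 2 :=
  (hν.mean_sq_le G).trans_eq (mean_congr fun x => (sq (G x)).symm)

/-- negligible vectors against squares -/
theorem neg_dot {δ : F.Df} (h : Neg δ) :
    Qs 𝒯 fun _ B i w => |(w * w) ⬝ᵥ δ i| ≤ B := fun e he => by
  obtain ⟨C, H⟩ := h (e / 2) (half_pos he)
  refine ⟨1, one_pos, [], by simp, C / (e / 2), H.mono fun i a w hw => ?_⟩
  have h1 : |(w * w) ⬝ᵥ δ i| ≤ e / 2 * (w ⬝ᵥ w) +
      (fun k => |w k|) ⬝ᵥ fun k => max (|δ i k| - e / 2) 0 := by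
    simp only [dotProduct, mul_sum, ← sum_add_distrib]
    refine (abs_sum_le_sum_abs _ _).trans (sum_le_sum fun k _ => ?_)
    have a1 : |w k| ≤ 1 := (norm_le_pi_norm w k).trans hw
    have a2 := le_max_left (|δ i k| - e / 2) 0
    have a3 := le_max_right (|δ i k| - e / 2) 0
    rw [Pi.mul_apply, abs_mul, abs_mul_self, ← abs_mul_abs_self (w k)]
    nlinarith [mul_nonneg (abs_nonneg (w k)) (abs_nonneg (w k)), mul_nonneg (abs_nonneg (w k)) a3,
      mul_le_mul_of_nonneg_left a2 (mul_nonneg (abs_nonneg (w k)) (abs_nonneg (w k))),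
      mul_le_mul_of_nonneg_right a1 (mul_nonneg (abs_nonneg (w k)) a3)]
  have h2 := (dot_le (fun k => |w k|) fun k => max (|δ i k| - e / 2) 0).trans (young (half_pos he))
  have h3 : (fun k => |w k|) ⬝ᵥ (fun k => |w k|) = w ⬝ᵥ w :=
    sum_congr rfl fun k _ => abs_mul_abs_self _
  rw [nrm_sq, nrm_sq, h3] at h2
  have h4 : ((fun k => max (|δ i k| - e / 2) 0) ⬝ᵥ fun k => max (|δ i k| - e / 2) 0) ≤ C * F.K i :=
    (sum_congr rfl fun k _ => (sq _).symm).trans_le a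
  have h5 := div_le_div_of_nonneg_right h4 (half_pos he).le
  simp only [E0, Fam.Pi, List.map_nil, List.sum_nil, zero_div]
  rw [div_mul_eq_mul_div]
  linarith

/-! ### excess majorants and regular fields -/

variable {w : Cube n → ℝ} {e e' B B' L L' : ℝ} {u u' : Cube n → ℝ} {Ω Ω' : Cube n → V n}

theorem Exc.mono (h : Exc w e B u) (he : e ≤ e') (hB : B ≤ B') (hu : ∀ x, u' x ≤ u x) :
    Exc w e' B' u' :=
  let ⟨G, h1, h2, h3, h4⟩ := h
  ⟨G, fun x => (hu x).trans (h1 x), h2, TS.mono h3 he, h4.trans hB⟩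

theorem TS.add {G G' : Cube n → ℝ} (h : TS e G) (h' : TS e' G') :
    TS (2 * e + 2 * e') fun x => G x + G' x := fun x => by
  refine (sum_le_sum (g := fun j => 2 * (G x - G (fl x j)) ^ 2 + 2 * (G' x - G' (fl x j)) ^ 2)
    fun j _ => ?_).trans ?_
  · nlinarith [sq_nonneg (G x - G (fl x j) - (G' x - G' (fl x j)))]
  · rw [sum_add_distrib, ← mul_sum, ← mul_sum]; linarith [h x, h' x]

theorem Exc.add (hw : ∀ x, 0 < w x) (h : Exc w e B u) (h' : Exc w e' B' u') :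
    Exc w (2 * e + 2 * e') (2 * B + 2 * B') fun x => u x + u' x := by
  obtain ⟨G, h1, h2, h3, h4⟩ := h
  obtain ⟨G', g1, g2, g3, g4⟩ := h'
  refine ⟨fun x => G x + G' x, fun x => add_le_add (h1 x) (g1 x),
    fun x => add_nonneg (h2 x) (g2 x), TS.add h3 g3, ?_⟩
  rw [emean_eq] at h4 g4 ⊢
  refine ((isP_prob' hw).mean_mono (g := fun x => 2 * G x ^ 2 + 2 * G' x ^ 2) fun x => ?_).trans ?_
  · nlinarith [sq_nonneg (G x - G' x)]
  · rw [mean_add', mean_const_mul, mean_const_mul]; linarith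

theorem Exc.mean (hw : ∀ x, 0 < w x) (h : Exc w e B u) (hu : ∀ x, 0 ≤ u x) :
    mean (prob w) (fun x => u x ^ 2) ≤ B :=
  let ⟨_, h1, _, _, h4⟩ := h
  ((isP_prob' hw).mean_mono fun x => pow_le_pow_left₀ (hu x) (h1 x) 2).trans h4

theorem Exc.nonneg (hw : ∀ x, 0 < w x) (h : Exc w e B u) : 0 ≤ B :=
  let ⟨_, _, _, _, h4⟩ := h
  ((isP_prob' hw).mean_nonneg fun _ => sq_nonneg _).trans h4

theorem Rg.L0 (h : Rg e L Ω) : 0 ≤ L := (nrm_nonneg _).trans (h default).2.2.1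
theorem Rg.e0 (h : Rg e L Ω) : 0 ≤ e := (norm_nonneg _).trans (h default).1

theorem Rg.mono (h : Rg e L Ω) (he : e ≤ e') (hL : L ≤ L') : Rg e' L' Ω := fun x =>
  ⟨(h x).1.trans he, (h x).2.1.trans he, (h x).2.2.1.trans hL,
    (h x).2.2.2.trans (pow_le_pow_left₀ (Rg.L0 h) hL 2)⟩

theorem Rg.sub (h : Rg e L Ω) (h' : Rg e' L' Ω') :
    Rg (e + e') (2 * (L + L')) fun x => Ω x - Ω' x := fun x => by
  have a := Rg.L0 h
  have b := Rg.L0 h'
  refine ⟨(norm_sub_le _ _).trans (add_le_add (h x).1 (h' x).1), ?_, ?_, ?_⟩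
  · rw [S3F.jac_sub]; exact (opn_sub_le _ _).trans (add_le_add (h x).2.1 (h' x).2.1)
  · linarith [nrm_sub_le (Ω x) (Ω' x), (h x).2.2.1, (h' x).2.2.1]
  · have h1 : hsJ (fun x => Ω x - Ω' x) x ≤ 2 * hsJ Ω x + 2 * hsJ Ω' x := by
      simp only [hsJ, S3F.jac_sub, Matrix.sub_apply, mul_sum, ← sum_add_distrib]
      exact sum_le_sum fun k _ => sum_le_sum fun j _ => by
        nlinarith [sq_nonneg (jac Ω x k j + jac Ω' x k j)]
    nlinarith [(h x).2.2.2, (h' x).2.2.2, mul_nonneg a b]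

theorem grad_dot (u : Cube n → V n) (v : V n) (x : Cube n) :
    grad (fun y => v ⬝ᵥ u y) x = (jac u x)ᵀ *ᵥ v := by
  funext j
  rw [Hb.grad_dot]
  exact sum_congr rfl fun k _ => mul_comm _ _

theorem fl_sub (u : Cube n → V n) (x : Cube n) (j k : Fin n) :
    u (fl x j) k - u x k = -2 * sv x j * jac u x k j := by
  rw [S3F.jac_apply, Rec.grad_eq]
  linear_combination (u x k - u (fl x j) k) * Rec.sv_mul_self x j

/-- the smoothed norm of a regular field is two-sided Lipschitz -/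
theorem ts_sqrt (h : Rg e L Ω) {ρ : ℝ} (hρ : 0 < ρ) :
    TS (32 * e ^ 2 + 8 * e ^ 2 * L ^ 2 / ρ) fun x => √(Ω x ⬝ᵥ Ω x + ρ) := fun x => by
  have e0 := Rg.e0 h
  set a := Ω x with ha
  have pa : 0 < a ⬝ᵥ a + ρ := by linarith [Hb.dsn a]
  have key : ∀ j, (√(a ⬝ᵥ a + ρ) - √(Ω (fl x j) ⬝ᵥ Ω (fl x j) + ρ)) ^ 2 ≤
      32 * (((jac Ω x)ᵀ *ᵥ a) j ^ 2 / (a ⬝ᵥ a + ρ)) + 8 * e ^ 2 / ρ * ∑ k, jac Ω x k j ^ 2 := by
    intro j
    set b := Ω (fl x j) with hb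
    have pb : 0 < b ⬝ᵥ b + ρ := by linarith [Hb.dsn b]
    set s := ((jac Ω x)ᵀ *ᵥ a) j with hs
    set c := ∑ k, jac Ω x k j ^ 2 with hc
    have c0 : 0 ≤ c := sum_nonneg fun _ _ => sq_nonneg _
    have c1 : c ≤ e ^ 2 :=
      (S3F.col_sq_le _ j).trans (pow_le_pow_left₀ (opn_nonneg _) (h x).2.1 2)
    have hd : b ⬝ᵥ b - a ⬝ᵥ a = -4 * sv x j * s + 4 * c := by
      simp only [hs, hc, mulVec, dotProduct, transpose_apply, mul_sum, ← sum_sub_distrib,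
        ← sum_add_distrib]
      refine sum_congr rfl fun k _ => ?_
      have h1 : b k = a k + -2 * sv x j * jac Ω x k j := by rw [← fl_sub Ω x j k]; ring
      rw [h1]
      linear_combination 4 * jac Ω x k j ^ 2 * Rec.sv_mul_self x j
    set A := √(a ⬝ᵥ a + ρ) with hA
    set A' := √(b ⬝ᵥ b + ρ) with hA'
    have A0 : 0 < A := Real.sqrt_pos.2 pa
    have A0' : 0 < A' := Real.sqrt_pos.2 pb
    have A2 : A ^ 2 = a ⬝ᵥ a + ρ := Real.sq_sqrt pa.le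
    have A2' : A' ^ 2 = b ⬝ᵥ b + ρ := Real.sq_sqrt pb.le
    have r1 : √ρ ≤ A := Real.sqrt_le_sqrt (by linarith [Hb.dsn a])
    have r2 : √ρ ≤ A' := Real.sqrt_le_sqrt (by linarith [Hb.dsn b])
    have r3 : 4 * ρ ≤ (A + A') ^ 2 := by
      have := pow_le_pow_left₀ (by positivity) (add_le_add r1 r2) 2
      nlinarith [Real.sq_sqrt hρ.le]
    have r4 : A ^ 2 ≤ (A + A') ^ 2 := by nlinarith
    have S0 : 0 < (A + A') ^ 2 := by positivity
    have h1 : (A - A') ^ 2 * (A + A') ^ 2 ≤ 32 * s ^ 2 + 32 * c ^ 2 := by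
      have : (A - A') * (A + A') = 4 * sv x j * s - 4 * c := by linarith
      rw [← mul_pow, this]
      nlinarith [sq_nonneg (sv x j * s + c), Rec.sv_mul_self x j]
    have h2 : s ^ 2 ≤ s ^ 2 / A ^ 2 * (A + A') ^ 2 := by
      rw [div_mul_eq_mul_div, le_div_iff₀ (by positivity)]
      exact mul_le_mul_of_nonneg_left r4 (sq_nonneg _)
    have h3 : 32 * c ^ 2 ≤ 8 * e ^ 2 / ρ * c * (A + A') ^ 2 := by
      have h4 : 8 * e ^ 2 / ρ * c * (4 * ρ) = 32 * (e ^ 2 * c) := by field_simp; ring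
      have h5 := mul_le_mul_of_nonneg_left r3 (by positivity : 0 ≤ 8 * e ^ 2 / ρ * c)
      nlinarith [mul_le_mul_of_nonneg_right c1 c0]
    rw [← A2]
    refine le_of_mul_le_mul_right ?_ S0
    nlinarith
  refine (sum_le_sum fun j _ => key j).trans ?_
  rw [sum_add_distrib, ← mul_sum, ← mul_sum, ← sum_div, sum_comm]
  have h1 : ∑ j, ((jac Ω x)ᵀ *ᵥ a) j ^ 2 ≤ e ^ 2 * (a ⬝ᵥ a + ρ) := by
    have h2 := nrm_mulVec_le (jac Ω x)ᵀ a
    rw [opn_transpose] at h2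
    have h3 := pow_le_pow_left₀ (nrm_nonneg _)
      (h2.trans (mul_le_mul_of_nonneg_right (h x).2.1 (nrm_nonneg _))) 2
    rw [mul_pow, nrm_sq, nrm_sq] at h3
    refine ((sum_congr rfl fun k _ => sq _).trans_le h3).trans ?_
    nlinarith [sq_nonneg e]
  have h2 := (div_le_iff₀ pa).2 h1
  have h3 := mul_le_mul_of_nonneg_left (h x).2.2.2 (by positivity : 0 ≤ 8 * e ^ 2 / ρ)
  rw [hsJ] at h3
  have h4 : 8 * e ^ 2 / ρ * L ^ 2 = 8 * e ^ 2 * L ^ 2 / ρ := by ring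
  linarith

theorem exc_rg (hw : ∀ x, 0 < w x) (h : Rg e L Ω) {ρ : ℝ} (hρ : 0 < ρ)
    (hB : mean (prob w) (fun x => nrm (Ω x) ^ 2) ≤ B) :
    Exc w (32 * e ^ 2 + 8 * e ^ 2 * L ^ 2 / ρ) (B + ρ) fun x => nrm (Ω x) := by
  refine ⟨_, fun x => Real.sqrt_le_sqrt (le_add_of_nonneg_right hρ.le),
    fun x => Real.sqrt_nonneg _, ts_sqrt h hρ, ?_⟩
  rw [emean_eq, mean_congr (g := fun x => nrm (Ω x) ^ 2 + ρ) fun x => by
    rw [Real.sq_sqrt (by linarith [Hb.dsn (Ω x)]), nrm_sq], mean_add', (isP_prob' hw).mean_const]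
  linarith

/-! ### the consequences of tensorisation with their constants -/

structure HB (F : Fam) (C c : ℝ) : Prop where
  C0 : 0 ≤ C
  c0 : 0 < c
  h2 : ∀ (i : F.I) (G : Cube (F.n i) → ℝ) (A : ℝ), (∀ x, 0 ≤ G x) → (∀ x, vp G x ≤ A) →
    ∀ ν, IsP ν → mean ν (fun x => G x ^ 2) ≤
      2 * mean (prob (F.w i)) G ^ 2 + C * A * (F.H i ν + 1)
  var : ∀ (i : F.I) (G : Cube (F.n i) → ℝ) (A : ℝ), TS A G →
    mean (prob (F.w i)) (fun x => (G x - mean (prob (F.w i)) G) ^ 2) ≤ C * A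
  tr : ∀ (i : F.I) (G : Cube (F.n i) → ℝ) (Ω : Cube (F.n i) → V (F.n i)) (e L B θ : ℝ), Rg e L Ω →
    Exc (F.w i) (e ^ 2) B (fun x => nrm (grad G x - Ω x)) → (∀ x, nrm (grad G x) ≤ L) → 0 < θ →
    θ * e ≤ c → θ * L ≤ c * √(F.n i) → ∀ ν, IsP ν →
    |mean ν G - mean (prob (F.w i)) G| ≤ (F.H i ν + C) / θ + C * θ *
      (mean (prob (F.w i)) (fun x => grad G x ⬝ᵥ (Dg (F.J i) (F.y i) x * grad G x)) + B + e ^ 2)

theorem Dg_mem (J : Mx n) (y : V n) (x : Cube n) (j : Fin n) : 0 ≤ Dg J y x j ∧ Dg J y x j ≤ 1 :=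
  ⟨sub_nonneg.2 (by rw [← sq_abs]; exact pow_le_one₀ (abs_nonneg _) (Real.abs_tanh_lt_one _).le),
    sub_le_self _ (sq_nonneg _)⟩

theorem qd_nonneg {d : V n} (hd : ∀ j, 0 ≤ d j) (u : V n) : 0 ≤ u ⬝ᵥ (d * u) :=
  sum_nonneg fun j _ => by rw [Pi.mul_apply]; nlinarith [mul_nonneg (hd j) (mul_self_nonneg (u j))]

/-- the constants depend on `K0, κ0, RJ` only -/
theorem hb_unif (hH : HBStmt) (K0 κ0 RJ : ℝ) (hκ : 0 < κ0) : ∃ C c : ℝ, ∀ F : Fam, F.Ok →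
    (∀ i, ATd (F.w i) K0 (Real.exp (-(κ0 * F.n i)))) → (∀ i, opn (F.J i) ≤ RJ) → HB F C c := by
  obtain ⟨C, c, hc, h⟩ := hH K0 κ0 RJ hκ
  have a0 := abs_nonneg C
  have a1 : C ≤ 2 * |C| := by linarith [le_abs_self C]
  refine ⟨2 * |C|, c, fun F hF hA hJ => ⟨by positivity, hc, fun i G A h0 h1 ν hν => ?_,
    fun i G A hG => ?_, fun i G Ω e L B θ h1 h2 h3 h4 h5 h6 ν hν => ?_⟩⟩
  · refine ((h _ _ (wpos F i) (hA i)).1 G A h0 h1 ν hν).trans (add_le_add le_rfl ?_)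
    exact mul_le_mul_of_nonneg_right (mul_le_mul_of_nonneg_right a1
      ((Atd.vp_nonneg G default).trans (h1 default))) (add_nonneg (H_nonneg i hν) zero_le_one)
  · refine (((h _ _ (wpos F i) (hA i)).2.1 G A hG).1).trans ?_
    have A0 := TS.nonneg hG
    have h1 : E.mean (F.w i) (fun x => grad G x ⬝ᵥ grad G x) ≤ A := by
      rw [emean_eq, ← (isP F i).mean_const A]
      exact (isP F i).mean_mono fun x => (TS.grad hG x).trans (by linarith)
    have h2 : 0 ≤ E.mean (F.w i) (fun x => grad G x ⬝ᵥ grad G x) :=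
      (isP F i).mean_nonneg fun x => Hb.dsn _
    have h3 : Real.exp (-(c * F.n i)) ≤ 1 := Real.exp_le_one_iff.2 (neg_nonpos.2 (by positivity))
    have h4 := mul_le_mul (le_abs_self C) h1 h2 a0
    have h5 := mul_le_mul (mul_le_mul_of_nonneg_right (le_abs_self C) A0) h3 (Real.exp_pos _).le
      (by positivity)
    linarith
  · refine ((h _ _ (wpos F i) (hA i)).2.2 (F.J i) (F.y i) (hF.symm i) (hF.diag i) (hJ i) rfl
      G Ω e L B θ h1 h2 h3 h4 h5 h6 ν hν).trans (add_le_add ?_ ?_)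
    · exact div_le_div_of_nonneg_right (add_le_add le_rfl a1) h4.le
    · refine mul_le_mul_of_nonneg_right (mul_le_mul_of_nonneg_right a1 h4.le) ?_
      exact add_nonneg (add_nonneg ((isP F i).mean_nonneg fun x =>
        qd_nonneg (fun j => (Dg_mem _ _ x j).1) _) (Exc.nonneg (wpos F i) h2)) (sq_nonneg _)

theorem hb_ok (hH : HBStmt) (hF : F.Ok) : ∃ C c : ℝ, HB F C c := by
  obtain ⟨K0, κ0, hκ, hA⟩ := hF.hAT
  obtain ⟨RJ, hR⟩ := hF.uw
  obtain ⟨C0, hC0⟩ := hR 0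
  obtain ⟨C, c, h⟩ := hb_unif hH K0 κ0 RJ hκ
  exact ⟨C, c, h F hF hA fun i => (hC0 i).op⟩

/-- an excess majorant under another law -/
theorem HB.exc {C c : ℝ} (h : HB F C c) {i : F.I} {u : Cube (F.n i) → ℝ} (hu : ∀ x, 0 ≤ u x)
    (hE : Exc (F.w i) e B u) {ν : Cube (F.n i) → ℝ} (hν : IsP ν) :
    mean ν (fun x => u x ^ 2) ≤ 2 * B + C * e * (F.H i ν + 1) := by
  obtain ⟨G, h1, h2, h3, h4⟩ := hE
  refine (hν.mean_mono fun x => pow_le_pow_left₀ (hu x) (h1 x) 2).trans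
    ((h.h2 i G e h2 (TS.vp h3) ν hν).trans (add_le_add ?_ le_rfl))
  have h5 := msq (isP F i) G
  rw [emean_eq] at h4
  linarith

/-- transport for two-sided Lipschitz functions -/
theorem HB.t1 {C c : ℝ} (h : HB F C c) {i : F.I} {G : Cube (F.n i) → ℝ} {A : ℝ} (hG : TS A G)
    {ν : Cube (F.n i) → ℝ} (hν : IsP ν) :
    (mean ν G - mean (prob (F.w i)) G) ^ 2 ≤ 3 * C * A * (F.H i ν + 1) := by
  set m := mean (prob (F.w i)) G with hm
  have h1 : TS A fun x => |G x - m| :=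
    TS.abs (TS.of_lip hG fun x y => by rw [sub_sub_sub_cancel_right])
  have h2 := h.h2 i _ A (fun x => abs_nonneg _) (TS.vp h1) ν hν
  have h3 := msq (isP F i) fun x => |G x - m|
  have h4 := msq hν fun x => G x - m
  simp only [sq_abs] at h2 h3
  rw [mean_sub', hν.mean_const] at h4
  have h5 := h.var i G A hG
  have h6 := mul_nonneg (mul_nonneg h.C0 (TS.nonneg hG)) (H_nonneg i hν)
  rw [← hm] at h5
  nlinarith

end Crest.Agent.T157.S3.An90

end
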