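import Crest.Agent.T157.KMdDef_93
import Crest.Agent.T157.KDi_8
import Crest.Agent.T157.S1TiBa_91
import Crest.Agent.T157.S1W_6
import Crest.Agent.T157.S3AnA_90

/-! Row 157, block S5 (helper90): the predicted response, `Md.predGlue`. -/

set_option autoImplicit false

noncomputable section

namespace Crest.Agent.T157.Md

open MeasureTheory Real Matrix Finset
open Crest.Agent.T157.E Crest.Agent.T157.Eig Crest.Agent.T157.K Crest.Agent.T157.SL
open Crest.Agent.T157.Tap (V Mx)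
open Crest.Agent.T157.Rec (grad mg_sq)
open Crest.Agent.T157.S3 (TS Rg)
open Crest.Agent.T157.S1 (Bas Ew)
open Crest.Agent.T157.Conc (ELip)
open Crest.Agent.T157.K75 (en_eq mg_of_elip elip_aff abs_gauss_sub)

variable {n : ℕ}

namespace Pd90

/-- the noise and the shift of the field -/
theorem noise {g : U2 n} {e τ L : ℝ} (hg : RF e g) (t0 : 0 ≤ τ) {a : V n}
    (ha : nrm a ≤ L) (σ : Cube n) (y y0 : V n) :
    ∫ z, (a ⬝ᵥ g σ (y + τ • sv σ + √τ • z)) ^ 2 ∂Gs (Fin n) ≤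
      3 * (a ⬝ᵥ gb g τ y0 σ) ^ 2 + 3 * (e ^ 2 * L ^ 2) * (τ + nrm (y - y0) ^ 2) := by
  have L0 := (nrm_nonneg _).trans ha
  have hl : ∀ (a : V n) (L : ℝ), nrm a ≤ L → ELip (L * e) fun u => a ⬝ᵥ g σ u := fun a L ha u u' => by
    rw [← dotProduct_sub, en_eq, mul_assoc]
    exact (abs_dot_le _ _).trans (mul_le_mul ha (hg.lip σ u u') (nrm_nonneg _)
      ((nrm_nonneg _).trans ha))
  have hH := hl a L ha
  have mj : ∀ j, MG fun u => g σ u j := fun j => by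
    simpa using mg_of_elip (hl (Pi.single j 1) _ le_rfl)
  have e1 : a ⬝ᵥ gb g τ y0 σ = ∫ z, a ⬝ᵥ g σ (y0 + τ • sv σ + √τ • z) ∂Gs (Fin n) := by
    simp only [dotProduct, gb, Ew]
    rw [integral_finsetSum _ fun j _ => (((mj j).affine _ _).int).const_mul _]
    simp only [integral_const_mul]
  have h1 := Conc.var_lip (elip_aff hH (y + τ • sv σ) √τ)
  have h2 := abs_gauss_sub (δ := 0) (mg_of_elip hH) hH (fun u => by simp) (y + τ • sv σ)
    (y0 + τ • sv σ) √τ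
  rw [mul_pow, sq_abs, sq_abs, sq_sqrt t0] at h1
  rw [← e1, add_sub_add_right_eq_sub, en_eq, zero_add] at h2
  set m := ∫ z, a ⬝ᵥ g σ (y + τ • sv σ + √τ • z) ∂Gs (Fin n)
  set f := a ⬝ᵥ gb g τ y0 σ
  have h3 := pow_le_pow_left₀ (abs_nonneg _) h2 2
  rw [sq_abs] at h3
  have mH := (mg_of_elip hH).affine (y + τ • sv σ) √τ
  have i2 := (mg_sq (mH.sub (.const m))).int
  have h4 := integral_mono (mg_sq mH).int ((i2.const_mul 3).add
    (integrable_const (3 * (m - f) ^ 2 + 3 * f ^ 2))) fun z => by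
      have : ∀ x : ℝ, x ^ 2 ≤ 3 * (x - m) ^ 2 + (3 * (m - f) ^ 2 + 3 * f ^ 2) := fun x => by
        nlinarith [sq_nonneg (x - m - (m - f)), sq_nonneg (x - m - f), sq_nonneg (m - f - f)]
      exact this _
  simp only [Pi.add_apply] at h4
  rw [integral_add (i2.const_mul 3) (integrable_const _), integral_const_mul, integral_const,
    probReal_univ, one_smul] at h4
  nlinarith

/-- the predicted field is regular -/
theorem reg (hR : RFStmt) (S : ℝ) : ∃ c ≥ (1 : ℝ), ∀ (n : ℕ) (g : U2 n) (e τ : ℝ) (y : V n), RF e g →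
    0 ≤ e → 0 ≤ τ → τ ≤ S → R0 (c * e) (gb g τ y) := by
  obtain ⟨C, C1, H⟩ := hR √S
  have s0 := sqrt_nonneg S
  refine ⟨C * (1 + √S), by nlinarith, fun n g e τ y hg e0 t0 tS => ?_⟩
  have ts := sqrt_le_sqrt tS
  have h := H n (Fin n) (√τ • 1) 0 (fun _ => 1) (fun s ζ => g s (y + √τ • ζ)) 1 (e * (1 + √S))
    (by rw [opn_smul, abs_of_nonneg (sqrt_nonneg _)]
        exact (mul_le_of_le_one_right (sqrt_nonneg _) opn_one_le).trans ts)
    (by rw [opn_zero]; exact s0) ⟨differentiable_const _, fun u v => by simp⟩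
    ⟨fun ζ => Di.R0.mono (hg.r0 _) (by nlinarith), fun s ζ ζ' => (hg.lip s _ _).trans (by
      rw [add_sub_add_left_eq_sub, ← smul_sub, nrm_smul, abs_of_nonneg (sqrt_nonneg _), mul_assoc]
      exact mul_le_mul_of_nonneg_left (mul_le_mul_of_nonneg_right (by linarith) (nrm_nonneg _)) e0)⟩
  have e1 : cwv (√τ • (1 : Mx n)) 0 (fun _ => 1) (fun s ζ => g s (y + √τ • ζ)) = gb g τ y := by
    funext s j
    simp only [cwv, gb, Ew, one_mul, smul_mulVec, one_mulVec, smul_add, smul_smul, mul_self_sqrt t0,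
      add_assoc]
  rw [e1] at h
  exact Di.R0.mono h (le_of_eq (by ring))

theorem jac_le {u : Cube n → V n} {E : ℝ} (h : R0 E u) (x : Cube n) : opn (S3F.jac u x) ≤ E := by
  have e : S3F.jac u x = (-1 / 2 : ℝ) • (Reg.jac u x * diagonal (sv x)) := by
    ext k j
    rw [Matrix.smul_apply, mul_diagonal, Reg.jac, of_apply, S3.An90.fl_sub, smul_eq_mul]
    linear_combination (-S3F.jac u x k j) * Rec.sv_mul_self x j
  have h1 := S3F.opn_mul_diag zero_le_one (S3F.abs_sv x) (Reg.jac u x)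
  have h2 := h.op x
  have h3 := opn_nonneg (Reg.jac u x * diagonal (sv x))
  rw [e, opn_smul, abs_of_neg (by norm_num)]
  linarith

end Pd90

open Pd90

theorem predGlue : PredGlue := fun hR K0 κ0 S hκ => by
  obtain ⟨c, c1, hc⟩ := reg hR S
  set K := max K0 0 + 8 / κ0 with hK
  have K0' : 0 < K := add_pos_of_nonneg_of_pos (le_max_right _ _) (by positivity)
  have c2 : 1 ≤ c ^ 2 := one_le_pow₀ c1
  refine ⟨7000 * (K + 1) * c ^ 2 + 3 * |S|, by nlinarith [abs_nonneg S], fun n J y0 y g e τ e1 L B φ G v Ω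
    hB hg t0 tS hφ hΩ hG hT hm e11 hv => ?_⟩
  have hw := S1.W6.is_pos J y0
  have hμ := Wt.of_pos hw
  have H := S1.W6.h1_of hκ hw hB
  have e0 : 0 ≤ e := (opn_nonneg _).trans ((hg.r0 0).op default)
  have e10 := S3.An90.Rg.e0 hΩ
  have L0 := (nrm_nonneg _).trans (hφ default)
  have r := hc n g e τ y0 hg e0 t0 tS
  have k0 : 0 ≤ kl v (ising J y0) :=
    Ent.kl_nonneg hv.isP hμ.isP (Ent.AC.of_pos _ fun x => div_pos (hw x) hμ.pos)
  have B0 := (hμ.mean_nonneg fun σ => sq_nonneg (G σ)).trans hm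
  set E := c * e with hE
  have E0 : 0 ≤ E := by positivity
  have nb : ∀ σ, nrm (gb g τ y0 σ) ≤ E * √n := fun σ => Di.nrm_le_sup E0 (r.sup σ)
  have h1 : mean v (fun σ => (gb g τ y0 σ ⬝ᵥ Ω σ - mean (ising J y0) fun σ => gb g τ y0 σ ⬝ᵥ Ω σ) ^ 2) ≤
      K * (2 * (E * L) + 2 * (e1 * (E * √n)) + 4 * (E * L)) ^ 2 * (8 * kl v (ising J y0) + 3) :=
    H.cen hw K0' (S1.Tb91.lip_dot L0 (jac_le r) (fun x => (hΩ x).2.1) (fun x => (hΩ x).2.2.1) nb
      fun x => (hΩ x).2.2.2) hv.isP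
  have h2 := S1.Tb91.sq_le H hw K0' e10 hT hv
  have sn := sq_sqrt (n.cast_nonneg (α := ℝ))
  have h3 : ∀ σ, (grad φ σ ⬝ᵥ gb g τ y0 σ - gb g τ y0 σ ⬝ᵥ Ω σ) ^ 2 ≤ E ^ 2 * n * G σ ^ 2 := fun σ => by
    rw [dotProduct_comm _ (Ω σ), ← sub_dotProduct, ← sq_abs, ← sn, ← mul_pow, ← mul_pow, mul_comm]
    exact pow_le_pow_left₀ (abs_nonneg _) ((abs_dot_le _ _).trans (mul_le_mul (hG σ) (nb σ)
      (nrm_nonneg _) ((nrm_nonneg _).trans (hG σ)))) 2
  have h4 := (S3.Rg.mean_sq hμ.isP fun σ => grad φ σ ⬝ᵥ gb g τ y0 σ - gb g τ y0 σ ⬝ᵥ Ω σ).trans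
    (hμ.mean_mono h3)
  change mean (ising J y0) _ ^ 2 ≤ _ at h4
  rw [mean_sub, mean_const_mul] at h4
  set m := mean (ising J y0) fun σ => grad φ σ ⬝ᵥ gb g τ y0 σ
  set m1 := mean (ising J y0) fun σ => gb g τ y0 σ ⬝ᵥ Ω σ
  set k := kl v (ising J y0)
  set d := nrm (y - y0) ^ 2
  have d0 : 0 ≤ d := sq_nonneg _
  have h5 := hv.mean_mono (f := fun σ => Ew τ (fun σ y => (grad φ σ ⬝ᵥ g σ y) ^ 2) σ y)
    (g := fun σ => 6 * (E ^ 2 * n) * G σ ^ 2 + (12 * (gb g τ y0 σ ⬝ᵥ Ω σ - m1) ^ 2 +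
      (12 * m1 ^ 2 + 3 * (e ^ 2 * L ^ 2) * (τ + d)))) fun σ =>
    (noise hg t0 (hφ σ) σ y y0).trans (by
      have := h3 σ
      set f := grad φ σ ⬝ᵥ gb g τ y0 σ
      set f1 := gb g τ y0 σ ⬝ᵥ Ω σ
      nlinarith [sq_nonneg (f - 2 * f1), sq_nonneg (f1 - 2 * m1)])
  rw [mean_add, mean_add, mean_const_mul, mean_const_mul, hv.mean_const] at h5
  refine h5.trans ?_
  set N := e ^ 2 * n with hN
  set Λ := e ^ 2 * L ^ 2 with hΛ
  have N0 : 0 ≤ N := by positivity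
  have Λ0 : 0 ≤ Λ := by positivity
  have a1 : E ^ 2 * n = c ^ 2 * N := by rw [hE, hN]; ring
  have a2 : (2 * (E * L) + 2 * (e1 * (E * √n)) + 4 * (E * L)) ^ 2 ≤
      c ^ 2 * (72 * Λ + 8 * (N * e1)) := by
    have b1 : (E * L) ^ 2 = c ^ 2 * Λ := by rw [hE, hΛ]; ring
    have b2 : (e1 * (E * √n)) ^ 2 ≤ c ^ 2 * (N * e1) := by
      rw [mul_pow, mul_pow, sn, a1]
      nlinarith [mul_nonneg (mul_nonneg (sq_nonneg c) N0) (mul_nonneg e10 (sub_nonneg.2 e11))]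
    nlinarith [sq_nonneg (3 * (E * L) - e1 * (E * √n))]
  rw [a1] at h4 ⊢
  set q := c ^ 2
  have q0 : 0 ≤ q := by linarith
  have qN := mul_nonneg q0 N0
  have a3 := h1.trans (mul_le_mul_of_nonneg_right (mul_le_mul_of_nonneg_left a2 K0'.le) (by positivity))
  have a4 := mul_le_mul_of_nonneg_left h2 qN
  have a5 := mul_le_mul_of_nonneg_left hm qN
  have a6 : m1 ^ 2 ≤ 2 * m ^ 2 + 2 * (q * N * B) := by nlinarith [sq_nonneg (m1 - 2 * m)]
  have a7 := mul_le_mul_of_nonneg_left (tS.trans (le_abs_self S)) Λ0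
  have s0 := abs_nonneg S
  have Kq := mul_pos K0' (one_pos.trans_le c2)
  have p1 : 0 ≤ N * B := by positivity
  have p2 : 0 ≤ N * e1 := by positivity
  have p3 : 0 ≤ N * e1 * k := by positivity
  have p4 : 0 ≤ Λ * k := by positivity
  have p5 : 0 ≤ Λ * d := by positivity
  have p6 := sq_nonneg m
  nlinarith [mul_nonneg Kq.le p1, mul_nonneg Kq.le p2, mul_nonneg Kq.le p3, mul_nonneg Kq.le p4,
    mul_nonneg Kq.le p5, mul_nonneg Kq.le p6, mul_nonneg Kq.le Λ0, mul_nonneg s0 p1, mul_nonneg s0 p2,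
    mul_nonneg s0 p3, mul_nonneg s0 p4, mul_nonneg s0 p5, mul_nonneg s0 p6, mul_nonneg q0 p1,
    mul_nonneg q0 p2, mul_nonneg q0 p3, mul_nonneg q0 p4, mul_nonneg q0 Λ0,
    mul_nonneg (sub_nonneg.2 c2) p5, mul_nonneg (sub_nonneg.2 c2) p6]

end Crest.Agent.T157.Md

end
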