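import Crest.Agent.T157.KMdB_93
import Crest.Agent.T157.KPd_90

/-!
# Row 157, block S5 (helper38): the part of the tilt, `Md.thTGlue`
-/

set_option autoImplicit false

noncomputable section

namespace Crest.Agent.T157.Md

open Real Matrix Finset
open Crest.Agent.T157.E Crest.Agent.T157.Eig Crest.Agent.T157.K Crest.Agent.T157.SL
open Crest.Agent.T157.Tap (V Mx)
open Crest.Agent.T157.Rec (grad fl)
open Crest.Agent.T157.S3 (Rg)
open Crest.Agent.T157.S3F (jac hsJ jac_apply col_sq_le)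
open Crest.Agent.T157.S3.Rg (nrm_sq' nrm_le_of_sq nrm_mul_le fl_eq)
open Crest.Agent.T157.S3.Hd (AD)
open Crest.Agent.T157.S1 (Dat St Cl Ex nu pi)

variable {n : ℕ}

namespace Th38

/-- the gradient of a scalar product -/
lemma grad_dot {u b : Cube n → V n} {a1 a2 L : ℝ} {x : Cube n} (h1 : opn (jac u x) ≤ a1)
    (h2 : opn (jac b x) ≤ a2) (h3 : nrm (b x) ≤ L) (h5 : hsJ b x ≤ L ^ 2) :
    nrm (grad (fun x => b x ⬝ᵥ u x) x) ≤ a2 * nrm (u x) + 3 * (a1 * L) := by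
  have a0 : 0 ≤ a1 := (opn_nonneg _).trans h1
  have L0 : 0 ≤ L := (nrm_nonneg _).trans h3
  have e : grad (fun x => b x ⬝ᵥ u x) x = (jac u x)ᵀ *ᵥ b x + (jac b x)ᵀ *ᵥ u x -
      (2 : ℝ) • (sv x * fun j => ∑ k, jac u x k j * jac b x k j) := by
    funext j
    rw [Rec.grad_eq]
    simp only [dotProduct, mulVec, transpose_apply, Pi.add_apply, Pi.sub_apply, Pi.smul_apply,
      Pi.mul_apply, smul_eq_mul, mul_sum, sum_div, ← sum_add_distrib, ← sum_sub_distrib]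
    refine sum_congr rfl fun k _ => ?_
    rw [fl_eq (fun y => u y k), fl_eq (fun y => b y k), jac_apply, jac_apply]
    linear_combination (grad (fun y => u y k) x j * b x k + grad (fun y => b y k) x j * u x k -
      2 * sv x j * grad (fun y => u y k) x j * grad (fun y => b y k) x j) * Rec.sv_mul_self x j
  have t : ∀ (A : Mx n) (v : V n) (a : ℝ), opn A ≤ a → nrm (Aᵀ *ᵥ v) ≤ a * nrm v :=
    fun A v a hA => (nrm_mulVec_le _ _).trans
      (mul_le_mul_of_nonneg_right ((opn_transpose _).trans_le hA) (nrm_nonneg _))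
  have t3 : nrm (fun j => ∑ k, jac u x k j * jac b x k j) ≤ a1 * L := by
    refine nrm_le_of_sq (by positivity) ?_
    rw [hsJ, sum_comm] at h5
    rw [mul_pow]
    refine le_trans ?_ (mul_le_mul_of_nonneg_left h5 (sq_nonneg _))
    rw [mul_sum]
    refine sum_le_sum fun j _ => (sum_mul_sq_le_sq_mul_sq _ _ _).trans ?_
    exact mul_le_mul_of_nonneg_right ((col_sq_le _ j).trans
      (pow_le_pow_left₀ (opn_nonneg _) h1 2)) (sum_nonneg fun _ _ => sq_nonneg _)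
  have t4 := nrm_mul_le (v := fun j => ∑ k, jac u x k j * jac b x k j) zero_le_one (S3F.abs_sv x)
  rw [e]
  refine (nrm_sub_le _ _).trans ((add_le_add (nrm_add_le _ _) le_rfl).trans ?_)
  rw [nrm_smul, abs_two]
  linarith [t _ (b x) _ h1, t _ (u x) _ h2, mul_le_mul_of_nonneg_left h3 a0]

lemma cs {v f a b : Cube n → ℝ} (hv : Wt v) (h : ∀ x, |f x| ≤ a x * b x) :
    mean v f ^ 2 ≤ (mean v fun x => a x ^ 2) * mean v fun x => b x ^ 2 := by
  have h1 : |mean v f| ≤ mean v fun x => a x * b x := by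
    refine abs_le.2 ⟨?_, hv.mean_mono fun x => (abs_le.1 (h x)).2⟩
    rw [← mean_neg]; exact hv.mean_mono fun x => (abs_le.1 (h x)).1
  have h2 := pow_le_pow_left₀ (abs_nonneg _) h1 2
  rw [sq_abs] at h2
  simp only [sq]
  simp only [← sq (mean v _)]
  exact h2.trans (hv.isP.ip_sq_le a b)

/-- the certificate of the scalar product -/
lemma bs {Ω G : Cube n → V n} {ec e L : ℝ} (hΩ : Rg ec L Ω) (hG : R0 e G) (e1 : ec ≤ 1)
    (hL : L ^ 2 ≤ n) : BS0 (fun x => Ω x ⬝ᵥ G x) 0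
      (fun x => 2 * ec ^ 2 * nrm (G x) ^ 2 + 18 * (e ^ 2 * L ^ 2)) (5 * e) (5 * e * √n) := by
  have e0 : 0 ≤ e := (opn_nonneg _).trans (hG.op default)
  have c0 : 0 ≤ ec := (opn_nonneg _).trans (hΩ default).2.1
  have c2 : ec ^ 2 ≤ 1 := pow_le_one₀ c0 e1
  have h1 : ∀ x, nrm (grad (fun x => Ω x ⬝ᵥ G x) x) ^ 2 ≤
      2 * ec ^ 2 * nrm (G x) ^ 2 + 18 * (e ^ 2 * L ^ 2) := fun x => by
    have := pow_le_pow_left₀ (nrm_nonneg _)
      (grad_dot (Pd90.jac_le hG x) (hΩ x).2.1 (hΩ x).2.2.1 (hΩ x).2.2.2) 2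
    nlinarith [sq_nonneg (ec * nrm (G x) - 3 * (e * L))]
  refine ⟨fun x => abs_le_of_sq_le_sq' ((h1 x).trans ?_) (by positivity) |>.2,
    fun x => by simpa using h1 x, ⟨fun _ _ => by simpa using e0, fun x => ?_⟩,
    fun x => ⟨by positivity, ?_⟩⟩
  · have h2 := pow_le_pow_left₀ (nrm_nonneg _) (Di.nrm_le_sup e0 (hG.sup x)) 2
    simp only [mul_pow, sq_sqrt (n.cast_nonneg (α := ℝ))] at h2 ⊢
    have h3 := mul_le_mul c2 h2 (sq_nonneg _) zero_le_one
    have h4 := mul_le_mul_of_nonneg_left hL (sq_nonneg e)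
    have h5 : 0 ≤ e ^ 2 * n := by positivity
    linarith
  · rw [show Reg.jac (0 : Cube n → V n) x = 0 by ext; simp [Reg.jac], opn_zero]; positivity
  · have h2 := (Di.sb_dist hG.op 0 x).2
    simp only [zero_sub, nrm_neg] at h2
    have h3 := S3.Hb.Vp_const_mul (c := 2 * ec ^ 2) (by positivity) (fun s => nrm (G s) ^ 2) x
    have h4 : S3.Hb.Vp (fun x => 2 * ec ^ 2 * nrm (G x) ^ 2 + 18 * (e ^ 2 * L ^ 2)) x =
        S3.Hb.Vp (fun x => 2 * ec ^ 2 * nrm (G x) ^ 2) x := by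
      simp only [S3.Hb.Vp, add_sub_add_right_eq_sub]
    rw [h4, h3]
    have h5 := mul_le_mul_of_nonneg_left h2 (sq_nonneg (2 * ec ^ 2))
    have h6 : 0 ≤ e ^ 2 * (ec ^ 2 * nrm (G x) ^ 2) := by positivity
    have h7 := mul_le_mul_of_nonneg_right c2 h6
    have h8 : 0 ≤ e ^ 2 * (e ^ 2 * L ^ 2) := by positivity
    linarith

/-- transport of the scalar product -/
lemma tr (hT : TrStmt) (K : ℝ) : ∃ C ≥ (1 : ℝ), ∀ (n : ℕ) (J : Mx n) (y : V n) (v : Cube n → ℝ)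
    (Ω G : Cube n → V n) (ε ec e L Γ β : ℝ), Jᵀ = J → (∀ i, J i i = 0) → opn J ≤ 3 →
    AD (ising J y) K ε → Wt v → Rg ec L Ω → R0 e G → ec ≤ 1 → L ^ 2 ≤ β → β ≤ n → ε * n ≤ 1 →
    kl v (ising J y) + 1 ≤ β → (mean (ising J y) fun σ => nrm (G σ) ^ 2) ≤ Γ →
    ((mean v fun x => Ω x ⬝ᵥ G x) - mean (ising J y) fun x => Ω x ⬝ᵥ G x) ^ 2 ≤
      C * (Γ * (ec * β) + e ^ 2 * β ^ 2) := by
  obtain ⟨C, C1, h⟩ := hT K
  refine ⟨444 * C ^ 2, by nlinarith, fun n J y v Ω G ε ec e L Γ β hJ h0 h3 hA hv hΩ hG e1 hL hβ hε hk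
    hΓ => ?_⟩
  have e0 : 0 ≤ e := (opn_nonneg _).trans (hG.op default)
  have c0 : 0 ≤ ec := (opn_nonneg _).trans (hΩ default).2.1
  have k0 := kl_nn J y hv
  have W := wt_is J y
  have Γ0 : 0 ≤ Γ := (W.mean_nonneg fun _ => sq_nonneg _).trans hΓ
  have β1 : 1 ≤ β := by linarith
  have C0 : 0 < C := by linarith
  rcases e0.eq_or_lt with rfl | e0
  · have : G = 0 := by ext σ i; exact abs_nonpos_iff.1 (hG.sup σ i)
    simp only [this, Pi.zero_apply, dotProduct_zero, hv.mean_const, W.mean_const, sub_self]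
    rw [zero_pow two_ne_zero]
    positivity
  have B := bs hΩ hG e1 (hL.trans hβ)
  have hX : (mean (ising J y) fun x => 2 * ec ^ 2 * nrm (G x) ^ 2 + 18 * (e ^ 2 * L ^ 2)) ≤
      2 * (ec * Γ) + 18 * (e ^ 2 * β) := by
    rw [mean_add, mean_const_mul, W.mean_const]
    have a1 := mul_le_mul_of_nonneg_left hΓ (sq_nonneg ec)
    have a2 := mul_le_mul_of_nonneg_right e1 (mul_nonneg c0 Γ0)
    have a3 := mul_le_mul_of_nonneg_left hL (sq_nonneg e)
    linarith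
  have hg := (W.mean_mono fun x => (by simpa using B.app x :
    nrm (grad (fun x => Ω x ⬝ᵥ G x) x) ^ 2 ≤ _)).trans hX
  have p1 : 0 ≤ ec * Γ := by positivity
  have p2 : 0 ≤ e ^ 2 * β := by positivity
  have p3 : e ^ 2 ≤ e ^ 2 * β := le_mul_of_one_le_right (sq_nonneg _) β1
  have o := opt (x := (mean v fun x => Ω x ⬝ᵥ G x) - mean (ising J y) fun x => Ω x ⬝ᵥ G x)
    (B := C * (4 * (ec * Γ) + 86 * (e ^ 2 * β)) + β * (C * (5 * e)) ^ 2) (θm := 1 / (C * (5 * e))) k0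
    (by positivity) (by
      have : β * (C * (5 * e)) ^ 2 * (1 / (C * (5 * e))) ^ 2 = β := by field_simp
      have p : 0 ≤ C * (4 * (ec * Γ) + 86 * (e ^ 2 * β)) * (1 / (C * (5 * e))) ^ 2 := by positivity
      linarith) fun θ t0 t1 => by
      rw [le_div_iff₀ (by positivity)] at t1
      refine (h n _ v _ _ 0 (5 * e) (5 * e * √n) ε θ J y hJ h0 h3 rfl hA hv B t0 (by linarith)
        (by linarith [mul_le_mul_of_nonneg_right t1 (sqrt_nonneg (n : ℝ))])).trans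
        (add_le_add le_rfl ?_)
      have a1 : ε * (5 * e * √n) ^ 2 ≤ 25 * e ^ 2 := by
        rw [mul_pow, sq_sqrt (n.cast_nonneg (α := ℝ))]
        linarith [mul_le_mul_of_nonneg_left hε (sq_nonneg e)]
      have a2 : 0 ≤ θ * (β * (C * (5 * e)) ^ 2) := by positivity
      refine (mul_le_mul_of_nonneg_left (show _ ≤ 4 * (ec * Γ) + 86 * (e ^ 2 * β) by linarith)
        (by positivity)).trans ?_
      linarith
  refine o.trans ((mul_le_mul_of_nonneg_left hk (by positivity)).trans ?_)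
  have q1 : C ≤ C ^ 2 := by nlinarith
  have q2 := mul_le_mul_of_nonneg_right q1 (mul_nonneg p1 (zero_le_one.trans β1))
  have q3 := mul_le_mul_of_nonneg_right q1 (mul_nonneg p2 (zero_le_one.trans β1))
  have q4 : 0 ≤ C ^ 2 * (ec * Γ * β) := by positivity
  linarith

lemma five (T a b c d s : ℝ) :
    (T + a + b - c - d - s) ^ 2 ≤ 2 * T ^ 2 + 10 * (a ^ 2 + b ^ 2 + c ^ 2 + d ^ 2 + s ^ 2) := by
  have h : (a + b - c - d - s) ^ 2 ≤ 5 * (a ^ 2 + b ^ 2 + c ^ 2 + d ^ 2 + s ^ 2) := by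
    linarith [sq_nonneg (a - b), sq_nonneg (a + c), sq_nonneg (a + d), sq_nonneg (a + s),
      sq_nonneg (b + c), sq_nonneg (b + d), sq_nonneg (b + s), sq_nonneg (c - d), sq_nonneg (c - s),
      sq_nonneg (d - s)]
  linarith [sq_nonneg (T - (a + b - c - d - s))]

end Th38

open Th38

theorem thTGlue : ThTGlue := fun hT K => by
  obtain ⟨C, C1, h⟩ := tr hT K
  refine ⟨10 * (5 + 48 * |K| + 2 * C), by linarith [abs_nonneg K],
    fun n D s ε ec e Γ β G hD hc hA hB e1 hβ hε hG h1 h2 h3 => ?_⟩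
  have hν := (S1.W6.pr_pi s hD).hv
  have hπ := (S1.W6.pr_pi s hD).hw
  have e0 : 0 ≤ e := (opn_nonneg _).trans (hG.op default)
  have c0 : 0 ≤ ec := (opn_nonneg _).trans (hc.rg default).2.1
  have K0 := hA.pos
  have Γ0 : 0 ≤ Γ := (hν.mean_nonneg fun _ => sq_nonneg _).trans h2
  have β0 : 0 ≤ β := (sq_nonneg _).trans hB.ll
  have X0 : 0 ≤ Ex D s := hν.mean_nonneg fun _ => sq_nonneg _
  have b1 := h n D.J s.y _ s.Om G ε ec e s.L Γ β hD.symm hD.diag hD.op hA hπ hc.rg hG e1 hB.ll hβ hε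
    hB.kp h1
  have b2 := h n D.J s.y _ s.Om G ε ec e s.L Γ β hD.symm hD.diag hD.op hA hν hc.rg hG e1 hB.ll hβ hε
    hB.kn h1
  have c : ∀ x, |(grad s.Th x - s.Om x) ⬝ᵥ G x| ≤ s.G x * nrm (G x) := fun x =>
    (abs_dot_le _ _).trans (mul_le_mul_of_nonneg_right (hc.ex x) (nrm_nonneg _))
  have x1 : (mean (pi D s) fun x => s.G x ^ 2) ≤ 4 * Ex D s + K * √ec ^ 2 *
      (32 * kl (nu D s) (ising D.J s.y) + 16 * kl (pi D s) (ising D.J s.y) + 18) :=
    (h1_ad (is_pos _ _) hA).xfer (is_pos _ _) K0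
      ((Xt.lip2_iff (sqrt_nonneg ec)).2 (by rw [sq_sqrt c0]; exact hc.ts)) hν.isP hπ.isP
  rw [sq_sqrt c0] at x1
  have x2 : (mean (pi D s) fun x => s.G x ^ 2) ≤ 4 * Ex D s + 48 * (K * (ec * β)) := by
    have := mul_le_mul_of_nonneg_left (show 32 * kl (nu D s) (ising D.J s.y) +
      16 * kl (pi D s) (ising D.J s.y) + 18 ≤ 48 * β by linarith [hB.kn, hB.kp]) (mul_nonneg K0.le c0)
    linarith
  have a1 := (cs hπ c).trans (mul_le_mul x2 h3 (hπ.mean_nonneg fun _ => sq_nonneg _) (by positivity))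
  have a2 : _ ≤ Ex D s * Γ := (cs hν c).trans (mul_le_mul_of_nonneg_left h2 X0)
  have s1 : (mean (pi D s) fun σ => ∑ j ∈ s.S, grad s.Th σ j * G σ j) ^ 2 ≤ (e * β) ^ 2 := by
    refine sq_le_sq' (abs_le.1 ?_).1 (abs_le.1 ?_).2 <;>
    refine hπ.abs_mean_le fun σ => abs_le_of_sq_le_sq' ?_ (by positivity) |> abs_le.2 <;>
    refine (sum_mul_sq_le_sq_mul_sq _ _ _).trans ?_ <;>
    · have u1 : ∑ j ∈ s.S, grad s.Th σ j ^ 2 ≤ β :=
        ((sum_le_univ_sum_of_nonneg fun _ => sq_nonneg _).trans_eq (nrm_sq' _).symm).trans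
          ((pow_le_pow_left₀ (nrm_nonneg _) (hc.gr σ) 2).trans hB.ll)
      have u2 : ∑ j ∈ s.S, G σ j ^ 2 ≤ β * e ^ 2 :=
        (sum_le_card_nsmul _ _ (e ^ 2) fun j _ => sq_le_sq' (abs_le.1 (hG.sup σ j)).1
          (abs_le.1 (hG.sup σ j)).2).trans (by
            rw [nsmul_eq_mul]; exact mul_le_mul_of_nonneg_right hB.ss (sq_nonneg _))
      exact (mul_le_mul u1 u2 (sum_nonneg fun _ _ => sq_nonneg _) β0).trans_eq (by ring)
  have e2 : pr D s (grad s.Th) G = (mean (pi D s) fun σ => grad s.Th σ ⬝ᵥ G σ) -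
      mean (pi D s) fun σ => ∑ j ∈ s.S, grad s.Th σ j * G σ j := by
    rw [pr, ← mean_sub]
    congr 1; ext σ
    rw [dotProduct, ← sum_add_sum_compl s.S, add_sub_cancel_left]
  simp only [sub_dotProduct, mean_sub] at a1 a2
  have f := five (mean (nu D s) fun σ => grad s.Th σ ⬝ᵥ G σ)
    ((mean (pi D s) fun σ => grad s.Th σ ⬝ᵥ G σ) - mean (pi D s) fun σ => s.Om σ ⬝ᵥ G σ)
    ((mean (pi D s) fun σ => s.Om σ ⬝ᵥ G σ) - mean (ising D.J s.y) fun σ => s.Om σ ⬝ᵥ G σ)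
    ((mean (nu D s) fun σ => s.Om σ ⬝ᵥ G σ) - mean (ising D.J s.y) fun σ => s.Om σ ⬝ᵥ G σ)
    ((mean (nu D s) fun σ => grad s.Th σ ⬝ᵥ G σ) - mean (nu D s) fun σ => s.Om σ ⬝ᵥ G σ)
    (mean (pi D s) fun σ => ∑ j ∈ s.S, grad s.Th σ j * G σ j)
  rw [e2, abs_of_pos K0]
  refine le_trans (le_of_eq (by congr 1; ring)) (f.trans (add_le_add le_rfl ?_))
  have p1 : 0 ≤ Γ * Ex D s := by positivity
  have p2 : 0 ≤ Γ * (ec * β) := by positivity
  have p3 : 0 ≤ e ^ 2 * β ^ 2 := by positivity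
  linarith [mul_nonneg K0.le p1, mul_nonneg K0.le p3, mul_nonneg (zero_le_one.trans C1) p1]

end Crest.Agent.T157.Md

end
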