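import Crest.Agent.T157.KMd_93
import Crest.Agent.T157.KAll_66
import Crest.Agent.T157.KCertT_14
import Crest.Agent.T157.KMdC_11
import Crest.Agent.T157.KMdF_89
import Crest.Agent.T157.KMdG_52
import Crest.Agent.T157.KMdU_43
import Crest.Agent.T157.KMdZ_78
import Crest.Agent.T157.KTh_38
import Crest.Agent.T157.KPd_90
import Crest.Agent.T157.KRl_58

/-!
# Row 157, block S5 (helper93): the collective deficit and the predicted responses, assembled
-/

namespace Crest.Agent.T157.Md

open Crest.Agent.T157.K

theorem modGlue : ModGlue := fun hR hG hP hD hTf hT hZ hF hGt _ hB =>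
  modOf (certZGlue hD hTf hZ) (certTGlue hR hG hP hD hTf hT)
    (certBGlue hR hP hD hTf (regGlue hP hD hGt)) (foTGlue hR hF) (gsTGlue hR hG hTf hGt) (thTGlue hT)
    uT hB

theorem regStmt : RegStmt := regGlue progStmt dirStmt gtStmt
theorem predStmt : PredStmt := predGlue rfStmt
theorem modStmt : ModStmt := modGlue revStmt gapStmt progStmt dirStmt trfStmt trStmt z0Stmt foStmt
  gtStmt S1.W6.crude S1.b1Stmt

end Crest.Agent.T157.Md
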