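import Crest.Agent.T157.KDefB_19

/-!
# Row 157, part B (helper25): the magnetisation does not vanish at a positive level
-/

set_option autoImplicit false

noncomputable section

namespace Crest.Agent.T157.Kz

open MeasureTheory ProbabilityTheory Matrix Filter Topology
open Crest.Agent.T157.E Crest.Agent.T157.Eig
open Crest.Agent.T157.Tap (V Mx th avg gE)
open Crest.Agent.T157.Pos (In TF)

theorem magStmt25 : MagStmt := by
  intro β hβ r hr
  have hβ1 : β ∈ Set.Ioc (0 : ℝ) 1 := ⟨hβ.1, hβ.2.le⟩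
  obtain ⟨q, hq⟩ := Pos.exists_lv β hr.le
  have ct : Continuous Real.tanh := by
    have : Real.tanh = fun x => Real.sinh x / Real.cosh x := funext Real.tanh_eq_sinh_div_cosh
    rw [this]
    exact Real.continuous_sinh.div Real.continuous_cosh fun x => (Real.cosh_pos x).ne'
  have hb : ∀ x : ℝ, |Real.tanh x ^ 2| ≤ 1 := fun x => by
    rw [abs_pow]; exact pow_le_one₀ (abs_nonneg _) (Real.abs_tanh_lt_one x).le
  set v := r + β ^ 2 * q with hv
  have v0 : 0 < v := by have := hq.2.1.1.1; positivity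
  set c := gE (fun x => Real.tanh x ^ 2) v v with hc
  have c0 : 0 < c := by
    have h1 : (gaussianReal 0 1).IsOpenPosMeasure :=
      (gaussianReal_absolutelyContinuous' 0 one_ne_zero).isOpenPosMeasure
    have h2 : Continuous fun z : ℝ => Real.tanh (v + √v * z) ^ 2 := (ct.comp (by fun_prop)).pow 2
    refine integral_pos_of_integrable_nonneg_nonzero (x := 0) h2 ((integrable_const (1 : ℝ)).mono'
      h2.aestronglyMeasurable (.of_forall fun z => hb _)) (fun z => sq_nonneg _) ?_
    simp only [mul_zero, add_zero, Real.tanh_eq_sinh_div_cosh]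
    exact (pow_pos (div_pos (Real.sinh_pos_iff.2 v0) (Real.cosh_pos v)) 2).ne'
  obtain ⟨M, M0, hM⟩ := Pos.TF.acc (s := r) hβ1 hr.le
  refine ⟨√(8 / c), ?_⟩
  filter_upwards [hM, (Pos.TF.emp hβ1 hq (ct.pow 2) (fun x => by simp) hb).eventually
    (le_mem_nhds (half_lt_self c0)), Pos.TF.lim.eventually (eventually_gt_atTop 0),
    (tendsto_natCast_atTop_atTop.comp Pos.TF.lim).eventually (eventually_ge_atTop (8 * M ^ 2 / c))]
    with x h1 h2 h3 h4
  have n0 : (0 : ℝ) < x.n := Nat.cast_pos.2 h3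
  set m := mag (ising (x.J β) x.y)
  have h5 : c / 2 * x.n ≤ nrm (th (x.b β)) ^ 2 := by
    rw [nrm_sq, ← le_div_iff₀ n0]
    exact h2.trans_eq (by simp [avg, dotProduct, th, sq])
  have h6 : nrm (th (x.b β)) ≤ M + nrm m := by
    have := nrm_add_le (th (x.b β) - m) m
    rw [sub_add_cancel] at this
    linarith
  have h7 := pow_le_pow_left₀ (nrm_nonneg _) h6 2
  have h8 : 8 * M ^ 2 ≤ x.n * c := (div_le_iff₀ c0).1 h4
  rw [Real.sq_sqrt (by positivity), ← nrm_sq, div_mul_eq_mul_div, le_div_iff₀ c0]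
  nlinarith [sq_nonneg (M - nrm m)]

end Crest.Agent.T157.Kz

end
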