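import Crest.Agent.T157.KDefB_19

/-!
# Row 157, part B (helper75): `MokGlue`
-/

set_option autoImplicit false

noncomputable section

namespace Crest.Agent.T157.Kz

open MeasureTheory Real Matrix Finset Filter
open Crest.Agent.T157.E Crest.Agent.T157.Eig Crest.Agent.T157.K Crest.Agent.T157.S1
open Crest.Agent.T157.Tap (V Mx)
open Crest.Agent.T157.SL (Wt)

namespace Mok75

variable {n : ℕ}

/-- the accuracy of the window beats the network constant -/
theorem ec_le (p : Par) (hp : p.Ok) {m : ℕ} (i : ℕ) (hm : m < p.N) :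
    p.CN m i * p.ec (m + 1) i ≤ p.ω m i := by
  set j := p.bt (m + 1) i with hj
  have hij : i + 1 ≤ j := by
    have : 1 ≤ 2 ^ (p.N - (m + 1)) := Nat.one_le_two_pow
    simp only [hj, Par.bt]; omega
  have h1 := (hp.lM m i hm).1.trans (hp.Mm hij)
  have h2 := hp.le j
  have hω0 := hp.ω0 m i
  have hω1 := hp.ω1 m i
  have hCN := hp.CN1 m i
  have hM := hp.M1 j
  have he := hp.e0 j
  have hC := hp.C1'
  have hP := hp.P1
  have hκ0 := hp.κ0'
  have hκ1 := hp.κ1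
  have hη0 := hp.η00
  have hη1 := hp.η01
  have hZ : 1 ≤ p.CZ := by
    have a := hp.CZ1
    have b := hp.lq0
    have c := hp.lq1
    by_contra hc
    nlinarith [not_le.1 hc]
  have hx : 1 ≤ p.CN m i / p.ω m i := by rw [le_div_iff₀ hω0]; linarith
  have hy : p.CN m i / p.ω m i ≤ p.P * p.CN m i / (p.κ * p.η0 * p.ω m i) := by
    refine div_le_div₀ (by positivity) (by nlinarith) (by positivity) ?_
    have : p.κ * p.η0 ≤ 1 := by nlinarith
    nlinarith
  have h3 : p.CN m i / p.ω m i ≤ p.M j := by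
    refine le_trans ?_ h1
    unfold Mx'
    nlinarith [sq_nonneg (p.P * p.CN m i / (p.κ * p.η0 * p.ω m i))]
  rw [div_le_iff₀ hω0] at h3
  have h4 : p.M j * (p.N ^ 2 * p.ee j) ≤ 1 := by
    refine le_trans ?_ h2
    have a : (1 : ℝ) ≤ 8 ^ p.N := one_le_pow₀ (by norm_num)
    have b : (p.N : ℝ) ^ 2 ≤ (p.N + 1) ^ 2 := by gcongr; linarith
    have c : p.M j ≤ p.M j ^ 2 := by nlinarith
    have d : 1 ≤ 8 * p.C * p.CZ := by nlinarith
    calc p.M j * (p.N ^ 2 * p.ee j) = 1 * (p.N : ℝ) ^ 2 * 1 * p.M j * p.ee j := by ring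
      _ ≤ _ := by gcongr
  have h5 : 0 ≤ (p.N : ℝ) ^ 2 * p.ee j := by positivity
  calc p.CN m i * p.ec (m + 1) i = p.CN m i * (p.N ^ 2 * p.ee j) := rfl
    _ ≤ p.M j * p.ω m i * (p.N ^ 2 * p.ee j) := by gcongr
    _ = p.ω m i * (p.M j * (p.N ^ 2 * p.ee j)) := by ring
    _ ≤ p.ω m i * 1 := by gcongr
    _ = _ := mul_one _

theorem zs_nn {nb : ℕ} (d : Wd nb) (J : Mx n) (σ : Cube n) (y : V n) : 0 ≤ d.zs J σ y := by
  unfold Wd.zs Md.Zs; positivity

theorem rs_nn {nb : ℕ} (d : Wd nb) (J : Mx n) (Θ : Cube n → ℝ) (σ : Cube n) (y : V n) :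
    0 ≤ d.rs J Θ σ y := by
  unfold Wd.rs Md.Rsp; positivity

theorem zs_le {N : ℕ} {W : ℕ → ℕ → Wn} (hW : ∀ m i, 0 ≤ (W m i).cz) (J : Mx n) (m : ℕ) {i : ℕ}
    (hi : i ≤ 2 ^ N) (σ : Cube n) (y : V n) :
    (W m i).cz * (W m i).d.zs J σ y ≤ zn N W J m σ y := by
  simp only [zn, Finset.sum_apply, Pi.smul_apply, smul_eq_mul]
  exact single_le_sum (f := fun i => (W m i).cz * (W m i).d.zs J σ y)
    (fun i _ => mul_nonneg (hW m i) (zs_nn _ _ _ _)) (mem_range.2 (by omega))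

theorem sub_nx (p : Par) {m i0 i : ℕ} (hm : m < p.N) (h : p.Nx m i0 i) : Sub p.N m i0 m i := by
  have h2 : 2 ^ (p.N - m) = 2 * 2 ^ (p.N - (m + 1)) := by
    rw [← pow_succ']; congr 1; omega
  refine ⟨le_rfl, hm, ?_, ?_⟩ <;> rcases h with h | h <;> omega

end Mok75

open Mok75 in
theorem mokGlue : MokGlue := by
  intro hL hCr n p z J W G m i y0 pv a0 al q k nh v h d CM R θ ε e η η' hn hp hJ m1 mN hval hW hWm
    hCM hpM hpN hBas hθ hlin hmod hmag hM D s i0 F hD hDJ hDP hNx hCl hPV hSz hy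
  obtain ⟨T, hT1, hT2⟩ := hmod
  obtain ⟨hpr, -, -, -, -, c1, c2, -, -, c3, -⟩ := hCr n D s hD
  have hw : Wt (nu D s) := hpr.hv
  have hn' : (0 : ℝ) < n := by exact_mod_cast hn
  have hC1 := hp.C11
  have hω := hp.ω0 m i
  set A : ℝ := 2 * p.C1 + 6 with hA
  have A1 : 1 ≤ A := by linarith
  have hec : CM * A ^ 2 * p.ec (m + 1) i ≤ p.ω m i / 2 := by
    have a := ec_le p hp i mN
    have b : 0 ≤ p.ec (m + 1) i := mul_nonneg (sq_nonneg _) (hp.e0 _).le
    nlinarith [mul_le_mul_of_nonneg_right hpN b]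
  have b0 : Bas J p.K0 p.κ0 y0 := hBas y0 (by simpa using (sq_nonneg _).trans hy)
  have key := fun κ => hM D s (z.t m) _ A κ hD hDJ hDP b0 (hBas _ hy) hCl hSz hy hθ A1 hec
  set mz := mean (nu D s) fun σ => d.zs J σ s.y with hmz
  set mr := mean (nu D s) fun σ => d.rs J s.Th σ s.y with hmr
  have mz0 : 0 ≤ mz := hw.mean_nonneg fun σ => zs_nn _ _ _ _
  have mr0 : 0 ≤ mr := hw.mean_nonneg fun σ => rs_nn _ _ _ _ _
  have dd : 0 ≤ del s ⬝ᵥ del s := by rw [← nrm_sq]; positivity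
  have bb : 0 ≤ Bb D s y0 := by unfold Bb S1.Bd; positivity
  set Z := CM * A ^ 2 * (del s ⬝ᵥ del s) + CM * R ^ 2 * (mz + mr) + p.ω m i / 2 * (Bb D s y0 + 1) +
    CM * A ^ 2 * Ex D s with hZ
  have Z0 : 0 ≤ Z := by positivity
  -- the modes
  have h1 : ∑ a ∈ range k, (v a ⬝ᵥ (q * (a0 * Del D s - J *ᵥ Del D s))) ^ 2 ≤ Z := by
    refine hL n (Fin nh) J a0 q (Del D s) k v h T p.C1 R Z hn hJ.1 hJ.2.2 (fun j => ?_) hlin.on hT1
      hT2 Z0 fun κ hκ hκ' => ?_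
    · obtain ⟨p0, p1⟩ := hlin.hp j
      obtain ⟨q0, q1⟩ := hlin.hq j
      have q2 : 0 ≤ q j := le_trans (mul_nonneg hp.lq0.le p0.le) q0
      rw [abs_mul, abs_of_nonneg q2]
      exact ⟨by nlinarith [(hlin.ha j).1, abs_nonneg (a0 j)], by linarith⟩
    · have := key (Fin.cons 0 κ) (by simpa [Fin.sum_univ_succ] using hκ)
        (by simpa [Fin.sum_univ_succ] using hκ')
      simpa [Fin.sum_univ_succ] using this
  -- the magnetisation
  set μ := mag (ising J y0) with hμ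
  have h2 : (μ ⬝ᵥ Del D s) ^ 2 / (μ ⬝ᵥ μ) ≤ Z := by
    have μ0 : 0 < μ ⬝ᵥ μ := by
      rcases (show 0 ≤ μ ⬝ᵥ μ by rw [← nrm_sq]; positivity).eq_or_lt with h0 | h0
      · rw [← h0] at hmag; linarith
      · exact h0
    have μ1 : 0 < nrm μ := sqrt_pos.2 μ0
    have e1 : (√n / nrm μ) ^ 2 = n / (μ ⬝ᵥ μ) := by rw [div_pow, sq_sqrt hn'.le, nrm_sq]
    have e2 : ∑ b : Fin (nh + 1), (Fin.cons (√n / nrm μ) 0 : Fin (nh + 1) → ℝ) b •
        (Fin.cons μ fun b => a0 * (q * h b) - J *ᵥ (q * h b) : Fin (nh + 1) → V n) b =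
        (√n / nrm μ) • μ := by simp [Fin.sum_univ_succ]
    have := key (Fin.cons (√n / nrm μ) 0)
      (by
        have : ∑ b : Fin (nh + 1), (Fin.cons (√n / nrm μ) 0 : Fin (nh + 1) → ℝ) b ^ 2 =
          (√n / nrm μ) ^ 2 := by simp [Fin.sum_univ_succ]
        rw [this, e1, div_le_iff₀ μ0]; exact hmag)
      (by
        rw [e2, nrm_smul, abs_of_nonneg (by positivity), div_mul_cancel₀ _ μ1.ne']
        exact le_mul_of_one_le_left (sqrt_nonneg _) A1)
    rw [e2, smul_dotProduct, smul_eq_mul, mul_pow, e1] at this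
    refine le_trans (le_of_eq ?_) this
    field_simp
  -- the oracle
  have hi : i ≤ 2 ^ p.N := le_trans (Nat.le_add_right _ _) hval
  have h3 : 2 * CM * R ^ 2 * mz ≤ mean (nu D s) fun σ => (orc p.N W G J).zn m σ s.y := by
    rw [hmz, ← SL.mean_const_mul]
    refine hw.mean_mono fun σ => ?_
    have := zs_le hW J m hi σ s.y
    rw [hWm] at this
    exact this
  have h4 : 2 * CM * R ^ 2 * mr ≤ mean (nu D s) fun σ => F m σ s.y := by
    rw [hmr, ← SL.mean_const_mul]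
    refine hw.mean_mono fun σ => ?_
    have a := hPV m i (sub_nx p mN hNx) σ s.y
    rw [hWm] at a
    have m0 : (0 : ℝ) < m := by exact_mod_cast m1
    have mN' : (m : ℝ) ≤ p.N := by exact_mod_cast mN.le
    have b : 0 ≤ 2 * CM * R ^ 2 * d.rs J s.Th σ s.y := mul_nonneg (by positivity) (rs_nn _ _ _ _ _)
    exact le_of_mul_le_mul_left ((mul_le_mul_of_nonneg_right mN' b).trans a) m0
  have h5 := mul_le_mul_of_nonneg_right hpM dd
  have h6 := mul_le_mul_of_nonneg_right hpN c3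
  unfold S1.Mod
  rw [← hμ]
  linarith

end Crest.Agent.T157.Kz

end
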