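import Crest.Agent.T157.KDefB_19

/-!
# Row 157, part B (helper38): PredOK for a tilt, `Kz.tokGlue38` (`rho`, `rho_xf`, `rho_pv`: text of helper71)
-/

set_option autoImplicit false

noncomputable section

namespace Crest.Agent.T157.Kz

open MeasureTheory Real Matrix Finset Filter
open Crest.Agent.T157.E Crest.Agent.T157.Eig Crest.Agent.T157.K Crest.Agent.T157.S1
open Crest.Agent.T157.SL
open Crest.Agent.T157.Tap (V Mx)
open Crest.Agent.T157.Rec (grad)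
open Crest.Agent.T157.S3 (Rg Exc TS)
open Crest.Agent.T157.Md (Rsp gb)

namespace Tk38

variable {n : ℕ}

/-- the responses of the acts below the window `(m + 1, i)` to the tilt `φ` -/
def rho (N : ℕ) (W : ℕ → ℕ → Wn) (J : Mx n) (m i : ℕ) (φ : Cube n → ℝ) (m' : ℕ) : Fy n :=
  fun σ y => N * ∑ i' ∈ range (2 ^ N + 1),
    if Sub N (m + 1) i m' i' then (W m' i').cz * (W m' i').d.rs J φ σ y else 0

lemma cont {e : ℝ} {u : Cube n → V n → V n} (h : RF e u) (s : Cube n) : Continuous (u s) := by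
  refine continuous_iff_continuousAt.2 fun y => tendsto_iff_norm_sub_tendsto_zero.2 ?_
  have h1 : Continuous fun y' => e * nrm (y' - y) :=
    continuous_const.mul (continuous_nrm.comp (continuous_id.sub continuous_const))
  refine squeeze_zero (fun _ => norm_nonneg _) (fun y' => ?_) (by simpa using h1.tendsto y)
  refine le_trans ((pi_norm_le_iff_of_nonneg (nrm_nonneg _)).2 fun i => ?_) (h.lip s y' y)
  exact abs_apply_le_nrm _ i

lemma rsp_nn {ι : Type} [Fintype ι] (g : ι → U2 n) (φ : Cube n → ℝ) (σ : Cube n) (y : V n) :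
    0 ≤ Rsp g φ σ y := div_nonneg (sum_nonneg fun _ _ => sq_nonneg _) n.cast_nonneg

/-- one squared response -/
lemma xf_sq {e : ℝ} {g : U2 n} (h : RF e g) (a : Cube n → V n) :
    XF fun σ y => (a σ ⬝ᵥ g σ y) ^ 2 := by
  refine ⟨fun σ => ⟨((continuous_const.dotProduct (cont h σ)).pow 2).measurable,
    (∑ j, |a σ j| * e) ^ 2, 0, sq_nonneg _, le_rfl, fun y => ?_⟩, fun _ _ => sq_nonneg _⟩
  rw [zero_mul, exp_zero, mul_one, abs_pow]
  refine pow_le_pow_left₀ (abs_nonneg _) ((abs_sum_le_sum_abs _ _).trans (sum_le_sum fun j _ => ?_)) 2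
  rw [abs_mul]
  exact mul_le_mul_of_nonneg_left ((h.r0 y).sup σ j) (abs_nonneg _)

lemma xf_smul (hM : MtStmt) {F : Fy n} (h : XF F) {c : ℝ} (hc : 0 ≤ c) :
    XF fun σ y => c * F σ y := ((hM n).2.2.2.2.2.1 F F c h h hc).2

lemma xf_sum (hM : MtStmt) {ι : Type} (t : Finset ι) {F : ι → Fy n} (h : ∀ b ∈ t, XF (F b)) :
    XF fun σ y => ∑ b ∈ t, F b σ y := by
  classical
  induction t using Finset.induction_on with
  | empty => exact (hM n).2.2.2.2.2.2.1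
  | insert b t hb ih =>
    simp only [sum_insert hb]
    exact ((hM n).2.2.2.2.2.1 _ _ 0 (h b (mem_insert_self _ _))
      (ih fun c hc => h c (mem_insert_of_mem hc)) le_rfl).1

lemma xf_rsp (hM : MtStmt) {ι : Type} [Fintype ι] {g : ι → U2 n} {e : ℝ} (h : ∀ b, RF e (g b))
    (φ : Cube n → ℝ) : XF (Rsp g φ) := by
  have := xf_smul hM (xf_sum hM univ fun b _ => xf_sq (h b) (grad φ)) (inv_nonneg.2 n.cast_nonneg)
  convert this using 3 with σ y
  rw [Rsp, div_eq_inv_mul]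

section
variable {N m i : ℕ} {W : ℕ → ℕ → Wn} {J : Mx n}

theorem rho_xf (hM : MtStmt) (hz : ∀ m' i', 0 ≤ (W m' i').cz)
    (hg : ∀ m' i', Sub N (m + 1) i m' i' → ∀ b, RF (W m' i').e ((W m' i').d.g b n J))
    (φ : Cube n → ℝ) (m' : ℕ) : XF (rho N W J m i φ m') := by
  refine xf_smul hM (xf_sum hM _ fun i' _ => ?_) N.cast_nonneg
  by_cases h : Sub N (m + 1) i m' i'
  · simp only [if_pos h]
    exact xf_smul hM (xf_rsp hM (hg m' i' h) φ) (hz m' i')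
  · simp only [if_neg h]
    exact (hM n).2.2.2.2.2.2.1

lemma rsp_add {ι : Type} [Fintype ι] (g : ι → U2 n) (Θ φ : Cube n → ℝ) (σ : Cube n) (y : V n)
    (c : ℝ) : c * Rsp g (Θ + φ) σ y ≤ (c + 1) * Rsp g Θ σ y + c * (c + 1) * Rsp g φ σ y := by
  simp only [Rsp, ← mul_div_assoc, ← add_div, mul_sum, ← sum_add_distrib]
  refine div_le_div_of_nonneg_right (sum_le_sum fun b _ => ?_) n.cast_nonneg
  rw [show grad (Θ + φ) σ = grad Θ σ + grad φ σ from Rec.grad_add Θ φ σ, add_dotProduct]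
  nlinarith [sq_nonneg (grad Θ σ ⬝ᵥ g b σ y - c * (grad φ σ ⬝ᵥ g b σ y))]

theorem rho_pv {p : Par} (G : ℕ → Set (V n)) (h1 : 1 ≤ m) (hm : m < p.N) (hv : p.Val (m + 1) i)
    (hz : ∀ m' i', 0 ≤ (W m' i').cz) (φ : Cube n → ℝ) (L' : ℝ) :
    ∀ i0 Th L F, p.Nx m i0 i → (orc p.N W G J).PV m i0 Th L F →
      (orc p.N W G J).PV (m + 1) i (Th + φ) (L + L') (F + rho p.N W J m i φ) := by
  intro i0 Th L F hx h m' i' hs σ y
  have e2 : 2 ^ (p.N - m) = 2 * 2 ^ (p.N - (m + 1)) := by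
    rw [← pow_succ', show p.N - (m + 1) + 1 = p.N - m by omega]
  have hs0 : Sub p.N m i0 m' i' := by
    obtain ⟨a1, a2, a3, a4⟩ := hs
    refine ⟨by omega, a2, ?_, ?_⟩ <;> rcases hx with hx | hx <;> omega
  have hi : i' ∈ range (2 ^ p.N + 1) := by
    have a4 := hs.2.2.2
    have : i + 2 ^ (p.N - (m + 1)) ≤ 2 ^ p.N := hv
    exact mem_range.2 (Nat.lt_succ_of_le (((Nat.le_add_right _ _).trans a4).trans this))
  have k1 := h m' i' hs0 σ y
  have k2 : (W m' i').cz * (W m' i').d.rs J φ σ y ≤ ∑ i' ∈ range (2 ^ p.N + 1),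
      if Sub p.N (m + 1) i m' i' then (W m' i').cz * (W m' i').d.rs J φ σ y else 0 := by
    refine le_trans (le_of_eq (if_pos hs).symm) (single_le_sum (f := fun i' =>
      if Sub p.N (m + 1) i m' i' then (W m' i').cz * (W m' i').d.rs J φ σ y else 0)
      (fun j _ => ?_) hi)
    split_ifs
    exacts [mul_nonneg (hz _ _) (rsp_nn _ _ _ _), le_rfl]
  have k3 := mul_le_mul_of_nonneg_left (rsp_add (fun b => (W m' i').d.g b n J) Th φ σ y m)
    (mul_nonneg p.N.cast_nonneg (hz m' i') : (0 : ℝ) ≤ _)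
  have m0 : (0 : ℝ) < m := by exact_mod_cast h1
  have k4 := mul_le_mul_of_nonneg_left k1 (by positivity : (0 : ℝ) ≤ m + 1)
  have k5 := mul_le_mul_of_nonneg_left k2 (by positivity : (0 : ℝ) ≤ m * (m + 1) * p.N)
  refine le_of_mul_le_mul_left ?_ m0
  simp only [Wd.rs, Pi.add_apply, rho] at k4 k5 ⊢
  push_cast
  linarith

end

lemma ew_smul (hM : MtStmt) (F : Fy n) (t c : ℝ) (σ : Cube n) (y : V n) :
    Ew t (fun σ y => c * F σ y) σ y = c * Ew t F σ y :=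
  congrFun (congrFun ((hM n).2.2.2.2.1 F t c) σ) y

lemma ew_sum (hM : MtStmt) {ι : Type} (s : Finset ι) {F : ι → Fy n} (h : ∀ b ∈ s, XF (F b)) {t : ℝ}
    (ht : 0 ≤ t) (σ : Cube n) (y : V n) :
    Ew t (fun σ y => ∑ b ∈ s, F b σ y) σ y = ∑ b ∈ s, Ew t (F b) σ y := by
  classical
  induction s using Finset.induction_on with
  | empty => simp [Ew]
  | insert b s hb ih =>
    simp only [sum_insert hb]
    rw [← ih fun c hc => h c (mem_insert_of_mem hc)]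
    exact congrFun (congrFun ((hM n).2.2.2.1 _ _ t (h b (mem_insert_self _ _))
      (xf_sum hM s fun c hc => h c (mem_insert_of_mem hc)) ht) σ) y

lemma gb_sq {e : ℝ} {g : U2 n} (h : RF e g) (t : ℝ) (y : V n) (σ : Cube n) :
    nrm (gb g t y σ) ^ 2 ≤ e ^ 2 * n := by
  have a : ∀ j, |gb g t y σ j| ≤ e := fun j => by
    have := norm_integral_le_of_norm_le_const (μ := Gs (Fin n))
      (f := fun x => g σ (y + t • sv σ + √t • x) j) (C := e)
      (.of_forall fun x => (h.r0 _).sup σ j)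
    simpa [gb, Ew] using this
  rw [nrm_sq, dotProduct]
  refine (sum_le_card_nsmul _ _ (e ^ 2) fun j _ => ?_).trans_eq (by simp [mul_comm])
  rw [← sq, ← sq_abs]
  exact pow_le_pow_left₀ (abs_nonneg _) (a j) 2

lemma sq_mean {v f : Cube n → ℝ} (hv : Wt v) : mean v f ^ 2 ≤ mean v fun x => f x ^ 2 := by
  have := hv.mean_nonneg (f := fun x => f x ^ 2 + (-2 * mean v f * f x + mean v f ^ 2))
    fun x => by nlinarith [sq_nonneg (f x - mean v f)]
  rw [mean_add, mean_add, mean_const_mul, hv.mean_const] at this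
  linarith

lemma mean_dot (μ : Cube n → ℝ) (w : V n) (T : Cube n → Mx n) (a : Cube n → V n) :
    (mean μ fun σ => ((T σ)ᵀ *ᵥ w) ⬝ᵥ a σ) = w ⬝ᵥ meanV μ fun σ => T σ *ᵥ a σ := by
  have e : ∀ σ, ((T σ)ᵀ *ᵥ w) ⬝ᵥ a σ = ∑ j, w j * (T σ *ᵥ a σ) j := fun σ => by
    rw [mulVec_transpose, ← dotProduct_mulVec]; rfl
  simp only [e, mean_sum, mean_const_mul]
  rfl

/-- the mean response at the base point -/
lemma base {J : Mx n} {y0 w f : V n} {T : Cube n → Mx n} {g : U2 n} {φ : Cube n → ℝ}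
    {e t ei u B : ℝ} (hg : RF e g) (e0 : 0 ≤ ei) (e1 : ei ≤ 1) (hw : nrm w ≤ u)
    (hf : nrm (ub J y0 T g t - f) ≤ ei * √n) (ho : (w ⬝ᵥ f) ^ 2 ≤ ei * n * u ^ 2)
    (hl : Exc (ising J y0) ei B fun σ => nrm (grad φ σ - (T σ)ᵀ *ᵥ w)) :
    (mean (ising J y0) fun σ => grad φ σ ⬝ᵥ gb g t y0 σ) ^ 2 ≤
      3 * (n * (2 * ei * u ^ 2 + e ^ 2 * B)) := by
  obtain ⟨G, g1, -, -, g4⟩ := hl
  have hμ : Wt (ising J y0) := .of_pos fun _ => exp_pos _
  have n0 : (0 : ℝ) ≤ n := n.cast_nonneg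
  have eq : (mean (ising J y0) fun σ => grad φ σ ⬝ᵥ gb g t y0 σ) = w ⬝ᵥ f + w ⬝ᵥ (ub J y0 T g t - f) +
      mean (ising J y0) fun σ => (grad φ σ - (T σ)ᵀ *ᵥ w) ⬝ᵥ gb g t y0 σ := by
    rw [← dotProduct_add, add_sub_cancel, ub, ← mean_dot, ← mean_add]
    congr 1; funext σ; rw [← add_dotProduct, add_sub_cancel]
  have h2 : (w ⬝ᵥ (ub J y0 T g t - f)) ^ 2 ≤ ei * n * u ^ 2 := by
    have a := pow_le_pow_left₀ (abs_nonneg _) ((abs_dot_le w _).trans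
      (mul_le_mul hw hf (nrm_nonneg _) ((nrm_nonneg _).trans hw))) 2
    rw [sq_abs, mul_pow, mul_pow, sq_sqrt n0] at a
    have b : 0 ≤ (1 - ei) * (ei * n * u ^ 2) := mul_nonneg (by linarith) (by positivity)
    linarith
  have h3 : (mean (ising J y0) fun σ => (grad φ σ - (T σ)ᵀ *ᵥ w) ⬝ᵥ gb g t y0 σ) ^ 2 ≤
      e ^ 2 * n * B := by
    refine (sq_mean hμ).trans (le_trans (hμ.mean_mono (g := fun σ => e ^ 2 * n * G σ ^ 2) fun σ => ?_) ?_)
    · have a := pow_le_pow_left₀ (abs_nonneg _) (abs_dot_le (grad φ σ - (T σ)ᵀ *ᵥ w) (gb g t y0 σ)) 2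
      rw [sq_abs, mul_pow, mul_comm] at a
      exact a.trans (mul_le_mul (gb_sq hg t y0 σ) (pow_le_pow_left₀ (nrm_nonneg _) (g1 σ) 2)
        (sq_nonneg _) (by positivity))
    · rw [mean_const_mul]; exact mul_le_mul_of_nonneg_left g4 (by positivity)
  rw [eq]
  generalize w ⬝ᵥ f = a at *
  generalize w ⬝ᵥ (ub J y0 T g t - _) = b at *
  generalize (mean (ising J y0) fun σ => (grad φ σ - (T σ)ᵀ *ᵥ w) ⬝ᵥ gb g t y0 σ) = c at *
  nlinarith [sq_nonneg (a - b), sq_nonneg (a - c), sq_nonneg (b - c)]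

/-- the arithmetic of one response -/
lemma ar1 {x m C n ei u K k d e L Y : ℝ} (hC : 0 ≤ C) (hn : 0 < n) (e0 : 0 ≤ ei) (K0 : 0 ≤ K)
    (k0 : 0 ≤ k) (d0 : 0 ≤ d) (hL : L ^ 2 ≤ Y * n) (Y0 : 0 ≤ Y)
    (hm : m ≤ 3 * (n * (2 * ei * u ^ 2 + e ^ 2 * (ei * (u ^ 2 + K)))))
    (hx : x ≤ C * (m + e ^ 2 * n * (ei * (u ^ 2 + K) + ei * (k + 1)) + e ^ 2 * L ^ 2 * (k + 1 + d))) :
    n⁻¹ * x ≤ (e ^ 2 + 1) * (C * (6 * ei * (u ^ 2 + k + 1) + 4 * ei * K + Y * (k + 1 + d))) := by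
  rw [inv_mul_le_iff₀ hn]
  refine hx.trans ?_
  have a1 : e ^ 2 * L ^ 2 * (k + 1 + d) ≤ e ^ 2 * (Y * n) * (k + 1 + d) := by gcongr
  have a2 : 0 ≤ n * (e ^ 2 * ei * (2 * u ^ 2 + 5 * (k + 1)) + 6 * ei * (k + 1) + 4 * ei * K +
      Y * (k + 1 + d)) := by positivity
  calc _ ≤ C * (n * ((e ^ 2 + 1) * (6 * ei * (u ^ 2 + k + 1) + 4 * ei * K + Y * (k + 1 + d)))) :=
        mul_le_mul_of_nonneg_left (by linarith) hC
    _ = _ := by ring

/-- summation over the acts of one level -/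
lemma rho_le (hM : MtStmt) {N m i m' : ℕ} {W : ℕ → ℕ → Wn} {J : Mx n} {φ v : Cube n → ℝ} {y : V n}
    {t Z : ℝ} (ht : 0 ≤ t) (Z0 : 0 ≤ Z) (hz : ∀ m' i', 0 ≤ (W m' i').cz)
    (hg : ∀ i', Sub N (m + 1) i m' i' → ∀ b, RF (W m' i').e ((W m' i').d.g b n J) ∧
      (n : ℝ)⁻¹ * (mean v fun σ => Ew t (fun σ y => (grad φ σ ⬝ᵥ (W m' i').d.g b n J σ y) ^ 2) σ y) ≤
        ((W m' i').e ^ 2 + 1) * Z) :
    (mean v fun σ => Ew t (rho N W J m i φ m') σ y) ≤ N * XS N W (m + 1) i * Z := by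
  have w0 : ∀ a b, 0 ≤ if Sub N (m + 1) i a b then (W a b).wt else 0 := fun a b => by
    have := hz a b
    split_ifs
    exacts [by unfold Wn.wt; positivity, le_rfl]
  have hx : ∀ i' ∈ range (2 ^ N + 1), XF fun σ y =>
      if Sub N (m + 1) i m' i' then (W m' i').cz * (W m' i').d.rs J φ σ y else 0 := fun i' _ => by
    by_cases h : Sub N (m + 1) i m' i'
    · simp only [if_pos h]
      exact xf_smul hM (xf_rsp hM (fun b => (hg i' h b).1) φ) (hz m' i')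
    · simp only [if_neg h]
      exact (hM n).2.2.2.2.2.2.1
  have h1 : ∑ i' ∈ range (2 ^ N + 1), (if Sub N (m + 1) i m' i' then (W m' i').wt else 0) ≤
      XS N W (m + 1) i := by
    by_cases hm : m' < N
    · exact single_le_sum (f := fun a => ∑ i' ∈ range (2 ^ N + 1),
        if Sub N (m + 1) i a i' then (W a i').wt else 0)
        (fun a _ => sum_nonneg fun b _ => w0 a b) (mem_range.2 hm)
    · rw [sum_eq_zero fun b _ => if_neg fun h => hm h.2.1]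
      exact sum_nonneg fun a _ => sum_nonneg fun b _ => w0 a b
  unfold rho
  simp only [ew_smul hM, ew_sum hM _ hx ht, mean_const_mul, mean_sum]
  rw [mul_assoc]
  refine mul_le_mul_of_nonneg_left (le_trans ?_ (mul_le_mul_of_nonneg_right h1 Z0)) N.cast_nonneg
  rw [sum_mul]
  refine sum_le_sum fun i' _ => ?_
  by_cases h : Sub N (m + 1) i m' i'
  · have e : (W m' i').d.rs J φ = fun σ y =>
        (n : ℝ)⁻¹ * ∑ b, (grad φ σ ⬝ᵥ (W m' i').d.g b n J σ y) ^ 2 := by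
      funext σ y; rw [Wd.rs, Rsp, div_eq_inv_mul]
    simp only [if_pos h, e, ew_smul hM, mean_const_mul, mean_sum,
      ew_sum hM univ (fun b _ => xf_sq (hg i' h b).1 (grad φ)) ht]
    rw [Wn.wt, mul_assoc, mul_assoc, mul_sum]
    refine mul_le_mul_of_nonneg_left ?_ (hz m' i')
    exact (sum_le_card_nsmul _ _ _ fun b _ => (hg i' h b).2).trans_eq (by simp)
  · simp [if_neg h, Ew, mean]

lemma ar2 {C X ei e1 u K k d Y : ℝ} (e0 : 0 ≤ e1) (e11 : e1 ≤ 1) (K0 : 0 ≤ K)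
    (k0 : 0 ≤ k) (d0 : 0 ≤ d) (h1 : 12 * C * X * ei ≤ e1) (h2 : 12 * C * X * Y ≤ e1) :
    X * (C * (6 * ei * (u ^ 2 + k + 1) + 4 * ei * K + Y * (k + 1 + d))) ≤
      e1 * (u ^ 2 + k + d + 1) + K := by
  have a1 := mul_le_mul_of_nonneg_right h1 (by positivity : 0 ≤ u ^ 2 + k + 1)
  have a2 := mul_le_mul_of_nonneg_right (h1.trans e11) K0
  have a3 := mul_le_mul_of_nonneg_right h2 (by positivity : 0 ≤ k + 1 + d)
  have a4 : 0 ≤ e1 * u ^ 2 := by positivity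
  have a5 := mul_nonneg e0 k0
  have a6 := mul_nonneg e0 d0
  linarith

lemma ee_le {p : Par} (ok : p.Ok) (j : ℕ) : p.ee j ≤ 1 := by
  have h0 := (ok.e0 j).le
  have h1 := ok.M1 j
  have h2 := ok.C1'
  have h3 : 1 ≤ p.CZ := by nlinarith [ok.CZ1, ok.lq0, ok.lq1]
  have h4 : (1 : ℝ) ≤ 8 ^ p.N := one_le_pow₀ (by norm_num)
  have h5 : (1 : ℝ) ≤ p.N + 1 := by linarith [p.N.cast_nonneg (α := ℝ)]
  refine le_trans ?_ (ok.le j)
  calc p.ee j = 1 * 1 * 1 * 1 ^ 2 * 1 * 1 ^ 2 * p.ee j := by ring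
    _ ≤ _ := by gcongr; norm_num

end Tk38

open Tk38

theorem tokGlue38 : TokGlue := by
  intro hP hM K0 κ0 S hκ
  obtain ⟨C, C1, hC⟩ := hP K0 κ0 S hκ
  refine ⟨12 * C, by linarith, fun n p z J W G m i y0 pA al q w u ei T ι f φ hn ok K1 hS h1 hm hv
    hb e0 e1 hz hg a1 a2 tk => ?_⟩
  obtain ⟨W0, Ω0, G0, an⟩ := tk.ans
  obtain ⟨Ω, rg, G1, g1, -, g3, g4⟩ := tk.reg
  refine ⟨⟨φ, W0, Ω0, G0, rho p.N W J m i φ⟩, ⟨an, tk.u0, tk.ut,
    rho_xf hM hz (fun a b h c => (hg a b h c).1) φ, fun v y m' wv _ _ l1 l2 => ?_,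
    rho_pv G h1 hm hv hz φ _⟩, rfl⟩
  have n0 : (0 : ℝ) < n := by exact_mod_cast hn
  have hμ : Wt (ising J y0) := .of_pos fun _ => exp_pos _
  have k0 : 0 ≤ kl v (ising J y0) :=
    Ent.kl_nonneg wv.isP hμ.isP (Ent.AC.of_pos _ fun x => div_pos (exp_pos _) hμ.pos)
  have l3 : (m : ℝ) ≤ m' := by exact_mod_cast l1.le
  have l4 : (m' : ℝ) ≤ p.N := by exact_mod_cast l2
  have t0 : 0 ≤ ((m' : ℝ) - m) * p.τ := mul_nonneg (by linarith) ok.τ0.le
  have t1 : ((m' : ℝ) - m) * p.τ ≤ S :=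
    (mul_le_mul_of_nonneg_right (by linarith [m.cast_nonneg (α := ℝ)]) ok.τ0.le).trans hS
  have t2 : 0 ≤ p.CN m i ^ 2 * z.t' m / n :=
    div_nonneg (mul_nonneg (sq_nonneg _) ((sq_nonneg _).trans tk.ut)) n0.le
  have t3 : (p.CN m i * u) ^ 2 ≤ p.CN m i ^ 2 * z.t' m / n * n := by
    rw [div_mul_cancel₀ _ n0.ne', mul_pow]; exact mul_le_mul_of_nonneg_left tk.ut (sq_nonneg _)
  have K0' : 0 ≤ z.K := by linarith
  have C0 : 0 ≤ C := by linarith
  refine (rho_le hM t0 (Z := C * (6 * ei * (u ^ 2 + kl v (ising J y0) + 1) + 4 * ei * z.K +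
    p.CN m i ^ 2 * z.t' m / n * (kl v (ising J y0) + 1 + nrm (y - y0) ^ 2))) (by positivity) hz
    fun i' hs b => ⟨(hg m' i' hs b).1, ?_⟩).trans
    (ar2 (ok.e0 _).le (ee_le ok _) K0' k0 (sq_nonneg _) (by simpa only [mul_assoc] using a1) ?_)
  · obtain ⟨r, j, hj⟩ := hg m' i' hs b
    exact ar1 C0 n0 e0 K0' k0 (sq_nonneg _) t3 t2 (base r e0 e1 tk.wu hj (tk.ort j) tk.lk)
      (hC n J y0 y _ _ _ ei _ _ φ G1 v Ω hb r t0 t1 an.gr rg g1 g3 g4 e1 wv)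
  · rw [← mul_div_assoc, div_le_iff₀ n0]
    simpa only [mul_assoc] using a2

end Crest.Agent.T157.Kz

end
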