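import Crest.Agent.T157.KzAll_42
import Crest.Agent.T157.KMdAll_93
import Crest.Agent.T157.KzMag_25
import Crest.Agent.T157.KzTok_38
import Crest.Agent.T157.KzMok_75
import Crest.Agent.T157.KzRec_42

/-!
# Row 157, part B (helper42): the collective supply, unconditional
-/

namespace Crest.Agent.T157.Kz

theorem zSup : ZSup := zSup_of Md.modStmt magStmt25 tokGlue38 mokGlue recStmt42

end Crest.Agent.T157.Kz
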