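import Crest.Agent.T157.S1Par_97

/-!
# Row 157, block B/S1 (helper6): the branch B
-/

set_option autoImplicit false

noncomputable section

namespace Crest.Agent.T157.S1

open Real Matrix Finset
open Crest.Agent.T157.E Crest.Agent.T157.SL
open Crest.Agent.T157.Eig (nrm opn nrm_sq nrm_nonneg)
open Crest.Agent.T157.S3 (V Mx)

namespace BrB6

variable {n : ℕ}

lemma zv_sq {J : Mx n} {pv a0 Δ : V n} {C1 : ℝ} (h1 : 1 ≤ C1) (hp : ∀ j, 0 < pv j ∧ pv j ≤ 1)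
    (ha : ∀ j, pv j * |a0 j| ≤ C1) (j : Fin n) :
    zv J pv a0 Δ j ^ 2 ≤ 2 * C1 ^ 2 * (Δ j ^ 2 + (J *ᵥ Δ) j ^ 2) := by
  have a : (pv j * a0 j) ^ 2 ≤ C1 ^ 2 := sq_le_sq' (by
    nlinarith [neg_abs_le (a0 j), ha j, (hp j).1]) (by nlinarith [le_abs_self (a0 j), ha j, (hp j).1])
  have b : pv j ^ 2 ≤ C1 ^ 2 := pow_le_pow_left₀ (hp j).1.le ((hp j).2.trans h1) 2
  have c := mul_le_mul_of_nonneg_right a (sq_nonneg (Δ j))
  have d := mul_le_mul_of_nonneg_right b (sq_nonneg ((J *ᵥ Δ) j))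
  simp only [zv, Pi.mul_apply, Pi.sub_apply]
  nlinarith [sq_nonneg (pv j * a0 j * Δ j + pv j * (J *ᵥ Δ) j)]

lemma sum_le {J : Mx n} (hJ : opn J ≤ 3) (Δ : V n) (B : Finset (Fin n)) :
    ∑ j ∈ B, (Δ j ^ 2 + (J *ᵥ Δ) j ^ 2) ≤ 10 * (Δ ⬝ᵥ Δ) := by
  have h := pow_le_pow_left₀ (nrm_nonneg _) ((Eig.nrm_mulVec_le J Δ).trans
    (mul_le_mul_of_nonneg_right hJ (nrm_nonneg _))) 2
  rw [mul_pow, nrm_sq, nrm_sq] at h
  refine (sum_le_univ_sum_of_nonneg fun j => by positivity).trans ?_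
  simp only [sum_add_distrib, dotProduct, ← sq] at h ⊢
  linarith

lemma e1_le {p : Par} (o : p.Ok) {m i0 i : ℕ} (hm : m < p.N) (h : p.Nx m i0 i) :
    p.e1 m i0 ≤ p.e1 (m + 1) i := o.ea (by
  have e2 : 2 ^ (p.N - m) = 2 * 2 ^ (p.N - (m + 1)) := by rw [← pow_succ']; congr 1; omega
  simp only [Par.bt, Par.Nx] at h ⊢
  omega)

lemma one_le_CZ {p : Par} (o : p.Ok) : 1 ≤ p.CZ := by
  nlinarith [o.CZ1, o.lq0, o.lq1, nonneg_of_mul_nonneg_left (zero_le_one.trans o.CZ1) o.lq0]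

end BrB6

open BrB6

set_option maxHeartbeats 1600000 in
theorem brBGlue : BrBGlue := by
  intro hC hL hF n X h m i0 i s F y0 m1 mN hV hN hU hI hn pv pA a0 al q Ad φ B p0 hp ha hA hB eB
  have o := h.ok
  obtain ⟨hp', -, -, -, -, y1, u1, u6, -, ex0, gb, -⟩ := hC n X.D s h.dok
  obtain ⟨g0, -, n1, n2, n3⟩ := hn
  have bas := h.es.bas m m1 mN.le y0 g0
  have e0 := (o.e0 (X.p.bt (m + 1) i)).le
  have m1' : (1 : ℝ) ≤ m := by exact_mod_cast m1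
  have mN' : (m : ℝ) ≤ X.p.N := by exact_mod_cast mN.le
  have cl1 : Cl (m * X.p.e1 (m + 1) i) (m ^ 2 * X.p.e1 (m + 1) i) s :=
    (hL n X.D s h.dok).1 _ _ _ _ hI.cl (by gcongr; exact e1_le o mN hN) (by gcongr; exact e1_le o mN hN)
  have cl2 : Cl (X.p.ec (m + 1) i) (X.p.ec (m + 1) i) s := (hL n X.D s h.dok).1 _ _ _ _ cl1
    (mul_le_mul_of_nonneg_right (by nlinarith) e0) (mul_le_mul_of_nonneg_right (by gcongr) e0)
  have b1 := (h.lf.b1 n X.D s y0 _ _ h.dok cl1 bas).2.1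
  have h1 := h.cap.h1 m mN.le i (le_trans (Nat.le_add_right _ _) hV)
  obtain ⟨h4, h5⟩ := h.cap.h4 m mN
  have d0 : 0 ≤ del s ⬝ᵥ del s := dot_self_nonneg _
  have S0 : (0 : ℝ) ≤ #s.S := Nat.cast_nonneg _
  have B0 : (0 : ℝ) ≤ #B := Nat.cast_nonneg _
  have L0 := sq_nonneg s.L
  have Y0 := sq_nonneg (nrm (s.y - y0))
  have eb : Bb X.D s y0 = Hy X.D s + del s ⬝ᵥ del s + s.L ^ 2 + mean (nu X.D s) (U X.D s) + #s.S +
    nrm (s.y - y0) ^ 2 := rfl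
  have C1 := o.C11
  have C0 := o.C1'
  have CP := o.CP1
  have η0 := o.h0 i
  have γ0 := o.γ0 (m + 1) i
  have ω0 := o.ω0 m i
  have CZ := one_le_CZ o
  obtain ⟨Q, hQ⟩ : ∃ Q, Q = 4 * X.z.T m + lg n + 1 := ⟨_, rfl⟩
  rw [← hQ] at n1 n2 h1
  have Q0 : 0 ≤ Q := d0.trans n2
  have q1 : Q ≤ 40 * X.p.C * X.p.C1 ^ 2 * Q :=
    le_mul_of_one_le_left Q0 (by nlinarith [one_le_pow₀ C1 (n := 2)])
  have t0 : 0 ≤ X.z.t m := nonneg_of_mul_nonneg_right (Q0.trans (q1.trans h1)) (by positivity)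
  have q2 : Q ≤ X.z.t m :=
    q1.trans (h1.trans (mul_le_of_le_one_left t0 (pow_le_one₀ η0.le (o.h1 i))))
  set Z := ∑ j ∈ B, zv X.D.J pv a0 (Del X.D s) j ^ 2 with hZ
  set Y := ∑ j ∈ B, (Del X.D s j ^ 2 + (X.D.J *ᵥ Del X.D s) j ^ 2) with hY
  have z1 : Z ≤ 2 * X.p.C1 ^ 2 * Y := by
    rw [hY, mul_sum]; exact sum_le_sum fun j _ => zv_sq C1 hp ha j
  have z2 : X.p.η i ^ 2 * #B ≤ Z := by
    rw [mul_comm, ← nsmul_eq_mul]
    exact card_nsmul_le_sum _ _ _ fun j hj => by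
      rw [← sq_abs (zv _ _ _ _ j)]; exact pow_le_pow_left₀ η0.le ((eB j).1 hj).2 2
  have z0 : 0 ≤ Z := le_trans (by positivity) z2
  have Bt : (#B : ℝ) ≤ X.z.t m := by
    refine le_of_mul_le_mul_left (z2.trans (z1.trans (le_trans ?_ h1))) (by positivity)
    have := (sum_le h.dok.op (Del X.D s) B).trans (mul_le_mul_of_nonneg_left (b1.trans
      (mul_le_mul_of_nonneg_left (show _ ≤ 2 * Q by linarith) (by linarith))) (by norm_num))
    refine (mul_le_mul_of_nonneg_left this (by positivity)).trans_eq (by ring)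
  have lγ := o.lγ m i mN
  have γ1 : X.p.γ (m + 1) i ≤ X.p.CP * X.p.γ (m + 1) i := le_mul_of_one_le_left γ0.le CP
  have M0 := o.M1 (X.p.bt (m + 1) i)
  have g2 : 0 ≤ X.p.g2 (m + 1) i := by unfold Par.g2; positivity
  have g10 := o.g10
  have key := hB X.D s B (fun σ => 4 * X.p.g2 (m + 1) i * s.G σ ^ 2 +
      X.Fu (m + 1) m (X.Ft (m + 1) i F) σ s.y) (3 * X.p.γ (m + 1) i) (X.p.gg m) (X.z.T m) (X.z.T (m + 1))
    (X.R (m + 1) + 6 * X.p.C * 8 ^ X.p.N * X.p.M (2 ^ X.p.N) * X.z.K +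
      (3 / 2 * X.p.Λ + 9 / 2 * X.p.γ (m + 1) i) * (del s ⬝ᵥ del s) +
      6 * X.p.γ (m + 1) i * (s.L ^ 2 + (#s.S + #B) + nrm (s.y - y0) ^ 2))
    h.dok rfl h.hP h.hη h.hθ cl2 ⟨by linarith, by linarith, by linarith, by linarith⟩ (by linarith)
    (disjoint_left.2 fun j hj => ((eB j).1 hj).1) Bt
    (fun σ => add_nonneg (by positivity)
      (((hF n X h (m + 1) i F hI.xf).2.1 (m + 1) m m.le_succ).2 σ s.y))
    (by positivity) (by nlinarith [o.γ1 m i, mul_pos (zero_lt_one.trans_le CZ) ω0])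
    (by unfold Par.gg; positivity)
    (le_trans (by gcongr; exact log_nonneg (by linarith [(n.cast_nonneg : (0 : ℝ) ≤ n)])) h5)
    fun sg x' w u s' _ ad e => by
      obtain ⟨t, tk, e'⟩ := hA w u ad
      have cu : (#(s.S ∪ B) : ℝ) ≤ #s.S + #B := by exact_mod_cast card_union_le _ _
      have := hU (s.pin B sg x') s' F i0 y0 pA al q w u t hN bas p0 tk hI.pv hI.xf
        ⟨cl1.L0, cl1.gr, cl1.rg, cl1.ex, cl1.ts⟩ hI.hL (cu.trans (by linarith [hI.hS])) (n2.trans q2)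
        (show nrm (s.y - y0) ^ 2 ≤ _ by linarith) (e' ▸ e)
      have w1 := mul_le_mul_of_nonneg_right (o.lW m i mN) (sq_nonneg u)
      have w2 := mul_le_mul_of_nonneg_left cu γ0.le
      simp only [St.pin, del] at this ⊢
      linarith
  rw [mean_add, show (mean (nu X.D s) fun σ => 4 * X.p.g2 (m + 1) i * s.G σ ^ 2) =
    4 * X.p.g2 (m + 1) i * Ex X.D s from mean_const_mul _ _ _] at key
  have k1 : 16 * X.p.C1 * X.p.c1 * Z + (X.p.ω m i + 9 * X.p.γ (m + 1) i * X.p.CP) * #B ≤ X.p.c0 * Y := by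
    refine le_of_mul_le_mul_left ?_ (show 0 < 4 * X.p.C1 ^ 2 by positivity)
    have a1 := mul_le_mul_of_nonneg_right (o.lB m i mN) B0
    have a2 := mul_le_mul_of_nonneg_left z2 o.c00.le
    have a3 := mul_le_mul_of_nonneg_left z1 o.c00.le
    have a4 := mul_le_mul_of_nonneg_right o.c1B z0
    linarith
  have k2 : X.z.K ≤ X.p.C * 8 ^ X.p.N * X.p.M (2 ^ X.p.N) * X.z.K :=
    le_mul_of_one_le_left (zero_le_one.trans h.cap.K1)
      (one_le_mul_of_one_le_of_one_le (one_le_mul_of_one_le_of_one_le C0 (one_le_pow₀ (by norm_num))) (o.M1 _))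
  have k3 : X.p.CN m i * Ex X.D s ≤ X.p.M (i + 1) * Ex X.D s := mul_le_mul_of_nonneg_right
    ((le_mul_of_one_le_left (zero_le_one.trans (o.CN1 m i)) CZ).trans (o.lM m i mN).2.2.1) ex0
  have b0 : 0 ≤ Bb X.D s y0 := by linarith
  have k4 := mul_le_mul_of_nonneg_right γ1 b0
  have k5 := mul_le_mul_of_nonneg_right γ1 u6
  have k6 := mul_le_mul_of_nonneg_right γ1 B0
  have k7 := mul_le_mul_of_nonneg_left (show del s ⬝ᵥ del s + s.L ^ 2 + #s.S + nrm (s.y - y0) ^ 2 ≤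
    Bb X.D s y0 by linarith) γ0.le
  have k8 := mul_nonneg γ0.le d0
  have k9 := mul_nonneg γ0.le b0
  have k10 := mul_nonneg γ0.le u6
  have k11 := mul_nonneg ω0.le u6
  have K1 := h.cap.K1
  unfold Cx.Br
  linarith

end Crest.Agent.T157.S1
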