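import Crest.Agent.T157.S1Par_97

/-!
# Row 157, part B, block S1 (helper68): the branch T of the act
-/

set_option autoImplicit false

noncomputable section

namespace Crest.Agent.T157.S1

open MeasureTheory Real Matrix Finset Filter
open Crest.Agent.T157.E Crest.Agent.T157.SL
open Crest.Agent.T157.Eig (nrm opn)
open Crest.Agent.T157.S3 (V Mx)
open Crest.Agent.T157.Rv (Warm)

namespace B68

variable {n : ℕ}

lemma dot0 (u : V n) : 0 ≤ u ⬝ᵥ u := by rw [← Eig.nrm_sq]; positivity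

lemma lin (w f g : Cube n → ℝ) (c : ℝ) :
    (mean w fun x => c * f x + g x) = c * mean w f + mean w g := by
  simp only [mean, mul_add, sum_add_distrib, mul_sum]
  congr 1
  exact sum_congr rfl fun x _ => by ring

lemma mod0 (J : Mx n) (y0 a0 q : V n) (k : ℕ) (v : ℕ → V n) (Δ : V n) : 0 ≤ Mod J y0 a0 q k v Δ :=
  add_nonneg (sum_nonneg fun _ _ => sq_nonneg _) (div_nonneg (sq_nonneg _) (dot0 _))

/-- the threshold vector is at most `20 C1 ^ 2 |Δ| ^ 2` -/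
lemma zv_le {J : Mx n} {pv a0 : V n} {C1 : ℝ} (Δ : V n) (hJ : opn J ≤ 3) (hC : 1 ≤ C1)
    (hp : ∀ j, 0 < pv j ∧ pv j ≤ 1) (ha : ∀ j, pv j * |a0 j| ≤ C1) :
    ∑ j, zv J pv a0 Δ j ^ 2 ≤ 20 * C1 ^ 2 * (Δ ⬝ᵥ Δ) := by
  have h1 : ∀ j, zv J pv a0 Δ j ^ 2 ≤ 2 * C1 ^ 2 * (Δ j * Δ j) + 2 * ((J *ᵥ Δ) j * (J *ᵥ Δ) j) := by
    intro j
    have e : zv J pv a0 Δ j = pv j * a0 j * Δ j - pv j * (J *ᵥ Δ) j := by
      simp only [zv, Pi.mul_apply, Pi.sub_apply]; ring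
    have a1 : (pv j * a0 j) ^ 2 ≤ C1 ^ 2 := by
      rw [← sq_abs (pv j * a0 j), abs_mul, abs_of_pos (hp j).1]
      exact pow_le_pow_left₀ (mul_nonneg (hp j).1.le (abs_nonneg _)) (ha j) 2
    have a2 : pv j ^ 2 ≤ 1 := pow_le_one₀ (hp j).1.le (hp j).2
    have a3 := mul_le_mul_of_nonneg_right a1 (sq_nonneg (Δ j))
    have a4 := mul_le_mul_of_nonneg_right a2 (sq_nonneg ((J *ᵥ Δ) j))
    rw [e]
    nlinarith only [a3, a4, sq_nonneg (pv j * a0 j * Δ j + pv j * (J *ᵥ Δ) j)]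
  have h2 : (J *ᵥ Δ) ⬝ᵥ (J *ᵥ Δ) ≤ 9 * (Δ ⬝ᵥ Δ) := by
    have a := pow_le_pow_left₀ (Eig.nrm_nonneg _) ((Eig.nrm_mulVec_le J Δ).trans
      (mul_le_mul_of_nonneg_right hJ (Eig.nrm_nonneg _))) 2
    rw [mul_pow, Eig.nrm_sq, Eig.nrm_sq] at a
    linarith
  have h3 : ∑ j, zv J pv a0 Δ j ^ 2 ≤ 2 * C1 ^ 2 * (Δ ⬝ᵥ Δ) + 2 * ((J *ᵥ Δ) ⬝ᵥ (J *ᵥ Δ)) := by
    refine (sum_le_sum fun j _ => h1 j).trans (le_of_eq ?_)
    simp only [dotProduct, sum_add_distrib, mul_sum]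
  have h4 : 1 ≤ C1 ^ 2 := one_le_pow₀ hC
  have h5 := mul_le_mul_of_nonneg_right h4 (dot0 Δ)
  linarith

lemma bt_le (p : Par) {m i0 i : ℕ} (hm : m < p.N) (h : p.Nx m i0 i) : p.bt (m + 1) i ≤ p.bt m i0 := by
  have e : 2 ^ (p.N - m) = 2 * 2 ^ (p.N - (m + 1)) := by
    rw [show p.N - m = p.N - (m + 1) + 1 by omega, pow_succ]; ring
  unfold Par.bt
  rcases h with h | h <;> rw [h, e] <;> omega

lemma bt_ge (p : Par) (m i : ℕ) : i + 1 ≤ p.bt m i :=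
  Nat.add_le_add_left Nat.one_le_two_pow i

lemma cz1 {p : Par} (h : p.Ok) : 1 ≤ p.CZ := by
  have a := h.CZ1
  have b := h.lq0
  have c := h.lq1
  by_contra hc
  rw [not_le] at hc
  nlinarith only [a, b, c, hc]

lemma lb_mem {p : Par} (h : p.Ok) {m : ℕ} (hm : m ≤ p.N) : 1 / 2 ≤ p.lb m ∧ p.lb m ≤ 1 := by
  have k1 : (1 : ℝ) ≤ 1 + p.κ := by linarith [h.κ0']
  have a : (1 + p.κ) ^ (2 * m + 1) ≤ 2 := (pow_le_pow_right₀ k1 (by omega)).trans h.rl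
  have b : 1 ≤ (1 + p.κ) ^ (2 * m + 1) := one_le_pow₀ k1
  refine ⟨?_, inv_le_one_of_one_le₀ b⟩
  rw [one_div]
  exact inv_anti₀ (by linarith) a

lemma lb_l {p : Par} (h : p.Ok) (m : ℕ) : p.lb m * (1 + p.κ) = p.l m := by
  have k1 : (1 + p.κ) ≠ 0 := by linarith [h.κ0']
  unfold Par.lb Par.l
  field_simp
  ring

lemma lb_ah {p : Par} (h : p.Ok) (m : ℕ) : p.lb m * ((1 - 2 * p.η0) * p.ah m) = p.am m := by
  have k1 : (1 + p.κ) ≠ 0 := by linarith [h.κ0']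
  have k2 : (1 - 2 * p.η0) ≠ 0 := by linarith [h.η01]
  unfold Par.lb Par.ah Par.am
  field_simp
  ring

lemma ah_mem {p : Par} (h : p.Ok) {m : ℕ} (hm : m ≤ p.N) : 0 ≤ p.ah m ∧ p.ah m ≤ 1 := by
  have k1 : (1 : ℝ) ≤ 1 + p.κ := by linarith [h.κ0']
  have k2 : 0 < 1 - 2 * p.η0 := by linarith [h.η01]
  have a0 : 0 ≤ p.a := by linarith [h.a00, h.a0a]
  refine ⟨div_nonneg (by positivity) k2.le, (div_le_one k2).2 ?_⟩
  have a := mul_le_mul_of_nonneg_left (pow_le_pow_right₀ k1 (by omega : 3 * m + 1 ≤ 3 * p.N + 1)) a0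
  have b := mul_le_mul_of_nonneg_right h.ab1 k2.le
  linarith [h.ra]

lemma am_mono {p : Par} (h : p.Ok) (m : ℕ) : p.am m ≤ p.am (m + 1) :=
  mul_le_mul_of_nonneg_left (pow_le_pow_right₀ (by linarith [h.κ0']) (Nat.le_succ m))
    (by linarith [h.a00, h.a0a])

/-- the small parameter condition of the tilt and of the increments -/
lemma mx_ec {p : Par} (h : p.Ok) {m i : ℕ} {x : ℝ} (x0 : 0 ≤ x) (hx : x ≤ p.M (i + 1)) :
    x ^ 2 * p.ec m i ≤ 1 := by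
  have a1 : x ^ 2 ≤ p.M (p.bt m i) ^ 2 := pow_le_pow_left₀ x0 (hx.trans (h.Mm (bt_ge p m i))) 2
  have a2 := h.le (p.bt m i)
  have e0 := (h.e0 (p.bt m i)).le
  have a3 : (p.N : ℝ) ^ 2 ≤ 8 * p.C * p.CZ * (p.N + 1) ^ 2 * 8 ^ p.N := by
    have b1 : (p.N : ℝ) ^ 2 ≤ (p.N + 1) ^ 2 := pow_le_pow_left₀ (by positivity) (by linarith) 2
    have b2 : (1 : ℝ) ≤ 8 * p.C * p.CZ := by nlinarith only [h.C1', cz1 h]
    have b3 : (1 : ℝ) ≤ 8 ^ p.N := one_le_pow₀ (by norm_num)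
    calc (p.N : ℝ) ^ 2 ≤ 1 * (p.N + 1) ^ 2 * 1 := by linarith
      _ ≤ _ := mul_le_mul (mul_le_mul_of_nonneg_right b2 (by positivity)) b3 zero_le_one
          (by positivity)
  calc x ^ 2 * p.ec m i = x ^ 2 * (p.N : ℝ) ^ 2 * p.ee (p.bt m i) := by
        unfold Par.ec Par.e1; ring
    _ ≤ p.M (p.bt m i) ^ 2 * (8 * p.C * p.CZ * (p.N + 1) ^ 2 * 8 ^ p.N) * p.ee (p.bt m i) :=
        mul_le_mul_of_nonneg_right (mul_le_mul a1 a3 (by positivity) (by positivity)) e0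
    _ ≤ 1 := by linarith

lemma lg0 (n : ℕ) : 0 ≤ lg n :=
  mul_nonneg (by norm_num) (log_nonneg (by have := n.cast_nonneg (α := ℝ); linarith))

/-- `40 C C1 ^ 2 (4 T + lg + 1) ≤ t` -/
lemma cap_t {p : Par} {z : Cap} (h : p.Ok) (hz : z.Ok p n) {m : ℕ} (hm : m ≤ p.N) :
    40 * p.C * p.C1 ^ 2 * (4 * z.T m + lg n + 1) ≤ z.t m ∧ 4 * z.T m + lg n + 1 ≤ z.t m := by
  have a := hz.h1 m hm 0 (Nat.zero_le _)
  have b : 1 ≤ 4 * z.T m + lg n + 1 := by linarith [(hz.Tn m hm).1, lg0 n]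
  have c : (1 : ℝ) ≤ 40 * p.C * p.C1 ^ 2 := by
    nlinarith only [h.C1', one_le_pow₀ (n := 2) h.C11]
  have d := mul_le_mul_of_nonneg_right c (by linarith : 0 ≤ 4 * z.T m + lg n + 1)
  have e : p.η 0 ^ 2 ≤ 1 := pow_le_one₀ (h.h0 0).le (h.h1 0)
  have f : 0 ≤ z.t m := by
    by_contra hc
    rw [not_le] at hc
    nlinarith only [a, b, d, hc, sq_nonneg (p.η 0)]
  have g := mul_le_mul_of_nonneg_right e f
  exact ⟨by linarith, by linarith⟩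

/-- the gain -/
lemma gain {μ τ lq Z Md c E D X : ℝ} (μ0 : 1 / 4 ≤ μ) (μ1 : μ ≤ 1) (τ0 : 0 < τ) (τ1 : τ ≤ 1)
    (l0 : 0 < lq) (Z0 : 0 ≤ Z) (M0 : 0 ≤ Md) (D0 : 0 ≤ D) (E0 : 0 ≤ E) (hE : E ≤ c)
    (hX : τ * (lq / 2 * Z - Md / lq - E * (Z + D)) ≤ X) :
    τ * lq / 8 * Z - Md / lq - c * (Z + D) ≤ μ * X := by
  have a := mul_le_mul_of_nonneg_left hX (by linarith : 0 ≤ μ)
  have b := mul_le_mul_of_nonneg_right μ0 (by positivity : 0 ≤ τ * (lq / 2 * Z))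
  have m1 : μ * τ ≤ 1 := mul_le_one₀ μ1 τ0.le τ1
  have c1 := mul_le_mul_of_nonneg_right m1 (by positivity : 0 ≤ Md / lq)
  have d := mul_le_mul_of_nonneg_right m1 (by positivity : 0 ≤ E * (Z + D))
  have e := mul_le_mul_of_nonneg_right hE (by positivity : 0 ≤ Z + D)
  nlinarith only [a, b, c1, d, e]

/-- the costs proportional to `Z` -/
lemma cost {lb C C0 gP τ lq Z ω g CP W u c1 C1 : ℝ} (l1 : lb ≤ 1) (hC : 1 ≤ C)
    (hC0 : 1 ≤ C0) (g1 : gP ≤ 1) (τ0 : 0 < τ) (τ1 : τ ≤ 1) (q0 : 0 < lq) (Z0 : 0 ≤ Z) (ω0 : 0 < ω)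
    (ω1 : ω ≤ 1) (W0 : 0 ≤ W) (hW : W ≤ C0 * τ ^ 2 * Z + ω ^ 4 * u ^ 2) (hu : u ^ 2 = CP ^ 2 * τ ^ 2 * Z)
    (t1 : 128 * C * C0 ^ 2 * τ ≤ lq) (lω : 2 * C * C0 * ω ≤ 1) (lT : 64 * (2 * ω + g) * CP ^ 2 ≤ lq)
    (hC1 : 1 ≤ C1) (c0 : 0 < c1) (cT : 256 * C1 * c1 ≤ τ * lq) :
    lb * (C * C0 * W) + gP * W + lb * (ω * u ^ 2) + g * u ^ 2 + c1 * Z + 16 * C1 * c1 * Z ≤
      τ * lq / 8 * Z := by
  have cc : 1 ≤ C * C0 := one_le_mul_of_one_le_of_one_le hC hC0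
  have a1 : lb * (C * C0 * W) ≤ C * C0 * W := mul_le_of_le_one_left (by positivity) l1
  have a2 : gP * W ≤ C * C0 * W := mul_le_mul_of_nonneg_right (g1.trans cc) W0
  have a3 := mul_le_mul_of_nonneg_left hW (by positivity : 0 ≤ 2 * (C * C0))
  have a4 := mul_le_mul_of_nonneg_right t1 (by positivity : 0 ≤ τ * Z)
  have a5 := mul_le_mul_of_nonneg_right lω (by positivity : 0 ≤ ω ^ 3 * u ^ 2)
  have a6 : ω ^ 3 * u ^ 2 ≤ ω * u ^ 2 :=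
    mul_le_mul_of_nonneg_right (pow_le_of_le_one ω0.le ω1 (by norm_num)) (sq_nonneg u)
  have a7 : lb * (ω * u ^ 2) ≤ ω * u ^ 2 := mul_le_of_le_one_left (by positivity) l1
  have a8 : 64 * ((2 * ω + g) * u ^ 2) ≤ τ * lq * Z := by
    have b1 := mul_le_mul_of_nonneg_right lT (by positivity : 0 ≤ τ ^ 2 * Z)
    have b2 := mul_le_mul_of_nonneg_right τ1 (by positivity : 0 ≤ τ * lq * Z)
    rw [hu]
    nlinarith only [b1, b2]
  have a9 := mul_le_mul_of_nonneg_right cT Z0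
  have a10 := mul_le_mul_of_nonneg_right hC1 (by positivity : 0 ≤ c1 * Z)
  have a11 : 0 ≤ τ * lq * Z := by positivity
  nlinarith only [a1, a2, a3, a4, a5, a6, a7, a8, a9, a10, a11]

end B68

open B68

theorem brTGlue : BrTGlue := by
  intro hCr hCl _ n X hX m i0 i s F y0 m1 mN hV hN hU hI hNe pv pA a0 al q zs k v ε ε0 ε1 hpA hL hT hz
  have hp := hX.ok
  have hc := hX.cap
  obtain ⟨-, -, -, -, -, Hy0, U0, U60, -, Ex0, HD, -, hΔ, -⟩ := hCr n X.D s hX.dok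
  obtain ⟨yG, -, n1, n2, Dz0⟩ := hNe
  have hB : Bas X.D.J X.p.K0 X.p.κ0 y0 := hX.es.bas m m1 mN.le y0 yG
  obtain ⟨ct1, ct2⟩ := cap_t hp hc mN.le
  have T0 := (hc.Tn m mN.le).1
  have L0 := lg0 n
  have d0 := dot0 (del s)
  have Δ0 := dot0 (Del X.D s)
  have Z0 := dot0 zs
  have sL := sq_nonneg s.L
  have sy := sq_nonneg (nrm (s.y - y0))
  have S0 : (0 : ℝ) ≤ #s.S := Nat.cast_nonneg _
  have eB : Bb X.D s y0 = Hy X.D s + del s ⬝ᵥ del s + s.L ^ 2 + mean (nu X.D s) (U X.D s) + #s.S +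
      nrm (s.y - y0) ^ 2 := rfl
  have B0 : 0 ≤ Bb X.D s y0 := by rw [eB]; positivity
  have t0 : 0 ≤ X.z.t m := by linarith
  have C0 : 0 ≤ X.p.C := by linarith [hp.C1']
  -- the size of `zs`
  have zt : zs ⬝ᵥ zs ≤ X.z.t m := by
    have a1 : zs ⬝ᵥ zs ≤ ∑ j, zv X.D.J pv a0 (Del X.D s) j ^ 2 := by
      refine sum_le_sum fun j _ => ?_
      rw [hz]
      dsimp only
      split_ifs
      · rw [sq]
      · rw [mul_zero]; exact sq_nonneg _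
    have a2 := zv_le (Del X.D s) hX.dok.op hp.C11 hL.hp fun j => (hL.ha j).1
    have a3 := (hX.lf.b1 n X.D s y0 _ _ hX.dok hI.cl hB).2.1
    have a4 : Bb X.D s y0 ≤ 2 * (4 * X.z.T m + lg n + 1) := by rw [eB]; linarith
    have a5 := mul_le_mul_of_nonneg_left (a3.trans (mul_le_mul_of_nonneg_left a4 C0))
      (by positivity : 0 ≤ 20 * X.p.C1 ^ 2)
    linarith
  have τ1 : X.p.τ' ≤ 1 := by
    have a := hp.t1
    have b : 1 ≤ X.p.C * X.p.C0 ^ 2 := one_le_mul_of_one_le_of_one_le hp.C1' (one_le_pow₀ hp.C01)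
    have c := mul_le_mul_of_nonneg_right b hp.t0.le
    nlinarith only [a, c, hp.lq1, hp.t0]
  obtain ⟨w, hA, hw, hg⟩ := hX.lf.t6 n X.D.J X.p.P y0 pv a0 al q k v _ _ _ _ _ _ _ (X.z.t' m) ε X.p.τ'
    s.S (Del X.D s) zs hX.dok.symm hX.dok.op hL hp.lq0 hp.lq1 (by linarith [hp.C01]) hp.C11 hp.CP1
    hp.eL0.le (hp.h0 _) ε0 hp.t0 τ1 (by linarith [hI.hS]) hΔ hz zt (hc.h2 m mN.le)
  obtain ⟨t, ht⟩ := hT w _ hA
  generalize hu : X.p.CP * X.p.τ' * nrm zs = u at hA ht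
  have u2 : u ^ 2 = X.p.CP ^ 2 * X.p.τ' ^ 2 * (zs ⬝ᵥ zs) := by
    rw [← hu, mul_pow, mul_pow, Eig.nrm_sq]
  -- classes
  have e0 := (hp.e0 (X.p.bt (m + 1) i)).le
  have em : X.p.e1 m i0 ≤ X.p.e1 (m + 1) i := hp.ea (bt_le X.p mN hN)
  have m0 : (0 : ℝ) ≤ m := Nat.cast_nonneg m
  have cl1 : Cl (m * X.p.e1 (m + 1) i) (m ^ 2 * X.p.e1 (m + 1) i) s :=
    (hCl n X.D s hX.dok).1 _ _ _ _ hI.cl (mul_le_mul_of_nonneg_left em m0)
      (mul_le_mul_of_nonneg_left em (sq_nonneg _))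
  have N1 : (1 : ℝ) ≤ X.p.N := by exact_mod_cast hp.N1
  have mN' : (m : ℝ) ≤ X.p.N := by exact_mod_cast mN.le
  have cl2 : Cl (X.p.ec (m + 1) i) (X.p.ec (m + 1) i) s :=
    (hCl n X.D s hX.dok).1 _ _ _ _ cl1
      (mul_le_mul_of_nonneg_right (by nlinarith only [N1, mN']) e0)
      (mul_le_mul_of_nonneg_right (pow_le_pow_left₀ m0 mN' 2) e0)
  have ω0 := hp.ω0 m i
  have ω1 := hp.ω1 m i
  obtain ⟨M1, -⟩ := hp.lM m i mN
  have Mx0 : 0 ≤ Mx' X.p.C X.p.P (X.p.CN m i) X.p.κ X.p.η0 (X.p.ω m i) :=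
    mul_nonneg C0 (sq_nonneg _)
  -- the tilt
  have hti := hX.lf.tilt n X.D s y0 pA al q w _ _ _ _ _ _ _ u X.p.κ X.p.c1 (X.p.ω m i) _ _ _ _
    hX.dok cl2 hB ht.ans (fun j => (hpA j).1) (ah_mem hp mN.le).1 (ah_mem hp mN.le).2
    (by positivity) e0 (le_mul_of_one_le_left e0 (one_le_pow₀ N1)) (hp.CN1 m i)
    (by linarith [hp.C01]) hc.K1 ht.u0 hp.κ0' hp.κ1 hp.c10 ω0 ω1
    (by
      rw [hX.hP, show X.p.ω m i ^ 4 = (X.p.ω m i ^ 2) ^ 2 by ring, sqrt_sq (sq_nonneg _)]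
      have := mul_le_mul_of_nonneg_right (hp.lω m i).1 ω0.le
      nlinarith only [this])
    (by rw [hX.hP, hX.hη]; exact mx_ec hp Mx0 M1)
  rw [hX.hP, hX.hη] at hti
  -- the update
  have dz : del s.un = 0 := sub_self _
  have hup := hU s.un (s.un.tl t.φ 0 0 0) F i0 y0 pA al q w u t hN hB (fun j => (hpA j).1) ht hI.pv hI.xf
    ⟨cl1.L0, cl1.gr, cl1.rg, cl1.ex, cl1.ts⟩ hI.hL
    (by
      have := (hc.h4 m mN).1
      show (#s.S : ℝ) ≤ _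
      linarith [hI.hS])
    (by rw [dz, zero_dotProduct]; exact t0)
    (by
      show nrm (s.y - y0) ^ 2 ≤ _
      linarith) rfl
  rw [dz, zero_dotProduct, mul_zero, add_zero, lin] at hup
  have H1 : 0 ≤ HH X.D (s.un.tl t.φ 0 0 0) := (hCr n X.D _ hX.dok).2.2.2.2.1
  have r1 : AA X.D (s.un.tl t.φ (X.p.CN m i * u) t.Ω t.G) = AA X.D (s.un.tl t.φ 0 0 0) := rfl
  have r2 : HH X.D (s.un.tl t.φ (X.p.CN m i * u) t.Ω t.G) = HH X.D (s.un.tl t.φ 0 0 0) := rfl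
  rw [r1, r2] at hti
  generalize AA X.D (s.un.tl t.φ 0 0 0) = A1 at hti hup
  generalize HH X.D (s.un.tl t.φ 0 0 0) = H' at hti hup H1
  change _ ≤ X.p.lb m * A1 - X.p.am (m + 1) * H' + 3 * X.p.γ (m + 1) i *
      (Hy X.D s + mean (nu X.D s) (U X.D s) + mean (nu X.D s) (U6 X.D s)) +
    X.p.gg m * Eg X.D s s.Th + exp ((Dz X.D s - X.z.T (m + 1)) / 2) +
    (4 * X.p.g2 (m + 1) i * Ex X.D s +
      mean (nu X.D s) fun σ => X.Fu (m + 1) m (X.Ft (m + 1) i F) σ s.y) + _ + _ at hup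
  change -(_ + 6 * X.p.γ (m + 1) i * (s.L ^ 2 + #s.S + nrm (s.y - y0) ^ 2)) ≤ _ at hup
  obtain ⟨lb0, lb1⟩ := lb_mem hp mN.le
  have lb0' : 0 ≤ X.p.lb m := by linarith
  have hm := mul_le_mul_of_nonneg_left hti lb0'
  have k1 := lb_l hp m
  have k2 := lb_ah hp m
  have k3 := mul_le_mul_of_nonneg_right (am_mono hp m) H1
  have η0 := hp.η00
  have η1 := hp.η01
  have gn := gain (μ := X.p.lb m * (1 - 2 * X.p.η0)) (c := X.p.c1) (by nlinarith only [lb0, η1])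
    (mul_le_one₀ lb1 (by linarith) (by linarith)) hp.t0 τ1 hp.lq0 Z0 (mod0 _ _ _ _ _ _ _) Δ0
    (by have := hp.eL0; have := hp.C11; positivity)
    (by
      have a : √ε ≤ X.p.eL := by rw [sqrt_le_left hp.eL0.le]; exact ε1
      have b := mul_le_mul_of_nonneg_left a (by have := hp.C11; positivity : 0 ≤ X.p.C * X.p.C1)
      linarith [hp.eL1]) hg
  have W0 : 0 ≤ pA ⬝ᵥ (w * w) := sum_nonneg fun j _ => mul_nonneg (hpA j).1 (mul_self_nonneg _)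
  have hW : pA ⬝ᵥ (w * w) ≤ X.p.C0 * X.p.τ' ^ 2 * (zs ⬝ᵥ zs) + X.p.ω m i ^ 4 * u ^ 2 := by
    have a1 : pA ⬝ᵥ (w * w) ≤ pv ⬝ᵥ (w * w) + X.p.ω m i ^ 4 * (w ⬝ᵥ w) := by
      simp only [dotProduct, mul_sum, ← sum_add_distrib, Pi.mul_apply, ← add_mul]
      exact sum_le_sum fun j _ => mul_le_mul_of_nonneg_right (hpA j).2 (mul_self_nonneg _)
    have a2 : w ⬝ᵥ w ≤ u ^ 2 := by
      rw [← Eig.nrm_sq]; exact pow_le_pow_left₀ (Eig.nrm_nonneg _) hA.2.1 2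
    have a3 := mul_le_mul_of_nonneg_left a2 (by positivity : 0 ≤ X.p.ω m i ^ 4)
    linarith
  have co := cost lb1 hp.C1' hp.C01 hp.gP1 hp.t0 τ1 hp.lq0 Z0 ω0 ω1 W0 hW u2 hp.t1
    (hp.lω m i).2 (hp.lT m i mN) hp.C11 hp.c10 hp.c1T
  -- the remaining terms
  have γ0 := hp.γ0 (m + 1) i
  have s1 : X.p.lb m * (X.p.c1 * (Del X.D s ⬝ᵥ Del X.D s)) ≤ X.p.c1 * (Del X.D s ⬝ᵥ Del X.D s) :=
    mul_le_of_le_one_left (mul_nonneg hp.c10.le Δ0) lb1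
  have s2 : X.p.lb m * ((X.p.C / X.p.κ + 1 / X.p.c1) * (del s ⬝ᵥ del s)) ≤
      (X.p.C / X.p.κ + 1 / X.p.c1) * (del s ⬝ᵥ del s) :=
    mul_le_of_le_one_left (by have := hp.κ0'; have := hp.c10; positivity) lb1
  have s3 : X.p.lb m * (X.p.ω m i * Bb X.D s y0) ≤
      X.p.ω m i * (Bb X.D s y0 + mean (nu X.D s) (U6 X.D s)) :=
    (mul_le_of_le_one_left (mul_nonneg ω0.le B0) lb1).trans
      (mul_le_mul_of_nonneg_left (by linarith) ω0.le)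
  have K0 : 0 ≤ X.z.K := by linarith [hc.K1]
  have s4 : X.p.lb m * (Mx' X.p.C X.p.P (X.p.CN m i) X.p.κ X.p.η0 (X.p.ω m i) * (Ex X.D s + X.z.K)) ≤
      X.p.M (i + 1) * Ex X.D s + 2 * (X.p.C * 8 ^ X.p.N * X.p.M (2 ^ X.p.N) * X.z.K) := by
    have a1 := (mul_le_of_le_one_left (mul_nonneg Mx0 (add_nonneg Ex0 K0)) lb1).trans
      (mul_le_mul_of_nonneg_right M1 (add_nonneg Ex0 K0))
    have a2 : X.p.M (i + 1) ≤ X.p.M (2 ^ X.p.N) := hp.Mm ((bt_ge X.p (m + 1) i).trans hV)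
    have a3 : (1 : ℝ) ≤ X.p.C * 8 ^ X.p.N :=
      one_le_mul_of_one_le_of_one_le hp.C1' (one_le_pow₀ (by norm_num))
    have a4 : 0 ≤ X.p.M (2 ^ X.p.N) * X.z.K := mul_nonneg (by linarith [hp.M1 (2 ^ X.p.N)]) K0
    have a5 := mul_le_mul_of_nonneg_right a2 K0
    have a6 := mul_le_mul_of_nonneg_right a3 a4
    nlinarith only [a1, a4, a5, a6]
  have s5 : 6 * X.p.γ (m + 1) i * (s.L ^ 2 + #s.S + nrm (s.y - y0) ^ 2) + 3 * X.p.γ (m + 1) i *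
      (Hy X.D s + mean (nu X.D s) (U X.D s) + mean (nu X.D s) (U6 X.D s)) ≤
      15 * X.p.CP * X.p.γ (m + 1) i * (Bb X.D s y0 + mean (nu X.D s) (U6 X.D s)) := by
    have a1 : 6 * (s.L ^ 2 + #s.S + nrm (s.y - y0) ^ 2) + 3 *
        (Hy X.D s + mean (nu X.D s) (U X.D s) + mean (nu X.D s) (U6 X.D s)) ≤
        15 * (Bb X.D s y0 + mean (nu X.D s) (U6 X.D s)) := by rw [eB]; linarith
    have a2 := mul_le_mul_of_nonneg_left a1 γ0.le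
    have a3 := mul_le_mul_of_nonneg_right hp.CP1
      (mul_nonneg γ0.le (add_nonneg B0 U60))
    nlinarith only [a2, a3]
  have s6 : exp ((Dz X.D s - X.z.T (m + 1)) / 2) ≤ exp ((Dz X.D s - X.z.T m) / 2) :=
    exp_le_exp.2 (by linarith [(hc.h4 m mN).1])
  unfold Cx.Br
  rw [← k1, ← k2]
  rw [← k2] at k3
  linarith [hm, hup, k3, gn, co, s1, s2, s3, s4, s5, s6]

end Crest.Agent.T157.S1

end
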