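import Crest.Agent.T157.S1Def_97

/-!
# Row 157, part B, block S1 (helper89): crude bounds, level zero, the class of the tilts
-/

set_option autoImplicit false

noncomputable section

namespace Crest.Agent.T157.S1

open MeasureTheory Real Matrix Finset
open Crest.Agent.T157.E Crest.Agent.T157.SL
open Crest.Agent.T157.Ta (Ar Cnt Dm wt XG Pr)
open Crest.Agent.T157.Ue (El Lw)
open Crest.Agent.T157.Rec (grad fl)
open Crest.Agent.T157.Eig (nrm opn)
open Crest.Agent.T157.S3 (V Mx tau Dg TS Rg Exc)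
open Crest.Agent.T157.S3F (jac hsJ)

namespace C89

variable {n : ℕ} {D : Dat n} {s : St n}

theorem U_nn (h : D.Ok) (σ : Cube n) : 0 ≤ U D s σ :=
  mul_nonneg (by linarith [h.P1]) (sum_nonneg fun _ _ => sq_nonneg _)

theorem ell_nn (σ : Cube n) : 0 ≤ ell D s σ := by
  unfold ell; split_ifs
  · exact (exp_pos _).le
  · exact le_rfl

theorem ell_le (h : D.Ok) (σ : Cube n) : ell D s σ ≤ 1 := by
  unfold ell; split_ifs
  · exact exp_le_one_iff.2 (neg_nonpos.2 (U_nn h σ))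
  · exact zero_le_one

theorem ell_sS : 0 < ell D s s.sS := by rw [ell, if_pos fun _ _ => rfl]; exact exp_pos _

theorem is_pos (J : Mx n) (y : V n) (σ : Cube n) : 0 < ising J y σ := exp_pos _

theorem wt_is (J : Mx n) (y : V n) : Wt (ising J y) := Wt.of_pos (is_pos J y)

theorem wt_loc : Wt (loc D s) := (wt_is D.J s.y).mul ell_nn
  (((wt_is D.J s.y).mean_pos_iff ell_nn).2 ⟨_, is_pos _ _ _, ell_sS⟩)

theorem pr1 (h : D.Ok) : Pr (nu D s) (loc D s) := (Ue.pr_mul wt_loc h.fpos rfl).1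
theorem pr2 (h : D.Ok) : Pr (loc D s) (nu D s) := (Ue.pr_mul wt_loc h.fpos rfl).2
theorem pr0 (h : D.Ok) : Pr (nu D s) (pi D s) := (pr1 h).wt _
theorem pry (h : D.Ok) : Pr (nu D s) (ising D.J s.y) :=
  ⟨(pr1 h).hv, wt_is _ _, fun x hx => absurd hx (is_pos _ _ x).ne'⟩

/-- on the support of `loc` the pins hold -/
theorem supp {σ : Cube n} (h : loc D s σ ≠ 0) :
    (∀ k ∈ s.S, σ k = s.sS k) ∧ ell D s σ = exp (-U D s σ) := by
  by_cases hc : ∀ k ∈ s.S, σ k = s.sS k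
  · exact ⟨hc, if_pos hc⟩
  · exact absurd (by rw [loc, ell, if_neg hc, mul_zero]) h

theorem Z_nu : ∑ x, nu D s x = (∑ x, ising D.J s.y x) *
    mean (ising D.J s.y) fun σ => ell D s σ * D.f σ := by
  rw [mean_eq_div, mul_div_cancel₀ _ (wt_is _ _).pos.ne']
  simp only [nu, loc, mul_assoc]

theorem mean_pos (h : D.Ok) : 0 < mean (ising D.J s.y) fun σ => ell D s σ * D.f σ :=
  ((wt_is D.J s.y).mean_pos_iff fun σ => mul_nonneg (ell_nn σ) (h.fpos σ).le).2
    ⟨_, is_pos _ _ _, mul_pos ell_sS (h.fpos _)⟩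

theorem logf (h : D.Ok) : (mean (nu D s) fun σ => log (D.f σ)) ≤ D.T0 :=
  (pr1 h).hv.mean_le fun σ => (log_le_iff_le_exp (h.fpos σ)).2 (h.fle σ)

/-- `Hy = ν log f - ν U - log μ_y (ℓ f)` -/
theorem Hy_eq (h : D.Ok) : Hy D s = (mean (nu D s) fun σ => log (D.f σ)) - mean (nu D s) (U D s) -
    log (mean (ising D.J s.y) fun σ => ell D s σ * D.f σ) := by
  rw [Hy, Ta.kl_eq_mean (pry h), Z_nu, log_mul (wt_is _ _).pos.ne' (mean_pos h).ne', ← mean_sub,
    Ta.mean_congr_supp (g := fun σ => log (D.f σ) - U D s σ) fun σ hσ => ?_]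
  · ring
  · rw [nu, loc, (supp ((pr1 h).pos hσ).2.ne').2, log_mul (mul_pos (is_pos _ _ _) (exp_pos _)).ne'
      (h.fpos _).ne', log_mul (is_pos _ _ _).ne' (exp_pos _).ne', log_exp]
    ring

theorem kl_loc (h : D.Ok) : kl (nu D s) (loc D s) ≤ Dz D s := by
  have e : (mean (nu D s) fun σ => log (nu D s σ) - log (loc D s σ)) =
      mean (nu D s) fun σ => log (D.f σ) := Ta.mean_congr_supp fun σ hσ => by
    rw [nu, log_mul ((pr1 h).pos hσ).2.ne' (h.fpos _).ne']; ring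
  have a1 : log (∑ x, loc D s x) ≤ log (∑ x, ising D.J s.y x) := log_le_log wt_loc.pos
    (sum_le_sum fun σ _ => mul_le_of_le_one_right (is_pos _ _ _).le (ell_le h σ))
  rw [Ta.kl_eq_mean (pr1 h), e, Z_nu, log_mul (wt_is _ _).pos.ne' (mean_pos h).ne', Dz]
  linarith [logf (s := s) h]

theorem vp_le (G : Cube n → ℝ) (x : Cube n) : Atd.vp G x ≤ (2 * nrm (grad G x)) ^ 2 := by
  rw [mul_pow, Eig.nrm_sq, dotProduct, mul_sum]
  refine sum_le_sum fun j _ => ?_
  have e : 2 ^ 2 * (grad G x j * grad G x j) = (G x - G (fl x j)) ^ 2 := by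
    rw [Rec.grad_eq]; linear_combination (G x - G (fl x j)) ^ 2 * Rec.sv_mul_self x j
  rw [e]
  rcases le_total (G x - G (fl x j)) 0 with h | h
  · rw [max_eq_right h, zero_pow two_ne_zero]; exact sq_nonneg _
  · rw [max_eq_left h]

theorem abs_mag {w : Cube n → ℝ} (hw : Wt w) (i : Fin n) : |mag w i| ≤ 1 :=
  hw.abs_mean_le fun x => S3F.abs_sv x i

theorem mag_pin {w : Cube n → ℝ} (h : Pr w (loc D s)) {i : Fin n} (hi : i ∈ s.S) :
    mag w i = sv s.sS i :=
  (Ta.mean_congr_supp (g := fun _ => sv s.sS i) fun σ hσ => by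
    simp only [sv, (supp (h.pos hσ).2.ne').1 i hi]).trans (h.hv.mean_const _)

/-- Minkowski -/
theorem mink {ι : Type} [Fintype ι] [DecidableEq ι] {a b : ι → ℝ} {A B : ℝ} (A0 : 0 ≤ A) (B0 : 0 ≤ B)
    (ha : ∑ i, a i ^ 2 ≤ A ^ 2) (hb : ∑ i, b i ^ 2 ≤ B ^ 2) : ∑ i, (a i + b i) ^ 2 ≤ (A + B) ^ 2 := by
  have e : ∀ u : ι → ℝ, ∑ i, u i ^ 2 = u ⬝ᵥ u := fun u => by simp only [dotProduct, sq]
  rw [e] at ha hb
  exact (e (a + b)).trans_le ((Eig.nrm_le_iff (add_nonneg A0 B0)).1 ((Eig.nrm_add_le a b).trans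
    (add_le_add ((Eig.nrm_le_iff A0).2 ha) ((Eig.nrm_le_iff B0).2 hb))))

end C89

open C89

theorem crudeStmt : CrudeStmt := fun n D s h => by
  have hv := (pr1 (s := s) h).hv
  have t1 : D.θ ≤ 1 := by linarith [h.t1, h.e0]
  refine ⟨pr0 h, pr1 h, pr2 h, add_nonneg ((pr0 h).Ar_nonneg fun i x =>
    (Ue.rw_mem h.e0.le (by linarith [h.e1]) h.t0 t1 _ i x).1) (mul_nonneg (by linarith)
      (Ue.El_nonneg (pr1 h) (pr2 h) fun i x => (Ue.Lw_mem _ _ i x).1)), (pr0 h).kl_nonneg,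
    (pry h).kl_nonneg, hv.mean_nonneg (U_nn h), hv.mean_nonneg fun σ => sum_nonneg fun k _ =>
      pow_nonneg (mul_nonneg (by linarith [h.P1]) (sq_nonneg _)) 3,
    fun g => sum_nonneg (s := univ) fun i _ =>
      Ta.Cs_nonneg hv (fun σ => sq_nonneg (grad g σ i)) i,
    hv.mean_nonneg fun _ => sq_nonneg _, ?_, ?_, fun i hi => ?_, fun e A hc => ?_⟩
  · rw [Hy_eq h, Dz]; linarith [logf (s := s) h]
  · refine (sum_le_sum (g := fun _ => (4 : ℝ)) fun i _ => ?_).trans_eq (by simp [mul_comm])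
    have a1 := abs_le.1 (abs_mag hv i)
    have a2 := abs_le.1 (abs_mag (pr0 (s := s) h).hw i)
    change (mag (nu D s) i - mag (pi D s) i) * (mag (nu D s) i - mag (pi D s) i) ≤ 4
    nlinarith
  · change mag (nu D s) i - mag (pi D s) i = 0
    rw [mag_pin (pr1 h) hi, mag_pin (D := D) (w := pi D s) ⟨(pr0 h).hw, wt_loc, fun x hx => by
      simp only [pi, wt, hx, zero_mul]⟩ hi, sub_self]
  · obtain ⟨G, hG⟩ : ∃ G : Cube n → ℝ, G = fun σ => del s ⬝ᵥ sv σ + s.Th σ := ⟨_, rfl⟩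
    have a0 : 0 ≤ s.L + nrm (del s) := add_nonneg hc.L0 (Eig.nrm_nonneg _)
    have a1 : ∀ x, Atd.vp G x ≤ (2 * (s.L + nrm (del s))) ^ 2 := fun x => (vp_le G x).trans
      (pow_le_pow_left₀ (mul_nonneg zero_le_two (Eig.nrm_nonneg _)) (by
        rw [hG, Rec.grad_add, Rec.grad_lin]
        linarith [Eig.nrm_add_le (del s) (grad s.Th x), hc.gr x]) 2)
    have a2 : ∀ x, log (mean (loc D s) fun x => exp (G x)) - 4 * √n * (s.L + nrm (del s)) ≤ G x :=
      fun x => by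
        rw [sub_le_iff_le_add, log_le_iff_le_exp (Ta.mean_pos' wt_loc fun _ => exp_pos _)]
        exact wt_loc.mean_le fun x' => exp_le_exp.2 (by
          linarith [Atd.osc (mul_nonneg zero_le_two a0) a1 x' x])
    rw [HH, pi, ← hG, Ta.kl_wt (pr1 h)]
    linarith [kl_loc (s := s) h, hv.le_mean a2]

theorem l0Stmt : L0Stmt := fun n D s h h1 hy hy' hS hT => by
  have e1 : ell D s = fun _ => 1 := funext fun σ => by simp [ell, U, hS]
  have e2 : loc D s = ising D.J 0 := funext fun σ => by rw [loc, e1, hy, mul_one]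
  have e3 : nu D s = fun σ => ising D.J 0 σ * D.f σ := funext fun σ => by rw [nu, e2]
  have e4 : pi D s = ising D.J 0 := funext fun σ => by simp [pi, wt, del, hy, hy', hT, e2]
  have hw := wt_is D.J 0
  have eZ : ∑ x, ising D.J 0 x * D.f x = ∑ x, ising D.J 0 x := by
    rwa [mean_eq_div, div_eq_one_iff_eq hw.pos.ne'] at h1
  have e5 : ∀ ξ, mean (nu D s) ξ = mean (ising D.J 0) fun σ => D.f σ * ξ σ := fun ξ => by
    rw [e3, mean_eq_div, mean_eq_div, eZ]; simp only [mul_assoc]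
  have e6 : Hy D s = ent (ising D.J 0) D.f := by
    rw [Hy_eq h, e5, e1, hy, ent, h1, show U D s = fun _ => 0 from funext fun σ => by simp [U, hS],
      (pr1 h).hv.mean_const]
    simp only [one_mul, h1, log_one, sub_zero]
    rfl
  refine ⟨?_, ?_, e6, ?_, e5⟩
  · have a1 := Ue.level0_cube hw h.fpos e3 h.t0 D.η0
    have a2 := mul_le_mul_of_nonneg_left (Ue.Dw_le_one (pr1 (s := s) h).hv (ising D.J 0)
      fun i x => (Ue.Lw_mem D.η0 D.f i x).2) h.t0
    rw [Ue.El_one hw h.fpos e3, h1, div_one] at a1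
    have a3 : B.Df (B.dn (ising D.J 0) D.f) (ising D.J 0) = ∑ i, mean (nu D s) fun x =>
        max (Ta.kls (nu D s) (ising D.J 0) i x - Ta.kls (ising D.J 0) (nu D s) i x) 0 := by
      rw [e3]; rfl
    rw [AA, e4, e2, a3, Rv.II]
    linarith
  · rw [← e6, HH, Hy, e4, hy]
  · rw [Dz, e1, hy]
    simp only [one_mul, h1, log_one, sub_zero]

theorem clStmt : ClStmt := fun n D s h => by
  refine ⟨fun e A e' A' c he hA => ⟨c.L0, c.gr, fun x => ⟨(c.rg x).1.trans he, (c.rg x).2.1.trans he,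
    (c.rg x).2.2⟩, c.ex, fun x => (c.ts x).trans hA⟩, fun m e l φ Ω G e0 l0 c h1 h2 h3 h4 => ?_,
    fun g g' t t0 => ?_, fun e A e0 A0 h1 h2 h3 h4 => ?_⟩
  · have eg : ∀ x, grad (s.Th + φ) x = grad s.Th x + grad φ x := Rec.grad_add _ _
    have ej : ∀ x, jac (s.Om + Ω) x = jac s.Om x + jac Ω x := S3F.jac_add _ _
    refine ⟨add_nonneg c.L0 l0, fun x => ?_, fun x => ⟨?_, ?_, ?_, ?_⟩, fun x => ?_, fun x => ?_⟩
    · change nrm (grad (s.Th + φ) x) ≤ s.L + l
      rw [eg]; linarith [Eig.nrm_add_le (grad s.Th x) (grad φ x), c.gr x, h1 x]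
    · change ‖s.Om x + Ω x‖ ≤ _
      linarith [norm_add_le (s.Om x) (Ω x), (c.rg x).1, (h2 x).1]
    · change opn (jac (s.Om + Ω) x) ≤ _
      rw [ej]; linarith [Eig.opn_add_le (jac s.Om x) (jac Ω x), (c.rg x).2.1, (h2 x).2.1]
    · change nrm (s.Om x + Ω x) ≤ s.L + l
      linarith [Eig.nrm_add_le (s.Om x) (Ω x), (c.rg x).2.2.1, (h2 x).2.2.1]
    · change hsJ (s.Om + Ω) x ≤ (s.L + l) ^ 2
      have a1 := (c.rg x).2.2.2
      have a2 := (h2 x).2.2.2
      simp only [hsJ, ej, ← Fintype.sum_prod_type'] at a1 a2 ⊢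
      exact mink c.L0 l0 a1 a2
    · change nrm (grad (s.Th + φ) x - (s.Om x + Ω x)) ≤ s.G x + G x
      rw [eg, add_sub_add_comm]
      linarith [Eig.nrm_add_le (grad s.Th x - s.Om x) (grad φ x - Ω x), c.ex x, h3 x]
    · have q : √e ^ 2 = e := sq_sqrt e0
      have := mink (A := m * √e) (B := √e) (by positivity) (by positivity)
        ((c.ts x).trans_eq (by rw [mul_pow, q])) ((h4 x).trans_eq q.symm)
      refine le_of_eq_of_le (sum_congr rfl fun j _ => ?_) (this.trans_eq ?_)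
      · change (s.G x + G x - (s.G (fl x j) + G (fl x j))) ^ 2 = _
        ring
      · rw [← q, sqrt_sq (sqrt_nonneg e)]; ring
  · have hv := (pr1 (s := s) h).hv
    simp only [Eg, Cnt, Ta.Cs, mul_sum, ← sum_add_distrib, ← mean_const_mul, ← mean_add]
    refine sum_le_sum fun i _ => hv.mean_mono fun x => ?_
    have a1 : 0 ≤ 1 - Ta.cm (nu D s) i x ^ 2 := sub_nonneg.2 ((sq_le_one_iff_abs_le_one _).2
      (Ta.abs_cm_le hv.nn i x))
    have eg : grad (g + g') x i = grad g x i + grad g' x i := congrFun (Rec.grad_add g g' x) i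
    rw [eg, ← mul_assoc, ← mul_assoc, ← add_mul]
    refine mul_le_mul_of_nonneg_right ?_ a1
    have a2 : 0 ≤ (grad g x i - t * grad g' x i) ^ 2 / t := by positivity
    have a3 : (grad g x i - t * grad g' x i) ^ 2 / t =
        1 / t * grad g x i ^ 2 - 2 * (grad g x i * grad g' x i) + t * grad g' x i ^ 2 := by
      field_simp; ring
    linarith
  · have eg : ∀ x : Cube n, grad (0 : Cube n → ℝ) x = 0 := Rec.grad_const 0
    have ej : ∀ x : Cube n, jac (0 : Cube n → V n) x = 0 := S3F.jac_const 0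
    refine ⟨h2.ge, fun x => ?_, fun x => ⟨?_, ?_, ?_, ?_⟩, fun x => ?_, fun x => ?_⟩ <;>
      simp [h1, h2, h3, h4, eg, ej, e0, A0, hsJ]

end Crest.Agent.T157.S1

end
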