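import Crest.Agent.T157.S1Par_97

/-!
# Row 157, block B/S1 (helper6): `FuGlue`, `StaGlue`, `MasterGlue`
-/

set_option autoImplicit false

noncomputable section

namespace Crest.Agent.T157.S1

open MeasureTheory Real Matrix Finset
open Crest.Agent.T157.E Crest.Agent.T157.SL
open Crest.Agent.T157.S3 (V Mx)

namespace Fu6

variable {n : ℕ} (hM : MtStmt)
include hM

lemma xf_add {F G : Fy n} (h : XF F) (h' : XF G) : XF (F + G) :=
  ((hM n).2.2.2.2.2.1 F G 0 h h' le_rfl).1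

lemma xf_smul {F : Fy n} {c : ℝ} (h : XF F) (hc : 0 ≤ c) : XF (c • F) :=
  ((hM n).2.2.2.2.2.1 F F c h h hc).2

lemma xf_sum {κ : Type} (s : Finset κ) {F : κ → Fy n} (h : ∀ k ∈ s, XF (F k)) : XF (∑ k ∈ s, F k) :=
  sum_induction _ _ (fun _ _ => xf_add hM) (hM n).2.2.2.2.2.2.1 h

lemma xf_Ew {F : Fy n} {t : ℝ} (h : XF F) (ht : 0 ≤ t) : XF (Ew t F) := (hM n).2.1 F t h ht

lemma Ew_add {F G : Fy n} {t : ℝ} (h : XF F) (h' : XF G) (ht : 0 ≤ t) :
    Ew t (F + G) = Ew t F + Ew t G := (hM n).2.2.2.1 F G t h h' ht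

lemma Ew_smul (F : Fy n) (t c : ℝ) : Ew t (c • F) = c • Ew t F := (hM n).2.2.2.2.1 F t c

lemma Ew_sum {κ : Type} (s : Finset κ) {F : κ → Fy n} {t : ℝ} (h : ∀ k ∈ s, XF (F k)) (ht : 0 ≤ t) :
    Ew t (∑ k ∈ s, F k) = ∑ k ∈ s, Ew t (F k) := by
  classical
  induction s using Finset.induction_on with
  | empty => simpa using Ew_smul hM (0 : Fy n) t 0
  | insert k s hk ih =>
    rw [sum_insert hk, sum_insert hk, Ew_add hM (h k (by simp)) (xf_sum hM _ fun j hj => h j (by simp [hj])) ht,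
      ih fun j hj => h j (by simp [hj])]

lemma Ew_le {F G H : Fy n} {t : ℝ} (h : XF F) (h' : XF H) (ht : 0 ≤ t) (e : G = F + H) :
    Ew t F ≤ Ew t G := by
  rw [e, Ew_add hM h h' ht]
  exact le_add_of_nonneg_right fun σ y => (xf_Ew hM h' ht).2 σ y

omit hM in
lemma time_nonneg {X : Cx n} (h : X.Ok) {k lo m' N : ℕ} (hk : k ≤ lo) (hm : m' ∈ Icc lo N) :
    0 ≤ ((m' : ℝ) - k) * X.p.τ :=
  mul_nonneg (sub_nonneg.2 (Nat.cast_le.2 (hk.trans (mem_Icc.1 hm).1))) h.ok.τ0.le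

omit hM in
lemma CZ_nonneg {p : Par} (h : p.Ok) : 0 ≤ p.CZ :=
  nonneg_of_mul_nonneg_left (zero_le_one.trans h.CZ1) h.lq0

lemma xf_Ft {X : Cx n} (h : X.Ok) (m i : ℕ) {F : ℕ → Fy n} (hF : ∀ m', XF (F m')) (m' : ℕ) :
    XF (X.Ft m i F m') := by
  have d := (hM n).2.2.2.2.2.2.2.1 (X.O.G m') (X.z.T m')
  have e : XF (if m' = X.p.N then X.fe else 0) := by
    split_ifs; exacts [h.en.xf, (hM n).2.2.2.2.2.2.1]
  have := xf_add hM (xf_add hM (xf_add hM (xf_smul hM d.1 (h.ok.γ0 m i).le)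
    (xf_smul hM d.2 (show 0 ≤ big n by unfold big; positivity)))
    (xf_smul hM (xf_add hM (h.es.xz m') (hF m')) (CZ_nonneg h.ok))) e
  convert this using 1
  funext σ y
  simp only [Cx.Ft, Pi.add_apply, Pi.smul_apply, smul_eq_mul, ite_apply, Pi.zero_apply]

lemma xf_Fu {X : Cx n} (h : X.Ok) {lo k : ℕ} (hk : k ≤ lo) {F : ℕ → Fy n} (hF : ∀ m', XF (F m')) :
    XF (X.Fu lo k F) := xf_sum hM _ fun m' hm => xf_Ew hM (hF m') (time_nonneg h hk hm)

end Fu6

open Fu6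

theorem fuGlue : FuGlue := fun hM n X h m i F hF => by
  have t := xf_Ft hM h m i hF
  refine ⟨t, fun lo k hk => xf_Fu hM h hk t, fun lo k hk => ?_, fun k hk => ?_, fun m' i' lo k hk hγ => ?_,
    fun ρ lo k hk hρ => ?_⟩
  · rw [Cx.Fu, Ew_sum hM _ (fun m' hm => xf_Ew hM (t m') (time_nonneg h hk hm)) h.ok.τ0.le]
    refine sum_congr rfl fun m' hm => ?_
    rw [(hM n).2.2.1 _ _ _ (t m') h.ok.τ0.le (time_nonneg h hk hm)]
    congr 1; push_cast; ring
  · rw [Cx.Fu, Cx.Fu, ← insert_Icc_add_one_left_eq_Icc hk, sum_insert (by simp), sub_self, zero_mul,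
      (hM n).1]
  · refine sum_le_sum fun j hj => Ew_le hM (xf_Ft hM h m' i' hF j) (xf_smul hM
      ((hM n).2.2.2.2.2.2.2.1 (X.O.G j) 0).1 (sub_nonneg.2 hγ)) (time_nonneg h hk hj) ?_
    funext σ y
    simp only [Cx.Ft, Pi.add_apply, Pi.smul_apply, smul_eq_mul]
    ring
  · simp only [Cx.Fu, smul_sum, ← sum_add_distrib]
    refine sum_congr rfl fun j hj => ?_
    rw [← Ew_smul hM, ← Ew_add hM (t j) (xf_smul hM (hρ j) (CZ_nonneg h.ok)) (time_nonneg h hk hj)]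
    congr 1
    funext σ y
    simp only [Cx.Ft, Pi.add_apply, Pi.smul_apply, smul_eq_mul]
    ring

theorem staGlue : StaGlue := fun hW hF n X h m i hm hA s F hI => by
  have o := h.ok
  obtain ⟨-, x, e, -⟩ := hF n X h (m + 1) i F hI.xf
  have k1 : (1 : ℝ) ≤ 1 + X.p.κ := le_add_of_nonneg_right o.κ0'.le
  have a0 : 0 < X.p.a := o.a00.trans o.a0a
  have M0 := zero_le_one.trans (o.M1 (X.p.bt (m + 1) i))
  have g0 := o.g10
  have L0 := o.CE0.trans o.ΛE
  have := hW n X.D s (X.cf (m + 1) i) X.p.τ X.p.c1 (X.R (m + 1)) _ h.dok (x (m + 1) (m + 1) le_rfl) o.τ0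
    (by simp only [Cx.cf, Par.l]; positivity) (inv_le_one_of_one_le₀ (one_le_pow₀ k1))
    (by simp only [Cx.cf, Par.am]; positivity) (o.γ0 _ _).le (by simp only [Cx.cf, Par.gg]; positivity)
    (by simp only [Cx.cf, Par.g2]; positivity) L0
    (le_trans (by simp only [Cx.cf]; gcongr; exact o.γ1 _ _) o.win)
    fun p q => hA (s.mv p q) F ⟨⟨hI.cl.L0, hI.cl.gr, hI.cl.rg, hI.cl.ex, hI.cl.ts⟩, hI.pv, hI.xf, hI.hL, hI.hS⟩
  rwa [e (m + 1) m m.lt_succ_self] at this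

theorem masterGlue : MasterGlue := fun hU hA hF hS hT n X h => by
  have key : ∀ d m i, m + d + 1 = X.p.N → X.p.Val (m + 1) i → X.Sta m i := fun d => by
    induction d with
    | zero => exact fun m i e v => hS n X h m i (by omega) (by
        rw [show m + 1 = X.p.N by omega] at v ⊢; exact hF n X h i v)
    | succ d ih =>
      refine fun m i e v => hS n X h m i (by omega) (hA n X h (m + 1) i (by omega) (by omega) v
        fun i' hi => ?_)
      have v' : X.p.Val (m + 1 + 1) i' := by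
        have e2 : 2 ^ (X.p.N - (m + 1)) = 2 * 2 ^ (X.p.N - (m + 1 + 1)) := by
          rw [← pow_succ']; congr 1; omega
        simp only [Par.Val, Par.bt, Par.Nx] at v hi ⊢
        omega
      exact hU n X h (m + 1) i' (by omega) (by omega) v' (ih (m + 1) i' (by omega) v')
  have N1 := h.ok.N1
  exact hT n X h (key (X.p.N - 1) 0 0 (by omega) (by
    simp only [Par.Val, Par.bt, zero_add]; exact Nat.pow_le_pow_right two_pos (by omega)))

end Crest.Agent.T157.S1
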