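import Crest.Agent.T157.S1Par_97

/-!
# Row 157, part B, block S1 (helper61): the ladder of constants
-/

set_option autoImplicit false

noncomputable section

namespace Crest.Agent.T157.S1

open Filter Topology Set

namespace Lad61

/-- sequences defined from their past -/
theorem ex_seq (F : ℕ → (ℕ → ℝ) → ℝ) (hF : ∀ j x y, (∀ i < j, x i = y i) → F j x = F j y) :
    ∃ x : ℕ → ℝ, ∀ j, x j = F j x := by
  let G : ∀ j : ℕ, (∀ i, i < j → ℝ) → ℝ := fun j r => F j fun i => if h : i < j then r i h else 0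
  refine ⟨Nat.lt_wfRel.wf.fix G, fun j => ?_⟩
  rw [WellFounded.fix_eq]
  exact hF j _ _ fun i hi => dif_pos hi

theorem small (A : ℝ) {b : ℝ} (hb : 0 < b) : ∀ᶠ x in 𝓝[>] (0 : ℝ), A * x ≤ b :=
  mem_nhdsWithin_of_mem_nhds ((by fun_prop : ContinuousAt (fun x : ℝ => A * x) 0).eventually
    (ge_mem_nhds (by simpa using hb)))

/-- a chain `g, Γ 0 g, Γ 1 (Γ 0 g), …` -/
def ch (Γ : ℕ → ℝ → ℝ) (g : ℝ) : ℕ → ℝ
  | 0 => g
  | m + 1 => Γ m (ch Γ g m)

theorem ch_congr {Γ Γ' : ℕ → ℝ → ℝ} (g : ℝ) (j : ℕ) (h : ∀ i < j, Γ i = Γ' i) :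
    ch Γ g j = ch Γ' g j := by
  induction j with
  | zero => rfl
  | succ j ih => rw [ch, ch, ih fun i hi => h i (by omega), h j (by omega)]

theorem ch_pos {Γ : ℕ → ℝ → ℝ} (h : ∀ m x, 0 < x → 0 < Γ m x) {g : ℝ} (hg : 0 < g) (m : ℕ) :
    0 < ch Γ g m := by
  induction m with
  | zero => exact hg
  | succ m ih => exact h m _ ih

end Lad61

open Lad61 in
theorem ladStmt : LadStmt := by
  intro w CP gW cN CNf ηf MEf hw CP1 gW0 cN1 hP
  have CZ0 : 0 < w.CZ := pos_of_mul_pos_left (one_pos.trans_le hw.CZ1) hw.lq0.le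
  have step : ∀ (η : ℝ) (m : ℕ) (γ : ℝ), ∃ ω C γ' : ℝ, 0 < η → 0 < γ → (0 < ω ∧ ω ≤ 1) ∧
      (1 ≤ C ∧ CNf m ω ≤ C) ∧ (0 < γ' ∧ γ' ≤ γ) ∧ 15 * CP * γ' + 2 * w.CZ * ω ≤ γ ∧
      (w.C * w.P * ω ≤ w.κ ∧ 2 * w.C * w.C0 * ω ≤ 1) ∧ 8 * γ' * C ^ 2 ≤ gW ∧
      64 * (2 * ω + 8 * γ' * C ^ 2) * CP ^ 2 ≤ w.lq ∧
      4 * w.C1 ^ 2 * (ω + 9 * γ' * CP) ≤ w.c0 * η ^ 2 := fun η m γ => by
    by_cases h : 0 < η ∧ 0 < γ
    swap
    · exact ⟨0, 0, 0, fun a b => absurd ⟨a, b⟩ h⟩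
    have h1 := half_pos h.2
    have h2 := half_pos hw.lq0
    have h3 := half_pos (mul_pos hw.c00 (pow_pos h.1 2))
    obtain ⟨ω, a0, a1, a2, a3, a4, a5, a6⟩ := (eventually_mem_nhdsWithin.and ((small 1 one_pos).and
      ((small (2 * w.CZ) h1).and ((small (w.C * w.P) hw.κ0').and ((small (2 * w.C * w.C0) one_pos).and
        ((small (128 * CP ^ 2) h2).and (small (4 * w.C1 ^ 2) h3))))))).exists
    obtain ⟨γ', b0, b1, b2, b3, b4, b5⟩ := (eventually_mem_nhdsWithin.and ((small 1 h.2).and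
      ((small (15 * CP) h1).and ((small (8 * max 1 (CNf m ω) ^ 2) gW0).and
        ((small (512 * max 1 (CNf m ω) ^ 2 * CP ^ 2) h2).and (small (36 * w.C1 ^ 2 * CP) h3)))))).exists
    exact ⟨ω, max 1 (CNf m ω), γ', fun _ _ => ⟨⟨a0, by linarith⟩, ⟨le_max_left _ _, le_max_right _ _⟩,
      ⟨b0, by linarith⟩, by linarith, ⟨a3, a4⟩, by linarith, by linarith, by linarith⟩⟩
  choose Ω Cn Γ hs using step
  have big : ∀ η g M₀ : ℝ, ∃ M : ℝ, M₀ ≤ M ∧ MEf (ch (Γ η) g w.N) ≤ M ∧ ∀ m < w.N,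
      Mx' w.C w.P (Cn η m (ch (Γ η) g m)) w.κ w.η0 (Ω η m (ch (Γ η) g m)) ≤ M ∧
      Mx' w.C w.P (Cn η m (ch (Γ η) g m)) 1 w.η0 (ch (Γ η) g (m + 1)) ≤ M ∧
      w.CZ * Cn η m (ch (Γ η) g m) ≤ M ∧ (ch (Γ η) g (m + 1))⁻¹ ≤ M := fun η g M₀ =>
    ((eventually_ge_atTop _).and ((eventually_ge_atTop _).and ((eventually_all_finite (finite_Iio _)).2
      fun m _ => (eventually_ge_atTop _).and ((eventually_ge_atTop _).and
        ((eventually_ge_atTop _).and (eventually_ge_atTop _)))))).exists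
  choose Mn hM using big
  obtain ⟨g0, g00, g01, g02⟩ := (eventually_mem_nhdsWithin.and ((small 2 hw.κ0').and
    (small (1 + w.N * cN) (sub_pos.2 hw.a0a)))).exists
  let g : (ℕ → ℝ) → ℕ → ℝ := fun η => ch (fun j x => ch (Γ (η j)) x w.N) g0
  let γ : (ℕ → ℝ) → ℕ → ℕ → ℝ := fun η m i => ch (Γ (η i)) (g η i) (min m w.N)
  let ω : (ℕ → ℝ) → ℕ → ℕ → ℝ := fun η m i => Ω (η i) m (γ η m i)
  let M : (ℕ → ℝ) → ℕ → ℝ := fun η => ch (fun j x => Mn (η j) (g η j) x) 1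
  let A : ℝ := 8 * w.C * w.CZ * (w.N + 1) ^ 2 * 8 ^ w.N
  let ee : (ℕ → ℝ) → ℕ → ℝ := fun η j => (A * M η j ^ 2)⁻¹
  have lg : ∀ j x y, (∀ i < j, x i = y i) → g x j = g y j := fun j x y h =>
    ch_congr _ _ fun i hi => by rw [h i hi]
  obtain ⟨η, hη⟩ := ex_seq (fun j η => min 1 (ηf j (ω η) (ee η))) fun j x y h => by
    rw [hP.2 j (ω x) (ω y) (ee x) (ee y) (fun m i hi => ?_) fun i hi => ?_]
    · simp only [ω, γ, h i hi, lg i x y fun i' h' => h i' (h'.trans hi)]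
    · simp only [ee, M]
      rw [ch_congr _ _ fun i' h' => ?_]
      rw [h i' (by omega), lg i' x y fun k hk => h k (by omega)]
  have η0 : ∀ j, 0 < η j := fun j => by rw [hη]; exact lt_min one_pos (hP.1 _ _ _)
  have cp : ∀ i x m, 0 < x → 0 < ch (Γ (η i)) x m := fun i x m hx =>
    ch_pos (fun m y hy => (hs _ m y (η0 i) hy).2.2.1.1) hx m
  have ca : ∀ i x, 0 < x → Antitone (ch (Γ (η i)) x) := fun i x hx =>
    antitone_nat_of_succ_le fun m => (hs _ m _ (η0 i) (cp i x m hx)).2.2.1.2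
  have gp : ∀ i, 0 < g η i := ch_pos (fun j x hx => cp j x _ hx) g00
  have γ0 : ∀ m i, 0 < γ η m i := fun m i => cp i _ _ (gp i)
  have γa : ∀ m, Antitone (γ η m) := fun m => antitone_nat_of_succ_le fun i =>
    (ca _ _ (gp _) (Nat.zero_le _)).trans (ca _ _ (gp i) (min_le_right _ _))
  have γg : ∀ m i, γ η m i ≤ g0 := fun m i =>
    (γa m (Nat.zero_le i)).trans (ca _ _ (gp 0) (Nat.zero_le _))
  have h : ∀ m i, _ := fun m i => hs (η i) m (γ η m i) (η0 i) (γ0 m i)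
  have e0 : ∀ m i, m < w.N → γ η m i = ch (Γ (η i)) (g η i) m := fun m i hm => by
    simp only [γ, min_eq_left hm.le]
  have e1 : ∀ m i, m < w.N → γ η (m + 1) i = Γ (η i) m (γ η m i) := fun m i hm => by
    simp only [γ, min_eq_left hm.le, min_eq_left (Nat.succ_le_of_lt hm), ch]
  have Mm : Monotone (M η) := monotone_nat_of_le_succ fun j => (hM _ _ _).1
  have M1 : ∀ j, 1 ≤ M η j := fun j => Mm (Nat.zero_le j)
  have A0 : 0 < A := by have := hw.C1'; positivity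
  refine ⟨⟨w, CP, gW, cN, γ η, ω η, fun m i => Cn (η i) m (γ η m i), M η, ee η, η⟩,
    { o2 := hw
      CP1 := CP1
      gW0 := gW0
      cN1 := cN1
      γ0 := γ0
      γ1 := fun m i => by linarith [γg m i, hw.κ1]
      γa := γa
      ω0 := fun m i => (h m i).1.1
      ω1 := fun m i => (h m i).1.2
      CN1 := fun m i => (h m i).2.1.1
      lγ := fun m i hm => by simpa only [e1 m i hm] using (h m i).2.2.2.1
      lω := fun m i => (h m i).2.2.2.2.1
      lκ := fun m i => by linarith [γg m i]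
      lW := fun m i hm => by simpa only [e1 m i hm] using (h m i).2.2.2.2.2.1
      lT := fun m i hm => by simpa only [e1 m i hm] using (h m i).2.2.2.2.2.2.1
      lB := fun m i hm => by simpa only [e1 m i hm] using (h m i).2.2.2.2.2.2.2
      M1 := M1
      Mm := Mm
      lM := fun m i hm => ?_
      e0 := fun j => by have := M1 j; simp only [ee]; positivity
      ea := fun i j hij => inv_anti₀ (by have := M1 i; positivity) (mul_le_mul_of_nonneg_left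
        (pow_le_pow_left₀ (by linarith [M1 i]) (Mm hij) 2) A0.le)
      le := fun j => (mul_inv_cancel₀ (by have := M1 j; positivity : A * M η j ^ 2 ≠ 0)).le
      h0 := η0
      h1 := fun j => (hη j).trans_le (min_le_left _ _)
      l0 := by
        rw [mul_comm]
        exact (mul_le_mul_of_nonneg_left (γg 1 0) (by positivity)).trans g02 },
    rfl, rfl, rfl, rfl, ⟨fun m i _ => (h m i).2.1.2, fun j => (hη j).trans_le (min_le_right _ _)⟩,
    fun i => by simp only [γ, min_self]; exact (hM (η i) (g η i) (M η i)).2.1⟩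
  obtain ⟨a, b, c, d⟩ := (hM (η i) (g η i) (M η i)).2.2 m hm
  rw [ch, ← e0 m i hm, ← e1 m i hm] at b d
  rw [← e0 m i hm] at a c
  exact ⟨a, b, c, (inv_le_iff_one_le_mul₀' (γ0 _ _)).1 d⟩

end Crest.Agent.T157.S1
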