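import Crest.Agent.T157.S1PB_22
import Crest.Agent.T157.S1Cr_89

/-!
# Row 157, block S1 (helper22): `leafGlue` (and copies `Lf22.fuGlue`, `Lf22.staGlue`, `Lf22.masterGlue`; the
root names are in `S1Fu_6`)
-/

set_option autoImplicit false

noncomputable section

namespace Crest.Agent.T157.S1

open Real Matrix Finset
open Crest.Agent.T157.E Crest.Agent.T157.SL
open Crest.Agent.T157.Eig (nrm opn)
open Crest.Agent.T157.S3 (V Mx)

variable {n : ℕ}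

namespace Lf22

lemma dss (v : V n) : 0 ≤ v ⬝ᵥ v := sum_nonneg fun _ _ => mul_self_nonneg _
lemma pww {p : V n} (hp : ∀ i, 0 ≤ p i) (w : V n) : 0 ≤ p ⬝ᵥ (w * w) :=
  sum_nonneg fun i _ => mul_nonneg (hp i) (mul_self_nonneg _)
lemma Bd0 {D : Dat n} (hD : D.Ok) (s : St n) : 0 ≤ Bd D s := by
  obtain ⟨-, -, -, -, -, h1, h2, -⟩ := crudeStmt n D s hD
  have := dss (del s)
  unfold Bd; positivity
lemma Bb0 {D : Dat n} (hD : D.Ok) (s : St n) (y0 : V n) : 0 ≤ Bb D s y0 :=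
  add_nonneg (Bd0 hD s) (sq_nonneg _)
lemma Ex0 {D : Dat n} (hD : D.Ok) (s : St n) : 0 ≤ Ex D s :=
  (crudeStmt n D s hD).2.2.2.2.2.2.2.2.2.1
lemma Mx0 {C : ℝ} (hC : 0 ≤ C) (P CN κ η0 ω : ℝ) : 0 ≤ Mx' C P CN κ η0 ω :=
  mul_nonneg hC (sq_nonneg _)
lemma Mx_mono {C C' : ℝ} (h : C ≤ C') (P CN κ η0 ω : ℝ) :
    Mx' C P CN κ η0 ω ≤ Mx' C' P CN κ η0 ω := mul_le_mul_of_nonneg_right h (sq_nonneg _)
lemma Mx_sq {C C' P CN κ η0 ω ec : ℝ} (hC : 0 ≤ C) (h : C ≤ C') (he : 0 ≤ ec)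
    (h1 : Mx' C' P CN κ η0 ω ^ 2 * ec ≤ 1) : Mx' C P CN κ η0 ω ^ 2 * ec ≤ 1 :=
  (mul_le_mul_of_nonneg_right (pow_le_pow_left₀ (Mx0 hC ..) (Mx_mono h ..) 2) he).trans h1

end Lf22
open Lf22

theorem leafGlue : LeafGlue := by
  intro hB hT hI hS K0 κ0 hκ
  obtain ⟨C1, h1, b1⟩ := hB K0 κ0 hκ
  obtain ⟨C2, h2, b2⟩ := hT K0 κ0 hκ
  obtain ⟨C3, h3, b3⟩ := hI K0 κ0 hκ
  obtain ⟨C4, h4, b4⟩ := hS
  obtain ⟨C, hC, l1, l2, l3, l4⟩ : ∃ C : ℝ, 1 ≤ C ∧ C1 ≤ C ∧ C2 ≤ C ∧ C3 ≤ C ∧ C4 ≤ C :=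
    ⟨C1 + C2 + C3 + C4, by linarith, by linarith, by linarith, by linarith, by linarith⟩
  refine ⟨C, hC, ?_, ?_, ?_, ?_⟩
  · intro n D s y0 e A hD hc hb
    obtain ⟨a1, -, -, a2, a3⟩ := b1 n D s y0 e A hD hc hb
    have := mul_le_mul_of_nonneg_right l1 (Bb0 hD s y0)
    exact ⟨a1.trans this, a2.trans this, a3.trans this⟩
  · intro n D s y0 p al q w a e e1 ec CN C0 K l κ c ω φ W Ω G hD hc hb hA hp a0 a1 e0 e10 e1c
      CN1 C00 K1 l0 κ0' κ1 c0 ω0 ω1 hs hM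
    have hP : 0 ≤ D.P := zero_le_one.trans hD.P1
    have t := b2 n D s y0 p al q w a e e1 ec CN C0 K l κ c ω φ W Ω G hD hc hb hA hp a0 a1 e0 e10 e1c
      CN1 C00 K1 l0 κ0' κ1 c0 ω0 ω1
      ((mul_le_mul_of_nonneg_right (mul_le_mul_of_nonneg_right l2 hP) (sqrt_nonneg _)).trans hs)
      (Mx_sq (zero_le_one.trans h2) l2 (e10.trans e1c) hM)
    have u1 := mul_le_mul_of_nonneg_right (mul_le_mul_of_nonneg_right l2 C00) (pww hp w)
    have u2 := mul_le_mul_of_nonneg_right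
      (add_le_add_left (div_le_div_of_nonneg_right l2 κ0'.le) (1 / c)) (dss (del s))
    have u3 := mul_le_mul_of_nonneg_right (Mx_mono l2 D.P CN κ D.η0 ω)
      (add_nonneg (Ex0 hD s) (zero_le_one.trans K1))
    linarith
  · intro n D s y0 p al q w a e e1 ec CN C0 K l ω φ W Ω G hD hc hb hA hp e10 e1c CN1 C00 K1 l0
      ω0 ω1 hM
    obtain ⟨t1, t2⟩ := b3 n D s y0 p al q w a e e1 ec CN C0 K l ω φ W Ω G hD hc hb hA hp e10 e1c
      CN1 C00 K1 l0 ω0 ω1 (Mx_sq (zero_le_one.trans h3) l3 (e10.trans e1c) hM)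
    have u1 := mul_le_mul_of_nonneg_right (mul_le_mul_of_nonneg_right l3 C00) (pww hp w)
    have u3 := mul_le_mul_of_nonneg_right (Mx_mono l3 D.P CN 1 D.η0 ω)
      (add_nonneg (Ex0 hD s) (zero_le_one.trans K1))
    refine ⟨by linarith, t2.trans (mul_le_mul_of_nonneg_right l3 ?_)⟩
    have := Bb0 hD s y0
    positivity
  · intro n J P y0 p a0 al q k v lq C0 C1' CP e η t t' ε τ S Δ zs hJ ho hL q0 q1 C00 C11 CP1 e0
      η0 ε0 τ0 τ1 hS' hΔ hz hzt ht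
    obtain ⟨w, w1, w2, w3⟩ := b4 n J P y0 p a0 al q k v lq C0 C1' CP e η t t' ε τ S Δ zs hJ ho hL
      q0 q1 C00 C11 CP1 e0 η0 ε0 τ0 τ1 hS' hΔ hz hzt ht
    refine ⟨w, w1, w2, le_trans (mul_le_mul_of_nonneg_left ?_ τ0.le) w3⟩
    have := mul_le_mul_of_nonneg_right (mul_le_mul_of_nonneg_right
      (mul_le_mul_of_nonneg_right l4 (zero_le_one.trans C11)) (add_nonneg e0 (sqrt_nonneg ε)))
      (add_nonneg (dss zs) (dss Δ))
    linarith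

namespace Lf22

lemma Ft_eq (X : Cx n) (m i : ℕ) (F : ℕ → Fy n) (j : ℕ) : X.Ft m i F j =
    X.p.γ m i • (fun _ y => dG (X.O.G j) y ^ 2 : Fy n) +
      (big n • (fun _ => far (X.O.G j) (X.z.T j) : Fy n) + X.p.CZ • (X.O.zn j + F j) +
        if j = X.p.N then X.fe else 0) := by
  funext σ y
  by_cases h : j = X.p.N <;> simp [Cx.Ft, h] <;> ring

section mt
variable (hM : MtStmt)
include hM

lemma xf_add {F G : Fy n} (hF : XF F) (hG : XF G) : XF (F + G) :=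
  ((hM n).2.2.2.2.2.1 F G 0 hF hG le_rfl).1
lemma xf_smul {F : Fy n} (hF : XF F) {c : ℝ} (hc : 0 ≤ c) : XF (c • F) :=
  ((hM n).2.2.2.2.2.1 F F c hF hF hc).2
lemma xf_zero : XF (0 : Fy n) := (hM n).2.2.2.2.2.2.1
lemma xf_Ew {F : Fy n} (hF : XF F) {t : ℝ} (ht : 0 ≤ t) : XF (Ew t F) := (hM n).2.1 F t hF ht
lemma Ew_add {F G : Fy n} (hF : XF F) (hG : XF G) {t : ℝ} (ht : 0 ≤ t) :
    Ew t (F + G) = Ew t F + Ew t G := (hM n).2.2.2.1 F G t hF hG ht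
lemma Ew_smul (F : Fy n) (t c : ℝ) : Ew t (c • F) = c • Ew t F := (hM n).2.2.2.2.1 F t c
lemma Ew_zero (t : ℝ) : Ew t (0 : Fy n) = 0 := by
  simpa using Ew_smul hM (0 : Fy n) t 0
lemma xf_sum {S : Finset ℕ} {F : ℕ → Fy n} (h : ∀ j ∈ S, XF (F j)) : XF (∑ j ∈ S, F j) :=
  sum_induction F XF (fun _ _ => xf_add hM) (xf_zero hM) h
lemma Ew_sum {S : Finset ℕ} {F : ℕ → Fy n} (h : ∀ j ∈ S, XF (F j)) {t : ℝ} (ht : 0 ≤ t) :
    Ew t (∑ j ∈ S, F j) = ∑ j ∈ S, Ew t (F j) := by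
  induction S using Finset.induction_on with
  | empty => simpa using Ew_zero hM t
  | insert a S ha ih =>
    have h' : ∀ j ∈ S, XF (F j) := fun j hj => h j (mem_insert_of_mem hj)
    rw [sum_insert ha, sum_insert ha, Ew_add hM (h a (mem_insert_self _ _)) (xf_sum hM h') ht,
      ih h']
lemma Ew_mono {F G : Fy n} (hF : XF F) (hG : XF G) {t : ℝ} (ht : 0 ≤ t) :
    Ew t F ≤ Ew t (F + G) := by
  rw [Ew_add hM hF hG ht]
  exact le_add_of_nonneg_right fun σ y => (xf_Ew hM hG ht).2 σ y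

lemma xf_Ft {X : Cx n} (hX : X.Ok) (m i : ℕ) {F : ℕ → Fy n} (hF : ∀ j, XF (F j)) (j : ℕ) :
    XF (X.Ft m i F j) := by
  rw [Ft_eq]
  have hd := (hM n).2.2.2.2.2.2.2.1 (X.O.G j) (X.z.T j)
  refine xf_add hM (xf_smul hM hd.1 (hX.ok.γ0 m i).le) (xf_add hM (xf_add hM
    (xf_smul hM hd.2 (zero_le_one.trans (big1 n)))
    (xf_smul hM (xf_add hM (hX.es.xz j) (hF j)) hX.ok.CZ0)) ?_)
  split_ifs
  exacts [hX.en.xf, xf_zero hM]

end mt

lemma time0 {X : Cx n} (hX : X.Ok) {lo k j : ℕ} (hk : k ≤ lo) (hj : j ∈ Icc lo X.p.N) :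
    0 ≤ ((j : ℝ) - k) * X.p.τ := by
  have : (k : ℝ) ≤ j := by exact_mod_cast hk.trans (mem_Icc.1 hj).1
  exact mul_nonneg (by linarith) hX.ok.τ0.le

end Lf22

theorem Lf22.fuGlue : FuGlue := by
  intro hM n X hX m i F hF
  have hFt := fun m i => xf_Ft hM hX m i hF
  refine ⟨hFt m i, fun lo k hk => xf_sum hM fun j hj => xf_Ew hM (hFt m i j) (time0 hX hk hj),
    fun lo k hk => ?_, fun k hk => ?_, fun m' i' lo k hk hγ => ?_, fun ρ lo k hk hρ => ?_⟩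
  · unfold Cx.Fu
    rw [Ew_sum hM (fun j hj => xf_Ew hM (hFt m i j) (time0 hX hk hj)) hX.ok.τ0.le]
    refine sum_congr rfl fun j hj => ?_
    rw [(hM n).2.2.1 _ _ _ (hFt m i j) hX.ok.τ0.le (time0 hX hk hj)]
    congr 1; push_cast; ring
  · unfold Cx.Fu
    rw [← insert_Icc_add_one_left_eq_Icc hk, sum_insert (by simp), sub_self, zero_mul, (hM n).1]
  · refine sum_le_sum fun j hj => ?_
    have e : X.Ft m i F j = X.Ft m' i' F j +
        (X.p.γ m i - X.p.γ m' i') • (fun _ y => dG (X.O.G j) y ^ 2 : Fy n) := by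
      rw [Ft_eq, Ft_eq, sub_smul]; abel
    rw [e]
    exact Ew_mono hM (hFt m' i' j) (xf_smul hM ((hM n).2.2.2.2.2.2.2.1 (X.O.G j) 0).1
      (sub_nonneg.2 hγ)) (time0 hX hk hj)
  · unfold Cx.Fu
    rw [smul_sum, ← sum_add_distrib]
    refine sum_congr rfl fun j hj => ?_
    have e : X.Ft m i (F + ρ) j = X.Ft m i F j + X.p.CZ • ρ j := by
      rw [Ft_eq, Ft_eq, Pi.add_apply, ← add_assoc (X.O.zn j), smul_add _ _ (ρ j)]; abel
    rw [e, Ew_add hM (hFt m i j) (xf_smul hM (hρ j) hX.ok.CZ0) (time0 hX hk hj), Ew_smul hM]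

/-- the states of a window do not see the fields -/
lemma Cx.In.mv {X : Cx n} {m i : ℕ} {s : St n} {F : ℕ → Fy n} (h : X.In m i s F) (p q : V n) :
    X.In m i (s.mv p q) F :=
  ⟨⟨h.cl.L0, h.cl.gr, h.cl.rg, h.cl.ex, h.cl.ts⟩, h.pv, h.xf, h.hL, h.hS⟩

theorem Lf22.staGlue : StaGlue := by
  intro hW hF n X hX m i _ hA s F hI
  obtain ⟨-, f2, f3, -⟩ := hF n X hX (m + 1) i F hI.xf
  have h := hX.ok
  have w := hW n X.D s (X.cf (m + 1) i) X.p.τ X.p.c1 (X.R (m + 1))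
    (X.Fu (m + 1) (m + 1) (X.Ft (m + 1) i F)) hX.dok (f2 _ _ le_rfl) h.τ0 (h.l_pos _).le (h.l_le _)
    (h.am_pos _).le (h.γ0 _ _).le (h.gg0 _) (h.g20 _ _) h.Λ0
    (by
      have := mul_le_mul_of_nonneg_right (h.γ1 (m + 1) i) (sq_nonneg X.p.τ)
      have := h.win
      show X.p.τ / 2 + 6 * (X.p.Λ + X.p.γ (m + 1) i) * X.p.τ ^ 2 ≤ X.p.c1
      linarith)
    (fun p q => hA (s.mv p q) F (hI.mv p q))
  rw [f3 (m + 1) m (Nat.lt_succ_self m)] at w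
  exact w

theorem Lf22.masterGlue : MasterGlue := by
  intro hU hA hF hS hT n X hX
  have key : ∀ d m, m + d = X.p.N → 1 ≤ m → ∀ i, X.p.Val m i → X.Act m i := by
    intro d
    induction d with
    | zero => intro m hm _ i hv; obtain rfl : m = X.p.N := hm; exact hF n X hX i hv
    | succ d ih =>
      intro m hm h1 i0 hv
      have hlt : m < X.p.N := by omega
      exact hA n X hX m i0 h1 hlt hv fun i hx => hU n X hX m i h1 hlt (hx.val hlt hv)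
        (hS n X hX m i hlt (ih (m + 1) (by omega) (by omega) i (hx.val hlt hv)))
  have hN := hX.ok.N1
  exact hT n X hX (hS n X hX 0 0 hN
    (key (X.p.N - 1) 1 (by omega) le_rfl 0 (Par.val_zero 1)))

end Crest.Agent.T157.S1

end
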