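import Crest.Agent.T157.S1Par_97

/-!
# Row 157, part B, block S1 (helper84): `PreGlue`, `FinGlue`
-/

set_option autoImplicit false

noncomputable section

namespace Crest.Agent.T157.S1

open Real Matrix Finset
open Crest.Agent.T157.E Crest.Agent.T157.SL
open Crest.Agent.T157.Eig (nrm)

namespace PF84

variable {p : Par} (h : p.Ok)
include h

theorem a0 : 0 < p.a := h.a00.trans h.a0a
theorem k1 : 1 ≤ 1 + p.κ := by linarith [h.κ0']

theorem a3 : p.a * (1 + p.κ) ^ (3 * p.N) ≤ p.ab ∧ 0 < p.ab := by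
  have h1 := mul_le_mul_of_nonneg_left (pow_le_pow_right₀ (k1 h) (Nat.le_succ (3 * p.N))) (a0 h).le
  have h2 : 0 < p.a * (1 + p.κ) ^ (3 * p.N) := mul_pos (a0 h) (pow_pos (by linarith [h.κ0']) _)
  have h3 : 0 < p.ab := (mul_pos_iff_of_pos_right (by linarith [h.η01])).1 (h2.trans_le (h1.trans h.ra))
  exact ⟨(h1.trans h.ra).trans (mul_le_of_le_one_right h3.le (by linarith [h.η00])), h3⟩

theorem am {m : ℕ} (hm : m ≤ p.N) : 0 ≤ p.am m ∧ p.am m ≤ 1 :=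
  ⟨mul_nonneg (a0 h).le (pow_nonneg (by linarith [h.κ0']) _),
    (mul_le_mul_of_nonneg_left (pow_le_pow_right₀ (k1 h) (by omega)) (a0 h).le).trans
      ((a3 h).1.trans h.ab1)⟩

theorem lN : 1 / 2 ≤ p.l p.N ∧ p.l p.N ≤ 1 ∧ p.am p.N ≤ p.l p.N * p.ab := by
  have h1 : 1 ≤ (1 + p.κ) ^ (2 * p.N) := one_le_pow₀ (k1 h)
  refine ⟨?_, inv_le_one_of_one_le₀ h1, ?_⟩
  · rw [one_div]
    exact inv_anti₀ (by linarith) ((pow_le_pow_right₀ (k1 h) (Nat.le_succ _)).trans h.rl)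
  · rw [Par.l, le_inv_mul_iff₀ (by linarith), Par.am, mul_left_comm, ← pow_add,
      show 2 * p.N + p.N = 3 * p.N by ring]
    exact (a3 h).1

theorem CZ0 : 0 < p.CZ := (mul_pos_iff_of_pos_right h.lq0).1 (by linarith [h.CZ1])

theorem c1 : p.c1 ≤ 1 := by
  have h1 : 1 * 1 * p.τ' ≤ p.C * p.C0 ^ 2 * p.τ' := mul_le_mul_of_nonneg_right
    (mul_le_mul h.C1' (one_le_pow₀ h.C01) zero_le_one (by linarith [h.C1'])) h.t0.le
  have h2 := mul_le_mul_of_nonneg_left h.lq1 h.t0.le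
  have h3 := mul_le_mul_of_nonneg_right h.C11 h.c10.le
  linarith [h.t1, h.c1T, h.lq1, h.c10]

theorem Λ4 : 4 * p.C ≤ p.Λ := by
  have h1 : p.C ≤ p.C / p.κ := le_div_self (by linarith [h.C1']) h.κ0' h.κ1
  have h2 := one_div_pos.2 h.c10
  have h3 := div_nonneg (zero_le_one.trans h.Cu1) h.κ0'.le
  have h4 := mul_nonneg (CZ0 h).le h.CM0
  linarith [h.hΛ]

theorem KK {z : Cap} {n : ℕ} (c : z.Ok p n) : z.K ≤ z.Kb := by
  have h1 : 1 * 1 * 1 ≤ p.C * 8 ^ p.N * p.M (2 ^ p.N) := mul_le_mul (mul_le_mul h.C1'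
    (one_le_pow₀ (by norm_num)) zero_le_one (by linarith [h.C1'])) (h.M1 _) zero_le_one
    (by have := h.C1'; positivity)
  nlinarith [c.Kb, c.K1]

omit h in
theorem exp_ge (n : ℕ) {x : ℝ} (hx : lg n ≤ x) : 13 * n + x ≤ exp (x / 2) := by
  have n0 : (0 : ℝ) ≤ n := n.cast_nonneg
  have h1 : ((n : ℝ) + 2) ^ 4 ≤ exp (x / 4) := by
    rw [← exp_log (show (0 : ℝ) < n + 2 by linarith), ← exp_nat_mul, exp_le_exp]
    unfold lg at hx; push_cast; linarith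
  have h2 := add_one_le_exp (x / 4)
  have h3 : 32 * (n : ℝ) + 16 ≤ (n + 2) ^ 4 := by nlinarith [sq_nonneg (n : ℝ), pow_nonneg n0 3, pow_nonneg n0 4]
  rw [show x / 2 = x / 4 + x / 4 by ring, exp_add]
  nlinarith

omit h in
theorem big_ge (n : ℕ) : 13 * n + lg n ≤ big n := by
  have n0 : (0 : ℝ) ≤ n := n.cast_nonneg
  have := log_le_sub_one_of_pos (show (0 : ℝ) < n + 2 by linarith)
  unfold lg big
  nlinarith [sq_nonneg (n : ℝ), pow_nonneg n0 3, pow_nonneg n0 4]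

end PF84

open PF84

/-- the martingale term dominates the indicator of a far field and the term of the end -/
theorem PF84.xi_ge (hF : FuStmt) {n : ℕ} {X : Cx n} (hX : X.Ok) {m i : ℕ} (hm : m ≤ X.p.N)
    {F : ℕ → Fy n} (xf : ∀ m', XF (F m')) (σ : Cube n) (y : S3.V n) :
    big n * far (X.O.G m) (X.z.T m) y + (if m = X.p.N then X.fe σ y else 0) ≤
      X.Fu m m (X.Ft m i F) σ y := by
  obtain ⟨-, f2, -, f4, -⟩ := hF n X hX m i F xf
  have h1 := (f2 (m + 1) m m.le_succ).2 σ y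
  have h2 := mul_nonneg (hX.ok.γ0 m i).le (sq_nonneg (dG (X.O.G m) y))
  have h3 := mul_nonneg (CZ0 hX.ok).le (add_nonneg ((hX.es.xz m).2 σ y) ((xf m).2 σ y))
  rw [f4 m hm, Pi.add_apply, Pi.add_apply, Cx.Ft]
  linarith

theorem PF84.far_nn {n : ℕ} (G : Set (S3.V n)) (t : ℝ) (y : S3.V n) : 0 ≤ big n * far G t y :=
  mul_nonneg (by unfold big; positivity) (by unfold far; split_ifs <;> norm_num)

theorem preGlue : PreGlue := fun hC hM hF n X hX m i s F m1 mN I => by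
  have h := hX.ok
  obtain ⟨pr, -, -, cA, cH, cy, cU, c6, cE, cx, cD, c4, -, cc⟩ := hC n X.D s hX.dok
  replace cc := cc _ _ I.cl
  obtain ⟨T0, Tn, -⟩ := hX.cap.Tn m mN
  obtain ⟨a0, a1⟩ := am h mN
  have n0 : (0 : ℝ) ≤ n := n.cast_nonneg
  have d0 := Eig.dot_self_nonneg (del s)
  have D0 := Eig.dot_self_nonneg (Del X.D s)
  have S0 : (0 : ℝ) ≤ #s.S := Nat.cast_nonneg _
  have hfe : ∀ σ, 0 ≤ if m = X.p.N then X.fe σ s.y else 0 := fun σ => by
    split_ifs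
    exacts [hX.en.xf.2 σ s.y, le_rfl]
  have hξ : big n * far (X.O.G m) (X.z.T m) s.y ≤
      mean (nu X.D s) fun σ => X.Fu m m (X.Ft m i F) σ s.y :=
    pr.hv.le_mean fun σ => (le_add_of_nonneg_right (hfe σ)).trans (xi_ge hF hX mN I.xf σ s.y)
  -- it is enough to dominate the two negative terms
  have key : X.p.c1 * (Del X.D s ⬝ᵥ Del X.D s) + X.p.am m * HH X.D s ≤
      X.p.Λ * (del s ⬝ᵥ del s) + exp ((Dz X.D s - X.z.T m) / 2) +
        big n * far (X.O.G m) (X.z.T m) s.y → X.ActAt m i s F := fun k => by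
    have b1 : 0 ≤ X.p.l m * AA X.D s :=
      mul_nonneg (inv_nonneg.2 (pow_nonneg (by linarith [h.κ0']) _)) cA
    have b2 : 0 ≤ X.p.γ m i * (Bd X.D s + mean (nu X.D s) (U6 X.D s)) :=
      mul_nonneg (h.γ0 m i).le (by unfold Bd; positivity)
    have b3 : 0 ≤ X.p.gg m * Eg X.D s s.Th := mul_nonneg (mul_nonneg h.g10 (by positivity)) (cE _)
    have b4 : 0 ≤ X.p.g2 m i * Ex X.D s :=
      mul_nonneg (mul_nonneg (by positivity) (zero_le_one.trans (h.M1 _))) cx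
    have b5 : 0 ≤ X.R m := mul_nonneg (by linarith [(Nat.cast_le (α := ℝ)).2 mN])
      (by linarith [KK h hX.cap, hX.cap.K1])
    simp only [Cx.ActAt, Pot, Cx.cf]
    linarith
  have L1 : 1 ≤ X.p.Λ := by linarith [Λ4 h, h.C1']
  have crude : X.p.c1 * (Del X.D s ⬝ᵥ Del X.D s) + X.p.am m * HH X.D s ≤
      X.p.Λ * (del s ⬝ᵥ del s) + 12 * n + Dz X.D s := by
    have b1 := sq_sqrt n0
    have b2 := Eig.nrm_sq (del s)
    have b3 := I.hL
    nlinarith [mul_le_mul_of_nonneg_right (c1 h) D0, mul_le_mul_of_nonneg_right a1 cH,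
      mul_le_mul_of_nonneg_right L1 d0, sq_nonneg (√n - s.L), sq_nonneg (2 * √n - nrm (del s))]
  have e0 := exp_pos ((Dz X.D s - X.z.T m) / 2)
  have f0 := far_nn (X.O.G m) (X.z.T m) s.y
  rcases le_or_gt (lg n) (Dz X.D s - X.z.T m) with h1 | h1
  · exact Or.inl (key (by linarith [exp_ge n h1]))
  rcases lt_or_ge (X.z.T m) (dG (X.O.G m) s.y ^ 2) with h2 | h2
  · refine Or.inl (key ?_)
    rw [far, if_pos h2]
    linarith [big_ge n]
  obtain ⟨y0, y1, y2⟩ := (hM n).2.2.2.2.2.2.2.2 (X.O.G m) s.y (hX.na n _ X.D.f X.z.T0 (m * X.p.τ) _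
    (fun x => exp_pos _) hX.es.bas0 hX.wm (mul_nonneg m.cast_nonneg h.τ0.le)
    (mul_le_mul_of_nonneg_right (Nat.cast_le.2 mN) h.τ0.le) (hX.es.mass m m1 mN)).1
  have hS : Dz X.D s + s.L ^ 2 + #s.S + nrm (s.y - y0) ^ 2 ≤ 4 * X.z.T m + lg n + 1 := by
    linarith [I.hL, I.hS]
  rcases le_or_gt (del s ⬝ᵥ del s) (Dz X.D s + s.L ^ 2 + #s.S + nrm (s.y - y0) ^ 2) with h3 | h3
  · exact Or.inr ⟨y0, y1, y2, hS, h3.trans hS, by linarith⟩
  obtain ⟨-, b2, b3⟩ := hX.lf.b1 n X.D s y0 _ _ hX.dok I.cl (hX.es.bas m m1 mN y0 y1)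
  have b4 := mul_le_mul_of_nonneg_left (show Bb X.D s y0 ≤ 2 * (del s ⬝ᵥ del s) by
    unfold Bb Bd; linarith) (zero_le_one.trans h.C1')
  exact Or.inl (key (by
    linarith [mul_le_mul_of_nonneg_right (c1 h) D0, mul_le_mul_of_nonneg_right a1 cH,
      mul_le_mul_of_nonneg_right (Λ4 h) d0]))

theorem finGlue : FinGlue := fun hC hCl hF hP n X hX i hi s F I => by
  have h := hX.ok
  refine (hP n X hX _ i s F h.N1 le_rfl I).elim id fun ⟨y0, _, _, n1, n2, n3⟩ => ?_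
  obtain ⟨pr, -, -, cA, cH, cy, cU, c6, cE, cx, -⟩ := hC n X.D s hX.dok
  obtain ⟨l1, l2, l3⟩ := lN h
  have d0 := Eig.dot_self_nonneg (del s)
  have D0 := Eig.dot_self_nonneg (Del X.D s)
  have S0 : (0 : ℝ) ≤ #s.S := Nat.cast_nonneg _
  have N1 : (1 : ℝ) ≤ X.p.N := by exact_mod_cast h.N1
  have ht : 4 * X.z.T X.p.N + lg n + 1 ≤ X.z.t X.p.N := by
    have b1 := hX.cap.h1 _ le_rfl 0 (Nat.zero_le _)
    have b2 : 1 * 1 ≤ X.p.C * X.p.C1 ^ 2 :=
      mul_le_mul h.C1' (one_le_pow₀ h.C11) zero_le_one (by linarith [h.C1'])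
    have b3 := mul_le_mul_of_nonneg_right b2 (d0.trans n2)
    have b4 : X.p.η 0 ^ 2 ≤ 1 := pow_le_one₀ (h.h0 0).le (h.h1 0)
    have b5 : 0 ≤ X.z.t X.p.N := nonneg_of_mul_nonneg_right (a := X.p.η 0 ^ 2) (by linarith)
      (pow_pos (h.h0 0) 2)
    linarith [mul_le_mul_of_nonneg_right b4 b5]
  have E := hX.en.fin i hi X.D s hX.dok rfl hX.hP hX.hη hX.hθ ((hCl n X.D s hX.dok).1 _ _ _ _ I.cl
    (mul_le_mul_of_nonneg_right (by nlinarith) (h.e0 _).le) le_rfl)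
    ⟨by linarith [sq_nonneg s.L, sq_nonneg (nrm (s.y - y0))], n2.trans ht,
      by linarith [sq_nonneg (nrm (s.y - y0))], by linarith [sq_nonneg s.L, sq_nonneg (nrm (s.y - y0))]⟩
  have hξ : (mean (nu X.D s) fun σ => X.fe σ s.y) ≤
      mean (nu X.D s) fun σ => X.Fu X.p.N X.p.N (X.Ft X.p.N i F) σ s.y := pr.hv.mean_mono fun σ => by
    have := xi_ge (i := i) hF hX le_rfl I.xf σ s.y
    rw [if_pos rfl] at this
    linarith [far_nn (X.O.G X.p.N) (X.z.T X.p.N) s.y]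
  have b1 : 0 ≤ X.p.γ X.p.N i * (Bd X.D s + mean (nu X.D s) (U6 X.D s)) + X.p.g1 * Eg X.D s s.Th +
      X.p.M (i + 1) * Ex X.D s + X.p.CE * (del s ⬝ᵥ del s) + mean (nu X.D s) fun σ => X.fe σ s.y := by
    have := h.γ0 X.p.N i
    have := h.g10
    have := cE s.Th
    have := h.M1 (i + 1)
    have := h.CE0
    have := pr.hv.mean_nonneg fun σ => hX.en.xf.2 σ s.y
    unfold Bd; positivity
  have b2 := mul_le_mul_of_nonneg_left E (show 0 ≤ X.p.l X.p.N by linarith)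
  have b3 := mul_le_mul_of_nonneg_right (show X.p.c1 ≤ X.p.l X.p.N * X.p.cE by
    nlinarith [h.c1E, h.c10]) D0
  simp only [Cx.ActAt, Pot, Cx.cf, Cx.R, Par.gg, Par.g2, Par.bt, Nat.sub_self, pow_zero, mul_one,
    one_mul, sub_self, zero_add]
  linarith [mul_le_mul_of_nonneg_right l2 b1, mul_le_mul_of_nonneg_right l3 cH,
    mul_le_mul_of_nonneg_right h.ΛE d0, exp_pos ((Dz X.D s - X.z.T X.p.N) / 2), KK h hX.cap,
    mul_le_mul_of_nonneg_right l2 (zero_le_one.trans hX.cap.K1)]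

end Crest.Agent.T157.S1

end
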