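import Crest.Agent.T157.S1Par_97

/-!
# Row 157, part B, block S1 (helper71): the scalars and the caps
-/

set_option autoImplicit false

noncomputable section

namespace Crest.Agent.T157.S1

open Real Filter

namespace Sc71

lemma ev (A : ℝ) {α β : ℝ} (h : α < β) :
    ∀ᶠ n : ℕ in atTop, A * ((n : ℝ) ^ α * log (n + 2)) ≤ (n : ℝ) ^ β := by
  have h1 := tendsto_natCast_atTop_atTop.eventually
    ((isLittleO_log_rpow_atTop (sub_pos.2 h)).bound (c := (2 * |A| + 1)⁻¹) (by positivity))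
  filter_upwards [h1, eventually_ge_atTop 2] with n h1 h2
  have n2 : (2 : ℝ) ≤ n := by exact_mod_cast h2
  have l0 : 0 ≤ log n := log_nonneg (by linarith)
  have l1 : log (n + 2) ≤ 2 * log n := by
    rw [← log_rpow (by linarith), rpow_two]
    exact log_le_log (by linarith) (by nlinarith)
  have l2 : 0 ≤ log (n + 2) := log_nonneg (by linarith)
  rw [norm_of_nonneg l0, norm_of_nonneg (by positivity), le_inv_mul_iff₀ (by positivity)] at h1
  have e : (n : ℝ) ^ β = (n : ℝ) ^ α * (n : ℝ) ^ (β - α) := by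
    rw [← rpow_add (by linarith)]; congr 1; ring
  rw [e, mul_left_comm]
  refine mul_le_mul_of_nonneg_left ?_ (by positivity)
  have := mul_le_mul (le_abs_self A) l1 l2 (abs_nonneg A)
  linarith

lemma one_le_log {n : ℕ} (h : 1 ≤ n) : 1 ≤ log (n + 2) := by
  have n1 : (1 : ℝ) ≤ n := by exact_mod_cast h
  rw [le_log_iff_exp_le (by linarith)]
  linarith [exp_one_lt_d9]

lemma pow_le {x : ℝ} (hx : 0 ≤ x) (j : ℕ) : (1 + x) ^ j ≤ exp (j * x) := by
  rw [exp_nat_mul]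
  exact pow_le_pow_left₀ (by linarith) (by linarith [add_one_le_exp x]) j

end Sc71

open Sc71 in
theorem capStmt : CapStmt := by
  intro p c e H c0 c1 e0
  have cm : ∀ m : ℕ, 0 < c / 16 ^ m ∧ c / 16 ^ m ≤ 1 := fun m =>
    ⟨by positivity, (div_le_self c0.le (one_le_pow₀ (by norm_num))).trans c1⟩
  have cs : ∀ m : ℕ, c / 16 ^ (m + 1) = c / 16 ^ m / 16 := fun m => by rw [pow_succ, div_div]
  have fin : ∀ (N : ℕ) {P : ℕ → ℕ → Prop}, (∀ m, ∀ᶠ n in atTop, P n m) →
      ∀ᶠ n in atTop, ∀ m ≤ N, P n m := fun N P h =>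
    (Set.finite_Iic N).eventually_all.2 fun m _ => h m
  have e1 := fin p.N fun m => fin (2 ^ p.N) fun j =>
    ev (40 * p.C * p.C1 ^ 2 * 21 / p.η j ^ 2)
      (show 1 - c / 16 ^ m < 1 - c / 16 ^ m / 2 by linarith [cm m])
  have e2 := fin p.N fun m => ev (p.CP ^ 2)
    (show 1 - c / 16 ^ m / 2 < 1 - c / 16 ^ m / 8 by linarith [cm m])
  have e3 := fin p.N fun m => fin (2 ^ p.N) fun i => ev (2 + 2 * p.CN m i ^ 2)
    (show 1 - c / 16 ^ m / 8 < 1 - c / 16 ^ (m + 1) by linarith [cm m, cs m])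
  have e4 := fin p.N fun m => ev (1 + p.CP)
    (show 1 - c / 16 ^ m / 2 < 1 - c / 16 ^ (m + 1) by linarith [cm m, cs m])
  have e5 := fin p.N fun m => ev (p.cN * (5 + p.cN))
    (show 1 - c / 16 ^ m < 1 - c / 16 ^ (m + 1) by linarith [cm m, cs m])
  filter_upwards [e1, e2, e3, e4, e5, eventually_ge_atTop 1] with n e1 e2 e3 e4 e5 hn
  have n1 : (1 : ℝ) ≤ n := by exact_mod_cast hn
  have l1 := one_le_log hn
  have mono : ∀ {α β : ℝ}, α ≤ β → (n : ℝ) ^ α ≤ (n : ℝ) ^ β := rpow_le_rpow_of_exponent_le n1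
  have up : ∀ {α β : ℝ}, α ≤ β → (n : ℝ) ^ α ≤ (n : ℝ) ^ β * log (n + 2) := fun h =>
    (mono h).trans (le_mul_of_one_le_right (by positivity) l1)
  have up' : ∀ {α : ℝ}, 0 ≤ α → log (n + 2) ≤ (n : ℝ) ^ α * log (n + 2) := fun h =>
    le_mul_of_one_le_left (by linarith) (one_le_rpow n1 h)
  have C1 := H.C1'
  have CP := H.CP1
  have cN := H.cN1
  refine ⟨one_le_rpow n1 e0.le, fun m _ => ⟨by simp only [capOf]; positivity, ?_, ?_⟩,
    fun m hm j hj => ?_, fun m hm => ?_, fun m hm i hi => ?_, fun m hm => ?_, le_rfl,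
    mono (by linarith [cs 0, show c / 16 ^ 0 = c by simp]), fun m m1 hm => ?_⟩
  · exact (mono (by linarith [cm m])).trans_eq (rpow_one _)
  · exact (mono (by linarith [cm m])).trans_eq (rpow_one _)
  · have a1 := e1 m hm j hj
    have h0 := H.h0 j
    rw [div_mul_eq_mul_div, div_le_iff₀' (by positivity)] at a1
    have a2 := up (le_refl (1 - c / 16 ^ m))
    have a3 := up' (α := 1 - c / 16 ^ m) (by linarith [cm m])
    refine le_trans ?_ a1
    rw [mul_assoc _ 21]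
    refine mul_le_mul_of_nonneg_left ?_ (by positivity)
    simp only [capOf, lg]
    linarith
  · exact (mul_le_mul_of_nonneg_left (up le_rfl) (by positivity)).trans (e2 m hm)
  · have a1 := e3 m hm.le i hi
    have a2 := up (show 1 - c / 16 ^ m ≤ 1 - c / 16 ^ m / 8 by linarith [cm m])
    have a3 := mul_le_mul_of_nonneg_left (up (le_refl (1 - c / 16 ^ m / 8))) (sq_nonneg (p.CN m i))
    simp only [capOf]
    linarith
  · have a1 := e4 m hm.le
    have a2 := up (show 1 - c / 16 ^ m ≤ 1 - c / 16 ^ m / 2 by linarith [cm m])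
    have a3 := up (le_refl (1 - c / 16 ^ m / 2))
    have a4 := mul_le_mul_of_nonneg_right CP
      (by positivity : 0 ≤ (n : ℝ) ^ (1 - c / 16 ^ m / 2) * log (n + 2))
    simp only [capOf]
    constructor <;> linarith
  · obtain ⟨m, rfl⟩ := Nat.exists_eq_add_of_le' m1
    have a1 := e5 m (by omega)
    have a2 := up (show 1 - c ≤ 1 - c / 16 ^ m by
      linarith [div_le_self c0.le (one_le_pow₀ (M₀ := ℝ) (n := m) (by norm_num : (1 : ℝ) ≤ 16))])
    have a3 := up' (α := 1 - c / 16 ^ m) (by linarith [cm m])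
    have a4 := mul_le_mul_of_nonneg_left (l1.trans a3) (by linarith : 0 ≤ p.cN)
    rw [mul_assoc, ← le_div_iff₀' (by linarith)] at a1
    have e : big n = exp (4 * log (n + 2)) := by
      rw [big, ← rpow_natCast, rpow_def_of_pos (by linarith), mul_comm]; norm_num
    rw [e, ← exp_add, exp_le_one_iff]
    simp only [capOf]
    linarith

set_option maxHeartbeats 1000000 in
open Sc71 in
theorem scalStmt : ScalStmt := by
  intro u a0 ab a' C cE CE S0 U h0 h1 h2 h3 hC hE hCE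
  have lq0 := U.lq0
  have C01 := U.C01
  have C11 := U.C11
  have CM0 := U.CM0
  have c00 := U.c00
  have gP0 := U.gP0
  have Cu1 := U.Cu1
  obtain ⟨τ', hτ⟩ : ∃ τ', τ' = u.lq / (128 * C * u.C0 ^ 2) := ⟨_, rfl⟩
  have τ0 : 0 < τ' := by rw [hτ]; positivity
  obtain ⟨c1, c10, c11, c12, c13⟩ : ∃ c1 > 0, c1 ≤ τ' * u.lq / (256 * u.C1) ∧
      c1 ≤ u.c0 / (64 * u.C1 ^ 3) ∧ c1 ≤ cE / 2 :=
    ⟨min (τ' * u.lq / (256 * u.C1)) (min (u.c0 / (64 * u.C1 ^ 3)) (cE / 2)), by positivity,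
      min_le_left _ _, (min_le_right _ _).trans (min_le_left _ _),
      (min_le_right _ _).trans (min_le_right _ _)⟩
  have ab0 : 0 < ab := h0.trans h1
  obtain ⟨k, hk⟩ : ∃ k, k = (ab - a0) / (16 * ab) := ⟨_, rfl⟩
  have k0 : 0 < k := by rw [hk]; exact div_pos (by linarith) (by positivity)
  have k1 : 16 * k * ab = ab - a0 := by rw [hk]; field_simp
  have k2 : 16 * k ≤ 1 := le_of_mul_le_mul_right (by linarith) ab0
  obtain ⟨A, hA⟩ : ∃ A, A = 4 * (C + u.Cu) / k := ⟨_, rfl⟩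
  obtain ⟨B, hB⟩ : ∃ B, B = 4 * (1 / c1 + 1 / u.lq * u.CM) + CE := ⟨_, rfl⟩
  have A0 : 0 < A := by rw [hA]; positivity
  have B0 : 0 < B := by rw [hB]; positivity
  obtain ⟨C', hC'⟩ : ∃ C', C' = (6 * (A + B + 1) + 1) / c1 := ⟨_, rfl⟩
  have C0' : 0 < C' := by rw [hC']; positivity
  obtain ⟨S, S1, S2, S3, S4⟩ : ∃ S, 1 ≤ S ∧ S0 ≤ S ∧ (u.Cu * (C' + 1) / k) ^ 2 ≤ S ∧
      3 * (C' + 2) * C * u.C0 / u.gP ≤ S :=
    ⟨max (max 1 S0) (max _ _), (le_max_left _ _).trans (le_max_left _ _),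
      (le_max_right _ _).trans (le_max_left _ _), (le_max_left _ _).trans (le_max_right _ _),
      (le_max_right _ _).trans (le_max_right _ _)⟩
  have S5 : 1 ≤ S ^ 2 := one_le_pow₀ S1
  obtain ⟨N, N1, N2⟩ : ∃ N : ℕ, C' * S ^ 2 ≤ N ∧ (N : ℝ) ≤ C' * S ^ 2 + 1 :=
    ⟨⌈C' * S ^ 2⌉₊, Nat.le_ceil _, (Nat.ceil_lt_add_one (by positivity)).le⟩
  have N0 : (0 : ℝ) < N := lt_of_lt_of_le (by positivity) N1
  have N3 : 1 ≤ N := by exact_mod_cast N0
  have N4 : (1 : ℝ) ≤ N := by exact_mod_cast N3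
  have κ0 : 0 < k / N := by positivity
  have κ1 : k / N ≤ k := div_le_self k0.le N4
  have P1 : 1 ≤ (u.Cu / (k / N)) ^ 8 := one_le_pow₀ ((one_le_div κ0).2 (by linarith))
  have θ1 : Ue.th a' < 1 := max_lt (by linarith) one_pos
  obtain ⟨η, η0, η1, η2, η3, η4⟩ : ∃ η > 0, η ≤ 2 * k ∧ η ≤ (1 - Ue.th a') / 2 ∧
      η ≤ k / N / (u.Cu * (u.Cu / (k / N)) ^ 8) ∧ η ≤ 1 / CE :=
    ⟨min (min (2 * k) ((1 - Ue.th a') / 2)) (min _ _),
      lt_min (lt_min (by positivity) (by linarith)) (lt_min (by positivity) (by positivity)),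
      (min_le_left _ _).trans (min_le_left _ _), (min_le_left _ _).trans (min_le_right _ _),
      (min_le_right _ _).trans (min_le_left _ _), (min_le_right _ _).trans (min_le_right _ _)⟩
  have eS : N * (S / N) = S := mul_div_cancel₀ _ N0.ne'
  have r1 : (1 + k / N) ^ (3 * N + 1) * (1 - 4 * k) ≤ 1 := by
    have b1 : (1 + k / N) ^ (3 * N + 1) ≤ exp (4 * k) := (pow_le κ0.le _).trans (exp_le_exp.2 (by
      have : N * (k / N) = k := mul_div_cancel₀ _ N0.ne'
      push_cast; linarith))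
    have b2 := mul_le_mul b1 (show 1 - 4 * k ≤ exp (-(4 * k)) by linarith [add_one_le_exp (-(4 * k))])
      (by linarith) (exp_pos _).le
    rwa [← exp_add, add_neg_cancel, exp_zero] at b2
  have r0 : 0 ≤ (1 + k / N) ^ (3 * N + 1) := by positivity
  refine ⟨{ u with
    N := N, τ := S / N, κ := k / N, P := (u.Cu / (k / N)) ^ 8, η0 := η, θ := Ue.th a', a0 := a0,
    a := (a0 + ab) / 2, ab := ab, C := C, eL := c1 / (2 * C * u.C1), τ' := τ', c1 := c1,
    Λ := A * N + B, CZ := 1 / u.lq, g1 := (S ^ 3)⁻¹, cE := cE, CE := CE }, ⟨U, N3, by positivity, κ0,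
    by linarith, P1, η0, by linarith, Ue.th_nonneg _, by linarith, h0, by linarith, ?_, ?_,
    by linarith, hC, τ0, ?_, c10, ?_, ?_, by linarith, by positivity, ?_, ?_, ?_, ?_, by linarith, ?_,
    by positivity, ?_, le_rfl, ?_⟩, rfl, rfl, rfl, rfl, rfl, rfl, rfl, ?_, ?_, ?_, ?_⟩ <;>
    dsimp only
  · have := pow_le_pow_right₀ (show 1 ≤ 1 + k / N by linarith) (show 2 * N + 1 ≤ 3 * N + 1 by omega)
    have := mul_le_mul_of_nonneg_left (show 1 / 2 ≤ 1 - 4 * k by linarith) r0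
    linarith
  · have b1 : (a0 + ab) / 2 ≤ ab * (1 - 2 * η) * (1 - 4 * k) := by
      have := mul_le_mul_of_nonneg_left (mul_le_mul_of_nonneg_right
        (show 1 - 4 * k ≤ 1 - 2 * η by linarith) (show 0 ≤ 1 - 4 * k by linarith)) ab0.le
      have := mul_nonneg ab0.le (sq_nonneg k)
      linarith
    have b2 := mul_le_mul_of_nonneg_left r1 (show 0 ≤ ab * (1 - 2 * η) by
      exact mul_nonneg ab0.le (by linarith))
    have b3 := mul_le_mul_of_nonneg_right b1 r0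
    linarith
  · rw [hτ]; exact le_of_eq (by field_simp)
  · rwa [le_div_iff₀' (by positivity)] at c11
  · rwa [le_div_iff₀' (by positivity)] at c12
  · exact le_of_eq (by field_simp)
  · exact ge_of_eq (by field_simp)
  · have : A * N = 4 * (C / (k / N) + u.Cu / (k / N)) := by rw [hA]; field_simp
    linarith
  · have : 0 ≤ 4 * (1 / c1 + 1 / u.lq * u.CM) := by positivity
    have : 0 ≤ A * N := by positivity
    linarith
  · have b1 : (6 * (A + B + 1) + 1) * S ^ 2 ≤ c1 * N := by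
      rw [hC', div_mul_eq_mul_div, div_le_iff₀' c10] at N1; exact N1
    have b2 : S / N / 2 + 6 * (A * N + B + 1) * (S / N) ^ 2 =
        (S / 2 + 6 * (A + (B + 1) / N) * S ^ 2) / N := by field_simp; ring
    have b3 := mul_le_mul_of_nonneg_right (div_le_self (show 0 ≤ B + 1 by linarith) N4) (sq_nonneg S)
    have b4 : S * 1 ≤ S * S := mul_le_mul_of_nonneg_left S1 (by linarith)
    rw [b2, div_le_iff₀ N0]
    linarith
  · have b1 : (1 + 1 / (N : ℝ)) ^ N ≤ 3 := (pow_le (by positivity) N).trans (by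
      rw [mul_one_div_cancel N0.ne']; linarith [exp_one_lt_d9])
    have b2 : (N : ℝ) + 1 ≤ (C' + 2) * S ^ 2 := by linarith
    rw [div_le_iff₀ gP0] at S4
    calc (S ^ 3)⁻¹ * (1 + 1 / (N : ℝ)) ^ N * (N + 1) * C * u.C0
        ≤ (S ^ 3)⁻¹ * 3 * ((C' + 2) * S ^ 2) * C * u.C0 := by gcongr
      _ = 3 * (C' + 2) * C * u.C0 / S := by field_simp
      _ ≤ u.gP := by rw [div_le_iff₀' (by linarith)]; exact S4
  · rwa [le_div_iff₀' (by positivity)] at η3
  · rw [eS]; exact S2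
  · rw [eS]
    calc (u.Cu / (k / N)) ^ 8 = (u.Cu * N / k) ^ 8 := by rw [div_div_eq_mul_div]
      _ ≤ (u.Cu * ((C' + 1) * S ^ 2) / k) ^ 8 := by gcongr; linarith
      _ = ((u.Cu * (C' + 1) / k) ^ 2) ^ 4 * S ^ 16 := by ring
      _ ≤ S ^ 4 * S ^ 16 := by gcongr
      _ = S ^ 20 := by ring
  · rw [eS]
  · rwa [le_div_iff₀' (by positivity)] at η4

end Crest.Agent.T157.S1

end
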