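import Crest.Agent.T157.S1Par_97
import Crest.Agent.T157.NrmG_84

/-!
# Row 157, part B, block S1 (helper27): from the deterministic scheme to `B.Stat1`
-/

set_option autoImplicit false

noncomputable section

namespace Crest.Agent.T157.S1

open MeasureTheory Real Matrix Finset Filter Topology
open Crest.ProbabilityR.SpinGlassDynamics
open Crest.Agent.T157.E Crest.Agent.T157.SL
open Crest.Agent.T157.Eig (nrm opn opn_smul opn_nonneg)
open Crest.Agent.T157.S3 (V Mx)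
open Crest.Agent.T157.Rv (Warm)
open Crest.Agent.T157.Top (Whp)

namespace St27

variable {n : ℕ}

theorem whp_opn : Whp disorderLaw fun n g => opn (Jmat n g) ≤ 3 := by
  have h : Tendsto (fun n : ℕ => 2 * Real.exp (-(n * 1 ^ 2 / 4))) atTop (𝓝 0) := by
    simpa using (Real.tendsto_exp_neg_atTop_nhds_zero.comp ((tendsto_natCast_atTop_atTop (R := ℝ)
      ).atTop_div_const (r := 4) four_pos)).const_mul 2
  refine Top.whp_of_real_le h (.of_forall fun n => ?_)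
  refine (measureReal_mono fun g hg => ?_).trans (Nrm.Jmat_opn_tail zero_le_one)
  have : 3 < opn (Jmat n g) := not_le.1 hg
  exact le_trans (by norm_num) this.le

theorem warm_mono {w f : Cube n → ℝ} {m m' : ℝ} (h : Warm w m f) (hm : m ≤ m') : Warm w m' f :=
  ⟨h.1, h.2.1, fun x => (h.2.2 x).trans (exp_le_exp.2 hm)⟩

theorem sum_xf (hM : MtStmt) (s : Finset ℕ) (F : ℕ → Fy n) (h : ∀ i ∈ s, XF (F i)) {t : ℝ}
    (ht : 0 ≤ t) : XF (∑ i ∈ s, F i) ∧ Ew t (∑ i ∈ s, F i) = ∑ i ∈ s, Ew t (F i) := by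
  obtain ⟨-, -, -, h4, h5, h6, h7, -⟩ := hM n
  induction s using Finset.induction_on with
  | empty => exact ⟨h7, by simpa using h5 0 t 0⟩
  | insert a s ha ih =>
    have h1 := ih fun i hi => h i (mem_insert_of_mem hi)
    have h2 := h a (mem_insert_self _ _)
    rw [sum_insert ha, sum_insert ha, h4 _ _ _ h2 h1.1 ht, h1.2]
    exact ⟨(h6 _ _ 0 h2 h1.1 le_rfl).1, rfl⟩

theorem end_mono (hC : CrudeStmt) {J : Mx n} {fe fe' : Fy n} {P η0 θ a cE g1 CE ME ME' ω ec t K : ℝ}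
    (h : EndOK J P η0 θ fe a cE g1 CE ME ω ec t K) (h1 : ∀ σ y, fe σ y ≤ fe' σ y) (h2 : ME ≤ ME') :
    EndOK J P η0 θ fe' a cE g1 CE ME' ω ec t K := fun D s ok a1 a2 a3 a4 a5 a6 => by
  obtain ⟨b1, -, -, -, -, -, -, -, -, b2, -⟩ := hC n D s ok
  linarith [h D s ok a1 a2 a3 a4 a5 a6, mul_le_mul_of_nonneg_right h2 b2,
    b1.hv.mean_mono fun σ => h1 σ s.y]

theorem me_ec {p : Par} (ok : p.Ok) (i : ℕ) : 0 ≤ p.ec p.N i ∧ p.M (i + 1) * p.ec p.N i ≤ 1 := by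
  have e : p.ec p.N i = p.N ^ 2 * p.ee (i + 1) := by simp [Par.ec, Par.e1, Par.bt]
  have h0 := (ok.e0 (i + 1)).le
  have h1 := ok.M1 (i + 1)
  have h2 := ok.C1'
  have h3 : 1 ≤ p.CZ := by nlinarith [ok.CZ1, ok.lq0, ok.lq1]
  have h4 : (1 : ℝ) ≤ 8 ^ p.N := one_le_pow₀ (by norm_num)
  refine ⟨by rw [e]; positivity, le_trans ?_ (ok.le (i + 1))⟩
  calc p.M (i + 1) * p.ec p.N i = 1 * 1 * 1 * p.N ^ 2 * 1 * (p.M (i + 1) * 1) * p.ee (i + 1) := by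
        rw [e]; ring
    _ ≤ 8 * p.C * p.CZ * (p.N + 1) ^ 2 * 8 ^ p.N * (p.M (i + 1) * p.M (i + 1)) * p.ee (i + 1) := by
        gcongr
        · norm_num
        · linarith
    _ = _ := by ring

end St27

open St27 in
theorem statGlue : StatGlue := fun hC hL hN hM hX hSc hLa hCa β lam 𝒬 b0 b1 l1 hS hE => by
  refine B.stat1_of (fun a a0 a' aa al c c0 e e0 => ?_) l1
  have ⟨x1, x2, x3⟩ : a < (a + a') / 2 ∧ (a + a') / 2 < a' ∧ a' < 1 := ⟨by linarith, by linarith,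
    by linarith⟩
  obtain ⟨u, uok, hS1⟩ := hS a _ a' a0 x1 x2 al
  obtain ⟨C, C1, lf⟩ := hL u.K0 u.κ0 uok.k0
  obtain ⟨cE, cE0, CE, CE1, S0, hE1⟩ := hE _ a' (a0.trans x1) x2 x3
  obtain ⟨w, wok, wu, wa, wab, wC, wcE, wCE, wθ, wS, wP, wg, wη⟩ :=
    hSc u a _ a' C cE CE S0 uok a0 x1 x2 x3 C1 cE0 CE1
  obtain ⟨CP, gW, CNf, ηf, CP1, gW0, past, hS2⟩ := hS1 w wok wu wa wab wθ
  obtain ⟨cN, cN1, hN1⟩ := hN u.K0 u.κ0 (w.N * w.τ) uok.k0
  choose! MEf hE2 using hE1 (w.N * w.τ) w.P w.η0 wS wok.P1 wP wok.η00 wη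
  obtain ⟨p, ok, rfl, rfl, rfl, rfl, thr, hME⟩ := hLa w CP gW cN CNf ηf MEf wok CP1 gW0 cN1 past
  subst wu wC wcE wCE wa
  have c1 : 0 < min c 1 := lt_min c0 one_pos
  have c2 := min_le_right c 1
  have c3 := min_le_left c 1
  generalize min c 1 = c' at c1 c2 c3
  have e1 := half_pos e0
  obtain ⟨k, Q, Cq, hQ, Cq0, hS3⟩ := hS2 p ok rfl rfl rfl thr c' _ c1 c2 e1
  have Z0 : 0 ≤ p.CZ := by nlinarith [ok.CZ1, ok.lq0]
  have d1 : c' / 16 ^ p.N / 2 ≤ c' :=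
    (half_le_self (by positivity)).trans (div_le_self c1.le (one_le_pow₀ (by norm_num)))
  have hE' := Whp.finset (range (2 ^ p.N)) fun i _ => hE2 (p.γ p.N i) (ok.γ0 _ _) (p.ec p.N i)
    (c' / 16 ^ p.N / 2) _ (me_ec ok i).1
    ((mul_le_mul_of_nonneg_right (hME i) (me_ec ok i).1).trans (me_ec ok i).2) (by positivity)
    (d1.trans c2) e1
  refine ⟨k, Q, 2 * p.CZ * Cq, hQ, by positivity, ((hS3.and hE').and whp_opn).mono ?_⟩
  filter_upwards [hCa p c' _ ok c1 c2 e1, eventually_ge_atTop 1, B.ev_mul (2 ^ p.N) e1,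
    B.ev_mul (2 * (p.N * (16 * p.C * 8 ^ p.N * p.M (2 ^ p.N)) + (p.CZ + 1) + p.N + 4))
      (half_lt_self e0)] with n cap n1 h2 h3 g ⟨⟨⟨O, hO⟩, hf⟩, hop⟩ f wm
  have n1' : (1 : ℝ) ≤ n := by exact_mod_cast n1
  have K1 : (1 : ℝ) ≤ (n : ℝ) ^ (e / 2) := one_le_rpow n1' e1.le
  choose! fe f1 f2 f3 using hf
  have τ0 : 0 ≤ p.N * p.τ := mul_nonneg (Nat.cast_nonneg _) ok.τ0.le
  obtain ⟨s1, s2⟩ := sum_xf hM _ fe f1 τ0
  unfold B.DfF
  rw [gibbsWeight_eq_ising] at wm ⊢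
  replace wm := warm_mono wm (rpow_le_rpow_of_exponent_le n1' (sub_le_sub_left c3 1))
  have T := hX n ⟨p, capOf p c' (e / 2) n, ⟨β • Jmat n g, f, p.P, p.η0, p.θ, (n : ℝ) ^ (1 - c')⟩, O,
      ∑ i ∈ range (2 ^ p.N), fe i, fun f => Cq * ∑ j, B.Mom β (Q j) n g f⟩
    ⟨ok, cap, lf, hN1, ⟨?_, ?_, ?_, wm.1, wm.2.2, ok.P1, ok.η00, ok.η01, ok.θ0, ok.θ1⟩, rfl, rfl, rfl,
      rfl, wm, hO, s1, fun i hi => ?_, fun f' wm' => ?_⟩
  · simp only [Tot, capOf] at T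
    rw [wθ, Ue.th] at T
    have : (0 : ℝ) ≤ p.N := Nat.cast_nonneg _
    nlinarith
  · ext i j; simp [Jmat_symm g j i]
  · intro i; simp [Jmat_diag]
  · rw [opn_smul, abs_of_pos b0]; nlinarith [opn_nonneg (Jmat n g)]
  · have hi' : i ∈ range (2 ^ p.N) := mem_range.2 (by simpa [Par.Val, Par.bt] using hi)
    have := end_mono hC (f2 i hi') (fe' := ∑ i ∈ range (2 ^ p.N), fe i) (fun σ y => by
      simp only [Finset.sum_apply]
      exact single_le_sum (f := fun i => fe i σ y) (fun j hj => (f1 j hj).2 σ y) hi') (hME i)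
    rwa [← wθ, ← wab, ← wg] at this
  · simp only [s2, Finset.sum_apply, mul_sum, mean_sum]
    refine (sum_le_card_nsmul _ _ 1 fun i hi => f3 i hi f' (warm_mono wm'
      (rpow_le_rpow_of_exponent_le n1' (sub_le_sub_left d1 1)))).trans ?_
    simpa [capOf] using h2

end Crest.Agent.T157.S1

end
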