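import Crest.Agent.T157.S1Lin_97

/-!
# Row 157, part B, block S1 (helper39, after helper27): the choice of the weight, two tolerances
-/

set_option autoImplicit false

noncomputable section

namespace Crest.Agent.T157.S1

open Real Matrix Finset
open Crest.Agent.T157.E
open Crest.Agent.T157.Eig
open Crest.Agent.T157.S3 (V Mx)

namespace T62

variable {n k : ℕ} {v : ℕ → V n}

/-- the projection on the modes -/
def Pj (k : ℕ) (v : ℕ → V n) (x : V n) : V n := ∑ a ∈ range k, (v a ⬝ᵥ x) • v a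
/-- restriction to `S` -/
def rs (S : Finset (Fin n)) (x : V n) : V n := fun i => if i ∈ S then x i else 0

theorem Pj_dot (x y : V n) : Pj k v x ⬝ᵥ y = ∑ a ∈ range k, (v a ⬝ᵥ x) * (v a ⬝ᵥ y) := by
  simp [Pj, sum_dotProduct]

theorem dot_Pj (on : ∀ a < k, ∀ b < k, v a ⬝ᵥ v b = if a = b then 1 else 0) (x : V n) {b : ℕ}
    (hb : b < k) : v b ⬝ᵥ Pj k v x = v b ⬝ᵥ x := by
  rw [dotProduct_comm, Pj_dot, sum_congr rfl fun a ha => by rw [on a (mem_range.1 ha) b hb]]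
  simp [hb]

theorem res (on : ∀ a < k, ∀ b < k, v a ⬝ᵥ v b = if a = b then 1 else 0) (x : V n) :
    (x - Pj k v x) ⬝ᵥ (x - Pj k v x) = x ⬝ᵥ x - ∑ a ∈ range k, (v a ⬝ᵥ x) ^ 2 := by
  have h1 : Pj k v x ⬝ᵥ Pj k v x = ∑ a ∈ range k, (v a ⬝ᵥ x) ^ 2 := by
    rw [Pj_dot]; exact sum_congr rfl fun a ha => by rw [dot_Pj on x (mem_range.1 ha), sq]
  have h2 : Pj k v x ⬝ᵥ x = ∑ a ∈ range k, (v a ⬝ᵥ x) ^ 2 := by
    rw [Pj_dot]; exact sum_congr rfl fun a _ => (sq _).symm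
  rw [sub_dotProduct, dotProduct_sub, dotProduct_sub, dotProduct_comm x (Pj k v x), h1, h2]; ring

theorem bessel (on : ∀ a < k, ∀ b < k, v a ⬝ᵥ v b = if a = b then 1 else 0) (x : V n) :
    ∑ a ∈ range k, (v a ⬝ᵥ x) ^ 2 ≤ x ⬝ᵥ x := by
  have := dot_self_nonneg (x - Pj k v x)
  rw [res on] at this; linarith

theorem rs_Pj (S : Finset (Fin n)) (x : V n) : rs S (Pj k v x) ⬝ᵥ rs S (Pj k v x) ≤
    (∑ a ∈ range k, (v a ⬝ᵥ x) ^ 2) * ∑ a ∈ range k, ∑ i ∈ S, v a i ^ 2 := by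
  have h : rs S (Pj k v x) ⬝ᵥ rs S (Pj k v x) = ∑ i ∈ S, (∑ a ∈ range k, (v a ⬝ᵥ x) * v a i) ^ 2 := by
    simp [rs, Pj, dotProduct, sq, Finset.sum_apply]
  rw [h, sum_comm (s := range k), mul_sum]
  exact sum_le_sum fun i _ => sum_mul_sq_le_sq_mul_sq _ _ _

theorem dot_J {J : Mx n} (hJ : Jᵀ = J) (a b : V n) : a ⬝ᵥ J *ᵥ b = (J *ᵥ a) ⬝ᵥ b := by
  rw [dotProduct_mulVec, ← mulVec_transpose, hJ]

theorem al_symm {J : Mx n} (hJ : Jᵀ = J) (al a b : V n) :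
    a ⬝ᵥ (al * b - J *ᵥ b) = b ⬝ᵥ (al * a - J *ᵥ a) := by
  rw [dotProduct_sub, dotProduct_sub, dot_J hJ, dotProduct_comm (J *ᵥ a)]
  congr 1
  exact sum_congr rfl fun i _ => by simp only [Pi.mul_apply]; ring

theorem Mq_symm {J : Mx n} (hJ : Jᵀ = J) (P : ℝ) (S : Finset (Fin n)) (al a b : V n) :
    a ⬝ᵥ Mq J P S al b = b ⬝ᵥ Mq J P S al a := by
  unfold Mq
  rw [dotProduct_add, dotProduct_add, al_symm hJ, dotProduct_smul, dotProduct_smul, dot_J hJ a,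
    dot_J hJ b]
  congr 2
  exact sum_congr rfl fun i _ => by dsimp only; split_ifs <;> ring

theorem rs_sq (S : Finset (Fin n)) (x : V n) : rs S x ⬝ᵥ rs S x = ∑ i ∈ S, x i ^ 2 := by
  simp [rs, dotProduct, sq]

theorem nrm_mono {x y : V n} (h : ∀ i, |x i| ≤ |y i|) : nrm x ≤ nrm y :=
  sqrt_le_sqrt (sum_le_sum fun i _ => by simpa [← sq] using sq_le_sq.2 (h i))

end T62

set_option maxHeartbeats 1000000 in
open T62 in
theorem t6Stmt2 : T6Stmt2 := by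
  refine ⟨3, by norm_num, fun n J P y0 p a0 al q k v lq C0 C1 CP e η t t' ε τ S Δ zs hJ op h lq0 lq1
    C00 C11 CP1 e0 η0 ε0 τ0 τ1 hS hΔ hz zt ht => ?_⟩
  set Pz := Pj k v zs with hP
  set r := rs S Pz with hr
  set u : V n := τ • (zs - Pz + r) with hu
  have zS : ∀ i ∈ S, zs i = 0 := fun i hi => by simp [hz, hi]
  have uS : ∀ i ∈ S, u i = 0 := fun i hi => by simp [hu, hr, rs, hi, zS i hi]
  have ui : ∀ i, |u i| ≤ |(τ • (zs - Pz)) i| := fun i => by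
    by_cases hi : i ∈ S
    · rw [uS i hi, abs_zero]; exact abs_nonneg _
    · simp [hu, hr, rs, hi]
  have Z0 := nrm_nonneg zs
  have D0 := nrm_nonneg Δ
  have c0 : 0 ≤ ∑ a ∈ range k, (v a ⬝ᵥ zs) ^ 2 := sum_nonneg fun _ _ => sq_nonneg _
  have c1 := bessel h.on zs
  have un : nrm u ≤ τ * nrm zs := by
    refine (nrm_mono ui).trans ?_
    rw [nrm_smul, abs_of_pos τ0]
    exact mul_le_mul_of_nonneg_left (sqrt_le_sqrt (by rw [res h.on]; linarith)) τ0.le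
  have uu : u ⬝ᵥ u ≤ τ ^ 2 * (zs ⬝ᵥ zs) := by
    rw [← nrm_sq, ← nrm_sq, ← mul_pow]; exact pow_le_pow_left₀ (nrm_nonneg _) un 2
  have z0 := dot_self_nonneg zs
  have τ2 : τ ^ 2 * (zs ⬝ᵥ zs) ≤ zs ⬝ᵥ zs := mul_le_of_le_one_left z0 (pow_le_one₀ τ0.le τ1)
  have us : ‖u‖ ≤ 2 * η := (pi_norm_le_iff_of_nonneg (by positivity)).2 fun i => by
    have a1 : |Pz i| ≤ η := (norm_le_pi_norm Pz i).trans (h.sup zs zt)
    have a2 : |zs i| ≤ η := by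
      rw [hz]; dsimp only; split_ifs with h'
      exacts [h'.2.le, by simpa using η0.le]
    refine (ui i).trans ?_
    rw [Pi.smul_apply, smul_eq_mul, abs_mul, abs_of_pos τ0, Pi.sub_apply]
    nlinarith [abs_sub (zs i) (Pz i), abs_nonneg (zs i - Pz i)]
  obtain ⟨w, w1, w2, w3, w4, w5⟩ := h.pin S u hS uS us (by linarith)
  have rr : r ⬝ᵥ r ≤ ε / 4 * (zs ⬝ᵥ zs) :=
    (rs_Pj S zs).trans (by rw [mul_comm]; exact mul_le_mul (h.sp S hS) c1 c0 (by positivity))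
  have l2 : (CP * τ * nrm zs) ^ 2 = CP ^ 2 * (τ ^ 2 * (zs ⬝ᵥ zs)) := by rw [← nrm_sq]; ring
  have CP2 : 1 ≤ CP ^ 2 := one_le_pow₀ CP1
  refine ⟨w, ⟨w1, w2.trans (by rw [mul_assoc]; exact mul_le_mul_of_nonneg_left un (by linarith)),
    ?_, ?_⟩, w3.trans (by rw [mul_assoc]; exact mul_le_mul_of_nonneg_left uu C00), ?_⟩
  · rw [l2]; exact (mul_le_mul_of_nonneg_left (by linarith) (by positivity)).trans ht
  · have a1 : ∀ a ∈ range k, (v a ⬝ᵥ w) ^ 2 ≤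
        2 * (v a ⬝ᵥ (w - u)) ^ 2 + 2 * τ ^ 2 * (v a ⬝ᵥ r) ^ 2 := fun a ha => by
      have : v a ⬝ᵥ w = v a ⬝ᵥ (w - u) + τ * (v a ⬝ᵥ r) := by
        rw [dotProduct_sub, hu, dotProduct_smul, dotProduct_add, dotProduct_sub, hP,
          dot_Pj h.on zs (mem_range.1 ha), smul_eq_mul]; ring
      rw [this]; nlinarith [sq_nonneg (v a ⬝ᵥ (w - u) - τ * (v a ⬝ᵥ r))]
    have a2 := sum_le_sum a1
    rw [sum_add_distrib, ← mul_sum, ← mul_sum] at a2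
    have a3 := mul_le_mul_of_nonneg_left ((bessel h.on r).trans rr) (sq_nonneg τ)
    have a4 := mul_le_mul_of_nonneg_left uu ε0
    have a5 := mul_le_mul_of_nonneg_right CP2 (mul_nonneg ε0 (mul_nonneg (sq_nonneg τ) z0))
    rw [l2]; linarith
  clear w1 w2 w3 w4 us ui uS l2 ht
  set Y := q * (a0 * Δ - J *ᵥ Δ) with hY
  set E := rs Sᶜ (Mq J P S al (q * w) - (al * (q * u) - J *ᵥ (q * u))) with hE
  have s0 := sqrt_nonneg ε
  have e1 : (q * w) ⬝ᵥ Mq J P S al Δ = Δ ⬝ᵥ E + (τ * (zs ⬝ᵥ Y - Pz ⬝ᵥ Y + r ⬝ᵥ Y) +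
      u ⬝ᵥ (q * (al - a0) * Δ)) := by
    have a1 : Δ ⬝ᵥ E = Δ ⬝ᵥ (Mq J P S al (q * w) - (al * (q * u) - J *ᵥ (q * u))) :=
      sum_congr rfl fun i _ => by
        by_cases hi : i ∈ S
        · simp [hΔ i hi]
        · simp [hE, rs, hi]
    have a2 : τ * (zs ⬝ᵥ Y - Pz ⬝ᵥ Y + r ⬝ᵥ Y) = u ⬝ᵥ Y := by
      rw [hu, smul_dotProduct, add_dotProduct, sub_dotProduct, smul_eq_mul]
    have a3 : u ⬝ᵥ Y + u ⬝ᵥ (q * (al - a0) * Δ) = (q * u) ⬝ᵥ (al * Δ - J *ᵥ Δ) := by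
      rw [← dotProduct_add]
      exact sum_congr rfl fun i _ => by simp only [hY, Pi.mul_apply, Pi.add_apply, Pi.sub_apply]; ring
    rw [a1, a2, a3, Mq_symm hJ, dotProduct_sub, al_symm hJ al Δ, sub_add_cancel]
  have qp : ∀ i, 0 ≤ q i := fun i => (mul_pos lq0 (h.hp i).1).le.trans (h.hq i).1
  have e2 : nrm E ≤ e * (τ * nrm zs) := by
    rw [nrm_le_iff (by positivity), mul_pow, mul_pow, nrm_sq]
    exact (rs_sq _ _).trans_le (w5.trans (mul_le_mul_of_nonneg_left uu (sq_nonneg e)))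
  clear_value E
  have e3 : nrm (q * (al - a0) * Δ) ≤ 2 * e * nrm Δ := by
    rw [← abs_of_nonneg (show 0 ≤ 2 * e by positivity), ← nrm_smul]
    refine nrm_mono fun i => ?_
    simp only [Pi.mul_apply, Pi.sub_apply, Pi.smul_apply, smul_eq_mul, abs_mul]
    rw [abs_of_nonneg (qp i), abs_two, abs_of_nonneg e0]
    exact mul_le_mul_of_nonneg_right (by
      nlinarith [(h.hq i).2, (h.ha i).2, abs_nonneg (al i - a0 i)]) (abs_nonneg _)
  have e4 : nrm Y ≤ 8 * C1 * nrm Δ := by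
    have a1 : nrm (q * (a0 * Δ)) ≤ nrm ((2 * C1) • Δ) := nrm_mono fun i => by
      simp only [Pi.mul_apply, Pi.smul_apply, smul_eq_mul, abs_mul]
      rw [abs_of_nonneg (qp i), abs_two, abs_of_nonneg (by linarith : 0 ≤ C1), ← mul_assoc]
      exact mul_le_mul_of_nonneg_right (by
        nlinarith [(h.hq i).2, (h.ha i).1, abs_nonneg (a0 i)]) (abs_nonneg _)
    have a2 : nrm (q * J *ᵥ Δ) ≤ nrm ((2 : ℝ) • J *ᵥ Δ) := nrm_mono fun i => by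
      simp only [Pi.mul_apply, Pi.smul_apply, smul_eq_mul, abs_mul]
      rw [abs_of_nonneg (qp i), abs_two]
      exact mul_le_mul_of_nonneg_right (by linarith [(h.hq i).2, (h.hp i).2]) (abs_nonneg _)
    rw [nrm_smul, abs_of_nonneg (by linarith)] at a1 a2
    have a3 := (nrm_mulVec_le J Δ).trans (mul_le_mul_of_nonneg_right op D0)
    rw [hY, mul_sub]
    nlinarith [nrm_sub_le (q * (a0 * Δ)) (q * J *ᵥ Δ)]
  have e5 : lq * (zs ⬝ᵥ zs) ≤ zs ⬝ᵥ Y := by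
    rw [dotProduct, mul_sum]
    refine sum_le_sum fun i _ => ?_
    rw [hz]; dsimp only; split_ifs
    · simp only [zv, hY, Pi.mul_apply]
      have := mul_le_mul_of_nonneg_right (h.hq i).1
        (mul_nonneg (h.hp i).1.le (mul_self_nonneg ((a0 * Δ - J *ᵥ Δ) i)))
      linarith
    · simp
  have e6 : Pz ⬝ᵥ Y ≤ lq / 2 * (zs ⬝ᵥ zs) + Mod J y0 a0 q k v Δ / lq := by
    have a1 : ∀ a ∈ range k, (v a ⬝ᵥ zs) * (v a ⬝ᵥ Y) ≤
        lq / 2 * (v a ⬝ᵥ zs) ^ 2 + 1 / lq * (v a ⬝ᵥ Y) ^ 2 := fun a _ => by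
      rw [← sub_nonneg, show ∀ x y : ℝ, lq / 2 * x ^ 2 + 1 / lq * y ^ 2 - x * y =
        ((lq * x - y) ^ 2 + y ^ 2) / (2 * lq) from fun x y => by field_simp; ring]
      positivity
    have a2 := sum_le_sum a1
    rw [sum_add_distrib, ← mul_sum, ← mul_sum, ← Pj_dot] at a2
    have a3 : 0 ≤ (mag (ising J y0) ⬝ᵥ Δ) ^ 2 / (mag (ising J y0) ⬝ᵥ mag (ising J y0)) / lq :=
      div_nonneg (div_nonneg (sq_nonneg _) (dot_self_nonneg _)) lq0.le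
    have a4 := mul_le_mul_of_nonneg_left c1 (half_pos lq0).le
    rw [Mod, add_div, ← hY, div_eq_inv_mul _ lq, ← one_div]; linarith
  have e7 : nrm r ≤ √ε / 2 * nrm zs := by
    rw [nrm_le_iff (by positivity), mul_pow, div_pow, sq_sqrt ε0, nrm_sq]; linarith
  have f1 := neg_le_of_abs_le ((abs_dot_le Δ E).trans (mul_le_mul_of_nonneg_left e2 D0))
  have f2 := neg_le_of_abs_le ((abs_dot_le u _).trans (mul_le_mul un e3 (nrm_nonneg _) (by positivity)))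
  have f3 := neg_le_of_abs_le ((abs_dot_le r Y).trans (mul_le_mul e7 e4 (nrm_nonneg _) (by positivity)))
  have g1 : 2 * (nrm zs * nrm Δ) ≤ zs ⬝ᵥ zs + Δ ⬝ᵥ Δ := by
    rw [← nrm_sq, ← nrm_sq]; nlinarith [sq_nonneg (nrm zs - nrm Δ)]
  have g2 : e + 2 * e + 4 * C1 * √ε ≤ 6 * C1 * (e + √ε) := by nlinarith
  have g3 := mul_le_mul g2 g1 (by positivity) (by positivity)
  have g4 := mul_le_mul_of_nonneg_left (show lq / 2 * (zs ⬝ᵥ zs) - Mod J y0 a0 q k v Δ / lq -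
      3 * C1 * (e + √ε) * (zs ⬝ᵥ zs + Δ ⬝ᵥ Δ) ≤ zs ⬝ᵥ Y - Pz ⬝ᵥ Y + r ⬝ᵥ Y -
      (e + 2 * e) * (nrm zs * nrm Δ) by linarith) τ0.le
  rw [e1]; linarith

end Crest.Agent.T157.S1

end
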