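import Crest.Agent.T157.UeD_83

/-!
# Row 157, part B: the weighted bound (CHI) for `⟨χ, g⟩` (helper83)
-/

set_option autoImplicit false

noncomputable section

namespace Crest.Agent.T157.Ue

open Real Function
open Crest.Agent.T157.E Crest.Agent.T157.SL Crest.Agent.T157.Ta
open Crest.Agent.T157.Hd (klr)
open Crest.Agent.T157.Rec (grad)

/-- the excess `(|g| - ε)₊` -/
def exc (ε g : ℝ) : ℝ := max (|g| - ε) 0

lemma exc_nonneg (ε g : ℝ) : 0 ≤ exc ε g := le_max_right _ _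

lemma exc_split {ε : ℝ} (hε : 0 ≤ ε) (g : ℝ) :
    ∃ g₁ : ℝ, 0 ≤ g₁ ∧ g₁ ≤ ε ∧ g₁ ≤ |g| ∧ |g| = g₁ + exc ε g := by
  rcases le_total |g| ε with h | h
  · exact ⟨|g|, abs_nonneg _, h, le_rfl, by rw [exc, max_eq_right (by linarith), add_zero]⟩
  · exact ⟨ε, hε, le_rfl, h, by rw [exc, max_eq_left (by linarith)]; ring⟩

lemma exp_two : exp 2 ≤ 7.4 := by
  have h := exp_one_lt_d9
  have e : exp 2 = exp 1 ^ 2 := by rw [← exp_nat_mul]; norm_num
  rw [e]; nlinarith [exp_pos 1]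

lemma sq2_shift (u e : ℝ) : sq2 (u + e) ≤ 7.4 * sq2 u + e ^ 2 := by
  have hs := sq2_pos u
  rcases le_total |e| 1 with h | h
  · have h1 := sq2_le (u + e) u
    rw [add_sub_cancel_left] at h1
    have h2 : exp (2 * |e|) ≤ 7.4 := (exp_le_exp.2 (by linarith)).trans exp_two
    nlinarith [sq_nonneg e]
  · have h1 : 1 ≤ e ^ 2 := by rw [← sq_abs]; nlinarith
    linarith [sq2_le_one (u + e)]

/-- variational bound with the conditional variance of the reference -/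
lemma var_klr (p q : ℝ) {l : ℝ} (h0 : 0 ≤ l) (h1 : l ≤ 1) :
    l * |tanh q - tanh p| ≤ klr p q + 3.7 * sq2 p * l ^ 2 := by
  have key : ∀ m : ℝ, |m| = l → m * (tanh q - tanh p) ≤ klr p q + 3.7 * sq2 p * l ^ 2 := fun m hm => by
    have e : klr p q = klr (p + m) q + m * (tanh q - tanh p) - klr (p + m) p := by
      unfold klr; ring
    have a1 := klr_nonneg (p + m) q
    have a2 := klr_le_sq2 (p + m) p
    rw [show p - (p + m) = -m by ring, abs_neg, neg_sq, ← sq_abs m, hm] at a2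
    have h2 : exp (2 * l) ≤ 7.4 := (exp_le_exp.2 (by linarith)).trans exp_two
    have h3 : 0 ≤ sq2 p * l ^ 2 := mul_nonneg (sq2_pos p).le (sq_nonneg _)
    nlinarith
  rcases le_total 0 (tanh q - tanh p) with h | h
  · rw [abs_of_nonneg h]; exact key l (abs_of_nonneg h0)
  · rw [abs_of_nonpos h]
    have := key (-l) (by rw [abs_neg, abs_of_nonneg h0])
    linarith

/-- (CHI) on any edge, paid by the entropy; `d` = reference conditional variance -/
theorem chi_kl {k ε : ℝ} (hε : 0 < ε) (hk : ε ≤ k) (p q g : ℝ) {d e : ℝ} (hd : 0 ≤ d)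
    (hp : sq2 p ≤ 7.4 * d + e ^ 2) : |tanh q - tanh p| * |g| ≤
      2 * k * klr p q + 28 / k * (d * g ^ 2) + 4 * ε ^ 2 / k * e ^ 2 + 1 / (2 * k) * exc ε g ^ 2 := by
  obtain ⟨g₁, h0, h1, h2, h3⟩ := exc_split hε.le g
  have hk0 : 0 < k := hε.trans_le hk
  have a1 := var_klr p q (l := g₁ / k) (by positivity) ((div_le_one hk0).2 (h1.trans hk))
  have a2 := mul_le_mul_of_nonneg_left a1 hk0.le
  have e1 : k * (g₁ / k * |tanh q - tanh p|) = |tanh q - tanh p| * g₁ := by field_simp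
  have e2 : k * (klr p q + 3.7 * sq2 p * (g₁ / k) ^ 2) = k * klr p q + 3.7 / k * (sq2 p * g₁ ^ 2) := by
    field_simp
  have b1 : g₁ ^ 2 ≤ g ^ 2 := by rw [← sq_abs g]; exact pow_le_pow_left₀ h0 h2 2
  have b2 : g₁ ^ 2 ≤ ε ^ 2 := pow_le_pow_left₀ h0 h1 2
  have b3 : sq2 p * g₁ ^ 2 ≤ 7.4 * (d * g ^ 2) + ε ^ 2 * e ^ 2 := by
    have c1 := mul_le_mul_of_nonneg_right hp (sq_nonneg g₁)
    have c2 := mul_le_mul_of_nonneg_left b1 hd
    have c3 := mul_le_mul_of_nonneg_left b2 (sq_nonneg e)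
    nlinarith
  have b4 := mul_le_mul_of_nonneg_left b3 (by positivity : 0 ≤ 3.7 / k)
  have b5 : 3.7 / k * (7.4 * (d * g ^ 2) + ε ^ 2 * e ^ 2) ≤
      28 / k * (d * g ^ 2) + 4 * ε ^ 2 / k * e ^ 2 := by
    have c1 : 0 ≤ 1 / k * (d * g ^ 2) := by positivity
    have c2 : 0 ≤ 1 / k * (ε ^ 2 * e ^ 2) := by positivity
    have c3 : 3.7 / k * (7.4 * (d * g ^ 2) + ε ^ 2 * e ^ 2) =
        27.38 * (1 / k * (d * g ^ 2)) + 3.7 * (1 / k * (ε ^ 2 * e ^ 2)) := by field_simp; ring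
    have c4 : 28 / k * (d * g ^ 2) + 4 * ε ^ 2 / k * e ^ 2 =
        28 * (1 / k * (d * g ^ 2)) + 4 * (1 / k * (ε ^ 2 * e ^ 2)) := by field_simp
    rw [c3, c4]; linarith
  have a3 := amgm_abs (u := tanh q - tanh p) (τ := exc ε g) hk0
  rw [abs_of_nonneg (exc_nonneg ε g)] at a3
  have a4 := mul_le_mul_of_nonneg_left (pinsker p q) hk0.le
  have e3 : 1 / (2 * k) * exc ε g ^ 2 = 1 / k * exc ε g ^ 2 / 2 := by field_simp
  rw [h3, mul_add, e3]
  linarith

/-- (CHI) on a loud edge, paid by `e` -/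
theorem chi_ee {η ε : ℝ} (h0 : 0 < η) (h1 : η ≤ 1) (hε : 0 < ε) (p g : ℝ) {h q : ℝ}
    (hη : η ≤ |q - h|) : |tanh q - tanh p| * |g| ≤
      62 * ε / η ^ 2 * ee h q + 2 * ε * (h - p) ^ 2 + 1 / (2 * ε) * exc ε g ^ 2 := by
  obtain ⟨g₁, g0, g1, -, g3⟩ := exc_split hε.le g
  have hE := ee_nonneg h q
  have hx := exc_nonneg ε g
  have tri := abs_sub_le (tanh q) (tanh h) (tanh p)
  set Y := ε / η ^ 2 * ee h q with hY
  have hη2 : η ^ 2 ≤ η := by nlinarith
  have y0 : ε * ee h q ≤ Y := by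
    rw [hY]; refine mul_le_mul_of_nonneg_right ?_ hE
    rw [le_div_iff₀ (by positivity)]; nlinarith
  have a1 : |tanh q - tanh h| * g₁ ≤ Y := by
    have c1 : η ^ 2 * |tanh q - tanh h| ≤ ee h q := by
      rw [ee_eq_abs]; exact mul_le_mul_of_nonneg_right (hη2.trans hη) (abs_nonneg _)
    have c2 := mul_le_mul_of_nonneg_left c1 (by positivity : 0 ≤ ε / η ^ 2)
    have c3 : ε / η ^ 2 * (η ^ 2 * |tanh q - tanh h|) = |tanh q - tanh h| * ε := by field_simp
    have c4 := mul_le_mul_of_nonneg_left g1 (abs_nonneg (tanh q - tanh h))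
    linarith
  have hd := abs_tanh_sub_le h p
  have a2 : |tanh h - tanh p| * g₁ ≤ 60 * Y + ε * (h - p) ^ 2 := by
    have c4 := mul_le_mul_of_nonneg_left g1 (abs_nonneg (tanh h - tanh p))
    have c0 : 0 ≤ Y := by positivity
    rcases le_total |h - p| 1 with hτ | hτ
    · have b1 := abs_tanh_sub_le2 p h
      rw [abs_sub_comm p h, abs_sub_comm (tanh p)] at b1
      have h2 : exp (2 * |h - p|) ≤ 7.4 := (exp_le_exp.2 (by linarith)).trans exp_two
      have hs := sq2_pos h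
      have b2 : |tanh h - tanh p| ≤ 7.4 * sq2 h * 1 := b1.trans (by gcongr)
      have b3 := (var_loud h0 h1 hη).1
      rw [← sq2_eq] at b3
      have c2 := mul_le_mul_of_nonneg_left b3 (by positivity : 0 ≤ ε / η ^ 2)
      have c3 : ε / η ^ 2 * (η ^ 2 * sq2 h) = sq2 h * ε := by field_simp
      have c5 := mul_le_mul_of_nonneg_right b2 hε.le
      have c6 : 0 ≤ ε * (h - p) ^ 2 := by positivity
      linarith
    · have b1 : |h - p| ≤ (h - p) ^ 2 := by rw [← sq_abs (h - p)]; nlinarith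
      have c5 := mul_le_mul_of_nonneg_right (hd.trans b1) hε.le
      linarith
  have a3 := amgm_abs (u := tanh q - tanh h) (τ := exc ε g) (by positivity : 0 < 2 * ε)
  have a4 := amgm_abs (u := tanh h - tanh p) (τ := exc ε g) (by positivity : 0 < 2 * ε)
  rw [abs_of_nonneg hx] at a3 a4
  have a5 := mul_le_mul_of_nonneg_left (sq_le_ee h q) hε.le
  have a6 := mul_le_mul_of_nonneg_left (sq_tanh_sub_le h p) hε.le
  have a7 := mul_le_mul_of_nonneg_right tri (add_nonneg g0 hx)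
  have e1 : 62 * ε / η ^ 2 * ee h q = 62 * Y := by rw [hY]; ring
  rw [g3, e1]
  linarith

variable {n : ℕ} {v w f : Cube n → ℝ} {x : Cube n} {η θ k ε : ℝ}

/-- the common error term of (CHI) at a site -/
def cerr (k ε e τ g : ℝ) : ℝ :=
  4 * ε ^ 2 / k * e ^ 2 + 2 * ε * τ ^ 2 + (1 / (2 * k) + 1 / (2 * ε)) * exc ε g ^ 2

/-- **(CHI) at a site**, both forms -/
theorem chi_site (hw : Wt w) (hf : ∀ x, 0 < f x) (hv : v = fun x => w x * f x) (G : Cube n → ℝ)
    (h0 : 0 < η) (h1 : η ≤ 1 / 4) (hθ : 0 ≤ θ) (_hθ1 : θ ≤ 1) (hε : 0 < ε) (hk : ε ≤ k) (i : Fin n)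
    (hx : v x ≠ 0) (g : ℝ) {u e : ℝ} (hu : cm (wt w G) i x = tanh (u + e)) :
    |chi v (wt w G) i x| * |g| ≤ 4 * k * (rw η θ f i x * kls v (wt w G) i x) +
        62 * ε / η ^ 2 * (Lw η f i x * es v w i x) + 28 / k * ((1 - tanh u ^ 2) * g ^ 2) +
        cerr k ε e (grad G x i) g ∧
      (1 - rw η θ f i x) * (|chi v (wt w G) i x| * |g|) ≤
        4 * k * (rw η θ f i x * kls v (wt w G) i x) + 62 * ε / η ^ 2 * (Lw η f i x * es v w i x) +
        112 * η ^ 2 / k * ((1 - tanh u ^ 2) * g ^ 2) + cerr k ε e (grad G x i) g := by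
  have hk0 : 0 < k := hε.trans_le hk
  have hD : 0 ≤ 1 - tanh u ^ 2 := by rw [← sq2_eq]; exact (sq2_pos u).le
  have z1 : 0 ≤ 28 / k * ((1 - tanh u ^ 2) * g ^ 2) := by positivity
  have z2 : 0 ≤ 112 * η ^ 2 / k * ((1 - tanh u ^ 2) * g ^ 2) := by positivity
  have z3 : 0 ≤ 4 * ε ^ 2 / k * e ^ 2 := by positivity
  have z4 : 0 ≤ 2 * ε * grad G x i ^ 2 := by positivity
  have z5 : 0 ≤ 1 / (2 * k) * exc ε g ^ 2 := by positivity
  have z6 : 0 ≤ 1 / (2 * ε) * exc ε g ^ 2 := by positivity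
  unfold cerr
  rcases site_dict hw hf hv G i hx with ⟨p, h, q, e1, -, -, e4, e5, -, e7, e8, e9⟩ |
    ⟨e1, -, -, e4, b, e5, -, e7⟩
  · have hp : sq2 p ≤ 7.4 * (1 - tanh u ^ 2) + e ^ 2 := by
      rw [sq2_eq, ← e7, hu, ← sq2_eq, ← sq2_eq]; exact sq2_shift u e
    have hK := klr_nonneg p q
    rw [chi, e1, e4, e5, e7]
    by_cases hL : Ld η f i x
    · rw [Lw_of hL, rw_of hL, one_mul]
      have a1 := chi_ee h0 (by linarith) hε p g (h := h) (q := q) (by rw [e9]; exact hL)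
      rw [e8, neg_sq] at a1
      have a2 : 0 ≤ 4 * k * (θ * klr p q) := by positivity
      have a3 := mul_le_of_le_one_left (mul_nonneg (abs_nonneg (tanh q - tanh p)) (abs_nonneg g))
        (by linarith : 1 - θ ≤ 1)
      constructor <;> linarith
    · rw [Lw_of_not hL, rw_of_not hL, zero_mul, mul_zero]
      have a0 : 2 * k * klr p q ≤ 4 * k * ((1 - 2 * η) * klr p q) := by
        have : 0 ≤ k * klr p q * (1 - 4 * η) := mul_nonneg (by positivity) (by linarith)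
        linarith
      constructor
      · have a1 := chi_kl hε hk p q g hD hp
        linarith
      · have hk' : ε ≤ k / (2 * η) := hk.trans (by rw [le_div_iff₀ (by positivity)]; nlinarith)
        have a1 := mul_le_mul_of_nonneg_left (chi_kl hε hk' p q g hD hp) (by positivity : 0 ≤ 2 * η)
        have e2 : 2 * η * (2 * (k / (2 * η)) * klr p q + 28 / (k / (2 * η)) * ((1 - tanh u ^ 2) * g ^ 2) +
            4 * ε ^ 2 / (k / (2 * η)) * e ^ 2 + 1 / (2 * (k / (2 * η))) * exc ε g ^ 2) =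
            2 * k * klr p q + 112 * η ^ 2 / k * ((1 - tanh u ^ 2) * g ^ 2) +
            4 * η ^ 2 * (4 * ε ^ 2 / k * e ^ 2) + 4 * η ^ 2 * (1 / (2 * k) * exc ε g ^ 2) := by
          field_simp; ring
        have c1 : 4 * η ^ 2 ≤ 1 := by nlinarith
        have c2 := mul_le_of_le_one_left z3 c1
        have c3 := mul_le_of_le_one_left z5 c1
        rw [show 1 - (1 - 2 * η) = 2 * η by ring]
        linarith
  · rw [chi, e1, e4, e5, e7, sub_self, abs_zero]
    constructor <;> linarith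

/-- **(CHI), summed over a set of sites** -/
theorem chi_sum (hw : Wt w) (hf : ∀ x, 0 < f x) (hv : v = fun x => w x * f x) (G : Cube n → ℝ)
    (h0 : 0 < η) (h1 : η ≤ 1 / 4) (hθ : 0 ≤ θ) (hθ1 : θ ≤ 1) (hε : 0 < ε) (hk : ε ≤ k)
    (C : Finset (Fin n)) (g u e : Fin n → Cube n → ℝ)
    (hu : ∀ x, v x ≠ 0 → ∀ i ∈ C, cm (wt w G) i x = tanh (u i x + e i x)) :
    |∑ i ∈ C, mean v fun x => chi v (wt w G) i x * g i x| ≤
        4 * k * ∑ i ∈ C, As (rw η θ f i) v (wt w G) i + 62 * ε / η ^ 2 * ∑ i ∈ C, Es (Lw η f i) v w i +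
        28 / k * (∑ i ∈ C, mean v fun x => (1 - tanh (u i x) ^ 2) * g i x ^ 2) +
        ∑ i ∈ C, mean v (fun x => cerr k ε (e i x) (grad G x i) (g i x)) ∧
      |∑ i ∈ C, mean v fun x => (1 - rw η θ f i x) * (chi v (wt w G) i x * g i x)| ≤
        4 * k * ∑ i ∈ C, As (rw η θ f i) v (wt w G) i + 62 * ε / η ^ 2 * ∑ i ∈ C, Es (Lw η f i) v w i +
        112 * η ^ 2 / k * (∑ i ∈ C, mean v fun x => (1 - tanh (u i x) ^ 2) * g i x ^ 2) +
        ∑ i ∈ C, mean v (fun x => cerr k ε (e i x) (grad G x i) (g i x)) := by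
  have hV := (pr_mul hw hf hv).1.hv
  have ab : ∀ F B : Cube n → ℝ, (∀ x, v x ≠ 0 → |F x| ≤ B x) → |mean v F| ≤ mean v B := fun F B h =>
    abs_le.2 ⟨by
      rw [← mean_neg]; exact mean_mono_supp hV fun x hx => (abs_le.1 (h x hx)).1,
      mean_mono_supp hV fun x hx => (abs_le.1 (h x hx)).2⟩
  simp only [As, Es, Finset.mul_sum, ← Finset.sum_add_distrib, ← mean_const_mul, ← mean_add]
  refine ⟨(Finset.abs_sum_le_sum_abs _ _).trans (Finset.sum_le_sum fun i hi => ab _ _ fun x hx => ?_),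
    (Finset.abs_sum_le_sum_abs _ _).trans (Finset.sum_le_sum fun i hi => ab _ _ fun x hx => ?_)⟩
  · rw [abs_mul]; exact (chi_site hw hf hv G h0 h1 hθ hθ1 hε hk i hx (g i x) (hu x hx i hi)).1
  · rw [abs_mul, abs_mul, abs_of_nonneg (sub_nonneg.2 (rw_mem h0.le (by linarith) hθ hθ1 f i x).2)]
    exact (chi_site hw hf hv G h0 h1 hθ hθ1 hε hk i hx (g i x) (hu x hx i hi)).2

/-- **static conversion on a set of sites** -/
theorem U_set (hw : Wt w) (hf : ∀ x, 0 < f x) (hv : v = fun x => w x * f x) (G : Cube n → ℝ)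
    {a a' κ : ℝ} (ha : 0 ≤ a) (hκ : 0 < κ) (haa : a + κ ≤ a') (ha1 : a' + κ ≤ 1) (h0 : 0 < η)
    (h1 : η ≤ 1) (hq : a + 2 * η ≤ a') (T : Finset (Fin n)) :
    (∑ i ∈ T, mean v fun x =>
        a * kls v (wt w G) i x + (1 - a') * (1 - κ) / 2 * chi v (wt w G) i x ^ 2) -
        2 / κ * ∑ i ∈ T, mean v (fun x => xs (κ / 64 * η) (grad G x i)) ≤
      ∑ i ∈ T, As (rw η (th a') f i) v (wt w G) i + (1 - th a') / 2 * ∑ i ∈ T, Es (Lw η f i) v w i := by
  obtain ⟨p1, p2⟩ := pr_mul hw hf hv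
  simp only [As, Es, Finset.mul_sum, ← Finset.sum_add_distrib, ← Finset.sum_sub_distrib,
    ← mean_const_mul, ← mean_add, ← mean_sub]
  refine Finset.sum_le_sum fun i _ => mean_mono_supp p1.hv fun x hx => ?_
  have a1 := U_site hw hf hv G ha hκ haa ha1 h0 h1 hq i hx
  have a2 := mul_nonneg (by positivity : 0 ≤ κ / 4)
    (mul_nonneg (Lw_mem η f i x).1 (es_nonneg p1 p2 i hx))
  have a3 := mul_le_mul_of_nonneg_left (mul_le_of_le_one_left (xs_nonneg (κ / 64 * η) (grad G x i))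
    (Lw_mem η f i x).2) (by positivity : 0 ≤ 2 / κ)
  linarith

end Crest.Agent.T157.Ue
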