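import Crest.Agent.T157.BrDef_50
import Crest.Agent.T157.UeE_83

/-!
# Row 157, block B, S1: the cube forms of (CHI) (helper58)
-/

set_option autoImplicit false

noncomputable section

namespace Crest.Agent.T157.Br

open Real Matrix Function
open Crest.Agent.T157.E Crest.Agent.T157.SL Crest.Agent.T157.Ta
open Crest.Agent.T157.Rec (grad)
open Crest.Agent.T157.S3 (hf tau Dg)
open Crest.ProbabilityR.SpinGlassDynamics (spin)

namespace Chi58

variable {n : ℕ} {v w : Cube n → ℝ} {x : Cube n}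

/-- the variational bound at a site -/
theorem mul_chi_le (h : Pr v w) (i : Fin n) (hx : v x ≠ 0) (m : ℝ) :
    m * chi v w i x ≤ kls v w i x + cg (cm w i x) m := by
  have h1 := mean_le_kl (h.edge i hx) fun b => m * sv (update x i b) i
  rw [← kls_eq_kl, ← siteM_eq_mean v (fun z => m * sv z i),
    ← siteM_eq_mean w (fun z => exp (m * sv z i)),
    log_siteM_exp h.hw (h.pos hx).2.ne'] at h1
  have h2 := siteM_sub_siteM h hx (fun z => m * sv z i) i
  have h3 : grad (fun z => m * sv z i) x i = m := by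
    simp only [grad, incr, sv, update_self, spin]; simp
  rw [h3] at h1 h2
  linarith

theorem cg_small {q m : ℝ} (hq : |q| ≤ 1) (hm : |m| ≤ 1) : cg q m ≤ 3.7 * (1 - q ^ 2) * m ^ 2 := by
  have a := cg_le' hq m
  have h0 : 0 ≤ 1 - q ^ 2 := by nlinarith [abs_le.1 hq]
  have h2 : exp (2 * |m|) ≤ 7.4 := (exp_le_exp.2 (by linarith)).trans Ue.exp_two
  have h3 : 0 ≤ (1 - q ^ 2) * m ^ 2 := mul_nonneg h0 (sq_nonneg _)
  nlinarith

theorem var_kls (h : Pr v w) (i : Fin n) (hx : v x ≠ 0) {l : ℝ} (h0 : 0 ≤ l) (h1 : l ≤ 1) :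
    l * |chi v w i x| ≤ kls v w i x + 3.7 * (1 - cm w i x ^ 2) * l ^ 2 := by
  have hq := abs_cm_le h.hw.nn i x
  rcases le_total 0 (chi v w i x) with s | s
  · rw [abs_of_nonneg s]
    have a := mul_chi_le h i hx l
    have b := cg_small hq (m := l) (by rwa [abs_of_nonneg h0])
    linarith
  · rw [abs_of_nonpos s]
    have a := mul_chi_le h i hx (-l)
    have b := cg_small hq (m := -l) (by rwa [abs_neg, abs_of_nonneg h0])
    rw [neg_sq] at b
    linarith

/-- the common majorant at a site -/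
def mj (ε d e g : ℝ) : ℝ := d * g ^ 2 + ε ^ 2 * e ^ 2 + Ue.exc ε g ^ 2

theorem mj_nonneg {d : ℝ} (hd : 0 ≤ d) (ε e g : ℝ) : 0 ≤ mj ε d e g := by unfold mj; positivity

theorem sc1 {c A s d e ε t : ℝ} (g : ℝ) (hε : 0 < ε) (ht : 2 * ε ≤ t) (hd : 0 ≤ d)
    (hv : ∀ l, 0 ≤ l → l ≤ 1 → l * |c| ≤ A + 3.7 * s * l ^ 2) (hp : c ^ 2 / 2 ≤ A)
    (hs : s ≤ 7.4 * d + e ^ 2) : |c| * |g| ≤ t * A + 62 / t * mj ε d e g := by
  obtain ⟨g₁, h0, h1, h2, h3⟩ := Ue.exc_split hε.le g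
  have t0 : 0 < t := by linarith
  have a1 := hv (g₁ / (t / 2)) (by positivity) ((div_le_one (by positivity)).2 (by linarith))
  have a2 := mul_le_mul_of_nonneg_left a1 (by positivity : 0 ≤ t / 2)
  have e1 : t / 2 * (g₁ / (t / 2) * |c|) = |c| * g₁ := by field_simp
  have e2 : t / 2 * (A + 3.7 * s * (g₁ / (t / 2)) ^ 2) = t / 2 * A + 7.4 * (1 / t * (s * g₁ ^ 2)) := by
    field_simp; ring
  have b1 : g₁ ^ 2 ≤ g ^ 2 := by rw [← sq_abs g]; exact pow_le_pow_left₀ h0 h2 2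
  have b2 : g₁ ^ 2 ≤ ε ^ 2 := pow_le_pow_left₀ h0 h1 2
  have b3 : s * g₁ ^ 2 ≤ 7.4 * (d * g ^ 2) + ε ^ 2 * e ^ 2 := by
    have c1 := mul_le_mul_of_nonneg_right hs (sq_nonneg g₁)
    have c2 := mul_le_mul_of_nonneg_left b1 hd
    have c3 := mul_le_mul_of_nonneg_left b2 (sq_nonneg e)
    nlinarith
  have b4 := mul_le_mul_of_nonneg_left b3 (by positivity : 0 ≤ 1 / t)
  have a3 := Ue.amgm_abs (u := c) (τ := Ue.exc ε g) (by positivity : 0 < t / 2)
  rw [abs_of_nonneg (Ue.exc_nonneg ε g)] at a3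
  have a4 := mul_le_mul_of_nonneg_left hp (by positivity : 0 ≤ t / 2)
  have e3 : 1 / (t / 2) * Ue.exc ε g ^ 2 / 2 = 1 / t * Ue.exc ε g ^ 2 := by field_simp
  have e4 : 62 / t * mj ε d e g = 62 * (1 / t * (d * g ^ 2)) + 62 * (1 / t * (ε ^ 2 * e ^ 2)) +
      62 * (1 / t * Ue.exc ε g ^ 2) := by unfold mj; field_simp
  have c1 : 0 ≤ 1 / t * (d * g ^ 2) := by positivity
  have c2 : 0 ≤ 1 / t * (ε ^ 2 * e ^ 2) := by positivity
  have c3 : 0 ≤ 1 / t * Ue.exc ε g ^ 2 := by positivity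
  rw [e1, e2] at a2
  rw [e3] at a3
  rw [h3, mul_add, e4]
  linarith

theorem sc2 {q d e ε : ℝ} (g : ℝ) (hq : |q| ≤ 1) (hε : 0 < ε) (h1 : 2 * ε ≤ 1) (hd : 0 ≤ d)
    (hs : 1 - q ^ 2 ≤ 7.4 * d + e ^ 2) : cg q g ≤ 62 * mj ε d e g := by
  have c1 : 0 ≤ d * g ^ 2 := by positivity
  have c2 : 0 ≤ ε ^ 2 * e ^ 2 := by positivity
  have c3 : 0 ≤ Ue.exc ε g ^ 2 := by positivity
  unfold mj
  rcases le_total |g| (2 * ε) with h | h
  · have a := cg_small hq (m := g) (h.trans h1)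
    have b : g ^ 2 ≤ (2 * ε) ^ 2 := by rw [← sq_abs g]; exact pow_le_pow_left₀ (abs_nonneg _) h 2
    have c4 := mul_le_mul_of_nonneg_right hs (sq_nonneg g)
    have c5 := mul_le_mul_of_nonneg_left b (sq_nonneg e)
    nlinarith
  · have a := cg_le hq g
    have b : |g| / 2 ≤ Ue.exc ε g := le_trans (by linarith) (le_max_left _ _)
    have c4 := pow_le_pow_left₀ (by positivity) b 2
    rw [div_pow, sq_abs] at c4
    linarith

theorem sum_mj (ε : ℝ) (D e g : Fin n → ℝ) :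
    g ⬝ᵥ (D * g) + ε ^ 2 * (e ⬝ᵥ e) + exc ε g = ∑ j, mj ε (D j) (e j) (g j) := by
  simp only [dotProduct, exc, mj, Ue.exc, Finset.mul_sum, ← Finset.sum_add_distrib, Pi.mul_apply]
  exact Finset.sum_congr rfl fun j _ => by ring

theorem Dg_nonneg (J : Matrix (Fin n) (Fin n) ℝ) (y : Fin n → ℝ) (x : Cube n) (j : Fin n) :
    0 ≤ Dg J y x j := by
  rw [Dg, ← Ue.sq2_eq]; exact (Ue.sq2_pos _).le

theorem shift {J : Matrix (Fin n) (Fin n) ℝ} {y : Fin n → ℝ} {j : Fin n} {e : ℝ}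
    (h : cm w j x = tanh (hf J y x j + e)) : 1 - cm w j x ^ 2 ≤ 7.4 * Dg J y x j + e ^ 2 := by
  rw [h, Dg, ← Ue.sq2_eq, ← Ue.sq2_eq]; exact Ue.sq2_shift _ _

theorem site3 {l f G : Cube n → ℝ} {η ε : ℝ} (hl : Wt l) (hf : ∀ x, 0 < f x)
    (hv : v = fun x => l x * f x) (h0 : 0 < η) (h1 : η ≤ 1) (hε : 0 < ε) (i : Fin n) (hx : v x ≠ 0)
    (g : ℝ) : Ue.Lw η f i x * (|chi v (wt l G) i x| * |g|) ≤
      62 * ε / η ^ 2 * (Ue.Lw η f i x * Ue.es v l i x) +
        (2 * ε * grad G x i ^ 2 + 1 / ε * Ue.exc ε g ^ 2) := by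
  have z4 : 0 ≤ 2 * ε * grad G x i ^ 2 := by positivity
  have z6 : 0 ≤ 1 / (2 * ε) * Ue.exc ε g ^ 2 := by positivity
  have z7 : 1 / ε * Ue.exc ε g ^ 2 = 2 * (1 / (2 * ε) * Ue.exc ε g ^ 2) := by field_simp
  by_cases hL : Ue.Ld η f i x
  · rw [Ue.Lw_of hL, one_mul, one_mul]
    rcases Ue.site_dict hl hf hv G i hx with ⟨p, h, q, -, -, -, e4, e5, -, e7, e8, e9⟩ |
      ⟨-, -, -, e4, b, e5, -, e7⟩
    · have a1 := Ue.chi_ee h0 h1 hε p g (h := h) (q := q) (by rw [e9]; exact hL)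
      rw [e8, neg_sq] at a1
      rw [chi, e4, e5, e7]
      linarith
    · rw [chi, e4, e5, e7, sub_self, abs_zero]; linarith
  · rw [Ue.Lw_of_not hL]; linarith

end Chi58

open Chi58 in
theorem chiStmt : ChiStmt := by
  refine ⟨62, by norm_num, fun n J y C r v w e g ε t h hr hC hF hε ht t1 => ⟨?_, ?_, ?_⟩⟩
  · have t0 : 0 < t := by linarith
    simp only [sum_mj, Ar, As, ← mean_sum, ← mean_const_mul, ← mean_add, Finset.mul_sum,
      ← Finset.sum_add_distrib]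
    refine mean_mono_supp h.hv fun x hx => Finset.sum_le_sum fun j _ => ?_
    have z : 0 ≤ 62 / t * mj ε (Dg J y x j) (e x j) (g x j) :=
      mul_nonneg (by positivity) (mj_nonneg (Dg_nonneg J y x j) _ _ _)
    by_cases hj : j ∈ C
    · have a := sc1 (g x j) hε ht (Dg_nonneg J y x j) (fun l l0 l1 => var_kls h j hx l0 l1)
        (chi_sq_le h j hx) (shift (hF x hx j hj))
      have b := mul_le_mul_of_nonneg_left a (hr j x).1
      have c := mul_le_of_le_one_left z (hr j x).2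
      linarith
    · rw [hC j x hj]; linarith
  · simp only [sum_mj, ← mean_const_mul, Finset.mul_sum]
    refine mean_mono_supp h.hv fun x hx => Finset.sum_le_sum fun j _ => ?_
    have z : 0 ≤ 62 * mj ε (Dg J y x j) (e x j) (g x j) :=
      mul_nonneg (by positivity) (mj_nonneg (Dg_nonneg J y x j) _ _ _)
    by_cases hj : j ∈ C
    · have a := sc2 (g x j) (abs_cm_le h.hw.nn j x) hε (ht.trans t1) (Dg_nonneg J y x j)
        (shift (hF x hx j hj))
      have b := mul_le_mul_of_nonneg_left a (hr j x).1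
      have c := mul_le_of_le_one_left z (hr j x).2
      linarith
    · rw [hC j x hj]; linarith
  · intro l f G η hl hf hv hw h0 h1
    obtain ⟨p1, p2⟩ := Ue.pr_mul hl hf hv
    have z0 : 0 ≤ t * Ue.El (fun j x => r j x * Ue.Lw η f j x) v l :=
      mul_nonneg (by linarith) (Ue.El_nonneg p1 p2 fun j x => mul_nonneg (hr j x).1 (Ue.Lw_mem η f j x).1)
    rw [add_mul, add_assoc]
    refine le_add_of_nonneg_of_le z0 ?_
    have e1 : ∀ x, ∑ j ∈ C, grad G x j ^ 2 = ∑ j, if j ∈ C then grad G x j ^ 2 else 0 := fun x => by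
      rw [Finset.sum_ite_mem, Finset.univ_inter]
    simp only [e1, exc, Ue.El, Ue.Es, ← mean_sum, ← mean_const_mul, ← mean_add, Finset.mul_sum,
      ← Finset.sum_add_distrib]
    refine mean_mono_supp h.hv fun x hx => Finset.sum_le_sum fun j _ => ?_
    have z1 : 0 ≤ 1 / ε * Ue.exc ε (g x j) ^ 2 := by positivity
    by_cases hj : j ∈ C
    · have a := site3 (G := G) hl hf hv h0 h1 hε j hx (g x j)
      have b := mul_le_mul_of_nonneg_left a (hr j x).1
      have z : 0 ≤ 2 * ε * grad G x j ^ 2 + 1 / ε * Ue.exc ε (g x j) ^ 2 := by positivity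
      have c := mul_le_of_le_one_left z (hr j x).2
      rw [if_pos hj, hw]
      unfold Ue.exc at b c
      linarith
    · rw [hC j x hj, if_neg hj]
      unfold Ue.exc at z1
      linarith

end Crest.Agent.T157.Br
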