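import Crest.Agent.T157.S1TiDef_56
import Crest.Agent.T157.BrChi_58
import Crest.Agent.T157.Xtr_25

/-!
# Row 157, block S1: the site part of a tilt (helper58)
-/

set_option autoImplicit false

noncomputable section

namespace Crest.Agent.T157.S1

open Real Matrix Finset Function
open Crest.Agent.T157.E Crest.Agent.T157.SL
open Crest.Agent.T157.Ta
open Crest.Agent.T157.Ue (El Es Lw es xs Ld)
open Crest.Agent.T157.Rec (grad grad_add grad_sub grad_lin grad_const grad_const_mul grad_eq)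
open Crest.Agent.T157.Eig (nrm opn nrm_sq nrm_nonneg opn_nonneg mulVec_dot_le)
open Crest.Agent.T157.S3 (V Mx tau Dg hf TS Rg)
open Crest.ProbabilityR.SpinGlassDynamics (spin)

namespace TiA58

variable {n : ℕ} {D : Dat n} {s : St n} {σ : Cube n}

/-! ### the local field of `π` -/

theorem grad_ising {J : Mx n} (hJ : Jᵀ = J) (h0 : ∀ j, J j j = 0) (y : V n) (x : Cube n) (j : Fin n) :
    grad (fun x => log (ising J y x)) x j = hf J y x j := by
  rw [grad_eq, Da.Gr.ising_fl hJ, log_mul (Da.Gr.ising_pos J y x).ne' (exp_pos _).ne', log_exp,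
    Da.Gr.loc, h0, hf, Pi.add_apply]
  linear_combination ((J *ᵥ sv x) j + y j) * Rec.sv_mul_self x j

/-- the exponent of `π` over `loc` -/
def Gp (s : St n) (σ : Cube n) : ℝ := del s ⬝ᵥ sv σ + s.Th σ

theorem grad_Gp (s : St n) (σ : Cube n) : grad (Gp s) σ = del s + grad s.Th σ := by
  rw [show Gp s = fun σ => del s ⬝ᵥ sv σ + s.Th σ from rfl, grad_add, grad_lin]

/-- the shift of the local field of `π` with respect to the base point -/
def ef (D : Dat n) (s : St n) (y0 : V n) (σ : Cube n) : V n :=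
  s.y' - y0 + grad s.Th σ - grad (U D s) σ

theorem pins (hx : nu D s σ ≠ 0) : ∀ k ∈ s.S, σ k = s.sS k := by
  by_contra h
  exact hx (by simp only [nu, loc, ell, if_neg h, mul_zero, zero_mul])

theorem cm_pi (hD : D.Ok) (y0 : V n) (hx : nu D s σ ≠ 0) {j : Fin n} (hj : j ∉ s.S) :
    cm (pi D s) j σ = tanh (hf D.J y0 σ j + ef D s y0 σ j) := by
  have e : ∀ b, pi D s (update σ j b) = exp (log (ising D.J s.y (update σ j b)) -
      U D s (update σ j b) + Gp s (update σ j b)) := fun b => by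
    have h : ∀ k ∈ s.S, update σ j b k = s.sS k := fun k hk => by
      rw [update_of_ne (ne_of_mem_of_not_mem hk hj)]; exact pins hx k hk
    rw [exp_add, sub_eq_add_neg, exp_add, exp_log (Da.Gr.ising_pos _ _ _), pi, wt, loc, ell, if_pos h]
    rfl
  have hF : Ue.Fr (pi D s) j σ := ⟨by rw [e]; exact exp_pos _, by rw [e]; exact exp_pos _⟩
  rw [hF.cm, Hd.hl, e, e, log_exp, log_exp]
  congr 1
  change grad (fun z => log (ising D.J s.y z) - U D s z + Gp s z) σ j = _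
  rw [grad_add, grad_sub, grad_Gp, Pi.add_apply, Pi.sub_apply, grad_ising hD.symm hD.diag]
  simp only [hf, ef, del, Pi.add_apply, Pi.sub_apply]
  ring

theorem cm_pin (hw : Wt (loc D s)) (hx : nu D s σ ≠ 0) {j : Fin n} (hj : j ∈ s.S) :
    cm (pi D s) j σ ^ 2 = 1 := by
  have h0 : loc D s σ ≠ 0 := fun e => hx (by rw [nu, e, zero_mul])
  have hF : ¬Ue.Fr (loc D s) j σ := fun hF => by
    have k : ∀ b, 0 < loc D s (update σ j b) → b = s.sS j := fun b hb => by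
      by_contra h
      rw [loc, ell, if_neg fun h' => h (by simpa using h' j hj), mul_zero] at hb
      exact lt_irrefl _ hb
    exact absurd ((k _ hF.1).trans (k _ hF.2).symm) (by simp)
  obtain ⟨b, hb⟩ := Ue.pinned hw h0 hF
  rw [show cm (pi D s) j σ = spin b from (hb (fun σ => exp (Gp s σ)) fun _ => exp_pos _).2]
  cases b <;> simp [spin]

theorem var_pi (hD : D.Ok) (hw : Wt (loc D s)) (y0 : V n) (hx : nu D s σ ≠ 0) (j : Fin n) :
    1 - cm (pi D s) j σ ^ 2 ≤ 7.4 * Dg D.J y0 σ j + ef D s y0 σ j ^ 2 := by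
  by_cases hj : j ∈ s.S
  · rw [cm_pin hw hx hj, sub_self]
    have := Br.Chi58.Dg_nonneg D.J y0 σ j
    positivity
  · exact Br.Chi58.shift (cm_pi hD y0 hx hj)

theorem grad_U (D : Dat n) (s : St n) (σ : Cube n) (j : Fin n) : grad (U D s) σ j =
    D.P * (D.Jᵀ *ᵥ fun k => if k ∈ s.S then uu D s σ k else 0) j -
      D.P * sv σ j * ∑ k ∈ s.S, D.J k j ^ 2 := by
  have e : ∀ k, grad (fun z => uu D s z k) σ j = D.J k j := fun k => by
    rw [show (fun z => uu D s z k) = fun z => D.J k ⬝ᵥ sv z - s.x k from rfl, grad_sub, grad_lin,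
      grad_const, sub_zero]
  rw [show U D s = fun z => D.P / 2 * ∑ k ∈ s.S, uu D s z k ^ 2 from rfl, grad_const_mul, Pi.smul_apply,
    Da.Gr.grad_sum]
  simp only [sq, Da.Gr.grad_mul, e, mulVec, dotProduct, transpose_apply, mul_ite, mul_zero,
    sum_ite_mem, univ_inter, smul_eq_mul, mul_sum, ← sum_sub_distrib]
  exact sum_congr rfl fun k _ => by ring

theorem grad_U_sq (hD : D.Ok) (σ : Cube n) :
    ∑ j, grad (U D s) σ j ^ 2 ≤ 36 * D.P * U D s σ + 162 * D.P ^ 2 * #s.S := by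
  have o2 : opn D.J ^ 2 ≤ 9 := by nlinarith [hD.op, opn_nonneg D.J]
  have col : ∀ j, ∑ k, D.J k j ^ 2 ≤ 9 := fun j => (Da.Gr.row_sq_le D.J j).trans o2
  have row : ∀ k, ∑ j, D.J k j ^ 2 ≤ 9 := fun k => by
    refine le_trans (le_of_eq (sum_congr rfl fun j _ => ?_)) (col k)
    rw [← transpose_apply D.J, hD.symm]
  set u : V n := fun k => if k ∈ s.S then uu D s σ k else 0 with hu
  have h1 : ∑ j, (D.Jᵀ *ᵥ u) j ^ 2 ≤ 9 * ∑ k ∈ s.S, uu D s σ k ^ 2 := by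
    have a := mulVec_dot_le D.Jᵀ u
    have b : u ⬝ᵥ u = ∑ k ∈ s.S, uu D s σ k ^ 2 := by
      simp only [hu, dotProduct, mul_ite, ite_mul, mul_zero, zero_mul, sum_ite_mem, univ_inter, sq,
        inter_self]
    rw [hD.symm, b] at a
    rw [hD.symm]
    simp only [sq] at a ⊢
    exact a.trans (mul_le_mul_of_nonneg_right (by simpa only [sq] using o2)
      (sum_nonneg fun _ _ => mul_self_nonneg _))
  have h2 : ∑ j, (∑ k ∈ s.S, D.J k j ^ 2) ^ 2 ≤ 81 * #s.S := by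
    calc _ ≤ ∑ j, 9 * ∑ k ∈ s.S, D.J k j ^ 2 := sum_le_sum fun j _ => by
          rw [sq]
          exact mul_le_mul_of_nonneg_right ((sum_le_univ_sum_of_nonneg fun _ => sq_nonneg _).trans
            (col j)) (sum_nonneg fun _ _ => sq_nonneg _)
      _ = 9 * ∑ k ∈ s.S, ∑ j, D.J k j ^ 2 := by rw [← mul_sum, sum_comm]
      _ ≤ 9 * ∑ _k ∈ s.S, (9 : ℝ) := by gcongr with k; exact row k
      _ = _ := by rw [sum_const, nsmul_eq_mul]; ring
  have h3 : ∀ j, grad (U D s) σ j ^ 2 ≤ 2 * D.P ^ 2 * (D.Jᵀ *ᵥ u) j ^ 2 +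
      2 * D.P ^ 2 * (∑ k ∈ s.S, D.J k j ^ 2) ^ 2 := fun j => by
    rw [grad_U]
    have := Rec.sv_mul_self σ j
    set a := (D.Jᵀ *ᵥ u) j
    set b := ∑ k ∈ s.S, D.J k j ^ 2
    have e : (D.P * sv σ j * b) ^ 2 = D.P ^ 2 * b ^ 2 := by
      linear_combination D.P ^ 2 * b ^ 2 * this
    nlinarith [sq_nonneg (D.P * a + D.P * sv σ j * b)]
  refine (sum_le_sum fun j _ => h3 j).trans ?_
  rw [sum_add_distrib, ← mul_sum, ← mul_sum, U]
  have p2 : 0 ≤ 2 * D.P ^ 2 := by positivity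
  nlinarith [mul_le_mul_of_nonneg_left h1 p2, mul_le_mul_of_nonneg_left h2 p2]

theorem sum_sq (v : V n) : ∑ j, v j ^ 2 = nrm v ^ 2 := by
  rw [nrm_sq]; simp only [dotProduct, sq]

theorem sum_sq_le {v : V n} {c : ℝ} (h : nrm v ≤ c) : ∑ j, v j ^ 2 ≤ c ^ 2 := by
  rw [sum_sq]; exact pow_le_pow_left₀ (nrm_nonneg _) h 2

theorem ef_sq (hD : D.Ok) {e A : ℝ} (hc : Cl e A s) (y0 : V n) (σ : Cube n) :
    ∑ j, ef D s y0 σ j ^ 2 ≤ 4 * (nrm (s.y - y0) ^ 2 + del s ⬝ᵥ del s + s.L ^ 2) +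
      144 * D.P * U D s σ + 648 * D.P ^ 2 * #s.S := by
  have h : ∀ j, ef D s y0 σ j ^ 2 ≤ 4 * ((s.y - y0) j ^ 2 + del s j ^ 2 + grad s.Th σ j ^ 2) +
      4 * grad (U D s) σ j ^ 2 := fun j => by
    have e : ef D s y0 σ j = (s.y - y0) j + del s j + grad s.Th σ j - grad (U D s) σ j := by
      simp only [ef, del, Pi.add_apply, Pi.sub_apply]; ring
    rw [e]
    generalize (s.y - y0) j = a, del s j = b, grad s.Th σ j = c, grad (U D s) σ j = d
    nlinarith [sq_nonneg (a - b), sq_nonneg (a - c), sq_nonneg (a + d), sq_nonneg (b - c),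
      sq_nonneg (b + d), sq_nonneg (c + d)]
  refine (sum_le_sum fun j _ => h j).trans ?_
  simp only [sum_add_distrib, ← mul_sum]
  rw [sum_sq, sum_sq (del s), nrm_sq (del s)]
  linarith [sum_sq_le (hc.gr σ), grad_U_sq (s := s) hD σ]

/-- **the shift of the field is paid by the budget** -/
theorem ef_mean (hD : D.Ok) {e A : ℝ} (hc : Cl e A s) (y0 : V n) (hv : Wt (nu D s))
    (hH : 0 ≤ Hy D s) (hU : 0 ≤ mean (nu D s) (U D s)) :
    mean (nu D s) (fun σ => ∑ j, ef D s y0 σ j ^ 2) ≤ 648 * D.P ^ 2 * Bb D s y0 := by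
  refine (hv.mean_mono fun σ => ef_sq hD hc y0 σ).trans ?_
  rw [mean_add, mean_add, hv.mean_const, hv.mean_const, mean_const_mul, Bb, Bd]
  have P1 := hD.P1
  have P2 : D.P ≤ D.P ^ 2 := by nlinarith
  have a : 0 ≤ nrm (s.y - y0) ^ 2 + del s ⬝ᵥ del s + s.L ^ 2 := by rw [← nrm_sq]; positivity
  have b1 := mul_le_mul_of_nonneg_right (P1.trans P2) a
  have b2 := mul_le_mul_of_nonneg_right P2 hU
  have b3 := mul_nonneg (sq_nonneg D.P) hH
  have b4 := mul_nonneg (sq_nonneg D.P) hU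
  nlinarith

/-! ### site inequalities -/

/-- the density of `AA` -/
def aa (D : Dat n) (s : St n) (σ : Cube n) (j : Fin n) : ℝ :=
  Ue.rw D.η0 D.θ D.f j σ * kls (nu D s) (pi D s) j σ +
    (1 - D.θ) / 2 * (Lw D.η0 D.f j σ * es (nu D s) (loc D s) j σ)

theorem AA_eq (D : Dat n) (s : St n) : AA D s = mean (nu D s) fun σ => ∑ j, aa D s σ j := by
  simp only [AA, aa, Ar, As, El, Es, mean_sum, mean_add, mean_const_mul, sum_add_distrib, mul_sum]

theorem xs_le {c a b o : ℝ} (ho : |o| ≤ c / 2) : xs c (a + b) ≤ 8 * (a ^ 2 + (b - o) ^ 2) := by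
  have := Ue.xs_le_sq (t := a + b) ho
  nlinarith [sq_nonneg (a - (b - o))]

section site
variable (hD : D.Ok) (hw : Wt (loc D s)) (hx : nu D s σ ≠ 0) (j : Fin n)
include hD hw hx

theorem dens_nonneg : 0 ≤ Ue.rw D.η0 D.θ D.f j σ * kls (nu D s) (pi D s) j σ ∧
    0 ≤ Lw D.η0 D.f j σ * es (nu D s) (loc D s) j σ := by
  obtain ⟨p1, p2⟩ := Ue.pr_mul (v := nu D s) hw hD.fpos rfl
  exact ⟨mul_nonneg (Ue.rw_mem hD.e0.le (by linarith [hD.e1]) hD.t0 (by linarith [hD.t1, hD.e0]) _ _ _).1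
    ((p1.wt _).kls_nonneg j hx), mul_nonneg (Ue.Lw_mem _ _ _ _).1 (Ue.es_nonneg p1 p2 j hx)⟩

/-- **`χ²` is paid by `AA`, `δ` and the excess** -/
theorem chi_sq {o : ℝ} (ho : |o| ≤ D.η0 / 2) : chi (nu D s) (pi D s) j σ ^ 2 ≤
    3248 * aa D s σ j + 16 * (del s j ^ 2 + (grad s.Th σ j - o) ^ 2) := by
  obtain ⟨p1, p2⟩ := Ue.pr_mul (v := nu D s) hw hD.fpos rfl
  obtain ⟨d1, d2⟩ := dens_nonneg hD hw hx j
  have k0 : 0 ≤ kls (nu D s) (pi D s) j σ := (p1.wt _).kls_nonneg j hx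
  have a1 : chi (nu D s) (pi D s) j σ ^ 2 / 2 ≤ kls (nu D s) (pi D s) j σ := chi_sq_le (p1.wt _) j hx
  have z : 0 ≤ del s j ^ 2 + (grad s.Th σ j - o) ^ 2 := by positivity
  have t1 : 0 ≤ 1 - D.θ := by linarith [hD.t1, hD.e0]
  have d3 := mul_nonneg t1 d2
  unfold aa
  by_cases h : 1 / 2 ≤ Ue.rw D.η0 D.θ D.f j σ
  · have := mul_le_mul_of_nonneg_right h k0
    linarith
  · have hL : Ld D.η0 D.f j σ := by
      by_contra hL
      exact h (by rw [Ue.rw_of_not hL]; linarith [hD.e1])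
    rw [Ue.rw_of hL, not_le] at h
    have a2 := Ue.chi_loud_site (v := nu D s) hw hD.fpos rfl (Gp s) hD.e0 (by linarith [hD.e1])
      zero_le_one le_rfl j hx
    rw [grad_Gp, Pi.add_apply, one_mul, one_pow, mul_one] at a2
    nth_rw 1 [Ue.Lw_of hL] at a2
    rw [one_mul] at a2
    have a3 := xs_le (a := del s j) (b := grad s.Th σ j) ho
    have a4 := mul_le_mul_of_nonneg_right Ue.exp_six d2
    have a5 := mul_le_mul_of_nonneg_right h.le d2
    change chi (nu D s) (pi D s) j σ ^ 2 ≤ _ at a2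
    linarith

theorem loud {κ g o o' : ℝ} (k0 : 0 < κ) (k1 : κ ≤ 1) (ho : |o| ≤ κ / 100 * D.η0 / 2)
    (ho' : |o'| ≤ κ / 100 * D.η0 / 2) :
    (1 - 2 * D.η0 - Ue.rw D.η0 D.θ D.f j σ) * (chi (nu D s) (pi D s) j σ * g) ≤
      κ / 3 * aa D s σ j + 400 * (1 / κ * (g - o') ^ 2) +
        8 * (del s j ^ 2 + (grad s.Th σ j - o) ^ 2) := by
  obtain ⟨d1, d2⟩ := dens_nonneg hD hw hx j
  have a1 := Ue.tilt_err_site (v := nu D s) hw hD.fpos rfl (Gp s) hD.e0 (by linarith [hD.e1])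
    (ρ := κ / 100) (by positivity) (by linarith) g j hx
  rw [grad_Gp, Pi.add_apply] at a1
  have a2 := xs_le (a := del s j) (b := grad s.Th σ j) ho
  have a3 := mul_le_mul_of_nonneg_left (Ue.xs_le_sq (t := g) ho') (by positivity : 0 ≤ 1 / (κ / 100))
  have e3 : 1 / (κ / 100) * (4 * (g - o') ^ 2) = 400 * (1 / κ * (g - o') ^ 2) := by field_simp; ring
  have a4 : κ / 100 + exp 6 * (κ / 100) ^ 2 ≤ κ / 6 := by
    have := mul_le_mul_of_nonneg_right Ue.exp_six (sq_nonneg (κ / 100))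
    nlinarith
  have a5 := mul_le_mul_of_nonneg_right a4 d2
  have t0 : 0 ≤ 1 - 2 * D.η0 - D.θ := by linarith [hD.t1]
  have t1 : 1 - 2 * D.η0 - D.θ ≤ 1 - D.θ := by linarith [hD.e0]
  have t2 : 1 - 2 * D.η0 - D.θ ≤ 1 := by linarith [hD.t0, hD.e0]
  have a6 : Lw D.η0 D.f j σ * (chi (nu D s) (pi D s) j σ * g) ≤
      Lw D.η0 D.f j σ * (|chi (nu D s) (pi D s) j σ| * |g|) :=
    mul_le_mul_of_nonneg_left (by rw [← abs_mul]; exact le_abs_self _) (Ue.Lw_mem _ _ _ _).1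
  have a7 : Lw D.η0 D.f j σ * (chi (nu D s) (pi D s) j σ * g) ≤
      κ / 6 * (Lw D.η0 D.f j σ * es (nu D s) (loc D s) j σ) + (400 * (1 / κ * (g - o') ^ 2) +
        8 * (del s j ^ 2 + (grad s.Th σ j - o) ^ 2)) := by
    change Lw D.η0 D.f j σ * (|chi (nu D s) (pi D s) j σ| * |g|) ≤ _ at a1
    linarith
  have a8 := mul_le_mul_of_nonneg_left a7 t0
  have a9 := mul_le_mul_of_nonneg_right t1 (mul_nonneg (by positivity : 0 ≤ κ / 6) d2)
  have a10 := mul_le_of_le_one_left (by positivity : 0 ≤ 400 * (1 / κ * (g - o') ^ 2) +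
    8 * (del s j ^ 2 + (grad s.Th σ j - o) ^ 2)) t2
  have a11 := mul_nonneg k0.le d1
  rw [Ue.rw_eq, aa]
  linarith

end site

theorem cg_split {q o r d : ℝ} (hq : |q| ≤ 1) (ho : |o| ≤ 1 / 2) :
    cg q (o + r - d) ≤ 12 * ((1 - q ^ 2) * o ^ 2) + 12 * (r ^ 2 + d ^ 2) := by
  have h0 : 0 ≤ 1 - q ^ 2 := by nlinarith [abs_le.1 hq]
  have h1 : 1 - q ^ 2 ≤ 1 := by nlinarith [sq_nonneg q]
  have z : 0 ≤ (1 - q ^ 2) * o ^ 2 := by positivity
  rcases le_total |o + r - d| 1 with h | h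
  · have a := Br.Chi58.cg_small hq h
    have b : (o + r - d) ^ 2 ≤ 3 * o ^ 2 + 3 * (r ^ 2 + d ^ 2) := by
      nlinarith [sq_nonneg (o - r), sq_nonneg (o + d), sq_nonneg (r + d)]
    have c := mul_le_mul_of_nonneg_left b h0
    have c' := mul_le_of_le_one_left (by positivity : 0 ≤ r ^ 2 + d ^ 2) h1
    nlinarith
  · have a := cg_le hq (o + r - d)
    have b := Ue.xs_le_sq (c := 1) (t := 2 * (o + r - d)) (o := o) ho
    have b1 : |o + r - d| ≤ |o| + |r - d| := by rw [add_sub_assoc]; exact abs_add_le _ _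
    have b2 : |o + r - d| ≤ 2 * |r - d| := by linarith
    have b3 := pow_le_pow_left₀ (abs_nonneg _) b2 2
    rw [mul_pow, sq_abs, sq_abs] at b3
    nlinarith [sq_nonneg (r + d)]

theorem young {κ u : ℝ} (k0 : 0 < κ) (u0 : 0 ≤ u) (u1 : u ≤ 1) (c x : ℝ) :
    u * (c * x) ≤ κ / 9744 * c ^ 2 + 2436 * (1 / κ * x ^ 2) := by
  have a := Ue.amgm_abs (u := c) (τ := x) (by positivity : 0 < κ / 4872)
  have e : 1 / (κ / 4872) * x ^ 2 / 2 = 2436 * (1 / κ * x ^ 2) := by field_simp; ring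
  have b : u * (c * x) ≤ |x| * |c| := by
    rw [← abs_mul, mul_comm x]
    exact (mul_le_mul_of_nonneg_left (le_abs_self _) u0).trans (mul_le_of_le_one_left (abs_nonneg _) u1)
  linarith

/-- **the inequality at a site** -/
theorem site (hD : D.Ok) (hw : Wt (loc D s)) (hx : nu D s σ ≠ 0) (j : Fin n) (y0 : V n)
    {κ g W o o' e : ℝ} (k0 : 0 < κ) (k1 : κ ≤ 1) (he : e ≤ κ / 100 * D.η0 / 2) (ho : |o| ≤ e)
    (ho' : |o'| ≤ e) :
    -(Ue.rw D.η0 D.θ D.f j σ * ((g - del s j) * chi (nu D s) (pi D s) j σ)) +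
      Ue.rw D.η0 D.θ D.f j σ * cg (cm (pi D s) j σ) (g - del s j) +
      (1 - 2 * D.η0) * (chi (nu D s) (pi D s) j σ * W) ≤ κ * aa D s σ j +
      2500 * (1 / κ * ((g - W) ^ 2 + del s j ^ 2 + (g - o') ^ 2 + (grad s.Th σ j - o) ^ 2)) +
      89 * (Dg D.J y0 σ j * (o' * o')) + 12 * e ^ 2 * ef D s y0 σ j ^ 2 := by
  have e0 := hD.e0
  have e1 := hD.e1
  have h1 : κ / 100 * D.η0 / 2 ≤ D.η0 / 2 := by nlinarith
  obtain ⟨r0, r1⟩ := Ue.rw_mem e0.le (by linarith) hD.t0 (by linarith [hD.t1]) D.f j σ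
  have hq := abs_cm_le (wt_wt hw (Gp s)).nn j σ
  have a1 := chi_sq hD hw hx j (ho.trans (he.trans h1))
  have a2 := loud hD hw hx j (g := g) k0 k1 (ho.trans he) (ho'.trans he)
  have a3 := cg_split (r := g - o') (d := del s j) hq (ho'.trans (he.trans (by linarith)))
  rw [add_sub_cancel] at a3
  have a4 := mul_le_of_le_one_left (cg_nonneg hq (g - del s j)) r1
  have a5 := mul_le_mul_of_nonneg_right (var_pi hD hw y0 hx j) (sq_nonneg o')
  have a6 : o' ^ 2 ≤ e ^ 2 := by rw [← sq_abs]; exact pow_le_pow_left₀ (abs_nonneg _) ho' 2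
  have a7 := mul_le_mul_of_nonneg_left a6 (sq_nonneg (ef D s y0 σ j))
  have a8 := young k0 (u := 1 - 2 * D.η0) (by linarith) (by linarith) (chi (nu D s) (pi D s) j σ) (W - g)
  have a9 := young k0 r0 r1 (chi (nu D s) (pi D s) j σ) (del s j)
  have a10 := mul_le_mul_of_nonneg_left a1 k0.le
  have i1 : 1 ≤ 1 / κ := one_le_one_div k0 k1
  have b1 := le_mul_of_one_le_left (sq_nonneg (del s j)) i1
  have b2 := le_mul_of_one_le_left (sq_nonneg (g - o')) i1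
  have b3 := le_mul_of_one_le_left (sq_nonneg (grad s.Th σ j - o)) i1
  have b4 := mul_le_of_le_one_left (sq_nonneg (del s j)) k1
  have b5 := mul_le_of_le_one_left (sq_nonneg (grad s.Th σ j - o)) k1
  have b6 : 0 ≤ 1 / κ * (g - W) ^ 2 := by positivity
  have b7 := mul_nonneg (Br.Chi58.Dg_nonneg D.J y0 σ j) (sq_nonneg o')
  have b8 := sq_nonneg (del s j)
  have b9 := sq_nonneg (g - o')
  have b10 := sq_nonneg (grad s.Th σ j - o)
  change cg (cm (pi D s) j σ) _ ≤ 12 * ((1 - cm (pi D s) j σ ^ 2) * _) + _ at a3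
  change _ * cg (cm (pi D s) j σ) _ ≤ cg (cm (pi D s) j σ) _ at a4
  linarith

/-- **the tilt identity for `AA`** -/
theorem AA_tl (hD : D.Ok) (hw : Wt (loc D s)) (φ : Cube n → ℝ) (l : ℝ) (Ω : Cube n → V n)
    (G : Cube n → ℝ) : AA D (s.un.tl φ l Ω G) = AA D s + mean (nu D s) fun σ => ∑ j,
      (-(Ue.rw D.η0 D.θ D.f j σ * ((grad φ σ j - del s j) * chi (nu D s) (pi D s) j σ)) +
        Ue.rw D.η0 D.θ D.f j σ * cg (cm (pi D s) j σ) (grad φ σ j - del s j)) := by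
  have e : pi D (s.un.tl φ l Ω G) = wt (pi D s) fun σ => φ σ - del s ⬝ᵥ sv σ := by
    rw [pi, pi, wt_add]
    change wt (loc D s) _ = _
    congr 1; funext σ
    simp [del, St.un, St.tl]; ring
  have g : ∀ σ j, grad (fun σ => φ σ - del s ⬝ᵥ sv σ) σ j = grad φ σ j - del s j := fun σ j => by
    rw [grad_sub, grad_lin, Pi.sub_apply]
  have p : Pr (nu D s) (pi D s) := (Ue.pr_mul (v := nu D s) hw hD.fpos rfl).1.wt _
  rw [AA, AA, e]
  change Ar _ (nu D s) _ + _ * El _ (nu D s) (loc D s) = _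
  simp only [Ar, As_wt' p (Ue.off_rw D.η0 D.θ D.f _), g, mean_sum, mean_add, mean_neg,
    sum_add_distrib, sum_sub_distrib, sum_neg_distrib]
  ring

/-- the certificate of the new tilt under any law -/
theorem G_sq {K0 κ0 e1 : ℝ} {J : Mx n} {y0 : V n} (hκ : 0 < κ0) (h : Bas J K0 κ0 y0) (e0 : 0 ≤ e1)
    {G v : Cube n → ℝ} (hG : TS e1 G) (hv : Wt v) : mean v (fun σ => G σ ^ 2) ≤
      4 * mean (ising J y0) (fun σ => G σ ^ 2) +
        (max K0 1 + 8 / κ0) * e1 * (16 * kl v (ising J y0) + 18) := by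
  have hw := Da.Gr.ising_pos J y0
  have h1 := Xt.h1_of_atd (h.mono hw (le_max_left K0 1) le_rfl) hw (by positivity) hκ
  have a := h1.xfer hw (by positivity) ((Xt.lip2_iff (sqrt_nonneg e1)).2 (by rwa [sq_sqrt e0]))
    (Wt.of_pos hw).isP hv.isP
  rw [Ent.kl_self, sq_sqrt e0, mul_zero, zero_add] at a
  exact a

theorem scales {C P CN κ η ω e ec : ℝ} (C1 : 1 ≤ C) (P1 : 1 ≤ P) (CN1 : 1 ≤ CN) (k0 : 0 < κ)
    (k1 : κ ≤ 1) (η0 : 0 < η) (η1 : η ≤ 1) (o0 : 0 < ω) (o1 : ω ≤ 1) (e0 : 0 ≤ e) (ec0 : 0 ≤ ec)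
    (he : C * P * √e ≤ κ * ω) (hM : Mx' C P CN κ η ω ^ 2 * ec ≤ 1) :
    C ≤ Mx' C P CN κ η ω * κ ∧ C * (P ^ 2 * ec) ≤ κ * ω ∧ C * ec ≤ κ * η ∧ C * e ≤ κ * ω := by
  have u0 : 0 < κ * η * ω := by positivity
  have u1 : κ * η * ω ≤ κ * η := mul_le_of_le_one_right (by positivity) o1
  have u2 : κ * η * ω ≤ κ * ω := by
    rw [mul_right_comm]; exact mul_le_of_le_one_right (by positivity) η1
  have u3 : κ * ω ≤ κ := mul_le_of_le_one_right k0.le o1
  have m1 : C * P ^ 2 ≤ Mx' C P CN κ η ω * (κ * η * ω) := by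
    rw [Mx', div_pow, mul_pow, mul_assoc]
    refine mul_le_mul_of_nonneg_left ?_ (by linarith)
    rw [sq (κ * η * ω), div_mul_eq_mul_div, mul_div_mul_right _ _ u0.ne', le_div_iff₀ u0]
    exact mul_le_mul_of_nonneg_left ((u2.trans (u3.trans k1)).trans (one_le_pow₀ CN1)) (sq_nonneg _)
  have M0 : 0 ≤ Mx' C P CN κ η ω := by rw [Mx']; positivity
  generalize Mx' C P CN κ η ω = M at *
  have m2 : C ≤ C * P ^ 2 := le_mul_of_one_le_right (by linarith) (one_le_pow₀ P1)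
  have m3 : C ≤ M * κ := (m2.trans m1).trans (mul_le_mul_of_nonneg_left (u2.trans u3) M0)
  have M1 : 1 ≤ M := (C1.trans m3).trans (mul_le_of_le_one_right M0 k1)
  have m4 : M * ec ≤ 1 :=
    le_trans (mul_le_mul_of_nonneg_right (le_self_pow₀ M1 two_ne_zero) ec0) hM
  have m5 : C * P ^ 2 * ec ≤ κ * η * ω := by
    linarith [mul_le_mul_of_nonneg_right m1 ec0, mul_le_mul_of_nonneg_left m4 u0.le]
  refine ⟨m3, by linarith, (mul_le_mul_of_nonneg_right m2 ec0).trans (m5.trans u1), ?_⟩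
  have s0 := sqrt_nonneg e
  have s1 : C * √e ≤ κ * ω := le_trans (mul_le_mul_of_nonneg_right
    (le_mul_of_one_le_right (by linarith) P1) s0) he
  have s2 : √e ≤ 1 := (le_mul_of_one_le_left s0 C1).trans (s1.trans (u3.trans k1))
  calc C * e = C * √e * √e := by rw [mul_assoc, mul_self_sqrt e0]
    _ ≤ κ * ω := (mul_le_of_le_one_right (by positivity) s2).trans s1

theorem final {CB K1 P κ ω e e1 ec K l2 B H M d X pw c g g0 y z : ℝ} (CB1 : 1 ≤ CB) (K11 : 1 ≤ K1)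
    (P1 : 1 ≤ P) (k0 : 0 < κ) (k1 : κ ≤ 1) (o0 : 0 < ω) (o1 : ω ≤ 1) (e0 : 0 ≤ e) (e10 : 0 ≤ e1)
    (e1c : e1 ≤ ec) (K0 : 1 ≤ K) (l0 : 0 ≤ l2) (B0 : 0 ≤ B) (d0 : 0 ≤ d) (X0 : 0 ≤ X) (p0 : 0 ≤ pw)
    (b1 : H ≤ CB * B) (m3 : 10 ^ 6 * (CB * K1) ≤ M * κ)
    (m5 : 10 ^ 6 * (CB * K1) * (P ^ 2 * ec) ≤ κ * ω) (m8 : 10 ^ 6 * (CB * K1) * e ≤ κ * ω)
    (r1 : c ≤ e * (l2 + H) + K) (r2 : g ≤ 4 * g0 + K1 * e1 * (16 * H + 18)) (g2 : g0 ≤ e1 * l2 + K)
    (r3 : y ≤ pw + e1 * (l2 + H) + K) (r4 : z ≤ 648 * P ^ 2 * B) :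
    2500 * (1 / κ * (c + d + g + X)) + 89 * y + 12 * ec ^ 2 * z ≤ 10 ^ 6 * (CB * K1) * pw +
      10 ^ 6 * (CB * K1) / κ * d + ω * (B + l2) + M * (X + K) := by
  have N1 : CB ≤ CB * K1 := le_mul_of_one_le_right (by linarith) K11
  have N2 : K1 ≤ CB * K1 := le_mul_of_one_le_left (by linarith) CB1
  have t2 : K1 * H ≤ CB * K1 * B := by linarith [mul_le_mul_of_nonneg_left b1 (by linarith : 0 ≤ K1)]
  generalize CB * K1 = N at *
  have N3 : 1 ≤ N := CB1.trans N1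
  have ec0 : 0 ≤ ec := e10.trans e1c
  have T0 : 0 ≤ B + l2 := by positivity
  have t0 : l2 ≤ N * l2 := le_mul_of_one_le_left l0 N3
  have t3 : 0 ≤ N * B := by positivity
  have t1 : l2 + H ≤ N * (B + l2) := by linarith [mul_le_mul_of_nonneg_right N1 B0]
  have u3 : κ * ω ≤ 1 := (mul_le_of_le_one_right k0.le o1).trans k1
  have u4 : κ * ω ≤ ω := mul_le_of_le_one_left o0.le k1
  have n1 : ec ≤ P ^ 2 * ec := le_mul_of_one_le_left ec0 (one_le_pow₀ P1)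
  have n2 : 10 ^ 6 * N * e1 ≤ κ * ω :=
    (mul_le_mul_of_nonneg_left (e1c.trans n1) (by positivity)).trans m5
  have x0 := mul_le_mul_of_nonneg_left t1 e0
  have x0' := mul_le_mul_of_nonneg_left t1 e10
  have x1 := mul_le_mul_of_nonneg_right m8 T0
  have x2 := mul_le_mul_of_nonneg_right n2 T0
  have x3 : e1 * l2 ≤ e1 * (N * (B + l2)) := mul_le_mul_of_nonneg_left (by linarith) e10
  have x4 : e1 * (K1 * H) ≤ e1 * (N * (B + l2)) := mul_le_mul_of_nonneg_left (by linarith) e10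
  have x5 := mul_le_mul_of_nonneg_right N2 e10
  have x5' := mul_nonneg (by linarith : 0 ≤ N) e10
  have x6 : 1 / κ * (c + d + g + X) ≤ 1 / κ * (21 * (κ * ω * (B + l2) / 10 ^ 6) + d + 23 * (X + K)) :=
    mul_le_mul_of_nonneg_left (by linarith) (by positivity)
  have x7 : 1 / κ * (21 * (κ * ω * (B + l2) / 10 ^ 6) + d + 23 * (X + K)) =
      21 * (ω * (B + l2)) / 10 ^ 6 + 1 / κ * d + 23 * (1 / κ * (X + K)) := by
    field_simp
  have x8 : 10 ^ 6 * (1 / κ * d) ≤ 10 ^ 6 * N / κ * d := by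
    rw [← mul_assoc, mul_one_div]; gcongr; linarith
  have EK : 0 ≤ X + K := by linarith
  have x9 : 10 ^ 6 * (1 / κ * (X + K)) ≤ M * (X + K) := by
    rw [← mul_assoc, mul_one_div]
    exact mul_le_mul_of_nonneg_right ((div_le_iff₀ k0).2 (by linarith)) EK
  have x10 := le_mul_of_one_le_left EK (one_le_one_div k0 k1)
  have x11 := le_mul_of_one_le_left p0 N3
  have x12 := mul_le_mul_of_nonneg_right u4 T0
  have y0 := le_mul_of_one_le_left (by positivity : 0 ≤ P ^ 2 * ec) N3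
  have y1 : 10 ^ 6 * (P ^ 2 * ec) ≤ ω := by linarith
  have y2 : ec * B ≤ B + l2 := (mul_le_of_le_one_left B0 (by linarith)).trans (by linarith)
  have y3 := mul_le_mul y1 y2 (by positivity) o0.le
  have y4 := mul_le_mul_of_nonneg_left r4 (by positivity : 0 ≤ 12 * ec ^ 2)
  have x14 : 0 ≤ ω * (B + l2) := by positivity
  have x15 : 0 ≤ 1 / κ * d := by positivity
  linarith

/-- **the sum of the site inequalities** -/
theorem key (hD : D.Ok) (hw : Wt (loc D s)) {ec A κ : ℝ} (hc : Cl ec A s) (y0 : V n) (φ : Cube n → ℝ)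
    (l : ℝ) (W : Cube n → V n) {Ω : Cube n → V n} {G : Cube n → ℝ} (hΩ : ∀ σ, ‖Ω σ‖ ≤ ec)
    (hG : ∀ σ, nrm (grad φ σ - Ω σ) ≤ G σ) (k0 : 0 < κ) (k1 : κ ≤ 1) (he : ec ≤ κ / 100 * D.η0 / 2) :
    AA D (s.un.tl φ l Ω G) + (1 - 2 * D.η0) * chW D s W ≤ (1 + κ) * AA D s +
      (2500 * (1 / κ * (mean (nu D s) (fun σ => nrm (grad φ σ - W σ) ^ 2) + del s ⬝ᵥ del s +
        mean (nu D s) (fun σ => G σ ^ 2) + Ex D s)) +
      89 * mean (nu D s) (fun σ => Dg D.J y0 σ ⬝ᵥ (Ω σ * Ω σ)) +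
      12 * ec ^ 2 * mean (nu D s) fun σ => ∑ j, ef D s y0 σ j ^ 2) := by
  have hv : Wt (nu D s) := hw.mul_pos hD.fpos
  rw [AA_tl hD hw, add_mul, one_mul, add_assoc, add_assoc]
  refine add_le_add le_rfl ?_
  rw [AA_eq, chW, Ex, ← hv.mean_const (del s ⬝ᵥ del s)]
  simp only [← mean_const_mul, ← mean_add]
  refine mean_mono_supp hv fun σ hx => ?_
  have a1 := sum_le_sum fun j (_ : j ∈ univ) => site hD hw hx j y0 (g := grad φ σ j) (W := W σ j)
    (o := s.Om σ j) (o' := Ω σ j) (e := ec) k0 k1 he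
    ((norm_le_pi_norm (s.Om σ) j).trans (hc.rg σ).1) ((norm_le_pi_norm (Ω σ) j).trans (hΩ σ))
  have a2 := sum_sq (grad φ σ - W σ)
  have a3 := sum_sq (del s)
  have a4 := sum_sq_le (hG σ)
  have a5 := sum_sq_le (hc.ex σ)
  rw [nrm_sq] at a3
  simp only [Pi.sub_apply] at a2 a4 a5
  simp only [sum_add_distrib, ← mul_sum, a2, a3] at a1
  have a6 := mul_le_mul_of_nonneg_left (add_le_add a4 a5) (by positivity : 0 ≤ 1 / κ)
  have a7 : Dg D.J y0 σ ⬝ᵥ (Ω σ * Ω σ) = ∑ j, Dg D.J y0 σ j * (Ω σ j * Ω σ j) := rfl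
  rw [sum_add_distrib, a7]
  linarith

end TiA58

open TiA58 in
theorem tiltAGlue : TiltAGlue := by
  intro hC hB K0 κ0 hκ
  obtain ⟨CB, CB1, hB⟩ := hB K0 κ0 hκ
  have K11 : 1 ≤ max K0 1 + 8 / κ0 := le_add_of_le_of_nonneg (le_max_right _ _) (by positivity)
  have N1 : 1 ≤ CB * (max K0 1 + 8 / κ0) := one_le_mul_of_one_le_of_one_le CB1 K11
  refine ⟨10 ^ 6 * (CB * (max K0 1 + 8 / κ0)), by linarith,
    fun n D s y0 p al q w a e e1 ec CN C0 K l κ ω φ W Ω G h => ?_⟩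
  obtain ⟨hD, hc, hb, hA, p0, e0, e10, e1c, CN1, C00, K1, l0, k0, k1, o0, o1, he, hM⟩ := h
  obtain ⟨-, c2, -, -, -, c6, c7, -, -, c10, -⟩ := hC n D s hD
  obtain ⟨b1, -⟩ := hB n D s y0 ec ec hD hc hb
  have ec0 := e10.trans e1c
  obtain ⟨m3, m5, m6, m8⟩ := scales (by linarith) hD.P1 CN1 k0 k1 hD.e0 (by linarith [hD.e1]) o0 o1 e0
    ec0 he hM
  have dd : 0 ≤ del s ⬝ᵥ del s := by rw [← nrm_sq]; positivity
  have B0 : 0 ≤ Bb D s y0 := by rw [Bb, Bd]; positivity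
  have a1 := key hD c2.hw hc y0 φ (CN * l) W (fun σ => (hA.rg σ).1.trans e1c) hA.ex k0 k1
    (by linarith [le_mul_of_one_le_left ec0 N1])
  have a2 := final CB1 K11 hD.P1 k0 k1 o0 o1 e0 e10 e1c K1 (sq_nonneg l) B0 dd c10
    (mul_nonneg C00 (sum_nonneg fun i _ => mul_nonneg (p0 i) (mul_self_nonneg (w i)))) b1 m3 m5 m8
    (hA.c _ c2.hv) (G_sq hκ hb e10 hA.ts c2.hv) hA.g2 (hA.g _ c2.hv) (ef_mean hD hc y0 c2.hv c6 c7)
  change _ ≤ _ * (C0 * (p ⬝ᵥ (w * w))) + _ + _ + _ at a2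
  linarith

end Crest.Agent.T157.S1

end
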