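import Crest.Agent.T157.S1Def_97

/-!
# Row 157, part B, block S1 (helper56): the two halves of `TiltStmt`
-/

set_option autoImplicit false

noncomputable section

namespace Crest.Agent.T157.S1

open MeasureTheory Real Matrix Finset
open Crest.Agent.T157.E Crest.Agent.T157.SL
open Crest.Agent.T157.S3 (V Mx tau)

variable {n : ℕ}

/-- the hypotheses of `TiltStmt` -/
structure TiH (K0 κ0 C : ℝ) (D : Dat n) (s : St n) (y0 p al q w : V n) (a e e1 ec CN C0 K l κ ω : ℝ)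
    (φ : Cube n → ℝ) (W Ω : Cube n → V n) (G : Cube n → ℝ) : Prop where
  ok : D.Ok
  cl : Cl ec ec s
  bas : Bas D.J K0 κ0 y0
  ans : AnsW D.J y0 a p al q e e1 CN C0 K w l φ W Ω G
  p0 : ∀ i, 0 ≤ p i
  e0 : 0 ≤ e
  e10 : 0 ≤ e1
  e1c : e1 ≤ ec
  CN1 : 1 ≤ CN
  C00 : 0 ≤ C0
  K1 : 1 ≤ K
  l0 : 0 ≤ l
  k0 : 0 < κ
  k1 : κ ≤ 1
  o0 : 0 < ω
  o1 : ω ≤ 1
  he : C * D.P * √e ≤ κ * ω
  hc : Mx' C D.P CN κ D.η0 ω ^ 2 * ec ≤ 1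

/-- `ν ⟨χ, W⟩` -/
def chW (D : Dat n) (s : St n) (W : Cube n → V n) : ℝ :=
  mean (nu D s) fun σ => ∑ i, Ta.chi (nu D s) (pi D s) i σ * W σ i

/-- **T0 - T2** -/
def TiltA : Prop := ∀ K0 κ0 : ℝ, 0 < κ0 → ∃ C ≥ (1 : ℝ), ∀ (n : ℕ) (D : Dat n) (s : St n)
  (y0 p al q w : V n) (a e e1 ec CN C0 K l κ ω : ℝ) (φ : Cube n → ℝ) (W Ω : Cube n → V n)
  (G : Cube n → ℝ), TiH K0 κ0 C D s y0 p al q w a e e1 ec CN C0 K l κ ω φ W Ω G →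
  AA D (s.un.tl φ (CN * l) Ω G) + (1 - 2 * D.η0) * chW D s W ≤
    (1 + κ) * AA D s + C * C0 * (p ⬝ᵥ (w * w)) + C / κ * (del s ⬝ᵥ del s) + ω * (Bb D s y0 + l ^ 2) +
      Mx' C D.P CN κ D.η0 ω * (Ex D s + K)

/-- **T3 - T4** -/
def TiltB : Prop := ∀ K0 κ0 : ℝ, 0 < κ0 → ∃ C ≥ (1 : ℝ), ∀ (n : ℕ) (D : Dat n) (s : St n)
  (y0 p al q w : V n) (a e e1 ec CN C0 K l κ ω : ℝ) (φ : Cube n → ℝ) (W Ω : Cube n → V n)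
  (G : Cube n → ℝ), TiH K0 κ0 C D s y0 p al q w a e e1 ec CN C0 K l κ ω φ W Ω G →
  (mean (nu D s) fun σ => W σ ⬝ᵥ tau D.J y0 σ) - (mean (pi D s) fun σ => W σ ⬝ᵥ tau D.J y0 σ) +
      D.P * ∑ k ∈ s.S, (D.J *ᵥ Del D s) k * (D.J *ᵥ (q * w)) k ≤
    chW D s W + ω * (Bb D s y0 + l ^ 2) + Mx' C D.P CN κ D.η0 ω * (Ex D s + K)

def TiltAGlue : Prop := CrudeStmt → B1Stmt → TiltA
def TiltBGlue : Prop := CrudeStmt → B1Stmt → TiltB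

end Crest.Agent.T157.S1

end
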