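import Crest.Agent.T157.S1TiBa_91
import Crest.Agent.T157.S1TiDef_56
import Crest.Agent.T157.S1Pin_33

/-!
# Row 157, block B, S1 (helper91): the mismatch and the pins in a tilt, `TiltB`
-/

set_option autoImplicit false

noncomputable section

namespace Crest.Agent.T157.S1

open Real Matrix Finset
open Crest.Agent.T157.E Crest.Agent.T157.SL
open Crest.Agent.T157.Ta (cm chi mean_cm off_cm mean_mono_supp abs_cm_le)
open Crest.Agent.T157.Rec (grad)
open Crest.Agent.T157.Eig (nrm opn nrm_nonneg nrm_add_le nrm_sub_le nrm_sq nrm_neg abs_dot_le)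
open Crest.Agent.T157.S3 (V Mx hf tau Dg TS Rg)
open Crest.Agent.T157.S3F (Free)
open Crest.Agent.T157.S3.Rg (nrm_mul_le)
open Crest.Agent.T157.Xt (H1 Lip2 lip2_iff)
open Pin33

namespace Tb91

variable {n : ℕ}

/-- the mismatch -/
def cv (D : Dat n) (s : St n) (y0 : V n) (x : Cube n) : V n :=
  fun j => cm (pi D s) j x - tanh (hf D.J y0 x j)
/-- the shift of the field -/
def ep (D : Dat n) (s : St n) (y0 : V n) (x : Cube n) : V n :=
  s.y' - y0 + grad s.Th x - grad (U D s) x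
/-- the smooth part -/
def F1 (D : Dat n) (s : St n) (y0 : V n) (Ω : Cube n → V n) (x : Cube n) : ℝ :=
  (Dg D.J y0 x * Ω x) ⬝ᵥ (s.y' - y0 + s.Om x)
/-- the remainder -/
def Rm (D : Dat n) (s : St n) (y0 z : V n) (W Ω : Cube n → V n) (x : Cube n) : ℝ :=
  W x ⬝ᵥ cv D s y0 x - F1 D s y0 Ω x + D.P * (um D s x ⬝ᵥ D.J *ᵥ z)
/-- the deterministic part of the budget -/
def B0 (s : St n) (y0 : V n) : ℝ := nrm (s.y - y0) ^ 2 + del s ⬝ᵥ del s + s.L ^ 2 + #s.S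

variable {D : Dat n} {s : St n} {y0 z : V n} {W Ω : Cube n → V n} {x : Cube n} {ec A e1 L : ℝ}

lemma ep_le (hD : D.Ok) (hc : Cl ec A s) (x : Cube n) :
    ep D s y0 x ⬝ᵥ ep D s y0 x ≤ 648 * (D.P ^ 2 * (B0 s y0 + U D s x)) := by
  have h : ep D s y0 x ⬝ᵥ ep D s y0 x ≤ 4 * ∑ i, sh D s y0 x i := by
    rw [mul_sum]
    refine sum_le_sum fun i _ => ?_
    have e : ep D s y0 x i = (s.y - y0) i + del s i + grad s.Th x i - grad (U D s) x i := by
      simp only [ep, del, Pi.add_apply, Pi.sub_apply]; ring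
    rw [e, sh]
    set a := (s.y - y0) i
    set b := del s i
    set c := grad s.Th x i
    set d := grad (U D s) x i
    nlinarith [sq_nonneg (a - b), sq_nonneg (a - c), sq_nonneg (a + d), sq_nonneg (b - c),
      sq_nonneg (b + d), sq_nonneg (c + d)]
  have := sum_sh_le hD hc y0 x
  rw [B0]
  linarith

lemma Rm_eq (hD : D.Ok) (x : Cube n) : Rm D s y0 z W Ω x = (W x - Ω x) ⬝ᵥ cv D s y0 x +
    (Ω x ⬝ᵥ cv D s y0 x - (Dg D.J y0 x * Ω x) ⬝ᵥ ep D s y0 x) +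
    (Dg D.J y0 x * Ω x) ⬝ᵥ (grad s.Th x - s.Om x) -
    D.P * (um D s x ⬝ᵥ D.J *ᵥ (Dg D.J y0 x * Ω x - z)) +
    D.P * ∑ j, (Dg D.J y0 x * Ω x) j * sv x j * ∑ k ∈ s.S, D.J k j ^ 2 := by
  set u := Dg D.J y0 x * Ω x with hu
  have e1 : u ⬝ᵥ grad (U D s) x = D.P * (um D s x ⬝ᵥ D.J *ᵥ u) -
      D.P * ∑ j, u j * sv x j * ∑ k ∈ s.S, D.J k j ^ 2 := by
    rw [dotProduct_mulVec, ← mulVec_transpose, hD.symm, dotProduct, dotProduct, mul_sum, mul_sum,
      ← sum_sub_distrib]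
    exact sum_congr rfl fun j _ => by rw [grad_U hD]; ring
  simp only [Rm, F1, ep, ← hu, sub_dotProduct, dotProduct_sub, dotProduct_add, mulVec_sub, e1]
  ring

lemma Rm_le (hD : D.Ok) (hc : Cl ec A s) (hΩ : Rg e1 L Ω) (hx : loc D s x ≠ 0) (hw : Wt (pi D s))
    {a g gf l : ℝ} (hl : 0 < l) (h1 : nrm (W x - Ω x) ≤ a + g)
    (h2 : (nrm fun i => max (|(D.J *ᵥ (Dg D.J y0 x * Ω x - z)) i| - e1) 0) ≤ gf) :
    |Rm D s y0 z W Ω x| ≤ (654 * l + 1320 * e1) * (D.P ^ 2 * (B0 s y0 + U D s x)) +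
      L * s.G x + l⁻¹ * (a ^ 2 + g ^ 2 + gf ^ 2) := by
  have P1 := hD.P1
  have P0 : 0 ≤ D.P := by linarith
  have e0 : 0 ≤ e1 := (norm_nonneg _).trans (hΩ x).1
  have U0 := U_nonneg (s := s) hD x
  have S0 : (0 : ℝ) ≤ #s.S := Nat.cast_nonneg _
  have hS : (#s.S : ℝ) ≤ B0 s y0 := by
    rw [B0]; linarith [sq_nonneg (nrm (s.y - y0)), Eig.dot_self_nonneg (del s), sq_nonneg s.L]
  obtain ⟨c1, c2⟩ := lin (S := s.S) (h := hf D.J y0 x) (ε := ep D s y0 x) (c := cv D s y0 x)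
    (hΩ x).1 (fun j hj => by
      rw [cv, cm_pi hD hx hj]
      congr 2
      simp only [hf, ep, Pi.add_apply, Pi.sub_apply]; ring) fun j =>
      (abs_sub _ _).trans (by linarith [abs_cm_le hw.nn j x, abs_th (hf D.J y0 x j)])
  have hε := ep_le (y0 := y0) hD hc x
  have t1 := (abs_dot_le (W x - Ω x) (cv D s y0 x)).trans
    (mul_le_mul_of_nonneg_right h1 (nrm_nonneg _))
  have t1' := young hl (nrm (cv D s y0 x)) (a + g)
  have t1'' : l⁻¹ * (a + g) ^ 2 ≤ l⁻¹ * (2 * (a ^ 2 + g ^ 2)) :=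
    mul_le_mul_of_nonneg_left (by nlinarith [sq_nonneg (a - g)]) (by positivity)
  have nu : nrm (Dg D.J y0 x * Ω x) ≤ L :=
    (nrm_mul_le zero_le_one (abs_Dg _ _ x)).trans ((one_mul _).trans_le (hΩ x).2.2.1)
  have t3 := (abs_dot_le (Dg D.J y0 x * Ω x) (grad s.Th x - s.Om x)).trans
    (mul_le_mul nu (hc.ex x) (nrm_nonneg _) ((nrm_nonneg _).trans nu))
  have t4 := pin_le (S := s.S) (z := um D s x) (g := D.J *ᵥ (Dg D.J y0 x * Ω x - z))
    (fun k hk => if_neg hk) P0 e0 hl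
  have eU : D.P * (um D s x ⬝ᵥ um D s x) = 2 * U D s x := by rw [← um_dot]; ring
  rw [eU] at t4
  have t4' := mul_le_mul_of_nonneg_left (pow_le_pow_left₀ (nrm_nonneg _) h2 2) (inv_nonneg.2 hl.le)
  have t5 : |D.P * ∑ j, (Dg D.J y0 x * Ω x) j * sv x j * ∑ k ∈ s.S, D.J k j ^ 2| ≤
      D.P * (e1 * (9 * #s.S)) := by
    rw [abs_mul, abs_of_nonneg P0]
    refine mul_le_mul_of_nonneg_left ((abs_sum_le_sum_abs _ _).trans (le_trans ?_
      (mul_le_mul_of_nonneg_left (sum_colS_le hD) e0))) P0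
    rw [mul_sum]
    refine sum_le_sum fun j _ => ?_
    have r0 : 0 ≤ ∑ k ∈ s.S, D.J k j ^ 2 := sum_nonneg fun _ _ => sq_nonneg _
    rw [abs_mul, abs_of_nonneg r0, abs_mul, Pi.mul_apply, abs_mul]
    refine mul_le_mul_of_nonneg_right ?_ r0
    have := mul_le_mul (mul_le_mul (abs_Dg D.J y0 x j) ((norm_le_pi_norm (Ω x) j).trans (hΩ x).1)
      (abs_nonneg _) zero_le_one) (S3F.abs_sv x j) (abs_nonneg _) (by positivity)
    rwa [one_mul, mul_one] at this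
  set Q := D.P ^ 2 * (B0 s y0 + U D s x) with hQ
  have P2 : D.P ≤ D.P ^ 2 := by nlinarith
  have q1 : D.P * #s.S ≤ Q := mul_le_mul P2 (by linarith) S0 (sq_nonneg _)
  have q2 : D.P * U D s x ≤ Q := mul_le_mul P2 (by linarith) U0 (sq_nonneg _)
  have q3 : (#s.S : ℝ) ≤ Q := (le_mul_of_one_le_left S0 P1).trans q1
  have q4 : U D s x ≤ Q := (le_mul_of_one_le_left U0 P1).trans q2
  have q5 : l * (nrm (cv D s y0 x) ^ 2 + D.P * (2 * U D s x)) ≤ l * (654 * Q) :=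
    mul_le_mul_of_nonneg_left (by linarith) hl.le
  have q6 : e1 * (2 * (ep D s y0 x ⬝ᵥ ep D s y0 x) + 3 * #s.S + (2 * U D s x + D.P * #s.S) +
      9 * (D.P * #s.S)) ≤ e1 * (1320 * Q) := mul_le_mul_of_nonneg_left (by linarith) e0
  have q7 : 0 ≤ l⁻¹ * (a ^ 2 + g ^ 2) := by positivity
  rw [Rm_eq hD]
  change |_ - (Dg D.J y0 x * Ω x) ⬝ᵥ _| ≤ _ at c2
  rw [abs_le] at c2 t1 t3 t4 t5 ⊢
  constructor <;> linarith [c2.1, c2.2, t1.1, t1.2, t3.1, t3.2, t4.1, t4.2, t5.1, t5.2]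

lemma lip_F1 (hD : D.Ok) (hc : Cl ec A s) {CN l : ℝ} (hΩ : Rg e1 (CN * l) Ω) (h1 : e1 ≤ ec)
    (hC : 1 ≤ CN) (hl : 0 ≤ l) :
    Lip2 (78000 * ec * CN * (nrm (s.y' - y0) + s.L + l)) (F1 D s y0 Ω) := by
  have e0 : 0 ≤ e1 := (norm_nonneg _).trans (hΩ default).1
  have c0 := e0.trans h1
  have ej : ∀ x, S3F.jac (fun z => s.y' - y0 + s.Om z) x = S3F.jac s.Om x := fun x => by
    rw [S3F.jac_add (fun _ => s.y' - y0), S3F.jac_const, zero_add]
  refine (lip_dot (u := fun x => Dg D.J y0 x * Ω x) (b := fun x => s.y' - y0 + s.Om x)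
    (a1 := 13000 * ec) (a2 := ec) (Lb := nrm (s.y' - y0) + s.L) (Lu := CN * l) hc.L0
    (fun x => (jac_DO hD.op y0 hΩ x).trans (by linarith)) (fun x => ej x ▸ (hc.rg x).2.1)
    (fun x => (nrm_add_le _ _).trans (add_le_add le_rfl (hc.rg x).2.2.1))
    (fun x => (nrm_mul_le zero_le_one (abs_Dg _ _ x)).trans ((one_mul _).trans_le (hΩ x).2.2.1))
    fun x => ?_).mono ?_
  · have := (hc.rg x).2.2.2
    rwa [S3F.hsJ, ← ej] at this
  · have a1 := mul_nonneg c0 (nrm_nonneg (s.y' - y0))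
    have a2 := mul_nonneg c0 hc.L0
    linarith [le_mul_of_one_le_right a1 hC, le_mul_of_one_le_right a2 hC,
      mul_nonneg (mul_nonneg c0 hl) (zero_le_one.trans hC)]

lemma sz_le (s : St n) (y0 : V n) (l : ℝ) :
    (nrm (s.y' - y0) + s.L + l) ^ 2 ≤ 6 * (B0 s y0 + l ^ 2) := by
  have a1 : nrm (s.y' - y0) ≤ nrm (s.y - y0) + nrm (del s) := by
    rw [show s.y' - y0 = s.y - y0 + del s by rw [del]; abel]; exact nrm_add_le _ _
  have a3 := pow_le_pow_left₀ (nrm_nonneg _) a1 2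
  have S0 : (0 : ℝ) ≤ #s.S := Nat.cast_nonneg _
  rw [B0, ← nrm_sq (del s)]
  linarith [sq_nonneg (nrm (s.y - y0) - nrm (del s)), sq_nonneg (nrm (s.y' - y0) - s.L),
    sq_nonneg (nrm (s.y' - y0) - l), sq_nonneg (s.L - l), sq_nonneg s.L, sq_nonneg l]

lemma mean_um (v : Cube n → ℝ) (hv : Wt v) (g : V n) : (mean v fun x => um D s x ⬝ᵥ g) =
    ∑ k ∈ s.S, ((D.J *ᵥ mag v) k - s.x k) * g k := by
  have e : ∀ x, um D s x ⬝ᵥ g = ∑ k ∈ s.S, (∑ j, D.J k j * sv x j - s.x k) * g k := fun x => by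
    rw [dotProduct, ← sum_subset (subset_univ s.S) fun k _ hk => by simp [um, hk]]
    exact sum_congr rfl fun k hk => by rw [um, if_pos hk]; rfl
  simp only [e, mean_sum, mean_mul_const, mean_sub, mean_const_mul, hv.mean_const]
  rfl

/-- the exact identity -/
lemma ident (hν : Wt (nu D s)) (hπ : Wt (pi D s)) (hW : Free W) :
    (mean (nu D s) fun σ => W σ ⬝ᵥ tau D.J y0 σ) - (mean (pi D s) fun σ => W σ ⬝ᵥ tau D.J y0 σ) +
      D.P * ∑ k ∈ s.S, (D.J *ᵥ Del D s) k * (D.J *ᵥ z) k = chW D s W +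
      (mean (nu D s) (Rm D s y0 z W Ω) - mean (pi D s) (Rm D s y0 z W Ω)) +
      (mean (nu D s) (F1 D s y0 Ω) - mean (pi D s) (F1 D s y0 Ω)) := by
  have e : ∀ v, Wt v → (mean v fun σ => W σ ⬝ᵥ tau D.J y0 σ) =
      (mean v fun σ => ∑ i, chi v (pi D s) i σ * W σ i) + mean v (Rm D s y0 z W Ω) +
        mean v (F1 D s y0 Ω) - D.P * mean v fun x => um D s x ⬝ᵥ D.J *ᵥ z := fun v hv => by
    have e1 : (mean v fun σ => ∑ i, chi v (pi D s) i σ * W σ i) =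
        mean v fun σ => ∑ i, (W σ i * sv σ i - W σ i * cm (pi D s) i σ) := by
      simp only [mean_sum, mean_sub]
      refine sum_congr rfl fun i _ => ?_
      rw [← mean_cm hv (u := fun σ => W σ i) fun σ b => hW σ i b, ← mean_sub]
      congr 1; funext σ; rw [chi]; ring
    rw [e1, ← mean_add, ← mean_add, ← mean_const_mul, ← mean_sub]
    congr 1; funext σ
    have : W σ ⬝ᵥ tau D.J y0 σ =
        ∑ i, (W σ i * sv σ i - W σ i * cm (pi D s) i σ) + W σ ⬝ᵥ cv D s y0 σ := by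
      rw [dotProduct, dotProduct, ← sum_add_distrib]
      exact sum_congr rfl fun i _ => by rw [tau, cv]; ring
    rw [this, Rm]; ring
  have e2 : (mean (pi D s) fun σ => ∑ i, chi (pi D s) (pi D s) i σ * W σ i) = 0 := by
    simp [chi, hπ.mean_const]
  have e3 : ∑ k ∈ s.S, (D.J *ᵥ Del D s) k * (D.J *ᵥ z) k =
      (mean (nu D s) fun x => um D s x ⬝ᵥ D.J *ᵥ z) - mean (pi D s) fun x => um D s x ⬝ᵥ D.J *ᵥ z := by
    rw [mean_um _ hν, mean_um _ hπ, ← sum_sub_distrib]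
    exact sum_congr rfl fun k _ => by rw [Del, Ta.Dm, mulVec_sub, Pi.sub_apply]; ring
  rw [e _ hν, e _ hπ, e2, e3, chW]
  ring

end Tb91

set_option maxHeartbeats 800000 in
open Tb91 in
theorem tiltBGlue : TiltBGlue := by
  intro hCr hB1 K0 κ0 hκ
  obtain ⟨CB, CB1, hB⟩ := hB1 K0 κ0 hκ
  obtain ⟨Kh, hKh⟩ : ∃ Kh, Kh = max K0 0 + 8 / κ0 := ⟨_, rfl⟩
  have Kh0 : 0 < Kh := by rw [hKh]; positivity
  obtain ⟨A, hA⟩ : ∃ A, A = CB * (1 + Kh) := ⟨_, rfl⟩
  have A2 : Kh * CB ≤ A := by rw [hA]; nlinarith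
  have A3 : CB ≤ A := by rw [hA]; nlinarith
  have A4 : Kh ≤ A := (le_mul_of_one_le_right Kh0.le CB1).trans A2
  have A1 : 1 ≤ A := CB1.trans A3
  have C1 : 1 ≤ 10 ^ 7 * A ^ 2 := by nlinarith
  refine ⟨10 ^ 7 * A ^ 2, C1, ?_⟩
  intro n D s y0 p al q w a e e1 ec CN C0 K l κ ω φ W Ω G h
  obtain ⟨hD, hc, bas, ans, -, e0, e10, e1c, CN1, -, K1, l0, k0, k1, o0, o1, he, hM⟩ := h
  obtain ⟨⟨hν, hπ, -⟩, -, -, -, -, Hy0, U0, -, -, Ex0, -⟩ := hCr n D s hD
  obtain ⟨b1, b2, b3, -⟩ := hB n D s y0 ec ec hD hc bas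
  have hw : ∀ x, 0 < ising D.J y0 x := fun _ => exp_pos _
  have H : H1 (ising D.J y0) Kh := hKh ▸ Xt.h1_of_atd (Atd.ATd.mono bas hw (le_max_left K0 0) le_rfl)
    hw (le_max_right _ _) hκ
  obtain ⟨Gf, f1, -, f3, f4⟩ := ans.f
  have P1 := hD.P1
  have c0 := e10.trans e1c
  have η0 := hD.e0
  set M := Mx' (10 ^ 7 * A ^ 2) D.P CN κ D.η0 ω with hMx
  have m1 : 10 ^ 7 * A ^ 2 * D.P ^ 2 * CN ^ 2 ≤ M * ω ^ 2 := by
    have a1 : (κ * D.η0) ^ 2 ≤ 1 := pow_le_one₀ (by positivity)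
      (mul_le_one₀ k1 η0.le (by linarith [hD.e1]))
    have a2 : M * ω ^ 2 * (κ * D.η0) ^ 2 = 10 ^ 7 * A ^ 2 * D.P ^ 2 * CN ^ 2 := by
      rw [hMx, Mx']; field_simp
    rw [← a2]
    exact mul_le_of_le_one_right (by rw [hMx, Mx']; positivity) a1
  have M0 : 0 ≤ M := by rw [hMx, Mx']; positivity
  have P2 : 1 ≤ D.P ^ 2 := one_le_pow₀ P1
  have C2 : 1 ≤ CN ^ 2 := one_le_pow₀ CN1
  have o2 : ω ^ 2 ≤ 1 := pow_le_one₀ o0.le o1
  have M1 : 1 ≤ M := (one_le_mul_of_one_le_of_one_le (one_le_mul_of_one_le_of_one_le C1 P2) C2).trans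
    (m1.trans (mul_le_of_le_one_right M0 o2))
  have m2 : M * ec ≤ 1 := le_trans (mul_le_mul_of_nonneg_right (by nlinarith) c0) hM
  have c1 : ec ≤ 1 := (le_mul_of_one_le_left c0 M1).trans m2
  have m3 : 10 ^ 7 * A ^ 2 * D.P ^ 2 * CN ^ 2 * ec ≤ ω ^ 2 :=
    (mul_le_mul_of_nonneg_right m1 c0).trans (by
      rw [mul_right_comm]; exact mul_le_of_le_one_left (sq_nonneg _) m2)
  have m4 : 10 ^ 7 * A ^ 2 * D.P ^ 2 * e ≤ ω ^ 2 := by
    have a1 := pow_le_pow_left₀ (by positivity) (he.trans (mul_le_of_le_one_left o0.le k1)) 2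
    rw [mul_pow, mul_pow, sq_sqrt e0, sq (10 ^ 7 * A ^ 2)] at a1
    have a2 := le_mul_of_one_le_left (show 0 ≤ 10 ^ 7 * A ^ 2 * D.P ^ 2 * e by positivity) C1
    linarith
  set B := Bb D s y0 with hBb
  have eB : B = Hy D s + mean (nu D s) (U D s) + B0 s y0 := by rw [hBb, Bb, Bd, B0]; ring
  have d0 := Eig.dot_self_nonneg (del s)
  have S0 : (0 : ℝ) ≤ #s.S := Nat.cast_nonneg _
  have B00 : 0 ≤ B0 s y0 := by rw [B0]; positivity
  have Bn : 0 ≤ B := by linarith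
  have l2 := sq_nonneg l
  obtain ⟨T, hT⟩ : ∃ T, T = B + l ^ 2 := ⟨_, rfl⟩
  have T0 : 0 ≤ T := by linarith
  have t1 : CB * B ≤ A * T := mul_le_mul A3 (by linarith) Bn (by linarith)
  have t2 : T ≤ A * T := le_mul_of_one_le_left T0 A1
  have t3 : Kh * (CB * B) ≤ A * T := by
    rw [← mul_assoc]; exact mul_le_mul A2 (by linarith) Bn (by linarith)
  have t4 : Kh ≤ A * K := A4.trans (le_mul_of_one_le_right (by linarith) K1)
  have t5 : K ≤ A * K := le_mul_of_one_le_left (by linarith) A1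
  obtain ⟨m, hm⟩ : ∃ m, m = ω / (8000 * D.P ^ 2 * A) := ⟨_, rfl⟩
  have m0 : 0 < m := by rw [hm]; positivity
  have key : ∀ v, Wt v → (∀ x, v x ≠ 0 → loc D s x ≠ 0) → kl v (ising D.J y0) ≤ CB * B →
      mean v (U D s) ≤ CB * B → (mean v fun x => s.G x ^ 2) ≤ 4 * Ex D s + Kh * ec * (48 * (CB * B) + 18) →
      |mean v (Rm D s y0 (q * w) W Ω)| ≤ ω * T / 3 + M * (Ex D s + K) / 3 := by
    intro v hv hs k1 k2 k3
    have g : ∀ g : Cube n → ℝ, TS e1 g → (mean (ising D.J y0) fun x => g x ^ 2) ≤ e1 * l ^ 2 + K →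
        (mean v fun x => g x ^ 2) ≤ 20 * (ec * (A * T)) + 22 * (A * K) := fun g g1 g2 => by
      have a1 := sq_le H hw Kh0 e10 g1 hv
      have a2 := mul_le_mul_of_nonneg_left (mul_le_mul_of_nonneg_left k1 Kh0.le) e10
      have a3 := mul_le_mul e1c t3 (by positivity) c0
      have a4 := mul_le_mul e1c (show l ^ 2 ≤ A * T by linarith) l2 c0
      have a5 := mul_le_of_le_one_right Kh0.le (e1c.trans c1)
      linarith
    have g1 := g G ans.ts ans.g2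
    have g2 := g Gf f3 f4
    have g3 := ans.c v hv
    have g4 : e * (l ^ 2 + kl v (ising D.J y0)) ≤ e * (A * T) := mul_le_mul_of_nonneg_left (by
      have := mul_le_mul_of_nonneg_right A3 Bn
      have := le_mul_of_one_le_left l2 A1
      rw [hT]; linarith) e0
    have pt : ∀ x, v x ≠ 0 → |Rm D s y0 (q * w) W Ω x| ≤
        (654 * m + 1320 * ec) * (D.P ^ 2 * (B0 s y0 + U D s x)) + m * l ^ 2 +
          m⁻¹ * (nrm (grad φ x - W x) ^ 2 + G x ^ 2 + Gf x ^ 2 + CN ^ 2 * s.G x ^ 2) := fun x hx => by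
      have a1 := Rm_le (y0 := y0) (z := q * w) (W := W) hD hc ans.rg (hs x hx) hπ m0
        (a := nrm (grad φ x - W x)) (g := G x) (by
          rw [show W x - Ω x = -(grad φ x - W x) + (grad φ x - Ω x) by abel]
          exact (nrm_add_le _ _).trans (add_le_add (nrm_neg _).le (ans.ex x))) (f1 x)
      have a2 := young m0 l (CN * s.G x)
      have a3 : e1 * (D.P ^ 2 * (B0 s y0 + U D s x)) ≤ ec * (D.P ^ 2 * (B0 s y0 + U D s x)) :=
        mul_le_mul_of_nonneg_right e1c (by have := U_nonneg (s := s) hD x; positivity)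
      have a4 : 0 ≤ m⁻¹ * (CN * s.G x) ^ 2 := by positivity
      linarith
    have a1 := Br.St91.abs_mean
      (mean_mono_supp hv fun x hx => (le_abs_self _).trans (pt x hx))
      (mean_mono_supp hv fun x hx => (neg_le_abs _).trans (pt x hx)) fun _ => rfl
    simp only [mean_add, mean_const_mul, hv.mean_const] at a1
    refine a1.trans (le_trans ?_ (num1 A1 P1 CN1 o0 o1 T0 (show 0 ≤ Ex D s + K by linarith) c0 M0
      m4 m3 m1 hm))
    refine add_le_add (add_le_add (mul_le_mul_of_nonneg_left (mul_le_mul_of_nonneg_left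
      (by linarith) (sq_nonneg _)) (by positivity)) (mul_le_mul_of_nonneg_left (by linarith) m0.le))
      (mul_le_mul_of_nonneg_left ?_ (by positivity))
    have u1 := mul_le_mul_of_nonneg_left t3 c0
    have u2 := mul_le_of_le_one_right Kh0.le c1
    have u3 := le_mul_of_one_le_left Ex0 A1
    have u4 := mul_le_mul_of_nonneg_left (show (mean v fun x => s.G x ^ 2) ≤
      4 * (A * Ex D s) + 48 * (ec * (A * T)) + 18 * (A * K) by linarith) (sq_nonneg CN)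
    have u5 := le_mul_of_one_le_left (show 0 ≤ ec * (A * T) by positivity) C2
    have u6 := le_mul_of_one_le_left (show 0 ≤ A * K by linarith) C2
    have u7 : 0 ≤ CN ^ 2 * (A * Ex D s) := by positivity
    linarith
  have x0 : 0 ≤ Kh * ec * (48 * (CB * B) + 18) := by positivity
  have r1 := key _ hν (fun x => loc_of_nu) b1 (le_trans (by linarith)
    (le_mul_of_one_le_left Bn CB1)) (by change Ex D s ≤ _; linarith)
  have r2 := key _ hπ (fun x => loc_of_pi) b2 b3 (by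
    have a1 := H.xfer hw Kh0 ((lip2_iff (sqrt_nonneg ec)).2 (by rw [sq_sqrt c0]; exact hc.ts))
      hν.isP hπ.isP
    rw [sq_sqrt c0] at a1
    refine le_trans a1 (add_le_add le_rfl (mul_le_mul_of_nonneg_left ?_ (by positivity)))
    change 32 * kl _ _ + 16 * kl _ _ + 18 ≤ _
    linarith)
  have r3 : mean (nu D s) (F1 D s y0 Ω) - mean (pi D s) (F1 D s y0 Ω) ≤ ω * (T + 1) / 4 := by
    refine num2 A1 CN1 o0 o1 T0 c0 (le_trans ?_ m3) ((H.sub_sq hw Kh0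
      (lip_F1 (y0 := y0) hD hc ans.rg e1c CN1 l0) hν.isP hπ.isP).trans ?_)
    · linarith [le_mul_of_one_le_left (show 0 ≤ A ^ 2 * CN ^ 2 * ec by positivity) P2]
    have a2 : (nrm (s.y' - y0) + s.L + l) ^ 2 ≤ 6 * T := (sz_le s y0 l).trans (by linarith)
    have a5 : Kh * (16 * kl (nu D s) (ising D.J y0) + 16 * kl (pi D s) (ising D.J y0) + 12) ≤
        32 * A * (T + 1) := by
      linarith [mul_le_mul_of_nonneg_left b1 Kh0.le, mul_le_mul_of_nonneg_left b2 Kh0.le]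
    change Kh * _ * (16 * kl _ _ + 16 * kl _ _ + 12) ≤ _
    rw [mul_right_comm, mul_comm, mul_pow]
    refine mul_le_mul (mul_le_mul_of_nonneg_left a2 (sq_nonneg _)) a5 (mul_nonneg Kh0.le ?_)
      (by positivity)
    linarith [(Ta.Pr.mk hν (.of_pos hw) fun x e => absurd e (hw x).ne').kl_nonneg,
      (Ta.Pr.mk hπ (.of_pos hw) fun x e => absurd e (hw x).ne').kl_nonneg]
  rw [ident (Ω := Ω) hν hπ ans.fr, ← hT]
  have z1 := le_mul_of_one_le_left (show 0 ≤ Ex D s + K by linarith) M1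
  linarith [(abs_le.1 r1).2, (abs_le.1 r2).1, mul_nonneg o0.le T0]

end Crest.Agent.T157.S1

end
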