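import Crest.Agent.T157.S1TiC_56
import Crest.Agent.T157.S1TiA_58
import Crest.Agent.T157.S1TiB_91
import Crest.Agent.T157.S1Cr_89
import Crest.Agent.T157.S1W_6

/-! # Row 157, S1: the tilt statement, unconditional (helper56) -/

namespace Crest.Agent.T157.S1

theorem tiltStmt : TiltStmt := tiltGlue tiltAGlue tiltBGlue crudeStmt b1Stmt

end Crest.Agent.T157.S1
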