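import Crest.Agent.T157.S1Par_97

/-!
# Row 157, part B, block S1 (helper44): the inequality at level zero
-/

set_option autoImplicit false

noncomputable section

namespace Crest.Agent.T157.S1

open MeasureTheory Real Matrix Finset
open Crest.Agent.T157.E Crest.Agent.T157.SL

theorem totGlue : TotGlue := fun hC hL hM h0 n X h hS => by
  obtain ⟨-, -, -, m4, m5, m6, -, m8, -⟩ := hM n
  obtain ⟨s, hs⟩ : ∃ s : St n, s = ⟨0, 0, ∅, default, 0, 0, 0, 0, 0⟩ := ⟨_, rfl⟩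
  have o := h.ok
  have N1 := o.N1
  have T1 := (h.cap.Tn 1 N1).1
  have κ0 := o.κ0'
  have γ0 := o.γ0 1 0
  have a0 := o.a00.trans o.a0a
  have CZ : 0 < X.p.CZ := (pos_iff_pos_of_mul_pos (one_pos.trans_le o.CZ1)).2 o.lq0
  have e1 : 0 ≤ X.p.e1 1 0 := (o.e0 _).le
  have b0 : 0 ≤ big n := by unfold big; positivity
  have S := hS s 0 ⟨(hL n X.D s h.dok).2.2.2 _ _ (by positivity) (by positivity) (hs ▸ rfl) (hs ▸ rfl)
    (hs ▸ rfl) (hs ▸ rfl), hs ▸ h.es.pv0, fun _ => (hM n).2.2.2.2.2.2.1, by simpa [hs] using T1,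
    by simpa [hs] using T1⟩
  obtain ⟨l1, l2, l3, l4, l5⟩ := h0 n X.D s h.dok h.wm.2.1 (hs ▸ rfl) (hs ▸ rfl) (hs ▸ rfl) (hs ▸ rfl)
  obtain ⟨-, -, -, A0, H0, -⟩ := hC n X.D s h.dok
  have z1 : mean (nu X.D s) (U X.D s) = 0 := by simp [mean, U, hs]
  have z2 : mean (nu X.D s) (U6 X.D s) = 0 := by simp [mean, U6, hs]
  have z3 : Eg X.D s s.Th = 0 := by simp [Eg, Ta.Cnt, Ta.Cs, mean, Rec.grad, incr, hs]
  have z4 : Ex X.D s = 0 := by simp [Ex, mean, hs]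
  have z5 : del s ⬝ᵥ del s = 0 := by simp [del, hs]
  have z6 : s.L ^ 2 = 0 ∧ (#s.S : ℝ) = 0 ∧ s.y = 0 := by simp [hs]
  have z7 : exp ((X.D.T0 - X.z.T 1) / 2) ≤ 1 := exp_le_one_iff.2 (by linarith [h.hT, h.cap.z0])
  have k : ∀ m ∈ Icc 1 X.p.N, (mean (ising X.D.J 0) fun σ => X.D.f σ *
      Ew (((m : ℝ) - (0 : ℕ)) * X.p.τ) (X.Ft 1 0 0 m) σ 0) ≤
      X.p.γ 1 0 * (X.p.cN * (ent (ising X.D.J 0) X.D.f + 1)) + 1 + X.p.CZ *
        (mean (ising X.D.J 0) fun σ => X.D.f σ * Ew (m * X.p.τ) (X.O.zn m) σ 0) +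
        if m = X.p.N then X.z.K else 0 := fun m hm => by
    obtain ⟨p1, p2⟩ := mem_Icc.1 hm
    have t0 : 0 ≤ (m : ℝ) * X.p.τ := mul_nonneg m.cast_nonneg o.τ0.le
    obtain ⟨-, n1, n2⟩ := h.na n (ising X.D.J 0) _ _ _ _ (fun _ => exp_pos _) h.es.bas0 h.wm t0
      (mul_le_mul_of_nonneg_right (Nat.cast_le.2 p2) o.τ0.le) (h.es.mass m p1 p2)
    obtain ⟨x1, x2⟩ := m8 (X.O.G m) (X.z.T m)
    replace x1 := (m6 _ _ _ x1 x1 γ0.le).2
    replace x2 := (m6 _ _ _ x2 x2 b0).2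
    have x3 := (m6 _ _ _ (h.es.xz m) (h.es.xz m) CZ.le).2
    have x4 := (m6 _ _ 0 x1 x2 le_rfl).1
    have x5 := (m6 _ _ 0 x4 x3 le_rfl).1
    have n3 := (mul_le_mul_of_nonneg_left (n2 _ (h.cap.Tn m p2).1) b0).trans (h.cap.z1 m p1 p2)
    replace n1 := mul_le_mul_of_nonneg_left n1 γ0.le
    obtain ⟨E, hE, x6, n4⟩ : ∃ E : Fy n, (∀ σ y, (if m = X.p.N then X.fe σ y else 0) = E σ y) ∧ XF E ∧
        (mean (ising X.D.J 0) fun σ => X.D.f σ * Ew (m * X.p.τ) E σ 0) ≤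
          if m = X.p.N then X.z.K else 0 := by
      split_ifs with hN
      · exact ⟨X.fe, fun _ _ => rfl, h.en.xf, hN ▸ h.en.lev _ h.wm⟩
      · exact ⟨0, fun _ _ => rfl, (hM n).2.2.2.2.2.2.1, by simp [mean, Ew]⟩
    rw [Nat.cast_zero, sub_zero, show X.Ft 1 0 0 m = (X.p.γ 1 0 • fun _ y => dG (X.O.G m) y ^ 2) +
      (big n • fun _ => far (X.O.G m) (X.z.T m)) + X.p.CZ • X.O.zn m + E from
        funext₂ fun σ y => by simp [Cx.Ft, hE],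
      m4 _ _ _ x5 x6 t0, m4 _ _ _ x4 x3 t0, m4 _ _ _ x1 x2 t0, m5, m5, m5]
    simp only [Pi.add_apply, Pi.smul_apply, smul_eq_mul, mul_add, mul_left_comm (X.D.f _), mean_add,
      mean_const_mul] at n1 ⊢
    linarith
  replace k := sum_le_sum k
  rw [sum_add_distrib, sum_add_distrib, ← mul_sum, sum_ite_eq', if_pos (mem_Icc.2 ⟨N1, le_rfl⟩),
    sum_const, Nat.card_Icc, Nat.add_sub_cancel, nsmul_eq_mul, ← mean_sum] at k
  have k2 := mul_le_mul_of_nonneg_left (h.es.lev _ h.wm) CZ.le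
  simp only [Pot, Cx.cf, Cx.R, Cx.Fu, Bd, l2, l3, l4, z1, z2, z3, z4, z5, z6, zero_add] at S
  simp only [l5, Finset.sum_apply, mul_sum] at S
  rw [l2] at H0
  rw [h.hθ] at l1
  have p1 : ∀ j, 1 ≤ (1 + X.p.κ) ^ j := fun j => one_le_pow₀ (by linarith)
  have q1 := mul_le_mul_of_nonneg_right (inv_le_one_of_one_le₀ (p1 (2 * 1))) A0
  have q2 := mul_le_mul_of_nonneg_right (le_mul_of_one_le_right a0.le (p1 1)) H0
  have q3 := mul_le_mul_of_nonneg_right o.l0 H0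
  have q4 : X.p.a ≤ 1 := ((le_mul_of_one_le_right a0.le (p1 _)).trans o.ra).trans
    (mul_le_one₀ o.ab1 (by linarith [o.η01]) (by linarith [o.η00]))
  simp only [Par.l, Par.am, Nat.cast_one] at S
  replace S := S.trans (add_le_add (add_le_add le_rfl z7) k)
  unfold Tot
  linarith [o.l0, o.a00]

end Crest.Agent.T157.S1

end
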