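import Crest.Agent.T157.S1Par_97

/-!
# Row 157, part B, block S1 (helper65): `S1.updGlue`
-/

set_option autoImplicit false

noncomputable section

namespace Crest.Agent.T157.S1

open MeasureTheory Real Matrix Finset Filter
open Crest.Agent.T157.E Crest.Agent.T157.SL
open Crest.Agent.T157.Eig (nrm opn)
open Crest.Agent.T157.S3 (V Mx)

namespace Upd65

variable {n : ℕ}

theorem xf_add {F G : Fy n} (h : XF F) (h' : XF G) : XF (F + G) := by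
  refine ⟨fun σ => ?_, fun σ y => add_nonneg (h.2 σ y) (h'.2 σ y)⟩
  obtain ⟨C, c, h1, h2, h3⟩ := (h.1 σ).bd
  obtain ⟨C', c', h1', h2', h3'⟩ := (h'.1 σ).bd
  refine ⟨(h.1 σ).meas.add (h'.1 σ).meas, C + C', c + c', by positivity, by positivity, fun p => ?_⟩
  rw [add_mul C]
  refine (abs_add_le _ _).trans (add_le_add ((h3 p).trans ?_) ((h3' p).trans ?_)) <;>
  gcongr <;> linarith

/-! ### constants -/

section consts
variable {p : Par} (h : p.Ok)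
include h

theorem CZ1 : 1 ≤ p.CZ := by
  have h1 := h.CZ1
  have h2 := h.lq0
  have h3 := h.lq1
  have h4 : 0 < p.CZ := by
    by_contra hc
    nlinarith [not_lt.1 hc]
  nlinarith

theorem am_bd {m : ℕ} (hm : m ≤ p.N) : 0 ≤ p.am m ∧ p.am m ≤ 1 := by
  have a0 : 0 ≤ p.a := by linarith [h.a00, h.a0a]
  have k0 := h.κ0'
  refine ⟨by unfold Par.am; positivity, ?_⟩
  have h1 : (1 + p.κ) ^ m ≤ (1 + p.κ) ^ (3 * p.N + 1) := pow_le_pow_right₀ (by linarith) (by omega)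
  have h2 : p.ab * (1 - 2 * p.η0) ≤ 1 := by
    have b1 := h.η00
    have b2 := h.η01
    have b3 := h.ab1
    nlinarith
  calc p.am m ≤ p.a * (1 + p.κ) ^ (3 * p.N + 1) := mul_le_mul_of_nonneg_left h1 a0
    _ ≤ 1 := h.ra.trans h2

theorem l_add {m : ℕ} (hm : m < p.N) (i : ℕ) : p.l (m + 1) + p.γ (m + 1) i ≤ p.lb m := by
  have k0 := h.κ0'
  have h1 : (1 + p.κ) ^ (2 * (m + 1)) ≤ 2 :=
    (pow_le_pow_right₀ (by linarith) (by omega)).trans h.rl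
  have h2 : 0 < (1 + p.κ) ^ (2 * (m + 1)) := by positivity
  have h3 : p.lb m = (1 + p.κ) * p.l (m + 1) := by
    unfold Par.lb Par.l
    rw [show 2 * (m + 1) = (2 * m + 1) + 1 by ring, pow_succ _ (2 * m + 1)]
    field_simp
  have h4 : 1 / 2 ≤ p.l (m + 1) := by
    unfold Par.l
    rw [one_div]
    exact inv_anti₀ h2 h1
  have h5 := h.lκ (m + 1) i
  rw [h3]
  nlinarith

theorem lb_nn (m : ℕ) : 0 ≤ p.lb m := by
  have k0 := h.κ0'
  unfold Par.lb; positivity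

theorem gg_nn (m : ℕ) : 0 ≤ p.gg m := by
  have := h.g10
  unfold Par.gg; positivity

omit h in
theorem gg_step {m : ℕ} (hm : m < p.N) : p.gg (m + 1) * (1 + 1 / p.N) = p.gg m := by
  unfold Par.gg
  rw [show p.N - m = (p.N - (m + 1)) + 1 by omega, pow_succ, mul_assoc]

theorem gg_h (m : ℕ) : p.gg m * (1 + p.N) * (p.C * p.C0) ≤ p.gP := by
  have g0 := h.g10
  have c1 := h.C1'
  have c2 := h.C01
  have h1 : (1 + 1 / p.N : ℝ) ^ (p.N - m) ≤ (1 + 1 / p.N) ^ p.N :=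
    pow_le_pow_right₀ (by have : (0 : ℝ) ≤ 1 / p.N := by positivity
                          linarith) (by omega)
  refine le_trans ?_ h.g11
  unfold Par.gg
  calc p.g1 * (1 + 1 / p.N) ^ (p.N - m) * (1 + p.N) * (p.C * p.C0)
      ≤ p.g1 * (1 + 1 / p.N) ^ p.N * (1 + p.N) * (p.C * p.C0) := by gcongr
    _ = _ := by ring

theorem le_bt (m i : ℕ) : p.M (i + 1) ≤ p.M (p.bt m i) :=
  h.Mm (Nat.add_le_add_left Nat.one_le_two_pow i)

theorem small {m : ℕ} (hm : m < p.N) (i : ℕ) :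
    8 * p.C * p.CZ * (p.N + 1) ^ 2 * 8 ^ p.N * p.M (p.bt (m + 1) i) * p.e1 (m + 1) i ≤
      p.γ (m + 1) i := by
  have h1 := h.le (p.bt (m + 1) i)
  have h2 := (h.lM m i hm).2.2.2
  have h3 := le_bt h (m + 1) i
  have h4 := h.M1 (p.bt (m + 1) i)
  have h5 := h.γ0 (m + 1) i
  refine le_of_mul_le_mul_right ?_ (show 0 < p.M (p.bt (m + 1) i) by linarith)
  unfold Par.e1
  calc _ = 8 * p.C * p.CZ * (p.N + 1) ^ 2 * 8 ^ p.N * p.M (p.bt (m + 1) i) ^ 2 *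
        p.ee (p.bt (m + 1) i) := by ring
    _ ≤ 1 := h1
    _ ≤ p.γ (m + 1) i * p.M (i + 1) := h2
    _ ≤ _ := by gcongr

theorem g2_le (m i : ℕ) : p.g2 m i ≤ 8 ^ p.N * p.M (p.bt m i) :=
  mul_le_mul_of_nonneg_right (pow_le_pow_right₀ (by norm_num) (by omega))
    (zero_le_one.trans (h.M1 _))

theorem small1 {m : ℕ} (hm : m < p.N) (i : ℕ) :
    8 * p.C * p.g2 (m + 1) i * p.e1 (m + 1) i ≤ p.γ (m + 1) i := by
  refine le_trans ?_ (small h hm i)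
  have c1 := h.C1'
  have c2 := CZ1 h
  have e0 : 0 < p.e1 (m + 1) i := h.e0 _
  have m1 := h.M1 (p.bt (m + 1) i)
  have n0 : (0 : ℝ) ≤ p.N := Nat.cast_nonneg _
  have g := g2_le h (m + 1) i
  calc _ ≤ 8 * p.C * (8 ^ p.N * p.M (p.bt (m + 1) i)) * p.e1 (m + 1) i := by gcongr
    _ = 8 * p.C * 1 * 1 ^ 2 * 8 ^ p.N * p.M (p.bt (m + 1) i) * p.e1 (m + 1) i := by ring
    _ ≤ _ := by gcongr; linarith

theorem small2 {m : ℕ} (hm : m < p.N) (i : ℕ) :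
    4 * p.C * p.CZ * p.N * p.e1 (m + 1) i ≤ p.γ (m + 1) i := by
  refine le_trans ?_ (small h hm i)
  have c1 := h.C1'
  have c2 := CZ1 h
  have e0 : 0 < p.e1 (m + 1) i := h.e0 _
  have m1 := h.M1 (p.bt (m + 1) i)
  have n0 : (0 : ℝ) ≤ p.N := Nat.cast_nonneg _
  have h8 : (1 : ℝ) ≤ 8 ^ p.N := one_le_pow₀ (by norm_num)
  have n1 : (p.N : ℝ) ≤ (p.N + 1) ^ 2 := by nlinarith
  calc _ = 4 * p.C * p.CZ * p.N * 1 * 1 * p.e1 (m + 1) i := by ring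
    _ ≤ _ := by gcongr; norm_num

theorem k_terms {m i : ℕ} (hm : m < p.N) (hV : p.Val (m + 1) i) {K : ℝ} (K1 : 1 ≤ K) :
    p.g2 (m + 1) i * K + 4 * p.C * p.g2 (m + 1) i * K + 1 + p.CZ * p.N * K ≤
      6 * p.C * 8 ^ p.N * p.M (2 ^ p.N) * K := by
  have c1 := h.C1'
  have c2 := CZ1 h
  have m1 := h.M1 (p.bt (m + 1) i)
  have m2 : p.M (p.bt (m + 1) i) ≤ p.M (2 ^ p.N) := h.Mm hV
  have h8 : (1 : ℝ) ≤ 8 ^ p.N := one_le_pow₀ (by norm_num)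
  have g0 : 0 ≤ p.g2 (m + 1) i := by unfold Par.g2; positivity
  have g1 : 8 * p.g2 (m + 1) i ≤ 8 ^ p.N * p.M (2 ^ p.N) := by
    unfold Par.g2
    rw [← mul_assoc, ← pow_succ']
    exact mul_le_mul (pow_le_pow_right₀ (by norm_num) (by omega)) m2 (by linarith) (by linarith)
  have z1 : p.CZ ≤ p.M (2 ^ p.N) := by
    have b1 := (h.lM m i hm).2.2.1
    have b2 : p.CZ * 1 ≤ p.CZ * p.CN m i := by gcongr; exact h.CN1 m i
    linarith [le_bt h (m + 1) i]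
  have n1 : (p.N : ℝ) ≤ 8 ^ p.N := by
    exact_mod_cast (Nat.lt_pow_self (by norm_num : 1 < 8)).le
  have a1 : 1 * (8 * p.g2 (m + 1) i) * K ≤ p.C * (8 ^ p.N * p.M (2 ^ p.N)) * K := by gcongr
  have a2 : p.C * (8 * p.g2 (m + 1) i) * K ≤ p.C * (8 ^ p.N * p.M (2 ^ p.N)) * K := by gcongr
  have m3 := h.M1 (2 ^ p.N)
  have a3 : 1 * (1 * 1) * 1 ≤ p.C * (8 ^ p.N * p.M (2 ^ p.N)) * K := by gcongr
  have a4 : 1 * (p.N * p.CZ) * K ≤ p.C * (8 ^ p.N * p.M (2 ^ p.N)) * K := by gcongr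
  linarith

theorem t_big {z : Cap} {n : ℕ} (hz : z.Ok p n) {m : ℕ} (hm : m ≤ p.N) (lg0 : 0 ≤ lg n) :
    p.C * (5 * z.T m + lg n) ≤ z.t m := by
  have a1 := hz.h1 m hm 0 (Nat.zero_le _)
  have a2 := h.h0 0
  have a3 := h.h1 0
  have a4 := h.C11
  have c1 := h.C1'
  have T0 := (hz.Tn m hm).1
  have a5 : p.C * (5 * z.T m + lg n + 1) ≤ 40 * p.C * p.C1 ^ 2 * (4 * z.T m + lg n + 1) := by
    calc _ = 1 * p.C * 1 ^ 2 * (5 * z.T m + lg n + 1) := by ring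
      _ ≤ 1 * p.C * p.C1 ^ 2 * (40 * (4 * z.T m + lg n + 1)) := by gcongr; linarith
      _ = _ := by ring
  have a9 : 0 < p.C * (5 * z.T m + lg n + 1) := by positivity
  have a7 : 0 < z.t m := (mul_pos_iff_of_pos_left (pow_pos a2 2)).1 (a9.trans_le (a5.trans a1))
  have a8 : p.η 0 ^ 2 * z.t m ≤ 1 ^ 2 * z.t m := by gcongr
  linarith

theorem Mec (j : ℕ) : p.M j ^ 2 * (p.N ^ 2 * p.ee j) ≤ 1 := by
  refine le_trans ?_ (h.le j)
  have c1 := h.C1'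
  have c2 := CZ1 h
  have e0 := h.e0 j
  have h8 : (1 : ℝ) ≤ 8 ^ p.N := one_le_pow₀ (by norm_num)
  calc p.M j ^ 2 * (p.N ^ 2 * p.ee j) = 1 * 1 * 1 * (p.N : ℝ) ^ 2 * 1 * p.M j ^ 2 * p.ee j := by ring
    _ ≤ _ := by gcongr <;> linarith

end consts

theorem crude_exp (n : ℕ) {x : ℝ} (hx : lg n < x) : x + 9 * n ≤ exp (x / 2) := by
  have n0 : (0 : ℝ) ≤ n := Nat.cast_nonneg n
  have l0 : 0 ≤ log ((n : ℝ) + 2) := log_nonneg (by linarith)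
  have x0 : 0 ≤ x := by unfold lg at hx; linarith
  have h1 : ((n : ℝ) + 2) ^ 4 ≤ exp (x / 4) := by
    rw [← exp_log (show 0 < ((n : ℝ) + 2) ^ 4 by positivity), log_pow]
    exact exp_le_exp.2 (by unfold lg at hx; push_cast; linarith)
  have h2 : x / 4 + 1 ≤ exp (x / 4) := add_one_le_exp _
  have h3 : 16 + 32 * (n : ℝ) ≤ ((n : ℝ) + 2) ^ 4 := by
    nlinarith [pow_nonneg n0 2, pow_nonneg n0 3, pow_nonneg n0 4]
  calc x + 9 * n ≤ (16 + 32 * (n : ℝ)) * (x / 4 + 1) := by nlinarith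
    _ ≤ exp (x / 4) * exp (x / 4) := by gcongr; exact h3.trans h1
    _ = exp (x / 2) := by rw [← exp_add]; ring_nf

end Upd65

open Upd65 in
theorem updGlue : UpdGlue := by
  intro hCr hCl hFu n X hX m i hm1 hmN hV hSta s s' F i0 y0 pA al q w u t hNx hB hpA hT hPV hF hc hL
    hS hd hy hs'
  have hp := hX.ok
  have hz := hX.cap
  have hD := hX.dok
  set D := X.D with hDd
  set γ := X.p.γ (m + 1) i with hγ
  set e := X.p.e1 (m + 1) i with he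
  set CN := X.p.CN m i with hCN
  set s2 : St n := s.tl t.φ (CN * u) t.Ω t.G with hs2
  have γ0 : 0 < γ := hp.γ0 _ _
  have γ1 : γ ≤ 1 := hp.γ1 _ _
  have e0 : 0 < e := hp.e0 _
  have CN1 : 1 ≤ CN := hp.CN1 _ _
  have u0 := hT.u0
  have C1 := hp.C1'
  have C01 := hp.C01
  have K1 := hz.K1
  have Z1 := CZ1 hp
  have N1 : (1 : ℝ) ≤ X.p.N := by exact_mod_cast hp.N1
  have n0 : (0 : ℝ) ≤ n := Nat.cast_nonneg n
  have h8 : (1 : ℝ) ≤ 8 ^ X.p.N := one_le_pow₀ (by norm_num)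
  have hi : i ≤ 2 ^ X.p.N := le_trans (Nat.le_add_right _ _) hV
  have MN1 := hp.M1 (2 ^ X.p.N)
  -- sizes
  obtain ⟨T0, -, tn⟩ := hz.Tn m hmN.le
  obtain ⟨T0', Tn', -⟩ := hz.Tn (m + 1) hmN
  have tT : X.z.t m ≤ X.z.T (m + 1) := by linarith [(hz.h4 m hmN).1]
  have lg0 : 0 ≤ lg n := by
    have := log_nonneg (show (1 : ℝ) ≤ n + 2 by linarith)
    unfold lg; linarith
  have tbig := t_big hp hz (m := m + 1) hmN lg0
  have hL2 : (s.L + CN * u) ^ 2 ≤ 2 * s.L ^ 2 + 2 * CN ^ 2 * u ^ 2 := by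
    linarith [sq_nonneg (s.L - CN * u)]
  have hL3 : (s.L + CN * u) ^ 2 ≤ X.z.T (m + 1) := by
    have a1 := hz.h3 m hmN i hi
    have a2 : CN ^ 2 * u ^ 2 ≤ CN ^ 2 * X.z.t' m := by gcongr; exact hT.ut
    linarith
  -- the new state
  have c2 : Cl ((m + 1) * e) ((m + 1) ^ 2 * e) s2 :=
    (hCl n D s hD).2.1 m e (CN * u) t.φ t.Ω t.G e0.le (by positivity) hc hT.ans.gr hT.ans.rg
      hT.ans.ex hT.ans.ts
  have hIn : X.In (m + 1) i s2 (F + t.ρ) :=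
    { cl := by push_cast; exact c2
      pv := hT.pv i0 _ _ _ hNx hPV
      xf := fun m' => xf_add (hF m') (hT.xf m')
      hL := hL3
      hS := hS }
  obtain ⟨pr, -, -, A0, H0, Y0, U0, U60, E0, -, YU, -, -, HD⟩ := hCr n D s2 hD
  have wt : Wt (nu D s2) := pr.hv
  obtain ⟨-, fx, -, -, -, fadd⟩ := hFu n X hX (m + 1) i F hF
  have Φ0 : 0 ≤ mean (nu D s2) fun σ => X.Fu (m + 1) m (X.Ft (m + 1) i F) σ s.y :=
    wt.mean_nonneg fun σ => (fx (m + 1) m (Nat.le_succ m)).2 σ s.y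
  have G0 : 0 ≤ mean (nu D s2) fun σ => s.G σ ^ 2 := wt.mean_nonneg fun σ => sq_nonneg _
  have W0 : 0 ≤ pA ⬝ᵥ (w * w) := sum_nonneg fun j _ => mul_nonneg (hpA j) (mul_self_nonneg _)
  have d0 : 0 ≤ del s ⬝ᵥ del s := sum_nonneg fun j _ => mul_self_nonneg _
  have S0 : (0 : ℝ) ≤ #s.S := Nat.cast_nonneg _
  have r0 : 0 ≤ nrm (s.y - y0) ^ 2 := sq_nonneg _
  have Mb := hp.M1 (X.p.bt (m + 1) i)
  have h8' : (1 : ℝ) ≤ 8 ^ (X.p.N - (m + 1)) := one_le_pow₀ (by norm_num)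
  have g2a : X.p.M (X.p.bt (m + 1) i) ≤ X.p.g2 (m + 1) i := le_mul_of_one_le_left (by linarith) h8'
  have g2b := g2_le hp (m + 1) i
  have g2c : X.p.g2 (m + 1) i ≤ 8 ^ X.p.N * X.p.M (2 ^ X.p.N) :=
    g2b.trans (mul_le_mul_of_nonneg_left (hp.Mm hV) (by linarith))
  have g20 : 0 ≤ X.p.g2 (m + 1) i := by linarith
  obtain ⟨am0, am1⟩ := am_bd hp (m := m + 1) hmN
  have gP0 := hp.gP0
  -- the goal in the words of `s2`
  subst hs'
  change _ ≤ X.p.lb m * AA D s2 - X.p.am (m + 1) * HH D s2 + 3 * γ *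
      (Hy D s2 + mean (nu D s2) (U D s2) + mean (nu D s2) (U6 D s2)) +
    X.p.gg m * Eg D s2 s.Th + exp ((Dz D s2 - X.z.T (m + 1)) / 2) +
    (mean (nu D s2) fun σ => 4 * X.p.g2 (m + 1) i * s.G σ ^ 2 +
      X.Fu (m + 1) m (X.Ft (m + 1) i F) σ s.y) + 8 * γ * CN ^ 2 * u ^ 2 + X.p.gP * (pA ⬝ᵥ (w * w))
  rw [mean_add, mean_const_mul]
  by_cases hcase : lg n < Dz D s2 - X.z.T (m + 1)
  · -- the crude case
    have a1 := crude_exp n hcase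
    have a2 := HD _ _ c2
    have sq : √(n : ℝ) * √(n : ℝ) = n := mul_self_sqrt n0
    have a3 : s2.L ≤ √n := le_sqrt_of_sq_le (hL3.trans Tn')
    have a4 : nrm (del s2) ≤ √n := sqrt_le_sqrt (hd.trans tn)
    have a5 : 4 * √(n : ℝ) * (s2.L + nrm (del s2)) ≤ 4 * √(n : ℝ) * (√n + √n) := by gcongr
    have a6 : X.p.am (m + 1) * HH D s2 ≤ 1 * HH D s2 := by gcongr
    have Λ0 : 0 ≤ X.p.Λ := hp.CE0.trans hp.ΛE
    have R0 : 0 ≤ X.R (m + 1) := by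
      have b1 : ((m + 1 : ℕ) : ℝ) ≤ X.p.N := by exact_mod_cast hmN
      have b2 : 0 ≤ X.z.Kb := le_trans (by positivity) hz.Kb
      exact mul_nonneg (by linarith) b2
    have b1 : 0 ≤ X.p.lb m * AA D s2 := mul_nonneg (lb_nn hp m) A0
    have b2 : 0 ≤ X.p.gg m * Eg D s2 s.Th := mul_nonneg (gg_nn hp m) (E0 _)
    have b3 : 0 ≤ 3 * γ * (Hy D s2 + mean (nu D s2) (U D s2) + mean (nu D s2) (U6 D s2)) := by
      positivity
    have b4 : 0 ≤ 4 * X.p.g2 (m + 1) i * mean (nu D s2) fun σ => s.G σ ^ 2 := by positivity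
    have b5 : 0 ≤ 8 * γ * CN ^ 2 * u ^ 2 := by positivity
    have b6 : 0 ≤ X.p.gP * (pA ⬝ᵥ (w * w)) := by positivity
    have b7 : 0 ≤ 6 * X.p.C * 8 ^ X.p.N * X.p.M (2 ^ X.p.N) * X.z.K := by positivity
    have b8 : 0 ≤ (3 / 2 * X.p.Λ + 9 / 2 * γ) * (del s ⬝ᵥ del s) := by positivity
    have b9 : 0 ≤ 6 * γ * (s.L ^ 2 + #s.S + nrm (s.y - y0) ^ 2) := by positivity
    linarith
  -- the main case
  rw [not_lt] at hcase
  have st := hSta s2 (F + t.ρ) hIn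
  have eF : (mean (nu D s2) fun σ => X.Fu (m + 1) m (X.Ft (m + 1) i (F + t.ρ)) σ s2.y) =
      (mean (nu D s2) fun σ => X.Fu (m + 1) m (X.Ft (m + 1) i F) σ s.y) +
        X.p.CZ * mean (nu D s2) fun σ => X.Fu (m + 1) m t.ρ σ s.y := by
    rw [fadd t.ρ (m + 1) m (Nat.le_succ m) hT.xf, ← mean_const_mul, ← mean_add]
    rfl
  change _ ≤ X.p.l (m + 1) * AA D s2 - X.p.am (m + 1) * HH D s2 +
    γ * (Bd D s2 + mean (nu D s2) (U6 D s2)) + X.p.gg (m + 1) * Eg D s2 (s.Th + t.φ) +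
    X.p.g2 (m + 1) i * Ex D s2 + 3 / 2 * (X.p.Λ + γ) * (del s ⬝ᵥ del s) +
    exp ((Dz D s2 - X.z.T (m + 1)) / 2) +
    mean (nu D s2) fun σ => X.Fu (m + 1) m (X.Ft (m + 1) i (F + t.ρ)) σ s2.y at st
  rw [eF] at st
  have eB : Bb D s2 y0 = Hy D s2 + del s ⬝ᵥ del s + (s.L + CN * u) ^ 2 + mean (nu D s2) (U D s2) +
      #s.S + nrm (s.y - y0) ^ 2 := rfl
  have eBd : Bd D s2 = Bb D s2 y0 - nrm (s.y - y0) ^ 2 := (add_sub_cancel_right _ _).symm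
  set B := Bb D s2 y0 with hBd
  have rB : nrm (s.y - y0) ^ 2 ≤ B := by rw [eB]; linarith [sq_nonneg (s.L + CN * u)]
  have B0 : 0 ≤ B := r0.trans rB
  have Bu : 0 ≤ B + u ^ 2 := by positivity
  -- energy
  have gg0 := gg_nn hp (m + 1)
  set hh := X.p.gg (m + 1) * (1 + X.p.N) with hhh
  have hh0 : 0 ≤ hh := by positivity
  have hh1 : hh * (X.p.C * X.p.C0) ≤ X.p.gP := gg_h hp (m + 1)
  have hh2 : hh ≤ 1 := by
    have : hh * (1 * 1) ≤ hh * (X.p.C * X.p.C0) := by gcongr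
    linarith [hp.gP1]
  have s1 : X.p.gg (m + 1) * Eg D s2 (s.Th + t.φ) ≤ X.p.gg m * Eg D s2 s.Th + hh * Eg D s2 t.φ := by
    have := mul_le_mul_of_nonneg_left ((hCl n D s2 hD).2.2.1 s.Th t.φ X.p.N (by linarith)) gg0
    rw [← gg_step hmN, hhh]
    linarith
  have mN : ((m : ℝ) + 1) ≤ X.p.N := by exact_mod_cast hmN
  have m0 : (0 : ℝ) ≤ m := Nat.cast_nonneg m
  have NN : (X.p.N : ℝ) ≤ X.p.N ^ 2 := le_self_pow₀ N1 two_ne_zero
  have c3 : Cl (X.p.ec (m + 1) i) (X.p.ec (m + 1) i) s2 :=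
    (hCl n D s2 hD).1 _ _ _ _ c2 (mul_le_mul_of_nonneg_right (mN.trans NN) e0.le)
      (mul_le_mul_of_nonneg_right (by gcongr) e0.le)
  set Mx := Mx' X.p.C D.P CN 1 D.η0 γ with hMx
  have Mx1 : Mx ≤ X.p.M (i + 1) := by
    rw [hMx, hX.hP, hX.hη]; exact (hp.lM m i hmN).2.1
  have Mx0 : 0 ≤ Mx := by rw [hMx, Mx']; positivity
  have Mx2 : Mx ≤ X.p.M (X.p.bt (m + 1) i) := Mx1.trans (le_bt hp _ _)
  obtain ⟨i1, i2⟩ := hX.lf.inc n D s2 y0 pA al q w _ _ e (X.p.ec (m + 1) i) CN X.p.C0 X.z.K u γ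
    t.φ t.W t.Ω t.G hD c3 hB hT.ans hpA e0.le (le_mul_of_one_le_left e0.le (N1.trans NN)) CN1
    (by linarith) K1 u0 γ0 γ1 (le_trans (mul_le_mul_of_nonneg_right (by gcongr)
      (by unfold Par.ec; positivity)) (Mec hp (X.p.bt (m + 1) i)))
  have X0 : 0 ≤ Ex D s2 := wt.mean_nonneg fun σ => sq_nonneg _
  have s2' : hh * Eg D s2 t.φ ≤ X.p.gP * (pA ⬝ᵥ (w * w)) + γ * (AA D s2 + B + u ^ 2) +
      X.p.g2 (m + 1) i * (Ex D s2 + X.z.K) := by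
    have a1 := mul_le_mul_of_nonneg_left i1 hh0
    have a2 : hh * (X.p.C * X.p.C0) * (pA ⬝ᵥ (w * w)) ≤ X.p.gP * (pA ⬝ᵥ (w * w)) := by gcongr
    have a3 : hh * (γ * (AA D s2 + B + u ^ 2)) ≤ 1 * (γ * (AA D s2 + B + u ^ 2)) := by gcongr
    have a4 : hh * (Mx * (Ex D s2 + X.z.K)) ≤ 1 * (X.p.g2 (m + 1) i * (Ex D s2 + X.z.K)) := by
      gcongr; exact Mx2.trans g2a
    linarith
  -- excess
  have s3 : Ex D s2 ≤ 2 * (mean (nu D s2) fun σ => s.G σ ^ 2) +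
      2 * mean (nu D s2) fun σ => t.G σ ^ 2 := by
    rw [← mean_const_mul, ← mean_const_mul, ← mean_add]
    refine wt.mean_mono fun σ => ?_
    change (s.G σ + t.G σ) ^ 2 ≤ _
    linarith [sq_nonneg (s.G σ - t.G σ)]
  have q1 : 8 * X.p.C * X.p.g2 (m + 1) i * e ≤ γ := small1 hp hmN i
  have q2 : 4 * X.p.C * X.p.CZ * X.p.N * e ≤ γ := small2 hp hmN i
  have s4 : 2 * X.p.g2 (m + 1) i * Ex D s2 ≤
      4 * X.p.g2 (m + 1) i * (mean (nu D s2) fun σ => s.G σ ^ 2) + γ / 2 * (B + u ^ 2) +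
        4 * X.p.C * X.p.g2 (m + 1) i * X.z.K := by
    have a1 : 2 * X.p.g2 (m + 1) i * Ex D s2 ≤ 2 * X.p.g2 (m + 1) i *
        (2 * (mean (nu D s2) fun σ => s.G σ ^ 2) + 2 * (X.p.C * (e * (B + u ^ 2) + X.z.K))) := by
      gcongr; linarith
    have a2 := mul_le_mul_of_nonneg_right q1 Bu
    linarith
  -- predictions
  have kl1 := (hX.lf.b1 n D s2 y0 _ _ hD c2 hB).1
  have BT : B ≤ 5 * X.z.T (m + 1) + lg n := by rw [eB]; linarith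
  have kl2 : kl (nu D s2) (ising D.J y0) ≤ X.z.t (m + 1) :=
    kl1.trans ((mul_le_mul_of_nonneg_left BT (by linarith)).trans tbig)
  have y2 : nrm (s.y - y0) ^ 2 ≤ X.z.t (m + 1) := by
    have : 1 * (5 * X.z.T (m + 1) + lg n) ≤ X.p.C * (5 * X.z.T (m + 1) + lg n) := by gcongr
    linarith
  have s5 : (mean (nu D s2) fun σ => X.Fu (m + 1) m t.ρ σ s.y) ≤
      X.p.N * (e * (2 * X.p.C * (B + u ^ 2) + 1) + X.z.K) := by
    have a1 : (fun σ => X.Fu (m + 1) m t.ρ σ s.y) = fun σ => ∑ m' ∈ Icc (m + 1) X.p.N,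
        Ew (((m' : ℝ) - m) * X.p.τ) (t.ρ m') σ s.y := by
      funext σ
      simp only [Cx.Fu, Finset.sum_apply]
    rw [a1, mean_sum]
    have a2 : u ^ 2 + kl (nu D s2) (ising D.J y0) + nrm (s.y - y0) ^ 2 + 1 ≤
        2 * X.p.C * (B + u ^ 2) + 1 := by
      have b1 : 1 * B ≤ X.p.C * B := by gcongr
      have b2 : 1 * u ^ 2 ≤ X.p.C * u ^ 2 := by gcongr
      linarith [sq_nonneg u]
    refine (sum_le_card_nsmul _ _ (e * (2 * X.p.C * (B + u ^ 2) + 1) + X.z.K) fun m' hm' => ?_).trans ?_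
    · obtain ⟨b1, b2⟩ := mem_Icc.1 hm'
      exact (hT.pred _ s.y m' wt kl2 y2 b1 b2).trans
        (add_le_add (mul_le_mul_of_nonneg_left a2 e0.le) le_rfl)
    · rw [nsmul_eq_mul]
      gcongr
      rw [Nat.card_Icc]
      exact_mod_cast (by omega : X.p.N + 1 - (m + 1) ≤ X.p.N)
  have s5' : X.p.CZ * (mean (nu D s2) fun σ => X.Fu (m + 1) m t.ρ σ s.y) ≤
      γ / 2 * (B + u ^ 2) + 1 + X.p.CZ * X.p.N * X.z.K := by
    have a1 := mul_le_mul_of_nonneg_left s5 (show 0 ≤ X.p.CZ by linarith)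
    have a2 := mul_le_mul_of_nonneg_right q2 Bu
    have a3 : 1 * (X.p.CZ * X.p.N * e) ≤ (4 * X.p.C) * (X.p.CZ * X.p.N * e) := by gcongr; linarith
    linarith
  have s6 : X.p.g2 (m + 1) i * X.z.K + 4 * X.p.C * X.p.g2 (m + 1) i * X.z.K + 1 +
      X.p.CZ * X.p.N * X.z.K ≤ 6 * X.p.C * 8 ^ X.p.N * X.p.M (2 ^ X.p.N) * X.z.K :=
    k_terms hp hmN hV K1
  have s7 := mul_le_mul_of_nonneg_right (l_add hp hmN i) A0
  have s8 : γ * B ≤ γ * (Hy D s2 + mean (nu D s2) (U D s2) + del s ⬝ᵥ del s + 2 * s.L ^ 2 +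
      2 * CN ^ 2 * u ^ 2 + #s.S + nrm (s.y - y0) ^ 2) := by
    gcongr; rw [eB]; linarith
  have s9 : γ * 1 ^ 2 * u ^ 2 ≤ γ * CN ^ 2 * u ^ 2 := by gcongr
  have s10 : 0 ≤ γ * mean (nu D s2) (U6 D s2) := by positivity
  have s11 : 0 ≤ γ * nrm (s.y - y0) ^ 2 := by positivity
  have s12 : 0 ≤ γ * #s.S := by positivity
  rw [eBd] at st
  linarith

end Crest.Agent.T157.S1

end
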