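import Crest.Agent.T157.TaK_40

/-!
# Row 157, block B, S1 (T-a): the synchronous window (helper40)
-/

set_option autoImplicit false
set_option linter.unusedSectionVars false

noncomputable section

namespace Crest.Agent.T157.Ta

open MeasureTheory ProbabilityTheory Real Matrix Set
open Crest.Agent.T157.E Crest.Agent.T157.SL
open Crest.Agent.T157.Rec (grad)

variable {n : ℕ} {u v w : Cube n → ℝ} {h : ℝ} {i : Fin n}

/-- the increment of the field -/
def inc (h : ℝ) (s : Cube n) (g : Fin n → ℝ) : Fin n → ℝ := h • sv s + √h • g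

/-- expectation over one synchronous step -/
def E2 (v w : Cube n → ℝ) (_h : ℝ) (F : Cube n → Cube n → (Fin n → ℝ) → ℝ) : ℝ :=
  mean v fun s => mean w fun s' => ∫ g, F s s' g ∂Gs (Fin n)

section E2
variable {F F' : Cube n → Cube n → (Fin n → ℝ) → ℝ}

theorem E2_mono (hv : Wt v) (hw : Wt w) (hF : ∀ s s', MG (F s s')) (hF' : ∀ s s', MG (F' s s'))
    (e : ∀ s s' g, F s s' g ≤ F' s s' g) : E2 v w h F ≤ E2 v w h F' :=
  hv.mean_mono fun s => hw.mean_mono fun s' => integral_mono (hF s s').int (hF' s s').int (e s s')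

theorem E2_add (hF : ∀ s s', MG (F s s')) (hF' : ∀ s s', MG (F' s s')) :
    E2 v w h (fun s s' g => F s s' g + F' s s' g) = E2 v w h F + E2 v w h F' := by
  simp only [E2, integral_add (hF _ _).int (hF' _ _).int, mean_add]

theorem E2_const_mul (c : ℝ) (F : Cube n → Cube n → (Fin n → ℝ) → ℝ) :
    E2 v w h (fun s s' g => c * F s s' g) = c * E2 v w h F := by
  simp only [E2, integral_const_mul, mean_const_mul]

theorem E2_fun (k : Cube n → Cube n → ℝ) :
    E2 v w h (fun s s' _ => k s s') = mean v fun s => mean w fun s' => k s s' := by simp [E2]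

theorem E2_left (hw : Wt w) (K : (Fin n → ℝ) → ℝ) :
    E2 v w h (fun s _ g => K (inc h s g)) = slE sv v h fun _ => K := by
  simp only [E2, hw.mean_const]; rfl

theorem E2_right (hv : Wt v) (K : (Fin n → ℝ) → ℝ) :
    E2 v w h (fun _ s' g => K (inc h s' g)) = slE sv w h fun _ => K := by
  simp only [E2, hv.mean_const]; rfl

end E2

theorem xg_inc {K : (Fin n → ℝ) → ℝ} (hK : XG K) (h : ℝ) (s : Cube n) : MG fun g => K (inc h s g) :=
  hK.mg.affine _ _

theorem lg_inc {K : (Fin n → ℝ) → ℝ} (hK : LG K) (h : ℝ) (s : Cube n) : LG fun g => K (inc h s g) :=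
  hK.comp (by unfold inc; fun_prop) (norm_nonneg (h • sv s)) (abs_nonneg √h) fun g =>
    (norm_add_le _ _).trans_eq (by rw [norm_smul √h, Real.norm_eq_abs])

theorem lg_inc_dot (h : ℝ) (s x : Cube n) : LG fun g => inc h s g ⬝ᵥ sv x := lg_inc (.dot' _) h s

/-- `ℓ¹` norm -/
def N1 (y : Fin n → ℝ) : ℝ := ∑ j, |y j|

theorem lg_N1 : LG (N1 (n := n)) := .sum _ fun j _ => (LG.coord j).abs

theorem abs_sv (x : Cube n) (i : Fin n) : |sv x i| = 1 := by
  have := Rec.sv_mul_self x i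
  exact abs_eq_one_of_mul_self this
where abs_eq_one_of_mul_self {a : ℝ} (h : a * a = 1) : |a| = 1 := by
        rcases mul_self_eq_one_iff.1 h with h | h <;> simp [h]

theorem abs_dot_sv (y : Fin n → ℝ) (x : Cube n) : |y ⬝ᵥ sv x| ≤ N1 y :=
  (Finset.abs_sum_le_sum_abs _ _).trans_eq (by simp only [abs_mul, abs_sv, mul_one, N1])

theorem int_abs_coord (j : Fin n) : ∫ g, |g j| ∂Gs (Fin n) ≤ 1 := by
  have h1 := Rec.int_sq_le (Rec.mg_coord j).abs
  have h2 := Rec.int_coord_mul j j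
  simp only [sq_abs, if_true, ← sq] at h1 h2
  exact (abs_le_of_sq_le_sq' (by rw [one_pow]; exact h1.trans_eq h2) zero_le_one).2

theorem slE_N1 (hv : Wt v) (h0 : 0 ≤ h) (h1 : h ≤ 1) : slE sv v h (fun _ => N1) ≤ 2 * n * √h := by
  refine hv.mean_le fun x => ?_
  have hs : h ≤ √h := by
    nlinarith [mul_self_sqrt h0, sqrt_nonneg h, sqrt_le_one.2 h1]
  have e : ∀ g : Fin n → ℝ, N1 (h • sv x + √h • g) ≤ ∑ j, (h + √h * |g j|) := fun g =>
    Finset.sum_le_sum fun j _ => (abs_add_le _ _).trans_eq (by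
      simp only [Pi.smul_apply, smul_eq_mul, abs_mul, abs_sv, mul_one, abs_of_nonneg h0,
        abs_of_nonneg (sqrt_nonneg h)])
  have m : ∀ j, MG fun g : Fin n → ℝ => h + √h * |g j| := fun j =>
    (MG.const _).add ((Rec.mg_coord j).abs.const_mul _)
  refine (integral_mono (lg_N1.xg.mg.affine _ _).int (MG.sum _ fun j _ => m j).int e).trans ?_
  rw [integral_finsetSum _ fun j _ => (m j).int]
  refine (Finset.sum_le_card_nsmul _ _ (2 * √h) fun j _ => ?_).trans_eq (by simp; ring)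
  rw [integral_add (integrable_const _) ((Rec.mg_coord j).abs.const_mul _).int, integral_const_mul]
  simp only [integral_const, probReal_univ, one_smul]
  nlinarith [int_abs_coord j, sqrt_nonneg h]

theorem abs_mean_tilt_sub (hv : Wt v) {F : Cube n → ℝ} {B : ℝ} (hF : ∀ x, |F x| ≤ B) (y : Fin n → ℝ) :
    |mean (tilt v y) F - mean v F| ≤ B * N1 y := abs_mean_wt_sub hv hF (abs_dot_sv y)

theorem abs_cm_tilt_sub (hw : Wt w) {x : Cube n} (hx : w x ≠ 0) (y : Fin n → ℝ) (i : Fin n) :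
    |cm (tilt w y) i x - cm w i x| ≤ N1 y := by
  have := abs_mean_wt_sub (wt_edge hw i hx) (F := fun b => sv (Function.update x i b) i)
    (G := fun b => y ⬝ᵥ sv (Function.update x i b)) (B := 1) (fun b => (abs_sv _ _).le)
    fun b => abs_dot_sv y _
  rw [one_mul] at this
  rw [cm, cm, siteM_eq_mean, siteM_eq_mean]
  exact this

theorem mean_chi (hv : Wt v) (hu : OffAt i u) (w : Cube n → ℝ) : mean v (fun x => u x * chi v w i x) =
    mean v (fun x => u x * sv x i) - mean v fun x => u x * cm w i x := by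
  simp only [chi, mul_sub, mean_sub, mean_cm hv hu]

theorem abs_mean_chi_sub (p : Pr v w) (hu : OffAt i u) (h0 : ∀ x, 0 ≤ u x ∧ u x ≤ 1) (y : Fin n → ℝ) :
    |mean (tilt v y) (fun x => u x * chi (tilt v y) (tilt w y) i x) -
      mean v fun x => u x * chi v w i x| ≤ 3 * N1 y := by
  have b : ∀ (x) (t : ℝ), |t| ≤ 1 → |u x * t| ≤ 1 := fun x t ht => by
    rw [abs_mul, abs_of_nonneg (h0 x).1]; exact mul_le_one₀ (h0 x).2 (abs_nonneg _) ht
  have h1 := abs_le.1 (abs_mean_tilt_sub p.hv (fun x => b x _ (abs_sv x i).le) y)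
  have h2 := abs_le.1 (abs_mean_tilt_sub p.hv (fun x => b x _ (abs_cm_le p.hw.nn i x)) y)
  have k : ∀ x, tilt v y x ≠ 0 → |u x * cm (tilt w y) i x - u x * cm w i x| ≤ N1 y := fun x hx => by
    rw [← mul_sub, abs_mul, abs_of_nonneg (h0 x).1]
    exact (mul_le_of_le_one_left (abs_nonneg _) (h0 x).2).trans
      (abs_cm_tilt_sub p.hw (p.pos (left_ne_zero_of_mul hx)).2.ne' y i)
  have h3 := mean_mono_supp (p.hv.tilt y) fun x hx => (abs_le.1 (k x hx)).1
  have h4 := mean_mono_supp (p.hv.tilt y) fun x hx => (abs_le.1 (k x hx)).2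
  rw [(p.hv.tilt y).mean_const, mean_sub] at h3 h4
  rw [mean_chi (p.hv.tilt y) hu, mean_chi p.hv hu, abs_le]
  constructor <;> linarith [h1.1, h1.2, h2.1, h2.2]

theorem tilt_inc (w : Cube n → ℝ) (h : ℝ) (s s' : Cube n) (g : Fin n → ℝ) : tilt w (inc h s' g) =
    wt (tilt w (inc h s g)) fun x => (h • (sv s' - sv s)) ⬝ᵥ sv x := by
  rw [← tilt_eq, tilt_tilt]; congr 1; simp only [inc, smul_sub]; abel

theorem abs_del (h0 : 0 ≤ h) (s s' : Cube n) (i : Fin n) : |(h • (sv s' - sv s)) i| ≤ 2 * h := by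
  simp only [Pi.smul_apply, Pi.sub_apply, smul_eq_mul, abs_mul, abs_of_nonneg h0]
  nlinarith [abs_sub (sv s' i) (sv s i), abs_sv s i, abs_sv s' i]

theorem mag_dot (v : Cube n → ℝ) (c : Fin n → ℝ) : mag v ⬝ᵥ c = mean v fun x => sv x ⬝ᵥ c := by
  simp only [dotProduct, mag, meanV, mean_sum, mean_mul_const]

theorem mean_del (hv : Wt v) (hw : Wt w) (c : Fin n → ℝ) :
    mean v (fun s => mean w fun s' => (h • (sv s' - sv s)) ⬝ᵥ c) = -(h * (Dm v w ⬝ᵥ c)) := by
  simp only [smul_dotProduct, sub_dotProduct, smul_eq_mul, mean_const_mul, mean_sub, hv.mean_const,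
    hw.mean_const, Dm, mag_dot]
  ring

theorem mg_As2 (p : Pr v w) (hu : OffAt i u) (h : ℝ) (s s' : Cube n) :
    MG fun g => As u (tilt v (inc h s g)) (tilt w (inc h s' g)) i :=
  (xg_As p hu (lg_inc_dot h s) (lg_inc_dot h s')).mg

/-- one synchronous step, the site term -/
theorem As_step (p : Pr v w) (hu : OffAt i u) (hu0 : ∀ x, 0 ≤ u x ∧ u x ≤ 1) (h0 : 0 ≤ h) (h1 : h ≤ 1) :
    E2 v w h (fun s s' g => As u (tilt v (inc h s g)) (tilt w (inc h s' g)) i) ≤
      As u v w i + h / 2 * Dm v w i ^ 2 + (12 * n + 4) * (h * √h) := by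
  set c := mean v fun x => u x * chi v w i x with hc
  have m1 : XG fun y => As u (tilt v y) (tilt w y) i := xg_As p hu (fun _ => .dot' _) fun _ => .dot' _
  have m2 : XG fun y => As u (tilt v y) (tilt w y) i + 6 * h * N1 y := m1.add (lg_N1.xg.const_mul _)
  refine (E2_mono (F' := fun s s' g => (As u (tilt v (inc h s g)) (tilt w (inc h s g)) i +
    6 * h * N1 (inc h s g)) + (2 * h ^ 2 - (h • (sv s' - sv s)) ⬝ᵥ Pi.single i c)) p.hv p.hw
    (mg_As2 p hu h) (fun s s' => (xg_inc m2 h s).add (.const _)) fun s s' g => ?_).trans ?_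
  · have q := p.tilt (inc h s g) (inc h s g)
    rw [tilt_inc w h s s']
    refine (As_wt_le q hu (fun x => (hu0 x).1) _).trans ?_
    simp only [Rec.grad_lin, dotProduct_single, mul_left_comm (u _), mean_const_mul]
    have a1 := abs_del h0 s s' i
    have a2 := abs_mean_chi_sub p hu hu0 (inc h s g)
    rw [← hc] at a2
    set d := (h • (sv s' - sv s)) i
    have a3 : mean (tilt v (inc h s g)) (fun x => u x * (d ^ 2 / 2)) ≤ 2 * h ^ 2 :=
      q.hv.mean_le fun x => by
        nlinarith [hu0 x, sq_le_sq' (abs_le.1 a1).1 (abs_le.1 a1).2, sq_nonneg d]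
    have a4 := mul_le_mul a1 a2 (abs_nonneg _) (by positivity)
    rw [← abs_mul, mul_sub] at a4
    linarith [neg_abs_le (d * mean (tilt v (inc h s g))
      (fun x => u x * chi (tilt v (inc h s g)) (tilt w (inc h s g)) i x) - d * c)]
  rw [E2_add (fun s _ => xg_inc m2 h s) fun _ _ => .const _, E2_fun,
    E2_left p.hw fun y => As u (tilt v y) (tilt w y) i + 6 * h * N1 y,
    slE_add (.of_mg fun _ => m1.mg) (.of_mg fun _ => (lg_N1.xg.const_mul _).mg), slE_const_mul]
  simp only [mean_sub, p.hv.mean_const, p.hw.mean_const, mean_del p.hv p.hw]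
  rw [dotProduct_single]
  have b1 := As_sl_drop p h0 hu fun x => (hu0 x).1
  have b2 := mul_le_mul_of_nonneg_left (slE_N1 p.hv h0 h1) (by positivity : 0 ≤ 6 * h)
  have b3 : mean v (fun x => u x * chi v w i x ^ 2) ≤ 4 := p.hv.mean_le fun x => by
    nlinarith [hu0 x, sq_le_sq' (abs_le.1 (abs_chi_le p i x)).1 (abs_le.1 (abs_chi_le p i x)).2,
      sq_nonneg (chi v w i x)]
  have b4 : 2 * Dm v w i * c ≤ mean v (fun x => u x * chi v w i x ^ 2) + Dm v w i ^ 2 := by
    rw [hc, ← mean_const_mul, ← p.hv.mean_const (Dm v w i ^ 2), ← mean_add]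
    exact p.hv.mean_mono fun x => by
      nlinarith [hu0 x, mul_nonneg (hu0 x).1 (sq_nonneg (chi v w i x - Dm v w i)),
        mul_nonneg (sub_nonneg.2 (hu0 x).2) (sq_nonneg (Dm v w i))]
  have hs : h ≤ √h := by nlinarith [mul_self_sqrt h0, sqrt_nonneg h, sqrt_le_one.2 h1]
  have b5 : h * h ≤ h * √h := mul_le_mul_of_nonneg_left hs h0
  have b6 := mul_le_mul_of_nonneg_left b3 (mul_nonneg h0 h0)
  have b7 := mul_le_mul_of_nonneg_left b4 h0
  nlinarith

theorem Ar_step {r : Fin n → Cube n → ℝ} (p : Pr v w) (hr : Off r) (hr0 : ∀ i x, 0 ≤ r i x ∧ r i x ≤ 1)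
    (h0 : 0 ≤ h) (h1 : h ≤ 1) : E2 v w h (fun s s' g => Ar r (tilt v (inc h s g)) (tilt w (inc h s' g))) ≤
      Ar r v w + h / 2 * (Dm v w ⬝ᵥ Dm v w) + n * (12 * n + 4) * (h * √h) := by
  have e : E2 v w h (fun s s' g => Ar r (tilt v (inc h s g)) (tilt w (inc h s' g))) =
      ∑ i, E2 v w h fun s s' g => As (r i) (tilt v (inc h s g)) (tilt w (inc h s' g)) i := by
    simp only [E2, Ar, ← mean_sum]
    congr 1; ext s; congr 1; ext s'
    exact integral_finsetSum _ fun i _ => (mg_As2 p (hr i) h s s').int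
  rw [e]
  refine (Finset.sum_le_sum fun i _ => As_step p (hr i) (hr0 i) h0 h1).trans_eq ?_
  simp only [Finset.sum_add_distrib, Ar, dotProduct, ← sq, Finset.mul_sum, Finset.sum_const,
    Finset.card_univ, Fintype.card_fin, nsmul_eq_mul, mul_assoc]

theorem abs_mag_le (hv : Wt v) (i : Fin n) : |mag v i| ≤ 1 := hv.abs_mean_le fun x => (abs_sv x i).le

theorem N1_Dm (hv : Wt v) (hw : Wt w) : N1 (Dm v w) ≤ 2 * n :=
  (Finset.sum_le_card_nsmul _ _ 2 fun i _ => (abs_sub _ _).trans (by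
    linarith [abs_mag_le hv i, abs_mag_le hw i])).trans_eq (by simp [mul_comm])

/-- one synchronous step, the relative entropy -/
theorem kl_step (p : Pr v w) (h0 : 0 ≤ h) (h1 : h ≤ 1) :
    E2 v w h (fun s s' g => kl (tilt v (inc h s g)) (tilt w (inc h s' g))) ≤
      kl v w + h / 2 * (Dm v w ⬝ᵥ Dm v w) + 12 * n ^ 2 * (h * √h) := by
  have m1 : XG fun y => kl (tilt v y) (tilt w y) := xg_kl p (fun _ => .dot' _) fun _ => .dot' _
  have m2 : XG fun y => kl (tilt v y) (tilt w y) + 4 * h * n * N1 y := m1.add (lg_N1.xg.const_mul _)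
  refine (E2_mono (F' := fun s s' g => (kl (tilt v (inc h s g)) (tilt w (inc h s g)) +
    4 * h * n * N1 (inc h s g)) + (2 * h ^ 2 * n ^ 2 - (h • (sv s' - sv s)) ⬝ᵥ Dm v w)) p.hv p.hw
    (fun s s' => (xg_kl p (lg_inc_dot h s) (lg_inc_dot h s')).mg)
    (fun s s' => (xg_inc m2 h s).add (.const _)) fun s s' g => ?_).trans ?_
  · have q := p.tilt (inc h s g) (inc h s g)
    change kl (tilt v (inc h s g)) (tilt w (inc h s' g)) ≤ _
    rw [tilt_inc w h s s', kl_wt q]
    set d := h • (sv s' - sv s) with hd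
    have a1 : ∀ i, |d i| ≤ 2 * h := abs_del h0 s s'
    have a2 := log_mean_exp_le q.hw (G := fun x => d ⬝ᵥ sv x) (B := 2 * h * n) fun x =>
      (abs_dot_sv d x).trans ((Finset.sum_le_card_nsmul _ _ _ fun i _ => a1 i).trans_eq (by
        simp [mul_comm]))
    rw [← meanV_dot] at a2 ⊢
    have a3 : |d ⬝ᵥ (Dm (tilt v (inc h s g)) (tilt w (inc h s g)) - Dm v w)| ≤
        4 * h * n * N1 (inc h s g) := by
      refine (Finset.abs_sum_le_sum_abs _ _).trans ((Finset.sum_le_card_nsmul _ _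
        (2 * h * (2 * N1 (inc h s g))) fun i _ => ?_).trans_eq (by simp; ring))
      rw [abs_mul]
      refine mul_le_mul (a1 i) ?_ (abs_nonneg _) (by positivity)
      have c1 := abs_le.1 (abs_mean_tilt_sub p.hv (fun x => (abs_sv x i).le) (inc h s g))
      have c2 := abs_le.1 (abs_mean_tilt_sub p.hw (fun x => (abs_sv x i).le) (inc h s g))
      simp only [Dm, mag, meanV, Pi.sub_apply, abs_le]
      constructor <;> linarith [c1.1, c1.2, c2.1, c2.2]
    rw [dotProduct_sub, Dm, dotProduct_sub, mag, mag] at a3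
    linarith [(abs_le.1 a3).1]
  rw [E2_add (fun s _ => xg_inc m2 h s) fun _ _ => .const _, E2_fun,
    E2_left p.hw fun y => kl (tilt v y) (tilt w y) + 4 * h * n * N1 y,
    slE_add (.of_mg fun _ => m1.mg) (.of_mg fun _ => (lg_N1.xg.const_mul _).mg), slE_const_mul]
  simp only [mean_sub, p.hv.mean_const, p.hw.mean_const, mean_del p.hv p.hw]
  have b1 := kl_chan_drop (φ := sv) p h0 (B := 2 * n) fun x =>
    (abs_dot_sv _ x).trans (N1_Dm p.hv p.hw)
  simp only [kl_post_sv] at b1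
  have b2 := mul_le_mul_of_nonneg_left (slE_N1 p.hv h0 h1) (by positivity : 0 ≤ 4 * h * n)
  have hs : h ≤ √h := by nlinarith [mul_self_sqrt h0, sqrt_nonneg h, sqrt_le_one.2 h1]
  have b5 := mul_le_mul_of_nonneg_left (mul_le_mul_of_nonneg_left hs h0) (sq_nonneg (n : ℝ))
  change _ ≤ kl v w - h / 2 * (Dm v w ⬝ᵥ Dm v w) + _ at b1
  nlinarith

theorem xg_D2 (hv : Wt v) (hw : Wt w) : XG (D2 v w) :=
  XG.sum (F := fun i (p : P2 n) => (mag (tilt v p.1) i - mag (tilt w p.2) i) *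
    (mag (tilt v p.1) i - mag (tilt w p.2) i)) Finset.univ fun i _ => by
    have := (xg_mag hv (L := fun x (p : P2 n) => p.1 ⬝ᵥ sv x) (fun x => (LG.dot' _).fst.meas) i).sub
      (xg_mag hw (L := fun x (p : P2 n) => p.2 ⬝ᵥ sv x) (fun x => (LG.dot' _).snd.meas) i)
    exact this.mul this

theorem slE_mag (hv : Wt v) (h0 : 0 ≤ h) (c : Fin n → ℝ) :
    slE sv v h (fun _ y => mag (tilt v y) ⬝ᵥ c) = mag v ⬝ᵥ c := by
  simp only [mag_dot, ← mean_post_sv v h, slE_mean hv h0]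

theorem xg_mag_dot (hv : Wt v) (c : Fin n → ℝ) : XG fun y => mag (tilt v y) ⬝ᵥ c := by
  simp only [mag_dot]
  exact xg_mean hv (fun x => (LG.dot' _).meas) fun _ => .const _

theorem norm_inc (h0 : 0 ≤ h) (h1 : h ≤ 1) (s : Cube n) (g : Fin n → ℝ) : ‖inc h s g‖ ≤ 1 + ‖g‖ := by
  refine (norm_add_le _ _).trans (add_le_add ?_ ?_)
  · rw [norm_smul, Real.norm_of_nonneg h0]
    exact mul_le_one₀ h1 (norm_nonneg _)
      ((pi_norm_le_iff_of_nonneg zero_le_one).2 fun i => (abs_sv s i).le)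
  · rw [norm_smul, Real.norm_of_nonneg (sqrt_nonneg h)]
    exact mul_le_of_le_one_left (norm_nonneg _) (sqrt_le_one.2 h1)

theorem mg_pair {F : P2 n → ℝ} (hF : XG F) (h0 : 0 ≤ h) (h1 : h ≤ 1) (s s' : Cube n) :
    MG fun g => F (inc h s g, inc h s' g) :=
  (hF.comp (T := fun g => (inc h s g, inc h s' g)) (by unfold inc; fun_prop) (a := 1) zero_le_one
    fun g => by rw [one_mul]; exact norm_prod_le_iff.2 ⟨norm_inc h0 h1 s g, norm_inc h0 h1 s' g⟩).mg

/-- `|Δ|²` is a submartingale -/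
theorem D2_step (hv : Wt v) (hw : Wt w) (h0 : 0 ≤ h) (h1 : h ≤ 1) :
    Dm v w ⬝ᵥ Dm v w ≤ E2 v w h fun s s' g => D2 v w (inc h s g, inc h s' g) := by
  set c := Dm v w with hc
  have m1 := (xg_mag_dot hv c).const_mul 2
  have m2 := (xg_mag_dot hw c).const_mul (-2)
  refine le_trans (le_of_eq ?_) (E2_mono (F := fun s s' g => 2 * (mag (tilt v (inc h s g)) ⬝ᵥ c) +
    -2 * (mag (tilt w (inc h s' g)) ⬝ᵥ c) + -(c ⬝ᵥ c)) hv hw
    (fun s s' => ((xg_inc m1 h s).add (xg_inc m2 h s')).add (.const _))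
    (mg_pair (xg_D2 hv hw) h0 h1) fun s s' g => ?_)
  · rw [E2_add (fun s s' => (xg_inc m1 h s).add (xg_inc m2 h s')) fun _ _ => .const _,
      E2_add (fun s _ => xg_inc m1 h s) fun _ s' => xg_inc m2 h s', E2_fun,
      E2_left hw fun y => 2 * (mag (tilt v y) ⬝ᵥ c), E2_right hv fun y => -2 * (mag (tilt w y) ⬝ᵥ c),
      slE_const_mul, slE_const_mul, slE_mag hv h0, slE_mag hw h0, hw.mean_const, hv.mean_const]
    have : c ⬝ᵥ c = mag v ⬝ᵥ c - mag w ⬝ᵥ c := by rw [← sub_dotProduct]; rfl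
    linarith
  · set d := Dm (tilt v (inc h s g)) (tilt w (inc h s' g)) with hd
    have e : d ⬝ᵥ c = mag (tilt v (inc h s g)) ⬝ᵥ c - mag (tilt w (inc h s' g)) ⬝ᵥ c := by
      rw [← sub_dotProduct]; rfl
    have := dot_self_nonneg (d - c)
    rw [sub_dotProduct, dotProduct_sub, dotProduct_sub, dotProduct_comm c d] at this
    change _ ≤ d ⬝ᵥ d
    linarith

theorem Y_step (hv : Wt v) (hw : Wt w) (h0 : 0 ≤ h) {τ : ℝ} (hτ : 0 < τ) (y y' : Fin n → ℝ) :
    E2 v w h (fun s s' g => (y + inc h s g - (y' + inc h s' g)) ⬝ᵥ (y + inc h s g - (y' + inc h s' g))) ≤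
      (1 + h / τ) * ((y - y') ⬝ᵥ (y - y')) + h / τ * (τ ^ 2 * (Dm v w ⬝ᵥ Dm v w) + 4 * n * h * τ) := by
  have e : ∀ s s' g, y + inc h s g - (y' + inc h s' g) = y - y' - h • (sv s' - sv s) := fun s s' g => by
    simp only [inc, smul_sub]; abel
  simp only [e]
  rw [E2_fun]
  generalize y - y' = D
  have a1 : mean v (fun s => mean w fun s' => (D - h • (sv s' - sv s)) ⬝ᵥ (D - h • (sv s' - sv s))) ≤
      mean v fun s => mean w fun s' => D ⬝ᵥ D + 4 * n * h ^ 2 - 2 * ((h • (sv s' - sv s)) ⬝ᵥ D) :=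
    hv.mean_mono fun s => hw.mean_mono fun s' => by
      have := mul_le_mul_of_nonneg_left (sv_diam s' s) (sq_nonneg h)
      generalize sv s' - sv s = d at this ⊢
      simp only [sub_dotProduct, dotProduct_sub, smul_dotProduct, dotProduct_smul, smul_eq_mul,
        dotProduct_comm D d]
      nlinarith
  simp only [mean_sub, mean_const_mul, hv.mean_const, hw.mean_const, mean_del hv hw] at a1
  refine a1.trans ?_
  have a2 := mul_nonneg (div_nonneg h0 hτ.le) (dot_self_nonneg (D - τ • Dm v w))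
  generalize Dm v w = d at a2 ⊢
  simp only [sub_dotProduct, dotProduct_sub, smul_dotProduct, dotProduct_smul, smul_eq_mul,
    dotProduct_comm D d] at a2
  have a3 : h / τ * τ = h := div_mul_cancel₀ _ hτ.ne'
  generalize h / τ = k at a2 a3 ⊢
  clear a1 e
  subst a3
  nlinarith

/-! ### the chain -/

/-- the synchronous step -/
def syn (hv : Wt v) (hw : Wt w) (h0 : 0 ≤ h) (h1 : h ≤ 1) : Stp (P2 n) (Cube n × Cube n) (Fin n) where
  ρ p a := prob (tilt v p.1) a.1 * prob (tilt w p.2) a.2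
  T a p g := (p.1 + inc h a.1 g, p.2 + inc h a.2 g)
  C := 1
  isP p := ⟨fun a => mul_nonneg ((hv.tilt _).prob_nonneg _) ((hw.tilt _).prob_nonneg _), by
    rw [Fintype.sum_prod_type, ← Finset.sum_mul_sum, (hv.tilt _).sum_prob, (hw.tilt _).sum_prob,
      one_mul]⟩
  mρ a := (meas_prob_wt v (L := fun x (p : P2 n) => p.1 ⬝ᵥ sv x) (fun _ => (LG.dot' _).fst.meas) _).mul
    (meas_prob_wt w (L := fun x (p : P2 n) => p.2 ⬝ᵥ sv x) (fun _ => (LG.dot' _).snd.meas) _)
  mT a := by unfold inc; fun_prop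
  C0 := zero_le_one
  gr a p g := norm_prod_le_iff.2 ⟨(norm_add_le _ _).trans (by
      linarith [norm_fst_le p, norm_inc h0 h1 a.1 g]),
    (norm_add_le _ _).trans (by linarith [norm_snd_le p, norm_inc h0 h1 a.2 g])⟩

theorem syn_op (hv : Wt v) (hw : Wt w) (h0 : 0 ≤ h) (h1 : h ≤ 1) (F : P2 n → ℝ) (p : P2 n) :
    (syn hv hw h0 h1).op F p =
      E2 (tilt v p.1) (tilt w p.2) h fun s s' g => F (p.1 + inc h s g, p.2 + inc h s' g) := by
  simp only [Stp.op, syn, Fintype.sum_prod_type, E2, mean, Finset.mul_sum, mul_assoc]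

theorem slE_post_sv (v : Cube n → ℝ) (s t : ℝ) (y : Fin n → ℝ) :
    slE sv (post sv v s y) t = slE sv (tilt v y) t := by ext; simp only [slE, prob_post_sv]

theorem xg_slE (hv : Wt v) {K : (Fin n → ℝ) → ℝ} (hK : XG K) (h : ℝ) :
    XG fun y => slE sv (tilt v y) h fun _ z => K (y + z) :=
  xg_mean hv (fun _ => (LG.dot' _).meas) fun _ => .of_mg (hK.mg.conv _ _)

theorem slE_succ (hv : Wt v) (h0 : 0 ≤ h) (k : ℕ) {K : (Fin n → ℝ) → ℝ} (hK : XG K) :
    slE sv v ((k + 1 : ℕ) * h) (fun _ => K) =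
      slE sv v (k * h) fun _ y => slE sv (tilt v y) h fun _ z => K (y + z) := by
  rw [Nat.cast_succ, add_mul, one_mul, markov hv (by positivity) h0 fun _ => hK.mg]
  simp only [slE_post_sv]

theorem map_eq_law {P : Measure (P2 n)} (hP : Nice P) {f : P2 n → Fin n → ℝ} (hπ : Measurable f)
    (hv : Wt v) {τ : ℝ} (e : ∀ K, XG K → ∫ p, K (f p) ∂P = slE sv v τ fun _ => K) :
    P.map f = law sv v τ := by
  have := hP.prob
  have := isProb_law (φ := sv) (s := τ) hv
  ext s hs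
  rw [← ENNReal.toReal_eq_toReal_iff' (measure_ne_top _ _) (measure_ne_top _ _)]
  change (P.map f).real s = (law sv v τ).real s
  have m := (MG.const (ι := Fin n) 1).indicator hs
  rw [← integral_indicator_one hs, ← integral_indicator_one hs,
    integral_map hπ.aemeasurable (measurable_one.indicator hs).aestronglyMeasurable,
    integral_law hv (measurable_one.indicator hs) (.of_mg fun _ => m)]
  exact e _ (.of_mg m)

theorem chain {r : Fin n → Cube n → ℝ} (p : Pr v w) (hr : Off r) (hr0 : ∀ i x, 0 ≤ r i x ∧ r i x ≤ 1)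
    (h0 : 0 ≤ h) (h1 : h ≤ 1) {τ : ℝ} (hτ : 0 < τ) (k : ℕ) :
    ∃ P : Measure (P2 n), Nice P ∧ (∀ K, XG K → ∫ q, K q.1 ∂P = slE sv v (k * h) fun _ => K) ∧
      (∀ K, XG K → ∫ q, K q.2 ∂P = slE sv w (k * h) fun _ => K) ∧
      ∫ q, Ar r (tilt v q.1) (tilt w q.2) ∂P ≤
        Ar r v w + k * h / 2 * ∫ q, D2 v w q ∂P + k * (n * (12 * n + 4) * (h * √h)) ∧
      ∫ q, kl (tilt v q.1) (tilt w q.2) ∂P ≤
        kl v w + k * h / 2 * ∫ q, D2 v w q ∂P + k * (12 * n ^ 2 * (h * √h)) ∧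
      ∫ q, (q.1 - q.2) ⬝ᵥ (q.1 - q.2) ∂P ≤
        ((1 + h / τ) ^ k - 1) * (τ ^ 2 * ∫ q, D2 v w q ∂P + 4 * n * h * τ) ∧
      Dm v w ⬝ᵥ Dm v w ≤ ∫ q, D2 v w q ∂P := by
  induction k with
  | zero =>
    refine ⟨.dirac (0, 0), nice_dirac _, fun K _ => ?_, fun K _ => ?_, ?_, ?_, ?_, ?_⟩ <;>
      simp [slE_zero, p.hv.mean_const, p.hw.mean_const, tilt_zero, D2]
  | succ k ih =>
    obtain ⟨P, hP, e1, e2, a1, a2, a3, a4⟩ := ih
    set S := syn p.hv p.hw h0 h1
    have l1 : ∀ x : Cube n, LG fun q : P2 n => q.1 ⬝ᵥ sv x := fun x => (LG.dot' _).fst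
    have l2 : ∀ x : Cube n, LG fun q : P2 n => q.2 ⬝ᵥ sv x := fun x => (LG.dot' _).snd
    have mD := xg_D2 p.hv p.hw
    have mA : XG fun q : P2 n => Ar r (tilt v q.1) (tilt w q.2) := xg_Ar p hr l1 l2
    have mH : XG fun q : P2 n => kl (tilt v q.1) (tilt w q.2) := xg_kl p l1 l2
    have mY : XG fun q : P2 n => (q.1 - q.2) ⬝ᵥ (q.1 - q.2) := XG.sum _ fun i _ => by
      have := ((LG.coord i).fst.sub (LG.coord i).snd : LG fun q : P2 n => q.1 i - q.2 i).xg
      exact this.mul this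
    have d1 : ∫ q, D2 v w q ∂P ≤ ∫ q, D2 v w q ∂S.nx P := S.le_integral_nx hP mD mD fun q => by
      rw [syn_op]
      simpa only [D2, tilt_tilt] using D2_step (p.hv.tilt q.1) (p.hw.tilt q.2) h0 h1
    have d2 := S.integral_nx_le hP mA ((mA.add (mD.const_mul (h / 2))).add
      (.const (n * (12 * n + 4) * (h * √h)))) fun q => by
        rw [syn_op]
        simpa only [D2, tilt_tilt] using Ar_step (p.tilt q.1 q.2) hr hr0 h0 h1
    have d3 := S.integral_nx_le hP mH ((mH.add (mD.const_mul (h / 2))).add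
      (.const (12 * n ^ 2 * (h * √h)))) fun q => by
        rw [syn_op]
        simpa only [D2, tilt_tilt] using kl_step (p.tilt q.1 q.2) h0 h1
    have d4 := S.integral_nx_le hP mY ((mY.const_mul (1 + h / τ)).add
      (((mD.const_mul (τ ^ 2)).add (.const (4 * n * h * τ))).const_mul (h / τ))) fun q => by
        rw [syn_op]
        exact Y_step (p.hv.tilt q.1) (p.hw.tilt q.2) h0 hτ q.1 q.2
    rw [hP.add (mA.add (mD.const_mul _)) (.const _), hP.add mA (mD.const_mul _), hP.const,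
      integral_const_mul] at d2
    rw [hP.add (mH.add (mD.const_mul _)) (.const _), hP.add mH (mD.const_mul _), hP.const,
      integral_const_mul] at d3
    rw [hP.add (mY.const_mul _) (((mD.const_mul _).add (.const _)).const_mul _), integral_const_mul,
      integral_const_mul, hP.add (mD.const_mul _) (.const _), hP.const, integral_const_mul] at d4
    have k0 : (0 : ℝ) ≤ (k + 1) * h / 2 := by positivity
    have d5 := mul_le_mul_of_nonneg_left d1 k0
    refine ⟨S.nx P, S.nice_nx hP, fun K hK => ?_, fun K hK => ?_, ?_, ?_, ?_, a4.trans d1⟩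
    · rw [S.integral_nx hP hK.fst, slE_succ p.hv h0 k hK, ← e1 _ (xg_slE p.hv hK h)]
      congr 1; ext q
      rw [syn_op]; exact E2_left (p.hw.tilt _) fun z => K (q.1 + z)
    · rw [S.integral_nx hP hK.snd, slE_succ p.hw h0 k hK, ← e2 _ (xg_slE p.hw hK h)]
      congr 1; ext q
      rw [syn_op]; exact E2_right (p.hv.tilt _) fun z => K (q.2 + z)
    · push_cast; linarith
    · push_cast; linarith
    · have t0 : 0 ≤ h / τ := div_nonneg h0 hτ.le
      have t1 : 0 ≤ (1 + h / τ) ^ (k + 1) - 1 := sub_nonneg.2 (one_le_pow₀ (by linarith))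
      have t2 := mul_le_mul_of_nonneg_left (add_le_add_left
        (mul_le_mul_of_nonneg_left d1 (sq_nonneg τ)) (4 * n * h * τ)) t1
      have t3 := mul_le_mul_of_nonneg_left a3 (by linarith : 0 ≤ 1 + h / τ)
      refine d4.trans (le_trans ?_ t2)
      rw [pow_succ _ k]
      linarith

/-- **the synchronous window** -/
theorem sync : Sync := fun n r v w τ ε p hr hr0 hτ hε => by
  set C : ℝ := 12 * n ^ 2 + 8 * n + 1 with hC
  have n0 : (0 : ℝ) ≤ n := n.cast_nonneg
  have C0 : 0 < C := by positivity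
  set η := min 1 ((ε / (C * τ)) ^ 2) with hη
  have η0 : 0 < η := lt_min one_pos (by positivity)
  set N := ⌈τ / η⌉₊ with hN
  have N0 : (0 : ℝ) < N := (div_pos hτ η0).trans_le (Nat.le_ceil _)
  set h := τ / N with hh
  have h0 : 0 < h := div_pos hτ N0
  have hη' : h ≤ η := by
    rw [hh, div_le_iff₀ N0, ← div_le_iff₀' η0]; exact Nat.le_ceil _
  have h1 : h ≤ 1 := hη'.trans (min_le_left _ _)
  have h2 : C * τ * √h ≤ ε := by
    rw [← le_div_iff₀' (by positivity)]
    exact sqrt_le_iff.2 ⟨by positivity, hη'.trans (min_le_right _ _)⟩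
  have hs : h ≤ √h := by nlinarith [mul_self_sqrt h0.le, sqrt_nonneg h, sqrt_le_one.2 h1]
  have e0 : N * h = τ := mul_div_cancel₀ _ N0.ne'
  obtain ⟨P, hP, e1, e2, a1, a2, a3, a4⟩ := chain p hr hr0 h0.le h1 hτ N
  rw [e0] at e1 e2 a1 a2
  have s0 : 0 ≤ τ * √h := by positivity
  have D0 : 0 ≤ ∫ q, D2 v w q ∂P := (dot_self_nonneg _).trans a4
  refine ⟨P, hP.prob, map_eq_law hP measurable_fst p.hv e1, map_eq_law hP measurable_snd p.hw e2,
    hP.int, a1.trans ?_, ?_, a2.trans ?_, a3.trans ?_, a4⟩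
  · have : N * (n * (12 * n + 4) * (h * √h)) = n * (12 * n + 4) * (τ * √h) := by rw [← e0]; ring
    rw [this]; nlinarith [mul_nonneg n0 s0]
  · have m1 : XG fun y => mean (tilt v y) fun x => log (prob v x / prob w x) :=
      xg_mean p.hv (fun _ => (LG.dot' _).meas) fun _ => .const _
    have m2 : XG fun y => mean (tilt w y) fun x => prob v x / prob w x :=
      xg_mean p.hw (fun _ => (LG.dot' _).meas) fun _ => .const _
    refine le_trans (le_of_eq ?_) (hP.mono ((m1.fst.add (.const 1)).sub m2.snd)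
      (xg_kl p (fun x => (LG.dot' _).fst) fun x => (LG.dot' _).snd) fun q =>
        kl_tangent p (p.tilt q.1 q.2) fun x hx => by rw [tilt, hx, zero_mul])
    rw [hP.sub (m1.fst.add (.const 1)) m2.snd, hP.add m1.fst (.const 1), hP.const, e1 _ m1, e2 _ m2]
    simp only [← mean_post_sv _ τ, slE_mean p.hv hτ.le, slE_mean p.hw hτ.le, mean_ratio_le p,
      add_sub_cancel_right]
    rfl
  · have : N * (12 * n ^ 2 * (h * √h)) = 12 * n ^ 2 * (τ * √h) := by rw [← e0]; ring
    rw [this]; nlinarith [mul_nonneg n0 s0]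
  · have t1 : (1 + h / τ) ^ N ≤ 3 := by
      refine (pow_le_pow_left₀ (by positivity) ((add_comm _ _).trans_le (add_one_le_exp (h / τ))) N).trans ?_
      rw [← exp_nat_mul, ← mul_div_assoc, e0, div_self hτ.ne']
      exact exp_one_lt_d9.le.trans (by norm_num)
    have t2 := mul_le_mul_of_nonneg_right (sub_le_sub_right t1 1)
      (by positivity : 0 ≤ τ ^ 2 * ∫ q, D2 v w q ∂P + 4 * n * h * τ)
    have t3 := mul_le_mul_of_nonneg_left hs (by positivity : 0 ≤ 8 * n * τ)
    nlinarith [mul_nonneg (sq_nonneg (n : ℝ)) s0]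

end Crest.Agent.T157.Ta
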