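import Crest.Agent.T157.S1Def_97
import Crest.Agent.T157.TaS_40

/-!
# Row 157, part B, block S1 (helper62): the synchronous window (`S1.winGlue`)
-/

set_option autoImplicit false

noncomputable section

namespace Crest.Agent.T157.S1

open MeasureTheory Real Matrix Finset
open Crest.Agent.T157.E Crest.Agent.T157.SL Crest.Agent.T157.Ta
open Crest.Agent.T157.Ue (El Lw)
open Crest.Agent.T157.Rec (grad)
open Crest.Agent.T157.S3 (V)

namespace Win62

variable {n : ℕ}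

/-- integrable with integral at most `b` -/
def IL (P : Measure (P2 n)) (f : P2 n → ℝ) (b : ℝ) : Prop := Integrable f P ∧ ∫ p, f p ∂P ≤ b

section
variable {P : Measure (P2 n)} {f g : P2 n → ℝ} {a b : ℝ}

lemma IL.add (h : IL P f a) (h' : IL P g b) : IL P (fun p => f p + g p) (a + b) :=
  ⟨h.1.add h'.1, by rw [integral_add h.1 h'.1]; exact add_le_add h.2 h'.2⟩

lemma IL.mul (h : IL P f a) {c : ℝ} (hc : 0 ≤ c) : IL P (fun p => c * f p) (c * a) :=
  ⟨h.1.const_mul c, by rw [integral_const_mul]; exact mul_le_mul_of_nonneg_left h.2 hc⟩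

lemma IL.neg (h : Integrable f P) (e : a ≤ ∫ p, f p ∂P) : IL P (fun p => -f p) (-a) :=
  ⟨h.neg, by rw [integral_neg]; exact neg_le_neg e⟩

lemma IL.fin [IsProbabilityMeasure P] (h : IL P f a) (e : ∀ p, b ≤ f p) : b ≤ a := by
  have := integral_mono (integrable_const b) h.1 e
  rw [integral_const, probReal_univ, one_smul] at this
  exact this.trans h.2

end

variable {r : Fin n → Cube n → ℝ} {v w : Cube n → ℝ} {τ ε : ℝ} {P : Measure (P2 n)}

lemma il_fst (hP : Win r v w τ ε P) (hv : Wt v) {K : V n → ℝ} (hK : XG K) {b : ℝ}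
    (e : slE sv v τ (fun _ => K) ≤ b) : IL P (fun p => K p.1) b := by
  refine ⟨hP.int _ hK.fst, ?_⟩
  rw [← integral_map (φ := Prod.fst) (f := K) measurable_fst.aemeasurable
    hK.meas.aestronglyMeasurable, hP.fst, integral_law hv hK.meas (.of_mg fun _ => hK.mg)]
  exact e

lemma l0 (x : Cube n) : LG fun y : V n => y ⬝ᵥ sv x := LG.dot' _

lemma il_mean (hP : Win r v w τ ε P) (hv : Wt v) (hτ : 0 ≤ τ) (g : Cube n → ℝ) :
    IL P (fun p => mean (tilt v p.1) g) (mean v g) :=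
  il_fst hP hv (K := fun y => mean (tilt v y) g)
    (xg_mean hv (fun x => (l0 x).meas) fun _ => .const _)
    (by simp only [← mean_post_sv v τ, slE_mean hv hτ, le_refl])

lemma il_F (hP : Win r v w τ ε P) (hv : Wt v) (hτ : 0 ≤ τ) {F : Fy n} (hF : XF F) (y : V n) :
    IL P (fun p => mean (tilt v p.1) fun σ => F σ (y + p.1)) (mean v fun σ => Ew τ F σ y) := by
  have m : ∀ σ, XG fun z : V n => F σ (y + z) := fun σ => (hF.1 σ).comp (a := ‖y‖) (b := 1)
    (by fun_prop) zero_le_one fun z => by rw [one_mul]; exact norm_add_le _ _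
  refine il_fst hP hv (K := fun z => mean (tilt v z) fun σ => F σ (y + z))
    (xg_mean hv (fun x => (l0 x).meas) m) (le_of_eq ?_)
  simp only [← mean_post_sv v τ]
  rw [← bayes hv hτ (.of_mg fun σ => (m σ).mg), slE_eq_mean]
  simp only [Ew, add_assoc]

lemma il_kl (hP : Win r v w τ ε P) {μ : Cube n → ℝ} (h : Pr v μ) (hτ : 0 ≤ τ) :
    IL P (fun p => kl (tilt v p.1) (tilt μ p.1)) (kl v μ) :=
  il_fst hP h.hv (K := fun y => kl (tilt v y) (tilt μ y)) (xg_kl h l0 l0)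
    (by simpa only [kl_post_sv] using kl_chan_le (φ := sv) h hτ)

lemma il_cnt (hP : Win r v w τ ε P) (hv : Wt v) (hτ : 0 ≤ τ) {u : Fin n → Cube n → ℝ} (hu : Off u)
    (h0 : ∀ i x, 0 ≤ u i x) : IL P (fun p => Cnt u (tilt v p.1)) (Cnt u v) :=
  il_fst hP hv (K := fun y => Cnt u (tilt v y))
    (XG.sum _ fun i _ => xg_Cs hv (fun x => (l0 x).meas) (u i) i)
    (by simpa only [Cnt_post_sv] using Cnt_chan_le (φ := sv) hv hτ hu h0)

/-- the normalisation of `ν` is an inverse martingale -/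
lemma il_inv {μ k : Cube n → ℝ} (hP : Win r (fun x => μ x * k x) w τ ε P) (hμ : Wt μ)
    (hv : Wt fun x => μ x * k x) (hτ : 0 ≤ τ) : 0 < mean μ k ∧ (∀ y, 0 < mean (tilt μ y) k) ∧
    IL P (fun p => (mean (tilt μ p.1) k)⁻¹) (mean μ k)⁻¹ := by
  have m0 : 0 < mean μ k := by rw [mean_eq_div]; exact div_pos hv.pos hμ.pos
  have z1 : ∀ y : V n, 0 < mean μ fun x => exp (y ⬝ᵥ sv x) := fun y =>
    mean_pos' hμ fun _ => exp_pos _
  have z2 : ∀ y : V n, 0 < mean (fun x => μ x * k x) fun x => exp (y ⬝ᵥ sv x) := fun y =>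
    mean_pos' hv fun _ => exp_pos _
  have e : ∀ y : V n, mean (tilt μ y) k = mean μ k *
      (mean (fun x => μ x * k x) fun x => exp (y ⬝ᵥ sv x)) / mean μ fun x => exp (y ⬝ᵥ sv x) := by
    intro y
    rw [mean_mul_weight μ k _ hμ.pos.ne', mul_div_cancel₀ _ m0.ne']
    simp only [mul_comm (k _)]
    exact mean_mul_weight μ _ k hμ.pos.ne'
  have m1 : ∀ y, 0 < mean (tilt μ y) k := fun y => by
    rw [e]; exact div_pos (mul_pos m0 (z2 y)) (z1 y)
  have xg : XG fun y : V n => (mean (tilt μ y) k)⁻¹ := by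
    have x1 := (((LG.lme hμ.nn l0).sub (LG.lme hv.nn l0)).exp).const_mul (mean μ k)⁻¹
    refine (congrArg XG (funext fun y => ?_)).mpr x1
    rw [e, exp_sub, exp_log (z1 y), exp_log (z2 y)]
    have := z1 y; have := z2 y
    field_simp
  refine ⟨m0, m1, il_fst hP hv xg (le_of_eq ?_)⟩
  rw [slE_mul_weight' hμ hτ k (.of_mg fun _ => xg.mg)]
  simp only [mean_post_sv, mul_inv_cancel₀ (m1 _).ne']
  rw [slE_fun, hμ.mean_const, one_div]

lemma amgm {m m0 : ℝ} (hm : 0 < m) (h0 : 0 < m0) (a T : ℝ) : exp ((a - log m - T) / 2) ≤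
    exp ((a - log m0 - T) / 2) / 2 + exp ((a - log m0 - T) / 2) * m0 / 2 * m⁻¹ := by
  set t := exp ((log m0 - log m) / 2) with ht
  have e1 : exp ((a - log m - T) / 2) = exp ((a - log m0 - T) / 2) * t := by
    rw [ht, ← exp_add]; congr 1; ring
  have e2 : t * t = m0 * m⁻¹ := by
    rw [ht, ← exp_add, add_halves, exp_sub, exp_log hm, exp_log h0, div_eq_mul_inv]
  rw [e1, show exp ((a - log m0 - T) / 2) * m0 / 2 * m⁻¹ =
    exp ((a - log m0 - T) / 2) * (m0 * m⁻¹) / 2 by ring, ← e2]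
  nlinarith [mul_nonneg (exp_pos ((a - log m0 - T) / 2)).le (sq_nonneg (t - 1))]

lemma sq_add (a b : V n) : (a - b) ⬝ᵥ (a - b) ≤ 3 / 2 * (a ⬝ᵥ a) + 3 * (b ⬝ᵥ b) := by
  simp only [dotProduct, mul_sum, ← sum_add_distrib, Pi.sub_apply]
  exact sum_le_sum fun i _ => by nlinarith [sq_nonneg (a i + 2 * b i)]

variable (D : Dat n) (s : St n) (p q : V n)

lemma loc_mv : loc D (s.mv p q) = tilt (loc D s) p := by
  funext σ
  show ising D.J (s.y + p) σ * ell D s σ = _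
  rw [← tilt_ising, tilt, tilt, loc, mul_right_comm]

lemma nu_mv : nu D (s.mv p q) = tilt (nu D s) p := by
  funext σ
  rw [nu, loc_mv, tilt, tilt, nu, mul_right_comm]

lemma del_mv : del (s.mv p q) = del s - (p - q) := by
  show s.y' + q - (s.y + p) = s.y' - s.y - (p - q)
  abel

lemma pi_mv : pi D (s.mv p q) = tilt (pi D s) q := by
  funext σ
  rw [pi, loc_mv, del_mv]
  show loc D s σ * exp (p ⬝ᵥ sv σ) * exp ((del s - (p - q)) ⬝ᵥ sv σ + s.Th σ) =
    loc D s σ * exp (del s ⬝ᵥ sv σ + s.Th σ) * exp (q ⬝ᵥ sv σ)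
  rw [mul_assoc, mul_assoc, ← exp_add, ← exp_add, sub_dotProduct, sub_dotProduct]
  congr 2; ring

lemma pot_mv (c : Cf) (ξ : Cube n → ℝ) : Pot D c ξ (s.mv p q) =
    c.l * (Ar (Ue.rw D.η0 D.θ D.f) (tilt (nu D s) p) (tilt (pi D s) q) +
      (1 - D.θ) / 2 * El (Lw D.η0 D.f) (tilt (nu D s) p) (tilt (loc D s) p)) -
    c.a * kl (tilt (nu D s) p) (tilt (pi D s) q) +
    c.γ * (kl (tilt (nu D s) p) (tilt (ising D.J s.y) p) +
      (del s - (p - q)) ⬝ᵥ (del s - (p - q)) + s.L ^ 2 + mean (tilt (nu D s) p) (U D s) + #s.S +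
      mean (tilt (nu D s) p) (U6 D s)) +
    c.g1 * Cnt (fun i σ => grad s.Th σ i ^ 2) (tilt (nu D s) p) +
    c.g2 * mean (tilt (nu D s) p) (fun σ => s.G σ ^ 2) +
    c.Λ * ((del s - (p - q)) ⬝ᵥ (del s - (p - q))) +
    exp ((D.T0 - log (mean (tilt (ising D.J s.y) p) fun σ => ell D s σ * D.f σ) - c.T) / 2) +
    mean (tilt (nu D s) p) ξ := by
  simp only [Pot, AA, HH, Bd, Hy, Eg, Ex, Dz, nu_mv, pi_mv, loc_mv, del_mv, tilt_ising]
  rfl

end Win62

open Win62 in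
theorem winGlue (hC : CrudeStmt) : WinStmt := by
  intro n D s c τ c1 R F hD hF hτ l0' l1 a0 g0 g1 g2 L0 hc h
  obtain ⟨p1, p2, p3, -⟩ := hC n D s hD
  have hμ : Wt (ising D.J s.y) := Wt.of_pos fun _ => exp_pos _
  have p4 : Pr (nu D s) (ising D.J s.y) := ⟨p1.hv, hμ, fun x hx => absurd hx (exp_pos _).ne'⟩
  have hθ : 0 ≤ (1 - D.θ) / 2 := by linarith [hD.t1, hD.e0]
  have c0 : 0 ≤ c1 := le_trans (by positivity) hc
  refine le_of_forall_pos_le_add fun ε0 hε0 => ?_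
  have hε : 0 < ε0 / (1 + 3 * (c.Λ + c.γ)) := by positivity
  obtain ⟨P, hP⟩ := sync n (Ue.rw D.η0 D.θ D.f) (nu D s) (pi D s) τ _ p1 (Ue.off_rw _ _ _)
    (Ue.rw_mem hD.e0.le (by linarith [hD.e1]) hD.t0 (by linarith [hD.t1, hD.e0]) _) hτ hε
  have := hP.prob
  have hν : nu D s = fun σ => ising D.J s.y σ * (ell D s σ * D.f σ) :=
    funext fun σ => mul_assoc _ _ _
  obtain ⟨m0, m1, iE⟩ := il_inv (hν ▸ hP) hμ (hν ▸ p1.hv) hτ.le
  have k1 : ∀ x : Cube n, LG fun q : P2 n => q.1 ⬝ᵥ sv x := fun x => (LG.dot' _).fst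
  have k2 : ∀ x : Cube n, LG fun q : P2 n => q.2 ⬝ᵥ sv x := fun x => (LG.dot' _).snd
  have mY : XG fun q : P2 n => (q.1 - q.2) ⬝ᵥ (q.1 - q.2) := XG.sum _ fun i _ => by
    have := ((LG.coord i).fst.sub (LG.coord i).snd : LG fun q : P2 n => q.1 i - q.2 i).xg
    exact this.mul this
  have iA : IL P _ _ := ⟨hP.int _ (xg_Ar p1 (Ue.off_rw D.η0 D.θ D.f) k1 k2), hP.A⟩
  have iL : IL P _ _ := Ue.El_win p2 p3 (Ue.off_Lw D.η0 D.f) (fun i x => (Ue.Lw_mem _ _ i x).1)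
    hτ.le hP
  have iH := IL.neg (hP.int _ (xg_kl p1 k1 k2)) hP.H
  have iY : IL P _ _ := ⟨hP.int _ mY, hP.Y⟩
  have iD := IL.neg (hP.int _ (xg_D2 p1.hv p1.hw)) le_rfl
  have d0 : 0 ≤ ∫ p, D2 (nu D s) (pi D s) p ∂P := (dot_self_nonneg _).trans hP.D
  have iC := il_cnt hP p1.hv hτ.le (u := fun i σ => grad s.Th σ i ^ 2)
    (fun i => (off_grad s.Th i).comp (· ^ 2)) fun _ _ => sq_nonneg _
  set E0 := exp ((Dz D s - c.T) / 2) with hE0
  have E1 : 0 < E0 := exp_pos _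
  have key := ((((((((((((iA.add (iL.mul hθ)).mul l0').add (iH.mul a0)).add
    ((il_kl hP p4 hτ.le).mul g0)).add ((il_mean hP p1.hv hτ.le (U D s)).mul g0)).add
    ((il_mean hP p1.hv hτ.le (U6 D s)).mul g0)).add (iC.mul g1)).add
    ((il_mean hP p1.hv hτ.le fun σ => s.G σ ^ 2).mul g2)).add
    (iY.mul (show 0 ≤ 3 * (c.Λ + c.γ) by positivity))).add
    (iE.mul (show 0 ≤ E0 * (mean (ising D.J s.y) fun σ => ell D s σ * D.f σ) / 2 by
      positivity))).add (il_F hP p1.hv hτ.le hF s.y)).add (iD.mul c0)).fin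
    (b := -R - (c.γ * (s.L ^ 2 + #s.S) + 3 / 2 * (c.Λ + c.γ) * (del s ⬝ᵥ del s) + E0 / 2))
    fun p => by
      have a1 := h p.1 p.2
      rw [pot_mv, Del, nu_mv, pi_mv] at a1
      have a2 := mul_le_mul_of_nonneg_left (sq_add (del s) (p.1 - p.2)) (add_nonneg L0 g0)
      have a3 := amgm (m1 p.1) m0 D.T0 c.T
      simp only [D2, tilt_eq] at a1 a3 ⊢
      simp only [hE0, Dz]
      linarith
  set I := ∫ p, D2 (nu D s) (pi D s) p ∂P
  set e := ε0 / (1 + 3 * (c.Λ + c.γ)) with he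
  have b1 : E0 * (mean (ising D.J s.y) fun σ => ell D s σ * D.f σ) / 2 *
      (mean (ising D.J s.y) fun σ => ell D s σ * D.f σ)⁻¹ = E0 / 2 := by field_simp
  have b2 : e + 3 * (c.Λ + c.γ) * e = ε0 := by rw [he]; field_simp
  have b3 := mul_le_mul_of_nonneg_right hc d0
  have b4 := mul_le_mul_of_nonneg_right l1 (show 0 ≤ τ / 2 * I + e by positivity)
  have b5 := mul_nonneg g0 (dot_self_nonneg (del s))
  simp only [Pot, AA, HH, Bd, Hy, Eg, Ex]
  rw [b1] at key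
  linarith

end Crest.Agent.T157.S1

end
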