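import Crest.Agent.T157.S1Act_59
import Crest.Agent.T157.S1BrB_6
import Crest.Agent.T157.S1BrT_68
import Crest.Agent.T157.S1Cr_89
import Crest.Agent.T157.S1Fu_6
import Crest.Agent.T157.S1Lad_61
import Crest.Agent.T157.S1Lf_22
import Crest.Agent.T157.S1PF_84
import Crest.Agent.T157.S1PSc_71
import Crest.Agent.T157.S1Stat_27
import Crest.Agent.T157.S1T62_39
import Crest.Agent.T157.S1Ti_56
import Crest.Agent.T157.S1Tot_44
import Crest.Agent.T157.S1Upd_65
import Crest.Agent.T157.S1W_6
import Crest.Agent.T157.S1Inc_33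
import Crest.Agent.T157.S1Win_62

/-! Row 157, block S1: assembly of the deterministic scheme (helper83). -/

namespace Crest.Agent.T157.S1

theorem leafStmt : LeafStmt := leafGlue b1Stmt tiltStmt (incGlue crudeStmt b1Stmt) t6Stmt2
theorem fuStmt : FuStmt := fuGlue mtStmt
theorem preStmt : PreStmt := preGlue crudeStmt mtStmt fuStmt
theorem updStmt : UpdStmt := updGlue crudeStmt clStmt fuStmt
theorem brTStmt : BrTStmt := brTGlue crudeStmt clStmt fuStmt
theorem brBStmt : BrBStmt := brBGlue crudeStmt clStmt fuStmt
theorem actStmt : ActStmt := actGlue crudeStmt clStmt fuStmt preStmt brTStmt brBStmt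
theorem finStmt : FinStmt := finGlue crudeStmt clStmt fuStmt preStmt
theorem staStmt : StaStmt := staGlue (winGlue crudeStmt) fuStmt
theorem totStmt : TotStmt := totGlue crudeStmt clStmt mtStmt l0Stmt
theorem masterStmt : MasterStmt := masterGlue updStmt actStmt finStmt staStmt totStmt
theorem s1Out : S1Out :=
  statGlue crudeStmt leafStmt nStmt mtStmt masterStmt scalStmt ladStmt capStmt

end Crest.Agent.T157.S1
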