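import Crest.Agent.T157.BrDef_50

/-!
# Row 157, block B, S1: `Br.netStmt` (helper30)

Gibbs variational principle and a union bound.
-/

set_option autoImplicit false

noncomputable section

namespace Crest.Agent.T157.Br

open Real
open Crest.Agent.T157.E Crest.Agent.T157.SL Crest.Agent.T157.Ta

namespace Net30

variable {Ω : Type*} [Fintype Ω]

theorem kl_self (v : Ω → ℝ) : kl v v = 0 :=
  Finset.sum_eq_zero fun x _ => by
    by_cases h : prob v x = 0
    · simp [h]
    · rw [div_self h, log_one, mul_zero]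

/-- a bound for all laws is a bound on the exponential moment -/
theorem mgf_of {μ X : Ω → ℝ} {e b : ℝ} (hμ : ∀ x, 0 < μ x) (hw : Wt μ) (he : 0 < e)
    (h : ∀ v, Wt v → mean v X ≤ e * kl v μ + b) :
    mean μ (fun x => exp (X x / e)) ≤ exp (b / e) := by
  have hP : Pr (wt μ fun x => X x / e) μ := ⟨wt_wt hw _, hw, fun x e => absurd e (hμ x).ne'⟩
  have h1 := kl_wt hP fun x => X x / e
  rw [kl_self, mean_div_const] at h1
  have h2 := h _ hP.hv
  have h3 : mean (wt μ fun x => X x / e) X / e ≤ kl (wt μ fun x => X x / e) μ + b / e := by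
    rw [div_le_iff₀ he, add_mul, div_mul_cancel₀ _ he.ne']; linarith
  rw [← log_le_iff_le_exp (mean_pos' hw fun x => exp_pos _)]
  linarith

/-- and conversely -/
theorem of_mgf {μ v X : Ω → ℝ} {e c : ℝ} (hμ : ∀ x, 0 < μ x) (hw : Wt μ) (he : 0 < e) (hv : Wt v)
    (h : log (mean μ fun x => exp (X x / e)) ≤ c) : mean v X ≤ e * (kl v μ + c) := by
  have hP : Pr v μ := ⟨hv, hw, fun x e => absurd e (hμ x).ne'⟩
  have h1 := mean_le_kl hP fun x => X x / e
  rw [mean_div_const, div_le_iff₀ he] at h1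
  nlinarith

end Net30

open Net30 in
theorem netStmt : NetStmt := by
  intro Ω A _ μ N X e b hμ he h v a hv ha
  obtain ⟨x0, -⟩ := hv.exists_pos
  have : Nonempty Ω := ⟨x0⟩
  have hw : Wt μ := .of_pos hμ
  have hN : (0 : ℝ) < N.card := by exact_mod_cast Finset.card_pos.2 ⟨_, ha x0⟩
  have h1 : mean μ (fun x => exp (X (a x) x / e)) ≤ N.card * exp (b / e) := by
    calc _ ≤ mean μ (fun x => ∑ c ∈ N, exp (X c x / e)) := hw.mean_mono fun x =>
          Finset.single_le_sum (f := fun c => exp (X c x / e)) (fun c _ => (exp_pos _).le) (ha x)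
      _ = ∑ c ∈ N, mean μ fun x => exp (X c x / e) := mean_sum _ _ _
      _ ≤ ∑ _c ∈ N, exp (b / e) := Finset.sum_le_sum fun c hc => mgf_of hμ hw he (h c hc)
      _ = _ := by rw [Finset.sum_const, nsmul_eq_mul]
  have h2 : log (mean μ fun x => exp (X (a x) x / e)) ≤ log N.card + b / e := by
    have := log_le_log (mean_pos' hw fun x => exp_pos (X (a x) x / e)) h1
    rwa [log_mul hN.ne' (exp_pos _).ne', log_exp] at this
  have h3 := of_mgf hμ hw he hv h2
  have h4 : e * (b / e) = b := by field_simp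
  nlinarith

end Crest.Agent.T157.Br
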