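import Crest.Agent.T157.OkDef_35
import Crest.Agent.T157.BrNet_30
import Crest.Agent.T157.NrmS_84

/-!
# Row 157, block B, S1 (helper45): the targets of the flows
-/

set_option autoImplicit false

noncomputable section

namespace Crest.Agent.T157.Br

open Real Matrix Function Finset
open Crest.Agent.T157.E Crest.Agent.T157.SL Crest.Agent.T157.Ta
open Crest.Agent.T157.Rec (grad)
open Crest.Agent.T157.Eig
open Crest.Agent.T157.Xt (H1 Lip2)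
open Crest.Agent.T157.S3 (Mx tau Dg Rg)

namespace Eq45

variable {n : ℕ} {κ : Type} [Fintype κ]

theorem ex_eq (ι : κ → Fin n) (c : κ → ℝ) : ex ι c = ∑ k, c k • Pi.single (ι k) (1 : ℝ) := by
  ext i
  simp only [ex, XM, mulVec, dotProduct, Finset.sum_apply, Pi.smul_apply, Pi.single_apply,
    smul_eq_mul, eq_comm (a := i)]
  exact sum_congr rfl fun k _ => by split_ifs <;> simp

theorem ex_dot (ι : κ → Fin n) (c : κ → ℝ) (u : Fin n → ℝ) :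
    ex ι c ⬝ᵥ u = ∑ k, c k * u (ι k) := by
  rw [ex_eq, sum_dotProduct]
  exact sum_congr rfl fun k _ => by rw [smul_dotProduct, single_one_dotProduct, smul_eq_mul]

theorem ex_at {ι : κ → Fin n} (hι : Injective ι) (c : κ → ℝ) (k : κ) : ex ι c (ι k) = c k := by
  classical
  simp only [ex, XM, mulVec, dotProduct, hι.eq_iff]
  simp

theorem ex_off {ι : κ → Fin n} (c : κ → ℝ) {j : Fin n} (h : ∀ k, ι k ≠ j) : ex ι c j = 0 := by
  simp [ex, XM, mulVec, dotProduct, h]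

theorem sq_ex {ι : κ → Fin n} (hι : Injective ι) (c : κ → ℝ) : sq (ex ι c) = c ⬝ᵥ c := by
  rw [sq, ex_dot]
  exact sum_congr rfl fun k _ => by rw [ex_at hι]

theorem mk_dot (C : Finset (Fin n)) (u v : Fin n → ℝ) : mk C u ⬝ᵥ v = u ⬝ᵥ mk C v :=
  sum_congr rfl fun j _ => by simp only [mk]; split_ifs <;> simp

theorem mk_split (C : Finset (Fin n)) (u v : Fin n → ℝ) :
    mk C u ⬝ᵥ v = u ⬝ᵥ v - mk Cᶜ u ⬝ᵥ v := by
  simp only [dotProduct, ← sum_sub_distrib]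
  exact sum_congr rfl fun j _ => by simp only [mk, mem_compl]; split_ifs <;> simp

theorem mk_mk (U : Finset (Fin n)) (u v : Fin n → ℝ) : mk U u ⬝ᵥ v = mk U u ⬝ᵥ mk U v :=
  sum_congr rfl fun j _ => by simp only [mk]; split_ifs <;> simp

theorem mk_sq (U : Finset (Fin n)) (u : Fin n → ℝ) : mk U u ⬝ᵥ mk U u = ∑ j ∈ U, u j ^ 2 := by
  rw [← univ_inter U, ← sum_ite_mem, univ_inter]
  exact sum_congr rfl fun j _ => by simp only [mk]; split_ifs <;> simp [pow_two]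

theorem nrm_mk_le (U : Finset (Fin n)) (u : Fin n → ℝ) : nrm (mk U u) ≤ nrm u := by
  rw [nrm_le_iff (nrm_nonneg _), nrm_sq, mk_sq]
  exact (sum_le_sum_of_subset_of_nonneg (subset_univ U) fun _ _ _ => sq_nonneg _).trans_eq
    (sum_congr rfl fun j _ => pow_two _)

theorem nrm_mk_sup {U : Finset (Fin n)} {u : Fin n → ℝ} {b ρ : ℝ} (hb : 0 ≤ b) (h0 : 0 ≤ ρ)
    (h : ∀ j, |u j| ≤ b) (hU : (U.card : ℝ) ≤ ρ ^ 2) : nrm (mk U u) ≤ b * ρ := by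
  rw [nrm_le_iff (by positivity), mk_sq]
  calc _ ≤ ∑ _j ∈ U, b ^ 2 := sum_le_sum fun j _ => by
        rw [← sq_abs]; exact pow_le_pow_left₀ (abs_nonneg _) (h j) 2
    _ = U.card * b ^ 2 := by rw [sum_const, nsmul_eq_mul]
    _ ≤ ρ ^ 2 * b ^ 2 := by gcongr
    _ = _ := by ring

theorem abs_sv (x : Cube n) (i : Fin n) : |sv x i| ≤ 1 := by
  have := Rec.sv_mul_self x i
  rw [← pow_two, ← sq_abs] at this
  nlinarith [abs_nonneg (sv x i)]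

theorem abs_tau (J : Mx n) (y : Fin n → ℝ) (x : Cube n) (i : Fin n) : |tau J y x i| ≤ 2 := by
  have h1 := abs_sv x i
  have h2 := (abs_tanh_lt_one (S3.hf J y x i)).le
  exact (abs_sub _ _).trans (by linarith)

theorem dot_dv (J : Mx n) (y : Fin n → ℝ) (C : Finset (Fin n)) (ι : κ → Fin n) (T : Cube n → Mx n)
    (Wm : Mx n) (c : κ → ℝ) (x : Cube n) :
    c ⬝ᵥ dv J y (Vm C ι T Wm) x = mk C ((T x)ᵀ *ᵥ Wm *ᵥ ex ι c) ⬝ᵥ tau J y x := by
  rw [mk_dot, ex_eq, mulVec_sum, mulVec_sum, sum_dotProduct]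
  exact sum_congr rfl fun k _ => by
    rw [mulVec_smul, mulVec_smul, smul_dotProduct, smul_eq_mul, ← mk_dot]; rfl

theorem dot_φ (ι : κ → Fin n) (ψ : Cube n → Fin n → ℝ) (Wm : Mx n) (c : κ → ℝ) (x : Cube n) :
    c ⬝ᵥ φm ι ψ Wm x = (Wm *ᵥ ex ι c) ⬝ᵥ ψ x := by
  rw [ex_eq, mulVec_sum, sum_dotProduct]
  exact sum_congr rfl fun k _ => by rw [mulVec_smul, smul_dotProduct, smul_eq_mul]; rfl

theorem dot_h {J : Mx n} (hJ : Jᵀ = J) (C : Finset (Fin n)) (ι : κ → Fin n) (c : κ → ℝ)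
    (x : Cube n) : c ⬝ᵥ hG (rw J C ι) x = mk C (J *ᵥ ex ι c) ⬝ᵥ sv x := by
  rw [mk_dot, ← hJ, mulVec_transpose, ← dotProduct_mulVec, ex_dot, hJ]
  refine sum_congr rfl fun k _ => ?_
  congr 1
  simp only [hG, mulVec, dotProduct, rw, mk]
  exact sum_congr rfl fun j _ => by split_ifs <;> simp

theorem G_sq {w v G : Cube n → ℝ} {K δ ρ : ℝ} (hw : ∀ x, 0 < w x) (hK : 1 ≤ K) (h2 : H2 w K)
    (G0 : ∀ x, 0 ≤ G x) (hL : Lip2 δ G) (hm : mean w (fun σ => G σ ^ 2) ≤ δ ^ 2 * ρ ^ 2)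
    (hρ : 1 ≤ ρ ^ 2) (hv : Wt v) :
    mean v (fun x => G x ^ 2) ≤ 3 * K * δ ^ 2 * (ρ ^ 2 + kl v w) := by
  have hw' : Wt w := .of_pos hw
  have k0 : 0 ≤ kl v w := Pr.kl_nonneg ⟨hv, hw', fun x e => absurd e (hw x).ne'⟩
  have a1 := h2 G (δ ^ 2) G0 hL.vp v hv
  have a2 : mean w G ^ 2 ≤ mean w fun σ => G σ ^ 2 := by
    have := hw'.isP.mean_sq_le G
    simp only [Chain22.ip, ← pow_two] at this
    exact this
  have a3 : 1 * (δ ^ 2 * ρ ^ 2) ≤ K * (δ ^ 2 * ρ ^ 2) := by gcongr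
  have a4 : K * δ ^ 2 * 1 ≤ K * δ ^ 2 * ρ ^ 2 := by gcongr
  have a5 : 0 ≤ K * δ ^ 2 * kl v w := by positivity
  nlinarith

variable [DecidableEq κ]

theorem fixed {D : Dat n κ} (g : D.Geo) {a x Ce CV K δ es : ℝ} {ψ : Cube n → Fin n → ℝ}
    {T : Cube n → Mx n} {Wm : Mx n} (hb : Hb D.J D.y K)
    (fm : Fm D.J D.y D.ι a x Ce CV δ es D.B0 D.R ψ T Wm) (d0 : 0 < δ) (b1 : 1 ≤ D.B0)
    (bU : (D.Cᶜ.card : ℝ) ≤ D.B0) (hε : 3 * K * δ ≤ D.ε) (hs : D.ς ≤ D.ε) {ka : κ → ℝ}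
    (hk : ka = meanV D.μ (fun z => a • φm D.ι ψ Wm z + (D.h z - x • D.s z) -
      dv D.J D.y (Vm D.C D.ι T Wm) z)) {ρ : ℝ} {c : κ → ℝ} (r0 : 0 ≤ ρ) (r1 : D.B0 ≤ ρ ^ 2)
    (r2 : ρ ^ 2 ≤ 2 * D.R) (hc : nrm c ≤ ρ) {v : Cube n → ℝ} (hv : Wt v) :
    mean v (fun z => c ⬝ᵥ (dv D.J D.y (Vm D.C D.ι T Wm) z -
      (a • φm D.ι ψ Wm z + (D.h z - x • D.s z - ka)))) ≤ (es + 9 * D.ε) * (ρ ^ 2 + kl v D.μ) := by
  have hμ : ∀ z, 0 < D.μ z := fun z => exp_pos _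
  have wμ : Wt D.μ := .of_pos hμ
  have hK := hb.1
  have e1 : δ ≤ D.ε := by nlinarith
  have e0 : 0 < D.ε := d0.trans_le e1
  have hU := bU.trans r1
  have dir := fm.dir ρ c r0 r1 r2 hc
  obtain ⟨Ω, Ω', G, rg, -, lG, mG, pt, -⟩ := dir.ver
  have q := dir.eq v hv _ rfl
  obtain ⟨W, hW⟩ : ∃ W : Cube n → Fin n → ℝ, W = fun σ => (T σ)ᵀ *ᵥ Wm *ᵥ ex D.ι c := ⟨_, rfl⟩
  have hW' : ∀ σ, (T σ)ᵀ *ᵥ Wm *ᵥ ex D.ι c = W σ := fun σ => by rw [hW]
  simp only [hW'] at q pt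
  obtain ⟨R, hR⟩ : ∃ R : Cube n → ℝ, R = fun σ => W σ ⬝ᵥ tau D.J D.y σ -
    a * (Wm *ᵥ ex D.ι c) ⬝ᵥ ψ σ - (D.J *ᵥ ex D.ι c - x • ex D.ι c) ⬝ᵥ sv σ := ⟨_, rfl⟩
  rw [← hR] at q
  obtain ⟨A, hA⟩ : ∃ A : Cube n → ℝ, A = fun σ => mk D.Cᶜ (D.J *ᵥ ex D.ι c) ⬝ᵥ sv σ -
    mk D.Cᶜ (W σ) ⬝ᵥ tau D.J D.y σ := ⟨_, rfl⟩
  have key : ∀ z, c ⬝ᵥ (a • φm D.ι ψ Wm z + (D.h z - x • D.s z) -
      dv D.J D.y (Vm D.C D.ι T Wm) z) = -(R z + A z) := fun z => by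
    have s1 : c ⬝ᵥ D.s z = ex D.ι c ⬝ᵥ sv z := (ex_dot _ _ _).symm
    simp only [dotProduct_sub, dotProduct_add, dotProduct_smul, smul_eq_mul, dot_dv, dot_φ, hW',
      Dat.h, dot_h g.symm, s1, mk_split D.C, hR, hA, sub_dotProduct, smul_dotProduct]
    ring
  have k1 : c ⬝ᵥ ka = -(mean D.μ R + mean D.μ A) := by
    rw [hk, meanV_dot]; simp only [key]; rw [mean_neg, mean_add]
  have k2 : ∀ z, c ⬝ᵥ (dv D.J D.y (Vm D.C D.ι T Wm) z -
      (a • φm D.ι ψ Wm z + (D.h z - x • D.s z - ka))) = R z + A z + c ⬝ᵥ ka := fun z => by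
    have := key z
    simp only [dotProduct_sub, dotProduct_add] at this ⊢
    linarith
  have j1 : nrm (mk D.Cᶜ (D.J *ᵥ ex D.ι c)) ≤ D.ε * ρ := by
    rw [nrm_le_iff (by positivity), mk_sq]
    refine (g.blk _ fun j hj => ex_off c fun k e => g.off k (by rw [e]; exact hj)).trans ?_
    rw [sq_ex g.inj, mul_pow, ← nrm_sq]
    have := g.s0
    have := nrm_nonneg c
    gcongr
  have pA : ∀ z, |A z| ≤ 4 * D.ε * ρ ^ 2 + 1 / D.ε * G z ^ 2 := fun z => by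
    have t1 := nrm_mk_sup zero_le_two r0 (abs_tau D.J D.y z) hU
    have t2 := nrm_mk_sup zero_le_one r0 (abs_sv z) hU
    have t3 : nrm (mk D.Cᶜ (W z)) ≤ G z + D.ε * ρ := by
      have e : mk D.Cᶜ (W z) = mk D.Cᶜ (W z - Ω z) + mk D.Cᶜ (Ω z) := by
        ext j; simp only [mk, Pi.add_apply, Pi.sub_apply]; split_ifs <;> simp
      rw [e]
      exact (nrm_add_le _ _).trans (add_le_add ((nrm_mk_le _ _).trans (pt z).1)
        (nrm_mk_sup e0.le r0 (fun j => ((norm_le_pi_norm (Ω z) j).trans (rg z).1).trans e1) hU))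
    have t4 : |mk D.Cᶜ (D.J *ᵥ ex D.ι c) ⬝ᵥ sv z| ≤ D.ε * ρ * (1 * ρ) := by
      rw [mk_mk]
      exact (abs_dot_le _ _).trans (mul_le_mul j1 t2 (nrm_nonneg _) (by positivity))
    have t5 : |mk D.Cᶜ (W z) ⬝ᵥ tau D.J D.y z| ≤ (G z + D.ε * ρ) * (2 * ρ) := by
      rw [mk_mk]
      exact (abs_dot_le _ _).trans (mul_le_mul t3 t1 (nrm_nonneg _) ((nrm_nonneg _).trans t3))
    have t6 : 2 * ρ * G z ≤ D.ε * ρ ^ 2 + 1 / D.ε * G z ^ 2 := by
      have : D.ε * ρ ^ 2 + 1 / D.ε * G z ^ 2 - 2 * ρ * G z = (D.ε * ρ - G z) ^ 2 / D.ε := by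
        field_simp; ring
      have h2 : 0 ≤ (D.ε * ρ - G z) ^ 2 / D.ε := by positivity
      linarith
    rw [hA]
    refine (abs_sub _ _).trans ?_
    nlinarith
  have mA : ∀ u, Wt u → mean u (fun z => |A z|) ≤ 4 * D.ε * ρ ^ 2 + D.ε * (ρ ^ 2 + kl u D.μ) / 3 :=
    fun u hu => by
      have k0 : 0 ≤ kl u D.μ := Pr.kl_nonneg ⟨hu, wμ, fun x e => absurd e (hμ x).ne'⟩
      have h1 := G_sq hμ hK hb.2.2.1 (fun z => (nrm_nonneg _).trans (pt z).1) lG mG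
        (b1.trans r1) hu
      refine (hu.mean_mono pA).trans ?_
      rw [mean_add, hu.mean_const, mean_const_mul]
      refine add_le_add le_rfl ?_
      rw [one_div_mul_eq_div, div_le_iff₀ e0]
      refine h1.trans ?_
      have h3 : 3 * δ ≤ D.ε := by nlinarith
      have h4 : 3 * K * δ * (3 * δ) ≤ D.ε * D.ε := by gcongr
      have h5 : 0 ≤ ρ ^ 2 + kl u D.μ := by positivity
      nlinarith [mul_le_mul_of_nonneg_right h4 h5]
  have k0 : 0 ≤ kl v D.μ := Pr.kl_nonneg ⟨hv, wμ, fun x e => absurd e (hμ x).ne'⟩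
  have m1 := (hv.mean_mono fun z => le_abs_self (A z)).trans (mA v hv)
  have m2 := (wμ.mean_mono fun z => neg_le_abs (A z)).trans (mA _ wμ)
  rw [mean_neg, Net30.kl_self] at m2
  simp only [k2]
  rw [mean_add, mean_add, hv.mean_const, k1]
  have m3 := (abs_le.1 q).2
  have m4 : 0 ≤ D.ε * kl v D.μ := by positivity
  have m5 : 0 ≤ D.ε * ρ ^ 2 := by positivity
  change mean v R - mean D.μ R ≤ es * (ρ ^ 2 + kl v D.μ) at m3
  change mean v A ≤ _ at m1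
  change -mean D.μ A ≤ _ at m2
  nlinarith

omit [DecidableEq κ] in
theorem card_le {D : Dat n κ} (g : D.Geo) : Fintype.card κ ≤ D.Cᶜ.card := by
  rw [← card_univ]
  exact card_le_card_of_injOn D.ι (fun k _ => by simpa using g.off k) g.inj.injOn

theorem net {μ v : Cube n → ℝ} (hμ : ∀ x, 0 < μ x) {Y : Cube n → κ → ℝ} {e ρ : ℝ} (he : 0 < e)
    (r0 : 0 ≤ ρ) (hκ : (Fintype.card κ : ℝ) ≤ ρ ^ 2)
    (h : ∀ c, nrm c ≤ ρ → ∀ u, Wt u → mean u (fun z => c ⬝ᵥ Y z) ≤ e * (ρ ^ 2 + kl u μ))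
    {f : Cube n → κ → ℝ} (hf : Bd ρ f) (hv : Wt v) :
    mean v (fun z => f z ⬝ᵥ Y z) ≤ 6 * e * (ρ ^ 2 + kl v μ) := by
  obtain ⟨N, N1, N2, N3⟩ := Nrm.exists_half_net κ
  obtain ⟨c0, hc0, -⟩ := N3 0 (by simp)
  choose a ha1 ha2 using fun z => exists_max_image N (fun c => c ⬝ᵥ Y z) ⟨c0, hc0⟩
  have h1 := netStmt (Cube n) (κ → ℝ) μ N (fun c z => (ρ • c) ⬝ᵥ Y z) e (e * ρ ^ 2) hμ he
    (fun c hc u hu => (h (ρ • c) (by
      rw [nrm_smul, abs_of_nonneg r0]; exact mul_le_of_le_one_right r0 (N2 c hc)) u hu).trans_eq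
        (by ring)) v a hv ha1
  have h2 : log (N.card : ℝ) ≤ 2 * ρ ^ 2 := by
    have p : (0 : ℝ) < N.card := by exact_mod_cast card_pos.2 ⟨c0, hc0⟩
    have l5 : log 5 ≤ 2 := by
      rw [log_le_iff_le_exp (by norm_num)]
      have := Real.quadratic_le_exp_of_nonneg (zero_le_two (α := ℝ))
      linarith
    calc _ ≤ log (5 ^ Fintype.card κ) := log_le_log p (by exact_mod_cast N1)
      _ = Fintype.card κ * log 5 := log_pow _ _
      _ ≤ ρ ^ 2 * 2 := mul_le_mul hκ l5 (log_nonneg (by norm_num)) (by positivity)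
      _ = _ := by ring
  have h3 : mean v (fun z => f z ⬝ᵥ Y z) ≤ mean v fun z => 2 * ((ρ • a z) ⬝ᵥ Y z) :=
    hv.mean_mono fun z => by
      have b1 := Nrm.nrm_le_of_net N3 (ha2 z)
      have b2 : nrm (f z) ≤ ρ := (nrm_le_iff r0).2 (hf z)
      refine ((le_abs_self _).trans (abs_dot_le _ _)).trans ?_
      rw [smul_dotProduct, smul_eq_mul]
      calc _ ≤ ρ * (2 * (a z ⬝ᵥ Y z)) := mul_le_mul b2 b1 (nrm_nonneg _) r0
        _ = _ := by ring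
  have k0 : 0 ≤ kl v μ := Pr.kl_nonneg ⟨hv, .of_pos hμ, fun x e => absurd e (hμ x).ne'⟩
  rw [mean_const_mul] at h3
  have h4 := mul_le_mul_of_nonneg_left h2 he.le
  have h5 : 0 ≤ e * kl v μ := by positivity
  nlinarith

end Eq45

open Eq45 in
theorem eqStmt : EqStmt := by
  intro n κ _ _ D Ce CV K δ es ψ ψ0 T T0 Wm W0 t hka hk0
  have hK := t.hb.1
  have d0 := t.d0
  have cv := t.cv
  have b1 := t.b1
  have h1 : 3 * K * δ ≤ D.ε := by
    refine le_trans ?_ t.hε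
    have : K * δ * 1 ≤ K * δ * CV := by gcongr
    have : 0 ≤ K * δ := by positivity
    nlinarith
  have e0 : 0 < D.ε := lt_of_lt_of_le (by positivity) h1
  have hμ : ∀ z, 0 < D.μ z := fun z => exp_pos _
  have k0 : ∀ v, Wt v → 0 ≤ kl v D.μ := fun v hv =>
    Pr.kl_nonneg ⟨hv, .of_pos hμ, fun x e => absurd e (hμ x).ne'⟩
  have ε1 := t.ε1
  have he := t.he
  refine ⟨fun c hc v hv => ?_, fun ρ hρ f hf v hv => ?_⟩
  · have c0 : 0 ≤ sq c := Eig.dot_self_nonneg c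
    have e : √(D.B0 + sq c) ^ 2 = D.B0 + sq c := sq_sqrt (by linarith)
    have := fixed t.toGeo t.hb t.fa d0 b1 t.bU h1 t.hs (ka := D.ka) (by rw [hka, t.hV, t.hφ])
      (ρ := √(D.B0 + sq c)) (c := c) (sqrt_nonneg _) (by linarith) (by linarith [t.bR])
      (sqrt_le_sqrt (le_add_of_nonneg_left (by linarith))) hv
    rw [e, ← t.hV, ← t.hφ] at this
    refine this.trans (mul_le_mul_of_nonneg_right (by linarith) ?_)
    linarith [k0 v hv]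
  · have := net (e := max es 0 + 9 * D.ε) (Y := fun x =>
      dv D.J D.y D.V0 x - (D.h x - D.b0 • D.s x - D.k0)) hμ (by positivity) hρ.1
      ((Nat.cast_le.2 (card_le t.toGeo)).trans (t.bU.trans hρ.2.1)) (fun c hc u hu => by
        have := fixed t.toGeo t.hb t.f0 d0 b1 t.bU h1 t.hs (ka := D.k0)
          (by simp only [hk0, t.hV0, zero_smul, zero_add]) hρ.1 hρ.2.1
          (by linarith [hρ.2.2, t.bR]) hc hu
        simp only [zero_smul, zero_add, ← t.hV0] at this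
        refine this.trans (mul_le_mul_of_nonneg_right (by linarith [le_max_left es 0]) ?_)
        have := k0 u hu
        positivity) hf hv
    refine this.trans (mul_le_mul_of_nonneg_right ?_ ?_)
    · have : max es 0 ≤ D.e / 100 := max_le (by linarith) (by linarith)
      linarith
    · have := k0 v hv
      positivity

end Crest.Agent.T157.Br

end
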