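import Crest.Agent.T157.S3Ja_82

/-!
# Row 157, block S3 (helper82): Taylor bounds, the trapezoid chain rule
-/

set_option autoImplicit false
set_option linter.unusedSectionVars false

noncomputable section

namespace Crest.Agent.T157.S3F

open Matrix Function Finset Set
open Crest.Agent.T157.E (Cube sv)
open Crest.Agent.T157.Eig
open Crest.Agent.T157.Rec (grad grad_update)

variable {n : ℕ} {σ : Type*} [Fintype σ]

lemma Tay.hasDerivAt {L : ℝ} {g : (σ → ℝ) → ℝ} {g' : (σ → ℝ) → σ → ℝ} (hT : Tay L g g')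
    (a h : σ → ℝ) (t : ℝ) : HasDerivAt (fun t : ℝ => g (a + t • h)) (g' (a + t • h) ⬝ᵥ h) t := by
  rw [hasDerivAt_iff_isLittleO_nhds_zero]
  refine Asymptotics.IsBigO.trans_isLittleO (g := fun u : ℝ => u ^ 2) ?_
    (Asymptotics.isLittleO_pow_id (by norm_num))
  refine Asymptotics.IsBigO.of_bound (L * ∑ m, h m ^ 2) (Filter.Eventually.of_forall fun u => ?_)
  have := hT (a + t • h) (u • h)
  rw [add_assoc, ← add_smul, dotProduct_smul] at this
  simp only [Pi.smul_apply, smul_eq_mul, mul_pow, ← mul_sum] at this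
  rw [Real.norm_eq_abs, Real.norm_eq_abs, abs_of_nonneg (sq_nonneg u), smul_eq_mul]
  linarith

/-- a derivative along lines and a Lipschitz gradient give the Taylor bound -/
lemma tay_of_lip {L : ℝ} {g : (σ → ℝ) → ℝ} {g' : (σ → ℝ) → σ → ℝ} (hL : 0 ≤ L)
    (hd : ∀ (a h : σ → ℝ) (t : ℝ),
      HasDerivAt (fun t : ℝ => g (a + t • h)) (g' (a + t • h) ⬝ᵥ h) t)
    (hl : ∀ a h m, |g' (a + h) m - g' a m| ≤ L * ∑ p, |h p|) :
    Tay (L * Fintype.card σ) g g' := fun a h => by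
  have h1 : ∀ t ∈ Icc (0 : ℝ) 1, HasDerivWithinAt (fun t : ℝ => g (a + t • h) - t * (g' a ⬝ᵥ h))
      (g' (a + t • h) ⬝ᵥ h - g' a ⬝ᵥ h) (Icc 0 1) t := fun t _ =>
    ((hd a h t).sub (by simpa using (hasDerivAt_id t).mul_const (g' a ⬝ᵥ h))).hasDerivWithinAt
  have h2 : ∀ t ∈ Ico (0 : ℝ) 1, ‖g' (a + t • h) ⬝ᵥ h - g' a ⬝ᵥ h‖ ≤
      L * Fintype.card σ * ∑ m, h m ^ 2 := fun t ht => by
    rw [Real.norm_eq_abs, ← sub_dotProduct]
    have e1 : ∑ p, |(t • h) p| ≤ ∑ p, |h p| := sum_le_sum fun p _ => by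
      rw [Pi.smul_apply, smul_eq_mul, abs_mul, abs_of_nonneg ht.1]
      exact mul_le_of_le_one_left (abs_nonneg _) ht.2.le
    have e2 : |(g' (a + t • h) - g' a) ⬝ᵥ h| ≤ ∑ m, L * (∑ p, |h p|) * |h m| :=
      (abs_sum_le_sum_abs _ _).trans (sum_le_sum fun m _ => by
        rw [abs_mul]
        exact mul_le_mul_of_nonneg_right ((hl a (t • h) m).trans
          (mul_le_mul_of_nonneg_left e1 hL)) (abs_nonneg _))
    have e3 := sq_sum_le_card_mul_sum_sq (s := Finset.univ) (f := fun p => |h p|)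
    simp only [sq_abs, card_univ] at e3
    rw [← mul_sum, mul_assoc, ← sq] at e2
    rw [mul_assoc]
    exact e2.trans (mul_le_mul_of_nonneg_left e3 hL)
  have := norm_image_sub_le_of_norm_deriv_le_segment_01' h1 h2
  simpa [sub_right_comm, Real.norm_eq_abs] using this

/-- a bounded gradient gives a Lipschitz bound -/
lemma lip_of_bd {C : ℝ} {g : (σ → ℝ) → ℝ} {g' : (σ → ℝ) → σ → ℝ}
    (hd : ∀ (a h : σ → ℝ) (t : ℝ),
      HasDerivAt (fun t : ℝ => g (a + t • h)) (g' (a + t • h) ⬝ᵥ h) t)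
    (hb : ∀ a m, |g' a m| ≤ C) (a h : σ → ℝ) : |g (a + h) - g a| ≤ C * ∑ p, |h p| := by
  have h2 : ∀ t ∈ Ico (0 : ℝ) 1, ‖g' (a + t • h) ⬝ᵥ h‖ ≤ C * ∑ p, |h p| := fun t _ => by
    rw [Real.norm_eq_abs, mul_sum]
    exact (abs_sum_le_sum_abs _ _).trans (sum_le_sum fun m _ => by
      rw [abs_mul]; exact mul_le_mul_of_nonneg_right (hb _ m) (abs_nonneg _))
  have := norm_image_sub_le_of_norm_deriv_le_segment_01'
    (fun t _ => (hd a h t).hasDerivWithinAt (s := Icc 0 1)) h2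
  simpa [Real.norm_eq_abs] using this

lemma line_of_fderiv [DecidableEq σ] {g : (σ → ℝ) → ℝ} (hg : Differentiable ℝ g) (a h : σ → ℝ)
    (t : ℝ) : HasDerivAt (fun t : ℝ => g (a + t • h))
      ((fun m => fderiv ℝ g (a + t • h) (Pi.single m 1)) ⬝ᵥ h) t := by
  have h1 : HasDerivAt (fun t : ℝ => a + t • h) h t := by
    simpa using ((hasDerivAt_id t).smul_const h).const_add a
  have h2 := (hg (a + t • h)).hasFDerivAt.comp_hasDerivAt t h1
  have e : ∀ T : (σ → ℝ) →L[ℝ] ℝ, (fun m => T (Pi.single m 1)) ⬝ᵥ h = T h := fun T => by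
    conv_rhs => rw [pi_eq_sum_univ' h]
    rw [map_sum, dotProduct]
    exact sum_congr rfl fun m _ => by rw [map_smul, smul_eq_mul, mul_comm]
  rw [e]
  exact h2

/-- trapezoid rule -/
lemma trap {L L' : ℝ} {g : (σ → ℝ) → ℝ} {g' : (σ → ℝ) → σ → ℝ} {g'' : σ → (σ → ℝ) → σ → ℝ}
    (hL : 0 ≤ L') (hT : Tay L g g') (hT' : ∀ m, Tay L' (fun a => g' a m) (g'' m)) (a h : σ → ℝ) :
    |g (a + h) - g (a - h) - (g' (a + h) + g' (a - h)) ⬝ᵥ h| ≤
      4 * L' * ((∑ m, h m ^ 2) * ∑ m, |h m|) := by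
  set B := 2 * L' * ((∑ m, h m ^ 2) * ∑ m, |h m|) with hB
  have h0 : ∀ t ∈ Icc (0 : ℝ) 1, |g' (a + t • h) ⬝ᵥ h + g' (a + t • -h) ⬝ᵥ h - 2 * (g' a ⬝ᵥ h)| ≤ B :=
    fun t ht => by
    have e : g' (a + t • h) ⬝ᵥ h + g' (a + t • -h) ⬝ᵥ h - 2 * (g' a ⬝ᵥ h) =
        ∑ m, (g' (a + t • h) m + g' (a + t • -h) m - 2 * g' a m) * h m := by
      simp only [dotProduct, mul_sum, ← sum_add_distrib, ← sum_sub_distrib]
      exact sum_congr rfl fun m _ => by ring
    rw [e, hB, ← mul_assoc, mul_sum]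
    refine (abs_sum_le_sum_abs _ _).trans (sum_le_sum fun m _ => ?_)
    rw [abs_mul]
    refine mul_le_mul_of_nonneg_right ?_ (abs_nonneg _)
    have e1 := abs_le.1 (hT' m a (t • h))
    have e2 := abs_le.1 (hT' m a (t • -h))
    have e3 : g'' m a ⬝ᵥ t • -h = -(g'' m a ⬝ᵥ t • h) := by rw [smul_neg, dotProduct_neg]
    have e4 : ∑ p, (t • h) p ^ 2 ≤ ∑ p, h p ^ 2 := sum_le_sum fun p _ => by
      rw [Pi.smul_apply, smul_eq_mul, mul_pow]
      exact mul_le_of_le_one_left (sq_nonneg _) (pow_le_one₀ ht.1 ht.2)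
    have e5 : ∑ p, (t • -h) p ^ 2 = ∑ p, (t • h) p ^ 2 := sum_congr rfl fun p _ => by
      simp
    have e6 := mul_le_mul_of_nonneg_left e4 hL
    rw [e3, e5] at e2
    rw [abs_le]; constructor <;> linarith [e1.1, e1.2, e2.1, e2.2]
  have h1 : ∀ t ∈ Icc (0 : ℝ) 1, HasDerivWithinAt
      (fun t : ℝ => g (a + t • h) - g (a + t • -h) - t * (2 * (g' a ⬝ᵥ h)))
      (g' (a + t • h) ⬝ᵥ h + g' (a + t • -h) ⬝ᵥ h - 2 * (g' a ⬝ᵥ h)) (Icc 0 1) t := fun t _ => by
    have d1 := hT.hasDerivAt a h t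
    have d2 := hT.hasDerivAt a (-h) t
    have d3 : HasDerivAt (fun t : ℝ => t * (2 * (g' a ⬝ᵥ h))) (2 * (g' a ⬝ᵥ h)) t := by
      simpa using (hasDerivAt_id t).mul_const (2 * (g' a ⬝ᵥ h))
    refine (((d1.sub d2).sub d3).congr_deriv ?_).hasDerivWithinAt
    rw [dotProduct_neg]; ring
  have h2 := norm_image_sub_le_of_norm_deriv_le_segment_01' h1
    fun t ht => by rw [Real.norm_eq_abs]; exact h0 t ⟨ht.1, ht.2.le⟩
  have h3 := abs_le.1 (h0 1 ⟨zero_le_one, le_rfl⟩)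
  simp only [one_smul, zero_smul, add_zero, sub_self, zero_mul, sub_zero, one_mul,
    Real.norm_eq_abs, ← sub_eq_add_neg] at h2 h3
  have h4 := abs_le.1 h2
  rw [add_dotProduct, abs_le]
  constructor <;> linarith [h3.1, h3.2, h4.1, h4.2]

lemma fld_true (X : σ → Cube n → Fin n → ℝ) (x : Cube n) (k j : Fin n) :
    (fun m => X m (update x j true) k) =
      (fun m => bar (fun y => X m y k) x j) + fun m => jac (X m) x k j := by
  funext m; exact val_true (fun y => X m y k) x j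

lemma fld_false (X : σ → Cube n → Fin n → ℝ) (x : Cube n) (k j : Fin n) :
    (fun m => X m (update x j false) k) =
      (fun m => bar (fun y => X m y k) x j) - fun m => jac (X m) x k j := by
  funext m; exact val_false (fun y => X m y k) x j

/-- **cubic chain rule** off the diagonal -/
lemma chain3 {L L' : ℝ} (hL : 0 ≤ L') {g : Fin n → Bool → (σ → ℝ) → ℝ}
    {g' : Fin n → Bool → (σ → ℝ) → σ → ℝ} {g'' : Fin n → Bool → σ → (σ → ℝ) → σ → ℝ}
    (hT : ∀ k b, Tay L (g k b) (g' k b))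
    (hT' : ∀ k b m, Tay L' (fun a => g' k b a m) (g'' k b m))
    (X : σ → Cube n → Fin n → ℝ) (x : Cube n) {k j : Fin n} (hkj : k ≠ j) :
    |jac (fun y k => g k (y k) fun m => X m y k) x k j -
      ∑ m, bar (fun y => g' k (y k) (fun p => X p y k) m) x j * jac (X m) x k j| ≤
      2 * L' * ((∑ m, jac (X m) x k j ^ 2) * ∑ m, |jac (X m) x k j|) := by
  have h := trap hL (hT k (x k)) (hT' k (x k)) (fun m => bar (fun y => X m y k) x j)
    fun m => jac (X m) x k j
  rw [← fld_true, ← fld_false] at h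
  have e : jac (fun y k => g k (y k) fun m => X m y k) x k j -
      ∑ m, bar (fun y => g' k (y k) (fun p => X p y k) m) x j * jac (X m) x k j =
      (g k (x k) (fun m => X m (update x j true) k) - g k (x k) (fun m => X m (update x j false) k) -
        (g' k (x k) (fun m => X m (update x j true) k) +
          g' k (x k) fun m => X m (update x j false) k) ⬝ᵥ fun m => jac (X m) x k j) / 2 := by
    rw [jac_apply, grad, SL.incr, update_of_ne hkj, update_of_ne hkj,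
      sub_div _ (_ ⬝ᵥ _) (2 : ℝ), dotProduct, sum_div]
    congr 1
    refine sum_congr rfl fun m _ => ?_
    rw [bar_eq, update_of_ne hkj, update_of_ne hkj, Pi.add_apply]; ring
  rw [e, abs_div, abs_two]
  linarith

/-- the diagonal: `d_k u_k = bar^k u_s + ∑ bar^k u_m G^m_kk + O(|G_kk|²)` -/
lemma chain_diag {L C : ℝ} {g : Fin n → Bool → (σ → ℝ) → ℝ}
    {g' : Fin n → Bool → (σ → ℝ) → σ → ℝ} (hT : ∀ k b, Tay L (g k b) (g' k b))
    (hl : ∀ k b a h m, |g' k b (a + h) m - g' k b a m| ≤ C * ∑ p, |h p|)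
    (X : σ → Cube n → Fin n → ℝ) (x : Cube n) (k : Fin n) :
    |jac (fun y k => g k (y k) fun m => X m y k) x k k -
      (bar (fun y => (g k true (fun p => X p y k) - g k false fun p => X p y k) / 2) x k +
        ∑ m, bar (fun y => g' k (y k) (fun p => X p y k) m) x k * jac (X m) x k k)| ≤
      L * ∑ m, jac (X m) x k k ^ 2 + C * (∑ m, |jac (X m) x k k|) ^ 2 := by
  set a : σ → ℝ := fun m => bar (fun y => X m y k) x k
  set h : σ → ℝ := fun m => jac (X m) x k k with hh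
  have t1 := abs_le.1 (hT k true a h)
  have t2 := abs_le.1 (hT k true a (-h))
  have t3 := abs_le.1 (hT k false a h)
  have t4 := abs_le.1 (hT k false a (-h))
  simp only [dotProduct_neg, Pi.neg_apply, neg_sq, ← sub_eq_add_neg] at t2 t4
  have u : ∀ b (h' : σ → ℝ), (∀ p, |h' p| = |h p|) →
      |g' k b (a + h') ⬝ᵥ h - g' k b a ⬝ᵥ h| ≤ C * (∑ m, |h m|) ^ 2 := fun b h' e => by
    rw [← sub_dotProduct, sq, ← mul_assoc, mul_sum]
    refine (abs_sum_le_sum_abs _ _).trans (sum_le_sum fun m _ => ?_)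
    rw [abs_mul]
    refine mul_le_mul_of_nonneg_right ?_ (abs_nonneg _)
    simpa only [e, Pi.sub_apply] using hl k b a h' m
  have u1 := abs_le.1 (u true h fun _ => rfl)
  have u2 := abs_le.1 (u false (-h) fun _ => by simp)
  rw [← sub_eq_add_neg] at u2
  have e2 : ∑ m, bar (fun y => g' k (y k) (fun p => X p y k) m) x k * jac (X m) x k k =
      (g' k true (a + h) ⬝ᵥ h + g' k false (a - h) ⬝ᵥ h) / 2 := by
    rw [dotProduct, dotProduct, ← sum_add_distrib, sum_div]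
    refine sum_congr rfl fun m _ => ?_
    rw [bar_eq, update_self, update_self, fld_true, fld_false]; ring
  rw [e2, jac_apply, grad, SL.incr, bar_eq, update_self, update_self, fld_true, fld_false, abs_le]
  constructor <;> linarith [t1.1, t1.2, t2.1, t2.2, t3.1, t3.2, t4.1, t4.2, u1.1, u1.2, u2.1, u2.2]

end Crest.Agent.T157.S3F
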