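import Crest.Agent.T157.S3Cls_80
import Crest.Agent.T157.S3Hd_39
import Crest.Agent.T157.S3Jb_82

/-!
# Row 157, block B/S3 (helper80): (H2), (H3), (TR) in the words of `S3Def_69` (`S3.HBStmt`)
-/

set_option autoImplicit false

noncomputable section

namespace Crest.Agent.T157.S3

open Matrix Filter Finset Real
open Crest.Agent.T157.E (Cube ising prob sv dir)
open Crest.Agent.T157.Rec (grad fl)
open Crest.Agent.T157.Eig
open Crest.Agent.T157.Chain22 (IsP mean isP_prob' emean_eq ip_eq_mean)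
open Crest.Agent.T157.Ent (mean_add' mean_sub' mean_const_mul mean_mul_const mean_congr kl)
open Crest.Agent.T157.Atd (ATd vp)
open Crest.Agent.T157.S3F
open Crest.Agent.T157.S3.Hb (OpL Dw Gam)
open Crest.Agent.T157.S3.Hd (AD)

namespace HB80

variable {n : ℕ}

theorem pow_exp_le {k : ℝ} (hk : 0 < k) (p : ℕ) {x : ℝ} (hx : 0 ≤ x) :
    x ^ p * exp (-(k * x)) ≤ p.factorial / k ^ p := by
  have a := mul_le_mul_of_nonneg_right (pow_div_factorial_le_exp (k * x) (by positivity) p)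
    (exp_pos (-(k * x))).le
  rw [← exp_add, add_neg_cancel, exp_zero, div_mul_eq_mul_div, div_le_one (by positivity),
    mul_pow] at a
  rw [le_div_iff₀ (by positivity)]
  linarith

/-- `sech` -/
def se (t : ℝ) : ℝ := (cosh t)⁻¹

theorem se_sq (t : ℝ) : se t ^ 2 = 1 - tanh t ^ 2 := by
  have := (cosh_pos t).ne'
  rw [se, tanh_eq_sinh_div_cosh]
  field_simp
  linarith [cosh_sq t]

theorem se_abs (t : ℝ) : |se t| ≤ 1 := by
  rw [se, abs_of_pos (inv_pos.2 (cosh_pos t))]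
  exact inv_le_one_of_one_le₀ (one_le_cosh t)

theorem se_deriv (t : ℝ) : HasDerivAt se (-(tanh t * se t)) t := by
  have h := (cosh_pos t).ne'
  have e : -(tanh t * se t) = -sinh t / cosh t ^ 2 := by
    rw [se, tanh_eq_sinh_div_cosh]
    field_simp
  rw [e]
  exact (hasDerivAt_cosh t).inv h

theorem se'_abs (t : ℝ) : |-(tanh t * se t)| ≤ 1 := by
  rw [abs_neg, abs_mul]
  exact mul_le_one₀ (abs_tanh_lt_one t).le (abs_nonneg _) (se_abs t)

theorem se_line (a h : Unit → ℝ) (t : ℝ) : HasDerivAt (fun t : ℝ => se ((a + t • h) ()))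
    ((fun _ => -(tanh ((a + t • h) ()) * se ((a + t • h) ()))) ⬝ᵥ h) t := by
  have h1 : HasDerivAt (fun t : ℝ => (a + t • h) ()) (h ()) t := by
    simpa using ((hasDerivAt_id t).mul_const (h ())).const_add (a ())
  have h2 := (se_deriv _).comp t h1
  simp only [dotProduct, univ_unique, sum_singleton]
  exact h2

theorem se_lip (a b : ℝ) : |se a - se b| ≤ |a - b| := by
  have := lip_of_bd (C := 1) (g := fun ξ : Unit → ℝ => se (ξ ()))
    (g' := fun ξ _ => -(tanh (ξ ()) * se (ξ ()))) se_line (fun a _ => se'_abs _) (fun _ => b)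
    fun _ => a - b
  simpa using this

theorem se_tay : Tay (2 * Fintype.card Unit) (fun ξ : Unit → ℝ => se (ξ ()))
    fun ξ _ => -(tanh (ξ ()) * se (ξ ())) := by
  refine tay_of_lip zero_le_two se_line fun a h _ => ?_
  have h1 := se_lip (a () + h ()) (a ())
  have h2 := Da.Gr.tanh_lip (a () + h ()) (a ())
  rw [add_sub_cancel_left] at h1 h2
  simp only [Pi.add_apply, univ_unique, sum_singleton]
  have e : -(tanh (a () + h ()) * se (a () + h ())) - -(tanh (a ()) * se (a ())) =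
      -(tanh (a () + h ()) * (se (a () + h ()) - se (a ())) +
        (tanh (a () + h ()) - tanh (a ())) * se (a ())) := by ring
  rw [e, abs_neg]
  refine (abs_add_le _ _).trans ?_
  rw [abs_mul, abs_mul]
  have h3 := mul_le_mul (abs_tanh_lt_one (a () + h ())).le h1 (abs_nonneg _) zero_le_one
  have h4 := mul_le_mul h2 (se_abs (a ())) (abs_nonneg _) (abs_nonneg _)
  linarith

theorem jac_hf (J : Mx n) (y : V n) (x : Cube n) : jac (hf J y) x = J := by
  have := jac_add (fun x => J *ᵥ sv x) (fun _ => y) x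
  rw [jac_mulVec, jac_sv, jac_const, Matrix.mul_one, add_zero] at this
  exact this

theorem opn_jac_se {J : Mx n} {R : ℝ} (hJ : opn J ≤ R) (y : V n) (x : Cube n) :
    opn (jac (fun x k => se (hf J y x k)) x) ≤ 1 + 3 * R + 4 * R ^ 2 := by
  have := opn_jac_loc (C := 1) (g := fun _ _ (ξ : Unit → ℝ) => se (ξ ())) (by positivity)
    zero_le_one (fun _ _ => se_tay) (fun _ _ _ _ => se'_abs _) (fun _ _ => by simp)
    (fun _ => hf J y) x
  simp only [univ_unique, sum_singleton, jac_hf, Fintype.card_unique, Nat.cast_one] at this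
  nlinarith [pow_le_pow_left₀ (opn_nonneg J) hJ 2]

theorem opL_of_jac {κ : Type*} [Fintype κ] [DecidableEq κ] {u : Cube n → κ → ℝ} {r : ℝ}
    (h : ∀ x, opn (jac u x) ≤ r) : OpL u (r ^ 2) := fun x v => by
  have e : grad (fun y => v ⬝ᵥ u y) x = (jac u x)ᵀ *ᵥ v := by
    funext j
    rw [Hb.grad_dot]
    simp only [mulVec, dotProduct, transpose_apply, jac_apply, mul_comm]
  rw [e]
  refine (mulVec_dot_le _ v).trans (mul_le_mul_of_nonneg_right ?_ (Hb.dsn v))
  rw [opn_transpose]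
  exact pow_le_pow_left₀ (opn_nonneg _) (h x) 2

theorem Dw_ising {J : Mx n} (hJ : Jᵀ = J) (hd : ∀ j, J j j = 0) (y : V n) (x : Cube n)
    (j : Fin n) : Dw (ising J y) x j = Dg J y x j := by
  rw [Hb.Dw_eq (Da.Gr.ising_pos J y), show E.siteM (ising J y) (fun z => sv z j) j x =
    tm (ising J y) x j from rfl, tm_ising hJ]
  simp only [Da.Gr.tt, Da.Gr.loc, hd, zero_mul, sub_zero, Dg, hf, Pi.add_apply]

theorem dir_ising {J : Mx n} (hJ : Jᵀ = J) (hd : ∀ j, J j j = 0) (y : V n) (G : Cube n → ℝ) :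
    dir (ising J y) G = E.mean (ising J y) fun x => grad G x ⬝ᵥ (Dg J y x * grad G x) := by
  rw [Hb.dir_eq_Gam (Da.Gr.ising_pos J y), emean_eq]
  exact mean_congr fun x => sum_congr rfl fun j _ => by
    rw [Dw_ising hJ hd, Pi.mul_apply]; ring

/-- an excess is small under every law -/
theorem Exc.mean_le {w g ν : Cube n → ℝ} {K ε e B : ℝ} (hw : ∀ x, 0 < w x) (h : AD w K ε)
    (hE : Exc w e B g) (g0 : ∀ x, 0 ≤ g x) (hν : IsP ν) :
    mean ν (fun x => g x ^ 2) ≤ 16 * K * e * kl ν (prob w) + (2 * B + 16 * K * e) := by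
  obtain ⟨G, h1, h2, h3, h4⟩ := hE
  have a := Hd.h2 hw h h2 (Cls80.TS.vp h3) hν
  have b := (isP_prob' hw).mean_sq_le G
  rw [ip_eq_mean] at b
  simp only [← sq] at b
  have d := hν.mean_mono fun x => pow_le_pow_left₀ (g0 x) (h1 x) 2
  rw [emean_eq] at h4
  linarith

/-- **(TR)** with explicit constants -/
theorem tr_ising {J : Mx n} {y : V n} {K ε R e L B θ c : ℝ} (hJ : Jᵀ = J) (hd : ∀ j, J j j = 0)
    (hR : opn J ≤ R) (h : AD (ising J y) K ε) {G : Cube n → ℝ} {Ω : Cube n → V n} (hΩ : Rg e L Ω)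
    (hE : Exc (ising J y) (e ^ 2) B fun x => nrm (grad G x - Ω x)) (hL : ∀ x, nrm (grad G x) ≤ L)
    (hθ : 0 < θ) (h1 : θ * e ≤ c) (h2 : θ * L ≤ c * √n)
    (hc : c * (2 * K ^ 2 * (1536 * (4 + 9 * R + 12 * R ^ 2) ^ 2 + 256) + K ^ 2 + 16) ≤ 1)
    {ν : Cube n → ℝ} (hν : IsP ν) :
    |mean ν G - mean (prob (ising J y)) G| ≤ (kl ν (prob (ising J y)) + 2 * (ε * n)) / θ +
      K * (48 * dir (ising J y) G + 160 * B +
        K * (1280 + 3072 * (4 + 9 * R + 12 * R ^ 2) ^ 2) * e ^ 2) * θ := by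
  have hw := Da.Gr.ising_pos J y
  have e0 : 0 ≤ e := (norm_nonneg _).trans (hΩ default).1
  have L0 : 0 ≤ L := (nrm_nonneg _).trans (hL default)
  have R0 : 0 ≤ R := (opn_nonneg J).trans hR
  have K0 := h.pos
  have ε0 := h.nn
  have c0 : 0 ≤ c := le_trans (by positivity) h1
  have n0 : (0 : ℝ) ≤ n := n.cast_nonneg
  set ρ := 4 + 9 * R + 12 * R ^ 2 with hρ
  have hΩ1 : ∀ x j, |Ω x j| ≤ e := fun x j => (norm_le_pi_norm (Ω x) j).trans (hΩ x).1
  have hO : OpL (fun x => (fun k => se (hf J y x k)) * Ω x) ((ρ * e) ^ 2) :=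
    opL_of_jac fun x => by
      refine (opn_jac_mul (a := fun x k => se (hf J y x k)) zero_le_one e0 (fun k => se_abs _)
        (hΩ1 x)).trans ?_
      have a := opn_jac_se hR y x
      have b := (hΩ x).2.1
      have a0 := opn_nonneg (jac (fun x k => se (hf J y x k)) x)
      have d1 := mul_le_mul (add_le_add (le_refl 1) a) b (opn_nonneg _) (by positivity)
      have d2 := mul_le_mul (add_le_add (le_refl e) b) a a0 (by positivity)
      rw [hρ]
      linarith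
  have q1 : c * K ^ 2 ≤ 1 := by
    have : 0 ≤ c * (2 * K ^ 2 * (1536 * ρ ^ 2 + 256) + 16) := by positivity
    linarith
  have q2 : 16 * c ≤ 1 := by
    have : 0 ≤ c * (2 * K ^ 2 * (1536 * ρ ^ 2 + 256) + K ^ 2) := by positivity
    linarith
  have q3 : c * (2 * K ^ 2 * (1536 * ρ ^ 2 + 256)) ≤ 1 := by
    have : 0 ≤ c * (K ^ 2 + 16) := by positivity
    linarith
  have p1 : (θ * L) ^ 2 ≤ c ^ 2 * n := by
    have := pow_le_pow_left₀ (by positivity) h2 2
    rwa [mul_pow c, sq_sqrt n0] at this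
  have p2 : (θ * e) ^ 2 ≤ c := (pow_le_pow_left₀ (by positivity) h1 2).trans (by nlinarith)
  have p3 : c ^ 2 * n ≤ c * n := mul_le_mul_of_nonneg_right (by nlinarith) n0
  have t := Hd.tr hw h (A := L ^ 2) (fun x => (nrm_le_iff L0).1 (hL x)) (Om := Ω)
    (u := fun x => (fun k => se (hf J y x k)) * Ω x) (a := 16 * K * e ^ 2)
    (B := 2 * B + 16 * K * e ^ 2) (sq_nonneg _) (by positivity) hθ
    (by nlinarith [mul_le_mul_of_nonneg_left (p1.trans p3) (sq_nonneg K),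
      mul_le_mul_of_nonneg_right q1 n0])
    (fun x j => by nlinarith [mul_le_mul_of_nonneg_left (hΩ1 x j) hθ.le])
    (fun x j => by rw [Pi.mul_apply, mul_pow, se_sq, Dw_ising hJ hd, Dg]) hO
    (fun ν hν => by
      have := Exc.mean_le hw h hE (fun x => nrm_nonneg _) hν
      simpa only [nrm_sq, dotProduct, Pi.sub_apply, ← sq] using this)
    (by
      have := mul_le_mul_of_nonneg_right p2 (by positivity : 0 ≤ 2 * K ^ 2 * (1536 * ρ ^ 2 + 256))
      linarith) hν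
  refine t.trans ?_
  have p4 : 2 * ε * L ^ 2 * θ ≤ 2 * (ε * n) / θ := by
    rw [le_div_iff₀ hθ]
    have : c * n ≤ n := mul_le_of_le_one_left n0 (by linarith)
    nlinarith [mul_le_mul_of_nonneg_left ((p1.trans p3).trans this) ε0]
  rw [add_div]
  nlinarith

end HB80

open HB80

theorem hbStmt : HBStmt := fun K0 κ0 RJ hκ => by
  obtain ⟨K, hK⟩ : ∃ K, K = max K0 0 + 32 / κ0 := ⟨_, rfl⟩
  obtain ⟨E0, hE0⟩ : ∃ E0, E0 = 5120 * ((Nat.factorial 2 : ℝ) / (κ0 / 4) ^ 2) := ⟨_, rfl⟩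
  obtain ⟨E1, hE1⟩ : ∃ E1, E1 = 5120 * ((Nat.factorial 3 : ℝ) / (κ0 / 2) ^ 3) := ⟨_, rfl⟩
  obtain ⟨ρ, hρ⟩ : ∃ ρ, ρ = 4 + 9 * RJ + 12 * RJ ^ 2 := ⟨_, rfl⟩
  obtain ⟨S, hS⟩ : ∃ S, S = 2 * K ^ 2 * (1536 * ρ ^ 2 + 256) + K ^ 2 + 16 := ⟨_, rfl⟩
  have K1 : 0 < K := by rw [hK]; positivity
  have E00 : 0 ≤ E0 := by rw [hE0]; positivity
  have E10 : 0 ≤ E1 := by rw [hE1]; positivity
  have S0 : 0 < S := by rw [hS]; positivity
  obtain ⟨C, c1, c2, c3, c4, c5, c6⟩ : ∃ C, 160 * K ≤ C ∧ E0 ≤ C ∧ E0 + E0 ^ 2 ≤ C ∧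
      65 * K ^ 2 ≤ C ∧ K * (K * (1280 + 3072 * ρ ^ 2)) ≤ C ∧ 2 * E1 ≤ C := by
    have a1 : 0 ≤ K * (K * (1280 + 3072 * ρ ^ 2)) := by positivity
    have a2 := sq_nonneg K
    have a3 := sq_nonneg E0
    exact ⟨160 * K + E0 + E0 ^ 2 + 65 * K ^ 2 + K * (K * (1280 + 3072 * ρ ^ 2)) + 2 * E1,
      by linarith, by linarith, by linarith, by linarith, by linarith, by linarith⟩
  refine ⟨C, min (κ0 / 4) S⁻¹, by positivity, fun n w hw hA => ?_⟩
  have n0 : (0 : ℝ) ≤ n := n.cast_nonneg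
  have hp := isP_prob' hw
  obtain ⟨ε, hε⟩ : ∃ ε, ε = 5120 * (n : ℝ) ^ 2 * exp (-(κ0 * n / 2)) := ⟨_, rfl⟩
  have h : AD w K ε := ⟨max K0 0, κ0, le_max_right _ _, hκ, hK.ge, hε.ge,
    hA.mono hw (le_max_left _ _) le_rfl⟩
  have ε0 := h.nn
  have x1 : exp (-(min (κ0 / 4) S⁻¹ * n)) ≤ 1 := exp_le_one_iff.2 (neg_nonpos.2 (by positivity))
  have x0 := exp_pos (-(min (κ0 / 4) S⁻¹ * n))
  have ε1 : ε ≤ E0 * exp (-(min (κ0 / 4) S⁻¹ * n)) := by
    have a := pow_exp_le (k := κ0 / 4) (by positivity) 2 n0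
    have b : exp (-(κ0 / 4 * n)) ≤ exp (-(min (κ0 / 4) S⁻¹ * n)) :=
      exp_le_exp.2 (neg_le_neg (mul_le_mul_of_nonneg_right (min_le_left _ _) n0))
    have d := mul_le_mul a b (exp_pos _).le (by positivity)
    rw [mul_assoc, ← exp_add, show -(κ0 / 4 * n) + -(κ0 / 4 * n) = -(κ0 * n / 2) by ring] at d
    rw [hε, hE0]
    linarith
  have ε2 : ε * n ≤ E1 := by
    have a := pow_exp_le (k := κ0 / 2) (by positivity) 3 n0
    rw [show κ0 / 2 * n = κ0 * n / 2 by ring] at a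
    rw [hε, hE1]
    linarith
  refine ⟨fun G A h0 hG ν hν => (Hd.h2 hw h h0 hG hν).trans ?_, fun G A hG => ?_,
    fun J y hJ hd hR hw' G Ω e L B θ hΩ hE hL hθ h1 h2 ν hν => ?_⟩
  · have A0 := (Atd.vp_nonneg G default).trans (hG _)
    have H0 := Hb.kl0 hw hν
    rw [emean_eq]
    gcongr
    linarith
  · have A0 := Cls80.TS.nonneg hG
    have g0 : 0 ≤ mean (prob w) fun x => grad G x ⬝ᵥ grad G x := hp.mean_nonneg fun x => Hb.dsn _
    have hg := Cls80.TS.grad hG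
    simp only [emean_eq]
    constructor
    · refine (Hd.var_le_grad hw h hg).trans (add_le_add
        (mul_le_mul_of_nonneg_right (by linarith) g0) ?_)
      nlinarith [mul_le_mul_of_nonneg_right (ε1.trans (mul_le_mul_of_nonneg_right c2 x0.le)) A0,
        mul_nonneg ε0 A0]
    · refine (Hd.h3 hw h hg).trans ?_
      have a := hp.mean_sq_le fun x => grad G x ⬝ᵥ grad G x
      have b : (mean (prob w) fun x => (grad G x ⬝ᵥ grad G x) ^ 2) ≤
          A / 4 * mean (prob w) fun x => grad G x ⬝ᵥ grad G x := by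
        rw [← mean_const_mul]
        exact hp.mean_mono fun x => by
          rw [sq]; exact mul_le_mul_of_nonneg_right (hg x) (Hb.dsn _)
      rw [ip_eq_mean] at a
      simp only [← sq] at a
      have d : ε ^ 2 ≤ E0 ^ 2 * exp (-(min (κ0 / 4) S⁻¹ * n)) := by
        refine (pow_le_pow_left₀ ε0 ε1 2).trans ?_
        rw [mul_pow]
        exact mul_le_mul_of_nonneg_left (by nlinarith) (sq_nonneg _)
      have f : 2 * ε + 4 * ε ^ 2 ≤ 16 * (C * exp (-(min (κ0 / 4) S⁻¹ * n))) := by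
        nlinarith [mul_le_mul_of_nonneg_right c3 x0.le, sq_nonneg ε]
      nlinarith [mul_le_mul_of_nonneg_left (a.trans b) (sq_nonneg K),
        mul_le_mul_of_nonneg_left b (sq_nonneg K), mul_le_mul_of_nonneg_right f (sq_nonneg A),
        mul_le_mul_of_nonneg_right c4 (mul_nonneg A0 g0)]
  · subst hw'
    have t := tr_ising hJ hd hR h hΩ hE hL hθ h1 h2 (by
      rw [← hρ, ← hS, ← le_div_iff₀ S0, one_div]; exact min_le_right _ _) hν
    rw [← hρ] at t
    rw [← dir_ising hJ hd, emean_eq]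
    have B0 : 0 ≤ B := by
      obtain ⟨G', -, -, -, h4⟩ := hE
      exact (hp.mean_nonneg fun x => sq_nonneg _).trans h4
    have d0 := Ent.dir_nonneg hw G
    refine t.trans (add_le_add (div_le_div_of_nonneg_right (by linarith) hθ.le) ?_)
    rw [mul_right_comm C]
    refine mul_le_mul_of_nonneg_right ?_ hθ.le
    nlinarith [mul_le_mul_of_nonneg_right c1 d0, mul_le_mul_of_nonneg_right c1 B0,
      mul_le_mul_of_nonneg_right c5 (sq_nonneg e), mul_nonneg K1.le d0]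

theorem clsStmt : ClsStmt := clsGlue hbStmt

end Crest.Agent.T157.S3

end
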