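import Crest.Agent.T157.OkA_35
import Crest.Agent.T157.OkEq_45
import Crest.Agent.T157.S3HbS_80

/-!
# Row 157, block B, S1 (helper31): the deterministic centre of the response (`Br.CenStmt`)
-/

set_option autoImplicit false

noncomputable section

namespace Crest.Agent.T157.Br

open Real Matrix Function Finset
open Crest.Agent.T157.E Crest.Agent.T157.SL Crest.Agent.T157.Ta
open Crest.Agent.T157.Rec (grad)
open Crest.Agent.T157.Eig
open Crest.Agent.T157.Xt (H1 Lip2)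
open Crest.Agent.T157.S3 (Mx Dg Rg hf)
open Crest.Agent.T157.S3F (jac hsJ jac_add jac_const opn_jac_mul col_sq_le hsJ_add)
open Crest.Agent.T157.S3.HB80 (se se_sq se_abs opn_jac_se)
open Ok35

namespace Cen31

variable {n : ℕ} {κ : Type} [Fintype κ] [DecidableEq κ]

/-- a scalar product of two fields -/
theorem lip_dot {b u : Cube n → Fin n → ℝ} {α β Lb Lu H : ℝ} (h1 : ∀ x, opn (jac u x) ≤ α)
    (h2 : ∀ x, opn (jac b x) ≤ β) (h3 : ∀ x, nrm (b x) ≤ Lb) (h4 : ∀ x, nrm (u x) ≤ Lu)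
    (H0 : 0 ≤ H) (h5 : ∀ x, hsJ b x ≤ H ^ 2) :
    Lip2 (2 * (α * Lb + β * Lu + 2 * (α * H))) fun y => b y ⬝ᵥ u y := Xt.lip2_of_grad fun x => by
  have a0 := (opn_nonneg _).trans (h1 x)
  have e : grad (fun y => b y ⬝ᵥ u y) x = (jac u x)ᵀ *ᵥ b x + (jac b x)ᵀ *ᵥ u x -
      (2 : ℝ) • fun j => sv x j * ∑ k, jac b x k j * jac u x k j := by
    funext j
    simp only [dotProduct, Da.Gr.grad_sum, Da.Gr.grad_mul, mulVec, transpose_apply, S3F.jac_apply,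
      Pi.sub_apply, Pi.add_apply, Pi.smul_apply, smul_eq_mul, mul_sum, ← sum_add_distrib,
      ← sum_sub_distrib]
    exact sum_congr rfl fun k _ => by ring
  have c : nrm (fun j => sv x j * ∑ k, jac b x k j * jac u x k j) ≤ α * H := by
    rw [nrm_le_iff (by positivity), mul_pow]
    refine le_trans ?_ (mul_le_mul_of_nonneg_left (h5 x) (sq_nonneg _))
    rw [hsJ, sum_comm, mul_sum]
    refine sum_le_sum fun j _ => ?_
    have s1 := sum_mul_sq_le_sq_mul_sq univ (fun k => jac b x k j) fun k => jac u x k j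
    have s2 := (col_sq_le (jac u x) j).trans (pow_le_pow_left₀ (opn_nonneg _) (h1 x) 2)
    have s3 := mul_le_mul_of_nonneg_left s2 (sum_nonneg fun k (_ : k ∈ univ) => sq_nonneg (jac b x k j))
    have s4 := Rec.sv_mul_self x j
    calc _ = sv x j * sv x j * (∑ k, jac b x k j * jac u x k j) ^ 2 := by ring
      _ ≤ _ := by rw [s4]; linarith
  have t : ∀ {A : Matrix (Fin n) (Fin n) ℝ} {v : Fin n → ℝ} {r s : ℝ}, opn A ≤ r → nrm v ≤ s →
      nrm (Aᵀ *ᵥ v) ≤ r * s := fun hA hv => (nrm_mulVec_le _ _).trans (by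
    rw [opn_transpose]; exact mul_le_mul hA hv (nrm_nonneg _) ((opn_nonneg _).trans hA))
  rw [e]
  refine (nrm_sub_le _ _).trans (add_le_add ((nrm_add_le _ _).trans
    (add_le_add (t (h1 x) (h3 x)) (t (h2 x) (h4 x)))) ?_)
  rw [nrm_smul, abs_two]
  linarith

theorem opn_DΩ {J : Mx n} (hJ : opn J ≤ 3) (y : Fin n → ℝ) {δ L : ℝ} {Ω : Cube n → Fin n → ℝ}
    (h : Rg δ L Ω) (x : Cube n) : opn (jac (fun z => Dg J y z * Ω z) x) ≤ 12973 * δ := by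
  have a := opn_jac_se hJ y x
  have a0 := opn_nonneg (jac (fun x k => se (hf J y x k)) x)
  have e : Dg J y = fun z => (fun k => se (hf J y z k)) * fun k => se (hf J y z k) := by
    funext z k; rw [Pi.mul_apply, ← pow_two, se_sq, Dg]
  have d : opn (jac (Dg J y) x) ≤ 4324 := by
    rw [e]
    refine (opn_jac_mul (a := fun z k => se (hf J y z k)) (u := fun z k => se (hf J y z k))
      zero_le_one zero_le_one (fun k => se_abs _) fun k => se_abs _).trans ?_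
    nlinarith
  have d0 := opn_nonneg (jac (Dg J y) x)
  have o := (h x).2.1
  have o0 := opn_nonneg (jac Ω x)
  refine (opn_jac_mul zero_le_one (o0.trans o) (fun k => abs_le.2
    ⟨by linarith [(Dg_mem J y x k).1], (Dg_mem J y x k).2⟩) (rg_sup h x)).trans ?_
  nlinarith [mul_le_mul d o o0 (by norm_num), mul_le_mul_of_nonneg_right d (o0.trans o)]

theorem rhoG {u G : Cube n → ℝ} {K δ ρ Z : ℝ} (hu : Wt u) (hK : 1 ≤ K) (d0 : 0 < δ) (hρ : ρ ^ 2 ≤ Z)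
    (h : mean u (fun z => G z ^ 2) ≤ 3 * K * δ ^ 2 * Z) : mean u G * ρ ≤ 2 * K * δ * Z := by
  have h1 : mean u (fun z => 2 * δ * ρ * G z) ≤ mean u fun z => δ ^ 2 * ρ ^ 2 + G z ^ 2 :=
    hu.mean_mono fun z => by nlinarith [sq_nonneg (δ * ρ - G z)]
  rw [mean_const_mul, mean_add, hu.mean_const] at h1
  have h2 : δ ^ 2 * ρ ^ 2 ≤ K * (δ ^ 2 * Z) := (mul_le_mul_of_nonneg_left hρ (sq_nonneg _)).trans
    (le_mul_of_one_le_left (mul_nonneg (sq_nonneg _) ((sq_nonneg _).trans hρ)) hK)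
  refine le_of_mul_le_mul_left ?_ d0
  linarith

variable {D : Dat n κ} {a x Ce CV K δ es ρ : ℝ} {ψ b : Cube n → Fin n → ℝ} {T : Cube n → Mx n}
  {Wm : Mx n}

/-- a fixed direction -/
theorem fixed (g : D.Geo) (hb : Hb D.J D.y K) (fm : Fm D.J D.y D.ι a x Ce CV δ es D.B0 D.R ψ T Wm)
    (d0 : 0 < δ) (cv : 1 ≤ CV) (b1 : 1 ≤ D.B0) (bU : (D.Cᶜ.card : ℝ) ≤ D.B0) (r : D.Rad ρ)
    (n1 : ∀ z, nrm (b z) ≤ 4 * CV * ρ) (n2 : ∀ z, opn (jac b z) ≤ 2 * δ)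
    (n3 : ∀ z, hsJ b z ≤ (2 * CV * ρ) ^ 2) {c : κ → ℝ} (hc : nrm c ≤ ρ) {v : Cube n → ℝ}
    (hv : Wt v) : mean v (fun z => b z ⬝ᵥ (Dg D.J D.y z * Vf (Vm D.C D.ι T Wm) c z)) -
      mean D.μ (fun z => b z ⬝ᵥ (Dg D.J D.y z * Vf (Vm D.C D.ι T Wm) c z)) ≤
        500000 * (K * CV * δ) * (ρ ^ 2 + kl v D.μ) := by
  have hμ : ∀ z, 0 < D.μ z := fun z => exp_pos _
  have wμ : Wt D.μ := .of_pos hμ
  have hK := hb.1
  obtain ⟨r0, r1, r2⟩ := r
  obtain ⟨Ω, Ω', G, rg, -, lG, mG, pt, -⟩ := (fm.dir ρ c r0 r1 (by nlinarith) hc).ver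
  have L := lip_dot (opn_DΩ g.op D.y rg) n2 n1 (fun z => (nrm_Dg _ _ _ _).trans (rg z).2.2.1)
    (by positivity) n3
  have k0 : 0 ≤ kl v D.μ := kl0 hv
  have h1 := S1n.h1_up hμ hb.2.1 L hv (θ := (400000 * (CV * δ))⁻¹) (by positivity)
  have e1 : K * (2 * (12973 * δ * (4 * CV * ρ) + 2 * δ * (CV * ρ) +
      2 * (12973 * δ * (2 * CV * ρ)))) ^ 2 * (400000 * (CV * δ))⁻¹ =
      207572 ^ 2 / 400000 * (K * CV * δ * ρ ^ 2) := by field_simp; ring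
  rw [e1, div_inv_eq_mul] at h1
  have pA : ∀ z, |b z ⬝ᵥ (Dg D.J D.y z * Vf (Vm D.C D.ι T Wm) c z) - b z ⬝ᵥ (Dg D.J D.y z * Ω z)| ≤
      4 * CV * δ * ρ ^ 2 + 8 * CV * ρ * G z := fun z => by
    rw [← dotProduct_sub, ← mul_sub, Vf_Vm, mk_compl, sub_right_comm]
    refine (abs_dot_le _ _).trans ((mul_le_mul (n1 z) ((nrm_Dg _ _ _ _).trans
      ((nrm_sub_le _ _).trans (add_le_add (pt z).1 (nrm_mk_le (rg_sup rg z) d0.le r0 (bU.trans r1)
        (pt z).1)))) (nrm_nonneg _) (by positivity)).trans_eq (by ring))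
  have mA : ∀ u, Wt u → mean u (fun z => 4 * CV * δ * ρ ^ 2 + 8 * CV * ρ * G z) ≤
      20 * (K * CV * δ) * (ρ ^ 2 + kl u D.μ) := fun u hu => by
    have k1 : 0 ≤ kl u D.μ := kl0 hu
    have := rhoG hu hK d0 (le_add_of_nonneg_right k1) (Eq45.G_sq hμ hK hb.2.2.1
      (fun z => (nrm_nonneg _).trans (pt z).1) lG mG (b1.trans r1) hu)
    rw [mean_add, hu.mean_const, mean_const_mul]
    have a1 : 1 * (CV * δ) * ρ ^ 2 ≤ K * (CV * δ) * (ρ ^ 2 + kl u D.μ) := by gcongr; linarith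
    nlinarith [mul_le_mul_of_nonneg_left this (show 0 ≤ CV by linarith)]
  have m1 := (hv.mean_mono fun z => (abs_le.1 (pA z)).2).trans (mA v hv)
  have m2 := (wμ.mean_mono fun z => neg_le.1 (abs_le.1 (pA z)).1).trans (mA _ wμ)
  rw [mean_neg, mean_sub, Net30.kl_self] at m2
  rw [mean_sub] at m1
  have a2 : kl v D.μ * (CV * δ) ≤ K * (kl v D.μ * (CV * δ)) := le_mul_of_one_le_left (by positivity) hK
  have a3 : 0 ≤ K * CV * δ * ρ ^ 2 := by positivity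
  have a4 : 0 ≤ K * CV * δ * kl v D.μ := by positivity
  linarith

/-- one family -/
theorem cen (g : D.Geo) (hb : Hb D.J D.y K) (fm : Fm D.J D.y D.ι a x Ce CV δ es D.B0 D.R ψ T Wm)
    (d0 : 0 < δ) (cv : 1 ≤ CV) (b1 : 1 ≤ D.B0) (bU : (D.Cᶜ.card : ℝ) ≤ D.B0) (r : D.Rad ρ)
    (hε : 10 ^ 7 * K * CV * δ ≤ D.ε)
    (n1 : ∀ z, nrm (b z) ≤ 4 * CV * ρ) (n2 : ∀ z, opn (jac b z) ≤ 2 * δ)
    (n3 : ∀ z, hsJ b z ≤ (2 * CV * ρ) ^ 2) {p : Cube n → Fin n → ℝ} {G : Cube n → ℝ}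
    (hp : ∀ z, nrm (p z - b z) ≤ G z)
    (hG : ∀ v, Wt v → mean v G * ρ ≤ 4 * K * δ * (ρ ^ 2 + kl v D.μ)) :
    ∃ gb, Cen D.J D.y (Vm D.C D.ι T Wm) p gb D.ε ρ D.B0 := by
  have hμ : ∀ z, 0 < D.μ z := fun z => exp_pos _
  have hK := hb.1
  have e : ∀ (c : κ → ℝ) z, c ⬝ᵥ (fun k => b z ⬝ᵥ (Dg D.J D.y z * Vm D.C D.ι T Wm k z)) =
      b z ⬝ᵥ (Dg D.J D.y z * Vf (Vm D.C D.ι T Wm) c z) := fun c z => by
    rw [Vf, mul_sum, dotProduct_sum]
    exact sum_congr rfl fun k _ => by rw [mul_smul_comm, dotProduct_smul, smul_eq_mul]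
  refine ⟨meanV D.μ fun z k => b z ⬝ᵥ (Dg D.J D.y z * Vm D.C D.ι T Wm k z), fun v f hv hf => ?_⟩
  have k0 : 0 ≤ kl v D.μ := kl0 hv
  have h1 := Eq45.net (e := 500000 * (K * CV * δ)) (Y := fun z =>
    (fun k => b z ⬝ᵥ (Dg D.J D.y z * Vm D.C D.ι T Wm k z)) -
      meanV D.μ fun z k => b z ⬝ᵥ (Dg D.J D.y z * Vm D.C D.ι T Wm k z)) hμ (by positivity) r.1
    ((Nat.cast_le.2 (Eq45.card_le g)).trans (bU.trans r.2.1)) (fun c hc u hu => by
      simp only [dotProduct_sub, dot_meanV, e]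
      rw [mean_sub, hu.mean_const]
      exact fixed g hb fm d0 cv b1 bU r n1 n2 n3 hc hu) hf hv
  have h2 : mean v (fun z => (p z - b z) ⬝ᵥ (Dg D.J D.y z * Vf (Vm D.C D.ι T Wm) (f z) z)) ≤
      mean v fun z => CV * ρ * G z := hv.mean_mono fun z => by
    refine (dot_le _ _).trans ((mul_le_mul (hp z) ((nrm_Dg _ _ _ _).trans ?_) (nrm_nonneg _)
      ((nrm_nonneg _).trans (hp z))).trans_eq (mul_comm _ _))
    rw [Vf_Vm]
    exact (nrm_mk _).trans ((fm.bW _ _).trans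
      (mul_le_mul_of_nonneg_left (bd_nrm hf r.1 z) (by linarith)))
  rw [mean_const_mul] at h2
  have h3 := mul_le_mul_of_nonneg_left (hG v hv) (show 0 ≤ CV by linarith)
  have h4 := add_le_add h1 h2
  rw [← mean_add] at h4
  simp only [dotProduct_sub, sub_dotProduct, e] at h4
  have a1 : 0 ≤ ρ ^ 2 + kl v D.μ := by positivity
  have a2 := mul_le_mul_of_nonneg_right hε a1
  have a3 : 0 ≤ K * CV * δ * (ρ ^ 2 + kl v D.μ) := by positivity
  have a4 : 0 ≤ D.ε * D.B0 := mul_nonneg (le_trans (by positivity) hε) (by linarith)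
  refine (hv.mean_mono fun z => le_of_eq (by ring)).trans (h4.trans ?_)
  change _ ≤ D.ε * (ρ ^ 2 + D.B0 + kl v D.μ)
  linarith

end Cen31

open Cen31 in
theorem cenStmt : CenStmt := by
  intro n κ _ _ D Ce CV K δ es ψ ψ0 T T0 Wm W0 t ρ r c hc
  have hμ : ∀ z, 0 < D.μ z := fun z => exp_pos _
  have hK := t.hb.1
  have cv := t.cv
  have d0 := t.d0
  have ⟨r0, r1, r2⟩ := r
  obtain ⟨Om, G1, rg1, p1, -, m1⟩ := t.tc
  obtain ⟨Ω, Ω', G, -, rg, lG, mG, pt, -⟩ :=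
    (t.fa.dir ρ c r0 r1 (by nlinarith) ((nrm_le_iff r0).2 hc)).ver
  have s1 : 0 ≤ sq D.dl := Eig.dot_self_nonneg _
  have s2 : 0 ≤ sq D.del := Eig.dot_self_nonneg _
  have bd := t.bd.trans r1
  have s3 := sq_nonneg D.L
  have l1 : nrm D.dl ≤ ρ := (nrm_le_iff r0).2 (by change sq _ ≤ _; linarith)
  have l2 : nrm D.del ≤ ρ := (nrm_le_iff r0).2 (by change sq _ ≤ _; linarith)
  have l3 : D.L ≤ ρ := (abs_le_of_sq_le_sq' (by linarith) r0).2
  have l4 : ρ ≤ CV * ρ := le_mul_of_one_le_left r0 cv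
  have j : ∀ z, jac (fun z => D.dl + D.del + (Om z + Ω' z)) z = jac (fun z => Om z + Ω' z) z :=
    fun z => by rw [jac_add (fun _ => D.dl + D.del), jac_const, zero_add]
  have n1 : ∀ z, nrm (D.dl + D.del + (Om z + Ω' z)) ≤ 4 * CV * ρ := fun z => by
    linarith [nrm_add_le (D.dl + D.del) (Om z + Ω' z), nrm_add_le D.dl D.del,
      nrm_add_le (Om z) (Ω' z), (rg1 z).2.2.1, (rg z).2.2.1]
  have n2 : ∀ z, opn (jac (fun z => D.dl + D.del + (Om z + Ω' z)) z) ≤ 2 * δ := fun z => by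
    rw [j, jac_add]
    linarith [opn_add_le (jac Om z) (jac Ω' z), (rg1 z).2.1, (rg z).2.1]
  have n3 : ∀ z, hsJ (fun z => D.dl + D.del + (Om z + Ω' z)) z ≤ (2 * CV * ρ) ^ 2 := fun z => by
    rw [hsJ, j]
    refine (hsJ_add Om Ω' z).trans ?_
    linarith [(rg1 z).2.2.2, (rg z).2.2.2, pow_le_pow_left₀ r0 l4 2]
  have hp : ∀ z, nrm (D.ψ c z - (D.dl + D.del + (Om z + Ω' z))) ≤ G1 z + G z := fun z => by
    simp only [Dat.ψ, t.hφ, dot_φm]
    rw [Rec.grad_add, Rec.grad_add, Rec.grad_lin]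
    refine le_trans (le_of_eq ?_) ((nrm_add_le _ _).trans (add_le_add (p1 z) (pt z).2.1))
    congr 1
    abel
  have hG : ∀ v, Wt v → mean v (fun z => G1 z + G z) * ρ ≤ 4 * K * δ * (ρ ^ 2 + kl v D.μ) :=
    fun v hv => by
      have k0 : 0 ≤ kl v D.μ := kl0 hv
      have a1 := rhoG hv hK d0 (le_add_of_nonneg_right k0) (Eq45.G_sq hμ hK t.hb.2.2.1
        (fun z => (nrm_nonneg _).trans (pt z).1) lG mG (t.b1.trans r1) hv)
      have a2 := rhoG (ρ := ρ) hv hK d0 (le_add_of_nonneg_right k0) ((m1 v hv).trans (by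
        have : 1 * δ ^ 2 * (D.B0 + kl v D.μ) ≤ 3 * K * δ ^ 2 * (ρ ^ 2 + kl v D.μ) := by
          have := t.b1
          gcongr
          linarith
        linarith))
      rw [mean_add]
      linarith
  rw [t.hV, t.hV0]
  exact ⟨cen t.toGeo t.hb t.fa d0 cv t.b1 t.bU r t.hε n1 n2 n3 hp hG,
    cen t.toGeo t.hb t.f0 d0 cv t.b1 t.bU r t.hε n1 n2 n3 hp hG⟩

end Crest.Agent.T157.Br

end
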