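import Crest.Agent.T157.OkA_35

/-!
# Row 157, block B, S1 (helper12): `Br.dirStmt`, the family from the ansatz and the cavity vectors
-/

set_option autoImplicit false
set_option linter.unusedVariables false
set_option linter.unusedSectionVars false

noncomputable section

namespace Crest.Agent.T157.Br

open Real Matrix Function Finset
open Crest.Agent.T157.E Crest.Agent.T157.SL Crest.Agent.T157.Ta
open Crest.Agent.T157.Rec (grad)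
open Crest.Agent.T157.Eig
open Crest.Agent.T157.Xt (H1 Lip2)
open Crest.Agent.T157.S3 (Mx tau Dg Rg FreeM AnsAt Exc exs TS)
open Crest.Agent.T157.S3F (jac)
open Crest.Agent.T157.Rip (Cav Fl Sp)
open Ok35

namespace Dir12

variable {n : ℕ}

lemma grad_dot (w : Fin n → ℝ) (ψ : Cube n → Fin n → ℝ) (x : Cube n) :
    grad (fun σ => w ⬝ᵥ ψ σ) x = (jac ψ x)ᵀ *ᵥ w := by
  funext j
  rw [S3.Hb.grad_dot]
  exact sum_congr rfl fun k _ => mul_comm _ _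

lemma nrm_tr {M : Mx n} {C : ℝ} (h : opn M ≤ C) (w : Fin n → ℝ) : nrm (Mᵀ *ᵥ w) ≤ C * nrm w :=
  (nrm_mulVec_le _ _).trans (mul_le_mul_of_nonneg_right (by rwa [opn_transpose]) (nrm_nonneg _))

lemma quad_le {d : Fin n → ℝ} (hd : ∀ j, 0 ≤ d j ∧ d j ≤ 1) (g u : Fin n → ℝ) :
    g ⬝ᵥ (d * g) ≤ 2 * (u ⬝ᵥ (d * u)) + 2 * nrm (g - u) ^ 2 := by
  simp only [nrm_sq, dotProduct, Finset.mul_sum, ← Finset.sum_add_distrib, Pi.mul_apply, Pi.sub_apply]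
  refine Finset.sum_le_sum fun j _ => ?_
  obtain ⟨h0, h1⟩ := hd j
  nlinarith [mul_nonneg h0 (sq_nonneg (g j - 2 * u j)),
    mul_nonneg (sub_nonneg.2 h1) (sq_nonneg (g j - u j))]

lemma mk_exs {U : Finset (Fin n)} {e ρ : ℝ} (he : 0 ≤ e) (hρ : 0 ≤ ρ) (hU : (U.card : ℝ) ≤ ρ ^ 2)
    (v : Fin n → ℝ) : nrm (mk U v) ≤ e * ρ + exs e v := by
  refine nrm_mk_le (Ω := fun j => max (-e) (min e (v j))) (fun j => ?_) he hρ hU
    (nrm_mono fun j => ?_)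
  · exact abs_le.2 ⟨le_max_left _ _, max_le (by linarith) (min_le_left _ _)⟩
  · rw [abs_of_nonneg (le_max_right _ (0 : ℝ)), Pi.sub_apply]
    have := le_max_left (|v j| - e) 0
    have := le_max_right (|v j| - e) 0
    have := le_abs_self (v j)
    have := neg_abs_le (v j)
    rcases le_total e (v j) with h | h
    · rw [min_eq_left h, max_eq_right (by linarith), abs_le]; constructor <;> linarith
    · rw [min_eq_right h]
      rcases le_total (-e) (v j) with h' | h'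
      · rw [max_eq_right h', abs_le]; constructor <;> linarith
      · rw [max_eq_left h', abs_le]; constructor <;> linarith

lemma mk_flat {U : Finset (Fin n)} {m ε : ℝ} {v : Fin n → ℝ} (h : Fl m ε v) (he : 0 ≤ ε)
    (hU : (U.card : ℝ) ≤ m) : nrm (mk U v) ≤ ε := by
  have h1 := (le_abs_self _).trans (h (mk U v) ⟨U, hU, fun i hi => if_neg hi⟩)
  have e : mk U v ⬝ᵥ v = mk U v ⬝ᵥ mk U v :=
    sum_congr rfl fun j _ => by simp only [mk]; split_ifs <;> simp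
  rw [e, ← nrm_mul_self] at h1
  rcases (nrm_nonneg (mk U v)).eq_or_lt with h0 | h0
  · rwa [← h0]
  · exact le_of_mul_le_mul_right h1 h0

lemma ts_lip {e : ℝ} {G : Cube n → ℝ} (he : 0 ≤ e) (h : TS e G) : Lip2 √e G :=
  (Xt.lip2_iff (sqrt_nonneg _)).2 fun x => by rw [sq_sqrt he]; exact h x

lemma rg_mono {e e' L L' : ℝ} {Ω : Cube n → Fin n → ℝ} (h : Rg e L Ω) (he : e ≤ e') (hL : L ≤ L') :
    Rg e' L' Ω := fun x => ⟨(h x).1.trans he, (h x).2.1.trans he, (h x).2.2.1.trans hL,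
  (h x).2.2.2.trans (pow_le_pow_left₀ ((nrm_nonneg _).trans (h x).2.2.1) hL 2)⟩

/-- one direction after the splitting `w = u + z` -/
structure Sit (J : Mx n) (y : Fin n → ℝ) (a CN C0 C' e e1 η K0 x Cw Cp ew εw K δ es ρ : ℝ)
    (E : (Fin n → ℝ) → ℝ) (p q α : Fin n → ℝ) (ψ : Cube n → Fin n → ℝ) (T : Cube n → Mx n)
    (c u z : Fin n → ℝ) : Prop where
  hJ : opn J ≤ 3
  hb : Hb J y K
  an : AnsAt J y a CN C0 C' e e1 η K0 E p q α ψ T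
  hq : ∀ i, |q i| ≤ 2
  hα : ∀ i, |α i| ≤ CN
  a0 : 0 ≤ a
  a1 : a ≤ 1
  x0 : 0 ≤ x
  cn : 1 ≤ CN
  cp : 0 ≤ C0 * Cp
  c' : 0 ≤ C'
  e0 : 0 ≤ e
  e1' : e ≤ 1
  e10 : 0 ≤ e1
  cw : 1 ≤ Cw
  ew0 : 0 ≤ ew
  εw0 : 0 ≤ εw
  d0 : 0 < δ
  des : δ ≤ es
  es1 : es ≤ 1
  ρ0 : 0 ≤ ρ
  ρ1 : 1 ≤ ρ ^ 2
  k0 : 0 ≤ K0
  k1 : K0 ≤ ρ ^ 2
  n1 : 1000 * (K * e1) ≤ δ ^ 2
  n3 : 1000 * (CN * εw) ≤ δ ^ 2
  n4 : 100 * (C' * √e * Cw ^ 2) ≤ es
  n4' : 100 * (K * (ew + δ)) ≤ es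
  n5 : C' * e * Cw ^ 2 ≤ x + δ / 100
  hu : ‖u‖ ≤ η
  nu : nrm u ≤ 2 * Cw * ρ
  nz : nrm z ≤ εw * ρ
  Eu : E u ≤ 0.009 * (δ ^ 2 * ρ ^ 2)
  pu : C0 * (u ⬝ᵥ (p * u)) ≤ 2 * (C0 * Cp * x * ρ ^ 2) + 0.004 * (δ ^ 2 * ρ ^ 2)
  fj : ∀ U : Finset (Fin n), (U.card : ℝ) ≤ ρ ^ 2 →
    nrm (mk U (J *ᵥ (q * (u + z)) - x • c)) ≤ εw * ρ
  eq : nrm (α * (u + z) - J *ᵥ (q * (u + z)) - (J *ᵥ c - x • c)) ≤ ew * ρ

variable {J : Mx n} {y : Fin n → ℝ} {a CN C0 C' e e1 η K0 x Cw Cp ew εw K δ es ρ : ℝ}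
  {E : (Fin n → ℝ) → ℝ} {p q α : Fin n → ℝ} {ψ : Cube n → Fin n → ℝ} {T : Cube n → Mx n}
  {c u z : Fin n → ℝ}

namespace Sit

variable (h : Sit J y a CN C0 C' e e1 η K0 x Cw Cp ew εw K δ es ρ E p q α ψ T c u z)
include h

lemma d1 : δ ≤ 1 := h.des.trans h.es1
lemma dd : δ ^ 2 ≤ δ := by nlinarith [h.d0, h.d1]
lemma e1d : 1000 * e1 ≤ δ ^ 2 := by nlinarith [h.n1, h.hb.1, h.e10]
lemma εd : 1000 * εw ≤ δ ^ 2 := by nlinarith [h.n3, h.cn, h.εw0]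
lemma zT (σ : Cube n) : nrm ((T σ)ᵀ *ᵥ z) ≤ CN * εw * ρ :=
  (nrm_tr (h.an.opT σ) z).trans (by
    rw [mul_assoc]; exact mul_le_mul_of_nonneg_left h.nz (by linarith [h.cn]))
lemma zψ (σ : Cube n) : nrm (grad (fun σ => z ⬝ᵥ ψ σ) σ) ≤ CN * εw * ρ := by
  rw [grad_dot]
  exact (nrm_tr (h.an.opψ σ) z).trans (by
    rw [mul_assoc]; exact mul_le_mul_of_nonneg_left h.nz (by linarith [h.cn]))
lemma zJ : nrm (J *ᵥ (q * z)) ≤ 6 * (εw * ρ) := by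
  have h1 := Rip.nrm_mul_le zero_le_two h.hq z
  have h2 := (nrm_mulVec_le J (q * z)).trans (mul_le_mul_of_nonneg_right h.hJ (nrm_nonneg _))
  linarith [h.nz]
lemma uu : u ⬝ᵥ u ≤ 4 * (Cw ^ 2 * ρ ^ 2) := by
  have := (nrm_le_iff (by have := h.cw; have := h.ρ0; positivity)).1 h.nu
  linarith [show (2 * Cw * ρ) ^ 2 = 4 * (Cw ^ 2 * ρ ^ 2) by ring]
lemma gadd (σ : Cube n) : grad (fun σ => (u + z) ⬝ᵥ ψ σ) σ =
    grad (fun σ => u ⬝ᵥ ψ σ) σ + grad (fun σ => z ⬝ᵥ ψ σ) σ := by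
  rw [grad_dot, grad_dot, grad_dot, mulVec_add]
lemma zsq : (CN * εw * ρ) ^ 2 ≤ 0.000001 * (δ ^ 2 * ρ ^ 2) := by
  have h0 : 0 ≤ CN * εw := mul_nonneg (by linarith [h.cn]) h.εw0
  have h1 : (CN * εw) ^ 2 ≤ (δ / 1000) ^ 2 :=
    pow_le_pow_left₀ h0 (by linarith [h.n3, h.dd]) 2
  nlinarith [mul_le_mul_of_nonneg_right h1 (sq_nonneg ρ)]

lemma ver : ∃ (Ω Ω' : Cube n → Fin n → ℝ) (G : Cube n → ℝ), Rg δ (2 * CN * Cw * ρ) Ω ∧
    Rg δ (2 * CN * Cw * ρ) Ω' ∧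
    Lip2 δ G ∧ mean (ising J y) (fun σ => G σ ^ 2) ≤ δ ^ 2 * ρ ^ 2 ∧
    (∀ σ, nrm ((T σ)ᵀ *ᵥ (u + z) - Ω σ) ≤ G σ ∧
      nrm (grad (fun σ => (u + z) ⬝ᵥ ψ σ) σ - Ω' σ) ≤ G σ ∧ ∀ U : Finset (Fin n),
      (U.card : ℝ) ≤ ρ ^ 2 → nrm (Br.mk U (J *ᵥ (Dg J y σ * Ω σ) - x • c)) ≤ δ * ρ + G σ) ∧
    mean (ising J y) (fun σ => Ω σ ⬝ᵥ (Dg J y σ * Ω σ)) ≤ (100 * (C0 * Cp + 1) * x + δ) * ρ ^ 2 ∧
    mean (ising J y) (fun σ => Ω' σ ⬝ᵥ (Dg J y σ * Ω' σ)) ≤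
      (100 * (C0 * Cp + 1) * x + δ) * ρ ^ 2 := by
  obtain ⟨Ω, r1, ⟨G1, g1, p1, t1, m1⟩, G3, g3, p3, t3, m3⟩ := h.an.vf u h.hu
  obtain ⟨Ω', ⟨r2, ⟨G2, g2, p2, t2, m2⟩, -⟩, en⟩ := h.an.vg u h.hu
  obtain ⟨G4, g4, p4, -, m4⟩ := h.an.gf u h.hu
  have hw : Wt (ising J y) := .of_pos (ising_pos J y)
  have ρ0 := h.ρ0
  have d0 := h.d0
  have Eu := h.Eu
  have e1d := h.e1d
  have dd := h.dd
  have z0 : 0 ≤ CN * εw * ρ := (nrm_nonneg _).trans (h.zT default)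
  have hL : CN * nrm u ≤ 2 * CN * Cw * ρ := by
    nlinarith [mul_le_mul_of_nonneg_left h.nu (by linarith [h.cn] : 0 ≤ CN)]
  have D0 : 0 ≤ δ ^ 2 * ρ ^ 2 := by positivity
  have D1 : δ ^ 2 * ρ ^ 2 ≤ δ * ρ ^ 2 := mul_le_mul_of_nonneg_right dd (sq_nonneg _)
  have X0 : 0 ≤ x * ρ ^ 2 := mul_nonneg h.x0 (sq_nonneg _)
  have X1 : 0 ≤ C0 * Cp * x * ρ ^ 2 := by have := h.cp; have := h.x0; positivity
  have eE : (100 * (C0 * Cp + 1) * x + δ) * ρ ^ 2 =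
      100 * (C0 * Cp * x * ρ ^ 2) + 100 * (x * ρ ^ 2) + δ * ρ ^ 2 := by ring
  refine ⟨Ω, Ω', fun σ => G1 σ + G2 σ + G3 σ + CN * εw * ρ, rg_mono r1 (by linarith [h.e10]) hL,
    rg_mono r2 (by linarith [h.e10]) hL, ?_, ?_, fun σ => ⟨?_, ?_, fun U hU => ?_⟩, ?_, ?_⟩
  · refine ((((ts_lip h.e10 t1).add (ts_lip h.e10 t2)).add (ts_lip h.e10 t3)).add
      (Xt.lip2_const _)).mono ?_
    have : √e1 ≤ δ / 3 := sqrt_le_iff.2 ⟨by positivity, by nlinarith [h.e10]⟩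
    linarith
  · have := hw.mean_mono (f := fun σ => (G1 σ + G2 σ + G3 σ + CN * εw * ρ) ^ 2)
      (g := fun σ => 4 * G1 σ ^ 2 + 4 * G2 σ ^ 2 + 4 * G3 σ ^ 2 + 4 * (CN * εw * ρ) ^ 2) fun σ => by
        generalize CN * εw * ρ = t
        nlinarith [sq_nonneg (G1 σ - G2 σ), sq_nonneg (G1 σ - G3 σ), sq_nonneg (G1 σ - t),
          sq_nonneg (G2 σ - G3 σ), sq_nonneg (G2 σ - t), sq_nonneg (G3 σ - t)]
    simp only [mean_add, mean_const_mul, hw.mean_const] at this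
    linarith [h.zsq]
  · have := nrm_add_le ((T σ)ᵀ *ᵥ u - Ω σ) ((T σ)ᵀ *ᵥ z)
    rw [mulVec_add, add_sub_right_comm]
    linarith [g1 σ, h.zT σ, p2 σ, p3 σ]
  · have := nrm_add_le (grad (fun σ => u ⬝ᵥ ψ σ) σ - Ω' σ) (grad (fun σ => z ⬝ᵥ ψ σ) σ)
    rw [h.gadd, add_sub_right_comm]
    linarith [g2 σ, h.zψ σ, p1 σ, p3 σ]
  · have e0 : J *ᵥ (Dg J y σ * Ω σ) - x • c = J *ᵥ (Dg J y σ * Ω σ - q * u) +
        (J *ᵥ (q * (u + z)) - x • c) - J *ᵥ (q * z) := by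
      rw [mul_add, mulVec_add, mulVec_sub]; abel
    rw [e0, Ok35.mk_sub, Ok35.mk_add]
    have a1 := mk_exs h.e10 ρ0 hU (J *ᵥ (Dg J y σ * Ω σ - q * u))
    have a2 := h.fj U hU
    have a3 := (nrm_mk (C := U) _).trans h.zJ
    have a4 : (e1 + 7 * εw) * ρ ≤ δ * ρ :=
      mul_le_mul_of_nonneg_right (by linarith [h.εd, sq_nonneg δ]) ρ0
    refine (nrm_sub_le _ _).trans ((add_le_add (nrm_add_le _ _) le_rfl).trans ?_)
    linarith [g3 σ, p1 σ, p2 σ]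
  · have k1 := hw.mean_mono (f := fun σ => Ω σ ⬝ᵥ (Dg J y σ * Ω σ))
      (g := fun σ => 2 * (Ω' σ ⬝ᵥ (Dg J y σ * Ω' σ)) + 6 * G1 σ ^ 2 + 6 * G4 σ ^ 2 + 6 * G2 σ ^ 2)
      fun σ => by
        have b1 := quad_le (Dg_mem J y σ) (Ω σ) (Ω' σ)
        have b2 : nrm (Ω σ - Ω' σ) ≤ G1 σ + G4 σ + G2 σ := by
          have e0 : Ω σ - Ω' σ = grad (fun σ => u ⬝ᵥ ψ σ) σ - Ω' σ -
              (grad (fun σ => u ⬝ᵥ ψ σ) σ - (T σ)ᵀ *ᵥ u) - ((T σ)ᵀ *ᵥ u - Ω σ) := by abel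
          rw [e0]
          refine (nrm_sub_le _ _).trans ((add_le_add (nrm_sub_le _ _) le_rfl).trans ?_)
          linarith [g1 σ, g2 σ, g4 σ]
        have b3 := pow_le_pow_left₀ (nrm_nonneg _) b2 2
        nlinarith [sq_nonneg (G1 σ - G2 σ), sq_nonneg (G1 σ - G4 σ), sq_nonneg (G2 σ - G4 σ)]
    simp only [mean_add, mean_const_mul] at k1
    have k2 : C' * e * (u ⬝ᵥ u) ≤ 4 * (x * ρ ^ 2) + 0.04 * (δ * ρ ^ 2) := by
      have b1 := mul_le_mul_of_nonneg_left h.uu (mul_nonneg h.c' h.e0)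
      have b2 := mul_le_mul_of_nonneg_right h.n5 (sq_nonneg ρ)
      linarith
    rw [eE]
    linarith [h.pu]
  · rw [eE]
    linarith [h.pu]

lemma gf (v : Cube n → ℝ) (hv : Wt v) :
    mean v (fun σ => nrm (grad (fun σ => (u + z) ⬝ᵥ ψ σ) σ - (T σ)ᵀ *ᵥ (u + z)) ^ 2) ≤
      es * (ρ ^ 2 + kl v (ising J y)) := by
  obtain ⟨G4, g4, p4, t4, m4⟩ := h.an.gf u h.hu
  have hw : Wt (ising J y) := .of_pos (ising_pos J y)
  have H0 := kl0 (J := J) (y := y) hv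
  have k1 := hv.mean_mono
    (f := fun σ => nrm (grad (fun σ => (u + z) ⬝ᵥ ψ σ) σ - (T σ)ᵀ *ᵥ (u + z)) ^ 2)
    (g := fun σ => 2 * G4 σ ^ 2 + 8 * (CN * εw * ρ) ^ 2) fun σ => by
      have b2 : nrm (grad (fun σ => (u + z) ⬝ᵥ ψ σ) σ - (T σ)ᵀ *ᵥ (u + z)) ≤
          G4 σ + 2 * (CN * εw * ρ) := by
        rw [h.gadd, mulVec_add, add_sub_add_comm]
        refine (nrm_add_le _ _).trans ((add_le_add le_rfl (nrm_sub_le _ _)).trans ?_)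
        linarith [g4 σ, h.zT σ, h.zψ σ]
      have b3 := pow_le_pow_left₀ (nrm_nonneg _) b2 2
      nlinarith [sq_nonneg (G4 σ - 2 * (CN * εw * ρ))]
  simp only [mean_add, mean_const_mul, hv.mean_const] at k1
  have k2 := h.hb.2.2.1 G4 e1 p4 (fun σ => by
    simpa only [sq_sqrt h.e10] using (ts_lip h.e10 t4).vp σ) v hv
  have k3 := mean_sq_le hw G4
  have k4 : C' * e * (u ⬝ᵥ u) ≤ 0.04 * (es * ρ ^ 2) := by
    have b0 : e ≤ √e := le_sqrt_of_sq_le (by nlinarith [h.e0, h.e1'])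
    have b1 := mul_le_mul (mul_le_mul_of_nonneg_left b0 h.c') h.uu (Eig.dot_self_nonneg u)
      (mul_nonneg h.c' (sqrt_nonneg _))
    have b2 := mul_le_mul_of_nonneg_right h.n4 (sq_nonneg ρ)
    linarith
  have de : δ ^ 2 ≤ es := h.dd.trans h.des
  have k5 : δ ^ 2 * ρ ^ 2 ≤ es * ρ ^ 2 := mul_le_mul_of_nonneg_right de (sq_nonneg _)
  have k6 : K * e1 * (kl v (ising J y) + 1) ≤ es / 1000 * (kl v (ising J y) + ρ ^ 2) :=
    mul_le_mul (by linarith [h.n1]) (by linarith [h.ρ1]) (by linarith) (by linarith [sq_nonneg δ])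
  have k7 : 0 ≤ es * kl v (ising J y) := mul_nonneg (by linarith [sq_nonneg δ]) H0
  have k8 : 0 ≤ δ ^ 2 * ρ ^ 2 := by positivity
  linarith [h.zsq, h.Eu]

lemma dz (v : Cube n → ℝ) (hv : Wt v) : |mean v fun σ => z ⬝ᵥ T σ *ᵥ tau J y σ| ≤
    es / 1000 * (ρ ^ 2 + kl v (ising J y)) := by
  have H0 := kl0 (J := J) (y := y) hv
  have k1 : |mean v fun σ => z ⬝ᵥ T σ *ᵥ tau J y σ| ≤ CN * nrm z * √(kl v (ising J y) + K0) :=
    h.an.dv z (prob v) hv.isP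
  have k2 : ρ * √(kl v (ising J y) + K0) ≤ ρ ^ 2 + kl v (ising J y) := by
    have := sq_sqrt (add_nonneg H0 h.k0)
    nlinarith [sq_nonneg (ρ - √(kl v (ising J y) + K0)), h.k1]
  have k3 : CN * nrm z * √(kl v (ising J y) + K0) ≤ CN * (εw * ρ) * √(kl v (ising J y) + K0) :=
    mul_le_mul_of_nonneg_right (mul_le_mul_of_nonneg_left h.nz (by linarith [h.cn])) (sqrt_nonneg _)
  have k4 : CN * εw * (ρ * √(kl v (ising J y) + K0)) ≤ es / 1000 * (ρ ^ 2 + kl v (ising J y)) :=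
    mul_le_mul (by linarith [h.n3, h.dd, h.des]) k2 (mul_nonneg h.ρ0 (sqrt_nonneg _))
      (by linarith [h.d0, h.des])
  linarith

lemma eqn (v : Cube n → ℝ) (hv : Wt v) (R : Cube n → ℝ)
    (hR : R = fun σ => ((T σ)ᵀ *ᵥ (u + z)) ⬝ᵥ tau J y σ - a * ((u + z) ⬝ᵥ ψ σ) -
      (J *ᵥ c - x • c) ⬝ᵥ sv σ) :
    |mean v R - mean (ising J y) R| ≤ es * (ρ ^ 2 + kl v (ising J y)) := by
  have hw : Wt (ising J y) := .of_pos (ising_pos J y)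
  have H0 := kl0 (J := J) (y := y) hv
  have ρ0 := h.ρ0
  have d0 := h.d0
  have ew0 := h.ew0
  obtain ⟨r, hr⟩ : ∃ r, r = α * u - J *ᵥ (q * u) - (J *ᵥ c - x • c) := ⟨_, rfl⟩
  obtain ⟨G, hG⟩ : ∃ G : Cube n → ℝ, ∀ σ,
    G σ = u ⬝ᵥ T σ *ᵥ tau J y σ - a * (u ⬝ᵥ ψ σ) - (α * u - J *ᵥ (q * u)) ⬝ᵥ sv σ := ⟨_, fun _ => rfl⟩
  obtain ⟨g, hg⟩ : ∃ g : Cube n → ℝ, g = fun σ => r ⬝ᵥ sv σ - a * (z ⬝ᵥ ψ σ) := ⟨_, rfl⟩
  have eR : R = fun σ => G σ + z ⬝ᵥ T σ *ᵥ tau J y σ + g σ := by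
    funext σ
    have e1 : ((T σ)ᵀ *ᵥ (u + z)) ⬝ᵥ tau J y σ = (u + z) ⬝ᵥ T σ *ᵥ tau J y σ := by
      rw [dotProduct_mulVec, mulVec_transpose]
    simp only [hR, hG, hg, hr, e1, add_dotProduct, sub_dotProduct]
    ring
  have nr : nrm r ≤ ew * ρ + CN * (εw * ρ) + 6 * (εw * ρ) := by
    have e1 : r = α * (u + z) - J *ᵥ (q * (u + z)) - (J *ᵥ c - x • c) - α * z + J *ᵥ (q * z) := by
      rw [hr, mul_add, mul_add, mulVec_add]; abel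
    have b1 := (Rip.nrm_mul_le (by linarith [h.cn]) h.hα z).trans
      (mul_le_mul_of_nonneg_left h.nz (by linarith [h.cn]))
    rw [e1]
    refine (nrm_add_le _ _).trans ((add_le_add (nrm_sub_le _ _) le_rfl).trans ?_)
    linarith [h.eq, h.zJ]
  have lg : Lip2 (2 * ((ew + δ) * ρ)) g := Xt.lip2_of_grad fun σ => by
    rw [hg, Rec.grad_sub, Rec.grad_lin, Rec.grad_const_mul]
    have b1 : nrm (a • grad (fun σ => z ⬝ᵥ ψ σ) σ) ≤ CN * εw * ρ := by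
      rw [nrm_smul, abs_of_nonneg h.a0]
      exact (mul_le_of_le_one_left (nrm_nonneg _) h.a1).trans (h.zψ σ)
    have b2 : (2 * (CN * εw) + 6 * εw) * ρ ≤ δ * ρ :=
      mul_le_mul_of_nonneg_right (by linarith [h.n3, h.εd, h.dd]) ρ0
    refine (nrm_sub_le _ _).trans ?_
    linarith
  have θ0 : 0 < (ew + δ)⁻¹ := by positivity
  have u1 := S1n.h1_up (ising_pos J y) h.hb.2.1 lg hv θ0
  have u2 := S1n.h1_lo (ising_pos J y) h.hb.2.1 lg hv θ0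
  have eθ : kl v (ising J y) / (ew + δ)⁻¹ + K * (2 * ((ew + δ) * ρ)) ^ 2 * (ew + δ)⁻¹ =
      (ew + δ) * kl v (ising J y) + 4 * (K * (ew + δ) * ρ ^ 2) := by
    field_simp; ring
  rw [eθ] at u1 u2
  have u3 : (ew + δ) * kl v (ising J y) ≤ es / 100 * kl v (ising J y) :=
    mul_le_mul_of_nonneg_right (by nlinarith [h.n4', h.hb.1]) H0
  have u4 : K * (ew + δ) * ρ ^ 2 ≤ es / 100 * ρ ^ 2 :=
    mul_le_mul_of_nonneg_right (by linarith [h.n4']) (sq_nonneg _)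
  have k1 : |mean v G - mean (ising J y) G| ≤ C' * √e * (u ⬝ᵥ u + kl v (ising J y)) + E u +
      e1 * kl v (ising J y) := h.an.eq u h.hu (prob v) hv.isP G hG
  have k2 := h.dz v hv
  have k3 := h.dz _ hw
  rw [show kl (ising J y) (ising J y) = 0 from Ent.kl_self _] at k3
  have s0 : 0 ≤ C' * √e := mul_nonneg h.c' (sqrt_nonneg _)
  have k4 : C' * √e * (u ⬝ᵥ u) ≤ 0.04 * (es * ρ ^ 2) := by
    have b1 := mul_le_mul_of_nonneg_left h.uu s0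
    have b2 := mul_le_mul_of_nonneg_right h.n4 (sq_nonneg ρ)
    linarith
  have k5 : C' * √e * kl v (ising J y) ≤ es / 100 * kl v (ising J y) :=
    mul_le_mul_of_nonneg_right (by nlinarith [h.n4, mul_nonneg s0 (sub_nonneg.2 (one_le_pow₀ h.cw (n := 2)))]) H0
  have de : δ ^ 2 ≤ es := h.dd.trans h.des
  have k6 : e1 * kl v (ising J y) ≤ es / 1000 * kl v (ising J y) :=
    mul_le_mul_of_nonneg_right (by linarith [h.e1d]) H0
  have k7 : δ ^ 2 * ρ ^ 2 ≤ es * ρ ^ 2 := mul_le_mul_of_nonneg_right de (sq_nonneg _)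
  have k8 : 0 ≤ es * kl v (ising J y) := mul_nonneg (by linarith [sq_nonneg δ]) H0
  have k9 : 0 ≤ δ ^ 2 * ρ ^ 2 := by positivity
  rw [abs_le] at k1 k2 k3 ⊢
  simp only [eR, mean_add]
  constructor <;> linarith [k1.1, k1.2, k2.1, k2.2, k3.1, k3.2, h.Eu]

end Sit

end Dir12

open Dir12

set_option maxHeartbeats 800000 in
theorem dirStmt : DirStmt := by
  intro n κ _ _ J y ι a CN C0 C' e e1 η K0 K' C1 x Cw Cp ew εw m K δ es B0 R E p q α ψ T Ft Wm hJ hι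
    hb an cav hF hE hp a0 a1 x0 x1 cn c0 c' e0 e1' e10 η0 k0 c1 cw cp ew0 εw0 εw1 d0 des es1 b1 hκ hR hη
    n1 n2 kb n3 n4 n5
  have sp := fun c : κ → ℝ => sp_ex (ι := ι) hκ c
  have nw : ∀ c, nrm (Wm *ᵥ ex ι c) ≤ Cw * nrm c := fun c => by
    simpa only [nrm_ex hι] using cav.nr _ (sp c)
  have bb : ∀ c, CN * nrm (Wm *ᵥ ex ι c) ≤ 2 * CN * Cw * nrm c := fun c => by
    have b1 := mul_le_mul_of_nonneg_left (nw c) (by linarith : 0 ≤ CN)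
    have b2 : 0 ≤ CN * (Cw * nrm c) := by have := nrm_nonneg c; positivity
    linarith
  refine ⟨an.free, fun c σ => (nrm_tr (an.opT σ) _).trans (bb c), fun c σ => ?_,
    fun ρ c ρ0 hB hρ hc => ?_⟩
  · rw [grad_dot]; exact (nrm_tr (an.opψ σ) _).trans (bb c)
  have K1 := hb.1
  have c0' := nrm_nonneg c
  have nc : nrm (ex ι c) ≤ ρ := (nrm_ex hι c).trans_le hc
  have εc : εw * nrm (ex ι c) ≤ εw * ρ := mul_le_mul_of_nonneg_left nc εw0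
  have nw' : nrm (Wm *ᵥ ex ι c) ≤ Cw * ρ :=
    (nw c).trans (mul_le_mul_of_nonneg_left hc (by linarith))
  obtain ⟨z, -, nz, hz⟩ := (cav.fl _ (sp c)).split (mul_nonneg εw0 (nrm_nonneg _)) η0 (by
    have b1 := (nrm_le_iff (by positivity)).1 nw'
    linarith [mul_le_mul_of_nonneg_left hρ (sq_nonneg Cw)])
  obtain ⟨u, hu⟩ : ∃ u, u = Wm *ᵥ ex ι c - z := ⟨_, rfl⟩
  have ew' : Wm *ᵥ ex ι c = u + z := by rw [hu, sub_add_cancel]
  have nz' := nz.trans εc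
  have nu : nrm u ≤ 2 * Cw * ρ := by
    rw [hu]
    linarith [nrm_sub_le (Wm *ᵥ ex ι c) z, mul_le_mul_of_nonneg_right (εw1.trans cw) ρ0]
  have R0 := sq_nonneg ρ
  have m1 : 1000 * (Cw ^ 2 * e1) ≤ δ ^ 2 := by
    linarith [mul_nonneg (sub_nonneg.2 K1) (mul_nonneg (sq_nonneg Cw) e10)]
  have m3 : 1000 * ((CN + C0 + C1 + 1) * εw) ≤ δ ^ 2 := by
    linarith [mul_nonneg (sub_nonneg.2 K1) (mul_nonneg (by linarith : 0 ≤ CN + C0 + C1 + 1) εw0)]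
  have q1 : 0 ≤ CN * εw := by positivity
  have q2 : 0 ≤ C0 * εw := by positivity
  have q3 : 0 ≤ C1 * εw := by positivity
  have s0 : 0 ≤ C' * √e * Cw ^ 2 := by positivity
  have εε : εw ^ 2 ≤ εw := by linarith [mul_nonneg εw0 (sub_nonneg.2 εw1)]
  have H : Sit J y a CN C0 C' e e1 η K0 x Cw Cp ew εw K δ es ρ E p q α ψ T (ex ι c) u z := by
    refine ⟨hJ, hb, an, fun i => (hp i).2.2.1, fun i => (hp i).2.2.2, a0, a1, x0, cn,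
      mul_nonneg c0 cp, c', e0, e1', e10, cw, ew0, εw0, d0, des, es1, ρ0, b1.trans hB, k0,
      kb.trans hB, ?_, by linarith, ?_, ?_, n5,
      (pi_norm_le_iff_of_nonneg η0.le).2 fun i => by rw [hu]; exact hz i, nu, nz', ?_, ?_,
      fun U hU => ?_, ?_⟩
    · linarith [mul_nonneg (mul_nonneg (by linarith : 0 ≤ K) e10)
        (sub_nonneg.2 (one_le_pow₀ cw (n := 2)))]
    · linarith [mul_nonneg (sub_nonneg.2 K1) s0, mul_nonneg (by linarith : 0 ≤ K)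
        (by linarith : 0 ≤ ew + δ)]
    · linarith [mul_nonneg (by linarith : 0 ≤ K) s0]
    · have b1 := hE u (2 * (εw * ρ)) (by positivity) fun f hf => by
        have b2 := cav.ty _ (sp c) f hf
        have b3 := (abs_dot_le z f).trans (mul_le_of_le_one_right (nrm_nonneg _) (hF f hf))
        rw [hu, sub_dotProduct]
        exact (abs_sub _ _).trans (by linarith)
      have b2 := mul_le_mul_of_nonneg_left ((nrm_le_iff (by positivity)).1 nu) e10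
      have b3 := mul_le_mul_of_nonneg_right m1 R0
      have b4 := mul_le_mul_of_nonneg_left hB (sq_nonneg δ)
      have b5 : C1 * εw ^ 2 * ρ ^ 2 ≤ δ ^ 2 / 1000 * ρ ^ 2 := mul_le_mul_of_nonneg_right
        ((mul_le_mul_of_nonneg_left εε c1).trans (by linarith)) R0
      linarith
    · have b1 := quad_le (d := p) (fun i => ⟨(hp i).1, (hp i).2.1⟩) u (Wm *ᵥ ex ι c)
      have b2 : nrm (u - Wm *ᵥ ex ι c) ^ 2 ≤ (εw * ρ) ^ 2 := by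
        rw [hu, sub_sub_cancel_left, nrm_neg]; exact pow_le_pow_left₀ (nrm_nonneg _) nz' 2
      have b3 := (cav.en _ (sp c)).trans (mul_le_mul_of_nonneg_left ((nrm_le_iff ρ0).1 nc)
        (by positivity))
      have b4 : εw ^ 2 * ρ ^ 2 ≤ εw * ρ ^ 2 := mul_le_mul_of_nonneg_right εε R0
      have b5 : u ⬝ᵥ (p * u) ≤ 2 * (Cp * x * ρ ^ 2) + 4 * (εw * ρ ^ 2) := by linarith
      have b6 := mul_le_mul_of_nonneg_left b5 c0
      have b7 : C0 * εw * ρ ^ 2 ≤ δ ^ 2 / 1000 * ρ ^ 2 := mul_le_mul_of_nonneg_right (by linarith) R0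
      linarith
    · rw [← ew']
      exact (mk_flat (cav.fj _ (sp c)) (mul_nonneg εw0 (nrm_nonneg _)) (by linarith)).trans εc
    · rw [← ew']
      exact (cav.eq _ (sp c)).trans (mul_le_mul_of_nonneg_left nc ew0)
  rw [ew']
  exact ⟨H.ver, H.gf, H.eqn⟩

end Crest.Agent.T157.Br
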