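import Crest.Agent.T157.S3Def_69

/-!
# Row 157, part B, block S3 (helper69): the output at one instance and the family level glue
-/

set_option autoImplicit false
set_option linter.unusedVariables false

noncomputable section

namespace Crest.Agent.T157.S3

open Matrix Filter Finset
open Crest.Agent.T157.E (Cube sv ising mean prob)
open Crest.Agent.T157.Rec (grad)
open Crest.Agent.T157.Eig (nrm opn)
open Crest.Agent.T157.Chain22 (IsP)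
open Crest.Agent.T157.S3F (jac)
open Fam

section inst
variable {n : ℕ}

/-- the part of `u` above the level `e` -/
def exs (e : ℝ) (u : V n) : ℝ := nrm fun k => max (|u k| - e) 0

/-- `Ω` is a regular version of the field `U`; `J (D Ω - q w)` is flat -/
def Ver (J : Mx n) (y : V n) (e1 L B : ℝ) (qw : V n) (U Ω : Cube n → V n) : Prop :=
  Rg e1 L Ω ∧ Exc (ising J y) e1 B (fun x => nrm (U x - Ω x)) ∧
    Exc (ising J y) e1 B fun x => exs e1 (J *ᵥ (Dg J y x * Ω x - qw))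

/-- **the ansatz at one instance**: `φ_w = w·ψ`, `V_w = Tᵀ w`, `div V_w = w · T τ`; `E w` is the error
`e1 |w|² + K + C1 |Π w|²` -/
structure AnsAt (J : Mx n) (y : V n) (a C C0 C' e e1 η K : ℝ) (E : V n → ℝ) (p q α : V n)
    (ψ : Cube n → V n) (T : Cube n → Mx n) : Prop where
  free : FreeM T
  opψ : ∀ x, opn (jac ψ x) ≤ C
  opT : ∀ x, opn (T x) ≤ C
  /-- (a') -/
  dv : ∀ w ν, IsP ν → |Chain22.mean ν fun x => w ⬝ᵥ T x *ᵥ tau J y x| ≤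
    C * nrm w * √(Ent.kl ν (prob (ising J y)) + K)
  /-- (a), (b), (f'), (g') for the gradient -/
  vg : ∀ w, ‖w‖ ≤ η → ∃ Ω, Ver J y e1 (C * nrm w) (E w) (q * w) (grad fun x => w ⬝ᵥ ψ x) Ω ∧
    (mean (ising J y) fun x => Ω x ⬝ᵥ (Dg J y x * Ω x)) ≤ C0 * (w ⬝ᵥ (p * w)) + E w
  /-- the same for the flow -/
  vf : ∀ w, ‖w‖ ≤ η → ∃ Ω, Ver J y e1 (C * nrm w) (E w) (q * w) (fun x => (T x)ᵀ *ᵥ w) Ω
  /-- (c) -/
  gf : ∀ w, ‖w‖ ≤ η → Exc (ising J y) e1 (C' * e * (w ⬝ᵥ w) + E w)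
    fun x => nrm (grad (fun z => w ⬝ᵥ ψ z) x - (T x)ᵀ *ᵥ w)
  /-- (d) -/
  eq : ∀ w, ‖w‖ ≤ η → ∀ ν, IsP ν → ∀ G : Cube n → ℝ,
    (∀ x, G x = w ⬝ᵥ T x *ᵥ tau J y x - a * (w ⬝ᵥ ψ x) - (α * w - J *ᵥ (q * w)) ⬝ᵥ sv x) →
    |Chain22.mean ν G - mean (ising J y) G| ≤
      C' * √e * (w ⬝ᵥ w + Ent.kl ν (prob (ising J y))) + E w + e1 * Ent.kl ν (prob (ising J y))
  /-- (e) -/
  rs : ∀ w, ‖w‖ ≤ η → ∀ z ν, IsP ν →
    |Chain22.mean ν fun x => z ⬝ᵥ (Dg J y x * (T x)ᵀ *ᵥ w - q * w)| ≤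
      e1 * (z ⬝ᵥ z + Ent.kl ν (prob (ising J y))) + E w
  /-- (g) -/
  en : ∀ w, ‖w‖ ≤ η → (mean (ising J y) fun x => grad (fun z => w ⬝ᵥ ψ z) x ⬝ᵥ
    (Dg J y x * grad (fun z => w ⬝ᵥ ψ z) x)) ≤ C0 * (w ⬝ᵥ (p * w)) + E w

end inst

/-- `u ≤ c` up to a negligible error -/
def Le {F : Fam} (u c : F.Df) : Prop := Neg fun i k => max (u i k - c i k) 0

/-- the site energy of two top families -/
def en {F : Fam} {N P P' : ℕ} (R : Net F N) (Pb : Fin P → Fin P' → F.I → ℝ)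
    (a : Fin P → F.Lf (N + 1)) (a' : Fin P' → F.Lf (N + 1)) : F.Df :=
  fun i => ∑ l, ∑ m, Pb l m i • F.EV (R.ev (a l * a' m)) i

/-- the data of the ansatz -/
structure Tp {F : Fam} {N : ℕ} (R : Net F N) (P : ℕ) where
  Φ : Flow R P
  Γ : Flow R (N + 1)
  Pb : Fin P → Fin (N + 1) → F.I → ℝ
  Z : Fin P → F.Vf
  ψ : F.Lf (N + 1)
  t : Fin P → F.Lf (N + 1)
  A : F.Lf (N + 1)
  r : F.Lf (N + 1)
  P11 : Fin (N + 1) → Fin (N + 1) → F.I → ℝ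
  P12 : Fin (N + 1) → Fin P → F.I → ℝ
  P22 : Fin P → Fin P → F.I → ℝ
  PD : Fin (N + 1) → Fin (N + 1) → F.I → ℝ

/-- **what the model, (LL), (ID) and (BIL) deliver** -/
structure TopIn {F : Fam} {N P : ℕ} {R : Net F N} (d : Tp R P) (𝒯 : Set F.Df) (a C0 e : ℝ)
    (p q α : F.Df) : Prop where
  net : R.Ok
  ty : R.Ty 𝒯
  flow : d.Φ.Ok
  drift : d.Φ.IsDrift d.Γ d.Pb d.Z
  top : R.Top d.ψ
  tC : ∀ m, d.t m ∈ R.C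
  AC : d.A ∈ R.C
  hA : R.ev d.A = d.Φ.tA d.Pb d.Z (R.gs d.ψ) d.t
  rT : R.Top d.r
  hr : ∀ ω, R.ev d.r ω = R.ev d.A ω - a • R.ev d.ψ ω - α ω.1 * sv ω.2 + q ω.1 * R.X 0 ω
  bψ : ∀ m, Bil R 𝒯 (R.ev (R.pd m d.ψ))
  bt : ∀ m, Bil R 𝒯 (R.ev (d.t m))
  br : ∀ m, Bil R 𝒯 (R.ev (R.pd m d.r))
  hq : Neg fun i => F.EV (R.ev (R.D * R.gs d.ψ)) i - q i
  p11 : d.Γ.IsP d.Γ 1 d.P11
  p12 : d.Γ.IsP d.Φ 1 d.P12
  p22 : d.Φ.IsP d.Φ 1 d.P22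
  pD : d.Γ.IsP d.Γ R.D d.PD
  e1 : Le (fun i => en R d.P11 (fun m => R.pd m d.ψ) (fun m => R.pd m d.ψ) i -
    (2 : ℝ) • en R d.P12 (fun m => R.pd m d.ψ) d.t i + en R d.P22 d.t d.t i) fun _ _ => e
  er : Le (fun i => F.EV (R.ev (R.gs d.r * R.D * R.gs d.r)) i +
    en R d.PD (fun m => R.pd m d.r) (fun m => R.pd m d.r) i) fun _ _ => e
  eψ : Le (fun i => F.EV (R.ev (R.gs d.ψ * R.D * R.gs d.ψ)) i +
    en R d.PD (fun m => R.pd m d.ψ) (fun m => R.pd m d.ψ) i) fun i => C0 • p i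

/-- the ansatz along the family -/
def AnsFam (F : Fam) (𝒯 : Set F.Df) (a C0 C' e : ℝ) (p q α : F.Df) : Prop :=
  ∃ (C : ℝ) (ψ : F.Vf) (T : F.Mf), ∀ e1 > (0 : ℝ), ∃ η > (0 : ℝ), ∃ D : List F.Df,
    (∀ t ∈ D, t ∈ 𝒯) ∧ ∃ C1 : ℝ, ∀ᶠ i in F.l,
      AnsAt (F.J i) (F.y i) a C C0 C' e e1 η (F.K i) (E0 e1 C1 D i) (p i) (q i) (α i)
        (fun x => ψ ⟨i, x⟩) fun x => T ⟨i, x⟩

/-- the constant `C'` depends on the constants of the family only -/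
def AnsFStmt : Prop := ∀ K0 κ0 RJ : ℝ, 0 < κ0 → ∃ C' : ℝ, ∀ F : Fam, F.Ok →
  (∀ i, Atd.ATd (F.w i) K0 (Real.exp (-(κ0 * F.n i))) ∧ opn (F.J i) ≤ RJ) →
  ∀ (N P : ℕ) (R : Net F N) (d : Tp R P) (𝒯 : Set F.Df) (a C0 e : ℝ) (p q α : F.Df),
    0 ≤ C0 → 0 < e → e ≤ 1 → TopIn d 𝒯 a C0 e p q α → AnsFam F 𝒯 a (2 * C0) C' e p q α

/-- (f'): flatness of `J (D Ω - q w)`, for any top family with centred letters -/
def FlatStmt : Prop := ∀ (F : Fam) (N P : ℕ) (R : Net F N) (𝒯 : Set F.Df) (Φ : Flow R P)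
    (al : F.Lf (N + 1)) (a : Fin P → F.Lf (N + 1)) (q : F.Df),
  F.Ok → R.Ok → Φ.Ok → Φ.Let al a → (∀ m, Bil R 𝒯 (R.ev (a m))) →
  (Neg fun i => F.EV (R.ev (R.D * al)) i - q i) → ∀ C0 : ℝ, ∀ e > (0 : ℝ), ∃ e' > (0 : ℝ),
    ∃ D' : List F.Df, (∀ t ∈ D', t ∈ 𝒯) ∧ ∀ (D : List F.Df) (C : ℝ), ∃ C1 : ℝ, ∀ᶠ i in F.l,
      ∀ (w : V (F.n i)) (Ω : Cube (F.n i) → V (F.n i)), ‖w‖ ≤ e' → Rg e' (C0 * nrm w) Ω →
        Exc (F.w i) e' (E0 e' C D i w) (fun x => nrm ((Φ.tT al a ⟨i, x⟩)ᵀ *ᵥ w - Ω x)) →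
        Exc (F.w i) e (E0 e C1 (D ++ D') i w)
          (fun x => exs e (F.J i *ᵥ (Dg (F.J i) (F.y i) x * Ω x - q i * w))) ∧
        ∀ z, |mean (F.w i) fun x => z ⬝ᵥ (Dg (F.J i) (F.y i) x * Ω x - q i * w)| ≤
          e * (z ⬝ᵥ z) + E0 e C1 (D ++ D') i w

def FlatGlue : Prop := HBStmt → ClsStmt → J1Stmt → WXStmt → FlatStmt
def AnsFGlue : Prop := HBStmt → ClsStmt → J1Stmt → CLStmt → GRAMStmt → REGStmt → REGgStmt →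
  COLStmt → FlatStmt → AnsFStmt

end Crest.Agent.T157.S3

end
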