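import Crest.Agent.T157.S1Def_97
import Crest.Agent.T157.S3Ans_69
import Crest.Agent.T157.S3AnA_90
import Crest.Agent.T157.S3HbS_80

/-! Row 157, block B/S1 (helper90): the output of the ansatz for one weight vector. -/

set_option autoImplicit false

noncomputable section

namespace Crest.Agent.T157.S1

open Real Matrix Finset
open Crest.Agent.T157.E Crest.Agent.T157.SL
open Crest.Agent.T157.Rec (grad)
open Crest.Agent.T157.Eig
open Crest.Agent.T157.S3 (V Mx tau Dg hf TS Rg Exc AnsAt)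
open Crest.Agent.T157.S3F (jac opn_jac_mul)
open Crest.Agent.T157.Chain22 (IsP isP_prob')
open Crest.Agent.T157.S3.HB80 (se se_abs se_sq opn_jac_se opL_of_jac)
open Crest.Agent.T157.Atd (vp)

variable {n : ℕ}

namespace An90

theorem isP_wt {v : Cube n → ℝ} (h : Wt v) : IsP (prob v) :=
  ⟨fun x => div_nonneg (h.nn x) h.pos.le, by simp only [prob, ← sum_div]; exact div_self h.pos.ne'⟩

/-- the norm of a field with bounded Jacobian -/
theorem vp_nrm {u : Cube n → V n} {r : ℝ} (h : ∀ x, opn (jac u x) ≤ r) (x : Cube n) :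
    vp (fun x => nrm (u x)) x ≤ 4 * r ^ 2 := by
  have a0 := nrm_nonneg (u x)
  have g1 : nrm ((nrm (u x))⁻¹ • u x) ≤ 1 := by
    rw [nrm_smul, abs_of_nonneg (inv_nonneg.2 a0)]
    exact inv_mul_le_one_of_le₀ le_rfl a0
  have g2 : ((nrm (u x))⁻¹ • u x) ⬝ᵥ u x = nrm (u x) := by
    rw [smul_dotProduct, ← nrm_sq, smul_eq_mul, sq, ← mul_assoc, inv_mul_mul_self]
  refine ((opL_of_jac h).vp (Z := fun x => nrm (u x)) ((nrm (u x))⁻¹ • u x) fun y => ?_).trans ?_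
  · have := dot_le ((nrm (u x))⁻¹ • u x) (u y)
    have := mul_le_of_le_one_left (nrm_nonneg (u y)) g1
    linarith
  · have := (nrm_le_iff zero_le_one).1 g1
    nlinarith [mul_le_mul_of_nonneg_left this (sq_nonneg r)]

theorem vp_se {J : Mx n} (hJ : opn J ≤ 3) (y : V n) {e L : ℝ} {Ω : Cube n → V n} (h : Rg e L Ω)
    (x : Cube n) :
    vp (fun x => nrm ((fun k => se (hf J y x k)) * Ω x)) x ≤ 4 * (139 * e) ^ 2 :=
  vp_nrm (fun x => by
    have e0 := S3.An90.Rg.e0 h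
    refine (opn_jac_mul (a := fun x k => se (hf J y x k)) zero_le_one e0 (fun k => se_abs _)
      fun j => (norm_le_pi_norm (Ω x) j).trans (h x).1).trans ?_
    have a := opn_jac_se hJ y x
    have b := (h x).2.1
    have a0 := opn_nonneg (jac (fun x k => se (hf J y x k)) x)
    have d1 := mul_le_mul (add_le_add (le_refl 1) a) b (opn_nonneg _) (by positivity)
    have d2 := mul_le_mul (add_le_add (le_refl e) b) a a0 (by positivity)
    linarith) x

theorem se_dot (J : Mx n) (y : V n) (x : Cube n) (u : V n) :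
    nrm ((fun k => se (hf J y x k)) * u) ^ 2 = Dg J y x ⬝ᵥ (u * u) := by
  rw [nrm_sq]
  refine sum_congr rfl fun k _ => ?_
  simp only [Pi.mul_apply, Dg, ← se_sq]
  ring

end An90

open An90

/-- **`AnsAt` gives `AnsW`**; the certificate `(Ω, G)` depends on the weight only -/
theorem ansW (K0 κ0 : ℝ) (hκ : 0 < κ0) : ∃ Cb ≥ (1 : ℝ), ∀ (n : ℕ) (J : Mx n) (y0 : V n)
    (a C C0 C' e e1 η K : ℝ) (E : V n → ℝ) (p q al : V n) (ψ : Cube n → V n) (T : Cube n → Mx n),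
    opn J ≤ 3 → Bas J K0 κ0 y0 → AnsAt J y0 a C C0 C' e e1 η K E p q (al * q) ψ T →
    0 ≤ C' → 0 ≤ e → e1 ≤ 1 → ∀ w : V n, ‖w‖ ≤ η → ∃ (Ω : Cube n → V n) (G : Cube n → ℝ),
    ∀ l e2 K2 e' e1' CN K' : ℝ, nrm w ≤ l → E w ≤ e2 * l ^ 2 + K2 → 0 ≤ e2 → 0 ≤ K2 →
      Cb * (C' * (e + √e) + e1 + e2) ≤ e' → Cb * (e1 + e2) ≤ e1' → C ≤ CN → Cb * (K2 + 1) ≤ K' →
      AnsW J y0 a p al q e' e1' CN (2 * C0) K' w l (fun x => w ⬝ᵥ ψ x) (fun x => (T x)ᵀ *ᵥ w) Ω G := by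
  obtain ⟨C1, c1, -, H⟩ := S3.hbStmt K0 κ0 3 hκ
  obtain ⟨Cb, b1, b2⟩ : ∃ Cb : ℝ, 2 ≤ Cb ∧ 77284 * |C1| ≤ Cb :=
    ⟨2 + 77284 * |C1|, by linarith [abs_nonneg C1], by linarith⟩
  refine ⟨Cb, by linarith, fun n J y0 a C C0 C' e e1 η K E p q al ψ T hJ hB h hC' he he1 w hw => ?_⟩
  obtain ⟨Ω, ⟨hr, ⟨G, g1, g0, g2, g3⟩, hf⟩, hg⟩ := h.vg w hw
  refine ⟨Ω, G, fun l e2 K2 e' e1' CN K' hl hE he2 hK2 h1 h2 h3 h4 => ?_⟩
  have hp := Da.Gr.ising_pos J y0
  have n0 := nrm_nonneg w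
  have l0 : 0 ≤ l := n0.trans hl
  have ll : w ⬝ᵥ w ≤ l ^ 2 := (nrm_le_iff l0).1 hl
  have C0' : 0 ≤ C := (opn_nonneg _).trans (h.opψ default)
  have e0 := S3.An90.Rg.e0 hr
  have s0 := sqrt_nonneg e
  have t1 : 0 ≤ C' * e := mul_nonneg hC' he
  have t2 : 0 ≤ C' * √e := mul_nonneg hC' s0
  have cl : C * nrm w ≤ CN * l := mul_le_mul h3 hl n0 (C0'.trans h3)
  have u1 : Cb * e1 + 2 * e2 ≤ e1' := by nlinarith
  have u2 : Cb * e1 + 2 * e2 + 2 * (C' * e) + C' * √e ≤ e' := by nlinarith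
  have u3 : 2 * K2 + Cb ≤ K' := by nlinarith
  have u4 : e1 ≤ Cb * e1 := le_mul_of_one_le_left e0 (by linarith)
  have u5 : Cb * e1 ≤ Cb := mul_le_of_le_one_right (by linarith) he1
  have q0 := sq_nonneg l
  have hE' : E w ≤ e1' * l ^ 2 + K' := by nlinarith
  have kl0 : ∀ v, Wt v → 0 ≤ kl v (ising J y0) := fun v hv => S3.Hb.kl0 hp (isP_wt hv)
  have H2 : ∀ (Z : Cube n → ℝ) (A : ℝ), (∀ x, 0 ≤ Z x) → (∀ x, vp Z x ≤ A) → A ≤ 77284 * e1 →
      ∀ v, Wt v → (mean v fun x => Z x ^ 2) ≤ 2 * (mean (ising J y0) fun x => Z x ^ 2) +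
        Cb * e1 * (kl v (ising J y0) + 1) := fun Z A z0 hz hA v hv => by
    have a1 := (H n _ hp hB).1 Z A z0 hz _ (isP_wt hv)
    have a2 := S3.An90.msq (isP_prob' hp) Z
    have A0 : 0 ≤ A := (Atd.vp_nonneg Z default).trans (hz default)
    have a3 : C1 * A ≤ Cb * e1 := by
      nlinarith [mul_le_mul_of_nonneg_right (le_abs_self C1) A0,
        mul_le_mul_of_nonneg_left hA (abs_nonneg C1), mul_le_mul_of_nonneg_right b2 e0]
    have a4 := mul_le_mul_of_nonneg_right a3 (by linarith [kl0 v hv] : 0 ≤ kl v (ising J y0) + 1)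
    exact a1.trans (add_le_add (mul_le_mul_of_nonneg_left a2 zero_le_two) a4)
  refine ⟨fun σ => ?_, fun x j b => ?_, S3.An90.Rg.mono hr (by linarith) cl, g1,
    S3.Cls80.TS.mono g2 (by linarith), g3.trans hE', fun v hv => ?_, fun v hv R hR => ?_,
    S3.An90.Exc.mono hf (by linarith) hE' fun _ => sqrt_le_sqrt (sum_le_sum fun i _ =>
      mul_self_le_mul_self (le_max_right _ _) (max_le_max (by linarith) le_rfl)), fun v hv => ?_⟩
  · rw [S3.An90.grad_dot]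
    refine (nrm_mulVec_le _ _).trans (le_trans ?_ cl)
    rw [opn_transpose]
    exact mul_le_mul_of_nonneg_right (h.opψ σ) n0
  · simp only [mulVec, dotProduct, transpose_apply, h.free x _ j b]
  · obtain ⟨Z, z1, z0, z2, z3⟩ := h.gf w hw
    have a := H2 Z e1 z0 (S3.Cls80.TS.vp z2) (by linarith) v hv
    have b : (mean v fun σ => nrm (grad (fun x => w ⬝ᵥ ψ x) σ - (T σ)ᵀ *ᵥ w) ^ 2) ≤
        mean v fun x => Z x ^ 2 :=
      (isP_wt hv).mean_mono fun x => pow_le_pow_left₀ (nrm_nonneg _) (z1 x) 2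
    have k0 := kl0 v hv
    nlinarith [mul_le_mul_of_nonneg_left ll t1, mul_le_mul_of_nonneg_right u2 q0,
      mul_le_mul_of_nonneg_right u2 k0, mul_nonneg he2 k0, mul_nonneg t1 k0, mul_nonneg t2 k0,
      mul_nonneg t2 q0, mul_nonneg (e0.trans u4) q0]
  · have a := h.eq w hw _ (isP_wt hv) R fun x => by
      rw [hR, mul_assoc, dotProduct_mulVec w, ← mulVec_transpose]
    have k0 := kl0 v hv
    refine le_trans (b := C' * √e * (w ⬝ᵥ w + kl v (ising J y0)) + E w + e1 * kl v (ising J y0))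
      a ?_
    nlinarith [mul_le_mul_of_nonneg_left ll t2, mul_le_mul_of_nonneg_right u2 q0,
      mul_le_mul_of_nonneg_right u2 k0, mul_nonneg he2 k0, mul_nonneg t1 k0, mul_nonneg t1 q0,
      mul_nonneg he2 q0, mul_nonneg (e0.trans u4) q0, mul_le_mul_of_nonneg_right u4 k0]
  · have a := H2 _ _ (fun x => nrm_nonneg _) (vp_se hJ y0 hr) (by nlinarith) v hv
    have e3 : ∀ x, Ω x ⬝ᵥ (Dg J y0 x * Ω x) = Dg J y0 x ⬝ᵥ (Ω x * Ω x) := fun x =>
      sum_congr rfl fun k _ => by simp only [Pi.mul_apply]; ring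
    have e4 : w ⬝ᵥ (p * w) = p ⬝ᵥ (w * w) :=
      sum_congr rfl fun k _ => by simp only [Pi.mul_apply]; ring
    simp only [se_dot] at a
    simp only [e3, e4] at hg
    have k0 := kl0 v hv
    nlinarith [mul_le_mul_of_nonneg_right u1 q0, mul_le_mul_of_nonneg_right u1 k0,
      mul_nonneg he2 k0, mul_nonneg (e0.trans u4) q0]

end Crest.Agent.T157.S1

end
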