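import Crest.Agent.T157.OkA_35
import Crest.Agent.T157.S1An_90

/-!
# Row 157, block B, S1 (helper35): Stein families from the direction package
-/

set_option autoImplicit false
set_option linter.unusedVariables false
set_option linter.unusedSectionVars false
set_option maxHeartbeats 800000

noncomputable section

namespace Crest.Agent.T157.Br

open Real Matrix Function Finset
open Crest.Agent.T157.E Crest.Agent.T157.SL Crest.Agent.T157.Ta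
open Crest.Agent.T157.Rec (grad)
open Crest.Agent.T157.Eig
open Crest.Agent.T157.Xt (H1 Lip2)
open Crest.Agent.T157.S3 (Mx tau Dg Rg FreeM exs hf)
open Crest.Agent.T157.S3.HB80 (se)

namespace Ok35

variable {n : ℕ} {κ : Type} [Fintype κ] [DecidableEq κ]

lemma exs_nn (e : ℝ) (u : Fin n → ℝ) : 0 ≤ exs e u := nrm_nonneg _

lemma exc_eq (e : ℝ) (u : Fin n → ℝ) : exc e u = exs e u ^ 2 := by
  rw [exs, nrm_sq]; exact sum_congr rfl fun j _ => pow_two _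

lemma exs_le {e : ℝ} {u Ω : Fin n → ℝ} (C : Finset (Fin n)) (h : ∀ j, |Ω j| ≤ e) :
    exs e (mk C u) ≤ nrm (u - Ω) := nrm_mono fun j => by
  have h0 : 0 ≤ e := (abs_nonneg _).trans (h j)
  rw [abs_of_nonneg (le_max_right _ _), Pi.sub_apply]
  refine max_le ?_ (abs_nonneg _)
  have := abs_sub_abs_le_abs_sub (u j) (Ω j)
  simp only [mk]
  split_ifs
  · linarith [h j]
  · rw [abs_zero]; linarith [abs_nonneg (u j - Ω j)]

lemma exs_anti {e e' : ℝ} (h : e ≤ e') (u : Fin n → ℝ) : exs e' u ≤ exs e u := nrm_mono fun j => by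
  rw [abs_of_nonneg (le_max_right (|u j| - e') 0), abs_of_nonneg (le_max_right (|u j| - e) 0)]
  exact max_le_max (by linarith) le_rfl

lemma exs_half (e : ℝ) (u w : Fin n → ℝ) :
    exs (2 * e) (u + w) ≤ exs e u + exs (2 * e) ((2 : ℝ) • w) / 2 := by
  have e1 : exs (2 * e) ((2 : ℝ) • w) / 2 =
      nrm ((1 / 2 : ℝ) • fun k => max (|((2 : ℝ) • w) k| - 2 * e) 0) := by
    rw [nrm_smul, abs_of_pos (by norm_num : (0 : ℝ) < 1 / 2), exs]; ring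
  rw [e1]
  refine le_trans (nrm_mono fun j => ?_) (nrm_add_le _ _)
  simp only [Pi.add_apply, Pi.smul_apply, smul_eq_mul, abs_mul, abs_two]
  have h1 := le_max_left (|u j| - e) 0
  have h2 := le_max_right (|u j| - e) 0
  have h3 := le_max_left (2 * |w j| - 2 * e) 0
  have h4 := le_max_right (2 * |w j| - 2 * e) 0
  rw [abs_of_nonneg (le_max_right (|u j + w j| - 2 * e) 0)]
  exact le_trans (max_le (by linarith [abs_add_le (u j) (w j)]) (by linarith)) (le_abs_self _)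

lemma Vf_add (V : κ → Cube n → Fin n → ℝ) (a b : κ → ℝ) (x : Cube n) :
    Vf V (a + b) x = Vf V a x + Vf V b x := by
  simp only [Vf, Pi.add_apply, add_smul, sum_add_distrib]
lemma Vf_smul (V : κ → Cube n → Fin n → ℝ) (t : ℝ) (a : κ → ℝ) (x : Cube n) :
    Vf V (t • a) x = t • Vf V a x := by
  simp only [Vf, Pi.smul_apply, smul_eq_mul, Finset.smul_sum, smul_smul]
lemma Vf_single (V : κ → Cube n → Fin n → ℝ) (k : κ) (x : Cube n) :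
    Vf V (Pi.single k 1) x = V k x := by
  rw [Vf, sum_eq_single k (fun l _ h => by simp [h]) (by simp)]; simp

/-- a linear map is almost subadditive on half nets -/
lemma lin_half {L : (κ → ℝ) → Fin n → ℝ} (ha : ∀ a b, L (a + b) = L a + L b)
    (hs : ∀ (t : ℝ) a, L (t • a) = t • L a) (a r : κ → ℝ) :
    nrm (L (a + r)) ≤ nrm (L a) + nrm (L ((2 : ℝ) • r)) / 2 := by
  rw [ha, hs, nrm_smul, abs_two]
  linarith [nrm_add_le (L a) (L r)]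

lemma abs_app_le (u : Fin n → ℝ) (i : Fin n) : |u i| ≤ nrm u := by
  simpa [nrm_single] using abs_dot_le (Pi.single i 1) u

lemma se_mul_le (J : Mx n) (y : Fin n → ℝ) (σ : Cube n) (u : Fin n → ℝ) :
    nrm ((fun k => se (hf J y σ k)) * u) ≤ nrm u := by
  simpa using Rip.nrm_mul_le zero_le_one (fun k => S3.HB80.se_abs (hf J y σ k)) u

lemma dg_dot (J : Mx n) (y : Fin n → ℝ) (σ : Cube n) (u : Fin n → ℝ) :
    u ⬝ᵥ (Dg J y σ * u) = nrm ((fun k => se (hf J y σ k)) * u) ^ 2 := by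
  rw [S1.An90.se_dot]
  exact sum_congr rfl fun j _ => by simp only [Pi.mul_apply]; ring

variable {J : Mx n} {y : Fin n → ℝ} {ι : κ → Fin n} {C : Finset (Fin n)}
  {a x Ce CV δ es B0 R K ε ρ : ℝ} {ψ : Cube n → Fin n → ℝ} {T : Cube n → Mx n} {Wm : Mx n}

/-- the defect of the response on the small set -/
def Nm (J : Mx n) (y : Fin n → ℝ) (C : Finset (Fin n)) (ι : κ → Fin n) (V : κ → Cube n → Fin n → ℝ)
    (x : ℝ) (f : κ → ℝ) (σ : Cube n) : Fin n → ℝ :=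
  mk Cᶜ (J *ᵥ (Dg J y σ * Vf V f σ) - x • ex ι f)

lemma Nm_add (V : κ → Cube n → Fin n → ℝ) (σ : Cube n) (f g : κ → ℝ) :
    Nm J y C ι V x (f + g) σ = Nm J y C ι V x f σ + Nm J y C ι V x g σ := by
  rw [Nm, Nm, Nm, ← mk_add, Vf_add, ex_add, mul_add, mulVec_add, smul_add]; congr 1; abel
lemma Nm_smul (V : κ → Cube n → Fin n → ℝ) (σ : Cube n) (t : ℝ) (f : κ → ℝ) :
    Nm J y C ι V x (t • f) σ = t • Nm J y C ι V x f σ := by
  rw [Nm, Nm, ← mk_smul, Vf_smul, ex_smul, mul_smul_comm, mulVec_smul, smul_sub, smul_comm x t]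

/-- one direction -/
lemma fix (hF : Fm J y ι a x Ce CV δ es B0 R ψ T Wm) (hb : Hb J y K) (hJ : opn J ≤ 3)
    (hρ : 1 ≤ ρ) (h1 : B0 ≤ ρ ^ 2) (h2 : ρ ^ 2 ≤ 2 * R) (hU : (Cᶜ.card : ℝ) ≤ ρ ^ 2) (hδ : 0 < δ)
    {c : κ → ℝ} (hc : nrm c ≤ ρ) : ∃ G F : Cube n → ℝ, (∀ σ, 0 ≤ G σ ∧
      exs δ (Vf (Vm C ι T Wm) c σ) ≤ G σ ∧ nrm (Nm J y C ι (Vm C ι T Wm) x c σ) ≤ 4 * δ * ρ + 7 * G σ ∧
      nrm ((fun k => se (hf J y σ k)) * Vf (Vm C ι T Wm) c σ) ≤ F σ + G σ) ∧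
      ∀ v, Wt v → mean v (fun σ => G σ ^ 2) ≤ K * δ ^ 2 * kl v (ising J y) + 3 * K * δ ^ 2 * ρ ^ 2 ∧
        mean v (fun σ => F σ ^ 2) ≤
          2 * ((Ce * x + δ) * ρ ^ 2) + K * (4 * (139 * δ) ^ 2) * (kl v (ising J y) + 1) := by
  have ρ0 : 0 ≤ ρ := by linarith
  obtain ⟨Ω, Ω', G, hΩ, -, hL, hG, hp, hE, -⟩ := (hF.dir ρ c ρ0 h1 h2 hc).ver
  have G0 : ∀ σ, 0 ≤ G σ := fun σ => (nrm_nonneg _).trans (hp σ).1
  refine ⟨G, fun σ => nrm ((fun k => se (hf J y σ k)) * Ω σ), fun σ => ⟨G0 σ, ?_, ?_, ?_⟩,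
    fun v hv => ⟨G_sq hb G0 hL hG (by nlinarith) hv, ?_⟩⟩
  · rw [Vf_Vm]; exact (exs_le C (rg_sup hΩ σ)).trans (hp σ).1
  · obtain ⟨p1, -, p3⟩ := hp σ
    set W := (T σ)ᵀ *ᵥ Wm *ᵥ ex ι c with hW
    have m1 := nrm_mk_le (rg_sup hΩ σ) hδ.le ρ0 hU p1
    have j : ∀ u, nrm (mk Cᶜ (J *ᵥ (Dg J y σ * u))) ≤ 3 * nrm u := fun u =>
      (nrm_mk _).trans ((nrm_mulVec_le _ _).trans
        (mul_le_mul hJ (nrm_Dg J y σ u) (nrm_nonneg _) (by norm_num)))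
    have e1 : Nm J y C ι (Vm C ι T Wm) x c σ = mk Cᶜ (J *ᵥ (Dg J y σ * Ω σ) - x • ex ι c) +
        mk Cᶜ (J *ᵥ (Dg J y σ * (W - Ω σ))) - mk Cᶜ (J *ᵥ (Dg J y σ * mk Cᶜ W)) := by
      rw [Nm, Vf_Vm, ← hW, mk_compl (C := C) W, ← mk_add, ← mk_sub, mul_sub, mul_sub, mulVec_sub,
        mulVec_sub]
      congr 1; abel
    rw [e1]
    have := p3 Cᶜ hU
    linarith [nrm_sub_le (mk Cᶜ (J *ᵥ (Dg J y σ * Ω σ) - x • ex ι c) +
      mk Cᶜ (J *ᵥ (Dg J y σ * (W - Ω σ)))) (mk Cᶜ (J *ᵥ (Dg J y σ * mk Cᶜ W))),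
      nrm_add_le (mk Cᶜ (J *ᵥ (Dg J y σ * Ω σ) - x • ex ι c)) (mk Cᶜ (J *ᵥ (Dg J y σ * (W - Ω σ)))),
      j (W - Ω σ), j (mk Cᶜ W)]
  · set W := (T σ)ᵀ *ᵥ Wm *ᵥ ex ι c with hW
    have e1 : (fun k => se (hf J y σ k)) * W =
        (fun k => se (hf J y σ k)) * Ω σ + (fun k => se (hf J y σ k)) * (W - Ω σ) := by
      rw [← mul_add, add_sub_cancel]
    have e2 : nrm ((fun k => se (hf J y σ k)) * mk C W) ≤ nrm ((fun k => se (hf J y σ k)) * W) :=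
      nrm_mono fun j => by simp only [mk, Pi.mul_apply]; split_ifs; exacts [le_rfl, by rw [mul_zero, abs_zero]; exact abs_nonneg _]
    rw [Vf_Vm, ← hW]
    refine e2.trans ?_
    rw [e1]
    exact (nrm_add_le _ _).trans (add_le_add le_rfl ((se_mul_le J y σ _).trans (hp σ).1))
  · have h3 := hb.2.2.1 _ _ (fun σ => nrm_nonneg _) (S1.An90.vp_se hJ y hΩ) v hv
    have h4 := mean_sq_le (Wt.of_pos (ising_pos J y))
      fun σ => nrm ((fun k => se (hf J y σ k)) * Ω σ)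
    simp only [← dg_dot] at h4
    linarith

/-- the common hypotheses -/
structure Hs (J : Mx n) (y : Fin n → ℝ) (ι : κ → Fin n) (C : Finset (Fin n))
    (a x Ce CV δ es B0 R K ε ρ t : ℝ) (ψ : Cube n → Fin n → ℝ) (T : Cube n → Mx n) (Wm : Mx n) :
    Prop where
  hF : Fm J y ι a x Ce CV δ es B0 R ψ T Wm
  hb : Hb J y K
  hJ : opn J ≤ 3
  hι : Injective ι
  off : ∀ k, ι k ∉ C
  hρ : 1 ≤ ρ
  h1 : B0 ≤ ρ ^ 2
  h2 : ρ ^ 2 ≤ 2 * R
  hU : (Cᶜ.card : ℝ) ≤ ρ ^ 2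
  hδ : 0 < δ
  cv : 1 ≤ CV
  cx : 0 ≤ Ce * x
  hx : 0 ≤ x
  ρ0 : 0 ≤ ρ
  ρ2 : 1 ≤ ρ ^ 2
  hc : (Fintype.card κ : ℝ) ≤ ρ ^ 2
  δt : δ ≤ t
  tε : 10 ^ 7 * t ≤ ε
  t0 : 0 < t
  ε0 : 0 < ε
  kd : K * δ ^ 2 ≤ t ^ 2
  kd0 : 0 < K * δ ^ 2
  tt : 10 ^ 14 * t ^ 2 ≤ ε ^ 2
  t2 : 10 ^ 7 * t ^ 2 ≤ t

variable {t : ℝ}

lemma bdV (hF : Fm J y ι a x Ce CV δ es B0 R ψ T Wm) (f : κ → ℝ) (σ : Cube n) :
    nrm (Vf (Vm C ι T Wm) f σ) ≤ CV * nrm f := by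
  rw [Vf_Vm]; exact (nrm_mk _).trans (hF.bW f σ)

lemma yg {ε : ℝ} (ε0 : 0 < ε) (u g : ℝ) : u * (2 * g) ≤ ε / 2 * u ^ 2 + 2 / ε * g ^ 2 := by
  have : ε / 2 * u ^ 2 + 2 / ε * g ^ 2 - u * (2 * g) = (ε * u - 2 * g) ^ 2 / (2 * ε) := by
    field_simp; ring
  have h : 0 ≤ (ε * u - 2 * g) ^ 2 / (2 * ε) := by positivity
  linarith

lemma resp (h : Hs J y ι C a x Ce CV δ es B0 R K ε ρ t ψ T Wm) : ∃ a2 : Cube n → κ → ℝ,
    (∀ σ f, nrm f ≤ ρ → nrm (Nm J y C ι (Vm C ι T Wm) x f σ) ≤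
      2 * nrm (Nm J y C ι (Vm C ι T Wm) x (a2 σ) σ)) ∧ ∀ v, Wt v →
      2 / ε * mean v (fun σ => nrm (Nm J y C ι (Vm C ι T Wm) x (a2 σ) σ) ^ 2) ≤
        ε / 2 * (ρ ^ 2 + kl v (ising J y)) := by
  obtain ⟨hF, hb, hJ, hι, off, hρ, h1, h2, hU, hδ, cv, cx, hx, ρ0, ρ2, hc, δt, tε, t0, ε0, kd, kd0,
    tt, t2⟩ := h
  set V := Vm C ι T Wm with hV
  have bd' : ∀ f σ, nrm f ≤ ρ → nrm (Vf V f σ) ≤ CV * ρ := fun f σ hf =>
    (bdV hF f σ).trans (mul_le_mul_of_nonneg_left hf (by linarith))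
  have μ0 := ising_pos J y
  have fx := fun c hc => fix (C := C) (c := c) hF hb hJ hρ h1 h2 hU hδ hc
  obtain ⟨a2, ha2, hm2⟩ := net2 μ0 hρ hc (e := 98 * t ^ 2) (b := 326 * t ^ 2 * ρ ^ 2) (by positivity)
    (by positivity) (fun f σ => nrm (Nm J y C ι V x f σ)) (fun f σ => nrm (Nm J y C ι V x f σ))
    (fun f σ => nrm (Nm J y C ι V x f σ) ^ 2) (fun σ => ⟨3 * (CV * ρ) + x * ρ, fun f hf => by
      refine (nrm_mk _).trans ((nrm_sub_le _ _).trans (add_le_add ((nrm_mulVec_le _ _).trans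
        (mul_le_mul hJ ((nrm_Dg J y σ _).trans (bd' f σ hf)) (nrm_nonneg _) (by norm_num))) ?_))
      rw [nrm_smul, abs_of_nonneg hx, nrm_ex hι]
      exact mul_le_mul_of_nonneg_left hf hx⟩)
    (fun σ => lin_half (L := fun f => Nm J y C ι V x f σ) (Nm_add V σ) (Nm_smul V σ))
    fun c hc v hv => by
      obtain ⟨G, F, hp, hm⟩ := fx c hc
      have H0 := kl0 (J := J) (y := y) hv
      have p : ∀ σ, nrm (Nm J y C ι V x c σ) ^ 2 ≤ 32 * (δ ^ 2 * ρ ^ 2) + 98 * G σ ^ 2 := fun σ => by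
        have := pow_le_pow_left₀ (nrm_nonneg _) (hp σ).2.2.1 2
        linarith [sq_nonneg (4 * δ * ρ - 7 * G σ)]
      have := hv.mean_mono p
      rw [mean_add, hv.mean_const, mean_const_mul] at this
      have d2 : δ ^ 2 ≤ t ^ 2 := pow_le_pow_left₀ hδ.le δt 2
      linarith [(hm v hv).1, mul_le_mul_of_nonneg_right kd H0,
        mul_le_mul_of_nonneg_right kd (sq_nonneg ρ), mul_le_mul_of_nonneg_right d2 (sq_nonneg ρ)]
  have n2 : ∀ v, Wt v → 2 / ε * mean v (fun σ => nrm (Nm J y C ι V x (a2 σ) σ) ^ 2) ≤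
      ε / 2 * (ρ ^ 2 + kl v (ising J y)) := fun v hv => by
    have H0 := kl0 (J := J) (y := y) hv
    have := (hv.mean_mono fun σ => le_max_left (nrm (Nm J y C ι V x (a2 σ) σ) ^ 2) 0).trans (hm2 v hv)
    rw [div_mul_eq_mul_div, div_le_iff₀ ε0]
    linarith [mul_le_mul_of_nonneg_right tt H0, mul_le_mul_of_nonneg_right tt (sq_nonneg ρ),
      mul_nonneg (sq_nonneg t) H0, mul_nonneg (sq_nonneg t) (sq_nonneg ρ)]
  exact ⟨a2, fun σ => (ha2 σ).2, n2⟩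

lemma sf2 (h : Hs J y ι C a x Ce CV δ es B0 R K ε ρ t ψ T Wm)
    {v : Cube n → ℝ} {f : Cube n → κ → ℝ} (hv : Wt v) (hB : Bd ρ f) {ζ : Cube n → Fin n → ℝ}
    (hζ : ∀ σ, ∀ j ∈ C, ζ σ j = 0) :
    mean v (fun σ => ζ σ ⬝ᵥ J *ᵥ (Dg J y σ * Vf (Vm C ι T Wm) (f σ) σ) - ζ σ ⬝ᵥ XM ι x *ᵥ f σ) ≤
      ε * (ρ ^ 2 + kl v (ising J y) + mean v fun σ => ζ σ ⬝ᵥ ζ σ) := by
  obtain ⟨a2, ha2, n2⟩ := resp h
  obtain ⟨hF, hb, hJ, hι, off, hρ, h1, h2, hU, hδ, cv, cx, hx, ρ0, ρ2, hc, δt, tε, t0, ε0, kd, kd0,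
    tt, t2⟩ := h
  set V := Vm C ι T Wm with hV
  have bd' : ∀ f σ, nrm f ≤ ρ → nrm (Vf V f σ) ≤ CV * ρ := fun f σ hf =>
    (bdV hF f σ).trans (mul_le_mul_of_nonneg_left hf (by linarith))
  have μ0 := ising_pos J y
  have fx := fun c hc => fix (C := C) (c := c) hF hb hJ hρ h1 h2 hU hδ hc
  have p : ∀ σ, ζ σ ⬝ᵥ J *ᵥ (Dg J y σ * Vf V (f σ) σ) - ζ σ ⬝ᵥ XM ι x *ᵥ f σ ≤
      ε / 2 * (ζ σ ⬝ᵥ ζ σ) + 2 / ε * nrm (Nm J y C ι V x (a2 σ) σ) ^ 2 := fun σ => by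
    have e0 : mk Cᶜ (ζ σ) = ζ σ := by
      funext j
      simp only [mk, mem_compl]
      split_ifs with h
      exacts [(hζ σ j h).symm, rfl]
    have e1 : ζ σ ⬝ᵥ J *ᵥ (Dg J y σ * Vf V (f σ) σ) - ζ σ ⬝ᵥ XM ι x *ᵥ f σ =
        ζ σ ⬝ᵥ Nm J y C ι V x (f σ) σ := by
      rw [Nm, ← mk_dot, e0, XM_mv, dotProduct_sub]
    rw [e1, ← nrm_sq]
    exact (dot_le _ _).trans ((mul_le_mul_of_nonneg_left (ha2 σ _ (bd_nrm hB ρ0 σ))
      (nrm_nonneg _)).trans (yg ε0 _ _))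
  have := hv.mean_mono p
  rw [mean_add, mean_const_mul, mean_const_mul] at this
  have z0 := hv.mean_nonneg fun σ => Eig.dot_self_nonneg (ζ σ)
  have H0 := kl0 (J := J) (y := y) hv
  linarith [n2 v hv, mul_nonneg ε0.le z0, mul_nonneg ε0.le H0, mul_nonneg ε0.le (sq_nonneg ρ)]

lemma sf3 (h : Hs J y ι C a x Ce CV δ es B0 R K ε ρ t ψ T Wm)
    {v : Cube n → ℝ} {f : Cube n → κ → ℝ} (hv : Wt v) (hB : Bd ρ f) :
    mean v (fun σ => ∑ k, f σ k * (rw J C ι k ⬝ᵥ (Dg J y σ * Vm C ι T Wm k σ) - x)) ≤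
      ε * (ρ ^ 2 + kl v (ising J y)) := by
  obtain ⟨a2, ha2, n2⟩ := resp h
  obtain ⟨hF, hb, hJ, hι, off, hρ, h1, h2, hU, hδ, cv, cx, hx, ρ0, ρ2, hc, δt, tε, t0, ε0, kd, kd0,
    tt, t2⟩ := h
  set V := Vm C ι T Wm with hV
  have bd' : ∀ f σ, nrm f ≤ ρ → nrm (Vf V f σ) ≤ CV * ρ := fun f σ hf =>
    (bdV hF f σ).trans (mul_le_mul_of_nonneg_left hf (by linarith))
  have μ0 := ising_pos J y
  have fx := fun c hc => fix (C := C) (c := c) hF hb hJ hρ h1 h2 hU hδ hc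
  have p : ∀ σ, ∑ k, f σ k * (rw J C ι k ⬝ᵥ (Dg J y σ * V k σ) - x) ≤
      ε / 2 * ρ ^ 2 + 2 / ε * nrm (Nm J y C ι V x (a2 σ) σ) ^ 2 := fun σ => by
    set g := nrm (Nm J y C ι V x (a2 σ) σ) with hg
    have g0 : 0 ≤ g := nrm_nonneg _
    have q : ∀ k, ρ * |rw J C ι k ⬝ᵥ (Dg J y σ * V k σ) - x| ≤ 2 * g := fun k => by
      have e0 : mk C (Dg J y σ * V k σ) = Dg J y σ * V k σ := by
        funext j
        simp only [mk, Pi.mul_apply, hV, Vm]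
        split_ifs <;> simp
      have e1 : rw J C ι k ⬝ᵥ (Dg J y σ * V k σ) - x =
          Nm J y C ι V x (Pi.single k 1) σ (ι k) := by
        rw [rw_dot, e0, Nm, Vf_single, mk, if_pos (mem_compl.2 (off k)), Pi.sub_apply,
          Pi.smul_apply, ex_app hι]
        simp
      have h3 := ha2 σ (ρ • Pi.single k 1) (by
        rw [nrm_smul, nrm_single, abs_of_nonneg ρ0, mul_one])
      simp only [Nm_smul, nrm_smul, abs_of_nonneg ρ0] at h3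
      rw [e1]
      exact (mul_le_mul_of_nonneg_left (abs_app_le _ _) ρ0).trans h3
    have q2 : nrm (fun k => rw J C ι k ⬝ᵥ (Dg J y σ * V k σ) - x) ≤ 2 * g := by
      rw [nrm_le_iff (by positivity)]
      have ρp : 0 < ρ ^ 2 := by positivity
      refine le_of_mul_le_mul_left ?_ ρp
      rw [dotProduct, mul_sum]
      refine (sum_le_card_nsmul _ _ ((2 * g) ^ 2) fun k _ => ?_).trans ?_
      · have := pow_le_pow_left₀ (by positivity) (q k) 2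
        rw [mul_pow, sq_abs] at this
        linarith
      · rw [nsmul_eq_mul, card_univ]
        exact mul_le_mul_of_nonneg_right hc (sq_nonneg _)
    exact (dot_le (f σ) _).trans ((mul_le_mul (bd_nrm hB ρ0 σ) q2 (nrm_nonneg _) ρ0).trans (yg ε0 _ _))
  have := hv.mean_mono p
  rw [mean_add, hv.mean_const, mean_const_mul] at this
  have H0 := kl0 (J := J) (y := y) hv
  linarith [n2 v hv, mul_nonneg ε0.le H0]

lemma sf4 (h : Hs J y ι C a x Ce CV δ es B0 R K ε ρ t ψ T Wm)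
    {v : Cube n → ℝ} {f : Cube n → κ → ℝ} (hv : Wt v) (hB : Bd ρ f) :
    mean v (fun σ => exc ε (Vf (Vm C ι T Wm) (f σ) σ)) ≤ ε ^ 2 * (ρ ^ 2 + kl v (ising J y)) := by
  obtain ⟨hF, hb, hJ, hι, off, hρ, h1, h2, hU, hδ, cv, cx, hx, ρ0, ρ2, hc, δt, tε, t0, ε0, kd, kd0,
    tt, t2⟩ := h
  set V := Vm C ι T Wm with hV
  have bd' : ∀ f σ, nrm f ≤ ρ → nrm (Vf V f σ) ≤ CV * ρ := fun f σ hf =>
    (bdV hF f σ).trans (mul_le_mul_of_nonneg_left hf (by linarith))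
  have μ0 := ising_pos J y
  have fx := fun c hc => fix (C := C) (c := c) hF hb hJ hρ h1 h2 hU hδ hc
  obtain ⟨a4, ha4, hm4⟩ := net2 μ0 hρ hc (e := t ^ 2) (b := 3 * t ^ 2 * ρ ^ 2) (by positivity)
    (by positivity) (fun f σ => exs (2 * δ) (Vf V f σ)) (fun f σ => exs δ (Vf V f σ))
    (fun f σ => exs δ (Vf V f σ) ^ 2) (fun σ => ⟨CV * ρ, fun f hf => le_trans (nrm_mono fun j => by
      rw [abs_of_nonneg (le_max_right _ _)]
      exact max_le (by linarith) (abs_nonneg _)) (bd' f σ hf)⟩)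
    (fun σ a r => by simp only [Vf_add, Vf_smul]; exact exs_half δ _ _) fun c hc v hv => by
      obtain ⟨G, F, hp, hm⟩ := fx c hc
      have H0 := kl0 (J := J) (y := y) hv
      have := hv.mean_mono fun σ => pow_le_pow_left₀ (exs_nn _ _) (hp σ).2.1 2
      linarith [(hm v hv).1, mul_le_mul_of_nonneg_right kd H0,
        mul_le_mul_of_nonneg_right kd (sq_nonneg ρ)]
  have p : ∀ σ, exc ε (Vf V (f σ) σ) ≤ 4 * max (exs δ (Vf V (a4 σ) σ) ^ 2) 0 := fun σ => by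
    have h3 := (exs_anti (show 2 * δ ≤ ε by linarith) _).trans ((ha4 σ).2 _ (bd_nrm hB ρ0 σ))
    have := pow_le_pow_left₀ (exs_nn _ _) h3 2
    rw [exc_eq]
    linarith [le_max_left (exs δ (Vf V (a4 σ) σ) ^ 2) 0]
  have := hv.mean_mono p
  rw [mean_const_mul] at this
  have H0 := kl0 (J := J) (y := y) hv
  linarith [hm4 v hv, mul_le_mul_of_nonneg_right tt H0,
    mul_le_mul_of_nonneg_right tt (sq_nonneg ρ), mul_nonneg (sq_nonneg t) H0,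
    mul_nonneg (sq_nonneg t) (sq_nonneg ρ)]

lemma sf6 (h : Hs J y ι C a x Ce CV δ es B0 R K ε ρ t ψ T Wm)
    {v : Cube n → ℝ} {f : Cube n → κ → ℝ} (hv : Wt v) (hB : Bd ρ f) :
    mean v (fun σ => Vf (Vm C ι T Wm) (f σ) σ ⬝ᵥ (Dg J y σ * Vf (Vm C ι T Wm) (f σ) σ)) ≤
      16 * Ce * x * mean v (fun σ => f σ ⬝ᵥ f σ) + ε * (ρ ^ 2 + kl v (ising J y)) := by
  obtain ⟨hF, hb, hJ, hι, off, hρ, h1, h2, hU, hδ, cv, cx, hx, ρ0, ρ2, hc, δt, tε, t0, ε0, kd, kd0,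
    tt, t2⟩ := h
  set V := Vm C ι T Wm with hV
  have bd' : ∀ f σ, nrm f ≤ ρ → nrm (Vf V f σ) ≤ CV * ρ := fun f σ hf =>
    (bdV hF f σ).trans (mul_le_mul_of_nonneg_left hf (by linarith))
  have μ0 := ising_pos J y
  have fx := fun c hc => fix (C := C) (c := c) hF hb hJ hρ h1 h2 hU hδ hc
  obtain ⟨a6, ha6, hm6⟩ := net2 μ0 hρ hc (e := 7 * 10 ^ 5 * t ^ 2)
    (b := (16 * t + 7 * 10 ^ 5 * t ^ 2) * ρ ^ 2) (by positivity) (by positivity)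
    (fun f σ => nrm ((fun k => se (hf J y σ k)) * Vf V f σ))
    (fun f σ => nrm ((fun k => se (hf J y σ k)) * Vf V f σ))
    (fun f σ => 4 * nrm ((fun k => se (hf J y σ k)) * Vf V f σ) ^ 2 - 16 * Ce * x * ρ ^ 2)
    (fun σ => ⟨CV * ρ, fun f hf => (se_mul_le J y σ _).trans (bd' f σ hf)⟩)
    (fun σ => lin_half (L := fun f => (fun k => se (hf J y σ k)) * Vf V f σ)
      (fun a b => by rw [Vf_add, mul_add]) fun t a => by rw [Vf_smul, mul_smul_comm])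
    fun c hc v hv => by
      obtain ⟨G, F, hp, hm⟩ := fx c hc
      have H0 := kl0 (J := J) (y := y) hv
      have p : ∀ σ, 4 * nrm ((fun k => se (hf J y σ k)) * Vf V c σ) ^ 2 - 16 * Ce * x * ρ ^ 2 ≤
          8 * F σ ^ 2 + 8 * G σ ^ 2 - 16 * Ce * x * ρ ^ 2 := fun σ => by
        have := pow_le_pow_left₀ (nrm_nonneg _) (hp σ).2.2.2 2
        linarith [sq_nonneg (F σ - G σ)]
      have := hv.mean_mono p
      rw [mean_sub v (fun σ => 8 * F σ ^ 2 + 8 * G σ ^ 2), mean_add, hv.mean_const, mean_const_mul,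
        mean_const_mul] at this
      linarith [(hm v hv).1, (hm v hv).2, mul_le_mul_of_nonneg_right kd H0,
        mul_le_mul_of_nonneg_right kd (sq_nonneg ρ), mul_le_mul_of_nonneg_right δt (sq_nonneg ρ),
        mul_le_mul_of_nonneg_left ρ2 kd0.le, mul_nonneg (sq_nonneg t) H0,
        mul_nonneg (sq_nonneg t) (sq_nonneg ρ)]
  have p : ∀ σ, Vf V (f σ) σ ⬝ᵥ (Dg J y σ * Vf V (f σ) σ) ≤ 16 * Ce * x * (f σ ⬝ᵥ f σ) +
      max (4 * nrm ((fun k => se (hf J y σ k)) * Vf V (a6 σ) σ) ^ 2 - 16 * Ce * x * ρ ^ 2) 0 :=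
    fun σ => by
      set M := max (4 * nrm ((fun k => se (hf J y σ k)) * Vf V (a6 σ) σ) ^ 2 -
        16 * Ce * x * ρ ^ 2) 0 with hM
      have M0 : 0 ≤ M := le_max_right _ _
      have M1 : 4 * nrm ((fun k => se (hf J y σ k)) * Vf V (a6 σ) σ) ^ 2 -
        16 * Ce * x * ρ ^ 2 ≤ M := le_max_left _ _
      rw [dg_dot, ← nrm_sq (f σ)]
      have f1 := bd_nrm hB ρ0 σ
      rcases (nrm_nonneg (f σ)).eq_or_lt with h0 | h0
      · have : f σ = (0 : ℝ) • f σ := by rw [nrm_eq_zero.1 h0.symm, smul_zero]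
        rw [this, Vf_smul, zero_smul, mul_zero, zero_smul]
        simpa using M0
      · have h3 := (ha6 σ).2 ((ρ / nrm (f σ)) • f σ) (by
          rw [nrm_smul, abs_of_nonneg (by positivity), div_mul_cancel₀ _ h0.ne'])
        simp only [Vf_smul, mul_smul_comm, nrm_smul] at h3
        rw [abs_of_nonneg (by positivity), div_mul_eq_mul_div, div_le_iff₀ h0] at h3
        have h4 := pow_le_pow_left₀ (mul_nonneg ρ0 (nrm_nonneg _)) h3 2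
        have ρp : 0 < ρ ^ 2 := by positivity
        refine le_of_mul_le_mul_left ?_ ρp
        have f2 : nrm (f σ) ^ 2 ≤ ρ ^ 2 := pow_le_pow_left₀ h0.le f1 2
        linarith [mul_le_mul_of_nonneg_right M1 (sq_nonneg (nrm (f σ))),
          mul_le_mul_of_nonneg_left f2 M0]
  have := hv.mean_mono p
  rw [mean_add, mean_const_mul] at this
  have H0 := kl0 (J := J) (y := y) hv
  linarith [hm6 v hv, mul_le_mul_of_nonneg_right t2 H0,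
    mul_le_mul_of_nonneg_right t2 (sq_nonneg ρ), mul_le_mul_of_nonneg_right tε H0,
    mul_le_mul_of_nonneg_right tε (sq_nonneg ρ), mul_nonneg t0.le H0,
    mul_nonneg t0.le (sq_nonneg ρ)]

/-- **SF** for one family -/
theorem sf1 (hF : Fm J y ι a x Ce CV δ es B0 R ψ T Wm) (hb : Hb J y K) (hJ : opn J ≤ 3)
    (hs : Jᵀ = J) (hι : Injective ι) (off : ∀ k, ι k ∉ C) (hρ : 1 ≤ ρ) (h1 : B0 ≤ ρ ^ 2)
    (h2 : ρ ^ 2 ≤ 2 * R) (hU : (Cᶜ.card : ℝ) ≤ ρ ^ 2) (hδ : 0 < δ) (cv : 1 ≤ CV) (ce : 0 ≤ Ce)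
    (hx : 0 ≤ x) (hε : 10 ^ 7 * K * CV * δ ≤ ε) (ε1 : ε ≤ 1) :
    SF J y C (rw J C ι) (Vm C ι T Wm) (dv J y (Vm C ι T Wm)) (XM ι x) (fun _ => x) (16 * Ce * x)
      CV ε ρ := by
  have K1 := hb.1
  have ρ0 : 0 ≤ ρ := by linarith
  have ρ2 : 1 ≤ ρ ^ 2 := by nlinarith
  have hc : (Fintype.card κ : ℝ) ≤ ρ ^ 2 := le_trans (by exact_mod_cast card_le hι off) hU
  obtain ⟨t, ht⟩ : ∃ t, t = K * δ := ⟨_, rfl⟩
  have δt : δ ≤ t := by rw [ht]; nlinarith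
  have tε : 10 ^ 7 * t ≤ ε := by
    rw [ht]; nlinarith [mul_le_mul_of_nonneg_left cv (show 0 ≤ K * δ by positivity)]
  have t0 : 0 < t := by linarith
  have ε0 : 0 < ε := by linarith
  have kd : K * δ ^ 2 ≤ t ^ 2 := by
    rw [show K * δ ^ 2 = t * δ by rw [ht]; ring, pow_two]; exact mul_le_mul_of_nonneg_left δt t0.le
  have kd0 : 0 < K * δ ^ 2 := by positivity
  have tt : 10 ^ 14 * t ^ 2 ≤ ε ^ 2 := by nlinarith
  have t2 : 10 ^ 7 * t ^ 2 ≤ t := by nlinarith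
  have h : Hs J y ι C a x Ce CV δ es B0 R K ε ρ t ψ T Wm := ⟨hF, hb, hJ, hι, off, hρ, h1, h2, hU, hδ,
    cv, mul_nonneg ce hx, hx, ρ0, ρ2, hc, δt, tε, t0, ε0, kd, kd0, tt, t2⟩
  refine ⟨fun k σ j b => ?_, fun k σ j hj => if_neg hj, bdV hF, fun v f hv hf => ?_,
    fun v f ζ hv hf hζ => sf2 h hv hf hζ, fun v f hv hf => sf3 h hv hf,
    fun v f hv hf => sf4 h hv hf, fun v f hv hf => sf6 h hv hf⟩
  · simp only [Vm, mk, mulVec, dotProduct, transpose_apply, hF.free σ _ j b]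
  · have H0 := kl0 (J := J) (y := y) hv
    simp only [dot_dv, sub_self, hv.mean_const]
    positivity

end Ok35

/-- **SF** -/
theorem sfStmt : SfStmt := by
  intro n κ _ _ D Ce CV K δ es ψ ψ0 T T0 Wm W0 h ρ ⟨r0, r1, r2⟩
  have ρ1 : 1 ≤ ρ := by nlinarith [h.b1]
  have R0 : ρ ^ 2 ≤ 2 * D.R := by nlinarith
  have ε1 : D.ε ≤ 1 := by linarith [h.ε1, h.e1]
  rw [h.hV, h.hV0]
  exact ⟨Ok35.sf1 h.fa h.hb h.op h.symm h.inj h.off ρ1 r1 R0 (h.bU.trans r1) h.d0 h.cv h.ce h.xa.1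
      h.hε ε1,
    Ok35.sf1 h.f0 h.hb h.op h.symm h.inj h.off ρ1 r1 R0 (h.bU.trans r1) h.d0 h.cv h.ce h.b0.1
      h.hε ε1⟩

end Crest.Agent.T157.Br
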