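import Crest.Agent.T157.S3Def_69
import Crest.Agent.T157.Xtr_25
import Crest.Agent.T157.UeA_83

/-!
# Row 157, part B, block S1 (helper25): the mismatch functional is two-sided Lipschitz
-/

set_option autoImplicit false
set_option linter.unusedVariables false

noncomputable section

namespace Crest.Agent.T157.S1.F25

open Matrix Finset Real
open Crest.Agent.T157.E (Cube sv prob)
open Crest.Agent.T157.Rec (fl grad)
open Crest.Agent.T157.Eig
open Crest.Agent.T157.S3 (V Mx hf Rg TS)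
open Crest.Agent.T157.S3F (jac hsJ)
open Crest.Agent.T157.S3.Rg (fro fl_eq nrm_mono nrm_colsum fro_rows fro_le_of_sq nrm_sq')
open Crest.Agent.T157.Xt
open Crest.Agent.T157.Ue (abs_tanh_sub_le)
open Crest.Agent.T157.Da.Gr (hasDerivAt_tanh)

lemma mvt {f f' : ℝ → ℝ} (hf : ∀ x, HasDerivAt f (f' x) x) {b C : ℝ}
    (h : ∀ t, |t| ≤ |b| → |f' t| ≤ C) : |f b - f 0| ≤ C * |b| := by
  simpa using (convex_uIcc (0 : ℝ) b).norm_image_sub_le_of_norm_hasDerivWithin_le (C := C)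
    (fun t _ => (hf t).hasDerivWithinAt) (fun t ht => h t (by
      simpa using Set.abs_sub_left_of_mem_uIcc ht)) Set.left_mem_uIcc Set.right_mem_uIcc

lemma abs_tanh (x : ℝ) : |tanh x| ≤ 1 := abs_le.2 ⟨(neg_one_lt_tanh x).le, (tanh_lt_one x).le⟩

lemma sq_lip (x y : ℝ) : |tanh x ^ 2 - tanh y ^ 2| ≤ 2 * |x - y| := by
  rw [sq_sub_sq, abs_mul]
  exact mul_le_mul ((abs_add_le _ _).trans (by linarith [abs_tanh x, abs_tanh y]))
    (abs_tanh_sub_le _ _) (abs_nonneg _) zero_le_two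

lemma cub_lip (x y : ℝ) : |tanh x * (1 - tanh x ^ 2) - tanh y * (1 - tanh y ^ 2)| ≤ 2 * |x - y| := by
  rw [show tanh x * (1 - tanh x ^ 2) - tanh y * (1 - tanh y ^ 2) =
    (1 - (tanh x ^ 2 + tanh x * tanh y + tanh y ^ 2)) * (tanh x - tanh y) by ring, abs_mul]
  refine mul_le_mul (abs_le.2 ⟨?_, ?_⟩) (abs_tanh_sub_le _ _) (abs_nonneg _) zero_le_two
  · nlinarith [abs_le.1 (abs_tanh x), abs_le.1 (abs_tanh y), sq_nonneg (tanh x - tanh y)]
  · nlinarith [sq_nonneg (tanh x + tanh y), sq_nonneg (tanh x), sq_nonneg (tanh y)]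

lemma hd (x t : ℝ) : HasDerivAt (fun t => tanh (x + t)) (1 - tanh (x + t) ^ 2) t :=
  ((hasDerivAt_tanh (x + t)).comp t ((hasDerivAt_id' t).const_add x)).congr_deriv (mul_one _)

lemma tay1 (x ξ : ℝ) : |tanh (x + ξ) - tanh x - (1 - tanh x ^ 2) * ξ| ≤ 2 * ξ ^ 2 := by
  have := mvt (f := fun t => tanh (x + t) - (1 - tanh x ^ 2) * t) (b := ξ) (C := 2 * |ξ|)
    (fun t => ((hd x t).sub ((hasDerivAt_id' t).const_mul _)).congr_deriv
      (show _ = tanh x ^ 2 - tanh (x + t) ^ 2 by ring)) fun t ht => (sq_lip _ _).trans (by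
        rw [sub_add_cancel_left, abs_neg]; linarith)
  rw [mul_assoc, abs_mul_abs_self, ← sq, add_zero, mul_zero, sub_zero, sub_right_comm] at this
  exact this

lemma tay2 (x ξ : ℝ) :
    |tanh x ^ 2 - tanh (x + ξ) ^ 2 + 2 * (tanh x * (1 - tanh x ^ 2)) * ξ| ≤ 4 * ξ ^ 2 := by
  have := mvt (f := fun t => 2 * (tanh x * (1 - tanh x ^ 2)) * t - tanh (x + t) ^ 2) (b := ξ)
    (C := 4 * |ξ|) (fun t => (((hasDerivAt_id' t).const_mul _).sub ((hd x t).pow 2)).congr_deriv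
      (show _ = 2 * (tanh x * (1 - tanh x ^ 2) - tanh (x + t) * (1 - tanh (x + t) ^ 2)) by
        norm_num; ring)) fun t ht => by
      have := cub_lip x (x + t)
      rw [sub_add_cancel_left, abs_neg] at this
      rw [abs_mul, abs_two]; linarith
  rw [mul_assoc 4, abs_mul_abs_self, ← sq, add_zero] at this
  convert this using 2; ring

/-- the mismatch -/
def gg (h a : ℝ) : ℝ := tanh (h + a) - tanh h

lemma gg_le (h a : ℝ) : |gg h a| ≤ |a| := by simpa [gg] using abs_tanh_sub_le (h + a) h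

lemma gg_lip (h a δ ε : ℝ) : |gg (h + δ) (a + ε) - gg h a| ≤ 2 * |a| * |δ| + |ε| := by
  have h1 := mvt (f := fun t => tanh (h + a + t) - tanh (h + t)) (b := δ) (C := 2 * |a|)
    (fun t => (hd _ t).sub (hd _ t)) fun t _ => by
      have := sq_lip (h + t) (h + a + t)
      rw [show h + t - (h + a + t) = -a by ring, abs_neg] at this
      convert this using 2; ring
  have h2 := abs_tanh_sub_le (h + δ + (a + ε)) (h + a + δ)
  rw [show h + δ + (a + ε) - (h + a + δ) = ε by ring] at h2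
  simp only [add_zero] at h1
  refine le_trans (le_of_eq ?_) ((abs_add_le _ _).trans (add_le_add h1 h2))
  unfold gg; congr 1; ring

lemma gg_tay (h a δ ε : ℝ) : |gg (h + δ) (a + ε) - gg h a - (tanh h ^ 2 - tanh (h + a) ^ 2) * δ -
    (1 - tanh (h + a) ^ 2) * ε| ≤ 4 * δ ^ 2 * |a| + 2 * ε ^ 2 + 2 * |δ| * |ε| := by
  have h1 := mvt (f := fun t => tanh (h + δ + t) - tanh (h + t) + tanh (h + t) ^ 2 * δ) (b := a)
    (C := 4 * δ ^ 2) (fun t => (((hd _ t).sub (hd _ t)).add (((hd h t).pow 2).mul_const δ)).congr_deriv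
      (show _ = tanh (h + t) ^ 2 - tanh (h + t + δ) ^ 2 +
        2 * (tanh (h + t) * (1 - tanh (h + t) ^ 2)) * δ by rw [add_right_comm h t]; norm_num [mul_assoc]))
    fun t _ => tay2 _ _
  have h2 := tay1 (h + δ + a) ε
  have h3 : |(tanh (h + a) ^ 2 - tanh (h + δ + a) ^ 2) * ε| ≤ 2 * |δ| * |ε| := by
    have := sq_lip (h + a) (h + δ + a)
    rw [show h + a - (h + δ + a) = -δ by ring, abs_neg] at this
    rw [abs_mul]; exact mul_le_mul_of_nonneg_right this (abs_nonneg _)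
  simp only [add_zero] at h1
  refine le_trans (le_of_eq ?_) ((abs_add_three _ _ _).trans (add_le_add_three h1 h2 h3))
  unfold gg; rw [← add_assoc]; congr 1; ring

variable {n : ℕ}

/-- **general form**: fields `u`, `a`, `Ω`, weights `b` -/
theorem lip_gen {u a Ω : Cube n → V n} {b : V n} {Λ e R L M : ℝ} (hΛ : 1 ≤ Λ) (e1 : e ≤ 1)
    (L0 : 0 ≤ L) (hb : ∀ k, |b k| ≤ 1) (hu : ∀ x, opn (jac u x) ≤ Λ) (a1 : ∀ x, nrm (a x) ≤ R)
    (a2 : ∀ x, opn (jac a x) ≤ e) (a3 : ∀ x, hsJ a x ≤ L ^ 2) (o1 : ∀ x k, |Ω x k| ≤ e)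
    (o2 : ∀ x, opn (jac Ω x) ≤ e) (o3 : ∀ x, nrm (Ω x) ≤ M) :
    Lip2 (30 * Λ ^ 2 * e * (R + L + M)) fun x => ∑ k, b k * (gg (u x k) (a x k) * Ω x k) := by
  intro x
  have e0 : 0 ≤ e := (opn_nonneg _).trans (a2 x)
  have R0 : 0 ≤ R := (nrm_nonneg _).trans (a1 x)
  have M0 : 0 ≤ M := (nrm_nonneg _).trans (o3 x)
  set X := jac u x with hX
  set Y := jac a x with hY
  set Z := jac Ω x with hZ
  set A : Mx n := of fun k j => a x k * X k j with hA
  have fA : fro A ≤ R * Λ := (fro_rows (v := a x) (A := X) fun k j => (abs_mul _ _).le).trans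
    (mul_le_mul (a1 x) (hu x) (opn_nonneg _) R0)
  have fY : fro Y ≤ L := fro_le_of_sq L0 (a3 x)
  set v1 : V n := fun k => b k * ((tanh (u x k) ^ 2 - tanh (u x k + a x k) ^ 2) * Ω x k) with hv1
  set v2 : V n := fun k => b k * ((1 - tanh (u x k + a x k) ^ 2) * Ω x k) with hv2
  set v3 : V n := fun k => b k * gg (u x k) (a x k) with hv3
  have bb : ∀ k t, |b k * t| ≤ |t| := fun k t => by
    rw [abs_mul]; exact mul_le_of_le_one_left (abs_nonneg _) (hb k)
  have n1 : nrm v1 ≤ 2 * e * R := (nrm_mono (v := a x) (by positivity) fun k => (bb _ _).trans (by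
    have := sq_lip (u x k) (u x k + a x k)
    rw [sub_add_cancel_left, abs_neg] at this
    rw [abs_mul]
    exact (mul_le_mul this (o1 x k) (abs_nonneg _) (by positivity)).trans_eq (by ring))).trans
      (mul_le_mul_of_nonneg_left (a1 x) (by positivity))
  have n2 : nrm v2 ≤ M := (nrm_mono (v := Ω x) zero_le_one fun k => (bb _ _).trans (by
    rw [abs_mul]
    refine mul_le_mul_of_nonneg_right (abs_le.2 ⟨?_, ?_⟩) (abs_nonneg _) <;>
      nlinarith [abs_le.1 (abs_tanh (u x k + a x k))])).trans (by rw [one_mul]; exact o3 x)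
  have n3 : nrm v3 ≤ R := (nrm_mono (v := a x) zero_le_one fun k => (bb _ _).trans (by
    rw [one_mul]; exact gg_le _ _)).trans (by rw [one_mul]; exact a1 x)
  have tr : ∀ {P : Mx n} {v : V n} {c d : ℝ}, opn P ≤ c → nrm v ≤ d → nrm (Pᵀ *ᵥ v) ≤ c * d :=
    fun h1 h2 => (nrm_mulVec_le _ _).trans (mul_le_mul ((opn_transpose _).trans_le h1) h2
      (nrm_nonneg _) ((opn_nonneg _).trans h1))
  set cs : ℝ → Mx n → Mx n → V n := fun c P Q j => ∑ k, c * (|P k j| * |Q k j|) with hcs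
  have col : ∀ {c p q : ℝ} {P Q : Mx n}, 0 ≤ c → opn P ≤ p → fro Q ≤ q → nrm (cs c P Q) ≤ c * (p * q) :=
    fun {c p q P Q} hc h1 h2 => (nrm_colsum (R := of fun k j => c * (|P k j| * |Q k j|)) hc
      fun k j => (abs_of_nonneg (by rw [of_apply]; positivity)).le).trans (mul_le_mul_of_nonneg_left
        (mul_le_mul h1 h2 (S3.Rg.fro_nonneg _) ((opn_nonneg _).trans h1)) hc)
  set l : V n := Xᵀ *ᵥ v1 + Yᵀ *ᵥ v2 + Zᵀ *ᵥ v3 with hl
  set r : V n := cs (16 * e) X A + cs (8 * e) Y Y + cs (8 * e) X Y + cs 8 Z A + cs 4 Z Y with hr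
  have key : ∀ j, |(∑ k, b k * (gg (u x k) (a x k) * Ω x k)) - (∑ k, b k * (gg (u (fl x j) k)
      (a (fl x j) k) * Ω (fl x j) k)) - 2 * sv x j * l j| ≤ r j := fun j => by
    simp only [hl, hr, hcs, Pi.add_apply, mulVec, dotProduct, transpose_apply, mul_add, mul_sum,
      ← sum_add_distrib, ← sum_sub_distrib]
    refine (abs_sum_le_sum_abs _ _).trans (sum_le_sum fun k _ => ?_)
    have s1 : ∀ t, |-(2 * sv x j * t)| = 2 * |t| := fun t => by
      rw [abs_neg, abs_mul, abs_mul, S3.Rg.abs_sv, abs_two, mul_one]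
    have d1 : u (fl x j) k = u x k + -(2 * sv x j * X k j) := fl_eq (fun y => u y k) x j
    have d2 : a (fl x j) k = a x k + -(2 * sv x j * Y k j) := fl_eq (fun y => a y k) x j
    have d3 : Ω (fl x j) k = Ω x k + -(2 * sv x j * Z k j) := fl_eq (fun y => Ω y k) x j
    have h1 := gg_tay (u x k) (a x k) (-(2 * sv x j * X k j)) (-(2 * sv x j * Y k j))
    have h2 := gg_lip (u x k) (a x k) (-(2 * sv x j * X k j)) (-(2 * sv x j * Y k j))
    rw [← sq_abs (-(2 * sv x j * X k j)), ← sq_abs (-(2 * sv x j * Y k j))] at h1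
    rw [← d1, ← d2, s1, s1] at h1 h2
    have h3 := mul_le_mul h1 (o1 x k) (abs_nonneg _) (by positivity)
    have h4 := mul_le_mul h2 (s1 (Z k j)).le (abs_nonneg _) (by positivity)
    rw [← abs_mul] at h3 h4
    have h5 := (bb k _).trans ((abs_add_le _ _).trans (add_le_add h3 h4))
    rw [← abs_neg] at h5
    refine le_trans (le_of_eq ?_) (h5.trans (le_of_eq ?_))
    · rw [d3]; congr 1; ring
    · simp only [hA, of_apply, abs_mul]; ring
  have h1 : nrm (fun j => 2 * sv x j * l j) ≤ 2 * nrm l := nrm_mono zero_le_two fun j => by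
    rw [abs_mul, abs_mul, S3.Rg.abs_sv, abs_two, mul_one]
  have h2 := (nrm_mono zero_le_one fun j => (key j).trans ((le_abs_self _).trans_eq
    (one_mul _).symm)).trans_eq (one_mul _)
  have h3 := nrm_add_le (fun j => 2 * sv x j * l j) fun j => (∑ k, b k * (gg (u x k) (a x k) *
    Ω x k)) - (∑ k, b k * (gg (u (fl x j) k) (a (fl x j) k) * Ω (fl x j) k)) - 2 * sv x j * l j
  have h4 : nrm l ≤ _ := (nrm_add_le _ _).trans (add_le_add ((nrm_add_le _ _).trans
    (add_le_add (tr (hu x) n1) (tr (a2 x) n2))) (tr (o2 x) n3))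
  have h5 : nrm r ≤ _ := (nrm_add_le _ _).trans (add_le_add ((nrm_add_le _ _).trans (add_le_add
    ((nrm_add_le _ _).trans (add_le_add ((nrm_add_le _ _).trans (add_le_add
      (col (by positivity) (hu x) fA) (col (by positivity) ((a2 x).trans e1) fY)))
      (col (by positivity) (hu x) fY))) (col (by positivity) (o2 x) fA))) (col (by positivity) (o2 x) fY))
  refine le_trans (le_of_eq ?_) (h3.trans ?_)
  · congr 1; funext j; simp only [Pi.add_apply]; ring
  have q1 : Λ ≤ Λ ^ 2 := by nlinarith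
  have q2 : 1 ≤ Λ ^ 2 := hΛ.trans q1
  have eR := mul_nonneg e0 R0
  have eL := mul_nonneg e0 L0
  have eM := mul_nonneg e0 M0
  nlinarith [mul_le_mul_of_nonneg_left q1 eR, mul_le_mul_of_nonneg_left q2 eR,
    mul_le_mul_of_nonneg_left q1 eL, mul_le_mul_of_nonneg_left q2 eL, mul_le_mul_of_nonneg_left q2 eM]

/-- the functional `⟨c₁, Ω⟩` -/
def F1 (J : Mx n) (y0 d : V n) (A : Finset (Fin n)) (O Ω : Cube n → V n) (x : Cube n) : ℝ :=
  ∑ j ∈ A, (tanh (hf J y0 x j + d j + O x j) - tanh (hf J y0 x j)) * Ω x j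

lemma jac_hf (J : Mx n) (y : V n) (x : Cube n) : jac (hf J y) x = J := by
  have := S3F.jac_add (fun x => J *ᵥ sv x) (fun _ => y) x
  rwa [S3F.jac_mulVec, S3F.jac_sv, S3F.jac_const, Matrix.mul_one, add_zero] at this

theorem lip_F1 {J : Mx n} (hJ : opn J ≤ 3) (y0 d : V n) (A : Finset (Fin n)) {O Ω : Cube n → V n}
    {e1 ec L M : ℝ} (hO : Rg ec L O) (hΩ : Rg e1 M Ω) (h1 : e1 ≤ ec) (h2 : ec ≤ 1) :
    Lip2 (540 * ec * (nrm d + L + M)) (F1 J y0 d A O Ω) := by
  have L0 : 0 ≤ L := (nrm_nonneg _).trans (hO default).2.2.1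
  have M0 : 0 ≤ M := (nrm_nonneg _).trans (hΩ default).2.2.1
  have e0 : 0 ≤ ec := (norm_nonneg _).trans (hO default).1
  have ej : ∀ x, jac (fun x => d + O x) x = jac O x := fun x => by
    rw [S3F.jac_add (fun _ => d), S3F.jac_const, zero_add]
  have h := lip_gen (u := hf J y0) (a := fun x => d + O x) (Ω := Ω) (Λ := 3) (R := nrm d + L)
    (b := fun k => if k ∈ A then 1 else 0) (by norm_num) h2 L0 (fun k => by split_ifs <;> simp)
    (fun x => (jac_hf J y0 x).symm ▸ hJ) (fun x => (nrm_add_le _ _).trans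
      (add_le_add le_rfl (hO x).2.2.1)) (fun x => (ej x).symm ▸ (hO x).2.1)
    (fun x => by unfold hsJ; rw [ej]; exact (hO x).2.2.2)
    (fun x k => (norm_le_pi_norm (Ω x) k).trans ((hΩ x).1.trans h1)) (fun x => (hΩ x).2.1.trans h1)
    fun x => (hΩ x).2.2.1
  have e : F1 J y0 d A O Ω = fun x => ∑ k, (if k ∈ A then (1 : ℝ) else 0) *
      (gg (hf J y0 x k) ((d + O x) k) * Ω x k) := funext fun x => by
    simp only [F1, gg, ite_mul, one_mul, zero_mul, sum_ite_mem, univ_inter, Pi.add_apply, add_assoc]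
  rw [e]
  exact h.mono (by nlinarith [mul_nonneg e0 M0, mul_nonneg e0 (nrm_nonneg d)])

/-- replacement of the shift -/
lemma c2_le (A : Finset (Fin n)) (u p q Ω : V n) :
    |∑ j ∈ A, (tanh (u j + p j) - tanh (u j + q j)) * Ω j| ≤ nrm (p - q) * nrm Ω := by
  have h := abs_dot_le (fun j => if j ∈ A then tanh (u j + p j) - tanh (u j + q j) else 0) Ω
  simp only [dotProduct, ite_mul, zero_mul, sum_ite_mem, univ_inter] at h
  refine h.trans (mul_le_mul_of_nonneg_right ((nrm_mono zero_le_one fun j => ?_).trans_eq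
    (one_mul _)) (nrm_nonneg _))
  split_ifs
  · simpa using abs_tanh_sub_le (u j + p j) (u j + q j)
  · simp

lemma lip2_of_ts {A : ℝ} {G : Cube n → ℝ} (h : TS A G) : Lip2 (√A) G := fun x =>
  Real.le_sqrt_of_sq_le (by rw [nrm_sq']; exact h x)

section words
open Crest.Agent.T157.E (mean kl)
open Crest.Agent.T157.SL (Wt)
variable {w v p G : Cube n → ℝ} {K A : ℝ}

lemma sub_sqE (h : H1 w K) (hw : ∀ x, 0 < w x) (hK : 0 < K) (hG : Lip2 A G) (hv : Wt v) (hp : Wt p) :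
    (mean v G - mean p G) ^ 2 ≤ K * A ^ 2 * (16 * kl v w + 16 * kl p w + 12) :=
  h.sub_sq hw hK hG hv.isP hp.isP

/-- the AM-GM form -/
lemma abs_subE (h : H1 w K) (hw : ∀ x, 0 < w x) (hK : 0 < K) (hG : Lip2 A G) (hv : Wt v) (hp : Wt p)
    {t : ℝ} (ht : 0 < t) :
    |mean v G - mean p G| ≤ K * A ^ 2 / t + t * (4 * kl v w + 4 * kl p w + 3) := by
  have h1 := sub_sqE h hw hK hG hv hp
  have h2 : 0 ≤ kl v w := Ent.kl_nonneg hv.isP (Chain22.isP_prob' hw)
    (Ent.AC.of_pos _ (Chain22.prob_pos' hw))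
  have h3 : 0 ≤ kl p w := Ent.kl_nonneg hp.isP (Chain22.isP_prob' hw)
    (Ent.AC.of_pos _ (Chain22.prob_pos' hw))
  refine abs_le_of_sq_le_sq (h1.trans ?_) (by positivity)
  have e : K * A ^ 2 = K * A ^ 2 / t * t := (div_mul_cancel₀ _ ht.ne').symm
  generalize K * A ^ 2 / t = a at *
  rw [e]
  nlinarith [sq_nonneg (a - t * (4 * kl v w + 4 * kl p w + 3))]

lemma xferE (h : H1 w K) (hw : ∀ x, 0 < w x) (hK : 0 < K) (hA : 0 ≤ A) (hG : TS A G) (hv : Wt v)
    (hp : Wt p) : (mean p fun x => G x ^ 2) ≤ 4 * (mean v fun x => G x ^ 2) +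
      K * A * (32 * kl v w + 16 * kl p w + 18) := by
  have := h.xfer hw hK (lip2_of_ts hG) hv.isP hp.isP
  rwa [Real.sq_sqrt hA] at this

lemma f1_sub {J : Mx n} (hJ : opn J ≤ 3) (y0 d : V n) (S : Finset (Fin n)) {O Ω : Cube n → V n}
    {e1 ec L M : ℝ} (hO : Rg ec L O) (hΩ : Rg e1 M Ω) (h1 : e1 ≤ ec) (h2 : ec ≤ 1)
    (h : H1 w K) (hw : ∀ x, 0 < w x) (hK : 0 < K) (hv : Wt v) (hp : Wt p) :
    |mean v (F1 J y0 d S O Ω) - mean p (F1 J y0 d S O Ω)| ≤ ec * (874800 * K *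
      (nrm d ^ 2 + L ^ 2 + M ^ 2) + (4 * kl v w + 4 * kl p w + 3)) := by
  have e0 : 0 ≤ ec := (norm_nonneg _).trans (hO default).1
  have hl := lip_F1 hJ y0 d S hO hΩ h1 h2
  rcases e0.eq_or_lt with rfl | e0
  · simpa using sub_sqE h hw hK hl hv hp
  refine (abs_subE h hw hK hl hv hp e0).trans ?_
  rw [show K * (540 * ec * (nrm d + L + M)) ^ 2 / ec =
    ec * (291600 * K * (nrm d + L + M) ^ 2) by field_simp; ring, ← mul_add ec]
  refine mul_le_mul_of_nonneg_left (add_le_add ?_ le_rfl) e0.le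
  nlinarith [mul_nonneg hK.le (sq_nonneg (nrm d - L)), mul_nonneg hK.le (sq_nonneg (nrm d - M)),
    mul_nonneg hK.le (sq_nonneg (L - M))]

end words

end Crest.Agent.T157.S1.F25

end
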