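import Crest.Agent.T157.S1SupDef_30
import Crest.Agent.T157.S1W_6
import Crest.Agent.T157.S1Cr_89
import Crest.Agent.T157.S1F1_25

/-!
# Row 157, block S1 (helper30): the supply `BSup` of the act B from two families
-/

set_option autoImplicit false
set_option maxHeartbeats 800000

noncomputable section

namespace Crest.Agent.T157.S1

open Real Matrix Finset
open Crest.Agent.T157.E Crest.Agent.T157.SL
open Crest.Agent.T157.Rec (grad fl)
open Crest.Agent.T157.Eig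
open Crest.Agent.T157.S3 (V Mx AnsAt Rg TS)
open Crest.Agent.T157.S3F (jac)
open Crest.Agent.T157.Rip (Cav Sp Fl)
open Crest.Agent.T157.Xt (H1 Lip2)

namespace Sup30

variable {n : ℕ} {κ : Type} [Fintype κ]

lemma ex_apply (ι : κ → Fin n) (c : κ → ℝ) (i : Fin n) :
    Br.ex ι c i = ∑ k, if ι k = i then c k else 0 := by
  simp [Br.ex, Br.XM, mulVec, dotProduct]

lemma ex_dot (ι : κ → Fin n) (c : κ → ℝ) (y : V n) : Br.ex ι c ⬝ᵥ y = ∑ k, c k * y (ι k) := by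
  simp only [dotProduct, ex_apply, sum_mul, ite_mul, zero_mul]
  rw [sum_comm]
  simp only [sum_ite_eq, mem_univ, if_true]

lemma sq_ex [DecidableEq κ] {ι : κ → Fin n} (h : Function.Injective ι) (c : κ → ℝ) :
    Br.ex ι c ⬝ᵥ Br.ex ι c = c ⬝ᵥ c := by
  rw [ex_dot]
  simp only [ex_apply, h.eq_iff, sum_ite_eq', mem_univ, if_true, dotProduct]

lemma sp_ex {B : Finset (Fin n)} {m : ℝ} (h : (#B : ℝ) ≤ m) (c : B → ℝ) :
    Sp m (Br.ex (Subtype.val : B → Fin n) c) :=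
  ⟨B, h, fun i hi => by
    rw [ex_apply]; exact sum_eq_zero fun k _ => if_neg fun e : k.1 = i => hi (e ▸ k.2)⟩

lemma dot_φm (ι : κ → Fin n) (ψ : Cube n → V n) (Wm : Mx n) (c : κ → ℝ) (x : Cube n) :
    c ⬝ᵥ Br.φm ι ψ Wm x = (Wm *ᵥ Br.ex ι c) ⬝ᵥ ψ x := by
  rw [dotProduct_comm (Wm *ᵥ _), dotProduct_mulVec, dotProduct_comm (_ ᵥ* _), ex_dot]
  refine sum_congr rfl fun k _ => ?_
  rw [Br.φm, dotProduct_comm (Wm *ᵥ _), dotProduct_mulVec, dotProduct_single, mul_one]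

lemma nrm_grad_dot {ψ : Cube n → V n} {C : ℝ} (h : ∀ x, opn (jac ψ x) ≤ C) (z : V n) (x : Cube n) :
    nrm (grad (fun y => z ⬝ᵥ ψ y) x) ≤ C * nrm z := by
  have e : grad (fun y => z ⬝ᵥ ψ y) x = (jac ψ x)ᵀ *ᵥ z := by
    funext j
    simp only [grad, SL.incr, dotProduct, ← sum_sub_distrib, sum_div, mulVec, transpose_apply, jac,
      of_apply]
    exact sum_congr rfl fun k _ => by ring
  rw [e]
  exact (nrm_mulVec_le _ _).trans
    (mul_le_mul_of_nonneg_right (by rw [opn_transpose]; exact h x) (nrm_nonneg _))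

/-- sparse blocks of the couplings are small -/
lemma blk {J : Mx n} {m ε : ℝ} (h : ∀ c, Sp m c → Fl m (ε * nrm c) (J *ᵥ c)) (he : 0 ≤ ε)
    {U : Finset (Fin n)} (hU : (#U : ℝ) ≤ m) {u : V n} (hu : Sp m u) :
    ∑ i ∈ U, (J *ᵥ u) i ^ 2 ≤ ε ^ 2 * (u ⬝ᵥ u) := by
  set v : V n := fun i => if i ∈ U then (J *ᵥ u) i else 0 with hv
  have e1 : v ⬝ᵥ v = ∑ i ∈ U, (J *ᵥ u) i ^ 2 := by
    simp only [dotProduct, hv, ite_mul, zero_mul, mul_ite, mul_zero]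
    rw [← sum_filter, filter_mem_eq_inter, univ_inter]
    exact sum_congr rfl fun i hi => by rw [if_pos hi, sq]
  have e2 : v ⬝ᵥ (J *ᵥ u) = v ⬝ᵥ v := sum_congr rfl fun i _ => by
    by_cases hi : i ∈ U <;> simp [hv, hi]
  have h1 := (le_abs_self _).trans (h u hu v ⟨U, hU, fun i hi => if_neg hi⟩)
  rw [e2, ← nrm_mul_self] at h1
  have h0 : 0 ≤ ε * nrm u := mul_nonneg he (nrm_nonneg _)
  have h2 : nrm v ≤ ε * nrm u := by
    rcases (nrm_nonneg v).eq_or_lt with h0' | h0'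
    · rw [← h0']; exact h0
    · exact le_of_mul_le_mul_right h1 h0'
  rw [← e1, ← nrm_sq, ← nrm_sq, ← mul_pow]
  exact pow_le_pow_left₀ (nrm_nonneg _) h2 2

/-- the size of the density with respect to the base -/
lemma size {D : Dat n} (h : D.Ok) (s : St n) (y0 : V n) (x : Cube n) :
    prob (nu D s) x ≤ exp (Dz D s + 2 * (√n * nrm (s.y - y0))) * prob (ising D.J y0) x := by
  set A := √n * nrm (s.y - y0)
  have hA : ∀ σ : Cube n, |(s.y - y0) ⬝ᵥ sv σ| ≤ A := fun σ => by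
    refine (abs_dot_le _ _).trans (le_of_eq ?_)
    rw [mul_comm]; congr 1
    simp [nrm, dotProduct, Rec.sv_mul_self]
  have e : ∀ σ, ising D.J s.y σ = ising D.J y0 σ * exp ((s.y - y0) ⬝ᵥ sv σ) := fun σ => by
    rw [← tilt, tilt_ising, add_sub_cancel]
  have Z0 := (C89.wt_is D.J y0).pos
  have Z1 := (C89.wt_is D.J s.y).pos
  have hm := C89.mean_pos (s := s) h
  have h1 : exp (-A) * ∑ σ, ising D.J y0 σ ≤ ∑ σ, ising D.J s.y σ := by
    rw [mul_sum]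
    refine sum_le_sum fun σ _ => ?_
    rw [e, mul_comm]
    exact mul_le_mul_of_nonneg_left (exp_le_exp.2 (abs_le.1 (hA σ)).1) (C89.is_pos _ _ _).le
  have h2 : nu D s x ≤ ising D.J y0 x * exp A * exp D.T0 := by
    rw [nu, loc, e]
    refine mul_le_mul ((mul_le_of_le_one_right (mul_pos (C89.is_pos _ _ _) (exp_pos _)).le
      (C89.ell_le h x)).trans (mul_le_mul_of_nonneg_left (exp_le_exp.2 (abs_le.1 (hA x)).2)
      (C89.is_pos _ _ _).le)) (h.fle x) (h.fpos x).le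
      (mul_pos (C89.is_pos _ _ _) (exp_pos _)).le
  rw [prob, prob, C89.Z_nu, Dz, exp_add, exp_sub, exp_log hm, div_le_iff₀ (mul_pos Z1 hm)]
  refine h2.trans ?_
  have e2 : exp (2 * A) * exp (-A) = exp A := by rw [← exp_add]; congr 1; ring
  have h3 := mul_le_mul_of_nonneg_left h1 (show 0 ≤ exp D.T0 * exp (2 * A) *
    (ising D.J y0 x / ∑ σ, ising D.J y0 σ) from
      mul_nonneg (by positivity) (div_pos (C89.is_pos _ _ _) Z0).le)
  calc _ = exp D.T0 * exp (2 * A) * (ising D.J y0 x / ∑ σ, ising D.J y0 σ) *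
        (exp (-A) * ∑ σ, ising D.J y0 σ) := by rw [← e2]; field_simp
    _ ≤ _ := h3
    _ = _ := by field_simp

/-- the class of the old tilt, with the truncated excess -/
lemma tc {D : Dat n} (h : D.Ok) {s : St n} {y0 : V n} {ec K δ A : ℝ} (c : Cl ec ec s)
    (h1 : H1 (ising D.J y0) K) (hK : 1 ≤ K) (d0 : 0 < δ) (d1 : δ ≤ 1) (he : 32 * K * ec ≤ δ ^ 2)
    (hA : kl (nu D s) (ising D.J y0) + 1 ≤ A) : ∃ X, 0 ≤ X ∧ X ≤ Ex D s ∧ X ≤ 4 * s.L ^ 2 ∧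
      Br.Tc (ising D.J y0) δ s.L (A + 4 / δ ^ 2 * X) s.Th := by
  have hν := (C89.pr0 (s := s) h).hv
  have e0 : 0 ≤ ec := (norm_nonneg _).trans (c.rg default).1
  have G0 : ∀ σ, 0 ≤ s.G σ := fun σ => (nrm_nonneg _).trans (c.ex σ)
  have L0 := c.L0
  set G : Cube n → ℝ := fun σ => min (s.G σ) (2 * s.L) with hG
  have g0 : ∀ σ, 0 ≤ G σ := fun σ => le_min (G0 σ) (by positivity)
  have ts : TS ec G := fun σ => (sum_le_sum fun j _ => by
    rw [← sq_abs, ← sq_abs (s.G σ - _)]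
    exact pow_le_pow_left₀ (abs_nonneg _) ((abs_min_sub_min_le_max _ _ _ _).trans (by simp)) 2).trans
      (c.ts σ)
  have e2 : ec ≤ δ ^ 2 := by nlinarith
  have e1 : ec ≤ δ := by nlinarith
  refine ⟨mean (nu D s) fun σ => G σ ^ 2, hν.mean_nonneg fun _ => sq_nonneg _,
    hν.mean_mono fun σ => pow_le_pow_left₀ (g0 σ) (min_le_left _ _) 2,
    (hν.mean_mono (g := fun _ => 4 * s.L ^ 2) fun σ =>
      (pow_le_pow_left₀ (g0 σ) (min_le_right _ _) 2).trans_eq (by ring)).trans_eq (hν.mean_const _),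
    s.Om, G, fun σ => ⟨(c.rg σ).1.trans e1, (c.rg σ).2.1.trans e1, (c.rg σ).2.2⟩, fun σ =>
      le_min (c.ex σ) ((nrm_sub_le _ _).trans (by linarith [c.gr σ, (c.rg σ).2.2.1])),
    (F25.lip2_of_ts ts).mono (sqrt_le_left d0.le |>.2 e2), fun v hv => ?_⟩
  have := F25.xferE h1 (C89.is_pos _ _) (by linarith) e0 ts hν hv
  have k1 : 0 ≤ kl v (ising D.J y0) := (S1n.pr_of (C89.is_pos _ _) hv).kl_nonneg
  have k2 : 0 ≤ kl (nu D s) (ising D.J y0) := (S1n.pr_of (C89.is_pos _ _) hν).kl_nonneg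
  have e3 : δ ^ 2 * (4 / δ ^ 2 * mean (nu D s) fun σ => G σ ^ 2) =
      4 * mean (nu D s) fun σ => G σ ^ 2 := by field_simp
  have h4 : K * ec * (32 * kl (nu D s) (ising D.J y0) + 16 * kl v (ising D.J y0) + 18) ≤
      δ ^ 2 / 32 * (32 * kl (nu D s) (ising D.J y0) + 16 * kl v (ising D.J y0) + 18) :=
    mul_le_mul_of_nonneg_right (by linarith) (by positivity)
  have h5 := mul_le_mul_of_nonneg_left hA (sq_nonneg δ)
  nlinarith [mul_nonneg (sq_nonneg δ) k1, sq_nonneg δ]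

/-- the clipped cavity vector -/
lemma clip {J Wm : Mx n} {p q α pB : V n} {x Cw Cp ew εw m R ηA : ℝ} {Ft : Set (V n)}
    (h : Cav J p q α x Cw Cp ew εw m Ft Wm) (hF : ∀ f ∈ Ft, nrm f ≤ 1) (hp : ∀ i, 0 ≤ p i ∧ p i ≤ 1)
    (hB : ∀ i, pB i ≤ 2 * p i) (h1 : 1 ≤ Cw) (w0 : 0 ≤ εw) (w1 : εw ≤ 1) (hη : 0 < ηA)
    (hm : Cw ^ 2 * R ≤ m * ηA ^ 2) {u : V n} (hu : Sp m u) (hR : u ⬝ᵥ u ≤ R) : ∃ z : V n,
      nrm z ≤ εw * nrm u ∧ ‖Wm *ᵥ u - z‖ ≤ ηA ∧ nrm (Wm *ᵥ u - z) ≤ 2 * Cw * nrm u ∧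
      (∀ f ∈ Ft, |(Wm *ᵥ u - z) ⬝ᵥ f| ≤ εw * (2 * Cw * nrm u)) ∧
      pB ⬝ᵥ ((Wm *ᵥ u - z) * (Wm *ᵥ u - z)) ≤ (4 * Cp * x + 8 * εw) * (u ⬝ᵥ u) := by
  have u0 := nrm_nonneg u
  have n1 := h.nr u hu
  have n2 : Wm *ᵥ u ⬝ᵥ Wm *ᵥ u ≤ m * ηA ^ 2 := by
    rw [← nrm_sq]
    refine (pow_le_pow_left₀ (nrm_nonneg _) n1 2).trans ?_
    rw [mul_pow, nrm_sq]
    exact (mul_le_mul_of_nonneg_left hR (sq_nonneg _)).trans hm
  obtain ⟨z, -, z1, z2⟩ := (h.fl u hu).split (mul_nonneg w0 u0) hη n2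
  have a1 : εw * nrm u ≤ Cw * nrm u := mul_le_mul_of_nonneg_right (w1.trans h1) u0
  refine ⟨z, z1, (pi_norm_le_iff_of_nonneg hη.le).2 fun i => z2 i,
    (nrm_sub_le _ _).trans (by linarith), fun f hf => ?_, ?_⟩
  · have b1 := h.ty u hu f hf
    have b2 := (abs_dot_le z f).trans (mul_le_of_le_one_right (nrm_nonneg _) (hF f hf))
    rw [sub_dotProduct]
    refine (abs_sub _ _).trans ?_
    nlinarith [mul_le_mul_of_nonneg_left h1 (mul_nonneg w0 u0)]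
  · have b1 := h.en u hu
    have b2 : z ⬝ᵥ z ≤ εw * (u ⬝ᵥ u) := by
      rw [← nrm_sq, ← nrm_sq]
      refine (pow_le_pow_left₀ (nrm_nonneg _) z1 2).trans ?_
      rw [mul_pow]
      exact mul_le_mul_of_nonneg_right (by nlinarith) (sq_nonneg _)
    have b3 : pB ⬝ᵥ ((Wm *ᵥ u - z) * (Wm *ᵥ u - z)) ≤
        4 * (Wm *ᵥ u ⬝ᵥ (p * Wm *ᵥ u)) + 4 * (z ⬝ᵥ z) := by
      simp only [dotProduct, mul_sum, ← sum_add_distrib]
      refine sum_le_sum fun i _ => ?_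
      simp only [Pi.mul_apply, Pi.sub_apply]
      nlinarith [mul_le_mul_of_nonneg_right (hB i) (mul_self_nonneg ((Wm *ᵥ u) i - z i)),
        mul_nonneg (hp i).1 (mul_self_nonneg ((Wm *ᵥ u) i + z i)),
        mul_le_mul_of_nonneg_right (hp i).2 (mul_self_nonneg (z i))]
    linarith

section dict
variable (D : Dat n) (s : St n) (y0 : V n) {B : Finset (Fin n)} (a a' e ε : ℝ) (X : BX n B)

lemma S_eq (h : Disjoint B s.S) : (mkB D s y0 B a a' e ε X).S = s.S := by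
  ext i
  simp only [Br.Dat.S, mkB, mem_filter, mem_univ, true_and, mem_compl, not_not, mem_union]
  exact ⟨fun h' => h'.1.resolve_right fun hi => h'.2 ⟨i, hi⟩ rfl, fun hi =>
    ⟨.inl hi, fun k e => disjoint_left.1 h k.2 (e ▸ hi)⟩⟩

lemma U_eq (h : Disjoint B s.S) : (mkB D s y0 B a a' e ε X).U = U D s := by
  funext x; rw [Br.Dat.U, S_eq D s y0 a a' e ε X h]; rfl

lemma ν_eq (h : Disjoint B s.S) : (mkB D s y0 B a a' e ε X).ν = nu D s := by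
  funext x
  rw [Br.Dat.ν, Br.Dat.l, U_eq D s y0 a a' e ε X h, S_eq D s y0 a a' e ε X h, nu, loc, ell]
  congr 1
  change (if ∀ i ∈ s.S, x i = s.sS i then ising D.J y0 x * exp ((s.y - y0) ⬝ᵥ sv x - U D s x)
    else 0) = _
  split_ifs
  · rw [sub_eq_add_neg _ (U D s x), exp_add, ← mul_assoc, ← tilt, tilt_ising, add_sub_cancel]
  · rw [mul_zero]

end dict

end Sup30

open Sup30 in
theorem supGlue : SupGlue := fun hH hD hO K0 κ0 hκ => by
  obtain ⟨K, hK⟩ := hH K0 κ0 hκ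
  obtain ⟨C, C1, hC⟩ := b1Stmt K0 κ0 hκ
  refine ⟨max K 1, le_max_right _ _, 4 * C, by linarith, ?_⟩
  intro n J y0 pB p p0 Ad φ c Ft F0 ψ ψ0 T T0 Wm W0 P η0 a a' mg xa b0 e ε δ es M Dh R δB ηA ec t Kb
    hB fa f0 hc hp hAd hη hm g0 g1 g2 g3 g4 g5 g6 a1 a2 a3 a4 a5 a6 a7 s1 s2 s3 s4 s5 D s B hd hJ hP
    hη0 cl sz hy dj hBt
  subst hJ hP hη0
  have hb := hK n D.J y0 hd.symm hd.diag hd.op hB
  rw [max_eq_left hb.1] at hc a1 a6 s5 ⊢
  obtain ⟨k1, -⟩ := hC n D s y0 ec ec hd cl hB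
  obtain ⟨z1, z2, z3, z4⟩ := sz
  have n1 := W6.Hy_nonneg s hd
  have n2 := W6.nuU_nonneg s hd
  have n3 := W6.gibbs s hd
  have n4 := SL.dot_self_nonneg (del s)
  have n5 := sq_nonneg s.L
  have n6 := sq_nonneg (nrm (s.y - y0))
  have n7 : (0 : ℝ) ≤ #s.S := Nat.cast_nonneg _
  have n8 : (0 : ℝ) ≤ #B := Nat.cast_nonneg _
  have b1 := hc.b1
  have d0 := hc.d0
  have eB : Bb D s y0 = Hy D s + del s ⬝ᵥ del s + s.L ^ 2 + mean (nu D s) (U D s) + #s.S +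
    nrm (s.y - y0) ^ 2 := rfl
  have B0 : 0 ≤ Bb D s y0 := by linarith
  have A1 : 4 * (Bb D s y0 + #B + Kb) ≤ 4 * C * (Bb D s y0 + #B + Kb) :=
    mul_le_mul_of_nonneg_right (by linarith) (by linarith)
  have A2 : kl (nu D s) (ising D.J y0) + 1 ≤ 4 * C * (Bb D s y0 + #B + Kb) := by
    linarith [mul_nonneg (zero_le_one.trans C1) B0, mul_nonneg (zero_le_one.trans C1) n8,
      mul_le_mul C1 b1 zero_le_one (zero_le_one.trans C1)]
  have A3 : 4 * C * (Bb D s y0 + #B + Kb) ≤ 4 * C * (6 * t + Kb) :=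
    mul_le_mul_of_nonneg_left (by linarith) (by linarith)
  obtain ⟨Y, Y0, Y1, Y2, tc'⟩ := tc hd cl hb.2.1 hb.1 d0 (hc.ds.trans hc.s1) a6 A2
  have c0 : 0 ≤ 4 / δ ^ 2 := by positivity
  have Y3 : 4 / δ ^ 2 * Y ≤ 16 * t / δ ^ 2 :=
    (mul_le_mul_of_nonneg_left (show Y ≤ 4 * t by linarith) c0).trans_eq (by ring)
  have Y4 := mul_nonneg c0 Y0
  have Y5 := mul_le_mul_of_nonneg_left Y1 c0
  generalize hA : 4 * C * (Bb D s y0 + #B + Kb) = A at *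
  generalize hZ : A + 4 / δ ^ 2 * Y = Z at *
  have AZ : A ≤ Z := by linarith
  have ZD : Z ≤ Dh := by linarith
  have Z1 : 1 ≤ Z := by linarith
  have DR : Dh ≤ R := (le_mul_of_one_le_left (by linarith) s3).trans s4
  have t2 : t ≤ Dh := by linarith [sqrt_nonneg (n * t)]
  have m1 := hc.m1
  have fm : ∀ {a x p Ft ψ T Wm}, Fa c D.J y0 a x δ p Ft ψ T Wm →
      Br.Fm D.J y0 (Subtype.val : B → Fin n) a x c.Ce c.CV δ es Z R ψ T Wm := by
    rintro a x p Ft ψ T Wm ⟨h1, h2, h3, h4, h5, h6, E, q, α, h7, h8, h9, h10⟩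
    exact hD n B D.J y0 Subtype.val a c.CN c.C0 c.C' c.e c.e1 c.η c.K0 c.K' c.C1 x c.Cw c.Cp c.ew
      c.εw c.m K δ es Z R E p q α ψ T Ft Wm hd.op Subtype.val_injective hb h7 h8 h6 h9 h10 h1 h2 h3 h4
      hc.CN hc.C0 hc.C' hc.e0 hc.e1 hc.e10 hc.η hc.K0 hc.C1 hc.Cw hc.Cp hc.ew hc.w0 hc.w1 d0 hc.ds
      hc.s1 Z1 (by rw [Fintype.card_coe]; linarith) m1 hc.m2 hc.h1
      (hc.bK'.trans (mul_le_mul_of_nonneg_left (by linarith) (sq_nonneg _))) (by linarith [hc.bK])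
      hc.h2 hc.h3 h5
  have fa' := fm fa
  have f0' := fm f0
  obtain ⟨-, -, x0, x1, -, hF, E, q, α, an, cv, -, hq⟩ := fa
  obtain ⟨-, -, y0', y1, -⟩ := f0
  have CN := hc.CN
  have Cw := hc.Cw
  have w0 := hc.w0
  have cV : 1 ≤ c.CV := by
    have := mul_le_mul CN Cw zero_le_one (zero_le_one.trans CN)
    rw [FC.CV]; linarith
  have cU : (#(s.S ∪ B) : ℝ) ≤ #s.S + #B := by exact_mod_cast card_union_le _ _
  have cm : (#(s.S ∪ B) : ℝ) ≤ c.m := by linarith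
  set X : BX n B := ⟨Br.Vm (s.S ∪ B)ᶜ Subtype.val T Wm, Br.Vm (s.S ∪ B)ᶜ Subtype.val T0 W0,
    Br.φm Subtype.val ψ Wm, meanV (ising D.J y0) fun x => a • Br.φm Subtype.val ψ Wm x +
      (Br.hG (Br.rw D.J (s.S ∪ B)ᶜ Subtype.val) x - xa • Br.sT Subtype.val x) -
      Br.dv D.J y0 (Br.Vm (s.S ∪ B)ᶜ Subtype.val T Wm) x,
    meanV (ising D.J y0) fun x => Br.hG (Br.rw D.J (s.S ∪ B)ᶜ Subtype.val) x -
      b0 • Br.sT Subtype.val x - Br.dv D.J y0 (Br.Vm (s.S ∪ B)ᶜ Subtype.val T0 W0) x,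
    xa, b0, c.εw, Z, Dh, R⟩ with hX
  refine ⟨X, ?_, s4, by change Z ≤ _; linarith, fun u hu => ?_⟩
  · have e1 := ν_eq D s y0 a a' e ε X dj
    have e2 := U_eq D s y0 a a' e ε X dj
    have n9 : Br.sq (s.y - y0) = nrm (s.y - y0) ^ 2 := (nrm_sq _).symm
    have hw : c.εw ≤ ε := by
      have := mul_le_mul_of_nonneg_right
        (mul_le_mul cV hd.P1 zero_le_one (zero_le_one.trans cV)) w0
      linarith
    refine hO n B { mkB D s y0 B a a' e ε X with L := s.L } mg c.Ce c.CV K δ es ψ ψ0 T T0 Wm W0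
      ⟨⟨hd.symm, hd.diag, hd.op, Subtype.val_injective,
        fun k hk => mem_compl.1 hk (mem_union_right _ k.2), fun j => ?_, fun u hu => ?_, w0, hd.P1⟩,
        hb, fa', f0', rfl, rfl, rfl, tc', d0, cV, ?_, ⟨x0, x1⟩, ⟨y0', y1⟩, Z1, ?_, ?_, ZD.trans DR, a1,
        a2, a3, hw, a4⟩ s5 rfl rfl hd.fpos g0 g1 g2 g3 g4 hd.e0 g5 g6 a5 (Xt.lip2_of_grad cl.gr) ?_ ?_ ?_
      (fun x => ?_) ZD
    · have := blk cv.jj w0 cm (u := Pi.single j 1) ⟨{j}, by rw [card_singleton]; push_cast; linarith,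
        fun i hi => Pi.single_eq_of_ne (by simpa using hi) _⟩
      simpa [mkB, hX] using this
    · have := blk cv.jj w0 cm (u := u) ⟨_, cm, fun i hi => hu i (mem_compl.2 hi)⟩
      simpa [mkB, hX, Br.sq] using this
    · rw [FC.Ce]; have := mul_nonneg hc.C0 hc.Cp; positivity
    · change (#(s.S ∪ B)ᶜᶜ : ℝ) ≤ Z
      rw [compl_compl]; linarith
    · change Br.sq (s.y - y0) + del s ⬝ᵥ del s + s.L ^ 2 ≤ Z
      linarith
    · change kl (mkB D s y0 B a a' e ε X).ν (ising D.J y0) ≤ Z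
      rw [e1]; linarith
    · change mean (mkB D s y0 B a a' e ε X).ν (mkB D s y0 B a a' e ε X).U ≤ Z
      rw [e1, e2]; linarith
    · change 4 * s.L ^ 2 + Br.sq (s.y - y0) + del s ⬝ᵥ del s ≤ Z
      linarith
    · change prob (mkB D s y0 B a a' e ε X).ν x ≤ exp Dh * prob (ising D.J y0) x
      rw [e1]
      refine (size hd s y0 x).trans (mul_le_mul_of_nonneg_right (exp_le_exp.2 ?_)
        ((C89.wt_is _ _).prob_nonneg x))
      have : √n * nrm (s.y - y0) ≤ √(n * t) := by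
        rw [sqrt_mul (Nat.cast_nonneg _)]
        exact mul_le_mul_of_nonneg_left (le_sqrt_of_sq_le hy) (sqrt_nonneg _)
      linarith
  · have e1 := sq_ex (Subtype.val_injective (p := (· ∈ B))) u
    have e2 : nrm (Br.ex Subtype.val u) = nrm u := congrArg sqrt e1
    have hu' : u ⬝ᵥ u ≤ R := hu
    obtain ⟨z, z1, z2, z3, z4, z5⟩ := clip cv hF (fun i => ⟨(hq i).1, (hq i).2.1⟩) hp Cw w0 hc.w1 hη hm
      (sp_ex (show (#B : ℝ) ≤ c.m by linarith) u) (e1.trans_le hu')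
    rw [e2] at z1 z3 z4
    rw [e1] at z5
    obtain ⟨h1, h2⟩ := hAd _ _ z2 z3 (by
      rw [mul_pow, nrm_sq]; linarith [mul_le_mul_of_nonneg_left hu' (sq_nonneg c.Cw)]) z4
    have b2 : 8 * c.εw ≤ 8 * c.CN * c.εw := by linarith [mul_le_mul_of_nonneg_right CN w0]
    refine ⟨_, h1, z5.trans (mul_le_mul_of_nonneg_right (by change _ ≤ _ * xa + _; linarith)
      (SL.dot_self_nonneg _)), fun x => ?_⟩
    have e3 : (fun y => φ (Wm *ᵥ Br.ex Subtype.val u - z) y - u ⬝ᵥ X.φ y) = fun y => (-z) ⬝ᵥ ψ y := by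
      funext y
      rw [h2]
      change _ - u ⬝ᵥ Br.φm Subtype.val ψ Wm y = _
      rw [dot_φm, ← sub_dotProduct, sub_sub_cancel_left]
    rw [e3]
    refine (nrm_grad_dot an.opψ _ x).trans ?_
    rw [nrm_neg]
    linarith [mul_le_mul_of_nonneg_left z1 (zero_le_one.trans CN),
      mul_le_mul_of_nonneg_right a7 (nrm_nonneg u),
      mul_nonneg (mul_nonneg (zero_le_one.trans CN) w0) (nrm_nonneg u)]

end Crest.Agent.T157.S1

end
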