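import Crest.Agent.T157.OkTg_11
import Crest.Agent.T157.OkEq_45
import Crest.Agent.T157.OkCen_31
import Crest.Agent.T157.OkSf_35
import Crest.Agent.T157.OkDir_12
import Crest.Agent.T157.S1Sup_30

/-!
# Row 157, block S1: the supply of the act B, unconditional
-/

namespace Crest.Agent.T157

theorem Br.okStmt : Br.OkStmt := Br.okGlue Br.sfStmt Br.eqStmt Br.cenStmt Br.tgStmt

theorem S1.supStmt : S1.SupStmt := S1.supGlue Br.hbStmt Br.dirStmt Br.okStmt

end Crest.Agent.T157
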