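import Crest.Agent.T157.S1BpDef_30
import Crest.Agent.T157.S1W_6

/-!
# Row 157, block S1 (helper30): the burst part of the supply, one instance
-/

set_option autoImplicit false
set_option maxHeartbeats 1600000

noncomputable section

namespace Crest.Agent.T157.S1

open Real Matrix Finset
open Crest.Agent.T157.E Crest.Agent.T157.SL
open Crest.Agent.T157.Eig (nrm opn)
open Crest.Agent.T157.S3 (V Mx)

namespace Bp30

variable {n : ℕ}

lemma mono {J : Mx n} {P η0 θ : ℝ} {y0 p : V n} {Ad : V n → ℝ → Prop} {φ : V n → Cube n → ℝ}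
    {l a lb ab c0 gW gP Λ CP CN ω ec t K c0' Λ' CP' : ℝ}
    (h : BurstOK J P η0 θ y0 p Ad φ l a lb ab c0 gW gP Λ CP CN ω ec t K) (h1 : c0' ≤ c0) (h2 : Λ ≤ Λ')
    (h3 : CP ≤ CP') : BurstOK J P η0 θ y0 p Ad φ l a lb ab c0' gW gP Λ' CP' CN ω ec t K := by
  intro D s B ξ γ g1 T T' R hd hJ hP hη hθ cl sz hy dj hB hξ g0 g1' g2 hT hc
  have n8 : (0 : ℝ) ≤ #B := Nat.cast_nonneg _
  have l0 : 0 ≤ log ((n : ℝ) + 2) := log_nonneg (by linarith [Nat.cast_nonneg (α := ℝ) n])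
  have := h D s B ξ γ g1 T T' R hd hJ hP hη hθ cl sz hy dj hB hξ g0 g1' g2
    (by linarith [mul_le_mul_of_nonneg_right (mul_le_mul_of_nonneg_right h3 n8) l0]) hc
  have n4 := SL.dot_self_nonneg (del s)
  have B0 : 0 ≤ Bb D s y0 + #B := by
    have n1 := W6.Hy_nonneg s hd
    have n2 := W6.nuU_nonneg s hd
    rw [Bb, Bd]; positivity
  have s0 : 0 ≤ ∑ k ∈ B, (Del D s k ^ 2 + (J *ᵥ Del D s) k ^ 2) := sum_nonneg fun _ _ => by positivity
  linarith [mul_le_mul_of_nonneg_right h1 s0, mul_le_mul_of_nonneg_right h2 n4,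
    mul_le_mul_of_nonneg_right (mul_le_mul_of_nonneg_left h3 g0) B0]

lemma Fa.mono {c : FC} {J : Mx n} {y p : V n} {a x δ : ℝ} {Ft : Set (V n)} {ψ : Cube n → V n}
    {T : Cube n → Mx n} {Wm : Mx n} (h : Fa c J y a x 0 p Ft ψ T Wm) (hδ : 0 ≤ δ) :
    Fa c J y a x δ p Ft ψ T Wm :=
  ⟨h.1, h.2.1, h.2.2.1, h.2.2.2.1, by linarith [h.2.2.2.2.1], h.2.2.2.2.2⟩

/-- the margin -/
lemma margin {a0 ab a' xb : ℝ} (h0 : 0 < a0) (h1 : ab < a') (x0 : 0 ≤ xb) (x1 : xb < 1 - a') :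
    ∃ mg > (0 : ℝ), mg ≤ 1 / 2 ∧ mg ≤ a0 ∧ ab + mg ≤ a' ∧ a' + mg ≤ 1 ∧ ∀ a x, 0 ≤ a → a ≤ ab →
      0 ≤ x → x ≤ xb → (1 + a / ((1 - a') * (1 - mg))) * x ≤ 1 - mg := by
  set mg := min (min (1 / 2) a0) (min (a' - ab) ((1 - a' - xb) / 2)) with hm
  have m1 : mg ≤ 1 / 2 := (min_le_left _ _).trans (min_le_left _ _)
  have m2 : mg ≤ a0 := (min_le_left _ _).trans (min_le_right _ _)
  have m3 : mg ≤ a' - ab := (min_le_right _ _).trans (min_le_left _ _)
  have m4 : mg ≤ (1 - a' - xb) / 2 := (min_le_right _ _).trans (min_le_right _ _)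
  have m0 : 0 < mg := lt_min (lt_min (by norm_num) h0) (lt_min (by linarith) (by linarith))
  refine ⟨mg, m0, m1, m2, by linarith, by linarith, fun a x a0' a1 y0 y1 => ?_⟩
  have p : 0 < (1 - a') * (1 - mg) := mul_pos (by linarith) (by linarith)
  have h2 : 1 + a / ((1 - a') * (1 - mg)) ≤ 1 / ((1 - a') * (1 - mg)) := by
    rw [← le_sub_iff_add_le, ← sub_div, le_div_iff₀ p]
    nlinarith [mul_pos m0 (show 0 < 1 - a' by linarith)]
  refine (mul_le_mul_of_nonneg_right h2 y0).trans ?_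
  rw [div_mul_eq_mul_div, div_le_iff₀ p]
  nlinarith [mul_nonneg (show 0 ≤ 1 - a' by linarith) (sq_nonneg mg),
    mul_nonneg m0.le (show 0 ≤ a' by linarith)]

/-- the rates -/
lemma rates {p : Par} (h : p.Ok) {m : ℕ} (hm : m < p.N) : ∃ lm, 1 / 2 ≤ lm ∧ lm ≤ 1 ∧
    lm * (1 + p.κ / 6) ≤ p.l m ∧ 0 ≤ p.lb m ∧ p.lb m * (1 + p.κ / 6) ≤ lm * (1 - p.κ / 6) ∧
    p.am m ≤ lm * (p.ah m * (1 - 2 * p.η0)) ∧ lm * (p.ah m * (1 - 2 * p.η0)) ≤ p.am (m + 1) ∧
    p.am (m + 1) ≤ 1 ∧ p.a0 ≤ p.ah m ∧ p.ah m ≤ p.ab ∧ p.ah m * (1 - 2 * p.η0) ≤ p.ab := by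
  have k0 := h.κ0'
  have k1 := h.κ1
  have e0 := h.η00
  have e1 := h.η01
  have a0 : 0 < p.a := h.a00.trans h.a0a
  have u1 : 1 ≤ 1 + p.κ := by linarith
  have pw : ∀ {i j : ℕ}, i ≤ j → (1 + p.κ) ^ i ≤ (1 + p.κ) ^ j := fun hij => pow_le_pow_right₀ u1 hij
  have q0 : 0 < 1 - 2 * p.η0 := by linarith
  have ea : p.ah m * (1 - 2 * p.η0) = p.a * (1 + p.κ) ^ (3 * m + 1) := div_mul_cancel₀ _ q0.ne'
  have hr : p.a * (1 + p.κ) ^ (3 * m + 1) ≤ p.ab * (1 - 2 * p.η0) :=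
    (mul_le_mul_of_nonneg_left (pw (by omega)) a0.le).trans h.ra
  have ab0 : 0 < p.ab := (mul_pos_iff_of_pos_right q0).1 (lt_of_lt_of_le (by positivity) hr)
  have hr2 : p.ab * (1 - 2 * p.η0) ≤ p.ab := mul_le_of_le_one_right ab0.le (by linarith)
  set v := (1 + p.κ) ^ (2 * m) with hv
  have v1 : 1 ≤ v := one_le_pow₀ u1
  have v2 : v * (1 + p.κ) ≤ 2 := by rw [hv, ← pow_succ]; exact (pw (by omega)).trans h.rl
  have e3 : (1 + p.κ) ^ (3 * m + 1) = v * ((1 + p.κ) ^ m * (1 + p.κ)) := by rw [hv]; ring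
  have m0 : 0 < p.a * (1 + p.κ) ^ m := by positivity
  have e4 : (v * (1 + p.κ / 6))⁻¹ * (p.a * (v * ((1 + p.κ) ^ m * (1 + p.κ)))) =
      p.a * (1 + p.κ) ^ m * (1 + p.κ) / (1 + p.κ / 6) := by field_simp
  refine ⟨(v * (1 + p.κ / 6))⁻¹, ?_, inv_le_one_of_one_le₀ (by nlinarith), ?_,
    by rw [Par.lb]; positivity, ?_, ?_, ?_, ?_, ?_, ?_, by linarith⟩
  · rw [one_div]; exact inv_anti₀ (by positivity) (by nlinarith)
  · rw [Par.l, ← hv]; exact le_of_eq (by field_simp)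
  · rw [Par.lb, pow_succ, ← hv, inv_mul_eq_div, inv_mul_eq_div,
      div_le_div_iff₀ (by positivity) (by positivity)]
    nlinarith [mul_nonneg (zero_le_one.trans v1) (mul_nonneg k0.le (show 0 ≤ 1 - p.κ by linarith)),
      mul_pos (zero_lt_one.trans_le v1) k0]
  · rw [ea, e3, e4, Par.am, le_div_iff₀ (by positivity)]
    exact mul_le_mul_of_nonneg_left (by linarith) m0.le
  · rw [ea, e3, e4, Par.am, pow_succ, ← mul_assoc]
    exact div_le_self (by positivity) (by linarith)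
  · rw [Par.am]
    linarith [mul_le_mul_of_nonneg_left (pw (show m + 1 ≤ 3 * m + 1 by omega)) a0.le, h.ab1]
  · rw [Par.ah, le_div_iff₀ q0]
    linarith [h.a0a, le_mul_of_one_le_right a0.le (one_le_pow₀ (n := 3 * m + 1) u1),
      mul_pos h.a00 e0]
  · rw [Par.ah, div_le_iff₀ q0]; exact hr

/-- the accuracy of the class -/
lemma ec_le {p : Par} (h : p.Ok) {m : ℕ} (hm : m < p.N) (i : ℕ) :
    8 * p.CN m i ^ 2 * p.ec (m + 1) i ≤ 1 := by
  have c1 : 1 ≤ p.CZ := by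
    by_contra hc
    nlinarith [h.CZ1, h.lq0, h.lq1]
  have n1 := h.CN1 m i
  have h1 : p.CN m i ≤ p.M (p.bt (m + 1) i) :=
    ((le_mul_of_one_le_left (by linarith) c1).trans (h.lM m i hm).2.2.1).trans
      (h.Mm (Nat.add_le_add_left Nat.one_le_two_pow i))
  have h2 := h.le (p.bt (m + 1) i)
  have e0 := (h.e0 (p.bt (m + 1) i)).le
  have C1 := h.C1'
  have h3 : (p.N : ℝ) ^ 2 ≤ p.C * p.CZ * (p.N + 1) ^ 2 * 8 ^ p.N :=
    ((pow_le_pow_left₀ (by positivity) (by linarith) 2).trans (le_mul_of_one_le_left (by positivity)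
      (one_le_mul_of_one_le_of_one_le C1 c1))).trans
      (le_mul_of_one_le_right (by positivity) (one_le_pow₀ (by norm_num)))
  have h4 := mul_le_mul h3 (pow_le_pow_left₀ (by linarith) h1 2) (sq_nonneg _) (by positivity)
  rw [Par.ec, Par.e1]
  linarith [mul_le_mul_of_nonneg_right h4 e0]

end Bp30

open Bp30 in
theorem bpGlue : BpGlue := by
  intro hA hB hS K0 κ0 a0 ab a' xb C0 C' Cw Cp hκ ha0 hab x0 x1 hC0 hC' hCw hCp
  obtain ⟨K, K1, CB, B1, hS⟩ := hS K0 κ0 hκ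
  obtain ⟨mg, m0, m1, m2, m3, m4, m5⟩ := margin ha0 hab x0 x1
  obtain ⟨Ce, hCe⟩ : ∃ Ce, Ce = 100 * (C0 * Cp + 1) := ⟨_, rfl⟩
  have Ce0 : 0 ≤ Ce := by rw [hCe]; positivity
  obtain ⟨c0, c00, Cu, u1, hA⟩ := hA mg (16 * Ce) m0 (by positivity)
  have i1 : 0 < 1 / c0 := by positivity
  have i2 : 0 < 2 / mg := by positivity
  refine ⟨c0 / 38, by positivity, c0 / (8 * Cp + 2), by positivity, 6 * Cu + 1 / c0 + 2 / mg,
    by linarith, fun w hw w1 w2 w3 w4 w5 w6 => ?_⟩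
  have k0 := hw.κ0'
  have k1 := hw.κ1
  have P1 := hw.P1
  have e0 := hw.η00
  obtain ⟨Ms, s1, hA⟩ := hA (w.κ / 6) w.P (K * (2 * Ce + 6)) w.η0 (by positivity) (by linarith)
    (le_trans (pow_le_pow_left₀ (by positivity) (by
      rw [div_div_eq_mul_div]; exact div_le_div_of_nonneg_right (by linarith) k0.le) 8) hw.hP) e0
  obtain ⟨Mk, q1, hB⟩ := hB w.P (K * (2 * Ce + 6))
  have CP1 : 1 ≤ Mk * (CB + 1) := one_le_mul_of_one_le_of_one_le q1 (by linarith)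
  refine ⟨Mk * (CB + 1), CP1, c0 / (16 * w.P * Cw ^ 2), by positivity, fun ω hω => ?_⟩
  obtain ⟨o, o0, o1, o2⟩ : ∃ o > (0 : ℝ), o ≤ 1 ∧ o ≤ ω :=
    ⟨min 1 ω, lt_min one_pos hω, min_le_left _ _, min_le_right _ _⟩
  obtain ⟨e, e0', he⟩ : ∃ e > (0 : ℝ), Ms * e * CB = o / 2 :=
    ⟨o / (2 * Ms * CB), by positivity, by field_simp⟩
  have he1 : Ms * e ≤ 1 := by linarith [le_mul_of_one_le_right (show 0 ≤ Ms * e by positivity) B1]
  have he2 : e ≤ 1 := (le_mul_of_one_le_left e0'.le s1).trans he1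
  obtain ⟨dB, d0, d1, d2, d3⟩ : ∃ dB > (0 : ℝ), dB ≤ w.κ / 6 ∧ w.P * ((1 + Mk) * dB) ≤ c0 / 4 ∧
      Mk * dB * CB ≤ o / 2 := by
    refine ⟨min (w.κ / 6) (min (c0 / 4 / (w.P * (1 + Mk))) (o / 2 / (Mk * CB))), by positivity,
      min_le_left _ _, ?_, ?_⟩
    · rw [← mul_assoc, ← le_div_iff₀' (by positivity)]
      exact (min_le_right _ _).trans (min_le_left _ _)
    · rw [mul_right_comm, ← le_div_iff₀' (by positivity)]
      exact (min_le_right _ _).trans (min_le_right _ _)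
  have d4 : Mk * dB ≤ 1 := by linarith [le_mul_of_one_le_right (show 0 ≤ Mk * dB by positivity) B1]
  obtain ⟨u, u0, hu⟩ : ∃ u > (0 : ℝ), 100 * K * ((C' * Cw ^ 2 + 2) * u) = e / 100 :=
    ⟨e / 100 / (100 * K * (C' * Cw ^ 2 + 2)), by positivity, by field_simp⟩
  have u2 : u ≤ e / 100 := by
    have : 1 ≤ 100 * K * (C' * Cw ^ 2 + 2) :=
      one_le_mul_of_one_le_of_one_le (by linarith) (by linarith [mul_nonneg hC' (sq_nonneg Cw)])
    linarith [le_mul_of_one_le_left u0.le this]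
  refine ⟨u ^ 2, by positivity, fun CN n1 => ?_⟩
  obtain ⟨CV, hCV⟩ : ∃ CV, CV = 2 * CN * Cw := ⟨_, rfl⟩
  have v1 : 1 ≤ CV := by linarith [one_le_mul_of_one_le_of_one_le n1 hCw]
  obtain ⟨M, M1, hA⟩ := hA CV
  obtain ⟨ε, ε0, hε⟩ : ∃ ε > (0 : ℝ), 100 * (M * ε) = e := ⟨e / (100 * M), by positivity, by field_simp⟩
  obtain ⟨d, δ0, δ1, δ2⟩ : ∃ d > (0 : ℝ), 10 ^ 7 * K * CV * d ≤ ε ∧ d ≤ u :=
    ⟨min (ε / (10 ^ 7 * K * CV)) u, by positivity,
      by rw [← le_div_iff₀' (by positivity)]; exact min_le_left _ _, min_le_right _ _⟩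
  have δ3 : d ≤ 1 := by linarith
  have δ4 : d ^ 2 ≤ 1 := pow_le_one₀ δ0.le δ3
  obtain ⟨Z, hZ⟩ : ∃ Z, Z = 1 / d ^ 2 := ⟨_, rfl⟩
  have Z1 : 1 ≤ Z := by rw [hZ, le_div_iff₀ (by positivity)]; linarith
  have Zd : d ^ 2 * Z = 1 := by rw [hZ]; field_simp
  obtain ⟨f, f0, f1, f2, f3⟩ : ∃ f > (0 : ℝ), 1000 * K * (Cw ^ 2 + (CN + C0 + 1)) * f ≤ d ^ 2 ∧
      3 * CV * w.P * f ≤ ε ∧ 8 * CN * f ≤ dB := by
    refine ⟨min (d ^ 2 / (1000 * K * (Cw ^ 2 + (CN + C0 + 1)))) (min (ε / (3 * CV * w.P))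
      (dB / (8 * CN))), by positivity, ?_, ?_, ?_⟩ <;> rw [← le_div_iff₀' (by positivity)]
    exacts [min_le_left _ _, (min_le_right _ _).trans (min_le_left _ _),
      (min_le_right _ _).trans (min_le_right _ _)]
  have j1 : 0 ≤ (2 + Mk) * (4 * Z) := by positivity
  have j2 : 0 ≤ (1 + Mk * (CB + 1)) * (1000 * Z) := by positivity
  have j3 : 0 ≤ 4 * K * Z := by positivity
  have j4 : 0 ≤ M * (6 * CB + 16 * Z + 1000 * CB * Z) := by positivity
  have j5 : 0 ≤ (2 * K * CV) ^ 2 := by positivity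
  refine ⟨f, f0, (2 + Mk) * (4 * Z) + (1 + Mk * (CB + 1)) * (1000 * Z) + 4 * K * Z +
    M * (6 * CB + 16 * Z + 1000 * CB * Z) + (2 * K * CV) ^ 2 + 2 * M, by linarith, ?_⟩
  generalize hX : (2 + Mk) * (4 * Z) + (1 + Mk * (CB + 1)) * (1000 * Z) + 4 * K * Z +
    M * (6 * CB + 16 * Z + 1000 * CB * Z) + (2 * K * CV) ^ 2 + 2 * M = X
  intro p hp hpw p1 p2 m i hm p3 p4 n J y0 pA pp p0 Ad φ c Ft F0 ψ ψ0 T T0 Wm W0 xa b0 ηA t Kk Kb R
    c1 c2 c3 c4 c5 th hb fa fb hx hA2 hAd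
  subst hpw c1 c2 c3 c4 c5
  obtain ⟨lm, l1, l2, l3, l4, l5, l6, l7, l8, l9, l10, l11⟩ := rates hp hm
  have b1 := th.b1
  have t0 := th.t0
  have g0 := th.g0
  have C1 := th.C1
  have r0 := sqrt_nonneg (n * t)
  have g2 : c.εw ≤ f := by linarith [th.g1, mul_nonneg C1 g0]
  have X1 : 1 ≤ X := by linarith
  have R0 : 0 ≤ R := le_trans (by positivity) th.R1
  have y1 : 0 ≤ 1000 * K := by positivity
  have y2 : 1000 * K * c.Cw ^ 2 * f ≤ d ^ 2 := by
    linarith [mul_nonneg (mul_nonneg y1 (show 0 ≤ c.CN + c.C0 + 1 by linarith)) f0.le]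
  have y3 : 1000 * K * (c.CN + c.C0 + 1) * f ≤ d ^ 2 := by
    linarith [mul_nonneg (mul_nonneg y1 (sq_nonneg c.Cw)) f0.le]
  have f4 : f ≤ 1 := by
    linarith [le_mul_of_one_le_left f0.le (one_le_mul_of_one_le_of_one_le
      (show 1 ≤ 1000 * K by linarith) (show 1 ≤ c.CN + c.C0 + 1 by linarith))]
  have z1 : Kb ≤ 1000 * Z * Kb := le_mul_of_one_le_left (by linarith) (by linarith)
  have hc : c.Ok K d (e / 100) (1000 * Z * Kb) R := by
    refine ⟨n1, hC0, hC', th.e0, th.e1.trans (pow_le_one₀ u0.le (by linarith)), th.f0, th.η0, th.K0, C1,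
      hCw, hCp, th.w0, g0, by linarith, δ0, by linarith, by linarith, by linarith, by linarith [th.K1],
      ?_, th.m1, th.m2, (mul_le_mul_of_nonneg_left th.f1 (by positivity)).trans y2, ?_, ?_⟩
    · have : d ^ 2 * (1000 * Z * Kb) = 1000 * Kb := by linear_combination 1000 * Kb * Zd
      linarith [th.K2]
    · have a1 : (c.CN + c.C0 + c.C1 + 1) * c.εw ≤ (c.CN + c.C0 + 1) * f := by
        linarith [mul_le_mul_of_nonneg_left th.g1 (show 0 ≤ c.CN + c.C0 + 1 by linarith),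
          mul_nonneg (mul_nonneg (show 0 ≤ c.CN + c.C0 by linarith) C1) g0]
      linarith [mul_le_mul_of_nonneg_left a1 y1]
    · have a1 : √c.e ≤ u := sqrt_le_left u0.le |>.2 th.e1
      have a2 : c.ew ≤ u := th.w1.trans (by
        rw [sq]; exact mul_le_of_le_one_left u0.le (by linarith))
      have a3 : c.C' * √c.e * c.Cw ^ 2 + c.ew + d ≤ (c.C' * c.Cw ^ 2 + 2) * u := by
        linarith [mul_le_mul_of_nonneg_left a1 (mul_nonneg hC' (sq_nonneg c.Cw))]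
      linarith [mul_le_mul_of_nonneg_left a3 (show 0 ≤ 100 * K by positivity)]
  have eC : c.Ce = Ce := hCe.symm
  have eV : c.CV = CV := hCV.symm
  have η2 : 2 * p.η0 ≤ mg := by
    have a1 : 2 / mg * p.η0 ≤ 1 := by
      linarith [hp.hη, mul_le_mul_of_nonneg_right (mul_le_mul (show 2 / mg ≤ p.Cu by linarith) P1
        zero_le_one (by linarith)) e0.le]
    rwa [div_mul_eq_mul_div, div_le_one m0] at a1
  have ec := ec_le hp hm i
  have ec0 : 0 ≤ p.ec (m + 1) i := mul_nonneg (sq_nonneg _) (hp.e0 _).le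
  have s := hS n J y0 pA pp p0 Ad φ c Ft F0 ψ ψ0 T T0 Wm W0 p.P p.η0 (p.ah m) a' mg xa b0 e ε d (e / 100)
    M (R / M) R dB ηA (p.ec (m + 1) i) t (1000 * Z * Kb) hb (Fa.mono fa δ0.le) (Fa.mono fb δ0.le) hc hA2
    hAd th.A0 th.m3 m0 m1 (by linarith) (by linarith) m4 η2
    (m5 _ _ (by linarith) (by linarith) fa.2.2.1 hx) (eV ▸ δ1)
    (by linarith [le_mul_of_one_le_left ε0.le M1]) he2 (by linarith)
    (by rw [eV]; exact (mul_le_mul_of_nonneg_left g2 (by positivity)).trans f2) (by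
      have a1 : 4 * K * Z ≤ p.CN m i ^ 2 := (show _ ≤ p.CN m i by linarith).trans
        (le_self_pow₀ (by linarith) two_ne_zero)
      have a2 := mul_le_mul_of_nonneg_left (mul_le_mul_of_nonneg_right a1 ec0) (sq_nonneg d)
      have a3 : d ^ 2 * (4 * K * Z * p.ec (m + 1) i) = 4 * K * p.ec (m + 1) i := by
        linear_combination 4 * K * p.ec (m + 1) i * Zd
      linarith [mul_le_mul_of_nonneg_left ec (sq_nonneg d)])
    ((mul_le_mul_of_nonneg_left g2 (by positivity)).trans f3) (by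
      have a1 : 16 * t / d ^ 2 = 16 * Z * t := by rw [hZ]; ring
      have a2 := mul_le_mul_of_nonneg_right (show M * (6 * CB + 16 * Z + 1000 * CB * Z) ≤ X by linarith)
        (show 0 ≤ t + √(n * t) + Kb by linarith)
      have a3 : CB * (6 * t + 1000 * Z * Kb) + 16 * Z * t ≤
          (6 * CB + 16 * Z + 1000 * CB * Z) * (t + √(n * t) + Kb) := by
        have : 0 ≤ (6 * CB + 16 * Z + 1000 * CB * Z) * √(n * t) + (6 * CB + 16 * Z) * Kb +
          1000 * CB * Z * t := by positivity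
        linarith
      rw [a1, le_div_iff₀' (by positivity)]
      linarith [mul_le_mul_of_nonneg_left a3 (zero_le_one.trans M1), th.R1]) (by
      have a2 := mul_le_mul_of_nonneg_right (show 2 * M ≤ X by linarith)
        (show 0 ≤ t + √(n * t) + Kb by linarith)
      have : 0 ≤ M * t + 2 * M * Kb := by positivity
      rw [le_div_iff₀' (by positivity)]
      linarith [th.R1]) M1 (by rw [mul_div_cancel₀ _ (by positivity)]) (by
      rw [eV]
      refine le_sqrt_of_sq_le ?_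
      rw [mul_pow, sq_sqrt R0]
      linarith [th.R2, mul_le_mul_of_nonneg_right (show (2 * K * CV) ^ 2 ≤ X by linarith) R0])
  rw [eC, eV] at s
  have gW := hp.gW0
  have gP := hp.gP0
  have e4 : 4 / d ^ 2 = 4 * Z := by rw [hZ]; ring
  have := hB mg (16 * Ce) c0 (p.κ / 6) p.η0 Ms CV M hA n J y0 pA Ad φ (p.ah m) a' e ε CB (4 / d ^ 2)
    (2 * c.Cw) (4 * c.Cp) dB (p.ec (m + 1) i) t (1000 * Z * Kb) lm (p.l m) (p.am m) (p.lb m)
    (p.am (m + 1)) p.gW p.gP (Mk * (CB + 1)) (p.CN m i) (p.ω m i) Kk s c00 (by positivity) (by linarith)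
    (by linarith) (by linarith) e0'.le he1 (by linarith [mul_pos (zero_lt_one.trans_le M1) ε0])
    (by linarith) l2 l3 l4 l5 l6 l7 l8 (by linarith) (by positivity) (by linarith) (by linarith) d0.le
    d1 (by positivity) gW.le gP.le (by
      rw [le_div_iff₀ (by positivity)] at p2
      have a1 := mul_le_mul_of_nonneg_left (mul_le_mul_of_nonneg_right
        (show p.gP + Mk ≤ 1 + Mk by linarith [hp.gP1]) d0.le) (zero_le_one.trans P1)
      linarith [mul_le_mul_of_nonneg_right l1 c00.le]) (by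
      rw [le_div_iff₀ (by positivity)] at w2
      linarith [mul_le_mul_of_nonneg_right l1 c00.le]) (by linarith) le_rfl (by
      rw [e4]
      linarith [mul_le_mul_of_nonneg_right (show Ms * e + Mk * dB + Mk ≤ 2 + Mk by linarith)
        (show 0 ≤ 4 * Z by linarith)]) (by
      have a1 := mul_le_mul_of_nonneg_right (show p.ω m i + Mk * (CB + 1) ≤ 1 + Mk * (CB + 1) by
        linarith [hp.ω1 m i]) (show 0 ≤ 1000 * Z * Kb by positivity)
      have a2 := mul_le_mul_of_nonneg_right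
        (show (1 + Mk * (CB + 1)) * (1000 * Z) + M ≤ X by linarith) (zero_le_one.trans b1)
      linarith [th.bK, le_mul_of_one_le_right (zero_le_one.trans M1) b1])
  rw [w6]
  exact mono this (by linarith [mul_le_mul_of_nonneg_right l1 c00.le])
    ((show 1 / c0 ≤ p.Cu by linarith).trans (le_div_self (by linarith) k0 k1)) p1

end Crest.Agent.T157.S1

end
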