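import Crest.Agent.T157.BrHc_61

/-!
# Row 157, block B, S1 (helper61): KB, the budgets of a reference weight
-/

set_option autoImplicit false
set_option linter.unusedVariables false
set_option linter.unusedSectionVars false

noncomputable section

namespace Crest.Agent.T157.Br

open Real Matrix Function
open Crest.Agent.T157.E Crest.Agent.T157.SL Crest.Agent.T157.Ta
open Crest.Agent.T157.Rec (grad)
open Crest.Agent.T157.Eig (nrm opn nrm_sq nrm_nonneg nrm_smul nrm_add_le nrm_le_iff)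
open Crest.Agent.T157.Xt (H1 Lip2)

namespace Kb61

section
variable {n : ℕ} {κ : Type} [Fintype κ] [DecidableEq κ]

lemma sq_nn (u : κ → ℝ) : 0 ≤ sq u := Finset.sum_nonneg fun _ _ => mul_self_nonneg _

lemma sq_sub_le (u v : κ → ℝ) : sq (u - v) ≤ 2 * sq u + 2 * sq v := by
  have := sq_nn (u + v)
  simp only [sq, add_dotProduct, dotProduct_add, sub_dotProduct, dotProduct_sub] at this ⊢
  linarith

lemma abs_dot (u v : κ → ℝ) : |u ⬝ᵥ v| ≤ (sq u + sq v) / 2 := by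
  have h1 := sq_nn (u + v)
  have h2 := sq_nn (u - v)
  simp only [sq, add_dotProduct, dotProduct_add, sub_dotProduct, dotProduct_sub, dotProduct_comm v u]
    at h1 h2 ⊢
  rw [abs_le]; constructor <;> linarith

lemma sq_smul (a : ℝ) (u : κ → ℝ) : sq (a • u) = a ^ 2 * sq u := by
  simp only [sq, smul_dotProduct, dotProduct_smul, smul_eq_mul]; ring

lemma sq_sub3 (u v w : κ → ℝ) : sq (u - v - w) ≤ 3 * (sq u + sq v + sq w) := by
  simp only [sq, dotProduct, ← Finset.sum_add_distrib, Finset.mul_sum, Pi.sub_apply]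
  exact Finset.sum_le_sum fun i _ => by
    nlinarith [sq_nonneg (u i + v i), sq_nonneg (u i + w i), sq_nonneg (v i - w i)]

/-- extension by zero -/
def ex (ι : κ → Fin n) (u : κ → ℝ) (i : Fin n) : ℝ := ∑ k, if ι k = i then u k else 0

lemma ex_dot (ι : κ → Fin n) (u : κ → ℝ) (y : Fin n → ℝ) : ex ι u ⬝ᵥ y = u ⬝ᵥ fun k => y (ι k) := by
  simp only [dotProduct, ex, Finset.sum_mul, ite_mul, zero_mul]
  rw [Finset.sum_comm]
  simp only [Finset.sum_ite_eq, Finset.mem_univ, if_true]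

lemma sq_ex {ι : κ → Fin n} (h : Injective ι) (u : κ → ℝ) : sq (ex ι u) = sq u := by
  rw [sq, ex_dot, sq]
  congr 1
  ext k
  simp only [ex, h.eq_iff, Finset.sum_ite_eq', Finset.mem_univ, if_true]

lemma nrm_ex {ι : κ → Fin n} (h : Injective ι) (u : κ → ℝ) : nrm (ex ι u) = nrm u :=
  congrArg Real.sqrt (sq_ex h u)

lemma lip_s {ι : κ → Fin n} (h : Injective ι) (u : κ → ℝ) :
    Lip2 (2 * nrm u) fun x => u ⬝ᵥ sT ι x := by
  have := S1n.lip2_lin (ex ι u)
  simp only [ex_dot, nrm_ex h] at this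
  exact this

lemma sq_sT (ι : κ → Fin n) (x : Cube n) : sq (sT ι x) = Fintype.card κ := by
  simp only [sq, dotProduct, sT, Rec.sv_mul_self, Finset.sum_const, Finset.card_univ, nsmul_eq_mul,
    mul_one]

lemma row_le {J : Matrix (Fin n) (Fin n) ℝ} (hJ : opn J ≤ 3) (C : Finset (Fin n)) {ι : κ → Fin n}
    (h : Injective ι) (c : κ → ℝ) : nrm (∑ k, c k • rw J C ι k) ≤ 3 * nrm c := by
  have h1 := Eig.nrm_mulVec_le Jᵀ (ex ι c)
  rw [Eig.opn_transpose, nrm_ex h] at h1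
  refine le_trans (Real.sqrt_le_sqrt (Finset.sum_le_sum fun j _ => ?_))
    (h1.trans (mul_le_mul_of_nonneg_right hJ (nrm_nonneg _)))
  have e : (Jᵀ *ᵥ ex ι c) j = ∑ k, c k * J (ι k) j := by
    rw [mulVec, dotProduct_comm, ex_dot]; rfl
  simp only [Finset.sum_apply, Pi.smul_apply, smul_eq_mul, rw, e]
  split_ifs
  · exact le_rfl
  · simpa using mul_self_nonneg _

lemma jensen {Ω : Type} [Fintype Ω] {v : Ω → ℝ} (hv : Wt v) (φ : Ω → κ → ℝ) (b : κ → ℝ) :
    sq (meanV v φ - b) ≤ mean v fun x => sq (φ x - b) := by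
  have h1 := hv.mean_mono (f := fun x => (meanV v φ - b) ⬝ᵥ φ x - (meanV v φ - b) ⬝ᵥ b)
    (g := fun x => (sq (meanV v φ - b) + sq (φ x - b)) / 2) fun x => by
      rw [← dotProduct_sub]; exact (le_abs_self _).trans (abs_dot _ _)
  rw [mean_sub, hv.mean_const, ← meanV_dot, ← dotProduct_sub, mean_div_const, mean_add,
    hv.mean_const] at h1
  change sq (meanV v φ - b) ≤ _ at h1
  linarith

lemma sq_dM {v w : Cube n → ℝ} (hv : Wt v) (hw : Wt w) (φ : Cube n → κ → ℝ) (b : κ → ℝ) :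
    sq (dM v w φ) ≤ 2 * mean v (fun x => sq (φ x - b)) + 2 * mean w fun x => sq (φ x - b) := by
  have := sq_sub_le (meanV v φ - b) (meanV w φ - b)
  rw [sub_sub_sub_cancel_right] at this
  linarith [jensen hv φ b, jensen hw φ b, show sq (dM v w φ) = sq (meanV v φ - meanV w φ) from rfl]

/-- three laws, the middle one a pinned tilt of the last one -/
lemma kl_two {μ v w G : Cube n → ℝ} (hμ : ∀ x, 0 < μ x) (hp : Pr v w)
    (hq : ∀ x, w x ≠ 0 → w x = μ x * exp (G x)) :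
    kl v w + kl w μ = kl v μ + (mean w G - mean v G) := by
  have e : ∀ x, w x ≠ 0 → log (w x) = log (μ x) + G x := fun x hx => by
    rw [hq x hx, log_mul (hμ x).ne' (exp_pos _).ne', log_exp]
  rw [kl_eq_mean hp, kl_eq_mean (S1n.pr_of hμ hp.hv), kl_eq_mean (S1n.pr_of hμ hp.hw),
    mean_congr_supp (v := v) (f := fun x => log (v x) - log (w x))
      (g := fun x => log (v x) - log (μ x) - G x) (fun x hx => by rw [e x (hp.pos hx).2.ne']; ring),
    mean_congr_supp (v := w) (f := fun x => log (w x) - log (μ x)) (g := G)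
      (fun x hx => by rw [e x hx]; ring), mean_sub _ _ G]
  ring

lemma nrm_grad {L : ℝ} {F : Cube n → ℝ} (h : Lip2 L F) (x : Cube n) : sq (grad F x) ≤ L ^ 2 := by
  refine le_trans ?_ ((Xt.lip2_iff h.nn).1 h x)
  rw [sq, dotProduct]
  refine Finset.sum_le_sum fun j _ => ?_
  rw [Rec.grad_eq]
  nlinarith [Rec.sv_mul_self x j, sq_nonneg (F x - F (Rec.fl x j))]

end

variable {n : ℕ} {κ : Type} [Fintype κ] [DecidableEq κ] {D : Dat n κ}

lemma mu_pos (D : Dat n κ) (x : Cube n) : 0 < D.μ x := exp_pos _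

lemma U_nn (h : D.Geo) (x : Cube n) : 0 ≤ D.U x :=
  mul_nonneg (by linarith [h.P1]) (Finset.sum_nonneg fun _ _ => sq_nonneg _)

lemma card_le (h : D.Geo) : (Fintype.card κ : ℝ) ≤ D.Cᶜ.card := by
  rw [← Finset.card_univ]
  exact_mod_cast Finset.card_le_card_of_injOn D.ι (fun k _ => by simpa using h.off k) h.inj.injOn

lemma wt_l (D : Dat n κ) : Wt D.l :=
  ⟨fun x => by unfold Dat.l; split_ifs; exacts [(mul_pos (mu_pos D x) (exp_pos _)).le, le_rfl],
    Finset.sum_pos' (fun x _ => by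
      unfold Dat.l; split_ifs; exacts [(mul_pos (mu_pos D x) (exp_pos _)).le, le_rfl])
      ⟨D.x0, Finset.mem_univ _, by
        rw [Dat.l, if_pos fun _ _ => rfl]; exact mul_pos (mu_pos D _) (exp_pos _)⟩⟩

lemma sq_zeta (h : D.Geo) (p : ℝ) (z : κ → ℝ) (t : ℝ) (x : Cube n) :
    sq (D.ζ p z t x) ≤ 2 * D.P * D.U x + sq (z - p • D.h x - (1 - t) • D.s x) := by
  rw [← sq_ex h.inj (z - _ - _), Dat.U, ← mul_assoc, Finset.mul_sum,
    ← Finset.univ_inter D.S, ← Finset.sum_ite_mem, sq, sq, dotProduct, dotProduct,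
    ← Finset.sum_add_distrib]
  refine Finset.sum_le_sum fun i _ => ?_
  simp only [Dat.ζ, ex, Pi.sub_apply, Pi.smul_apply, smul_eq_mul]
  split_ifs
  · nlinarith [mul_self_nonneg (∑ k, if D.ι k = i then z k - p * D.h x k - (1 - t) * D.s x k else 0)]
  · rw [zero_add]

lemma sq_zeta' (h : D.Geo) {p t : ℝ} (p0 : 0 ≤ p) (p1 : p ≤ D.P) (t0 : 0 ≤ t) (t1 : t ≤ 1) (z : κ → ℝ)
    (x : Cube n) : sq (D.ζ p z t x) ≤ 2 * D.P * D.U x + 3 * D.P ^ 2 * sq (D.h x - D.xb) +
      3 * (sq (z - p • D.xb) + Fintype.card κ) := by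
  have h1 := sq_sub3 (z - p • D.xb) (p • (D.h x - D.xb)) ((1 - t) • D.s x)
  rw [sq_smul, sq_smul, show sq (D.s x) = _ from sq_sT _ _, smul_sub, sub_sub_sub_cancel_right] at h1
  have h2 := mul_le_mul_of_nonneg_right (pow_le_pow_left₀ p0 p1 2) (sq_nn (D.h x - D.xb))
  have h3 := mul_le_mul_of_nonneg_right (show (1 - t) ^ 2 ≤ 1 by nlinarith)
    (Nat.cast_nonneg (α := ℝ) (Fintype.card κ))
  linarith [sq_zeta h p z t x]

/-- the Lipschitz part of the exponent of a reference weight -/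
def g1 (D : Dat n κ) (u z : κ → ℝ) (x : Cube n) : ℝ :=
  (D.dl + D.del) ⬝ᵥ sv x + D.Θ x + u ⬝ᵥ D.s x + z ⬝ᵥ D.h x

/-- the penalty -/
def U1 (D : Dat n κ) (p t : ℝ) (x : Cube n) : ℝ :=
  D.U x + p / 2 * sq (D.h x - D.xb) + (1 - t) * (D.s x ⬝ᵥ (D.h x - D.xb))

lemma ref_eq {p t : ℝ} {z c m mh : κ → ℝ} {w : Cube n → ℝ} (h : D.Ref p z c m t mh w) (x : Cube n)
    (hx : w x ≠ 0) : w x = D.μ x * exp (g1 D (m + (1 - t) • (mh - D.xb)) (z - p • D.xb) x +
      c ⬝ᵥ D.φ x - U1 D p t x + p / 2 * sq D.xb) := by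
  have e : w x = D.Wp p z c m t mh x := by
    rcases h with rfl | ⟨σ, rfl⟩
    · rfl
    · unfold cut at hx ⊢
      split_ifs at hx ⊢
      exacts [rfl, absurd rfl hx]
  rw [e] at hx ⊢
  simp only [Dat.Wp, Dat.W, wS, wt, post, Dat.pw, Dat.l] at hx ⊢
  split_ifs at hx ⊢
  · simp only [mul_assoc, ← exp_add]
    congr 2
    simp only [g1, U1, sq, add_dotProduct, sub_dotProduct, dotProduct_sub, smul_dotProduct,
      smul_eq_mul, dotProduct_comm D.xb (D.h x), dotProduct_comm mh (D.s x),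
      dotProduct_comm D.xb (D.s x)]
    ring
  · simp at hx

lemma U1_le {p t : ℝ} (p1 : p ≤ D.P) (t0 : 0 ≤ t) (t1 : t ≤ 1) (x : Cube n) :
    U1 D p t x ≤ D.U x + (D.P + 1) / 2 * sq (D.h x - D.xb) + Fintype.card κ / 2 := by
  have h1 := abs_dot (D.s x) (D.h x - D.xb)
  have h2 := sq_nn (D.h x - D.xb)
  have h3 : sq (D.s x) = Fintype.card κ := sq_sT _ _
  have h5 := (mul_le_mul_of_nonneg_left (le_abs_self (D.s x ⬝ᵥ (D.h x - D.xb)))
    (show 0 ≤ 1 - t by linarith)).trans (mul_le_of_le_one_left (abs_nonneg _) (by linarith))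
  unfold U1
  nlinarith [mul_le_mul_of_nonneg_right p1 h2]

lemma le_U1 (h : D.Geo) {p t : ℝ} (p0 : 0 ≤ p) (t0 : 0 ≤ t) (t1 : t ≤ 1) (ht : t = 1 ∨ p = D.P)
    (x : Cube n) : D.U x - Fintype.card κ / 2 ≤ U1 D p t x := by
  have h1 := abs_dot (D.s x) (D.h x - D.xb)
  have h2 := sq_nn (D.h x - D.xb)
  have h3 : sq (D.s x) = Fintype.card κ := sq_sT _ _
  have h4 : (0 : ℝ) ≤ Fintype.card κ := Nat.cast_nonneg _
  have h5 := (mul_le_mul_of_nonneg_left (neg_le_abs (D.s x ⬝ᵥ (D.h x - D.xb)))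
    (show 0 ≤ 1 - t by linarith)).trans (mul_le_of_le_one_left (abs_nonneg _) (by linarith))
  unfold U1
  rcases ht with rfl | rfl
  · nlinarith [mul_nonneg p0 h2]
  · nlinarith [mul_le_mul_of_nonneg_right h.P1 h2]

lemma lip_g1 (h : D.Geo) (hΘ : Lip2 D.L D.Θ) {u u' z : κ → ℝ} {B : ℝ}
    (h1 : sq D.dl + sq D.del + D.L ^ 2 ≤ B) (h2 : sq u ≤ B) (h3 : sq u' ≤ B) (h4 : sq z ≤ B) :
    Lip2 (15 * √B) (g1 D (u + u') z) := by
  have a1 := sq_nn D.dl
  have a2 := sq_nn D.del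
  have a3 := sq_nonneg D.L
  have b1 : nrm D.dl ≤ √B := sqrt_le_sqrt (show sq D.dl ≤ B by linarith)
  have b2 : nrm D.del ≤ √B := sqrt_le_sqrt (show sq D.del ≤ B by linarith)
  have b3 : D.L ≤ √B := le_sqrt_of_sq_le (by linarith)
  have b4 : nrm u ≤ √B := sqrt_le_sqrt h2
  have b5 : nrm u' ≤ √B := sqrt_le_sqrt h3
  have b6 : nrm z ≤ √B := sqrt_le_sqrt h4
  exact ((((S1n.lip2_lin (D.dl + D.del)).add hΘ).add (lip_s h.inj (u + u'))).add
    (Hc61.lip_hG (row_le h.op D.C h.inj) z)).mono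
    (by linarith [nrm_add_le D.dl D.del, nrm_add_le u u'])

end Kb61

open Kb61 in
theorem kbGlue : KbGlue := by
  intro hc P K
  obtain ⟨α, hα⟩ : ∃ α, α = 5 + P + 1127 * K := ⟨_, rfl⟩
  obtain ⟨β, hβ⟩ : ∃ β, β = 288 * K * (1 + 2 * α) := ⟨_, rfl⟩
  obtain ⟨M, hM⟩ : ∃ M, M = 2 * α + 2 * P * α + 3 * P ^ 2 * β + 3 * β + 2 * P + 3 * P ^ 2 + 18 := ⟨_, rfl⟩
  refine ⟨max 1 (max M (3 + 576 * K)), le_max_left _ _, ?_⟩
  intro n κ _ _ D mg C0 CV h hP p z c m t mh w v p0 p1 t0 t1 ht hcR hr hp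
  subst hP
  have hG := h.toGeo
  have hμ := mu_pos D
  have K0 := h.K0
  have P1 := h.P1
  have b1 := h.b1
  have cd : (Fintype.card κ : ℝ) ≤ D.B0 := (card_le hG).trans h.bU
  have hH : ∀ v, Wt v → mean v (fun x => sq (D.h x - D.xb)) ≤ 288 * K * (Fintype.card κ + kl v D.μ) :=
    (hc n κ D.μ K _ hμ h.h1 K0 (row_le h.op D.C h.inj)).2
  refine ⟨?_, fun x => ?_, ?_⟩
  · obtain ⟨B, hB⟩ : ∃ B, B = D.bv p z v + sq c + sq m + (1 - t) * sq (mh - D.xb) := ⟨_, rfl⟩
    rw [← hB]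
    rw [Dat.bv, mean_add] at hB
    have n1 := (S1n.pr_of hμ hp.hv).kl_nonneg
    have n2 := sq_nn (z - p • D.xb)
    have n3 := hp.hv.mean_nonneg (U_nn hG)
    have n4 := hp.hv.mean_nonneg fun x => sq_nn (D.h x - D.xb)
    have n5 := sq_nn c
    have n6 := sq_nn m
    have n7 := mul_nonneg (sub_nonneg.2 t1) (sq_nn (mh - D.xb))
    have n8 := (S1n.pr_of hμ hp.hw).kl_nonneg
    have n9 := hp.kl_nonneg
    have n10 := hp.hw.mean_nonneg (U_nn hG)
    have B0 : 0 ≤ B := by linarith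
    have l := lip_g1 hG h.lipΘ (u := m) (u' := (1 - t) • (mh - D.xb)) (z := z - p • D.xb) (B := B)
      (by linarith [h.bd]) (by linarith) (by rw [sq_smul]; nlinarith [mul_nonneg t0 n7]) (by linarith)
    have k1 := kl_two hμ hp (ref_eq hr)
    simp only [mean_add, mean_sub, hp.hv.mean_const, hp.hw.mean_const] at k1
    have k2 := S1n.h1_up hμ h.h1 l hp.hw four_pos
    have k3 := S1n.h1_lo hμ h.h1 l hp.hv one_pos
    rw [mul_pow, sq_sqrt B0] at k2 k3
    have k4 := (abs_le.1 (h.trφ c hcR w hp.hw)).2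
    have k5 := (abs_le.1 (h.trφ c hcR v hp.hv)).1
    have k6 := hp.hw.mean_mono (le_U1 hG p0 t0 t1 ht)
    have k7 := hp.hv.mean_mono (U1_le (D := D) p1 t0 t1)
    simp only [mean_add, mean_sub, mean_const_mul, hp.hv.mean_const, hp.hw.mean_const] at k6 k7
    have k8 := mul_le_mul_of_nonneg_left (show D.B0 + sq c ≤ B by linarith) K0.le
    have k9 := mul_le_mul_of_nonneg_left
      (show (mean v fun x => sq (D.h x - D.xb)) ≤ B by linarith) (show 0 ≤ D.P by linarith)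
    have PB : 0 ≤ D.P * B := by positivity
    have k : kl v w + 5 / 8 * kl w D.μ + mean w D.U ≤ α * B := by rw [hα]; linarith
    have q1 : mean w (fun x => sq (D.h x - D.xb)) ≤ β * B := (hH w hp.hw).trans (by
      rw [hβ, mul_assoc (288 * K)]
      exact mul_le_mul_of_nonneg_left (by linarith) (by positivity))
    have q2 := hp.hw.mean_mono (sq_zeta' hG p0 p1 t0 t1 z)
    have q3 := hp.hv.mean_mono (sq_zeta' hG p0 p1 t0 t1 z)
    simp only [mean_add, mean_const_mul, hp.hv.mean_const, hp.hw.mean_const] at q2 q3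
    have q4 := sq_dM hp.hv hp.hw D.h D.xb
    have q5 := sq_dM hp.hv hp.hw D.s 0
    simp only [sub_zero, Dat.s, sq_sT, hp.hv.mean_const, hp.hw.mean_const] at q5
    have q6 := mul_le_mul_of_nonneg_left (show mean w D.U ≤ α * B by linarith)
      (show 0 ≤ D.P by linarith)
    have q7 := mul_le_mul_of_nonneg_left q1 (sq_nonneg D.P)
    have q8 := mul_le_mul_of_nonneg_left (show mean v D.U ≤ B by linarith) (show 0 ≤ D.P by linarith)
    have q9 := mul_le_mul_of_nonneg_left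
      (show (mean v fun x => sq (D.h x - D.xb)) ≤ B by linarith) (sq_nonneg D.P)
    refine le_trans ?_ (mul_le_mul_of_nonneg_right ((le_max_left _ _).trans (le_max_right _ _)) B0)
    rw [mean_add, hM, Dat.s]
    linarith
  · have e : D.ψ c x = D.dl + D.del + grad D.Θ x + grad (fun y => c ⬝ᵥ D.φ y) x := by
      rw [Dat.ψ, Rec.grad_add, Rec.grad_add, Rec.grad_lin]
    have h1 := sq_sub_le (D.dl + D.del + grad D.Θ x) (-grad (fun y => c ⬝ᵥ D.φ y) x)
    have h2 := sq_sub3 D.dl (-D.del) (-grad D.Θ x)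
    have h3 := pow_le_pow_left₀ (nrm_nonneg _) (h.lipφ c x) 2
    rw [mul_pow, nrm_sq, nrm_sq] at h3
    simp only [sub_neg_eq_add, sq, neg_dotProduct_neg] at h1 h2
    have h4 := nrm_grad h.lipΘ x
    have h5 := h.bd
    have h6 : D.B0 ≤ CV ^ 2 * D.B0 := le_mul_of_one_le_left (by linarith) (one_le_pow₀ h.cv)
    have h7 := mul_nonneg (sq_nonneg CV) (sq_nn c)
    rw [e]
    simp only [sq] at h4 h5 h7 ⊢
    linarith
  · have hν : Wt D.ν := (wt_l D).mul_pos h.fp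
    have h1 := (hH _ hν).trans (mul_le_mul_of_nonneg_left (add_le_add cd h.bk) (by positivity))
    refine le_trans ?_ (mul_le_mul_of_nonneg_right ((le_max_right _ _).trans (le_max_right _ _))
      (by linarith))
    rw [Dat.bud, Dat.bv, Dat.vp, post_zero, mean_add, zero_smul, sub_zero, sq, zero_dotProduct]
    linarith [h.bk, h.bu]

theorem kbStmt : KbStmt := kbGlue hcStmt

end Crest.Agent.T157.Br
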