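import Crest.Agent.T157.S1BuD_83
import Crest.Agent.T157.S1Cr_89
import Crest.Agent.T157.BrSm_54
import Crest.Agent.T157.BrKb_61

/-! Row 157, S1 B-part: `BuStmt` unconditionally (helper83). -/

namespace Crest.Agent.T157.S1

theorem buStmt : BuStmt := buGlue crudeStmt Br.smStmt Br.kbStmt

end Crest.Agent.T157.S1
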