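import Crest.Agent.T157.BrAct_50
import Crest.Agent.T157.S1Bp_30
import Crest.Agent.T157.S1BuE_83
import Crest.Agent.T157.OkAll_31

/-!
# Row 157, block B, S1: the burst part of the supply, unconditional (helper50)
-/

namespace Crest.Agent.T157.S1

theorem actP : ActP := Br.actP

theorem bPart : BPart := bpGlue actP buStmt supStmt

end Crest.Agent.T157.S1
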