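import Crest.Agent.T157.RipF_25

/-!
# Row 157, part B (helper25): cavity vectors orthogonal to an extra family of modes
-/

set_option autoImplicit false
set_option linter.unusedVariables false

noncomputable section

namespace Crest.Agent.T157.Rip

open MeasureTheory ProbabilityTheory Matrix Filter Set Topology
open Crest.ProbabilityR.SpinGlassDynamics
open Crest.Agent.T157.E Crest.Agent.T157.Eig Crest.Agent.T157.Cond Crest.Agent.T157.Tap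
open Crest.Agent.T157.SL Crest.Agent.T157.Pos Crest.Agent.T157.Uw Cav35

/-- vectors whose Wick powers are flat -/
def FW {ι : Type*} [Fintype ι] [DecidableEq ι] (s : ℝ) (J : Matrix ι ι ℝ) (g q : ι → ℝ) (k : ℕ)
    (m ε : ℝ) : Set (ι → ℝ) := {f | ∀ j ≤ k, Fl m ε (Ww s J g j *ᵥ (g / q * f))}

lemma ty_of {ι : Type*} [Fintype ι] [DecidableEq ι] {s m ε : ℝ} {J : Matrix ι ι ℝ} {g q f c : ι → ℝ}
    {K k : ℕ} (hJ : Jᵀ = J) (hk : K ≤ k) (hf : f ∈ FW s J g q k m ε) (hc : Sp m c) :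
    |((diagonal (g / q) * Yy s J g (K + 1)) *ᵥ c) ⬝ᵥ f| ≤ (K + 1) * ε * nrm c := by
  have e1 : ((diagonal (g / q) * Yy s J g (K + 1)) *ᵥ c) ⬝ᵥ f =
      c ⬝ᵥ ∑ k ∈ Finset.range (K + 1), Ww s J g k *ᵥ (g / q * f) := by
    rw [← Yy_mv, dotProduct_mulVec, ← mulVec_transpose, ← mulVec_mulVec, dmv]
    have : (Yy s J g (K + 1))ᵀ = Yy s J g (K + 1) := by
      simp only [Yy, transpose_sum, Ww_symm hJ]
    rw [this]
    exact Finset.sum_congr rfl fun i _ => by simp only [Pi.mul_apply]; ring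
  have f1 := Fl.sum (Finset.range (K + 1)) (z := fun k => Ww s J g k *ᵥ (g / q * f))
    (fun j hj => hf j (by have := Finset.mem_range.1 hj; omega)) c hc
  rw [e1]
  simpa using f1

/-- **existence of the cavity vectors**, orthogonal to every vector with flat Wick powers -/
theorem cavW {M ρ C2 e ε : ℝ} (hM : 1 ≤ M) (hρ0 : 0 ≤ ρ) (hρ1 : ρ < 1) (hC2 : 1 ≤ C2) (he : 0 < e)
    (hε : 0 < ε) : ∃ (k : ℕ) (ε0 : ℝ), 0 < ε0 ∧ ∀ (ι : Type) [Fintype ι] [DecidableEq ι] (s m : ℝ)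
      (J : Matrix ι ι ℝ) (A F : Set (ι → ℝ)) (g p q α : ι → ℝ), RIP s J A F k m ε0 → Jᵀ = J →
      s ^ 2 * Fintype.card ι ≤ 1 → g ∈ A → g * g ∈ A → (1 : ι → ℝ) ∈ A → (∀ i, 0 < g i) →
      (∀ i, g i ≤ M) → (∀ i, 0 < q i) → (∀ i, 0 ≤ p i) → (∀ i, g i ≤ C2 * q i) →
      (∀ i, p i ≤ C2 * q i) → (∀ i, p i ≤ C2 * g i) → eta s (g * g) ≤ ρ ^ 2 →
      (∀ i, |α i - q i * (1 / g i + eta s g)| ≤ e) →
      ∃ Wm, ∀ m' ≤ m, Cav J p q α (eta s g) (2 * C2 / (1 - ρ)) (2 * C2 ^ 2 / (1 - ρ) ^ 2)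
        ((2 * C2 / (1 - ρ) + 1) * e) ε m' ({f | g / q * f ∈ F} ∪ FW s J g q k m' ε0) Wm := by
  have hM2 : 0 < M ^ 2 + 1 := by positivity
  obtain ⟨K, hK⟩ := exists_pow_lt_of_lt_one (show 0 < e / (2 * (M ^ 2 + 1)) by positivity) hρ1
  have K0 : (0 : ℝ) ≤ K := Nat.cast_nonneg _
  set τ : ℝ := min (min (1 / ((K : ℝ) + 1)) (e / (2 * (M ^ 2 + 1))))
    (min 1 (ε / (2 * C2 ^ 2 * (K + 1) ^ 2 + 1))) with hτ
  have τ0 : 0 < τ := by positivity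
  have τ1 : τ ≤ 1 / (K + 1) := (min_le_left _ _).trans (min_le_left _ _)
  have τ2 : τ ≤ e / (2 * (M ^ 2 + 1)) := (min_le_left _ _).trans (min_le_right _ _)
  have τ3 : τ ≤ 1 := (min_le_right _ _).trans (min_le_left _ _)
  have τ4 : τ ≤ ε / (2 * C2 ^ 2 * (K + 1) ^ 2 + 1) := (min_le_right _ _).trans (min_le_right _ _)
  rw [le_div_iff₀ (by positivity)] at τ1 τ2 τ4
  rw [lt_div_iff₀ (by positivity)] at hK
  set ε0 := min (τ ^ 2 / (1 + M * (K + 1))) (ε / ((C2 + M ^ 2 + 1) * (K + 3)))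
  have e0 : 0 < ε0 := by positivity
  have t4 : (C2 + M ^ 2 + 1) * (K + 3) * ε0 ≤ ε := by
    rw [mul_comm, ← le_div_iff₀ (by positivity)]
    exact min_le_right _ _
  refine ⟨2 * (K + 1) + 1, ε0, e0,
    fun ι _ _ s m J A F g p q α h hJ hs hg hgg h1 g0 gM q0 p0 gq pq pg hρ hα => ?_⟩
  have hW := cav_of h hJ hs e0.le hM hρ0 hρ1 hC2 he.le hg hgg h1 g0 gM q0 p0 gq pq pg hρ hα τ0.le
    (by push_cast; rw [mul_comm, ← le_div_iff₀ (by positivity)]; exact min_le_left _ _)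
    (by linarith) (by
      have a : 0 ≤ 2 * C2 ^ 2 * (K + 1) ^ 2 := by positivity
      have b : τ ^ 2 ≤ τ := by nlinarith
      nlinarith [mul_le_mul_of_nonneg_left b a]) (by linarith) t4
  refine ⟨Matrix.diagonal (g / q) * Yy s J g (K + 1), fun m' hm => ?_⟩
  have hW' := hW.mono (eta_nonneg fun i => (g0 i).le) le_rfl le_rfl le_rfl le_rfl hm subset_rfl
  refine { hW' with ty := fun c hc f hf => hf.elim (hW'.ty c hc f) fun hf => ?_ }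
  refine (ty_of hJ (by omega) hf hc).trans (mul_le_mul_of_nonneg_right ?_ (nrm_nonneg _))
  exact le_trans (mul_le_mul_of_nonneg_right (by nlinarith) e0.le) t4

variable {β s : ℝ}

/-- **cavity vectors at typical instances**, orthogonal to the types and to `FW` -/
theorem TF.cavW (hβ : β ∈ Ioc (0 : ℝ) 1) {q0 : ℝ} (hL : Lv β s q0) {M ρ C2 e ε : ℝ} (hM : 1 ≤ M)
    (hρ0 : 0 ≤ ρ) (hρ1 : ρ < 1) (hC2 : 1 ≤ C2) (he : 0 < e) (hε : 0 < ε) (κ : Type) [Fintype κ] :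
    ∃ (k : ℕ) (ε0 δ : ℝ), 0 < ε0 ∧ 0 < δ ∧ ∀ (g q : ℝ → ℝ) (d : κ → ℝ → ℝ), Continuous g →
      (∀ x, g (-x) = g x) → Continuous q → (∀ l, Continuous (d l)) → (∀ l x, |d l x| ≤ 1) →
      (∀ x, 0 < g x ∧ g x ≤ M ∧ β * g x ≤ ρ ∧ g x ≤ C2 * q x) → ∀ᶠ i in TF β s,
      |eta (β / √i.n) (fun k => g (i.b β k)) - β ^ 2 * gE g (s + β ^ 2 * q0) (s + β ^ 2 * q0)| ≤ ε ∧
      ∀ p α : V i.n, (∀ k, 0 ≤ p k ∧ p k ≤ C2 * q (i.b β k) ∧ p k ≤ C2 * g (i.b β k)) →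
        (∀ k, |α k - q (i.b β k) * (1 / g (i.b β k) + eta (β / √i.n) fun k => g (i.b β k))| ≤ e) →
        ∃ Wm, ∀ m ≤ δ * i.n, Cav (i.J β) p (fun k => q (i.b β k)) α
          (eta (β / √i.n) fun k => g (i.b β k)) (2 * C2 / (1 - ρ)) (2 * C2 ^ 2 / (1 - ρ) ^ 2)
          ((2 * C2 / (1 - ρ) + 1) * e) ε m ((Fs fun l k => d l (i.b β k)) ∪
            FW (β / √i.n) (i.J β) (fun k => g (i.b β k)) (fun k => q (i.b β k)) k m ε0) Wm := by
  obtain ⟨k, ε0, e0, h⟩ := Rip.cavW hM hρ0 hρ1 hC2 he hε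
  have M2 : M ≤ M ^ 2 := le_self_pow₀ hM two_ne_zero
  have m1 : M ^ 2 ≤ M ^ 2 * C2 := le_mul_of_one_le_right (sq_nonneg _) hC2
  have m2 : C2 ≤ M ^ 2 * C2 := le_mul_of_one_le_left (by linarith) (hM.trans M2)
  have M0 : 0 < M := by linarith
  have C0 : 0 < C2 := by linarith
  obtain ⟨δ, δ0, hr⟩ := TF.rip hβ hL.1 (ι := Fin 3 ⊕ κ) k
    (ε := ε0 / (M ^ 2 * C2) ^ (k + 1)) (by positivity)
  refine ⟨k, ε0, δ, e0, δ0, fun g q d cg eg cq cd bd hg => ?_⟩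
  have q0 : ∀ x, 0 < q x := fun x => (mul_pos_iff_of_pos_left C0).1 ((hg x).1.trans_le (hg x).2.2.2)
  have b1 : ∀ x, |g x / M| ≤ 1 := fun x => by
    rw [abs_of_pos (div_pos (hg x).1 M0)]; exact (div_le_one M0).2 (hg x).2.1
  have h1 := hr (Sum.elim ![fun x => g x / M, fun x => g x / M * (g x / M), fun _ => 1]
    fun l x => g x / q x / C2 * d l x) (by
      rintro (j | l)
      · fin_cases j <;> simp <;> fun_prop
      · exact ((cg.div cq fun x => (q0 x).ne').div_const _).mul (cd l)) (by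
      rintro (j | l) x
      · fin_cases j
        exacts [b1 x, (abs_mul _ _).trans_le (mul_le_one₀ (b1 x) (abs_nonneg _) (b1 x)), abs_one.le]
      · refine (abs_mul _ _).trans_le (mul_le_one₀ ?_ (abs_nonneg _) (bd l x))
        rw [abs_of_pos (div_pos (div_pos (hg x).1 (q0 x)) C0), div_le_one C0, div_le_iff₀ (q0 x)]
        exact (hg x).2.2.2)
  have h2 := ((TF.emp hβ hL cg eg (K := M) fun x => by
    rw [abs_of_pos (hg x).1]; exact (hg x).2.1).const_mul (β ^ 2)).eventually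
      (Metric.closedBall_mem_nhds _ hε)
  filter_upwards [h1, h2, TF.lim.eventually (eventually_gt_atTop 0)] with i h1 h2 hn
  refine ⟨by rw [eta_avg hn]; exact h2, fun p α hp hα => ?_⟩
  have h3 := h1.scale (by positivity) (hC2.trans m2)
  rw [mul_div_cancel₀ _ (by positivity)] at h3
  obtain ⟨Wm, hW⟩ := h _ _ _ _ _ _ (fun k => g (i.b β k)) p (fun k => q (i.b β k)) α h3
    i.symm (sq_card hβ hn)
    ⟨M, by rw [abs_of_pos M0]; linarith, _, ⟨.inl 0, rfl⟩, funext fun k => by simp; field_simp⟩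
    ⟨M ^ 2, by rw [abs_of_nonneg (sq_nonneg _)]; exact m1, _, ⟨.inl 1, rfl⟩,
      funext fun k => by simp; field_simp⟩
    ⟨1, by rw [abs_one]; linarith, _, ⟨.inl 2, rfl⟩, funext fun k => by simp⟩
    (fun k => (hg _).1) (fun k => (hg _).2.1) (fun k => q0 _) (fun k => (hp k).1)
    (fun k => (hg _).2.2.2) (fun k => (hp k).2.1) (fun k => (hp k).2.2) (by
      rw [eta_avg hn, avg, ← mul_div_assoc, div_le_iff₀ (by positivity), Finset.mul_sum]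
      refine (Finset.sum_le_card_nsmul _ _ (ρ ^ 2) fun k _ => ?_).trans (by simp [mul_comm])
      have := pow_le_pow_left₀ (mul_pos hβ.1 (hg (i.b β k)).1).le (hg (i.b β k)).2.2.1 2
      rw [Pi.mul_apply]; linarith) hα
  refine ⟨Wm, fun m hm => { hW m hm with ty := fun c hc f hf => (hW m hm).ty c hc f (hf.imp ?_ id) }⟩
  rintro ⟨l, rfl⟩
  refine ⟨C2, by rw [abs_of_pos C0]; exact m2, _, ⟨.inr l, rfl⟩, funext fun k => ?_⟩
  simp
  field_simp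

/-- flatness of the Wick powers of a family of modes -/
def FlW (β s : ℝ) (g q : ℝ → ℝ) (Vf : ∀ i : Pos.In, Set (V i.n)) : Prop :=
  ∀ (k : ℕ) (ε : ℝ), 0 < ε → ∃ δ > (0 : ℝ), ∀ᶠ i in TF β s, ∀ f ∈ Vf i, ∀ j ≤ k,
    Fl (δ * i.n) ε (Ww (β / √i.n) (i.J β) (fun k => g (i.b β k)) j *ᵥ
      ((fun k => g (i.b β k) / q (i.b β k)) * f))

/-- **cavity vectors at typical instances**, orthogonal to the types and to the modes `Vf` -/
theorem TF.cavV (hβ : β ∈ Ioc (0 : ℝ) 1) {q0 : ℝ} (hL : Lv β s q0) {M ρ C2 e ε : ℝ} (hM : 1 ≤ M)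
    (hρ0 : 0 ≤ ρ) (hρ1 : ρ < 1) (hC2 : 1 ≤ C2) (he : 0 < e) (hε : 0 < ε) {κ : Type} [Fintype κ]
    {g q : ℝ → ℝ} {d : κ → ℝ → ℝ} (cg : Continuous g) (eg : ∀ x, g (-x) = g x) (cq : Continuous q)
    (cd : ∀ l, Continuous (d l)) (bd : ∀ l x, |d l x| ≤ 1)
    (hg : ∀ x, 0 < g x ∧ g x ≤ M ∧ β * g x ≤ ρ ∧ g x ≤ C2 * q x) {Vf : ∀ i : Pos.In, Set (V i.n)}
    (hV : FlW β s g q Vf) : ∃ δ > (0 : ℝ), ∀ᶠ i in TF β s,
      |eta (β / √i.n) (fun k => g (i.b β k)) - β ^ 2 * gE g (s + β ^ 2 * q0) (s + β ^ 2 * q0)| ≤ ε ∧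
      ∀ p α : V i.n, (∀ k, 0 ≤ p k ∧ p k ≤ C2 * q (i.b β k) ∧ p k ≤ C2 * g (i.b β k)) →
        (∀ k, |α k - q (i.b β k) * (1 / g (i.b β k) + eta (β / √i.n) fun k => g (i.b β k))| ≤ e) →
        ∃ Wm, Cav (i.J β) p (fun k => q (i.b β k)) α (eta (β / √i.n) fun k => g (i.b β k))
          (2 * C2 / (1 - ρ)) (2 * C2 ^ 2 / (1 - ρ) ^ 2) ((2 * C2 / (1 - ρ) + 1) * e) ε (δ * i.n)
          ((Fs fun l k => d l (i.b β k)) ∪ Vf i) Wm := by
  obtain ⟨k, ε0, δ, e0, δ0, h⟩ := TF.cavW hβ hL hM hρ0 hρ1 hC2 he hε κ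
  obtain ⟨δ', δ1, h'⟩ := hV k ε0 e0
  refine ⟨min δ δ', lt_min δ0 δ1, ?_⟩
  filter_upwards [h g q d cg eg cq cd bd hg, h'] with i h1 h2
  refine ⟨h1.1, fun p α hp hα => ?_⟩
  obtain ⟨Wm, hW⟩ := h1.2 p α hp hα
  have n0 : (0 : ℝ) ≤ i.n := Nat.cast_nonneg _
  have h3 := hW _ (mul_le_mul_of_nonneg_right (min_le_left δ δ') n0)
  exact ⟨Wm, { h3 with ty := fun c hc f hf => h3.ty c hc f (hf.imp id fun hf j hj =>
    (h2 f hf j hj).mono (mul_le_mul_of_nonneg_right (min_le_right δ δ') n0) le_rfl) }⟩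

end Crest.Agent.T157.Rip

end
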