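import Crest.Agent.T157.RipB_25
import Crest.Agent.T157.Top_97

/-!
# Row 157, part B (helper25): sparse blocks of the coupling matrix are small, all sizes at once
-/

set_option autoImplicit false
set_option linter.unusedVariables false

noncomputable section

namespace Crest.Agent.T157.Rip

open Matrix Finset MeasureTheory ProbabilityTheory Filter Topology
open Crest.ProbabilityR.SpinGlassDynamics
open Crest.Agent.T157.Eig Crest.Agent.T157.E

variable {n : ℕ} {C m : ℝ} {J : Matrix (Fin n) (Fin n) ℝ}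

/-- all sparse blocks are small -/
def SpJ (C : ℝ) (J : Matrix (Fin n) (Fin n) ℝ) : Prop :=
  ∀ (m : ℝ) (u v : Fin n → ℝ), Sp m u → Sp m v → |v ⬝ᵥ J *ᵥ u| ≤ C * √(√(m / n)) * (nrm v * nrm u)

lemma SpJ.fl (h : SpJ C J) {u : Fin n → ℝ} (hu : Sp m u) :
    Fl m (C * √(√(m / n)) * nrm u) (J *ᵥ u) := fun v hv => (h m u v hu hv).trans_eq (by ring)

lemma SpJ.smul (h : SpJ C J) (hC : 0 ≤ C) {β : ℝ} (hβ : |β| ≤ 1) : SpJ C (β • J) :=
  fun m u v hu hv => by
    rw [smul_mulVec, dotProduct_smul, smul_eq_mul, abs_mul]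
    exact (mul_le_of_le_one_left (abs_nonneg _) hβ).trans (h m u v hu hv)

/-- restriction to a set -/
def res (A : Finset (Fin n)) (v : Fin n → ℝ) : Fin n → ℝ := fun i => if i ∈ A then v i else 0

lemma sp_res {A : Finset (Fin n)} (hA : (A.card : ℝ) ≤ m) (v : Fin n → ℝ) : Sp m (res A v) :=
  ⟨A, hA, fun i hi => if_neg hi⟩

lemma nrm_res_le (A : Finset (Fin n)) (v : Fin n → ℝ) : nrm (res A v) ≤ nrm v :=
  Real.sqrt_le_sqrt (sum_le_sum fun i _ => by
    unfold res; split_ifs
    · exact le_rfl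
    · simpa using mul_self_nonneg _)

/-- a flat vector has small restrictions -/
lemma Fl.res {ε : ℝ} {x : Fin n → ℝ} (h : Fl m ε x) (he : 0 ≤ ε) {A : Finset (Fin n)}
    (hA : (A.card : ℝ) ≤ m) : nrm (res A x) ≤ ε := by
  have h1 := (le_abs_self _).trans (h _ (sp_res hA x))
  have e : Rip.res A x ⬝ᵥ x = nrm (Rip.res A x) * nrm (Rip.res A x) := by
    rw [nrm_mul_self]
    exact sum_congr rfl fun i _ => by unfold Rip.res; split_ifs <;> simp
  rw [e] at h1
  rcases (nrm_nonneg (Rip.res A x)).eq_or_lt with h0 | h0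
  · rw [← h0]; exact he
  · exact le_of_mul_le_mul_right h1 h0

/-- block form -/
lemma SpJ.block (h : SpJ C J) (hC : 0 ≤ C) {A B : Finset (Fin n)} (hA : (A.card : ℝ) ≤ m)
    (hB : (B.card : ℝ) ≤ m) (u : Fin n → ℝ) :
    nrm (res A (J *ᵥ res B u)) ≤ C * √(√(m / n)) * nrm u :=
  ((h.fl (sp_res hB u)).res (mul_nonneg (by positivity) (nrm_nonneg _)) hA).trans
    (mul_le_mul_of_nonneg_left (nrm_res_le _ _) (by positivity))

lemma SpJ.opn (h : SpJ C J) (hC : 0 ≤ C) {A B : Finset (Fin n)} (hA : (A.card : ℝ) ≤ m)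
    (hB : (B.card : ℝ) ≤ m) :
    opn (of fun i j => if i ∈ A ∧ j ∈ B then J i j else 0) ≤ C * √(√(m / n)) := by
  refine opn_le_of_nrm (by positivity) fun u => le_trans (le_of_eq ?_) (h.block hC hA hB u)
  congr 1
  funext i
  by_cases hi : i ∈ A
  · simp only [mulVec, dotProduct, of_apply, res, hi, true_and, if_true]
    exact sum_congr rfl fun j _ => by split_ifs <;> simp
  · simp [mulVec, dotProduct, res, hi]

/-- columns restricted to a sparse set -/
lemma SpJ.col (h : SpJ C J) (hC : 0 ≤ C) {A : Finset (Fin n)} (hA : (A.card : ℝ) ≤ m) (h1 : 1 ≤ m)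
    (j : Fin n) : ∑ k ∈ A, J k j ^ 2 ≤ C ^ 2 * √(m / n) := by
  have h2 := (h.fl (u := Pi.single j 1) ⟨{j}, by simpa, fun i hi => by
    rw [Pi.single_apply, if_neg (by simpa using hi)]⟩).res
      (mul_nonneg (by positivity) (nrm_nonneg _)) hA
  rw [nrm_single, mul_one, mulVec_single_one] at h2
  have h3 := pow_le_pow_left₀ (nrm_nonneg _) h2 2
  rw [mul_pow, Real.sq_sqrt (Real.sqrt_nonneg _), nrm_sq] at h3
  refine le_trans (le_of_eq ?_) h3
  simp only [dotProduct, res, ite_mul, zero_mul]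
  rw [← sum_filter, filter_mem_eq_inter, univ_inter]
  exact sum_congr rfl fun k hk => by simp [hk, sq]

lemma spJ_tail (ν : Pair n → Measure ℝ) [∀ p, IsProbabilityMeasure (ν p)]
    (hν : ∀ p, HasSubgaussianMGF id 1 (ν p)) (hn : 0 < n) :
    (Measure.pi ν).real {g | ¬ SpJ 30 (Jmat n g)} ≤ n * Real.exp (-√n) := by
  classical
  have n0 : (0 : ℝ) < n := by positivity
  choose Nt c2 c3 c4 using fun T : Finset (Fin n) => Nrm.exists_half_net T
  set TT : ℕ → Finset (Finset (Fin n)) := fun a => univ.filter fun T => (T.card : ℝ) ≤ a with hTT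
  have hsub : {g | ¬ SpJ 30 (Jmat n g)} ⊆ ⋃ a ∈ Icc 1 n, ⋃ T ∈ TT a, ⋃ p ∈ Nt T ×ˢ Nt T,
      {g | 6 * √(√((a : ℝ) / n)) ≤ ex0 T p.1 ⬝ᵥ Jmat n g *ᵥ ex0 T p.2} := by
    intro g hg
    by_contra h
    simp only [Set.mem_ofPred_eq, Set.mem_iUnion, not_exists, not_le] at h
    refine hg fun m u v ⟨T1, b1, b2⟩ ⟨T2, b3, b4⟩ => ?_
    set T := T1 ∪ T2 with hT
    have e1 := ex0_res (T := T) (v := u) fun i hi => b2 i fun h => hi (mem_union_left _ h)
    have e2 := ex0_res (T := T) (v := v) fun i hi => b4 i fun h => hi (mem_union_right _ h)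
    rcases Nat.eq_zero_or_pos T.card with h0 | h0
    · have : u = 0 := funext fun i => b2 i fun hi => by
        have : i ∈ T := mem_union_left T2 hi
        rw [card_eq_zero.1 h0] at this
        simp at this
      simp [this]
    have e : ∀ c d : T → ℝ, ex0 T c ⬝ᵥ Jmat n g *ᵥ ex0 T d =
        c ⬝ᵥ (Jmat n g).submatrix Subtype.val Subtype.val *ᵥ d := fun c d => by
      rw [ex0_dot]
      congr 1
      funext i
      change Jmat n g i ⬝ᵥ ex0 T d = _
      rw [dotProduct_comm, ex0_dot, dotProduct_comm]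
      rfl
    have h5 := Nrm.opn_le_of_net (c4 T) (c4 T)
      (A := (Jmat n g).submatrix Subtype.val Subtype.val) (M := 6 * √(√((T.card : ℝ) / n)))
      fun c hc d hd => by
        rw [← e]
        exact (h T.card (mem_Icc.2 ⟨h0, by simpa using card_le_univ T⟩) T
          (mem_filter.2 ⟨mem_univ _, le_rfl⟩) (c, d) (mem_product.2 ⟨hc, hd⟩)).le
    have h6 : √(√((T.card : ℝ) / n)) ≤ 5 / 4 * √(√(m / n)) := by
      have h7 : (T.card : ℝ) ≤ T1.card + T2.card := by exact_mod_cast card_union_le T1 T2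
      have m0 : 0 ≤ m := (Nat.cast_nonneg _).trans b1
      rw [Real.sqrt_le_iff, mul_pow, Real.sq_sqrt (Real.sqrt_nonneg _), Real.sqrt_le_iff, mul_pow,
        Real.sq_sqrt (by positivity), ← mul_div_assoc]
      exact ⟨by positivity, by positivity, div_le_div_of_nonneg_right (by linarith) n0.le⟩
    rw [← e1, ← e2, e, nrm_ex0, nrm_ex0]
    exact (abs_bil_le _ _ _).trans (mul_le_mul_of_nonneg_right (by linarith)
      (mul_nonneg (nrm_nonneg _) (nrm_nonneg _)))
  refine (measureReal_mono hsub (measure_ne_top _ _)).trans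
    ((measureReal_biUnion_finset_le _ _).trans ((sum_le_card_nsmul _ _ (Real.exp (-√n))
      fun a ha => ?_).trans (by simp)))
  obtain ⟨a1, a2⟩ := mem_Icc.1 ha
  have a1' : (1 : ℝ) ≤ a := by exact_mod_cast a1
  have a2' : (a : ℝ) ≤ n := by exact_mod_cast a2
  set t := √((a : ℝ) / n) with ht
  have t0 : 0 < t := by positivity
  have t1 : t ≤ 1 := Real.sqrt_le_one.2 ((div_le_one n0).2 a2')
  have t2 : t ^ 2 * n = a := by rw [ht, Real.sq_sqrt (by positivity)]; field_simp
  have hT : ∀ T ∈ TT a, (Measure.pi ν).real (⋃ p ∈ Nt T ×ˢ Nt T,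
      {g | 6 * √t ≤ ex0 T p.1 ⬝ᵥ Jmat n g *ᵥ ex0 T p.2}) ≤ Real.exp (-(9 * (t * n))) * 25 ^ T.card :=
    fun T _ => by
    refine (measureReal_biUnion_finset_le _ _).trans ((sum_le_card_nsmul _ _
      (Real.exp (-(9 * (t * n)))) fun p hp => ?_).trans ?_)
    · have b : ∀ c ∈ Nt T, ex0 T c ⬝ᵥ ex0 T c ≤ 1 := fun c hc => by
        rw [← nrm_sq, nrm_ex0]; exact pow_le_one₀ (nrm_nonneg _) (c3 T c hc)
      have h1 := (Nrm.subG_bil_Jmat ν hν (u := ex0 T p.1) (v := ex0 T p.2)
        (c := NNReal.mk (2 / n) (by positivity)) (div_le_div_of_nonneg_right (by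
          linarith [mul_le_one₀ (b _ (mem_product.1 hp).1) (dot_self_nonneg _)
            (b _ (mem_product.1 hp).2)]) n0.le)).measure_ge_le (ε := 6 * √t) (by positivity)
      refine h1.trans (le_of_eq ?_)
      rw [mul_pow, Real.sq_sqrt t0.le, NNReal.coe_mk]
      congr 1
      field_simp
      ring
    · rw [nsmul_eq_mul, mul_comm, card_product, show (25 : ℝ) = 5 * 5 by norm_num, mul_pow]
      have : ((Nt T).card : ℝ) ≤ 5 ^ T.card := by exact_mod_cast (by simpa using c2 T)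
      push_cast
      gcongr
  refine (measureReal_biUnion_finset_le _ _).trans ((sum_le_sum hT).trans ?_)
  rw [← mul_sum]
  refine (mul_le_mul_of_nonneg_left (sum_small (ι := Fin n) (m := a) t0 (show t ≤ 25 by linarith))
    (Real.exp_pos _).le).trans ?_
  rw [← Real.exp_add, Fintype.card_fin]
  refine Real.exp_le_exp.2 ?_
  have l1 : Real.log (25 / t) ≤ 5 + 1 / t := by
    rw [div_eq_mul_one_div, Real.log_mul (by norm_num) (by positivity),
      show (25 : ℝ) = 5 ^ 2 by norm_num, Real.log_pow]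
    have : Real.log 5 ≤ 5 / 2 := by
      rw [Real.log_le_iff_le_exp (by norm_num)]
      linarith [Real.quadratic_le_exp_of_nonneg (x := 5 / 2) (by norm_num)]
    push_cast
    linarith [Real.log_le_sub_one_of_pos (show 0 < 1 / t by positivity)]
  have l2 : a * Real.log (25 / t) ≤ 6 * (t * n) := by
    refine (mul_le_mul_of_nonneg_left l1 (by positivity)).trans ?_
    rw [← t2, show t ^ 2 * n * (5 + 1 / t) = 5 * t * (t * n) + t * n by field_simp]
    nlinarith [mul_pos t0 n0]
  have l3 : √n ≤ t * n := by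
    rw [Real.sqrt_le_iff]
    exact ⟨by positivity, by nlinarith⟩
  nlinarith [mul_pos t0 n0]

lemma tendsto_n_exp : Tendsto (fun n : ℕ => (n : ℝ) * Real.exp (-√n)) atTop (𝓝 0) := by
  have h := (Real.tendsto_pow_mul_exp_neg_atTop_nhds_zero 2).comp
    (Real.tendsto_sqrt_atTop.comp tendsto_natCast_atTop_atTop)
  refine h.congr fun n => ?_
  simp [Real.sq_sqrt (Nat.cast_nonneg n)]

/-- **sparse blocks** -/
theorem whp_spJ (b : Bool) : Top.Whp (couplingLaw b) fun n g => SpJ 30 (Jmat n g) := by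
  refine Top.whp_of_real_le tendsto_n_exp ?_
  filter_upwards [eventually_gt_atTop 0] with n hn
  rw [couplingLaw_eq]
  exact spJ_tail _ (fun _ => Nrm.subG_entryLaw b) hn

theorem whp_spJ' : Top.Whp disorderLaw fun n g => SpJ 30 (Jmat n g) := whp_spJ false

end Crest.Agent.T157.Rip

end
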