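import Crest.Agent.T157.ZAn_23

/-!
# Row 157, part B (Z): the magnetisation is approximable (helper23)
-/

set_option autoImplicit false

noncomputable section

namespace Crest.Agent.T157.Z

open MeasureTheory ProbabilityTheory Matrix Filter Set Topology
open Crest.ProbabilityR.SpinGlassDynamics
open Crest.Agent.T157.E Crest.Agent.T157.Eig Crest.Agent.T157.Cond Crest.Agent.T157.Tap
open Crest.Agent.T157.Pos Crest.Agent.T157.Md Crest.Agent.T157.SL

namespace Sol23

variable {ι : Type} {X Y : Nt ι}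

lemma nw_add (s t : ℝ) (hX : Nw False X) (hY : Nw False Y) :
    Nw False fun n J a => s • X n J a + t • Y n J a := by
  have h : LipschitzWith (‖s‖₊ + ‖t‖₊) fun u : Fin 2 → ℝ => s * u 0 + t * u 1 :=
    LipschitzWith.of_dist_le_mul fun u v => by
      rw [Real.dist_eq, show s * u 0 + t * u 1 - (s * v 0 + t * v 1) =
        s * (u 0 - v 0) + t * (u 1 - v 1) by ring, NNReal.coe_add, add_mul]
      refine (abs_add_le _ _).trans (add_le_add ?_ ?_) <;> rw [abs_mul] <;>
        exact mul_le_mul_of_nonneg_left (dist_le_pi_dist u v _) (abs_nonneg _)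
  exact Nw.map _ ![X, Y] ⟨fun u => by simp; ring, _, h⟩ False.elim (Fin.forall_fin_two.2 ⟨hX, hY⟩)

lemma nw_th (hX : Nw False X) : Nw False fun n J a => th (X n J a) :=
  Nw.map (fun u : Fin 1 → ℝ => Real.tanh (u 0)) (fun _ => X) ⟨fun u => by simp, 1,
    LipschitzWith.of_dist_le_mul fun u v => by
      rw [NNReal.coe_one, one_mul]
      exact (SE.abs_tanh_sub_le _ _).trans (dist_le_pi_dist u v 0)⟩ False.elim fun _ => hX

lemma bd_th (X : Nt ι) : Bd fun n J a => th (X n J a) := ⟨1, fun _ _ _ => cb_th _⟩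

lemma nw_md (b η : ℝ) (hX : Nw False X) (hY : Nw False Y) :
    Nw False fun n J a => md (tJ J) b η (Y n J a) (X n J a) := by
  have h1 := nw_th hX
  convert nw_add 1 η (nw_add (1 - η) η hX hY) (nw_add 1 b (Nw.mul _ h1 (bd_th X))
    (nw_add (-1) 1 h1 (Nw.sc _ _ _ h1 h1 h1 (bd_th X) (bd_th X) (bd_th X)))) using 4 with n J a
  rcases n.eq_zero_or_pos with rfl | hn
  · exact Subsingleton.elim _ _
  have e : avg (DD (th (X n J a))) = 1 - avg (th (X n J a) * th (X n J a)) := by
    have : (n : ℝ) ≠ 0 := by positivity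
    simp only [avg, DD, Finset.sum_sub_distrib, Fin.sum_const, Pi.mul_apply, sq]
    field_simp; simp
  unfold Md.md Ymap; rw [e]; module

lemma nw_iter (b η : ℝ) (hX : Nw False X) (hY : Nw False Y) (k : ℕ) :
    Nw False fun n J a => (md (tJ J) b η (Y n J a))^[k] (X n J a) := by
  induction k with
  | zero => exact hX
  | succ k ih => simpa only [Function.iterate_succ_apply'] using nw_md b η ih hY

lemma nw_orb (b η : ℝ) (K : ℕ) {Y : ℕ → Nt ι} (hX : Nw False X) (hY : ∀ j, Nw False (Y j))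
    (j : ℕ) : Nw False fun n J a => orb (tJ J) b η K (fun j => Y j n J a) (X n J a) j := by
  induction j with
  | zero => exact hX
  | succ j ih => exact nw_iter b η ih (hY _) K

lemma nw_yB (hL : LipStmt) (r : ℝ) (M i : ℕ) : Nw (ι := Unit ⊕ Fin M) False fun _ _ a =>
    yB r i (a (.inl ())) fun k => a (.inr k) := by
  convert hL.lin Unit (Unit ⊕ Fin M) False
    (fun _ => Sum.elim (fun _ => (i : ℝ) / M) (cS r (lw M i))) () using 4 with n J a
  funext j
  simp [yB, lc, Fintype.sum_sum_type]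

variable {n : ℕ}

lemma meas_rows [Fintype ι] (c d : ι → ℝ) (σ : V n) : Measurable (rows c d σ) := by
  unfold rows; fun_prop

instance [Fintype ι] (c d : ι → ℝ) (σ : V n) : IsProbabilityMeasure (RL c d σ) :=
  Measure.isProbabilityMeasure_map (meas_rows c d σ).aemeasurable

lemma lab_RL (M : ℕ) : Lab (RL (0 : Fin M → ℝ) 1 (0 : V n)) fun k z => z k := by
  refine ⟨fun k => by fun_prop, fun c u => ?_⟩
  rw [RL, CF_map (meas_rows _ _ _) (by unfold dotProduct; simp only [Finset.sum_apply]; fun_prop),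
    ← lab_gv.2 c u]
  congr 1; funext w
  congr 2; funext k; congr 1; funext i; simp [rows]

/-- from the GOE form with labels to `Hp` -/
lemma hp_of (hH : HpStmt) {β r : ℝ} {M : ℕ} {Q : ∀ n, Mx n → (Unit ⊕ Fin M → V n) → Prop}
    (hm : ∀ n J, MeasurableSet {a | ¬ Q n J a})
    (h : TypM (fun n W => (law sv (ising (β • W) 0) r).prod (RL (0 : Fin M → ℝ) 1 (0 : V n)))
      fun n W p => Q n (β • offd W) (Sum.elim (fun _ => p.1) p.2)) :
    Hp β (Sum.elim (fun _ : Unit => r) 0) (Sum.elim (fun _ => √r) 1) Q := by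
  obtain ⟨κ, hκ, h⟩ := h
  refine ⟨κ, hκ, Top.Whp.of_prod_fst (ν := fun n => gv (Fin n)) ((h.comp (T := fun n p =>
    Wmat n p.1 p.2) fun n => mp_Wmat).imp fun n p hp => le_trans ?_ hp)⟩
  have hw := Cov15.wt_ising (β • Wmat n p.1 p.2) 0
  beta_reduce
  rw [mean, ← GoeT.prob_ising_Wmat β p.1 p.2, offd_Wmat, law, ← Measure.sum_fintype,
    Measure.prod_sum_left, Measure.sum_fintype, Measure.real, Measure.coe_finsetSum,
    Finset.sum_apply]
  simp only [Measure.prod_smul_left, Measure.smul_apply, smul_eq_mul]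
  rw [ENNReal.toReal_sum fun x _ => ENNReal.mul_ne_top ENNReal.ofReal_ne_top (measure_ne_top _ _)]
  refine Finset.sum_le_sum fun x _ => ?_
  rw [ENNReal.toReal_mul, ENNReal.toReal_ofReal (hw.prob_nonneg x)]
  refine mul_le_mul_of_nonneg_left (ENNReal.toReal_mono (measure_ne_top _ _) ?_) (hw.prob_nonneg x)
  have h1 : MeasurePreserving (fun a : Unit → V n => a ()) (RL (fun _ => r) (fun _ => √r) (sv x))
      ((gv (Fin n)).map fun z => r • sv x + √r • z) := by
    refine ⟨by fun_prop, ?_⟩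
    have e : (gv (Unit × Fin n)).map _ = gv (Fin n) := (R339.Guerra.mp_comp
      (fun i : Fin n => ((), i)) fun i j h => (Prod.mk.inj h).2).map_eq
    rw [RL, Measure.map_map (by fun_prop) (meas_rows _ _ _), ← e,
      Measure.map_map (by fun_prop) (by fun_prop)]
    rfl
  have e : RL (0 : Fin M → ℝ) 1 (sv x) = RL 0 1 0 := by
    unfold RL rows; simp
  rw [hH.split, Measure.map_apply (measurable_pi_lambda _ fun l => by
    rcases l with l | l <;> simp only [Sum.elim_inl, Sum.elim_inr] <;> fun_prop) (hm _ _), e]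
  exact le_trans (measure_mono fun q hq => hq)
    ((h1.prod (MeasurePreserving.id _)).measure_preimage_le _)

end Sol23

open Sol23 in
theorem solGlue : SolGlue := by
  intro hL hH hA _ β hβ r hr
  have hβ1 : β ∈ Icc (0 : ℝ) 1 := ⟨hβ.1.le, hβ.2.le⟩
  rcases hr.eq_or_lt with rfl | hr
  · refine hA.lim _ _ _ _ _ fun ε hε => ⟨_, hA.net _ β hβ1 _ _ _ (nw_add 0 0 (.inp ()) (.inp ())),
      hH.mono _ _ _ _ _ _ ((hH.ty β 0 le_rfl fun _ _ y => y = 0).1
        (Typ.toJ (P := fun _ _ y => y = 0) (typ_zero (Top.whp_of_eventually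
          (.of_forall fun _ _ => rfl))))) (.of_forall fun n J a h => ?_)⟩
    beta_reduce
    rw [h, TopL.mag_ising_zero]
    simp only [zero_smul, add_zero, sub_zero, nrm_zero]; positivity
  intro ε hε
  obtain ⟨η, K, N, L, M, -, -, -, hs⟩ := sol hβ hr (show 0 < ε / 3 by positivity)
  have hX := nw_th (nw_orb (β ^ 2) η K (nw_add 0 0 (.inp (.inl ())) (.inp (.inl ())))
    (fun j => nw_yB hL r M (L + j - 1)) (N + 1))
  simp only [zero_smul, add_zero] at hX
  obtain ⟨C, C0, hC⟩ := hL.lip _ _ _ hX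
  obtain ⟨A, -, hA⟩ := acc ⟨hβ.1, hβ.2.le⟩ hr
  refine ⟨M, _, hX, bd_th _, hp_of hH (fun n J => (measurableSet_le (continuous_nrm.comp
    (Continuous.sub ?_ ((hL.cont _ _ _ hX n).comp (continuous_const.prodMk continuous_id)))
      ).measurable measurable_const).compl) (((hs _ _ _ fun n => lab_RL M).and (TypM.comp hA
        fun n W => measurePreserving_fst)).mono' ((adm_offd (ε / 3 / (C + 1)) (by positivity)).and
          TapPl.whp_opn) ?_)⟩
  · have h : Continuous fun y => mag (ising J y) :=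
      (Lp.G1.continuous_mag_tilt (Cov15.wt_ising J 0)).congr fun y => by rw [Cov15.tilt0]
    exact h.comp (continuous_apply (Sum.inl () : Unit ⊕ Fin M))
  filter_upwards [An23.ev_le (√A) (show 0 < ε / 3 by positivity)] with n hn W p ⟨hW, hop⟩
    ⟨⟨x, hx, h1⟩, _, h2⟩
  have h3 := Real.le_sqrt_of_sq_le (h2 x hx)
  have h4 := hC n (β • W) (β • offd W) (Sum.elim (fun _ => p.1) p.2) (Sum.elim (fun _ => p.1) p.2)
  have h5 : opn (β • W - β • offd W) ≤ ε / 3 / (C + 1) := by
    obtain ⟨d, e, -, hd⟩ := hW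
    rw [← smul_sub, sub_eq_iff_eq_add'.2 e, opn_smul, abs_of_pos hβ.1]
    exact (mul_le_of_le_one_left (opn_nonneg _) hβ.2.le).trans
      (opn_diagonal_le (by positivity) hd)
  have h6 : C * (√(n : ℝ) * opn (β • W - β • offd W)) ≤ ε / 3 * √n := by
    refine (mul_le_mul (le_add_of_nonneg_right zero_le_one) (mul_le_mul_of_nonneg_left h5
      (Real.sqrt_nonneg _)) (mul_nonneg (Real.sqrt_nonneg _) (opn_nonneg _))
      (by positivity)).trans_eq ?_
    field_simp
  rw [(hL.tJ_le n (β • W)).2 (by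
    rw [opn_smul, abs_of_pos hβ.1]; nlinarith [hβ.1, hβ.2, opn_nonneg W]), sub_self] at h4
  simp only [nA, Pi.zero_apply, nrm_zero, Finset.sum_const_zero, zero_add, Sum.elim_inl,
    Sum.elim_inr] at h4 ⊢
  rw [hW.mag]
  have h7 := (SE.nrm_th_sub_le _ _).trans h1
  have t1 := nrm_sub_le (mag (ising (β • W) p.1) - th x) (th (orb (β • W) (β ^ 2) η K
    (fun j => yB r (L + j - 1) p.1 fun k => p.2 k) 0 (N + 1)) - th x)
  rw [sub_sub_sub_cancel_right] at t1
  refine le_trans (le_of_eq (congrArg nrm (sub_add_sub_cancel _ _ _).symm)) ((nrm_add_le _ _).trans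
    ((add_le_add t1 h4).trans ?_))
  linarith

end Crest.Agent.T157.Z

end
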