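import Crest.Agent.T157.ZAll_73
import Crest.Agent.T157.ZSol_23
import Crest.Agent.T157.RipG_25
import Crest.Agent.T157.SpJ_25

/-!
# Row 157, part B (helper25): continuous letters; approximable vectors have flat Wick powers
-/

set_option autoImplicit false
set_option linter.unusedVariables false

noncomputable section

namespace Crest.Agent.T157.Z

open MeasureTheory ProbabilityTheory Matrix Filter Set Topology
open Crest.ProbabilityR.SpinGlassDynamics
open Crest.Agent.T157.E Crest.Agent.T157.Eig Crest.Agent.T157.Tap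
open Crest.Agent.T157.Rip (Fl Sp res FlW nrm_mul_le)
open Crest.Agent.T157.Rip.Cav35 (Ww Uu)
open Crest.Agent.T157.Pos (In TF)

namespace Fl25

variable {n : ℕ}

lemma lip_apx {ψ : ℝ → ℝ} (hc : Continuous ψ) {M R ε σ : ℝ} (hb : ∀ x, |ψ x| ≤ M) (hR : 0 ≤ R)
    (hε : 0 < ε) (hσ : σ = 1 ∨ σ = -1) (he : ∀ x, ψ (-x) = σ * ψ x) : ∃ φ : ℝ → ℝ,
    (∃ L, LipschitzWith L φ) ∧ (∀ x, φ (-x) = σ * φ x) ∧ (∀ x, |φ x| ≤ M + ε) ∧
      ∀ x, |x| ≤ R → |ψ x - φ x| ≤ ε := by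
  obtain ⟨p, hp⟩ := exists_polynomial_near_of_continuousOn (-R) R ψ hc.continuousOn ε hε
  have mR : -R ≤ R := by linarith
  obtain ⟨L, hL⟩ := (p.contDiff_aeval (𝕜 := ℝ) 1).contDiffOn.exists_lipschitzOnWith one_ne_zero
    (convex_Icc (-R) R) isCompact_Icc
  set f : ℝ → ℝ := fun x => p.eval (projIcc (-R) R mR x : ℝ) with hf
  have h1 : LipschitzWith (L * 1) f := by
    have := hL.to_restrict.comp (LipschitzWith.projIcc mR)
    simpa [Function.comp_def, Polynomial.coe_aeval_eq_eval] using this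
  have h2 : ∀ x, |f x| ≤ M + ε := fun x => by
    have := hp _ (projIcc (-R) R mR x).2
    have h3 := hb (projIcc (-R) R mR x : ℝ)
    rw [abs_le] at h3 ⊢
    rw [abs_lt] at this
    constructor <;> simp only [hf] <;> linarith [this.1, this.2]
  have h3 : ∀ x, |x| ≤ R → |f x - ψ x| ≤ ε := fun x hx => by
    have := hp x (abs_le.1 hx)
    simpa only [hf, projIcc_of_mem mR (abs_le.1 hx)] using this.le
  refine ⟨fun x => (f x + σ * f (-x)) / 2, ⟨L * 1, LipschitzWith.of_dist_le_mul fun x y => ?_⟩,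
    fun x => ?_, fun x => ?_, fun x hx => ?_⟩
  · have a := h1.dist_le_mul x y
    have b := h1.dist_le_mul (-x) (-y)
    rw [dist_neg_neg] at b
    rw [Real.dist_eq (f _), abs_le] at a b
    rw [Real.dist_eq (_ / 2), abs_le]
    rcases hσ with rfl | rfl <;> constructor <;> linarith [a.1, a.2, b.1, b.2]
  · rcases hσ with rfl | rfl <;> simp only [neg_neg] <;> ring
  · have a := abs_le.1 (h2 x)
    have b := abs_le.1 (h2 (-x))
    rw [abs_le]
    rcases hσ with rfl | rfl <;> constructor <;> linarith [a.1, a.2, b.1, b.2]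
  · have a := abs_le.1 (h3 x hx)
    have b := abs_le.1 (h3 (-x) (by rwa [abs_neg]))
    rw [he] at b
    rw [abs_le]
    rcases hσ with rfl | rfl <;> constructor <;> linarith [a.1, a.2, b.1, b.2]

lemma nrm_res (S : Finset (Fin n)) (v : V n) : nrm (res S v) = √(∑ i ∈ S, v i ^ 2) := by
  rw [nrm, dotProduct, ← Finset.sum_subset (Finset.subset_univ S) fun i _ hi => by simp [res, hi]]
  exact congrArg _ (Finset.sum_congr rfl fun i hi => by simp [res, hi, sq])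

lemma near {a u w : V n} {B C R ε : ℝ} (hB : 0 ≤ B) (hε : 0 ≤ ε) (hR : 0 < R) (hC : 0 ≤ C)
    (h1 : ∀ i, |a i| ≤ B) (h2 : ∀ i, |u i| ≤ R → |a i| ≤ ε) (hu : nrm u ≤ C * √n) :
    ∃ S : Finset (Fin n), √S.card ≤ C / R * √n ∧
      nrm (a * w) ≤ ε * nrm w + B * √(∑ i ∈ S, w i ^ 2) := by
  set S := Finset.univ.filter fun i => R < |u i| with hS
  refine ⟨S, ?_, ?_⟩
  · have h3 : (S.card : ℝ) * R ^ 2 ≤ ∑ i ∈ S, u i ^ 2 := by
      rw [← nsmul_eq_mul]
      exact Finset.card_nsmul_le_sum _ _ _ fun i hi => by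
        rw [← sq_abs (u i)]; exact pow_le_pow_left₀ hR.le (Finset.mem_filter.1 hi).2.le 2
    have h4 := Real.sqrt_le_sqrt h3
    rw [← nrm_res, Real.sqrt_mul (Nat.cast_nonneg _), Real.sqrt_sq hR.le] at h4
    rw [div_mul_eq_mul_div, le_div_iff₀ hR]
    exact h4.trans ((Rip.nrm_res_le _ _).trans hu)
  · have e : a * w = res Sᶜ a * w + a * res S w := funext fun i => by
      by_cases hi : i ∈ S <;> simp [res, hi]
    rw [e, ← nrm_res]
    refine (nrm_add_le _ _).trans (add_le_add (nrm_mul_le hε (fun i => ?_) _) (nrm_mul_le hB h1 _))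
    unfold res
    split_ifs with hi
    · exact h2 i (by simpa [hS] using hi)
    · simpa using hε

end Fl25

open Fl25

section ap
variable {ι : Type} [Fintype ι] {β : ℝ} {c d : ι → ℝ} {U W : Nt ι} {ψ : ℝ → ℝ} {M : ℝ}

/-- **Ev0** : even bounded continuous multipliers -/
theorem ap_ev0 (hβ : β ∈ Icc (0 : ℝ) 1) (hU : Ap β c d U) (hW : Ap β c d W) (hc : Continuous ψ)
    (he : ∀ x, ψ (-x) = ψ x) (hb : ∀ x, |ψ x| ≤ M) :
    Ap β c d fun n J a i => ψ (U n J a i) * W n J a i := by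
  have M0 : 0 ≤ M := (abs_nonneg _).trans (hb 0)
  refine apA.lim _ _ _ _ _ fun ε hε => ?_
  obtain ⟨⟨C, C0, h1⟩, -⟩ := apA.bd _ _ _ _ _ hU
  obtain ⟨⟨C', C0', h2⟩, h3⟩ := apA.bd _ _ _ _ _ hW
  obtain ⟨M', M0', h3⟩ := h3 (ε / (3 * (2 * M + 1))) (by positivity)
  set R := 3 * (2 * M + 1) * (M' * C + 1) / ε with hR
  have R0 : 0 < R := by positivity
  set e := min 1 (ε / (3 * (C' + 1))) with he'
  have e0 : 0 < e := by positivity
  obtain ⟨φ, ⟨L, hL⟩, p1, p2, p3⟩ := lip_apx hc hb R0.le e0 (.inl rfl) (by simpa using he)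
  refine ⟨_, apB.ev _ β hβ c d 1 (fun u => φ (u 0)) (fun _ => U) W ⟨fun u => by simpa using p1 _,
    ⟨_, hL.comp (LipschitzWith.eval 0)⟩, _, fun u => p2 _⟩ (fun _ => hU) hW,
    hpStmt.mono _ _ _ _ _ _ (hpStmt.and _ _ _ _ _ _ h1 (hpStmt.and _ _ _ _ _ _ h2 h3))
      (.of_forall fun n J a ⟨a1, a2, _, a3⟩ => ?_)⟩
  obtain ⟨S, s1, s2⟩ := near (a := fun i => ψ (U n J a i) - φ (U n J a i)) (w := W n J a)
    (B := 2 * M + 1) (by positivity) e0.le R0 C0 (fun i => (abs_sub _ _).trans (by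
      linarith [hb (U n J a i), p2 (U n J a i), show e ≤ 1 from min_le_left _ _]))
      (fun i hi => p3 _ hi) a1
  refine le_trans (le_of_eq (congrArg nrm (funext fun i => by simp [sub_mul]))) (s2.trans ?_)
  have n0 := Real.sqrt_nonneg (n : ℝ)
  have b1 : e * nrm (W n J a) ≤ ε / 3 * √n :=
    calc _ ≤ ε / (3 * (C' + 1)) * ((C' + 1) * √n) :=
          mul_le_mul (min_le_right _ _) (by nlinarith) (nrm_nonneg _) (by positivity)
      _ = _ := by field_simp
  have b2 : M' * √S.card ≤ ε / (3 * (2 * M + 1)) * √n :=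
    calc _ ≤ M' * (C / R * √n) := by gcongr
      _ ≤ (M' * C + 1) / R * √n := by
          rw [← mul_assoc, ← mul_div_assoc]; gcongr; linarith
      _ = _ := by rw [hR]; field_simp
  have b3 := mul_le_mul_of_nonneg_left ((a3 S).trans (add_le_add_right b2 _))
    (show 0 ≤ 2 * M + 1 by positivity)
  have b4 : (2 * M + 1) * (ε / (3 * (2 * M + 1)) * √n + ε / (3 * (2 * M + 1)) * √n) =
      2 * ε / 3 * √n := by field_simp; ring
  linarith

/-- odd bounded continuous letters -/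
theorem ap_od0 (hβ : β ∈ Icc (0 : ℝ) 1) (hU : Ap β c d U) (hc : Continuous ψ)
    (he : ∀ x, ψ (-x) = -ψ x) (hb : ∀ x, |ψ x| ≤ M) :
    Ap β c d fun n J a i => ψ (U n J a i) := by
  have M0 : 0 ≤ M := (abs_nonneg _).trans (hb 0)
  refine apA.lim _ _ _ _ _ fun ε hε => ?_
  obtain ⟨⟨C, C0, h1⟩, -⟩ := apA.bd _ _ _ _ _ hU
  set R := 2 * (2 * M + 1) * (C + 1) / ε with hR
  have R0 : 0 < R := by positivity
  set e := min 1 (ε / 2) with he'
  have e0 : 0 < e := by positivity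
  obtain ⟨φ, ⟨L, hL⟩, p1, p2, p3⟩ := lip_apx hc hb R0.le e0 (.inr rfl) (by simpa using he)
  refine ⟨_, apB.map _ β hβ c d 1 (fun u => φ (u 0)) (fun _ => U) ⟨fun u => by simpa using p1 _,
    ⟨_, hL.comp (LipschitzWith.eval 0)⟩⟩ (fun _ => hU),
    hpStmt.mono _ _ _ _ _ _ h1 (.of_forall fun n J a a1 => ?_)⟩
  obtain ⟨S, s1, s2⟩ := near (a := fun i => ψ (U n J a i) - φ (U n J a i)) (w := 1)
    (B := 2 * M + 1) (by positivity) e0.le R0 C0 (fun i => (abs_sub _ _).trans (by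
      linarith [hb (U n J a i), p2 (U n J a i), show e ≤ 1 from min_le_left _ _]))
      (fun i hi => p3 _ hi) a1
  refine le_trans (le_of_eq (congrArg nrm (funext fun i => by simp))) (s2.trans ?_)
  have n0 := Real.sqrt_nonneg (n : ℝ)
  have b0 : nrm (1 : V n) = √n := by simp [nrm, dotProduct]
  have b1 : e * √n ≤ ε / 2 * √n := mul_le_mul_of_nonneg_right (min_le_right _ _) n0
  have b2 : (2 * M + 1) * √S.card ≤ ε / 2 * √n :=
    calc _ ≤ (2 * M + 1) * ((C + 1) / R * √n) := by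
          gcongr; refine s1.trans ?_; gcongr; linarith
      _ = _ := by rw [hR]; field_simp
  simp only [b0, Pi.one_apply, one_pow, Finset.sum_const, nsmul_eq_mul, mul_one]
  linarith

end ap

variable {β s : ℝ}

theorem solStmt : SolStmt := solGlue lipStmt hpStmt apA apB

/-- the cavity field is approximable -/
theorem rq_b (hβ : β ∈ Ioo (0 : ℝ) 1) (hs : 0 ≤ s) :
    Rq β s fun _ J y => Lp.cav J (β ^ 2) y (mag (ising J y)) := by
  have hβ1 : β ∈ Icc (0 : ℝ) 1 := ⟨hβ.1.le, hβ.2.le⟩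
  have m := solStmt β hβ s hs
  have y := apA.net _ β hβ1 (fun _ : Unit => s) (fun _ => √s) _ (.inp ())
  have h := apB.add _ β hβ1 _ _ _ _ 1 (β ^ 2) (apB.add _ β hβ1 _ _ _ _ 1 (-β ^ 2)
    (apB.add _ β hβ1 _ _ _ _ 1 1 y (apB.mul _ β hβ1 _ _ _ m).1) m) (apB.sc _ β hβ1 _ _ _ _ _ m m m)
  unfold Rq
  convert h using 4 with n J a
  funext i
  have n0 : (0 : ℝ) < n := Nat.cast_pos.2 i.pos
  simp only [Lp.cav, avg, DD, Pi.add_apply, Pi.sub_apply, Pi.smul_apply, smul_eq_mul, Pi.mul_apply,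
    Finset.sum_sub_distrib, Finset.sum_const, Finset.card_univ, Fintype.card_fin, nsmul_eq_mul, ← sq]
  field_simp
  ring

theorem Ty.ev {P : ∀ n, Mx n → V n → Prop} (h : Ty β s P) : ∀ᶠ i in TF β s, P i.n (i.J β) i.y := by
  obtain ⟨κ, hκ, h⟩ := h
  exact TF.of_dis (P := fun n g y => P n (β • Jmat n g) y) fun ε hε => h.mono
    (((TapPl.tendsto_exp_neg hκ).eventually (ge_mem_nhds hε)).mono fun _ hn _ hW => hW.trans hn)

/-- combinations of approximable vectors with bounded coefficients -/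
inductive PA (β s : ℝ) : (∀ i : In, V i.n) → Prop
  | base (U : ∀ n, Mx n → V n → V n) : Rq β s U → PA β s fun i => U i.n (i.J β) i.y
  | add (X Y : ∀ i : In, V i.n) : PA β s X → PA β s Y → PA β s fun i => X i + Y i
  | smul (c : In → ℝ) (C : ℝ) (X : ∀ i : In, V i.n) : (∀ i, |c i| ≤ C) → PA β s X →
      PA β s fun i => c i • X i

variable {X : ∀ i : In, V i.n}

theorem PA.sum {κ : Type} (hβ : β ∈ Icc (0 : ℝ) 1) (t : Finset κ) {X : κ → ∀ i : In, V i.n}
    (h : ∀ l ∈ t, PA β s (X l)) : PA β s fun i => ∑ l ∈ t, X l i := by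
  classical
  induction t using Finset.induction_on with
  | empty =>
    simpa using PA.smul (fun _ => 0) 0 _ (fun _ => by simp) (PA.base (β := β) (s := s)
      (fun _ _ y => y) (apA.net _ β hβ (fun _ : Unit => s) (fun _ => √s) _ (.inp ())))
  | insert a t ha ih =>
    simpa only [Finset.sum_insert ha] using PA.add _ _ (h a (Finset.mem_insert_self _ _))
      (ih fun l hl => h l (Finset.mem_insert_of_mem hl))

theorem PA.mul (hβ : β ∈ Icc (0 : ℝ) 1) (h : PA β s X) : PA β s fun i => i.J β *ᵥ X i := by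
  induction h with
  | base U h => exact .base (fun n J y => J *ᵥ U n J y) (apB.mul _ β hβ _ _ _ h).1
  | add X Y _ _ h1 h2 => simpa only [mulVec_add] using h1.add _ _ h2
  | smul c C X hc _ h1 => simpa only [mulVec_smul] using h1.smul c C _ hc

theorem PA.ev (hβ : β ∈ Ioo (0 : ℝ) 1) (hs : 0 ≤ s) {ψ : ℝ → ℝ} {M : ℝ} (hc : Continuous ψ)
    (he : ∀ x, ψ (-x) = ψ x) (hb : ∀ x, |ψ x| ≤ M) (h : PA β s X) :
    PA β s fun i => (fun k => ψ (i.b β k)) * X i := by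
  induction h with
  | base U h =>
    exact .base (fun n J y k => ψ (Lp.cav J (β ^ 2) y (mag (ising J y)) k) * U n J y k)
      (ap_ev0 ⟨hβ.1.le, hβ.2.le⟩ (rq_b hβ hs) h hc he hb)
  | add X Y _ _ h1 h2 => simpa only [mul_add] using h1.add _ _ h2
  | smul c C X hc _ h1 => simpa only [mul_smul_comm] using h1.smul c C _ hc

/-- odd types -/
theorem PA.od (hβ : β ∈ Ioo (0 : ℝ) 1) (hs : 0 ≤ s) {ψ : ℝ → ℝ} {M : ℝ} (hc : Continuous ψ)
    (he : ∀ x, ψ (-x) = -ψ x) (hb : ∀ x, |ψ x| ≤ M) : PA β s fun i k => ψ (i.b β k) :=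
  .base (fun n J y k => ψ (Lp.cav J (β ^ 2) y (mag (ising J y)) k))
    (ap_od0 ⟨hβ.1.le, hβ.2.le⟩ (rq_b hβ hs) hc he hb)

theorem PA.flat (hs : 0 ≤ s) (h : PA β s X) : ∀ ε > (0 : ℝ), ∃ δ > (0 : ℝ),
    ∀ᶠ i in TF β s, Fl (δ * i.n) (ε * √i.n) (X i) := by
  induction h with
  | base U h =>
    intro ε hε
    obtain ⟨M, M0, h1⟩ := (apA.bd _ _ _ _ _ h).2 (ε / 2) (half_pos hε)
    refine ⟨(ε / (2 * (M + 1))) ^ 2, by positivity, ((hpStmt.ty β s hs fun n J y =>
      nrm (U n J y - cp M (U n J y)) ≤ ε / 2 * √n ∧ ∀ S : Finset (Fin n),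
        √(∑ i ∈ S, U n J y i ^ 2) ≤ ε / 2 * √n + M * √S.card).2 h1).ev.mono
          fun i ⟨_, h2⟩ v ⟨T, h3, h4⟩ => ?_⟩
    have e : v ⬝ᵥ U i.n (i.J β) i.y = v ⬝ᵥ res T (U i.n (i.J β) i.y) :=
      Finset.sum_congr rfl fun k _ => by by_cases hk : k ∈ T <;> simp [res, hk, h4 k]
    rw [e, mul_comm]
    refine (abs_dot_le _ _).trans (mul_le_mul_of_nonneg_left ?_ (nrm_nonneg _))
    have h5 := Real.sqrt_le_sqrt h3
    rw [Real.sqrt_mul (sq_nonneg _), Real.sqrt_sq (by positivity)] at h5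
    have h6 : M * √T.card ≤ ε / 2 * √i.n :=
      calc _ ≤ (M + 1) * (ε / (2 * (M + 1)) * √i.n) := by gcongr; linarith
        _ = _ := by field_simp
    rw [nrm_res]
    linarith [h2 T]
  | add X Y _ _ h1 h2 =>
    intro ε hε
    obtain ⟨a, a0, h1⟩ := h1 _ (half_pos hε)
    obtain ⟨b, b0, h2⟩ := h2 _ (half_pos hε)
    refine ⟨min a b, lt_min a0 b0, (h1.and h2).mono fun i ⟨h1, h2⟩ => ?_⟩
    have n0 : (0 : ℝ) ≤ i.n := Nat.cast_nonneg _
    exact ((h1.mono (mul_le_mul_of_nonneg_right (min_le_left a b) n0) le_rfl).add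
      (h2.mono (mul_le_mul_of_nonneg_right (min_le_right a b) n0) le_rfl)).mono le_rfl
        (le_of_eq (by ring))
  | smul c C X hc _ h1 =>
    intro ε hε
    have b0 : 0 < |C| + 1 := by positivity
    obtain ⟨a, a0, h1⟩ := h1 _ (div_pos hε b0)
    refine ⟨a, a0, h1.mono fun i h1 => (h1.smul (C := |C| + 1)
      (by linarith [hc i, le_abs_self C]) (by positivity)).mono le_rfl (le_of_eq (by field_simp))⟩

theorem PA.ww (hβ : β ∈ Ioo (0 : ℝ) 1) (hs : 0 ≤ s) {g : ℝ → ℝ} {M : ℝ} (hc : Continuous g)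
    (he : ∀ x, g (-x) = g x) (hb : ∀ x, |g x| ≤ M) (h : PA β s X) (k : ℕ) :
    (PA β s fun i => Ww (β / √i.n) (i.J β) (fun k => g (i.b β k)) k *ᵥ X i) ∧
      PA β s fun i => Uu (β / √i.n) (i.J β) (fun k => g (i.b β k)) k *ᵥ X i := by
  have hβ1 : β ∈ Icc (0 : ℝ) 1 := ⟨hβ.1.le, hβ.2.le⟩
  induction k with
  | zero => simpa only [Rip.Cav35.Ww_zero, Rip.Cav35.Uu_zero, one_mulVec] using ⟨h.mul hβ1, h⟩
  | succ k ih =>
    have h1 : PA β s fun i => Uu (β / √i.n) (i.J β) (fun k => g (i.b β k)) (k + 1) *ᵥ X i := by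
      simpa only [Rip.Cav35.Uu_succ, ← mulVec_mulVec, Rip.Cav35.dmv] using ih.1.ev hβ hs hc he hb
    refine ⟨?_, h1⟩
    have h2 := (h1.mul hβ1).add _ _ (ih.2.smul
      (fun i => -Uw.eta (β / √i.n) fun k => g (i.b β k)) M _ fun i => ?_)
    · simpa only [Rip.Cav35.Ww_succ, sub_mulVec, smul_mulVec, ← mulVec_mulVec, neg_smul,
        ← sub_eq_add_neg] using h2
    · rw [abs_neg]
      refine Uw.abs_eta_le ?_ ((abs_nonneg _).trans (hb 0)) fun _ => hb _
      rcases Nat.eq_zero_or_pos i.n with h0 | h0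
      · simp [h0]
      · exact Rip.sq_card ⟨hβ.1, hβ.2.le⟩ h0

/-- **FlW** for finitely many approximable vectors -/
theorem flW (hβ : β ∈ Ioo (0 : ℝ) 1) (hs : 0 ≤ s) {g q : ℝ → ℝ} {M : ℝ} (cg : Continuous g)
    (eg : ∀ x, g (-x) = g x) (bg : ∀ x, |g x| ≤ M) (cq : Continuous fun x => g x / q x)
    (eq : ∀ x, q (-x) = q x) (bq : ∀ x, |g x / q x| ≤ M) {κ : Type} [Finite κ]
    {X : κ → ∀ i : In, V i.n} (h : ∀ l, PA β s (X l)) :
    FlW β s g q fun i => range fun l => (√(i.n : ℝ))⁻¹ • X l i := by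
  intro k ε hε
  choose δ δ0 hδ using fun p : κ × Fin (k + 1) => (((h p.1).ev hβ hs cq
    (fun x => by rw [eg, eq]) bq).ww hβ hs cg eg bg p.2).1.flat hs ε hε
  obtain ⟨a, a0, ha⟩ : ∃ a > (0 : ℝ), ∀ p, a ≤ δ p := by
    obtain ⟨a, h1, h2⟩ := ((eventually_all.2 fun p => eventually_le_nhds (δ0 p)).filter_mono
      (nhdsWithin_le_nhds (s := Ioi (0 : ℝ)))).and self_mem_nhdsWithin |>.exists
    exact ⟨a, h2, h1⟩
  refine ⟨a, a0, ?_⟩
  filter_upwards [eventually_all.2 hδ, TF.lim.eventually (eventually_gt_atTop 0)] with i h1 hn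
  rintro _ ⟨l, rfl⟩ j hj
  have n0 : (0 : ℝ) < i.n := Nat.cast_pos.2 hn
  rw [mul_smul_comm, mulVec_smul]
  exact ((h1 (l, ⟨j, by omega⟩)).smul (C := (√(i.n : ℝ))⁻¹) (abs_of_nonneg (by positivity)).le
    (by positivity)).mono (mul_le_mul_of_nonneg_right (ha _) n0.le) (le_of_eq (by field_simp))

end Crest.Agent.T157.Z

end
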