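import Crest.Agent.T157.KTc_36
import Crest.Agent.T157.ZFl_25

/-!
# Row 157, part B (helper25): thermal words have flat Wick powers
-/

set_option autoImplicit false
set_option linter.unusedVariables false

noncomputable section

namespace Crest.Agent.T157.K

open MeasureTheory ProbabilityTheory Matrix Filter Set Topology
open Crest.Agent.T157.E Crest.Agent.T157.Eig
open Crest.Agent.T157.Tap (V Mx)
open Crest.Agent.T157.Z
open Crest.Agent.T157.Rip (Fl Sp res FlW)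
open Crest.Agent.T157.Rip.Cav35 (Ww Uu)
open Crest.Agent.T157.Pos (In TF)

variable {β s : ℝ} {u : ∀ n, Mx n → V n → V n}

theorem ty_iff : TY β s u ↔ Ap β (wc s) (wd s) fun n J a => u n J (a false) := Iff.rfl

theorem ty_rq (h : Rq β s u) : TY β s u := by
  let f : Unit ↪ Bool := ⟨fun _ => false, fun _ _ _ => rfl⟩
  refine ty_iff.2 (apA.emb Unit Bool β (wc s) (wd s) f (fun n J a => u n J (a ())) ?_)
  have e1 : wc s ∘ f = fun _ => s := funext fun _ => by simp [wc, f]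
  have e2 : wd s ∘ f = fun _ => √s := funext fun _ => by simp [wd, f]
  rw [e1, e2]
  exact h

theorem ty_bf (hβ : β ∈ Ioo (0 : ℝ) 1) (hs : 0 ≤ s) : TY β s (bf β) := ty_rq (rq_b hβ hs)

theorem ty_of_hp (hs : 0 ≤ s) {P : ∀ n, Mx n → V n → Prop}
    (h : Hp β (wc s) (wd s) fun n J a => P n J (a false)) : Ty β s P := by
  refine (hpStmt.ty β s hs P).2 (hpStmt.prj Unit Unit β _ _ (fun _ => 1) (fun _ => 0) _ ?_)
  let f : Bool ↪ Unit ⊕ Unit := ⟨fun t => if t then .inr () else .inl (), by decide⟩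
  refine hpStmt.emb Bool (Unit ⊕ Unit) β _ _ f (fun n J a => P n J (a false)) ?_
  convert h using 1 <;> funext t <;> cases t <;> rfl

theorem ty_flat (hs : 0 ≤ s) (h : TY β s u) {ε : ℝ} (hε : 0 < ε) :
    ∃ δ > (0 : ℝ), Ty β s fun n J y => Fl (δ * n) (ε * √n) (u n J y) := by
  obtain ⟨M, M0, h1⟩ := (apA.bd _ _ _ _ _ (ty_iff.1 h)).2 (ε / 2) (half_pos hε)
  refine ⟨(ε / (2 * (M + 1))) ^ 2, by positivity, ty_of_hp hs (hpStmt.mono _ _ _ _ _ _ h1
    (.of_forall fun n J a ⟨_, h2⟩ v ⟨T, h3, h4⟩ => ?_))⟩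
  have e : v ⬝ᵥ u n J (a false) = v ⬝ᵥ res T (u n J (a false)) :=
    Finset.sum_congr rfl fun k _ => by by_cases hk : k ∈ T <;> simp [res, hk, h4 k]
  rw [e, mul_comm]
  refine (abs_dot_le _ _).trans (mul_le_mul_of_nonneg_left ?_ (nrm_nonneg _))
  have h5 := Real.sqrt_le_sqrt h3
  rw [Real.sqrt_mul (sq_nonneg _), Real.sqrt_sq (by positivity)] at h5
  have h6 : M * √T.card ≤ ε / 2 * √n :=
    calc _ ≤ (M + 1) * (ε / (2 * (M + 1)) * √n) := by gcongr; linarith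
      _ = _ := by field_simp
  rw [Fl25.nrm_res]
  linarith [h2 T]

/-- combinations of thermal words with bounded coefficients -/
inductive PY (β s : ℝ) : (∀ i : In, V i.n) → Prop
  | base (u : ∀ n, Mx n → V n → V n) : TY β s u → PY β s fun i => u i.n (i.J β) i.y
  | add (X Y : ∀ i : In, V i.n) : PY β s X → PY β s Y → PY β s fun i => X i + Y i
  | smul (c : In → ℝ) (C : ℝ) (X : ∀ i : In, V i.n) : (∀ i, |c i| ≤ C) → PY β s X →
      PY β s fun i => c i • X i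

variable {X : ∀ i : In, V i.n}

theorem PY.of_pa (h : PA β s X) : PY β s X := by
  induction h with
  | base U h => exact .base U (ty_rq h)
  | add X Y _ _ h1 h2 => exact h1.add _ _ h2
  | smul c C X hc _ h1 => exact h1.smul c C _ hc

theorem PY.sum {κ : Type} (hβ : β ∈ Icc (0 : ℝ) 1) (t : Finset κ) {X : κ → ∀ i : In, V i.n}
    (h : ∀ l ∈ t, PY β s (X l)) : PY β s fun i => ∑ l ∈ t, X l i := by
  classical
  induction t using Finset.induction_on with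
  | empty => exact .of_pa (PA.sum hβ ∅ (X := X) (by simp))
  | insert a t ha ih =>
    simpa only [Finset.sum_insert ha] using PY.add _ _ (h a (Finset.mem_insert_self _ _))
      (ih fun l hl => h l (Finset.mem_insert_of_mem hl))

theorem PY.mul (hβ : β ∈ Icc (0 : ℝ) 1) (h : PY β s X) : PY β s fun i => i.J β *ᵥ X i := by
  induction h with
  | base U h => exact .base (fun n J y => J *ᵥ U n J y) (ty_iff.2 (apB.mul _ β hβ _ _ _ (ty_iff.1 h)).1)
  | add X Y _ _ h1 h2 => simpa only [mulVec_add] using h1.add _ _ h2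
  | smul c C X hc _ h1 => simpa only [mulVec_smul] using h1.smul c C _ hc

theorem PY.ev (hβ : β ∈ Ioo (0 : ℝ) 1) (hs : 0 ≤ s) {ψ : ℝ → ℝ} {M : ℝ} (hc : Continuous ψ)
    (he : ∀ x, ψ (-x) = ψ x) (hb : ∀ x, |ψ x| ≤ M) (h : PY β s X) :
    PY β s fun i => (fun k => ψ (i.b β k)) * X i := by
  induction h with
  | base U h =>
    exact .base (fun n J y k => ψ (bf β n J y k) * U n J y k)
      (ty_iff.2 (ap_ev0 ⟨hβ.1.le, hβ.2.le⟩ (ty_iff.1 (ty_bf hβ hs)) (ty_iff.1 h) hc he hb))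
  | add X Y _ _ h1 h2 => simpa only [mul_add] using h1.add _ _ h2
  | smul c C X hc _ h1 => simpa only [mul_smul_comm] using h1.smul c C _ hc

theorem PY.flat (hs : 0 ≤ s) (h : PY β s X) : ∀ ε > (0 : ℝ), ∃ δ > (0 : ℝ),
    ∀ᶠ i in TF β s, Fl (δ * i.n) (ε * √i.n) (X i) := by
  induction h with
  | base U h => exact fun ε hε => (ty_flat hs h hε).imp fun δ h1 => ⟨h1.1, h1.2.ev⟩
  | add X Y _ _ h1 h2 =>
    intro ε hε
    obtain ⟨a, a0, h1⟩ := h1 _ (half_pos hε)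
    obtain ⟨b, b0, h2⟩ := h2 _ (half_pos hε)
    refine ⟨min a b, lt_min a0 b0, (h1.and h2).mono fun i ⟨h1, h2⟩ => ?_⟩
    have n0 : (0 : ℝ) ≤ i.n := Nat.cast_nonneg _
    exact ((h1.mono (mul_le_mul_of_nonneg_right (min_le_left a b) n0) le_rfl).add
      (h2.mono (mul_le_mul_of_nonneg_right (min_le_right a b) n0) le_rfl)).mono le_rfl
        (le_of_eq (by ring))
  | smul c C X hc _ h1 =>
    intro ε hε
    have b0 : 0 < |C| + 1 := by positivity
    obtain ⟨a, a0, h1⟩ := h1 _ (div_pos hε b0)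
    refine ⟨a, a0, h1.mono fun i h1 => (h1.smul (C := |C| + 1)
      (by linarith [hc i, le_abs_self C]) (by positivity)).mono le_rfl (le_of_eq (by field_simp))⟩

theorem PY.ww (hβ : β ∈ Ioo (0 : ℝ) 1) (hs : 0 ≤ s) {g : ℝ → ℝ} {M : ℝ} (hc : Continuous g)
    (he : ∀ x, g (-x) = g x) (hb : ∀ x, |g x| ≤ M) (h : PY β s X) (k : ℕ) :
    (PY β s fun i => Ww (β / √i.n) (i.J β) (fun k => g (i.b β k)) k *ᵥ X i) ∧
      PY β s fun i => Uu (β / √i.n) (i.J β) (fun k => g (i.b β k)) k *ᵥ X i := by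
  have hβ1 : β ∈ Icc (0 : ℝ) 1 := ⟨hβ.1.le, hβ.2.le⟩
  induction k with
  | zero => simpa only [Rip.Cav35.Ww_zero, Rip.Cav35.Uu_zero, one_mulVec] using ⟨h.mul hβ1, h⟩
  | succ k ih =>
    have h1 : PY β s fun i => Uu (β / √i.n) (i.J β) (fun k => g (i.b β k)) (k + 1) *ᵥ X i := by
      simpa only [Rip.Cav35.Uu_succ, ← mulVec_mulVec, Rip.Cav35.dmv] using ih.1.ev hβ hs hc he hb
    refine ⟨?_, h1⟩
    have h2 := (h1.mul hβ1).add _ _ (ih.2.smul
      (fun i => -Uw.eta (β / √i.n) fun k => g (i.b β k)) M _ fun i => ?_)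
    · simpa only [Rip.Cav35.Ww_succ, sub_mulVec, smul_mulVec, ← mulVec_mulVec, neg_smul,
        ← sub_eq_add_neg] using h2
    · rw [abs_neg]
      refine Uw.abs_eta_le ?_ ((abs_nonneg _).trans (hb 0)) fun _ => hb _
      rcases Nat.eq_zero_or_pos i.n with h0 | h0
      · simp [h0]
      · exact Rip.sq_card ⟨hβ.1, hβ.2.le⟩ h0

/-- **FlW** for finitely many thermal words -/
theorem flW (hβ : β ∈ Ioo (0 : ℝ) 1) (hs : 0 ≤ s) {g q : ℝ → ℝ} {M : ℝ} (cg : Continuous g)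
    (eg : ∀ x, g (-x) = g x) (bg : ∀ x, |g x| ≤ M) (cq : Continuous fun x => g x / q x)
    (eq : ∀ x, q (-x) = q x) (bq : ∀ x, |g x / q x| ≤ M) {κ : Type} [Finite κ]
    {X : κ → ∀ i : In, V i.n} (h : ∀ l, PY β s (X l)) :
    FlW β s g q fun i => range fun l => (√(i.n : ℝ))⁻¹ • X l i := by
  intro k ε hε
  choose δ δ0 hδ using fun p : κ × Fin (k + 1) => (((h p.1).ev hβ hs cq
    (fun x => by rw [eg, eq]) bq).ww hβ hs cg eg bg p.2).1.flat hs ε hε
  obtain ⟨a, a0, ha⟩ : ∃ a > (0 : ℝ), ∀ p, a ≤ δ p := by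
    obtain ⟨a, h1, h2⟩ := ((eventually_all.2 fun p => eventually_le_nhds (δ0 p)).filter_mono
      (nhdsWithin_le_nhds (s := Ioi (0 : ℝ)))).and self_mem_nhdsWithin |>.exists
    exact ⟨a, h2, h1⟩
  refine ⟨a, a0, ?_⟩
  filter_upwards [eventually_all.2 hδ, TF.lim.eventually (eventually_gt_atTop 0)] with i h1 hn
  rintro _ ⟨l, rfl⟩ j hj
  have n0 : (0 : ℝ) < i.n := Nat.cast_pos.2 hn
  rw [mul_smul_comm, mulVec_smul]
  exact ((h1 (l, ⟨j, by omega⟩)).smul (C := (√(i.n : ℝ))⁻¹) (abs_of_nonneg (by positivity)).le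
    (by positivity)).mono (mul_le_mul_of_nonneg_right (ha _) n0.le) (le_of_eq (by field_simp))

/-- **cavity vectors orthogonal to the types and to finitely many thermal words** -/
theorem cavY (hβ : β ∈ Ioo (0 : ℝ) 1) {q0 : ℝ} (hL : Pos.Lv β s q0) {M ρ C2 e ε : ℝ} (hM : 1 ≤ M)
    (hρ0 : 0 ≤ ρ) (hρ1 : ρ < 1) (hC2 : 1 ≤ C2) (he : 0 < e) (hε : 0 < ε) {κ ι : Type} [Fintype κ]
    [Finite ι] {g q : ℝ → ℝ} {d : κ → ℝ → ℝ} (cg : Continuous g) (eg : ∀ x, g (-x) = g x)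
    (cq : Continuous q) (eq : ∀ x, q (-x) = q x) (cd : ∀ l, Continuous (d l))
    (bd : ∀ l x, |d l x| ≤ 1) (hg : ∀ x, 0 < g x ∧ g x ≤ M ∧ β * g x ≤ ρ ∧ g x ≤ C2 * q x)
    {f : ι → ∀ n, Mx n → V n → V n} (hf : ∀ l, TY β s (f l)) : ∃ δ > (0 : ℝ), ∀ᶠ i in TF β s,
      |Uw.eta (β / √i.n) (fun k => g (i.b β k)) -
        β ^ 2 * Tap.gE g (s + β ^ 2 * q0) (s + β ^ 2 * q0)| ≤ ε ∧
      ∀ p α : V i.n, (∀ k, 0 ≤ p k ∧ p k ≤ C2 * q (i.b β k) ∧ p k ≤ C2 * g (i.b β k)) →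
        (∀ k, |α k - q (i.b β k) * (1 / g (i.b β k) +
          Uw.eta (β / √i.n) fun k => g (i.b β k))| ≤ e) →
        ∃ Wm, Rip.Cav (i.J β) p (fun k => q (i.b β k)) α (Uw.eta (β / √i.n) fun k => g (i.b β k))
          (2 * C2 / (1 - ρ)) (2 * C2 ^ 2 / (1 - ρ) ^ 2) ((2 * C2 / (1 - ρ) + 1) * e) ε (δ * i.n)
          ((Rip.Fs fun l k => d l (i.b β k)) ∪
            range fun l => (√(i.n : ℝ))⁻¹ • f l i.n (i.J β) i.y) Wm := by
  have C0 : 0 < C2 := by linarith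
  have q0 : ∀ x, 0 < q x := fun x => (mul_pos_iff_of_pos_left C0).1 ((hg x).1.trans_le (hg x).2.2.2)
  refine Rip.TF.cavV ⟨hβ.1, hβ.2.le⟩ hL hM hρ0 hρ1 hC2 he hε cg eg cq cd bd hg
    (flW (M := max M C2) hβ hL.1 cg eg (fun x => ?_) (cg.div cq fun x => (q0 x).ne') eq (fun x => ?_)
      fun l => .base _ (hf l))
  · rw [abs_of_pos (hg x).1]; exact le_max_of_le_left (hg x).2.1
  · rw [abs_of_pos (div_pos (hg x).1 (q0 x))]
    exact le_max_of_le_right ((div_le_iff₀ (q0 x)).2 (hg x).2.2.2)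

end Crest.Agent.T157.K

end
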