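import Crest.Agent.T157.RipA_25

/-!
# Row 157, part B (helper35): cavity vectors by a truncated Wick series

For `al = 1/g + η(g)` the vector `u = ∑_{k<K} g W(g^k) c` solves `(al - J) u = J c - η(g) c` up to a
remainder which is geometrically small for sparse `c`.
-/

set_option autoImplicit false
set_option maxHeartbeats 1600000
set_option linter.unusedSectionVars false
set_option linter.unusedVariables false

noncomputable section

namespace Crest.Agent.T157.Rip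

open Matrix Finset
open Crest.Agent.T157.Eig Crest.Agent.T157.Uw

variable {ι : Type*} [Fintype ι] [DecidableEq ι]

/-- **cavity vectors** `w(c) = Wm c` for sparse `c` -/
structure Cav (J : Matrix ι ι ℝ) (p q α : ι → ℝ) (x C C0 e ε m : ℝ) (Ft : Set (ι → ℝ))
    (Wm : Matrix ι ι ℝ) : Prop where
  nr : ∀ c, Sp m c → nrm (Wm *ᵥ c) ≤ C * nrm c
  en : ∀ c, Sp m c → (Wm *ᵥ c) ⬝ᵥ (p * Wm *ᵥ c) ≤ (C0 * x + ε) * (c ⬝ᵥ c)
  fl : ∀ c, Sp m c → Fl m (ε * nrm c) (Wm *ᵥ c)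
  fj : ∀ c, Sp m c → Fl m (ε * nrm c) (J *ᵥ (q * Wm *ᵥ c) - x • c)
  eq : ∀ c, Sp m c →
    nrm (α * Wm *ᵥ c - J *ᵥ (q * Wm *ᵥ c) - (J *ᵥ c - x • c)) ≤ e * nrm c
  ty : ∀ c, Sp m c → ∀ f ∈ Ft, |(Wm *ᵥ c) ⬝ᵥ f| ≤ ε * nrm c
  jj : ∀ c, Sp m c → Fl m (ε * nrm c) (J *ᵥ c)
  je : ∀ c, Sp m c → (J *ᵥ c) ⬝ᵥ (p * J *ᵥ c) ≤ (C0 * x + ε) * (c ⬝ᵥ c)

namespace Cav35

variable {s m ε M ρ : ℝ} {J : Matrix ι ι ℝ} {A F : Set (ι → ℝ)} {g : ι → ℝ} {kk : ℕ}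

/-- `W(g^k)` -/
def Ww (s : ℝ) (J : Matrix ι ι ℝ) (g : ι → ℝ) (k : ℕ) : Matrix ι ι ℝ := Wk s J (List.replicate k g)
/-- `g W(g^{k-1})` -/
def Uu (s : ℝ) (J : Matrix ι ι ℝ) (g : ι → ℝ) (k : ℕ) : Matrix ι ι ℝ :=
  Uk s J (List.replicate k g ++ [1])

lemma Ww_zero : Ww s J g 0 = J := by simp [Ww, Wk_nil]
lemma Uu_zero : Uu s J g 0 = 1 := by
  simp only [Uu, List.replicate_zero, List.nil_append, Uk_cons, Vk_nil, Matrix.mul_one]
  exact diagonal_one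
lemma Uu_succ (k : ℕ) : Uu s J g (k + 1) = diagonal g * Ww s J g k := by
  simp only [Uu, Ww, Wk, List.replicate_succ, List.cons_append, Uk_cons]
lemma Ww_succ (k : ℕ) : Ww s J g (k + 1) = J * Uu s J g (k + 1) - eta s g • Uu s J g k := by
  rw [Uu_succ]
  simp only [Uu, Ww, Wk, List.replicate_succ, List.cons_append, Vk_cons]
lemma Ww_symm (hJ : Jᵀ = J) (k : ℕ) : (Ww s J g k)ᵀ = Ww s J g k := by
  simp only [Ww, (rev hJ _).1, List.reverse_replicate]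

lemma dmv (d v : ι → ℝ) : diagonal d *ᵥ v = d * v := funext fun i => by simp [mulVec_diagonal]

/-- the inner contraction -/
def Zz (s : ℝ) (J : Matrix ι ι ℝ) (g : ι → ℝ) (k : ℕ) : Matrix ι ι ℝ :=
  Vk s J (List.replicate k g) * Uu s J g k

lemma prod (d : ι → ℝ) (k : ℕ) : Ww s J g k * diagonal d * Ww s J g k =
    Wk s J (List.replicate k g ++ d :: List.replicate k g) + eta s d • Zz s J g k := by
  have h := (prod_rule (s := s) (J := J) d (List.replicate k g ++ [1]) (List.replicate k g)).1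
  rw [Ww, Wk_mul_diag, Wk, h]
  simp only [Wk, Zz, Uu, List.append_assoc, List.cons_append]

lemma Zz_succ (k : ℕ) : Zz s J g (k + 1) = Ww s J g k * diagonal (g * g) * Ww s J g k := by
  rw [Zz, Uu_succ, List.replicate_succ', ← Wk_mul_diag, ← Matrix.mul_assoc,
    Matrix.mul_assoc _ (diagonal g) (diagonal g), diagonal_mul_diagonal]
  rfl

lemma in_rep (hg : g ∈ A) (k : ℕ) : In A (List.replicate k g) := fun a ha => by
  rw [List.eq_of_mem_replicate ha]; exact hg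

lemma eta_nonneg {d : ι → ℝ} (hd : ∀ i, 0 ≤ d i) : 0 ≤ eta s d :=
  mul_nonneg (sq_nonneg _) (sum_nonneg fun i _ => hd i)

lemma quad (h : RIP s J A F kk m ε) (hg : g ∈ A) {d : ι → ℝ} (hd : d ∈ A) {k : ℕ}
    (hk : 2 * k + 1 ≤ kk) {c : ι → ℝ} (hc : Sp m c) :
    c ⬝ᵥ Wk s J (List.replicate k g ++ d :: List.replicate k g) *ᵥ c ≤ ε * (c ⬝ᵥ c) := by
  have := h.sp (List.replicate k g ++ d :: List.replicate k g) (by simp; omega)
    (in_append.2 ⟨in_rep hg k, in_cons.2 ⟨hd, in_rep hg k⟩⟩) c hc c hc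
  rw [mul_assoc, nrm_mul_self] at this
  exact (le_abs_self _).trans this

lemma zz (h : RIP s J A F kk m ε) (he : 0 ≤ ε) (hg : g ∈ A) (hgg : g * g ∈ A) (hρ1 : ρ ^ 2 ≤ 1)
    (hρ : eta s (g * g) ≤ ρ ^ 2) {c : ι → ℝ} (hc : Sp m c) :
    ∀ k, 2 * k ≤ kk + 1 → c ⬝ᵥ Zz s J g k *ᵥ c ≤ ((ρ ^ 2) ^ k + k * ε) * (c ⬝ᵥ c)
  | 0, _ => by simp [Zz, Uu_zero]
  | k + 1, hk => by
    have h1 := quad h hg hgg (k := k) (by omega) hc
    have h2 := zz h he hg hgg hρ1 hρ hc k (by omega)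
    have h0 : 0 ≤ eta s (g * g) := eta_nonneg fun i => mul_self_nonneg _
    have hc0 : 0 ≤ c ⬝ᵥ c := dot_self_nonneg c
    rw [Zz_succ, prod, add_mulVec, smul_mulVec, dotProduct_add, dotProduct_smul, smul_eq_mul]
    have h3 : eta s (g * g) * (c ⬝ᵥ Zz s J g k *ᵥ c) ≤
        ρ ^ 2 * (((ρ ^ 2) ^ k + k * ε) * (c ⬝ᵥ c)) :=
      (mul_le_mul_of_nonneg_left h2 h0).trans
        (mul_le_mul_of_nonneg_right hρ (by positivity))
    have h4 : ρ ^ 2 * (k * ε * (c ⬝ᵥ c)) ≤ 1 * (k * ε * (c ⬝ᵥ c)) :=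
      mul_le_mul_of_nonneg_right hρ1 (by positivity)
    push_cast
    rw [pow_succ (ρ ^ 2) k]
    nlinarith

/-- weighted norm of `W(g^k) c` -/
lemma wn (h : RIP s J A F kk m ε) (hJ : Jᵀ = J) (he : 0 ≤ ε) (hg : g ∈ A) (hgg : g * g ∈ A)
    (hρ0 : 0 ≤ ρ) (hρ1 : ρ ^ 2 ≤ 1) (hρ : eta s (g * g) ≤ ρ ^ 2) {d : ι → ℝ} (hd : d ∈ A)
    (hd0 : ∀ i, 0 ≤ d i) (hdM : eta s d ≤ M) {K k : ℕ} (hk : k ≤ K) (hK : 2 * K + 1 ≤ kk)
    {τ : ℝ} (hτ : 0 ≤ τ) (hE : (1 + M * K) * ε ≤ τ ^ 2) {c : ι → ℝ} (hc : Sp m c) :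
    nrm ((fun i => √(d i)) * Ww s J g k *ᵥ c) ≤ (√(eta s d) * ρ ^ k + τ) * nrm c := by
  have h0 := eta_nonneg (s := s) hd0
  have hc0 : 0 ≤ c ⬝ᵥ c := dot_self_nonneg c
  rw [nrm_le_iff (by have := nrm_nonneg c; positivity)]
  have e1 : ((fun i => √(d i)) * Ww s J g k *ᵥ c) ⬝ᵥ ((fun i => √(d i)) * Ww s J g k *ᵥ c) =
      c ⬝ᵥ (Ww s J g k * diagonal d * Ww s J g k) *ᵥ c := by
    rw [← mulVec_mulVec, ← mulVec_mulVec, dotProduct_mulVec, ← mulVec_transpose, Ww_symm hJ, dmv]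
    refine sum_congr rfl fun i _ => ?_
    simp only [Pi.mul_apply]
    have := Real.mul_self_sqrt (hd0 i)
    linear_combination ((Ww s J g k *ᵥ c) i) ^ 2 * this
  have h1 := quad h hg hd (k := k) (by omega) hc
  have h2 := mul_le_mul_of_nonneg_left (zz h he hg hgg hρ1 hρ hc k (by omega)) h0
  rw [e1, prod, add_mulVec, smul_mulVec, dotProduct_add, dotProduct_smul, smul_eq_mul, mul_pow,
    nrm_sq]
  have hkK : (k : ℝ) ≤ K := by exact_mod_cast hk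
  have h3 : eta s d * k ≤ M * K := mul_le_mul hdM hkK (Nat.cast_nonneg _) (h0.trans hdM)
  have h4 : (1 + eta s d * k) * ε ≤ τ ^ 2 := by nlinarith
  have h5 : eta s d * (ρ ^ 2) ^ k + τ ^ 2 ≤ (√(eta s d) * ρ ^ k + τ) ^ 2 := by
    have : (√(eta s d) * ρ ^ k) ^ 2 = eta s d * (ρ ^ 2) ^ k := by
      rw [mul_pow, Real.sq_sqrt h0, ← pow_mul, ← pow_mul, mul_comm k 2]
    have h6 : 0 ≤ √(eta s d) * ρ ^ k * τ := by positivity
    nlinarith
  nlinarith [mul_le_mul_of_nonneg_right h4 hc0, mul_le_mul_of_nonneg_right h5 hc0]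

lemma geo (hρ0 : 0 ≤ ρ) (hρ1 : ρ < 1) (K : ℕ) : ∑ k ∈ range K, ρ ^ k ≤ 1 / (1 - ρ) := by
  rw [le_div_iff₀ (by linarith), ← neg_sub ρ 1, mul_neg, geom_sum_mul]
  have := pow_nonneg hρ0 K
  linarith

/-- the truncated series -/
def Yy (s : ℝ) (J : Matrix ι ι ℝ) (g : ι → ℝ) (K : ℕ) : Matrix ι ι ℝ := ∑ k ∈ range K, Ww s J g k

lemma Yy_mv (K : ℕ) (c : ι → ℝ) : Yy s J g K *ᵥ c = ∑ k ∈ range K, Ww s J g k *ᵥ c := by
  rw [Yy, Matrix.sum_mulVec]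

/-- **the telescoping identity** -/
lemma tel (K : ℕ) : J * (diagonal g * Yy s J g K) = Yy s J g K + eta s g • (diagonal g * Yy s J g K) -
    J + eta s g • 1 + (Ww s J g K - eta s g • Uu s J g K) := by
  induction K with
  | zero => simp [Yy, Ww_zero, Uu_zero]
  | succ K ih =>
    have e : Yy s J g (K + 1) = Yy s J g K + Ww s J g K := sum_range_succ _ _
    rw [e, Matrix.mul_add, Matrix.mul_add, ih, ← Uu_succ, Ww_succ]
    module

lemma wY (h : RIP s J A F kk m ε) (hJ : Jᵀ = J) (he : 0 ≤ ε) (hg : g ∈ A) (hgg : g * g ∈ A)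
    (hρ0 : 0 ≤ ρ) (hρ1 : ρ < 1) (hρ : eta s (g * g) ≤ ρ ^ 2) {d : ι → ℝ} (hd : d ∈ A)
    (hd0 : ∀ i, 0 ≤ d i) (hdM : eta s d ≤ M) {K : ℕ} (hK : 2 * K + 1 ≤ kk)
    {τ : ℝ} (hτ : 0 ≤ τ) (hE : (1 + M * K) * ε ≤ τ ^ 2) {c : ι → ℝ} (hc : Sp m c) :
    nrm ((fun i => √(d i)) * Yy s J g K *ᵥ c) ≤ (√(eta s d) / (1 - ρ) + K * τ) * nrm c := by
  rw [Yy_mv, Finset.mul_sum]
  refine (nrm_sum_le _ _).trans ((sum_le_sum fun k hk => wn h hJ he hg hgg hρ0 (by nlinarith) hρ hd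
    hd0 hdM (mem_range.1 hk).le hK hτ hE hc).trans ?_)
  rw [← sum_mul, sum_add_distrib, ← Finset.mul_sum, sum_const, card_range, nsmul_eq_mul]
  refine mul_le_mul_of_nonneg_right (add_le_add_left ?_ _) (nrm_nonneg _)
  rw [div_eq_mul_one_div]
  exact mul_le_mul_of_nonneg_left (geo hρ0 hρ1 K) (Real.sqrt_nonneg _)

lemma fl_mul {x a : ι → ℝ} {C : ℝ} (h : Fl m ε x) (he : 0 ≤ ε) (hC : 0 ≤ C) (ha : ∀ i, |a i| ≤ C) :
    Fl m (C * ε) (a * x) := fun v hv => by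
  have e : v ⬝ᵥ (a * x) = (a * v) ⬝ᵥ x := by
    simp only [dotProduct, Pi.mul_apply]
    exact sum_congr rfl fun i _ => by ring
  rw [e]
  refine (h _ (hv.mul_left a)).trans ?_
  have := mul_le_mul_of_nonneg_left (nrm_mul_le hC ha v) he
  linarith

end Cav35

open Cav35

/-- explicit form -/
theorem cav_of {s m ε0 ε M ρ C2 e τ : ℝ} {J : Matrix ι ι ℝ} {A F : Set (ι → ℝ)}
    {g p q α : ι → ℝ} {K : ℕ} (h : RIP s J A F (2 * (K + 1) + 1) m ε0) (hJ : Jᵀ = J)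
    (hs : s ^ 2 * Fintype.card ι ≤ 1) (he0 : 0 ≤ ε0) (hM : 1 ≤ M) (hρ0 : 0 ≤ ρ) (hρ1 : ρ < 1)
    (hC1 : 1 ≤ C2) (he : 0 ≤ e) (hg : g ∈ A) (hgg : g * g ∈ A) (h1 : (1 : ι → ℝ) ∈ A)
    (g0 : ∀ i, 0 < g i) (gM : ∀ i, g i ≤ M) (q0 : ∀ i, 0 < q i) (p0 : ∀ i, 0 ≤ p i)
    (gq : ∀ i, g i ≤ C2 * q i) (pq : ∀ i, p i ≤ C2 * q i) (pg : ∀ i, p i ≤ C2 * g i)
    (hρ : eta s (g * g) ≤ ρ ^ 2)
    (hα : ∀ i, |α i - q i * (1 / g i + eta s g)| ≤ e) (hτ : 0 ≤ τ)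
    (hE : (1 + M * (K + 1 : ℕ)) * ε0 ≤ τ ^ 2) (t1 : (K + 1) * τ ≤ 1)
    (t2 : 2 * C2 ^ 2 * ((K + 1) * τ) ^ 2 ≤ ε) (t3 : (M ^ 2 + 1) * (ρ ^ K + τ) ≤ e)
    (t4 : (C2 + M ^ 2 + 1) * (K + 3) * ε0 ≤ ε) :
    Cav J p q α (eta s g) (2 * C2 / (1 - ρ)) (2 * C2 ^ 2 / (1 - ρ) ^ 2)
      ((2 * C2 / (1 - ρ) + 1) * e) ε m {f | g / q * f ∈ F}
      (diagonal (g / q) * Yy s J g (K + 1)) := by
  have hC2 : 0 ≤ C2 := by linarith
  have hr : ∀ i, |(g / q) i| ≤ C2 := fun i => by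
    rw [Pi.div_apply, abs_of_pos (div_pos (g0 i) (q0 i)), div_le_iff₀ (q0 i)]; exact gq i
  have hgM : ∀ i, |g i| ≤ M := fun i => by rw [abs_of_pos (g0 i)]; exact gM i
  have η0 : 0 ≤ eta s g := eta_nonneg fun i => (g0 i).le
  have ηM : eta s g ≤ M := (le_abs_self _).trans (abs_eta_le hs (by linarith) hgM)
  have η1 : eta s (1 : ι → ℝ) ≤ 1 :=
    (le_abs_self _).trans (abs_eta_le hs zero_le_one fun i => by simp)
  have r1 : 0 < 1 - ρ := by linarith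
  have mv : ∀ c, (diagonal (g / q) * Yy s J g (K + 1)) *ᵥ c = g / q * Yy s J g (K + 1) *ᵥ c :=
    fun c => by rw [← mulVec_mulVec, dmv]
  have qw : ∀ c, q * (g / q * Yy s J g (K + 1) *ᵥ c) = g * Yy s J g (K + 1) *ᵥ c := fun c => by
    funext i; simp only [Pi.mul_apply, Pi.div_apply]; field_simp [(q0 i).ne']
  have s1 : ∀ v : ι → ℝ, (fun i => √((1 : ι → ℝ) i)) * v = v := fun v => by funext i; simp
  have sq1 : √(eta s (1 : ι → ℝ)) ≤ 1 := Real.sqrt_le_one.2 η1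
  have nY : ∀ c, Sp m c → nrm (Yy s J g (K + 1) *ᵥ c) ≤ 2 / (1 - ρ) * nrm c := fun c hc => by
    have := wY h hJ he0 hg hgg hρ0 hρ1 hρ h1 (fun i => by simp) (η1.trans hM) le_rfl hτ hE hc
    rw [s1] at this
    refine this.trans (mul_le_mul_of_nonneg_right ?_ (nrm_nonneg _))
    have a1 : √(eta s (1 : ι → ℝ)) / (1 - ρ) ≤ 1 / (1 - ρ) := by gcongr
    have a2 : (1 : ℝ) ≤ 1 / (1 - ρ) := by rw [le_div_iff₀ r1]; linarith
    have a3 : 2 / (1 - ρ) = 1 / (1 - ρ) + 1 / (1 - ρ) := by ring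
    push_cast
    linarith
  have nW : ∀ c, Sp m c → ∀ k ≤ K + 1, nrm (Ww s J g k *ᵥ c) ≤ (ρ ^ k + τ) * nrm c :=
    fun c hc k hk => by
      have := wn h hJ he0 hg hgg hρ0 (by nlinarith) hρ h1 (fun i => by simp) (η1.trans hM) hk
        le_rfl hτ hE hc
      rw [s1] at this
      refine this.trans (mul_le_mul_of_nonneg_right ?_ (nrm_nonneg _))
      nlinarith [pow_nonneg hρ0 k, Real.sqrt_nonneg (eta s (1 : ι → ℝ))]
  have nr : ∀ c, Sp m c → nrm (g / q * Yy s J g (K + 1) *ᵥ c) ≤ 2 * C2 / (1 - ρ) * nrm c :=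
    fun c hc => by
      refine (nrm_mul_le hC2 hr _).trans ((mul_le_mul_of_nonneg_left (nY c hc) hC2).trans_eq ?_)
      ring
  have fW : ∀ c, Sp m c → ∀ k ≤ K + 1, Fl m (ε0 * nrm c) (Ww s J g k *ᵥ c) := fun c hc k hk =>
    h.sp _ (by simp; omega) (in_rep hg k) c hc
  have fY : ∀ c, Sp m c → Fl m ((K + 1) * (ε0 * nrm c)) (Yy s J g (K + 1) *ᵥ c) := fun c hc => by
    rw [Yy_mv]
    simpa using Fl.sum (range (K + 1)) fun k hk => fW c hc k (mem_range.1 hk).le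
  have te : ∀ c, J *ᵥ (g * Yy s J g (K + 1) *ᵥ c) = Yy s J g (K + 1) *ᵥ c +
      eta s g • (g * Yy s J g (K + 1) *ᵥ c) - J *ᵥ c + eta s g • c +
      (Ww s J g (K + 1) *ᵥ c - eta s g • (g * Ww s J g K *ᵥ c)) := fun c => by
    have := congrArg (· *ᵥ c) (tel (s := s) (J := J) (g := g) (K + 1))
    simpa only [Uu_succ, add_mulVec, sub_mulVec, smul_mulVec, one_mulVec, ← mulVec_mulVec, dmv]
      using this
  have K0 : (0 : ℝ) ≤ K := Nat.cast_nonneg _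
  have M2 : 0 ≤ M ^ 2 := sq_nonneg _
  refine ⟨fun c hc => ?_, fun c hc => ?_, fun c hc => ?_, fun c hc => ?_, fun c hc => ?_,
    fun c hc f hf => ?_, fun c hc => ?_, fun c hc => ?_⟩
  · rw [mv]; exact nr c hc
  · have h2 := wY h hJ he0 hg hgg hρ0 hρ1 hρ hg (fun i => (g0 i).le) ηM le_rfl hτ hE hc
    have c0 := nrm_nonneg c
    rw [nrm_le_iff (by positivity), mul_pow, nrm_sq] at h2
    have h3 : (g / q * Yy s J g (K + 1) *ᵥ c) ⬝ᵥ (p * (g / q * Yy s J g (K + 1) *ᵥ c)) ≤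
        C2 ^ 2 * (((fun i => √(g i)) * Yy s J g (K + 1) *ᵥ c) ⬝ᵥ
          ((fun i => √(g i)) * Yy s J g (K + 1) *ᵥ c)) := by
      simp only [dotProduct, Finset.mul_sum]
      refine sum_le_sum fun i _ => ?_
      simp only [Pi.mul_apply, Pi.div_apply]
      set y := (Yy s J g (K + 1) *ᵥ c) i
      have a1 : √(g i) * y * (√(g i) * y) = g i * y ^ 2 := by
        linear_combination y ^ 2 * Real.mul_self_sqrt (g0 i).le
      have a2 : g i / q i * (p i / q i) ≤ C2 * C2 :=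
        mul_le_mul (by rw [div_le_iff₀ (q0 i)]; exact gq i) (by rw [div_le_iff₀ (q0 i)]; exact pq i)
          (div_nonneg (p0 i) (q0 i).le) hC2
      have a3 : g i / q i * y * (p i * (g i / q i * y)) =
          g i / q i * (p i / q i) * (g i * y ^ 2) := by ring
      rw [a1, a3, sq C2]
      exact mul_le_mul_of_nonneg_right a2 (by have := g0 i; positivity)
    have h4 : (√(eta s g) / (1 - ρ) + (K + 1 : ℕ) * τ) ^ 2 ≤
        2 * (eta s g / (1 - ρ) ^ 2) + 2 * ((K + 1) * τ) ^ 2 := by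
      have : (√(eta s g) / (1 - ρ)) ^ 2 = eta s g / (1 - ρ) ^ 2 := by
        rw [div_pow, Real.sq_sqrt η0]
      push_cast
      nlinarith [sq_nonneg (√(eta s g) / (1 - ρ) - (K + 1) * τ)]
    have hc0 : 0 ≤ c ⬝ᵥ c := dot_self_nonneg c
    rw [mv]
    refine h3.trans ((mul_le_mul_of_nonneg_left (h2.trans
      (mul_le_mul_of_nonneg_right h4 hc0)) (sq_nonneg _)).trans ?_)
    rw [← mul_assoc]
    refine mul_le_mul_of_nonneg_right ?_ hc0
    have : C2 ^ 2 * (2 * (eta s g / (1 - ρ) ^ 2)) = 2 * C2 ^ 2 / (1 - ρ) ^ 2 * eta s g := by ring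
    nlinarith
  · have c0 := nrm_nonneg c
    rw [mv]
    refine (fl_mul (fY c hc) (by positivity) hC2 hr).mono le_rfl ?_
    have : C2 * (K + 1) * ε0 ≤ ε := le_trans (mul_le_mul_of_nonneg_right (by nlinarith) he0) t4
    nlinarith
  · have c0 := nrm_nonneg c
    rw [mv, qw, te]
    have a0 : |eta s g| ≤ M := by rw [abs_of_nonneg η0]; exact ηM
    have f1 := (fl_mul (fY c hc) (by positivity) (by linarith) hgM).smul a0 (by positivity)
    have f2 := (fl_mul (fW c hc K (by omega)) (by positivity) (by linarith) hgM).smul a0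
      (by positivity)
    have f3 := fW c hc 0 (by omega)
    rw [Ww_zero] at f3
    have f4 := (((fY c hc).add f1).sub f3).add ((fW c hc (K + 1) le_rfl).sub f2)
    have : ((M ^ 2 + 1) * (K + 3)) * ε0 ≤ ε :=
      le_trans (mul_le_mul_of_nonneg_right (by nlinarith) he0) t4
    have e1 : ∀ a b c' d e' : ι → ℝ, a + b - c' + d + e' - d = a + b - c' + e' :=
      fun a b c' d e' => by abel
    rw [e1]
    refine f4.mono le_rfl ?_
    have a5 : 0 ≤ M ^ 2 * (ε0 * nrm c) := by positivity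
    nlinarith [mul_le_mul_of_nonneg_right this c0]
  · have c0 := nrm_nonneg c
    rw [mv, qw, te]
    have e1 : α * (g / q * Yy s J g (K + 1) *ᵥ c) - (Yy s J g (K + 1) *ᵥ c +
        eta s g • (g * Yy s J g (K + 1) *ᵥ c) - J *ᵥ c + eta s g • c +
        (Ww s J g (K + 1) *ᵥ c - eta s g • (g * Ww s J g K *ᵥ c))) - (J *ᵥ c - eta s g • c) =
        (fun i => α i - q i * (1 / g i + eta s g)) * (g / q * Yy s J g (K + 1) *ᵥ c) -
          (Ww s J g (K + 1) *ᵥ c - eta s g • (g * Ww s J g K *ᵥ c)) := by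
      funext i
      simp only [Pi.mul_apply, Pi.div_apply, Pi.sub_apply, Pi.add_apply, Pi.smul_apply, smul_eq_mul]
      field_simp [(q0 i).ne', (g0 i).ne']
      ring
    rw [e1]
    have b1 := (nrm_mul_le he hα _).trans (mul_le_mul_of_nonneg_left (nr c hc) he)
    have b2 := nW c hc (K + 1) le_rfl
    have b3 := (nrm_mul_le (by linarith) hgM _).trans
      (mul_le_mul_of_nonneg_left (nW c hc K (by omega)) (by linarith))
    have b4 : nrm (eta s g • (g * Ww s J g K *ᵥ c)) ≤ M * (M * ((ρ ^ K + τ) * nrm c)) := by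
      rw [nrm_smul, abs_of_nonneg η0]
      exact mul_le_mul ηM b3 (nrm_nonneg _) (by linarith)
    have b5 : ρ ^ (K + 1) ≤ ρ ^ K := pow_le_pow_of_le_one hρ0 hρ1.le (by omega)
    have b6 := nrm_sub_le (Ww s J g (K + 1) *ᵥ c) (eta s g • (g * Ww s J g K *ᵥ c))
    refine (nrm_sub_le _ _).trans ?_
    nlinarith [mul_le_mul_of_nonneg_right t3 c0, mul_le_mul_of_nonneg_right b5 c0]
  · have c0 := nrm_nonneg c
    have e1 : ((diagonal (g / q) * Yy s J g (K + 1)) *ᵥ c) ⬝ᵥ f =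
        c ⬝ᵥ ∑ k ∈ range (K + 1), Ww s J g k *ᵥ (g / q * f) := by
      rw [← Yy_mv, dotProduct_mulVec, ← mulVec_transpose, mv]
      have : (Yy s J g (K + 1))ᵀ = Yy s J g (K + 1) := by
        simp only [Yy, transpose_sum, Ww_symm hJ]
      rw [this]
      exact sum_congr rfl fun i _ => by simp only [Pi.mul_apply]; ring
    have f1 := Fl.sum (range (K + 1)) (z := fun k => Ww s J g k *ᵥ (g / q * f))
      (fun k hk => h.fl _ (by have := mem_range.1 hk; simp; omega) (in_rep hg k) _ hf) c hc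
    rw [e1]
    refine f1.trans (mul_le_mul_of_nonneg_right ?_ c0)
    rw [card_range]
    push_cast
    exact le_trans (mul_le_mul_of_nonneg_right (by nlinarith) he0) t4
  · have f3 := fW c hc 0 (by omega)
    rw [Ww_zero] at f3
    refine f3.mono le_rfl (mul_le_mul_of_nonneg_right ?_ (nrm_nonneg _))
    exact le_trans (le_mul_of_one_le_left he0 (by nlinarith)) t4
  · have h2 := wn h hJ he0 hg hgg hρ0 (by nlinarith) hρ hg (fun i => (g0 i).le) ηM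
      (Nat.zero_le (K + 1)) le_rfl hτ hE hc
    have c0 := nrm_nonneg c
    rw [Ww_zero, pow_zero, mul_one, nrm_le_iff (by positivity), mul_pow, nrm_sq] at h2
    have h3 : (J *ᵥ c) ⬝ᵥ (p * J *ᵥ c) ≤
        C2 * (((fun i => √(g i)) * J *ᵥ c) ⬝ᵥ ((fun i => √(g i)) * J *ᵥ c)) := by
      simp only [dotProduct, Finset.mul_sum]
      refine sum_le_sum fun i _ => ?_
      simp only [Pi.mul_apply]
      set y := (J *ᵥ c) i
      have a1 : √(g i) * y * (√(g i) * y) = g i * y ^ 2 := by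
        linear_combination y ^ 2 * Real.mul_self_sqrt (g0 i).le
      rw [a1]
      nlinarith [mul_le_mul_of_nonneg_right (pg i) (sq_nonneg y)]
    have h4 : (√(eta s g) + τ) ^ 2 ≤ 2 * eta s g + 2 * τ ^ 2 := by
      nlinarith [sq_nonneg (√(eta s g) - τ), Real.sq_sqrt η0]
    have hc0 : 0 ≤ c ⬝ᵥ c := dot_self_nonneg c
    refine h3.trans ((mul_le_mul_of_nonneg_left (h2.trans
      (mul_le_mul_of_nonneg_right h4 hc0)) hC2).trans ?_)
    rw [← mul_assoc]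
    refine mul_le_mul_of_nonneg_right ?_ hc0
    have a1 : 2 * C2 ≤ 2 * C2 ^ 2 / (1 - ρ) ^ 2 := by
      rw [le_div_iff₀ (by positivity)]
      have : (1 - ρ) ^ 2 ≤ 1 := by nlinarith
      nlinarith
    have a2 : τ ^ 2 ≤ ((K + 1) * τ) ^ 2 := pow_le_pow_left₀ hτ (by nlinarith) 2
    have a3 : C2 * τ ^ 2 ≤ C2 ^ 2 * ((K + 1) * τ) ^ 2 :=
      mul_le_mul (by nlinarith) a2 (sq_nonneg _) (sq_nonneg _)
    nlinarith [mul_le_mul_of_nonneg_right a1 η0]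

/-- **existence of the cavity vectors** -/
theorem cav {M ρ C2 e ε : ℝ} (hM : 1 ≤ M) (hρ0 : 0 ≤ ρ) (hρ1 : ρ < 1) (hC2 : 1 ≤ C2) (he : 0 < e)
    (hε : 0 < ε) : ∃ (k : ℕ) (ε0 : ℝ), 0 < ε0 ∧ ∀ (ι : Type) [Fintype ι] [DecidableEq ι] (s m : ℝ)
      (J : Matrix ι ι ℝ) (A F : Set (ι → ℝ)) (g p q α : ι → ℝ), RIP s J A F k m ε0 → Jᵀ = J →
      s ^ 2 * Fintype.card ι ≤ 1 → g ∈ A → g * g ∈ A → (1 : ι → ℝ) ∈ A → (∀ i, 0 < g i) →
      (∀ i, g i ≤ M) → (∀ i, 0 < q i) → (∀ i, 0 ≤ p i) → (∀ i, g i ≤ C2 * q i) →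
      (∀ i, p i ≤ C2 * q i) → (∀ i, p i ≤ C2 * g i) → eta s (g * g) ≤ ρ ^ 2 →
      (∀ i, |α i - q i * (1 / g i + eta s g)| ≤ e) →
      ∃ Wm, Cav J p q α (eta s g) (2 * C2 / (1 - ρ)) (2 * C2 ^ 2 / (1 - ρ) ^ 2)
        ((2 * C2 / (1 - ρ) + 1) * e) ε m {f | g / q * f ∈ F} Wm := by
  have hM2 : 0 < M ^ 2 + 1 := by positivity
  obtain ⟨K, hK⟩ := exists_pow_lt_of_lt_one (show 0 < e / (2 * (M ^ 2 + 1)) by positivity) hρ1
  have K0 : (0 : ℝ) ≤ K := Nat.cast_nonneg _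
  set τ : ℝ := min (min (1 / ((K : ℝ) + 1)) (e / (2 * (M ^ 2 + 1))))
    (min 1 (ε / (2 * C2 ^ 2 * (K + 1) ^ 2 + 1))) with hτ
  have τ0 : 0 < τ := by positivity
  have τ1 : τ ≤ 1 / (K + 1) := (min_le_left _ _).trans (min_le_left _ _)
  have τ2 : τ ≤ e / (2 * (M ^ 2 + 1)) := (min_le_left _ _).trans (min_le_right _ _)
  have τ3 : τ ≤ 1 := (min_le_right _ _).trans (min_le_left _ _)
  have τ4 : τ ≤ ε / (2 * C2 ^ 2 * (K + 1) ^ 2 + 1) := (min_le_right _ _).trans (min_le_right _ _)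
  rw [le_div_iff₀ (by positivity)] at τ1 τ2 τ4
  rw [lt_div_iff₀ (by positivity)] at hK
  refine ⟨2 * (K + 1) + 1, min (τ ^ 2 / (1 + M * (K + 1))) (ε / ((C2 + M ^ 2 + 1) * (K + 3))),
    by positivity, fun ι _ _ s m J A F g p q α h hJ hs hg hgg h1 g0 gM q0 p0 gq pq pg hρ hα =>
    ⟨_, cav_of h hJ hs (by positivity) hM hρ0 hρ1 hC2 he.le hg hgg h1 g0 gM q0 p0 gq pq pg hρ hα τ0.le
      ?_ (by linarith) ?_ (by linarith) ?_⟩⟩
  · push_cast
    rw [mul_comm, ← le_div_iff₀ (by positivity)]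
    exact min_le_left _ _
  · have a : 0 ≤ 2 * C2 ^ 2 * (K + 1) ^ 2 := by positivity
    have b : τ ^ 2 ≤ τ := by nlinarith
    nlinarith [mul_le_mul_of_nonneg_left b a]
  · rw [mul_comm, ← le_div_iff₀ (by positivity)]
    exact min_le_right _ _

lemma Cav.mono {J Wm : Matrix ι ι ℝ} {p q α : ι → ℝ} {x C C0 e ε m C' C0' e' ε' m' : ℝ}
    {Ft Ft' : Set (ι → ℝ)} (h : Cav J p q α x C C0 e ε m Ft Wm) (hx : 0 ≤ x) (hC : C ≤ C')
    (hC0 : C0 ≤ C0') (he : e ≤ e') (hε : ε ≤ ε') (hm : m' ≤ m) (hF : Ft' ⊆ Ft) :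
    Cav J p q α x C' C0' e' ε' m' Ft' Wm := by
  have a : C0 * x + ε ≤ C0' * x + ε' := by nlinarith
  have b : ∀ {t t' : ℝ} (c : ι → ℝ), t ≤ t' → t * nrm c ≤ t' * nrm c := fun c h =>
    mul_le_mul_of_nonneg_right h (nrm_nonneg _)
  exact ⟨fun c hc => (h.nr c (hc.mono hm)).trans (b c hC),
    fun c hc => (h.en c (hc.mono hm)).trans (mul_le_mul_of_nonneg_right a (dot_self_nonneg c)),
    fun c hc => (h.fl c (hc.mono hm)).mono hm (b c hε),
    fun c hc => (h.fj c (hc.mono hm)).mono hm (b c hε),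
    fun c hc => (h.eq c (hc.mono hm)).trans (b c he),
    fun c hc f hf => (h.ty c (hc.mono hm) f (hF hf)).trans (b c hε),
    fun c hc => (h.jj c (hc.mono hm)).mono hm (b c hε),
    fun c hc => (h.je c (hc.mono hm)).trans (mul_le_mul_of_nonneg_right a (dot_self_nonneg c))⟩

/-- a larger weight -/
lemma Cav.weight {J Wm : Matrix ι ι ℝ} {p p' q α : ι → ℝ} {x C C0 e ε m R d : ℝ}
    {Ft : Set (ι → ℝ)} (h : Cav J p q α x C C0 e ε m Ft Wm) (hR : opn J ≤ R) (hC : C ≤ R)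
    (hd : 0 ≤ d) (hp : ∀ i, p' i ≤ p i + d) : Cav J p' q α x C C0 e (ε + d * R ^ 2) m Ft Wm := by
  have R0 : 0 ≤ R := (opn_nonneg _).trans hR
  have a : ∀ v c : ι → ℝ, nrm v ≤ R * nrm c → v ⬝ᵥ (p * v) ≤ (C0 * x + ε) * (c ⬝ᵥ c) →
      v ⬝ᵥ (p' * v) ≤ (C0 * x + (ε + d * R ^ 2)) * (c ⬝ᵥ c) := fun v c h1 h2 => by
    rw [nrm_le_iff (mul_nonneg R0 (nrm_nonneg _)), mul_pow, nrm_sq] at h1
    have : v ⬝ᵥ (p' * v) ≤ v ⬝ᵥ (p * v) + d * (v ⬝ᵥ v) := by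
      simp only [dotProduct, Finset.mul_sum, ← sum_add_distrib, Pi.mul_apply]
      exact sum_le_sum fun i _ => by
        nlinarith [mul_le_mul_of_nonneg_right (hp i) (mul_self_nonneg (v i))]
    nlinarith [mul_le_mul_of_nonneg_left h1 hd]
  have b : ∀ c : ι → ℝ, ε * nrm c ≤ (ε + d * R ^ 2) * nrm c := fun c =>
    mul_le_mul_of_nonneg_right (le_add_of_nonneg_right (by positivity)) (nrm_nonneg _)
  exact ⟨h.nr, fun c hc => a _ c ((h.nr c hc).trans (mul_le_mul_of_nonneg_right hC (nrm_nonneg _)))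
      (h.en c hc), fun c hc => (h.fl c hc).mono le_rfl (b c),
    fun c hc => (h.fj c hc).mono le_rfl (b c), h.eq,
    fun c hc f hf => (h.ty c hc f hf).trans (b c), fun c hc => (h.jj c hc).mono le_rfl (b c),
    fun c hc => a _ c ((nrm_mulVec_le J c).trans (mul_le_mul_of_nonneg_right hR (nrm_nonneg _)))
      (h.je c hc)⟩

/-- scaling of the letters -/
theorem RIP.scale {s m ε M : ℝ} {J : Matrix ι ι ℝ} {A F : Set (ι → ℝ)} {k : ℕ}
    (h : RIP s J A F k m ε) (he : 0 ≤ ε) (hM : 1 ≤ M) :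
    RIP s J {a | ∃ c : ℝ, |c| ≤ M ∧ ∃ b ∈ A, a = c • b}
      {f | ∃ c : ℝ, |c| ≤ M ∧ ∃ b ∈ F, f = c • b} k m (M ^ (k + 1) * ε) := by
  have key : ∀ l : List (ι → ℝ), In {a | ∃ c : ℝ, |c| ≤ M ∧ ∃ b ∈ A, a = c • b} l →
      ∃ (l' : List (ι → ℝ)) (c : ℝ), l'.length = l.length ∧ In A l' ∧ |c| ≤ M ^ l.length ∧
        ∀ pre : List (ι → ℝ), Vk s J (pre ++ (l ++ [1])) = c • Vk s J (pre ++ (l' ++ [1])) := by
    intro l
    induction l with
    | nil => exact fun _ => ⟨[], 1, rfl, In.nil, by simp, fun pre => by simp⟩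
    | cons a l ih =>
      intro hl
      obtain ⟨⟨c, hc, b, hb, rfl⟩, hl'⟩ := in_cons.1 hl
      obtain ⟨l', c', h1, h2, h3, h4⟩ := ih hl'
      refine ⟨b :: l', c * c', by simp [h1], in_cons.2 ⟨hb, h2⟩, ?_, fun pre => ?_⟩
      · rw [abs_mul, List.length_cons, pow_succ']
        exact mul_le_mul hc h3 (abs_nonneg _) (by linarith)
      · have := h4 (pre ++ [b])
        simp only [List.append_assoc, List.cons_append, List.nil_append] at this ⊢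
        rw [Vk_smul, this, smul_smul]
  have hp : ∀ j ≤ k + 1, M ^ j ≤ M ^ (k + 1) := fun j hj => pow_le_pow_right₀ hM hj
  refine ⟨fun l hk hl u hu => ?_, fun l hk hl f hf => ?_⟩
  · obtain ⟨l', c, h1, h2, h3, h4⟩ := key l hl
    have e : Wk s J l = c • Wk s J l' := by simpa [Wk] using h4 []
    have := (h.sp l' (h1 ▸ hk) h2 u hu).smul (h3.trans (hp _ (by omega)))
      (mul_nonneg he (nrm_nonneg _))
    rw [e, smul_mulVec, mul_assoc]
    exact this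
  · obtain ⟨l', c, h1, h2, h3, h4⟩ := key l hl
    obtain ⟨c', hc', b, hb, rfl⟩ := hf
    have e : Wk s J l = c • Wk s J l' := by simpa [Wk] using h4 []
    have a : |c * c'| ≤ M ^ (k + 1) := by
      rw [abs_mul, pow_succ]
      exact mul_le_mul (h3.trans (pow_le_pow_right₀ hM hk)) hc' (abs_nonneg _) (by positivity)
    have := (h.fl l' (h1 ▸ hk) h2 b hb).smul a he
    rw [e, smul_mulVec, mulVec_smul, smul_smul]
    exact this

end Crest.Agent.T157.Rip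

end
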