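import Crest.Agent.T157.EigN_84

/-!
# Row 157, block B/S5 (helper84): the square root of a symmetric matrix `≥ 1`
-/

set_option autoImplicit false
set_option linter.unusedSectionVars false

noncomputable section

namespace Crest.Agent.T157.Sq

open Matrix Finset Polynomial Crest.Agent.T157.Eig

variable {ι κ : Type*} [Fintype ι] [DecidableEq ι] [Fintype κ] [DecidableEq κ]
  {A B P Q : Matrix ι ι ℝ}

/-- symmetric and `≥ 1` -/
structure G1 (A : Matrix ι ι ℝ) : Prop where
  herm : A.IsHermitian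
  ge : ∀ v, v ⬝ᵥ v ≤ v ⬝ᵥ A *ᵥ v

/-- the square root -/
def rt (A : Matrix ι ι ℝ) : Matrix ι ι ℝ := fnK Real.sqrt A

theorem rt_herm (A : Matrix ι ι ℝ) : (rt A).IsHermitian := fnK_herm _ _
theorem rt_symm (A : Matrix ι ι ℝ) : (rt A)ᵀ = rt A := herm_iff.1 (rt_herm A)

theorem g1_shift (hA : A.IsHermitian) {K a : ℝ} (hK : opn A ≤ K) (ha : K + 1 ≤ a) :
    G1 (A + a • (1 : Matrix ι ι ℝ)) := ⟨herm_add_smul_one hA a, fun v => by
  have h1 := (abs_le.1 (abs_quad_le A v)).1
  have h2 := mul_le_mul_of_nonneg_right (show opn A + 1 ≤ a by linarith) (dot_self_nonneg v)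
  rw [add_mulVec, dotProduct_add, smul_mulVec, one_mulVec, dotProduct_smul, smul_eq_mul]
  linarith⟩

theorem opn_shift {K a : ℝ} (hK : opn A ≤ K) (ha : 0 ≤ a) :
    opn (A + a • (1 : Matrix ι ι ℝ)) ≤ K + a := by
  refine (opn_add_le _ _).trans (add_le_add hK ?_)
  rw [opn_smul, abs_of_nonneg ha]
  exact mul_le_of_le_one_right ha opn_one_le

namespace G1

theorem lam (h : G1 A) {k : ℕ} (hk : k < Fintype.card ι) : 1 ≤ lam A k := by
  have := h.ge (vec A k)
  rwa [quad_vec h.herm hk, vec_dot_self h.herm hk] at this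

theorem rt (h : G1 A) : G1 (rt A) := ⟨rt_herm A, fun v => by
  rw [Sq.rt, quad_fnK, dot_eq h.herm v v]
  exact sum_le_sum fun k hk => le_mul_of_one_le_left (mul_self_nonneg _)
    (Real.one_le_sqrt.2 (h.lam (mem_range.1 hk)))⟩

theorem mul (h : G1 A) : Sq.rt A * Sq.rt A = A := by
  rw [Sq.rt, fnK_mul h.herm]
  exact (fnK_congr fun k hk => Real.mul_self_sqrt (zero_le_one.trans (h.lam hk))).trans
    (fnK_id_real h.herm)

theorem tmul (h : G1 A) : (Sq.rt A)ᵀ * Sq.rt A = A := by rw [rt_symm, h.mul]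

theorem opn_rt (h : G1 A) : opn (Sq.rt A) ^ 2 = opn A := by
  rw [sq, ← opn_transpose_mul_self, h.tmul]

theorem conj (h : G1 A) {U : Matrix ι κ ℝ} (h1 : Uᵀ * U = 1) : G1 (Uᵀ * A * U) :=
  ⟨herm_compress h.herm U, fun v => by rw [quad_compress, ← dot_isom h1]; exact h.ge _⟩

end G1

theorem syl_vec (hP : G1 P) (hQ : G1 Q) {k : ℕ} (hk : k < Fintype.card ι) :
    2 * |lam (P - Q) k| ≤ |vec (P - Q) k ⬝ᵥ (P * P - Q * Q) *ᵥ vec (P - Q) k| := by
  have hX := hP.herm.sub hQ.herm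
  have e : P * P - Q * Q = P * (P - Q) + (P - Q) * Q := by noncomm_ring
  have h1 := hP.ge (vec (P - Q) k)
  have h2 := hQ.ge (vec (P - Q) k)
  rw [vec_dot_self hX hk] at h1 h2
  rw [e, add_mulVec, dotProduct_add, ← mulVec_mulVec, ← mulVec_mulVec, mulVec_vec hX,
    vec_dot_mulVec hX, mulVec_smul, dotProduct_smul, smul_eq_mul, ← mul_add, abs_mul, mul_comm]
  exact mul_le_mul_of_nonneg_left (le_trans (by linarith) (le_abs_self _)) (abs_nonneg _)

/-- Sylvester estimate, operator norm -/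
theorem syl (hP : G1 P) (hQ : G1 Q) : opn (P - Q) ≤ opn (P * P - Q * Q) / 2 :=
  opn_le_of_lam (hP.herm.sub hQ.herm) (by linarith [opn_nonneg (P * P - Q * Q)]) fun k hk => by
    have := (syl_vec hP hQ hk).trans (abs_quad_le _ _)
    rw [vec_dot_self (hP.herm.sub hQ.herm) hk] at this
    linarith

/-- Sylvester estimate, Frobenius norm -/
theorem syl_fr (hP : G1 P) (hQ : G1 Q) :
    ∑ i, ∑ j, (P - Q) i j ^ 2 ≤ (∑ i, ∑ j, (P * P - Q * Q) i j ^ 2) / 4 := by
  have hX := hP.herm.sub hQ.herm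
  generalize hM : P * P - Q * Q = M
  have e : ∑ i, ∑ j, M i j ^ 2 = (Mᵀ * M).trace := by
    simp only [trace, diag_apply, mul_apply, transpose_apply, sq]; exact sum_comm
  rw [← sum_lam_sq hX, e, trace_eq_sum_quad hX, sum_div]
  refine sum_le_sum fun k hk => ?_
  have h1 := pow_le_pow_left₀ (by positivity) (syl_vec hP hQ (mem_range.1 hk)) 2
  have h2 := dot_sq_le (vec (P - Q) k) (M *ᵥ vec (P - Q) k)
  rw [hM, mul_pow, sq_abs, sq_abs] at h1
  rw [vec_dot_self hX (mem_range.1 hk)] at h2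
  rw [← mulVec_mulVec, dotProduct_mulVec, vecMul_transpose]
  linarith

theorem rt_lip (hA : G1 A) (hB : G1 B) : opn (rt A - rt B) ≤ opn (A - B) / 2 := by
  simpa only [hA.mul, hB.mul] using syl hA.rt hB.rt

theorem rt_lip_fr (hA : G1 A) (hB : G1 B) :
    ∑ i, ∑ j, (rt A - rt B) i j ^ 2 ≤ (∑ i, ∑ j, (A - B) i j ^ 2) / 4 := by
  simpa only [hA.mul, hB.mul] using syl_fr hA.rt hB.rt

/-- uniqueness -/
theorem rt_eq (hA : G1 A) (hQ : G1 Q) (h : Q * Q = A) : rt A = Q := by
  have := syl hA.rt hQ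
  rw [hA.mul, h, sub_self, opn_zero, zero_div] at this
  ext i j
  exact sub_eq_zero.1 (abs_nonpos_iff.1 ((abs_entry_le (rt A - Q) i j).trans this))

/-- orthogonal covariance -/
theorem rt_conj (h : G1 A) {U : Matrix ι κ ℝ} (h1 : Uᵀ * U = 1) (h2 : U * Uᵀ = 1) :
    rt (Uᵀ * A * U) = Uᵀ * rt A * U :=
  rt_eq (h.conj h1) (h.rt.conj h1) (by
    simp only [Matrix.mul_assoc]
    rw [← Matrix.mul_assoc U, h2, Matrix.one_mul, ← Matrix.mul_assoc (rt A), h.mul])

/-- relabelling -/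
theorem rt_perm {B : Matrix κ κ ℝ} (h : G1 A) (e : κ ≃ ι) (hB : ∀ i j, B i j = A (e i) (e j))
    (i j : κ) : rt B i j = rt A (e i) (e j) := by
  have e1 : B = (emb e)ᵀ * A * emb e := by rw [emb_compress]; ext i j; exact hB i j
  rw [e1, rt_conj h (emb_isom e.injective) (mul_eq_one_comm_of_equiv e |>.1 (emb_isom e.injective)),
    emb_compress, submatrix_apply]

/-- gauge covariance -/
theorem rt_sign (h : G1 A) {s : ι → ℝ} (hs : ∀ i, s i * s i = 1)
    (hB : ∀ i j, B i j = s i * s j * A i j) (i j : ι) : rt B i j = s i * s j * rt A i j := by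
  have e1 : B = (diagonal s)ᵀ * A * diagonal s := by
    ext i j; rw [hB, diagonal_transpose, mul_diagonal, diagonal_mul]; ring
  have e2 : (diagonal s)ᵀ * diagonal s = 1 := by
    rw [diagonal_transpose, diagonal_mul_diagonal, funext hs, diagonal_one]
  rw [e1, rt_conj h e2 (mul_eq_one_comm.1 e2), diagonal_transpose, mul_diagonal, diagonal_mul]; ring

theorem aeval_eq (hA : A.IsHermitian) (p : ℝ[X]) : aeval A p = fnK (fun x => p.eval x) A := by
  induction p using Polynomial.induction_on with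
  | C a => simp only [aeval_C, eval_C, fnK_const hA, Algebra.algebraMap_eq_smul_one]
  | add p q hp hq => simp only [map_add, eval_add, fnK_add, hp, hq]
  | monomial n a h =>
    rw [pow_succ, ← mul_assoc, map_mul, h, aeval_X]
    simp only [eval_mul, eval_X, ← fnK_mul hA, fnK_id_real hA]

/-- uniform polynomial approximation -/
theorem rt_poly (K : ℝ) {ε : ℝ} (hε : 0 < ε) : ∃ p : ℝ[X], ∀ (n : ℕ) (A : Matrix (Fin n) (Fin n) ℝ),
    G1 A → opn A ≤ K → opn (rt A - aeval A p) ≤ ε := by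
  obtain ⟨p, hp⟩ := exists_polynomial_near_of_continuousOn 1 K Real.sqrt
    Real.continuous_sqrt.continuousOn ε hε
  refine ⟨p, fun n A h hK => ?_⟩
  rw [aeval_eq h.herm, rt, ← fnK_sub]
  exact opn_fnK_le h.herm hε.le fun k hk => by
    rw [abs_sub_comm]; exact (hp _ ⟨h.lam hk, (lam_le_opn h.herm k).trans hK⟩).le

theorem continuous_rt {X : Type*} [TopologicalSpace X] {F : X → Matrix ι ι ℝ} (hF : Continuous F)
    (h : ∀ x, G1 (F x)) : Continuous fun x => rt (F x) := by
  refine continuous_matrix fun i j => continuous_iff_continuousAt.2 fun x => ?_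
  rw [ContinuousAt, tendsto_iff_dist_tendsto_zero]
  refine squeeze_zero (fun _ => dist_nonneg) (g := fun y => opn (F y - F x) / 2)
    (fun y => (abs_entry_le (rt (F y) - rt (F x)) i j).trans (rt_lip (h y) (h x))) ?_
  exact ((continuous_opn.comp (hF.sub continuous_const)).div_const 2).tendsto' x 0 (by simp)

end Crest.Agent.T157.Sq

end
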