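import Crest.Agent.T157.ZAll_73
import Crest.Agent.T157.KSq_84

/-!
# Row 157, part B, kernel route (helper73): the collective observables
-/

set_option autoImplicit false

noncomputable section

namespace Crest.Agent.T157.Zf

open MeasureTheory Matrix
open Crest.Agent.T157.E Crest.Agent.T157.Eig Crest.Agent.T157.Tap Crest.Agent.T157.Z

variable {n m : ℕ}

/-- scalar functions of the couplings, the spin and the field -/
abbrev Sf : Type := ∀ n, Mx n → Cube n → V n → ℝ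
/-- vector functions of the couplings, the spin and the field -/
abbrev Vf : Type := ∀ n, Mx n → Cube n → V n → V n

/-- `A = J + 4` -/
def AA (J : Mx n) : Mx n := tJ J + (4 : ℝ) • (1 : Mx n)
/-- `Q = √A` -/
def QQ (J : Mx n) : Mx n := Sq.rt (AA J)
/-- the field of the product law, `x = y + A s + Q z` -/
def xr (J : Mx n) (s : Cube n) (y z : V n) : V n := y + AA J *ᵥ sv s + QQ J *ᵥ z
/-- the kernel `K^y` -/
def Ky (f : Sf) : Sf := fun n J s y =>
  ∫ z, mean (ising 0 (xr J s y z)) (fun s' => f n J s' y) ∂gv (Fin n)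
/-- the rows `x`, `y` and the labels -/
def lab2 (x y : V n) (w : Fin m × Fin n → ℝ) : Fin 2 ⊕ Fin m → V n :=
  Sum.elim ![x, y] fun l i => w (l, i)
/-- a direction, averaged over its labels -/
def Eb2 (X : Nt (Fin 2 ⊕ Fin m)) (n : ℕ) (J : Mx n) (x y : V n) : V n :=
  fun i => ∫ w, X n J (lab2 x y w) i ∂gv (Fin m × Fin n)
/-- `Ψ₀` -/
def Ps0 (X : Nt (Fin 2 ⊕ Fin m)) : Sf := fun n J s y =>
  (∫ z, Eb2 X n J (xr J s y z) y ⬝ᵥ (sv s - th (xr J s y z)) ∂gv (Fin n)) / √n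
/-- `Ψ = ∑_{l<k} K^l Ψ₀` -/
def Psk (k : ℕ) (X : Nt (Fin 2 ⊕ Fin m)) : Sf := fun n J s y =>
  ∑ l ∈ Finset.range k, Ky^[l] (Ps0 X) n J s y
/-- the mean over the channel at the level `r` -/
def Ew (r : ℝ) (f : Sf) (n : ℕ) (J : Mx n) (s : Cube n) : ℝ :=
  ∫ w, f n J s (r • sv s + √r • w) ∂gv (Fin n)
/-- `Φ = E_W Ψ` -/
def Ph (r : ℝ) (k : ℕ) (X : Nt (Fin 2 ⊕ Fin m)) : ∀ n, Mx n → Cube n → ℝ := Ew r (Psk k X)
/-- **the family of collective observables** -/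
def FF : Set (∀ n, Mx n → Cube n → ℝ) := {Φ | ∃ r ≥ (0 : ℝ), ∃ (k m : ℕ) (X : Nt (Fin 2 ⊕ Fin m)),
  Nw True X ∧ Bd X ∧ Φ = Ph r k X}

end Crest.Agent.T157.Zf

end
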