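import Crest.Agent.T157.KDef_36
import Crest.Agent.T157.ZFw_73
import Crest.Agent.T157.Cav_35

/-!
# Row 157, part B, block S5 (helper36): the thermal calculus

`TC β r U`: the field `U (s, y)` is approximable by networks under the planted law of `(s, y)` at
the level `r`.  Closure under the operations of the kernel route.
-/

set_option autoImplicit false

noncomputable section

namespace Crest.Agent.T157.K

open MeasureTheory ProbabilityTheory Matrix Set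
open Crest.Agent.T157.E Crest.Agent.T157.Eig
open Crest.Agent.T157.Tap (V Mx)
open Crest.Agent.T157.Reg (jac)
open Crest.Agent.T157.Z (Nt Nw Bd cp Ap Hp Ty Rq)
open Crest.Agent.T157.Zf (QQ Vf)

variable {n : ℕ}

/-- the configuration of signs -/
def cb (v : V n) : Cube n := fun i => decide (0 ≤ v i)
/-- the world of the rows `s` (`true`) and `y` (`false`) -/
def wc (r : ℝ) : Bool → ℝ := fun t => if t then 1 else r
def wd (r : ℝ) : Bool → ℝ := fun t => if t then 0 else √r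
/-- **the thermal calculus** -/
def TC (β r : ℝ) (U : Vf) : Prop :=
  Ap β (wc r) (wd r) fun n J a => U n J (cb (a true)) (a false)
/-- fields which depend on `y` only -/
def TY (β r : ℝ) (u : ∀ n, Mx n → V n → V n) : Prop := TC β r fun n J _ y => u n J y
/-- fields with `m` Gaussian labels -/
def TL (β r : ℝ) (m : ℕ) (U : ∀ n, Mx n → Cube n → V n → (Fin m → V n) → V n) : Prop :=
  Ap β (Sum.elim (wc r) (0 : Fin m → ℝ)) (Sum.elim (wd r) 1) fun n J a =>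
    U n J (cb (a (.inl true))) (a (.inl false)) fun l => a (.inr l)
/-- good couplings -/
def GJ (J : Mx n) : Prop := Jᵀ = J ∧ (∀ i, J i i = 0) ∧ opn J ≤ 3
/-- bounded in `ℓ²` -/
def L2 (U : Vf) : Prop := ∃ C, ∀ n J s y, GJ J → nrm (U n J s y) ≤ C * √n
/-- bounded in `ℓ²`, measurable in the field -/
def BM (U : Vf) : Prop := L2 U ∧ ∀ n J s, GJ J → Measurable (U n J s)
/-- regular -/
def RG (U : Vf) : Prop := ∃ e, ∀ n J, GJ J → RF e (U n J)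
/-- a product sample with means `m`, read off the Gaussian label `w` -/
def smm (m w : V n) : Cube n := fun i => decide (2 * cdf (gaussianReal 0 1) (w i) - 1 ≤ m i)
/-- the mixed sample: keep `s i` with probability `a`, else resample given the channel -/
def mxs (J : Mx n) (a : ℝ) (s : Cube n) (y z w : V n) : Cube n :=
  smm (a • sv s + (1 - a) • pt (QQ J) y (QQ J *ᵥ sv s + z)) w

/-- dictionary -/
structure TcStmt : Prop where
  jq : ∀ (n : ℕ) (J : Mx n), GJ J → JQ J (QQ J)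
  gj : ∀ (ι : Type) [Fintype ι], ∀ β ∈ Icc (0 : ℝ) 1, ∀ c d : ι → ℝ, Hp β c d fun _ J _ => GJ J
  cbsv : ∀ (n : ℕ) (s : Cube n), cb (sv s) = s
  ty : ∀ β, ∀ r ≥ (0 : ℝ), ∀ P : ∀ n, Mx n → V n → Prop,
    Ty β r P ↔ Hp β (wc r) (wd r) fun n J a => P n J (a false)
  rq : ∀ β r u, Rq β r u → TY β r u
  spin : ∀ β ∈ Icc (0 : ℝ) 1, ∀ r, TC β r fun _ _ s _ => sv s
  fld : ∀ β ∈ Icc (0 : ℝ) 1, ∀ r, TY β r fun _ _ y => y
  congr : ∀ β ∈ Icc (0 : ℝ) 1, ∀ (r : ℝ) (U U' : Vf), (∀ n J, GJ J → U n J = U' n J) → TC β r U →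
    TC β r U'
  tl : ∀ β r m U, TC β r U → TL β r m fun n J s y _ => U n J s y
  lab : ∀ β ∈ Icc (0 : ℝ) 1, ∀ r m (l : Fin m), TL β r m fun _ _ _ _ w => w l
  lim : ∀ β, ∀ r ≥ (0 : ℝ), ∀ u : ∀ n, Mx n → V n → V n, (∀ ε > (0 : ℝ), ∃ u', TY β r u' ∧
    Ty β r fun n J y => nrm (u n J y - u' n J y) ≤ ε * √n) → TY β r u
  flat : ∀ β, ∀ r ≥ (0 : ℝ), ∀ u, TY β r u → (∃ C ≥ (0 : ℝ), Ty β r fun n J y => nrm (u n J y) ≤ C * √n) ∧
    ∀ ε > (0 : ℝ), ∃ M ≥ (0 : ℝ), Ty β r fun n J y => nrm (u n J y - cp M (u n J y)) ≤ ε * √n ∧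
      ∀ S : Finset (Fin n), √(∑ i ∈ S, u n J y i ^ 2) ≤ ε * √n + M * √S.card
  gibbs : ∀ β, ∀ r ≥ (0 : ℝ), ∀ P : ∀ n, Mx n → Cube n → V n → Prop,
    (Hp β (wc r) (wd r) fun n J a => P n J (cb (a true)) (a false)) → ∃ κ > (0 : ℝ),
    Ty β r fun n J y => mass (ising J y) {s | ¬ P n J s y} ≤ Real.exp (-κ * n)
  gibbs' : ∀ β ∈ Icc (0 : ℝ) 1, ∀ r ≥ (0 : ℝ), ∀ P : ∀ n, Mx n → Cube n → V n → Prop,
    (∀ n J s, GJ J → MeasurableSet {y | P n J s y}) → ∀ κ > (0 : ℝ),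
    (Ty β r fun n J y => mass (ising J y) {s | ¬ P n J s y} ≤ Real.exp (-κ * n)) →
    Hp β (wc r) (wd r) fun n J a => P n J (cb (a true)) (a false)
  mkv : ∀ (n : ℕ) (J : Mx n) (r t : ℝ) (X : F2 n), 0 ≤ r → 0 < t → (∀ s, Continuous (X s)) →
    (∃ B, ∀ s y, 0 ≤ X s y ∧ X s y ≤ B) →
    (SL.law sv (ising J 0) r).real {y | t < mean (ising J y) fun s => X s y} ≤ PM J r X / t

/-- networks of approximable words -/
def CompStmt : Prop := ∀ (ι κ : Type) [Fintype ι] [Fintype κ], ∀ β ∈ Icc (0 : ℝ) 1,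
  ∀ (c d : κ → ℝ) (X : Nt ι) (U : ι → Nt κ), Nw False X → (∀ j, Ap β c d (U j)) →
  Ap β c d fun n J a => X n J fun j => U j n J a

/-- bounded continuous letters -/
def EvStmt : Prop := ∀ (ι : Type) [Fintype ι], ∀ β ∈ Icc (0 : ℝ) 1, ∀ (c d : ι → ℝ) (f : ℝ → ℝ)
  (B U : Nt ι), Continuous f → (∃ M, ∀ t, |f t| ≤ M) → Ap β c d B →
  ((∀ t, f (-t) = -f t) → Ap β c d fun n J a i => f (B n J a i)) ∧
  ((∀ t, f (-t) = f t) → Ap β c d U → Ap β c d fun n J a i => f (B n J a i) * U n J a i)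

/-- **means over labels** -/
def AvStmt : Prop := ∀ (ι : Type) [Fintype ι], ∀ β ∈ Icc (0 : ℝ) 1, ∀ (c d : ι → ℝ) (m : ℕ)
  (U : Nt (ι ⊕ Fin m)) (C : ℝ), Ap β (Sum.elim c 0) (Sum.elim d 1) U →
  (∀ n J a, GJ J → Measurable fun w : Fin m × Fin n → ℝ => U n J (Sum.elim a fun l i => w (l, i))) →
  (∀ n J a, GJ J → nrm (U n J a) ≤ C * √n) →
  Ap β c d fun n J a i => ∫ w, U n J (Sum.elim a fun l i => w (l, i)) i ∂gv (Fin m × Fin n)

/-- samples with given means -/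
structure SmmStmt : Prop where
  meas : ∀ n : ℕ, Measurable fun p : V n × V n => smm p.1 p.2
  law : ∀ (n : ℕ) (m : V n) (F : Cube n → ℝ), (∀ i, |m i| ≤ 1) →
    ∫ w, F (smm m w) ∂gv (Fin n) = ml F m
  ap : ∀ (ι κ : Type) [Fintype ι] [Fintype κ], ∀ β ∈ Icc (0 : ℝ) 1, ∀ (c d : κ → ℝ)
    (f : ι ↪ κ) (j : κ), j ∉ range f → c j = 0 → d j = 1 → ∀ U : Nt ι, Ap β (c ∘ f) (d ∘ f) U →
    Ap β c d fun n J a => sv (smm (U n J fun l => a (f l)) (a j))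

/-- **the mixed sample has the law of the spin** -/
def LawStmt : Prop := ∀ β ∈ Icc (0 : ℝ) 1, ∀ r ≥ (0 : ℝ), ∀ a ∈ Icc (0 : ℝ) 1, ∀ (m : ℕ)
  (P : ∀ n, Mx n → (Bool ⊕ Fin m → V n) → Prop),
  Hp β (Sum.elim (wc r) 0) (Sum.elim (wd r) 1) P →
  Hp β (Sum.elim (Sum.elim (wc r) (0 : Fin 2 → ℝ)) (0 : Fin m → ℝ))
    (Sum.elim (Sum.elim (wd r) 1) 1) fun n J b => P n J (Sum.elim (fun t => if t then
      sv (mxs J a (cb (b (.inl (.inl true)))) (b (.inl (.inl false))) (b (.inl (.inr 0)))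
        (b (.inl (.inr 1)))) else b (.inl (.inl false))) fun l => b (.inr l))

/-- **resampling** -/
def RsStmt : Prop := ∀ β ∈ Icc (0 : ℝ) 1, ∀ r ≥ (0 : ℝ), ∀ a ∈ Icc (0 : ℝ) 1, ∀ U : Vf, TC β r U →
  TL β r 2 fun n J s y w => U n J (mxs J a s y (w 0) (w 1)) y

/-- the kernel, the programs, the directions, the response, the channel -/
def TkStmt : Prop := ∀ β ∈ Icc (0 : ℝ) 1, ∀ r ≥ (0 : ℝ), ∀ U : Vf, TC β r U → L2 U →
  (TC β r fun n J s y j => Ky (QQ J) y (fun t => U n J t y j) s) ∧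
  TC β r fun n J s y j => sv s j * Ky (QQ J) y (fun t => sv t j * U n J t y j) s
def TwStmt : Prop := ∀ β ∈ Icc (0 : ℝ) 1, ∀ r ≥ (0 : ℝ), ∀ U : Vf, TC β r U → RG U →
  (∀ Λ ≥ (0 : ℝ), ∀ η ≥ (0 : ℝ), TC β r fun n J => kw (QQ J) Λ η (U n J)) ∧
  ∀ (m : ℕ) (E : Nt (Bool ⊕ Fin m)), Nw False E → Bd E → TC β r fun n J => dirS (QQ J) (Eh E n J)
def TgStmt : Prop := ∀ β ∈ Icc (0 : ℝ) 1, ∀ r ≥ (0 : ℝ), ∀ U : Vf, TC β r U → RG U →
  TC β r fun n J => gt (QQ J) (U n J)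
def TchStmt : Prop := ∀ β ∈ Icc (0 : ℝ) 1, ∀ r ≥ (0 : ℝ), ∀ t ≥ (0 : ℝ), ∀ U : Vf, TC β (r + t) U →
  BM U → TC β r fun n J s y j => ∫ z, U n J s (y + t • sv s + √t • z) j ∂gv (Fin n)

/-- smooth networks have a bounded Jacobian on the cube -/
def JacStmt : Prop := ∀ (ι : Type) [Fintype ι] (X : Nt ι), Nw True X → ∀ c : ι → ℝ, ∃ C ≥ (0 : ℝ),
  ∀ (n : ℕ) (J : Mx n) (a : ι → V n) (s : Cube n),
    opn (jac (fun s => X n J fun l => a l + c l • sv s) s) ≤ C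

/-- **thermal means** -/
def TmStmt : Prop := ∀ β ∈ Ioo (0 : ℝ) 1, ∀ r ≥ (0 : ℝ), ∀ U : Vf, TC β r U → L2 U →
  (TY β r fun n J y => meanV (ising J y) fun s => U n J s y) ∧
  TC β r fun n J s y => sv s * meanV (ising J y) fun t => sv t * U n J t y

/-- the programs and the response field of a direction -/
def TcgStmt : Prop := ∀ β ∈ Icc (0 : ℝ) 1, ∀ r ≥ (0 : ℝ), ∀ (m : ℕ) (E : Nt (Bool ⊕ Fin m))
  (c Λ e : ℝ), Nw False E → Bd E → 0 ≤ Λ → 0 ≤ e →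
  (∀ l, RG fun n J => wS (QQ J) c Λ e (dirS (QQ J) (Eh E n J)) l) →
  (∀ l, TC β r fun n J => wS (QQ J) c Λ e (dirS (QQ J) (Eh E n J)) l) ∧
  ∀ k, TC β r fun n J => gt (QQ J) (∑ l ∈ Finset.range k, wS (QQ J) c Λ e (dirS (QQ J) (Eh E n J)) l)

/-- the cavity field -/
def bf (β : ℝ) (n : ℕ) (J : Mx n) (y : V n) : V n :=
  y + J *ᵥ mag (ising J y) - (β ^ 2 * Tap.avg (Tap.DD (mag (ising J y)))) • mag (ising J y)

/-- static words: magnetisation, cavity field, even site means, cavity words are flat -/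
structure TbStmt : Prop where
  mag : ∀ β ∈ Ioo (0 : ℝ) 1, ∀ r ≥ (0 : ℝ), TY β r fun _ J y => mag (ising J y)
  bf : ∀ β ∈ Ioo (0 : ℝ) 1, ∀ r ≥ (0 : ℝ), TY β r (bf β)
  avg : ∀ β ∈ Icc (0 : ℝ) 1, ∀ (r : ℝ) (U W : Vf), TC β r U → TC β r W →
    TC β r fun n J s y => Tap.avg (sv s * U n J s y) • W n J s y
  avf : ∀ β ∈ Icc (0 : ℝ) 1, ∀ (r : ℝ) (B W : Vf) (f : ℝ → ℝ), Continuous f → (∃ M, ∀ t, |f t| ≤ M) →
    (∀ t, f (-t) = f t) → TC β r B → TC β r W →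
    TC β r fun n J s y => (Tap.avg fun i => f (B n J s y i)) • W n J s y
  ww : ∀ β ∈ Ioo (0 : ℝ) 1, ∀ r ≥ (0 : ℝ), ∀ (g : ℝ → ℝ) (u : ∀ n, Mx n → V n → V n) (k : ℕ),
    Continuous g → (∃ M, ∀ t, |g t| ≤ M) → (∀ t, g (-t) = g t) → TY β r u →
    TY β r fun n J y => Rip.Cav35.Ww (β / √n) J (fun i => g (K.bf β n J y i)) k *ᵥ u n J y
  fl : ∀ β, ∀ r ≥ (0 : ℝ), ∀ u, TY β r u → ∀ ε > (0 : ℝ), ∃ δ > (0 : ℝ),
    Ty β r fun n J y => Rip.Fl (δ * n) (ε * √n) (u n J y)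

/-- **representation of a target by a direction** -/
def RepStmt : Prop := ∀ β ∈ Icc (0 : ℝ) 1, ∀ r ≥ (0 : ℝ), ∀ u, TY β r u → ∀ δ > (0 : ℝ),
  ∃ (m : ℕ) (E : Nt (Bool ⊕ Fin m)), Nw True E ∧ Bd E ∧ Ty β r fun n J y =>
    mean (ising J y) (dev (QQ J) (Eh E n J) (u n J y) y) ≤ δ * n

def LawGlue : Prop := TcStmt → SmmStmt → PrStmt → RevStmt → LawStmt
def RsGlue : Prop := TcStmt → CompStmt → SmmStmt → LawStmt → RsStmt
def TkGlue : Prop := TcStmt → AvStmt → SmmStmt → PrStmt → RsStmt → TkStmt ∧ TchStmt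
def TwGlue : Prop := TcStmt → CompStmt → AvStmt → SmmStmt → PrStmt → WStmt → RsStmt → TwStmt
def TgGlue : Prop := TcStmt → AvStmt → SmmStmt → PrStmt → RsStmt → TgStmt
def TmGlue : Prop := TcStmt → AvStmt → JacStmt → TkStmt → RFStmt → PrStmt → RevStmt → TmStmt
def TcgGlue : Prop := TwStmt → TgStmt → TcgStmt
def TbGlue : Prop := TcStmt → EvStmt → TbStmt
def RepGlue : Prop := TcStmt → SmmStmt → LawStmt → RepStmt

end Crest.Agent.T157.K

end
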