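import Crest.Agent.T157.TapDef_29
import Crest.Agent.T157.ConcG_16

/-!
# Row 157, part B, package (Z) (helper73): networks, approximable words, the TAP branch

Words and leaves; the paper proof is `docs/T157_B_Z.md`.
-/

set_option autoImplicit false

noncomputable section

namespace Crest.Agent.T157.Z

open MeasureTheory ProbabilityTheory Matrix Filter Set
open Crest.ProbabilityR.SpinGlassDynamics
open Crest.Agent.T157.E Crest.Agent.T157.Eig Crest.Agent.T157.Tap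
open Crest.Agent.T157.Conc (en ELip)

/-! ### networks -/

/-- a word: a vector built from the couplings and input rows indexed by `ι` -/
abbrev Nt (ι : Type) : Type := ∀ n : ℕ, Mx n → (ι → V n) → V n

section words

variable {n : ℕ} {ι : Type}

/-- the couplings, truncated at norm `3` -/
def tJ (J : Mx n) : Mx n := (3 / max 3 (opn J)) • J
/-- odd Lipschitz letter -/
def OL {m : ℕ} (φ : (Fin m → ℝ) → ℝ) : Prop := (∀ u, φ (-u) = -φ u) ∧ ∃ L, LipschitzWith L φ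
/-- even bounded Lipschitz multiplier -/
def EL {m : ℕ} (ψ : (Fin m → ℝ) → ℝ) : Prop :=
  (∀ u, ψ (-u) = ψ u) ∧ (∃ L, LipschitzWith L ψ) ∧ ∃ M, ∀ u, |ψ u| ≤ M
/-- letter with a Lipschitz derivative -/
def SmL {m : ℕ} (φ : (Fin m → ℝ) → ℝ) : Prop :=
  Differentiable ℝ φ ∧ ∃ L, LipschitzWith L (fderiv ℝ φ)
/-- bounded entries -/
def Bd (X : Nt ι) : Prop := ∃ M : ℝ, ∀ n J a i, |X n J a i| ≤ M

/-- networks; the letters are smooth if `sm` -/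
inductive Nw (sm : Prop) : Nt ι → Prop
  | inp (j : ι) : Nw sm fun _ _ a => a j
  | map {m : ℕ} (φ : (Fin m → ℝ) → ℝ) (X : Fin m → Nt ι) : OL φ → (sm → SmL φ) →
      (∀ l, Nw sm (X l)) → Nw sm fun n J a i => φ fun l => X l n J a i
  | mul (X : Nt ι) : Nw sm X → Bd X → Nw sm fun n J a => tJ J *ᵥ X n J a
  | sc (X Y Z : Nt ι) : Nw sm X → Nw sm Y → Nw sm Z → Bd X → Bd Y → Bd Z →
      Nw sm fun n J a => avg (X n J a * Y n J a) • Z n J a

/-- clipping at level `M` -/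
def cp (M : ℝ) (v : V n) : V n := fun i => max (-M) (min M (v i))
/-- linear change of the rows -/
def lc {κ : Type} [Fintype κ] (T : Matrix ι κ ℝ) (a : κ → V n) : ι → V n :=
  fun l i => ∑ k, T l k * a k i
/-- the rows `c l • σ + d l • w l` -/
def rows (c d : ι → ℝ) (σ : V n) (w : ι × Fin n → ℝ) : ι → V n :=
  fun l i => c l * σ i + d l * w (l, i)

variable [Fintype ι]

/-- norm of the input -/
def nA (a : ι → V n) : ℝ := ∑ l, nrm (a l)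
/-- the law of the rows given the spin -/
def RL (c d : ι → ℝ) (σ : V n) : Measure (ι → V n) := (gv (ι × Fin n)).map (rows c d σ)

/-- exponentially likely under (Gibbs spin, rows), for most disorders -/
def Hp (β : ℝ) (c d : ι → ℝ) (P : ∀ n, Mx n → (ι → V n) → Prop) : Prop :=
  ∃ κ > (0 : ℝ), Top.Whp disorderLaw fun n g => mean (gibbsWeight n β g)
    (fun x => (RL c d (sv x)).real {a | ¬ P n (β • Jmat n g) a}) ≤ Real.exp (-κ * n)

/-- the same at the level `s` of the localisation, `= Pos.TypJ β s fun n J y => P n (β • J) y` -/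
def Ty (β s : ℝ) (P : ∀ n, Mx n → V n → Prop) : Prop :=
  ∃ κ > (0 : ℝ), Top.Whp disorderLaw fun n g =>
    (SL.law sv (gibbsWeight n β g) s).real {y | ¬ P n (β • Jmat n g) y} ≤ Real.exp (-κ * n)

/-- approximable by bounded networks with extra Gaussian labels -/
def Ap (β : ℝ) (c d : ι → ℝ) (U : Nt ι) : Prop := ∀ ε > (0 : ℝ), ∃ (m : ℕ) (X : Nt (ι ⊕ Fin m)),
  Nw False X ∧ Bd X ∧ Hp β (Sum.elim c 0) (Sum.elim d 1) fun n J a =>
    nrm (U n J (fun l => a (.inl l)) - X n J a) ≤ ε * √n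

/-- approximable functions of the field at the level `r` -/
def Rq (β r : ℝ) (U : ∀ n, Mx n → V n → V n) : Prop :=
  Ap β (fun _ : Unit => r) (fun _ => √r) fun n J a => U n J (a ())

/-- the transposed Jacobian of `X` in the row `j`, applied to `U` -/
def adj [DecidableEq ι] (j : ι) (X U : Nt ι) : Nt ι := fun n J a k =>
  fderiv ℝ (fun a' => U n J a ⬝ᵥ X n J a') a (Pi.single j (Pi.single k 1))

end words

/-! ### the TAP branch near the anchors -/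

/-- constants of an anchor -/
structure Pm where
  c : ℝ
  R : ℝ
  ρ : ℝ
  M : ℝ

def Pm.Ok (P : Pm) : Prop := 0 < P.c ∧ 0 < P.R ∧ 0 < P.ρ ∧ 4 * P.ρ ≤ P.c * P.R ∧ 0 ≤ P.M

section tap

variable {n : ℕ} (P : Pm) (J : Mx n) (b : ℝ)

/-- `x` is a good, robustly accurate TAP point of the field `y` -/
def Anc (y x : V n) : Prop := Ymap J b x = y ∧ GoodB J b P.c (P.R * √n) (th x) ∧
  ∀ v, nrm v ≤ P.ρ * √n → (∀ x', Ymap J b x' = y + v → nrm (th x' - th x) ≤ P.R * √n →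
    nrm (mag (ising J (y + v)) - th x') ≤ P.M) ∧
    ∀ u : V n, u ⬝ᵥ covM (ising J (y + v)) *ᵥ u ≤ P.M * (u ⬝ᵥ u)
/-- anchored fields -/
def An : Set (V n) := {y | ∃ x, Anc P J b y x}
/-- fields within `t ρ √n` of an anchored field -/
def NB (t : ℝ) : Set (V n) := {y | ∃ y0 ∈ An P J b, nrm (y - y0) ≤ t * (P.ρ * √n)}
/-- `x` is on the branch of an anchor -/
def Sol (y x : V n) : Prop := Ymap J b x = y ∧ ∃ y0 x0, Anc P J b y0 x0 ∧
  nrm (y - y0) ≤ P.ρ * √n ∧ nrm (th x - th x0) ≤ P.R * √n / 2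
/-- the branch -/
def xs (y : V n) : V n := Classical.epsilon (Sol P J b y)
/-- the TAP magnetisation on the branch -/
def pp (y : V n) : V n := th (xs P J b y)
/-- the inverse TAP Hessian on the branch -/
def Gp (y : V n) : Mx n := GG (B1 J b (pp P J b y)) (dd (pp P J b y))
/-- the cut-off -/
def chi (y : V n) : ℝ := ⨆ y0 : An P J b, max 0 (min 1 (2 - 4 * nrm (y - y0.1) / (P.ρ * √n)))

end tap

/-- the field `y` with labels `w` -/
def lab {n m : ℕ} (y : V n) (w : Fin m × Fin n → ℝ) : Unit ⊕ Fin m → V n :=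
  Sum.elim (fun _ => y) fun l i => w (l, i)
/-- a direction, averaged over its labels -/
def Eb {m : ℕ} (E : Nt (Unit ⊕ Fin m)) (n : ℕ) (J : Mx n) (y : V n) : V n :=
  fun i => ∫ w, E n J (lab y w) i ∂gv (Fin m × Fin n)
/-- the local observable of a direction field `e` -/
def Psi {n : ℕ} (P : Pm) (J : Mx n) (b : ℝ) (e : V n → V n) (σ y : V n) : ℝ :=
  chi P J b y * (e y ⬝ᵥ (σ - pp P J b y)) / √n
/-- its mean given the spin -/
def Phi {n : ℕ} (P : Pm) (J : Mx n) (b r : ℝ) (e : V n → V n) (x : Cube n) : ℝ :=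
  ∫ z, Psi P J b e (sv x) (r • sv x + √r • z) ∂gv (Fin n)
/-- its mean square given the spin -/
def Qq {n : ℕ} (P : Pm) (J : Mx n) (b r : ℝ) (e : V n → V n) (x : Cube n) : ℝ :=
  ∫ z, Psi P J b e (sv x) (r • sv x + √r • z) ^ 2 ∂gv (Fin n)

/-! ### leaves: networks -/

/-- deterministic facts on networks -/
structure LipStmt : Prop where
  lip : ∀ (ι : Type) [Fintype ι] (sm : Prop) (X : Nt ι), Nw sm X → ∃ L ≥ (0 : ℝ), ∀ n J J' a a',
    nrm (X n J a - X n J' a') ≤ L * (nA (a - a') + √n * opn (J - J'))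
  cont : ∀ (ι : Type) [Fintype ι] (sm : Prop) (X : Nt ι), Nw sm X → ∀ n,
    Continuous fun p : Mx n × (ι → V n) => X n p.1 p.2
  odd : ∀ (ι : Type) (sm : Prop) (X : Nt ι), Nw sm X → ∀ n J a, X n J (-a) = -X n J a
  gauge : ∀ (ι : Type) (sm : Prop) (X : Nt ι), Nw sm X → ∀ n J a (s : V n),
    (∀ i, s i = 1 ∨ s i = -1) →
    X n (diagonal s * J * diagonal s) (fun l => s * a l) = s * X n J a
  perm : ∀ (ι : Type) (sm : Prop) (X : Nt ι), Nw sm X → ∀ n (J : Mx n) a (e : Equiv.Perm (Fin n)),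
    X n (J.submatrix e e) (fun l => a l ∘ e) = X n J a ∘ e
  diff : ∀ (ι : Type) [Fintype ι] (X : Nt ι), Nw True X → ∀ n J, Differentiable ℝ (X n J)
  comp : ∀ (ι κ : Type) (sm : Prop) (X : Nt ι) (Y : ι → Nt κ), Nw sm X → (∀ j, Nw sm (Y j)) →
    Nw sm fun n J a => X n J fun j => Y j n J a
  mono : ∀ (ι : Type) (sm : Prop) (X : Nt ι), Nw sm X → Nw False X
  lin : ∀ (ι κ : Type) [Fintype κ] (sm : Prop) (T : Matrix ι κ ℝ) (j : ι),
    Nw sm fun (n : ℕ) (_ : Mx n) (a : κ → V n) => lc T a j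
  clip : ∀ (ι : Type) (X : Nt ι) (M : ℝ), 0 ≤ M → Nw False X →
    Nw False (fun n J a => cp M (X n J a)) ∧ Bd fun n J a => cp M (X n J a)
  tJ_le : ∀ (n : ℕ) (J : Mx n), opn (tJ J) ≤ 3 ∧ (opn J ≤ 3 → tJ J = J)

/-- smoothing of the letters -/
def MolStmt : Prop := ∀ (ι : Type) (X : Nt ι), Nw False X → ∀ ε > (0 : ℝ), ∃ X' : Nt ι,
  Nw True X' ∧ (Bd X → Bd X') ∧ ∀ n J a, nrm (X n J a - X' n J a) ≤ ε * √n

/-- calculus of likely events -/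
structure HpStmt : Prop where
  mono : ∀ (ι : Type) [Fintype ι] β (c d : ι → ℝ) (P Q : ∀ n, Mx n → (ι → V n) → Prop),
    Hp β c d P → (∀ᶠ n in atTop, ∀ J a, P n J a → Q n J a) → Hp β c d Q
  and : ∀ (ι : Type) [Fintype ι] β (c d : ι → ℝ) (P Q : ∀ n, Mx n → (ι → V n) → Prop),
    Hp β c d P → Hp β c d Q → Hp β c d fun n J a => P n J a ∧ Q n J a
  good : ∀ (ι : Type) [Fintype ι], ∀ β ∈ Icc (0 : ℝ) 1, ∀ c d : ι → ℝ, ∃ K : ℝ,
    Hp β c d fun n J a => Jᵀ = J ∧ opn J ≤ 3 ∧ nA a ≤ K * √n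
  law : ∀ (ι κ : Type) [Fintype ι] [Fintype κ] [DecidableEq ι] [DecidableEq κ] (c d : ι → ℝ)
    (c' d' : κ → ℝ) (T : Matrix ι κ ℝ), T *ᵥ c' = c →
    T * diagonal (fun k => d' k ^ 2) * Tᵀ = diagonal (fun l => d l ^ 2) →
    ∀ (n : ℕ) (σ : V n), (RL c' d' σ).map (lc T) = RL c d σ
  lin : ∀ (ι κ : Type) [Fintype ι] [Fintype κ] [DecidableEq ι] [DecidableEq κ] β (c d : ι → ℝ)
    (c' d' : κ → ℝ) (T : Matrix ι κ ℝ), T *ᵥ c' = c →
    T * diagonal (fun k => d' k ^ 2) * Tᵀ = diagonal (fun l => d l ^ 2) →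
    ∀ P : ∀ n, Mx n → (ι → V n) → Prop, Hp β c d P → Hp β c' d' fun n J a => P n J (lc T a)
  emb : ∀ (ι κ : Type) [Fintype ι] [Fintype κ] β (c d : κ → ℝ) (f : ι ↪ κ)
    (P : ∀ n, Mx n → (ι → V n) → Prop), Hp β (c ∘ f) (d ∘ f) P →
    Hp β c d fun n J a => P n J fun l => a (f l)
  split : ∀ (ι κ : Type) [Fintype ι] [Fintype κ] (c d : ι → ℝ) (c' d' : κ → ℝ) (n : ℕ) (σ : V n),
    RL (Sum.elim c c') (Sum.elim d d') σ =
      ((RL c d σ).prod (RL c' d' σ)).map fun p => Sum.elim p.1 p.2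
  prj : ∀ (ι κ : Type) [Fintype ι] [Fintype κ] β (c d : ι → ℝ) (c' d' : κ → ℝ)
    (P : ∀ n, Mx n → (ι → V n) → Prop),
    Hp β (Sum.elim c c') (Sum.elim d d') (fun n J a => P n J fun l => a (.inl l)) → Hp β c d P
  ty : ∀ β, ∀ s ≥ (0 : ℝ), ∀ P : ∀ n, Mx n → V n → Prop,
    Ty β s P ↔ Hp β (fun _ : Unit => s) (fun _ => √s) fun n J a => P n J (a ())
  spin : ∀ (ι : Type) [Fintype ι] β (c d : ι → ℝ) (j : ι), c j = 1 → d j = 0 →
    Hp β c d fun _ _ a => ∀ i, a j i = 1 ∨ a j i = -1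

/-- uniform integrability of the products with the couplings and of the inputs -/
def UIStmt : Prop := ∀ (ι : Type) [Fintype ι], ∀ β ∈ Icc (0 : ℝ) 1, ∀ (c d : ι → ℝ) (X : Nt ι),
  Nw False X → ∀ ε > (0 : ℝ), ∃ M ≥ (0 : ℝ),
    Hp β c d fun n J a => nrm (X n J a - cp M (X n J a)) ≤ ε * √n

/-- closure of the approximable words, first half -/
structure ApA : Prop where
  net : ∀ (ι : Type) [Fintype ι], ∀ β ∈ Icc (0 : ℝ) 1, ∀ (c d : ι → ℝ) (X : Nt ι),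
    Nw False X → Ap β c d X
  lim : ∀ (ι : Type) [Fintype ι] β (c d : ι → ℝ) (U : Nt ι), (∀ ε > (0 : ℝ), ∃ U' : Nt ι,
    Ap β c d U' ∧ Hp β c d fun n J a => nrm (U n J a - U' n J a) ≤ ε * √n) → Ap β c d U
  lab : ∀ (ι : Type) [Fintype ι] β (c d : ι → ℝ) (U : Nt ι) (m : ℕ),
    Ap β (Sum.elim c (0 : Fin m → ℝ)) (Sum.elim d 1) (fun n J a => U n J fun l => a (.inl l)) →
    Ap β c d U
  emb : ∀ (ι κ : Type) [Fintype ι] [Fintype κ] β (c d : κ → ℝ) (f : ι ↪ κ) (U : Nt ι),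
    Ap β (c ∘ f) (d ∘ f) U → Ap β c d fun n J a => U n J fun l => a (f l)
  lin : ∀ (ι κ : Type) [Fintype ι] [Fintype κ] [DecidableEq ι] [DecidableEq κ] β (c d : ι → ℝ)
    (c' d' : κ → ℝ) (T : Matrix ι κ ℝ), T *ᵥ c' = c →
    T * diagonal (fun k => d' k ^ 2) * Tᵀ = diagonal (fun l => d l ^ 2) →
    ∀ U : Nt ι, Ap β c d U → Ap β c' d' fun n J a => U n J (lc T a)
  com : ∀ (ι : Type) [Fintype ι] β (c d : ι → ℝ) (k : ℕ) (U : Fin k → Nt ι), (∀ l, Ap β c d (U l)) →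
    ∀ ε > (0 : ℝ), ∃ (m : ℕ) (X : Fin k → Nt (ι ⊕ Fin m)), (∀ l, Nw False (X l) ∧ Bd (X l)) ∧
      Hp β (Sum.elim c 0) (Sum.elim d 1) fun n J a =>
        ∀ l, nrm (U l n J (fun l => a (.inl l)) - X l n J a) ≤ ε * √n
  bd : ∀ (ι : Type) [Fintype ι] β (c d : ι → ℝ) (U : Nt ι), Ap β c d U →
    (∃ C ≥ (0 : ℝ), Hp β c d fun n J a => nrm (U n J a) ≤ C * √n) ∧ ∀ ε > (0 : ℝ), ∃ M ≥ (0 : ℝ),
      Hp β c d fun n J a => nrm (U n J a - cp M (U n J a)) ≤ ε * √n ∧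
        ∀ S : Finset (Fin n), √(∑ i ∈ S, U n J a i ^ 2) ≤ ε * √n + M * √S.card
  smo : ∀ (ι : Type) [Fintype ι] β (c d : ι → ℝ) (U : Nt ι), Ap β c d U → ∀ ε > (0 : ℝ),
    ∃ (m : ℕ) (X : Nt (ι ⊕ Fin m)), Nw True X ∧ Bd X ∧
      Hp β (Sum.elim c 0) (Sum.elim d 1) fun n J a =>
        nrm (U n J (fun l => a (.inl l)) - X n J a) ≤ ε * √n

/-- closure of the approximable words, second half -/
structure ApB : Prop where
  map : ∀ (ι : Type) [Fintype ι], ∀ β ∈ Icc (0 : ℝ) 1, ∀ (c d : ι → ℝ) (m : ℕ)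
    (φ : (Fin m → ℝ) → ℝ) (U : Fin m → Nt ι), OL φ → (∀ l, Ap β c d (U l)) →
    Ap β c d fun n J a i => φ fun l => U l n J a i
  ev : ∀ (ι : Type) [Fintype ι], ∀ β ∈ Icc (0 : ℝ) 1, ∀ (c d : ι → ℝ) (m : ℕ)
    (ψ : (Fin m → ℝ) → ℝ) (U : Fin m → Nt ι) (W : Nt ι), EL ψ → (∀ l, Ap β c d (U l)) →
    Ap β c d W → Ap β c d fun n J a i => (ψ fun l => U l n J a i) * W n J a i
  add : ∀ (ι : Type) [Fintype ι], ∀ β ∈ Icc (0 : ℝ) 1, ∀ (c d : ι → ℝ) (U W : Nt ι) (s t : ℝ),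
    Ap β c d U → Ap β c d W → Ap β c d fun n J a => s • U n J a + t • W n J a
  sum : ∀ (ι : Type) [Fintype ι], ∀ β ∈ Icc (0 : ℝ) 1, ∀ (c d : ι → ℝ) (m : ℕ) (U : Fin m → Nt ι),
    (∀ l, Ap β c d (U l)) → Ap β c d fun n J a => ∑ l, U l n J a
  mul : ∀ (ι : Type) [Fintype ι], ∀ β ∈ Icc (0 : ℝ) 1, ∀ (c d : ι → ℝ) (U : Nt ι), Ap β c d U →
    Ap β c d (fun n J a => J *ᵥ U n J a) ∧ Ap β c d (fun n J a => tJ J *ᵥ U n J a) ∧
      Ap β c d fun n J a => (tJ J)ᵀ *ᵥ U n J a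
  sc : ∀ (ι : Type) [Fintype ι], ∀ β ∈ Icc (0 : ℝ) 1, ∀ (c d : ι → ℝ) (U W Z : Nt ι), Ap β c d U →
    Ap β c d W → Ap β c d Z → Ap β c d fun n J a => avg (U n J a * W n J a) • Z n J a

/-- back-propagation -/
def BPStmt : Prop := ∀ (ι : Type) [Fintype ι] [DecidableEq ι], ∀ β ∈ Icc (0 : ℝ) 1,
  ∀ (c d : ι → ℝ) (j : ι) (X : Nt ι), Nw True X → ∀ U : Nt ι, Ap β c d U → Ap β c d (adj j X U)

/-- the inverse TAP Hessian preserves the approximable words -/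
def RichStmt : Prop := ∀ (ι : Type) [Fintype ι], ∀ β ∈ Icc (0 : ℝ) 1, ∀ b ∈ Icc (0 : ℝ) 1,
  ∀ c0 > (0 : ℝ), ∀ (c d : ι → ℝ) (p U : Nt ι), Ap β c d p → Ap β c d U →
  Hp β c d (fun n J a => Cb (p n J a) ∧ Pos c0 (NN (B1 J b (p n J a)) (dd (p n J a)))) →
  Ap β c d fun n J a => GG (B1 J b (p n J a)) (dd (p n J a)) *ᵥ U n J a

/-- Cameron–Martin shift of one coordinate -/
structure CMStmt : Prop where
  sh : ∀ (κ : Type) [Fintype κ] [DecidableEq κ] (f : (κ → ℝ) → ℝ) (A B : ℝ), Measurable f →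
    (∀ w, |f w| ≤ A + B * en w) → ∀ (i : κ) (a : ℝ),
    Integrable (fun w => f w * Real.exp (-a * w i - a ^ 2 / 2)) (gv κ) ∧
    ∫ w, f (w - Pi.single i a) ∂gv κ = ∫ w, f w * Real.exp (-a * w i - a ^ 2 / 2) ∂gv κ
  dv : ∀ (κ : Type) [Fintype κ] [DecidableEq κ] (f : (κ → ℝ) → ℝ) (L : ℝ), ELip L f →
    ∀ (i : κ) (a : ℝ), ∫ w, (f w - f (w - Pi.single i a)) ∂gv κ =
      ∫ w, lineDeriv ℝ f w (Pi.single i 1) *
        (∫ t in (0 : ℝ)..a, Real.exp (-t * w i - t ^ 2 / 2)) ∂gv κ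

/-! ### leaves: TAP -/

/-- typical fields are anchored -/
def AncStmt : Prop := ∀ β ∈ Ioo (0 : ℝ) 1, ∀ r > (0 : ℝ), ∃ P : Pm, P.Ok ∧
  Ty β r fun _ J y => y ∈ An P J (β ^ 2)

/-- **(SOL)** the magnetisation is approximable -/
def SolStmt : Prop := ∀ β ∈ Ioo (0 : ℝ) 1, ∀ r ≥ (0 : ℝ), Rq β r fun _ J y => mag (ising J y)

/-- the branch: deterministic facts at one `(n, J)` -/
structure Br {n : ℕ} (P : Pm) (J : Mx n) (b : ℝ) : Prop where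
  sol : ∀ y ∈ NB P J b 1, Sol P J b y (xs P J b y) ∧
    nrm (mag (ising J y) - pp P J b y) ≤ P.M ∧ GoodB J b P.c (P.R * √n / 2) (pp P J b y) ∧
    ∀ u : V n, u ⬝ᵥ covM (ising J y) *ᵥ u ≤ P.M * (u ⬝ᵥ u)
  uniq : ∀ y x x', Sol P J b y x → Sol P J b y x' → x = x'
  lip : ∀ y0 ∈ An P J b, ∀ y y', nrm (y - y0) ≤ P.ρ * √n → nrm (y' - y0) ≤ P.ρ * √n →
    P.c * nrm (pp P J b y - pp P J b y') ≤ nrm (y - y')
  der : ∀ y ∈ NB P J b (1 / 2),
    HasFDerivAt (pp P J b) (LinearMap.toContinuousLinearMap (toLin' (Gp P J b y))) y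
  opG : ∀ y ∈ NB P J b 1, (Gp P J b y)ᵀ = Gp P J b y ∧ opn (Gp P J b y) ≤ 1 / P.c
  chi01 : ∀ y, 0 ≤ chi P J b y ∧ chi P J b y ≤ 1
  chi0 : ∀ y, chi P J b y ≠ 0 → y ∈ NB P J b (1 / 2)
  chi1 : ∀ y ∈ NB P J b (1 / 4), chi P J b y = 1
  chiL : ELip (4 / (P.ρ * √n)) (chi P J b)

def BrStmt : Prop := ∀ P : Pm, P.Ok → ∀ b ∈ Icc (0 : ℝ) 1, ∀ᶠ n in atTop, ∀ J : Mx n, Jᵀ = J →
  opn J ≤ 3 → Br P J b

/-- bounded Lipschitz direction field -/
def BL {n : ℕ} (K : ℝ) (e : V n → V n) : Prop :=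
  (∀ y i, |e y i| ≤ K) ∧ ∀ y y', nrm (e y - e y') ≤ K * nrm (y - y')

/-- the observables of a direction field: deterministic facts at one `(n, J)` -/
structure Ob {n : ℕ} (P : Pm) (J : Mx n) (b r : ℝ) (e : V n → V n) (C : ℝ) : Prop where
  lip : ∀ σ, Cb σ → ELip C (Psi P J b e σ)
  sup : ∀ σ y, Cb σ → |Psi P J b e σ y| ≤ C * √n
  acc : ∀ σ, ∀ y ∈ NB P J b (1 / 4),
    |Psi P J b e σ y - e y ⬝ᵥ (σ - mag (ising J y)) / √n| ≤ C
  loc : ∀ y, mean (ising J y) (fun x => Psi P J b e (sv x) y ^ 2) ≤ C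
  supP : ∀ x, |Phi P J b r e x| ≤ C * √n
  QP : ∀ x, Phi P J b r e x ^ 2 ≤ Qq P J b r e x ∧ Qq P J b r e x ≤ Phi P J b r e x ^ 2 + C
  mQ : mean (ising J 0) (Qq P J b r e) ≤ C

def ObStmt : Prop := ∀ P : Pm, P.Ok → ∀ (b r K : ℝ), 0 ≤ r → ∃ C ≥ (0 : ℝ), ∀ (n : ℕ) (J : Mx n)
  (e : V n → V n), 0 < n → Br P J b → BL K e → Ob P J b r e C

/-- averaged directions are bounded Lipschitz -/
def EbStmt : Prop := ∀ (m : ℕ) (E : Nt (Unit ⊕ Fin m)), Nw False E → Bd E →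
  ∃ K ≥ (0 : ℝ), ∀ n J, BL K (Eb E n J)

/-- the words of the branch are approximable -/
def XsStmt : Prop := ∀ β ∈ Ioo (0 : ℝ) 1, ∀ r ≥ (0 : ℝ), ∀ P : Pm, P.Ok →
  Ty β r (fun _ J y => y ∈ An P J (β ^ 2)) →
  Rq β r (fun _ J y => pp P J (β ^ 2) y) ∧ Rq β r fun _ J y => xs P J (β ^ 2) y

def UIGlue : Prop := LipStmt → HpStmt → UIStmt
def MolGlue : Prop := LipStmt → MolStmt
def ApAGlue : Prop := LipStmt → HpStmt → UIStmt → MolStmt → ApA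
def ApBGlue : Prop := LipStmt → HpStmt → UIStmt → ApA → ApB
def BPGlue : Prop := LipStmt → HpStmt → ApA → ApB → BPStmt
def RichGlue : Prop := LipStmt → HpStmt → ApA → ApB → RichStmt
def SolGlue : Prop := LipStmt → HpStmt → ApA → ApB → SolStmt
def EbGlue : Prop := LipStmt → EbStmt
def XsGlue : Prop := LipStmt → HpStmt → ApA → ApB → SolStmt → BrStmt → XsStmt

end Crest.Agent.T157.Z

end
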