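import Crest.Agent.T157.LmDef_76
import Crest.Agent.T157.ZDef_73

/-!
# Row 157, block B/S5 (helper76): the seam between networks and the limit theory

`SeamStmt`: a covariant function of the couplings and of the spins whose gradient is approximable by
label averages of networks has limits (`Lim`).  See `docs/T157_B_S5L.md`.
-/

set_option autoImplicit false

noncomputable section

namespace Crest.Agent.T157.Lm

open MeasureTheory Real Filter Topology Matrix
open Crest.ProbabilityR.SpinGlassDynamics (Pair disorderLaw gibbsWeight)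
open Crest.Agent.R238.Gap (E)
open Crest.Agent.R253.Meh74 (gam)
open Crest.Agent.T157.E (Cube sv mean Jmat)
open Crest.Agent.T157.Tap (V Mx)
open Crest.Agent.T157.Eig (opn nrm)
open Crest.Agent.T157.Pl (one cmul)
open Crest.Agent.T157.Top (Whp)

/-- functions of the couplings and of the spins -/
abbrev Of : Type := ∀ n, Mx n → Cube n → ℝ

/-- conjugation by signs -/
def cj {n : ℕ} (s : Cube n) (J : Mx n) : Mx n := diagonal (sv s) * J * diagonal (sv s)

/-- the observable of the SK model -/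
def Of.ob (β : ℝ) (Φ : Of) : B.Ob := fun n g => Φ n (β • Jmat n g)

/-- covariant, Lipschitz in the couplings, with bounded gradient -/
structure Cov {n : ℕ} (Φ : Mx n → Cube n → ℝ) (B : ℝ) : Prop where
  gauge : ∀ J s x, Jᵀ = J → Φ (cj s J) (cmul s x) = Φ J x
  perm : ∀ J (e : Equiv.Perm (Fin n)) x, Jᵀ = J → Φ (J.submatrix e e) (x ∘ e) = Φ J x
  lip : ∀ J J' x, Jᵀ = J → J'ᵀ = J' → |Φ J x - Φ J' x| ≤ B * (√n * opn (J - J'))
  grad : ∀ J x, Jᵀ = J → Rec.grad (Φ J) x ⬝ᵥ Rec.grad (Φ J) x ≤ B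

/-- a word averaged over its rows, given the spin -/
def EN {ι : Type} [Fintype ι] (c d : ι → ℝ) (X : Z.Nt ι) (n : ℕ) (J : Mx n) (σ : V n) : V n :=
  fun i => ∫ a, X n J a i ∂Z.RL c d σ

/-- the gradient is approximable by averaged bounded networks, in `L²(μ)` -/
def NetG (β : ℝ) (Φ : Of) : Prop := ∀ ε > (0 : ℝ), ∃ (ι : Type) (_ : Fintype ι) (c d : ι → ℝ)
  (X : Z.Nt ι), Z.Nw False X ∧ Z.Bd X ∧ Whp disorderLaw fun n g =>
    mean (gibbsWeight n β g) (fun x => nrm (√n • Rec.grad (Φ n (β • Jmat n g)) x -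
      EN c d X n (β • Jmat n g) (sv x)) ^ 2) ≤ ε * n

/-- **the seam** -/
def SeamStmt : Prop := ∀ β : ℝ, 0 ≤ β → β < 1 → ∀ (Φ : Of) (B : ℝ), (∀ᶠ n in atTop, Cov (Φ n) B) →
  NetG β Φ → Lim β (Φ.ob β)

theorem Lim.congr {β : ℝ} {Φ Ψ : B.Ob} (h : Lim β Ψ)
    (e : Whp disorderLaw fun n g => ∃ c, ∀ x, Φ n g x = Ψ n g x + c) : Lim β Φ := by
  obtain ⟨Θ, B, h1, h2⟩ := h
  refine ⟨Θ, B, (e.and h1).mono (Eventually.of_forall ?_), h2⟩
  rintro n g ⟨⟨c, hc⟩, c', hc'⟩
  exact ⟨c' + c, fun x => by rw [hc, hc', add_assoc]⟩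

/-! ### leaves -/

/-- from quenched to planted averages -/
def TrStmt : Prop := ∀ β : ℝ, 0 ≤ β → β < 1 → ∀ (L : ℕ) (H : Of) (M ε δ : ℝ), 0 < δ →
  (∀ᶠ n in atTop, (Measurable fun z : E (Nv L n) => H n (Jm β z) (one n)) ∧
    (∀ J s x, Jᵀ = J → H n (cj s J) (cmul s x) = H n J x) ∧ ∀ J x, Jᵀ = J → |H n J x| ≤ M) →
  (Whp disorderLaw fun n g => mean (gibbsWeight n β g) (H n (β • Jmat n g)) ≤ ε) →
  ∀ᶠ n in atTop, ∫ z : E (Nv L n), H n (Jm β z) (one n) ∂gam _ ≤ ε + δ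

/-- the rows in the planted gauge -/
def rw {ι : Type} [Fintype ι] (c d : ι → ℝ) {n : ℕ} (z : E (Nv (Fintype.card ι) n)) : ι → V n :=
  fun l i => c l + d l * co z (.inr (Fintype.equivFin ι l, i))
/-- a word in the planted gauge -/
def nf {ι : Type} [Fintype ι] (β : ℝ) (c d : ι → ℝ) (X : Z.Nt ι) : F1 (Fintype.card ι) :=
  fun n x z => X n (Jm β z) (rw c d z) (x ())
/-- site variables set to zero -/
def up (L : ℕ) {n : ℕ} (z : E (Nv 0 n)) : E (Nv L n) :=
  pt (Sum.elim (fun e => co z (.inl e)) fun _ => 0)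

/-- networks are in the limit class -/
def NetStmt : Prop := ∀ β : ℝ, 0 ≤ β → β < 1 → ∀ (ι : Type) [Fintype ι] (c d : ι → ℝ) (X : Z.Nt ι),
  Z.Nw False X → Cl (nf β c d X)

/-- forgetting the layers -/
structure LayStmt : Prop where
  cl : ∀ L (C : Type) [Fintype C] [DecidableEq C] (G : Fam L C), Cl G →
    Cl (L := 0) fun n x z => EW G n x (up L z)
  en : ∀ β (ι : Type) [Fintype ι] (c d : ι → ℝ) (X : Z.Nt ι), Z.Nw False X → ∀ n x z,
    EW (nf β c d X) n x (up _ z) = EN c d X n (Jm β z) 1 (x ())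
  gauge : ∀ (ι : Type) [Fintype ι] (c d : ι → ℝ) (X : Z.Nt ι), Z.Nw False X → ∀ n J s x,
    EN c d X n (cj s J) (sv (cmul s x)) = sv s * EN c d X n J (sv x)

def TrGlue : Prop := BasStmt → SkStmt → Lr2Stmt → TrStmt
def NetGlue : Prop := Z.LipStmt → Z.HpStmt → HypStmt → RtStmt → SkStmt → RpStmt → LinStmt → NlStmt →
  TrStmt → NetStmt
def LayGlue : Prop := Z.LipStmt → RtStmt → SkStmt → RpStmt → LinStmt → RatStmt → LayStmt
def SeamGlue : Prop := Z.LipStmt → BasStmt → HypStmt → SkStmt → LinStmt → LimStmt → TrStmt →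
  NetStmt → LayStmt → SeamStmt

end Crest.Agent.T157.Lm

end
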