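import Crest.Agent.T157.S1Lin_97

/-!
# Row 157, part B, block S1 (helper97): constants, oracles, the induction, supply, end

Text: `docs/T157_B_S1.md`.  Level `m`, window with top `i` and bottom `bt m i`; the act at level `m`
passes to the window `(m + 1, i')`.
-/

set_option autoImplicit false

noncomputable section

namespace Crest.Agent.T157.S1

open MeasureTheory Real Matrix Finset Filter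
open Crest.ProbabilityR.SpinGlassDynamics
open Crest.Agent.T157.E Crest.Agent.T157.SL
open Crest.Agent.T157.Eig (nrm opn)
open Crest.Agent.T157.S3 (V Mx)
open Crest.Agent.T157.Rv (Warm)
open Crest.Agent.T157.Top (Whp)

variable {n : ℕ}

/-! ### constants -/

/-- level-uniform constants (supplied) -/
structure P1 where
  (K0 κ0 lq C0 C1 CM c0 gP Cu : ℝ)

/-- the scalars of the scheme -/
structure P2 extends P1 where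
  N : ℕ
  (τ κ P η0 θ a0 a ab C eL τ' c1 Λ CZ g1 cE CE : ℝ)

/-- constants of the burst (supplied), the constant of (N), the ladder -/
structure Par extends P2 where
  (CP gW cN : ℝ)
  (γ ω CN : ℕ → ℕ → ℝ)
  (M ee η : ℕ → ℝ)

structure P1.Ok (p : P1) : Prop where
  k0 : 0 < p.κ0
  lq0 : 0 < p.lq
  lq1 : p.lq ≤ 1
  C01 : 1 ≤ p.C0
  C11 : 1 ≤ p.C1
  CM0 : 0 ≤ p.CM
  c00 : 0 < p.c0
  gP0 : 0 < p.gP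
  gP1 : p.gP ≤ 1
  Cu1 : 1 ≤ p.Cu

structure P2.Ok (p : P2) : Prop extends o1 : p.toP1.Ok where
  N1 : 1 ≤ p.N
  τ0 : 0 < p.τ
  κ0' : 0 < p.κ
  κ1 : p.κ ≤ 1
  P1 : 1 ≤ p.P
  η00 : 0 < p.η0
  η01 : p.η0 ≤ 1 / 4
  θ0 : 0 ≤ p.θ
  θ1 : p.θ ≤ 1 - 2 * p.η0
  a00 : 0 < p.a0
  a0a : p.a0 < p.a
  rl : (1 + p.κ) ^ (2 * p.N + 1) ≤ 2
  ra : p.a * (1 + p.κ) ^ (3 * p.N + 1) ≤ p.ab * (1 - 2 * p.η0)
  ab1 : p.ab ≤ 1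
  C1' : 1 ≤ p.C
  t0 : 0 < p.τ'
  t1 : 128 * p.C * p.C0 ^ 2 * p.τ' ≤ p.lq
  c10 : 0 < p.c1
  c1T : 256 * p.C1 * p.c1 ≤ p.τ' * p.lq
  c1B : 64 * p.C1 ^ 3 * p.c1 ≤ p.c0
  c1E : 2 * p.c1 ≤ p.cE
  eL0 : 0 < p.eL
  eL1 : 2 * p.C * p.C1 * p.eL ≤ p.c1
  CZ1 : 1 ≤ p.CZ * p.lq
  hΛ : 4 * (p.C / p.κ + 1 / p.c1 + p.Cu / p.κ + p.CZ * p.CM) ≤ p.Λ
  ΛE : p.CE ≤ p.Λ
  CE0 : 0 ≤ p.CE
  win : p.τ / 2 + 6 * (p.Λ + 1) * p.τ ^ 2 ≤ p.c1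
  g10 : 0 ≤ p.g1
  g11 : p.g1 * (1 + 1 / p.N) ^ p.N * (p.N + 1) * p.C * p.C0 ≤ p.gP
  hP : (p.Cu / p.κ) ^ 8 ≤ p.P
  hη : p.Cu * p.P * p.η0 ≤ p.κ

structure Par.Ok (p : Par) : Prop extends o2 : p.toP2.Ok where
  CP1 : 1 ≤ p.CP
  gW0 : 0 < p.gW
  cN1 : 1 ≤ p.cN
  γ0 : ∀ m i, 0 < p.γ m i
  γ1 : ∀ m i, p.γ m i ≤ 1
  γa : ∀ m, Antitone (p.γ m)
  ω0 : ∀ m i, 0 < p.ω m i
  ω1 : ∀ m i, p.ω m i ≤ 1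
  CN1 : ∀ m i, 1 ≤ p.CN m i
  lγ : ∀ m i, m < p.N → 15 * p.CP * p.γ (m + 1) i + 2 * p.CZ * p.ω m i ≤ p.γ m i
  lω : ∀ m i, p.C * p.P * p.ω m i ≤ p.κ ∧ 2 * p.C * p.C0 * p.ω m i ≤ 1
  lκ : ∀ m i, 2 * p.γ m i ≤ p.κ
  lW : ∀ m i, m < p.N → 8 * p.γ (m + 1) i * p.CN m i ^ 2 ≤ p.gW
  lT : ∀ m i, m < p.N → 64 * (2 * p.ω m i + 8 * p.γ (m + 1) i * p.CN m i ^ 2) * p.CP ^ 2 ≤ p.lq
  lB : ∀ m i, m < p.N → 4 * p.C1 ^ 2 * (p.ω m i + 9 * p.γ (m + 1) i * p.CP) ≤ p.c0 * p.η i ^ 2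
  M1 : ∀ j, 1 ≤ p.M j
  Mm : Monotone p.M
  lM : ∀ m i, m < p.N → Mx' p.C p.P (p.CN m i) p.κ p.η0 (p.ω m i) ≤ p.M (i + 1) ∧
    Mx' p.C p.P (p.CN m i) 1 p.η0 (p.γ (m + 1) i) ≤ p.M (i + 1) ∧ p.CZ * p.CN m i ≤ p.M (i + 1) ∧
    1 ≤ p.γ (m + 1) i * p.M (i + 1)
  e0 : ∀ j, 0 < p.ee j
  ea : Antitone p.ee
  le : ∀ j, 8 * p.C * p.CZ * (p.N + 1) ^ 2 * 8 ^ p.N * p.M j ^ 2 * p.ee j ≤ 1
  h0 : ∀ j, 0 < p.η j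
  h1 : ∀ j, p.η j ≤ 1
  l0 : p.γ 1 0 * (1 + p.N * p.cN) ≤ p.a - p.a0

namespace Par
variable (p : Par)
def l (m : ℕ) : ℝ := ((1 + p.κ) ^ (2 * m))⁻¹
def lb (m : ℕ) : ℝ := ((1 + p.κ) ^ (2 * m + 1))⁻¹
def am (m : ℕ) : ℝ := p.a * (1 + p.κ) ^ m
/-- the rate of the ansatz at level `m` -/
def ah (m : ℕ) : ℝ := p.a * (1 + p.κ) ^ (3 * m + 1) / (1 - 2 * p.η0)
def gg (m : ℕ) : ℝ := p.g1 * (1 + 1 / p.N) ^ (p.N - m)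
def bt (m i : ℕ) : ℕ := i + 2 ^ (p.N - m)
def Val (m i : ℕ) : Prop := p.bt m i ≤ 2 ^ p.N
def Nx (m i i' : ℕ) : Prop := i' = i ∨ i' = i + 2 ^ (p.N - (m + 1))
def g2 (m i : ℕ) : ℝ := 8 ^ (p.N - m) * p.M (p.bt m i)
/-- the accuracy of the window -/
def e1 (m i : ℕ) : ℝ := p.ee (p.bt m i)
def ec (m i : ℕ) : ℝ := p.N ^ 2 * p.e1 m i
end Par

/-- caps of the sizes and additive errors -/
structure Cap where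
  (T t t' : ℕ → ℝ)
  (T0 K Kb : ℝ)

def lg (n : ℕ) : ℝ := 16 * log (n + 2)
def big (n : ℕ) : ℝ := ((n : ℝ) + 2) ^ 4

structure Cap.Ok (z : Cap) (p : Par) (n : ℕ) : Prop where
  K1 : 1 ≤ z.K
  Tn : ∀ m ≤ p.N, 0 ≤ z.T m ∧ z.T m ≤ n ∧ z.t m ≤ n
  h1 : ∀ m ≤ p.N, ∀ j ≤ 2 ^ p.N, 40 * p.C * p.C1 ^ 2 * (4 * z.T m + lg n + 1) ≤ p.η j ^ 2 * z.t m
  h2 : ∀ m ≤ p.N, p.CP ^ 2 * z.t m ≤ z.t' m
  h3 : ∀ m < p.N, ∀ i ≤ 2 ^ p.N, 2 * z.T m + 2 * p.CN m i ^ 2 * z.t' m ≤ z.T (m + 1)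
  h4 : ∀ m < p.N, z.T m + z.t m ≤ z.T (m + 1) ∧ z.T m + p.CP * z.t m * log (n + 2) ≤ z.T (m + 1)
  Kb : 16 * p.C * 8 ^ p.N * p.M (2 ^ p.N) * z.K ≤ z.Kb
  z0 : z.T0 ≤ z.T 1
  z1 : ∀ m, 1 ≤ m → m ≤ p.N → big n * exp (z.T0 + p.cN - z.T m / p.cN) ≤ 1

/-- the caps as powers of `n` -/
def capOf (p : Par) (c e : ℝ) (n : ℕ) : Cap where
  T m := (n : ℝ) ^ (1 - c / 16 ^ m)
  t m := (n : ℝ) ^ (1 - c / 16 ^ m / 2)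
  t' m := (n : ℝ) ^ (1 - c / 16 ^ m / 8)
  T0 := (n : ℝ) ^ (1 - c)
  K := (n : ℝ) ^ e
  Kb := 16 * p.C * 8 ^ p.N * p.M (2 ^ p.N) * (n : ℝ) ^ e

/-! ### the leaves with one constant -/

structure Leaf (K0 κ0 C : ℝ) : Prop where
  b1 : ∀ (n : ℕ) (D : Dat n) (s : St n) (y0 : V n) (e A : ℝ), D.Ok → Cl e A s → Bas D.J K0 κ0 y0 →
    kl (nu D s) (ising D.J y0) ≤ C * Bb D s y0 ∧ Del D s ⬝ᵥ Del D s ≤ C * Bb D s y0 ∧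
    HH D s ≤ C * Bb D s y0
  tilt : ∀ (n : ℕ) (D : Dat n) (s : St n)
    (y0 p al q w : V n) (a e e1 ec CN C0 K l κ c ω : ℝ) (φ : Cube n → ℝ) (W Ω : Cube n → V n)
    (G : Cube n → ℝ), D.Ok → Cl ec ec s → Bas D.J K0 κ0 y0 →
    AnsW D.J y0 a p al q e e1 CN C0 K w l φ W Ω G → (∀ i, 0 ≤ p i) → 0 ≤ a → a ≤ 1 → 0 ≤ e → 0 ≤ e1 →
    e1 ≤ ec → 1 ≤ CN → 0 ≤ C0 → 1 ≤ K → 0 ≤ l → 0 < κ → κ ≤ 1 → 0 < c → 0 < ω → ω ≤ 1 →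
    C * D.P * √e ≤ κ * ω → Mx' C D.P CN κ D.η0 ω ^ 2 * ec ≤ 1 →
    AA D (s.un.tl φ (CN * l) Ω G) - (1 - 2 * D.η0) * a * HH D (s.un.tl φ (CN * l) Ω G) +
        (1 - 2 * D.η0) * ((q * w) ⬝ᵥ Mq D.J D.P s.S al (Del D s)) ≤
      (1 + κ) * AA D s - (1 - 2 * D.η0) * a * HH D s + C * C0 * (p ⬝ᵥ (w * w)) +
        c * (Del D s ⬝ᵥ Del D s) + (C / κ + 1 / c) * (del s ⬝ᵥ del s) + ω * (Bb D s y0 + l ^ 2) +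
        Mx' C D.P CN κ D.η0 ω * (Ex D s + K)
  inc : ∀ (n : ℕ) (D : Dat n) (s : St n)
    (y0 p al q w : V n) (a e e1 ec CN C0 K l ω : ℝ) (φ : Cube n → ℝ) (W Ω : Cube n → V n)
    (G : Cube n → ℝ), D.Ok → Cl ec ec s → Bas D.J K0 κ0 y0 →
    AnsW D.J y0 a p al q e e1 CN C0 K w l φ W Ω G → (∀ i, 0 ≤ p i) → 0 ≤ e1 → e1 ≤ ec → 1 ≤ CN →
    0 ≤ C0 → 1 ≤ K → 0 ≤ l → 0 < ω → ω ≤ 1 → Mx' C D.P CN 1 D.η0 ω ^ 2 * ec ≤ 1 →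
    Eg D s φ ≤ C * C0 * (p ⬝ᵥ (w * w)) + ω * (AA D s + Bb D s y0 + l ^ 2) +
        Mx' C D.P CN 1 D.η0 ω * (Ex D s + K) ∧
      (mean (nu D s) fun σ => G σ ^ 2) ≤ C * (e1 * (Bb D s y0 + l ^ 2) + K)
  t6 : ∀ (n : ℕ) (J : Mx n) (P : ℝ) (y0 p a0 al q : V n) (k : ℕ)
    (v : ℕ → V n) (lq C0 C1 CP e η t t' ε τ : ℝ) (S : Finset (Fin n)) (Δ zs : V n),
    Jᵀ = J → opn J ≤ 3 → LinOK2 J P y0 p a0 al q k v lq C0 C1 CP e η t ε → 0 < lq → lq ≤ 1 → 0 ≤ C0 →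
    1 ≤ C1 → 1 ≤ CP → 0 ≤ e → 0 < η → 0 ≤ ε → 0 < τ → τ ≤ 1 → (#S : ℝ) ≤ t → (∀ i ∈ S, Δ i = 0) →
    (zs = fun i => if i ∉ S ∧ |zv J p a0 Δ i| < η then zv J p a0 Δ i else 0) → zs ⬝ᵥ zs ≤ t →
    CP ^ 2 * t ≤ t' → ∃ w : V n, Adm k v η t' ε w (CP * τ * nrm zs) ∧
      p ⬝ᵥ (w * w) ≤ C0 * τ ^ 2 * (zs ⬝ᵥ zs) ∧
      τ * (lq / 2 * (zs ⬝ᵥ zs) - Mod J y0 a0 q k v Δ / lq -
        C * C1 * (e + √ε) * (zs ⬝ᵥ zs + Δ ⬝ᵥ Δ)) ≤ (q * w) ⬝ᵥ Mq J P S al Δ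

def LeafStmt : Prop := ∀ K0 κ0 : ℝ, 0 < κ0 → ∃ C ≥ (1 : ℝ), Leaf K0 κ0 C
def LeafGlue : Prop := B1Stmt → TiltStmt → IncStmt → T6Stmt2 → LeafStmt

/-- the body of `NStmt` -/
def NAt (K0 κ0 S C : ℝ) : Prop := ∀ (n : ℕ) (w f : Cube n → ℝ) (T0 r : ℝ)
  (G : Set (V n)), (∀ x, 0 < w x) → Atd.ATd w K0 (exp (-(κ0 * n))) → Warm w T0 f → 0 ≤ r → r ≤ S →
  (law sv w r).real Gᶜ ≤ 1 / 2 → G.Nonempty ∧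
  (mean w fun σ => f σ * Ew r (fun _ y => dG G y ^ 2) σ 0) ≤ C * (ent w f + 1) ∧
  ∀ t, 0 ≤ t → (mean w fun σ => f σ * Ew r (fun _ => far G t) σ 0) ≤ exp (T0 + C - t / C)

/-! ### the oracle -/

/-- a tilt: potential, flow, regular gradient, excess, predicted responses at the later levels -/
structure Tt (n : ℕ) where
  φ : Cube n → ℝ
  W : Cube n → V n
  Ω : Cube n → V n
  G : Cube n → ℝ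
  ρ : ℕ → Fy n

/-- good base points, collective observables, provenance of `(Th, L, F)` in the window `(m, i)` -/
structure Orc (n : ℕ) where
  G : ℕ → Set (V n)
  zn : ℕ → Fy n
  PV : ℕ → ℕ → (Cube n → ℝ) → ℝ → (ℕ → Fy n) → Prop

section env
variable (p : Par) (z : Cap) (J : Mx n) (O : Orc n)

/-- a tilt of the act `m` towards the window `(m + 1, i)`, weight `w`, scale `u` -/
structure Tok (m i : ℕ) (y0 pA al q w : V n) (u : ℝ) (t : Tt n) : Prop where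
  ans : AnsW J y0 (p.ah m) pA al q (p.ω m i ^ 4) (p.e1 (m + 1) i) (p.CN m i) p.C0 z.K w u
    t.φ t.W t.Ω t.G
  u0 : 0 ≤ u
  ut : u ^ 2 ≤ z.t' m
  xf : ∀ m', XF (t.ρ m')
  /-- **PredOK** -/
  pred : ∀ (v : Cube n → ℝ) (y : V n) (m' : ℕ), Wt v → kl v (ising J y0) ≤ z.t (m + 1) →
    nrm (y - y0) ^ 2 ≤ z.t (m + 1) → m < m' → m' ≤ p.N →
    (mean v fun σ => Ew (((m' : ℝ) - m) * p.τ) (t.ρ m') σ y) ≤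
      p.e1 (m + 1) i * (u ^ 2 + kl v (ising J y0) + nrm (y - y0) ^ 2 + 1) + z.K
  pv : ∀ i0 Th L F, p.Nx m i0 i → O.PV m i0 Th L F →
    O.PV (m + 1) i (Th + t.φ) (L + p.CN m i * u) (F + t.ρ)

/-- **ModOK** -/
def ModOK (m i : ℕ) (y0 a0 q : V n) (k : ℕ) (v : ℕ → V n) : Prop :=
  ∀ (D : Dat n) (s : St n) (i0 : ℕ) (F : ℕ → Fy n), D.Ok → D.J = J → D.P = p.P → p.Nx m i0 i →
    Cl (p.ec (m + 1) i) (p.ec (m + 1) i) s → O.PV m i0 s.Th s.L F → Sz D s (z.t m) →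
    nrm (s.y - y0) ^ 2 ≤ z.t m →
    Mod J y0 a0 q k v (Del D s) ≤ p.CM * (del s ⬝ᵥ del s) + (mean (nu D s) fun σ => O.zn m σ s.y) +
      (mean (nu D s) fun σ => F m σ s.y) + p.ω m i * (Bb D s y0 + 1) + p.CN m i * Ex D s

/-- what the act `m` towards `(m + 1, i)` needs at the base point `y0` -/
def Good (m i : ℕ) (y0 pv a0 : V n) : Prop :=
  ∃ (pA al q : V n) (k : ℕ) (v : ℕ → V n) (ε : ℝ) (Ad : V n → ℝ → Prop) (φ : V n → Cube n → ℝ),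
    0 ≤ ε ∧ ε ≤ p.eL ^ 2 ∧ (∀ j, 0 ≤ pA j ∧ pA j ≤ pv j + p.ω m i ^ 4) ∧
    LinOK2 J p.P y0 pv a0 al q k v p.lq p.C0 p.C1 p.CP p.eL (p.η (p.bt (m + 1) i)) (z.t m) ε ∧
    (∀ w u, Adm k v (p.η (p.bt (m + 1) i)) (z.t' m) ε w u → ∃ t, Tok p z J O m i y0 pA al q w u t) ∧
    (∀ w u, Ad w u → ∃ t, Tok p z J O m i y0 pA al q w u t ∧ t.φ = φ w) ∧
    BurstOK J p.P p.η0 p.θ y0 pA Ad φ (p.l m) (p.am m) (p.lb m) (p.am (m + 1)) p.c0 p.gW p.gP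
      (p.Cu / p.κ) p.CP (p.CN m i) (p.ω m i) (p.ec (m + 1) i) (z.t m) z.K ∧
    ModOK p z J O m i y0 a0 q k v

/-- **the supply**; `Dq` is the collective deficit at level zero -/
structure EnvS (Dq : (Cube n → ℝ) → ℝ) : Prop where
  bas0 : Bas J p.K0 p.κ0 0
  mass : ∀ m : ℕ, 1 ≤ m → m ≤ p.N → (law sv (ising J 0) (m * p.τ)).real (O.G m)ᶜ ≤ 1 / 2
  bas : ∀ m, 1 ≤ m → m ≤ p.N → ∀ y0 ∈ O.G m, Bas J p.K0 p.κ0 y0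
  good : ∀ m, 1 ≤ m → m < p.N → ∀ y0 ∈ O.G m, ∃ pv a0, ∀ i, p.Val (m + 1) i →
    Good p z J O m i y0 pv a0
  pv0 : O.PV 1 0 0 0 0
  xz : ∀ m, XF (O.zn m)
  lev : ∀ f, Warm (ising J 0) z.T0 f → ∑ m ∈ Icc 1 p.N,
    (mean (ising J 0) fun σ => f σ * Ew (m * p.τ) (O.zn m) σ 0) ≤ Dq f + z.K

/-- **the end** -/
structure EnvE (fe : Fy n) : Prop where
  xf : XF fe
  fin : ∀ i, p.Val p.N i → EndOK J p.P p.η0 p.θ fe p.ab p.cE p.g1 p.CE (p.M (i + 1)) (p.γ p.N i)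
    (p.ec p.N i) (z.t p.N) z.K
  lev : ∀ f, Warm (ising J 0) z.T0 f →
    (mean (ising J 0) fun σ => f σ * Ew (p.N * p.τ) fe σ 0) ≤ z.K

end env

/-! ### the induction -/

/-- one instance -/
structure Cx (n : ℕ) where
  p : Par
  z : Cap
  D : Dat n
  O : Orc n
  fe : Fy n
  Dq : (Cube n → ℝ) → ℝ

namespace Cx
variable (X : Cx n)

structure Ok : Prop where
  ok : X.p.Ok
  cap : X.z.Ok X.p n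
  lf : Leaf X.p.K0 X.p.κ0 X.p.C
  na : NAt X.p.K0 X.p.κ0 (X.p.N * X.p.τ) X.p.cN
  dok : X.D.Ok
  hP : X.D.P = X.p.P
  hη : X.D.η0 = X.p.η0
  hθ : X.D.θ = X.p.θ
  hT : X.D.T0 = X.z.T0
  wm : Warm (ising X.D.J 0) X.z.T0 X.D.f
  es : EnvS X.p X.z X.D.J X.O X.Dq
  en : EnvE X.p X.z X.D.J X.fe

def cf (m i : ℕ) : Cf := ⟨X.p.l m, X.p.am m, X.p.γ m i, X.p.gg m, X.p.g2 m i, X.p.Λ, X.z.T m⟩
def R (m : ℕ) : ℝ := ((X.p.N : ℝ) - m + 1) * X.z.Kb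
/-- the martingale terms of level `m'` -/
def Ft (m i : ℕ) (F : ℕ → Fy n) (m' : ℕ) : Fy n := fun σ y =>
  X.p.γ m i * dG (X.O.G m') y ^ 2 + big n * far (X.O.G m') (X.z.T m') y +
    X.p.CZ * (X.O.zn m' σ y + F m' σ y) + if m' = X.p.N then X.fe σ y else 0
/-- predictions at level `m` of the terms of the levels `≥ lo` -/
def Fu (lo m : ℕ) (F : ℕ → Fy n) : Fy n := ∑ m' ∈ Icc lo X.p.N, Ew (((m' : ℝ) - m) * X.p.τ) (F m')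
/-- the states of the window `(m, i)` -/
structure In (m i : ℕ) (s : St n) (F : ℕ → Fy n) : Prop where
  cl : Cl (m * X.p.e1 m i) (m ^ 2 * X.p.e1 m i) s
  pv : X.O.PV m i s.Th s.L F
  xf : ∀ m', XF (F m')
  hL : s.L ^ 2 ≤ X.z.T m
  hS : (#s.S : ℝ) ≤ X.z.T m
def ActAt (m i : ℕ) (s : St n) (F : ℕ → Fy n) : Prop :=
  X.p.c1 * (Del X.D s ⬝ᵥ Del X.D s) - X.R m ≤
    Pot X.D (X.cf m i) (fun σ => X.Fu m m (X.Ft m i F) σ s.y) s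
def Act (m i : ℕ) : Prop := ∀ s F, X.In m i s F → X.ActAt m i s F
/-- start of the window from level `m` to level `m + 1` -/
def Sta (m i : ℕ) : Prop := ∀ s F, X.In (m + 1) i s F → -X.R (m + 1) ≤
  Pot X.D { X.cf (m + 1) i with Λ := 3 / 2 * (X.p.Λ + X.p.γ (m + 1) i) }
    (fun σ => X.Fu (m + 1) m (X.Ft (m + 1) i F) σ s.y) s
/-- `Sta` after one tilt, seen from the state `s` before the tilt -/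
def Upd (m i : ℕ) : Prop := ∀ (s s' : St n) (F : ℕ → Fy n) (i0 : ℕ) (y0 pA al q w : V n) (u : ℝ)
  (t : Tt n), X.p.Nx m i0 i → Bas X.D.J X.p.K0 X.p.κ0 y0 → (∀ j, 0 ≤ pA j) →
  Tok X.p X.z X.D.J X.O m i y0 pA al q w u t → X.O.PV m i0 s.Th s.L F → (∀ m', XF (F m')) →
  Cl (m * X.p.e1 (m + 1) i) (m ^ 2 * X.p.e1 (m + 1) i) s → s.L ^ 2 ≤ X.z.T m →
  (#s.S : ℝ) ≤ X.z.T (m + 1) → del s ⬝ᵥ del s ≤ X.z.t m → nrm (s.y - y0) ^ 2 ≤ X.z.t m →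
  s' = s.tl t.φ 0 0 0 →
  -(X.R (m + 1) + 6 * X.p.C * 8 ^ X.p.N * X.p.M (2 ^ X.p.N) * X.z.K +
      (3 / 2 * X.p.Λ + 9 / 2 * X.p.γ (m + 1) i) * (del s ⬝ᵥ del s) +
      6 * X.p.γ (m + 1) i * (s.L ^ 2 + #s.S + nrm (s.y - y0) ^ 2)) ≤
    X.p.lb m * AA X.D s' - X.p.am (m + 1) * HH X.D s' + 3 * X.p.γ (m + 1) i *
      (Hy X.D s' + mean (nu X.D s') (U X.D s') + mean (nu X.D s') (U6 X.D s')) +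
    X.p.gg m * Eg X.D s' s.Th + exp ((Dz X.D s' - X.z.T (m + 1)) / 2) +
    (mean (nu X.D s') fun σ => 4 * X.p.g2 (m + 1) i * s.G σ ^ 2 +
      X.Fu (m + 1) m (X.Ft (m + 1) i F) σ s.y) +
    8 * X.p.γ (m + 1) i * X.p.CN m i ^ 2 * u ^ 2 + X.p.gP * (pA ⬝ᵥ (w * w))
/-- the non-trivial case -/
def Near (m : ℕ) (s : St n) (y0 : V n) : Prop :=
  y0 ∈ X.O.G m ∧ nrm (s.y - y0) ^ 2 ≤ dG (X.O.G m) s.y ^ 2 + 1 ∧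
  Dz X.D s + s.L ^ 2 + #s.S + nrm (s.y - y0) ^ 2 ≤ 4 * X.z.T m + lg n + 1 ∧
  del s ⬝ᵥ del s ≤ 4 * X.z.T m + lg n + 1 ∧ 0 ≤ Dz X.D s
/-- the majorant common to the two branches of the act -/
def Br (m i : ℕ) (s : St n) (F : ℕ → Fy n) (y0 : V n) : ℝ :=
  X.p.l m * AA X.D s - X.p.am m * HH X.D s + X.R (m + 1) +
    8 * X.p.C * 8 ^ X.p.N * X.p.M (2 ^ X.p.N) * X.z.K +
    (15 * X.p.CP * X.p.γ (m + 1) i + X.p.ω m i) * (Bb X.D s y0 + mean (nu X.D s) (U6 X.D s)) +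
    X.p.gg m * Eg X.D s s.Th + exp ((Dz X.D s - X.z.T m) / 2) +
    (4 * X.p.g2 (m + 1) i + X.p.M (i + 1)) * Ex X.D s +
    mean (nu X.D s) fun σ => X.Fu (m + 1) m (X.Ft (m + 1) i F) σ s.y
end Cx

/-- calculus of `Fu`, `Ft` -/
def FuStmt : Prop := ∀ (n : ℕ) (X : Cx n), X.Ok → ∀ (m i : ℕ) (F : ℕ → Fy n), (∀ m', XF (F m')) →
  (∀ m', XF (X.Ft m i F m')) ∧ (∀ lo k, k ≤ lo → XF (X.Fu lo k (X.Ft m i F))) ∧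
  (∀ lo k, k < lo → Ew X.p.τ (X.Fu lo (k + 1) (X.Ft m i F)) = X.Fu lo k (X.Ft m i F)) ∧
  (∀ k, k ≤ X.p.N → X.Fu k k (X.Ft m i F) = X.Ft m i F k + X.Fu (k + 1) k (X.Ft m i F)) ∧
  (∀ m' i' lo k, k ≤ lo → X.p.γ m' i' ≤ X.p.γ m i →
    X.Fu lo k (X.Ft m' i' F) ≤ X.Fu lo k (X.Ft m i F)) ∧
  ∀ (ρ : ℕ → Fy n) (lo k : ℕ), k ≤ lo → (∀ m', XF (ρ m')) →
    X.Fu lo k (X.Ft m i (F + ρ)) = X.Fu lo k (X.Ft m i F) + X.p.CZ • X.Fu lo k ρ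

def PreStmt : Prop := ∀ (n : ℕ) (X : Cx n), X.Ok → ∀ m i s F, 1 ≤ m → m ≤ X.p.N → X.In m i s F →
  X.ActAt m i s F ∨ ∃ y0, X.Near m s y0
def UpdStmt : Prop := ∀ (n : ℕ) (X : Cx n), X.Ok → ∀ m i, 1 ≤ m → m < X.p.N → X.p.Val (m + 1) i →
  X.Sta m i → X.Upd m i
/-- the branch T -/
def BrTStmt : Prop := ∀ (n : ℕ) (X : Cx n), X.Ok → ∀ m i0 i s F y0, 1 ≤ m → m < X.p.N →
  X.p.Val (m + 1) i → X.p.Nx m i0 i → X.Upd m i → X.In m i0 s F → X.Near m s y0 →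
  ∀ (pv pA a0 al q zs : V n) (k : ℕ) (v : ℕ → V n) (ε : ℝ), 0 ≤ ε → ε ≤ X.p.eL ^ 2 →
    (∀ j, 0 ≤ pA j ∧ pA j ≤ pv j + X.p.ω m i ^ 4) →
    LinOK2 X.D.J X.p.P y0 pv a0 al q k v X.p.lq X.p.C0 X.p.C1 X.p.CP X.p.eL
      (X.p.η (X.p.bt (m + 1) i)) (X.z.t m) ε →
    (∀ w u, Adm k v (X.p.η (X.p.bt (m + 1) i)) (X.z.t' m) ε w u →
      ∃ t, Tok X.p X.z X.D.J X.O m i y0 pA al q w u t) →
    (zs = fun j => if j ∉ s.S ∧ |zv X.D.J pv a0 (Del X.D s) j| < X.p.η (X.p.bt (m + 1) i) then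
      zv X.D.J pv a0 (Del X.D s) j else 0) →
    16 * X.p.C1 * X.p.c1 * (zs ⬝ᵥ zs) - Mod X.D.J y0 a0 q k v (Del X.D s) / X.p.lq -
      2 * X.p.c1 * (Del X.D s ⬝ᵥ Del X.D s) ≤
      X.Br m i s F y0 + (X.p.C / X.p.κ + 1 / X.p.c1) * (del s ⬝ᵥ del s)
/-- the branch B -/
def BrBStmt : Prop := ∀ (n : ℕ) (X : Cx n), X.Ok → ∀ m i0 i s F y0, 1 ≤ m → m < X.p.N →
  X.p.Val (m + 1) i → X.p.Nx m i0 i → X.Upd m i → X.In m i0 s F → X.Near m s y0 →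
  ∀ (pv pA a0 al q : V n) (Ad : V n → ℝ → Prop) (φ : V n → Cube n → ℝ) (B : Finset (Fin n)),
    (∀ j, 0 ≤ pA j) → (∀ j, 0 < pv j ∧ pv j ≤ 1) → (∀ j, pv j * |a0 j| ≤ X.p.C1) →
    (∀ w u, Ad w u → ∃ t, Tok X.p X.z X.D.J X.O m i y0 pA al q w u t ∧ t.φ = φ w) →
    BurstOK X.D.J X.p.P X.p.η0 X.p.θ y0 pA Ad φ (X.p.l m) (X.p.am m) (X.p.lb m) (X.p.am (m + 1))
      X.p.c0 X.p.gW X.p.gP (X.p.Cu / X.p.κ) X.p.CP (X.p.CN m i) (X.p.ω m i) (X.p.ec (m + 1) i)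
      (X.z.t m) X.z.K →
    (∀ j, j ∈ B ↔ j ∉ s.S ∧ X.p.η i ≤ |zv X.D.J pv a0 (Del X.D s) j|) →
    16 * X.p.C1 * X.p.c1 * ∑ j ∈ B, zv X.D.J pv a0 (Del X.D s) j ^ 2 ≤
      X.Br m i s F y0 + (X.p.Cu / X.p.κ + 3 / 2 * X.p.Λ) * (del s ⬝ᵥ del s)
def ActStmt : Prop := ∀ (n : ℕ) (X : Cx n), X.Ok → ∀ m i0, 1 ≤ m → m < X.p.N → X.p.Val m i0 →
  (∀ i, X.p.Nx m i0 i → X.Upd m i) → X.Act m i0
def FinStmt : Prop := ∀ (n : ℕ) (X : Cx n), X.Ok → ∀ i, X.p.Val X.p.N i → X.Act X.p.N i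
def StaStmt : Prop := ∀ (n : ℕ) (X : Cx n), X.Ok → ∀ m i, m < X.p.N → X.Act (m + 1) i → X.Sta m i
/-- the inequality at level zero -/
def Tot (X : Cx n) : Prop := 2 * X.p.a0 * ent (ising X.D.J 0) X.D.f ≤ Rv.II (ising X.D.J 0) X.D.f +
  X.p.θ * B.Df (B.dn (ising X.D.J 0) X.D.f) (ising X.D.J 0) + 2 * X.p.CZ * X.Dq X.D.f +
  2 * (X.p.N * X.z.Kb + (X.p.CZ + 1) * X.z.K + X.p.N + 4)
def TotStmt : Prop := ∀ (n : ℕ) (X : Cx n), X.Ok → X.Sta 0 0 → Tot X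
def MasterStmt : Prop := ∀ (n : ℕ) (X : Cx n), X.Ok → Tot X

def FuGlue : Prop := MtStmt → FuStmt
def PreGlue : Prop := CrudeStmt → MtStmt → FuStmt → PreStmt
def UpdGlue : Prop := CrudeStmt → ClStmt → FuStmt → UpdStmt
def BrTGlue : Prop := CrudeStmt → ClStmt → FuStmt → BrTStmt
def BrBGlue : Prop := CrudeStmt → ClStmt → FuStmt → BrBStmt
def ActGlue : Prop := CrudeStmt → ClStmt → FuStmt → PreStmt → BrTStmt → BrBStmt → ActStmt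
def FinGlue : Prop := CrudeStmt → ClStmt → FuStmt → PreStmt → FinStmt
def StaGlue : Prop := WinStmt → FuStmt → StaStmt
def TotGlue : Prop := CrudeStmt → ClStmt → MtStmt → L0Stmt → TotStmt
def MasterGlue : Prop := UpdStmt → ActStmt → FinStmt → StaStmt → TotStmt → MasterStmt

/-! ### arithmetic -/

/-- the scalars -/
def ScalStmt : Prop := ∀ (u : P1) (a0 ab a' C cE CE S0 : ℝ), u.Ok → 0 < a0 → a0 < ab → ab < a' →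
  a' < 1 → 1 ≤ C → 0 < cE → 1 ≤ CE → ∃ w : P2, w.Ok ∧ w.toP1 = u ∧ w.a0 = a0 ∧ w.ab = ab ∧ w.C = C ∧
    w.cE = cE ∧ w.CE = CE ∧ w.θ = Ue.th a' ∧ S0 ≤ w.N * w.τ ∧ w.P ≤ (w.N * w.τ) ^ 20 ∧
    w.g1 = ((w.N * w.τ) ^ 3)⁻¹ ∧ CE * w.η0 ≤ 1

/-- a positive threshold for `η j` which only reads the earlier part of the ladder -/
def Past (ηf : ℕ → (ℕ → ℕ → ℝ) → (ℕ → ℝ) → ℝ) : Prop := (∀ j ω e, 0 < ηf j ω e) ∧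
  ∀ j ω ω' e e', (∀ m, ∀ i < j, ω m i = ω' m i) → (∀ i ≤ j, e i = e' i) → ηf j ω e = ηf j ω' e'

/-- the thresholds of the supply -/
def Thr (p : Par) (CNf : ℕ → ℝ → ℝ) (ηf : ℕ → (ℕ → ℕ → ℝ) → (ℕ → ℝ) → ℝ) : Prop :=
  (∀ m i, m < p.N → CNf m (p.ω m i) ≤ p.CN m i) ∧ ∀ j, p.η j ≤ ηf j p.ω p.ee

/-- the ladder -/
def LadStmt : Prop := ∀ (w : P2) (CP gW cN : ℝ) (CNf : ℕ → ℝ → ℝ)
  (ηf : ℕ → (ℕ → ℕ → ℝ) → (ℕ → ℝ) → ℝ) (MEf : ℝ → ℝ), w.Ok → 1 ≤ CP → 0 < gW → 1 ≤ cN → Past ηf →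
  ∃ p : Par, p.Ok ∧ p.toP2 = w ∧ p.CP = CP ∧ p.gW = gW ∧ p.cN = cN ∧ Thr p CNf ηf ∧
    ∀ i, MEf (p.γ p.N i) ≤ p.M (i + 1)

def CapStmt : Prop := ∀ (p : Par) (c e : ℝ), p.Ok → 0 < c → c ≤ 1 → 0 < e →
  ∀ᶠ n : ℕ in atTop, (capOf p c e n).Ok p n

/-! ### the two inputs and the output -/

/-- **SUPPLY** (ansatz, linear algebra, burst, collective modes) -/
def SupplyStmt (β lam : ℝ) (𝒬 : Set B.Ob) : Prop := ∀ a0 ab a' : ℝ, 0 < a0 → a0 < ab → ab < a' →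
  a' < lam → ∃ u : P1, u.Ok ∧ ∀ w : P2, w.Ok → w.toP1 = u → w.a0 = a0 → w.ab = ab → w.θ = Ue.th a' →
  ∃ (CP gW : ℝ) (CNf : ℕ → ℝ → ℝ) (ηf : ℕ → (ℕ → ℕ → ℝ) → (ℕ → ℝ) → ℝ), 1 ≤ CP ∧ 0 < gW ∧
    Past ηf ∧ ∀ p : Par, p.Ok → p.toP2 = w → p.CP = CP → p.gW = gW →
    Thr p CNf ηf → ∀ c e : ℝ, 0 < c → c ≤ 1 → 0 < e →
    ∃ (k : ℕ) (Q : Fin k → B.Ob) (Cq : ℝ), (∀ j, Q j ∈ 𝒬) ∧ 0 ≤ Cq ∧ Whp disorderLaw fun n g =>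
      ∃ O, EnvS p (capOf p c e n) (β • Jmat n g) O fun f => Cq * ∑ j, B.Mom β (Q j) n g f

/-- **END** -/
def EndStmt (β : ℝ) : Prop := ∀ ab a' : ℝ, 0 < ab → ab < a' → a' < 1 → ∃ cE > (0 : ℝ), ∃ CE ≥ (1 : ℝ),
  ∃ S0 : ℝ, ∀ S P η0 : ℝ, S0 ≤ S → 1 ≤ P → P ≤ S ^ 20 → 0 < η0 → CE * η0 ≤ 1 → ∀ ω > (0 : ℝ),
  ∃ ME : ℝ, ∀ ec δ e : ℝ, 0 ≤ ec → ME * ec ≤ 1 → 0 < δ → δ ≤ 1 → 0 < e → Whp disorderLaw fun n g =>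
    ∃ fe : Fy n, XF fe ∧ EndOK (β • Jmat n g) P η0 (Ue.th a') fe ab cE (S ^ 3)⁻¹ CE ME ω ec
      ((n : ℝ) ^ (1 - δ)) ((n : ℝ) ^ e) ∧
    ∀ f, Warm (ising (β • Jmat n g) 0) ((n : ℝ) ^ (1 - δ)) f →
      (mean (ising (β • Jmat n g) 0) fun σ => f σ * Ew S fe σ 0) ≤ 1

/-- **the output of S1** -/
def S1Out : Prop := ∀ (β lam : ℝ) (𝒬 : Set B.Ob), 0 < β → β < 1 → lam ≤ 1 →
  SupplyStmt β lam 𝒬 → EndStmt β → B.Stat1 β lam 𝒬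
def StatGlue : Prop := CrudeStmt → LeafStmt → NStmt → MtStmt → MasterStmt → ScalStmt → LadStmt → CapStmt → S1Out

end Crest.Agent.T157.S1

end
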