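import Crest.Agent.T157.KsB_5

/-!
# Row 157: a priori bounds from the future (helper5)

The Riccati cap with a ceiling, one step of variance conservation, `tr C²`, the TAP residual.
-/

set_option linter.unusedSectionVars false

noncomputable section

namespace Crest.Agent.T157.Ks

open MeasureTheory ProbabilityTheory Filter Topology Set Real Matrix
open Crest.Agent.T157.E Crest.Agent.T157.SL

variable {Ω ι J L M : Type*} [Fintype Ω] [Fintype ι] [DecidableEq ι] [Fintype J] [Fintype L] [Fintype M]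
  {φ : Ω → ι → ℝ} {ψ : Ω → J → ℝ} {χ : Ω → L → ℝ} {w f g : Ω → ℝ} {u h κ κ' δ R R' α β τ : ℝ}
  {B S : Set (ι → ℝ)}

/-! ### the cap -/

/-- conditional probability of `y_τ ∈ B` given `y_r = y` -/
def pr (φ : Ω → ι → ℝ) (w : Ω → ℝ) (τ : ℝ) (B : Set (ι → ℝ)) (r : ℝ) (y : ι → ℝ) : ℝ :=
  slE φ (post φ w r y) (τ - r) fun _ z => B.indicator 1 (y + z)

theorem mg_ind (hB : MeasurableSet B) (y : ι → ℝ) : MG fun z => B.indicator (1 : (ι → ℝ) → ℝ) (y + z) := by
  simpa only [one_smul] using MG.affine (F := B.indicator 1) ((MG.const (1 : ℝ)).indicator hB) y 1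

theorem pr_nonneg (hw : Wt w) (r : ℝ) (y : ι → ℝ) : 0 ≤ pr φ w τ B r y :=
  slE_nonneg (hw.post _ _ _) fun _ _ => indicator_nonneg (fun _ _ => zero_le_one) _

theorem mg_pr (hw : Wt w) (hB : MeasurableSet B) (r : ℝ) (y : ι → ℝ) :
    MG fun z => pr φ w τ B r (y + z) := by
  have : MG (pr φ w τ B r) := mg_mean hw r fun x =>
    ((MG.const (1 : ℝ)).indicator hB).conv ((τ - r) • φ x) √(τ - r)
  simpa using this.affine y 1

theorem pr_markov (hw : Wt w) (hB : MeasurableSet B) {r s : ℝ} (hs : 0 ≤ s) (hτ : r + s ≤ τ)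
    (y : ι → ℝ) : (slE φ (post φ w r y) s fun _ z => pr φ w τ B (r + s) (y + z)) = pr φ w τ B r y := by
  have := markov (φ := φ) (hw.post φ r y) hs (sub_nonneg.2 hτ) fun _ => mg_ind hB y
  rw [show s + (τ - (r + s)) = τ - r by ring] at this
  rw [pr, this]
  simp only [pr, post_post, add_assoc]

theorem pr_zero (hw : Wt w) (hB : MeasurableSet B) : pr φ w τ B 0 0 = (law φ w τ).real B := by
  rw [← ex_ind hw hB]; simp [pr, post_zero, ex]

theorem slE_le_aff (hw : Wt w) {F K : (ι → ℝ) → ℝ} (hF : MG F) (hK : MG K) {a c : ℝ}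
    (e : ∀ z, F z ≤ a + c * K z) :
    (slE φ w u fun _ z => F z) ≤ a + c * slE φ w u fun _ z => K z := by
  refine (slE_mono hw (.of_mg fun _ => hF) (.of_mg fun _ => (MG.const a).add (hK.const_mul c))
    fun _ => e).trans_eq ?_
  rw [slE_add (.of_mg fun _ => .const a) (.of_mg fun _ => hK.const_mul c), slE_const_mul, slE_fun,
    hw.mean_const]

theorem CB.min (h1 : CB w ψ κ) (h2 : CB w ψ κ') : CB w ψ (min κ κ') := by
  rcases le_total κ κ' with h | h <;> simp [h, h1, h2]

theorem mean_sq_eq (hw : Wt w) (f : Ω → ℝ) : mean w (fun x => f x ^ 2) = var w f + mean w f ^ 2 := by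
  rw [var_eq_cov, hw.cov_eq]; simp only [sq]; ring

theorem ceiling (hw : Wt w) (hB : MeasurableSet B) (hR : Bd φ R) {a1 L' : ℝ} (h0 : 0 ≤ a1 + L')
    (good : ∀ y ∉ B, CB (post φ w τ y) φ a1 ∧ ∑ i, meanV (post φ w τ y) φ i ^ 2 ≤ L')
    {r : ℝ} (hr : r ≤ τ) (y : ι → ℝ) : CB (post φ w r y) φ (a1 + L' + R * pr φ w τ B r y) :=
  CB_iff.2 fun v => by
  have hv := hw.post φ r y
  have v0 := dot_self_nonneg v
  refine (hv.var_le_mean _ 0).trans ?_
  rw [← slE_mean (φ := φ) hv (sub_nonneg.2 hr), add_mul, mul_right_comm R]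
  refine slE_le_aff hv ((eg_mean (I := univ) hv _).mg (mem_univ _)) (mg_ind hB y) fun z => ?_
  simp only [sub_zero, post_post, add_sub_cancel]
  by_cases hz : y + z ∈ B
  · have := (hw.post φ τ (y + z)).mean_le (hR.dot_sq v)
    simp only [indicator_of_mem hz, Pi.one_apply]
    nlinarith
  · have h1 := (good _ hz).1.var_le v
    have h2 : (v ⬝ᵥ meanV (post φ w τ (y + z)) φ) ^ 2 ≤ L' * (v ⬝ᵥ v) :=
      Bd.dot_sq (Ω := Unit) (ψ := fun _ => meanV (post φ w τ (y + z)) φ) (fun _ => (good _ hz).2) v ()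
    rw [mean_sq_eq (hw.post _ _ _), ← meanV_dot]
    simp only [indicator_of_notMem hz]
    linarith

theorem cap_alg {a a0 l p s m R L : ℝ} (R1 : 1 ≤ R) (ha : 0 ≤ a) (h0 : a ≤ a0) (hl : 2 * R ^ 3 ≤ l)
    (hp : 0 ≤ p) (hs : 0 ≤ s) (hL : 0 ≤ L) (m0 : 0 ≤ m) (h1 : m ≤ a + l * p + s) (h2 : m ≤ R)
    (h3 : m ≤ L + R * p) : m * m ≤ a ^ 2 + (a0 + R) * s + (a0 + L + 1) * l * p := by
  have l0 : 0 ≤ l := le_trans (by positivity) hl
  have lp : 0 ≤ l * p := by positivity
  rcases le_total (l * p) (R ^ 2) with h | h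
  · have h4 : R * p ≤ 1 := by
      have : R ^ 2 * (R * p) ≤ R ^ 2 * 1 := by nlinarith [mul_le_mul_of_nonneg_right hl hp, pow_pos (one_pos.trans_le R1) 3]
      exact le_of_mul_le_mul_left this (by positivity)
    have e1 := mul_le_mul_of_nonneg_left h1 m0
    have e2 := mul_le_mul_of_nonneg_right h1 ha
    have e3 := mul_le_mul_of_nonneg_right (h3.trans (add_le_add_right h4 L)) lp
    have e4 := mul_le_mul_of_nonneg_right h2 hs
    have e5 := mul_le_mul_of_nonneg_right h0 hs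
    have e6 := mul_le_mul_of_nonneg_right h0 lp
    nlinarith
  · have e1 := mul_le_mul h2 h2 m0 (by linarith)
    have : 0 ≤ (a0 + L) * (l * p) := mul_nonneg (by linarith) lp
    have : 0 ≤ (a0 + R) * s := mul_nonneg (by linarith) hs
    nlinarith

/-- **the cap**: a covariance bound `a1` and a mean bound `L'` at time `τ`, failing with
probability `δ`, give the Riccati bound now at the price `e^{(a0 + a1 + L' + 1) τ} δ` -/
theorem cap (hw : Wt w) (hτ : 0 ≤ τ) (R1 : 1 ≤ R) (hR : Bd φ R) {a1 L' : ℝ} (ha : 0 ≤ a1)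
    (haτ : a1 * τ < 1) (L0 : 0 ≤ L') (hS : (law φ w τ).real S ≤ δ)
    (good : ∀ y ∉ S, CB (post φ w τ y) φ a1 ∧ ∑ i, meanV (post φ w τ y) φ i ^ 2 ≤ L') :
    CB w φ (a1 / (1 - a1 * τ) + 2 * R ^ 3 * exp ((a1 / (1 - a1 * τ) + (a1 + L') + 1) * τ) * δ) := by
  obtain ⟨B, hB, sB, eB⟩ := exists_meas φ w τ S
  replace good := fun y (hy : y ∉ B) => good y fun h => hy (sB h)
  set a0 := a1 / (1 - a1 * τ) with ha0
  set c := a0 + (a1 + L') + 1 with hc
  set a : ℝ → ℝ := fun r => a1 / (1 - a1 * (τ - r)) with hadef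
  set l : ℝ → ℝ := fun r => 2 * R ^ 3 * exp (c * (τ - r)) with hl
  set E : ℕ → ℝ → ℝ := fun k r => R * (((a0 + R) * (τ - r)) ^ k / k.factorial) with hE
  have d0 : ∀ r, 0 ≤ r → 0 < 1 - a1 * (τ - r) := fun r hr => by nlinarith
  have a00 : 0 ≤ a0 := div_nonneg ha (by linarith)
  have c0 : 0 ≤ c := by positivity
  have apos : ∀ r, 0 ≤ r → 0 ≤ a r := fun r hr => div_nonneg ha (d0 r hr).le
  have ale : ∀ r, 0 ≤ r → a r ≤ a0 := fun r hr =>
    div_le_div_of_nonneg_left ha (by linarith) (by nlinarith)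
  have lge : ∀ r, r ≤ τ → 2 * R ^ 3 ≤ l r := fun r hr =>
    le_mul_of_one_le_right (by positivity) (one_le_exp (mul_nonneg c0 (sub_nonneg.2 hr)))
  have Epos : ∀ k r, r ≤ τ → 0 ≤ E k r := fun k r hr => by
    have := sub_nonneg.2 hr
    simp only [hE]; positivity
  have da : ∀ r, 0 ≤ r → HasDerivAt a (-a r ^ 2) r := fun r hr =>
    ((hasDerivAt_const r a1).div ((((hasDerivAt_id' r).const_sub τ).const_mul a1).const_sub 1)
      (d0 r hr).ne').congr_deriv (by simp only [hadef]; field_simp; ring)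
  have dl : ∀ r, HasDerivAt l (-(c * l r)) r := fun r =>
    (((((hasDerivAt_id' r).const_sub τ).const_mul c).exp).const_mul _).congr_deriv
      (by simp only [hl]; ring)
  have dE : ∀ k r, HasDerivAt (E (k + 1)) (-((a0 + R) * E k r)) r := fun k r =>
    ((((((hasDerivAt_id' r).const_sub τ).const_mul (a0 + R)).pow (k + 1)).div_const _).const_mul
      R).congr_deriv (by
        simp only [hE, Nat.factorial_succ, Nat.cast_mul, Nat.add_sub_cancel]
        have : (0 : ℝ) < k.factorial := by positivity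
        push_cast; field_simp)
  have key : ∀ k, ∀ r ∈ Icc 0 τ, ∀ y, CB (post φ w r y) φ (a r + l r * pr φ w τ B r y + E k r) := by
    intro k
    induction k with
    | zero => exact fun r hr y => (hR.cb (hw.post _ _ _)).mono (by
        have := mul_nonneg (le_trans (by positivity) (lge r hr.2)) (pr_nonneg (φ := φ) (τ := τ) (B := B) hw r y)
        have := apos r hr.1
        simp only [hE, pow_zero, Nat.factorial_zero, Nat.cast_one, div_one, mul_one]; linarith)
    | succ k ih =>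
      intro r hr y
      refine CB_iff.2 fun v => ?_
      have hv := hw.post φ r y
      have v0 := dot_self_nonneg v
      have T0 := sub_nonneg.2 hr.2
      set p := pr φ w τ B r y with hp
      have dd : ∀ s, 0 ≤ s → HasDerivAt (fun s => (a (r + s) + l (r + s) * p + E (k + 1) (r + s)) * (v ⬝ᵥ v))
          ((-a (r + s) ^ 2 + -(c * l (r + s)) * p + -((a0 + R) * E k (r + s))) * (v ⬝ᵥ v)) s := fun s hs =>
        ((((da _ (add_nonneg hr.1 hs)).comp_const_add r s).add
          (((dl _).comp_const_add r s).mul_const p)).add ((dE k _).comp_const_add r s)).mul_const _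
      have mono := monotoneOn_of_hasDerivWithinAt_nonneg (convex_Icc 0 (τ - r))
        ((eg_var (φ := φ) hv fun x => v ⬝ᵥ φ x).continuousOn_ex.sub
          fun s hs => (dd s hs.1).continuousAt.continuousWithinAt)
        (fun s hs => ((hasDerivAt_ex_var hv (fun x => v ⬝ᵥ φ x) (by rw [interior_Icc] at hs; exact hs.1)).sub
          (dd s (interior_subset hs).1)).hasDerivWithinAt)
        (fun s hs => by
          have hs' := interior_subset hs
          have s1 : 0 ≤ r + s := add_nonneg hr.1 hs'.1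
          have s2 : r + s ≤ τ := by linarith [hs'.2]
          have := slE_le_aff (φ := φ) (u := s) hv
            ((eg_covV_dot (φ := φ) hv (fun x => v ⬝ᵥ φ x) fun x => v ⬝ᵥ φ x).mg (mem_univ s))
            (mg_pr (φ := φ) (τ := τ) hw hB (r + s) y)
            (a := (a (r + s) ^ 2 + (a0 + R) * E k (r + s)) * (v ⬝ᵥ v)) (c := c * l (r + s) * (v ⬝ᵥ v))
            fun z => by
              simp only [pw, post_post]
              have hq := hw.post φ (r + s) (y + z)
              have q0 := pr_nonneg (φ := φ) (τ := τ) (B := B) hw (r + s) (y + z)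
              have cb := ((ih (r + s) ⟨s1, s2⟩ (y + z)).min (hR.cb hq)).min
                (ceiling hw hB hR (add_nonneg ha L0) good s2 (y + z))
              have l0 : 0 ≤ l (r + s) := le_trans (by positivity) (lge _ s2)
              have m0 : 0 ≤ Min.min (Min.min (a (r + s) + l (r + s) * pr φ w τ B (r + s) (y + z) +
                  E k (r + s)) R) (a1 + L' + R * pr φ w τ B (r + s) (y + z)) := by
                have := apos _ s1
                have := Epos k _ s2
                positivity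
              have h1 := cap_alg R1 (apos _ s1) (ale _ s1) (lge _ s2) q0 (Epos k _ s2)
                (add_nonneg ha L0) m0 ((min_le_left _ _).trans (min_le_left _ _))
                ((min_le_left _ _).trans (min_le_right _ _)) (min_le_right _ _)
              refine ((cb.covV_le hq m0 _).trans (mul_le_mul_of_nonneg_left (cb.var_le v) m0)).trans ?_
              rw [← mul_assoc]
              exact (mul_le_mul_of_nonneg_right h1 v0).trans_eq (by ring)
          rw [pr_markov hw hB hs'.1 s2] at this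
          simp only [ex]
          linarith)
        (left_mem_Icc.2 T0) (right_mem_Icc.2 T0) T0
      have fin := slE_le_aff (φ := φ) (u := τ - r) hv
        ((eg_var (φ := φ) hv fun x => v ⬝ᵥ φ x).mg (mem_univ (τ - r))) (mg_ind hB y)
        (a := a1 * (v ⬝ᵥ v)) (c := R * (v ⬝ᵥ v)) fun z => by
          simp only [pw, post_post, add_sub_cancel]
          by_cases hz : y + z ∈ B
          · have := (hR.cb (hw.post φ τ (y + z))).var_le v
            simp only [indicator_of_mem hz, Pi.one_apply]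
            nlinarith
          · simpa [hz] using (good _ hz).1.var_le v
      have p0 : 0 ≤ p := pr_nonneg hw r y
      have R3 : R ≤ 2 * R ^ 3 := by nlinarith [one_le_pow₀ (n := 2) R1]
      have e1 : a τ = a1 := by simp [hadef]
      have e2 : E (k + 1) τ = 0 := by simp [hE]
      have e3 := mul_le_mul_of_nonneg_right (mul_le_mul_of_nonneg_right (R3.trans (lge τ le_rfl)) p0) v0
      simp only [Pi.sub_apply, ex_pw_zero hv fun q => var q fun x => v ⬝ᵥ φ x, add_zero,
        add_sub_cancel, e1, e2] at mono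
      change ex φ _ (fun q => var (pw φ _ q) fun x => v ⬝ᵥ φ x) _ ≤ _ + _ * p at fin
      nlinarith
  intro v
  have v0 := dot_self_nonneg v
  have lim : Tendsto (fun k => (a 0 + l 0 * pr φ w τ B 0 0 + E k 0) * (v ⬝ᵥ v)) atTop
      (𝓝 ((a 0 + l 0 * pr φ w τ B 0 0 + R * 0) * (v ⬝ᵥ v))) :=
    (tendsto_const_nhds.add ((FloorSemiring.tendsto_pow_div_factorial_atTop _).const_mul R)).mul_const _
  refine (ge_of_tendsto' lim fun k => by simpa only [post_zero] using key k 0 (left_mem_Icc.2 hτ) 0 v).trans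
    (mul_le_mul_of_nonneg_right ?_ v0)
  rw [pr_zero hw hB, eB]
  simp only [hadef, hl, sub_zero, mul_zero, add_zero]
  gcongr

/-! ### one step of variance conservation -/

theorem var_step (hw : Wt w) (hh : 0 ≤ h) (hκ : 0 ≤ κ) (hR : Bd φ R)
    (hP : AP φ w h δ fun v => CB v φ κ) {V : ℝ} (hV : ∀ v, Wt v → var v f ≤ V) :
    var w f ≤ exp (κ * h) * (ex φ w (fun p => var (pw φ w p) f) h + h * (R * V * δ)) := by
  have R0 := hR.nonneg hw
  have V0 := (hw.var_nonneg f).trans (hV w hw)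
  have δ0 := hP.nonneg hh
  have := (ito_var (φ := φ) hw f).ex_lower hw le_rfl hh (eg_var hw f) (κ := fun _ => κ)
    (ε := fun _ => R * V * δ) continuousOn_const continuousOn_const (fun _ _ => hκ)
    (fun _ _ => by positivity) fun r hr => by
      have := ex_le_bad (H := fun p => κ * var (pw φ w p) f)
        (G := fun p => covV (pw φ w p) f φ ⬝ᵥ covV (pw φ w p) f φ) hw (hP r (Ioo_subset_Icc_self hr))
        ((eg_covV_dot hw f f).mg (mem_univ r)) (((eg_var hw f).const_mul _).mg (mem_univ r))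
        (C := R * V) (by positivity) (fun y hy => (not_not.1 hy).covV_le (hw.post _ _ _) hκ f) fun y => by
          have hq := hw.post φ r y
          have := ((hR.cb hq).covV_le hq R0 f).trans (mul_le_mul_of_nonneg_left (hV _ hq) R0)
          have := mul_nonneg hκ (hq.var_nonneg f)
          simp only [pw]; linarith
      rw [ex_const_mul] at this
      rw [ex_neg]
      linarith
  simpa only [ex_pw_zero hw fun q => var q f, mul_comm h κ, intervalIntegral.integral_const, sub_zero,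
    smul_eq_mul] using this

/-- propagation of `Cov ψ ≤ K` ((g2)', and (g1) once the cap is known) -/
theorem cb_prop (hw : Wt w) (hh : 0 ≤ h) (hκ : 0 ≤ κ) (hR : Bd φ R) (hR' : Bd ψ R')
    (hP : AP φ w h δ fun v => CB v φ κ) {K : ℝ} (K0 : 0 ≤ K) (hS : (law φ w h).real S ≤ δ)
    (good : ∀ y ∉ S, CB (post φ w h y) ψ K) : CB w ψ (exp (κ * h) * (K + (1 + h * R) * R' * δ)) :=
  CB_iff.2 fun v => by
  have v0 := dot_self_nonneg v
  have R0 := hR'.nonneg hw
  have h1 := var_step hw hh hκ hR hP fun q hq => (hR'.cb hq).var_le v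
  have h2 := ex_le_bad' (G := fun p => var (pw φ w p) fun x => v ⬝ᵥ ψ x) hw hS
    ((eg_var hw _).mg (mem_univ h)) (a := K * (v ⬝ᵥ v)) (C := R' * (v ⬝ᵥ v)) (by positivity)
    (by positivity) (fun y hy => (good y hy).var_le v) fun y => (hR'.cb (hw.post _ _ _)).var_le v
  refine h1.trans ?_
  rw [mul_assoc (exp _)]
  exact mul_le_mul_of_nonneg_left (by nlinarith) (exp_pos _).le

/-! ### `tr C²` and the mean -/

theorem eg_msq {I : Set ℝ} (hw : Wt w) : EG I fun p => ∑ j, meanV (pw φ w p) ψ j ^ 2 :=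
  .sum _ fun _ _ => (eg_mean hw _).pow 2

theorem ito_msq {I : Set ℝ} (hw : Wt w) : ∃ b, Ito (md φ w) I (fun p => ∑ j, meanV (pw φ w p) ψ j ^ 2)
    (fun p => T2 (pw φ w p) ψ φ 0) b :=
  ⟨_, (Ito.sum Finset.univ fun j _ => (ito_mean hw fun x => ψ x j).pow 2).congr
    (fun p _ => by simp [T2, covV]) fun _ _ _ => rfl⟩

/-- `|m|²` is a submartingale -/
theorem ex_msq_mono (hw : Wt w) (hu : 0 ≤ u) (huh : u ≤ h) :
    ex φ w (fun p => ∑ j, meanV (pw φ w p) ψ j ^ 2) u ≤
      ex φ w (fun p => ∑ j, meanV (pw φ w p) ψ j ^ 2) h :=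
  (ito_msq hw).choose_spec.ex_mono hw hu huh (eg_msq hw) fun _ _ => ex_nonneg hw fun _ => T2_nonneg _

theorem msq_le (hw : Wt w) (hh : 0 ≤ h) :
    ∑ j, meanV w ψ j ^ 2 ≤ ex φ w (fun p => ∑ j, meanV (pw φ w p) ψ j ^ 2) h := by
  simpa only [ex_pw_zero hw fun q => ∑ j, meanV q ψ j ^ 2] using ex_msq_mono (φ := φ) (ψ := ψ) hw le_rfl hh

theorem trC3_le (hC : CB w φ κ) : ∑ j, ∑ l, cov w (fun x => ψ x j) (fun x => φ x l) *
    (covV w (fun x => ψ x j) φ ⬝ᵥ covV w (fun x => φ x l) φ) ≤ κ * T2 w ψ φ 0 := by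
  simp only [T2, Pi.zero_apply, sub_zero]
  rw [Finset.mul_sum]
  refine Finset.sum_le_sum fun j _ => ?_
  simpa only [dotProduct, mulVec, covV, covMat, sq, mul_comm] using hC (covV w (fun x => ψ x j) φ)

/-- the drift of `|Cov(ψ, φ)|_F²` -/
def dT2 (φ : Ω → ι → ℝ) (w : Ω → ℝ) (ψ : Ω → J → ℝ) : ℝ :=
  T3 w ψ φ φ - 2 * ∑ j, ∑ l, cov w (fun x => ψ x j) (fun x => φ x l) *
    (covV w (fun x => ψ x j) φ ⬝ᵥ covV w (fun x => φ x l) φ)

theorem dT2_ge (hC : CB w φ κ) : -dT2 φ w ψ ≤ 2 * κ * T2 w ψ φ 0 := by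
  have := trC3_le (ψ := ψ) hC
  have := T3_nonneg (w := w) (ψ := ψ) (χ := φ) (ρ := φ)
  rw [dT2]; linarith

theorem ito_T2 {I : Set ℝ} (hw : Wt w) : ∃ b, Ito (md φ w) I (fun p => T2 (pw φ w p) ψ φ 0)
    (fun p => dT2 φ (pw φ w p) ψ) b := by
  simp only [T2, Pi.zero_apply, sub_zero]
  refine ⟨_, (Ito.sum Finset.univ fun j _ => Ito.sum Finset.univ fun l _ =>
    (ito_cov hw (fun x => ψ x j) fun x => φ x l).pow 2).congr (fun p _ => ?_) fun _ _ _ => rfl⟩
  simp only [dT2, T3, Finset.mul_sum _ _ (2 : ℝ), ← Finset.sum_sub_distrib]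
  exact Finset.sum_congr rfl fun j _ => Finset.sum_congr rfl fun l _ => by push_cast; ring

/-- `tr C² ≤ e^{2 κ h} (E|m_h|² / h + …)` -/
theorem trC2_le (hw : Wt w) (hh : 0 < h) (hκ : 0 ≤ κ) (hR : Bd φ R) (hP : AP φ w h δ fun v => CB v φ κ)
    (hm : ex φ w (fun p => ∑ j, meanV (pw φ w p) φ j ^ 2) h ≤ α) :
    T2 w φ φ 0 ≤ exp (2 * κ * h) * (α / h + h * (32 * R ^ 3 * δ)) := by
  have R0 := hR.nonneg hw
  have δ0 := hP.nonneg hh.le
  have h1 : ∀ u ∈ Icc 0 h, T2 w φ φ 0 ≤ exp (2 * κ * h) *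
      (ex φ w (fun p => T2 (pw φ w p) φ φ 0) u + h * (32 * R ^ 3 * δ)) := fun u hu => by
    have := (ito_T2 (ψ := φ) hw).choose_spec.ex_lower hw le_rfl hu.1 (eg_T2 hw 0) (κ := fun _ => 2 * κ)
      (ε := fun _ => 32 * R ^ 3 * δ) continuousOn_const continuousOn_const (fun _ _ => by positivity)
      (fun _ _ => by positivity) fun r hr => by
        have m := ((ito_T2 (φ := φ) (ψ := φ) hw).choose_spec.eg_a (eg_md hw)).mg (mem_univ r)
        have := ex_le_bad (G := fun p => -dT2 φ (pw φ w p) φ) (H := fun p => 2 * κ * T2 (pw φ w p) φ φ 0)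
          hw (hP r ⟨hr.1.le, hr.2.le.trans hu.2⟩) m.neg (((eg_T2 hw 0).const_mul _).mg (mem_univ r))
          (C := 32 * R ^ 3) (by positivity) (fun y hy => dT2_ge (not_not.1 hy)) fun y => by
            have hq := hw.post φ r y
            have h2 := dT2_ge (ψ := φ) (hR.cb hq)
            have h3 := mul_le_mul_of_nonneg_left (T2_crude hq hR hR) R0
            have h4 := mul_nonneg hκ (T2_nonneg (w := post φ w r y) (ψ := φ) (χ := φ) 0)
            simp only [pw]
            nlinarith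
        rw [ex_neg, ex_const_mul] at this
        linarith
    simp only [ex_pw_zero hw fun q => T2 q φ φ 0, intervalIntegral.integral_const, sub_zero,
      smul_eq_mul] at this
    refine this.trans (mul_le_mul (exp_le_exp.2 (by nlinarith [hu.2])) (by gcongr; exact hu.2) ?_
      (exp_pos _).le)
    have := hu.1
    have := ex_nonneg (φ := φ) (t := u) (G := fun p => T2 (pw φ w p) φ φ 0) hw fun _ => T2_nonneg _
    positivity
  obtain ⟨b, hb⟩ := ito_msq (φ := φ) (ψ := φ) (I := Icc 0 h) hw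
  have h2 := hb.ex_sub' hw le_rfl hh.le
  have h3 := intervalIntegral.integral_mono_on hh.le (intervalIntegrable_const (μ := volume)
    (c := T2 w φ φ 0 / exp (2 * κ * h) - h * (32 * R ^ 3 * δ)))
    ((eg_T2 (φ := φ) (ψ := φ) (χ := φ) hw 0).continuousOn_ex.intervalIntegrable_of_Icc hh.le)
    fun u hu => sub_le_iff_le_add.2 ((div_le_iff₀' (exp_pos _)).2 (h1 u hu))
  have h4 := ex_nonneg (φ := φ) (t := 0) (G := fun p => ∑ j, meanV (pw φ w p) φ j ^ 2) hw
    fun _ => by positivity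
  rw [← h2, intervalIntegral.integral_const, sub_zero, smul_eq_mul] at h3
  rw [← div_le_iff₀' (exp_pos _), ← sub_le_iff_le_add, le_div_iff₀' hh]
  linarith

theorem int_four (i : ι) : ∫ z, z i ^ 4 ∂Gs ι = 3 := by
  have h1 := stein (I := univ) ((EG.coord i).pow 3) (((EG.coord i).pow 2).const_mul 3) (mem_univ 0) i
    fun y => by simpa using hasDerivAt_pow 3 (y i)
  have h2 := int_dot_sq (Pi.single i (1 : ℝ))
  simp only [single_dotProduct, one_mul, Pi.single_eq_same] at h2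
  simp only [integral_const_mul, h2, ← pow_succ'] at h1
  simpa using h1

theorem mg_nsq : MG fun y : ι → ℝ => ∑ i, y i ^ 2 :=
  (EG.sum (I := univ) _ fun i _ => (EG.coord i).pow 2).mg (mem_univ 0)

theorem ex_norm4 (hw : Wt w) (hh : 0 ≤ h) (hR : Bd φ R) : ex φ w (fun p => (∑ i, p.2 i ^ 2) ^ 2) h ≤
    8 * h ^ 4 * R ^ 2 + 24 * h ^ 2 * (Fintype.card ι : ℝ) ^ 2 := by
  refine hw.mean_le fun x => ?_
  have m4 : ∀ i, Integrable (fun z : ι → ℝ => z i ^ 4) (Gs ι) := fun i =>
    (((EG.coord (I := univ) i).pow 4).mg (mem_univ 0)).int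
  have i2 := ((integrable_finsetSum Finset.univ fun i _ => m4 i).const_mul
    (8 * h ^ 2 * (Fintype.card ι : ℝ)))
  refine (integral_mono (g := fun z => 8 * h ^ 4 * R ^ 2 + 8 * h ^ 2 * (Fintype.card ι : ℝ) * ∑ i, z i ^ 4)
    (by simpa only [sq (∑ _, _)] using ((mg_nsq.mul mg_nsq).affine (h • φ x) √h).int)
    ((integrable_const _).add i2) fun z => ?_).trans_eq ?_
  · have h1 : ∑ i, (h • φ x + √h • z) i ^ 2 ≤ 2 * h ^ 2 * R + 2 * h * ∑ i, z i ^ 2 := by
      refine (Finset.sum_le_sum (g := fun i => 2 * h ^ 2 * φ x i ^ 2 + 2 * h * z i ^ 2) fun i _ => ?_).trans ?_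
      · have := sq_sqrt hh
        simp only [Pi.add_apply, Pi.smul_apply, smul_eq_mul]
        nlinarith [sq_nonneg (h * φ x i - √h * z i)]
      · rw [Finset.sum_add_distrib, ← Finset.mul_sum, ← Finset.mul_sum]
        have := hR x
        gcongr
    have h2 : (∑ i, z i ^ 2) ^ 2 ≤ (Fintype.card ι : ℝ) * ∑ i, z i ^ 4 := by
      have e : ∀ i, z i ^ 4 = (z i ^ 2) ^ 2 := fun i => by ring
      simpa only [e, Finset.card_univ] using sq_sum_le_card_mul_sum_sq (s := Finset.univ)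
        (f := fun i => z i ^ 2)
    have h3 := pow_le_pow_left₀ (by positivity) h1 2
    have h4 := mul_le_mul_of_nonneg_left h2 (show 0 ≤ 8 * h ^ 2 by positivity)
    simp only
    nlinarith [sq_nonneg (2 * h ^ 2 * R - 2 * h * ∑ i, z i ^ 2)]
  · rw [integral_add (integrable_const _) i2, integral_const_mul (8 * h ^ 2 * _),
      integral_finsetSum _ fun i _ => m4 i]
    simp [int_four]; ring

/-- (g5)': propagation of the residual `|E ψ - y₀ - y|²` (`ψ = A φ`) and of `|m|²` -/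
theorem res_prop {ψ : Ω → ι → ℝ} (hw : Wt w) (hh : 0 ≤ h) (hR : Bd φ R) (hR' : Bd ψ R') (y0 : ι → ℝ)
    (α0 : 0 ≤ α) (β0 : 0 ≤ β) (hS : (law φ w h).real S ≤ δ)
    (good : ∀ y ∉ S, ∑ j, (meanV (post φ w h y) ψ j - (y0 + y) j) ^ 2 ≤ α ∧
      ∑ j, meanV (post φ w h y) φ j ^ 2 ≤ β) :
    √(∑ j, (meanV w ψ j - y0 j) ^ 2) ≤ √(α + √(27 * (R' ^ 2 + (∑ j, y0 j ^ 2) ^ 2 + 8 * h ^ 4 * R ^ 2 +
      24 * h ^ 2 * (Fintype.card ι : ℝ) ^ 2) * δ)) + h * √(β + R * δ) ∧
    ∑ j, meanV w φ j ^ 2 ≤ β + R * δ := by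
  have h1 := ex_le_bad' (G := fun p => ∑ j, meanV (pw φ w p) φ j ^ 2) hw hS ((eg_msq hw).mg (mem_univ h))
    β0 (hR.nonneg hw) (fun y hy => (good y hy).2) fun y => hR.meanV_le (hw.post _ _ _)
  refine ⟨?_, (msq_le hw hh).trans h1⟩
  have it := fun I j => (ito_mean (φ := φ) (I := I) hw fun x => ψ x j).sub (.coord j)
  have m : MG fun y => ∑ j, (meanV (pw φ w (h, y)) ψ j - y j - y0 j) ^ 2 :=
    (EG.sum _ fun j _ => ((it univ j).eg.sub (.const (y0 j))).pow 2).mg (mem_univ h)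
  have := fp hw hh (it _) (c := y0) (β := β + R * δ) (ex_le_bad2
    (G := fun p => ∑ j, (meanV (pw φ w p) ψ j - p.2 j - y0 j) ^ 2) hw hS m α0
    (fun y hy => by simpa only [Pi.add_apply, sub_sub, add_comm] using (good y hy).1)
    (C := 27 * (R' ^ 2 + (∑ j, y0 j ^ 2) ^ 2 + 8 * h ^ 4 * R ^ 2 + 24 * h ^ 2 * (Fintype.card ι : ℝ) ^ 2)) ?_)
    fun u hu => by simpa only [zero_sub, neg_sq, md] using (ex_msq_mono hw hu.1.le hu.2.le).trans h1
  · simpa [pw, post_zero, meanV] using this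
  have m2 : MG fun y : ι → ℝ => (∑ i, y i ^ 2) ^ 2 := by simpa only [sq (∑ _, _)] using mg_nsq.mul mg_nsq
  refine (slE_le_aff hw (by simpa only [sq (∑ _, _)] using m.mul m) m2
    (a := 27 * (R' ^ 2 + (∑ j, y0 j ^ 2) ^ 2)) (c := 27) fun y => ?_).trans
    (by have := ex_norm4 hw hh hR; simp only [ex] at this; linarith)
  have h2 := hR'.meanV_le (hw.post φ h y)
  have h3 : ∑ j, (meanV (post φ w h y) ψ j - y j - y0 j) ^ 2 ≤ 3 * (R' + ∑ j, y0 j ^ 2 + ∑ j, y j ^ 2) := by
    refine (Finset.sum_le_sum (g := fun j => 3 * (meanV (post φ w h y) ψ j ^ 2 + y0 j ^ 2 + y j ^ 2))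
      fun j _ => ?_).trans ?_
    · nlinarith [sq_nonneg (meanV (post φ w h y) ψ j + y j), sq_nonneg (meanV (post φ w h y) ψ j + y0 j),
        sq_nonneg (y j - y0 j)]
    · rw [← Finset.mul_sum, Finset.sum_add_distrib, Finset.sum_add_distrib]; linarith
  have h4 := pow_le_pow_left₀ (by positivity) h3 2
  simp only [pw]
  nlinarith [sq_nonneg (R' - ∑ j, y0 j ^ 2), sq_nonneg (R' - ∑ j, y j ^ 2),
    sq_nonneg (∑ j, y0 j ^ 2 - ∑ j, y j ^ 2)]

end Crest.Agent.T157.Ks
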