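import Crest.Agent.T157.AtD_39
import Crest.Agent.T157.Glue_34
import Crest.Agent.T157.KsC_5

/-!
# Row 157, block S3 (helper39): approximate tensorisation at a typical field of the localisation
-/

set_option autoImplicit false
set_option linter.unusedSectionVars false

noncomputable section

namespace Crest.Agent.T157.Atd

open MeasureTheory Set Real Matrix Filter Topology
open Crest.ProbabilityR.SpinGlassDynamics
open Crest.Agent.T157.E Crest.Agent.T157.SL Crest.Agent.T157.Tap Crest.Agent.T157.Top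
open Crest.Agent.T157.Glue Crest.Agent.T157.Ks
open Crest.Agent.T157.Eig (nrm opn nrm_nonneg nrm_add_le nrm_smul nrm_sub_le dot_le continuous_nrm)

variable {n : ℕ} {w : Cube n → ℝ} {J : Mx n}

/-- `ATd` on a ball of fields around a typical point of the localisation -/
def ATy (w : Cube n → ℝ) (S K ρ δ : ℝ) : Prop := ∀ r ∈ Icc 0 S,
  (law sv w r).real {y | ¬ ∀ v : V n, nrm v ≤ ρ → ATd (tilt w (y + v)) K δ} ≤ δ

def ATyG : Prop := ∀ β ∈ Ioo (0 : ℝ) 1, ∀ S : ℝ, ∃ K > (0 : ℝ), ∃ ρ > (0 : ℝ), ∃ κ > (0 : ℝ),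
  Whp GOE fun n W => ATy (ising (β • W) 0) S K (ρ * √n) (exp (-(κ * n)))

def ATyStmt : Prop := ∀ β ∈ Ioo (0 : ℝ) 1, ∀ S : ℝ, ∃ K > (0 : ℝ), ∃ ρ > (0 : ℝ), ∃ κ > (0 : ℝ),
  Whp disorderLaw fun n g => ATy (gibbsWeight n β g) S K (ρ * √n) (exp (-(κ * n)))

theorem tilt_tilt (v : Cube n → ℝ) (y z : V n) : tilt (tilt v y) z = tilt v (y + z) := by
  ext x; simp only [tilt, add_dotProduct, exp_add, mul_assoc]

theorem tilt_pos (hw : ∀ x, 0 < w x) (y : V n) (x : Cube n) : 0 < tilt w y x :=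
  mul_pos (hw x) (exp_pos _)

theorem atd_congr {v : Cube n → ℝ} (hw : ∀ x, 0 < w x) (hv : ∀ x, 0 < v x) (h : prob w = prob v)
    (K δ : ℝ) : ATd w K δ ↔ ATd v K δ := by
  have e : ∀ F i, Ent.entS w F i = Ent.entS v F i := fun F i => by
    rw [← GoeT.entS_prob (GoeT.sum_pos hw).ne', ← GoeT.entS_prob (GoeT.sum_pos hv).ne', h]
  simp only [ATd, GoeT.ent_congr_prob h, e]

theorem aty_prob (hw : ∀ x, 0 < w x) (S K ρ δ : ℝ) : ATy (prob w) S K ρ δ ↔ ATy w S K ρ δ := by
  have h0 := (GoeT.sum_pos hw).ne'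
  simp only [ATy, GoeT.law_prob h0, atd_congr (tilt_pos (GoeT.prob_pos hw) _) (tilt_pos hw _)
    (GoeT.prob_tilt_prob h0 _)]

/-- the deterministic step -/
theorem atd_det (hJ : Jᵀ = J) (hJ3 : opn J ≤ 3) {M T η K ρ C δ : ℝ} (hM : 0 ≤ M) (hT : 0 ≤ T)
    (hC : 0 ≤ C) (h1 : 48 + 2 * C ≤ η * T) (h2 : 16 ≤ η ^ 2 * T)
    (fro : ∀ t ∈ Icc (0 : ℝ) 1, ∀ (σ : Cube n) (y : V n), nrm (y - T • sv σ) ≤ η * T * √n →
      ∀ u : V n, u ⬝ᵥ covM (ising ((1 - t) • J) y) *ᵥ u ≤ M * (u ⬝ᵥ u))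
    (hK : 0 < K) (hρ : 4 ≤ K * ρ) (δ0 : 0 ≤ δ) (h : V n) (hh : nrm h ≤ C * √n)
    (cov : ∀ r ∈ Ioo 0 T, (law sv (ising J h) r).real
      {z | ¬ CovOK (ising J h) K (ρ * √n) z} ≤ δ) :
    ATd (ising J h) (exp (T * K) * exp (6 * M + 2))
      (exp (T * K) * (exp (6 * M + 2) * (96 * n * exp (-(n / 2))) + T * (8 * n * δ))) :=
  fun F hF c B hB => by
  have hw : ∀ x, 0 < ising J h x := fun _ => exp_pos _
  have hW := wt_ising J h
  have B0 : 0 ≤ B := (sq_nonneg _).trans (hB default)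
  have hA : MeasurableSet {y : V n | ∀ σ : Cube n, η * T / 2 * √n < nrm (y - T • sv σ)} := by
    rw [ofPred_forall]
    exact .iInter fun σ => measurableSet_lt measurable_const
      (continuous_nrm.comp (by fun_prop)).measurable
  have sn := sqrt_nonneg (n : ℝ)
  have e1 := field_ent hw hF le_rfl hT hK hρ (ε := 8 * n * δ * B) (by positivity) c fun r hr => by
    have := (mean_px_le (φ := sv) (s := r) hW (measurableSet_covOK hw K (ρ * √n)) hB).trans
      (mul_le_mul_of_nonneg_left (cov r hr) B0)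
    nlinarith [mul_le_mul_of_nonneg_left this (by positivity : (0 : ℝ) ≤ 8 * n)]
  rw [ex_pw_zero hW fun u => ent u F, sub_zero] at e1
  have e2 := term_ent hJ hJ3 h hF hM hT hA (fun y hy t ht h' hh' => by
    obtain ⟨σ, hσ⟩ := not_forall.1 hy
    refine fro t ht σ h' ?_
    have a1 := nrm_add_le (h' - (h + y)) (h + (y - T • sv σ))
    have a2 := nrm_add_le h (y - T • sv σ)
    rw [show h' - (h + y) + (h + (y - T • sv σ)) = h' - T • sv σ by abel] at a1
    nlinarith [not_lt.1 hσ, mul_le_mul_of_nonneg_right h1 sn]) c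
  have h3 := mean_px_le_of hW (k := fun x => (√(F x) - c) ^ 2)
    (fun x => (px_le (φ := sv) (t := T) hA x fun z hz => (?_ : 2 * √n ≤ nrm z)).trans (nrm_tail n))
    fun _ => sq_nonneg _
  · have h4 := mul_le_mul_of_nonneg_left (hW.mean_le hB) (exp_pos (-(n / 2 : ℝ))).le
    have h5 := mul_le_mul_of_nonneg_left h4 (by positivity : (0 : ℝ) ≤ 48 * n)
    have h6 := mul_le_mul_of_nonneg_left (h3.trans h4) (by positivity : (0 : ℝ) ≤ 48 * n)
    refine e1.trans (le_of_le_of_eq (mul_le_mul_of_nonneg_left (add_le_add (e2.trans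
      (mul_le_mul_of_nonneg_left (?_ : _ ≤ ∑ i, Ent.entS (ising J h) F i +
        96 * n * exp (-(n / 2)) * B) (exp_pos _).le)) le_rfl) (exp_pos _).le) (by ring))
    linarith
  · have h4 := hz x
    rw [add_sub_cancel_left, nrm_smul, abs_of_nonneg (sqrt_nonneg _)] at h4
    have η0 : 0 < η := by
      by_contra h; nlinarith [mul_nonneg (neg_nonneg.2 (not_lt.1 h)) hT]
    have h5 : 4 ≤ η * √T := by
      refine le_of_sq_le_sq ?_ (by positivity)
      rw [mul_pow, sq_sqrt hT]; linarith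
    by_contra h6
    have h7 := mul_le_mul_of_nonneg_left (not_le.1 h6).le (sqrt_nonneg T)
    have h8 := mul_le_mul_of_nonneg_right h5 (mul_nonneg (sqrt_nonneg T) sn)
    have h9 : η * √T * (√T * √n) = η * T * √n := by
      rw [mul_assoc, ← mul_assoc (√T), mul_self_sqrt hT, mul_assoc]
    linarith

/-- moving the time to a grid point and the field to the centre of the ball -/
theorem cov_shift (hw : ∀ x, 0 < w x) {K ρ ρ' ρ1 τ r r' : ℝ} (h0 : 0 ≤ r') (h1 : r' ≤ r)
    (h2 : r ≤ r' + τ) (hρ : ρ1 + ρ' + τ + 2 * √τ ≤ ρ) (y v : V n) (hv : nrm v ≤ ρ1 * √n) :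
    (law sv (tilt w (y + v)) r).real {z | ¬ CovOK (tilt w (y + v)) K (ρ' * √n) z} ≤
      exp (-(n / 2)) + exp (2 * ρ1 * n) *
        (law sv (tilt w y) r').real {z | y + z ∈ {u | ¬ CovOK w K (ρ * √n) u}} := by
  have hA := measurableSet_covOK (tilt_pos hw (y + v)) K (ρ' * √n)
  have hA' : MeasurableSet {z : V n | y + z ∈ {u | ¬ CovOK w K (ρ * √n) u}} :=
    (measurableSet_covOK hw K (ρ * √n)).preimage (by fun_prop)
  have hW := Wt.of_pos (tilt_pos hw (y + v))
  have sn := sqrt_nonneg (n : ℝ)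
  rw [law_real hW hA, law_real (.of_pos (tilt_pos hw y)) hA']
  set A' := {z : V n | y + z ∈ {u | ¬ CovOK w K (ρ * √n) u}} with eA
  refine (hW.mean_mono (g := fun x => exp (-(n / 2)) + px sv r' A' x) fun x => ?_).trans ?_
  · rw [px, px, map_measureReal_apply (by fun_prop) hA, map_measureReal_apply (by fun_prop) hA']
    refine le_trans (measureReal_mono (s₂ := {z | 2 * √n ≤ nrm z} ∪ _) fun z hz => ?_)
      ((measureReal_union_le _ _).trans (add_le_add (nrm_tail n) le_rfl))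
    by_contra hn
    simp only [eA, mem_union, mem_ofPred_eq, mem_preimage, not_or, not_le, not_not] at hn hz
    refine hz fun u hu => ?_
    rw [tilt_tilt, show y + v + (r • sv x + √r • z + u) = y + (r' • sv x + √r' • z) +
      (v + u + (r - r') • sv x + (√r - √r') • z) by simp only [sub_smul]; abel]
    refine hn.2 _ ?_
    have a1 := nrm_add_le (v + u + (r - r') • sv x) ((√r - √r') • z)
    have a2 := nrm_add_le (v + u) ((r - r') • sv x)
    have a3 := nrm_add_le v u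
    have s1 : √r' ≤ √r := sqrt_le_sqrt h1
    have s2 : √r ≤ √r' + √τ := (sqrt_le_sqrt h2).trans (by
      refine sqrt_le_iff.2 ⟨by positivity, ?_⟩
      nlinarith [sq_sqrt h0, sq_sqrt (by linarith : 0 ≤ τ),
        mul_nonneg (sqrt_nonneg r') (sqrt_nonneg τ)])
    rw [nrm_smul, abs_of_nonneg (sub_nonneg.2 s1)] at a1
    rw [nrm_smul, abs_of_nonneg (sub_nonneg.2 h1), nrm_sv] at a2
    have a4 := mul_le_mul (by linarith : √r - √r' ≤ √τ) hn.1.le (nrm_nonneg z) (sqrt_nonneg τ)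
    have a5 := mul_le_mul_of_nonneg_right (by linarith : r - r' ≤ τ) sn
    nlinarith [mul_le_mul_of_nonneg_right hρ sn]
  · rw [mean_add, hW.mean_const]
    refine add_le_add le_rfl (Ent.mean_le_of_le (fun x => ?_) px_nonneg)
    rw [← tilt_tilt]
    refine Ent.prob_mul_exp_le (tilt_pos hw y) (U := fun x => v ⬝ᵥ sv x) (fun a b => ?_) x
    have a1 := dot_le v (sv a - sv b)
    have a2 := nrm_sub_le (sv a) (sv b)
    rw [nrm_sv, nrm_sv] at a2
    rw [← dotProduct_sub]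
    have a3 := mul_le_mul hv a2 (nrm_nonneg _) ((nrm_nonneg v).trans hv)
    have a4 : ρ1 * √n * (√n + √n) = 2 * ρ1 * (√n * √n) := by ring
    rw [mul_self_sqrt n.cast_nonneg] at a4
    linarith

/-- Markov's inequality for the conditional probability of a future set of fields -/
theorem law_inh (hw : Wt w) {s τ δ : ℝ} (hs : 0 ≤ s) (hτ : 0 ≤ τ) {B : Set (V n)}
    (hB : MeasurableSet B) (h0 : 0 < δ) :
    (law sv w s).real {y | δ < (law sv (tilt w y) τ).real {z | y + z ∈ B}} ≤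
      (law sv w (s + τ)).real B / δ := by
  have m : MG fun y => pr sv w (s + τ) B s y := by simpa using mg_pr (φ := sv) (τ := s + τ) hw hB s 0
  have mA : MeasurableSet {y | δ < pr sv w (s + τ) B s y} := measurableSet_lt measurable_const m.meas
  have := isProb_law (φ := sv) (s := s) hw
  refine (measureReal_mono (s₂ := {y | δ < pr sv w (s + τ) B s y}) fun y hy => ?_).trans ?_
  · have hq := hw.post sv s y
    have hB' : MeasurableSet {z | y + z ∈ B} := hB.preimage (by fun_prop)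
    refine (show δ < (law sv (tilt w y) τ).real {z | y + z ∈ B} from hy).trans_eq ?_
    rw [← GoeT.law_congr_prob (prob_post_sv w s y), ← ex_ind hq hB', pr, add_sub_cancel_left]; rfl
  · rw [← ex_ind hw mA, le_div_iff₀' h0, ← ex_const_mul]
    have e := pr_markov (φ := sv) (r := 0) hw hB hs (by linarith : 0 + s ≤ s + τ) 0
    simp only [post_zero, zero_add, pr_zero hw hB] at e
    refine (ex_mono (H := fun p => pr sv w (s + τ) B s p.2) hw
      (((MG.const 1).indicator mA).const_mul _) m fun y => ?_).trans e.le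
    by_cases hy : δ < pr sv w (s + τ) B s y
    · simpa [hy] using hy.le
    · simpa [hy] using pr_nonneg hw s y

theorem law_nrm (hw : Wt w) {s : ℝ} (hs : 0 ≤ s) :
    (law sv w s).real {y | (s + 2 * √s) * √n < nrm y} ≤ exp (-(n / 2)) := by
  have hA : MeasurableSet {y : V n | (s + 2 * √s) * √n < nrm y} :=
    measurableSet_lt measurable_const continuous_nrm.measurable
  rw [law_real hw hA]
  refine hw.mean_le fun x => (px_le hA x fun z hz => ?_).trans (nrm_tail n)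
  have a1 := nrm_add_le (s • sv x) (√s • z)
  rw [nrm_smul, nrm_smul, abs_of_nonneg hs, abs_of_nonneg (sqrt_nonneg s), nrm_sv] at a1
  simp only [mem_ofPred_eq] at hz ⊢
  by_contra h
  nlinarith [mul_le_mul_of_nonneg_left (not_le.1 h).le (sqrt_nonneg s)]

theorem atyG_of (hU : UFStmt) (hF : FrzStmt) (hZ : FrozStmt) (hC : CovStmt) : ATyG := fun β hβ S => by
  have hβ' : β ∈ Icc (0 : ℝ) 1 := Ioo_subset_Icc_self hβ
  obtain ⟨K₀, hU⟩ := hU β hβ' (1 / 2) (by norm_num)
  obtain ⟨ε, hε, hF⟩ := hF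
  obtain ⟨η, hη, T0, M, hZ⟩ := hZ ε hε K₀
  set C := |S| + 2 * √S + 1 with hCd
  have C0 : 0 ≤ C := by positivity
  obtain ⟨T, hT0, hT1, hT2, hT3⟩ : ∃ T, T0 ≤ T ∧ 0 ≤ T ∧ 48 + 2 * C ≤ η * T ∧ 16 ≤ η ^ 2 * T :=
    ⟨max (max T0 0) (max ((48 + 2 * C) / η) (16 / η ^ 2)), by simp, by simp,
      (div_le_iff₀' hη).1 (by simp), (div_le_iff₀' (pow_pos hη 2)).1 (by simp)⟩
  obtain ⟨K, ρ, hρ, κ, hκ, hC⟩ := hC β ⟨hβ.1, hβ.2.le⟩ 0 le_rfl (Or.inl hβ.2) (S + T)
  set K₁ := max K (4 / (ρ / 4))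
  have k1 : 4 / (ρ / 4) ≤ K₁ := le_max_right _ _
  have K0 : 0 < K₁ := lt_of_lt_of_le (by positivity) k1
  obtain ⟨ρ1, r0, r1, r2, r3⟩ : ∃ ρ1 > (0 : ℝ), ρ1 ≤ ρ / 4 ∧ ρ1 ≤ κ / 8 ∧ ρ1 ≤ 1 :=
    ⟨min (ρ / 4) (min (κ / 8) 1), by positivity, by simp, by simp, by simp⟩
  obtain ⟨τ, t0, t1, t2⟩ : ∃ τ > (0 : ℝ), τ ≤ ρ / 4 ∧ √τ ≤ ρ / 8 :=
    ⟨min (ρ / 4) ((ρ / 8) ^ 2), by positivity, by simp,
      sqrt_le_iff.2 ⟨by positivity, by simp⟩⟩
  set N := ⌊T / τ⌋₊
  set a := exp (T * K₁)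
  set b := exp (6 * max M 0 + 2)
  set k := min (1 / 2) (κ / 4)
  have k0 : 0 < k := lt_min (by norm_num) (by positivity)
  refine ⟨a * b, by positivity, ρ1, r0, k / 2, by positivity, ?_⟩
  refine ((((hU.and hF).and hC).and whp_opn).and whp_symm).mono ?_
  filter_upwards [eventually_gt_atTop 0, ev_small (a * (b * 96 + T * 16)) k0,
    ev_small (N + 2) k0] with n hn hn' hn'' W ⟨⟨⟨⟨h1, h2⟩, h3⟩, h4⟩, h5⟩ s hs
  have hw : ∀ x, 0 < ising (β • W) 0 x := fun _ => exp_pos _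
  have hW := Wt.of_pos hw
  have n0 : (0 : ℝ) ≤ n := n.cast_nonneg
  have n1 : (1 : ℝ) ≤ n := by exact_mod_cast hn
  have sn := sqrt_nonneg (n : ℝ)
  have e1 : exp (-(n / 2 : ℝ)) ≤ exp (-(k * n)) := exp_le_exp.2 (by
    linarith [mul_le_mul_of_nonneg_right (min_le_left (1 / 2) (κ / 4)) n0])
  have e2 : exp (-(κ / 4 * n)) ≤ exp (-(k * n)) := exp_le_exp.2 (by
    linarith [mul_le_mul_of_nonneg_right (min_le_right (1 / 2) (κ / 4)) n0])
  have := isProb_law (φ := sv) (s := s) hW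
  set Bd := {u : V n | ¬ CovOK (ising (β • W) 0) K (ρ * √n) u}
  refine le_trans (measureReal_mono (s₂ := {y | (s + 2 * √s) * √n < nrm y} ∪
    ⋃ j ∈ Finset.range (N + 1), {y | exp (-(κ / 2 * n)) <
      (law sv (tilt (ising (β • W) 0) y) (j * τ)).real {z | y + z ∈ Bd}}) fun y hy => ?_) ?_
  · by_contra hn
    simp only [mem_union, mem_iUnion, mem_ofPred_eq, not_or, not_exists, not_lt] at hn
    refine hy fun v hv => ?_
    have hw' := tilt_pos hw (y + v)
    have e : tilt (ising (β • W) 0) (y + v) = ising (β • W) (y + v) := by rw [tilt_ising, zero_add]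
    rw [e] at hw' ⊢
    refine (atd_det (J := β • W) (M := max M 0) (ρ := ρ / 4) (δ := 2 * exp (-(k * n)))
      (by rw [transpose_smul, h5]) (by
        rw [Eig.opn_smul, abs_of_pos hβ.1]; nlinarith [hβ.1, hβ.2, Eig.opn_nonneg W])
      (le_max_right M 0) hT1 C0 hT2 hT3 (fun t ht σ y hy u => ?_) K0
      ((div_le_iff₀ (by positivity)).1 k1) (by positivity) (y + v) ?_ fun r hr => ?_).mono hw' le_rfl
      (le_trans ?_ hn')
    · rw [smul_smul]
      exact ((hZ n W β ‹_› h5 hβ' h4 h2 h1 T hT0 _ ⟨mul_nonneg (sub_nonneg.2 ht.2) hβ'.1,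
        mul_le_of_le_one_left hβ'.1 (sub_le_self _ ht.1)⟩ σ y hy).2 u).trans
        (mul_le_mul_of_nonneg_right (le_max_left _ _) (dot_self_nonneg u))
    · have a1 := nrm_add_le y v
      have a2 : s + 2 * √s + ρ1 ≤ C := by
        linarith [hs.2, le_abs_self S, sqrt_le_sqrt hs.2]
      nlinarith [hn.1, mul_le_mul_of_nonneg_right a2 sn]
    · have j1 : (⌊r / τ⌋₊ : ℝ) * τ ≤ r := (le_div_iff₀ t0).1 (Nat.floor_le (div_pos hr.1 t0).le)
      have j2 : r ≤ (⌊r / τ⌋₊ : ℝ) * τ + τ := by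
        have := (div_lt_iff₀ t0).1 (Nat.lt_floor_add_one (r / τ)); linarith
      have j3 : ⌊r / τ⌋₊ ∈ Finset.range (N + 1) := Finset.mem_range.2 (Nat.lt_succ_of_le
        (Nat.floor_le_floor (div_le_div_of_nonneg_right hr.2.le t0.le)))
      have := isProb_law (φ := sv) (s := r) (Wt.of_pos hw')
      refine le_trans (measureReal_mono (s₂ := {z | ¬ CovOK (ising (β • W) (y + v)) K (ρ / 4 * √n) z})
        fun z hz h => hz fun v hv u => (h v hv u).trans
          (mul_le_mul_of_nonneg_right (le_max_left _ _) (dot_self_nonneg u))) ?_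
      rw [← e]
      refine (cov_shift hw (ρ := ρ) (by positivity) j1 j2 (by linarith) y v hv).trans ?_
      have a1 := mul_le_mul_of_nonneg_left (hn.2 _ j3) (exp_pos (2 * ρ1 * n)).le
      have a2 : exp (2 * ρ1 * n) * exp (-(κ / 2 * n)) ≤ exp (-(κ / 4 * n)) := by
        rw [← exp_add]; exact exp_le_exp.2 (by nlinarith)
      linarith
    · calc _ ≤ a * (b * (96 * n * exp (-(k * n))) + T * (8 * n * (2 * exp (-(k * n))))) := by gcongr
        _ = _ := by ring
  · refine (measureReal_union_le _ _).trans (le_trans (add_le_add ((law_nrm hW hs.1).trans e1)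
      ((measureReal_biUnion_finset_le _ _).trans (Finset.sum_le_card_nsmul _ _ (exp (-(k * n)))
        fun j hj => ?_))) (le_trans ?_ hn''))
    · have j1 : (j : ℝ) * τ ≤ T := (le_div_iff₀ t0).1 ((Nat.le_floor_iff (by positivity)).1
        (Nat.le_of_lt_succ (Finset.mem_range.1 hj)))
      refine (law_inh hW hs.1 (by positivity) (measurableSet_covOK hw _ _) (exp_pos _)).trans ?_
      rw [div_le_iff₀ (exp_pos _)]
      refine (h3 _ ⟨by have := hs.1; positivity, by linarith [hs.2]⟩).trans ?_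
      refine le_trans ?_ (mul_le_mul_of_nonneg_right e2 (exp_pos _).le)
      rw [← exp_add]; exact exp_le_exp.2 (by nlinarith)
    · rw [Finset.card_range, nsmul_eq_mul]
      push_cast
      nlinarith [mul_le_mul_of_nonneg_left n1 (by positivity : 0 ≤ ((N : ℝ) + 2) * exp (-(k * n)))]

theorem aty_of (h : ATyG) : ATyStmt := fun β hβ S => by
  obtain ⟨K, hK, ρ, hρ, κ, hκ, h⟩ := h β hβ S
  exact ⟨K, hK, ρ, hρ, κ, hκ, GoeT.transfer β (fun n w => ATy w S K (ρ * √n) (exp (-(κ * n))))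
    (fun n w hw => aty_prob hw _ _ _ _) h⟩

end Crest.Agent.T157.Atd

end
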