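import Crest.Agent.T157.UwB_98

/-!
# Row 157, part B, block S3 (helper98): (UW) holds with high probability

`uw_goe`, `uw_Wmat`, `uw_Jmat`: uniformly over all bounded diagonals the diagonal of a Wick word
has Euclidean norm at most `K √(log n)`.
-/

set_option autoImplicit false
set_option maxHeartbeats 400000
set_option linter.unusedSectionVars false

noncomputable section

namespace Crest.Agent.T157.Uw

open Matrix Finset MeasureTheory Filter
open Crest.ProbabilityR.SpinGlassDynamics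
open Crest.Agent.T157.Eig Crest.Agent.T157.Fr Crest.Agent.T157.Cond
open Crest.Agent.T157.Conc (en ELip en_nonneg)
open Crest.Agent.T157.E (gv Jmat Wmat)

variable {ι : Type*} [Fintype ι] [DecidableEq ι] {s : ℝ}

/-- concentration of a function which is Lipschitz on a large set -/
theorem loc_tail {κ : Type*} [Fintype κ] {G A : Set (κ → ℝ)} {F : (κ → ℝ) → ℝ} {L M t : ℝ}
    (hL : 0 < L) (hA : 1 / 2 ≤ (gv κ).real A) (h : ∀ x ∈ G, ∀ y ∈ A, F x ≤ M + L * en (x - y))
    (ht : 0 ≤ t) : (gv κ).real {x | x ∈ G ∧ M + L * (2 + t) ≤ F x} ≤ Real.exp (-t ^ 2 / 2) := by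
  have hne : A.Nonempty := by
    by_contra h0
    rw [Set.not_nonempty_iff_eq_empty.1 h0, measureReal_empty] at hA
    linarith
  haveI := hne.to_subtype
  set d : (κ → ℝ) → ℝ := fun x => ⨅ y : A, en (x - y.1) with hd
  have bd : ∀ x : κ → ℝ, BddBelow (Set.range fun y : A => en (x - y.1)) := fun x =>
    ⟨0, by rintro _ ⟨y, rfl⟩; exact en_nonneg _⟩
  have d1 : ∀ x x', d x - en (x - x') ≤ d x' := fun x x' => le_ciInf fun y => by
    have h1 : d x ≤ en (x - y.1) := ciInf_le (bd x) y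
    have h2 := Conc.en_add_le (x - x') (x' - y.1)
    rw [sub_add_sub_cancel] at h2
    linarith
  have hl : ELip 1 d := fun x x' => by
    have := d1 x' x
    rw [Conc.en_sub_comm] at this
    rw [one_mul, abs_le]
    exact ⟨by linarith, by linarith [d1 x x']⟩
  set m := ∫ y, d y ∂gv κ with hm
  have m2 : m ≤ 2 := by
    by_contra h0
    push Not at h0
    have h1 := Conc.tail_lip_lower hl (t := m) (by linarith)
    have h2 : (gv κ).real A ≤ (gv κ).real {x | d x - m ≤ -m} := measureReal_mono fun x hx => by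
      have : d x ≤ en (x - x) := ciInf_le (bd x) (⟨x, hx⟩ : A)
      simp only [sub_self, Conc.en_zero] at this
      simp only [Set.mem_setOf_eq]; linarith
    have h3 : Real.exp (-m ^ 2 / (2 * 1 ^ 2)) ≤ Real.exp (-2) := Real.exp_le_exp.2 (by nlinarith)
    have h4 : Real.exp (-2) * 3 ≤ 1 := by
      rw [Real.exp_neg, inv_mul_le_iff₀ (Real.exp_pos _)]; linarith [Real.add_one_le_exp (2 : ℝ)]
    linarith [h2.trans h1]
  have h1 := Conc.tail_lip hl ht
  rw [one_pow, mul_one] at h1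
  refine le_trans (measureReal_mono fun x hx => ?_) h1
  have : 2 + t ≤ d x := le_ciInf fun y =>
    le_of_mul_le_mul_left (by linarith [h x hx.1 y y.2, hx.2]) hL
  simp only [Set.mem_setOf_eq]; linarith

lemma opn_tail (hs0 : 0 < s) (hs : s ^ 2 * Fintype.card ι ≤ 1) :
    (goe ι s).real {W | 3 < opn W} ≤ 2 * Real.exp (-(Fintype.card ι / 4)) := by
  have h3 : |s| * √(Fintype.card ι) ≤ 1 := by
    rw [← Real.sqrt_sq_eq_abs, ← Real.sqrt_mul (sq_nonneg s)]
    exact Real.sqrt_le_one.2 hs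
  refine le_trans (measureReal_mono fun W hW => ?_) ((Nrm.goe_opn_tail s zero_le_one).trans ?_)
  · simp only [Set.mem_setOf_eq] at hW ⊢; linarith
  · gcongr
    rw [div_le_iff₀ (by positivity)]
    nlinarith

lemma one_tail (hs0 : 0 < s) (hs : s ^ 2 * Fintype.card ι ≤ 1) (hn : 16 ≤ Fintype.card ι)
    {l : List (ι → ℝ)} (h0 : l ≠ []) (hl : Bd l) {M t : ℝ} (M0 : 0 ≤ M)
    (hM : ∫ x, Dq s l x ∂gv (ι × ι) ≤ M) (ht : 0 ≤ t) :
    (goe ι s).real {W | opn W ≤ 3 ∧ √(4 * M + 1) + l.length * 4 ^ l.length * (√2 * s) * (2 + t) ≤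
      nrm (Vk s W l).diag} ≤ Real.exp (-t ^ 2 / 2) := by
  have hc : Continuous fun W : Matrix ι ι ℝ => nrm (Vk s W l).diag :=
    continuous_nrm.comp (cont_VU continuous_id s l).1.matrix_diag
  have hms : MeasurableSet {W : Matrix ι ι ℝ | opn W ≤ 3 ∧ √(4 * M + 1) +
      l.length * 4 ^ l.length * (√2 * s) * (2 + t) ≤ nrm (Vk s W l).diag} :=
    (measurableSet_le continuous_opn.measurable measurable_const).inter
      (measurableSet_le measurable_const hc.measurable)
  rw [goe, map_measureReal_apply (measurable_symG s) hms]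
  have l0 : (0 : ℝ) < l.length := by exact_mod_cast List.length_pos_iff.2 h0
  refine loc_tail (G := {x | opn (symG s x) ≤ 3}) (A := {x | opn (symG s x) ≤ 3 ∧
    Dq s l x ≤ 4 * M + 1}) (F := fun x => nrm (Vk s (symG s x) l).diag) (by positivity) ?_
    (fun x hx y hy => ?_) ht
  · have h1 : (gv (ι × ι)).real {x | 3 < opn (symG s x)} ≤ 2 * Real.exp (-(Fintype.card ι / 4)) :=
      (real_preimage_le (ν := goe ι s) ⟨measurable_symG s, rfl⟩ {W | 3 < opn W}).trans
        (opn_tail hs0 hs)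
    have h2 := mul_meas_ge_le_integral_of_nonneg (μ := gv (ι × ι)) (f := Dq s l)
      (ae_of_all _ fun x => sum_nonneg fun _ _ => sq_nonneg _) (pg_Dq s l).int (4 * M + 1)
    have h3 : Real.exp (-(Fintype.card ι / 4 : ℝ)) ≤ 1 / 8 := by
      have : (16 : ℝ) ≤ Fintype.card ι := by exact_mod_cast hn
      have h4 : (3 : ℝ) ≤ Real.exp 2 := by linarith [Real.add_one_le_exp (2 : ℝ)]
      have h5 : Real.exp (2 + 2) ≤ Real.exp (Fintype.card ι / 4) := Real.exp_le_exp.2 (by linarith)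
      rw [Real.exp_add] at h5
      rw [Real.exp_neg, one_div]
      exact inv_anti₀ (by norm_num) (by nlinarith)
    have h4 : (gv (ι × ι)).real {x | 4 * M + 1 ≤ Dq s l x} ≤ 1 / 4 := by
      nlinarith [measureReal_nonneg (μ := gv (ι × ι)) (s := {x | 4 * M + 1 ≤ Dq s l x})]
    have h5 : (gv (ι × ι)).real Set.univ ≤ (gv (ι × ι)).real {x | opn (symG s x) ≤ 3 ∧
        Dq s l x ≤ 4 * M + 1} + ((gv (ι × ι)).real {x | 3 < opn (symG s x)} +
          (gv (ι × ι)).real {x | 4 * M + 1 ≤ Dq s l x}) := by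
      refine le_trans (measureReal_mono fun x _ => ?_) ((measureReal_union_le _ _).trans
        (add_le_add le_rfl (measureReal_union_le _ _)))
      simp only [Set.mem_union, Set.mem_setOf_eq]
      rcases le_or_gt (opn (symG s x)) 3 with a | a
      · rcases le_total (Dq s l x) (4 * M + 1) with b | b
        · exact Or.inl ⟨a, b⟩
        · exact Or.inr (Or.inr b)
      · exact Or.inr (Or.inl a)
    rw [probReal_univ] at h5
    linarith
  · have h1 := dg_sub_le hs (R := 3) hx hy.1 hl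
    have h2 := hs_symG_le s (x - y)
    rw [← symG_sub, abs_of_pos hs0] at h2
    have h3 : nrm (Vk s (symG s y) l).diag ≤ √(4 * M + 1) :=
      Real.le_sqrt_of_sq_le (by rw [← Dq_eq]; exact hy.2)
    have h4 := nrm_add_le (Vk s (symG s y) l).diag
      ((Vk s (symG s x) l).diag - (Vk s (symG s y) l).diag)
    rw [add_sub_cancel] at h4
    have h5 := mul_le_mul_of_nonneg_left h2 (show (0 : ℝ) ≤ l.length * 4 ^ l.length by positivity)
    norm_num at h1
    linarith

lemma exists_net (hn : 16 ≤ Fintype.card ι) (k : ℕ) : ∃ T : Finset (List (ι → ℝ)),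
    (T.card : ℝ) ≤ Real.exp (2 * Fintype.card ι * k * Real.log (Fintype.card ι)) ∧
    (∀ l ∈ T, Bd l ∧ l.length = k) ∧ ∀ l, l.length = k → Bd l → ∃ l' ∈ T,
      List.Forall₂ (fun a a' => ∀ i, |a i - a' i| ≤ 2 / √(Fintype.card ι)) l l' := by
  classical
  have n1 : (16 : ℝ) ≤ Fintype.card ι := by exact_mod_cast hn
  set n : ℝ := (Fintype.card ι : ℝ) with hn'
  have r4 : 4 ≤ √n := Real.le_sqrt_of_sq_le (by linarith)
  obtain ⟨T0, h1, h2, h3⟩ := exists_net_C {z | z.im = 0 ∧ |z.re| ≤ 1} (A := 1) (δ := 1 / √n)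
    zero_le_one (by positivity) fun z hz => by
      refine (Complex.norm_le_abs_re_add_abs_im z).trans ?_
      rw [hz.1, abs_zero, add_zero]; exact hz.2
  have c0 : (T0.card : ℝ) ≤ n ^ 2 := h2.trans (pow_le_pow_left₀ (by positivity) (by
    have := Real.mul_self_sqrt (show 0 ≤ n by linarith)
    rw [mul_one, div_div_eq_mul_div, div_one]; nlinarith) 2)
  set T1 := Fintype.piFinset fun _ : ι => T0.image Complex.re with hT1
  have c1 : (T1.card : ℝ) ≤ Real.exp (2 * n * Real.log n) := by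
    rw [hT1, Fintype.card_piFinset, prod_const, card_univ, show 2 * n * Real.log n =
      (Fintype.card ι : ℕ) * Real.log (n ^ 2) by rw [Real.log_pow]; push_cast; ring,
      Real.exp_nat_mul, Real.exp_log (by positivity)]
    push_cast
    exact pow_le_pow_left₀ (by positivity) (le_trans (by exact_mod_cast card_image_le) c0) _
  induction k with
  | zero => exact ⟨{[]}, by simp, by simp [Bd.nil], fun l hl _ => ⟨[], by simp, by
      rw [List.length_eq_zero_iff.1 hl]; exact List.Forall₂.nil⟩⟩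
  | succ k ih =>
    obtain ⟨T, c2, b2, a2⟩ := ih
    refine ⟨image₂ List.cons T1 T, ?_, fun l hl => ?_, fun l hl hb => ?_⟩
    · refine le_trans (by exact_mod_cast card_image₂_le List.cons T1 T)
        ((mul_le_mul c1 c2 (by positivity) (by positivity)).trans (le_of_eq ?_))
      rw [← Real.exp_add]; push_cast; ring_nf
    · obtain ⟨a, ha, m, hm, rfl⟩ := mem_image₂.1 hl
      refine ⟨bd_cons.2 ⟨fun i => ?_, (b2 m hm).1⟩, by simp [(b2 m hm).2]⟩
      obtain ⟨z, hz, e⟩ := mem_image.1 (Fintype.mem_piFinset.1 ha i)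
      exact e ▸ (h1 z hz).2
    · obtain ⟨a, m, rfl⟩ := List.exists_cons_of_length_eq_add_one hl
      obtain ⟨m', hm', f⟩ := a2 m (by simpa using hl) (bd_cons.1 hb).2
      choose z hz hz' using fun i => h3 (a i : ℂ) ⟨by simp, by simpa using (bd_cons.1 hb).1 i⟩
      refine ⟨(fun i => (z i).re) :: m', mem_image₂_of_mem (Fintype.mem_piFinset.2 fun i =>
        mem_image_of_mem _ (hz i)) hm', List.Forall₂.cons (fun i => ?_) f⟩
      have := (Complex.abs_re_le_norm _).trans (hz' i)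
      simpa [div_eq_mul_inv] using this

universe u

theorem uw_len (k : ℕ) : ∃ K : ℝ, 0 ≤ K ∧ ∀ (ι : Type u) [Fintype ι] [DecidableEq ι] (s : ℝ),
    0 < s → s ^ 2 * Fintype.card ι ≤ 1 → 16 ≤ Fintype.card ι →
    (goe ι s).real {W | opn W ≤ 3 ∧ ∃ l : List (ι → ℝ), l.length = k + 1 ∧ Bd l ∧
      K * √(Real.log (Fintype.card ι)) < nrm (Vk s W l).diag} ≤ Real.exp (-Fintype.card ι) := by
  obtain ⟨M, M0, hM⟩ := mom.{u} (k + 1)
  set c : ℝ := (k + 1 : ℕ) * 4 ^ (k + 1) with hc
  have c0 : 0 ≤ c := by positivity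
  refine ⟨√(4 * M + 1) + c * (√2 * (2 * k + 6)) + 2 * c, by positivity, fun ι _ _ s hs0 hs hn => ?_⟩
  obtain ⟨T, c2, b2, a2⟩ := exists_net hn (k + 1)
  have n1 : (16 : ℝ) ≤ Fintype.card ι := by exact_mod_cast hn
  have hM' := hM ι s hs (by omega)
  set n : ℝ := (Fintype.card ι : ℝ) with hn'
  have l1 : 1 ≤ Real.log n := by
    rw [Real.le_log_iff_exp_le (by linarith)]; linarith [Real.exp_one_lt_d9]
  set r := √(Real.log n) with hr
  have r1 : 1 ≤ r := Real.one_le_sqrt.2 l1
  have rr : r ^ 2 = Real.log n := Real.sq_sqrt (by linarith)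
  set t := √(2 * (n * (2 * (k + 1 : ℕ) * Real.log n + 1))) with ht
  have tt : t ^ 2 = 2 * (n * (2 * (k + 1 : ℕ) * Real.log n + 1)) := Real.sq_sqrt (by positivity)
  have t0 : 0 ≤ t := Real.sqrt_nonneg _
  have s1 : s ≤ 1 := by nlinarith
  have st : s * t ≤ (2 * k + 4) * r := by
    refine le_of_sq_le_sq ?_ (by positivity)
    rw [mul_pow, mul_pow, tt, rr]
    push_cast
    have k0 : (0 : ℝ) ≤ k := by positivity
    have h1 := mul_le_mul_of_nonneg_right hs
      (show 0 ≤ 2 * (2 * ((k : ℝ) + 1) * Real.log n + 1) by positivity)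
    nlinarith [mul_nonneg (mul_nonneg k0 k0) (zero_le_one.trans l1),
      mul_nonneg k0 (zero_le_one.trans l1)]
  refine le_trans (measureReal_mono (s₂ := ⋃ l ∈ T, {W | opn W ≤ 3 ∧ √(4 * M + 1) +
    l.length * 4 ^ l.length * (√2 * s) * (2 + t) ≤ nrm (Vk s W l).diag}) (fun W hW => ?_)
    (measure_ne_top _ _)) ((measureReal_biUnion_finset_le _ _).trans ((sum_le_card_nsmul _ _ (Real.exp (-t ^ 2 / 2))
      fun l hl => one_tail hs0 hs hn (List.ne_nil_of_length_pos (by rw [(b2 l hl).2]; omega))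
        (b2 l hl).1 M0 (hM' l (List.ne_nil_of_length_pos (by rw [(b2 l hl).2]; omega))
          (b2 l hl).2.le (b2 l hl).1) t0).trans ?_))
  · obtain ⟨h3, l, h1, h2, h4⟩ := hW
    obtain ⟨l', hl', f⟩ := a2 l h1 h2
    refine Set.mem_biUnion hl' ⟨h3, ?_⟩
    have h5 := (opn_sub_VU hs h3 (by positivity) f h2 (b2 l' hl').1).1
    have r0 : 0 < √n := by positivity
    have h6 := (dg_le _).trans (mul_le_mul_of_nonneg_left h5 r0.le)
    have h7 := nrm_add_le (Vk s W l').diag ((Vk s W l - Vk s W l').diag)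
    rw [diag_sub, add_sub_cancel, ← diag_sub] at h7
    rw [h1, show (1 + 3 : ℝ) = 4 by norm_num, ← hc, mul_left_comm, mul_div_cancel₀ _ r0.ne'] at h6
    rw [(b2 l' hl').2, ← hc]
    have h8 : c * (√2 * s) * (2 + t) ≤ c * (√2 * (2 * k + 6)) * r := by
      have : s * (2 + t) ≤ (2 * k + 6) * r := by nlinarith
      have := mul_le_mul_of_nonneg_left this (show 0 ≤ c * √2 by positivity)
      linarith
    nlinarith [mul_le_mul_of_nonneg_left r1 (Real.sqrt_nonneg (4 * M + 1)),
      mul_le_mul_of_nonneg_left r1 c0]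
  · rw [nsmul_eq_mul]
    refine (mul_le_mul_of_nonneg_right c2 (Real.exp_pos _).le).trans (le_of_eq ?_)
    rw [← Real.exp_add, tt]; congr 1; ring

/-- **(UW) for the GOE** -/
theorem uw_goe (k : ℕ) : ∃ K : ℝ, 0 ≤ K ∧ ∀ (ι : Type u) [Fintype ι] [DecidableEq ι] (s : ℝ),
    0 < s → s ^ 2 * Fintype.card ι ≤ 1 → 16 ≤ Fintype.card ι →
    (goe ι s).real {W | ¬ UW s W 3 k (K * √(Real.log (Fintype.card ι)))} ≤
      2 * Real.exp (-(Fintype.card ι / 4)) + k * Real.exp (-Fintype.card ι) := by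
  induction k with
  | zero =>
    refine ⟨0, le_rfl, fun ι _ _ s hs0 hs _ => ?_⟩
    rw [Nat.cast_zero, zero_mul, zero_mul, add_zero]
    refine le_trans (measureReal_mono fun W hW => ?_) (opn_tail hs0 hs)
    by_contra h
    exact hW ⟨not_lt.1 h, fun l h0 h1 _ =>
      absurd (List.length_eq_zero_iff.1 (Nat.le_zero.1 h1)) h0⟩
  | succ k ih =>
    obtain ⟨K, K0, hK⟩ := ih
    obtain ⟨K', K0', hK'⟩ := uw_len.{u} k
    refine ⟨K + K', by positivity, fun ι _ _ s hs0 hs hn => ?_⟩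
    refine le_trans ((measureReal_mono fun W hW => ?_).trans (measureReal_union_le _ _))
      ((add_le_add (hK ι s hs0 hs hn) (hK' ι s hs0 hs hn)).trans (by push_cast; linarith))
    by_contra h
    simp only [Set.mem_union, Set.mem_setOf_eq, not_or, not_not, not_and, not_exists, not_lt] at h
    have r0 := Real.sqrt_nonneg (Real.log (Fintype.card ι))
    refine hW ⟨h.1.op, fun l h0 h1 h2 => ?_⟩
    rcases Nat.lt_or_eq_of_le h1 with h3 | h3
    · exact (h.1.dg l h0 (by omega) h2).trans (by nlinarith)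
    · exact (h.2 h.1.op l h3 h2).trans (by nlinarith)

lemma sq_param {β : ℝ} (h1 : β ^ 2 ≤ 1) (n : ℕ) : (β / √n) ^ 2 * Fintype.card (Fin n) ≤ 1 := by
  rw [div_pow, Real.sq_sqrt (by positivity), Fintype.card_fin]
  rcases Nat.eq_zero_or_pos n with h | h
  · simp [h]
  · rwa [div_mul_cancel₀ _ (by positivity)]

/-- **(UW) for `β Wmat`** -/
theorem uw_Wmat (k : ℕ) : ∃ K : ℝ, 0 ≤ K ∧ ∀ (n : ℕ) (β : ℝ), 0 < β → β ≤ 1 → 16 ≤ n →
    ((disorderLaw n).prod (gv (Fin n))).real
      {p | ¬ UW (β / √n) (β • Wmat n p.1 p.2) 3 k (K * √(Real.log n))} ≤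
      2 * Real.exp (-(n / 4)) + k * Real.exp (-n) := by
  obtain ⟨K, K0, hK⟩ := uw_goe.{0} k
  refine ⟨K, K0, fun n β h0 h1 hn => ?_⟩
  have : (0 : ℝ) < n := by exact_mod_cast (by omega : 0 < n)
  have h := hK (Fin n) (β / √n) (by positivity) (sq_param (by nlinarith) n) (by simpa using hn)
  rw [Fintype.card_fin] at h
  exact (real_preimage_le (mp_smul_Wmat β) _).trans h

/-- **(UW) for `β Jmat`** -/
theorem uw_Jmat (k : ℕ) : ∃ K : ℝ, 0 ≤ K ∧ ∀ (n : ℕ) (β : ℝ), 0 < β → β ≤ 1 → 16 ≤ n →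
    (disorderLaw n).real {g | ¬ UW (β / √n) (β • Jmat n g) 3 k (K * √(Real.log n))} ≤
      (k + 5) * Real.exp (-(n / 4)) := by
  obtain ⟨K, K0, hK⟩ := uw_Wmat k
  refine ⟨K + k * (1 + 3) ^ k * 3, by positivity, fun n β h0 h1 hn => ?_⟩
  have n1 : (16 : ℝ) ≤ n := by exact_mod_cast hn
  have hsq : 0 < √(n : ℝ) := by positivity
  set S := {g | ¬ UW (β / √n) (β • Jmat n g) 3 k ((K + k * (1 + 3) ^ k * 3) * √(Real.log n))}
  have h2 : ((disorderLaw n).prod (gv (Fin n))).real (Set.univ ×ˢ {z | 2 * √n ≤ en z}) ≤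
      Real.exp (-(n / 2)) := by
    rw [measureReal_prod_prod, probReal_univ, one_mul]; exact en_tail n
  have h3 : (disorderLaw n).real S = ((disorderLaw n).prod (gv (Fin n))).real (S ×ˢ Set.univ) := by
    rw [measureReal_prod_prod, probReal_univ, mul_one]
  have h4 : ((disorderLaw n).prod (gv (Fin n))).real ({g | 2 + 1 ≤ opn (Jmat n g)} ×ˢ Set.univ) ≤
      2 * Real.exp (-(n * 1 ^ 2 / 4)) := by
    rw [measureReal_prod_prod, probReal_univ, mul_one]; exact Nrm.Jmat_opn_tail zero_le_one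
  rw [h3]
  refine le_trans ((measureReal_mono ?_).trans ((measureReal_union_le _ _).trans
    (add_le_add le_rfl (measureReal_union_le _ _)))) ((add_le_add (hK n β h0 h1 hn)
      (add_le_add h2 h4)).trans ?_)
  · rintro ⟨g, z⟩ ⟨hg, -⟩
    by_contra h
    simp only [Set.mem_union, Set.mem_setOf_eq, Set.mem_prod, Set.mem_univ, true_and, and_true,
      not_or, not_not, not_le] at h
    obtain ⟨a1, a2, a3⟩ := h
    have r1 : 1 ≤ √(Real.log n) := Real.one_le_sqrt.2 (by
      rw [Real.le_log_iff_exp_le (by linarith)]; linarith [Real.exp_one_lt_d9])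
    refine hg ((a1.perturb (sq_param (by nlinarith) n) (J' := β • Jmat n g) (c := 3) ?_ ?_).mono
      le_rfl le_rfl ?_)
    · rw [opn_smul, abs_of_pos h0]; nlinarith [opn_nonneg (Jmat n g)]
    · refine Real.sqrt_le_iff.2 ⟨by norm_num, ?_⟩
      have e : ∀ i j, ‖cx (β • Jmat n g - β • Wmat n g z) i j‖ ^ 2 =
          if i = j then β ^ 2 * 2 / n * z i ^ 2 else 0 := fun i j => by
        by_cases hij : i = j
        · subst hij
          simp only [cx, E.Wmat, map_apply, Matrix.sub_apply, Matrix.smul_apply, Matrix.add_apply,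
            diagonal_apply_eq, smul_eq_mul, Complex.norm_real, Real.norm_eq_abs, sq_abs, if_true]
          have e1 : √2 ^ 2 = 2 := Real.sq_sqrt (by norm_num)
          have e2 : √(n : ℝ) ^ 2 = n := Real.sq_sqrt (by positivity)
          field_simp
          rw [e2]
          linear_combination (z i ^ 2 * n) * e1
        · simp [cx, E.Wmat, hij]
      simp only [e, sum_ite_eq, mem_univ, if_true, ← mul_sum, ← Conc.en_sq]
      have b1 : en z ^ 2 ≤ (2 * √n) ^ 2 := pow_le_pow_left₀ (en_nonneg z) a2.le 2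
      rw [mul_pow, Real.sq_sqrt (by positivity)] at b1
      rw [div_mul_eq_mul_div, div_le_iff₀ (by positivity)]
      nlinarith [mul_le_mul (show β ^ 2 ≤ 1 by nlinarith) b1 (by positivity) zero_le_one]
    · nlinarith [mul_le_mul_of_nonneg_left r1 (show (0 : ℝ) ≤ k * (1 + 3) ^ k * 3 by positivity)]
  · have e1 : Real.exp (-(n : ℝ)) ≤ Real.exp (-(n / 4)) := Real.exp_le_exp.2 (by linarith)
    have e2 : Real.exp (-(n / 2 : ℝ)) ≤ Real.exp (-(n / 4)) := Real.exp_le_exp.2 (by linarith)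
    rw [one_pow, mul_one]
    nlinarith [mul_le_mul_of_nonneg_left e1 (Nat.cast_nonneg (α := ℝ) k)]

end Crest.Agent.T157.Uw
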