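import Crest.Agent.T157.PosE_23
import Crest.Agent.T157.AtY_39
import Crest.Agent.T157.UwC_98

/-!
# Row 157, part B (S3): the filter of typical instances (helper23)

An instance is `(n, g, d, y)`: couplings `g`, GOE diagonal `d`, field `y`.  `TF β s` is the filter of the
events which hold with high probability in `(g, d)` off a set of `y` of vanishing mass along the
localisation at time `s`.
-/

set_option autoImplicit false

noncomputable section

namespace Crest.Agent.T157.Pos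

open MeasureTheory ProbabilityTheory Matrix Filter Set Topology
open Crest.ProbabilityR.SpinGlassDynamics
open Crest.Agent.T157.E Crest.Agent.T157.Eig Crest.Agent.T157.Cond Crest.Agent.T157.Tap
open Crest.Agent.T157.SL

/-- instances -/
structure In where
  n : ℕ
  g : Pair n → ℝ
  d : V n
  y : V n

/-- the GOE completion -/
def In.W (i : In) : Mx i.n := Wmat i.n i.g i.d
/-- the coupling matrix -/
def In.J (β : ℝ) (i : In) : Mx i.n := β • Jmat i.n i.g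
/-- the cavity field -/
def In.b (β : ℝ) (i : In) : V i.n := fld β (Jmat i.n i.g) i.y

lemma In.offd_W (i : In) : offd i.W = Jmat i.n i.g := offd_Wmat _ _

lemma In.b_eq (β : ℝ) (i : In) : i.b β = i.y + i.J β *ᵥ mag (ising (i.J β) i.y) -
    (β ^ 2 * avg (DD (mag (ising (i.J β) i.y)))) • mag (ising (i.J β) i.y) := rfl

/-- law of `(g, d)` -/
abbrev GD (n : ℕ) : Measure ((Pair n → ℝ) × V n) := (disorderLaw n).prod (gv (Fin n))

/-- the bad mass -/
def bad (β s : ℝ) (P : In → Prop) (n : ℕ) (p : (Pair n → ℝ) × V n) : ℝ :=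
  (law sv (gibbsWeight n β p.1) s).real {y | ¬ P ⟨n, p.1, p.2, y⟩}

lemma prob_law (β s : ℝ) (n : ℕ) (g : Pair n → ℝ) :
    IsProbabilityMeasure (law sv (gibbsWeight n β g) s) := by
  rw [gibbsWeight_eq_ising]; exact isProb_law (Cov15.wt_ising _ _)

/-- **the filter of typical instances** -/
def TF (β s : ℝ) : Filter In where
  sets := {A | ∀ ε > (0 : ℝ), Top.Whp GD fun n p => bad β s (· ∈ A) n p ≤ ε}
  univ_sets := fun ε hε => Top.whp_of_eventually (.of_forall fun n p => by simpa [bad] using hε.le)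
  sets_of_superset := fun {A B} hA hAB ε hε => (hA ε hε).imp fun n p hp => by
    have := prob_law β s n p.1
    exact le_trans (measureReal_mono fun y hy h => hy (hAB h)) hp
  inter_sets := fun {A B} hA hB ε hε =>
    ((hA _ (half_pos hε)).and (hB _ (half_pos hε))).imp fun n p hp => by
      have := prob_law β s n p.1
      refine le_trans (measureReal_mono (s₂ := {y | ¬ (⟨n, p.1, p.2, y⟩ : In) ∈ A} ∪
        {y | ¬ (⟨n, p.1, p.2, y⟩ : In) ∈ B}) fun y hy => not_and_or.1 hy)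
        ((measureReal_union_le _ _).trans ?_)
      exact (add_le_add hp.1 hp.2).trans_eq (add_halves ε)

variable {β s : ℝ}

theorem ev_TF {P : In → Prop} :
    (∀ᶠ i in TF β s, P i) ↔ ∀ ε > (0 : ℝ), Top.Whp GD fun n p => bad β s P n p ≤ ε := Iff.rfl

/-- exit: a typical property which does not see the diagonal -/
theorem TF.out {P : ∀ n, (Pair n → ℝ) → V n → Prop} (h : ∀ᶠ i in TF β s, P i.n i.g i.y) {ε : ℝ}
    (hε : 0 < ε) : Top.Whp disorderLaw fun n g =>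
      (law sv (gibbsWeight n β g) s).real {y | ¬ P n g y} ≤ ε :=
  Top.Whp.of_prod_fst (ν := fun n => gv (Fin n)) (ev_TF.1 h ε hε)

theorem TF.of_dis {P : ∀ n, (Pair n → ℝ) → V n → Prop} (h : ∀ ε > (0 : ℝ), Top.Whp disorderLaw
    fun n g => (law sv (gibbsWeight n β g) s).real {y | ¬ P n g y} ≤ ε) :
    ∀ᶠ i in TF β s, P i.n i.g i.y :=
  ev_TF.2 fun ε hε => ((h ε hε).comp (ν := GD) (T := fun _ p => p.1)
    fun _ => measurePreserving_fst).imp fun _ _ hp => hp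

theorem TF.of_goe {P : ∀ n, Mx n → V n → Prop} (h : ∀ ε > (0 : ℝ), Top.Whp GOE
    fun n W => (law sv (ising (β • W) 0) s).real {y | ¬ P n W y} ≤ ε) :
    ∀ᶠ i in TF β s, P i.n i.W i.y :=
  ev_TF.2 fun ε hε => ((h ε hε).comp (T := fun n p => Wmat n p.1 p.2) fun _ => mp_Wmat).imp
    fun n p hp => by simpa only [bad, law, GoeT.prob_ising_Wmat, In.W] using hp

theorem TF.of_gd {P : ∀ n, (Pair n → ℝ) × V n → Prop} (h : Top.Whp GD P) :
    ∀ᶠ i in TF β s, P i.n (i.g, i.d) :=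
  ev_TF.2 fun ε hε => h.imp fun n p hp => by simpa [bad, hp] using hε.le

theorem TF.of_whp {P : ∀ n, (Pair n → ℝ) → Prop} (h : Top.Whp disorderLaw P) :
    ∀ᶠ i in TF β s, P i.n i.g :=
  TF.of_gd (P := fun n p => P n p.1) (h.comp fun _ => measurePreserving_fst)

theorem TF.of_whpW {P : ∀ n, Mx n → Prop} (h : Top.Whp GOE P) : ∀ᶠ i in TF β s, P i.n i.W :=
  TF.of_gd (P := fun n p => P n (Wmat n p.1 p.2)) (h.comp fun _ => mp_Wmat)

theorem TF.lim : Tendsto In.n (TF β s) atTop := fun A hA =>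
  TF.of_whp (P := fun n _ => n ∈ A) (Top.whp_of_eventually (Eventually.mono hA fun _ h _ => h))

theorem Typ.ev {P : ∀ n, Mx n → V n → Prop} (h : Typ β s P) : ∀ᶠ i in TF β s, P i.n i.W i.y := by
  obtain ⟨κ, hκ, h⟩ := h
  exact TF.of_goe fun ε hε => h.mono (((TapPl.tendsto_exp_neg hκ).eventually
    (ge_mem_nhds hε)).mono fun _ hn _ hW => hW.trans hn)

theorem Typ.evJ {P : ∀ n, Mx n → V n → Prop} (h : Typ β s fun n W y => P n (offd W) y) :
    ∀ᶠ i in TF β s, P i.n (Jmat i.n i.g) i.y := h.ev.mono fun i hi => by rwa [i.offd_W] at hi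

instance TF.neBot : (TF β s).NeBot := by
  refine ⟨fun h => ?_⟩
  have h1 : ∀ᶠ _i in TF β s, False := by rw [h]; exact eventually_bot
  have h2 := ev_TF.1 h1 (1 / 2) one_half_pos
  have h3 : ∀ n p, ¬ bad β s (fun _ => False) n p ≤ 1 / 2 := fun n p => by
    have := prob_law β s n p.1
    simp only [bad, not_false_eq_true, ofPred_true, probReal_univ]; norm_num
  simp only [Top.Whp, h3, not_false_eq_true, ofPred_true, measure_univ] at h2
  exact one_ne_zero (tendsto_nhds_unique tendsto_const_nhds h2)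

/-- countably many typical properties hold along a slow diagonal -/
theorem TF.diag {P : ℕ → In → Prop} (h : ∀ k, ∀ᶠ i in TF β s, P k i) :
    ∃ κ : ℕ → ℕ, Tendsto κ atTop atTop ∧ ∀ᶠ i in TF β s, ∀ k ≤ κ i.n, P k i := by
  have h1 : ∀ m : ℕ, ∃ N : ℕ, ∀ n ≥ N, GD n {p | ¬ bad β s (fun i => ∀ k ≤ m, P k i) n p ≤
      1 / (m + 1)} ≤ ENNReal.ofReal (1 / (m + 1)) := fun m => by
    have h2 : ∀ᶠ i in TF β s, ∀ k ≤ m, P k i :=
      (eventually_all_finite (Set.finite_le_nat m)).2 fun k _ => h k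
    exact eventually_atTop.1 (Top.whp_iff.1 (ev_TF.1 h2 _ (by positivity)) _ (by positivity))
  choose N hN using h1
  classical
  set κ : ℕ → ℕ := fun n => Nat.findGreatest (fun m => N m ≤ n) n with hκ
  have t : Tendsto κ atTop atTop := tendsto_atTop.2 fun m => by
    filter_upwards [eventually_ge_atTop m, eventually_ge_atTop (N m)] with n h1 h2
    exact Nat.le_findGreatest h1 h2
  have t' : Tendsto (fun n => (1 : ℝ) / (κ n + 1)) atTop (𝓝 0) :=
    tendsto_one_div_add_atTop_nhds_zero_nat.comp t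
  refine ⟨κ, t, ev_TF.2 fun ε hε => Top.whp_iff.2 fun δ hδ => ?_⟩
  filter_upwards [t'.eventually (ge_mem_nhds hε), t'.eventually (ge_mem_nhds hδ),
    eventually_ge_atTop (N 0)] with n h1 h2 h3
  have h4 : N (κ n) ≤ n := Nat.findGreatest_spec (P := fun m => N m ≤ n) (Nat.zero_le n) h3
  exact le_trans (measure_mono fun p hp hc => hp (le_trans hc h1))
    ((hN _ n h4).trans (ENNReal.ofReal_le_ofReal h2))

/-! ### typical properties -/

theorem In.symm (i : In) : (i.J β)ᵀ = i.J β := by rw [In.J, transpose_smul, Jmat_transpose]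

theorem In.diag (i : In) (j : Fin i.n) : i.J β j j = 0 := by simp [In.J, Jmat_diag]

/-- **(UW)** -/
theorem TF.uw (hβ : β ∈ Ioc (0 : ℝ) 1) (k : ℕ) : ∃ K : ℝ, 0 ≤ K ∧
    ∀ᶠ i in TF β s, Uw.UW (β / √i.n) (i.J β) 3 k (K * √(Real.log i.n)) := by
  obtain ⟨K, K0, h⟩ := Uw.uw_Jmat k
  refine ⟨K, K0, TF.of_whp (P := fun n g => Uw.UW (β / √n) (β • Jmat n g) 3 k (K * √(Real.log n)))
    (Top.whp_of_real_le (((TapPl.tendsto_exp_neg (κ := 1 / 4) (by norm_num)).const_mul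
      ((k : ℝ) + 5)).trans_eq (by simp)) ?_)⟩
  filter_upwards [eventually_ge_atTop 16] with n hn
  exact (h n β hβ.1 hβ.2 hn).trans_eq (by congr 2; ring)

theorem TF.opn (hβ : β ∈ Ioc (0 : ℝ) 1) : ∀ᶠ i in TF β s, opn (i.J β) ≤ 3 := by
  obtain ⟨K, -, h⟩ := TF.uw (s := s) hβ 0
  exact h.mono fun i hi => hi.op

theorem atyG : Atd.ATyG := Atd.atyG_of ufStmt TapFrz.frzStmt LpAll.frozStmt LpAll.covStmt

/-- **approximate tensorisation with a defect** on a macroscopic ball of fields -/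
theorem TF.atd (hβ : β ∈ Ioo (0 : ℝ) 1) (hs : 0 ≤ s) : ∃ K > (0 : ℝ), ∃ ρ > (0 : ℝ), ∃ κ > (0 : ℝ),
    ∀ᶠ i in TF β s, ∀ v : V i.n, nrm v ≤ ρ * √i.n →
      Atd.ATd (ising (i.J β) (i.y + v)) K (Real.exp (-(κ * i.n))) := by
  obtain ⟨K, hK, ρ, hρ, κ, hκ, h⟩ := Atd.aty_of atyG β hβ s
  refine ⟨K, hK, ρ, hρ, κ, hκ, TF.of_dis (P := fun n g y => ∀ v : V n, nrm v ≤ ρ * √n →
    Atd.ATd (ising (β • Jmat n g) (y + v)) K (Real.exp (-(κ * n)))) fun ε hε => h.mono ?_⟩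
  filter_upwards [(TapPl.tendsto_exp_neg hκ).eventually (ge_mem_nhds hε)] with n hn g hg
  have := hg s ⟨hs, le_rfl⟩
  simp only [gibbsWeight_eq_ising, Cov15.tilt0] at this ⊢
  rw [neg_mul] at hn
  exact this.trans hn

/-- covariance bound on a macroscopic ball of fields -/
theorem TF.cov (hβ : β ∈ Ioc (0 : ℝ) 1) (hs : 0 ≤ s) (h : β < 1 ∨ 0 < s) :
    ∃ K ρ : ℝ, 0 ≤ K ∧ 0 < ρ ∧ ∀ᶠ i in TF β s, ∀ v : V i.n, nrm v ≤ ρ * √i.n →
      ∀ u : V i.n, u ⬝ᵥ covM (ising (i.J β) (i.y + v)) *ᵥ u ≤ K * (u ⬝ᵥ u) := by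
  obtain ⟨K, ρ, K0, hρ, w⟩ := Pos.cov hβ hs h
  refine ⟨K, ρ, K0, hρ, (w.ev.and (TF.of_whpW (adm_offd 1 one_pos))).mono fun i hi v hv u => ?_⟩
  have := hi.1 v hv u
  have h2 : Nd 1 i.W (Jmat i.n i.g) := i.offd_W ▸ hi.2
  rwa [← h2.covM] at this

/-- **(ACC)** -/
theorem TF.acc (hβ : β ∈ Ioc (0 : ℝ) 1) (hs : 0 ≤ s) : ∃ M : ℝ, 0 ≤ M ∧
    ∀ᶠ i in TF β s, nrm (th (i.b β) - mag (ising (i.J β) i.y)) ≤ M := by
  obtain ⟨M, M0, h⟩ := accF adm_offd hβ hs
  exact ⟨M, M0, h.evJ (P := fun _ J y => nrm (th (fld β J y) - mag (ising (β • J) y)) ≤ M)⟩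

variable {q : ℝ}

/-- **(EMP)** -/
theorem TF.emp (hβ : β ∈ Ioc (0 : ℝ) 1) (hL : Lv β s q) {ψ : ℝ → ℝ} (hf : Continuous ψ)
    (he : ∀ x, ψ (-x) = ψ x) {K : ℝ} (hb : ∀ x, |ψ x| ≤ K) :
    Tendsto (fun i : In => avg fun k => ψ (i.b β k)) (TF β s)
      (𝓝 (gE ψ (s + β ^ 2 * q) (s + β ^ 2 * q))) := by
  refine Metric.tendsto_nhds.2 fun e he0 => ?_
  refine ((empF adm_offd hβ hL hf he hb (half_pos he0)).evJ (P := fun _ J y => |avg (fun k =>
    ψ (fld β J y k)) - gE ψ (s + β ^ 2 * q) (s + β ^ 2 * q)| ≤ e / 2)).mono fun i hi => ?_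
  exact hi.trans_lt (half_lt_self he0)

/-- **(POS)** -/
theorem TF.pos (hβ : β ∈ Ioc (0 : ℝ) 1) {a0 : ℝ} (ha : β < a0) :
    ∃ κ η : ℝ, 0 < κ ∧ κ ≤ 1 / 2 ∧ 0 < η ∧ ∀ t0 > (0 : ℝ), ∃ C : ℝ, 0 ≤ C ∧ ∀ s q, Lv β s q →
      (s = 0 ∨ t0 ≤ s) → ∀ a : ℝ → ℝ, Continuous a → (∀ x, a (-x) = a x) → (∀ x, a0 ≤ a x) →
      ∀ᶠ i in TF β s, ∀ al : V i.n, (∀ k, a (i.b β k) +
          β ^ 2 * gE (fun x => 1 / a x) (s + β ^ 2 * q) (s + β ^ 2 * q) - η ≤ al k) →
        PosF κ η C (i.J β) al (mag (ising (i.J β) i.y)) := by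
  obtain ⟨κ, η, κ0, kh, η0, h⟩ := posF adm_offd hβ ha
  refine ⟨κ, η, κ0, kh, η0, fun t0 ht0 => (h t0 ht0).imp fun C hC =>
    ⟨hC.1, fun s q hL hs a hc he h0 => ?_⟩⟩
  exact (hC.2 s q hL hs a hc he h0).evJ (P := fun n J y => ∀ al : V n, (∀ k, a (fld β J y k) +
    β ^ 2 * gE (fun x => 1 / a x) (s + β ^ 2 * q) (s + β ^ 2 * q) - η ≤ al k) →
      PosF κ η C (β • J) al (mag (ising (β • J) y)))

end Crest.Agent.T157.Pos

end
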