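import Crest.Agent.T157.KMdDef_93
import Crest.Agent.T157.KTc_36
import Crest.Agent.T157.S1Par_97
import Crest.Agent.T157.TyF_23
import Crest.Agent.T157.LmDefB_76

/-!
# Row 157, part B (helper19): the collective part of the supply

`ZSup`: the supply of one window without oracle (`LocSup`) gives `SupplyStmt`.
-/

set_option autoImplicit false

noncomputable section

namespace Crest.Agent.T157.Kz

open MeasureTheory Real Matrix Finset Filter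
open Crest.ProbabilityR.SpinGlassDynamics
open Crest.Agent.T157.E Crest.Agent.T157.Eig Crest.Agent.T157.K Crest.Agent.T157.S1
open Crest.Agent.T157.Tap (V Mx)
open Crest.Agent.T157.Rec (grad)
open Crest.Agent.T157.SL (Wt law)
open Crest.Agent.T157.S3 (Rg Exc)
open Crest.Agent.T157.Z (Nt Nw tJ Ty)
open Crest.Agent.T157.Zf (QQ Vf)
open Crest.Agent.T157.Md (gR Zs Rsp gb)
open Crest.Agent.T157.Pos (In TF)
open Crest.Agent.T157.Top (Whp)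

variable {n : ℕ}

/-! ### words -/

abbrev Vy : Type := ∀ n, Mx n → V n → V n
abbrev My : Type := ∀ n, Mx n → V n → Cube n → Mx n

/-- bounded entries -/
def Be (u : Vy) : Prop := ∃ M, ∀ n J y i, |u n J y i| ≤ M
/-- multipliers of the calculus -/
def Mu (β r : ℝ) (h : Vy) : Prop := ∀ u, TY β r u → TY β r fun n J y => h n J y * u n J y
/-- matrix fields of the calculus -/
def TgB (β r : ℝ) (T : My) : Prop := (∃ C, ∀ n J y s, GJ J → opn (T n J y s) ≤ C) ∧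
  ∀ U, TC β r U → TC β r fun n J s y => T n J y s *ᵥ U n J s y
/-- the predicted response -/
def ub (J : Mx n) (y : V n) (T : Cube n → Mx n) (g : U2 n) (t : ℝ) : V n :=
  meanV (ising J y) fun s => T s *ᵥ gb g t y s
/-- off a set of fields of mass `ε` -/
def Mo (β r ε : ℝ) (P : ∀ n, Mx n → V n → Prop) : Prop := Whp disorderLaw fun n g =>
  (law sv (gibbsWeight n β g) r).real {y | ¬ P n (β • Jmat n g) y} ≤ ε
/-- the base hypothesis at level zero and on typical balls -/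
def BasT (β K0 κ0 : ℝ) : Prop := (Whp disorderLaw fun n g => Bas (β • Jmat n g) K0 κ0 0) ∧
  ∀ r ≥ (0 : ℝ), ∃ ρ > (0 : ℝ), ∀ᶠ x in TF β r, ∀ y, nrm (y - x.y) ≤ ρ * √x.n →
    Bas (x.J β) K0 κ0 y

/-- directions of one window -/
structure Wd (nb : ℕ) where
  k : ℕ
  (c Λ M : ℝ)
  m : Fin nb → ℕ
  E : ∀ b, Nt (Bool ⊕ Fin (m b))

namespace Wd
variable {nb : ℕ} (d : Wd nb)
/-- response fields -/
def g (b : Fin nb) : Vf := fun n J => gR (QQ J) d.c d.Λ d.M d.k (Eh (d.E b) n J)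
def zs (J : Mx n) : Fy n := Zs (QQ J) d.k fun b => Eh (d.E b) n J
def rs (J : Mx n) (Θ : Cube n → ℝ) : Fy n := Rsp (fun b => d.g b n J) Θ
def Ok (β r e : ℝ) : Prop := ∀ b, Nw True (d.E b) ∧ Z.Bd (d.E b) ∧ TC β r (d.g b) ∧
  ∀ n J, GJ J → RF e (d.g b n J)
end Wd

/-- the conclusion of `Md.ModStmt` at the base point `y0` for the targets `a` -/
def ModC (K0 κ0 CM P R ω θ : ℝ) {nb : ℕ} (d : Wd nb) (J : Mx n) (y0 : V n) (a : Fin nb → V n) :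
    Prop := ∀ (D : Dat n) (s : St n) (t ec A : ℝ) (κ : Fin nb → ℝ), D.Ok → D.J = J → D.P = P →
  Bas J K0 κ0 y0 → Bas J K0 κ0 s.y → Cl ec ec s → Sz D s t → nrm (s.y - y0) ^ 2 ≤ t → t ≤ θ * n →
  1 ≤ A → CM * A ^ 2 * ec ≤ ω → ∑ b, κ b ^ 2 ≤ R ^ 2 → nrm (∑ b, κ b • a b) ≤ A * √n →
  ((∑ b, κ b • a b) ⬝ᵥ Del D s) ^ 2 / n ≤ CM * A ^ 2 * (del s ⬝ᵥ del s) +
    CM * R ^ 2 * ((mean (nu D s) fun σ => d.zs J σ s.y) + mean (nu D s) fun σ => d.rs J s.Th σ s.y) +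
    ω * (Bb D s y0 + 1) + CM * A ^ 2 * Ex D s

/-- the data of one window: directions, weight, regularity, threshold -/
structure Wn where
  nb : ℕ
  d : Wd nb
  (cz e η : ℝ)

def Wn.Ok (β r : ℝ) (x : Wn) : Prop := x.d.Ok β r x.e ∧ 0 ≤ x.cz ∧ 0 < x.η
def Wn.wt (x : Wn) : ℝ := x.cz * x.nb * (x.e ^ 2 + 1)

/-- the act `(m', i')` lies below the window `(m, i)` -/
def Sub (N m i m' i' : ℕ) : Prop :=
  m ≤ m' ∧ m' < N ∧ i ≤ i' ∧ i' + 2 ^ (N - (m' + 1)) ≤ i + 2 ^ (N - m)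

instance (N m i m' i' : ℕ) : Decidable (Sub N m i m' i') := by unfold Sub; infer_instance

/-- the collective observables of the level `m` -/
def zn (N : ℕ) (W : ℕ → ℕ → Wn) (J : Mx n) (m : ℕ) : Fy n :=
  ∑ i ∈ range (2 ^ N + 1), (W m i).cz • (W m i).d.zs J
/-- **the oracle** -/
def orc (N : ℕ) (W : ℕ → ℕ → Wn) (G : ℕ → Set (V n)) (J : Mx n) : Orc n where
  G := G
  zn := zn N W J
  PV m i Θ _ F := ∀ m' i', Sub N m i m' i' → ∀ σ y,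
    N * ((W m' i').cz * (W m' i').d.rs J Θ σ y) ≤ m * F m' σ y
/-- total weight of the acts below `(m, i)` -/
def XS (N : ℕ) (W : ℕ → ℕ → Wn) (m i : ℕ) : ℝ :=
  ∑ m' ∈ range N, ∑ i' ∈ range (2 ^ N + 1), if Sub N m i m' i' then (W m' i').wt else 0

/-! ### the supply of one window -/

section loc
variable (p : Par) (z : Cap) (J : Mx n) (m i : ℕ) (y0 : V n)

/-- a tilt before the oracle; internal accuracy `ei` -/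
structure TokA (pA al q w : V n) (u ei : ℝ) (T : Cube n → Mx n) {ι : Type} (f : ι → V n)
    (φ : Cube n → ℝ) : Prop where
  ans : ∃ W Ω G, AnsW J y0 (p.ah m) pA al q (p.ω m i ^ 4) (p.e1 (m + 1) i) (p.CN m i) p.C0 z.K w u
    φ W Ω G
  u0 : 0 ≤ u
  ut : u ^ 2 ≤ z.t' m
  wu : nrm w ≤ u
  reg : ∃ Ω, Rg ei (p.CN m i * u) Ω ∧
    Exc (ising J y0) ei (ei * (u ^ 2 + z.K)) fun σ => nrm (grad φ σ - Ω σ)
  lk : Exc (ising J y0) ei (ei * (u ^ 2 + z.K)) fun σ => nrm (grad φ σ - (T σ)ᵀ *ᵥ w)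
  ort : ∀ b, (w ⬝ᵥ f b) ^ 2 ≤ ei * n * u ^ 2

/-- the modes are combinations of the vectors `h` -/
def Modes (R : ℝ) {ι : Type} [Fintype ι] (h : ι → V n) (k : ℕ) (v : ℕ → V n) : Prop :=
  ∃ T : ℕ → ι → ℝ, (∀ a < k, v a = (√(n : ℝ))⁻¹ • ∑ b, T a b • h b) ∧
    ∀ x : ℕ → ℝ, ∑ b, (∑ a ∈ range k, x a * T a b) ^ 2 ≤ R ^ 2 * ∑ a ∈ range k, x a ^ 2

/-- `S1.Good` without the oracle -/
def GoodA (pv a0 q : V n) (ei R : ℝ) (T : Cube n → Mx n) {ι κ : Type} [Fintype κ] (f : ι → V n)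
    (h : κ → V n) : Prop :=
  ∃ (pA al : V n) (k : ℕ) (v : ℕ → V n) (ε : ℝ) (Ad : V n → ℝ → Prop) (φ : V n → Cube n → ℝ),
    0 ≤ ε ∧ ε ≤ p.eL ^ 2 ∧ (∀ j, 0 ≤ pA j ∧ pA j ≤ pv j + p.ω m i ^ 4) ∧
    LinOK2 J p.P y0 pv a0 al q k v p.lq p.C0 p.C1 p.CP p.eL (p.η (p.bt (m + 1) i)) (z.t m) ε ∧
    (∀ w u, Adm k v (p.η (p.bt (m + 1) i)) (z.t' m) ε w u →
      ∃ ψ, TokA p z J m i y0 pA al q w u ei T f ψ) ∧
    (∀ w u, Ad w u → TokA p z J m i y0 pA al q w u ei T f (φ w)) ∧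
    BurstOK J p.P p.η0 p.θ y0 pA Ad φ (p.l m) (p.am m) (p.lb m) (p.am (m + 1)) p.c0 p.gW p.gP
      (p.Cu / p.κ) p.CP (p.CN m i) (p.ω m i) (p.ec (m + 1) i) (z.t m) z.K ∧
    Modes R h k v

end loc

/-- the parameters `p` fit the window `(m, i)` -/
structure Fit (p : Par) (w : P2) (CP gW : ℝ) (m i : ℕ) (ω CN η : ℝ) : Prop where
  ok : p.Ok
  hw : p.toP2 = w
  hP : p.CP = CP
  hg : p.gW = gW
  val : p.Val (m + 1) i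
  hω : p.ω m i = ω
  hC : CN ≤ p.CN m i
  hη : p.η (p.bt (m + 1) i) ≤ η

/-- one level, one accuracy of the ansatz -/
def LocW (β : ℝ) (w : P2) (CP gW : ℝ) (m : ℕ) (pv α : Vy) (ω CN : ℝ) (q : Vy) (T : My) : Prop :=
  Mu β (m * w.τ) q ∧ Mu β (m * w.τ) (fun n J y => α n J y * q n J y) ∧ TgB β (m * w.τ) T ∧
  ∀ ei > (0 : ℝ), ∀ (ι : Type) [Fintype ι] (f : ι → Vy), (∀ b, TY β (m * w.τ) (f b) ∧ Be (f b)) →
  ∃ η > (0 : ℝ), ∃ (nh : ℕ) (h : Fin nh → Vy) (R : ℝ), (∀ b, TY β (m * w.τ) (h b)) ∧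
  ∀ (p : Par) (i : ℕ), Fit p w CP gW m i ω CN η → ei ≤ p.e1 (m + 1) i → ∀ c e : ℝ, 0 < c → c ≤ 1 →
  0 < e → ∀ᶠ x in TF β (m * w.τ), GoodA p (capOf p c e x.n) (x.J β) m i x.y (pv _ (x.J β) x.y)
    (α _ (x.J β) x.y) (q _ (x.J β) x.y) ei R (T _ (x.J β) x.y) (fun b => f b _ (x.J β) x.y)
    fun b => h b _ (x.J β) x.y

/-- **the local supply** (ansatz, linear algebra, burst) -/
def LocSup (β lam : ℝ) : Prop := ∀ a0 ab a' : ℝ, 0 < a0 → a0 < ab → ab < a' → a' < lam →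
  ∃ u : P1, u.Ok ∧ BasT β u.K0 u.κ0 ∧ ∀ w : P2, w.Ok → w.toP1 = { u with CM := w.CM } → w.a0 = a0 →
  w.ab = ab → w.θ = Ue.th a' → ∃ CP gW : ℝ, 1 ≤ CP ∧ 0 < gW ∧ ∀ m : ℕ, 1 ≤ m → m < w.N →
  ∃ pv α : Vy, ∀ ω : ℝ, 0 < ω → ω ≤ 1 → ∃ CN q T, LocW β w CP gW m pv α ω CN q T

/-- the family contains the squares of the level zero observables -/
def Has (β : ℝ) (𝒬 : Set B.Ob) : Prop := ∀ r ≥ (0 : ℝ), ∀ (k m : ℕ) (E : Nt (Bool ⊕ Fin m)),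
  Nw True E → Z.Bd E → Lm.Qo β (Lm.Of.ob β fun n J =>
    phi (Sq.rt (tJ J + (4 : ℝ) • (1 : Mx n))) (Eh E n (tJ J)) k r) ∈ 𝒬

/-- **the output** -/
def ZSup : Prop := ∀ β ∈ Set.Ioo (0 : ℝ) 1, ∀ (lam : ℝ) (𝒬 : Set B.Ob), Has β 𝒬 → LocSup β lam →
  SupplyStmt β lam 𝒬

/-! ### leaves -/

/-- **targets** -/
def TarStmt : Prop := ∀ β ∈ Set.Ioo (0 : ℝ) 1, ∀ K0 κ0 : ℝ, 0 < κ0 → ∃ CM ≥ (1 : ℝ),
  ∀ r ≥ (0 : ℝ), ∀ (P R ω ε : ℝ) (nb : ℕ) (a : Fin nb → Vy), 0 < ω → ω ≤ 1 → 0 < ε →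
  (∀ b, TY β r (a b)) → ∃ (d : Wd nb) (e : ℝ), d.Ok β r e ∧ ∃ θ > (0 : ℝ),
    Mo β r ε fun n J y => ModC K0 κ0 CM P R ω θ d J y fun b => a b n J y

/-- **the predicted responses are in the calculus** -/
def BarStmt : Prop := ∀ β ∈ Set.Ioo (0 : ℝ) 1, ∀ r ≥ (0 : ℝ), ∀ t ≥ (0 : ℝ), ∀ (T : My) (g : Vf),
  TgB β r T → TC β (r + t) g → RG g → ∀ ε > (0 : ℝ), ∃ f : Vy, TY β r f ∧ Be f ∧
    ∀ᶠ x in TF β r, nrm (ub (x.J β) x.y (T _ (x.J β) x.y) (g _ (x.J β)) t - f _ (x.J β) x.y) ≤ ε * √x.n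

/-- the magnetisation does not vanish -/
def MagStmt : Prop := ∀ β ∈ Set.Ioo (0 : ℝ) 1, ∀ r > (0 : ℝ), ∃ R : ℝ, ∀ᶠ x in TF β r,
  (x.n : ℝ) ≤ R ^ 2 * (mag (ising (x.J β) x.y) ⬝ᵥ mag (ising (x.J β) x.y))

/-- **PredOK** and the provenance -/
def TokStmt : Prop := ∀ K0 κ0 S : ℝ, 0 < κ0 → ∃ C ≥ (1 : ℝ), ∀ (n : ℕ) (p : Par) (z : Cap) (J : Mx n)
  (W : ℕ → ℕ → Wn) (G : ℕ → Set (V n)) (m i : ℕ) (y0 pA al q w : V n) (u ei : ℝ)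
  (T : Cube n → Mx n) (ι : Type) (f : ι → V n) (φ : Cube n → ℝ), 0 < n → p.Ok → 1 ≤ z.K →
  p.N * p.τ ≤ S → 1 ≤ m → m < p.N → p.Val (m + 1) i → Bas J K0 κ0 y0 → 0 ≤ ei → ei ≤ 1 →
  (∀ m' i', 0 ≤ (W m' i').cz) →
  (∀ m' i', Sub p.N (m + 1) i m' i' → ∀ b, RF (W m' i').e ((W m' i').d.g b n J) ∧ ∃ j,
    nrm (ub J y0 T ((W m' i').d.g b n J) (((m' : ℝ) - m) * p.τ) - f j) ≤ ei * √n) →
  C * p.N * XS p.N W (m + 1) i * ei ≤ p.e1 (m + 1) i →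
  C * p.N * XS p.N W (m + 1) i * (p.CN m i ^ 2 * z.t' m) ≤ p.e1 (m + 1) i * n →
  TokA p z J m i y0 pA al q w u ei T f φ →
  ∃ t, Tok p z J (orc p.N W G J) m i y0 pA al q w u t ∧ t.φ = φ

/-- **ModOK** -/
def MokStmt : Prop := ∀ (n : ℕ) (p : Par) (z : Cap) (J : Mx n) (W : ℕ → ℕ → Wn)
  (G : ℕ → Set (V n)) (m i : ℕ) (y0 pv a0 al q : V n) (k nh : ℕ) (v : ℕ → V n) (h : Fin nh → V n)
  (d : Wd (nh + 1)) (CM R θ ε e η η' : ℝ), 0 < n → p.Ok → GJ J → 1 ≤ m → m < p.N →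
  p.Val (m + 1) i → (∀ m' i', 0 ≤ (W m' i').cz) → W m i = ⟨nh + 1, d, 2 * CM * R ^ 2, e, η⟩ →
  1 ≤ CM → 2 * CM * (2 * p.C1 + 6) ^ 2 ≤ p.CM → 2 * CM * (2 * p.C1 + 6) ^ 2 ≤ p.CN m i →
  (∀ y, nrm (y - y0) ^ 2 ≤ z.t m → Bas J p.K0 p.κ0 y) → z.t m ≤ θ * n →
  LinOK2 J p.P y0 pv a0 al q k v p.lq p.C0 p.C1 p.CP p.eL η' (z.t m) ε → Modes R h k v →
  (n : ℝ) ≤ R ^ 2 * (mag (ising J y0) ⬝ᵥ mag (ising J y0)) →
  ModC p.K0 p.κ0 CM p.P R (p.ω m i / 2) θ d J y0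
    (Fin.cons (mag (ising J y0)) fun b => a0 * (q * h b) - J *ᵥ (q * h b)) →
  ModOK p z J (orc p.N W G J) m i y0 a0 q k v

/-- **level zero** -/
def LevStmt : Prop := ∀ (β : ℝ) (𝒬 : Set B.Ob) (N : ℕ) (τ : ℝ) (W : ℕ → ℕ → Wn), Has β 𝒬 → 0 ≤ τ →
  (∀ m i, 0 ≤ (W m i).cz ∧ ∀ b, Nw True ((W m i).d.E b) ∧ Z.Bd ((W m i).d.E b)) →
  ∃ (k : ℕ) (Q : Fin k → B.Ob) (Cq C : ℝ), (∀ j, Q j ∈ 𝒬) ∧ 0 ≤ Cq ∧ ∀ (n : ℕ) (g : Pair n → ℝ),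
    0 < n → GJ (β • Jmat n g) → (∀ m, XF (zn N W (β • Jmat n g) m)) ∧
    ∀ T0 f, Rv.Warm (ising (β • Jmat n g) 0) T0 f → ∑ m ∈ Icc 1 N, (mean (ising (β • Jmat n g) 0)
      fun σ => f σ * Ew (m * τ) (zn N W (β • Jmat n g) m) σ 0) ≤ Cq * ∑ j, B.Mom β (Q j) n g f + C

/-- what the data `x` of the window `(m, i)` achieve, given the data `prev` below it -/
def Win (β : ℝ) (w : P2) (CP gW : ℝ) (m i : ℕ) (pv α : Vy) (ω CN e ε : ℝ) (prev : ℕ → ℕ → Wn)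
    (x : Wn) : Prop := ∀ p : Par, Fit p w CP gW m i ω CN x.η → p.e1 (m + 1) i = e →
  ∀ c e' : ℝ, 0 < c → c ≤ 1 → 0 < e' → ∀ W : ℕ → ℕ → Wn, (∀ m' i', 0 ≤ (W m' i').cz) → W m i = x →
  (∀ m' i', Sub w.N (m + 1) i m' i' → W m' i' = prev m' i') → Mo β (m * w.τ) ε fun n J y =>
    ∀ G, S1.Good p (capOf p c e' n) J (orc p.N W G J) m i y (pv n J y) (α n J y)

/-- **one step of the backward recursion** -/
def StepZ : Prop := ∀ β ∈ Set.Ioo (0 : ℝ) 1, ∀ K0 κ0 C1 : ℝ, 0 < κ0 → ∃ CM ≥ (0 : ℝ),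
  ∀ (w : P2) (CP gW : ℝ) (m i : ℕ) (pv α : Vy) (ω CN : ℝ) (q : Vy) (T : My) (e ε : ℝ)
    (prev : ℕ → ℕ → Wn), w.Ok → w.K0 = K0 → w.κ0 = κ0 → w.C1 = C1 → CM ≤ w.CM → BasT β K0 κ0 →
    1 ≤ m → m < w.N → 0 < ω → ω ≤ 1 → 0 < e → 0 < ε → LocW β w CP gW m pv α ω CN q T →
    (∀ m' i', Sub w.N (m + 1) i m' i' → (prev m' i').Ok β (m' * w.τ)) →
    ∃ x : Wn, x.Ok β (m * w.τ) ∧ Win β w CP gW m i pv α ω (max CN CM) e ε prev x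

/-- backward recursion which only reads the past of the ladder -/
def RecStmt : Prop := ∀ (D : Type) (d0 : D) (N : ℕ)
  (R : ℕ → ℕ → ℝ → ℝ → (ℕ → ℕ → D) → D → Prop), (∀ m i ω e prev, ∃ x, R m i ω e prev x) →
  ∃ W : (ℕ → ℕ → ℝ) → (ℕ → ℝ) → ℕ → ℕ → D,
    (∀ ω e m i, R m i (ω m i) (e (i + 2 ^ (N - (m + 1))))
      (fun m' i' => if Sub N (m + 1) i m' i' then W ω e m' i' else d0) (W ω e m i)) ∧
    ∀ j ω ω' e e', (∀ m, ∀ i < j, ω m i = ω' m i) → (∀ i ≤ j, e i = e' i) →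
      ∀ m i, i + 2 ^ (N - (m + 1)) ≤ j → W ω e m i = W ω' e' m i

/-! ### glue -/

def TarGlue : Prop := Rv.At0 → Md.ModStmt → Md.RegStmt → BpStmt → PsiStmt → ProgStmt → DirStmt →
  TailStmt → ConcStmt → RevStmt → TcStmt → TcgStmt → RepStmt → TarStmt
def BarGlue : Prop := TcStmt → TchStmt → TmStmt → EvStmt → BarStmt
def TokGlue : Prop := Md.PredStmt → MtStmt → TokStmt
def MokGlue : Prop := Md.LinStmt → CrudeStmt → MokStmt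
def LevGlue : Prop := TcStmt → PsiStmt → PhiStmt → MtStmt → LevStmt
def StepGlue : Prop := TcStmt → TbStmt → TarStmt → BarStmt → MagStmt → TokStmt → MokStmt → StepZ
def ZGlue : Prop := TcStmt → StepZ → LevStmt → RecStmt → ZSup

end Crest.Agent.T157.Kz

end
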