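import Crest.Agent.T157.S1SupC_60
import Crest.Agent.T157.KDefB_19

/-!
# Row 157, block S1 (helper60): the three slots of the local supply
-/

set_option autoImplicit false

noncomputable section

namespace Crest.Agent.T157.S1.SA

open Matrix Filter Finset MeasureTheory
open Crest.Agent.T157.Eig Crest.Agent.T157.E
open Crest.Agent.T157.S3 (V Mx AnsAt)
open Crest.Agent.T157.S3.T60 (MO DO a0 alf)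
open Crest.Agent.T157.Pos (In TF Lv)
open Crest.Agent.T157.Tw (sech2)
open Crest.Agent.T157.K (TY)
open Crest.Agent.T157.Kz (Vy My Be TgB Modes LocSup)

/-- the rate of the ansatz at the level `m` -/
def ah (w : P2) (m : ℕ) : ℝ := w.a * (1 + w.κ) ^ (3 * m + 1) / (1 - 2 * w.η0)

/-- a normalised word -/
def wv (β : ℝ) (f : Vy) (x : In) : V x.n := (√(x.n : ℝ))⁻¹ • f x.n (x.J β) x.y

/-- the admissible weights of the burst -/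
def AdS {n : ℕ} (η ε t : ℝ) {ι κ : Type} (f : ι → V n) (h : κ → V n) (w : V n) (u : ℝ) : Prop :=
  ‖w‖ ≤ η ∧ nrm w ≤ u ∧ u ^ 2 ≤ t ∧ (∀ j, |w ⬝ᵥ f j| ≤ ε * u) ∧ ∀ b, |w ⬝ᵥ h b| ≤ ε * u

/-- the linked fields are in the calculus -/
def XT (β s : ℝ) (Tg : Mf) : Prop := ∃ T : My, TgB β s T ∧ ∀ i : In, Tg i = T i.n (i.J β) i.y

/-- **slot B** : the burst -/
def BT (β l : ℝ) : Prop := ∀ K0 κ0 b0 ab a' C0 C' : ℝ, 0 < κ0 → 0 < b0 → b0 < ab → ab < a' → a' < l →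
  0 ≤ C0 → 0 ≤ C' → (∀ s ≥ (0 : ℝ), ∀ᶠ i in TF β s, Bas (i.J β) K0 κ0 i.y) →
  (∀ s q0, Lv β s q0 → ∃ g, FamT β l 0 s q0 C0 C' (fun _ => True) g) →
  ∃ c0 > (0 : ℝ), ∃ gP > (0 : ℝ), ∃ Cu ≥ (1 : ℝ), ∀ w : P2, w.Ok → w.c0 ≤ c0 → w.gP ≤ gP →
  Cu ≤ w.Cu → w.a0 = b0 → w.ab = ab → w.θ = Ue.th a' → ∃ CP ≥ (1 : ℝ), ∃ gW > (0 : ℝ),
  ∀ m < w.N, 1 ≤ m → ∀ q0, Lv β (m * w.τ) q0 → ∀ g,
  MO β l (ah w m) (S3P.nu (m * w.τ + β ^ 2 * q0)) g →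
  ∀ ω > (0 : ℝ), ∃ eB > (0 : ℝ), ∀ e > (0 : ℝ), e ≤ eB → ∀ s0 ρ,
  DO l (ah w m) e s0 (a0 β (S3P.nu (m * w.τ + β ^ 2 * q0)) g) ρ → ∀ C ≥ (1 : ℝ), ∃ X : ℝ,
  ∃ δ > (0 : ℝ), ∀ e1 > (0 : ℝ), e1 ≤ δ → ∀ η > (0 : ℝ), ∀ (k : ℕ) (d : Fin k → ℝ → ℝ) (C1 : ℝ),
  (∀ j, Continuous (d j) ∧ ∀ x, |d j x| ≤ 1) → 0 ≤ C1 → ∀ (ι : Type) [Fintype ι] (f : ι → Vy),
  (∀ b, TY β (m * w.τ) (f b) ∧ Be (f b)) → ∀ ε > (0 : ℝ), ∀ (p : Par) (i : ℕ), p.Ok → p.toP2 = w →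
  CP ≤ p.CP → p.gW ≤ gW → ω ≤ p.ω m i → X ≤ p.CN m i → ∀ c e' : ℝ, 0 < c → c ≤ 1 → 0 < e' →
  ∀ᶠ x in TF β (m * w.τ), ∀ ψ T, S3.AnsAt (x.J β) x.y (ah w m) C C0 C' e e1 η (Real.log x.n)
      (Ety e1 C1 (C1 * Real.log x.n) fun j => fv β (d j) x) (fun k => sech2 (x.b β k) + e)
      (fun k => qf ρ (x.b β k)) (fun k => alf s0 (ah w m) ρ (x.b β k) * qf ρ (x.b β k)) ψ T →
    BurstOK (x.J β) p.P p.η0 p.θ x.y (fun k => sech2 (x.b β k) + e)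
      (AdS η ε ((capOf p c e' x.n).t' m) (fun j => fv β (d j) x) fun b => wv β (f b) x)
      (fun v σ => v ⬝ᵥ ψ σ) (p.l m) (p.am m) (p.lb m) (p.am (m + 1)) p.c0 p.gW p.gP (p.Cu / p.κ)
      p.CP (p.CN m i) (p.ω m i) (p.ec (m + 1) i) ((capOf p c e' x.n).t m) (capOf p c e' x.n).K

/-- **slot L** : the linear algebra -/
def LT (β l : ℝ) : Prop := ∀ a' < l, 0 ≤ a' → ∃ C0 : ℝ, ∃ C1 ≥ (1 : ℝ), ∀ P ≥ (1 : ℝ), ∃ CP : ℝ,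
  ∀ eL > (0 : ℝ), ∃ eT > (0 : ℝ), ∀ s q0, Lv β s q0 → ∀ a, 0 ≤ a → a ≤ a' → ∀ g,
  MO β l a (S3P.nu (s + β ^ 2 * q0)) g → ∀ e s0 ρ, e ≤ eT →
  DO l a e s0 (a0 β (S3P.nu (s + β ^ 2 * q0)) g) ρ → ∀ (nh : ℕ) (h : Fin nh → Vy),
  (∀ b, TY β s (h b) ∧ Be (h b)) → ∀ δ > (0 : ℝ), ∃ ε R : ℝ, 0 ≤ ε ∧ ε ≤ eL ^ 2 ∧
  ∀ η > (0 : ℝ), ∀ γ < (1 : ℝ), ∀ D0 ≥ C0, ∀ DP ≥ CP, ∀ᶠ x in TF β s, ∃ k v,
    LinOK2 (x.J β) P x.y (fun j => sech2 (x.b β j))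
      (fun j => a0 β (S3P.nu (s + β ^ 2 * q0)) g (x.b β j)) (fun j => alf s0 a ρ (x.b β j))
      (fun j => qf ρ (x.b β j)) k v (l / 6) D0 C1 DP eL η ((x.n : ℝ) ^ γ) ε ∧
    Modes R (fun b => h b x.n (x.J β) x.y) k v ∧
    ∀ t w u, Adm k v η t ε w u → ∀ b, |w ⬝ᵥ wv β (h b) x| ≤ δ * u

/-- **the assembly** -/
def LocGlue : Prop := ∀ β ∈ Set.Ioo (0 : ℝ) 1, ∀ l ≤ (1 : ℝ), AStmt β l (XT β) → BT β l → LT β l →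
  LocSup β l

end Crest.Agent.T157.S1.SA

end
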