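import Crest.Agent.T157.S1BpT_30
import Crest.Agent.T157.S1LocDef_60
import Crest.Agent.T157.KFl_25

/-!
# Row 157, block S1 (helper30): slot B of the local supply
-/

set_option autoImplicit false
set_option maxHeartbeats 800000

noncomputable section

namespace Crest.Agent.T157.S1.SA

open Matrix Filter Finset MeasureTheory
open Crest.Agent.T157.Eig Crest.Agent.T157.E
open Crest.Agent.T157.Pos (In TF Lv)
open Crest.Agent.T157.Tw (sech2 sech2_pos)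

lemma ah_mem30 {w : P2} (h : w.Ok) {m : ℕ} (hm : m ≤ w.N) : 0 ≤ ah w m ∧ ah w m ≤ w.ab := by
  have k0 := h.κ0'
  have a0 : 0 < w.a := h.a00.trans h.a0a
  have q0 : 0 < 1 - 2 * w.η0 := by linarith [h.η01]
  refine ⟨by rw [ah]; positivity, (div_le_iff₀ q0).2 (le_trans ?_ h.ra)⟩
  exact mul_le_mul_of_nonneg_left (pow_le_pow_right₀ (by linarith) (by omega)) a0.le

/-- **slot B** -/
theorem bT (hB : BPart) {β l : ℝ} (hβ : β ∈ Set.Ioo (0 : ℝ) 1) (hl : l ≤ (1 - β) ^ 2) : BT β l := by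
  intro K0 κ0 b0 ab a' C0 C' k0 h0 h1 h2 h3 c0 c1 hK H0
  have b0' := hβ.1
  have l0 : 0 < l := by linarith
  have l1 : l ≤ 1 := hl.trans (pow_le_one₀ (by linarith [hβ.2]) (by linarith))
  obtain ⟨c0, p1, gP, p2, Cu, p3, H⟩ := S1.bT hB hβ hl k0 hK h0 h2 (by linarith) h3 c0 c1
    (X0 := fun _ _ => True) H0
  refine ⟨c0, p1, gP, p2, Cu, p3, fun w u1 u2 u3 u4 u5 u6 u7 => ?_⟩
  obtain ⟨CP, p4, gW, p5, H⟩ := H w u1 u2 u3 u4 u5 u6 u7
  refine ⟨CP, p4, gW, p5, fun m hm _ q0 hL g hg ω ω0 => ?_⟩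
  have ha : ah w m ≤ a' := by linarith [(ah_mem30 u1 hm.le).2]
  obtain ⟨eB, p6, H⟩ := H _ q0 _ g hL (ah_mem30 u1 hm.le).1 ha hg ω ω0
  refine ⟨eB, p6, fun e e0 he s0 ρ hd C _ => ?_⟩
  obtain ⟨X, -, δ, p7, H⟩ := H e s0 ρ e0 he hd C
  refine ⟨X, δ, p7, fun e1 _ v1 η v2 k d C1 cd v3 ι _ f hf ε ε0 p i hp hw v4 v5 v6 v7 c e' v8 v9
    v10 => ?_⟩
  choose B hB using fun b => (hf b).2
  obtain ⟨M, hM⟩ : ∃ M : ℝ, M = 1 + ∑ b, |B b| := ⟨_, rfl⟩
  have M1 : 1 ≤ M := hM ▸ le_add_of_nonneg_right (sum_nonneg fun _ _ => abs_nonneg _)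
  have M0 : 0 < M := by linarith
  have hB' : ∀ b n J y j, |f b n J y j| ≤ M := fun b n J y j => ((hB b n J y j).trans
    (le_abs_self _)).trans ((single_le_sum (f := fun b => |B b|) (fun _ _ => abs_nonneg _)
      (mem_univ b)).trans (by linarith))
  have g1 : ∀ x, β * g x ≤ sech2 x := mo_le hg b0' (by linarith)
  have q0' : ∀ x, 0 < qf ρ x := fun x => lt_of_lt_of_le (by positivity [sech2_pos x]) (qf_mem hd x).1
  have hV := K.flW (M := 6 / (l * β)) hβ hL.1 hg.cont hg.even (q := qf ρ) (fun x => by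
      rw [abs_of_pos (hg.pos x), le_div_iff₀ (by positivity)]
      linarith [g1 x, sech2_le x, mul_le_of_le_one_left (mul_pos b0' (hg.pos x)).le l1])
    (hg.cont.div ((continuous_const.mul (hd.cb 0).1.continuous).mul BpT30.cont_sech2)
      fun x => (q0' x).ne') (qf_neg hd) (fun x => by
      rw [abs_of_pos (div_pos (hg.pos x) (q0' x)), div_le_div_iff₀ (q0' x) (by positivity)]
      linarith [(qf_mem hd x).1, mul_le_mul_of_nonneg_left (g1 x) l0.le])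
    (X := fun b x => M⁻¹ • f b x.n (x.J β) x.y)
    fun b => .smul (fun _ => M⁻¹) _ _ (fun _ => le_rfl) (.base _ (hf b).1)
  filter_upwards [H e1 η C1 k d _ v1 v2 v3 cd hV (.of_forall fun x => by
      rintro _ ⟨b, rfl⟩
      refine Rip.nrm_flat fun j => ?_
      rw [Pi.smul_apply, smul_eq_mul, abs_mul, abs_of_pos (inv_pos.2 M0), inv_mul_le_iff₀ M0, mul_one]
      exact hB' _ _ _ _ _) η v2 (ε / M) (by positivity) p hp hw v4 v5 m i (by rw [← hw] at hm; exact hm)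
    (by rw [← hw]; rfl) v6 v7 c ⟨v8, v9⟩ e' v10] with x hx ψ T hA
  refine hx ψ T hA _ _ fun v u g1 g2 g3 g4 => ⟨⟨g1, g2, g3, fun j => (g4 _ (.inl ⟨j, rfl⟩)).trans
    (mul_le_mul_of_nonneg_right (div_le_self ε0.le M1) ((nrm_nonneg v).trans g2)), fun b => ?_⟩, rfl⟩
  have := g4 _ (.inr ⟨b, rfl⟩)
  dsimp only at this
  rw [smul_comm, dotProduct_smul, smul_eq_mul, abs_mul, abs_of_pos (inv_pos.2 M0),
    inv_mul_le_iff₀ M0, ← mul_assoc, mul_div_cancel₀ _ M0.ne'] at this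
  exact this

end Crest.Agent.T157.S1.SA

end
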