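import Crest.Agent.T157.S1Md_35

/-!
# Row 157, part B, block S1 (helper35): `LinOK2` along a filter of instances
-/

set_option autoImplicit false
set_option linter.unusedVariables false

noncomputable section

namespace Crest.Agent.T157.S1

open Real Matrix Finset Filter
open Crest.Agent.T157.E Crest.Agent.T157.SL
open Crest.Agent.T157.Eig
open Crest.Agent.T157.S3 (V Mx)
open Crest.Agent.T157.Rip

/-- sublinear caps -/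
def Sub1 (t : ℕ → ℝ) : Prop := ∀ θ > (0 : ℝ), ∀ᶠ n : ℕ in atTop, 0 ≤ t n ∧ t n ≤ θ * n

lemma sub1_pow {c : ℝ} (hc : 0 < c) : Sub1 fun n => (n : ℝ) ^ (1 - c) := fun θ hθ => by
  have := ((tendsto_rpow_neg_atTop hc).comp tendsto_natCast_atTop_atTop).eventually
    (ge_mem_nhds hθ)
  filter_upwards [this, eventually_gt_atTop 0] with n h1 h2
  have n0 : (0 : ℝ) < n := Nat.cast_pos.2 h2
  refine ⟨by positivity, ?_⟩
  rw [sub_eq_neg_add, rpow_add n0, rpow_one]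
  exact mul_le_mul_of_nonneg_right h1 n0.le

/-- **`LinOK2` and the modes at typical instances** -/
theorem lT {I ι : Type} [Fintype ι] {l : Filter I} {n : I → ℕ} (hn : Tendsto n l atTop)
    {J : ∀ i, Mx (n i)} {y0 p a0 al q : ∀ i, V (n i)} {h : ι → ∀ i, V (n i)}
    {B P lq C0 C1 CP Cw Cp ew e ei : ℝ} (hB : 0 ≤ B) (hlq : 0 ≤ lq) (hP : 1 ≤ P) (hC1 : 0 ≤ C1)
    (hCw : 0 ≤ Cw) (hCp : 0 ≤ Cp) (hew : 0 ≤ ew) (he : 0 < e) (hei : 0 < ei)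
    (hCP : 1 + 6 * P * (Cw + 1) ≤ CP) (hC0 : 111 + 12 * (Cp + 1) ^ 2 ≤ C0) (hwe : 12 * P * ew ≤ e)
    (hA : ∀ᶠ i in l, (J i)ᵀ = J i ∧ opn (J i) ≤ 3 ∧ (∀ b k, |h b i k| ≤ B) ∧
      (∀ k, 0 < p i k ∧ p i k ≤ 1) ∧ (∀ k, lq * p i k ≤ q i k ∧ q i k ≤ 2 * p i k) ∧
      (∀ k, p i k * |a0 i k| ≤ C1 ∧ p i k * |al i k - a0 i k| ≤ e) ∧
      ∀ (S : Finset (Fin (n i))) (Δ : V (n i)), (∀ k ∈ S, Δ k = 0) →
        Δ ⬝ᵥ Δ ≤ C1 * ∑ k ∈ Sᶜ, zv (J i) (p i) (a0 i) Δ k ^ 2 + C1 * ((mag (ising (J i) (y0 i)) ⬝ᵥ Δ) ^ 2 /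
          (mag (ising (J i) (y0 i)) ⬝ᵥ mag (ising (J i) (y0 i)))))
    (hC : ∀ εw > (0 : ℝ), ∃ θ > (0 : ℝ), ∀ᶠ i in l, ∃ x Ft Wm, 0 ≤ x ∧
      (∀ b, (√(n i : ℝ))⁻¹ • h b i ∈ Ft) ∧
      Cav (J i) (p i) (q i) (al i * q i) x Cw Cp ew εw (θ * n i) Ft Wm) :
    ∃ ε > (0 : ℝ), ε ≤ e ^ 2 ∧ ∃ R : ℝ, ∀ η > (0 : ℝ), ∀ t, Sub1 t → ∀ᶠ i in l, ∃ k v,
      LinOK2 (J i) P (y0 i) (p i) (a0 i) (al i) (q i) k v lq C0 C1 CP e η (t (n i)) ε ∧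
      (∃ T : ℕ → ι → ℝ, (∀ a < k, v a = (√(n i : ℝ))⁻¹ • ∑ b, T a b • h b i) ∧
        ∀ x : ℕ → ℝ, ∑ b, (∑ a ∈ range k, x a * T a b) ^ 2 ≤ R ^ 2 * ∑ a ∈ range k, x a ^ 2) ∧
      ∀ η' t' w u, Adm k v η' t' ε w u → ∀ b, |w ⬝ᵥ (√(n i : ℝ))⁻¹ • h b i| ≤ ei * u ∧
        (w ⬝ᵥ h b i) ^ 2 ≤ ei * n i * u ^ 2 := by
  obtain ⟨δ, δ0, δ1, δe⟩ : ∃ δ : ℝ, 0 < δ ∧ δ ≤ 1 ∧ δ ≤ ei :=
    ⟨min 1 ei, lt_min one_pos hei, min_le_left _ _, min_le_right _ _⟩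
  obtain ⟨R, R1, H⟩ := linOK2_of (half_pos δ0) hB (Fintype.card ι)
  obtain ⟨D, hD⟩ : ∃ D : ℝ, D = Fintype.card ι * B := ⟨_, rfl⟩
  have D0 : 0 ≤ D := by rw [hD]; positivity
  obtain ⟨s, s0, s1, se, sD⟩ : ∃ s : ℝ, 0 < s ∧ s ≤ 1 ∧ s ≤ e ∧ D * s ≤ δ / 2 := by
    refine ⟨min 1 (min e (δ / 2 / (D + 1))), by positivity, min_le_left _ _,
      (min_le_right _ _).trans (min_le_left _ _), ?_⟩
    have := (le_div_iff₀ (show 0 < D + 1 by linarith)).1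
      ((min_le_right 1 _).trans (min_le_right e (δ / 2 / (D + 1))))
    have h0 : 0 < min 1 (min e (δ / 2 / (D + 1))) := by positivity
    linarith
  obtain ⟨Y, hY⟩ : ∃ Y : ℝ, Y = 2 * (C1 + e) + 6 + 21 * P := ⟨_, rfl⟩
  have P0 : 0 < P := by linarith
  have R0 : 0 < R := by linarith
  have Y0 : 2 ≤ Y := by linarith
  obtain ⟨r, r0, hr⟩ : ∃ r : ℝ, 0 < r ∧ 12 * P * Y * r = s :=
    ⟨s / (12 * P * Y), by positivity, by field_simp⟩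
  have rP : 24 * P * r ≤ s := by
    linarith [mul_le_mul_of_nonneg_right Y0 (show 0 ≤ 12 * P * r by positivity)]
  have rR : R * (r / R) = r := by field_simp
  obtain ⟨θ, θ0, hC⟩ := hC (r / R) (by positivity)
  refine ⟨s ^ 2, by positivity, pow_le_pow_left₀ s0.le se 2, R, fun η hη t ht => ?_⟩
  filter_upwards [hA, hC, hn.eventually (eventually_gt_atTop 0), hn.eventually (ht θ θ0),
    hn.eventually (ht (θ * η ^ 2 / (36 * P ^ 2 * Cw ^ 2 + 1)) (by positivity)),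
    hn.eventually (ht (η ^ 2 / R ^ 2) (by positivity)),
    hn.eventually (ht (s ^ 2 / R ^ 2) (by positivity))] with i ⟨a1, a2, a3, a4, a5, a6, a7⟩
    ⟨x, Ft, Wm, x0, hF, c⟩ n0 ⟨t0, t1⟩ ⟨_, t2⟩ ⟨_, t3⟩ ⟨_, t4⟩
  rw [div_mul_eq_mul_div, le_div_iff₀ (by positivity)] at t2 t3 t4
  obtain ⟨k, -, v, T, L, G⟩ := H (n i) ι (fun b => h b i) (J i) Wm (y0 i) (p i) (a0 i) (al i) (q i) Ft
    P x lq C0 C1 CP Cw Cp ew (r / R) (θ * n i) e η (t (n i)) (s ^ 2) le_rfl n0 a3 hF a4 a5 a6 a7 c a1 a2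
    hlq hP x0 hCw hCp hew (by positivity) hη hCP hC0 (by rw [rR]; linarith [mul_pos r0 P0])
    (by rw [rR]; exact pow_le_pow_left₀ (by positivity) rP 2) (by rw [rR, ← hY]; linarith) t0 t1
    (by linarith) (by linarith) (by linarith)
  refine ⟨k, v, L, ⟨T, G.co, G.op⟩, fun η' t' w u hA b => ?_⟩
  have u0 := (nrm_nonneg w).trans hA.2.1
  have o := G.ort η' t' _ w u (sq_nonneg s) hA b
  rw [sqrt_sq s0.le, ← hD] at o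
  replace o := o.trans (mul_le_mul_of_nonneg_right (show _ ≤ δ by linarith) u0)
  refine ⟨o.trans (mul_le_mul_of_nonneg_right δe u0), ?_⟩
  have N0 : (0 : ℝ) < n i := Nat.cast_pos.2 n0
  have o2 := pow_le_pow_left₀ (abs_nonneg _) o 2
  rw [sq_abs, dotProduct_smul, smul_eq_mul, mul_pow, inv_pow, sq_sqrt N0.le, inv_mul_le_iff₀ N0] at o2
  have : δ * δ ≤ ei := (mul_le_of_le_one_left δ0.le δ1).trans δe
  linarith [mul_le_mul_of_nonneg_right this (mul_nonneg N0.le (sq_nonneg u))]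

end Crest.Agent.T157.S1

end
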