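import Crest.Agent.T157.S1LocDef_60
import Crest.Agent.T157.KFl_25
import Crest.Agent.T157.S1LT_35

/-!
# Row 157, part B, block S1 (helper35): slot L of the local supply
-/

set_option autoImplicit false
set_option linter.unusedVariables false
set_option maxHeartbeats 800000

noncomputable section

namespace Crest.Agent.T157.S1.SA

open Real Matrix Filter Finset MeasureTheory
open Crest.Agent.T157.Eig Crest.Agent.T157.E
open Crest.Agent.T157.S3 (V Mx)
open Crest.Agent.T157.S3.T60 (MO DO a0 alf)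
open Crest.Agent.T157.Pos (In TF Lv)
open Crest.Agent.T157.Tw (sech2 sech2_pos)
open Crest.Agent.T157.Rip (Cav)
open Crest.Agent.T157.Uw (eta)

lemma LY35.cont : Continuous sech2 := by
  unfold sech2
  exact continuous_const.div (by fun_prop) fun x => by positivity [Real.cosh_pos x]

/-- **slot L** -/
theorem ltStmt {β : ℝ} (hβ : β ∈ Set.Ioo (0 : ℝ) 1) (l : ℝ) : LT β l := by
  intro a' ha' a0'
  have b0 := hβ.1
  have hl : 0 < l := a0'.trans_lt ha'
  obtain ⟨C1, c1, HA⟩ := linA hβ ha'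
  obtain ⟨r, hr⟩ : ∃ r, r = max (1 - β * (l - a')) 0 := ⟨_, rfl⟩
  have r0 : 0 ≤ r := hr ▸ le_max_right _ _
  have r1 : r < 1 := hr ▸ max_lt (by linarith [mul_pos b0 (sub_pos.2 ha')]) one_pos
  have r2 : 0 < 1 - r := sub_pos.2 r1
  obtain ⟨C2, hC2⟩ : ∃ C2, C2 = 6 / (l * β) + 4 := ⟨_, rfl⟩
  have c4 : 4 ≤ C2 := hC2 ▸ le_add_of_nonneg_left (by positivity)
  have c0 : 0 < C2 := by linarith
  obtain ⟨Cw, hw⟩ : ∃ Cw, Cw = 2 * C2 / (1 - r) := ⟨_, rfl⟩
  obtain ⟨Cp, hp⟩ : ∃ Cp, Cp = 2 * C2 ^ 2 / (1 - r) ^ 2 := ⟨_, rfl⟩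
  have w0 : 0 ≤ Cw := by rw [hw]; positivity
  have p0 : 0 ≤ Cp := by rw [hp]; positivity
  refine ⟨111 + 12 * (Cp + 1) ^ 2, C1, by linarith, fun P hP => ⟨1 + 6 * P * (Cw + 1), fun eL eL0 => ?_⟩⟩
  have P0 : 0 < P := by linarith
  obtain ⟨eT, T0, hT⟩ : ∃ eT > (0 : ℝ), 12 * P * ((Cw + 1) * (4 * eT)) = eL :=
    ⟨eL / (48 * P * (Cw + 1)), by positivity, by field_simp; ring⟩
  have TL : eT ≤ eL := by
    linarith [mul_le_mul_of_nonneg_right hP T0.le, mul_nonneg (mul_nonneg P0.le w0) T0.le]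
  refine ⟨eT, T0, fun s q0 hL a h0 ha g hg e s0 ρ he hd nh h hh δ δ0 => ?_⟩
  have al : a ≤ l := by linarith
  choose M hM using fun b => (hh b).2
  have gb : ∀ x, β * g x ≤ 1 := fun x => (mo_le hg b0 al x).trans (sech2_le x)
  have q1 : ∀ y, 0 ≤ qf ρ y ∧ qf ρ y ≤ 2 * sech2 y := fun y =>
    ⟨le_trans (by positivity [sech2_pos y]) (qf_mem hd y).1, (qf_mem hd y).2⟩
  have sq : ∀ x, sech2 x / β ≤ C2 * qf ρ x := fun x =>
    calc sech2 x / β = 6 / (l * β) * (l / 6 * sech2 x) := by field_simp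
      _ ≤ 6 / (l * β) * qf ρ x := mul_le_mul_of_nonneg_left (qf_mem hd x).1 (by positivity)
      _ ≤ _ := mul_le_mul_of_nonneg_right (by linarith) (q1 x).1
  obtain ⟨ε, ε0, ε1, R, H⟩ := lT (l := TF β s) (n := fun i : In => i.n) Pos.TF.lim
    (J := fun i => i.J β) (y0 := fun i => i.y) (p := fun i j => sech2 (i.b β j))
    (a0 := fun i j => a0 β (S3P.nu (s + β ^ 2 * q0)) g (i.b β j))
    (al := fun i j => alf s0 a ρ (i.b β j)) (q := fun i j => qf ρ (i.b β j))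
    (h := fun b i => h b i.n (i.J β) i.y) (B := ∑ b, |M b|) (lq := l / 6) (C1 := C1)
    (ew := (Cw + 1) * (4 * eT)) (sum_nonneg fun _ _ => abs_nonneg _) (by positivity) hP (by linarith)
    w0 p0 (by positivity) eL0 δ0 le_rfl le_rfl hT.le (by
      filter_upwards [HA s q0 hL a ha g hg, Pos.TF.opn ⟨b0, hβ.2.le⟩] with i hi ho
      have A := hi e s0 ρ hd
      exact ⟨i.symm, ho, fun b k => (hM b _ _ _ k).trans ((le_abs_self _).trans
        (single_le_sum (f := fun b => |M b|) (fun _ _ => abs_nonneg _) (mem_univ b))), A.hp, A.hq,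
        fun k => ⟨(A.ha k).1, (A.ha k).2.trans (he.trans TL)⟩, A.pos⟩) fun εw w0 => by
      obtain ⟨μ, μ0, H⟩ := K.cavY hβ hL (M := 1 / β) (ρ := r) (C2 := C2) (e := 4 * eT)
        (ε := min εw eT) (one_le_one_div b0 hβ.2.le) r0 r1 (by linarith) (by positivity)
        (lt_min w0 T0) (κ := Fin 0) (d := fun _ _ => 0) hg.cont hg.even (q := qf ρ)
        ((continuous_const.mul (hd.cb 0).1.continuous).mul LY35.cont) (qf_neg hd)
        (fun _ => continuous_const) (fun _ _ => by simp)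
        (fun x => ⟨hg.pos x, (le_div_iff₀' b0).2 (gb x), (mo_hi hg b0 ha x).trans
          ((mul_le_of_le_one_left (mo_r0 hg b0 ha).le (sech2_le x)).trans (hr ▸ le_max_left _ _)),
          ((le_div_iff₀' b0).2 (mo_le hg b0 al x)).trans (sq x)⟩) fun b => (hh b).1
      refine ⟨μ, μ0, H.mono fun i ⟨h1, h2⟩ => ?_⟩
      rw [← S3P.int_nu _ hg.cont] at h1
      have x0 : 0 ≤ eta (β / √i.n) fun k => g (i.b β k) :=
        Rip.Cav35.eta_nonneg fun k => (hg.pos _).le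
      rw [← hw, ← hp] at h2
      generalize (eta (β / √i.n) fun k => g (i.b β k)) = x at h1 h2 x0
      obtain ⟨Wm, hW⟩ := h2 (fun k => sech2 (i.b β k))
        ((fun k => alf s0 a ρ (i.b β k)) * fun k => qf ρ (i.b β k)) (fun k => ⟨(sech2_pos _).le,
          (le_div_self (sech2_pos _).le b0 hβ.2.le).trans (sq _), by
            linarith [hg.lo (i.b β k), mul_le_mul_of_nonneg_right c4 (hg.pos (i.b β k)).le]⟩)
        fun k => by
          have e3 : alf s0 a ρ (i.b β k) * qf ρ (i.b β k) - qf ρ (i.b β k) * (1 / g (i.b β k) + x) =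
              qf ρ (i.b β k) * (alf s0 a ρ (i.b β k) - a0 β (S3P.nu (s + β ^ 2 * q0)) g (i.b β k)) -
                qf ρ (i.b β k) * (x - β ^ 2 * ∫ y, g y ∂S3P.nu (s + β ^ 2 * q0)) := by
            rw [a0]; ring
          rw [Pi.mul_apply, e3]
          refine (abs_sub _ _).trans ?_
          rw [abs_mul, abs_mul, abs_of_nonneg (q1 _).1]
          linarith [hd.al (i.b β k), mul_le_mul_of_nonneg_right (q1 (i.b β k)).2 (abs_nonneg
            (alf s0 a ρ (i.b β k) - a0 β (S3P.nu (s + β ^ 2 * q0)) g (i.b β k))),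
            mul_le_mul (show qf ρ (i.b β k) ≤ 2 by linarith [(q1 (i.b β k)).2, sech2_le (i.b β k)])
              (h1.trans (min_le_right _ _)) (abs_nonneg _) zero_le_two]
      exact ⟨x, _, Wm, x0, fun b => .inr ⟨b, rfl⟩,
        hW.mono x0 le_rfl le_rfl le_rfl (min_le_left _ _) le_rfl subset_rfl⟩
  refine ⟨ε, R, ε0.le, ε1, fun η η0 γ hγ D0 hD DP hDP => ?_⟩
  have ht := sub1_pow (sub_pos.2 hγ)
  simp only [sub_sub_cancel] at ht
  refine (H η η0 _ ht).mono fun i ⟨k, v, L, hm, ho⟩ => ⟨k, v, ⟨L.hp, L.hq, L.ha, L.pos, L.on, L.sup,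
    L.sp, fun S u h1 h2 h3 h4 => ?_⟩, hm, fun t w u hA b => (ho η t w u hA b).1⟩
  obtain ⟨w, w1, w2, w3, w4⟩ := L.pin S u h1 h2 h3 h4
  exact ⟨w, w1, w2.trans (mul_le_mul_of_nonneg_right hDP (nrm_nonneg _)),
    w3.trans (mul_le_mul_of_nonneg_right hD (Eig.dot_self_nonneg _)), w4⟩

end Crest.Agent.T157.S1.SA

end
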