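import Crest.Agent.T157.KProg_69
import Crest.Agent.T157.KTc_36

/-!
# Row 157, part B (helper69): `K.TC` is a thermal calculus
-/

set_option autoImplicit false

noncomputable section

namespace Crest.Agent.T157.KP69

open Matrix Set
open Crest.Agent.T157.Eig (nrm nrm_le_iff)
open Crest.Agent.T157.K (TC TcStmt TmStmt L2)

lemma Bdd.l2 {U : Wd} (h : Bdd U) : L2 U := by
  obtain ⟨M, hM⟩ := h
  refine ⟨|M|, fun n J s y _ => ?_⟩
  rw [nrm_le_iff (by positivity), mul_pow, Real.sq_sqrt n.cast_nonneg]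
  calc U n J s y ⬝ᵥ U n J s y ≤ ∑ _i : Fin n, |M| ^ 2 := Finset.sum_le_sum fun i _ => by
        rw [← sq, ← sq_abs]
        exact pow_le_pow_left₀ (abs_nonneg _) ((hM _ _ _ _ i).trans (le_abs_self M)) 2
    _ = _ := by simp [mul_comm]

/-- **the thermal calculus of the kernel route** -/
theorem api (hc : TcStmt) (hm : TmStmt) {β r : ℝ} (hβ : β ∈ Ioo (0 : ℝ) 1) (hr : 0 ≤ r) :
    Api (TC β r) :=
  have b : β ∈ Icc (0 : ℝ) 1 := Ioo_subset_Icc_self hβ
  { sp := hc.spin β b r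
    fy := hc.fld β b r
    map := fun m φ _ o u => Z.apB.map _ β b _ _ m φ _ o u
    ev := fun m ψ _ _ o u w => Z.apB.ev _ β b _ _ m ψ _ _ o u w
    add := fun _ _ s t u w => Z.apB.add _ β b _ _ _ _ s t u w
    mul := fun _ u => (Z.apB.mul _ β b _ _ _ u).1
    sc := fun _ _ _ u w z => Z.apB.sc _ β b _ _ _ _ _ u w z
    tm := fun U u d => (hm β hβ r hr U u d.l2).1
    tme := fun U u d => (hm β hβ r hr U u d.l2).2 }

end Crest.Agent.T157.KP69

end
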