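import Crest.Agent.T157.S3LkI_90
import Crest.Agent.T157.S1LocDef_60
import Crest.Agent.T157.KProgB_69

/-!
# Row 157, block B/S3 (helper40): the link in the words of the calculus
-/

set_option autoImplicit false

namespace Crest.Agent.T157.S3.Lk

open Crest.Agent.T157.S1.SA

variable (hc : K.TcStmt) (hm : K.TmStmt) {β : ℝ} (h0 : 0 < β) (h1 : β < 1)
include hc hm h0 h1

theorem famXT : FamLk β (XT β) := fun K0 κ0 hκ =>
  let ⟨C', c0, H⟩ := Lk90.famLk h0 h1 K0 κ0 hκ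
  ⟨C', c0, fun s q0 G hL hF hG hS n N l a e al0 ψ m ρ hl he hN ht =>
    let ⟨Tg, ⟨g, ho, hg⟩, h⟩ := H s q0 G hL hF hG hS n N l a e al0 ψ m ρ hl he hN ht
    ⟨Tg, ⟨fun n J y => g.Tg (β / √n) J y,
      ⟨(ho.opn_le β).imp fun _ hC n J y x hJ => hC n J y x hJ.2.2,
        fun _ hU => ho.api β (KP69.api hc hm ⟨h0, h1⟩ hL.1) hU⟩, hg⟩, h⟩⟩

/-- **the part A of the supply** -/
theorem aStmtXT (𝒞 : Tw.Cls) (h𝒞 : ∀ m, 𝒞.C m = Tw.PV m) : AStmt β (Tw.lam 𝒞 β) (XT β) :=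
  aStmt_of 𝒞 h𝒞 h0 h1 (famXT hc hm h0 h1)

end Crest.Agent.T157.S3.Lk
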