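import Crest.Agent.T157.S1Loc_60
import Crest.Agent.T157.S1BT_30
import Crest.Agent.T157.S1LY_35
import Crest.Agent.T157.S3LkC_40

/-!
# Row 157, block S1 (helper60): the local supply at the rate of the towers
-/

set_option autoImplicit false

namespace Crest.Agent.T157.S1.SA

/-- **the local supply** (the body of `TopZ.LocF`) -/
theorem locF (hB : BPart) (hc : K.TcStmt) (hm : K.TmStmt) (𝒞 : Tw.Cls)
    (h𝒞 : ∀ m, 𝒞.C m = Tw.PV m) (β : ℝ) (h0 : 0 < β) (h1 : β < 1) : Kz.LocSup β (Tw.lam 𝒞 β) :=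
  have hl := (Tw.lamStmt 𝒞 β h0.le h1).2.1
  locGlue β ⟨h0, h1⟩ _ (hl.trans (by nlinarith)) (S3.Lk.aStmtXT hc hm h0 h1 𝒞 h𝒞)
    (bT hB ⟨h0, h1⟩ hl) (ltStmt ⟨h0, h1⟩ _)

end Crest.Agent.T157.S1.SA
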