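import Crest.Agent.T157.LmDef_76
import Crest.Agent.T157.TwM1_52

/-!
# Row 157, block B/S5 (helper48): commutator estimates
-/

set_option autoImplicit false

noncomputable section

namespace Crest.Agent.T157.Lm

open MeasureTheory Real Filter Topology Finset Matrix
open Crest.Agent.R238.Gap (E pd PG pg_const)
open Crest.Agent.R253.Meh74 (gam C1 c1_const c1_coord pd_sum' pd_coord poincare1)
open Crest.Agent.T157.Hm (en C0 ip c0_of c0_pd c0_const pd_const)
open Crest.Agent.T157.Rn (Tm SmStmt)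
open Crest.Agent.T157.Tw (mv)
open Crest.Agent.T157.Tw.M1 (mv_apply pd_aff c1_aff pg_aff int_av cont_av' pg_av int_pg)

namespace C48

variable {m n : ℕ}

/-! ### squared norms -/

theorem en_eq (f : E m → ℝ) : en f = ∑ j, sq (pd j f) := by simp only [en, ip, sq, pow_two]

theorem en2_eq (f : E m → ℝ) : en2 f = ∑ j, ∑ i, sq (pd i (pd j f)) := by simp only [en2, en_eq]

theorem sq_nn (f : E m → ℝ) : 0 ≤ sq f := integral_nonneg fun _ => sq_nonneg _

theorem c0_sq {f : E m → ℝ} (h : C0 f) : C0 fun z => f z ^ 2 := by simpa only [pow_two] using h.mul h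

theorem c0_smul (c : ℝ) {f : E m → ℝ} (h : C0 f) : C0 fun z => c * f z := (c0_const c).mul h

theorem m2 {f : E m → ℝ} (h : C0 f) : M2 f := ⟨h.c.measurable, h.memLp⟩

/-- pointwise quadratic inequalities integrate -/
theorem sq_le_sum {ι : Type} (T : Finset ι) {f : E m → ℝ} {g : ι → E m → ℝ} (hg : ∀ i, C0 (g i))
    (b : ι → ℝ) (h : ∀ z, f z ^ 2 ≤ ∑ i ∈ T, b i * g i z ^ 2) : sq f ≤ ∑ i ∈ T, b i * sq (g i) := by
  have hi : ∀ i ∈ T, Integrable (fun z => b i * g i z ^ 2) (gam m) := fun i _ =>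
    (c0_smul _ (c0_sq (hg i))).int
  refine (integral_mono_of_nonneg (ae_of_all _ fun _ => sq_nonneg _) (integrable_finsetSum _ hi)
    (ae_of_all _ h)).trans_eq ?_
  rw [integral_finsetSum _ hi]
  simp only [integral_const_mul, sq]

theorem sq_le_two {f g g' : E m → ℝ} (hg : C0 g) (hg' : C0 g') (b b' : ℝ)
    (h : ∀ z, f z ^ 2 ≤ b * g z ^ 2 + b' * g' z ^ 2) : sq f ≤ b * sq g + b' * sq g' := by
  simpa using sq_le_sum (f := f) (univ : Finset Bool) (g := fun i => cond i g g')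
    (fun i => by cases i <;> assumption) (fun i => cond i b b') fun z => by simpa using h z

/-- at most two terms -/
theorem sq_src {b : Fin n → ℝ} {p : Fin n → Prop} [DecidablePred p] (hp : (univ.filter p).card ≤ 2)
    (hb : ∀ k, ¬ p k → b k = 0) {g : Fin n → E m → ℝ} (hg : ∀ k, C0 (g k)) :
    sq (fun z => ∑ k, b k * g k z) ≤ ∑ k, 2 * b k ^ 2 * sq (g k) :=
  sq_le_sum _ hg _ fun z => by
    rw [← sum_filter_of_ne (p := p) fun k _ h => not_not.1 fun h' => h (by rw [hb k h', zero_mul])]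
    refine sq_sum_le_card_mul_sum_sq.trans ?_
    have h2 : ((univ.filter p).card : ℝ) ≤ 2 := by exact_mod_cast hp
    refine (mul_le_mul h2 (sum_le_univ_sum_of_nonneg fun k => sq_nonneg _)
      (sum_nonneg fun _ _ => sq_nonneg _) zero_le_two).trans_eq ?_
    rw [mul_sum]; exact sum_congr rfl fun k _ => by ring

theorem sq_step (hn : 0 < n) {a t : E m → ℝ} (ha : C0 a) (ht : C0 t) :
    sq (fun z => a z + t z / n) ≤ (1 + 1 / n) * sq a + 2 / n * sq t :=
  sq_le_two ha ht _ _ fun z => by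
    have h1 : (1 : ℝ) ≤ n := by exact_mod_cast hn
    have h2 : 1 / (n : ℝ) ≤ 1 := by rw [div_le_one (by linarith)]; exact h1
    have h3 : 0 ≤ 1 / (n : ℝ) := by positivity
    rw [div_eq_mul_one_div (t z), div_eq_mul_one_div 2]
    generalize 1 / (n : ℝ) = x at *
    nlinarith [mul_nonneg h3 (sq_nonneg (a z - t z)),
      mul_nonneg (mul_nonneg h3 (sub_nonneg.2 h2)) (sq_nonneg (t z))]

/-- Jensen with weights -/
theorem sq_comb (T : Finset ℕ) {θ : ℕ → ℝ} (h0 : ∀ j, 0 ≤ θ j) {g : ℕ → E m → ℝ} (hg : ∀ j, C0 (g j)) :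
    sq (fun z => ∑ j ∈ T, θ j * g j z) ≤ (∑ j ∈ T, θ j) * ∑ j ∈ T, θ j * sq (g j) := by
  refine (sq_le_sum T hg (fun j => (∑ j ∈ T, θ j) * θ j) fun z => ?_).trans_eq (by
    simp only [mul_sum _ _ (∑ j ∈ T, θ j), mul_assoc])
  have := sum_mul_sq_le_sq_mul_sq T (fun j => √(θ j)) fun j => √(θ j) * g j z
  simp only [← mul_assoc, mul_self_sqrt (h0 _), mul_pow, sq_sqrt (h0 _)] at this
  simpa only [mul_sum _ _ (∑ j ∈ T, θ j), mul_assoc] using this

/-- Gaussian Poincaré inequality in a set of variables -/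
theorem row_poin (p : Fin m → Prop) [DecidablePred p] {F : E m → ℝ} (hF : C1 F) :
    ∃ M : E m → ℝ, C0 M ∧ (∀ z z' : E m, (∀ e, ¬ p e → z e = z' e) → M z = M z') ∧
      sq (fun z => F z - M z) ≤ ∑ e, if p e then sq (pd e F) else 0 := by
  set P : Matrix (Fin m) (Fin m) ℝ := diagonal fun e => if p e then 0 else 1 with hP
  set Q : Matrix (Fin m) (Fin m) ℝ := diagonal fun e => if p e then 1 else 0 with hQ
  have hPQ : P * Pᵀ + Q * Qᵀ = 1 := by
    rw [hP, hQ, diagonal_transpose, diagonal_transpose, diagonal_mul_diagonal, diagonal_mul_diagonal,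
      diagonal_add, ← diagonal_one]
    congr 1; funext e; split_ifs <;> simp
  set M := Tw.M1.av (mv P) (mv Q) F with hM
  have c0M : C0 M := ⟨cont_av' _ _ hF.cont hF.g, pg_av _ _ hF.g⟩
  have inv : ∀ z z' : E m, (∀ e, ¬ p e → z e = z' e) → M z = M z' := fun z z' h => by
    have : mv P z = mv P z' := by
      ext e
      simp only [mv_apply, hP, diagonal_apply, ite_mul, zero_mul, sum_ite_eq, mem_univ, if_true]
      split_ifs with h1
      exacts [rfl, by rw [h e h1]]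
    simp only [hM, Tw.M1.av, this]
  refine ⟨M, c0M, inv, ?_⟩
  have av : ∀ {G : E m → ℝ}, C0 G → ∫ z, G z ∂gam m = ∫ z, Tw.M1.av (mv P) (mv Q) G z ∂gam m ∧
      C0 (Tw.M1.av (mv P) (mv Q) G) := fun h =>
    ⟨by simpa using (int_av hPQ h.c h.g 0).symm, cont_av' _ _ h.c h.g, pg_av _ _ h.g⟩
  have h1 := av (c0_sq ((c0_of hF).sub c0M))
  have h2 : ∀ e, C0 fun z => Q e e * pd e F z ^ 2 := fun e => c0_smul _ (c0_sq (c0_pd hF e))
  have h3 := av (C0.sum univ fun e _ => h2 e)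
  have h4 : ∑ e, (if p e then sq (pd e F) else 0) = ∫ z, ∑ e, Q e e * pd e F z ^ 2 ∂gam m := by
    rw [integral_finsetSum _ fun e _ => (h2 e).int]
    refine sum_congr rfl fun e _ => ?_
    rw [integral_const_mul, hQ, diagonal_apply_eq]; split_ifs <;> simp [sq]
  rw [sq, h1.1, h4, h3.1]
  refine integral_mono h1.2.int h3.2.int fun z => ?_
  have f1 := c1_aff hF (mv P z) Q
  have f2 := poincare1 (f1.sub (c1_const (M z)))
  have f3 : ∫ y, (F (mv P z + mv Q y) - M z) ∂gam m = 0 := by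
    rw [integral_sub (c0_of f1).int (integrable_const _)]; simp [hM, Tw.M1.av]
  have f4 : ∀ y, M (mv P z + mv Q y) = M z := fun y => inv _ _ fun e he => by
    simp [mv_apply, hP, hQ, diagonal_apply, he]
  have f5 : ∀ e y, pd e (fun y => F (mv P z + mv Q y) - M z) y ^ 2 =
      Q e e * pd e F (mv P z + mv Q y) ^ 2 := fun e y => by
    rw [Hm.pd_sub f1 (c1_const _)]
    simp only [pd_const, sub_zero, pd_aff hF.diff, hQ, diagonal_apply, ite_mul, zero_mul, sum_ite_eq',
      mem_univ, if_true]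
    split_ifs <;> simp
  simp only [f3, f5] at f2
  simp only [Tw.M1.av, f4]
  rw [integral_finsetSum _ fun e _ => int_pg _ _ (h2 e).c (h2 e).g z]
  linarith

/-! ### the flips -/

variable (S : GS m n)

def eps (k : Fin n) (e : Fin m) : ℝ := if S.inc k e = true then -1 else 1
def aa (k : Fin n) (e : Fin m) : ℝ := if S.inc k e = true then S.α e else 0
/-- twisted difference -/
def Dt (s : ℝ) (k : Fin n) (w : E m → ℝ) (z : E m) : ℝ := s * w (S.R k z) - w z
/-- twisted step -/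
def Pt (s : Fin n → ℝ) (w : E m → ℝ) (z : E m) : ℝ := w z + (∑ k, S.c k z * Dt S (s k) k w z) / n
def c1 (k : Fin n) (z : E m) : ℝ := -2 * (S.c k z * (1 - S.c k z))
def c2 (k : Fin n) (z : E m) : ℝ := -2 * (c1 S k z * (1 - 2 * S.c k z))
/-- weighted norm -/
def Jk (k : Fin n) (X : E m → ℝ) : ℝ := ∫ z, S.c k z * X z ^ 2 ∂gam m

theorem Dt_one (k : Fin n) (w : E m → ℝ) : Dt S 1 k w = S.D k w := by
  funext z; simp [Dt, GS.D]

theorem Pt_one (w : E m → ℝ) : Pt S (fun _ => 1) w = S.P w := by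
  funext z; simp only [Pt, Dt_one, GS.P, GS.L]

theorem En_eq (w : E m → ℝ) : ∑ k, Jk S k (S.D k w) = 2 * S.En w w := by
  simp only [Jk, GS.En, pow_two]; ring

theorem c_mem (k : Fin n) (z : E m) : 0 ≤ S.c k z ∧ S.c k z ≤ 1 := by
  have h1 := tanh_lt_one (S.h k z)
  have h2 := neg_one_lt_tanh (S.h k z)
  unfold GS.c; constructor <;> linarith

theorem c1_sq (k : Fin n) (z : E m) : c1 S k z ^ 2 ≤ S.c k z := by
  obtain ⟨h0, h1⟩ := c_mem S k z
  unfold c1
  generalize S.c k z = c at *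
  have h2 : 4 * c * (1 - c) ≤ 1 := by nlinarith [sq_nonneg (1 - 2 * c)]
  have h3 : 4 * c * (1 - c) * (1 - c) ≤ 1 * 1 := mul_le_mul h2 (by linarith) (by linarith) zero_le_one
  nlinarith [mul_le_mul_of_nonneg_left h3 h0]

theorem c2_sq (k : Fin n) (z : E m) : c2 S k z ^ 2 ≤ 4 * S.c k z := by
  obtain ⟨h0, h1⟩ := c_mem S k z
  have h2 := c1_sq S k z
  have h3 : (1 - 2 * S.c k z) ^ 2 ≤ 1 := by nlinarith
  unfold c2
  nlinarith [mul_le_mul h2 h3 (sq_nonneg _) h0]

theorem hasDerivAt_th (x : ℝ) : HasDerivAt tanh (1 - tanh x ^ 2) x := by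
  have hc := (cosh_pos x).ne'
  have h := (hasDerivAt_sinh x).div (hasDerivAt_cosh x) hc
  have e : tanh = fun y => sinh y / cosh y := funext tanh_eq_sinh_div_cosh
  rw [e]
  refine h.congr_deriv ?_
  field_simp

theorem h_eq (k : Fin n) : S.h k = fun z => ∑ e, aa S k e * (z e + S.α e) := by
  funext z; simp only [GS.h, aa, ite_mul, zero_mul]

theorem c1_h (k : Fin n) : C1 (S.h k) := by
  rw [h_eq]; exact C1.sum fun e _ => ((c1_coord e).add (c1_const _)).smul _

theorem pd_h (k : Fin n) (e : Fin m) (z : E m) : pd e (S.h k) z = aa S k e := by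
  rw [h_eq, pd_sum' fun e _ => ((c1_coord e).add (c1_const _)).smul _]
  simp only [(c1_const _).pd_mul ((c1_coord _).add (c1_const _)), (c1_coord _).pd_add (c1_const _),
    pd_const, pd_coord]
  simp

theorem fd_c (k : Fin n) (z : E m) : HasFDerivAt (S.c k) (c1 S k z • fderiv ℝ (S.h k) z) z := by
  have h := (((hasDerivAt_th (S.h k z)).const_sub 1).div_const 2).comp_hasFDerivAt z
    ((c1_h S k).diff z).hasFDerivAt
  have e : c1 S k z = -(1 - tanh (S.h k z) ^ 2) / 2 := by unfold c1 GS.c; ring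
  rw [e]; exact h

theorem pd_c (k : Fin n) (e : Fin m) : pd e (S.c k) = fun z => aa S k e * c1 S k z := by
  funext z
  rw [← pd_h S k e z, pd, (fd_c S k z).fderiv, mul_comm]; rfl

theorem c0_c (k : Fin n) : C0 (S.c k) :=
  ⟨continuous_iff_continuousAt.2 fun z => (fd_c S k z).continuousAt,
    PG.of_bdd (K := 1) fun z => abs_le.2 ⟨by linarith [(c_mem S k z).1], (c_mem S k z).2⟩⟩

theorem c0_c1 (k : Fin n) : C0 (c1 S k) := c0_smul _ ((c0_c S k).mul ((c0_const 1).sub (c0_c S k)))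

theorem c1_c (k : Fin n) : C1 (S.c k) := by
  refine ⟨contDiff_one_iff_fderiv.2 ⟨fun z => (fd_c S k z).differentiableAt, ?_⟩, (c0_c S k).g,
    fun e => by rw [pd_c]; exact (c0_smul _ (c0_c1 S k)).g⟩
  rw [funext fun z => (fd_c S k z).fderiv]
  exact (c0_c1 S k).c.smul ((c1_h S k).c.continuous_fderiv one_ne_zero)

theorem c1_c1 (k : Fin n) : C1 (c1 S k) := ((c1_c S k).mul ((c1_const 1).sub (c1_c S k))).smul _

theorem c0_c2 (k : Fin n) : C0 (c2 S k) :=
  c0_smul _ ((c0_c1 S k).mul ((c0_const 1).sub (c0_smul _ (c0_c S k))))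

theorem pd_c1 (k : Fin n) (e : Fin m) (z : E m) : pd e (c1 S k) z = aa S k e * c2 S k z := by
  have h := c1_c S k
  unfold c1
  rw [(c1_const _).pd_mul (h.mul ((c1_const 1).sub h)), h.pd_mul ((c1_const 1).sub h),
    Hm.pd_sub (c1_const 1) h]
  simp only [pd_const, pd_c, c2]; ring

theorem tm_c (hS : SmStmt) (k : Fin n) : ∀ j, Tm j (S.c k)
  | 0 => ⟨(c0_c S k).c, (c0_c S k).g⟩
  | j + 1 => ⟨c1_c S k, fun e => by
      have h := tm_c hS k j
      have := hS.mul _ _ _ _ (hS.const m j (aa S k e)) (hS.mul _ _ _ _ (hS.const m j (-2))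
        (hS.mul _ _ _ _ h (hS.add _ _ _ _ (hS.const m j 1) (hS.mul _ _ _ _ (hS.const m j (-1)) h))))
      simpa only [pd_c, c1, neg_one_mul, ← sub_eq_add_neg] using this⟩

theorem sq_c {k : Fin n} {b X : E m → ℝ} {a : ℝ} (hb : ∀ z, b z ^ 2 ≤ a * S.c k z) (hX : C0 X) :
    sq (fun z => b z * X z) ≤ a * Jk S k X := by
  rw [Jk, ← integral_const_mul]
  refine integral_mono_of_nonneg (ae_of_all _ fun _ => sq_nonneg _)
    (c0_smul _ ((c0_c S k).mul (c0_sq hX))).int (ae_of_all _ fun z => ?_)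
  simp only [mul_pow, ← mul_assoc]
  exact mul_le_mul_of_nonneg_right (hb z) (sq_nonneg _)

theorem Jk_nn (k : Fin n) (X : E m → ℝ) : 0 ≤ Jk S k X :=
  integral_nonneg fun z => mul_nonneg (c_mem S k z).1 (sq_nonneg _)

theorem Jk_le (k : Fin n) {X : E m → ℝ} (hX : C0 X) : Jk S k X ≤ sq X :=
  integral_mono ((c0_c S k).mul (c0_sq hX)).int (c0_sq hX).int fun z =>
    mul_le_of_le_one_left (sq_nonneg _) (c_mem S k z).2

theorem Jk_two (k : Fin n) {X Y Z : E m → ℝ} (hY : C0 Y) (hZ : C0 Z) {a b : ℝ}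
    (h : ∀ z, X z ^ 2 ≤ a * Y z ^ 2 + b * Z z ^ 2) : Jk S k X ≤ a * Jk S k Y + b * Jk S k Z := by
  have i1 := (c0_smul a ((c0_c S k).mul (c0_sq hY))).int
  have i2 := (c0_smul b ((c0_c S k).mul (c0_sq hZ))).int
  simp only [Jk, ← integral_const_mul]
  rw [← integral_add i1 i2]
  refine integral_mono_of_nonneg (ae_of_all _ fun z => mul_nonneg (c_mem S k z).1 (sq_nonneg _))
    (i1.add i2) (ae_of_all _ fun z => ?_)
  have := mul_le_mul_of_nonneg_left (h z) (c_mem S k z).1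
  simp only; linarith

variable (hB : BasStmt)
include hB

theorem R_eq (k : Fin n) : ∃ v : E m, ∀ z, S.R k z = v + mv (diagonal (eps S k)) z :=
  ⟨WithLp.toLp 2 fun e => -2 * aa S k e, fun z => by
    ext e
    simp only [hB.R_apply, PiLp.add_apply, mv_apply, diagonal_apply, ite_mul, zero_mul, sum_ite_eq,
      mem_univ, if_true, eps, aa]
    split_ifs <;> ring⟩

theorem c0_R (k : Fin n) {w : E m → ℝ} (h : C0 w) : C0 fun z => w (S.R k z) := by
  obtain ⟨v, hv⟩ := R_eq S hB k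
  simp only [hv]; exact ⟨h.c.comp (by fun_prop), pg_aff h.g _ _⟩

theorem c1_R (k : Fin n) {w : E m → ℝ} (h : C1 w) : C1 fun z => w (S.R k z) := by
  obtain ⟨v, hv⟩ := R_eq S hB k
  simp only [hv]; exact c1_aff h _ _

theorem pd_R (k : Fin n) {w : E m → ℝ} (h : C1 w) (e : Fin m) :
    pd e (fun z => w (S.R k z)) = fun z => eps S k e * pd e w (S.R k z) := by
  obtain ⟨v, hv⟩ := R_eq S hB k
  funext z
  simp only [hv, pd_aff h.diff, diagonal_apply, ite_mul, zero_mul, sum_ite_eq', mem_univ, if_true]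

theorem tm_R (hS : SmStmt) (k : Fin n) : ∀ (j : ℕ) {w : E m → ℝ}, Tm j w → Tm j fun z => w (S.R k z)
  | 0, _, h => ⟨(c0_R S hB k ⟨h.1, h.2⟩).c, (c0_R S hB k ⟨h.1, h.2⟩).g⟩
  | j + 1, _, h => ⟨c1_R S hB k h.1, fun e => by
      rw [pd_R S hB k h.1]; exact hS.mul _ _ _ _ (hS.const m j _) (tm_R hS k j (h.2 e))⟩

theorem tm_P (hS : SmStmt) {j : ℕ} {w : E m → ℝ} (h : Tm j w) : Tm j (S.P w) := by
  have := hS.add _ _ _ _ h (hS.mul _ _ _ _ (hS.sum _ _ _ univ _ fun k _ => hS.mul _ _ _ _ (tm_c S hS k j)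
    (hS.add _ _ _ _ (tm_R S hB hS k j h) (hS.mul _ _ _ _ (hS.const m j (-1)) h))) (hS.const m j (n : ℝ)⁻¹))
  simp only [neg_one_mul, ← sub_eq_add_neg, ← div_eq_mul_inv] at this
  exact this

theorem c0_Dt (s : ℝ) (k : Fin n) {w : E m → ℝ} (h : C0 w) : C0 (Dt S s k w) :=
  (c0_smul s (c0_R S hB k h)).sub h

theorem c1_Dt (s : ℝ) (k : Fin n) {w : E m → ℝ} (h : C1 w) : C1 (Dt S s k w) :=
  ((c1_R S hB k h).smul s).sub h

theorem pd_Dt (s : ℝ) (k : Fin n) {w : E m → ℝ} (h : C1 w) (e : Fin m) (z : E m) :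
    pd e (Dt S s k w) z = Dt S (s * eps S k e) k (pd e w) z := by
  unfold Dt
  rw [Hm.pd_sub ((c1_R S hB k h).smul s) h]
  simp only [(c1_const s).pd_mul (c1_R S hB k h), pd_const, pd_R S hB k h]; ring

theorem c0_Pt (s : Fin n → ℝ) {w : E m → ℝ} (h : C0 w) : C0 (Pt S s w) := by
  have := h.add ((C0.sum univ fun k _ => (c0_c S k).mul (c0_Dt S hB (s k) k h)).mul (c0_const (n : ℝ)⁻¹))
  simp only [← div_eq_mul_inv] at this
  exact this

theorem c1_Pt (s : Fin n → ℝ) {w : E m → ℝ} (h : C1 w) : C1 (Pt S s w) := by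
  have := h.add ((C1.sum (s := univ) fun k _ => (c1_c S k).mul (c1_Dt S hB (s k) k h)).mul
    (c1_const (n : ℝ)⁻¹))
  simp only [← div_eq_mul_inv] at this
  exact this

theorem pd_Pt (s : Fin n → ℝ) {w : E m → ℝ} (h : C1 w) (e : Fin m) : pd e (Pt S s w) = fun z =>
    Pt S (fun k => s k * eps S k e) (pd e w) z + (∑ k, aa S k e * (c1 S k z * Dt S (s k) k w z)) / n := by
  funext z
  have h1 := fun k => (c1_c S k).mul (c1_Dt S hB (s k) k h)
  have h2 := C1.sum (s := univ) fun k _ => h1 k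
  unfold Pt
  simp only [div_eq_mul_inv]
  rw [h.pd_add (h2.mul (c1_const _)), h2.pd_mul (c1_const _), pd_sum' fun k _ => h1 k]
  simp only [pd_const, (c1_c S _).pd_mul (c1_Dt S hB _ _ h), pd_c, pd_Dt S hB _ _ h, sum_add_distrib,
    mul_assoc]
  ring

theorem sq_Pt (hn : 0 < n) {s : Fin n → ℝ} (hs : ∀ k, |s k| = 1) {w : E m → ℝ} (h : C0 w) :
    sq (Pt S s w) ≤ sq w := by
  have ha : C0 fun z => |w z| := ⟨h.c.abs, h.g.abs⟩
  obtain ⟨h1, h2⟩ := hB.m2_P m n S _ hn (m2 ha)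
  have n0 : (0 : ℝ) < n := by exact_mod_cast hn
  refine le_trans (integral_mono_of_nonneg (ae_of_all _ fun _ => sq_nonneg _)
    ((memLp_two_iff_integrable_sq h1.2.1).1 h1.2) (ae_of_all _ fun z => ?_))
    (h2.trans_eq (by simp only [sq, sq_abs]))
  have e : ∀ (s : Fin n → ℝ) (w : E m → ℝ), Pt S s w z =
      (∑ k, ((1 - S.c k z) * w z + S.c k z * (s k * w (S.R k z)))) / n := fun s w => by
    rw [eq_div_iff n0.ne', Pt, add_mul, div_mul_cancel₀ _ n0.ne', mul_comm]
    rw [show (n : ℝ) * w z = ∑ _k : Fin n, w z by simp, ← sum_add_distrib]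
    exact sum_congr rfl fun k _ => by unfold Dt; ring
  refine sq_le_sq' (neg_le_of_abs_le ?_) (le_of_abs_le ?_) <;>
  · rw [← Pt_one, e, e, abs_div, abs_of_pos n0]
    refine div_le_div_of_nonneg_right ((abs_sum_le_sum_abs _ _).trans (sum_le_sum fun k _ => ?_)) n0.le
    refine (abs_add_le _ _).trans_eq ?_
    rw [abs_mul, abs_mul, abs_mul, hs, abs_of_nonneg (c_mem S k z).1,
      abs_of_nonneg (sub_nonneg.2 (c_mem S k z).2)]

variable {S} {B : ℝ} (hO : S.Ok B)
include hO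

omit hB in
theorem two (e : Fin m) {x : ℝ} (hx : 0 ≤ x) : ∑ k, (if S.inc k e = true then x else 0) ≤ 2 * x := by
  rw [← sum_filter, sum_const, nsmul_eq_mul]
  exact mul_le_mul_of_nonneg_right (by exact_mod_cast hO.two e) hx

omit hB in
theorem row (k : Fin n) : ∑ e, aa S k e ^ 2 ≤ B := by
  simpa only [aa, ite_pow, ne_eq, OfNat.ofNat_ne_zero, not_false_eq_true, zero_pow] using hO.row k

omit hB in
theorem B0 : 0 ≤ B := (sum_nonneg fun _ _ => sq_nonneg _).trans (row hO ⟨0, hO.pos⟩)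

/-- **(1)** -/
theorem en_le {F : E m → ℝ} (hF : C1 F) : ∑ k, Jk S k (S.D k F) ≤ 8 * en F := by
  have h1 : ∀ k, Jk S k (S.D k F) ≤ 4 * ∑ e, if S.inc k e = true then sq (pd e F) else 0 := fun k => by
    obtain ⟨M, hM, inv, h⟩ := row_poin (fun e => S.inc k e = true) hF
    have hG := (c0_of hF).sub hM
    have h2 := Jk_two S k (X := S.D k F) (c0_R S hB k hG) hG (a := 2) (b := 2) fun z => by
      rw [inv (S.R k z) z fun e he => by rw [hB.R_apply, if_neg he], GS.D]
      nlinarith [sq_nonneg (F (S.R k z) + F z - 2 * M z)]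
    have h3 : Jk S k (fun z => F (S.R k z) - M (S.R k z)) = Jk S k fun z => F z - M z :=
      (hB.rev m n S k _ (c0_sq hG).c.measurable (c0_sq hG).int).2
    linarith [Jk_le S k hG]
  refine (sum_le_sum fun k _ => h1 k).trans ?_
  rw [← mul_sum, sum_comm, en_eq]
  linarith [sum_le_sum fun e (_ : e ∈ univ) => two hO e (sq_nn (pd e F)), mul_sum univ (fun e => sq (pd e F)) 2]

theorem tw_le {w : E m → ℝ} (hw : C1 w) (e : Fin m) :
    ∑ k, Jk S k (Dt S (eps S k e) k w) ≤ 16 * en w + 16 * sq w := by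
  have h0 := c0_of hw
  have h1 : ∀ k, Jk S k (Dt S (eps S k e) k w) ≤ 2 * Jk S k (S.D k w) +
      if S.inc k e = true then 8 * sq w else 0 := fun k => by
    unfold eps
    split_ifs
    · refine (Jk_two S k (Dt_one S k w ▸ c0_Dt S hB 1 k h0) h0 (a := 2) (b := 8) fun z => ?_).trans
        (by linarith [Jk_le S k h0])
      unfold Dt GS.D; nlinarith [sq_nonneg (w (S.R k z) - 3 * w z)]
    · rw [Dt_one]; linarith [Jk_nn S k (S.D k w)]
  refine (sum_le_sum fun k _ => h1 k).trans ?_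
  rw [sum_add_distrib, ← mul_sum]
  linarith [en_le hB hO hw, two hO e (x := 8 * sq w) (by linarith [sq_nn w])]

omit hB in
/-- sources with one coefficient -/
theorem src_le {X : Fin n → E m → ℝ} (hX : ∀ k, C0 (X k)) :
    ∑ e, sq (fun z => ∑ k, aa S k e * (c1 S k z * X k z)) ≤ 2 * B * ∑ k, Jk S k (X k) := by
  refine (sum_le_sum fun e _ => sq_src (b := fun k => aa S k e) (hO.two e) (fun k h => if_neg h)
    fun k => (c0_c1 S k).mul (hX k)).trans ?_
  rw [sum_comm, mul_sum]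
  refine sum_le_sum fun k _ => ?_
  rw [← sum_mul, ← mul_sum]
  exact mul_le_mul (by linarith [row hO k]) ((sq_c S (a := 1) (fun z => by
    simpa using c1_sq S k z) (hX k)).trans_eq (one_mul _)) (sq_nn _) (by linarith [B0 hO])

omit hB in
/-- sources with two coefficients -/
theorem src2_le {X : Fin n → E m → ℝ} (hX : ∀ k, C0 (X k)) :
    ∑ e, ∑ e', sq (fun z => ∑ k, aa S k e * aa S k e' * (c2 S k z * X k z)) ≤
      8 * B ^ 2 * ∑ k, Jk S k (X k) := by
  refine (sum_le_sum fun e _ => sum_le_sum fun e' _ => sq_src (hO.two e)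
    (fun k h => by rw [aa, if_neg h, zero_mul]) fun k => (c0_c2 S k).mul (hX k)).trans ?_
  rw [sum_congr rfl fun e _ => sum_comm, sum_comm, mul_sum]
  refine sum_le_sum fun k _ => ?_
  have e : ∑ e, ∑ e', 2 * (aa S k e * aa S k e') ^ 2 * sq (fun z => c2 S k z * X k z) =
      2 * (∑ e, aa S k e ^ 2) ^ 2 * sq fun z => c2 S k z * X k z := by
    rw [pow_two (∑ e, aa S k e ^ 2), sum_mul_sum]
    simp only [mul_sum, sum_mul, mul_pow]
  rw [e]
  calc _ ≤ 2 * B ^ 2 * (4 * Jk S k (X k)) := by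
        gcongr
        exacts [sq_nn _, row hO k, sq_c S (c2_sq S k) (hX k)]
    _ = _ := by ring

omit hO hB in
theorem abs_eps (k : Fin n) (e : Fin m) : |eps S k e| = 1 := by unfold eps; split_ifs <;> simp

theorem en_P {F : E m → ℝ} (hF : C1 F) : en (S.P F) ≤ (1 + (1 + 32 * B) / n) * en F := by
  have n0 : (0 : ℝ) < n := by exact_mod_cast hO.pos
  have hX := fun k => c0_Dt S hB 1 k (c0_of hF)
  have h1 : ∀ e, sq (pd e (S.P F)) ≤ (1 + 1 / n) * sq (pd e F) +
      2 / n * sq fun z => ∑ k, aa S k e * (c1 S k z * Dt S 1 k F z) := fun e => by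
    rw [← Pt_one, pd_Pt S hB _ hF]
    refine (sq_step hO.pos (c0_Pt S hB _ (c0_pd hF e))
      (C0.sum _ fun k _ => c0_smul _ ((c0_c1 S k).mul (hX k)))).trans (add_le_add_left ?_ _)
    exact mul_le_mul_of_nonneg_left (sq_Pt S hB hO.pos (fun k => by
      rw [one_mul, abs_eps]) (c0_pd hF e)) (by positivity)
  rw [en_eq (S.P F)]
  refine (sum_le_sum fun e _ => h1 e).trans ?_
  rw [sum_add_distrib, ← mul_sum, ← mul_sum, ← en_eq]
  have h2 := src_le hO hX
  have h3 := mul_le_mul_of_nonneg_left (en_le hB hO hF) (B0 hO)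
  simp only [Dt_one] at h2 ⊢
  have h4 := mul_le_mul_of_nonneg_left (h2.trans (show _ ≤ 16 * B * en F by linarith))
    (show (0 : ℝ) ≤ 2 / n by positivity)
  refine (add_le_add_right h4 _).trans_eq (by ring)

theorem en2_P {F : E m → ℝ} (hF : Tm 2 F) : en2 (S.P F) ≤
    (1 + 1 / n) * en2 F + (384 * B + 384 * B ^ 2) / n * (en F + en2 F) := by
  have n0 : (0 : ℝ) < n := by exact_mod_cast hO.pos
  have B0 := B0 hO
  have f1 := hF.1
  have f2 : ∀ e, C1 (pd e F) := fun e => (hF.2 e).1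
  have hX := fun k => c0_Dt S hB 1 k (c0_of f1)
  have hY := fun e k => c0_Dt S hB (eps S k e) k (c0_pd f1 e)
  set A : Fin m → Fin m → E m → ℝ := fun e e' z =>
    ∑ k, aa S k e' * (c1 S k z * Dt S (eps S k e) k (pd e F) z) with hA
  set C : Fin m → Fin m → E m → ℝ := fun e e' z =>
    ∑ k, aa S k e * aa S k e' * (c2 S k z * Dt S 1 k F z) with hC
  have cA : ∀ e e', C0 (A e e') := fun e e' => C0.sum _ fun k _ => c0_smul _ ((c0_c1 S k).mul (hY e k))
  have cC : ∀ e e', C0 (C e e') := fun e e' => C0.sum _ fun k _ => c0_smul _ ((c0_c2 S k).mul (hX k))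
  have h1 : ∀ e e', sq (pd e' (pd e (S.P F))) ≤ (1 + 1 / n) * sq (pd e' (pd e F)) +
      6 / n * (sq (A e e') + sq (A e' e) + sq (C e e')) := fun e e' => by
    have g1 := fun k => ((c1_c1 S k).mul (c1_Dt S hB 1 k f1)).smul (aa S k e)
    have g2 := C1.sum (s := univ) fun k _ => g1 k
    have e1 : pd e' (pd e (S.P F)) = fun z => Pt S (fun k => eps S k e * eps S k e') (pd e' (pd e F)) z +
        (A e e' z + A e' e z + C e e' z) / n := by
      funext z
      rw [← Pt_one, pd_Pt S hB _ f1]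
      simp only [one_mul, div_eq_mul_inv]
      rw [(c1_Pt S hB _ (f2 e)).pd_add (g2.mul (c1_const _)), g2.pd_mul (c1_const _),
        pd_sum' fun k _ => g1 k, pd_Pt S hB _ (f2 e)]
      simp only [pd_const, (c1_const _).pd_mul ((c1_c1 S _).mul (c1_Dt S hB 1 _ f1)),
        (c1_c1 S _).pd_mul (c1_Dt S hB 1 _ f1), pd_c1, pd_Dt S hB _ _ f1, one_mul, hA, hC, mul_add,
        sum_add_distrib, mul_assoc, zero_mul, zero_add, div_eq_mul_inv]
      ring
    rw [e1]
    refine (sq_step hO.pos (c0_Pt S hB _ (c0_pd (f2 e) e')) (((cA _ _).add (cA _ _)).add (cC _ _))).trans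
      (add_le_add (mul_le_mul_of_nonneg_left (sq_Pt S hB hO.pos (fun k => by
        rw [abs_mul, abs_eps, abs_eps, one_mul]) (c0_pd (f2 e) e')) (by positivity)) ?_)
    have g3 := sq_le_two (f := fun z => A e e' z + A e' e z + C e e' z) ((cA e e').add (cA e' e))
      (cC e e') (3 / 2) 3 fun z => by nlinarith [sq_nonneg (A e e' z + A e' e z - 2 * C e e' z)]
    have g4 := sq_le_two (f := fun z => A e e' z + A e' e z) (cA e e') (cA e' e) 2 2
      fun z => by nlinarith [sq_nonneg (A e e' z - A e' e z)]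
    refine (mul_le_mul_of_nonneg_left (show _ ≤ 3 * (sq (A e e') + sq (A e' e) + sq (C e e')) by
      linarith) (by positivity)).trans_eq (by ring)
  have h2 : ∑ e, ∑ e', sq (A e e') ≤ 32 * B * (en F + en2 F) := by
    refine (sum_le_sum fun e _ => (src_le hO (hY e)).trans (mul_le_mul_of_nonneg_left
      (tw_le hB hO (f2 e) e) (by positivity))).trans_eq ?_
    rw [← mul_sum, sum_add_distrib, ← mul_sum, ← mul_sum, ← en_eq, en2]; ring
  have h3 : ∑ e, ∑ e', sq (C e e') ≤ 64 * B ^ 2 * (en F + en2 F) := by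
    have g1 := src2_le hO hX
    have g2 := mul_le_mul_of_nonneg_left (en_le hB hO f1) (sq_nonneg B)
    have g3 := mul_nonneg (sq_nonneg B) (show 0 ≤ en2 F from sum_nonneg fun _ _ => Hm.en_nonneg _)
    simp only [Dt_one] at g1
    simp only [hC, Dt_one]
    linarith
  rw [en2_eq (S.P F)]
  refine (sum_le_sum fun e _ => sum_le_sum fun e' _ => h1 e e').trans ?_
  simp only [sum_add_distrib, ← mul_sum]
  rw [← en2_eq, sum_comm (f := fun e e' => sq (A e' e))]
  refine add_le_add_right ((mul_le_mul_of_nonneg_left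
    (show _ ≤ (64 * B + 64 * B ^ 2) * (en F + en2 F) by linarith) (by positivity)).trans_eq (by ring)) _

end C48

open C48

theorem comGlue : ComGlue := fun hB hS B => by
  refine ⟨2 + 416 * |B| + 384 * B ^ 2, by positivity, fun m n S hO => ⟨fun F hF => ?_, fun ζ hζ F hF => ?_⟩⟩
  · linarith [en_le hB hO hF, En_eq S F]
  have n0 : (0 : ℝ) < n := by exact_mod_cast hO.pos
  have B0 := B0 hO
  rw [abs_of_nonneg B0] at hζ
  set a := 1 + 416 * B + 384 * B ^ 2 with ha
  have a1 : 1 ≤ a := by rw [ha]; nlinarith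
  have tm : ∀ j, Tm 2 (S.P^[j] F) := fun j => by
    induction j with
    | zero => exact hF
    | succ j ih => rw [Function.iterate_succ_apply']; exact tm_P S hB hS ih
  have e2 : ∀ G : E m → ℝ, 0 ≤ en2 G := fun G => sum_nonneg fun _ _ => Hm.en_nonneg _
  have it : ∀ j, en (S.P^[j] F) ≤ (1 + a / n) ^ j * en F ∧
      en (S.P^[j] F) + en2 (S.P^[j] F) ≤ (1 + a / n) ^ j * (en F + en2 F) := fun j => by
    induction j with
    | zero => simp
    | succ j ih =>
      rw [Function.iterate_succ_apply', pow_succ']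
      have h1 := en_P hB hO (tm j).1
      have h2 := en2_P hB hO (tm j)
      have h3 := Hm.en_nonneg (S.P^[j] F)
      have h4 := e2 (S.P^[j] F)
      have h5 : (0 : ℝ) ≤ 1 + a / n := by positivity
      have h6 : 0 ≤ B / n := by positivity
      have h7 : 0 ≤ B ^ 2 / n := by positivity
      have e1 : a / n = 1 / n + 416 * (B / n) + 384 * (B ^ 2 / n) := by rw [ha]; ring
      have e3 : (1 + 32 * B) / n = 1 / n + 32 * (B / n) := by ring
      have e4 : (384 * B + 384 * B ^ 2) / n = 384 * (B / n) + 384 * (B ^ 2 / n) := by ring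
      rw [e3] at h1; rw [e4] at h2
      refine ⟨le_trans ?_ ((mul_le_mul_of_nonneg_left ih.1 h5).trans_eq (by ring)),
        le_trans ?_ ((mul_le_mul_of_nonneg_left ih.2 h5).trans_eq (by ring))⟩ <;> rw [e1]
      · nlinarith [mul_nonneg h6 h3, mul_nonneg h7 h3]
      · nlinarith [mul_nonneg h6 h4]
  set θ : ℕ → ℝ := fun j => (n / (ζ + n)) ^ j / (ζ + n) with hθ
  have z0 : 0 < ζ + n := by linarith
  have θ0 : ∀ j, 0 ≤ θ j := fun j => by positivity
  have geo : ∀ b : ℝ, 0 ≤ b → b < ζ → ∑ j ∈ range (n ^ 2), θ j * (1 + b / n) ^ j ≤ 1 / (ζ - b) :=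
    fun b b0 hb => by
    have e : ∀ j, θ j * (1 + b / n) ^ j = ((n + b) / (ζ + n)) ^ j / (ζ + n) := fun j => by
      rw [hθ, div_mul_eq_mul_div, ← mul_pow]; congr 2; field_simp
    have r1 : (n + b) / (ζ + n) < 1 := by rw [div_lt_one z0]; linarith
    have r0 : 0 ≤ (n + b) / (ζ + n) := by positivity
    simp only [e, ← sum_div]
    refine (div_le_div_of_nonneg_right (((summable_geometric_of_lt_one r0 r1).sum_le_tsum _
      fun _ _ => pow_nonneg r0 _).trans_eq (tsum_geometric_of_lt_one r0 r1)) z0.le).trans_eq ?_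
    have : ζ - b ≠ 0 := by linarith
    rw [show 1 - (n + b) / (ζ + n) = (ζ - b) / (ζ + n) by field_simp; ring]; field_simp
  have s1 : ∑ j ∈ range (n ^ 2), θ j ≤ 1 := by
    have := geo 0 le_rfl (by linarith)
    simp only [zero_div, add_zero, one_pow, mul_one, sub_zero] at this
    exact this.trans ((div_le_one (by linarith)).2 (by linarith))
  have s2 := (geo a (by linarith) (by linarith)).trans ((div_le_one (by linarith)).2 (by linarith))
  have fin : ∀ {ι : Type} [Fintype ι] (g : ι → ℕ → E m → ℝ) (u : ℝ), 0 ≤ u → (∀ i j, C0 (g i j)) →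
      (∀ j, ∑ i, sq (g i j) ≤ (1 + a / n) ^ j * u) →
      ∑ i, sq (fun z => ∑ j ∈ range (n ^ 2), θ j * g i j z) ≤ u := fun g u u0 hg h => by
    refine (sum_le_sum fun i _ => sq_comb _ θ0 (hg i)).trans ?_
    rw [← mul_sum, sum_comm]
    simp only [← mul_sum]
    refine (mul_le_mul s1 (sum_le_sum fun j _ => mul_le_mul_of_nonneg_left (h j) (θ0 j))
      (sum_nonneg fun j _ => mul_nonneg (θ0 j) (sum_nonneg fun _ _ => sq_nn _)) zero_le_one).trans ?_
    simp only [← mul_assoc, ← sum_mul, one_mul]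
    exact mul_le_of_le_one_left u0 s2
  have pd1 : ∀ {g : ℕ → E m → ℝ}, (∀ j, C1 (g j)) → ∀ e,
      pd e (fun z => ∑ j ∈ range (n ^ 2), θ j * g j z) =
        fun z => ∑ j ∈ range (n ^ 2), θ j * pd e (g j) z := fun hg e => funext fun z => by
    rw [pd_sum' fun j _ => (hg j).smul _]
    simp only [(c1_const _).pd_mul (hg _), pd_const, zero_mul, zero_add]
  have eR : S.Rz ζ F = fun z => ∑ j ∈ range (n ^ 2), θ j * S.P^[j] F z := rfl
  refine ⟨hS.sum _ _ _ _ _ fun j _ => hS.mul _ _ _ _ (hS.const m 2 _) (tm j), ?_, ?_⟩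
  · rw [en_eq, eR]
    simp only [pd1 fun j => (tm j).1]
    exact fin _ _ (Hm.en_nonneg F) (fun e j => c0_pd (tm j).1 e) fun j => en_eq (S.P^[j] F) ▸ (it j).1
  · rw [en2_eq, eR, ← Fintype.sum_prod_type']
    simp only [pd1 fun j => (tm j).1, pd1 fun j => ((tm j).2 _).1]
    refine fin (fun p : Fin m × Fin m => fun j => pd p.2 (pd p.1 (S.P^[j] F))) _
      (add_nonneg (Hm.en_nonneg F) (e2 F)) (fun p j => c0_pd ((tm j).2 _).1 _) fun j => ?_
    rw [Fintype.sum_prod_type, ← en2_eq]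
    linarith [(it j).2, Hm.en_nonneg (S.P^[j] F)]

end Crest.Agent.T157.Lm

end
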