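import Crest.Agent.T157.LmDef_76

/-!
# Row 157, block B/S5 (helper43): functional calculus and semigroups of the limit class
-/

set_option autoImplicit false

noncomputable section

namespace Crest.Agent.T157.Lm

open MeasureTheory Real Filter Topology Finset Matrix
open Crest.Agent.R238.Gap (E)
open Crest.Agent.R253.Meh74 (gam)
open Crest.Agent.T157.E (Cube mean gen prob)
open Crest.Agent.T157.Chain22 (sg hbRC)

namespace Fc43

section mul
variable {m n : ℕ} {S : GS m n} {ψ χ : ℝ → ℝ} {F G H : E m → ℝ}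

theorem mul_id (S : GS m n) (F : E m → ℝ) : S.Mul (fun _ => 1) F F :=
  fun _ _ _ => (one_mul _).symm

theorem mul_comp (h : S.Mul ψ F G) (h' : S.Mul χ G H) : S.Mul (fun s => χ s * ψ s) F H :=
  fun hn z j => by rw [h' hn z j, h hn z j, mul_assoc]

theorem mul_add (h : S.Mul ψ F G) (h' : S.Mul χ F H) : S.Mul (fun s => ψ s + χ s) F (G + H) :=
  fun hn z j => by
    rw [show S.orb (G + H) z = S.orb G z + S.orb H z from rfl, Chain22.ip_add_left, h hn z j,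
      h' hn z j, add_mul]

theorem mul_sub (h : S.Mul ψ F G) (h' : S.Mul χ F H) : S.Mul (fun s => ψ s - χ s) F (G - H) :=
  fun hn z j => by
    rw [show S.orb (G - H) z = S.orb G z - S.orb H z from rfl, Chain22.ip_sub_left, h hn z j,
      h' hn z j, sub_mul]

theorem mul_smul (a : ℝ) (h : S.Mul ψ F G) : S.Mul (fun s => a * ψ s) F fun z => a * G z :=
  fun hn z j => by
    rw [show S.orb (fun z => a * G z) z = a • S.orb G z from rfl, Chain22.ip_smul_left, h hn z j,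
      mul_assoc]

theorem rt_mem (hn : 0 < n) {w : Cube n → ℝ} (hw : ∀ x, 0 < w x) (j : Cube n) :
    0 ≤ (n : ℝ) * (1 - (hbRC hn hw).ev j) ∧ (n : ℝ) * (1 - (hbRC hn hw).ev j) ≤ n := by
  have h1 := (hbRC hn hw).ev_le_one j
  have h2 := (Chain22.hbRC_psd hn hw).ev_nonneg j
  have h3 : (0 : ℝ) ≤ n := n.cast_nonneg
  constructor <;> nlinarith

theorem mul_congr (h : S.Mul ψ F G) (e : ∀ s : ℝ, 0 ≤ s → s ≤ n → ψ s = χ s) : S.Mul χ F G :=
  fun hn z j => by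
    rw [h hn z j, e _ (rt_mem hn (S.w_pos z) j).1 (rt_mem hn (S.w_pos z) j).2]

theorem mul_L (hB : BasStmt) (S : GS m n) (F : E m → ℝ) : S.Mul (fun s => -s) F (S.L F) :=
  fun hn z j => by
    have e : gen (S.w z) (S.orb F z) =
        (n : ℝ) • ((hbRC hn (S.w_pos z)).P *ᵥ S.orb F z - S.orb F z) :=
      funext fun x => Chain22.gen_eq hn (S.w_pos z) _ x
    have h := (hbRC hn (S.w_pos z)).ip_P_φ (S.orb F z) j
    rw [Chain22.hbRC_π] at h
    rw [hB.orb_L, e, Chain22.ip_smul_left, Chain22.ip_sub_left, h]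
    ring

theorem mul_P (hB : BasStmt) (S : GS m n) (F : E m → ℝ) : S.Mul (fun s => 1 - s / n) F (S.P F) := by
  have h := mul_add (mul_id S F) (mul_smul (n : ℝ)⁻¹ (mul_L hB S F))
  have e : S.P F = F + fun z => (n : ℝ)⁻¹ * S.L F z := by
    funext z; simp only [GS.P, Pi.add_apply]; ring
  rw [e]
  exact mul_congr h fun s _ _ => by ring

theorem mul_iter (hB : BasStmt) (S : GS m n) (F : E m → ℝ) (k : ℕ) :
    S.Mul (fun s => (1 - s / n) ^ k) F (S.P^[k] F) := by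
  induction k with
  | zero => exact mul_congr (mul_id S F) fun s _ _ => (pow_zero _).symm
  | succ k ih =>
    rw [Function.iterate_succ_apply']
    exact mul_congr (mul_comp ih (mul_P hB S _)) fun s _ _ => (pow_succ' _ _).symm

/-- the multiplier of the truncated resolvent -/
def rr (ζ : ℝ) (n : ℕ) (s : ℝ) : ℝ := (1 - (n / (ζ + n)) ^ n ^ 2 * (1 - s / n) ^ n ^ 2) / (s + ζ)

theorem mul_Rz (hB : BasStmt) (S : GS m n) {ζ : ℝ} (hζ : 0 < ζ) (F : E m → ℝ) :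
    S.Mul (rr ζ n) F (S.Rz ζ F) := fun hn z j => by
  have h1 := mul_sub (mul_smul ζ (mul_id S (S.Rz ζ F))) (mul_L hB S (S.Rz ζ F)) hn z j
  have h2 := mul_sub (mul_id S F) (mul_smul ((n / (ζ + n)) ^ n ^ 2) (mul_iter hB S F (n ^ 2))) hn z j
  have e : (fun z => ζ * S.Rz ζ F z) - S.L (S.Rz ζ F) =
      F - fun z => (n / (ζ + n)) ^ n ^ 2 * S.P^[n ^ 2] F z :=
    funext fun z => hB.res m n S ζ F z hn hζ
  rw [e, h2] at h1
  have h3 := (rt_mem hn (S.w_pos z) j).1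
  rw [rr, div_mul_eq_mul_div, eq_div_iff (by linarith), h1]
  ring

theorem mul_T (hB : BasStmt) (S : GS m n) (t : ℝ) (F : E m → ℝ) :
    S.Mul (fun s => exp (-(t * s))) F (S.T t F) := fun hn z j => by
  have h := (hbRC hn (S.w_pos z)).ip_H_φ (n * t) (S.orb F z) j
  rw [Chain22.hbRC_π] at h
  rw [hB.orb_T m n S t F z hn, Chain22.sg_eq hn (S.w_pos z), h]
  congr 3; ring

theorem sq_eq (hB : BasStmt) (S : GS m n) (hn : 0 < n) (hF : M2 F) :
    Integrable (fun z => ∑ j, Chain22.ip (prob (S.w z)) (S.orb F z) ((hbRC hn (S.w_pos z)).φ j) ^ 2)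
      (gam m) ∧ sq F =
      ∫ z, ∑ j, Chain22.ip (prob (S.w z)) (S.orb F z) ((hbRC hn (S.w_pos z)).φ j) ^ 2 ∂gam m := by
  have h := hB.orb m n S (fun z => F z ^ 2) (hF.1.pow_const 2) hF.2.integrable_sq
  have e : (fun z => mean (S.w z) (S.orb (fun z => F z ^ 2) z)) = fun z =>
      ∑ j, Chain22.ip (prob (S.w z)) (S.orb F z) ((hbRC hn (S.w_pos z)).φ j) ^ 2 := by
    funext z
    have := (hbRC hn (S.w_pos z)).parseval (S.orb F z) (S.orb F z)
    rw [Chain22.hbRC_π] at this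
    simp only [_root_.sq]
    rw [← this]; rfl
  rw [e] at h
  exact ⟨h.1, h.2.symm⟩

theorem mul_sq_le (hB : BasStmt) (hn : 0 < n) (hF : M2 F) (hG : M2 G) (h : S.Mul ψ F G) {a : ℝ}
    (ha : ∀ s : ℝ, 0 ≤ s → s ≤ n → |ψ s| ≤ a) : sq G ≤ a ^ 2 * sq F := by
  obtain ⟨iF, eF⟩ := sq_eq hB S hn hF
  obtain ⟨iG, eG⟩ := sq_eq hB S hn hG
  rw [eF, eG, ← integral_const_mul]
  refine integral_mono iG (iF.const_mul _) fun z => ?_
  simp only [mul_sum]
  refine sum_le_sum fun j _ => ?_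
  rw [h hn z j, mul_pow]
  refine mul_le_mul_of_nonneg_right ?_ (sq_nonneg _)
  have := ha _ (rt_mem hn (S.w_pos z) j).1 (rt_mem hn (S.w_pos z) j).2
  exact sq_le_sq' (abs_le.1 this).1 (abs_le.1 this).2

theorem m2_sub (hF : M2 F) (hG : M2 G) : M2 (F - G) := ⟨hF.1.sub hG.1, hF.2.sub hG.2⟩

end mul

theorem th_le {ζ : ℝ} (hζ : 0 < ζ) {n : ℕ} (hn : 0 < n) :
    (n / (ζ + n) : ℝ) ^ n ^ 2 ≤ (ζ * n)⁻¹ := by
  have h0 : (0 : ℝ) < n := by exact_mod_cast hn
  have h1 := one_add_mul_le_pow (a := ζ / n) (by have : 0 < ζ / n := by positivity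
                                                 linarith) (n ^ 2)
  have e : (n / (ζ + n) : ℝ) = (1 + ζ / n)⁻¹ := by field_simp; ring
  rw [e, inv_pow]
  refine inv_anti₀ (by positivity) (le_trans ?_ h1)
  have : ((n ^ 2 : ℕ) : ℝ) * (ζ / n) = ζ * n := by push_cast; field_simp
  linarith

theorem rr_near {ζ : ℝ} (hζ : 0 < ζ) {n : ℕ} (hn : 0 < n) {s : ℝ} (h0 : 0 ≤ s) (h1 : s ≤ n) :
    rr ζ n s ∈ Set.Icc 0 ζ⁻¹ ∧ (s + ζ)⁻¹ ∈ Set.Icc 0 ζ⁻¹ ∧
      |rr ζ n s - (s + ζ)⁻¹| ≤ (ζ * n)⁻¹ * ζ⁻¹ := by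
  have hn' : (0 : ℝ) < n := by exact_mod_cast hn
  have a0 : 0 ≤ 1 - s / n := by rw [sub_nonneg, div_le_one hn']; exact h1
  have a1 : 1 - s / n ≤ 1 := by have : 0 ≤ s / n := by positivity
                                linarith
  have b0 : 0 ≤ (1 - s / n) ^ n ^ 2 := pow_nonneg a0 _
  have b1 : (1 - s / n) ^ n ^ 2 ≤ 1 := pow_le_one₀ a0 a1
  have c0 : 0 ≤ (n / (ζ + n) : ℝ) ^ n ^ 2 := by positivity
  have c1 : (n / (ζ + n) : ℝ) ^ n ^ 2 ≤ 1 :=
    pow_le_one₀ (by positivity) ((div_le_one (by positivity)).2 (by linarith))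
  have c2 := th_le hζ hn
  have x0 : 0 ≤ (s + ζ)⁻¹ := by positivity
  have x1 : (s + ζ)⁻¹ ≤ ζ⁻¹ := inv_anti₀ hζ (by linarith)
  rw [rr, div_eq_mul_inv]
  generalize (n / (ζ + n) : ℝ) ^ n ^ 2 = c at *
  generalize (1 - s / n) ^ n ^ 2 = b at *
  generalize (s + ζ)⁻¹ = x at *
  have d0 : 0 ≤ c * b := mul_nonneg c0 b0
  have d1 : c * b ≤ c := mul_le_of_le_one_right c0 b1
  refine ⟨⟨mul_nonneg (by linarith) x0, ?_⟩, ⟨x0, x1⟩, ?_⟩
  · nlinarith [mul_nonneg d0 x0]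
  · rw [show (1 - c * b) * x - x = -(c * b * x) by ring, abs_neg, abs_of_nonneg (mul_nonneg d0 x0)]
    exact mul_le_mul (d1.trans c2) x1 x0 (c0.trans c2)

theorem n2_eq {L : ℕ} (F : F0 L) (n : ℕ) : n2 F n = sq (F n (x0 n)) := by
  rw [n2, av, Fintype.sum_subsingleton _ (x0 n)]
  simp

theorem poly (hB : BasStmt) (hL : LinStmt) {L : ℕ} {β : ℝ} {ρ : Fin L → ℝ} {ζ : ℝ} (hζ : 0 < ζ)
    (hR : ∀ F : F0 L, Cl F → Cl (op β ρ (fun S => S.Rz ζ) F)) {C : F0 L} (hC : Cl C)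
    (p : Polynomial ℝ) : ∃ H : F0 L, Cl H ∧ ∀ n,
      (sk β ρ n).Mul (fun s => p.eval (rr ζ n s)) (C n (x0 n)) (H n (x0 n)) := by
  induction p using Polynomial.induction_on with
  | C a =>
    exact ⟨_, hL.smul L Empty (fun _ => a) C ⟨a, tendsto_const_nhds⟩ hC, fun n =>
      mul_congr (mul_smul a (mul_id _ _)) fun s _ _ => by simp⟩
  | add p q hp hq =>
    obtain ⟨H, h1, h2⟩ := hp
    obtain ⟨H', h1', h2'⟩ := hq
    exact ⟨_, hL.add L Empty H H' h1 h1', fun n =>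
      mul_congr (mul_add (h2 n) (h2' n)) fun s _ _ => by simp⟩
  | monomial k a hp =>
    obtain ⟨H, h1, h2⟩ := hp
    exact ⟨_, hR H h1, fun n =>
      mul_congr (mul_comp (h2 n) (mul_Rz hB _ hζ _)) fun s _ _ => by simp; ring⟩

/-- `e^{-ts}` in the variable `x = (s + ζ)⁻¹` -/
def vv (t ζ x : ℝ) : ℝ := exp (t * ζ) * expNegInvGlue (x / t)

theorem vv_eq {t ζ s : ℝ} (ht : 0 < t) (h : 0 < s + ζ) : vv t ζ (s + ζ)⁻¹ = exp (-(t * s)) := by
  have : ¬ (s + ζ)⁻¹ / t ≤ 0 := not_le.2 (by positivity)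
  rw [vv, expNegInvGlue, if_neg this, ← exp_add]
  congr 1; field_simp; ring

theorem vv_cont (t ζ a : ℝ) (A : Set ℝ) : ContinuousOn (dslope (vv t ζ) a) A := by
  have h : Differentiable ℝ (vv t ζ) :=
    ((expNegInvGlue.contDiff (n := 1)).differentiable (by simp)).comp
      (differentiable_id.div_const t) |>.const_mul _
  exact ((continuousOn_dslope univ_mem).2 ⟨h.continuous.continuousOn, h a⟩).mono (Set.subset_univ _)

end Fc43

open Fc43

theorem fcGlue : FcGlue := by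
  intro hB _ hL L β ρ ζ hζ hR F G φ hφ hF ⟨B, hb⟩ hG hM hC
  refine hL.closed L Empty G hG fun ε hε => ?_
  have hB1 : 0 < |B| + 1 := by positivity
  set δ := √(ε / (|B| + 1)) with hδ
  have hδ0 : 0 < δ := sqrt_pos.2 (by positivity)
  obtain ⟨p, hp⟩ := exists_polynomial_near_of_continuousOn 0 ζ⁻¹ φ hφ (δ / 2) (by positivity)
  have hq : UniformContinuousOn (fun y => p.eval y * (1 - ζ * y)) (Set.Icc 0 ζ⁻¹) :=
    isCompact_Icc.uniformContinuousOn_of_continuous (by fun_prop)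
  obtain ⟨κ, hκ, hq⟩ := Metric.uniformContinuousOn_iff.1 hq (δ / 2) (by positivity)
  obtain ⟨H, hH, hm⟩ := poly hB hL hζ hR hC p
  refine ⟨H, hH, ?_⟩
  have hlim : Tendsto (fun n : ℕ => (ζ * n)⁻¹ * ζ⁻¹) atTop (𝓝 0) := by
    simpa using (tendsto_inv_atTop_zero.comp
      (tendsto_natCast_atTop_atTop.const_mul_atTop hζ)).mul_const ζ⁻¹
  filter_upwards [hF, hb, hG, hM, hH.1, hlim.eventually_lt_const hκ, eventually_gt_atTop 0] with
    n h1 h2 h3 h4 h5 h6 hn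
  have h7 : (sk β ρ n).Mul (fun s => 1 - ζ * rr ζ n s) (F n (x0 n)) (cen β ρ ζ F n (x0 n)) :=
    mul_sub (mul_id _ _) (mul_smul ζ (mul_Rz hB _ hζ _))
  have h8 := mul_sq_le hB hn (h1.1 _) (m2_sub (h3.1 _) (h5.1 _))
    (mul_sub h4 (mul_comp h7 (hm n))) (a := δ) fun s s0 s1 => by
      obtain ⟨r1, r2, r3⟩ := rr_near hζ hn s0 s1
      have e1 := hq _ r1 _ r2 (r3.trans_lt h6)
      have e2 := hp _ r2
      have hs : 0 < s + ζ := by linarith
      have e3 : s / (s + ζ) = 1 - ζ * (s + ζ)⁻¹ := by field_simp; ring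
      have e4 : 0 ≤ s / (s + ζ) := by positivity
      have e5 : s / (s + ζ) ≤ 1 := (div_le_one hs).2 (by linarith)
      rw [Real.dist_eq, ← e3] at e1
      have e6 : |(p.eval (s + ζ)⁻¹ - φ (s + ζ)⁻¹) * (s / (s + ζ))| ≤ δ / 2 := by
        rw [abs_mul, abs_of_nonneg e4]
        exact (mul_le_of_le_one_right (abs_nonneg _) e5).trans e2.le
      rw [abs_le] at e6 ⊢
      rw [abs_lt] at e1
      constructor <;> nlinarith [e1.1, e1.2, e6.1, e6.2]
  rw [n2_eq] at h2 ⊢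
  refine h8.trans ?_
  rw [hδ, sq_sqrt (by positivity), div_mul_eq_mul_div, div_le_iff₀ hB1]
  exact mul_le_mul_of_nonneg_left (by linarith [le_abs_self B]) hε.le

theorem sgGlue : SgGlue := by
  intro hB hS hL hR hFc L β ρ F hF hb hc t ht
  obtain ⟨ζ, hζ, hR⟩ := hR L β ρ
  obtain ⟨-, hR, hR'⟩ := hR ζ le_rfl
  have hC : Cl (cen β ρ ζ F) := by
    rcases hc with hc | hc
    · have h := hL.add L Empty _ _ hc
        (hL.smul L Empty (fun _ => -ζ) _ ⟨_, tendsto_const_nhds⟩ (hR F hc))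
      have e : cen β ρ ζ F = F + fun n x z => -ζ * op β ρ (fun S => S.Rz ζ) F n x z := by
        funext n x z; simp only [cen, op, Pi.add_apply]; ring
      rw [e]; exact h
    · exact hR' F hF hb hc.1 hc.2
  have hT : ∀ᶠ n in atTop, (∀ x, M2 ((sk β ρ n).T t (F n x))) ∧
      Eqv fun x => (sk β ρ n).T t (F n x) := by
    filter_upwards [hF, eventually_gt_atTop 0] with n h hn
    exact ⟨fun x => (hB.m2_T _ _ _ t _ hn ht.le (h.1 x)).1, (hS.eqv_P L β ρ n _ h.2).2.2.1 t⟩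
  constructor
  · refine hFc L β ρ ζ hζ hR F _ (fun x => ζ⁻¹ * dslope (vv t ζ) ζ⁻¹ x)
      (continuousOn_const.mul (vv_cont _ _ _ _)) hF hb ?_ (Eventually.of_forall fun n => ?_) hC
    · filter_upwards [hF, hT] with n h h'
      exact ⟨fun x => m2_sub (h.1 x) (h'.1 x), fun p x z =>
        congrArg₂ (· - ·) (h.2 p x z) (h'.2 p x z)⟩
    · refine mul_congr (mul_sub (mul_id _ _) (mul_T hB _ t _)) fun s s0 _ => ?_
      have hs : 0 < s + ζ := by linarith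
      have e1 := sub_smul_dslope (vv t ζ) ζ⁻¹ (s + ζ)⁻¹
      have e2 := vv_eq (s := 0) (ζ := ζ) ht (by linarith)
      rw [zero_add] at e2
      rw [vv_eq ht hs, e2, smul_eq_mul, mul_zero, neg_zero, exp_zero] at e1
      have e3 : s / (s + ζ) = -ζ * ((s + ζ)⁻¹ - ζ⁻¹) := by field_simp; ring
      rw [e3, ← neg_sub, ← e1]
      field_simp
  · refine hFc L β ρ ζ hζ hR F _ (fun x => -dslope (vv t ζ) 0 x) (vv_cont _ _ _ _).neg hF hb ?_
      (Eventually.of_forall fun n => ?_) hC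
    · filter_upwards [hT] with n h'
      exact ⟨fun x => hB.m2_L _ _ _ _ (h'.1 x), (hS.eqv_P L β ρ n _ h'.2).1⟩
    · refine mul_congr (mul_comp (mul_T hB _ t _) (mul_L hB _ _)) fun s s0 _ => ?_
      have hs : 0 < s + ζ := by linarith
      have e1 := sub_smul_dslope (vv t ζ) 0 (s + ζ)⁻¹
      have e2 : vv t ζ 0 = 0 := by simp [vv]
      rw [vv_eq ht hs, e2, smul_eq_mul, sub_zero, sub_zero] at e1
      rw [← e1, div_eq_mul_inv]
      ring

end Crest.Agent.T157.Lm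

end
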