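import Crest.Agent.T157.LmDef_76

/-!
# Row 157, block B/S5 (helper14): hypercontractivity, Bernstein inequalities, flips
-/

set_option autoImplicit false
set_option linter.all false

noncomputable section

namespace Crest.Agent.T157.Lm

open MeasureTheory Real Filter Topology
open Crest.Agent.R238.Gap Crest.Agent.R238.GapPc Crest.Agent.R253.Meh74
open Crest.Agent.T157.Hm
open Crest.Agent.T157.Rn (Tm)
open scoped Convolution ContDiff

namespace Hy14

variable {m : ℕ}

lemma sq_eq (f : E m → ℝ) : Lm.sq f = ip f f := by simp only [Lm.sq, ip, pow_two]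

lemma sq_nn (f : E m → ℝ) : 0 ≤ Lm.sq f := by rw [sq_eq]; exact ip_self_nonneg f

lemma four_eq (f : E m → ℝ) :
    ∫ z, f z ^ 4 ∂gam m = ip (fun z => f z * f z) (fun z => f z * f z) :=
  integral_congr_ae (ae_of_all _ fun z => by ring)

/-! ### Bernstein -/

lemma en_le' {D : ℕ} {f : E m → ℝ} (hf : f ∈ Pl m D) : en f ≤ D * Lm.sq f := by
  rw [sq_eq]; exact en_le (le_succ D hf)

lemma en_eq (f : E m → ℝ) : en f = ∑ j, Lm.sq (pd j f) := by simp only [en, sq_eq]

lemma bern (D m : ℕ) (f : E m → ℝ) (hf : f ∈ Pl m D) :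
    Tm 2 f ∧ en f ≤ D * Lm.sq f ∧ en2 f ≤ D ^ 2 * Lm.sq f := by
  refine ⟨⟨c1 hf, fun i => ⟨c1 (pd_mem_self hf i), fun j => ?_⟩⟩, en_le' hf, ?_⟩
  · have := c0 (pd_mem_self (pd_mem_self hf i) j)
    exact ⟨this.c, this.g⟩
  · calc en2 f ≤ ∑ j, D * Lm.sq (pd j f) :=
          Finset.sum_le_sum fun j _ => en_le' (pd_mem_self hf j)
      _ = D * en f := by rw [en_eq, Finset.mul_sum]
      _ ≤ D * (D * Lm.sq f) := mul_le_mul_of_nonneg_left (en_le' hf) (Nat.cast_nonneg D)
      _ = _ := by ring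

/-! ### hypercontractivity -/

lemma four_step {f : E m → ℝ} (hf : C1 f) :
    ∫ z, f z ^ 4 ∂gam m ≤ Lm.sq f ^ 2 +
      4 * ∑ j, ip (fun z => f z * f z) (fun z => pd j f z * pd j f z) := by
  have h := poincare1 (hf.mul hf)
  have e1 : ∫ z, (f z * f z) ^ 2 ∂gam m = ∫ z, f z ^ 4 ∂gam m :=
    integral_congr_ae (ae_of_all _ fun z => by ring)
  have e2 : ∀ j, ∫ z, pd j (fun z => f z * f z) z ^ 2 ∂gam m =
      4 * ip (fun z => f z * f z) (fun z => pd j f z * pd j f z) := fun j => by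
    rw [ip, ← integral_const_mul]
    refine integral_congr_ae (ae_of_all _ fun z => ?_)
    simp only [hf.pd_mul hf]; ring
  simp only [e1, e2, ← Finset.mul_sum] at h
  rw [sq_eq, ip]
  linarith

lemma four : ∀ D : ℕ, ∃ C > (0 : ℝ), ∀ m, ∀ f ∈ Pl m D, ∫ z, f z ^ 4 ∂gam m ≤ C * Lm.sq f ^ 2
  | 0 => ⟨1, one_pos, fun m f hf => by rw [Hm.mem_zero.1 hf]; simp [Lm.sq]⟩
  | D + 1 => by
    obtain ⟨C, C0', hC⟩ := four D
    refine ⟨2 + 16 * C * D ^ 2, by positivity, fun m f hf => ?_⟩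
    have h1 := four_step (c1 hf)
    have a0 : 0 ≤ ∫ z, f z ^ 4 ∂gam m := integral_nonneg fun z => by positivity
    set a := ∫ z, f z ^ 4 ∂gam m with ha
    have h2 : ∀ j, ip (fun z => f z * f z) (fun z => pd j f z * pd j f z) ≤
        √(a * C) * Lm.sq (pd j f) := fun j => by
      have g := pd_mem hf j
      have h3 := ip_sq_le ((c0 hf).mul (c0 hf)) ((c0 g).mul (c0 g))
      rw [← four_eq, ← four_eq, ← ha] at h3
      refine le_of_sq_le_sq ?_ (mul_nonneg (sqrt_nonneg _) (sq_nn _))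
      rw [mul_pow, Real.sq_sqrt (by positivity), mul_assoc]
      exact h3.trans (mul_le_mul_of_nonneg_left (hC m _ g) a0)
    have h4 : ∑ j, ip (fun z => f z * f z) (fun z => pd j f z * pd j f z) ≤
        √(a * C) * (D * Lm.sq f) := by
      refine (Finset.sum_le_sum fun j _ => h2 j).trans ?_
      rw [← Finset.mul_sum, ← en_eq, sq_eq]
      exact mul_le_mul_of_nonneg_left (en_le hf) (sqrt_nonneg _)
    have h5 : √(a * C) ^ 2 = a * C := Real.sq_sqrt (by positivity)
    have h6 := sq_nonneg (√(a * C) - 4 * C * (D * Lm.sq f))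
    have h7 : C * (8 * (√(a * C) * (D * Lm.sq f))) ≤ C * (a + 16 * C * (D * Lm.sq f) ^ 2) := by
      nlinarith
    have h8 := le_of_mul_le_mul_left h7 C0'
    nlinarith

/-! ### flips -/

lemma aff_mem (a b : Fin m → ℝ) {T : E m → E m} (hT : ∀ z e, T z e = a e * z e + b e) :
    ∀ {D : ℕ} {f : E m → ℝ}, f ∈ Pl m D → (fun z => f (T z)) ∈ Pl m D
  | 0, f, h => by rw [Hm.mem_zero.1 h]; exact zero_mem _
  | D + 1, _, ⟨c, r, hr, rfl⟩ => by
    have : (fun z : E m => c + ∑ j, T z j * r j (T z)) =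
        fun z => (c + ∑ j, z j * (a j * r j (T z))) + ∑ j, b j * r j (T z) := funext fun z => by
      rw [add_assoc, ← Finset.sum_add_distrib]
      congr 1
      exact Finset.sum_congr rfl fun j _ => by rw [hT]; ring
    show (fun z : E m => c + ∑ j, T z j * r j (T z)) ∈ _
    rw [this]
    exact add_mem' ⟨c, _, fun j => smul_mem' _ (aff_mem a b hT (hr j)), rfl⟩
      (sum_mem' _ fun j _ => smul_mem' _ (le_succ D (aff_mem a b hT (hr j))))

lemma flip (hb : BasStmt) (D m n : ℕ) (S : GS m n) (k : Fin n) (f : E m → ℝ) (hf : f ∈ Pl m D) :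
    S.D k f ∈ Pl m D :=
  sub_mem' (aff_mem (fun e => if S.inc k e = true then -1 else 1)
    (fun e => if S.inc k e = true then -2 * S.α e else 0) (fun z e => by
      rw [hb.R_apply]; split_ifs <;> ring) hf) hf

/-! ### the weighted lower bound -/

lemma rate_eq (x : ℝ) : (1 - tanh x) / 2 = (1 + exp (2 * x))⁻¹ := by
  have h1 := exp_pos x
  have h2 : exp (-x) = (exp x)⁻¹ := exp_neg x
  have h3 : exp (2 * x) = exp x * exp x := by rw [two_mul, exp_add]
  rw [tanh_eq_sinh_div_cosh, sinh_eq, cosh_eq, h2, h3]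
  field_simp
  ring

lemma int_coord (j : Fin m) : ∫ z : E m, z j ∂gam m = 0 := by
  have h := ibp_gam (c1_const (n := m) 1).c (pg_const 1) j ((c1_const 1).p j)
  simpa [pd_const] using h

lemma aff_sq (a : Fin m → ℝ) (μ : ℝ) :
    C0 (fun z : E m => μ + ∑ j, z j * a j) ∧
      Lm.sq (fun z : E m => μ + ∑ j, z j * a j) ≤ μ ^ 2 + ∑ j, a j ^ 2 := by
  have hm : (fun z : E m => μ + ∑ j, z j * a j) ∈ Pl m 2 :=
    ⟨μ, fun j _ => a j, fun j => const_mem 0 _, rfl⟩
  refine ⟨c0 hm, ?_⟩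
  have h := poincare1 (c1 hm)
  have e1 : ∀ i, pd i (fun z : E m => μ + ∑ j, z j * a j) = fun _ => a i := fun i => by
    rw [pd_form μ (r := fun j _ => a j) fun j => c1_const _]
    funext x; simp [pd_const]
  have i1 : ∀ j, Integrable (fun z : E m => z j * a j) (gam m) := fun j =>
    ((c0_of (c1_coord j)).mul (c0_const _)).int
  have e2 : ∫ z : E m, (μ + ∑ j, z j * a j) ∂gam m = μ := by
    rw [integral_add (integrable_const _) (integrable_finsetSum _ fun j _ => i1 j),
      integral_finsetSum _ fun j _ => i1 j]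
    simp [integral_mul_const, int_coord]
  simp only [e1, e2, integral_const, probReal_univ, smul_eq_mul, one_mul] at h
  rw [Lm.sq]; linarith

lemma h_sq {n : ℕ} {S : GS m n} {B : ℝ} (hS : S.Ok B) (k : Fin n) :
    C0 (S.h k) ∧ Lm.sq (S.h k) ≤ B ^ 2 + B := by
  have e : S.h k = fun z : E m => (∑ e, if S.inc k e = true then S.α e ^ 2 else 0) +
      ∑ j, z j * (if S.inc k j = true then S.α j else 0) := funext fun z => by
    rw [GS.h, ← Finset.sum_add_distrib]
    exact Finset.sum_congr rfl fun e _ => by split_ifs <;> ring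
  obtain ⟨h1, h2⟩ := aff_sq (fun j => if S.inc k j = true then S.α j else 0)
    (∑ e, if S.inc k e = true then S.α e ^ 2 else 0)
  rw [e]
  refine ⟨h1, h2.trans ?_⟩
  have h3 := hS.row k
  have h4 : 0 ≤ ∑ e, if S.inc k e = true then S.α e ^ 2 else 0 :=
    Finset.sum_nonneg fun e _ => by split_ifs <;> positivity
  have h5 : ∑ j, (if S.inc k j = true then S.α j else 0) ^ 2 =
      ∑ e, if S.inc k e = true then S.α e ^ 2 else 0 :=
    Finset.sum_congr rfl fun e _ => by split_ifs <;> simp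
  rw [h5]
  exact add_le_add (pow_le_pow_left₀ h4 h3 2) h3

lemma low_pt {A x y : ℝ} (hA : 0 < A) :
    y * y ≤ (1 + exp (2 * A)) * ((1 + exp (2 * x))⁻¹ * y ^ 2) + A⁻¹ * (y * y * |x|) := by
  have h1 := exp_pos (2 * x)
  have h2 := exp_pos (2 * A)
  have h3 := mul_self_nonneg y
  rcases le_total x A with h | h
  · have h4 : exp (2 * x) ≤ exp (2 * A) := exp_le_exp.2 (by linarith)
    have h5 : 1 ≤ (1 + exp (2 * A)) * (1 + exp (2 * x))⁻¹ := by
      rw [← div_eq_mul_inv, one_le_div (by positivity)]; linarith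
    have h6 : 0 ≤ A⁻¹ * (y * y * |x|) := by positivity
    nlinarith
  · have h5 : 1 ≤ A⁻¹ * |x| := by
      rw [← div_eq_inv_mul, one_le_div hA]; exact h.trans (le_abs_self x)
    have h6 : 0 ≤ (1 + exp (2 * A)) * ((1 + exp (2 * x))⁻¹ * y ^ 2) := by positivity
    nlinarith

lemma low (D : ℕ) (B : ℝ) : ∃ C > (0 : ℝ), ∀ m n (S : GS m n), S.Ok B → ∀ k, ∀ f ∈ Pl m D,
    Lm.sq f ≤ C * ∫ z, S.c k z * f z ^ 2 ∂gam m := by
  obtain ⟨C, C0', hC⟩ := four D
  set K := C * (B ^ 2 + |B|) with hK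
  have K0 : 0 ≤ K := by positivity
  refine ⟨2 * (1 + exp (2 * (2 * (K + 1)))), by positivity, fun m n S hS k f hf => ?_⟩
  obtain ⟨h1, h2⟩ := h_sq hS k
  have f0 := c0 hf
  have ha : C0 fun z => |S.h k z| := ⟨h1.c.abs, h1.g.abs⟩
  have hc : C0 fun z => (1 + exp (2 * S.h k z))⁻¹ := by
    refine ⟨(continuous_const.add (continuous_exp.comp (continuous_const.mul h1.c))).inv₀
      fun z => (add_pos one_pos (exp_pos _)).ne', PG.of_bdd (K := 1) fun z => ?_⟩
    have := exp_pos (2 * S.h k z)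
    rw [abs_of_pos (by positivity)]
    exact inv_le_one_of_one_le₀ (by linarith)
  have s0 := sq_nn f
  have h3 : ip (fun z => f z * f z) (fun z => |S.h k z|) ≤ (K + 1) * Lm.sq f := by
    have h4 := ip_sq_le (f0.mul f0) ha
    have h5 : ip (fun z => |S.h k z|) (fun z => |S.h k z|) = Lm.sq (S.h k) := by
      simp only [sq_eq, ip, abs_mul_abs_self]
    rw [← four_eq, h5] at h4
    refine le_of_sq_le_sq (h4.trans ?_) (by positivity)
    calc (∫ z, f z ^ 4 ∂gam m) * Lm.sq (S.h k) ≤ C * Lm.sq f ^ 2 * (B ^ 2 + |B|) :=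
          mul_le_mul (hC m f hf) (h2.trans (by linarith [le_abs_self B])) (sq_nn _) (by positivity)
      _ = K * Lm.sq f ^ 2 := by rw [hK]; ring
      _ ≤ (K + 1) ^ 2 * Lm.sq f ^ 2 := mul_le_mul_of_nonneg_right (by nlinarith) (sq_nonneg _)
      _ = _ := by ring
  have i1 : Integrable (fun z => (1 + exp (2 * S.h k z))⁻¹ * f z ^ 2) (gam m) := by
    simpa only [pow_two] using (hc.mul (f0.mul f0)).int
  have i2 := ((f0.mul f0).mul ha).int
  have hA : 0 < 2 * (K + 1) := by positivity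
  have h6 := integral_mono (f0.mul f0).int ((i1.const_mul _).add (i2.const_mul _))
    fun z => low_pt (x := S.h k z) (y := f z) hA
  simp only [Pi.add_apply] at h6
  rw [integral_add (i1.const_mul _) (i2.const_mul _), integral_const_mul, integral_const_mul] at h6
  have h7 : (2 * (K + 1))⁻¹ * ip (fun z => f z * f z) (fun z => |S.h k z|) ≤ Lm.sq f / 2 := by
    rw [← div_eq_inv_mul, div_le_iff₀ hA]; linarith
  simp only [GS.c, rate_eq]
  rw [sq_eq, ip] at h7 ⊢
  rw [ip] at h7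
  linarith

/-! ### Lipschitz functions -/

open ContinuousLinearMap in
lemma mollify {F : E m → ℝ} {B δ : ℝ} (hB : 0 ≤ B) (hδ : 0 < δ)
    (hF : ∀ z z', |F z - F z'| ≤ B * ‖z - z'‖) : ∃ V : E m → ℝ, ContDiff ℝ 1 V ∧
      (∀ z z', |V z - V z'| ≤ B * ‖z - z'‖) ∧ ∀ z, |V z - F z| ≤ δ := by
  have hcont : Continuous F := (LipschitzWith.of_dist_le_mul (K := ⟨B, hB⟩) fun x y => by
    rw [Real.dist_eq, dist_eq_norm]; exact hF x y).continuous
  have hr : 0 < δ / (B + 1) := by positivity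
  let φ : ContDiffBump (0 : E m) := ⟨δ / (B + 1) / 2, δ / (B + 1), half_pos hr, half_lt_self hr⟩
  refine ⟨(φ.normed volume) ⋆[lsmul ℝ ℝ, volume] F, ?_, fun x y => ?_, fun x => ?_⟩
  · exact φ.hasCompactSupport_normed.contDiff_convolution_left _ φ.contDiff_normed
      hcont.locallyIntegrable
  · have hint : ∀ x, Integrable (fun t => φ.normed volume t * F (x - t)) volume := by
      intro x
      have := (φ.hasCompactSupport_normed (μ := volume)).convolutionExists_left (lsmul ℝ ℝ)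
        φ.continuous_normed (hcont.locallyIntegrable (μ := volume)) x
      simpa [ConvolutionExistsAt, lsmul_apply, smul_eq_mul] using this
    have hval : ∀ x, ((φ.normed volume) ⋆[lsmul ℝ ℝ, volume] F) x =
        ∫ t, φ.normed volume t * F (x - t) := by
      intro x; simp [convolution_def, lsmul_apply, smul_eq_mul]
    rw [hval, hval, ← integral_sub (hint x) (hint y)]
    have h1 := norm_integral_le_of_norm_le (μ := volume)
      (f := fun t => φ.normed volume t * F (x - t) - φ.normed volume t * F (y - t))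
      ((φ.integrable_normed (μ := volume)).mul_const (B * ‖x - y‖)) (ae_of_all _ fun t => by
        have h0 := φ.nonneg_normed (μ := volume) t
        have h2 := hF (x - t) (y - t)
        rw [sub_sub_sub_cancel_right] at h2
        rw [← mul_sub, Real.norm_eq_abs, abs_mul, abs_of_nonneg h0]
        exact mul_le_mul_of_nonneg_left h2 h0)
    rwa [integral_mul_const, φ.integral_normed, one_mul, Real.norm_eq_abs] at h1
  · have h4 := φ.dist_normed_convolution_le (μ := volume) (x₀ := x) (ε := δ)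
      hcont.aestronglyMeasurable fun y hy => by
        have h3 : ‖y - x‖ < δ / (B + 1) := by rw [← dist_eq_norm]; exact hy
        rw [lt_div_iff₀ (by positivity)] at h3
        rw [Real.dist_eq]
        nlinarith [hF y x, norm_nonneg (y - x)]
    rwa [Real.dist_eq] at h4

lemma c0_lip {F : E m → ℝ} {B : ℝ} (hB : 0 ≤ B) (hF : ∀ z z', |F z - F z'| ≤ B * ‖z - z'‖) :
    C0 F := by
  refine ⟨(LipschitzWith.of_dist_le_mul (K := ⟨B, hB⟩) fun x y => by
    rw [Real.dist_eq, dist_eq_norm]; exact hF x y).continuous, |F 0| + B, 1, fun x => ?_⟩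
  have h1 := hF x 0
  rw [sub_zero] at h1
  have h2 := abs_sub_abs_le_abs_sub (F x) (F 0)
  nlinarith [norm_nonneg x, abs_nonneg (F 0), mul_nonneg (norm_nonneg x) (abs_nonneg (F 0))]

lemma c1_lip {V : E m → ℝ} {B : ℝ} (hB : 0 ≤ B) (hV : ContDiff ℝ 1 V)
    (hL : ∀ z z', |V z - V z'| ≤ B * ‖z - z'‖) : C1 V ∧ en V ≤ B ^ 2 := by
  have h1 : ∀ x, ∑ i, pd i V x ^ 2 ≤ B ^ 2 := fun x => by
    rw [← norm_fderiv_sq]
    exact pow_le_pow_left₀ (norm_nonneg _)
      (norm_fderiv_le_of_lip' ℝ hB (.of_forall fun y => hL y x)) 2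
  have hc : C1 V := ⟨hV, (c0_lip hB hL).g, fun i => PG.of_bdd (K := B) fun x =>
    abs_le_of_sq_le_sq (le_trans (Finset.single_le_sum (f := fun i => pd i V x ^ 2)
      (fun _ _ => sq_nonneg _) (Finset.mem_univ i)) (h1 x)) hB⟩
  refine ⟨hc, ?_⟩
  have i1 : ∀ i, Integrable (fun x => pd i V x * pd i V x) (gam m) := fun i =>
    ((c0_pd hc i).mul (c0_pd hc i)).int
  simp only [en, ip]
  rw [← integral_finsetSum _ fun i _ => i1 i]
  have := integral_mono (integrable_finsetSum Finset.univ fun i _ => i1 i)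
    (integrable_const (B ^ 2)) fun x => by simpa only [pow_two] using h1 x
  simpa using this

lemma best {D : ℕ} {F q : E m → ℝ} (hF : C0 F) (hq : q ∈ Pl m D) :
    Lm.sq (fun z => F z - pr D F z) ≤ Lm.sq fun z => F z - q z := by
  have h1 := res_le (D := D) (hF.sub (c0 hq))
  rw [pr_unique (hF.sub (c0 hq)) (sub_mem' (pr_mem D F) hq) fun r hr => by
    rw [ip_sub (c0 (pr_mem D F)) (c0 hq) (c0 hr), ip_sub hF (c0 hq) (c0 hr), ip_pr hF hr]] at h1
  simpa only [sq_eq, sub_sub_sub_cancel_right] using h1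

lemma lip_pt {t u v : ℝ} (ht : 0 < t) (hv : |v| ≤ t) : (u - v) ^ 2 ≤ (1 + t) * u ^ 2 + (t ^ 2 + t) := by
  have h1 : v ^ 2 ≤ t ^ 2 := sq_le_sq' (abs_le.1 hv).1 (abs_le.1 hv).2
  have h2 : t * (-2 * u * v) ≤ t * (t * u ^ 2 + t) := by nlinarith [sq_nonneg (t * u + v)]
  have h3 := le_of_mul_le_mul_left h2 ht
  nlinarith

lemma lip (m : ℕ) (F : E m → ℝ) (B : ℝ) (hF : ∀ z z', |F z - F z'| ≤ B * ‖z - z'‖) (D : ℕ) :
    D * Lm.sq (fun z => F z - pr D F z) ≤ B ^ 2 := by
  have hF' : ∀ z z', |F z - F z'| ≤ |B| * ‖z - z'‖ := fun z z' =>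
    (hF z z').trans (mul_le_mul_of_nonneg_right (le_abs_self B) (norm_nonneg _))
  have F0 := c0_lip (abs_nonneg B) hF'
  have key : ∀ t > (0 : ℝ), D * Lm.sq (fun z => F z - pr D F z) ≤
      (1 + t) * B ^ 2 + D * (t ^ 2 + t) := fun t ht => by
    obtain ⟨V, h1, h2, h3⟩ := mollify (abs_nonneg B) ht hF'
    obtain ⟨h4, h5⟩ := c1_lip (abs_nonneg B) h1 h2
    have h6 := (res_le_en D h4).trans h5
    rw [sq_abs, ← sq_eq] at h6
    have p0 := c0 (pr_mem D V)
    have i1 : Integrable (fun z => (V z - pr D V z) ^ 2) (gam m) := by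
      simpa only [pow_two] using (((c0_of h4).sub p0).mul ((c0_of h4).sub p0)).int
    have i2 : Integrable (fun z => (F z - pr D V z) ^ 2) (gam m) := by
      simpa only [pow_two] using ((F0.sub p0).mul (F0.sub p0)).int
    have h7 := integral_mono i2 ((i1.const_mul (1 + t)).add (integrable_const (t ^ 2 + t)))
      fun z => by
        have := lip_pt (u := V z - pr D V z) ht (h3 z)
        simp only [Pi.add_apply]
        calc (F z - pr D V z) ^ 2 = (V z - pr D V z - (V z - F z)) ^ 2 := by ring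
          _ ≤ _ := this
    simp only [Pi.add_apply] at h7
    rw [integral_add (i1.const_mul _) (integrable_const _), integral_const_mul] at h7
    simp only [integral_const, probReal_univ, smul_eq_mul, one_mul] at h7
    have h8 := mul_le_mul_of_nonneg_left ((best F0 (pr_mem D V)).trans h7) (Nat.cast_nonneg D)
    have h9 := mul_le_mul_of_nonneg_left h6 (show 0 ≤ 1 + t by linarith)
    rw [Lm.sq] at h9
    linarith
  have hl : Tendsto (fun t : ℝ => (1 + t) * B ^ 2 + D * (t ^ 2 + t)) (𝓝[>] 0) (𝓝 (B ^ 2)) := by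
    have hc : Continuous fun t : ℝ => (1 + t) * B ^ 2 + D * (t ^ 2 + t) := by fun_prop
    simpa using (hc.tendsto 0).mono_left nhdsWithin_le_nhds
  exact ge_of_tendsto hl (eventually_nhdsWithin_of_forall key)

end Hy14

/-- **polynomial estimates** -/
theorem hypGlue : HypGlue := fun hb _ =>
  ⟨Hy14.four, Hy14.bern, Hy14.flip hb, Hy14.low, Hy14.lip⟩

end Crest.Agent.T157.Lm

end
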