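import Crest.Agent.T157.LmDef_76

/-!
# Row 157, block B/S5 (helper59): the matrix half of `Lm.SkStmt`
-/

set_option autoImplicit false

noncomputable section

namespace Crest.Agent.T157.Lm

open MeasureTheory ProbabilityTheory Real Filter Topology Finset Matrix
open Crest.ProbabilityR.SpinGlassDynamics (Pair disorderLaw)
open Crest.Agent.R238.Gap (E)
open Crest.Agent.R253.Meh74 (gam)
open Crest.Agent.T157.E (Cube sv Jmat)
open Crest.Agent.T157.Eig

namespace Sk59

variable {L n : ℕ}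

theorem co_pt (f : Ix L n → ℝ) (e : Ix L n) : co (pt f) e = f e := by simp [co, pt]

/-! ### the radial retraction -/

/-- the radial retraction onto the ball of radius `K` -/
def rt (K : ℝ) (J : Matrix (Fin n) (Fin n) ℝ) : Matrix (Fin n) (Fin n) ℝ := (max 1 (opn J / K))⁻¹ • J

theorem mx_pos (K : ℝ) (J : Matrix (Fin n) (Fin n) ℝ) : 0 < max 1 (opn J / K) :=
  lt_max_of_lt_left one_pos

theorem opn_rt {K : ℝ} (hK : 0 < K) (J : Matrix (Fin n) (Fin n) ℝ) : opn (rt K J) ≤ K := by
  have := mx_pos K J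
  rw [rt, opn_smul, abs_of_pos (inv_pos.2 this), inv_mul_le_iff₀ this, ← div_le_iff₀ hK]
  exact le_max_right _ _

theorem rt_lip {K : ℝ} (hK : 0 < K) (J J' : Matrix (Fin n) (Fin n) ℝ) :
    opn (rt K J - rt K J') ≤ 2 * opn (J - J') := by
  have m0 := mx_pos K J
  have m1 := mx_pos K J'
  have e : rt K J - rt K J' = (max 1 (opn J / K))⁻¹ • (J - J') +
      ((max 1 (opn J / K))⁻¹ * (max 1 (opn J' / K) - max 1 (opn J / K))) • rt K J' := by
    simp only [rt, smul_smul, smul_sub]
    rw [sub_add, ← sub_smul]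
    congr 2
    field_simp
    ring
  have h1 : |(max 1 (opn J / K))⁻¹| ≤ 1 := by
    rw [abs_of_pos (inv_pos.2 m0)]; exact inv_le_one_of_one_le₀ (le_max_left _ _)
  have h2 : |max 1 (opn J' / K) - max 1 (opn J / K)| ≤ opn (J - J') / K := by
    rw [max_comm 1, max_comm 1]
    refine (abs_max_sub_max_le_abs _ _ _).trans ?_
    rw [← sub_div, abs_div, abs_of_pos hK, opn_sub_comm]
    exact div_le_div_of_nonneg_right (abs_opn_sub_le _ _) hK.le
  have h3 := opn_nonneg (J - J')
  rw [e]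
  refine (opn_add_le _ _).trans ?_
  rw [opn_smul, opn_smul, abs_mul]
  have h4 := mul_le_mul (mul_le_mul h1 h2 (abs_nonneg _) zero_le_one) (opn_rt hK J')
    (opn_nonneg _) (by positivity)
  rw [one_mul, div_mul_cancel₀ _ hK.ne'] at h4
  linarith [mul_le_of_le_one_left h3 h1]

theorem opn_perm (J : Matrix (Fin n) (Fin n) ℝ) (e : Equiv.Perm (Fin n)) :
    opn (J.submatrix e e) = opn J := by
  refine le_antisymm (opn_submatrix_le J e.injective) (le_of_eq_of_le ?_
    (opn_submatrix_le (J.submatrix e e) e.symm.injective))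
  simp

theorem sv_mul (σ : Cube n) (i : Fin n) : sv σ i * sv σ i = 1 := E.spin_mul_self _

theorem opn_gauge_le (σ : Cube n) (J : Matrix (Fin n) (Fin n) ℝ) :
    opn (of fun i j => sv σ i * sv σ j * J i j) ≤ opn J := by
  have h : opn (diagonal (sv σ)) ≤ 1 := opn_diagonal_le zero_le_one fun i =>
    abs_le_one_iff_mul_self_le_one.2 (sv_mul σ i).le
  have e : (of fun i j => sv σ i * sv σ j * J i j) = diagonal (sv σ) * J * diagonal (sv σ) := by
    ext i j; simp only [of_apply, mul_diagonal, diagonal_mul]; ring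
  rw [e]
  refine (opn_mul_le _ _).trans ((mul_le_of_le_one_right (opn_nonneg _) h).trans ?_)
  exact (opn_mul_le _ _).trans (mul_le_of_le_one_left (opn_nonneg _) h)

theorem opn_gauge (σ : Cube n) (J : Matrix (Fin n) (Fin n) ℝ) :
    opn (of fun i j => sv σ i * sv σ j * J i j) = opn J := by
  refine le_antisymm (opn_gauge_le σ J) (le_of_eq_of_le ?_ (opn_gauge_le σ _))
  congr 1
  ext i j
  simp only [of_apply]
  linear_combination (-(J i j * (sv σ j * sv σ j))) * sv_mul σ i - J i j * sv_mul σ j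

/-! ### covariance -/

theorem Jm_act (β : ℝ) (p : Equiv.Perm (Fin n)) (z : E (Nv L n)) (i j : Fin n) :
    Jm β (act p z) (p i) (p j) = Jm β z i j := by
  simp [Jm, act, co_pt]

theorem Jm_gz (β : ℝ) (ρ : Fin L → ℝ) (σ : Cube n) (z : E (Nv L n)) (i j : Fin n) :
    Jm β ((sk β ρ n).gz σ z) i j = sv σ i * sv σ j * Jm β z i j := by
  by_cases h : i = j
  · simp [Jm, h]
  have h1 : (∏ k, if k = i ∨ k = j then sv σ k else 1) = sv σ i * sv σ j := by
    rw [← prod_pair h, ← prod_filter]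
    exact prod_congr (by ext k; simp) fun _ _ => rfl
  simp only [Jm, of_apply, if_neg h, co, GS.gz, GS.chi, sk, Equiv.symm_apply_apply,
    Sym2.mk_isDiag_iff, Sym2.mem_iff, decide_eq_true_eq, h1]
  ring

theorem Jt_eq (β K : ℝ) (z : E (Nv L n)) : Jt β K z = rt K (Jm β z) := rfl

theorem Jt_act (β K : ℝ) (p : Equiv.Perm (Fin n)) (z : E (Nv L n)) (i j : Fin n) :
    Jt β K (act p z) (p i) (p j) = Jt β K z i j := by
  have h : Jm β z = (Jm β (act p z)).submatrix p p := by
    ext i j; rw [submatrix_apply, Jm_act]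
  simp only [Jt, Matrix.smul_apply, Jm_act]
  rw [h, opn_perm]

theorem Jt_gz (β : ℝ) (ρ : Fin L → ℝ) (K : ℝ) (σ : Cube n) (z : E (Nv L n)) (i j : Fin n) :
    Jt β K ((sk β ρ n).gz σ z) i j = sv σ i * sv σ j * Jt β K z i j := by
  have h : Jm β ((sk β ρ n).gz σ z) = of fun i j => sv σ i * sv σ j * Jm β z i j := by
    ext i j; rw [Jm_gz, of_apply]
  simp only [Jt, Matrix.smul_apply, h, opn_gauge, of_apply, smul_eq_mul]
  ring

theorem cont_co (e : Ix L n) : Continuous fun z : E (Nv L n) => co z e := by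
  unfold co; fun_prop

theorem cont_Jm (β : ℝ) : Continuous fun z : E (Nv L n) => Jm β z :=
  continuous_pi fun i => continuous_pi fun j => by
    simp only [Jm, of_apply]
    split_ifs
    exacts [continuous_const, continuous_const.mul ((cont_co _).add continuous_const)]

theorem Jt_meas (β K : ℝ) (i j : Fin n) : Continuous fun z : E (Nv L n) => Jt β K z i j :=
  ((continuous_const.max ((continuous_opn.comp (cont_Jm β)).div_const K)).inv₀
    fun z => (mx_pos K (Jm β z)).ne').mul ((cont_Jm β).matrix_elem i j)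

/-! ### the couplings -/

/-- the variable of a pair -/
def pe (L n : ℕ) (p : Pair n) : Fin (Nv L n) := ix L n (.inl s(p.1.1, p.1.2))

theorem pe_inj : Function.Injective (pe L n) := fun p q h => by
  have h1 := Sum.inl.inj ((ix L n).injective h)
  rcases Sym2.eq_iff.1 h1 with h | h
  · exact Subtype.ext (Prod.ext h.1 h.2)
  · have h2 := p.2
    rw [h.1, h.2] at h2
    exact absurd q.2 h2.not_gt

/-- the centred couplings -/
def gof (z : E (Nv L n)) : Pair n → ℝ := fun p => z (pe L n p)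

theorem Jm_eq (β : ℝ) (z : E (Nv L n)) :
    Jm β z = β • Jmat n (gof z) + Jm β (0 : E (Nv L n)) := by
  ext i j
  simp only [Jm, of_apply, Matrix.add_apply, Matrix.smul_apply, smul_eq_mul]
  rcases lt_trichotomy i j with h | rfl | h
  · rw [if_neg h.ne, if_neg h.ne, E.Jmat_apply_lt _ h]
    simp only [gof, pe, co, PiLp.zero_apply]; ring
  · simp [E.Jmat_diag]
  · rw [if_neg h.ne', if_neg h.ne', E.Jmat_symm, E.Jmat_apply_lt _ h, Sym2.eq_swap]
    simp only [gof, pe, co, PiLp.zero_apply]; ring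

theorem opn_Jm_zero (β : ℝ) : opn (Jm β (0 : E (Nv L n))) ≤ β ^ 2 := by
  refine (opn_le_sqrt_frob _).trans (sqrt_le_iff.2 ⟨sq_nonneg _, ?_⟩)
  have h : ∀ i j, Jm β (0 : E (Nv L n)) i j ^ 2 ≤ (β ^ 2 / n) ^ 2 := fun i j => by
    simp only [Jm, of_apply, co, PiLp.zero_apply, zero_add]
    split_ifs
    · rw [zero_pow two_ne_zero]; exact sq_nonneg _
    · rw [← pow_two, div_pow β, sq_sqrt (Nat.cast_nonneg n)]
  refine (sum_le_sum fun i _ => sum_le_sum fun j _ => h i j).trans ?_
  simp only [sum_const, card_univ, Fintype.card_fin, nsmul_eq_mul]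
  rcases Nat.eq_zero_or_pos n with rfl | hn
  · simp only [Nat.cast_zero, zero_mul]; exact sq_nonneg _
  · have : (n : ℝ) ≠ 0 := Nat.cast_ne_zero.2 hn.ne'
    exact le_of_eq (by field_simp)

theorem Jm_lip (β : ℝ) (z z' : E (Nv L n)) : opn (Jm β z - Jm β z') ≤ 2 * |β| / √n * ‖z - z'‖ := by
  rw [Jm_eq β z, Jm_eq β z', add_sub_add_right_eq_sub, ← smul_sub, Nrm.Jmat_sub, opn_smul]
  have h1 : ∑ p, (gof z - gof z') p ^ 2 ≤ ‖z - z'‖ ^ 2 := by
    rw [EuclideanSpace.real_norm_sq_eq]
    exact (sum_map univ ⟨pe L n, pe_inj⟩ fun j => (z - z') j ^ 2).symm.trans_le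
      (sum_le_sum_of_subset_of_nonneg (subset_univ _) fun _ _ _ => sq_nonneg _)
  have h2 : opn (Jmat n (gof z - gof z')) ≤ 2 / √n * ‖z - z'‖ := by
    refine (opn_le_sqrt_frob _).trans (sqrt_le_iff.2 ⟨by positivity, ?_⟩)
    rw [Nrm.frob_Jmat, mul_pow, div_pow, sq_sqrt (Nat.cast_nonneg n)]
    exact mul_le_mul (div_le_div_of_nonneg_right (by norm_num) (Nat.cast_nonneg n)) h1
      (sum_nonneg fun _ _ => sq_nonneg _) (by positivity)
  refine (mul_le_mul_of_nonneg_left h2 (abs_nonneg β)).trans (le_of_eq ?_)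
  ring

theorem Jt_lip (β K : ℝ) (z z' : E (Nv L n)) (hK : 0 < K) : opn (Jt β K z) ≤ K ∧
    opn (Jt β K z - Jt β K z') ≤ 4 * |β| / √n * ‖z - z'‖ := by
  refine ⟨opn_rt hK _, (rt_lip hK _ _).trans ?_⟩
  refine (mul_le_mul_of_nonneg_left (Jm_lip β z z') zero_le_two).trans (le_of_eq ?_)
  ring

theorem mp_sel {ι κ : Type} [Fintype ι] [Fintype κ] {e : κ → ι} (he : Function.Injective e) :
    MeasurePreserving (fun (ω : ι → ℝ) k => ω (e k)) (Measure.pi fun _ => gaussianReal 0 1)
      (Measure.pi fun _ => gaussianReal 0 1) := by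
  refine ⟨by fun_prop, ?_⟩
  have h : iIndepFun (fun i (ω : ι → ℝ) => ω i) (Measure.pi fun _ => gaussianReal 0 1) :=
    iIndepFun_pi (X := fun _ => id) fun _ => aemeasurable_id
  rw [(iIndepFun_iff_map_fun_eq_pi_map fun k => (measurable_pi_apply (e k)).aemeasurable).1
    (h.precomp he)]
  congr 1
  funext k
  exact (measurePreserving_eval (fun _ : ι => gaussianReal 0 1) (e k)).map_eq

theorem mp_ofLp (m : ℕ) : MeasurePreserving (fun z : E m => z.ofLp) (gam m)
    (Measure.pi fun _ => gaussianReal 0 1) :=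
  MeasurePreserving.symm (MeasurableEquiv.toLp 2 (Fin m → ℝ))
    ⟨(MeasurableEquiv.toLp 2 (Fin m → ℝ)).measurable, map_pi_eq_stdGaussian⟩

/-- the centred couplings have the disorder law -/
theorem mp_gof : MeasurePreserving (gof : E (Nv L n) → Pair n → ℝ) (gam _) (disorderLaw n) :=
  (mp_sel pe_inj).comp (mp_ofLp _)

theorem tail_le (β : ℝ) (L n : ℕ) : (gam (Nv L n)).real {z | 3 * |β| + β ^ 2 + 1 < opn (Jm β z)} ≤
    2 * exp (-(n / 4)) := by
  have h1 := Nrm.Jmat_opn_tail (n := n) zero_le_one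
  have hm : MeasurableSet {g | 2 + 1 ≤ opn (Jmat n g)} :=
    measurableSet_le measurable_const Nrm.elip_opn_Jmat.continuous.measurable
  rw [← (mp_gof (L := L)).measureReal_preimage hm.nullMeasurableSet, one_pow, mul_one] at h1
  refine (measureReal_mono (fun z hz => ?_) (measure_ne_top _ _)).trans h1
  by_contra h
  simp only [Set.mem_ofPred_eq, Set.mem_preimage, not_le] at hz h
  have h2 := opn_add_le (β • Jmat n (gof z)) (Jm β (0 : E (Nv L n)))
  rw [← Jm_eq, opn_smul] at h2
  nlinarith [opn_Jm_zero (L := L) (n := n) β, abs_nonneg β]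

theorem tail (β : ℝ) : ∃ K > (0 : ℝ), ∀ L, ∀ p : ℕ, Tendsto (fun n : ℕ => (n : ℝ) ^ p *
    (gam (Nv L n)).real {z | K < opn (Jm β z)}) atTop (𝓝 0) := by
  refine ⟨3 * |β| + β ^ 2 + 1, by positivity, fun L p => ?_⟩
  have h := ((tendsto_pow_mul_exp_neg_atTop_nhds_zero p).comp
    ((tendsto_natCast_atTop_atTop (R := ℝ)).atTop_div_const (show (0 : ℝ) < 4 by norm_num))).const_mul
    (2 * 4 ^ p)
  rw [mul_zero] at h
  refine squeeze_zero (fun n => by positivity) (fun n => ?_) h
  refine (mul_le_mul_of_nonneg_left (tail_le β L n) (by positivity)).trans (le_of_eq ?_)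
  simp only [Function.comp, div_pow]
  field_simp

end Sk59

end Crest.Agent.T157.Lm

end
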