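import Crest.Agent.T157.LmDefB_76
import Crest.Agent.T157.LmSkJ_59

/-!
# Row 157, block B/S5 (helper44): forgetting the layers (`Lm.layGlue`)
-/

set_option autoImplicit false

noncomputable section

namespace Crest.Agent.T157.Lm

open MeasureTheory ProbabilityTheory Real Filter Topology Matrix
open Crest.Agent.R238.Gap (E)
open Crest.Agent.R253.Meh74 (gam)
open Crest.Agent.T157.E (Cube sv gv)
open Crest.Agent.T157.Tap (V Mx)
open Sk59 (co_pt mp_sel mp_ofLp cont_co)

namespace Lay44

variable {L n : ℕ}

lemma ext {z z' : E (Nv L n)} (h : ∀ e, co z e = co z' e) : z = z' := by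
  ext j
  obtain ⟨e, rfl⟩ := (ix L n).surjective j
  exact h e

lemma co_up (z : E (Nv 0 n)) (e : Sym2 (Fin n)) : co (up L z) (.inl e) = co z (.inl e) := co_pt _ _
lemma co_up' (z : E (Nv 0 n)) (e : Fin L × Fin n) : co (up L z) (.inr e) = 0 := co_pt _ _

lemma up_act (p : Equiv.Perm (Fin n)) (z : E (Nv 0 n)) : up L (act p z) = act p (up L z) :=
  ext fun e => by cases e <;> simp only [act, co_pt, co_up, co_up', Sum.map_inl, Sum.map_inr]

lemma cont_pt {X : Type} [TopologicalSpace X] {f : X → Ix L n → ℝ} (h : ∀ e, Continuous (f · e)) :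
    Continuous fun x => pt (f x) := (PiLp.continuous_toLp 2 _).comp (continuous_pi fun _ => h _)

lemma mp_up (S : SkStmt) : MeasurePreserving
    (fun p : E (Nv 0 n) × E (Nv L n) => mix (up L p.1) p.2) ((gam _).prod (gam _)) (gam _) := by
  have hc : Continuous fun p : E (Nv 0 n) × E (Nv L n) => mix (up L p.1) p.2 := cont_pt fun e => by
    cases e
    · simp only [Sum.elim_inl, co_up]; exact (cont_co _).comp continuous_fst
    · exact (cont_co _).comp continuous_snd
  have hi : Function.Injective fun j =>
      ix L n (Sum.map id (Prod.map Fin.elim0 id) ((ix 0 n).symm j)) :=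
    (ix L n).injective.comp ((Function.injective_id.sumMap (Function.Injective.prodMap
      (fun a => a.elim0) Function.injective_id)).comp (ix 0 n).symm.injective)
  have h0 : MeasurePreserving (WithLp.toLp 2) (gv (Fin (Nv 0 n))) (gam _) :=
    ⟨WithLp.measurable_toLp _ _, map_pi_eq_stdGaussian⟩
  have h := (h0.comp ((mp_sel hi).comp (mp_ofLp _))).prod (MeasurePreserving.id (gam (Nv L n)))
  refine ⟨hc.measurable, ?_⟩
  rw [← h.map_eq, Measure.map_map hc.measurable h.measurable]
  refine Eq.trans (congrArg (Measure.map · _) (funext fun p => ?_)) (S.mp_mix L n).map_eq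
  refine ext fun e => ?_
  cases e <;> simp [mix, co_pt, co_up]
  simp [co]

/-- average over the layers -/
def T (f : E (Nv L n) → ℝ) (z : E (Nv 0 n)) : ℝ := ∫ z', f (mix (up L z) z') ∂gam _

lemma jen (S : SkStmt) {f : E (Nv L n) → ℝ} (hf : M2 f) : M2 (T f) ∧ sq (T f) ≤ sq f := by
  have h := mp_up (L := L) (n := n) S
  have m := (hf.1.comp h.measurable).stronglyMeasurable.integral_prod_right' (ν := gam (Nv L n))
  have i := (hf.2.comp_measurePreserving h).integrable_sq
  have b : ∀ᵐ z ∂gam (Nv 0 n), ‖T f z ^ 2‖ ≤ ∫ z', f (mix (up L z) z') ^ 2 ∂gam _ := by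
    filter_upwards [i.prod_right_ae] with z hz
    rw [norm_of_nonneg (sq_nonneg _)]
    exact sub_nonneg.1 ((variance_nonneg _ _).trans_eq (variance_eq_sub
      ((memLp_two_iff_integrable_sq ((hf.1.comp h.measurable).comp
        measurable_prodMk_left).aestronglyMeasurable).2 hz)))
  have j : Integrable (fun z => T f z ^ 2) (gam _) :=
    i.integral_prod_left.mono' (m.measurable.pow_const 2).aestronglyMeasurable b
  refine ⟨⟨m.measurable, (memLp_two_iff_integrable_sq m.aestronglyMeasurable).2 j⟩, ?_⟩
  refine (integral_mono_ae j i.integral_prod_left (b.mono fun z hz => (le_abs_self _).trans hz)).trans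
    (le_of_eq ((integral_prod _ i).symm.trans ?_))
  exact (integral_map h.measurable.aemeasurable (hf.1.pow_const 2).aestronglyMeasurable).symm.trans
    (by rw [h.map_eq, sq])

lemma jen_sub (S : SkStmt) {f g : E (Nv L n) → ℝ} (hf : M2 f) (hg : M2 g) :
    sq (T f - T g) ≤ sq (f - g) := by
  have h := mp_up (L := L) (n := n) S
  refine le_trans (le_of_eq (integral_congr_ae ?_)) (jen S ⟨hf.1.sub hg.1, hf.2.sub hg.2⟩).2
  filter_upwards [((hf.2.comp_measurePreserving h).integrable one_le_two).prod_right_ae,
    ((hg.2.comp_measurePreserving h).integrable one_le_two).prod_right_ae] with z h1 h2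
  exact congrArg (· ^ 2) (integral_sub h1 h2).symm

lemma rp_up (R : RtStmt) {C : Type} {q : Fam L C} (h : RP C q) :
    RP (L := 0) C fun n x z => q n x (up L z) := by
  induction h with
  | edge a b => simp only [co_up]; exact .edge a b
  | site l a => simp only [co_up']; exact .const (R.const 0)
  | eq a b => exact .eq a b
  | const h => exact .const h
  | add _ _ h h' => exact .add h h'
  | mul _ _ h h' => exact .mul h h'
  | sum _ h => exact .sum h
  | congr _ e h => exact .congr h (e.mono fun n e => by rw [e])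

lemma mp_sg {ι : Type} [Fintype ι] (s : Cube n) : MeasurePreserving
    (fun (w : ι × Fin n → ℝ) p => sv s p.2 * w p) (gv _) (gv _) :=
  measurePreserving_pi _ _ fun p => ⟨measurable_const_mul _, by
    rw [gaussianReal_map_const_mul, mul_zero]
    congr 1
    ext
    simp [pow_two, Sk59.sv_mul]⟩

lemma cont_rows {ι : Type} (c d : ι → ℝ) (σ : V n) : Continuous (Z.rows c d σ) := by
  unfold Z.rows; fun_prop

lemma EN_eq (P : Z.LipStmt) {ι : Type} [Fintype ι] (c d : ι → ℝ) {X : Z.Nt ι} (h : Z.Nw False X)
    (J : Mx n) (σ : V n) (i : Fin n) {Ω : Type} [MeasurableSpace Ω] {μ : Measure Ω}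
    {φ : Ω → ι × Fin n → ℝ} (hφ : MeasurePreserving φ μ (gv _)) :
    EN c d X n J σ i = ∫ w, X n J (Z.rows c d σ (φ w)) i ∂μ := by
  rw [EN, Z.RL, ← hφ.map_eq, Measure.map_map (cont_rows c d σ).measurable hφ.measurable]
  exact integral_map ((cont_rows c d σ).measurable.comp hφ.measurable).aemeasurable
    ((continuous_apply i).comp ((P.cont ι _ X h n).comp (.prodMk_right J))).aestronglyMeasurable

end Lay44

open Lay44 in
theorem layGlue : LayGlue := fun P R S Q _ A => {
  cl := fun L C _ _ G hG => by
    have d : ∀ {n} (a b : (C → Fin n) → ℝ), (∀ x, a x ≤ b x) → av a ≤ av b := fun a b h =>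
      div_le_div_of_nonneg_right (Finset.sum_le_sum fun x _ => h x) (by positivity)
    refine ⟨hG.1.mono fun n h => ⟨fun x => (jen S (h.1 x)).1, fun p x z => ?_⟩, fun ε hε => ?_⟩
    · have m := S.mp L n p
      have e : ∀ z', G n (p ∘ x) (mix (up L (act p z)) (act p z')) = G n x (mix (up L z) z') :=
        fun z' => by
          rw [← h.2 p x, up_act]
          exact congrArg _ (ext fun e => by cases e <;> simp [mix, act, co_pt])
      simp only [EW, ← e]
      rw [← integral_map (f := fun z' => G n (p ∘ x) (mix (up L (act p z)) z'))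
        m.measurable.aemeasurable (((h.1 _).1.comp (mp_up S).measurable).comp
          measurable_prodMk_left).aestronglyMeasurable, m.map_eq]
    · obtain ⟨q, h1, ⟨B, h2⟩, h3⟩ := hG.2 ε hε
      have h4 := Q.eqv L C q h1
      refine ⟨_, rp_up R (A.ew L C q h1), ⟨B, ?_⟩, ?_⟩
      · filter_upwards [h2, h4] with n h2 h4
        exact (d _ _ fun x => (jen S (h4.1 x)).2).trans h2
      · filter_upwards [h3, h4, hG.1] with n h3 h4 h5
        exact (d _ _ fun x => jen_sub S (h5.1 x) (h4.1 x)).trans h3
  en := fun β ι _ c d X h n x z => by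
    have hi : Function.Injective fun p : ι × Fin n =>
        ix _ n (.inr (Prod.map (Fintype.equivFin ι) id p)) :=
      (ix _ n).injective.comp (Sum.inr_injective.comp
        ((Fintype.equivFin ι).injective.prodMap Function.injective_id))
    rw [EN_eq P c d h _ _ _ ((mp_sel hi).comp (mp_ofLp _))]
    refine integral_congr_ae (ae_of_all _ fun z' => ?_)
    have e1 : Jm β (mix (up (Fintype.card ι) z) z') = Jm β z := by
      ext i j; simp only [Jm, mix, co_pt, Sum.elim_inl, co_up]
    have e2 : rw c d (mix (up (Fintype.card ι) z) z') = Z.rows c d 1 fun p =>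
        co z' (.inr (Prod.map (Fintype.equivFin ι) id p)) := by
      funext l i; simp [rw, Z.rows, mix, co_pt]
    simp only [nf, e1, e2]
    rfl
  gauge := fun ι _ c d X h n J s x => funext fun i => by
    rw [EN_eq P c d h _ _ _ (mp_sg s), Pi.mul_apply, EN_eq P c d h _ _ _ (.id _),
      ← integral_const_mul]
    refine integral_congr_ae (ae_of_all _ fun w => ?_)
    refine Eq.trans ?_ (congrFun (P.gauge ι _ X h n J (Z.rows c d (sv x) w) (sv s) fun i =>
      mul_self_eq_one_iff.1 (Sk59.sv_mul s i)) i)
    refine congrArg (fun a => X n (cj s J) a i) (funext fun l => funext fun j => ?_)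
    simp only [Z.rows, Pl.sv_cmul, Pi.mul_apply]
    ring }

end Crest.Agent.T157.Lm

end
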