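import Crest.Agent.T157.LmL2_7

/-!
# Row 157, block B/S5 (helper7): `Lm.LinGlue`, the linear calculus of the limit classes
-/

set_option autoImplicit false
set_option linter.all false

noncomputable section

namespace Crest.Agent.T157.Lm

open MeasureTheory Real Filter Topology Finset
open Crest.Agent.R238.Gap (E pd)
open Crest.Agent.R253.Meh74 (gam C1)
open Crest.Agent.T157.Hm (Pl en)

namespace Lin7

/-! ### partial averages -/

section ew
variable {m : ℕ} {φ : E m × E m → E m} (hφ : MeasurePreserving φ ((gam m).prod (gam m)) (gam m))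
  {f g : E m → ℝ}
include hφ

theorem ew_m2 (hf : M2 f) : (M2 fun z => ∫ z', f (φ (z, z')) ∂gam m) ∧
    (sq fun z => ∫ z', f (φ (z, z')) ∂gam m) ≤ sq f := by
  have hm : Measurable fun p => f (φ p) := hf.1.comp hφ.measurable
  have h2 : Integrable (fun p => f (φ p) ^ 2) ((gam m).prod (gam m)) :=
    (hφ.integrable_comp hf.int_sq.aestronglyMeasurable).2 hf.int_sq
  have me : Measurable fun z => ∫ z', f (φ (z, z')) ∂gam m :=
    (hm.stronglyMeasurable.integral_prod_right' (ν := gam m)).measurable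
  have le : ∀ᵐ z ∂gam m, (∫ z', f (φ (z, z')) ∂gam m) ^ 2 ≤ ∫ z', f (φ (z, z')) ^ 2 ∂gam m :=
    h2.prod_right_ae.mono fun z hz => by
      have h3 : MemLp (fun z' => f (φ (z, z'))) 2 (gam m) := (memLp_two_iff_integrable_sq
        (hm.comp measurable_prodMk_left).aestronglyMeasurable).2 hz
      have h4 := ProbabilityTheory.variance_nonneg (fun z' => f (φ (z, z'))) (gam m)
      rw [ProbabilityTheory.variance_eq_sub h3] at h4
      simpa using h4
  have i1 : Integrable (fun z => (∫ z', f (φ (z, z')) ∂gam m) ^ 2) (gam m) :=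
    h2.integral_prod_left.mono' (me.pow_const 2).aestronglyMeasurable
      (le.mono fun z hz => by rwa [Real.norm_of_nonneg (sq_nonneg _)])
  refine ⟨M2.of_sq me i1, (integral_mono_ae i1 h2.integral_prod_left le).trans (le_of_eq ?_)⟩
  rw [← integral_prod _ h2, sq, ← hφ.map_eq, integral_map hφ.measurable.aemeasurable
    (hf.1.pow_const 2).aestronglyMeasurable, hφ.map_eq]

theorem ew_sub (hf : M2 f) (hg : M2 g) : (sq fun z => (∫ z', f (φ (z, z')) ∂gam m) -
    ∫ z', g (φ (z, z')) ∂gam m) ≤ sq fun z => f z - g z := by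
  refine le_trans (le_of_eq (integral_congr_ae ?_)) (ew_m2 hφ (hf.sub hg)).2
  have h1 := ((hφ.integrable_comp hf.int.aestronglyMeasurable).2 hf.int).prod_right_ae
  have h2 := ((hφ.integrable_comp hg.int.aestronglyMeasurable).2 hg.int).prod_right_ae
  filter_upwards [h1, h2] with z a b
  exact congrArg (· ^ 2) (integral_sub a b).symm

end ew

theorem act_mix {L n : ℕ} (hS : SkStmt) (p : Equiv.Perm (Fin n)) (z z' : E (Nv L n)) :
    mix (act p z) (act p z') = act p (mix z z') := by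
  unfold mix act
  refine congrArg pt (funext fun e => ?_)
  cases e <;> simp only [hS.co_pt, Sum.elim_inl, Sum.elim_inr, Sum.map_inl, Sum.map_inr]

variable {L : ℕ} {C : Type} [Fintype C] [DecidableEq C] {F G : Fam L C}

theorem adm_ew (hS : SkStmt) (hF : Adm F) : Adm (EW F) := hF.mono fun n h => by
  refine ⟨fun x => (ew_m2 (hS.mp_mix L n) (h.1 x)).1, fun p x z => ?_⟩
  have hm : Measurable fun z' => F n (p ∘ x) (mix (act p z) z') :=
    (h.1 _).1.comp ((hS.mp_mix L n).measurable.comp measurable_prodMk_left)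
  show ∫ z', F n (p ∘ x) (mix (act p z) z') ∂gam _ = ∫ z', F n x (mix z z') ∂gam _
  rw [← (hS.mp L n p).map_eq, integral_map (hS.mp L n p).measurable.aemeasurable
    hm.aestronglyMeasurable, (hS.mp L n p).map_eq]
  simp only [act_mix hS, h.2 p x]

theorem bd_of_cl (hP : RpStmt) (hF : Cl F) : Bd F := by
  obtain ⟨q, h1, h2, h3⟩ := hF.2 1 one_pos
  exact h2.of_sub hF.1 (hP.eqv _ _ _ h1) h3

theorem cv_rp (hR : RtStmt) (hP : RpStmt) (hQ : RatStmt) (h1 : RP C F) (h2 : Bd F) (h3 : RP C G)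
    (h4 : Bd G) : Cv (ipx F G) := by
  obtain ⟨B, h2⟩ := h2
  obtain ⟨B', h4⟩ := h4
  refine hR.cv _ ((B + B') / 2) (hQ.int _ _ _ (h1.mul h3)) ?_
  filter_upwards [(hP.eqv _ _ _ h1).a2, (hP.eqv _ _ _ h3).a2, h2, h4] with n a b c d
  rw [n2_eq] at c d
  exact (abs_ia_le a b).trans (by linarith)

theorem closed (hP : RpStmt) (aF : Adm F)
    (h : ∀ ε > (0 : ℝ), ∃ G, Cl G ∧ ∀ᶠ n in atTop, n2 (F - G) n ≤ ε) : Cl F := by
  refine ⟨aF, fun ε hε => ?_⟩
  obtain ⟨G, hG, h1⟩ := h (ε / 4) (by positivity)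
  obtain ⟨q, a, b, h2⟩ := hG.2 (ε / 4) (by positivity)
  refine ⟨q, a, b, ?_⟩
  filter_upwards [h1, h2, ev_tri aF hG.1 (hP.eqv _ _ _ a)] with n h1 h2 h3
  linarith

theorem ws (hR : RtStmt) (hP : RpStmt) (hO : OnStmt) (hW : Wk F) (hT : Ti F) : Cl F := by
  refine ⟨hW.1, fun ε hε => ?_⟩
  obtain ⟨D, hD⟩ := hT (ε / 2) (by positivity)
  obtain ⟨M, e, e1, e2, e3⟩ := hO L C D
  have ae : ∀ j, Adm (e j) := fun j => hP.eqv _ _ _ (e1 j)
  have be : ∀ j, Bd (e j) := fun j => Bd.of_tendsto (e2 j)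
  choose b hb using fun j => hW.2.2 (e j) (e1 j) (be j)
  refine ⟨fun n x z => ∑ j, b j * e j n x z,
    hP.fsum _ _ _ _ (fun j n x z => b j * e j n x z) fun j _ => hP.smul _ _ _ _ (hR.const _) (e1 j),
    Bd.sum _ (e := fun j n x z => b j * e j n x z) fun j _ =>
      ⟨(be j).smul (a := fun _ => b j) (Eventually.of_forall fun _ => le_rfl),
        (ae j).smul fun _ => b j⟩, ?_⟩
  have lim : Tendsto (fun n => ∑ j, (b j ^ 2 * n2 (e j) n - 2 * b j * ipx F (e j) n +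
      ipx F (e j) n ^ 2 / n2 (e j) n)) atTop (𝓝 0) := by
    have := tendsto_finsetSum (univ : Finset (Fin M)) fun j _ =>
      (((e2 j).const_mul (b j ^ 2)).sub ((hb j).const_mul (2 * b j))).add
        (((hb j).pow 2).div (e2 j) one_ne_zero)
    rwa [sum_eq_zero fun j _ => by ring] at this
  filter_upwards [hD, e3, hW.1.a2, eventually_all.2 fun j => (ae j).a2,
    eventually_all.2 fun j => (e2 j).eventually (lt_mem_nhds one_pos),
    lim.eventually (eventually_le_nhds (half_pos hε))] with n ⟨w, w1, w2, w3⟩ ⟨o, sp⟩ a1 a2 a3 a4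
  obtain ⟨a, ha⟩ := sp w w1 w2
  obtain rfl : w = fun x z => ∑ j, a j * e j n x z := funext fun x => funext (ha x)
  have p1 := ia_proj a1 a2 o a
  have p2 := ia_proj a1 a2 o b
  rw [av_sq] at w3
  have w4 := p1.symm.trans_le w3
  rw [n2_eq]
  refine p2.trans_le ?_
  have key : ∑ j, (b j ^ 2 * ia (e j n) (e j n) - 2 * b j * ia (F n) (e j n)) ≤
      ∑ j, (a j ^ 2 * ia (e j n) (e j n) - 2 * a j * ia (F n) (e j n)) +
      ∑ j, (b j ^ 2 * n2 (e j) n - 2 * b j * ipx F (e j) n + ipx F (e j) n ^ 2 / n2 (e j) n) := by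
    rw [← sum_add_distrib]
    refine sum_le_sum fun j _ => ?_
    have d0 := a3 j
    rw [ipx_eq, n2_eq] at *
    have : 2 * a j * ia (F n) (e j n) - a j ^ 2 * ia (e j n) (e j n) ≤
        ia (F n) (e j n) ^ 2 / ia (e j n) (e j n) := by
      rw [le_div_iff₀ d0]; nlinarith [sq_nonneg (a j * ia (e j n) (e j n) - ia (F n) (e j n))]
    linarith
  linarith

theorem smul (hR : RtStmt) (hP : RpStmt) {a : ℕ → ℝ} (ha : Cv a) (hF : Cl F) :
    Cl fun n x z => a n * F n x z := by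
  refine ⟨hF.1.smul a, fun ε hε => ?_⟩
  obtain ⟨M, hM⟩ := ha.bdd
  obtain ⟨l, hl⟩ := ha
  obtain ⟨q, q1, ⟨B, q2⟩, q3⟩ := hF.2 (ε / (4 * (M ^ 2 + 1))) (by positivity)
  refine ⟨fun n x z => l * q n x z, hP.smul _ _ _ _ (hR.const l) q1,
    Bd.smul ⟨B, q2⟩ (a := fun _ => l) (Eventually.of_forall fun _ => le_rfl), ?_⟩
  have lim : Tendsto (fun n => (a n - l) ^ 2 * B) atTop (𝓝 0) := by
    simpa using ((hl.sub_const l).pow 2).mul_const B
  filter_upwards [hM, q2, q3, hF.1.a2, (hP.eqv _ _ _ q1).a2,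
    lim.eventually (eventually_le_nhds (show 0 < ε / 4 by positivity))] with n h1 h2 h3 h4 h5 h6
  rw [n2_eq] at h2 h3 ⊢
  have e : ((fun n x z => a n * F n x z) - fun n x z => l * q n x z : Fam L C) n =
      (fun x z => a n * (F n - q n) x z) + fun x z => (a n - l) * q n x z := by
    funext x z; simp only [Pi.sub_apply, Pi.add_apply]; ring
  rw [e]
  refine (ia_add_le ((h4.sub h5).cmul _) (h5.cmul _)).trans ?_
  rw [ia_cmul_self, ia_cmul_self]
  have h7 : a n ^ 2 ≤ M ^ 2 + 1 := by nlinarith [sq_le_sq' (abs_le.1 h1).1 (abs_le.1 h1).2]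
  have h8 := mul_le_mul h7 (show ia (F n - q n) (F n - q n) ≤ _ from h3) (ia_self_nonneg _)
    (by positivity)
  have h9 : (M ^ 2 + 1) * (ε / (4 * (M ^ 2 + 1))) = ε / 4 := by field_simp
  have h10 := mul_le_mul_of_nonneg_left h2 (sq_nonneg (a n - l))
  linarith

theorem ti_of (hS : SkStmt) {B : ℝ} (h : ∀ᶠ n in atTop, Eqv (F n) ∧ (∀ x, Hm.C0 (F n x)) ∧
    ∀ D : ℕ, D * (av fun x => sq fun z => F n x z - Hm.pr D (F n x) z) ≤ B) : Ti F := fun ε hε => by
  refine ⟨⌈B / ε⌉₊ + 1, h.mono fun n ⟨h1, h2, h3⟩ => ⟨_, fun x => Hm.pr_mem _ (F n x),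
    hS.eqv_pr _ _ _ _ _ h1 h2, ?_⟩⟩
  have h4 := h3 (⌈B / ε⌉₊ + 1)
  have h5 : B / ε ≤ (⌈B / ε⌉₊ + 1 : ℕ) := by push_cast; linarith [Nat.le_ceil (B / ε)]
  rw [div_le_iff₀ hε] at h5
  exact le_of_mul_le_mul_left (h4.trans h5) (by positivity)

end Lin7

open Lin7

theorem linGlue : LinGlue := fun hH hR hS hP hQ hO =>
  { rp := fun L C _ _ q h1 h2 => ⟨hP.eqv _ _ _ h1, fun ε hε => ⟨q, h1, h2,
      Eventually.of_forall fun n => by simpa [n2, sq, av] using hε.le⟩⟩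
    wk := fun L C _ _ F hF => ⟨⟨hF.1, bd_of_cl hP hF, fun q h1 h2 =>
        cv_ipx hF.1 (hP.eqv _ _ _ h1) h2 fun ε hε => (hF.2 ε hε).imp fun q' h =>
          ⟨hP.eqv _ _ _ h.1, cv_rp hR hP hQ h.1 h.2.1 h1 h2, h.2.2⟩⟩, fun ε hε => by
      obtain ⟨q, h1, -, h3⟩ := hF.2 ε hε
      obtain ⟨D, hD⟩ := hP.deg _ _ _ h1
      refine ⟨D, ?_⟩
      filter_upwards [hD, h3, hP.eqv _ _ _ h1] with n a b c using ⟨q n, a, c.2, b⟩⟩
    ws := fun L C _ _ F => ws hR hP hO
    cv := fun L C _ _ F G hF hG => by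
      rw [ipx_comm]
      exact cv_ipx hG.1 hF.1 hF.2.1 fun ε hε => (hG.2 ε hε).imp fun q h =>
        ⟨hP.eqv _ _ _ h.1, ipx_comm F q ▸ hF.2.2 q h.1 h.2.1, h.2.2⟩
    add := fun L C _ _ F G hF hG => ⟨hF.1.add hG.1, fun ε hε => by
      obtain ⟨q, a1, a2, a3⟩ := hF.2 (ε / 4) (by positivity)
      obtain ⟨q', b1, b2, b3⟩ := hG.2 (ε / 4) (by positivity)
      have c1 := hP.eqv _ _ _ a1
      have c2 := hP.eqv _ _ _ b1
      refine ⟨q + q', a1.add b1, a2.add b2 c1 c2, ?_⟩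
      filter_upwards [a3, b3, (hF.1.sub c1).a2, (hG.1.sub c2).a2] with n h1 h2 h3 h4
      rw [add_sub_add_comm]
      rw [n2_eq] at h1 h2 ⊢
      exact (ia_add_le h3 h4).trans (by linarith)⟩
    smul := fun L C _ _ a F => smul hR hP
    closed := fun L C _ _ F => closed hP
    wclosed := fun L C _ _ F aF h => ⟨aF, (h 1 one_pos).elim fun G hG => hG.1.2.1.of_sub aF hG.1.1 hG.2,
      fun q h1 h2 => cv_ipx aF (hP.eqv _ _ _ h1) h2 fun ε hε => (h ε hε).imp fun G hG =>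
        ⟨hG.1.1, hG.1.2.2 q h1 h2, hG.2⟩⟩
    tclosed := fun L C _ _ F aF h ε hε => by
      obtain ⟨G, aG, tG, h1⟩ := h (ε / 4) (by positivity)
      obtain ⟨D, hD⟩ := tG (ε / 4) (by positivity)
      refine ⟨D, ?_⟩
      filter_upwards [h1, hD, aF.a2, aG.a2] with n h1 ⟨w, w1, w2, w3⟩ h2 h3
      refine ⟨w, w1, w2, ?_⟩
      rw [n2_eq] at h1
      rw [av_sq] at w3 ⊢
      have h1' : ia (F n - G n) (F n - G n) ≤ ε / 4 := h1
      have w3' : ia (G n - w) (G n - w) ≤ ε / 4 := w3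
      exact (ia_tri h2 h3 fun x => M2.of_pl (w1 x)).trans (by linarith)
    ti_c1 := fun L C _ _ F B h => ti_of hS (B := B) (h.mono fun n ⟨h1, h2, h3⟩ =>
      ⟨h1, fun x => Hm.c0_of (h2 x), fun D => by
        rw [← av_mul]
        exact (av_mono fun x => by rw [sq_eq_ip]; exact Hm.res_le_en D (h2 x)).trans h3⟩)
    ti_lip := fun L C _ _ F B h => ti_of hS (B := B ^ 2) (by
      filter_upwards [h, eventually_gt_atTop 0] with n ⟨h1, h2⟩ hn
      refine ⟨h1, fun x => c0_of_lip (h2 x), fun D => ?_⟩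
      rw [← av_mul]
      exact av_le hn fun x => hH.lip _ _ B (h2 x) D)
    ew := fun L C _ _ F hF => ⟨adm_ew hS hF.1, fun ε hε => by
      obtain ⟨q, a1, ⟨B, a2⟩, a3⟩ := hF.2 ε hε
      have c1 := hP.eqv _ _ _ a1
      refine ⟨EW q, hQ.ew _ _ _ a1, ⟨B, ?_⟩, ?_⟩
      · filter_upwards [a2, c1.a2] with n h1 h2
        exact (av_mono fun x => (ew_m2 (hS.mp_mix L n) (h2 x)).2).trans h1
      · filter_upwards [a3, c1.a2, hF.1.a2] with n h1 h2 h3
        exact (av_mono fun x => ew_sub (hS.mp_mix L n) (h3 x) (h2 x)).trans h1⟩ }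

end Crest.Agent.T157.Lm

end
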