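import Crest.Agent.T157.LmDefB_76
import Crest.Agent.T157.ZLip_85
import Crest.Agent.T157.LmSkJ_59

/-!
# Row 157, block B/S5 (helper59): `Lm.NetGlue` (networks are in the limit class)
-/

set_option autoImplicit false

noncomputable section

namespace Crest.Agent.T157.Lm

open MeasureTheory ProbabilityTheory Real Filter Topology Matrix
open Crest.ProbabilityR.SpinGlassDynamics (Pair disorderLaw)
open Crest.Agent.R238.Gap (E)
open Crest.Agent.R253.Meh74 (gam)
open Crest.Agent.T157.E (Jmat)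
open Crest.Agent.T157.Tap (V Mx avg)
open Crest.Agent.T157.Eig
open Crest.Agent.T157.Z (Nt Nw tJ nA)

namespace Net59

variable {m n L : ℕ}

/-! ### Lipschitz functions -/

theorem cont_of_lip {F : E m → ℝ} {B : ℝ} (h : ∀ z z', |F z - F z'| ≤ B * ‖z - z'‖) :
    Continuous F :=
  (LipschitzWith.of_dist_le' (K := B) fun z z' => by
    rw [Real.dist_eq, dist_eq_norm]; exact h z z').continuous

theorem m2_of_lip {F : E m → ℝ} {B : ℝ} (h : ∀ z z', |F z - F z'| ≤ B * ‖z - z'‖) : M2 F := by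
  refine ⟨(cont_of_lip h).measurable, ?_⟩
  have h1 : MemLp (fun z : E m => B * ‖z‖ + |F 0|) 2 (gam m) :=
    ((IsGaussian.memLp_id (gam m) 2 (by simp)).norm.const_mul B).add (memLp_const _)
  refine h1.mono' (cont_of_lip h).aestronglyMeasurable (.of_forall fun z => ?_)
  have h2 := h z 0
  rw [sub_zero] at h2
  rw [Real.norm_eq_abs]
  linarith [abs_sub_abs_le_abs_sub (F z) (F 0)]

/-- Gaussian Poincaré inequality -/
theorem var_le (hy : HypStmt) {F : E m → ℝ} {B : ℝ} (h : ∀ z z', |F z - F z'| ≤ B * ‖z - z'‖) :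
    sq (fun z => F z - ∫ z', F z' ∂gam m) ≤ B ^ 2 := by
  have h1 := hy.lip m F B h 1
  obtain ⟨c, r, hr, e⟩ := Hm.mem_succ.1 (Hm.pr_mem (m := m) (0 + 1) F)
  have e' : ∀ z, Hm.pr 1 F z = c := fun z => by
    rw [show Hm.pr 1 F = _ from e]; simp [Hm.mem_zero.1 (hr _)]
  simp only [e', Nat.cast_one, one_mul] at h1
  have h2 := (cont_of_lip h).aestronglyMeasurable (μ := gam m)
  have h3 := variance_le_expectation_sq (μ := gam m) (X := fun z => F z - c)
    (h2.sub aestronglyMeasurable_const)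
  rw [variance_sub_const h2, variance_eq_integral h2.aemeasurable] at h3
  exact h3.trans h1

theorem av1 (a : (Unit → Fin n) → ℝ) : av a = (∑ i, a fun _ => i) / n := by
  rw [av, Fintype.card_unit, pow_one]
  congr 1
  exact Fintype.sum_equiv (Equiv.funUnique Unit (Fin n)) _ _ fun _ => rfl

theorem sq_co (e : Ix L n) : sq (fun z : E (Nv L n) => co z e) = 1 := by
  have h := Nrm.integral_sq_coord (ix L n e)
  rw [T157.E.gv, ← (Sk59.mp_ofLp _).map_eq, integral_map (Sk59.mp_ofLp _).aemeasurable (by fun_prop)] at h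
  simp only [sq, pow_two]
  exact h

theorem bd_one {F : F1 L} {B : ℝ} (h : ∀ n x, sq (F n x) = B) : Bd F :=
  ⟨B, (eventually_gt_atTop 0).mono fun n hn => by
    have : (n : ℝ) ≠ 0 := Nat.cast_ne_zero.2 hn.ne'
    simp [n2, av1, h, mul_div_cancel_left₀ _ this]⟩

/-- the planted couplings have norm at most `3` -/
theorem tail3 {β : ℝ} (h0 : 0 ≤ β) (h1 : β < 1) (L : ℕ) :
    Tendsto (fun n : ℕ => (gam (Nv L n)).real {z | 3 < opn (Jm β z)}) atTop (𝓝 0) := by
  have ht : 0 < 1 - β := sub_pos.2 h1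
  have h := (tendsto_exp_neg_atTop_nhds_zero.comp (((tendsto_natCast_atTop_atTop (R := ℝ)).atTop_mul_const
    (pow_pos ht 2)).atTop_div_const (show (0 : ℝ) < 4 by norm_num))).const_mul 2
  rw [mul_zero] at h
  refine squeeze_zero (fun n => measureReal_nonneg) (fun n => ?_) h
  have h2 := Nrm.Jmat_opn_tail (n := n) ht.le
  have hm : MeasurableSet {g | 2 + (1 - β) ≤ opn (Jmat n g)} :=
    measurableSet_le measurable_const Nrm.elip_opn_Jmat.continuous.measurable
  rw [← (Sk59.mp_gof (L := L)).measureReal_preimage hm.nullMeasurableSet] at h2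
  refine (measureReal_mono (fun z hz => ?_) (measure_ne_top _ _)).trans h2
  by_contra h
  simp only [Set.mem_ofPred_eq, Set.mem_preimage, not_le] at hz h
  have h3 := opn_add_le (β • Jmat n (Sk59.gof z)) (Jm β (0 : E (Nv L n)))
  rw [← Sk59.Jm_eq, opn_smul, abs_of_nonneg h0] at h3
  nlinarith [Sk59.opn_Jm_zero (L := L) (n := n) β]

/-! ### networks in the planted gauge -/

variable {ι : Type} [Fintype ι] (β : ℝ) (c d : ι → ℝ)

/-- the vector of a word -/
def W (X : Nt ι) (z : E (Nv (Fintype.card ι) n)) : V n := X n (Jm β z) (rw c d z)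

theorem nrm_rw (z z' : E (Nv (Fintype.card ι) n)) (l : ι) :
    nrm ((rw c d z - rw c d z') l) ≤ |d l| * ‖z - z'‖ := by
  have e : (rw c d z - rw c d z') l =
      d l • fun i => (z - z') (ix _ n (.inr (Fintype.equivFin ι l, i))) := by
    funext i; simp only [rw, co, Pi.sub_apply, Pi.smul_apply, PiLp.sub_apply, smul_eq_mul]; ring
  rw [e, nrm_smul]
  refine mul_le_mul_of_nonneg_left ((nrm_le_iff (norm_nonneg _)).2 ?_) (abs_nonneg _)
  rw [EuclideanSpace.real_norm_sq_eq]
  have hi : Function.Injective fun i : Fin n => ix _ n (.inr (Fintype.equivFin ι l, i)) :=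
    fun i j h => (Prod.mk.inj (Sum.inr.inj ((ix _ n).injective h))).2
  refine le_of_eq_of_le ?_ ((Finset.sum_map Finset.univ ⟨_, hi⟩ fun j => (z - z') j ^ 2).symm.trans_le
    (Finset.sum_le_sum_of_subset_of_nonneg (Finset.subset_univ _) fun _ _ _ => sq_nonneg _))
  simp only [dotProduct, pow_two, Function.Embedding.coeFn_mk]

theorem lipW {X : Nt ι} (hX : Nw False X) : ∃ B ≥ (0 : ℝ), ∀ n (z z' : E (Nv (Fintype.card ι) n)),
    nrm (W β c d X z - W β c d X z') ≤ B * ‖z - z'‖ := by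
  obtain ⟨K, K0, hK⟩ := Z.L85.lip hX
  refine ⟨K * (∑ l, |d l| + 2 * |β|), by positivity, fun n z z' => (hK _ _ _ _ _).trans ?_⟩
  rw [mul_assoc, add_mul, Finset.sum_mul]
  refine mul_le_mul_of_nonneg_left (add_le_add (Finset.sum_le_sum fun l _ => nrm_rw c d z z' l)
    ((mul_le_mul_of_nonneg_left (Sk59.Jm_lip β z z') (sqrt_nonneg _)).trans ?_)) K0
  rw [← mul_assoc, mul_div_left_comm]
  exact mul_le_mul_of_nonneg_right (mul_le_of_le_one_right (by positivity) (div_self_le_one _))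
    (norm_nonneg _)

theorem lip_nf {X : Nt ι} (hX : Nw False X) : ∃ B, ∀ n x z z',
    |nf β c d X n x z - nf β c d X n x z'| ≤ B * ‖z - z'‖ :=
  let ⟨B, _, h⟩ := lipW β c d hX
  ⟨B, fun n x z z' => (abs_apply_le_nrm (W β c d X z - W β c d X z') (x ())).trans (h n z z')⟩

theorem adm {X : Nt ι} (hX : Nw False X) : Adm (nf β c d X) := by
  obtain ⟨B, h⟩ := lip_nf β c d hX
  refine .of_forall fun n => ⟨fun x => m2_of_lip (h n x), fun p x z => ?_⟩
  have h1 := congrFun (Z.L85.perm hX n (Jm β (act p z)) (rw c d (act p z)) p) (x ())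
  have e1 : (Jm β (act p z)).submatrix p p = Jm β z := by
    ext i j; rw [submatrix_apply, Sk59.Jm_act]
  have e2 : (fun l => rw c d (act p z) l ∘ p) = rw c d z := by
    funext l i; simp [rw, act, Sk59.co_pt]
  rw [e1, e2] at h1
  exact h1.symm

theorem sube (hl : LinStmt) (hn : NlStmt) {X : Nt ι} (hX : Nw False X) (h : Cl (nf β c d X)) :
    SubE (nf β c d X) :=
  let ⟨B, hB⟩ := lip_nf β c d hX
  hn.sub_of_lip _ _ B h.1 (hl.wk _ _ _ h).1.2.1 (.of_forall hB)

theorem cl_inp (hr : RtStmt) (hl : LinStmt) (j : ι) : Cl (nf β c d fun _ _ a => a j) := by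
  have h1 : Cl (L := Fintype.card ι) (C := Unit) fun _ _ _ => c j :=
    hl.rp _ _ _ (.const (hr.const _)) (bd_one (B := c j ^ 2) fun _ _ => by simp [sq])
  have h2 := hl.rp _ _ _ (RP.site (Fintype.equivFin ι j) ()) (bd_one fun _ _ => sq_co _)
  exact hl.add _ _ _ _ h1 (hl.smul _ _ (fun _ => d j) _ ⟨_, tendsto_const_nhds⟩ h2)

theorem cl_mul (h0 : 0 ≤ β) (h1 : β < 1) (hl : LinStmt) (hn : NlStmt) {X : Nt ι} (hX : Nw False X)
    (hB : Z.Bd X) (h : Cl (nf β c d X)) : Cl (nf β c d fun n J a => tJ J *ᵥ X n J a) := by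
  obtain ⟨K0, k0, hK⟩ := hn.Jv β
  have hG := hK (max K0 3) (le_max_left _ _) _ _ h
  set K := max K0 3 with hK'
  have K3 : 3 ≤ K := le_max_right _ _
  have hF := adm β c d (hX.mul X hB)
  obtain ⟨M, hM⟩ := hB
  refine hl.closed _ _ _ hF fun ε hε => ⟨_, hG, ?_⟩
  have ht := (tail3 h0 h1 (Fintype.card ι)).const_mul (((3 + K) * |M|) ^ 2)
  rw [mul_zero] at ht
  filter_upwards [hF, hG.1, ht.eventually_le_const hε, eventually_gt_atTop 0] with n a1 a2 a3 n0
  refine le_trans ?_ a3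
  have n0' : (0 : ℝ) < n := Nat.cast_pos.2 n0
  have hm : MeasurableSet {z : E (Nv (Fintype.card ι) n) | 3 < opn (Jm β z)} :=
    measurableSet_lt measurable_const (continuous_opn.comp (Sk59.cont_Jm β)).measurable
  rw [n2, av1, div_le_iff₀ n0']
  refine (integral_finsetSum _ fun i _ => ((a1.1 fun _ => i).2.sub
    (a2.1 fun _ => i).2).integrable_sq).symm.trans_le ?_
  rw [mul_right_comm, mul_comm, ← smul_eq_mul, ← integral_indicator_const _ hm]
  refine integral_mono_of_nonneg (.of_forall fun z => Finset.sum_nonneg fun _ _ => sq_nonneg _)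
    ((integrable_const _).indicator hm) (.of_forall fun z => ?_)
  have e : ∑ i, ((nf β c d fun n J a => tJ J *ᵥ X n J a) n (fun _ => i) -
      Jv β K (nf β c d X) n fun _ => i) z ^ 2 = nrm ((tJ (Jm β z) - Jt β K z) *ᵥ W β c d X z) ^ 2 := by
    rw [nrm_sq, sub_mulVec]; simp only [dotProduct, pow_two]; rfl
  refine e.trans_le ?_
  rw [Set.indicator_apply]
  split_ifs with hz
  · rw [← sq_sqrt n0'.le, ← mul_pow, mul_assoc]
    exact pow_le_pow_left₀ (nrm_nonneg _) ((nrm_mulVec_le _ _).trans (mul_le_mul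
      ((opn_sub_le _ _).trans (add_le_add (Z.L85.opn_tJ _) (Sk59.opn_rt (by linarith) _)))
      (Z.L85.nrm_le_of_bd (hM _ _ _)) (nrm_nonneg _) (by linarith))) 2
  · rw [Z.L85.tJ_eq (not_lt.1 hz), Jt, max_eq_left
      ((div_le_one (by linarith)).2 ((not_lt.1 hz).trans K3))]
    simp

theorem cl_sc (hy : HypStmt) (hn : NlStmt) {X Y U : Nt ι} (hX : Nw False X) (hY : Nw False Y)
    (bX : Z.Bd X) (bY : Z.Bd Y) (bZ : Z.Bd U) (cX : Cl (nf β c d X)) (cY : Cl (nf β c d Y))
    (cZ : Cl (nf β c d U)) : Cl (nf β c d fun n J a => avg (X n J a * Y n J a) • U n J a) := by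
  obtain ⟨A, hA⟩ := bX
  obtain ⟨B, hB⟩ := bY
  obtain ⟨M, hM⟩ := bZ
  obtain ⟨K1, k1, h1⟩ := lipW β c d hX
  obtain ⟨K2, k2, h2⟩ := lipW β c d hY
  have e : ∀ n z, (av fun y => nf β c d X n y z * nf β c d Y n y z) =
      W β c d X z ⬝ᵥ W β c d Y z / n := fun n z => av1 _
  have hL : ∀ n, 0 < n → ∀ z z', |(av fun y => nf β c d X n y z * nf β c d Y n y z) -
      av fun y => nf β c d X n y z' * nf β c d Y n y z'| ≤ (K1 * |B| + K2 * |A|) / √n * ‖z - z'‖ := by
    intro n n0 z z'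
    have n0' : (0 : ℝ) < n := Nat.cast_pos.2 n0
    have g1 := (abs_dot_le _ _).trans (mul_le_mul (h1 n z z') (Z.L85.nrm_le_of_bd
      (v := W β c d Y z) (hB _ _ _)) (nrm_nonneg _) (by positivity))
    have g2 := (abs_dot_le _ _).trans (mul_le_mul (h2 n z z') (Z.L85.nrm_le_of_bd
      (v := W β c d X z') (hA _ _ _)) (nrm_nonneg _) (by positivity))
    rw [e, e, ← sub_div, abs_div, abs_of_pos n0', div_le_iff₀ n0', show W β c d X z ⬝ᵥ W β c d Y z -
      W β c d X z' ⬝ᵥ W β c d Y z' = (W β c d X z - W β c d X z') ⬝ᵥ W β c d Y z +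
        (W β c d Y z - W β c d Y z') ⬝ᵥ W β c d X z' by
      rw [sub_dotProduct, sub_dotProduct, dotProduct_comm (W β c d Y z),
        dotProduct_comm (W β c d Y z')]; ring]
    refine ((abs_add_le _ _).trans (add_le_add g1 g2)).trans_eq ?_
    have := sqrt_pos.2 n0'
    rw [← mul_self_sqrt n0'.le, sqrt_mul_self this.le]
    field_simp
  have h := hn.avg _ _ _ _ M cX cY cZ (.of_forall fun n x z => hM _ _ _ _)
    ((eventually_gt_atTop 0).mono fun n n0 => m2_of_lip (hL n n0)) ?_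
  · simp only [e] at h
    exact h
  have ht := tendsto_const_div_atTop_nhds_zero_nat ((K1 * |B| + K2 * |A|) ^ 2)
  refine squeeze_zero' (.of_forall fun n => integral_nonneg fun _ => sq_nonneg _) ?_ ht
  filter_upwards [cX.1, cY.1, eventually_gt_atTop 0] with n a1 a2 n0
  have h3 := var_le hy (hL n n0)
  rw [div_pow, sq_sqrt (Nat.cast_nonneg n)] at h3
  refine le_of_eq_of_le ?_ h3
  congr 3
  rw [ipx]
  simp only [av]
  rw [integral_div, integral_finsetSum (f := fun y z => nf β c d X n y z * nf β c d Y n y z) _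
    fun y _ => (a1.1 y).2.integrable_mul (a2.1 y).2]

end Net59

open Net59

theorem netGlue : NetGlue := by
  intro _ _ hy hr _ _ hl hn _ β h0 h1 ι _ c d X hX
  induction hX with
  | inp j => exact cl_inp β c d hr hl j
  | map φ X hφ _ hX ih =>
    obtain ⟨ho, K, hK⟩ := hφ
    refine hn.comp _ _ (fun l => nf β c d (X l)) K φ ih (fun l => sube β c d hl hn (hX l) (ih l))
      hK.continuous fun u => ?_
    have h2 := hK.dist_le_mul u 0
    have h3 : φ 0 = 0 := by linarith [ho 0, congrArg φ (neg_zero (G := Fin _ → ℝ))]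
    rw [h3, dist_zero_right, dist_zero_right, Real.norm_eq_abs] at h2
    exact h2.trans (mul_le_mul_of_nonneg_left (by linarith) K.2)
  | mul X hX hB ih => exact cl_mul β c d h0 h1 hl hn hX hB ih
  | sc X Y Z hX hY _ bX bY bZ iX iY iZ => exact cl_sc β c d hy hn hX hY bX bY bZ iX iY iZ

end Crest.Agent.T157.Lm

end
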