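import Crest.Agent.T157.LmDef_76

/-!
# Row 157, block B/S5 (helper63): the fields `Jv` and `avg` of `Lm.NlStmt`
-/

set_option autoImplicit false

noncomputable section

namespace Crest.Agent.T157.Lm.NlB

open MeasureTheory Real Filter Topology Finset Matrix
open Crest.Agent.R238.Gap (E)
open Crest.Agent.R253.Meh74 (gam)
open Crest.Agent.T157.Hm (Pl)

variable {m n L : ℕ}

lemma m2_int {F : E m → ℝ} (h : M2 F) : Integrable (fun z => F z ^ 2) (gam m) :=
  (memLp_two_iff_integrable_sq h.1.aestronglyMeasurable).1 h.2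

lemma m2_sub {F G : E m → ℝ} (h : M2 F) (h' : M2 G) : M2 (F - G) := ⟨h.1.sub h'.1, h.2.sub h'.2⟩

lemma sq_nn (F : E m → ℝ) : 0 ≤ sq F := integral_nonneg fun _ => sq_nonneg _

lemma sq_le {F g : E m → ℝ} (hg : Integrable g (gam m)) (h : ∀ z, F z ^ 2 ≤ g z) :
    sq F ≤ ∫ z, g z ∂gam m :=
  integral_mono_of_nonneg (.of_forall fun _ => sq_nonneg _) hg (.of_forall h)

lemma sq_tri {F A B : E m → ℝ} (hA : M2 A) (hB : M2 B) (h : ∀ z, F z = A z + B z) :
    sq F ≤ 2 * sq A + 2 * sq B := by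
  refine (sq_le (((m2_int hA).const_mul 2).add ((m2_int hB).const_mul 2)) fun z => ?_).trans_eq ?_
  · rw [h, Pi.add_apply]; nlinarith [sq_nonneg (A z - B z)]
  · simp only [Pi.add_apply]
    rw [integral_add ((m2_int hA).const_mul 2) ((m2_int hB).const_mul 2), integral_const_mul,
      integral_const_mul]; rfl

lemma av_eq (a : (Unit → Fin n) → ℝ) : av a = (∑ i, a fun _ => i) / n := by
  rw [av, Fintype.card_unit, pow_one, ← (Equiv.funUnique Unit (Fin n)).symm.sum_comp]; rfl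

lemma av_mono {a b : (Unit → Fin n) → ℝ} (h : ∀ x, a x ≤ b x) : av a ≤ av b :=
  div_le_div_of_nonneg_right (sum_le_sum fun x _ => h x) (by positivity)

lemma av_const (hn : 0 < n) (c : ℝ) : av (fun _ : Unit → Fin n => c) = c := by
  have : (n : ℝ) ≠ 0 := by positivity
  rw [av_eq]; simp; field_simp

lemma av_tri {a b : (Unit → Fin n) → ℝ} : av (fun x => 2 * a x + 2 * b x) = 2 * av a + 2 * av b := by
  simp only [av, sum_add_distrib, ← mul_sum]; ring

lemma n2_tri {F A B : F1 L} (hA : ∀ x, M2 (A n x)) (hB : ∀ x, M2 (B n x))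
    (h : ∀ x z, F n x z = A n x z + B n x z) : n2 F n ≤ 2 * n2 A n + 2 * n2 B n :=
  (av_mono fun x => sq_tri (hA x) (hB x) (h x)).trans_eq av_tri

/-- root independence -/
lemma sq_root (hS : SkStmt) {F : F1 L} (hn : 0 < n) (h : ∀ x, M2 (F n x)) (he : Eqv (F n))
    (x : Unit → Fin n) : sq (F n x) = n2 F n := by
  rw [← av_const hn (sq (F n x)), n2]
  congr 1; funext y
  have mp := hS.mp L n (Equiv.swap (x ()) (y ()))
  have e : Equiv.swap (x ()) (y ()) ∘ x = y := funext fun _ => Equiv.swap_apply_left _ _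
  have := integral_map (μ := gam _) mp.measurable.aemeasurable
    ((h y).1.pow_const 2).aestronglyMeasurable
  rw [mp.map_eq] at this
  rw [sq, sq, this]
  exact integral_congr_ae (.of_forall fun z => by
    beta_reduce; rw [← he (Equiv.swap (x ()) (y ())) x z, e])

lemma sum_perm (p : Equiv.Perm (Fin n)) (a : Fin n → ℝ) : ∑ j, a j = ∑ j, a (p j) :=
  (Equiv.sum_comp p a).symm

theorem avg (_hH : HypStmt) (_hR : RtStmt) (_hS : SkStmt) (_hP : RpStmt) (hL : LinStmt) :
    ∀ L (a b v : F1 L) (M : ℝ), Cl a → Cl b → Cl v → (∀ᶠ n in atTop, ∀ x z, |v n x z| ≤ M) →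
    (∀ᶠ n in atTop, M2 fun z => av fun y => a n y z * b n y z) →
    Tendsto (fun n => sq fun z => (av fun y => a n y z * b n y z) - ipx a b n) atTop (𝓝 0) →
    Cl fun n x z => (av fun y => a n y z * b n y z) * v n x z := by
  intro L a b v M ha hb hv hM hs ht
  refine hL.closed L Unit _ ?_ fun ε hε => ⟨_, hL.smul L Unit (ipx a b) v
    (hL.cv L Unit a b (hL.wk L Unit a ha).1 hb) hv, ?_⟩
  · filter_upwards [ha.1, hb.1, hv.1, hM, hs] with n a1 b1 v1 hM hs
    refine ⟨fun x => ⟨hs.1.mul (v1.1 x).1, hs.2.of_le_mul (c := M)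
      (hs.1.mul (v1.1 x).1).aestronglyMeasurable (.of_forall fun z => ?_)⟩, fun p x z => ?_⟩
    · rw [norm_mul, mul_comm]
      exact mul_le_mul_of_nonneg_right (hM x z) (norm_nonneg _)
    · beta_reduce
      rw [v1.2 p x z, av_eq, av_eq, sum_perm p]
      congr 2
      exact sum_congr rfl fun i _ => by
        rw [← a1.2 p (fun _ => i) z, ← b1.2 p (fun _ => i) z]; rfl
  · have := (ht.const_mul (M ^ 2)).eventually (ge_mem_nhds (by rw [mul_zero]; exact hε))
    filter_upwards [hM, hs, this, eventually_gt_atTop 0] with n hM hs h hn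
    refine (av_mono fun x => ?_).trans ((av_const hn _).trans_le h)
    refine (sq_le ((m2_int (m2_sub hs ⟨measurable_const, memLp_const (ipx a b n)⟩)).const_mul
      (M ^ 2)) fun z => ?_).trans_eq (integral_const_mul _ _)
    simp only [Pi.sub_apply]
    rw [← sub_mul, mul_pow, mul_comm]
    exact mul_le_mul_of_nonneg_right (sq_le_sq' (abs_le.1 (hM x z)).1 (abs_le.1 (hM x z)).2)
      (sq_nonneg _)

section jv
variable (hS : SkStmt) {β K : ℝ} (hK : 0 < K)
include hS hK

lemma jv_pt (v : F1 L) (z : E (Nv L n)) :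
    ∑ i, Jv β K v n (fun _ => i) z ^ 2 ≤ K ^ 2 * ∑ j, v n (fun _ => j) z ^ 2 := by
  have := (Eig.mulVec_dot_le (Jt β K z) fun j => v n (fun _ => j) z).trans
    (mul_le_mul_of_nonneg_right (pow_le_pow_left₀ (Eig.opn_nonneg _) (hS.Jt_lip L β K n z z hK).1 2)
      (sum_nonneg fun _ _ => mul_self_nonneg _))
  simpa only [dotProduct, ← pow_two, mulVec, Jv] using this

lemma jv_m2 {v : F1 L} (h : ∀ x, M2 (v n x)) (x : Unit → Fin n) : M2 (Jv β K v n x) := by
  have m1 : Measurable (Jv β K v n x) :=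
    Finset.measurable_sum _ fun j _ => (hS.Jt_meas L β K n _ j).measurable.mul (h _).1
  refine ⟨m1, (memLp_two_iff_integrable_sq m1.aestronglyMeasurable).2 (Integrable.mono'
    ((integrable_finsetSum univ fun j _ => m2_int (h fun _ => j)).const_mul (K ^ 2))
    (m1.pow_const 2).aestronglyMeasurable (.of_forall fun z => ?_))⟩
  rw [Real.norm_of_nonneg (sq_nonneg _)]
  exact (single_le_sum (f := fun i => Jv β K v n (fun _ => i) z ^ 2) (fun _ _ => sq_nonneg _)
    (mem_univ (x ()))).trans (jv_pt hS hK v z)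

lemma jv_n2 {v : F1 L} (h : ∀ x, M2 (v n x)) : n2 (Jv β K v) n ≤ K ^ 2 * n2 v n := by
  rw [n2, n2, av_eq, av_eq, ← mul_div_assoc]
  refine div_le_div_of_nonneg_right ?_ n.cast_nonneg
  simp only [sq]
  rw [← integral_finsetSum _ fun j _ => m2_int (h fun _ => j),
    ← integral_finsetSum _ fun j _ => m2_int (jv_m2 hS hK h fun _ => j), ← integral_const_mul]
  exact integral_mono (integrable_finsetSum _ fun j _ => m2_int (jv_m2 hS hK h fun _ => j))
    ((integrable_finsetSum univ fun j _ => m2_int (h fun _ => j)).const_mul _) (jv_pt hS hK v)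

end jv

theorem jv (hH : HypStmt) (_hR : RtStmt) (hS : SkStmt) (hP : RpStmt) (_hL : LinStmt) :
    ∀ β : ℝ, ∃ K0 > (0 : ℝ), ∀ K ≥ K0, ∀ L (v : F1 L), Cl v → Cl (Jv β K v) := by
  intro β
  obtain ⟨K0, K00, hT⟩ := hS.tail β
  refine ⟨K0, K00, fun K hK L v hv => ⟨?_, fun ε hε => ?_⟩⟩
  · filter_upwards [hv.1] with n v1
    refine ⟨jv_m2 hS (K00.trans_le hK) v1.1, fun p x z => ?_⟩
    rw [Jv, Jv, sum_perm p]
    exact sum_congr rfl fun j _ => by
      rw [← v1.2 p (fun _ => j) z, ← hS.Jt_act L β K n p z]; rfl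
  have K1 := K00.trans_le hK
  obtain ⟨p, hp, ⟨B, hB⟩, hε'⟩ := hv.2 (ε / 4 / K ^ 2) (by positivity)
  let f : F1 L := fun n x z => ∑ j, Jm β z (x ()) j * p n (fun _ => j) z
  have hf : RP Unit f := RP.sum (RP.mul (hP.Jm L β (Option Unit) (some ()) none)
    (hP.reindex L Unit (Option Unit) (fun _ => none) p hp))
  obtain ⟨D, hD⟩ := hP.deg L Unit f hf
  obtain ⟨C, C0, hC⟩ := hH.four D
  have pa := hP.eqv L Unit p hp
  have key : ∀ᶠ n in atTop, (∀ x, M2 (f n x)) ∧ (∀ x, M2 (Jv β K p n x)) ∧ ∀ t > (0 : ℝ),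
      n2 (Jv β K p - f) n ≤ t * (gam (Nv L n)).real {z | K0 < Eig.opn (Jm β z)} +
        C * n2 f n ^ 2 / (4 * t) := by
    filter_upwards [hD, hP.eqv L Unit f hf, pa, eventually_gt_atTop 0] with n h1 h2 h3 hn
    refine ⟨h2.1, jv_m2 hS K1 h3.1, fun t ht => (av_mono fun x => ?_).trans (av_const hn _).le⟩
    set A := toMeasurable (gam (Nv L n)) {z | K0 < Eig.opn (Jm β z)}
    have mA : MeasurableSet A := measurableSet_toMeasurable _ _
    have i1 : Integrable (A.indicator fun _ => t) (gam _) := (integrable_const t).indicator mA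
    have i2 : Integrable (fun z => f n x z ^ 4 / (4 * t)) (gam _) := by
      have c := Hm.c0 (h1 x)
      exact (((c.mul c).mul (c.mul c)).int.div_const (4 * t)).congr (.of_forall fun z => by ring)
    refine (sq_le (i1.add i2) fun z => ?_).trans ?_
    · have e : Jv β K p n x z = (max 1 (Eig.opn (Jm β z) / K))⁻¹ * f n x z := by
        simp only [Jv, Jt, f, Matrix.smul_apply, smul_eq_mul, mul_sum, mul_assoc]
      simp only [Pi.sub_apply, Pi.add_apply, e]
      by_cases hz : z ∈ A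
      · have c1 : (max 1 (Eig.opn (Jm β z) / K))⁻¹ ≤ 1 := inv_le_one_of_one_le₀ (le_max_left _ _)
        have c0 : 0 ≤ (max 1 (Eig.opn (Jm β z) / K))⁻¹ := by positivity
        have : f n x z ^ 2 ≤ t + f n x z ^ 4 / (4 * t) := by
          rw [← sub_le_iff_le_add', le_div_iff₀ (by positivity)]
          nlinarith [sq_nonneg (f n x z ^ 2 - 2 * t)]
        rw [Set.indicator_of_mem hz, ← sub_one_mul, mul_pow]
        exact (mul_le_of_le_one_left (sq_nonneg _) (by nlinarith)).trans this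
      · have : Eig.opn (Jm β z) ≤ K0 := not_lt.1 fun h => hz (subset_toMeasurable _ _ h)
        rw [max_eq_left ((div_le_one K1).2 (this.trans hK)), Set.indicator_of_notMem hz]
        simp only [inv_one, one_mul, sub_self, zero_add, zero_pow two_ne_zero]
        positivity
    · simp only [Pi.add_apply]
      rw [integral_add i1 i2, integral_indicator_const _ mA, integral_div, smul_eq_mul, mul_comm,
        ← sq_root hS hn h2.1 h2.2 x, measureReal_def, measure_toMeasurable, ← measureReal_def]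
      gcongr
      exact hC _ _ (h1 x)
  have hT := hT L 0
  simp only [pow_zero, one_mul] at hT
  have bd : ∀ᶠ n in atTop, n2 f n ≤ 8 * (K ^ 2 * B) + 8 := by
    filter_upwards [key, pa, hB, hT.eventually (ge_mem_nhds one_pos),
      hT.eventually (ge_mem_nhds (show 0 < 1 / (8 * C) by positivity))] with n ⟨k1, k2, k3⟩ p1 b1 q1 q2
    have N0 : 0 ≤ n2 f n := div_nonneg (sum_nonneg fun _ _ => sq_nn _) (by positivity)
    have a1 := n2_tri (F := f) (A := Jv β K p) (B := f - Jv β K p) k2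
      (fun x => m2_sub (k1 x) (k2 x)) fun x z => by simp
    have a2 : n2 (f - Jv β K p) n = n2 (Jv β K p - f) n := by
      simp only [n2, sq, Pi.sub_apply, sub_sq_comm (f n _ _)]
    have a3 := (jv_n2 (β := β) hS K1 p1.1).trans (mul_le_mul_of_nonneg_left b1 (sq_nonneg _))
    have a4 := k3 (C * n2 f n + 1) (by positivity)
    have a5 : C * n2 f n ^ 2 / (4 * (C * n2 f n + 1)) ≤ n2 f n / 4 := by
      rw [div_le_div_iff₀ (by positivity) (by norm_num)]; nlinarith
    rw [le_div_iff₀ (by positivity)] at q2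
    nlinarith [mul_le_mul_of_nonneg_left q2 N0]
  refine ⟨f, hf, ⟨_, bd⟩, ?_⟩
  obtain ⟨t, t0, ht⟩ : ∃ t > (0 : ℝ), C * (8 * (K ^ 2 * B) + 8) ^ 2 / (4 * t) ≤ ε / 8 :=
    ⟨C * (8 * (K ^ 2 * B) + 8) ^ 2 * 2 / ε + 1, by positivity, by
      rw [div_le_div_iff₀ (by positivity) (by norm_num)]
      have : ε * (C * (8 * (K ^ 2 * B) + 8) ^ 2 * 2 / ε) = C * (8 * (K ^ 2 * B) + 8) ^ 2 * 2 := by
        field_simp
      nlinarith⟩
  filter_upwards [key, pa, hv.1, bd, hε', hT.eventually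
    (ge_mem_nhds (show 0 < ε / 8 / t by positivity))] with n ⟨k1, k2, k3⟩ p1 v1 b1 e1 q1
  have N0 : 0 ≤ n2 f n := div_nonneg (sum_nonneg fun _ _ => sq_nn _) (by positivity)
  have m1 : ∀ x, M2 ((v - p) n x) := fun x => m2_sub (v1.1 x) (p1.1 x)
  have a1 := n2_tri (F := Jv β K v - f) (A := Jv β K (v - p)) (B := Jv β K p - f)
    (jv_m2 hS K1 m1) (fun x => m2_sub (k2 x) (k1 x)) fun x z => by
      simp only [Pi.sub_apply, Jv, mul_sub, sum_sub_distrib]; ring
  have a2 := jv_n2 (β := β) hS K1 m1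
  have a3 := k3 t t0
  have a4 : C * n2 f n ^ 2 / (4 * t) ≤ C * (8 * (K ^ 2 * B) + 8) ^ 2 / (4 * t) := by gcongr
  rw [le_div_iff₀ (by positivity)] at e1 q1
  nlinarith

end Crest.Agent.T157.Lm.NlB

end
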