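import Crest.Agent.T157.LmDef_76
import Crest.Agent.T157.ConcG_16
import Mathlib.Topology.ContinuousMap.StoneWeierstrass

/-!
# Row 157, block B/S5 (helper38): exponential moments of Lipschitz families, composition
-/

set_option autoImplicit false

noncomputable section

namespace Crest.Agent.T157.Lm.NlC

open MeasureTheory ProbabilityTheory Real Filter Topology Finset
open Crest.Agent.R238.Gap (E)
open Crest.Agent.R253.Meh74 (gam)
open Crest.Agent.T157.Conc (gv ELip mgf_lip en_eq_norm)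

variable {L n : ℕ}

lemma av_le {a : (Unit → Fin n) → ℝ} {c : ℝ} (hc : 0 ≤ c) (h : ∀ x, a x ≤ c) : av a ≤ c := by
  refine div_le_of_le_mul₀ (by positivity) hc ((sum_le_card_nsmul _ _ c fun x _ => h x).trans_eq ?_)
  simp [mul_comm]

lemma root_sq (hS : SkStmt) {F : (Unit → Fin n) → E (Nv L n) → ℝ} (hm : ∀ x, Measurable (F x))
    (he : Eqv F) (x y : Unit → Fin n) : sq (F y) = sq (F x) := by
  have h := hS.mp L n (Equiv.swap (x ()) (y ()))
  have e : Equiv.swap (x ()) (y ()) ∘ x = y := funext fun _ => Equiv.swap_apply_left _ _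
  rw [sq, ← h.map_eq, integral_map h.measurable.aemeasurable
    ((hm y).pow_const 2).aestronglyMeasurable, sq]
  simp only [← he (Equiv.swap (x ()) (y ())) x, e]

lemma cosh_int {m : ℕ} {F : E m → ℝ} {B Q c : ℝ} (h : ∀ z z', |F z - F z'| ≤ B * ‖z - z'‖)
    (h2 : M2 F) (hQ : sq F ≤ Q ^ 2) (Q0 : 0 ≤ Q) (hc : Q ≤ c) (hB : |B| ≤ c) (c0 : 0 < c) :
    Integrable (fun z => cosh (F z / c)) (gam m) ∧ ∫ z, cosh (F z / c) ∂gam m ≤ exp 2 := by
  have mp : MeasurePreserving (WithLp.toLp 2 : (Fin m → ℝ) → E m) (gv (Fin m)) (gam m) :=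
    ⟨by fun_prop, map_pi_eq_stdGaussian⟩
  have hG : ELip B fun x : Fin m → ℝ => F (WithLp.toLp 2 x) := fun x y => by
    rw [en_eq_norm]; exact h _ _
  have tr : ∀ g : ℝ → ℝ, Measurable g → ∫ z, g (F z) ∂gam m = ∫ x, g (F (WithLp.toLp 2 x)) ∂gv _ :=
    fun g hg => by
      rw [← mp.map_eq]
      exact integral_map mp.measurable.aemeasurable (hg.comp h2.1).aestronglyMeasurable
  set μ := ∫ x, F (WithLp.toLp 2 x) ∂gv (Fin m) with hμ
  have m1 : |μ| ≤ c := by
    have := variance_nonneg F (gam m)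
    rw [variance_eq_sub h2.2, tr (fun u => u) measurable_id'] at this
    exact (abs_le_of_sq_le_sq (by simp only [sq, Pi.pow_apply] at this hQ; linarith) Q0).trans hc
  have k : ∀ s : ℝ, |s| ≤ c⁻¹ → Integrable (fun z => exp (s * F z)) (gam m) ∧
      ∫ z, exp (s * F z) ∂gam m ≤ exp 2 := fun s hs => by
    refine ⟨(mp.integrable_comp (by have := h2.1; fun_prop)).1 (hG.integrable_exp s), ?_⟩
    have e : ∀ u, exp (s * u) = exp (s * μ) * exp (s * (u - μ)) := fun u => by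
      rw [← exp_add]; congr 1; ring
    rw [tr (fun u => exp (s * u)) (by fun_prop)]
    rw [funext fun x => e (F (WithLp.toLp 2 x)), integral_const_mul]
    refine (mul_le_mul_of_nonneg_left (mgf_lip hG s) (exp_pos _).le).trans ?_
    have a : ∀ u, |u| ≤ c → |s * u| ≤ 1 := fun u hu => by
      rw [abs_mul]
      exact (mul_le_mul hs hu (abs_nonneg _) (by positivity)).trans_eq (inv_mul_cancel₀ c0.ne')
    have b := (sq_le_one_iff_abs_le_one _).2 (a B hB)
    rw [← exp_add]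
    exact exp_le_exp.2 (by nlinarith [(le_abs_self _).trans (a μ m1)])
  obtain ⟨i1, j1⟩ := k c⁻¹ (abs_of_pos (inv_pos.2 c0)).le
  obtain ⟨i2, j2⟩ := k (-c⁻¹) (by rw [abs_neg]; exact (abs_of_pos (inv_pos.2 c0)).le)
  have e : (fun z => cosh (F z / c)) = fun z => (exp (c⁻¹ * F z) + exp (-c⁻¹ * F z)) / 2 := by
    funext z; rw [cosh_eq, div_eq_inv_mul (F z), neg_mul]
  rw [e, integral_div, integral_add i1 i2]
  exact ⟨(i1.add i2).div_const 2, by linarith⟩

theorem subLip (hS : SkStmt) : ∀ L (X : F1 L) (B : ℝ), Adm X → Bd X →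
    (∀ᶠ n in atTop, ∀ x z z', |X n x z - X n x z'| ≤ B * ‖z - z'‖) → SubE X := by
  intro L X B hA ⟨B0, hB⟩ hl
  have e0 := exp_pos 2
  have s0 := sqrt_nonneg |B0|
  have a0 := abs_nonneg B
  refine ⟨√|B0| + |B| + exp 2, by positivity, ?_⟩
  filter_upwards [hA, hB, hl, eventually_gt_atTop 0] with n hA hB hl hn x
  have e : n2 X n = sq (X n x) := by
    have : (n : ℝ) ≠ 0 := by positivity
    simp only [n2, av, fun y => root_sq hS (fun x => (hA.1 x).1) hA.2 x y]
    simp [this]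
  obtain ⟨h1, h2⟩ := cosh_int (c := √|B0| + |B| + exp 2) (hl x) (hA.1 x) (Q := √|B0|) (by
    rw [sq_sqrt (abs_nonneg _), ← e]; exact hB.trans (le_abs_self _)) s0 (by linarith) (by linarith)
    (by positivity)
  exact ⟨h1, by linarith⟩

lemma abs_arcsin_sin (u : ℝ) : |arcsin (sin u)| ≤ |u| := by
  rcases le_total |u| (π / 2) with h | h
  · rw [arcsin_sin (abs_le.1 h).1 (abs_le.1 h).2]
  · exact (abs_le.2 ⟨neg_pi_div_two_le_arcsin _, arcsin_le_pi_div_two _⟩).trans h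

lemma four_le {B : ℝ} (hB : 0 < B) (u : ℝ) : u ^ 4 ≤ 48 * B ^ 4 * cosh (u / B) := by
  have h := pow_div_factorial_le_exp |u / B| (abs_nonneg _) 4
  have h2 : exp |u / B| ≤ 2 * cosh (u / B) := by
    rw [← cosh_abs, cosh_eq]; linarith [exp_pos (-|u / B|)]
  rw [Even.pow_abs (by decide), div_pow, div_div, div_le_iff₀ (by positivity)] at h
  have := mul_le_mul_of_nonneg_right h2 (show 0 ≤ B ^ 4 * ((4 : ℕ).factorial : ℝ) by positivity)
  norm_num [Nat.factorial] at h this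
  linarith

lemma err_le {d : ℕ} {M θ : ℝ} {ψ : (Fin d → ℝ) → ℝ} (hψ : ∀ u, |ψ u| ≤ M * (1 + ‖u‖))
    (θ0 : 0 < θ) (θ1 : θ ≤ 1) (u : Fin d → ℝ) :
    (ψ u - ψ fun l => arcsin (sin (θ * u l)) / θ) ^ 2 ≤ 16 * M ^ 2 * θ ^ 2 * ∑ l, u l ^ 4 := by
  have M0 : 0 ≤ M := by simpa using (abs_nonneg _).trans (hψ 0)
  rcases le_total (θ * ‖u‖) 1 with h | h
  · have : (fun l => arcsin (sin (θ * u l)) / θ) = u := funext fun l => by
      have : |θ * u l| ≤ π / 2 := by
        rw [abs_mul, abs_of_pos θ0]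
        linarith [mul_le_mul_of_nonneg_left (show |u l| ≤ _ from norm_le_pi_norm u l) θ0.le,
          pi_gt_three]
      rw [arcsin_sin (abs_le.1 this).1 (abs_le.1 this).2, mul_div_cancel_left₀ _ θ0.ne']
    rw [this, sub_self, zero_pow two_ne_zero]
    positivity
  have u0 := norm_nonneg u
  have h1 : ‖fun l => arcsin (sin (θ * u l)) / θ‖ ≤ ‖u‖ := (pi_norm_le_iff_of_nonneg u0).2 fun l => by
    rw [norm_eq_abs, abs_div, abs_of_pos θ0, div_le_iff₀' θ0]
    refine (abs_arcsin_sin _).trans ?_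
    rw [abs_mul, abs_of_pos θ0]
    exact mul_le_mul_of_nonneg_left (norm_le_pi_norm u l) θ0.le
  have h2 : ‖u‖ ^ 4 ≤ ∑ l, u l ^ 4 := by
    rcases isEmpty_or_nonempty (Fin d) with e | e
    · simp [Subsingleton.elim u 0]
    obtain ⟨l, hl⟩ := Finite.exists_max fun l => ‖u l‖
    refine (pow_le_pow_left₀ u0 ((pi_norm_le_iff_of_nonneg (norm_nonneg _)).2 hl) 4).trans ?_
    rw [norm_eq_abs, Even.pow_abs (by decide)]
    exact single_le_sum (f := fun l => u l ^ 4) (fun l _ => by positivity) (mem_univ l)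
  have h3 : 1 + ‖u‖ ≤ 2 * θ * ‖u‖ ^ 2 := by nlinarith [mul_le_mul_of_nonneg_right θ1 u0]
  have h4 : |ψ u - ψ fun l => arcsin (sin (θ * u l)) / θ| ≤ 4 * M * θ * ‖u‖ ^ 2 := by
    refine (abs_sub _ _).trans ?_
    linarith [hψ u, hψ fun l => arcsin (sin (θ * u l)) / θ, mul_le_mul_of_nonneg_left h1 M0,
      mul_le_mul_of_nonneg_left h3 M0]
  rw [← sq_abs]
  refine (pow_le_pow_left₀ (abs_nonneg _) h4 2).trans ?_
  linarith [mul_le_mul_of_nonneg_left h2 (show 0 ≤ 16 * M ^ 2 * θ ^ 2 by positivity)]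

lemma m2_comp {m d : ℕ} {X : Fin d → E m → ℝ} {M : ℝ} {ψ : (Fin d → ℝ) → ℝ} (h : ∀ l, M2 (X l))
    (hc : Continuous ψ) (hψ : ∀ u, |ψ u| ≤ M * (1 + ‖u‖)) : M2 fun z => ψ fun l => X l z := by
  have M0 : 0 ≤ M := by simpa using (abs_nonneg _).trans (hψ 0)
  have me : Measurable fun z => ψ fun l => X l z :=
    hc.measurable.comp (measurable_pi_lambda (fun z l => X l z) fun l => (h l).1)
  have k0 : MemLp (fun z => ∑ l, |X l z|) 2 (gam m) :=
    memLp_finsetSum (f := fun l z => |X l z|) univ fun l _ => (h l).2.abs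
  have k1 := (MemLp.add (memLp_const (1 : ℝ)) k0).const_mul M
  refine ⟨me, k1.mono' me.aestronglyMeasurable (ae_of_all _ fun z =>
    (hψ _).trans (mul_le_mul_of_nonneg_left (add_le_add le_rfl ?_) M0))⟩
  exact (pi_norm_le_iff_of_nonneg (sum_nonneg fun _ _ => abs_nonneg _)).2 fun l =>
    single_le_sum (f := fun l => |X l z|) (fun _ _ => abs_nonneg _) (mem_univ l)

theorem comp (hR : RtStmt) (hL : LinStmt)
    (hmul : ∀ L (a v : F1 L) (M : ℝ), Cl a → Cl v → (∀ᶠ n in atTop, ∀ x z, |a n x z| ≤ M) →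
      Cl (a * v))
    (hsin : ∀ L (X : F1 L), Cl X → SubE X →
      ∀ᶠ θ : ℝ in 𝓝 0, Cl fun n x z => Real.sin (θ * X n x z)) :
    ∀ L (d : ℕ) (X : Fin d → F1 L) (M : ℝ) (ψ : (Fin d → ℝ) → ℝ), (∀ l, Cl (X l)) →
    (∀ l, SubE (X l)) → Continuous ψ → (∀ u, |ψ u| ≤ M * (1 + ‖u‖)) →
    Cl fun n x z => ψ fun l => X l n x z := by
  intro L d X M ψ hX hE hc hψ
  refine hL.closed L Unit _ ((eventually_all.2 fun l => (hX l).1).mono fun n h =>
    ⟨fun x => m2_comp (fun l => (h l).1 x) hc hψ,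
      fun p x z => by simp only [fun l => (h l).2 p x z]⟩) fun ε ε0 => ?_
  choose B B0 hB using hE
  set Q := ∑ l, 48 * B l ^ 4 * B l with hQ
  have t1 : ∀ᶠ θ : ℝ in 𝓝 0, 32 * M ^ 2 * θ ^ 2 * Q < ε / 2 :=
    (by fun_prop : Continuous fun θ : ℝ => 32 * M ^ 2 * θ ^ 2 * Q).continuousAt.eventually
      (gt_mem_nhds (by simpa using ε0))
  obtain ⟨θ, ⟨hs, h1⟩, θ0, θ1⟩ := ((((eventually_all.2 fun l => hsin L _ (hX l)
    ⟨B l, B0 l, hB l⟩).and t1).filter_mono nhdsWithin_le_nhds).and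
      (Ioo_mem_nhdsGT (zero_lt_one' ℝ))).exists
  let U : ∀ n, (Unit → Fin n) → E (Nv L n) → Fin d → Set.Icc (-1 : ℝ) 1 :=
    fun n x z l => ⟨sin (θ * X l n x z), sin_mem_Icc _⟩
  let A : Subalgebra ℝ C(Fin d → Set.Icc (-1 : ℝ) 1, ℝ) :=
    { carrier := {g | Cl fun n x z => g (U n x z)}
      mul_mem' := fun {f g} hf hg => hmul L _ _ ‖f‖ hf hg
        (Eventually.of_forall fun n x z => f.norm_coe_le_norm _)
      add_mem' := fun hf hg => hL.add L Unit _ _ hf hg
      algebraMap_mem' := fun c => hL.rp L Unit _ (RP.const (hR.const c))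
        ⟨c ^ 2, Eventually.of_forall fun n => av_le (sq_nonneg c) fun x => by simp [sq]⟩ }
  have sep : A.SeparatesPoints := fun u v huv => by
    obtain ⟨l, hl⟩ := Function.ne_iff.1 huv
    exact ⟨_, ⟨⟨fun w => (w l : ℝ), by fun_prop⟩, hs l, rfl⟩, Subtype.coe_injective.ne hl⟩
  obtain ⟨g, hg⟩ := ContinuousMap.exists_mem_subalgebra_near_continuous_of_separatesPoints A sep
    (fun u => ψ fun l => arcsin (u l) / θ) (hc.comp (by fun_prop)) (√ε / 2) (by positivity)
  refine ⟨_, g.2, ?_⟩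
  filter_upwards [eventually_all.2 hB] with n hB
  refine av_le ε0.le fun x => ?_
  have i1 : Integrable (fun z => 32 * M ^ 2 * θ ^ 2 * ∑ l, 48 * B l ^ 4 * cosh (X l n x z / B l))
      (gam _) := (integrable_finsetSum _ fun l _ => (hB l x).1.const_mul _).const_mul _
  refine (integral_mono_of_nonneg (ae_of_all _ fun z => sq_nonneg _)
    (i1.add (integrable_const (ε / 2))) (ae_of_all _ fun z => ?_)).trans ?_
  · have a := err_le hψ θ0 θ1.le fun l => X l n x z
    have b := pow_le_pow_left₀ (norm_nonneg _) (hg (U n x z)).le 2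
    rw [norm_eq_abs, sq_abs, div_pow, sq_sqrt ε0.le] at b
    have c := mul_le_mul_of_nonneg_left (sum_le_sum fun l (_ : l ∈ univ) =>
      four_le (B0 l) (X l n x z)) (show 0 ≤ 16 * M ^ 2 * θ ^ 2 by positivity)
    simp only [Pi.sub_apply, Pi.add_apply, U] at b ⊢
    nlinarith [sq_nonneg ((ψ fun l => X l n x z) + g.1 (U n x z) -
      2 * ψ fun l => arcsin (sin (θ * X l n x z)) / θ)]
  · rw [integral_add' i1 (integrable_const _), integral_const_mul, integral_finsetSum _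
      fun l _ => (hB l x).1.const_mul _]
    have : ∑ l, ∫ z, 48 * B l ^ 4 * cosh (X l n x z / B l) ∂gam _ ≤ Q := sum_le_sum fun l _ => by
      rw [integral_const_mul]
      exact mul_le_mul_of_nonneg_left (hB l x).2 (by positivity)
    simp only [integral_const, probReal_univ, one_smul]
    linarith [mul_le_mul_of_nonneg_left this (show 0 ≤ 32 * M ^ 2 * θ ^ 2 by positivity)]

end Crest.Agent.T157.Lm.NlC

end
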