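import Crest.Agent.T157.LmNlA_84
import Crest.Agent.T157.LmNlB_63
import Crest.Agent.T157.LmNlC_38

/-!
# Row 157, block B/S5 (helper84): `NlGlue`
-/

set_option autoImplicit false

namespace Crest.Agent.T157.Lm

theorem nlGlue : NlGlue := fun hH hR hS hP hL =>
  ⟨Nl.mul hH hS hP hL, NlC.subLip hS, Nl.sin hH hS hP hL hR,
    NlC.comp hR hL (Nl.mul hH hS hP hL) (Nl.sin hH hS hP hL hR), NlB.jv hH hR hS hP hL,
    NlB.avg hH hR hS hP hL⟩

end Crest.Agent.T157.Lm
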