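import Crest.Agent.T157.LmDef_76

/-!
# Row 157, block B/S5 (helper59): `Lm.OnGlue` (Gram–Schmidt for rational polynomial families)
-/

set_option autoImplicit false

noncomputable section

namespace Crest.Agent.T157.Lm

open MeasureTheory Real Filter Topology Finset
open Crest.Agent.R238.Gap (E)
open Crest.Agent.R253.Meh74 (gam)
open Crest.Agent.T157.Hm (Pl C0)

namespace On59

variable {L : ℕ} {C : Type} [Fintype C] [DecidableEq C]

theorem ipx_eq (F G : Fam L C) (n : ℕ) : ipx F G n = av fun x => Hm.ip (F n x) (G n x) := rfl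

theorem n2_eq (F : Fam L C) : n2 F = ipx F F := by
  funext n; simp only [n2, ipx, sq, pow_two]

theorem ipx_comm (F G : Fam L C) (n : ℕ) : ipx F G n = ipx G F n := by
  simp only [ipx, mul_comm]

theorem ipx_nonneg (F : Fam L C) (n : ℕ) : 0 ≤ ipx F F n :=
  div_nonneg (sum_nonneg fun _ _ => Hm.ip_self_nonneg _) (by positivity)

theorem ipx_smul (a : ℕ → ℝ) (F G : Fam L C) (n : ℕ) :
    ipx (fun n x z => a n * F n x z) G n = a n * ipx F G n := by
  simp only [ipx_eq, Hm.ip_smul, av, ← mul_sum, mul_div_assoc]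

theorem ipx_res {ι : Type} [Fintype ι] (a : ι → ℕ → ℝ) (F G : Fam L C) (e : ι → Fam L C) (n : ℕ)
    (hF : ∀ x, C0 (F n x)) (hG : ∀ x, C0 (G n x)) (he : ∀ j x, C0 (e j n x)) :
    ipx (F - fun n x z => ∑ j, a j n * e j n x z) G n = ipx F G n - ∑ j, a j n * ipx (e j) G n := by
  have h : ∀ x, Hm.ip ((F - fun n x z => ∑ j, a j n * e j n x z) n x) (G n x) =
      Hm.ip (F n x) (G n x) - ∑ j, a j n * Hm.ip (e j n x) (G n x) := fun x => by
    have h1 : ∀ j ∈ (univ : Finset ι), C0 fun z => a j n * e j n x z :=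
      fun j _ => (Hm.c0_const _).mul (he j x)
    have h2 := Hm.ip_sub (hF x) (C0.sum univ h1) (hG x)
    rw [Hm.ip_sum univ h1 (hG x)] at h2
    simp only [Hm.ip_smul] at h2
    exact h2
  simp only [ipx_eq, h, av, sum_sub_distrib, sub_div, ← mul_div_assoc, ← sum_div, mul_sum]
  rw [sum_comm]

theorem eq_zero {F : Fam L C} {n : ℕ} (hn : 0 < n) (hF : ∀ x, C0 (F n x)) (h : ipx F F n = 0) :
    F n = 0 := by
  have h1 : (0 : ℝ) < (n : ℝ) ^ Fintype.card C := by positivity
  rw [ipx_eq, av, div_eq_zero_iff, or_iff_left h1.ne',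
    sum_eq_zero_iff_of_nonneg fun _ _ => Hm.ip_self_nonneg _] at h
  exact funext fun x => Hm.eq_zero_of_ip (hF x) (h x (mem_univ x))

omit [Fintype C] [DecidableEq C] in
theorem ev_c0 (hp : RpStmt) {F : Fam L C} (hF : RP C F) : ∀ᶠ n in atTop, ∀ x, C0 (F n x) :=
  let ⟨_, h⟩ := hp.deg L C F hF
  h.mono fun _ h x => Hm.c0 (h x)

theorem rt_ipx (ha : RatStmt) {F G : Fam L C} (hF : RP C F) (hG : RP C G) : Rt (ipx F G) :=
  ha.int L C _ (hF.mul hG)

/-- an asymptotically orthonormal family -/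
structure ON {M : ℕ} (e : Fin M → Fam L C) : Prop where
  rp : ∀ j, RP C (e j)
  one : ∀ j, Tendsto (n2 (e j)) atTop (𝓝 1)
  orth : ∀ᶠ n in atTop, ∀ i j, i ≠ j → ipx (e i) (e j) n = 0

/-- one Gram–Schmidt step -/
theorem step (hr : RtStmt) (hp : RpStmt) (ha : RatStmt) {M : ℕ} {e : Fin M → Fam L C} (he : ON e)
    {g : Fam L C} (hg : RP C g) : ∃ (M' : ℕ) (e' : Fin M' → Fam L C), ON e' ∧ ∀ᶠ n in atTop,
      g n ∈ Submodule.span ℝ (Set.range fun j => e' j n) ∧
      Submodule.span ℝ (Set.range fun j => e j n) ≤ Submodule.span ℝ (Set.range fun j => e' j n) := by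
  set r : Fin M → ℕ → ℝ := fun j n => ipx g (e j) n * (ipx (e j) (e j) n)⁻¹ with hr'
  set g' : Fam L C := g - fun n x z => ∑ j, r j n * e j n x z with hg'
  have p1 : RP C g' := hp.sub L C _ _ hg (hp.fsum L C _ univ (fun j n x z => r j n * e j n x z)
    fun j _ => hp.smul L C _ _ (hr.mul _ _ (rt_ipx ha hg (he.rp j))
      (hr.inv _ (rt_ipx ha (he.rp j) (he.rp j)))) (he.rp j))
  have hs : ∀ n, g n = g' n + ∑ j, r j n • e j n := fun n => by
    funext x z; simp [hg', Finset.sum_apply]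
  have hs' : ∀ n, ∑ j, r j n • e j n ∈ Submodule.span ℝ (Set.range fun j => e j n) := fun n =>
    Submodule.sum_mem _ fun j _ => Submodule.smul_mem _ _ (Submodule.subset_span ⟨j, rfl⟩)
  have p2 : ∀ᶠ n in atTop, ∀ i, ipx g' (e i) n = 0 := by
    filter_upwards [ev_c0 hp hg, eventually_all.2 fun j => ev_c0 hp (he.rp j), he.orth,
      eventually_all.2 fun j => (he.one j).eventually_ne one_ne_zero] with n h1 h2 h3 h4 i
    rw [hg', ipx_res r g (e i) e n h1 (h2 i) h2, sum_eq_single i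
      (fun j _ hj => by rw [h3 j i hj, mul_zero]) (fun h => absurd (mem_univ i) h), hr']
    have := h4 i
    rw [n2_eq] at this
    simp only [inv_mul_cancel_right₀ this, sub_self]
  rcases hr.dich _ (rt_ipx ha p1 p1) with h | ⟨s, κ, h0, h⟩
  · refine ⟨M, e, he, ?_⟩
    filter_upwards [h, ev_c0 hp p1, eventually_gt_atTop 0] with n h1 h2 h3
    rw [hs n, eq_zero h3 h2 h1, zero_add]
    exact ⟨hs' n, le_rfl⟩
  have hκ : 0 < κ := lt_of_le_of_ne (ge_of_tendsto' h fun n =>
    div_nonneg (ipx_nonneg _ _) (rpow_nonneg (Nat.cast_nonneg _) _)) h0.symm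
  set c : ℕ → ℝ := fun n => (√κ)⁻¹ * (n : ℝ) ^ (-s / 2) with hc
  set f : Fam L C := fun n x z => c n * g' n x z with hf
  refine ⟨M + 1, Fin.cons f e, ⟨fun j => ?_, fun j => ?_, ?_⟩, ?_⟩
  · refine Fin.cases ?_ (fun j => he.rp j) j
    exact hp.smul L C _ _ (hr.mul _ _ (hr.const _) (hr.rpow _)) p1
  · refine Fin.cases ?_ (fun j => he.one j) j
    have h1 := h.div_const κ
    rw [div_self h0] at h1
    refine h1.congr' ((eventually_gt_atTop 0).mono fun n hn => ?_)
    have hn' : (0 : ℝ) < n := Nat.cast_pos.2 hn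
    have h2 : c n * c n = ((n : ℝ) ^ s)⁻¹ * κ⁻¹ := by
      simp only [hc]
      rw [mul_mul_mul_comm, ← rpow_add hn', ← mul_inv, mul_self_sqrt hκ.le, add_halves,
        rpow_neg hn'.le, mul_comm]
    simp only [Fin.cons_zero, n2_eq, hf]
    rw [ipx_smul, ipx_comm g' fun n x z => c n * g' n x z, ipx_smul, ← mul_assoc, h2]
    ring
  · filter_upwards [he.orth, p2] with n h1 h2 i j
    refine Fin.cases ?_ (fun i => ?_) i <;> refine Fin.cases ?_ (fun j => ?_) j <;> intro hij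
    · exact absurd rfl hij
    · simp only [Fin.cons_zero, Fin.cons_succ, hf]; rw [ipx_smul, h2, mul_zero]
    · simp only [Fin.cons_zero, Fin.cons_succ, hf]; rw [ipx_comm, ipx_smul, h2, mul_zero]
    · exact h1 i j fun h => hij (h ▸ rfl)
  · filter_upwards [eventually_gt_atTop 0] with n hn
    have hn' : (0 : ℝ) < n := Nat.cast_pos.2 hn
    have h1 : Submodule.span ℝ (Set.range fun j => e j n) ≤
        Submodule.span ℝ (Set.range fun j => (Fin.cons f e : Fin (M + 1) → Fam L C) j n) :=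
      Submodule.span_mono (by rintro _ ⟨j, rfl⟩; exact ⟨j.succ, rfl⟩)
    have h2 : c n ≠ 0 := (mul_pos (inv_pos.2 (sqrt_pos.2 hκ)) (rpow_pos_of_pos hn' _)).ne'
    have h3 : g' n = (c n)⁻¹ • f n := by
      funext x z; simp only [hf, Pi.smul_apply, smul_eq_mul, inv_mul_cancel_left₀ h2]
    refine ⟨?_, h1⟩
    rw [hs n, h3]
    exact Submodule.add_mem _ (Submodule.smul_mem _ _ (Submodule.subset_span ⟨0, rfl⟩)) (h1 (hs' n))

/-- Gram–Schmidt -/
theorem gs (hr : RtStmt) (hp : RpStmt) (ha : RatStmt) {ι : Type} {g : ι → Fam L C}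
    (hg : ∀ i, RP C (g i)) (s : Finset ι) : ∃ (M : ℕ) (e : Fin M → Fam L C), ON e ∧
      ∀ᶠ n in atTop, ∀ i ∈ s, g i n ∈ Submodule.span ℝ (Set.range fun j => e j n) := by
  classical
  induction s using Finset.induction_on with
  | empty => exact ⟨0, Fin.elim0, ⟨fun j => j.elim0, fun j => j.elim0,
      .of_forall fun _ j => j.elim0⟩, .of_forall fun _ i hi => absurd hi (notMem_empty i)⟩
  | insert i s _ ih =>
    obtain ⟨M, e, he, h⟩ := ih
    obtain ⟨M', e', he', h'⟩ := step hr hp ha he (hg i)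
    refine ⟨M', e', he', (h.and h').mono fun n hn k hk => ?_⟩
    rcases mem_insert.1 hk with rfl | hk
    exacts [hn.2.1, hn.2.2 (hn.1 k hk)]

end On59

open On59

theorem onGlue : OnGlue := by
  intro hr hp ha hs L C _ _ D
  obtain ⟨ι, _, g, hg, h⟩ := hs L C D
  obtain ⟨M, e, he, h'⟩ := gs hr hp ha hg univ
  refine ⟨M, e, he.rp, he.one, ?_⟩
  filter_upwards [he.orth, h', eventually_gt_atTop 0] with n h1 h2 hn
  refine ⟨h1, fun w hw hw' => ?_⟩
  obtain ⟨a, ha⟩ := h n hn w hw hw'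
  have h3 : w = ∑ i, a i • g i n := by
    funext x z; simp [ha, Finset.sum_apply]
  obtain ⟨b, hb⟩ := Submodule.mem_span_range_iff_exists_fun ℝ |>.1
    (show w ∈ Submodule.span ℝ (Set.range fun j => e j n) from h3 ▸ Submodule.sum_mem _
      fun i _ => Submodule.smul_mem _ _ (h2 i (mem_univ i)))
  exact ⟨b, fun x z => by rw [← hb]; simp [Finset.sum_apply]⟩

end Crest.Agent.T157.Lm

end
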