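import Crest.Agent.T157.LmDef_76

/-!
# Row 157, block B/S5 (helper87): `Lm.RatGlue`

Normal forms of rational polynomial families, pattern functions, Gaussian moments of monomials.
-/

set_option autoImplicit false
set_option linter.unusedVariables false
set_option linter.unusedSectionVars false

noncomputable section

namespace Crest.Agent.T157.Lm

open MeasureTheory ProbabilityTheory Real Filter Topology Finset
open Crest.Agent.R238.Gap (E)
open Crest.Agent.R253.Meh74 (gam)

namespace Rat87

/-! ### moments -/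

def mom (k : ℕ) : ℝ := ∫ t, t ^ k ∂gaussianReal 0 1

lemma int_pow (k : ℕ) : Integrable (fun t : ℝ => t ^ k) (gaussianReal 0 1) :=
  integrable_pow_of_mem_interior_integrableExpSet (X := id) (by simp) k

open Classical in
/-- the moment of a monomial with the coincidence pattern `ρ` -/
def Mo {W : Type} (s : Finset W) (ρ : W → W → Prop) : ℝ :=
  ∏ T ∈ s.image (fun r => s.filter fun r' => ρ r' r), mom T.card

lemma moment {W : Type} {m : ℕ} (s : Finset W) (f : W → Fin m) :
    Integrable (fun z : E m => ∏ r ∈ s, z (f r)) (gam m) ∧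
      ∫ z : E m, ∏ r ∈ s, z (f r) ∂gam m = Mo s fun r r' => f r = f r' := by
  classical
  have mp : MeasurePreserving (MeasurableEquiv.toLp 2 (Fin m → ℝ))
      (Measure.pi fun _ => gaussianReal 0 1) (gam m) :=
    ⟨(MeasurableEquiv.toLp 2 (Fin m → ℝ)).measurable, map_pi_eq_stdGaussian⟩
  have e : ∀ y : Fin m → ℝ, ∏ r ∈ s, y (f r) = ∏ j, y j ^ #{r ∈ s | f r = j} := fun y => by
    rw [prod_comp y f]
    refine prod_subset (subset_univ _) fun j _ hj => ?_
    rw [filter_eq_empty_iff.2 fun r hr h => hj (mem_image.2 ⟨r, hr, h⟩), card_empty, pow_zero]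
  constructor
  · rw [← mp.integrable_comp_emb (MeasurableEquiv.measurableEmbedding _)]
    have := Integrable.fintype_prod (μ := fun _ : Fin m => gaussianReal 0 1)
      fun j => int_pow #{r ∈ s | f r = j}
    exact this.congr (Eventually.of_forall fun y => (e y).symm)
  · rw [← mp.integral_comp']
    have h1 : ∫ y : Fin m → ℝ, ∏ r ∈ s, y (f r) ∂Measure.pi (fun _ => gaussianReal 0 1) =
        ∏ j, mom #{r ∈ s | f r = j} := by
      simp_rw [e]
      exact integral_fintype_prod_eq_prod (fun j (t : ℝ) => t ^ #{r ∈ s | f r = j})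
    refine h1.trans ?_
    have h2 : Mo s (fun r r' => f r = f r') =
        ∏ T ∈ (s.image f).image (fun j => s.filter fun r => f r = j), mom T.card := by
      rw [image_image, Mo]
      congr
      funext r
      simp only [Function.comp]
      congr
    rw [h2, prod_image]
    · refine (prod_subset (subset_univ _) fun j _ hj => ?_).symm
      rw [filter_eq_empty_iff.2 fun r hr h => hj (mem_image.2 ⟨r, hr, h⟩), card_empty]
      simp [mom]
    · intro j hj j' _ h
      obtain ⟨r, hr, rfl⟩ := mem_image.1 hj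
      have h3 : r ∈ s.filter fun r' => f r' = j' := by
        have h4 : (s.filter fun r' => f r' = f r) = s.filter fun r' => f r' = j' := h
        rw [← h4]; exact mem_filter.2 ⟨hr, rfl⟩
      exact (mem_filter.1 h3).2

/-! ### letters and patterns -/

abbrev Lt (L : ℕ) (C : Type) : Type := Sym2 C ⊕ Fin L × C

variable {L : ℕ} {C C' C'' : Type}

def lm (σ : C → C') : Lt L C → Lt L C' := Sum.map (Sym2.map σ) (Prod.map id σ)

lemma lm_comp (σ : C → C') (τ : C' → C'') (l : Lt L C) : lm (τ ∘ σ) l = lm τ (lm σ l) := by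
  rcases l with e | p
  · induction e using Sym2.ind with | _ a b => rfl
  · rfl

lemma lm_inj {σ : C → C'} (h : Function.Injective σ) : Function.Injective (lm (L := L) σ) :=
  (Sym2.map.injective h).sumMap (Function.injective_id.prodMap h)

/-- the pattern of coincidences -/
def kr (x : C → C') : C → C → Prop := fun a b => x a = x b

def rel (κ : C → C → Prop) (l l' : Lt L C) : Prop := lm (Quot.mk κ) l = lm (Quot.mk κ) l'

lemma rel_kr (x : C → C') (l l' : Lt L C) : lm x l = lm x l' ↔ rel (kr x) l l' := by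
  have hj : Function.Injective (Quot.lift (r := kr x) x fun _ _ h => h) := by
    rintro ⟨a⟩ ⟨b⟩ h
    exact Quot.sound h
  have e : x = (Quot.lift (r := kr x) x fun _ _ h => h) ∘ Quot.mk (kr x) := rfl
  rw [rel, ← (lm_inj hj).eq_iff, ← lm_comp, ← lm_comp, ← e]

lemma moment' {W : Type} {n : ℕ} (s : Finset W) (w : W → Lt L C) (x : C → Fin n) :
    Integrable (fun z : E (Nv L n) => ∏ r ∈ s, co z (lm x (w r))) (gam _) ∧
      ∫ z : E (Nv L n), ∏ r ∈ s, co z (lm x (w r)) ∂gam _ =
        Mo s fun r r' => rel (kr x) (w r) (w r') := by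
  have h := moment s fun r => ix L n (lm x (w r))
  simp only [EmbeddingLike.apply_eq_iff_eq, rel_kr] at h
  exact h

/-- pattern functions -/
def PF (C : Type) (g : ∀ n, (C → Fin n) → ℝ) : Prop := ∃ G : (C → C → Prop) → ℕ → ℝ,
  (∀ κ, Rt (G κ)) ∧ ∀ᶠ n in atTop, ∀ x, g n x = G (kr x) n

lemma PF.congr {g g' : ∀ n, (C → Fin n) → ℝ} (h : PF C g) (e : ∀ᶠ n in atTop, ∀ x, g n x = g' n x) :
    PF C g' := by
  obtain ⟨G, h1, h2⟩ := h
  exact ⟨G, h1, (h2.and e).mono fun n h x => (h.2 x).symm.trans (h.1 x)⟩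

lemma PF.add (T : RtStmt) {g g' : ∀ n, (C → Fin n) → ℝ} (h : PF C g) (h' : PF C g') :
    PF C fun n x => g n x + g' n x := by
  obtain ⟨G, h1, h2⟩ := h
  obtain ⟨G', h1', h2'⟩ := h'
  exact ⟨fun κ n => G κ n + G' κ n, fun κ => T.add _ _ (h1 κ) (h1' κ),
    (h2.and h2').mono fun n h x => by beta_reduce; rw [h.1, h.2]⟩

lemma PF.reindex {g : ∀ n, (C → Fin n) → ℝ} (h : PF C g) (σ : C → C') :
    PF C' fun n y => g n (y ∘ σ) := by
  obtain ⟨G, h1, h2⟩ := h
  exact ⟨fun κ => G fun a b => κ (σ a) (σ b), fun κ => h1 _, h2.mono fun n h y => h _⟩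

lemma rt_nat (T : RtStmt) (k : ℕ) : Rt fun n => (n : ℝ) ^ k :=
  T.congr _ _ (T.rpow k) (Eventually.of_forall fun n => rpow_natCast _ _)

/-- a new site -/
def nw (κ : C → C → Prop) : Option C → Option C → Prop
  | none, none => True
  | some a, some b => κ a b
  | _, _ => False

lemma sum_split [Fintype C] {n : ℕ} (x : C → Fin n) (φ : Fin n → ℝ) (c : ℝ)
    (h : ∀ i, (∀ a, x a ≠ i) → φ i = c) :
    ∑ i, φ i = ∑ a, (φ (x a) - c) * ((#{b | x b = x a} : ℕ) : ℝ)⁻¹ + n * c := by
  have h1 : ∑ a, (φ (x a) - c) * ((#{b | x b = x a} : ℕ) : ℝ)⁻¹ = ∑ i, (φ i - c) := by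
    rw [sum_comp (fun i => (φ i - c) * ((#{b | x b = i} : ℕ) : ℝ)⁻¹) x]
    rw [← sum_subset (subset_univ (univ.image x)) fun i _ hi => by
      rw [h i fun a ha => hi (mem_image.2 ⟨a, mem_univ a, ha⟩), sub_self]]
    refine sum_congr rfl fun i hi => ?_
    obtain ⟨a, -, rfl⟩ := mem_image.1 hi
    have : ((#{b | x b = x a} : ℕ) : ℝ) ≠ 0 :=
      Nat.cast_ne_zero.2 (card_ne_zero.2 ⟨a, by simp⟩)
    rw [nsmul_eq_mul]
    field_simp
  rw [h1, sum_sub_distrib]
  simp

lemma PF.sum (T : RtStmt) [Finite C] {g : ∀ n, (Option C → Fin n) → ℝ} (h : PF (Option C) g) :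
    PF C fun n x => ∑ i, g n fun o => o.elim i x := by
  classical
  have := Fintype.ofFinite C
  obtain ⟨G, h1, h2⟩ := h
  refine ⟨fun κ n => ∑ a, (G (fun o o' => κ (o.getD a) (o'.getD a)) n + -1 * G (nw κ) n) *
    ((#{b | κ b a} : ℕ) : ℝ)⁻¹ + (n : ℝ) ^ 1 * G (nw κ) n, fun κ => T.add _ _ (T.sum _ _ _ fun a _ =>
      T.mul _ _ (T.add _ _ (h1 _) (T.mul _ _ (T.const _) (h1 _))) (T.const _))
      (T.mul _ _ (rt_nat T 1) (h1 _)), h2.mono fun n h x => ?_⟩
  beta_reduce
  rw [sum_split x _ (G (nw (kr x)) n) fun i hi => ?_]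
  · simp only [pow_one, neg_one_mul, ← sub_eq_add_neg]
    congr 1
    refine sum_congr rfl fun a _ => ?_
    rw [h]
    congr 3
    · funext o o'
      cases o <;> cases o' <;> rfl
    · simp only [kr]
  · rw [h]
    congr 1
    funext o o'
    rcases o with _ | a <;> rcases o' with _ | b <;> simp [kr, nw, hi, (hi _).symm]

lemma PF.total (T : RtStmt) (C : Type) [Finite C] : ∀ [Fintype C] [DecidableEq C]
    (g : ∀ n, (C → Fin n) → ℝ), PF C g → Rt fun n => ∑ x, g n x := by
  refine Finite.induction_empty_option (P := fun C => ∀ [Fintype C] [DecidableEq C]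
    (g : ∀ n, (C → Fin n) → ℝ), PF C g → Rt fun n => ∑ x, g n x) ?_ ?_ ?_ C
  · intro α β e ih _ _ g hg
    classical
    have := Fintype.ofEquiv β e.symm
    refine T.congr _ _ (ih _ (hg.reindex e.symm)) (Eventually.of_forall fun n => ?_)
    exact Fintype.sum_equiv (e.arrowCongr (Equiv.refl _)) _ _ fun y => rfl
  · rintro _ _ g ⟨G, h1, h2⟩
    refine T.congr _ _ (h1 fun _ _ => True) (h2.mono fun n h => ?_)
    rw [Fintype.sum_unique, h]
    congr 1
    funext a
    exact a.elim
  · intro α _ ih _ _ g hg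
    classical
    refine T.congr _ _ (ih _ (hg.sum T)) (Eventually.of_forall fun n => ?_)
    rw [sum_comm, ← Fintype.sum_prod_type']
    refine Fintype.sum_equiv (Equiv.piOptionEquivProd (β := fun _ => Fin n)).symm _ _ fun p => ?_
    congr 1
    funext o
    cases o <;> rfl

lemma PF.rp (T : RtStmt) (R : RpStmt) [Finite C] {g : ∀ n, (C → Fin n) → ℝ} (h : PF C g) :
    RP (L := L) C fun n x _ => g n x := by
  classical
  have := Fintype.ofFinite C
  obtain ⟨G, h1, h2⟩ := h
  have k : ∀ (κ : C → C → Prop) (p : C × C), RP (L := L) C fun n x _ =>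
      if κ p.1 p.2 ↔ x p.1 = x p.2 then 1 else 0 := fun κ p => by
    by_cases hp : κ p.1 p.2
    · simpa [hp] using RP.eq (L := L) p.1 p.2
    · refine (R.sub L C _ _ (.const (T.const 1)) (.eq p.1 p.2)).congr
        (Eventually.of_forall fun n => ?_)
      funext x z
      by_cases hx : x p.1 = x p.2 <;> simp [hp, hx]
  refine (R.fsum L C _ univ _ fun κ _ => R.smul L C _ _ (h1 κ)
    (R.fprod L C _ univ _ fun p _ => k κ p)).congr (h2.mono fun n h => ?_)
  funext x z
  rw [h, sum_eq_single (kr x)]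
  · simp [kr]
  · intro κ _ hκ
    obtain ⟨p, hp⟩ : ∃ p : C × C, ¬(κ p.1 p.2 ↔ x p.1 = x p.2) := by
      by_contra hc
      push Not at hc
      exact hκ (funext fun a => funext fun b => propext (hc (a, b)))
    rw [prod_eq_zero (mem_univ p) (if_neg hp), mul_zero]
  · simp

/-! ### normal forms -/

inductive NF : (C : Type) → Fam L C → Prop
  | mono {C W : Type} [Fintype W] (w : W → Lt L C) {G : (C → C → Prop) → ℕ → ℝ} :
      (∀ κ, Rt (G κ)) → NF C fun n x z => G (kr x) n * ∏ r, co z (lm x (w r))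
  | add {C : Type} {F G : Fam L C} : NF C F → NF C G → NF C fun n x z => F n x z + G n x z
  | sum {C : Type} {F : Fam L (Option C)} : NF (Option C) F →
      NF C fun n x z => ∑ i, F n (fun o => o.elim i x) z
  | congr {C : Type} {F G : Fam L C} : NF C F → (∀ᶠ n in atTop, F n = G n) → NF C G

lemma NF.eq {F G : Fam L C} (h : NF C F) (e : ∀ n x z, F n x z = G n x z) : NF C G :=
  h.congr (Eventually.of_forall fun n => funext fun x => funext (e n x))

lemma NF.reindex {F : Fam L C} (h : NF C F) : ∀ (C' : Type) (σ : C → C'),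
    NF C' fun n y z => F n (y ∘ σ) z := by
  induction h with
  | @mono C W _ w G hG =>
    intro C' σ
    exact (NF.mono (fun r => lm σ (w r)) (G := fun κ => G fun a b => κ (σ a) (σ b))
      fun κ => hG _).eq fun n y z => by simp only [lm_comp]; rfl
  | add _ _ ih ih' => exact fun C' σ => (ih C' σ).add (ih' C' σ)
  | sum _ ih =>
    intro C' σ
    refine (ih _ (Option.map σ)).sum.eq fun n y z => sum_congr rfl fun i _ => ?_
    congr 1
    funext o
    cases o <;> rfl
  | congr _ e ih => exact fun C' σ => (ih C' σ).congr (e.mono fun n h => by rw [h])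

lemma NF.mul_mono (T : RtStmt) {F : Fam L C} (h : NF C F) : ∀ (W : Type) [Fintype W]
    (w : W → Lt L C) (G : (C → C → Prop) → ℕ → ℝ), (∀ κ, Rt (G κ)) →
    NF C fun n x z => (G (kr x) n * ∏ r, co z (lm x (w r))) * F n x z := by
  induction h with
  | @mono C W' _ w' G' hG' =>
    intro W _ w G hG
    refine (NF.mono (Sum.elim w w') (G := fun κ n => G κ n * G' κ n)
      fun κ => T.mul _ _ (hG κ) (hG' κ)).eq fun n x z => ?_
    simp only [Fintype.prod_sum_type, Sum.elim_inl, Sum.elim_inr]
    ring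
  | add _ _ ih ih' =>
    exact fun W _ w G hG => ((ih W w G hG).add (ih' W w G hG)).eq fun n x z => (mul_add _ _ _).symm
  | sum _ ih =>
    intro W _ w G hG
    refine (ih W (fun r => lm some (w r)) (fun κ => G fun a b => κ (some a) (some b))
      fun κ => hG _).sum.eq fun n x z => ?_
    rw [mul_sum]
    simp only [← lm_comp]
    rfl
  | congr _ e ih => exact fun W _ w G hG => (ih W w G hG).congr (e.mono fun n h => by rw [h])

lemma NF.mul (T : RtStmt) {F : Fam L C} (h : NF C F) : ∀ H : Fam L C, NF C H →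
    NF C fun n x z => F n x z * H n x z := by
  induction h with
  | mono w hG => exact fun H hH => hH.mul_mono T _ w _ hG
  | add _ _ ih ih' => exact fun H hH => ((ih H hH).add (ih' H hH)).eq fun n x z => (add_mul _ _ _).symm
  | sum _ ih =>
    exact fun H hH => (ih _ (hH.reindex _ some)).sum.eq fun n x z => by
      beta_reduce
      rw [sum_mul]
      rfl
  | congr _ e ih => exact fun H hH => (ih H hH).congr (e.mono fun n h => by rw [h])

lemma nf_of_rp (T : RtStmt) {F : Fam L C} (h : RP C F) : NF C F := by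
  classical
  induction h with
  | edge a b =>
    exact (NF.mono (fun _ : Unit => .inl s(a, b)) (G := fun _ _ => 1) fun _ => T.const 1).eq
      fun n x z => by simp [lm]
  | site l a =>
    exact (NF.mono (fun _ : Unit => .inr (l, a)) (G := fun _ _ => 1) fun _ => T.const 1).eq
      fun n x z => by simp [lm]
  | eq a b =>
    exact (NF.mono (W := Empty) Empty.elim (G := fun κ _ => if κ a b then 1 else 0)
      fun _ => T.const _).eq fun n x z => by simp [kr]
  | const hρ => exact (NF.mono (W := Empty) Empty.elim fun _ => hρ).eq fun n x z => by simp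
  | add _ _ ih ih' => exact ih.add ih'
  | mul _ _ ih ih' => exact ih.mul T _ ih'
  | sum _ ih => exact ih.sum
  | congr _ e ih => exact ih.congr e

lemma NF.int (T : RtStmt) {F : Fam L C} (h : NF C F) : Finite C →
    (∀ᶠ n in atTop, ∀ x, Integrable (F n x) (gam _)) ∧ PF C fun n x => ∫ z, F n x z ∂gam _ := by
  induction h with
  | @mono C W _ w G hG =>
    refine fun _ => ⟨Eventually.of_forall fun n x => (moment' univ w x).1.const_mul _,
      fun κ n => G κ n * Mo univ fun r r' => rel κ (w r) (w r'),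
      fun κ => T.mul _ _ (hG κ) (T.const _), Eventually.of_forall fun n x => ?_⟩
    beta_reduce
    rw [integral_const_mul, (moment' univ w x).2]
  | add _ _ ih ih' =>
    intro hC
    obtain ⟨h1, h2⟩ := ih hC
    obtain ⟨h3, h4⟩ := ih' hC
    exact ⟨(h1.and h3).mono fun n h x => (h.1 x).add (h.2 x), (h2.add T h4).congr
      ((h1.and h3).mono fun n h x => (integral_add (h.1 x) (h.2 x)).symm)⟩
  | sum _ ih =>
    intro hC
    obtain ⟨h1, h2⟩ := ih inferInstance
    exact ⟨h1.mono fun n h x => integrable_finsetSum _ fun i _ => h _, (h2.sum T).congr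
      (h1.mono fun n h x => (integral_finsetSum _ fun i _ => h _).symm)⟩
  | congr _ e ih =>
    intro hC
    obtain ⟨h1, h2⟩ := ih hC
    exact ⟨(h1.and e).mono fun n h x => h.2 ▸ h.1 x, h2.congr (e.mono fun n h x => by rw [h])⟩

lemma rp_letter (l : Lt L C) : RP C fun n x z => co z (lm x l) := by
  rcases l with e | p
  · induction e using Sym2.ind with | _ a b => exact .edge a b
  · exact .site p.1 p.2

lemma NF.ew (T : RtStmt) (S : SkStmt) (R : RpStmt) {F : Fam L C} (h : NF C F) : Finite C →
    (∀ᶠ n in atTop, ∀ x z, Integrable (fun z' => F n x (mix z z')) (gam _)) ∧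
      RP C fun n x z => ∫ z', F n x (mix z z') ∂gam _ := by
  induction h with
  | @mono C W _ w G hG =>
    intro hC
    have e : ∀ n (x : C → Fin n) (z z' : E (Nv L n)), G (kr x) n * ∏ r, co (mix z z') (lm x (w r)) =
        (G (kr x) n * ∏ r with (w r).isLeft, co z (lm x (w r))) *
          ∏ r with ¬(w r).isLeft, co z' (lm x (w r)) := fun n x z z' => by
      rw [mul_assoc, ← prod_ite]
      congr 1
      refine prod_congr rfl fun r _ => ?_
      rw [mix, S.co_pt]
      rcases w r with e | p <;> rfl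
    simp only [e]
    refine ⟨Eventually.of_forall fun n x z => (moment' _ w x).1.const_mul _, ?_⟩
    have h1 : PF C fun n x => G (kr x) n * Mo {r | ¬(w r).isLeft} fun r r' =>
        rel (kr x) (w r) (w r') := ⟨fun κ n => G κ n * Mo {r | ¬(w r).isLeft} fun r r' =>
        rel κ (w r) (w r'), fun κ => T.mul _ _ (hG κ) (T.const _),
        Eventually.of_forall fun n x => rfl⟩
    refine ((h1.rp T R).mul (R.fprod L C W {r | (w r).isLeft} _ fun r _ => rp_letter (w r))).congr
      (Eventually.of_forall fun n => ?_)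
    funext x z
    rw [integral_const_mul, (moment' _ w x).2]
    ring
  | add _ _ ih ih' =>
    intro hC
    obtain ⟨h1, h2⟩ := ih hC
    obtain ⟨h3, h4⟩ := ih' hC
    exact ⟨(h1.and h3).mono fun n h x z => (h.1 x z).add (h.2 x z), (h2.add h4).congr
      ((h1.and h3).mono fun n h => funext fun x => funext fun z =>
        (integral_add (h.1 x z) (h.2 x z)).symm)⟩
  | sum _ ih =>
    intro hC
    obtain ⟨h1, h2⟩ := ih inferInstance
    exact ⟨h1.mono fun n h x z => integrable_finsetSum _ fun i _ => h _ z, h2.sum.congr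
      (h1.mono fun n h => funext fun x => funext fun z =>
        (integral_finsetSum _ fun i _ => h _ z).symm)⟩
  | congr _ e ih =>
    intro hC
    obtain ⟨h1, h2⟩ := ih hC
    exact ⟨(h1.and e).mono fun n h x z => h.2 ▸ h.1 x z, h2.congr (e.mono fun n h => by rw [h])⟩

end Rat87

open Rat87

theorem ratGlue : RatGlue := fun T S R =>
  ⟨fun L C _ _ F hF => T.congr _ _ (T.mul _ _ (PF.total T C _ ((nf_of_rp T hF).int T inferInstance).2)
      (T.inv _ (rt_nat T (Fintype.card C)))) (Eventually.of_forall fun n => (div_eq_mul_inv _ _).symm),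
    fun L C _ _ F hF => ((nf_of_rp T hF).ew T S R inferInstance).2⟩

end Crest.Agent.T157.Lm

end
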