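import Crest.Agent.T157.LmResA_30

/-!
# Row 157, block B/S5 (helper30): energies and resolvents
-/

set_option autoImplicit false

noncomputable section

namespace Crest.Agent.T157.Lm

open MeasureTheory ProbabilityTheory Real Filter Topology Finset
open Crest.Agent.R238.Gap (E pd)
open Crest.Agent.R253.Meh74 (gam C1)
open Crest.Agent.T157.Hm (Pl en ip C0 pr)
open Crest.Agent.T157.Rn (Tm)

namespace R30

variable {L m n : ℕ} {β ζ : ℝ} {ρ : Fin L → ℝ}

lemma x_eq (x : Empty → Fin n) : x = x0 n := Subsingleton.elim _ _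
lemma av0 (a : (Empty → Fin n) → ℝ) : av a = a (x0 n) := by
  rw [av, Fintype.sum_unique, x_eq default]; simp
lemma av1 (a : (Unit → Fin n) → ℝ) : av a = (∑ k, a fun _ => k) / n := by
  rw [av, ← (Equiv.funUnique Unit (Fin n)).symm.sum_comp]; simp; rfl
lemma n2_0 (F : F0 L) (n : ℕ) : n2 F n = sq (F n (x0 n)) := av0 _
lemma ipx_0 (F G : F0 L) (n : ℕ) : ipx F G n = ip (F n (x0 n)) (G n (x0 n)) := av0 _

lemma n2_dF (F : F0 L) (hn : 0 < n) :
    n2 (dF β ρ F) n = ∑ k, sq ((sk β ρ n).D k (F n (x0 n))) := by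
  have hn' : (0 : ℝ) < n := by exact_mod_cast hn
  rw [n2, av1, div_eq_iff hn'.ne', sum_mul]
  refine sum_congr rfl fun k _ => (sq_smul (√n) _).trans ?_
  rw [sq_sqrt hn'.le, mul_comm]

lemma cv_near {a : ℕ → ℝ} (h : ∀ ε > (0 : ℝ), ∃ b, Cv b ∧ ∀ᶠ n in atTop, |a n - b n| ≤ ε) :
    Cv a := by
  refine cauchySeq_tendsto_of_complete (Metric.cauchySeq_iff.2 fun ε hε => ?_)
  obtain ⟨b, ⟨l, hl⟩, hb⟩ := h (ε / 5) (by positivity)
  obtain ⟨N, hN⟩ := eventually_atTop.1 (hb.and (Metric.tendsto_nhds.1 hl (ε / 5) (by positivity)))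
  refine ⟨N, fun i hi j hj => ?_⟩
  obtain ⟨a1, a2⟩ := hN i hi
  obtain ⟨a3, a4⟩ := hN j hj
  rw [Real.dist_eq, abs_lt] at *
  rw [abs_le] at a1 a3
  constructor <;> linarith [a1.1, a1.2, a2.1, a2.2, a3.1, a3.2, a4.1, a4.2]

lemma ev_div (c ε : ℝ) (hε : 0 < ε) : ∀ᶠ n : ℕ in atTop, c / n ≤ ε :=
  (tendsto_const_div_atTop_nhds_zero_nat c).eventually (ge_mem_nhds hε)

/-- the local field is affine -/
lemma h_bd {S : GS m n} {B : ℝ} (h : S.Ok B) (k : Fin n) :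
    (∀ z z', |S.h k z - S.h k z'| ≤ √B * ‖z - z'‖) ∧ sq (S.h k) ≤ 2 * B + 2 * B ^ 2 := by
  set a : E m := WithLp.toLp 2 fun e => if S.inc k e = true then S.α e else 0 with ha
  have e1 : ‖a‖ ^ 2 = ∑ e, if S.inc k e = true then S.α e ^ 2 else 0 := by
    rw [EuclideanSpace.real_norm_sq_eq]
    exact sum_congr rfl fun e _ => by simp only [ha]; split_ifs <;> simp
  have e2 : S.h k = (fun z => innerSL ℝ a z) + fun _ => ‖a‖ ^ 2 := funext fun z => by
    rw [Pi.add_apply, e1, innerSL_apply_apply, PiLp.inner_apply, ← sum_add_distrib]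
    exact sum_congr rfl fun e _ => by simp only [ha]; split_ifs <;> simp; ring
  have e3 : ‖a‖ ^ 2 ≤ B := e1 ▸ h.row k
  refine ⟨fun z z' => ?_, ?_⟩
  · rw [e2, Pi.add_apply, Pi.add_apply, add_sub_add_right_eq_sub, ← map_sub]
    exact (abs_real_inner_le_norm a _).trans
      (mul_le_mul_of_nonneg_right (le_sqrt_of_sq_le e3) (norm_nonneg _))
  · have h1 : sq (fun z => innerSL ℝ a z) = ‖a‖ ^ 2 := by
      have := variance_dual_stdGaussian (innerSL ℝ a)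
      rwa [variance_of_integral_eq_zero (innerSL ℝ a).continuous.aemeasurable
        (integral_strongDual_stdGaussian _), innerSL_apply_norm] at this
    have h2 := sq_add (F := fun z => innerSL ℝ a z) (G := fun _ => ‖a‖ ^ 2)
      ⟨(innerSL ℝ a).continuous.measurable, IsGaussian.memLp_dual _ _ 2 (by simp)⟩
      (m2_c0 (Hm.c0_const _))
    have h3 : sq (fun _ : E m => ‖a‖ ^ 2) = (‖a‖ ^ 2) ^ 2 := by simp [sq]
    have h4 := pow_le_pow_left₀ (sq_nonneg _) e3 2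
    rw [e2]; linarith

/-- the energy is bounded by the flip gradient -/
lemma en_dF {F : F0 L} (hn : 0 < n) (h : ∀ x, M2 (dF β ρ F n x)) :
    enx β ρ F F n ≤ n2 (dF β ρ F) n / 2 := by
  have hn' : (0 : ℝ) < √n := sqrt_pos.2 (by exact_mod_cast hn)
  rw [n2_dF F hn, enx, GS.En]
  refine div_le_div_of_nonneg_right (sum_le_sum fun k _ => ?_) two_pos.le
  have h1 : M2 ((sk β ρ n).D k (F n (x0 n))) := by
    have := m2_smul (√n)⁻¹ (h fun _ => k)
    rwa [show (√n)⁻¹ • dF β ρ F n (fun _ => k) = (sk β ρ n).D k (F n (x0 n)) from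
      funext fun z => inv_mul_cancel_left₀ hn'.ne' _] at this
  rw [sq_eq]
  exact integral_mono_of_nonneg
    (ae_of_all _ fun z => mul_nonneg (c_le k z).1 (mul_self_nonneg _)) (m2_int h1 h1)
    (ae_of_all _ fun z => mul_le_of_le_one_left (mul_self_nonneg _) (c_le k z).2)

lemma Adm.lin {F G : F0 L} (hF : Adm F) (hG : Adm G) (c : ℝ) : Adm (F - c • G) := by
  filter_upwards [hF, hG] with n h1 h2
  exact ⟨fun x => m2_sub (h1.1 x) (m2_smul c (h2.1 x)), fun p x z => by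
    simp only [Pi.sub_apply, Pi.smul_apply, h1.2 p x z, h2.2 p x z]⟩

lemma Adm.rz (hB : BasStmt) (hS : SkStmt) (hζ : 0 < ζ) {F : F0 L} (hF : Adm F) :
    Adm (op β ρ (fun S => S.Rz ζ) F) := by
  filter_upwards [hF, eventually_gt_atTop 0] with n h1 hn
  exact ⟨fun x => (hB.m2_Rz _ _ _ ζ _ hn hζ (h1.1 x)).1, (hS.eqv_P L β ρ n _ h1.2).2.1 ζ⟩

lemma cen_eq (F : F0 L) : cen β ρ ζ F = F - ζ • op β ρ (fun S => S.Rz ζ) F := rfl

/-- the limit system has a solution -/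
lemma solve {M : ℕ} {G : Fin M → Fin M → ℝ} (hζ : 0 < ζ)
    (hG : ∀ a : Fin M → ℝ, 0 ≤ ∑ j, a j * ∑ i, a i * G i j) (b : Fin M → ℝ) :
    ∃ a : Fin M → ℝ, ∀ j, ζ * a j + ∑ i, a i * G i j = b j := by
  let T : (Fin M → ℝ) →ₗ[ℝ] Fin M → ℝ := ζ • LinearMap.id + (Matrix.of G).vecMulLinear
  have hT : ∀ a j, T a j = ζ * a j + ∑ i, a i * G i j := fun a j => rfl
  have hi : Function.Injective T := (injective_iff_map_eq_zero T).2 fun a ha => by
    have h1 : ζ * ∑ j, a j ^ 2 + ∑ j, a j * ∑ i, a i * G i j = 0 := by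
      rw [mul_sum, ← sum_add_distrib]
      exact sum_eq_zero fun j _ => by
        have := congrFun ha j
        rw [hT, Pi.zero_apply] at this
        linear_combination a j * this
    have h2 : 0 ≤ ∑ j, a j ^ 2 := sum_nonneg fun _ _ => sq_nonneg _
    have h3 : ∑ j, a j ^ 2 = 0 := by nlinarith [hG a]
    exact funext fun j => pow_eq_zero_iff two_ne_zero |>.1
      ((sum_eq_zero_iff_of_nonneg fun _ _ => sq_nonneg _).1 h3 j (mem_univ j))
  obtain ⟨a, ha⟩ := LinearMap.injective_iff_surjective.1 hi b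
  exact ⟨a, fun j => by rw [← hT, ha]⟩

end R30

open R30

theorem enGlue : EnGlue := by
  intro hB hC hH hS hR hL hN L β ρ q hq ⟨B, hb⟩
  obtain ⟨C, -, hC⟩ := hC (β ^ 2 + ∑ l, ρ l ^ 2)
  obtain ⟨D, hD⟩ := hR.deg L _ q hq
  obtain ⟨K, hK, hlow⟩ := hH.low D (β ^ 2 + ∑ l, ρ l ^ 2)
  have b1 : Bd (dF β ρ q) := by
    refine ⟨8 * K * D * B, ?_⟩
    filter_upwards [hD, hb, eventually_gt_atTop 0] with n h1 h2 hn
    have ok := hS.ok L β ρ n hn
    have a1 := (hC _ _ _ ok).1 _ (Hm.c1 (h1 (x0 n)))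
    have a2 := (hH.bern D _ _ (h1 (x0 n))).2.1
    have a3 : ∑ k, sq ((sk β ρ n).D k (q n (x0 n))) ≤
        K * (2 * (sk β ρ n).En (q n (x0 n)) (q n (x0 n))) := by
      rw [GS.En, mul_div_cancel₀ _ two_ne_zero, mul_sum]
      exact sum_le_sum fun k _ => by
        simpa only [pow_two] using hlow _ _ _ ok k _ (hH.flip D _ _ _ k _ (h1 (x0 n)))
    rw [n2_0] at h2
    have a4 := mul_le_mul_of_nonneg_left h2 (Nat.cast_nonneg (α := ℝ) D)
    rw [n2_dF q hn]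
    nlinarith
  refine ⟨b1, fun F hF hW => ?_⟩
  have bh : Bd (L := L) (C := Unit) fun n x z => (sk β ρ n).h (x ()) z := by
    refine ⟨2 * (β ^ 2 + ∑ l, ρ l ^ 2) + 2 * (β ^ 2 + ∑ l, ρ l ^ 2) ^ 2, ?_⟩
    filter_upwards [eventually_gt_atTop 0] with n hn
    rw [n2, av1, div_le_iff₀ (by exact_mod_cast hn)]
    refine (sum_le_sum fun k _ => (h_bd (hS.ok L β ρ n hn) k).2).trans_eq ?_
    rw [sum_const, card_univ, Fintype.card_fin, nsmul_eq_mul, mul_comm]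
  have ct : Continuous Real.tanh := by
    rw [show Real.tanh = fun x => Real.sinh x / Real.cosh x from funext Real.tanh_eq_sinh_div_cosh]
    exact Real.continuous_sinh.div Real.continuous_cosh fun x => (Real.cosh_pos x).ne'
  have cc : Cl (L := L) (C := Unit) fun n x z => (sk β ρ n).c (x ()) z :=
    hN.comp L 1 (fun _ n x z => (sk β ρ n).h (x ()) z) 1 (fun u => (1 - tanh (u 0)) / 2)
      (fun _ => hL.rp L _ _ (hR.h L β ρ) bh)
      (fun _ => hN.sub_of_lip L _ _ (hR.eqv L _ _ (hR.h L β ρ)) bh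
        ((eventually_gt_atTop 0).mono fun n hn x => (h_bd (hS.ok L β ρ n hn) (x ())).1))
      ((continuous_const.sub (ct.comp (continuous_apply 0))).div_const 2)
      fun u => by
        have h1 := tanh_lt_one (u 0)
        have h2 := neg_one_lt_tanh (u 0)
        rw [abs_le]; constructor <;> linarith [norm_nonneg u]
  obtain ⟨l, hl⟩ := hL.cv L _ _ _ hW (hN.mul L _ _ 1 cc (hL.rp L _ _ (hR.dF L β ρ q hq) b1)
    (Eventually.of_forall fun n x z => by rw [abs_of_nonneg (c_le _ z).1]; exact (c_le _ z).2))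
  refine ⟨l / 2, (hl.div_const 2).congr' ?_⟩
  filter_upwards [eventually_gt_atTop 0] with n hn
  have hn' : (0 : ℝ) < n := by exact_mod_cast hn
  rw [ipx, av1, enx, GS.En, div_left_inj' two_ne_zero, div_eq_iff hn'.ne', sum_mul]
  refine sum_congr rfl fun k _ => ?_
  rw [← integral_mul_const]
  refine integral_congr_ae (ae_of_all _ fun z => ?_)
  simp only [dF, Pi.mul_apply]
  linear_combination (sk β ρ n).c k z * (sk β ρ n).D k (F n (x0 n)) z *
    (sk β ρ n).D k (q n (x0 n)) z * mul_self_sqrt hn'.le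

namespace R30

variable {L : ℕ} {β ζ : ℝ} {ρ : Fin L → ℝ}

/-- **the resolvent of a polynomial family** -/
theorem res1 (hB : BasStmt) (hH : HypStmt) (hT : RtStmt) (hS : SkStmt) (hR : RpStmt) (hO : OnStmt)
    (hL : LinStmt) (hE : EnStmt) (hζ : 0 < ζ)
    (hC : ∀ n > 0, (∀ F, C1 F → (sk β ρ n).En F F ≤ 4 * en F) ∧ ∀ F, Tm 2 F →
      Tm 2 ((sk β ρ n).Rz ζ F) ∧ en ((sk β ρ n).Rz ζ F) ≤ en F ∧
        en2 ((sk β ρ n).Rz ζ F) ≤ en F + en2 F)
    (q : F0 L) (hq : RP Empty q) (bq : Bd q) (ε : ℝ) (hε : 0 < ε) :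
    ∃ q', RP Empty q' ∧ Bd q' ∧ ∀ᶠ n in atTop, n2 (op β ρ (fun S => S.Rz ζ) q - q') n ≤ ε ∧
      enx β ρ (op β ρ (fun S => S.Rz ζ) q - q') (op β ρ (fun S => S.Rz ζ) q - q') n ≤ ε := by
  obtain ⟨B, hb⟩ := id bq
  obtain ⟨D, hD⟩ := hR.deg L _ q hq
  set δ := min ε (ζ * ε) with hδ
  have δ0 : 0 < δ := lt_min hε (mul_pos hζ hε)
  obtain ⟨D', h0, hD'⟩ := ((eventually_gt_atTop 0).and
    (ev_div (ζ * (D * B) + 4 * (D * B + D ^ 2 * B)) (δ / 12) (by positivity))).exists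
  obtain ⟨M, e, he, e1, eo⟩ := hO L Empty (D' + 1)
  have be : ∀ j, Bd (e j) := fun j => ⟨2, (e1 j).eventually (ge_mem_nhds one_lt_two)⟩
  choose G hG using fun i j => (hE L β ρ (e j) (he j) (be j)).2 (e i) (hR.eqv L _ _ (he i))
    (hL.wk L _ _ (hL.rp L _ _ (hR.dF L β ρ _ (he i)) (hE L β ρ _ (he i) (be i)).1)).1
  choose b hb' using fun j => hL.cv L _ q (e j) (hL.wk L _ _ (hL.rp L _ _ hq bq)).1
    (hL.rp L _ _ (he j) (be j))
  have me : ∀ᶠ n in atTop, ∀ j, M2 (e j n (x0 n)) :=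
    eventually_all.2 fun j => (hR.eqv L _ _ (he j)).mono fun n h => h.1 _
  obtain ⟨a, ha⟩ := solve (G := G) hζ (fun a => by
    refine ge_of_tendsto (tendsto_finsetSum _ fun j _ => (tendsto_finsetSum _ fun i _ =>
      (hG i j).const_mul (a i)).const_mul (a j)) (me.mono fun n hn => ?_)
    have := (ps_E hB (S := sk β ρ n)).p (∑ j, a j • (⟨_, hn j⟩ : V _))
    simp only [map_sum, map_smul, LinearMap.sum_apply, LinearMap.smul_apply, smul_eq_mul] at this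
    exact this) b
  have rq : RP Empty fun n x z => ∑ j, a j * e j n x z :=
    hR.fsum L _ _ _ _ fun j _ => hR.smul L _ (fun _ => a j) _ (hT.const _) (he j)
  -- the residuals
  set r : Fin M → ℕ → ℝ := fun j n => ζ * (a j * n2 (e j) n) + ∑ i, a i * enx β ρ (e i) (e j) n -
    (ipx q (e j) n - rem (sk β ρ n) ζ (q n (x0 n)) (e j n (x0 n))) with hr
  have r0 : ∀ j, Tendsto (r j) atTop (𝓝 0) := fun j => by
    have t1 : Tendsto (fun n => rem (sk β ρ n) ζ (q n (x0 n)) (e j n (x0 n))) atTop (𝓝 0) := by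
      refine squeeze_zero_norm' ?_ (tendsto_const_div_atTop_nhds_zero_nat ((B + 2) / (2 * ζ)))
      filter_upwards [hD, hb, me, (e1 j).eventually (ge_mem_nhds one_lt_two),
        eventually_gt_atTop 0] with n h1 h2 h3 h4 hn
      rw [n2_0] at h2 h4
      refine (abs_rem hB hn hζ (m2_pl (h1 _)) (h3 j)).trans ?_
      gcongr
    have := ((((e1 j).const_mul (a j)).const_mul ζ).add (tendsto_finsetSum univ fun i _ =>
      (hG i j).const_mul (a i))).sub ((hb' j).sub t1)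
    rwa [mul_one, ha, sub_zero, sub_self] at this
  have r1 : ∀ᶠ n in atTop, 8 / ζ * ∑ j, r j n ^ 2 ≤ δ / 2 := by
    have := (tendsto_finsetSum univ fun j _ => (r0 j).pow 2).const_mul (8 / ζ)
    simp only [ne_eq, OfNat.ofNat_ne_zero, not_false_eq_true, zero_pow, sum_const_zero,
      mul_zero] at this
    exact this.eventually (ge_mem_nhds (half_pos δ0))
  have key : ∀ᶠ n in atTop, n2 (op β ρ (fun S => S.Rz ζ) q - fun n x z => ∑ j, a j * e j n x z) n ≤ ε ∧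
      enx β ρ (op β ρ (fun S => S.Rz ζ) q - fun n x z => ∑ j, a j * e j n x z)
        (op β ρ (fun S => S.Rz ζ) q - fun n x z => ∑ j, a j * e j n x z) n ≤ ε := by
    filter_upwards [hD, hb, me, eo, r1, hR.eqv L _ _ hq, eventually_gt_atTop 0,
      eventually_all.2 fun j => (e1 j).eventually (le_mem_nhds one_half_lt_one)]
      with n h1 h2 h3 ⟨h4, h5⟩ h6 h7 hn h8
    obtain ⟨b1, b2, b3⟩ := hH.bern D _ _ (h1 (x0 n))
    obtain ⟨c1, c2, c3⟩ := (hC n hn).2 _ b1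
    obtain ⟨a', ha'⟩ := h5 (fun x => pr (D' + 1) ((sk β ρ n).Rz ζ (q n x))) (fun x => Hm.pr_mem _ _)
      (hS.eqv_pr L n _ _ _ ((hS.eqv_P L β ρ n _ h7.2).2.1 ζ) fun x => by
        rw [x_eq x]; exact Hm.c0_of c1.1)
    set u := (sk β ρ n).Rz ζ (q n (x0 n)) with hu
    have mu : M2 u := m2_c0 (Hm.c0_of c1.1)
    set ee : Fin M → V (Nv L n) := fun j => ⟨_, h3 j⟩ with hee
    have sum_eq : ∀ c : Fin M → ℝ, (∑ j, c j • ee j : V _).1 = fun z => ∑ j, c j * e j n (x0 n) z :=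
      fun c => by funext z; simp [hee]
    have g := gal (I := IB _) (ps_Q hB (S := sk β ρ n) hζ.le) hζ
      (fun x => le_add_of_nonneg_right ((ps_E hB).p x)) (e := ee)
      (fun i j hij => (ipx_0 _ _ n).symm.trans (h4 i j hij))
      (fun j => (h8 j).trans_eq ((n2_0 _ n).trans (sq_eq _))) ⟨u, mu⟩ a a'
    have g1 : ∀ j, QB hB (sk β ρ n) ζ (∑ i, a i • ee i - ⟨u, mu⟩) (ee j) = r j n := fun j => by
      have o1 : ∑ i, a i * ip (ee i).1 (ee j).1 = a j * n2 (e j) n := by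
        rw [sum_eq_single j (fun i _ hij => mul_eq_zero_of_right _
          ((ipx_0 _ _ n).symm.trans (h4 i j hij))) (by simp), n2_0, sq_eq]
      rw [map_sub, LinearMap.sub_apply, QB_apply hB ⟨u, mu⟩, weak hB hn hζ (h7.1 _) (h3 j),
        LinearMap.map_sum₂]
      simp only [map_smul, LinearMap.smul_apply, smul_eq_mul, QB_apply, mul_add, sum_add_distrib,
        hr, ipx_0, mul_left_comm _ ζ, ← mul_sum, o1]
      rfl
    obtain ⟨p1, p2, p3⟩ := pr_err c1 D'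
    have p4 := (hC n hn).1 _ p1
    have g2 : QB hB (sk β ρ n) ζ (⟨u, mu⟩ - ∑ j, a' j • ee j) (⟨u, mu⟩ - ∑ j, a' j • ee j) ≤ δ / 12 := by
      rw [QB_apply, Submodule.coe_sub, sum_eq, ← funext (ha' (x0 n)), ← sq_eq]
      refine le_trans ?_ hD'
      have D0 : (0 : ℝ) < D' := by exact_mod_cast h0
      rw [n2_0] at h2
      have q1 := mul_le_mul_of_nonneg_left h2 (Nat.cast_nonneg (α := ℝ) D)
      have q2 := mul_le_mul_of_nonneg_left h2 (sq_nonneg (D : ℝ))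
      have q3 := mul_le_mul_of_nonneg_left (p2.trans (c2.trans (b2.trans q1))) hζ.le
      have q4 := mul_le_mul_of_nonneg_left p4 D0.le
      rw [le_div_iff₀ D0]
      change (ζ * sq (u - pr (D' + 1) u) + (sk β ρ n).En (u - pr (D' + 1) u) (u - pr (D' + 1) u)) * D' ≤ _
      linarith
    simp only [g1] at g
    have g3 := g.trans (show _ ≤ δ by linarith)
    rw [QB_apply, Submodule.coe_sub, sum_eq, ← sq_eq] at g3
    have m3 : M2 (u - fun z => ∑ j, a j * e j n (x0 n) z) := sum_eq a ▸ m2_sub mu (∑ j, a j • ee j).2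
    have s1 := mul_nonneg hζ.le (sq_nn (u - fun z => ∑ j, a j * e j n (x0 n) z))
    have s2 := (hB.en_le _ _ (sk β ρ n) _ m3).1
    rw [n2_0]
    exact ⟨le_of_mul_le_mul_left ((le_add_of_nonneg_right s2).trans (g3.trans (min_le_right _ _))) hζ,
      (le_add_of_nonneg_left s1).trans (g3.trans (min_le_left _ _))⟩
  refine ⟨_, rq, ⟨2 * (B / ζ ^ 2) + 2 * ε, ?_⟩, key⟩
  filter_upwards [key, hb, hR.eqv L _ _ hq, hR.eqv L _ _ rq, eventually_gt_atTop 0]
    with n h1 h2 h3 h4 hn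
  obtain ⟨k1, k2⟩ := hB.m2_Rz _ _ (sk β ρ n) ζ _ hn hζ (h3.1 (x0 n))
  have := sq_sub k1 (m2_sub k1 (h4.1 (x0 n)))
  rw [sub_sub_cancel] at this
  rw [n2_0] at h1 h2 ⊢
  have k3 := k2.trans (div_le_div_of_nonneg_right h2 (sq_nonneg ζ))
  exact this.trans (add_le_add (by linarith) (mul_le_mul_of_nonneg_left h1.1 two_pos.le))

end R30

theorem resGlue : ResGlue := by
  intro hB hC hH hT hS hR hO hL hE L β ρ
  obtain ⟨C, C0, hC⟩ := hC (β ^ 2 + ∑ l, ρ l ^ 2)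
  refine ⟨C, C0, fun ζ hz => ?_⟩
  have hζ : 0 < ζ := C0.trans_le hz
  have hC' := fun n hn => (hC _ _ _ (hS.ok L β ρ n hn)).imp_right fun h => h ζ hz
  have H1 := res1 hB hH hT hS hR hO hL hE hζ hC'
  refine ⟨H1, fun F hF => ⟨Adm.rz hB hS hζ hF.1, fun ε hε => ?_⟩, fun F hF ⟨B, hb⟩ hT hW => ?_⟩
  · obtain ⟨q, q1, q2, q3⟩ := hF.2 (ε / 4 * ζ ^ 2) (by positivity)
    obtain ⟨q', r1, r2, r3⟩ := H1 q q1 q2 (ε / 4) (by positivity)
    refine ⟨q', r1, r2, ?_⟩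
    filter_upwards [q3, r3, hF.1, hR.eqv L _ _ q1, hR.eqv L _ _ r1, eventually_gt_atTop 0]
      with n h1 h2 h3 h4 h5 hn
    obtain ⟨k1, k2⟩ := hB.m2_Rz _ _ (sk β ρ n) ζ _ hn hζ (m2_sub (h3.1 (x0 n)) (h4.1 (x0 n)))
    have := sq_add k1 (m2_sub (hB.m2_Rz _ _ (sk β ρ n) ζ _ hn hζ (h4.1 (x0 n))).1 (h5.1 (x0 n)))
    rw [n2_0] at h1 h2 ⊢
    have k3 := k2.trans ((div_le_iff₀ (by positivity)).2 h1)
    rw [Rz_sub'] at this k3
    rw [sub_add_sub_cancel] at this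
    exact this.trans (le_of_le_of_eq (add_le_add (mul_le_mul_of_nonneg_left k3 two_pos.le)
      (mul_le_mul_of_nonneg_left h2.1 two_pos.le)) (by ring))
  have ad : ∀ G : F0 L, Adm G → Adm (cen β ρ ζ G) := fun G h => Adm.lin h (Adm.rz hB hS hζ h) ζ
  obtain ⟨B', hb'⟩ := hW.2.1
  refine hL.ws L _ _ ⟨ad F hF, ⟨4 * B, ?_⟩, fun q q1 q2 => cv_near fun ε hε => ?_⟩
    (hL.tclosed L _ _ (ad F hF) fun ε hε => ?_)
  · filter_upwards [hF, hb, eventually_gt_atTop 0] with n h1 h2 hn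
    rw [n2_0] at h2 ⊢
    exact (cen_m2 hB hn hζ (h1.1 _)).2.trans (by linarith)
  · obtain ⟨B2, hb2⟩ := id q2
    obtain ⟨q', r1, r2, r3⟩ := H1 q q1 q2 ((ε / 2) ^ 2 / (|B'| + 1)) (by positivity)
    refine ⟨_, (hE L β ρ q' r1 r2).2 F hF hW, ?_⟩
    filter_upwards [hF, hb, hb', hb2, r3, hW.1, hR.eqv L _ _ q1, hR.eqv L _ _ r1,
      eventually_gt_atTop 0, ev_div ((B2 + B) / (2 * ζ)) (ε / 2) (half_pos hε)]
      with n h1 h2 h3 h4 h5 h6 h7 h8 hn h9
    have mu := (hB.m2_Rz _ _ (sk β ρ n) ζ _ hn hζ (h7.1 (x0 n))).1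
    have k1 := abs_rem hB (S := sk β ρ n) hn hζ (h7.1 (x0 n)) (h1.1 (x0 n))
    have k2 := hB.en_cs _ _ (sk β ρ n) _ _ (h1.1 (x0 n)) (m2_sub mu (h8.1 (x0 n)))
    have k3 := en_dF hn h6.1
    have k4 := map_sub (EB hB (sk β ρ n) ⟨_, h1.1 (x0 n)⟩) ⟨_, mu⟩ ⟨_, h8.1 (x0 n)⟩
    have k5 : |(sk β ρ n).En (F n (x0 n)) ((sk β ρ n).Rz ζ (q n (x0 n)) - q' n (x0 n))| ≤ ε / 2 := by
      refine abs_le_of_sq_le_sq (k2.trans ((mul_le_mul (show _ ≤ |B'| + 1 from k3.trans (by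
        linarith [le_abs_self B', abs_nonneg B'])) h5.2 (hB.en_le _ _ _ _
          (m2_sub mu (h8.1 (x0 n)))).1 (by positivity)).trans_eq ?_)) (by positivity)
      field_simp
    rw [n2_0] at h2 h4
    have k6 : (sq (q n (x0 n)) + sq (F n (x0 n))) / (2 * ζ) / n ≤ (B2 + B) / (2 * ζ) / n := by gcongr
    rw [ipx_0, show cen β ρ ζ F n (x0 n) = F n (x0 n) - ζ • (sk β ρ n).Rz ζ (F n (x0 n)) from rfl,
      ip_cen hB hn hζ (h1.1 _) (h7.1 _), add_sub_right_comm]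
    refine (abs_add_le _ _).trans ?_
    change (sk β ρ n).En _ (_ - _) = (sk β ρ n).En _ _ - enx β ρ F q' n at k4
    rw [← k4]
    linarith
  · obtain ⟨D, hD⟩ := hT (ε / 4) (by positivity)
    choose! w hw using eventually_atTop.1 hD |>.choose_spec
    have hw' := (eventually_ge_atTop _).mono hw
    have aw : Adm (L := L) (C := Empty) w := hw'.mono fun n h => ⟨fun x => m2_pl (h.1 x), h.2.1⟩
    refine ⟨cen β ρ ζ w, ad w aw, hL.ti_c1 L _ _ ((2 + 2 * ζ ^ 2) * (D * (2 * B + 2 * (ε / 4)))) ?_, ?_⟩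
    · filter_upwards [hw', ad w aw, hF, hb, eventually_gt_atTop 0] with n h1 h2 h3 h4 hn
      obtain ⟨b1, b2, -⟩ := hH.bern D _ _ (h1.1 (x0 n))
      obtain ⟨c1, c2, -⟩ := (hC' n hn).2 _ b1
      obtain ⟨d1, d2⟩ := en_sub b1.1 c1.1 ζ
      refine ⟨h2.2, fun x => by rw [x_eq x]; exact d1, ?_⟩
      have k1 := sq_sub (h3.1 (x0 n)) (m2_sub (h3.1 (x0 n)) (m2_pl (h1.1 (x0 n))))
      have k2 := h1.2.2
      rw [sub_sub_cancel] at k1
      rw [av0] at k2 ⊢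
      rw [n2_0] at h4
      have k3 : en (w n (x0 n)) ≤ D * (2 * B + 2 * (ε / 4)) :=
        b2.trans (mul_le_mul_of_nonneg_left (k1.trans (add_le_add (by linarith)
          (mul_le_mul_of_nonneg_left k2 two_pos.le))) (Nat.cast_nonneg _))
      have k4 := mul_le_mul_of_nonneg_left (c2.trans k3) (sq_nonneg ζ)
      exact d2.trans (by linarith)
    · filter_upwards [hw', hF, eventually_gt_atTop 0] with n h1 h3 hn
      have k1 := (cen_m2 hB (S := sk β ρ n) hn hζ (m2_sub (h3.1 (x0 n)) (m2_pl (h1.1 (x0 n))))).2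
      have k2 := h1.2.2
      rw [av0] at k2
      rw [Rz_sub', smul_sub, sub_sub_sub_comm] at k1
      rw [n2_0]
      exact k1.trans ((mul_le_mul_of_nonneg_left k2 (by norm_num)).trans_eq (by ring))

end Crest.Agent.T157.Lm

end
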