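import Crest.Agent.T157.LmDef_76

/-!
# Row 157, block B/S5 (helper99): rational polynomial families, structural facts
-/

set_option autoImplicit false

noncomputable section

namespace Crest.Agent.T157.Lm

open MeasureTheory Real Filter Topology Finset
open Crest.Agent.R238.Gap (E)
open Crest.Agent.T157.Hm (Pl)

namespace Rp99

variable {L : ℕ}

lemma co_pt {n : ℕ} (f : Ix L n → ℝ) (e : Ix L n) : co (pt f) e = f e := by simp [co, pt]

lemma co_act_l {n : ℕ} (p : Equiv.Perm (Fin n)) (z : E (Nv L n)) (a b : Fin n) :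
    co (act p z) (.inl s(p a, p b)) = co z (.inl s(a, b)) := by simp [act, co_pt]

lemma co_act_r {n : ℕ} (p : Equiv.Perm (Fin n)) (z : E (Nv L n)) (l : Fin L) (a : Fin n) :
    co (act p z) (.inr (l, p a)) = co z (.inr (l, a)) := by simp [act, co_pt]

lemma cg {C : Type} {F G : Fam L C} (h : RP C F) (e : ∀ n x z, F n x z = G n x z) : RP C G :=
  h.congr (Eventually.of_forall fun n => funext fun x => funext fun z => e n x z)

theorem reindex {C : Type} {F : Fam L C} (h : RP C F) : ∀ (C' : Type) (σ : C → C'),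
    RP C' fun n x z => F n (x ∘ σ) z := by
  induction h with
  | edge a b => exact fun C' σ => RP.edge (σ a) (σ b)
  | site l a => exact fun C' σ => RP.site l (σ a)
  | eq a b => exact fun C' σ => RP.eq (σ a) (σ b)
  | const h => exact fun C' σ => RP.const h
  | add _ _ h1 h2 => exact fun C' σ => (h1 C' σ).add (h2 C' σ)
  | mul _ _ h1 h2 => exact fun C' σ => (h1 C' σ).mul (h2 C' σ)
  | sum _ h =>
    refine fun C' σ => cg (h _ (Option.map σ)).sum fun n x z => sum_congr rfl fun i _ => ?_
    congr 1
    funext o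
    cases o <;> rfl
  | congr _ e h => exact fun C' σ => (h C' σ).congr (e.mono fun n hn => by rw [hn])

theorem sumV : ∀ (v : ℕ) (C : Type) (F : Fam L (C ⊕ Fin v)), RP (C ⊕ Fin v) F →
    RP C fun n x z => ∑ φ : Fin v → Fin n, F n (Sum.elim x φ) z
  | 0, C, F, h => by
    refine cg (reindex h C (Sum.elim id Fin.elim0)) fun n x z => ?_
    rw [Fintype.sum_unique]
    congr 1
    funext o
    rcases o with c | j
    · rfl
    · exact j.elim0
  | v + 1, C, F, h => by
    have h1 := sumV v (Option C) _ (reindex h (Option C ⊕ Fin v)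
      (Sum.elim (fun c => .inl (some c)) (Fin.cases (.inl none) .inr)))
    refine cg h1.sum fun n x z => ?_
    rw [← (Fin.consEquiv fun _ : Fin (v + 1) => Fin n).sum_comp, Fintype.sum_prod_type]
    refine sum_congr rfl fun i _ => sum_congr rfl fun φ _ => ?_
    congr 1
    funext o
    rcases o with c | j
    · rfl
    · refine Fin.cases ?_ (fun j => ?_) j <;> rfl

theorem deg {C : Type} {F : Fam L C} (h : RP C F) :
    ∃ D, ∀ᶠ n in atTop, ∀ x, F n x ∈ Pl _ D := by
  have hc : ∀ n (e : Ix L n), (fun z => co z e) ∈ Pl (Nv L n) 2 := fun n e => by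
    simpa [co] using Hm.mulX_mem (ix L n e) (Hm.const_mem (m := Nv L n) 0 1)
  induction h with
  | edge a b => exact ⟨2, Eventually.of_forall fun n x => hc n _⟩
  | site l a => exact ⟨2, Eventually.of_forall fun n x => hc n _⟩
  | eq a b => exact ⟨1, Eventually.of_forall fun n x => Hm.const_mem 0 _⟩
  | const h => exact ⟨1, Eventually.of_forall fun n x => Hm.const_mem 0 _⟩
  | add _ _ h1 h2 =>
    obtain ⟨D, h1⟩ := h1
    obtain ⟨D', h2⟩ := h2
    exact ⟨D + D', (h1.and h2).mono fun n h x => Hm.add_mem'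
      (Hm.mono (Nat.le_add_right _ _) (h.1 x)) (Hm.mono (Nat.le_add_left _ _) (h.2 x))⟩
  | mul _ _ h1 h2 =>
    obtain ⟨D, h1⟩ := h1
    obtain ⟨D', h2⟩ := h2
    exact ⟨D + D', (h1.and h2).mono fun n h x => Hm.mul_mem (Hm.le_succ _ (h.1 x)) (h.2 x)⟩
  | sum _ h =>
    obtain ⟨D, h⟩ := h
    exact ⟨D, h.mono fun n h x => Hm.sum_mem' _ fun i _ => h _⟩
  | congr _ e h =>
    obtain ⟨D, h⟩ := h
    exact ⟨D, (h.and e).mono fun n h x => h.2 ▸ h.1 x⟩

theorem eqv {C : Type} {F : Fam L C} (h : RP C F) : ∀ᶠ n in atTop, Eqv (F n) := by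
  induction h with
  | edge a b => exact Eventually.of_forall fun n p x z => co_act_l p z _ _
  | site l a => exact Eventually.of_forall fun n p x z => co_act_r p z l _
  | eq a b => exact Eventually.of_forall fun n p x z => by simp
  | const h => exact Eventually.of_forall fun n p x z => rfl
  | add _ _ h1 h2 => exact (h1.and h2).mono fun n h p x z => congrArg₂ _ (h.1 p x z) (h.2 p x z)
  | mul _ _ h1 h2 => exact (h1.and h2).mono fun n h p x z => congrArg₂ _ (h.1 p x z) (h.2 p x z)
  | sum _ h =>
    refine h.mono fun n h p x z => ?_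
    beta_reduce
    rw [← Equiv.sum_comp p]
    refine sum_congr rfl fun i _ => Eq.trans ?_ (h p (fun o => o.elim i x) z)
    congr 1
    funext o
    cases o <;> rfl
  | congr _ e h => exact (h.and e).mono fun n h => h.2 ▸ h.1

theorem adm {C : Type} {F : Fam L C} (h : RP C F) : Adm F := by
  obtain ⟨D, hD⟩ := deg h
  exact (hD.and (eqv h)).mono fun n h =>
    ⟨fun x => ⟨(Hm.c0 (h.1 x)).c.measurable, (Hm.c0 (h.1 x)).memLp⟩, h.2⟩

section rt
variable (hR : RtStmt)
include hR

lemma cst {C : Type} (c : ℝ) : RP (L := L) C fun _ _ _ => c := RP.const (hR.const c)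

lemma bn (β : ℝ) {C : Type} : RP (L := L) C fun n _ _ => β / √n :=
  RP.const (hR.congr _ _ (hR.mul _ _ (hR.const β) (hR.inv _ hR.sqrt))
    (Eventually.of_forall fun _ => (div_eq_mul_inv _ _).symm))

lemma sub {C : Type} {F G : Fam L C} (hF : RP C F) (hG : RP C G) :
    RP C fun n x z => F n x z - G n x z :=
  cg (hF.add ((cst hR (-1)).mul hG)) fun _ _ _ => by ring

theorem fsum {C ι : Type} (S : Finset ι) (F : ι → Fam L C) (h : ∀ i ∈ S, RP C (F i)) :
    RP C fun n x z => ∑ i ∈ S, F i n x z := by
  classical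
  induction S using Finset.induction_on with
  | empty => exact cg (cst hR 0) fun _ _ _ => by simp
  | insert a S ha ih =>
    exact cg ((h a (mem_insert_self _ _)).add (ih fun i hi => h i (mem_insert_of_mem hi)))
      fun _ _ _ => by rw [sum_insert ha]

theorem fprod {C ι : Type} (S : Finset ι) (F : ι → Fam L C) (h : ∀ i ∈ S, RP C (F i)) :
    RP C fun n x z => ∏ i ∈ S, F i n x z := by
  classical
  induction S using Finset.induction_on with
  | empty => exact cg (cst hR 1) fun _ _ _ => by simp
  | insert a S ha ih =>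
    exact cg ((h a (mem_insert_self _ _)).mul (ih fun i hi => h i (mem_insert_of_mem hi)))
      fun _ _ _ => by rw [prod_insert ha]

theorem jm (β : ℝ) {C : Type} (a b : C) : RP (L := L) C fun _ x z => Jm β z (x a) (x b) :=
  cg ((sub hR (cst hR 1) (RP.eq a b)).mul ((bn hR β).mul ((RP.edge a b).add (bn hR β))))
    fun n x z => by
      simp only [Jm, Matrix.of_apply]
      split_ifs <;> simp

theorem refl (hB : BasStmt) (β : ℝ) (ρ : Fin L → ℝ) {C : Type} {F : Fam L C} (h : RP C F) :
    ∀ a : C, RP C fun n x z => F n x ((sk β ρ n).R (x a) z) := by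
  induction h with
  | edge b c =>
    intro a
    refine cg ((RP.edge b c).add ((sub hR ((RP.eq a b).add (RP.eq a c))
      ((RP.eq a b).mul (RP.eq a c))).mul (sub hR ((cst hR (-2)).mul (RP.edge b c))
        ((cst hR 2).mul ((sub hR (cst hR 1) (RP.eq b c)).mul (bn hR β)))))) fun n x z => ?_
    simp only [co, hB.R_apply, sk, Equiv.symm_apply_apply, Sym2.mem_iff, Sym2.mk_isDiag_iff,
      decide_eq_true_eq]
    by_cases h1 : x a = x b <;> by_cases h2 : x a = x c <;> by_cases h3 : x b = x c <;>
      simp only [h1, h2, h3, if_true, if_false, or_true, or_false] <;> simp_all <;> ring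
  | site l b =>
    intro a
    refine cg ((RP.site l b).add ((RP.eq b a).mul (sub hR ((cst hR (-2)).mul (RP.site l b))
      (cst hR (2 * ρ l))))) fun n x z => ?_
    simp only [co, hB.R_apply, sk, Equiv.symm_apply_apply, decide_eq_true_eq]
    split_ifs <;> ring
  | eq b c => exact fun a => RP.eq b c
  | const h => exact fun a => RP.const h
  | add _ _ h1 h2 => exact fun a => (h1 a).add (h2 a)
  | mul _ _ h1 h2 => exact fun a => (h1 a).mul (h2 a)
  | sum _ h => exact fun a => (h (some a)).sum
  | congr _ e h => exact fun a => (h a).congr (e.mono fun n hn => by rw [hn])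

end rt

end Rp99

open Rp99 in
theorem rpGlue : RpGlue := fun hB hR hS =>
  { reindex := fun _ _ C' σ _ h => reindex h C' σ
    fsum := fun _ _ _ S F h => fsum hR S F h
    fprod := fun _ _ _ S F h => fprod hR S F h
    smul := fun _ _ _ _ hρ h => (RP.const hρ).mul h
    sub := fun _ _ _ _ hF hG => sub hR hF hG
    sumV := fun _ C v F h => sumV v C F h
    deg := fun _ _ _ h => deg h
    eqv := fun _ _ _ _ _ h => adm h
    refl := fun _ β ρ _ a _ h => refl hR hB β ρ h a
    dF := fun _ β ρ F h => by
      have h1 := reindex h Unit Empty.elim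
      refine cg ((RP.const hR.sqrt).mul (sub hR (refl hR hB β ρ h1 ()) h1)) fun n x z => ?_
      rw [show x ∘ Empty.elim = x0 n from funext fun e => e.elim]
      rfl
    Jm := fun _ β _ a b => jm hR β a b
    h := fun L β ρ => cg ((jm hR β (some ()) none).sum.add (fsum hR univ _ fun l _ =>
      (cst hR (ρ l)).mul ((RP.site l ()).add (cst hR (ρ l))))) fun n x z =>
        (hS.h_eq L β ρ n _ z).symm }

end Crest.Agent.T157.Lm

end
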