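import Crest.Agent.T157.LmDef_76

/-!
# Row 157, block B/S5 (helper66): germs of rational functions of powers of `n` (`Lm.RtStmt`)
-/

set_option autoImplicit false

noncomputable section

namespace Crest.Agent.T157.Lm

open Real Filter Topology Finset

namespace Rt66

variable {a b : ℕ → ℝ}

lemma ev_pos : ∀ᶠ n : ℕ in atTop, (0 : ℝ) < n := (eventually_gt_atTop 0).mono fun _ => Nat.cast_pos.2

lemma gp_congr (h : GP a) (e : ∀ᶠ n in atTop, a n = b n) : GP b := by
  obtain ⟨S, c, h⟩ := h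
  exact ⟨S, c, (h.and e).mono fun _ h => h.2.symm.trans h.1⟩

lemma gp_mono (c s : ℝ) : GP fun n => c * (n : ℝ) ^ s :=
  ⟨{s}, fun _ => c, .of_forall fun _ => by rw [sum_singleton]⟩

lemma gp_const (c : ℝ) : GP fun _ => c := by simpa using gp_mono c 0

lemma gp_add (h : GP a) (k : GP b) : GP fun n => a n + b n := by
  obtain ⟨S, c, h⟩ := h
  obtain ⟨S', c', k⟩ := k
  refine ⟨S ∪ S', fun s => (if s ∈ S then c s else 0) + if s ∈ S' then c' s else 0,
    (h.and k).mono fun n h => ?_⟩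
  simp only [h.1, h.2, add_mul, ite_mul, zero_mul, sum_add_distrib, sum_ite_mem,
    union_inter_cancel_left, union_inter_cancel_right]

lemma gp_sum {ι : Type} (S : Finset ι) {a : ι → ℕ → ℝ} (h : ∀ i ∈ S, GP (a i)) :
    GP fun n => ∑ i ∈ S, a i n := by
  induction S using Finset.cons_induction with
  | empty => simpa using gp_const 0
  | cons i S hi ih =>
    simpa only [sum_cons] using
      gp_add (h i (mem_cons_self _ _)) (ih fun j hj => h j (mem_cons_of_mem hj))

lemma gp_mul (h : GP a) (k : GP b) : GP fun n => a n * b n := by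
  obtain ⟨S, c, h⟩ := h
  obtain ⟨S', c', k⟩ := k
  refine gp_congr (gp_sum S fun s _ => gp_sum S' fun s' _ => gp_mono (c s * c' s') (s + s'))
    ((h.and (k.and ev_pos)).mono fun n h => ?_)
  simp only [h.1, h.2.1, sum_mul_sum, rpow_add h.2.2, mul_mul_mul_comm]

lemma tend_neg {s : ℝ} (h : s < 0) : Tendsto (fun n : ℕ => (n : ℝ) ^ s) atTop (𝓝 0) := by
  simpa [Function.comp_def] using
    (tendsto_rpow_neg_atTop (neg_pos.2 h)).comp tendsto_natCast_atTop_atTop

/-- the dichotomy -/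
def Di (a : ℕ → ℝ) : Prop := (∀ᶠ n in atTop, a n = 0) ∨
  ∃ s κ : ℝ, κ ≠ 0 ∧ Tendsto (fun n : ℕ => a n / (n : ℝ) ^ s) atTop (𝓝 κ)

lemma gp_di (h : GP a) : Di a := by
  obtain ⟨S, c, h⟩ := h
  have h' : ∀ᶠ n : ℕ in atTop, a n = ∑ s ∈ S with c s ≠ 0, c s * (n : ℝ) ^ s :=
    h.mono fun n h => h.trans (sum_filter_of_ne fun _ _ => left_ne_zero_of_mul).symm
  rcases (S.filter (c · ≠ 0)).eq_empty_or_nonempty with e | e
  · exact .inl (h'.mono fun n h => by rw [h, e, sum_empty])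
  have m := max'_mem _ e
  refine .inr ⟨max' _ e, _, (mem_filter.1 m).2, ?_⟩
  have t := tendsto_finsetSum (S.filter (c · ≠ 0)) (x := atTop)
    (f := fun s (n : ℕ) => c s * (n : ℝ) ^ (s - max' _ e))
    (a := fun s => if s = max' _ e then c s else 0) fun s hs => by
      split_ifs with h0
      · simp [h0]
      · simpa using (tend_neg (sub_neg.2 ((le_max' _ s hs).lt_of_ne h0))).const_mul (c s)
  rw [sum_ite_eq', if_pos m] at t
  refine t.congr' ((h'.and ev_pos).mono fun n h => ?_)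
  simp only [h.1, sum_div, rpow_sub h.2, mul_div_assoc]

lemma ne_of {s κ : ℝ} (h : κ ≠ 0) (t : Tendsto (fun n : ℕ => a n / (n : ℝ) ^ s) atTop (𝓝 κ)) :
    ∀ᶠ n in atTop, a n ≠ 0 := (t.eventually_ne h).mono fun _ h e => h (by rw [e, zero_div])

lemma of_gp (h : GP a) : Rt a := ⟨a, _, h, gp_const 1, .of_forall fun _ => by simp⟩

lemma congr (h : Rt a) (e : ∀ᶠ n in atTop, a n = b n) : Rt b := by
  obtain ⟨p, q, hp, hq, h⟩ := h
  exact ⟨p, q, hp, hq, (h.and e).mono fun _ h => ⟨h.1.1, h.2.symm.trans h.1.2⟩⟩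

lemma add (h : Rt a) (k : Rt b) : Rt fun n => a n + b n := by
  obtain ⟨p, q, hp, hq, h⟩ := h
  obtain ⟨p', q', hp', hq', k⟩ := k
  exact ⟨_, _, gp_add (gp_mul hp hq') (gp_mul hq hp'), gp_mul hq hq', (h.and k).mono fun n h =>
    ⟨mul_ne_zero h.1.1 h.2.1, by simp only [h.1.2, h.2.2, div_add_div _ _ h.1.1 h.2.1]⟩⟩

lemma mul (h : Rt a) (k : Rt b) : Rt fun n => a n * b n := by
  obtain ⟨p, q, hp, hq, h⟩ := h
  obtain ⟨p', q', hp', hq', k⟩ := k
  exact ⟨_, _, gp_mul hp hp', gp_mul hq hq', (h.and k).mono fun n h =>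
    ⟨mul_ne_zero h.1.1 h.2.1, by simp only [h.1.2, h.2.2, div_mul_div_comm]⟩⟩

lemma inv (h : Rt a) : Rt fun n => (a n)⁻¹ := by
  obtain ⟨p, q, hp, hq, h⟩ := h
  rcases gp_di hp with e | ⟨s, κ, h0, t⟩
  · exact congr (of_gp (gp_const 0)) ((h.and e).mono fun n h => by simp [h.1.2, h.2])
  · exact ⟨q, p, hq, hp, (h.and (ne_of h0 t)).mono fun n h => ⟨h.2, by simp only [h.1.2, inv_div]⟩⟩

lemma di (h : Rt a) : Di a := by
  obtain ⟨p, q, hp, hq, h⟩ := h
  rcases gp_di hp with e | ⟨s, κ, h0, t⟩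
  · exact .inl ((h.and e).mono fun n h => by rw [h.1.2, h.2, zero_div])
  rcases gp_di hq with e | ⟨s', κ', h0', t'⟩
  · obtain ⟨n, h⟩ := (h.and e).exists
    exact absurd h.2 h.1.1
  refine .inr ⟨s - s', κ / κ', div_ne_zero h0 h0', (t.div t' h0').congr' ?_⟩
  filter_upwards [h, ev_pos] with n h hn
  rw [Pi.div_apply, h.2, rpow_sub hn, div_div_div_comm]

lemma cv {B : ℝ} (h : Rt a) (hB : ∀ᶠ n in atTop, |a n| ≤ B) : Cv a := by
  rcases di h with e | ⟨s, κ, h0, t⟩
  · exact ⟨0, tendsto_const_nhds.congr' (e.mono fun _ => Eq.symm)⟩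
  rcases lt_trichotomy s 0 with hs | rfl | hs
  · exact ⟨_, (t.mul (tend_neg hs)).congr' (ev_pos.mono fun n hn =>
      div_mul_cancel₀ _ (rpow_pos_of_pos hn s).ne')⟩
  · exact ⟨κ, by simpa using t⟩
  refine absurd (tendsto_nhds_unique t (squeeze_zero_norm' ?_
    (by simpa using (tend_neg (neg_lt_zero.2 hs)).const_mul B))) h0
  filter_upwards [hB, ev_pos] with n h hn
  rw [norm_eq_abs, abs_div, abs_of_pos (rpow_pos_of_pos hn s), rpow_neg hn.le]
  exact div_le_div_of_nonneg_right h (rpow_pos_of_pos hn s).le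

lemma gp_poly (p : Polynomial ℝ) (s : ℝ) : GP fun n => p.eval ((n : ℝ) ^ s) := by
  simpa only [Polynomial.eval_eq_sum_range, rpow_mul_natCast (Nat.cast_nonneg _)] using
    gp_sum (range (p.natDegree + 1)) fun k _ => gp_mono (p.coeff k) (s * k)

end Rt66

open Rt66 in
/-- **task 948** -/
theorem rtStmt : RtStmt where
  const c := of_gp (gp_const c)
  rpow s := of_gp (by simpa using gp_mono 1 s)
  sqrt := of_gp (by simpa only [sqrt_eq_rpow, one_mul] using gp_mono 1 (1 / 2))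
  poly p q := of_gp (by
    simpa only [rpow_one, rpow_neg (Nat.cast_nonneg _), ← sqrt_eq_rpow] using
      gp_mul (gp_poly p 1) (gp_poly q (-(1 / 2))))
  add _ _ := add
  mul _ _ := mul
  inv _ := inv
  sum _ S a h := by
    induction S using Finset.cons_induction with
    | empty => simpa using of_gp (gp_const 0)
    | cons i S hi ih =>
      simpa only [sum_cons] using
        add (h i (mem_cons_self _ _)) (ih fun j hj => h j (mem_cons_of_mem hj))
  congr _ _ := congr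
  dich _ := di
  cv _ _ := cv

end Crest.Agent.T157.Lm

end
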