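import Crest.Agent.T157.LmDef_76

/-!
# Row 157, block B/S5 (helper32): quenched limits from annealed limits; second moment of `LR`
-/

set_option autoImplicit false

noncomputable section

namespace Crest.Agent.T157.Lm

open MeasureTheory ProbabilityTheory Real Filter Topology Finset Matrix
open Crest.ProbabilityR.SpinGlassDynamics (Pair disorderLaw gibbsWeight spin)
open Crest.Agent.R238.Gap (E)
open Crest.Agent.R253.Meh74 (gam)
open Crest.Agent.T157.E (Cube sv mean gen dir siteM prob Zw)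
open Crest.Agent.T157.Chain22 (sg)
open Crest.Agent.T157.Rn (fl)
open Crest.Agent.T157.Pl (one LR tau th cmul)

/-- **second moment of the likelihood ratio** -/
theorem lr2Stmt : Lr2Stmt := fun β h0 h1 => ⟨(√(1 - β ^ 2))⁻¹, fun n => by
  have e : ∀ g, LR false n β g ^ 2 = ∑ x, ∑ y, exp (g ⬝ᵥ (th n β • (tau x + tau y))) /
      Pl.EZ false n β ^ 2 := fun g => by
    rw [LR, Zw, div_pow, pow_two (∑ _, _), Finset.sum_mul_sum]
    simp only [Pl.gibbsWeight_eq, ← exp_add, smul_add, dotProduct_add, Finset.sum_div]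
  have i := fun x y : Cube n =>
    (Pl.integrable_exp_dot false (th n β • (tau x + tau y))).div_const (Pl.EZ false n β ^ 2)
  simp_rw [e]
  refine ⟨integrable_finsetSum _ fun x _ => integrable_finsetSum _ fun y _ => i x y, ?_⟩
  erw [integral_finsetSum _ fun x _ => integrable_finsetSum _ fun y _ => i x y]
  have b : ∀ x, ∫ g, ∑ y, exp (g ⬝ᵥ (th n β • (tau x + tau y))) / Pl.EZ false n β ^ 2
      ∂Pl.law false (Pair n) ≤ Pl.U n (β ^ 2) / 2 ^ n := fun x => by
    rw [integral_finsetSum _ fun y _ => i x y, Pl.U,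
      ← Pl.sum_overlap (fun s => exp (β ^ 2 / n * s ^ 2 / 2)) x, div_div, Finset.sum_div]
    refine Finset.sum_le_sum fun y _ => ?_
    rw [integral_div, Pl.integral_exp_dot, Pl.MM_false, Pl.EZ, Pl.M_false, ← exp_nat_mul, mul_pow,
      ← exp_nat_mul, mul_comm, ← div_div, ← exp_sub, pow_two ((2 : ℝ) ^ n), ← Pl.th_sq]
    gcongr
    simp only [smul_dotProduct, dotProduct_smul, add_dotProduct, dotProduct_add, Pl.tau_dot_self,
      Pl.card_pair, smul_eq_mul, dotProduct_comm (tau y) (tau x), Pl.tau_dot x y]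
    nlinarith [mul_nonneg (sq_nonneg (th n β)) (Nat.cast_nonneg (α := ℝ) n)]
  refine (Finset.sum_le_sum fun x _ => b x).trans ?_
  rw [Finset.sum_const, Finset.card_univ, nsmul_eq_mul, Pl.card_cube,
    mul_div_cancel₀ _ (by positivity)]
  exact Pl.U_le n (sq_nonneg β) (by nlinarith)⟩

namespace Lim32

variable {L n : ℕ}

lemma chi_cmul {m : ℕ} (S : GS m n) (s t : Cube n) (e : Fin m) :
    S.chi (cmul s t) e = S.chi s e * S.chi t e := by
  simp only [GS.chi, Pl.sv_cmul, ← Finset.prod_mul_distrib]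
  exact Finset.prod_congr rfl fun k _ => by split_ifs <;> simp

lemma gz_gz {m : ℕ} (S : GS m n) (s t : Cube n) (z : E m) :
    S.gz s (S.gz t z) = S.gz (cmul s t) z := by
  ext e; simp only [GS.gz, chi_cmul]; ring

lemma gz_one {m : ℕ} (S : GS m n) (z : E m) : S.gz (one n) z = z := by
  ext e; simp [GS.gz, GS.chi, Pl.sv_one]

lemma meas_gz {m : ℕ} (S : GS m n) (s : Cube n) : Measurable (S.gz s) := by
  unfold GS.gz; fun_prop

lemma D_gz {m : ℕ} (S : GS m n) (F : E m → ℝ) (z : E m) (σ : Cube n) (k : Fin n) :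
    S.D k F (S.gz σ z) = S.orb F z (fl σ k) - S.orb F z σ := by
  have : cmul (fl (one n) k) σ = fl σ k := by
    funext i; by_cases h : i = k
    · subst h; simp [cmul, fl, Pl.one]
    · simp [cmul, fl, Pl.one, Function.update_of_ne h]
  rw [GS.D, GS.R, gz_gz, this]; rfl

lemma dir_le {w f : Cube n → ℝ} (hw : ∀ x, 0 < w x) {B : ℝ}
    (h : ∀ x, ∑ k, (f (fl x k) - f x) ^ 2 ≤ B) : dir w f ≤ B := by
  have W : SL.Wt w := SL.Wt.of_pos hw
  rw [dir, Finset.sum_comm, ← W.mean_const B]
  refine Finset.sum_le_sum fun x _ => ?_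
  rw [← Finset.mul_sum]
  refine mul_le_mul_of_nonneg_left ((Finset.sum_le_sum fun k _ => ?_).trans (h x)) (W.prob_nonneg x)
  have key : ∀ a b p q : ℝ, 0 < a → 0 < b → (p - (a * p + b * q) / (a + b)) ^ 2 ≤ (q - p) ^ 2 :=
    fun a b p q ha hb => by
      rw [show p - (a * p + b * q) / (a + b) = b / (a + b) * (p - q) by field_simp; ring, mul_pow,
        ← neg_sub q, neg_sq]
      exact mul_le_of_le_one_left (sq_nonneg _)
        (pow_le_one₀ (by positivity) ((div_le_one (by positivity)).2 (by linarith)))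
  have u : Function.update x k (x k) = x := Function.update_eq_self k x
  unfold siteM fl
  cases hx : x k <;> rw [hx] at u
  · rw [u, add_comm (_ * _), add_comm (w _)]; exact key _ _ _ _ (hw _) (hw _)
  · rw [u]; exact key _ _ _ _ (hw _) (hw _)

variable (β : ℝ) (ρ : Fin L → ℝ)

lemma al_inl (e : Sym2 (Fin n)) :
    (sk β ρ n).α (ix L n (.inl e)) = if e.IsDiag then 0 else β / √n := by simp [sk]
lemma al_inr (p : Fin L × Fin n) : (sk β ρ n).α (ix L n (.inr p)) = ρ p.1 := by simp [sk]
lemma chi_inl (σ : Cube n) {a b : Fin n} (h : a ≠ b) :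
    (sk β ρ n).chi σ (ix L n (.inl s(a, b))) = sv σ a * sv σ b := by
  have : univ.filter (fun k => k = a ∨ k = b) = {a, b} := by ext k; simp
  simp only [GS.chi, sk, Equiv.symm_apply_apply, Sym2.mem_iff, decide_eq_true_eq]
  rw [← Finset.prod_filter, this, Finset.prod_pair h]
lemma co_pt (f : Ix L n → ℝ) (e : Ix L n) : co (pt f) e = f e := by simp [co, pt]
lemma co_gz (σ : Cube n) (z : E (Nv L n)) (e : Ix L n) : co ((sk β ρ n).gz σ z) e =
    (sk β ρ n).chi σ (ix L n e) * (co z e + (sk β ρ n).α (ix L n e)) - (sk β ρ n).α (ix L n e) := rfl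

/-- position of a pair -/
def ps (L : ℕ) (p : Pair n) : Fin (Nv L n) := ix L n (.inl s(p.1.1, p.1.2))
/-- the couplings of a point -/
def cp (z : E (Nv L n)) : Pair n → ℝ := fun p => z (ps L p) + th n β

lemma ps_inj : Function.Injective (ps L : Pair n → _) := fun p q h => by
  have h1 := Sym2.eq_iff.1 (Sum.inl_injective ((ix L n).injective h))
  have := p.2; have := q.2
  rcases h1 with h1 | h1
  · exact Subtype.ext (Prod.ext h1.1 h1.2)
  · omega

lemma mp_cp : MeasurePreserving (cp β : E (Nv L n) → _) (gam _) (Pl.pl false n β) := by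
  refine (Pl.mp_pl_false n β).comp (f := fun (z : E (Nv L n)) p => z (ps L p)) ⟨by fun_prop, ?_⟩
  rw [gam, ← map_pi_eq_stdGaussian, Measure.map_map (by fun_prop) (by fun_prop), disorderLaw,
    ← Measure.infinitePi_eq_pi, ← Measure.infinitePi_eq_pi]
  exact Measure.map_infinitePi_infinitePi_of_inj (P := fun _ => gaussianReal 0 1) ps_inj

lemma w_eq (z : E (Nv L n)) : (sk β 0 n).w z = gibbsWeight n β (cp β z) := by
  funext σ
  refine congrArg exp (Fintype.sum_of_injective (ps L) ps_inj _ _ (fun j hj => ?_) fun p => ?_).symm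
  · obtain ⟨e, rfl⟩ := (ix L n).surjective j
    rcases e with e | p
    · induction e using Sym2.ind with
      | _ a b =>
        rcases lt_trichotomy a b with h | rfl | h
        · exact (hj ⟨⟨(a, b), h⟩, rfl⟩).elim
        · simp [al_inl]
        · exact (hj ⟨⟨(b, a), h⟩, by rw [ps, Sym2.eq_swap]⟩).elim
    · simp [al_inr]
  · simp only [ps, al_inl, chi_inl β 0 σ p.2.ne, Sym2.mk_isDiag_iff, p.2.ne, if_false, cp, th, sv]
    ring

lemma co_zof (g : Pair n → ℝ) {a b : Fin n} (h : a ≠ b) :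
    co (zof L β g) (.inl s(a, b)) = Rn.O10.emb g s(a, b) - β / √n := by
  simp [zof, co_pt, h]

lemma cp_zof (g : Pair n → ℝ) : cp β (zof L β g) = g := funext fun p => by
  change co _ (.inl s(p.1.1, p.1.2)) + β / √n = _
  rw [co_zof β g p.2.ne, sub_add_cancel, Rn.O10.emb_mk, E.Jmat_apply_lt _ p.2,
    mul_div_cancel₀ _ (Rn.O10.sqrt_ne p.1.1)]

lemma co_zof_cp (z : E (Nv L n)) {a b : Fin n} (h : a ≠ b) :
    co (zof L β (cp β z)) (.inl s(a, b)) = co z (.inl s(a, b)) := by
  rw [co_zof β _ h, sub_eq_iff_eq_add]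
  exact Rn.O10.off_emb (fun e => co z (.inl e) + β / √n) a b h

lemma gz_zof (σ : Cube n) (g : Pair n → ℝ) :
    (sk β 0 n).gz σ (zof L β (tau σ * g)) = zof L β g := by
  ext j
  obtain ⟨e, rfl⟩ := (ix L n).surjective j
  change co _ e = co _ e
  rw [co_gz]
  rcases e with e | p
  · induction e using Sym2.ind with
    | _ a b =>
      by_cases h : a = b
      · subst h; simp [al_inl, zof, co_pt]
      · rw [co_zof β _ h, co_zof β _ h, chi_inl β 0 σ h, al_inl, if_neg (by simpa using h),
          ← Rn.O10.gz_emb, Rn.O10.gz_mk, if_neg h, sub_add_cancel, ← mul_assoc]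
        have := Rn.O10.sg_sq (σ a)
        have := Rn.O10.sg_sq (σ b)
        change Tw.sg (σ a) * Tw.sg (σ b) * _ * _ - _ = _
        grind
  · simp [al_inr, zof, co_pt]

lemma meas_zof : Measurable (zof L β : (Pair n → ℝ) → _) := by
  refine (WithLp.measurable_toLp _ _).comp (measurable_pi_lambda _ fun j => ?_)
  rcases (ix L n).symm j with e | p
  · simp only [Sum.elim_inl]
    split_ifs
    · exact measurable_const
    · exact ((measurable_pi_apply e).comp Rn.O10.measurable_emb).sub_const _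
  · exact measurable_const

lemma orb_cp {F : F0 L} (hF : Ind F) (z : E (Nv L n)) :
    (sk β 0 n).orb (F n (x0 n)) (zof L β (cp β z)) = (sk β 0 n).orb (F n (x0 n)) z :=
  funext fun σ => hF n _ _ _ fun i j h => by rw [co_gz, co_gz, co_zof_cp β z h]

end Lim32

open Lim32 in
/-- **the planted averages converge** -/
theorem limGlue : LimGlue := by
  intro ba sk' li sg' L β F B hI hA hB hC hD
  refine ⟨obs β F, B, Top.whp_of_eventually (.of_forall fun n g => ⟨0, fun x => (add_zero _).symm⟩),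
    ?_, fun t ht => ?_⟩
  · filter_upwards [hA, hD] with n h1 h2
    refine ⟨fun x => (h1.1 _).1.comp ((meas_gz _ x).comp (meas_zof β)), fun g =>
      dir_le (E.gibbsWeight_pos β g) fun x => ?_⟩
    simpa only [D_gz, obs] using h2 ((sk β 0 n).gz x (zof L β g))
  have hG := (sg' L β 0 F hA hB hC t ht).2
  obtain ⟨l, hl⟩ := li.cv L Empty _ _ (li.wk L Empty _ hG).1 hG
  refine ⟨l, hl.congr' ?_⟩
  filter_upwards [hA, eventually_gt_atTop 0] with n h1 hn
  set K := (sk β 0 n).L ((sk β 0 n).T t (F n (x0 n))) with hK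
  have mK : M2 K := ba.m2_L _ _ _ _ (ba.m2_T _ _ _ t _ hn ht.le (h1.1 _)).1
  have oK : ∀ z, (sk β 0 n).orb K z = gen ((sk β 0 n).w z)
      (sg ((sk β 0 n).w z) t ((sk β 0 n).orb (F n (x0 n)) z)) := fun z => by
    rw [hK, ba.orb_L, ba.orb_T _ _ _ _ _ _ hn]
  have iK : ∀ z, K (zof L β (cp β z)) = K z := fun z => by
    have := congrFun (oK (zof L β (cp β z))) (one n)
    rw [orb_cp β hI, w_eq, cp_zof, ← w_eq, ← oK] at this
    simpa only [GS.orb, gz_one] using this
  have mG : Measurable fun g => K (zof L β g) ^ 2 := (mK.1.comp (meas_zof β)).pow_const 2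
  have iG : Integrable (fun g => K (zof L β g) ^ 2) (Pl.pl false n β) :=
    ((mp_cp (L := L) β).integrable_comp mG.aestronglyMeasurable).1 (by
      simpa only [Function.comp_def, iK] using mK.2.integrable_sq)
  have e := Pl.planted_inv false β (F := fun x g => K ((sk β 0 n).gz x (zof L β g)) ^ 2)
    (fun x g => by rw [gz_zof]) iG
  rw [← (mp_cp (L := L) β).map_eq, integral_map (mp_cp β).measurable.aemeasurable
    mG.aestronglyMeasurable] at e
  simp only [iK] at e
  have e2 : ∀ g, kk β (obs β F) t n g =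
      mean (gibbsWeight n β g) fun x => K ((sk β 0 n).gz x (zof L β g)) ^ 2 := fun g => by
    have := oK (zof L β g)
    rw [w_eq, cp_zof] at this
    rw [kk, obs, ← this]; rfl
  simp only [e2]
  refine Eq.trans ?_ e.symm
  simp only [ipx, av, Fintype.sum_unique, Fintype.card_eq_zero, pow_zero, div_one, pow_two]
  rw [Subsingleton.elim (default : Empty → Fin n) (x0 n)]
  rfl

end Crest.Agent.T157.Lm

end
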