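import Crest.Agent.T157.LmDefB_76
import Crest.Agent.T157.LmLim_32

/-!
# Row 157, block B/S5 (helper10): the seam between networks and the limit theory
-/

set_option autoImplicit false

noncomputable section

namespace Crest.Agent.T157.Lm

open MeasureTheory Real Filter Topology Matrix
open Crest.ProbabilityR.SpinGlassDynamics (Pair disorderLaw gibbsWeight)
open Crest.Agent.R238.Gap (E)
open Crest.Agent.R253.Meh74 (gam)
open Crest.Agent.T157.E (Cube sv mean Jmat)
open Crest.Agent.T157.Tap (V Mx)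
open Crest.Agent.T157.Eig (opn nrm)
open Crest.Agent.T157.Pl (one cmul)
open Crest.Agent.T157.Rn (fl)
open Crest.Agent.T157.Rec (grad)

namespace Seam10

variable {L n : ℕ} {β B : ℝ}

lemma Jm_symm (z : E (Nv L n)) : (Jm β z)ᵀ = Jm β z := by
  ext i j
  simp only [Jm, transpose_apply, of_apply, Sym2.eq_swap (a := j), eq_comm (a := j)]

lemma Jm_lip (S : SkStmt) (z z' : E (Nv L n)) :
    √n * opn (Jm β z - Jm β z') ≤ 4 * |β| * ‖z - z'‖ := by
  have h0 := Eig.opn_nonneg (Jm β z)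
  have h1 := Eig.opn_nonneg (Jm β z')
  have e : ∀ y : E (Nv L n), opn (Jm β y) ≤ opn (Jm β z) + opn (Jm β z') + 1 →
      Jt β (opn (Jm β z) + opn (Jm β z') + 1) y = Jm β y := fun y hy => by
    rw [Jt, max_eq_left ((div_le_one (by linarith)).2 hy), inv_one, one_smul]
  have h := (S.Jt_lip L β (opn (Jm β z) + opn (Jm β z') + 1) n z z' (by linarith)).2
  rw [e z (by linarith), e z' (by linarith)] at h
  refine (mul_le_mul_of_nonneg_left h (sqrt_nonneg _)).trans ?_
  rw [← mul_assoc]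
  refine mul_le_mul_of_nonneg_right ?_ (norm_nonneg _)
  rw [mul_div_assoc', mul_comm, mul_div_assoc]
  exact mul_le_of_le_one_right (by positivity) (div_self_le_one _)

lemma Jm_gz (S : SkStmt) (σ : Cube n) (z : E (Nv L n)) :
    Jm β ((sk β 0 n).gz σ z) = cj σ (Jm β z) := by
  ext i j
  rw [S.Jm_gz, cj, mul_diagonal, diagonal_mul]; ring

lemma Jm_act (S : SkStmt) (p : Equiv.Perm (Fin n)) (z : E (Nv L n)) :
    Jm β (act p z) = (Jm β z).submatrix p.symm p.symm := by
  ext i j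
  simpa using S.Jm_act L β n p z (p.symm i) (p.symm j)

lemma Jm_zof (g : Pair n → ℝ) : Jm β (zof L β g) = β • Jmat n g := by
  ext i j
  rw [Jm, of_apply, Matrix.smul_apply, smul_eq_mul]
  split_ifs with h
  · rw [h, E.Jmat_diag, mul_zero]
  · rw [Lim32.co_zof β g h, sub_add_cancel, Rn.O10.emb_mk, ← mul_assoc,
      div_mul_cancel₀ _ (Rn.O10.sqrt_ne i)]

lemma c0_lip {m : ℕ} {F : E m → ℝ} (hB : 0 ≤ B) (hF : ∀ z z', |F z - F z'| ≤ B * ‖z - z'‖) :
    Hm.C0 F := by
  refine ⟨(LipschitzWith.of_dist_le_mul (K := ⟨B, hB⟩) fun x y => by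
    rw [Real.dist_eq, dist_eq_norm]; exact hF x y).continuous, |F 0| + B, 1, fun x => ?_⟩
  have h1 := hF x 0
  have h2 := abs_sub_abs_le_abs_sub (F x) (F 0)
  have h3 := mul_nonneg (abs_nonneg (F 0)) (norm_nonneg x)
  rw [sub_zero] at h1
  nlinarith

lemma pr_const {m : ℕ} (F : E m → ℝ) (z : E m) : Hm.pr 1 F z = Hm.pr 1 F 0 := by
  obtain ⟨c, r, hr, e⟩ := Hm.mem_succ.1 (Hm.pr_mem 1 F)
  have : ∀ j, r j = 0 := fun j => Hm.mem_zero.1 (hr j)
  rw [e]; simp [this]

section cov
variable {Φ : Mx n → Cube n → ℝ} (h : Cov Φ B)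
include h

lemma B0 : 0 ≤ B := (Finset.sum_nonneg fun _ _ => mul_self_nonneg _).trans (h.grad 0 (one n) (by simp))

lemma cj_one {J : Mx n} (hJ : Jᵀ = J) (σ : Cube n) : Φ (cj σ J) (one n) = Φ J σ := by
  rw [← Pl.cmul_self σ, h.gauge J σ σ hJ]

lemma lip (S : SkStmt) (z z' : E (Nv L n)) :
    |Φ (Jm β z) (one n) - Φ (Jm β z') (one n)| ≤ B * (4 * |β|) * ‖z - z'‖ := by
  rw [mul_assoc]
  exact (h.lip _ _ _ (Jm_symm z) (Jm_symm z')).trans
    (mul_le_mul_of_nonneg_left (Jm_lip S z z') (B0 h))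

lemma D_eq (S : SkStmt) (c : ℝ) (k : Fin n) (z : E (Nv L n)) :
    (sk β 0 n).D k (fun z => Φ (Jm β z) (one n) - c) z = -2 * grad (Φ (Jm β z)) (one n) k := by
  rw [GS.D, GS.R, Jm_gz S, cj_one h (Jm_symm z), Rec.grad_eq, Pl.sv_one, Pi.one_apply]
  change _ = -2 * (1 * (_ - Φ _ (fl _ _)) / 2)
  ring

lemma grad_cj {J : Mx n} (hJ : Jᵀ = J) (s x : Cube n) :
    grad (Φ (cj s J)) (cmul s x) = sv s * grad (Φ J) x := by
  funext i
  have e : Rec.fl (cmul s x) i = cmul s (Rec.fl x i) := by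
    rw [Rec.fl, Rec.fl, Pl.cmul_update]
    congr 1
    unfold cmul; cases s i <;> cases x i <;> rfl
  rw [Pi.mul_apply, Rec.grad_eq, Rec.grad_eq, e, h.gauge J s x hJ, h.gauge J s _ hJ, Pl.sv_cmul,
    Pi.mul_apply]
  ring

end cov

lemma EN_le {ι : Type} [Fintype ι] (c d : ι → ℝ) {X : Z.Nt ι} {M : ℝ}
    (hM : ∀ n J a i, |X n J a i| ≤ M) (J : Mx n) (σ : V n) (i : Fin n) : |EN c d X n J σ i| ≤ M := by
  have : IsProbabilityMeasure (Z.RL c d σ) := Measure.isProbabilityMeasure_map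
    (show Continuous (Z.rows c d σ) by unfold Z.rows; fun_prop).measurable.aemeasurable
  simpa [EN] using norm_integral_le_of_norm_le_const (μ := Z.RL c d σ) (f := fun a => X n J a i) (C := M)
    (.of_forall fun a => hM n J a i)

/-- the planted family -/
def FF (β : ℝ) (Φ : Of) : F0 0 := fun n _ z =>
  Φ n (Jm β z) (one n) - Hm.pr 1 (fun z : E (Nv 0 n) => Φ n (Jm β z) (one n)) 0

/-- the error of the network -/
def HH {ι : Type} [Fintype ι] (Φ : Of) (c d : ι → ℝ) (X : Z.Nt ι) : Of := fun n J x =>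
  nrm (√n • grad (Φ n J) x - EN c d X n J (sv x)) ^ 2 / n

lemma D_FF {Φ : Of} (h : Cov (Φ n) B) (S : SkStmt) (k : Fin n) (z : E (Nv 0 n)) :
    (sk β 0 n).D k (FF β Φ n (x0 n)) z = -2 * grad (Φ n (Jm β z)) (one n) k := D_eq h S _ k z

lemma nrm2 (v : V n) : nrm v ^ 2 = ∑ i, v i ^ 2 := by
  rw [Eig.nrm_sq]; simp only [dotProduct, pow_two]

end Seam10

open Seam10 in
/-- **the seam** -/
theorem seamGlue : SeamGlue := by
  intro _ _ hy S li lim tr net lay β b0 b1 Φ B hC hN
  have hl : ∀ᶠ n in atTop, Eqv (FF β Φ n) ∧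
      ∀ x z z', |FF β Φ n x z - FF β Φ n x z'| ≤ B * (4 * |β|) * ‖z - z'‖ := by
    filter_upwards [hC] with n h
    refine ⟨fun p x z => ?_, fun x z z' => ?_⟩
    · simp only [FF, Jm_act S]
      exact congrArg (· - _) (h.perm _ p.symm (one n) (Jm_symm z))
    · simp only [FF, sub_sub_sub_cancel_right]
      exact lip h S z z'
  have hA : Adm (FF β Φ) := by
    filter_upwards [hC, hl] with n h h1
    refine ⟨fun x => ?_, h1.1⟩
    have := c0_lip (mul_nonneg (B0 h) (by positivity)) (h1.2 x)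
    exact ⟨this.c.measurable, this.memLp⟩
  have hD : ∀ᶠ n in atTop, ∀ z, ∑ k, (sk β 0 n).D k (FF β Φ n (x0 n)) z ^ 2 ≤ 4 * B := by
    filter_upwards [hC] with n h z
    have := h.grad _ (one n) (Jm_symm (β := β) z)
    simp only [D_FF h S, mul_pow, ← Finset.mul_sum]
    simp only [dotProduct, ← pow_two] at this
    linarith
  have hA' : Adm (dF β 0 (FF β Φ)) := by
    filter_upwards [hA, hD] with n h1 h2
    refine ⟨fun x => ?_, (S.eqv_P 0 β 0 n _ h1.2).2.2.2⟩
    have m : Measurable (dF β 0 (FF β Φ) n x) :=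
      (((h1.1 _).1.comp (Lim32.meas_gz _ _)).sub (h1.1 _).1).const_mul _
    refine ⟨m, MemLp.of_bound m.aestronglyMeasurable (√n * √(4 * B)) (.of_forall fun z => ?_)⟩
    rw [dF, norm_mul, Real.norm_of_nonneg (sqrt_nonneg _)]
    refine mul_le_mul_of_nonneg_left (Real.abs_le_sqrt ?_) (sqrt_nonneg _)
    exact (Finset.single_le_sum (f := fun k => (sk β 0 n).D k (FF β Φ n (x0 n)) z ^ 2)
      (fun _ _ => sq_nonneg _) (Finset.mem_univ _)).trans (h2 z)
  have hW : Wk (dF β 0 (FF β Φ)) := by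
    refine li.wclosed _ _ _ hA' fun ε hε => ?_
    obtain ⟨ι, _, c, d, X, hX, ⟨M, hM⟩, hw⟩ := hN (ε / 8) (by positivity)
    have hG := li.smul _ _ (fun _ => -2) _ ⟨_, tendsto_const_nhds⟩
      (lay.cl _ _ _ (net β b0 b1 ι c d X hX))
    refine ⟨_, (li.wk _ _ _ hG).1, ?_⟩
    have key : ∀ᶠ n in atTop, 0 < n ∧ ∃ u : Fin n → E (Nv 0 n) → ℝ, (∀ k, M2 (u k)) ∧
        (∀ z, HH Φ c d X n (Jm β z) (one n) = ∑ k, (4 * n : ℝ)⁻¹ * u k z ^ 2) ∧
        n2 (dF β 0 (FF β Φ) - fun n x z => -2 * EW (nf β c d X) n x (up _ z)) n =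
          (∑ k, sq (u k)) / n := by
      filter_upwards [hC, hA', hG.1, eventually_gt_atTop 0] with n h h1 h2 hn
      refine ⟨hn, fun k z => dF β 0 (FF β Φ) n (fun _ => k) z -
        -2 * EW (nf β c d X) n (fun _ => k) (up _ z), fun k =>
          ⟨(h1.1 _).1.sub (h2.1 _).1, (h1.1 _).2.sub (h2.1 _).2⟩, fun z => ?_, ?_⟩
      · simp only [HH, nrm2, dF, D_FF h S, lay.en β ι c d X hX, Pl.sv_one, Finset.sum_div]
        refine Finset.sum_congr rfl fun k _ => ?_
        simp only [Pi.sub_apply, Pi.smul_apply, smul_eq_mul]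
        ring
      · rw [n2, av, Fintype.card_unit, pow_one]
        exact congrArg (· / _) (Fintype.sum_equiv (Equiv.funUnique Unit (Fin n)) _ _ fun _ => rfl)
    have ht := tr β b0 b1 0 (HH Φ c d X) (2 * B + 2 * M ^ 2) (ε / 8) (ε / 8) (by positivity) (by
      filter_upwards [hC, key] with n h ⟨hn, u, h1, h2, _⟩
      have n0 : (0 : ℝ) < n := by exact_mod_cast hn
      refine ⟨?_, fun J s x hJ => ?_, fun J x hJ => ?_⟩
      · simp only [h2]
        exact Finset.measurable_sum _ fun k _ => ((h1 k).1.pow_const 2).const_mul _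
      · simp only [HH, nrm2, grad_cj h hJ, lay.gauge ι c d X hX, Pi.sub_apply, Pi.smul_apply,
          Pi.mul_apply, smul_eq_mul]
        refine congrArg (· / _) (Finset.sum_congr rfl fun i _ => ?_)
        have := Rec.sv_mul_self s i
        linear_combination (√n * grad (Φ n J) x i - EN c d X n J (sv x) i) ^ 2 * this
      · have a := h.grad J x hJ
        rw [HH, abs_of_nonneg (by positivity), div_le_iff₀ n0, nrm2]
        calc _ ≤ ∑ i, (2 * (n * (grad (Φ n J) x i * grad (Φ n J) x i)) + 2 * M ^ 2) := by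
              refine Finset.sum_le_sum fun i _ => ?_
              have b := abs_le.1 (EN_le c d hM J (sv x) i)
              have b' := sq_le_sq' b.1 b.2
              have e : (√n * grad (Φ n J) x i) ^ 2 = n * (grad (Φ n J) x i * grad (Φ n J) x i) := by
                rw [mul_pow, sq_sqrt n0.le, pow_two]
              simp only [Pi.sub_apply, Pi.smul_apply, smul_eq_mul]
              nlinarith [sq_nonneg (√n * grad (Φ n J) x i + EN c d X n J (sv x) i)]
          _ = 2 * (n * (grad (Φ n J) x ⬝ᵥ grad (Φ n J) x)) + 2 * M ^ 2 * n := by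
              simp only [Finset.sum_add_distrib, ← Finset.mul_sum, dotProduct, Finset.sum_const,
                Finset.card_univ, Fintype.card_fin, nsmul_eq_mul]
              ring
          _ ≤ _ := by nlinarith) (hw.mono (by
      filter_upwards [eventually_gt_atTop 0] with n hn g hg
      have n0 : (0 : ℝ) < n := by exact_mod_cast hn
      exact (SL.mean_div_const _ _ _).trans_le ((div_le_iff₀ n0).2 hg)))
    filter_upwards [key, ht] with n ⟨hn, u, h1, h2, h3⟩ h4
    have n0 : (0 : ℝ) < n := by exact_mod_cast hn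
    simp only [h2] at h4
    rw [integral_finsetSum _ fun k _ => (h1 k).2.integrable_sq.const_mul _] at h4
    simp only [integral_const_mul, ← Finset.mul_sum] at h4
    rw [h3, div_le_iff₀ n0]
    rw [inv_mul_le_iff₀ (by positivity)] at h4
    simp only [sq]
    linarith
  refine (lim 0 β (FF β Φ) (4 * B) (fun n x z z' e => ?_) hA ⟨(B * (4 * |β|)) ^ 2, ?_⟩
    (.inr ⟨li.ti_lip _ _ _ _ hl, hW⟩) hD).congr (Top.whp_of_eventually ?_)
  · have : Jm β z = Jm β z' := by
      ext i j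
      simp only [Jm, of_apply]
      split_ifs with h
      · rfl
      · rw [e i j h]
    simp only [FF, this]
  · filter_upwards [hC] with n h
    have := hy.lip _ _ _ (lip (L := 0) (β := β) h S) 1
    simp only [pr_const _ _, Nat.cast_one, one_mul] at this
    rw [n2, av, Fintype.sum_unique, Fintype.card_empty, pow_zero, div_one]
    exact this
  · filter_upwards [hC] with n h g
    refine ⟨Hm.pr 1 (fun z : E (Nv 0 n) => Φ n (Jm β z) (one n)) 0, fun x => ?_⟩
    rw [obs, GS.orb, FF, Jm_gz S, cj_one h (Jm_symm _), Jm_zof, Of.ob, sub_add_cancel]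


end Crest.Agent.T157.Lm

end
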