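import Crest.Agent.T157.LmDef_76
import Crest.Agent.T157.NrmG_84
import Crest.Agent.T157.NrmS_84

/-!
# Row 157, block B/S5 (helper62): the concrete gauge system (`Lm.skStmt`)
-/

set_option autoImplicit false

noncomputable section

namespace Crest.Agent.T157.Lm

open MeasureTheory ProbabilityTheory Real Filter Topology Finset
open Crest.ProbabilityR.SpinGlassDynamics (Pair)
open Crest.Agent.R238.Gap (E)
open Crest.Agent.R253.Meh74 (gam)
open Crest.Agent.R339.Guerra (G mp_comp mp_int)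
open Crest.Agent.T157.E (Cube sv hb hbPow hbCt Jmat)
open Crest.Agent.T157.Chain22 (sg)
open Crest.Agent.T157.Hm (Pl)
open Crest.Agent.T157.Rn (fl)
open Crest.Agent.T157.Pl (one)
open Crest.Agent.T157.Eig

namespace Sk62

/-! ### relabelling of the cube -/

section cube
variable {n : ℕ} (p : Equiv.Perm (Fin n))

/-- relabelled configuration -/
def tau : Equiv.Perm (Cube n) := Equiv.arrowCongr p (Equiv.refl Bool)

lemma tau_apply (σ : Cube n) (k : Fin n) : tau p σ (p k) = σ k := by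
  simp [tau]

lemma tau_update (σ : Cube n) (k : Fin n) (b : Bool) :
    Function.update (tau p σ) (p k) b = tau p (Function.update σ k b) := by
  funext j
  obtain ⟨j, rfl⟩ := p.surjective j
  by_cases h : j = k
  · subst h; simp [tau_apply]
  · rw [Function.update_of_ne (p.injective.ne h), tau_apply, tau_apply, Function.update_of_ne h]

lemma tau_one : tau p (one n) = one n := rfl

lemma tau_fl (σ : Cube n) (k : Fin n) : fl (tau p σ) (p k) = tau p (fl σ k) := by
  rw [fl, tau_apply, tau_update, fl]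

variable {p} {w w' : Cube n → ℝ}

lemma hb_tau (h : ∀ σ, w' (tau p σ) = w σ) (x y : Cube n) :
    hb w' (tau p x) (tau p y) = hb w x y := by
  rw [hb, hb, ← Equiv.sum_comp p]
  refine congrArg _ (sum_congr rfl fun i _ => ?_)
  rw [tau_update, tau_update, h, h, h]
  refine if_congr ?_ rfl rfl
  rw [p.surjective.forall]
  simp only [tau_apply, p.injective.ne_iff]

lemma hbPow_tau (h : ∀ σ, w' (tau p σ) = w σ) :
    ∀ (k : ℕ) (x y : Cube n), hbPow w' k (tau p x) (tau p y) = hbPow w k x y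
  | 0, x, y => by simp only [hbPow, (tau p).injective.eq_iff]
  | k + 1, x, y => by
    rw [hbPow, hbPow, ← Equiv.sum_comp (tau p)]
    exact sum_congr rfl fun z _ => by rw [hbPow_tau h k, hb_tau h]

lemma sg_tau (h : ∀ σ, w' (tau p σ) = w σ) {f f' : Cube n → ℝ} (hf : ∀ σ, f' (tau p σ) = f σ)
    (t : ℝ) (x : Cube n) : sg w' t f' (tau p x) = sg w t f x := by
  rw [sg, sg, ← Equiv.sum_comp (tau p)]
  exact sum_congr rfl fun z _ => by simp only [hbCt, hbPow_tau h, hf]

end cube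

/-! ### symmetries of a gauge system -/

/-- a symmetry -/
structure Sy {m n : ℕ} (S : GS m n) (p : Equiv.Perm (Fin n)) (q : Equiv.Perm (Fin m))
    (A : E m → E m) : Prop where
  inc : ∀ k j, S.inc (p k) (q j) = S.inc k j
  α : ∀ j, S.α (q j) = S.α j
  A : ∀ z j, A z (q j) = z j

section sy
variable {m n : ℕ} {S : GS m n} {p : Equiv.Perm (Fin n)} {q : Equiv.Perm (Fin m)} {A : E m → E m}
  {F F' : E m → ℝ}

lemma Sy.chi (s : Sy S p q A) (σ : Cube n) (j : Fin m) : S.chi (tau p σ) (q j) = S.chi σ j := by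
  rw [GS.chi, GS.chi, ← Equiv.prod_comp p]
  exact prod_congr rfl fun k _ => by rw [s.inc, sv, sv, tau_apply]

lemma Sy.gz (s : Sy S p q A) (σ : Cube n) (z : E m) : S.gz (tau p σ) (A z) = A (S.gz σ z) := by
  ext j
  obtain ⟨j, rfl⟩ := q.surjective j
  rw [s.A]
  show S.chi _ _ * (_ + _) - _ = S.chi _ _ * (_ + _) - _
  rw [s.chi, s.α, s.A]

lemma Sy.w (s : Sy S p q A) (z : E m) (σ : Cube n) : S.w (A z) (tau p σ) = S.w z σ := by
  rw [GS.w, GS.w, ← Equiv.sum_comp q]
  simp only [s.chi, s.α, s.A]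

lemma Sy.R (s : Sy S p q A) (k : Fin n) (z : E m) : S.R (p k) (A z) = A (S.R k z) := by
  rw [GS.R, GS.R, ← s.gz, ← tau_fl, tau_one]

lemma Sy.c (s : Sy S p q A) (k : Fin n) (z : E m) : S.c (p k) (A z) = S.c k z := by
  rw [GS.c, GS.c, GS.h, GS.h, ← Equiv.sum_comp q]
  simp only [s.inc, s.α, s.A]

lemma Sy.D (s : Sy S p q A) (h : ∀ z, F' (A z) = F z) (k : Fin n) (z : E m) :
    S.D (p k) F' (A z) = S.D k F z := by rw [GS.D, GS.D, s.R, h, h]

lemma Sy.L (s : Sy S p q A) (h : ∀ z, F' (A z) = F z) (z : E m) : S.L F' (A z) = S.L F z := by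
  rw [GS.L, GS.L, ← Equiv.sum_comp p]
  simp only [s.c, s.D h]

lemma Sy.P (s : Sy S p q A) : ∀ (j : ℕ) {F F' : E m → ℝ}, (∀ z, F' (A z) = F z) →
    ∀ z, S.P^[j] F' (A z) = S.P^[j] F z
  | 0, _, _, h => h
  | j + 1, _, _, h => s.P j fun z => by rw [GS.P, GS.P, h, s.L h]

lemma Sy.Rz (s : Sy S p q A) (h : ∀ z, F' (A z) = F z) (ζ : ℝ) (z : E m) :
    S.Rz ζ F' (A z) = S.Rz ζ F z := by simp only [GS.Rz, s.P _ h]

lemma Sy.T (s : Sy S p q A) (h : ∀ z, F' (A z) = F z) (t : ℝ) (z : E m) :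
    S.T t F' (A z) = S.T t F z := by
  rw [GS.T, GS.T, ← tau_one p]
  exact sg_tau (s.w z) (fun σ => by rw [GS.orb, GS.orb, s.gz, h]) t _

lemma pl_comp (h : ∀ z j, A z (q j) = z j) : ∀ {D : ℕ} {f : E m → ℝ}, f ∈ Pl m D →
    (fun z => f (A z)) ∈ Pl m D
  | 0, _, hf => by rw [Hm.mem_zero.1 hf]; exact zero_mem _
  | _ + 1, _, ⟨c, r, hr, rfl⟩ => ⟨c, fun j z => r (q j) (A z), fun j => pl_comp h (hr _),
    funext fun z => by simp only [← Equiv.sum_comp q fun j => A z j * r j (A z), h]⟩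

end sy

/-! ### Gaussian measure -/

lemma mp_to (m : ℕ) : MeasurePreserving (WithLp.toLp 2) (G (Fin m)) (gam m) :=
  ⟨WithLp.measurable_toLp _ _, map_pi_eq_stdGaussian⟩

lemma mp_of (m : ℕ) : MeasurePreserving WithLp.ofLp (gam m) (G (Fin m)) :=
  MeasurePreserving.symm (MeasurableEquiv.toLp 2 _) (mp_to m)

/-! ### the SK system -/

variable {L n : ℕ} {β K : ℝ} {ρ : Fin L → ℝ}

lemma co_pt (f : Ix L n → ℝ) (e : Ix L n) : co (pt f) e = f e := by simp [co, pt]

/-- relabelled variables -/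
def pe (L : ℕ) (p : Equiv.Perm (Fin n)) : Equiv.Perm (Ix L n) where
  toFun := Sum.map (Sym2.map p) (Prod.map id p)
  invFun := Sum.map (Sym2.map p.symm) (Prod.map id p.symm)
  left_inv := by rintro (e | e) <;> simp [Sym2.map_map, Prod.map]
  right_inv := by rintro (e | e) <;> simp [Sym2.map_map, Prod.map]

/-- relabelled coordinates -/
def pf (L : ℕ) (p : Equiv.Perm (Fin n)) : Equiv.Perm (Fin (Nv L n)) :=
  ((ix L n).symm.trans (pe L p)).trans (ix L n)

lemma act_apply (p : Equiv.Perm (Fin n)) (z : E (Nv L n)) (j : Fin (Nv L n)) :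
    act p z j = z ((pf L p).symm j) := rfl

lemma inc_inl (k : Fin n) (e : Sym2 (Fin n)) :
    (sk β ρ n).inc k (ix L n (.inl e)) = decide (k ∈ e) := by simp only [sk, Equiv.symm_apply_apply]
lemma inc_inr (k : Fin n) (e : Fin L × Fin n) :
    (sk β ρ n).inc k (ix L n (.inr e)) = decide (e.2 = k) := by simp only [sk, Equiv.symm_apply_apply]
lemma al_inl (e : Sym2 (Fin n)) : (sk β ρ n).α (ix L n (.inl e)) = if e.IsDiag then 0 else β / √n := by
  simp only [sk, Equiv.symm_apply_apply]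
lemma al_inr (e : Fin L × Fin n) : (sk β ρ n).α (ix L n (.inr e)) = ρ e.1 := by
  simp only [sk, Equiv.symm_apply_apply]

lemma pf_ix (p : Equiv.Perm (Fin n)) (e : Ix L n) : pf L p (ix L n e) = ix L n (pe L p e) := by
  simp [pf]

lemma sy (p : Equiv.Perm (Fin n)) : Sy (sk β ρ n) p (pf L p) (act p) where
  inc k j := by
    obtain ⟨e | e, rfl⟩ := (ix L n).surjective j
    · rw [pf_ix]
      exact (inc_inl _ _).trans (Eq.trans (by simp) (inc_inl _ _).symm)
    · rw [pf_ix]
      exact (inc_inr _ _).trans (Eq.trans (by simp) (inc_inr _ _).symm)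
  α j := by
    obtain ⟨e | e, rfl⟩ := (ix L n).surjective j
    · rw [pf_ix]
      refine (al_inl _).trans (Eq.trans ?_ (al_inl _).symm)
      induction e using Sym2.ind
      simp
    · rw [pf_ix]
      exact (al_inr _).trans (al_inr e).symm
  A z j := by rw [act_apply, Equiv.symm_apply_apply]

lemma act_symm (p : Equiv.Perm (Fin n)) (z : E (Nv L n)) : act p.symm (act p z) = z := by
  ext j
  exact (sy (β := 0) (ρ := 0) p).A z j

lemma mp (p : Equiv.Perm (Fin n)) : MeasurePreserving (act p : E (Nv L n) → _) (gam _) (gam _) :=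
  (mp_to _).comp ((mp_comp _ (pf L p).symm.injective).comp (mp_of _))

lemma mp_mix (L n : ℕ) : MeasurePreserving (fun p : E (Nv L n) × E (Nv L n) => mix p.1 p.2)
    ((gam _).prod (gam _)) (gam _) := by
  let s : Fin (Nv L n) → Fin (Nv L n) ⊕ Fin (Nv L n) := fun j =>
    Sum.elim (fun _ => .inl j) (fun _ => .inr j) ((ix L n).symm j)
  have hs : Function.Injective s := Function.LeftInverse.injective (g := Sum.elim id id) fun j => by
    simp only [s]; cases (ix L n).symm j <;> rfl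
  have h := (mp_to _).comp ((mp_comp s hs).comp ((measurePreserving_sumPiEquivProdPi_symm
    fun _ : Fin (Nv L n) ⊕ Fin (Nv L n) => gaussianReal 0 1).comp ((mp_of _).prod (mp_of _))))
  convert h using 1
  funext p
  ext j
  obtain ⟨e | e, rfl⟩ := (ix L n).surjective j
  · refine (co_pt _ _).trans ?_
    simp [s, co, MeasurableEquiv.sumPiEquivProdPi]
  · refine (co_pt _ _).trans ?_
    simp [s, co, MeasurableEquiv.sumPiEquivProdPi]

lemma sum_row (k : Fin n) (f : Sym2 (Fin n) → ℝ) :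
    ∑ e, (if k ∈ e then f e else 0) = ∑ j, f s(k, j) := by
  rw [← sum_filter]
  refine (sum_bij (fun j _ => s(k, j)) (fun j _ => by simp) (fun _ _ _ _ h => Sym2.congr_right.1 h)
    (fun e he => ?_) fun _ _ => rfl).symm
  obtain ⟨j, rfl⟩ := Sym2.mem_iff_exists.1 (mem_filter.1 he).2
  exact ⟨j, mem_univ _, rfl⟩

lemma sum_inc (k : Fin n) (f : Fin (Nv L n) → ℝ) :
    ∑ j, (if (sk β ρ n).inc k j = true then f j else 0) =
      ∑ j, f (ix L n (.inl s(k, j))) + ∑ l, f (ix L n (.inr (l, k))) := by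
  rw [← (ix L n).sum_comp, Fintype.sum_sum_type, Fintype.sum_prod_type]
  simp only [inc_inl, inc_inr, decide_eq_true_eq, sum_ite_eq', mem_univ, if_true]
  rw [sum_row k fun e => f (ix L n (.inl e))]

lemma ok (hn : 0 < n) : (sk β ρ n).Ok (β ^ 2 + ∑ l, ρ l ^ 2) where
  pos := hn
  two j := by
    obtain ⟨e | e, rfl⟩ := (ix L n).surjective j
    · induction e using Sym2.ind with
      | _ a b =>
        refine (card_le_card (t := {a, b}) fun k hk => ?_).trans card_le_two
        simpa [inc_inl] using hk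
    · refine (card_le_card (t := {e.2, e.2}) fun k hk => ?_).trans card_le_two
      simpa [inc_inr, eq_comm] using hk
  row k := by
    have n0 : (0 : ℝ) < n := by exact_mod_cast hn
    rw [sum_inc k fun j => (sk β ρ n).α j ^ 2]
    simp only [al_inl, al_inr]
    refine add_le_add_left ((sum_le_sum (g := fun _ => β ^ 2 / n) fun j _ => ?_).trans_eq ?_) _
    · split_ifs
      · rw [zero_pow two_ne_zero]; positivity
      · rw [div_pow, sq_sqrt n0.le]
    · rw [sum_const, card_univ, Fintype.card_fin, nsmul_eq_mul, mul_div_cancel₀ _ n0.ne']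

lemma h_eq (k : Fin n) (z : E (Nv L n)) : (sk β ρ n).h k z =
    ∑ j, Jm β z k j + ∑ l, ρ l * (co z (.inr (l, k)) + ρ l) := by
  rw [GS.h, sum_inc k fun j => (sk β ρ n).α j * (z j + (sk β ρ n).α j)]
  simp only [al_inl, al_inr, Sym2.mk_isDiag_iff, Jm, Matrix.of_apply, co]
  refine congrArg (· + _) (sum_congr rfl fun j _ => ?_)
  split_ifs <;> simp

lemma Jm_act (p : Equiv.Perm (Fin n)) (z : E (Nv L n)) (i j : Fin n) :
    Jm β (act p z) (p i) (p j) = Jm β z i j := by
  simp [Jm, act, co_pt]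

lemma Jm_gz (σ : Cube n) (z : E (Nv L n)) (i j : Fin n) :
    Jm β ((sk β ρ n).gz σ z) i j = sv σ i * sv σ j * Jm β z i j := by
  simp only [Jm, Matrix.of_apply]
  split_ifs with h
  · rw [mul_zero]
  have e : (sk β ρ n).chi σ (ix L n (.inl s(i, j))) = sv σ i * sv σ j := by
    rw [GS.chi, ← prod_pair h, ← prod_filter]
    refine prod_congr ?_ fun _ _ => rfl
    ext k
    simp [inc_inl]
  show _ * ((sk β ρ n).chi σ _ * (z _ + _) - _ + _) = _
  rw [e, al_inl, if_neg (Sym2.mk_isDiag_iff.not.2 h), co]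
  ring

lemma opn_act (p : Equiv.Perm (Fin n)) (z : E (Nv L n)) : opn (Jm β (act p z)) = opn (Jm β z) := by
  have h : ∀ (p : Equiv.Perm (Fin n)) (z : E (Nv L n)), opn (Jm β z) ≤ opn (Jm β (act p z)) :=
    fun p z => le_of_eq_of_le (congrArg opn (Matrix.ext fun i j => (Jm_act p z i j).symm))
      (opn_submatrix_le (Jm β (act p z)) p.injective)
  refine le_antisymm ?_ (h p z)
  simpa only [act_symm] using h p.symm (act p z)

lemma opn_sign {A B : Matrix (Fin n) (Fin n) ℝ} {σ : Cube n}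
    (h : ∀ i j, B i j = sv σ i * sv σ j * A i j) : opn B = opn A := by
  have s2 : ∀ i, sv σ i * sv σ i = 1 := fun i => E.spin_mul_self _
  have d : opn (Matrix.diagonal (sv σ)) ≤ 1 := opn_diagonal_le zero_le_one fun i => by
    rw [← sq_le_one_iff_abs_le_one, _root_.sq, s2]
  have k : ∀ {A B : Matrix (Fin n) (Fin n) ℝ}, (∀ i j, B i j = sv σ i * sv σ j * A i j) →
      opn B ≤ opn A := fun {A B} h => by
    have e : B = Matrix.diagonal (sv σ) * A * Matrix.diagonal (sv σ) := by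
      ext i j; rw [Matrix.mul_diagonal, Matrix.diagonal_mul, h]; ring
    have a1 := opn_mul_le (Matrix.diagonal (sv σ) * A) (Matrix.diagonal (sv σ))
    have a2 := opn_mul_le (Matrix.diagonal (sv σ)) A
    rw [e]
    nlinarith [opn_nonneg A, opn_nonneg (Matrix.diagonal (sv σ) * A),
      opn_nonneg (Matrix.diagonal (sv σ))]
  refine le_antisymm (k h) (k fun i j => ?_)
  rw [h, ← mul_assoc, mul_mul_mul_comm, s2, s2, one_mul, one_mul]

/-- radial retraction -/
lemma retr (hK : 0 < K) (A B : Matrix (Fin n) (Fin n) ℝ) :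
    opn ((max 1 (opn A / K))⁻¹ • A) ≤ K ∧
    opn ((max 1 (opn A / K))⁻¹ • A - (max 1 (opn B / K))⁻¹ • B) ≤ 2 * opn (A - B) := by
  have k : ∀ A : Matrix (Fin n) (Fin n) ℝ, (max 1 (opn A / K))⁻¹ * opn A ≤ K := fun A => by
    rw [inv_mul_le_iff₀ (lt_max_of_lt_left one_pos), ← div_le_iff₀ hK]; exact le_max_right _ _
  set a := max 1 (opn A / K) with ha
  set b := max 1 (opn B / K) with hb
  have a1 : 1 ≤ a := le_max_left _ _
  have b1 : 1 ≤ b := le_max_left _ _
  have a0 : 0 < a⁻¹ := by positivity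
  have b0 : 0 < b⁻¹ := by positivity
  have a2 : a⁻¹ ≤ 1 := inv_le_one_of_one_le₀ a1
  refine ⟨by rw [opn_smul, abs_of_pos a0]; exact k A, ?_⟩
  have e : a⁻¹ • A - b⁻¹ • B = a⁻¹ • (A - B) + (a⁻¹ * (b - a) * b⁻¹) • B := by
    rw [show a⁻¹ * (b - a) * b⁻¹ = a⁻¹ - b⁻¹ by field_simp]; module
  have d : |b - a| ≤ opn (A - B) / K := by
    rw [hb, ha, max_comm, max_comm 1]
    refine (abs_max_sub_max_le_abs _ _ _).trans ?_
    rw [← sub_div, abs_div, abs_of_pos hK, abs_sub_comm]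
    exact div_le_div_of_nonneg_right (abs_opn_sub_le _ _) hK.le
  have o := opn_nonneg (A - B)
  have t1 : a⁻¹ * opn (A - B) ≤ opn (A - B) := mul_le_of_le_one_left o a2
  have t2 : a⁻¹ * |b - a| * (b⁻¹ * opn B) ≤ 1 * (opn (A - B) / K) * K :=
    mul_le_mul (mul_le_mul a2 d (abs_nonneg _) zero_le_one) (k B)
      (mul_nonneg b0.le (opn_nonneg _)) (by positivity)
  rw [one_mul, div_mul_cancel₀ _ hK.ne'] at t2
  rw [e]
  refine (opn_add_le _ _).trans ?_
  rw [opn_smul, opn_smul, abs_mul, abs_mul, abs_of_pos a0, abs_of_pos b0]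
  linarith

/-- the index of a pair -/
def ip (L : ℕ) (p : Pair n) : Fin (Nv L n) := ix L n (.inl s(p.1.1, p.1.2))

lemma ip_inj : Function.Injective (ip L (n := n)) := fun p q h => by
  have h1 := Sym2.eq_iff.1 (Sum.inl_injective ((ix L n).injective h))
  have hp := p.2
  have hq := q.2
  refine Subtype.ext (Prod.ext ?_ ?_) <;> rcases h1 with ⟨a, b⟩ | ⟨a, b⟩ <;>
    first | assumption | exact absurd (hp.trans (b ▸ a ▸ hq)) (lt_irrefl _)

lemma Jm_eq (z : E (Nv L n)) : Jm β z = β • Jmat n (fun p => z (ip L p)) +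
    Matrix.of fun i j => if i = j then 0 else (β / √n) ^ 2 := by
  ext i j
  simp only [Jm, Matrix.of_apply, Matrix.add_apply, Matrix.smul_apply, smul_eq_mul]
  rcases lt_trichotomy i j with h | h | h
  · rw [if_neg h.ne, if_neg h.ne, E.Jmat_apply_lt _ h, co, ip]; ring
  · rw [if_pos h, if_pos h, h, E.Jmat_diag]; ring
  · rw [if_neg h.ne', if_neg h.ne', E.Jmat_apply_gt _ h, co, ip, Sym2.eq_swap]; ring

lemma Jm_lip (z z' : E (Nv L n)) : opn (Jm β z - Jm β z') ≤ 2 * |β| / √n * ‖z - z'‖ := by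
  rw [Jm_eq, Jm_eq, add_sub_add_right_eq_sub, ← smul_sub, Nrm.Jmat_sub, opn_smul]
  have a1 : Conc.en ((fun p => z (ip L p)) - fun p => z' (ip L p)) ≤ ‖z - z'‖ := by
    rw [EuclideanSpace.norm_eq]
    refine sqrt_le_sqrt ?_
    simp only [Real.norm_eq_abs, sq_abs]
    exact (sum_image (s := univ) (g := ip L) (f := fun j => (z - z') j ^ 2) ip_inj.injOn).ge.trans
      (sum_le_sum_of_subset_of_nonneg (subset_univ _) fun _ _ _ => sq_nonneg _)
  have a2 : √(2 / n : ℝ) ≤ 2 / √n := by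
    rw [sqrt_div zero_le_two]
    exact div_le_div_of_nonneg_right (sqrt_le_iff.2 ⟨zero_le_two, by norm_num⟩) (sqrt_nonneg _)
  refine (mul_le_mul_of_nonneg_left ((Nrm.opn_Jmat_le _).trans (mul_le_mul a2 a1
    (Conc.en_nonneg _) (by positivity))) (abs_nonneg β)).trans_eq (by ring)

lemma cont_Jm : Continuous fun z : E (Nv L n) => Jm β z :=
  continuous_matrix fun i j => by
    simp only [Jm, Matrix.of_apply, co]
    split_ifs <;> fun_prop

lemma tail (β : ℝ) : ∃ K > (0 : ℝ), ∀ L, ∀ p : ℕ, Tendsto (fun n : ℕ => (n : ℝ) ^ p *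
    (gam (Nv L n)).real {z | K < opn (Jm β z)}) atTop (𝓝 0) := by
  refine ⟨18 * |β| + β ^ 2 + 1, by positivity, fun L p => squeeze_zero (fun n => by positivity)
    (fun n => mul_le_mul_of_nonneg_left ?_ (by positivity))
    ((tendsto_pow_mul_exp_neg_atTop_nhds_zero p).comp tendsto_natCast_atTop_atTop)⟩
  have m := (mp_comp _ (ip_inj (L := L) (n := n))).comp (mp_of _)
  refine le_trans ?_ (Nrm.opn_Jmat_18 (fun _ : Pair n => gaussianReal 0 1) fun _ => Nrm.subG_gauss)
  refine ENNReal.toReal_mono (measure_ne_top _ _) ((measure_mono fun z hz => ?_).trans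
    (m.map_eq ▸ Measure.le_map_apply m.measurable.aemeasurable _))
  have a : opn (Matrix.of fun i j : Fin n => if i = j then 0 else (β / √n) ^ 2) ≤ β ^ 2 := by
    refine (opn_le_sqrt_frob _).trans (sqrt_le_iff.2 ⟨sq_nonneg _, ?_⟩)
    refine (sum_le_sum (g := fun _ => ∑ _j : Fin n, (β ^ 2 / n) ^ 2) fun i _ =>
      sum_le_sum fun j _ => ?_).trans ?_
    · rw [Matrix.of_apply]
      split_ifs
      · rw [zero_pow two_ne_zero]; positivity
      · rw [div_pow β, sq_sqrt n.cast_nonneg]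
    · simp only [sum_const, card_univ, Fintype.card_fin, nsmul_eq_mul]
      rcases eq_or_ne (n : ℝ) 0 with e | e
      · rw [e, zero_mul]; positivity
      · exact le_of_eq (by field_simp)
  have b : 18 * |β| + β ^ 2 + 1 < opn (Jm β z) := hz
  rw [Jm_eq] at b
  have c := b.trans_le (opn_add_le _ _)
  rw [opn_smul] at c
  show 18 < opn (Jmat n fun p => z (ip L p))
  by_contra d
  nlinarith [mul_le_mul_of_nonneg_left (not_lt.1 d) (abs_nonneg β)]

lemma eqv_pr {C : Type} (F : (C → Fin n) → E (Nv L n) → ℝ) (D : ℕ)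
    (h : ∀ (p : Equiv.Perm (Fin n)) x z, F (p ∘ x) (act p z) = F x z) (hc : ∀ x, Hm.C0 (F x))
    (p : Equiv.Perm (Fin n)) (x : C → Fin n) (z : E (Nv L n)) :
    Hm.pr D (F (p ∘ x)) (act p z) = Hm.pr D (F x) z := by
  have A := fun p : Equiv.Perm (Fin n) => (sy (L := L) (β := 0) (ρ := 0) p).A
  refine (congrFun (Hm.pr_unique (hc x) (pl_comp (A p) (Hm.pr_mem D (F (p ∘ x))))
    fun r hr => ?_) z).symm
  have hr' := pl_comp (A p.symm) hr
  have e1 := mp_int (mp (L := L) p) ((Hm.c0 (Hm.pr_mem D (F (p ∘ x)))).mul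
    (Hm.c0 hr')).c.aestronglyMeasurable
  have e2 := mp_int (mp (L := L) p) ((hc (p ∘ x)).mul (Hm.c0 hr')).c.aestronglyMeasurable
  simp only [act_symm, h] at e1 e2
  exact e1.trans ((Hm.ip_pr (hc _) hr').trans e2.symm)

end Sk62

open Sk62 in
theorem skStmt : SkStmt where
  ok _ _ _ _ := ok
  co_pt _ _ := co_pt
  mp _ _ := mp
  mp_mix := mp_mix
  pl_act _ _ p _ _ := pl_comp (sy (β := 0) (ρ := 0) p).A
  R_act _ _ _ _ p := (sy p).R
  h_eq _ _ _ _ := h_eq
  eqv_P _ _ _ n F h := ⟨fun p x => (sy p).L (h p x), fun ζ p x => (sy p).Rz (h p x) ζ,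
    fun t p x => (sy p).T (h p x) t, fun p x z => congrArg (_ * ·) ((sy p).D
      (fun z => (congrArg (F · _) (Subsingleton.elim _ _)).trans (h p (x0 n) z)) (x ()) z)⟩
  eqv_pr _ _ _ _ _ F D h hc := eqv_pr F D h hc
  Jm_act _ _ _ := Jm_act
  Jm_gz _ _ _ _ := Jm_gz
  Jt_act _ _ _ _ p z i j := by simp only [Jt, Matrix.smul_apply, opn_act, Jm_act]
  Jt_gz _ _ _ _ _ σ z i j := by
    simp only [Jt, Matrix.smul_apply, opn_sign (Jm_gz σ z), Jm_gz, smul_eq_mul]; ring
  Jt_lip _ β _ _ z z' hK := ⟨(retr hK _ (Jm β z')).1, (retr hK _ _).2.trans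
    ((mul_le_mul_of_nonneg_left (Jm_lip z z') zero_le_two).trans_eq (by ring))⟩
  Jt_meas _ β K _ i j := ((continuous_const.max ((continuous_opn.comp cont_Jm).div_const K)).inv₀
    fun _ => (lt_max_of_lt_left one_pos).ne').mul (cont_Jm.matrix_elem i j)
  tail := tail

theorem skGlue : SkGlue := fun _ => skStmt

end Crest.Agent.T157.Lm

end
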