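import Crest.Agent.T157.LmDefB_76
import Crest.Agent.T157.LmLim_32

/-! Row 157, block B/S5 (helper90): from quenched to planted averages (`Lm.TrGlue`). -/

set_option autoImplicit false

noncomputable section

namespace Crest.Agent.T157.Lm

open MeasureTheory Real Filter Topology Matrix
open Crest.ProbabilityR.SpinGlassDynamics (Pair disorderLaw gibbsWeight)
open Crest.Agent.R238.Gap (E)
open Crest.Agent.R253.Meh74 (gam)
open Crest.Agent.T157.E (Cube sv mean Jmat)
open Crest.Agent.T157.Pl (one cmul LR tau th)
open Lim32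

namespace Tr90

variable {L n : ℕ}

theorem jm_cp (β : ℝ) (z : E (Nv L n)) : Jm β z = β • Jmat n (cp β z) := by
  ext i j
  rcases lt_trichotomy i j with h | rfl | h
  · simp only [Jm, of_apply, if_neg h.ne, Matrix.smul_apply, E.Jmat_apply_lt _ h, cp, ps, co, th,
      smul_eq_mul]
    ring
  · simp [Jm, E.Jmat_diag]
  · simp only [Jm, of_apply, if_neg h.ne', Matrix.smul_apply, E.Jmat_apply_gt _ h, cp, ps, co, th,
      smul_eq_mul, Sym2.eq_swap (a := i)]
    ring

theorem symm (β : ℝ) (g : Pair n → ℝ) : (β • Jmat n g)ᵀ = β • Jmat n g := by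
  rw [transpose_smul, E.Jmat_transpose]

end Tr90

open Tr90

theorem trGlue : TrGlue := fun _ _ hL β h0 h1 L H M ε δ hδ hH hW => by
  obtain ⟨C, hC⟩ := hL β h0 h1
  obtain ⟨N, N0, hN⟩ : ∃ N : ℝ, 0 < N ∧ M - ε ≤ N :=
    ⟨|M - ε| + 1, by positivity, by linarith [le_abs_self (M - ε)]⟩
  obtain ⟨η, η0, hη⟩ : ∃ η : ℝ, 0 < η ∧ N * (η * C) ≤ δ / 2 := by
    refine ⟨δ / (2 * N * (|C| + 1)), by positivity, ?_⟩
    have e : N * (δ / (2 * N * (|C| + 1)) * (|C| + 1)) = δ / 2 := by field_simp
    rw [← e]
    gcongr
    linarith [le_abs_self C]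
  filter_upwards [hH, hW.eventually (ge_mem_nhds (ENNReal.ofReal_pos.2
    (by positivity : 0 < δ / 2 * η / N)))] with n ⟨hm, hg, hb⟩ hA
  have mG : Measurable fun g : Pair n → ℝ => H n (β • Jmat n g) (one n) := by
    simpa only [Function.comp_def, jm_cp, cp_zof] using hm.comp (meas_zof (L := L) β)
  have iG : Integrable (fun g : Pair n → ℝ => H n (β • Jmat n g) (one n)) (Pl.pl false n β) :=
    Integrable.of_bound mG.aestronglyMeasurable M (ae_of_all _ fun g => hb _ _ (symm β g))
  have gF : ∀ x ξ, H n (β • Jmat n (tau x * ξ)) x = H n (β • Jmat n ξ) (one n) := fun x ξ => by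
    rw [← hg _ x (one n) (symm β ξ), Pl.cmul_one, Pl.Jmat_gauge, cj, Matrix.mul_smul,
      Matrix.smul_mul]
  have e := Pl.planted_inv false β (F := fun x g => H n (β • Jmat n g) x) gF iG
  have i1 := Pl.integrable_LR_mul_mean false β (F := fun x g => H n (β • Jmat n g) x)
    fun x => by simpa only [gF] using iG
  rw [← (mp_cp (L := L) β).map_eq, integral_map (mp_cp β).measurable.aemeasurable
    mG.aestronglyMeasurable] at e
  simp only [jm_cp]
  rw [← e]
  set A := toMeasurable (disorderLaw n)
    {g | ¬ mean (gibbsWeight n β g) (H n (β • Jmat n g)) ≤ ε} with hAd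
  have mA : MeasurableSet A := measurableSet_toMeasurable _ _
  have rA : (disorderLaw n).real A ≤ δ / 2 * η / N := by
    rw [hAd, Measure.real, measure_toMeasurable]
    exact ENNReal.toReal_le_of_le_ofReal (by positivity) hA
  have j0 : Integrable (LR false n β) (disorderLaw n) := Pl.integrable_LR false β
  have j1 : Integrable (A.indicator fun _ => (1 : ℝ)) (disorderLaw n) :=
    (integrable_const 1).indicator mA
  have j2 : Integrable (fun g => η * LR false n β g ^ 2 + A.indicator (fun _ => (1 : ℝ)) g / η)
      (disorderLaw n) := ((hC n).1.const_mul η).add (j1.div_const η)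
  refine (integral_mono (μ := disorderLaw n) i1 ((j0.const_mul ε).add (j2.const_mul N))
    fun g => ?_).trans ?_
  · have p := Pl.LR_pos false β g
    have q : 0 ≤ N * (η * LR false n β g ^ 2) := by positivity
    simp only [Pi.add_apply]
    by_cases h : g ∈ A
    · have k : mean (gibbsWeight n β g) (fun x => H n (β • Jmat n g) x) ≤ M := by
        rw [← (Pl.wt_gibbs β g).mean_const M]
        exact (Pl.wt_gibbs β g).mean_mono fun x => (le_abs_self _).trans (hb _ x (symm β g))
      have y : LR false n β g ≤ η * LR false n β g ^ 2 + 1 / η := by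
        have : LR false n β g * η * (1 / η) = LR false n β g := by field_simp
        have h2 : η * (1 / η) = 1 := by field_simp
        nlinarith [mul_nonneg η0.le (sq_nonneg (LR false n β g - 1 / η)), one_div_pos.2 η0,
          mul_pos p η0]
      rw [Set.indicator_of_mem h]
      nlinarith [mul_le_mul_of_nonneg_left k p.le, mul_le_mul_of_nonneg_left y N0.le,
        mul_le_mul_of_nonneg_left hN p.le]
    · have k : mean (gibbsWeight n β g) (fun x => H n (β • Jmat n g) x) ≤ ε :=
        not_not.1 fun h' => h (subset_toMeasurable _ _ h')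
      rw [Set.indicator_of_notMem h, zero_div, add_zero]
      linarith [mul_le_mul_of_nonneg_left k p.le]
  · have l1 : ∫ g, LR false n β g ∂disorderLaw n = 1 := Pl.integral_LR false β
    simp only [Pi.add_apply]
    rw [integral_add (j0.const_mul ε) (j2.const_mul N), integral_const_mul, integral_const_mul, l1,
      integral_add ((hC n).1.const_mul η) (j1.div_const η), integral_const_mul, integral_div,
      integral_indicator_const _ mA, smul_eq_mul, mul_one, mul_one, mul_add]
    have a1 := mul_le_mul_of_nonneg_left (mul_le_mul_of_nonneg_left (hC n).2 η0.le) N0.le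
    have a2 : N * ((disorderLaw n).real A / η) ≤ δ / 2 := by
      rw [le_div_iff₀ N0] at rA
      rw [← mul_div_assoc, div_le_iff₀ η0]
      linarith
    linarith

end Crest.Agent.T157.Lm

end
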