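import Crest.Agent.T157.RnDef_60

/-!
# Row 157, block B/R: `Rn.SmStmt` (helper16)
-/

set_option autoImplicit false

noncomputable section

namespace Crest.Agent.T157.Rn

open Real Finset
open Crest.Agent.R238.Gap Crest.Agent.R238.GapPc Crest.Agent.R253.Meh74
open Crest.Agent.T157.Tw

namespace Sm16

variable {m : ℕ}

theorem mono : ∀ (k : ℕ) (f : E m → ℝ), Tm (k + 1) f → Tm k f
  | 0, _, h => ⟨h.1.cont, h.1.g⟩
  | k + 1, _, h => ⟨h.1, fun i => mono k _ (h.2 i)⟩

theorem const : ∀ (k : ℕ) (c : ℝ), Tm k fun _ : E m => c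
  | 0, c => ⟨continuous_const, pg_const c⟩
  | k + 1, c => ⟨c1_const c, fun i => by
      have : pd i (fun _ : E m => c) = fun _ => 0 := by funext x; simp [pd]
      rw [this]; exact const k 0⟩

theorem coord : ∀ (k : ℕ) (a : Fin m), Tm k fun X : E m => X a
  | 0, a => ⟨(c1_coord a).cont, (c1_coord a).g⟩
  | k + 1, a => ⟨c1_coord a, fun i => by
      have : pd i (fun X : E m => X a) = fun _ => if a = i then 1 else 0 :=
        funext fun x => pd_coord i a x
      rw [this]; exact const k _⟩

theorem add : ∀ (k : ℕ) (f g : E m → ℝ), Tm k f → Tm k g → Tm k fun X => f X + g X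
  | 0, _, _, hf, hg => ⟨hf.1.add hg.1, hf.2.add hg.2⟩
  | k + 1, f, g, hf, hg => ⟨hf.1.add hg.1, fun i => by
      rw [show pd i (fun X => f X + g X) = fun X => pd i f X + pd i g X from
        funext fun x => hf.1.pd_add hg.1 i x]
      exact add k _ _ (hf.2 i) (hg.2 i)⟩

theorem mul : ∀ (k : ℕ) (f g : E m → ℝ), Tm k f → Tm k g → Tm k fun X => f X * g X
  | 0, _, _, hf, hg => ⟨hf.1.mul hg.1, hf.2.mul hg.2⟩
  | k + 1, f, g, hf, hg => ⟨hf.1.mul hg.1, fun i => by
      rw [show pd i (fun X => f X * g X) = fun X => pd i f X * g X + f X * pd i g X from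
        funext fun x => hf.1.pd_mul hg.1 i x]
      exact add k _ _ (mul k _ _ (hf.2 i) (mono k _ hg)) (mul k _ _ (mono k _ hf) (hg.2 i))⟩

theorem sub (k : ℕ) (f g : E m → ℝ) (hf : Tm k f) (hg : Tm k g) : Tm k fun X => f X - g X := by
  have := add k _ _ hf (mul k _ _ (const k (-1)) hg)
  simpa [sub_eq_add_neg] using this

theorem sum (k : ℕ) (ι : Type) (S : Finset ι) (f : ι → E m → ℝ) (h : ∀ i ∈ S, Tm k (f i)) :
    Tm k fun X => ∑ i ∈ S, f i X := by
  classical
  induction S using Finset.induction_on with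
  | empty => simpa using const k 0
  | insert a s ha ih =>
    simp only [sum_insert ha]
    exact add k _ _ (h a (mem_insert_self a s)) (ih fun i hi => h i (mem_insert_of_mem hi))

theorem poly (k : ℕ) (p : MvPolynomial (Fin m) ℝ) :
    Tm k fun X : E m => MvPolynomial.eval (fun i => X i) p := by
  induction p using MvPolynomial.induction_on with
  | C c => simpa using const k c
  | add p q hp hq => simpa using add k _ _ hp hq
  | mul_X p i hp => simpa using mul k _ _ hp (coord k i)

theorem sech (h : ℝ) : sech2 h = 4 * (hb h true * hb h false) := by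
  have := cosh_pos h
  simp only [hb, sg, sech2, if_true, Bool.false_eq_true, if_false, one_mul, neg_mul]
  rw [exp_neg]
  field_simp
  norm_num

theorem sech_pos (h : ℝ) : 0 < sech2 h := by unfold sech2; have := cosh_pos h; positivity

theorem sech_le (h : ℝ) : sech2 h ≤ 1 := by
  unfold sech2
  rw [div_le_one (by have := cosh_pos h; positivity)]
  exact one_le_pow₀ (one_le_cosh h)

theorem abs_sg (t : Bool) : |sg t| = 1 := by cases t <;> simp [sg]

theorem hb_deriv (t : Bool) (h : ℝ) : HasDerivAt (fun h => hb h t) (sg t * sech2 h / 2) h := by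
  have c0 := cosh_pos h
  have h1 := ((((hasDerivAt_id h).const_mul (sg t)).exp).div ((hasDerivAt_cosh h).const_mul 2)
    (by positivity))
  refine h1.congr_deriv ?_
  have e : exp h * exp (-h) = 1 := by rw [← exp_add]; simp
  simp only [id, sech2]
  field_simp
  rw [cosh_eq, sinh_eq]
  cases t
  · simp only [sg, Bool.false_eq_true, if_false, one_mul, neg_mul]
    linear_combination (-1 : ℝ) * e
  · simp only [sg, if_true, one_mul]
    linear_combination e

theorem contDiff_hb (t : Bool) : ContDiff ℝ 1 fun h => hb h t := by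
  unfold hb
  exact ContDiff.div (by fun_prop) (by fun_prop) fun h => by have := cosh_pos h; positivity

theorem mvt {f f' : ℝ → ℝ} {a b C : ℝ} (hf : ∀ x, HasDerivAt f (f' x) x)
    (hb : ∀ x ∈ Set.uIcc a b, |f' x| ≤ C) : |f b - f a| ≤ C * |b - a| :=
  (convex_uIcc a b).norm_image_sub_le_of_norm_hasDerivWithin_le
    (fun x _ => (hf x).hasDerivWithinAt) hb Set.left_mem_uIcc Set.right_mem_uIcc

theorem lip2 (h h' : ℝ) (t : Bool) : |hb h' t - hb h t| ≤ 1 / 2 * |h' - h| :=
  mvt (hb_deriv t) fun x _ => by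
    rw [abs_div, abs_mul, abs_sg, abs_of_pos (sech_pos x), abs_two]
    linarith [sech_le x]

theorem sech_lip (h h' : ℝ) : |sech2 h' - sech2 h| ≤ 2 * |h' - h| := by
  have a1 := lip2 h h' true
  have e : sech2 h' - sech2 h = 4 * ((hb h' true - hb h true) * (hb h' false - hb h true)) := by
    rw [sech, sech, show hb h' false = 1 - hb h' true by linarith [hb_sum h'],
      show hb h false = 1 - hb h true by linarith [hb_sum h]]
    ring
  have a2 : |hb h' false - hb h true| ≤ 1 :=
    abs_le.2 ⟨by linarith [hb_pos h' false, hb_le h true], by linarith [hb_le h' false, hb_pos h true]⟩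
  rw [e, abs_mul, abs_mul, abs_of_pos (by norm_num : (0 : ℝ) < 4)]
  have := mul_le_mul a1 a2 (abs_nonneg _) (by positivity)
  linarith

theorem tay (h h' : ℝ) (t : Bool) :
    |hb h' t - hb h t - sg t * sech2 h / 2 * (h' - h)| ≤ (h' - h) ^ 2 := by
  have := mvt (f := fun x => hb x t - sg t * sech2 h / 2 * x) (a := h) (b := h') (C := |h' - h|)
    (fun x => (hb_deriv t x).sub ((hasDerivAt_id x).const_mul _)) fun x hx => by
      have a1 := sech_lip h x
      have a2 := Set.abs_sub_left_of_mem_uIcc hx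
      rw [show sg t * sech2 x / 2 - sg t * sech2 h / 2 * 1 = sg t * (sech2 x - sech2 h) / 2 by ring,
        abs_div, abs_mul, abs_sg, abs_two]
      linarith
  rw [abs_mul_abs_self, ← sq] at this
  convert this using 2
  ring

theorem pd_hb (b : Bath) (ξ : ℝ) (t : Bool) (i : Fin b.m) : pd i (fun X => hb (fld b ξ X) t) =
    fun X => 2 * sg t * b.g i * (hb (fld b ξ X) true * hb (fld b ξ X) false) := by
  funext X
  have h1 : HasFDerivAt (fld b ξ) (innerSL ℝ b.v) X := (innerSL ℝ b.v).hasFDerivAt.const_add ξ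
  have h2 := (hb_deriv t (fld b ξ X)).comp_hasFDerivAt X h1
  unfold pd
  rw [show (fun X => hb (fld b ξ X) t) = (fun h => hb h t) ∘ fld b ξ from rfl, h2.fderiv, sech]
  simp [e, Bath.v, EuclideanSpace.inner_single_right]
  ring

theorem tm_hb (b : Bath) (ξ : ℝ) : ∀ (k : ℕ) (t : Bool), Tm k fun X => hb (fld b ξ X) t
  | 0, t => hb_cp b ξ t true
  | k + 1, t => ⟨⟨(contDiff_hb t).comp (contDiff_const.add (innerSL ℝ b.v).contDiff), (hb_cp b ξ t true).2, fun i => by
      rw [pd_hb]
      exact (pg_const _).mul ((hb_cp b ξ true true).2.mul (hb_cp b ξ false true).2)⟩, fun i => by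
      rw [pd_hb]
      exact mul k _ _ (const k _) (mul k _ _ (tm_hb b ξ k true) (tm_hb b ξ k false))⟩

end Sm16

open Sm16

theorem smStmt : SmStmt where
  mono _ := mono
  const _ := const
  coord _ := coord
  add _ := add
  mul _ := mul
  sum _ := sum
  pv _ F hF s k := by
    obtain ⟨p, hp⟩ := hF s
    rw [show F.1 s = _ from funext hp]
    exact poly k p
  hb b ξ t k := tm_hb b ξ k t
  sech := sech
  lip h h' t := by linarith [lip2 h h' t, abs_nonneg (h' - h)]
  tay := tay
  aa b ξ k F hF s := by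
    have h0 : ∀ s, Tm k (F s) := fun s => mono _ _ (mono _ _ (hF s))
    exact add k _ _ (sub k _ _ (h0 s) (sum k _ _ _ fun t _ => mul k _ _ (tm_hb b ξ k t) (h0 t)))
      (sum k _ _ _ fun a _ => sum k _ _ _ fun a' _ => mul k _ _ (const k _) (sub k _ _
        (mul k _ _ (mono _ _ ((hF s).2 a')) (sub k _ _ (coord k a) (const k _)))
        (((hF s).2 a').2 a)))
  gm b k F G hF hG :=
    add k _ _ (mul k _ _ (tm_hb b 0 k false) (mul k _ _
      (sub k _ _ (mono _ _ (hF true)) (mono _ _ (hF false)))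
      (sub k _ _ (mono _ _ (hG true)) (mono _ _ (hG false)))))
      (mul k _ _ (const k 2) (sum k _ _ _ fun a _ => sum k _ _ _ fun a' _ =>
        mul k _ _ (const k _) (mul k _ _ ((hF true).2 a) ((hG true).2 a'))))

end Crest.Agent.T157.Rn

end
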