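import Crest.Agent.T157.ZAll_73

/-!
# Row 157, part B, package (Z): square roots of `J + 4`, averaged approximable words (helper64)
-/

set_option autoImplicit false

noncomputable section

namespace Crest.Agent.T157.Z

open MeasureTheory ProbabilityTheory Matrix Filter Set
open Crest.ProbabilityR.SpinGlassDynamics
open Crest.Agent.T157.E Crest.Agent.T157.Eig Crest.Agent.T157.Tap
open Crest.Agent.R339.Guerra (mp_comp)

namespace Q64

variable {n : ℕ}

theorem herm {J : Mx n} (h : Jᵀ = J) : J.IsHermitian := by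
  rw [IsHermitian, conjTranspose_eq_transpose_of_trivial, h]

open scoped MatrixOrder in
theorem sqrt_eq {J Q : Mx n} (h : Jᵀ = J) (h3 : opn J ≤ 3) (hQ : Q.PosSemidef)
    (e : Q * Q = J + (4 : ℝ) • (1 : Mx n)) : Q = fnK (fun x => √(x + 4)) J := by
  have hJ := herm h
  have hR : (fnK (fun x => √(x + 4)) J).PosSemidef := by
    refine .of_dotProduct_mulVec_nonneg (fnK_herm _ _) fun x => ?_
    rw [star_trivial, quad_fnK]
    exact Finset.sum_nonneg fun k _ => mul_nonneg (Real.sqrt_nonneg _) (mul_self_nonneg _)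
  refine (CFC.mul_self_eq_mul_self_iff Q _ hQ.nonneg hR.nonneg).1 ?_
  rw [e, fnK_mul hJ, fnK_congr (g := fun x => x + 4), fnK_add, fnK_id_real hJ, fnK_const hJ]
  intro k _
  have := abs_le.1 ((abs_lam_le hJ k).trans h3)
  exact Real.mul_self_sqrt (by linarith [this.1])

theorem aeval_eq {J : Mx n} (h : Jᵀ = J) (p : Polynomial ℝ) :
    Polynomial.aeval J p = fnK (fun x => p.eval x) J := by
  have hJ := herm h
  induction p using Polynomial.induction_on with
  | C a =>
    simp only [Polynomial.aeval_C, Polynomial.eval_C]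
    rw [fnK_const hJ, Algebra.algebraMap_eq_smul_one]
  | add p q hp hq =>
    simp only [map_add, Polynomial.eval_add]
    rw [fnK_add, hp, hq]
  | monomial k a hk =>
    rw [pow_succ, ← mul_assoc, map_mul, hk, Polynomial.aeval_X]
    conv_lhs => rw [show ∀ A : Mx n, A * J = A * fnK (fun x : ℝ => x) J from
      fun A => by rw [fnK_id_real hJ]]
    rw [fnK_mul hJ]
    simp only [Polynomial.eval_mul, Polynomial.eval_X]

theorem ap_poly {ι : Type} [Fintype ι] {β : ℝ} (hβ : β ∈ Icc (0 : ℝ) 1) (c d : ι → ℝ) {U : Nt ι}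
    (hU : Ap β c d U) (p : Polynomial ℝ) :
    Ap β c d fun n J a => Polynomial.aeval J p *ᵥ U n J a := by
  induction p using Polynomial.induction_on with
  | C a =>
    have := apB.add ι β hβ c d U U a 0 hU hU
    convert this using 4 with n J x
    rw [Polynomial.aeval_C, Algebra.algebraMap_eq_smul_one, smul_mulVec, one_mulVec, zero_smul,
      add_zero]
  | add p q hp hq =>
    have := apB.add ι β hβ c d _ _ 1 1 hp hq
    convert this using 4 with n J x
    rw [map_add, add_mulVec, one_smul, one_smul]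
  | monomial k a hk =>
    have := (apB.mul ι β hβ c d _ hk).1
    convert this using 4 with n J x
    rw [mulVec_mulVec, pow_succ, ← mul_assoc, mul_comm, map_mul, Polynomial.aeval_X]

theorem jensen {α : Type} [MeasurableSpace α] (μ : Measure α) [IsProbabilityMeasure μ]
    {D : α → V n} (hD : Measurable D) {K : ℝ} (δ : ℝ) (hK : ∀ a i, |D a i| ≤ K) :
    nrm (fun i => ∫ a, D a i ∂μ) ^ 2 ≤
      δ ^ 2 * n + K ^ 2 * n * μ.real {a | ¬ nrm (D a) ≤ δ * √n} := by
  have hm : ∀ i, Measurable fun a => D a i := fun i => (measurable_pi_apply i).comp hD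
  have h2 : ∀ i, MemLp (fun a => D a i) 2 μ := fun i =>
    MemLp.of_bound (hm i).aestronglyMeasurable K (.of_forall fun a => hK a i)
  have hB : MeasurableSet {a | ¬ nrm (D a) ≤ δ * √n} :=
    (measurableSet_le (continuous_nrm.measurable.comp hD) measurable_const).compl
  have hi : ∀ i, Integrable (fun a => D a i ^ 2) μ := fun i => (h2 i).integrable_sq
  calc nrm (fun i => ∫ a, D a i ∂μ) ^ 2 = ∑ i, (∫ a, D a i ∂μ) ^ 2 := by
        rw [nrm_sq, dotProduct]; exact Finset.sum_congr rfl fun i _ => by ring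
    _ ≤ ∑ i, ∫ a, D a i ^ 2 ∂μ := by
        refine Finset.sum_le_sum fun i _ => ?_
        have := variance_nonneg (fun a => D a i) μ
        rw [variance_eq_sub (h2 i)] at this
        simpa using this
    _ = ∫ a, ∑ i, D a i ^ 2 ∂μ := (integral_finsetSum _ fun i _ => hi i).symm
    _ ≤ ∫ a, (δ ^ 2 * n + {a | ¬ nrm (D a) ≤ δ * √n}.indicator (fun _ => K ^ 2 * n) a) ∂μ := by
        refine integral_mono (integrable_finsetSum _ fun i _ => hi i)
          ((integrable_const _).add ((integrable_const _).indicator hB)) fun a => ?_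
        have e : ∑ i, D a i ^ 2 = nrm (D a) ^ 2 := by
          rw [nrm_sq, dotProduct]; exact Finset.sum_congr rfl fun i _ => by ring
        by_cases ha : nrm (D a) ≤ δ * √n
        · have : nrm (D a) ^ 2 ≤ (δ * √n) ^ 2 := pow_le_pow_left₀ (nrm_nonneg _) ha 2
          rw [mul_pow, Real.sq_sqrt (Nat.cast_nonneg n)] at this
          simp only [e, indicator, mem_ofPred_eq, ha, not_true_eq_false, if_false, add_zero]
          exact this
        · have : ∑ i, D a i ^ 2 ≤ ∑ _i : Fin n, K ^ 2 := Finset.sum_le_sum fun i _ =>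
            sq_le_sq' (abs_le.1 (hK a i)).1 (abs_le.1 (hK a i)).2
          rw [Finset.sum_const, Finset.card_univ, Fintype.card_fin, nsmul_eq_mul] at this
          simp only [indicator, mem_ofPred_eq, ha, not_false_eq_true, if_true]
          nlinarith [sq_nonneg δ, Nat.cast_nonneg (α := ℝ) n]
    _ = _ := by
        rw [integral_add (integrable_const _) ((integrable_const _).indicator hB),
          integral_indicator_const _ hB, integral_const]
        simp only [probReal_univ, smul_eq_mul]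
        ring

theorem meas_lab {m : ℕ} (y : V n) : Measurable (lab (m := m) y) := by
  refine measurable_pi_lambda _ fun l => measurable_pi_lambda _ fun i => ?_
  cases l with
  | inl l => exact measurable_const
  | inr l => exact measurable_pi_apply (l, i)

theorem RL_lab {m : ℕ} (σ : V n) : RL (Sum.elim (1 : Unit → ℝ) (0 : Fin m → ℝ)) (Sum.elim 0 1) σ =
    (gv (Fin m × Fin n)).map (lab σ) := by
  have hm := mp_comp (ι := (Unit ⊕ Fin m) × Fin n) (Prod.map Sum.inr id)
    (Sum.inr_injective.prodMap Function.injective_id)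
  conv_rhs => rw [show gv (Fin m × Fin n) = _ from hm.map_eq.symm]
  rw [RL, Measure.map_map (meas_lab σ) hm.measurable]
  congr 1
  funext w l i
  cases l <;> simp [rows, lab]

theorem Eb_eq {m : ℕ} {U : Nt (Unit ⊕ Fin m)} {J : Mx n} (hU : Measurable (U n J)) (σ : V n)
    (i : Fin n) : Eb U n J σ i =
      ∫ a, U n J a i ∂(RL (Sum.elim (1 : Unit → ℝ) (0 : Fin m → ℝ)) (Sum.elim 0 1) σ) := by
  rw [RL_lab]
  exact (integral_map (f := fun a => U n J a i) (meas_lab σ).aemeasurable
    ((measurable_pi_apply i).comp hU).aestronglyMeasurable).symm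

/-- relabelling -/
def rl (m k : ℕ) : (Unit ⊕ Fin m) ⊕ Fin k ≃ Unit ⊕ Fin (m + k) :=
  (Equiv.sumAssoc _ _ _).trans (Equiv.sumCongr (Equiv.refl _) finSumFinEquiv)

/-- the first labels -/
def fl (m k : ℕ) : Unit ⊕ Fin m ↪ Unit ⊕ Fin (m + k) :=
  Function.Embedding.inl.trans (rl m k).toEmbedding

end Q64

open Q64

theorem qStmt : QStmt := by
  intro ι _ β hβ c d Q hQ U hU
  refine apA.lim ι β c d _ fun ε hε => ?_
  obtain ⟨⟨C, C0, hC⟩, -⟩ := apA.bd ι β c d U hU
  obtain ⟨K, hK⟩ := hpStmt.good ι β hβ c d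
  obtain ⟨p, hp⟩ := exists_polynomial_near_of_continuousOn (-3) 3 (fun x => √(x + 4))
    (by fun_prop) (ε / (C + 1)) (by positivity)
  refine ⟨_, ap_poly hβ c d hU p, A48.imp hpStmt (hpStmt.and ι β c d _ _ hC hK) ?_⟩
  rintro n J a ⟨h1, h2, h3, -⟩
  obtain ⟨q1, q2⟩ := hQ n J h2 h3
  rw [← sub_mulVec, sqrt_eq h2 h3 q1 q2, aeval_eq h2, ← fnK_sub]
  have h4 : opn (fnK (fun x => √(x + 4) - p.eval x) J) ≤ ε / (C + 1) :=
    opn_fnK_le (herm h2) (by positivity) fun k _ => by
      rw [abs_sub_comm]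
      exact (hp _ (abs_le.1 ((abs_lam_le (herm h2) k).trans h3))).le
  refine (nrm_mulVec_le _ _).trans ((mul_le_mul h4 h1 (nrm_nonneg _) (by positivity)).trans ?_)
  rw [← mul_assoc]
  refine mul_le_mul_of_nonneg_right ?_ (Real.sqrt_nonneg _)
  rw [div_mul_eq_mul_div, div_le_iff₀ (by positivity)]
  nlinarith

theorem ebApStmt : EbApStmt := by
  intro β hβ m U hb hm hU ε hε
  obtain ⟨k, X, hX, hXb, hH⟩ := apA.smo _ β _ _ U hU (√(ε / 2)) (by positivity)
  obtain ⟨M, M0, hM⟩ := A48.Bd.pos hb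
  obtain ⟨M', M0', hM'⟩ := A48.Bd.pos hXb
  have hX' := A48.rel lipStmt hX (rl m k)
  refine ⟨m + k, _, hX', A48.Bd.comp hXb _, ?_⟩
  obtain ⟨κ, κ0, hW⟩ := A48.emb' hpStmt
    (c' := Sum.elim (1 : Unit → ℝ) (0 : Fin (m + k) → ℝ)) (d' := Sum.elim 0 1)
    (rl m k).toEmbedding (by rintro ((l | l) | l) <;> rfl) (by rintro ((l | l) | l) <;> rfl) hH
  have hev : ∀ᶠ n : ℕ in atTop, (M + M') ^ 2 * Real.exp (-κ * n) ≤ ε / 2 := by
    have : Tendsto (fun n : ℕ => (M + M') ^ 2 * Real.exp (-κ * n)) atTop (nhds ((M + M') ^ 2 * 0)) :=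
      (Real.tendsto_exp_atBot.comp (tendsto_natCast_atTop_atTop.const_mul_atTop_of_neg
        (by linarith))).const_mul _
    rw [mul_zero] at this
    exact this.eventually (eventually_le_nhds (by positivity))
  refine hW.mono ?_
  filter_upwards [hev] with n hn g hg
  have hw := Hp58.wt_gibbs n β g
  set J := β • Jmat n g
  have mX : Measurable fun a : Unit ⊕ Fin (m + k) → V n => X n J fun j => a (rl m k j) :=
    ((lipStmt.cont _ _ _ hX' n).comp (Continuous.prodMk_right J)).measurable
  have mf : Measurable fun (a : Unit ⊕ Fin (m + k) → V n) l => a (fl m k l) := by fun_prop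
  have mU : Measurable fun a : Unit ⊕ Fin (m + k) → V n => U n J fun l => a (fl m k l) :=
    (hm n J).comp mf
  refine (hw.mean_mono (g := fun x => ε / 2 * n + (M + M') ^ 2 * n *
    (RL (Sum.elim (1 : Unit → ℝ) (0 : Fin (m + k) → ℝ)) (Sum.elim 0 1) (sv x)).real
      {a | ¬ nrm ((U n J fun l => a (fl m k l)) - X n J fun j => a (rl m k j)) ≤ √(ε / 2) * √n})
    fun x => ?_).trans ?_
  · have h := jensen (RL (Sum.elim (1 : Unit → ℝ) (0 : Fin (m + k) → ℝ)) (Sum.elim 0 1) (sv x))
      (mU.sub mX) (K := M + M') (√(ε / 2)) fun a i =>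
        (abs_sub _ _).trans (add_le_add (hM _ _ _ _) (hM' _ _ _ _))
    rw [Real.sq_sqrt (by positivity)] at h
    refine le_trans (le_of_eq ?_) h
    congr 2
    funext i
    have iU : ∀ {F : (Unit ⊕ Fin (m + k) → V n) → V n} {B : ℝ}, Measurable F →
        (∀ a, |F a i| ≤ B) → Integrable (fun a => F a i)
          (RL (Sum.elim (1 : Unit → ℝ) (0 : Fin (m + k) → ℝ)) (Sum.elim 0 1) (sv x)) :=
      fun {F B} h1 h2 => Integrable.of_bound
        ((measurable_pi_apply i).comp h1).aestronglyMeasurable B (.of_forall h2)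
    simp only [Pi.sub_apply]
    rw [integral_sub (iU mU fun a => hM _ _ _ _) (iU mX fun a => hM' _ _ _ _),
      Eb_eq (U := fun n J a => X n J fun j => a (rl m k j)) mX, Eb_eq (hm n J)]
    congr 1
    have e := Hp58.law_emb (Sum.elim (1 : Unit → ℝ) (0 : Fin (m + k) → ℝ)) (Sum.elim 0 1)
      (fl m k) (sv x)
    rw [show (Sum.elim (1 : Unit → ℝ) (0 : Fin (m + k) → ℝ)) ∘ fl m k =
        Sum.elim (1 : Unit → ℝ) (0 : Fin m → ℝ) from
        funext (by rintro (l | l) <;> rfl),
      show (Sum.elim (0 : Unit → ℝ) (1 : Fin (m + k) → ℝ)) ∘ fl m k =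
        Sum.elim (0 : Unit → ℝ) (1 : Fin m → ℝ) from
        funext (by rintro (l | l) <;> rfl)] at e
    rw [← e]
    exact integral_map (f := fun a => U n J a i) mf.aemeasurable
      ((measurable_pi_apply i).comp (hm n J)).aestronglyMeasurable
  · rw [SL.mean_add, hw.mean_const, SL.mean_const_mul]
    have n0 : (0 : ℝ) ≤ n := Nat.cast_nonneg n
    have h1 := mul_le_mul_of_nonneg_left hg (by positivity : 0 ≤ (M + M') ^ 2 * n)
    have h2 := mul_le_mul_of_nonneg_left hn n0
    refine le_trans (add_le_add le_rfl h1) ?_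
    nlinarith

end Crest.Agent.T157.Z

end
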