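import Crest.Agent.T157.ZDefS_73
import Crest.Agent.T157.LmDefB_76
import Crest.Agent.T157.ZQ_64

/-!
# Row 157, part B (helper32): the seam `Z.LimOf` from the seam `Lm.SeamStmt`

An observable that is covariant for couplings with zero diagonal is read on the off-diagonal part.
-/

set_option autoImplicit false

noncomputable section

namespace Crest.Agent.T157.Z

open MeasureTheory Matrix Filter Set
open Crest.ProbabilityR.SpinGlassDynamics
open Crest.Agent.T157.E Crest.Agent.T157.Eig Crest.Agent.T157.Tap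
open Crest.Agent.T157.Lm (cj)
open Crest.Agent.T157.Pl (cmul)
open Crest.Agent.T157.Rec (grad)

namespace Lim32

variable {n : ℕ}

/-- the couplings without their diagonal -/
def od (J : Mx n) : Mx n := J - diagonal fun i => J i i

lemma od_apply (J : Mx n) (i j : Fin n) : od J i j = if i = j then 0 else J i j := by
  by_cases h : i = j
  · subst h; simp [od]
  · simp [od, h]

lemma od_sy {J : Mx n} (h : Jᵀ = J) : Sy (od J) :=
  ⟨by rw [od, transpose_sub, h, diagonal_transpose], fun i => by simp [od_apply]⟩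

lemma od_eq {J : Mx n} (h : ∀ i, J i i = 0) : od J = J := by simp [od, h]

lemma cj_apply (s : Cube n) (J : Mx n) (i j : Fin n) : cj s J i j = sv s i * J i j * sv s j := by
  simp [cj, diagonal_mul, mul_diagonal]

lemma od_cj (s : Cube n) (J : Mx n) : od (cj s J) = cj s (od J) := by
  ext i j
  rw [od_apply, cj_apply, cj_apply, od_apply]
  split_ifs <;> simp

lemma od_sm (J : Mx n) (e : Equiv.Perm (Fin n)) : od (J.submatrix e e) = (od J).submatrix e e := by
  ext i j
  simp [od_apply]

lemma sy_cj (s : Cube n) {J : Mx n} (h : Sy J) : Sy (cj s J) := by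
  refine ⟨?_, fun i => by rw [cj_apply, h.2]; simp⟩
  ext i j
  rw [transpose_apply, cj_apply, cj_apply, show J j i = J i j from congrFun (congrFun h.1 i) j]
  ring

lemma sy_sm {J : Mx n} (h : Sy J) (e : Equiv.Perm (Fin n)) : Sy (J.submatrix e e) :=
  ⟨by rw [transpose_submatrix, h.1], fun i => h.2 (e i)⟩

lemma cj_cj (s x : Cube n) (J : Mx n) : cj (cmul s x) (cj s J) = cj x J := by
  ext i j
  simp only [cj_apply, sv, Pl.spin_cmul]
  linear_combination (spin (x i) * J i j * spin (x j) * (spin (s j) * spin (s j))) *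
    spin_mul_self (s i) + (spin (x i) * J i j * spin (x j)) * spin_mul_self (s j)

lemma cj_sm (x : Cube n) (J : Mx n) (e : Equiv.Perm (Fin n)) :
    cj (x ∘ e) (J.submatrix e e) = (cj x J).submatrix e e := by
  ext i j
  simp [cj_apply, sv]

lemma opn_cj (s : Cube n) (J J' : Mx n) : opn (cj s J - cj s J') ≤ opn (J - J') := by
  have hd : opn (diagonal (sv s)) ≤ 1 := opn_diagonal_le zero_le_one fun i => by
    unfold sv; cases s i <;> simp [spin]
  rw [cj, cj, ← Matrix.sub_mul, ← Matrix.mul_sub]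
  have h1 := opn_mul_le (diagonal (sv s) * (J - J')) (diagonal (sv s))
  have h2 := opn_mul_le (diagonal (sv s)) (J - J')
  have h3 := opn_nonneg (J - J')
  have h4 := opn_nonneg (diagonal (sv s) * (J - J'))
  nlinarith

lemma opn_od (J J' : Mx n) : opn (od J - od J') ≤ 2 * opn (J - J') := by
  have e : od J - od J' = (J - J') - diagonal fun i => (J - J') i i := by
    ext i j
    by_cases h : i = j
    · subst h; simp [od_apply]
    · simp [od_apply, h]
  have h := opn_diagonal_le (opn_nonneg (J - J')) fun i => abs_entry_le (J - J') i i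
  have := opn_sub_le (J - J') (diagonal fun i => (J - J') i i)
  rw [e]
  linarith

lemma cov {Φ : ∀ n, Mx n → Cube n → ℝ} {B : ℝ} (h : Cov Φ B) (n : ℕ) :
    Lm.Cov (fun (J : Mx n) => Φ n (od J)) (2 * B) := by
  have hg : ∀ (J : Mx n) x, Sy J → Φ n J x = Φ n (cj x J) (Pl.one n) := fun J x hJ =>
    (h.gauge n J x hJ).symm
  have hB : 0 ≤ B := (dot_self_nonneg _).trans (h.grad n 0 (Pl.one n) ⟨by simp, by simp⟩)
  refine ⟨fun J s x hJ => ?_, fun J e x hJ => ?_, fun J J' x hJ hJ' => ?_, fun J x hJ => ?_⟩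
  · rw [od_cj, hg _ _ (sy_cj s (od_sy hJ)), cj_cj, ← hg _ _ (od_sy hJ)]
  · rw [od_sm, hg _ _ (sy_sm (od_sy hJ) e), cj_sm, h.perm _ _ _ (sy_cj x (od_sy hJ)),
      ← hg _ _ (od_sy hJ)]
  · rw [hg _ _ (od_sy hJ), hg _ _ (od_sy hJ')]
    refine (h.lip _ _ _ (sy_cj x (od_sy hJ)) (sy_cj x (od_sy hJ'))).trans ?_
    have := mul_le_mul_of_nonneg_left ((opn_cj x _ _).trans (opn_od J J'))
      (mul_nonneg hB (Real.sqrt_nonneg n))
    linarith
  · linarith [h.grad n _ x (od_sy hJ)]

end Lim32

open Lim32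

/-- the seam of package (Z) from the seam of the limit theory -/
theorem limOf_of (hS : Lm.SeamStmt) : LimOf := by
  intro β hβ Φ B hC hs
  have e : ∀ n (g : Pair n → ℝ), od (β • Jmat n g) = β • Jmat n g := fun n g =>
    od_eq fun i => by simp [Jmat_diag]
  have := hS β hβ.1 hβ.2 (fun n J => Φ n (od J)) (2 * B) (.of_forall (cov hC)) fun ε hε => by
    obtain ⟨m, X, h1, h2, h3⟩ := hs ε hε
    refine ⟨Unit ⊕ Fin m, inferInstance, Sum.elim 1 0, Sum.elim 0 1, X, lipStmt.mono _ _ _ h1, h2,
      h3.mono (.of_forall fun n g hg => ?_)⟩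
    have hm : Measurable (X n (β • Jmat n g)) :=
      ((lipStmt.cont _ _ _ h1 n).comp (Continuous.prodMk_right _)).measurable
    have e2 : ∀ σ, Lm.EN (Sum.elim 1 0) (Sum.elim 0 1) X n (β • Jmat n g) σ =
        Eb X n (β • Jmat n g) σ := fun σ => funext fun i => (Q64.Eb_eq hm σ i).symm
    simpa only [e, e2] using hg
  unfold Lm.Of.ob at this
  simpa only [e] using this

end Crest.Agent.T157.Z

end
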