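import Crest.Agent.T157.LmBasB_5
import Crest.Agent.T157.LmCom_48
import Crest.Agent.T157.LmFc_43
import Crest.Agent.T157.LmHyp_14
import Crest.Agent.T157.LmLay_44
import Crest.Agent.T157.LmLin_7
import Crest.Agent.T157.LmNet_59
import Crest.Agent.T157.LmNl_84
import Crest.Agent.T157.LmOn_59
import Crest.Agent.T157.LmRat_87
import Crest.Agent.T157.LmRes_30
import Crest.Agent.T157.LmRp_99
import Crest.Agent.T157.LmRt_66
import Crest.Agent.T157.LmSeam_10
import Crest.Agent.T157.LmSk_62
import Crest.Agent.T157.LmSpan_90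
import Crest.Agent.T157.LmTr_90
import Crest.Agent.T157.RnSm_16
import Crest.Agent.T157.ZLim_32

/-!
# Row 157, block B/S5 (helper32): the limit theory, assembled
-/

namespace Crest.Agent.T157.Lm

theorem comStmt : ComStmt := comGlue basStmt Rn.smStmt
theorem hypStmt : HypStmt := hypGlue basStmt Rn.smStmt
theorem rpStmt : RpStmt := rpGlue basStmt rtStmt skStmt
theorem ratStmt : RatStmt := ratGlue rtStmt skStmt rpStmt
theorem spanStmt : SpanStmt := spanGlue rtStmt skStmt rpStmt
theorem onStmt : OnStmt := onGlue rtStmt rpStmt ratStmt spanStmt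
theorem linStmt : LinStmt := linGlue hypStmt rtStmt skStmt rpStmt ratStmt onStmt
theorem nlStmt : NlStmt := nlGlue hypStmt rtStmt skStmt rpStmt linStmt
theorem enStmt : EnStmt := enGlue basStmt comStmt hypStmt skStmt rpStmt linStmt nlStmt
theorem resStmt : ResStmt :=
  resGlue basStmt comStmt hypStmt rtStmt skStmt rpStmt onStmt linStmt enStmt
theorem fcStmt : FcStmt := fcGlue basStmt skStmt linStmt
theorem sgStmt : SgStmt := sgGlue basStmt skStmt linStmt resStmt fcStmt
theorem limStmt : LimStmt := limGlue basStmt skStmt linStmt sgStmt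
theorem layStmt : LayStmt := layGlue Z.lipStmt rtStmt skStmt rpStmt linStmt ratStmt
theorem trStmt : TrStmt := trGlue basStmt skStmt lr2Stmt
theorem netStmt : NetStmt :=
  netGlue Z.lipStmt Z.hpStmt hypStmt rtStmt skStmt rpStmt linStmt nlStmt trStmt
/-- **the seam** -/
theorem seamStmt : SeamStmt :=
  seamGlue Z.lipStmt basStmt hypStmt skStmt linStmt limStmt trStmt netStmt layStmt

end Crest.Agent.T157.Lm

/-- **the seam**, in the words of package (Z) -/
theorem Crest.Agent.T157.Z.limOf : Crest.Agent.T157.Z.LimOf :=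
  Crest.Agent.T157.Z.limOf_of Crest.Agent.T157.Lm.seamStmt
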