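import Crest.Agent.T157.DaDef_82

/-!
# Row 157, part C (helper82): the gradient estimate for heat-bath dynamics of an Ising weight
-/

set_option autoImplicit false

noncomputable section

namespace Crest.Agent.T157.Da

open Matrix Function Real Set
open Crest.Agent.T157.E Crest.Agent.T157.Eig
open Crest.Agent.T157.Tap (V Mx)
open Crest.Agent.T157.Rec hiding fl
open Crest.Agent.T157.Chain22 (sg sg_add sg_zero hasDerivAt_sg)

namespace Gr

theorem hasDerivAt_tanh (x : ℝ) : HasDerivAt tanh (1 - tanh x ^ 2) x := by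
  have hc := (cosh_pos x).ne'
  have h := (hasDerivAt_sinh x).div (hasDerivAt_cosh x) hc
  have e : tanh = fun y => sinh y / cosh y := funext tanh_eq_sinh_div_cosh
  rw [e]
  refine h.congr_deriv ?_
  field_simp

theorem mvt (a b : ℝ) : ∃ ξ, |ξ - a| ≤ |a - b| ∧ tanh a - tanh b = (a - b) * (1 - tanh ξ ^ 2) := by
  have key : ∀ a b : ℝ, a < b → ∃ ξ ∈ Ioo a b, tanh b - tanh a = (b - a) * (1 - tanh ξ ^ 2) :=
    fun a b h => by
      obtain ⟨ξ, h1, h2⟩ := exists_hasDerivAt_eq_slope tanh (fun x => 1 - tanh x ^ 2) h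
        (fun x _ => (hasDerivAt_tanh x).continuousAt.continuousWithinAt) fun x _ => hasDerivAt_tanh x
      exact ⟨ξ, h1, by rw [h2, mul_div_cancel₀ _ (sub_pos.2 h).ne']⟩
  rcases lt_trichotomy a b with h | rfl | h
  · obtain ⟨ξ, h1, h2⟩ := key a b h
    refine ⟨ξ, ?_, by linarith⟩
    rw [abs_of_pos (sub_pos.2 h1.1), abs_of_neg (sub_neg.2 h)]; linarith [h1.2]
  · exact ⟨a, by simp, by simp⟩
  · obtain ⟨ξ, h1, h2⟩ := key b a h
    refine ⟨ξ, ?_, h2⟩
    rw [abs_of_neg (sub_neg.2 h1.2), abs_of_pos (sub_pos.2 h)]; linarith [h1.1]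

theorem sech_nonneg (x : ℝ) : 0 ≤ 1 - tanh x ^ 2 := sub_nonneg.2 (tanh_sq_lt_one x).le

theorem tanh_lip (a b : ℝ) : |tanh a - tanh b| ≤ |a - b| := by
  obtain ⟨ξ, -, h⟩ := mvt a b
  rw [h, abs_mul, abs_of_nonneg (sech_nonneg ξ)]
  exact mul_le_of_le_one_right (abs_nonneg _) (by nlinarith [sq_nonneg (tanh ξ)])

theorem sech_le (a b : ℝ) : 1 - tanh b ^ 2 ≤ exp (2 * |b - a|) * (1 - tanh a ^ 2) := by
  have e : ∀ x : ℝ, 1 - tanh x ^ 2 = 1 / cosh x ^ 2 := fun x => by
    have := (cosh_pos x).ne'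
    rw [tanh_eq_sinh_div_cosh]; field_simp; exact cosh_sq_sub_sinh_sq x
  have h : cosh a ≤ exp |b - a| * cosh b := by
    rw [cosh_eq, cosh_eq, ← mul_div_assoc, mul_add, ← exp_add, ← exp_add]
    have h1 := le_abs_self (b - a)
    have h2 := neg_abs_le (b - a)
    gcongr <;> linarith
  rw [e, e, mul_one_div, div_le_div_iff₀ (pow_pos (cosh_pos b) 2) (pow_pos (cosh_pos a) 2), one_mul,
    two_mul, exp_add, ← sq, ← mul_pow]
  exact pow_le_pow_left₀ (cosh_pos a).le h 2

theorem tanh_diff (h c : ℝ) : ∃ q, tanh h - tanh (h - c) = c * q ∧ 0 ≤ q ∧ q ≤ 1 ∧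
    q ≤ exp (2 * |c|) * (1 - tanh h ^ 2) ∧ |q - (1 - tanh h ^ 2)| ≤ 2 * |c| := by
  obtain ⟨ξ, h1, h2⟩ := mvt h (h - c)
  rw [sub_sub_cancel] at h1 h2
  refine ⟨_, h2, sech_nonneg ξ, by nlinarith [sq_nonneg (tanh ξ)], (sech_le h ξ).trans ?_, ?_⟩
  · exact mul_le_mul_of_nonneg_right (exp_le_exp.2 (by linarith)) (sech_nonneg h)
  · rw [show 1 - tanh ξ ^ 2 - (1 - tanh h ^ 2) = -((tanh ξ + tanh h) * (tanh ξ - tanh h)) by ring,
      abs_neg, abs_mul]
    refine mul_le_mul ((abs_add_le _ _).trans ?_) ((tanh_lip _ _).trans h1) (abs_nonneg _) zero_le_two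
    linarith [abs_tanh_lt_one ξ, abs_tanh_lt_one h]

variable {n : ℕ} {W : Mx n}

/-! ### discrete calculus -/

theorem val_fl (f : Cube n → ℝ) (x : Cube n) (i : Fin n) :
    f (Rec.fl x i) = f x - 2 * sv x i * grad f x i := by
  rw [grad_eq]; linear_combination (f (Rec.fl x i) - f x) * -sv_mul_self x i

theorem grad_mul (f g : Cube n → ℝ) (x : Cube n) (i : Fin n) : grad (fun z => f z * g z) x i =
    f x * grad g x i + g x * grad f x i - 2 * sv x i * (grad f x i * grad g x i) := by
  rw [grad_eq, val_fl f, val_fl g]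
  linear_combination (f x * grad g x i + g x * grad f x i -
    2 * sv x i * (grad f x i * grad g x i)) * sv_mul_self x i

theorem grad_sum {κ : Type*} (S : Finset κ) (f : κ → Cube n → ℝ) (x : Cube n) (i : Fin n) :
    grad (fun z => ∑ k ∈ S, f k z) x i = ∑ k ∈ S, grad (f k) x i := by
  simp only [grad, SL.incr, ← Finset.sum_sub_distrib, Finset.sum_div]

theorem grad_sv (x : Cube n) (i k : Fin n) : grad (fun z => sv z k) x i = if i = k then 1 else 0 := by
  have := congrFun (grad_lin (Pi.single k 1) x) i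
  simpa [Pi.single_apply] using this

theorem grad_comm (f : Cube n → ℝ) (x : Cube n) (i k : Fin n) :
    grad (fun z => grad f z i) x k = grad (fun z => grad f z k) x i := by
  by_cases h : i = k
  · rw [h]
  · simp only [grad, SL.incr, update_comm h]; ring

theorem grad_self (f : Cube n → ℝ) (x : Cube n) (i : Fin n) : grad (fun z => grad f z i) x i = 0 := by
  rw [grad, SL.incr, grad_update, grad_update, sub_self, zero_div]

theorem hasDerivAt_grad {F : ℝ → Cube n → ℝ} {F' : Cube n → ℝ} {t : ℝ}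
    (h : ∀ z, HasDerivAt (fun u => F u z) (F' z) t) (z : Cube n) (i : Fin n) :
    HasDerivAt (fun u => grad (F u) z i) (grad F' z i) t := ((h _).sub (h _)).div_const 2

/-! ### the generator -/

/-- local field -/
def loc (W : Mx n) (y : V n) (x : Cube n) : V n := fun i => (W *ᵥ sv x) i - W i i * sv x i + y i
/-- conditional mean of the spin -/
def tt (W : Mx n) (y : V n) (x : Cube n) : V n := fun i => tanh (loc W y x i)

theorem sv_fl (x : Cube n) (i : Fin n) : sv (Rec.fl x i) = sv x + Pi.single i (-2 * sv x i) := by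
  rw [← sv_fl_sub]; abel

theorem ising_fl (hW : Wᵀ = W) (y : V n) (x : Cube n) (i : Fin n) :
    ising W y (Rec.fl x i) = ising W y x * exp (-(2 * (sv x i * loc W y x i))) := by
  rw [ising, ising, ← exp_add, sv_fl, mulVec_add, add_dotProduct, dotProduct_add, dotProduct_add,
    dotProduct_add, dot_symm (herm_iff.2 hW) (sv x) (Pi.single _ _)]
  simp only [single_dotProduct, dotProduct_single, mulVec_single, loc, MulOpposite.smul_eq_mul_unop,
    Pi.smul_apply, col_apply, MulOpposite.unop_op]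
  congr 1; ring

theorem ising_pos (W : Mx n) (y : V n) (x : Cube n) : 0 < ising W y x := exp_pos _

theorem gen_ising (hW : Wᵀ = W) (y : V n) (f : Cube n → ℝ) (x : Cube n) :
    gen (ising W y) f x = ∑ i, (tt W y x i - sv x i) * grad f x i := by
  refine Finset.sum_congr rfl fun i _ => ?_
  have e : siteM (ising W y) f i x = (ising W y x * f x + ising W y (Rec.fl x i) * f (Rec.fl x i)) /
      (ising W y x + ising W y (Rec.fl x i)) := by
    have e : x = update x i (x i) := by rw [update_eq_self]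
    rw [siteM, Rec.fl]
    cases h : x i
    · rw [h] at e; rw [← e, Bool.not_false, add_comm, add_comm (ising W y x)]
    · rw [h] at e; rw [← e, Bool.not_true]
  have h0 := ising_pos W y x
  have h1 := exp_pos (loc W y x i)
  rw [e, ising_fl hW, val_fl f, tt, tanh_eq]
  have hs : sv x i = 1 ∨ sv x i = -1 := mul_self_eq_one_iff.1 (sv_mul_self x i)
  rcases hs with hs | hs <;> rw [hs]
  · rw [one_mul, two_mul, neg_add, exp_add, exp_neg]; field_simp; ring
  · rw [neg_one_mul, mul_neg, neg_neg, two_mul, exp_add, exp_neg]; field_simp; ring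

theorem loc_fl (W : Mx n) (y : V n) (x : Cube n) (i k : Fin n) :
    loc W y (Rec.fl x i) k = loc W y x k - if i = k then 0 else 2 * sv x i * W k i := by
  simp only [loc, sv_fl, mulVec_add, mulVec_single, Pi.add_apply, MulOpposite.smul_eq_mul_unop,
    Pi.smul_apply, col_apply, MulOpposite.unop_op, Pi.single_apply]
  by_cases h : i = k
  · subst h; simp; ring
  · rw [if_neg h, if_neg (Ne.symm h)]; ring

theorem row_sq_le (W : Mx n) (i : Fin n) : ∑ k, W k i ^ 2 ≤ opn W ^ 2 := by
  have := mulVec_dot_le W (Pi.single i 1)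
  simpa [dotProduct, sq, Pi.single_apply] using this

theorem gam2 (hW : Wᵀ = W) {K : ℝ} (hK : opn W ≤ K) (y : V n) (F : Cube n → ℝ) (x : Cube n) :
    2 * (grad F x ⬝ᵥ grad (gen (ising W y) F) x) ≤
      gen (ising W y) (fun z => grad F z ⬝ᵥ grad F z) x +
        (4 * K + 8 * K ^ 2 + 4 * exp (4 * K) * K ^ 2) * (grad F x ⬝ᵥ grad F x) := by
  have K0 : 0 ≤ K := (opn_nonneg W).trans hK
  set w := grad F x with hw
  set s := sv x
  set t := tt W y x with ht
  set d : Fin n → Fin n → ℝ := fun i k => grad (fun z => grad F z i) x k with hd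
  set a : Fin n → Fin n → ℝ := fun i k => grad (fun z => tt W y z k) x i with ha
  have h1 : ∀ i, grad (gen (ising W y) F) x i =
      ∑ k, ((t k - s k) * d i k + a i k * w k - 2 * s i * (a i k * d i k)) - w i := fun i => by
    rw [funext (gen_ising hW y F), grad_sum]
    have : w i = ∑ k, if i = k then w k - 2 * s i * d i k else 0 := by
      rw [Finset.sum_ite_eq, if_pos (Finset.mem_univ i), hd]; simp only [grad_self]; ring
    rw [this, ← Finset.sum_sub_distrib]
    refine Finset.sum_congr rfl fun k _ => ?_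
    rw [grad_mul, congrFun (grad_sub _ _ x) i, Pi.sub_apply, grad_sv, grad_comm F x k i]
    split_ifs <;> ring
  have h2 : gen (ising W y) (fun z => grad F z ⬝ᵥ grad F z) x =
      ∑ i, ∑ k, (2 * w i * ((t k - s k) * d i k) + 2 * (1 - s k * t k) * d i k ^ 2) := by
    rw [gen_ising hW, Finset.sum_comm]
    refine Finset.sum_congr rfl fun k _ => ?_
    simp only [dotProduct]
    rw [grad_sum, Finset.mul_sum]
    refine Finset.sum_congr rfl fun i _ => ?_
    rw [grad_mul]
    linear_combination 2 * d i k ^ 2 * sv_mul_self x k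
  have h3 : ∀ i k, 2 * w i * (a i k * w k - 2 * s i * (a i k * d i k)) ≤
      2 * (1 - s k * t k) * d i k ^ 2 + 2 * (w i * (W i k * ((1 - t k ^ 2) * w k))) +
      (4 + 4 * exp (4 * K)) * (W k i ^ 2 * w i ^ 2) + 4 * (W i k ^ 2 * w k ^ 2) +
      if i = k then 2 * K * w i ^ 2 else 0 := fun i k => by
    have hs := sv_mul_self x k
    have ht1 : |t k| < 1 := abs_tanh_lt_one _
    have hst : |s k * t k| < 1 := by
      rw [abs_mul, (abs_eq zero_le_one).2 (mul_self_eq_one_iff.1 hs), one_mul]; exact ht1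
    have hp := abs_lt.1 hst
    have hD := sech_nonneg (loc W y x k)
    have hWk : |W k i| ≤ K := (abs_entry_le W k i).trans hK
    have hsym : W i k = W k i := herm_apply (herm_iff.2 hW) i k
    have e0 := exp_pos (4 * K)
    by_cases h : i = k
    · subst h
      have a0 : a i i = 0 := by simp [ha, grad_eq, tt, loc_fl]
      have : -K ≤ W i i * (1 - t i ^ 2) := by
        have := abs_le.1 hWk
        have h4 : 0 ≤ 1 - t i ^ 2 := hD
        nlinarith [sq_nonneg (t i)]
      rw [a0, if_pos rfl]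
      have h5 : 0 ≤ 2 * (1 - s i * t i) * d i i ^ 2 := mul_nonneg (by linarith) (sq_nonneg _)
      have h6 : 0 ≤ (4 + 4 * exp (4 * K)) * (W i i ^ 2 * w i ^ 2) := by positivity
      nlinarith [sq_nonneg (w i), mul_nonneg (sq_nonneg (W i i)) (sq_nonneg (w i))]
    · obtain ⟨q, e, q0, q1, q2, q3⟩ := tanh_diff (loc W y x k) (2 * sv x i * W k i)
      have hsi := sv_mul_self x i
      have hc : |2 * sv x i * W k i| = 2 * |W k i| := by
        rw [abs_mul, abs_mul, (abs_eq zero_le_one).2 (mul_self_eq_one_iff.1 hsi)]; simp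
      have ea : a i k = W k i * q := by
        simp only [ha, grad_eq, tt, loc_fl, if_neg h, e]
        linear_combination W k i * q * hsi
      rw [hc] at q2 q3
      have q4 : q ≤ 2 * exp (4 * K) * (1 - s k * t k) := by
        have : 1 - t k ^ 2 ≤ 2 * (1 - s k * t k) := by
          have : 1 - t k ^ 2 = (1 - s k * t k) * (1 + s k * t k) := by
            linear_combination t k ^ 2 * hs
          nlinarith
        refine q2.trans ((mul_le_mul (exp_le_exp.2 (by linarith)) this hD e0.le).trans_eq (by ring))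
      have q5 : |q - (1 - t k ^ 2)| ≤ 4 * |W k i| := by
        have : |q - (1 - t k ^ 2)| ≤ 2 * (2 * |W k i|) := q3
        linarith
      have b1 : 2 * w i * (W k i * (q - (1 - t k ^ 2)) * w k) ≤
          4 * (W k i ^ 2 * w i ^ 2) + 4 * (W k i ^ 2 * w k ^ 2) := by
        refine (le_abs_self _).trans ?_
        rw [abs_mul, abs_mul, abs_mul, abs_mul, abs_two, ← sq_abs (W k i), ← sq_abs (w i),
          ← sq_abs (w k)]
        have := mul_le_mul_of_nonneg_left q5 (show 0 ≤ 2 * |w i| * |W k i| * |w k| by positivity)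
        nlinarith [mul_nonneg (sq_nonneg |W k i|) (sq_nonneg (|w i| - |w k|))]
      have b2 : -(4 * w i * s i * (W k i * q * d i k)) ≤
          2 * (1 - s k * t k) * d i k ^ 2 + 4 * exp (4 * K) * (W k i ^ 2 * w i ^ 2) := by
        have p0 : 0 < 1 - s k * t k := by linarith
        refine le_of_mul_le_mul_left ?_ p0
        have q6 : q ^ 2 ≤ 2 * exp (4 * K) * (1 - s k * t k) := by nlinarith
        have := mul_le_mul_of_nonneg_left q6 (mul_nonneg (sq_nonneg (W k i)) (sq_nonneg (w i)))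
        have e2 : (w i * s i * W k i * q) ^ 2 = W k i ^ 2 * w i ^ 2 * q ^ 2 := by
          linear_combination W k i ^ 2 * w i ^ 2 * q ^ 2 * hsi
        nlinarith [sq_nonneg ((1 - s k * t k) * d i k + w i * s i * W k i * q)]
      rw [if_neg h, ea, hsym]
      linarith
  have ww : w ⬝ᵥ w = ∑ i, w i ^ 2 := by simp only [dotProduct, sq]
  have s1 : ∑ i, ∑ k, w i * (W i k * ((1 - t k ^ 2) * w k)) ≤ K * (w ⬝ᵥ w) := by
    have h := (le_abs_self _).trans (abs_bil_le W w fun k => (1 - t k ^ 2) * w k)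
    have h' : nrm (fun k => (1 - t k ^ 2) * w k) ≤ nrm w := by
      refine Real.sqrt_le_sqrt (Finset.sum_le_sum fun k _ => ?_)
      have h4 : 0 ≤ 1 - t k ^ 2 := sech_nonneg _
      have h5 : (1 - t k ^ 2) * (1 - t k ^ 2) ≤ 1 := by nlinarith [sq_nonneg (t k)]
      nlinarith [mul_self_nonneg (w k)]
    rw [← nrm_mul_self]
    refine le_of_eq_of_le (by simp only [dotProduct, mulVec, Finset.mul_sum]) (h.trans ?_)
    exact mul_le_mul hK (mul_le_mul_of_nonneg_left h' (nrm_nonneg _))
      (mul_nonneg (nrm_nonneg _) (nrm_nonneg _)) K0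
  have s2 : ∑ i, ∑ k, W k i ^ 2 * w i ^ 2 ≤ K ^ 2 * (w ⬝ᵥ w) := by
    rw [ww, Finset.mul_sum]
    refine Finset.sum_le_sum fun i _ => ?_
    rw [← Finset.sum_mul]
    exact mul_le_mul_of_nonneg_right ((row_sq_le W i).trans
      (pow_le_pow_left₀ (opn_nonneg W) hK 2)) (sq_nonneg _)
  have s3 : ∑ i, ∑ k, W i k ^ 2 * w k ^ 2 ≤ K ^ 2 * (w ⬝ᵥ w) := by rwa [Finset.sum_comm]
  have s4 := Finset.sum_le_sum fun i (_ : i ∈ Finset.univ) =>
    Finset.sum_le_sum fun k (_ : k ∈ Finset.univ) => h3 i k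
  simp only [Finset.sum_add_distrib, ← Finset.mul_sum, Finset.sum_ite_eq, Finset.mem_univ, if_true,
    ← ww] at s4
  have s5 : 2 * (w ⬝ᵥ grad (gen (ising W y) F) x) = ∑ i, ∑ k, 2 * w i * ((t k - s k) * d i k) +
      ∑ i, 2 * w i * ∑ k, (a i k * w k - 2 * s i * (a i k * d i k)) - 2 * (w ⬝ᵥ w) := by
    simp only [dotProduct, h1, Finset.mul_sum, ← Finset.sum_add_distrib, ← Finset.sum_sub_distrib]
    refine Finset.sum_congr rfl fun i _ => ?_
    rw [mul_sub, Finset.mul_sum, mul_sub, Finset.mul_sum]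
    congr 1
    · exact Finset.sum_congr rfl fun k _ => by ring
  rw [s5, h2]
  simp only [Finset.sum_add_distrib]
  have := mul_le_mul_of_nonneg_left s2 (show 0 ≤ 4 + 4 * exp (4 * K) by positivity)
  simp only [← Finset.mul_sum] at s1 s4 ⊢
  nlinarith [dot_self_nonneg w]

theorem gr_of {w : Cube n → ℝ} {C : ℝ} (hn : 0 < n) (hw : ∀ x, 0 < w x)
    (h : ∀ F x, 2 * (grad F x ⬝ᵥ grad (gen w F) x) ≤
      gen w (fun z => grad F z ⬝ᵥ grad F z) x + C * (grad F x ⬝ᵥ grad F x)) : GR w C := by
  intro t ht f x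
  have d : ∀ u, HasDerivAt (fun u => exp (C * u) *
      sg w u (fun z => grad (sg w (t - u) f) z ⬝ᵥ grad (sg w (t - u) f) z) x) _ u := fun u => by
    refine ((hasDerivAt_id' u).const_mul C).exp.mul (hasDerivAt_sg_fam hn hw
      (F := fun u z => grad (sg w (t - u) f) z ⬝ᵥ grad (sg w (t - u) f) z)
      (F' := fun z => -(2 * (grad (sg w (t - u) f) z ⬝ᵥ grad (gen w (sg w (t - u) f)) z)))
      (fun z => ?_) x)
    have g := hasDerivAt_grad (F := fun u => sg w (t - u) f)
      (F' := fun z => -1 * gen w (sg w (t - u) f) z) (t := u) (fun z =>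
        ((hasDerivAt_sg hn hw f z (t - u)).comp u ((hasDerivAt_id' u).const_sub t)).congr_deriv
          (by ring)) z
    refine (HasDerivAt.fun_sum fun i _ => (g i).mul (g i)).congr_deriv ?_
    simp only [grad_const_mul, dotProduct, Finset.mul_sum, ← Finset.sum_neg_distrib, Pi.smul_apply,
      smul_eq_mul]
    exact Finset.sum_congr rfl fun i _ => by ring
  have := monotoneOn_of_deriv_nonneg (convex_Icc 0 t)
    (fun q _ => (d q).continuousAt.continuousWithinAt)
    (fun q _ => (d q).differentiableAt.differentiableWithinAt) (fun u hu => by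
      rw [interior_Icc] at hu
      rw [(d u).deriv, mul_one, mul_assoc, ← mul_add, ← sg_const_mul, ← sg_add_fun]
      exact mul_nonneg (exp_pos _).le (sg_nonneg hn hw hu.1.le (fun z => by linarith [h (sg w (t - u) f) z]) x))
    (left_mem_Icc.2 ht) (right_mem_Icc.2 ht) ht
  simpa only [mul_zero, exp_zero, one_mul, sub_zero, sub_self, sg_zero hn hw] using this

end Gr

theorem grStmt : GRStmt := fun K => ⟨4 * |K| + 8 * |K| ^ 2 + 4 * exp (4 * |K|) * |K| ^ 2, by positivity,
  fun _ W y hn hW hK => Gr.gr_of hn (Gr.ising_pos W y) (Gr.gam2 hW (hK.trans (le_abs_self K)) y)⟩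

end Crest.Agent.T157.Da

end
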