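import Crest.Agent.T157.ZDefF_73
import Crest.Agent.T157.DaGr_82

/-!
# Row 157, part B, kernel route (helper8): the exact gradients are approximable
-/

set_option autoImplicit false

noncomputable section

namespace Crest.Agent.T157.Zf

open MeasureTheory Matrix Filter Set
open Crest.Agent.T157.E Crest.Agent.T157.Eig Crest.Agent.T157.Tap Crest.Agent.T157.Z
open Crest.Agent.T157.Z.ApB11

theorem bp2Glue : Bp2Glue := by
  intro hT κ _ _ ι _ β hβ c d j X W hX hW
  have net : ∀ {X : Nt κ}, Nw True X → Ap β c d fun n J a => X n J fun l => W l n J a :=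
    fun h => hT.net κ ι β hβ c d _ W (lipStmt.mono κ _ _ h) hW
  have df : ∀ {X : Nt κ}, Nw True X → ∀ n J a, DifferentiableAt ℝ (X n J) a :=
    fun h n J a => lipStmt.diff κ _ h n J a
  induction hX with
  | inp j' =>
    intro U hU
    convert apB.add ι β hβ c d U U (if j' = j then 1 else 0) 0 hU hU using 1
    ext n J a k
    rw [fd_dot (differentiableAt_apply j' _), (hasFDerivAt_apply j' _).fderiv]
    by_cases h : j' = j <;> simp [h]
  | map φ X ho hs hX ih =>
    intro U hU
    convert apB.sum ι β hβ c d _ _ fun l => ih l _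
      (apB.ev ι β hβ c d _ _ _ U (el_d ho (hs trivial) l) (fun l => net (hX l)) hU) using 1
    ext n J a k
    rw [fd_map (hs trivial).1 fun l => df (hX l) n J _, Finset.sum_apply]
  | mul X hX _ ih =>
    intro U hU
    convert ih _ (apB.mul ι β hβ c d U hU).2.2 using 1
    ext n J a k
    simp only [dotProduct_mulVec, mulVec_transpose]
  | sc X Y Z hX hY hZ _ _ _ ihX ihY ihZ =>
    intro U hU
    convert apB.add ι β hβ c d _ _ 1 1 (ihZ _ (apB.sc ι β hβ c d _ _ U (net hX) (net hY) hU))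
      (apB.add ι β hβ c d _ _ 1 1 (ihX _ (apB.sc ι β hβ c d U _ _ hU (net hZ) (net hY)))
        (ihY _ (apB.sc ι β hβ c d U _ _ hU (net hZ) (net hX)))) using 1
    ext n J a k
    rw [fd_sc (df hX n J _) (df hY n J _) (df hZ n J _), one_smul, one_smul, one_smul, one_smul]
    rfl

namespace Ch8

variable {n m : ℕ} {ι : Type} [Fintype ι] {β : ℝ} {c d : ι → ℝ} {U W : Nt ι}

theorem lipT : LipschitzWith 1 fun u : Fin 1 → ℝ => Real.tanh (u 0) :=
  .of_dist_le_mul fun u v => by
    rw [NNReal.coe_one, one_mul]; exact (Da.Gr.tanh_lip _ _).trans (dist_le_pi_dist u v 0)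

theorem mT : Measurable Real.tanh :=
  (continuous_iff_continuousAt.2 fun x => (Da.Gr.hasDerivAt_tanh x).continuousAt).measurable

theorem m_th {α : Type} [MeasurableSpace α] {x : α → V n} (h : Measurable x) :
    Measurable fun a => th (x a) := measurable_pi_lambda _ fun i => mT.comp (h.eval (a := i))

theorem m_DD {α : Type} [MeasurableSpace α] {x : α → V n} (h : Measurable x) :
    Measurable fun a => DD (th (x a)) :=
  measurable_pi_lambda _ fun i => measurable_const.sub ((mT.comp (h.eval (a := i))).pow_const 2)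

theorem m_mv {α : Type} [MeasurableSpace α] (A : Mx n) {x : α → V n} (h : Measurable x) :
    Measurable fun a => A *ᵥ x a :=
  (LinearMap.toContinuousLinearMap (mulVecLin A)).continuous.measurable.comp h

theorem m_Dm {α : Type} [MeasurableSpace α] {x v : α → V n} (h : Measurable x) (hv : Measurable v) :
    Measurable fun a => DD (th (x a)) * v a := (m_DD h).mul hv

theorem m_add {α : Type} [MeasurableSpace α] {x v : α → V n} (h : Measurable x) (hv : Measurable v) :
    Measurable fun a => x a + v a := h.add hv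

theorem m_sub {α : Type} [MeasurableSpace α] {x v : α → V n} (h : Measurable x) (hv : Measurable v) :
    Measurable fun a => x a - v a := h.sub hv

theorem m_smul {α : Type} [MeasurableSpace α] (t : ℝ) {x : α → V n} (h : Measurable x) :
    Measurable fun a => t • x a := h.const_smul t

theorem m_Sm {α : Type} [MeasurableSpace α] (hK : KeStmt) {x y : α → V n} (hx : Measurable x)
    (hy : Measurable y) {a : Cube n → V n → V n} (h : ∀ s, Measurable (a s)) :
    Measurable fun p => Sm (x p) (y p) a := by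
  have := (hK.meas n a h).comp (hx.prodMk hy)
  exact this

theorem m_xu {α : Type} [MeasurableSpace α] (J : Mx n) {y u z : α → V n} (hy : Measurable y)
    (hu : Measurable u) (hz : Measurable z) : Measurable fun a => xu J (y a) (u a) (z a) :=
  (hy.add (m_mv _ hu)).add (m_mv _ hz)

theorem ap_add (hβ : β ∈ Icc (0 : ℝ) 1) (hU : Ap β c d U) (hW : Ap β c d W) :
    Ap β c d fun n J a => U n J a + W n J a := by simpa using apB.add ι β hβ c d U W 1 1 hU hW

theorem ap_sub (hβ : β ∈ Icc (0 : ℝ) 1) (hU : Ap β c d U) (hW : Ap β c d W) :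
    Ap β c d fun n J a => U n J a - W n J a := by
  simpa [sub_eq_add_neg] using apB.add ι β hβ c d U W 1 (-1) hU hW

theorem ap_smul (hβ : β ∈ Icc (0 : ℝ) 1) (t : ℝ) (hU : Ap β c d U) :
    Ap β c d fun n J a => t • U n J a := by simpa using apB.add ι β hβ c d U U t 0 hU hU

theorem ap_th (hβ : β ∈ Icc (0 : ℝ) 1) (hU : Ap β c d U) : Ap β c d fun n J a => th (U n J a) :=
  apB.map ι β hβ c d 1 (fun u => Real.tanh (u 0)) (fun _ => U)
    ⟨fun u => by simp [Real.tanh_neg], _, lipT⟩ fun _ => hU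

theorem ap_DD (hβ : β ∈ Icc (0 : ℝ) 1) (hU : Ap β c d U) (hW : Ap β c d W) :
    Ap β c d fun n J a => DD (th (U n J a)) * W n J a := by
  have b : ∀ u : Fin 1 → ℝ, |Real.tanh (u 0)| ≤ 1 := fun u => (Real.abs_tanh_lt_one _).le
  obtain ⟨K, hK⟩ := lip_mul lipT lipT b b
  exact apB.ev ι β hβ c d 1 (fun u => 1 - Real.tanh (u 0) ^ 2) (fun _ => U) W
    ⟨fun u => by simp [Real.tanh_neg], ⟨_, by
      simpa only [sq] using (LipschitzWith.const (1 : ℝ)).sub hK⟩, 1, fun u => by
      have := abs_le.1 (b u)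
      beta_reduce
      rw [abs_le]; constructor <;> nlinarith⟩ (fun _ => hU) hW

theorem nrm_DD (x v : V n) : nrm (DD (th x) * v) ≤ nrm v := by
  rw [← nrm_abs v]
  refine nrm_mono fun i => ?_
  have := abs_lt.1 (Real.abs_tanh_lt_one (x i))
  rw [Pi.mul_apply, abs_mul]
  exact mul_le_of_le_one_left (abs_nonneg _) (by
    simp only [DD, th]; rw [abs_le]; constructor <;> nlinarith)

theorem lm0 (c d : ι → ℝ) : 0 ≤ lm c d := Finset.sum_nonneg fun _ _ => by positivity

theorem nwXb {X : Nt (Fin 2 ⊕ Fin m)} (hX : Nw True X) : Nw True (Xb X) := by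
  convert lipStmt.comp _ (Fin 3 ⊕ Fin m) True X
    (fun j _ _ a => a (Sum.elim ![.inl 0, .inl 1] .inr j)) hX fun j => .inp _ using 1
  ext n J a i
  rw [Xb]
  congr 1
  ext1 j
  rcases j with j | j
  · fin_cases j <;> rfl
  · rfl

theorem m_adj [DecidableEq ι] (j : ι) {X : Nt ι} (hX : Nw True X) (J : Mx n)
    (hU : Measurable (U n J)) : Measurable (adj j X U n J) := measurable_pi_lambda _ fun k => by
  simp only [adj, fd_dot (lipStmt.diff ι _ hX n J _)]
  exact Finset.measurable_sum _ fun i _ => (hU.eval (a := i)).mul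
    ((measurable_fderiv_apply_const ℝ (X n J) _).eval (a := i))

theorem ad1 : Ad c1 d1 := fun l => by fin_cases l <;> simp [c1, d1]

theorem adb : Ad (cb m) (db m) := fun l => by
  rcases l with l | l
  · fin_cases l <;> simp [cb, db]
  · simp [cb]

theorem ap_g0 (hT : TrStmt) (hB : Bp2Stmt) (hβ : β ∈ Icc (0 : ℝ) 1) {X : Nt (Fin 2 ⊕ Fin m)}
    (hX : Nw True X) {W : Fin 3 ⊕ Fin m → Nt ι} (hW : ∀ l, Ap β c d (W l)) :
    Ap β c d (fun n J a => g0a X n J fun l => W l n J a) ∧
      Ap β c d fun n J a => g0b X n J fun l => W l n J a := by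
  have hXb := nwXb hX
  have a1 := hT.net _ ι β hβ c d _ _ (lipStmt.mono _ _ _ hXb) hW
  have a2 : Ap β c d fun n J a => Ub m n J fun l => W l n J a :=
    ap_sub hβ (ap_smul hβ kz⁻¹ (ap_th hβ (hW (.inl 2)))) (ap_th hβ (hW (.inl 0)))
  have a4 : ∀ j, Ap β c d fun n J a => adj j (Xb X) (Ub m) n J fun l => W l n J a := fun j =>
    hB _ ι β hβ c d j (Xb X) W hXb hW _ a2
  have a3 : Ap β c d fun n J a => gx X n J fun l => W l n J a :=
    ap_sub hβ (a4 (.inl 0)) (ap_DD hβ (hW (.inl 0)) a1)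
  exact ⟨ap_add hβ (hT.xu ι β hβ c d _ _ _ a3 a3 a3).1 (ap_smul hβ kz⁻¹ (ap_DD hβ (hW (.inl 2)) a1)),
    ap_add hβ a3 (a4 (.inl 1))⟩

theorem tr_of (hT : TrStmt) (hβ : β ∈ Icc (0 : ℝ) 1) {φ : ℝ → ℝ}
    {F : ∀ n, Mx n → Cube n → V n → (ι → V n) → V n} (key : Tr2 β F) (M : ℝ) (ad : Ad c d)
    (mu : Mu (lm c d) φ) (h1 : ∀ n (J : Mx n) s, Jᵀ = J → ∀ y u, nrm (F n J s y u) ≤ M * √n)
    (h2 : ∀ n (J : Mx n) s, Jᵀ = J → Measurable fun p : V n × (ι → V n) => F n J s p.1 p.2) {G : Vf}
    (e : ∀ n (J : Mx n) s y, Jᵀ = J → G n J s y = Gm c d φ (fun s u => F n J s y u) s) : Tr β G :=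
  hT.congr β hβ _ _ (hT.gm ι β hβ c d φ M F ad mu (fun n J s hJ => ⟨h1 n J s hJ, h2 n J s hJ⟩) key)
    fun n J hJ => funext₂ fun s y => e n J s y hJ

end Ch8

open Ch8

set_option maxHeartbeats 800000 in
theorem chGlue : ChGlue := fun hM hT hB hK hS hE => by
  refine ⟨fun β hβ m X hX hb => ?_, fun β hβ f C hf ha hb => ?_, fun β hβ f C hf r hr ha hb => ?_⟩
  · obtain ⟨C, hC⟩ := hE.base m X hX hb
    have hXb := nwXb hX
    have mX : ∀ n J, Measurable (Xb X n J) := fun n J => (lipStmt.diff _ _ hXb n J).continuous.measurable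
    have mU : ∀ n J, Measurable (Ub m n J) := fun n J =>
      m_sub (m_smul _ (m_th (measurable_pi_apply _))) (m_th (measurable_pi_apply _))
    have mg : ∀ n J, Measurable (gx X n J) := fun n J =>
      m_sub (m_adj _ hXb J (mU n J)) (m_Dm (measurable_pi_apply _) (mX n J))
    have mA : ∀ n J, Measurable (g0a X n J) := fun n J =>
      m_add (m_mv _ (mg n J)) (m_smul _ (m_Dm (measurable_pi_apply _) (mX n J)))
    have mB : ∀ n J, Measurable (g0b X n J) := fun n J => m_add (mg n J) (m_adj _ hXb J (mU n J))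
    have mT : ∀ n (J : Mx n), Measurable fun p : V n × (Fin 3 ⊕ Fin m → V n) => Tb J p.1 p.2 :=
      fun n J => measurable_pi_lambda _ fun l => by
        rcases l with l | l
        · fin_cases l
          · exact m_xu J measurable_fst measurable_snd.eval measurable_snd.eval
          · exact measurable_fst
          · exact measurable_snd.eval
        · exact measurable_snd.eval
    have hW : ∀ (ι : Type) [Fintype ι] (c d : ι → ℝ) (Y : Nt ι) (U : Fin 3 ⊕ Fin m → Nt ι),
        Ap β c d Y → (∀ l, Ap β c d (U l)) →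
        ∀ l, Ap β c d fun n J a => Tb J (Y n J a) (fun l => U l n J a) l :=
      fun ι _ c d Y U hY hU l => by
        rcases l with l | l
        · fin_cases l
          · exact (hT.xu ι β hβ c d Y _ _ hY (hU _) (hU _)).2
          · exact hY
          · exact hU _
        · exact hU _
    have key : Tr2 β (fun n J (_ : Cube n) y u => g0a X n J (Tb J y u)) ∧
        Tr2 β (fun n J (_ : Cube n) y u => g0b X n J (Tb J y u)) :=
      ⟨fun ι _ c d S Y U _ _ _ _ hY hU => (ap_g0 hT hB hβ hX (hW ι c d Y U hY hU)).1,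
        fun ι _ c d S Y U _ _ _ _ hY hU => (ap_g0 hT hB hβ hX (hW ι c d Y U hY hU)).2⟩
    have mu := hM _ (lm0 (cb m) (db m))
    exact ⟨tr_of hT hβ key.1 C adb mu.1 (fun n J s hJ y u => ((hC n J s y hJ).2.2 _).1)
        (fun n J _ _ => (mA n J).comp (mT n J)) fun n J s y hJ => (hC n J s y hJ).1,
      tr_of hT hβ key.2 C adb mu.2.2 (fun n J s hJ y u => ((hC n J s y hJ).2.2 _).2)
        (fun n J _ _ => (mB n J).comp (mT n J)) fun n J s y hJ => (hC n J s y hJ).2.1⟩
  · have hn := hS.nrm f C hf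
    have C0 := hf.pos
    have sm : ∀ n (a : Cube n → V n → V n) x y, (∀ s, nrm (a s y) ≤ C * √n) →
        nrm (Sm x y a) ≤ C * √n := fun n a x y h => by
      have h1 := hK.jen n a (fun _ _ => 0) x y
      have e : Sm x y (fun _ _ => (0 : V n)) = 0 := by ext; simp [Sm, mean]
      simp only [e, sub_zero] at h1
      have hw : SL.Wt (ising 0 x) := .of_pos fun _ => Real.exp_pos _
      exact (abs_le_of_sq_le_sq' (h1.trans (hw.mean_le fun s =>
        pow_le_pow_left₀ (nrm_nonneg _) (h s) 2)) (by positivity)).2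
    have mx : ∀ n (J : Mx n), Measurable fun p : V n × (Fin 2 → V n) => xu J p.1 (p.2 0) (p.2 1) :=
      fun n J => m_xu J measurable_fst measurable_snd.eval measurable_snd.eval
    have ma : ∀ n (J : Mx n), Jᵀ = J → Measurable fun p : V n × (Fin 2 → V n) =>
        DD (th (xu J p.1 (p.2 0) (p.2 1))) * Sm (xu J p.1 (p.2 0) (p.2 1)) p.1 (ga f n J) :=
      fun n J hJ => m_Dm (mx n J) (m_Sm hK (mx n J) measurable_fst fun s => (hn n J s hJ).1)
    have mb : ∀ n (J : Mx n), Jᵀ = J → Measurable fun p : V n × (Fin 2 → V n) =>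
        Sm (xu J p.1 (p.2 0) (p.2 1)) p.1 (gb f n J) :=
      fun n J hJ => m_Sm hK (mx n J) measurable_fst fun s => (hn n J s hJ).2.1
    have ba : ∀ n (J : Mx n), Jᵀ = J → ∀ x y, nrm (DD (th x) * Sm x y (ga f n J)) ≤ C * √n :=
      fun n J hJ x y => (nrm_DD _ _).trans (sm n _ x y fun s => ((hn n J s hJ).2.2 y).1)
    have key : Tr2 β (fun n J (_ : Cube n) y (u : Fin 2 → V n) => AA J *ᵥ
        (DD (th (xu J y (u 0) (u 1))) * Sm (xu J y (u 0) (u 1)) y (ga f n J))) ∧
        Tr2 β (fun n J (_ : Cube n) y (u : Fin 2 → V n) => DD (th (xu J y (u 0) (u 1))) *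
          Sm (xu J y (u 0) (u 1)) y (ga f n J) + Sm (xu J y (u 0) (u 1)) y (gb f n J)) := by
      refine ⟨fun ι _ c d S Y U _ mY mU _ hY hU => ?_, fun ι _ c d S Y U _ mY mU _ hY hU => ?_⟩
      all_goals
        have a0 := (hT.xu ι β hβ c d Y _ _ hY (hU 0) (hU 1)).2
        have m0 : Ms fun n J a => xu J (Y n J a) (U 0 n J a) (U 1 n J a) := fun n J hJ =>
          m_xu J (mY n J hJ) (mU 0 n J hJ) (mU 1 n J hJ)
        have a1 := ap_DD hβ a0 (hT.sm ι β hβ c d _ Y _ C (fun n J s hJ =>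
          ⟨(hn n J s hJ).1, fun y => ((hn n J s hJ).2.2 y).1⟩) ha m0 mY a0 hY)
      · exact (hT.xu ι β hβ c d Y _ _ hY a1 hY).1
      · exact ap_add hβ a1 (hT.sm ι β hβ c d _ Y _ C (fun n J s hJ =>
          ⟨(hn n J s hJ).2.1, fun y => ((hn n J s hJ).2.2 y).2⟩) hb m0 mY a0 hY)
    have mu := hM _ (lm0 c1 d1)
    refine ⟨tr_of hT hβ key.1 (7 * C) ad1 mu.1 (fun n J s hJ y u => ?_)
        (fun n J _ hJ => m_mv _ (ma n J hJ)) fun n J s y hJ => (hE.step f C hf n J s y hJ).1,
      tr_of hT hβ key.2 (C + C) ad1 mu.2.2 (fun n J s hJ y u => ?_)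
        (fun n J _ hJ => m_add (ma n J hJ) (mb n J hJ))
        fun n J s y hJ => (hE.step f C hf n J s y hJ).2⟩
    · exact (nrm_mulVec_le _ _).trans ((mul_le_mul (hK.op n J hJ).2.1 (ba n J hJ _ y)
        (nrm_nonneg _) (by norm_num)).trans_eq (mul_assoc _ _ _).symm)
    · exact (nrm_add_le _ _).trans ((add_le_add (ba n J hJ _ y)
        (sm n _ _ y fun s => ((hn n J s hJ).2.2 y).2)).trans_eq (add_mul _ _ _).symm)
  · have hn := hS.nrm f C hf
    have ad : Ad (fun _ : Unit => r) fun _ => √r := fun _ h => (Real.sqrt_ne_zero hr).2 h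
    have mu := hM _ (lm0 (fun _ : Unit => r) fun _ => √r)
    have k1 : Tr2 β fun n J s _ (u : Unit → V n) => r • gb f n J s (u ()) :=
      fun ι _ c d S Y U mS _ mU hS _ hU => ap_smul hβ r (hb ι c d S _ mS (mU ()) hS (hU ()))
    have k2 : Tr2 β fun n J s _ (u : Unit → V n) => ga f n J s (u ()) :=
      fun ι _ c d S Y U mS _ mU hS _ hU => ha ι c d S _ mS (mU ()) hS (hU ())
    have me : ∀ n, Measurable fun p : V n × (Unit → V n) => p.2 () := fun n => measurable_snd.eval
    have t1 := hT.gm _ β hβ _ _ _ (r * C) _ ad mu.1 (fun n J s hJ => ⟨fun y u => by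
        rw [nrm_smul, abs_of_nonneg hr, mul_assoc]
        exact mul_le_mul_of_nonneg_left ((hn n J s hJ).2.2 _).2 hr,
        m_smul r ((hn n J s hJ).2.1.comp (me n))⟩) k1
    have t2 := hT.gm _ β hβ _ _ _ C _ ad mu.2.1 (fun n J s hJ =>
      ⟨fun y u => ((hn n J s hJ).2.2 _).1, (hn n J s hJ).1.comp (me n)⟩) k2
    refine hT.congr β hβ _ _ (fun ι _ c d S Y mS mY hS hY => ?_)
      fun n J hJ => funext₂ fun s y => hE.top f C hf r hr n J s y hJ
    exact ap_add hβ (t1 ι c d S Y mS mY hS hY) (t2 ι c d S Y mS mY hS hY)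

end Crest.Agent.T157.Zf

end
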