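import Crest.Agent.T157.ZDefF_73

/-!
# Row 157, part B, kernel route (helper16): the exact recursion of the gradients, step and top
-/

set_option autoImplicit false
set_option linter.unusedVariables false

noncomputable section

namespace Crest.Agent.T157.Zf

open MeasureTheory ProbabilityTheory Matrix Filter Set
open Crest.Agent.T157.E Crest.Agent.T157.Eig Crest.Agent.T157.Tap Crest.Agent.T157.Z
open Crest.Agent.T157.Rec (grad)

namespace Ex16

variable {n : ℕ}

lemma fd_line {E E' : Type} [NormedAddCommGroup E] [NormedSpace ℝ E] [NormedAddCommGroup E']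
    [NormedSpace ℝ E'] {G : E → ℝ} {H : E' → ℝ} {u v : E} {x w : E'} (hG : DifferentiableAt ℝ G u)
    (hH : DifferentiableAt ℝ H x) (e : ∀ t : ℝ, G (u + t • v) = H (x + t • w)) :
    fderiv ℝ G u v = fderiv ℝ H x w := by
  rw [← hG.lineDeriv_eq_fderiv, ← hH.lineDeriv_eq_fderiv, lineDeriv, lineDeriv]; simp only [e]

/-- differentiation under the integral -/
lemma fd_int {α : Type} [MeasurableSpace α] [TopologicalSpace α] [OpensMeasurableSpace α]
    (μ : Measure α) [IsFiniteMeasure μ] {Φ : α → V n → ℝ} (hc : Continuous Φ.uncurry)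
    (hd : ∀ a, Differentiable ℝ (Φ a)) {L M : ℝ} (hL : ∀ a y y', |Φ a y - Φ a y'| ≤ L * ‖y - y'‖)
    (y : V n) (hb : ∀ a, |Φ a y| ≤ M) :
    Integrable (fun a => fderiv ℝ (Φ a) y) μ ∧
      HasFDerivAt (fun y => ∫ a, Φ a y ∂μ) (∫ a, fderiv ℝ (Φ a) y ∂μ) y := by
  have hm : ∀ y, AEStronglyMeasurable (fun a => Φ a y) μ := fun y =>
    (hc.comp (Continuous.prodMk_left y)).aestronglyMeasurable
  exact hasFDerivAt_integral_of_dominated_loc_of_lip (F := fun y a => Φ a y) (s := univ)
    (bound := fun _ => L) univ_mem (.of_forall hm)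
    ((integrable_const M).mono' (hm y) (.of_forall hb))
    ((measurable_fderiv_with_param ℝ hc).comp
      (measurable_id.prodMk measurable_const)).aestronglyMeasurable
    (.of_forall fun a => LipschitzOnWith.of_dist_le_mul fun y _ y' _ => by
      rw [Real.dist_eq, dist_eq_norm]
      exact (hL a y y').trans (mul_le_mul_of_nonneg_right (le_abs_self L) (norm_nonneg _)))
    (integrable_const L) (.of_forall fun a => (hd a y).hasFDerivAt)

lemma dp (t : Cube n) : Differentiable ℝ fun h : V n => prob (ising 0 h) t := by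
  have h1 : ∀ t, Differentiable ℝ fun h : V n => ising 0 h t := fun t => by
    unfold ising dotProduct; fun_prop
  simp only [prob, div_eq_mul_inv]
  exact (h1 t).mul ((Differentiable.fun_sum fun t _ => h1 t).inv fun h => (Kv.wt_ising 0 h).pos.ne')

lemma dm (F : Cube n → ℝ) : Differentiable ℝ fun h : V n => mean (ising 0 h) F :=
  Differentiable.fun_sum fun t _ => (dp t).mul_const _

/-- the gradient of a product mean -/
def gm (F : Cube n → ℝ) (x : V n) : V n := DD (th x) * fun k => mean (ising 0 x) fun s => grad F s k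

lemma fd_mean (F : Cube n → ℝ) (x v : V n) :
    fderiv ℝ (fun x => mean (ising 0 x) F) x v = v ⬝ᵥ gm F x := by
  rw [← (dm F x).lineDeriv_eq_fderiv, Kv.ld_mean0]
  congr 1; funext k; exact Kv.covV0 F x k

lemma lip_mean {F : Cube n → ℝ} {C : ℝ} (h : ∀ s k, |grad F s k| ≤ C) (x x' : V n) :
    |mean (ising 0 x) F - mean (ising 0 x') F| ≤ n * C * ‖x - x'‖ := by
  have hg : ∀ x k, |gm F x k| ≤ C := fun x k => by
    have h1 := abs_lt.1 (Real.abs_tanh_lt_one (x k))
    have h2 : |DD (th x) k| ≤ 1 := by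
      change |1 - Real.tanh (x k) ^ 2| ≤ 1
      rw [abs_le]; constructor <;> nlinarith
    rw [gm, Pi.mul_apply, abs_mul]
    exact (mul_le_of_le_one_left (abs_nonneg _) h2).trans
      ((Kv.wt_ising 0 x).abs_mean_le fun s => h s k)
  rcases Nat.eq_zero_or_pos n with rfl | hn
  · simp [Subsingleton.elim x x']
  have C0 : 0 ≤ C := (abs_nonneg _).trans (h default ⟨0, hn⟩)
  refine convex_univ.norm_image_sub_le_of_norm_fderiv_le (𝕜 := ℝ) (fun x _ => dm F x)
    (fun x _ => ContinuousLinearMap.opNorm_le_bound _ (by positivity) fun v => ?_) trivial trivial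
  rw [fd_mean, Real.norm_eq_abs, dotProduct]
  refine (Finset.abs_sum_le_sum_abs _ _).trans ((Finset.sum_le_sum (g := fun _ => C * ‖v‖)
    fun k _ => ?_).trans_eq (by simp [mul_assoc]))
  rw [abs_mul, mul_comm]
  exact mul_le_mul (hg x k) (norm_le_pi_norm v k) (abs_nonneg _) C0

lemma norm_le_nrm (v : V n) : ‖v‖ ≤ nrm v :=
  (pi_norm_le_iff_of_nonneg (nrm_nonneg v)).2 fun i => abs_apply_le_nrm v i

lemma nrm_le_norm (v : V n) : nrm v ≤ √n * ‖v‖ := by
  rw [nrm_le_iff (by positivity), mul_pow, Real.sq_sqrt (Nat.cast_nonneg n), dotProduct]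
  refine (Finset.sum_le_sum (g := fun _ => ‖v‖ ^ 2) fun i _ => ?_).trans_eq (by simp)
  rw [← pow_two, ← sq_abs]
  exact pow_le_pow_left₀ (abs_nonneg _) (norm_le_pi_norm v i) 2

/-- the field enters twice -/
lemma fd_joint {f : Cube n → V n → ℝ} (hf : ∀ s, Differentiable ℝ (f s)) (w y : V n) :
    DifferentiableAt ℝ (fun y => mean (ising 0 (y + w)) fun s => f s y) y ∧ ∀ v,
    fderiv ℝ (fun y => mean (ising 0 (y + w)) fun s => f s y) y v =
      v ⬝ᵥ gm (fun s => f s y) (y + w) + mean (ising 0 (y + w)) fun s => fderiv ℝ (f s) y v := by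
  have p : ∀ s, HasFDerivAt (fun y => prob (ising 0 (y + w)) s)
      (fderiv ℝ (fun x => prob (ising 0 x) s) (y + w)) y := fun s => by
    have := HasFDerivAt.comp (f := fun y : V n => y + w) y (dp s (y + w)).hasFDerivAt
      ((hasFDerivAt_id y).add_const w)
    rw [ContinuousLinearMap.comp_id] at this
    exact this
  have h1 := HasFDerivAt.fun_sum (u := Finset.univ) fun s _ => (p s).mul (hf s y).hasFDerivAt
  have h2 := HasFDerivAt.fun_sum (u := Finset.univ) fun s _ =>
    (dp s (y + w)).hasFDerivAt.mul_const (f s y)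
  refine ⟨h1.differentiableAt, fun v => ?_⟩
  rw [← fd_mean]
  refine (congrArg (· v) h1.fderiv).trans (Eq.trans ?_ (congrArg (· v + _) h2.fderiv).symm)
  simp only [_root_.sum_apply, _root_.add_apply, _root_.smul_apply, smul_eq_mul, mean,
    Finset.sum_add_distrib]
  exact add_comm _ _

lemma Gm_smul {ι : Type} [Fintype ι] (c d : ι → ℝ) (φ : ℝ → ℝ) (Y : Cube n → (ι → V n) → V n)
    (s : Cube n) (a : ℝ) : a • Gm c d φ Y s = Gm c d φ (fun s u => a • Y s u) s := by
  funext k
  simp only [Gm, Pi.smul_apply, smul_eq_mul, ← integral_const_mul, mul_left_comm]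

lemma ad1 : Ad c1 d1 := fun l _ => by
  fin_cases l
  · exact inv_ne_zero (Real.sqrt_ne_zero'.2 (by norm_num))
  · exact one_ne_zero

lemma cont_xu (J : Mx n) : Continuous fun p : (Fin 2 → V n) × V n => xu J p.2 (p.1 0) (p.1 1) := by
  unfold xu; fun_prop

variable {f : Sf} {C : ℝ} {J : Mx n}

lemma abs_grad (h : Sc f C) (hJ : Jᵀ = J) (y : V n) (s : Cube n) (k : Fin n) :
    |grad (fun s => f n J s y) s k| ≤ C :=
  (abs_apply_le_nrm _ k).trans ((nrm_le_iff h.pos).2 (h.grad n J s y hJ))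

lemma lip_y (h : Sc f C) (hJ : Jᵀ = J) (s : Cube n) (y y' : V n) :
    |f n J s y - f n J s y'| ≤ C * nrm (y - y') := by
  simpa using h.lip n J J s y y' hJ hJ

/-- the kernel through the rows -/
lemma Ky_eq (hK : KeStmt) (hJ : Jᵀ = J) (f : Sf) (s : Cube n) (y : V n) : Ky f n J s y =
    ∫ u, mean (ising 0 (xu J y (u 0) (u 1))) (fun s' => f n J s' y) ∂(RL c1 d1 (sv s)) := by
  have m1 : Measurable fun u : Fin 2 → V n => xu J y (u 0) (u 1) :=
    ((cont_xu J).comp (Continuous.prodMk_left y)).measurable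
  have m2 : Measurable (xr J s y) := by unfold xr; fun_prop
  have c := (Kv.cont_mean0 fun s' => f n J s' y).aestronglyMeasurable
    (μ := (gv (Fin n)).map (xr J s y))
  rw [Ky, ← integral_map m2.aemeasurable c, ← hK.law n J s y hJ,
    integral_map m1.aemeasurable (hK.law n J s y hJ ▸ c)]

lemma gm_ga (f : Sf) (J : Mx n) (x y : V n) :
    √(n : ℝ) • gm (fun s => f n J s y) x = DD (th x) * Sm x y (ga f n J) := by
  funext k
  simp only [gm, Sm, ga, Pi.smul_apply, Pi.mul_apply, smul_eq_mul, SL.mean_const_mul]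
  ring

theorem step_a (hG : GsStmt) (hK : KeStmt) (h : Sc f C) (hJ : Jᵀ = J) (s : Cube n) (y : V n) :
    ga (Ky f) n J s y = Gm c1 d1 (ph1 (lm c1 d1)) (fun _ u => AA J *ᵥ
      (DD (th (xu J y (u 0) (u 1))) * Sm (xu J y (u 0) (u 1)) y (ga f n J))) s := by
  obtain ⟨hA, o1, o2⟩ := hK.op n J hJ
  have dx : Differentiable ℝ fun u : Fin 2 → V n => xu J y (u 0) (u 1) := by
    unfold xu mulVec dotProduct; fun_prop
  have dG := (dm fun s' => f n J s' y).comp dx
  have e := hG (Fin 2) c1 d1 ad1 n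
    (fun _ u => mean (ising 0 (xu J y (u 0) (u 1))) fun s' => f n J s' y) (n * C * 7)
    (fun _ => dG) (fun _ u u' => (lip_mean (abs_grad h hJ y) _ _).trans (by
      have e1 : xu J y (u 0) (u 1) - xu J y (u' 0) (u' 1) =
          AA J *ᵥ (u - u') 0 + BB J *ᵥ (u - u') 1 := by
        simp only [xu, Pi.sub_apply, mulVec_sub]; abel
      have h1 := (nrm_mulVec_le (AA J) ((u - u') 0)).trans
        (mul_le_mul_of_nonneg_right o1 (nrm_nonneg _))
      have h2 := (nrm_mulVec_le (BB J) ((u - u') 1)).trans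
        (mul_le_mul_of_nonneg_right o2 (nrm_nonneg _))
      rw [e1, mul_assoc _ 7, nA, Fin.sum_univ_two]
      refine mul_le_mul_of_nonneg_left ((norm_le_nrm _).trans ((nrm_add_le _ _).trans ?_))
        (mul_nonneg (Nat.cast_nonneg n) h.pos)
      linarith [nrm_nonneg ((u - u') 1)])) s
  have z : ∀ φ, Gm c1 d1 φ (fun s u => grad (fun _ => mean (ising 0 (xu J y (u 0) (u 1)))
      fun s' => f n J s' y) s) s = 0 := fun φ => by
    funext k; simp [Gm, Rec.grad_eq]
  rw [z, add_zero] at e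
  simp only [ga, Ky_eq hK hJ]
  rw [e, Gm_smul]
  congr 1
  funext _ u k
  have e2 := fd_line (v := Pi.single 0 (Pi.single k 1)) (w := AA J *ᵥ Pi.single k 1) (dG u)
    (dm (fun s' => f n J s' y) (xu J y (u 0) (u 1))) fun t => by
      simp only [Function.comp_apply, xu, Pi.add_apply, Pi.smul_apply, Pi.single_eq_same,
        Pi.single_eq_of_ne (show (1 : Fin 2) ≠ 0 by decide), smul_zero, add_zero, mulVec_add,
        mulVec_smul]
      congr 2; abel
  rw [fd_mean, ← vecMul_transpose (AA J) (Pi.single k 1), ← dotProduct_mulVec, hA,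
    single_dotProduct, one_mul] at e2
  rw [← gm_ga, mulVec_smul, Pi.smul_apply, Pi.smul_apply, Fin.sum_univ_two, ← e2]
  simp [c1, Function.comp_def]

theorem step_b (hK : KeStmt) (h : Sc f C) (hJ : Jᵀ = J) (s : Cube n) (y : V n) :
    gb (Ky f) n J s y = Gm c1 d1 (fun _ => 1) (fun _ u =>
      DD (th (xu J y (u 0) (u 1))) * Sm (xu J y (u 0) (u 1)) y (ga f n J) +
        Sm (xu J y (u 0) (u 1)) y (gb f n J)) s := by
  have ex : ∀ (u : Fin 2 → V n) y, xu J y (u 0) (u 1) = y + (AA J *ᵥ u 0 + BB J *ᵥ u 1) :=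
    fun u y => add_assoc _ _ _
  have hd := fun s => h.diff n J s hJ
  obtain ⟨i, e⟩ := fd_int (RL c1 d1 (sv s)) (L := n * C + C * √n) (M := C * √n)
    (Φ := fun u y => mean (ising 0 (xu J y (u 0) (u 1))) fun s' => f n J s' y)
    (continuous_finsetSum _ fun s' _ => ((Kv.cont_prob0 s').comp (cont_xu J)).mul
      ((hd s').continuous.comp continuous_snd))
    (fun u y => by simp only [ex]; exact (fd_joint hd _ y).1)
    (fun u y y' => by
      have h1 := lip_mean (abs_grad h hJ y) (xu J y (u 0) (u 1)) (xu J y' (u 0) (u 1))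
      have h2 := (Kv.wt_ising 0 (xu J y' (u 0) (u 1))).abs_mean_le fun s' =>
        (lip_y h hJ s' y y').trans (mul_le_mul_of_nonneg_left (nrm_le_norm _) h.pos)
      rw [SL.mean_sub] at h2
      rw [show xu J y (u 0) (u 1) - xu J y' (u 0) (u 1) = y - y' by simp only [ex]; abel] at h1
      exact (abs_sub_le _ _ _).trans ((add_le_add h1 h2).trans_eq (by ring)))
    y fun u => (Kv.wt_ising 0 _).abs_mean_le fun s' => h.sup n J s' y hJ
  funext k
  rw [gb, funext (Ky_eq hK hJ f s), e.fderiv, ContinuousLinearMap.integral_apply i,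
    ← integral_const_mul, Gm]
  congr 1
  funext u
  rw [← gm_ga]
  simp only [ex]
  rw [(fd_joint hd _ y).2, single_dotProduct]
  simp only [Sm, gb, Pi.add_apply, Pi.smul_apply, smul_eq_mul, SL.mean_const_mul]
  ring

/-- the channel through one row -/
lemma Ew_eq (h : Sc f C) (hJ : Jᵀ = J) (r : ℝ) (s : Cube n) : Ew r f n J s =
    ∫ u, f n J s (u ()) ∂(RL (fun _ : Unit => r) (fun _ => √r) (sv s)) := by
  have hm := R339.Guerra.mp_comp (ι := Unit × Fin n) (fun i : Fin n => ((), i))
    fun _ _ h => congrArg Prod.snd h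
  have c := (h.diff n J s hJ).continuous
  have c1 : Continuous fun u : Unit → V n => f n J s (u ()) := c.comp (continuous_apply ())
  have c2 : Continuous fun w : V n => f n J s (r • sv s + √r • w) := c.comp (by fun_prop)
  rw [RL, integral_map (Hp58.meas_rows _ _ _).aemeasurable c1.aestronglyMeasurable, Ew,
    show gv (Fin n) = _ from hm.map_eq.symm,
    integral_map hm.measurable.aemeasurable c2.aestronglyMeasurable]
  rfl

end Ex16

open Ex16

theorem exStep (hG : GsStmt) (hK : KeStmt) : ∀ f C, Sc f C → ∀ n (J : Mx n) s y, Jᵀ = J →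
    ga (Ky f) n J s y = Gm c1 d1 (ph1 (lm c1 d1)) (fun _ u => AA J *ᵥ
      (DD (th (xu J y (u 0) (u 1))) * Sm (xu J y (u 0) (u 1)) y (ga f n J))) s ∧
    gb (Ky f) n J s y = Gm c1 d1 (fun _ => 1) (fun _ u =>
      DD (th (xu J y (u 0) (u 1))) * Sm (xu J y (u 0) (u 1)) y (ga f n J) +
        Sm (xu J y (u 0) (u 1)) y (gb f n J)) s :=
  fun _ _ h _ _ s y hJ => ⟨step_a hG hK h hJ s y, step_b hK h hJ s y⟩

theorem exTop (hG : GsStmt) : ∀ f C, Sc f C → ∀ r ≥ (0 : ℝ), ∀ n (J : Mx n) s y, Jᵀ = J →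
    gt (Ew r f) n J s y =
    Gm (fun _ : Unit => r) (fun _ => √r) (ph1 (lm (fun _ : Unit => r) fun _ => √r))
      (fun s u => r • gb f n J s (u ())) s +
    Gm (fun _ : Unit => r) (fun _ => √r) ph2 (fun s u => ga f n J s (u ())) s := by
  intro f C h r hr n J s y hJ
  have dG : ∀ s, Differentiable ℝ fun u : Unit → V n => f n J s (u ()) := fun s =>
    (h.diff n J s hJ).comp (differentiable_apply ())
  have e := hG Unit (fun _ => r) (fun _ => √r) (fun _ h => (Real.sqrt_ne_zero hr).2 h) n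
    (fun s u => f n J s (u ())) C dG (fun s u u' => by
      simpa [nA] using lip_y h hJ s (u ()) (u' ())) s
  rw [gt, funext (Ew_eq h hJ r), e, smul_add, Gm_smul, Gm_smul]
  congr 2
  funext s u k
  have e2 := fd_line (v := Pi.single () (Pi.single k 1)) (w := Pi.single k 1) (dG s u)
    (h.diff n J s hJ (u ())) fun t => by simp
  simp only [gb, Pi.smul_apply, smul_eq_mul, Finset.univ_unique, Finset.sum_singleton, ← e2]
  ring

end Crest.Agent.T157.Zf

end
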