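import Crest.Agent.T157.ZfExB_27
import Crest.Agent.T157.ZfExS_16

/-!
# Row 157, part B, kernel route (helper27): the exact gradients `ExStmt`
-/

namespace Crest.Agent.T157.Zf

theorem exGlue : ExGlue := fun hG hK => ⟨exBase hG hK, exStep hG hK, exTop hG⟩

end Crest.Agent.T157.Zf
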