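import Crest.Agent.T157.ZDefF_73
import Crest.Agent.T157.ZQ_64

/-!
# Row 157, part B, kernel route (helper73): from approximable gradients to limits
-/

set_option autoImplicit false

noncomputable section

namespace Crest.Agent.T157.Zf

open MeasureTheory ProbabilityTheory Matrix Filter Set Topology
open Crest.ProbabilityR.SpinGlassDynamics
open Crest.Agent.T157.E Crest.Agent.T157.Eig Crest.Agent.T157.Tap Crest.Agent.T157.Z
open Crest.Agent.T157.Rec (grad)

namespace Fin73

variable {n : ℕ}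

/-- the configuration read off a row -/
def cu (v : V n) : Cube n := fun i => decide (0 < v i)

theorem cu_sv (x : Cube n) : cu (sv x) = x := by
  funext i; cases h : x i <;> simp [cu, sv, spin, h]

theorem sv_cu {v : V n} (h : ∀ i, v i = 1 ∨ v i = -1) : sv (cu v) = v := by
  funext i; rcases h i with e | e <;> simp [cu, sv, spin, e]

theorem meas_cu : Measurable (cu : V n → Cube n) := by
  refine measurable_pi_lambda _ fun i => measurable_to_bool ?_
  have : (fun v : V n => cu v i) ⁻¹' {true} = {v | 0 < v i} := by ext v; simp [cu]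
  rw [this]; exact measurableSet_lt measurable_const (measurable_pi_apply i)

theorem symm_J (β : ℝ) (g : Pair n → ℝ) : (β • Jmat n g)ᵀ = β • Jmat n g := by
  ext i j; simp [Jmat_symm g j i]

theorem ev_poly (a b κ ε : ℝ) (hκ : 0 < κ) (hε : 0 < ε) :
    ∀ᶠ n : ℕ in atTop, (a * n + b) * Real.exp (-κ * n) ≤ ε := by
  have h0 : Tendsto (fun n : ℕ => κ * n) atTop atTop :=
    tendsto_natCast_atTop_atTop.const_mul_atTop hκ
  have h1 := ((Real.tendsto_pow_mul_exp_neg_atTop_nhds_zero 1).comp h0).const_mul (a / κ)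
  have h2 := (Real.tendsto_exp_neg_atTop_nhds_zero.comp h0).const_mul b
  have h3 := h1.add h2
  simp only [mul_zero, add_zero] at h3
  filter_upwards [h3.eventually (eventually_le_nhds hε)] with n hn
  refine le_trans (le_of_eq ?_) hn
  simp only [Function.comp, pow_one, neg_mul]
  field_simp

end Fin73

open Fin73

theorem finStmt : FinStmt := by
  intro β hβ Φ B hC hT ε hε
  have hI : Ap β (1 : Unit → ℝ) 0 fun _ _ a => a () := apA.net _ β hβ _ _ _ (Nw.inp ())
  have hS : Ap β (1 : Unit → ℝ) 0 fun n _ a => sv (cu (a ())) := by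
    refine apA.lim _ β _ _ _ fun e he => ⟨_, hI, hpStmt.mono _ β _ _ _ _
      (hpStmt.spin _ β _ _ () rfl rfl) (.of_forall fun n J a h => ?_)⟩
    rw [sv_cu h, sub_self, nrm_zero]; positivity
  have hA := hT Unit 1 0 (fun n _ a => cu (a ())) (fun _ _ a => a ())
    (fun n J _ => meas_cu.comp (measurable_pi_apply ())) (fun n J _ => measurable_pi_apply ()) hS hI
  obtain ⟨m, X, hX, hXb, κ, κ0, hW⟩ := hA (√(ε / 2)) (by positivity)
  obtain ⟨M, M0, hM⟩ := A48.Bd.pos hXb
  refine ⟨Unit ⊕ Fin m, inferInstance, Sum.elim 1 0, Sum.elim 0 1, X, hX, hXb, hW.mono ?_⟩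
  filter_upwards [ev_poly (2 * |B|) (2 * M ^ 2) κ (ε / 2) κ0 (by positivity)] with n hn g hg
  have hw := Hp58.wt_gibbs n β g
  have hJ := symm_J β g
  set J := β • Jmat n g
  have mX : Measurable (X n J) :=
    ((lipStmt.cont _ _ _ hX n).comp (Continuous.prodMk_right J)).measurable
  refine (hw.mean_mono (g := fun x => ε / 2 * n + (2 * |B| * n + 2 * M ^ 2) * n *
    (RL (Sum.elim (1 : Unit → ℝ) (0 : Fin m → ℝ)) (Sum.elim 0 1) (sv x)).real
      {a | ¬ nrm (gt Φ n J (cu (a (.inl ()))) (a (.inl ())) - X n J a) ≤ √(ε / 2) * √n})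
    fun x => ?_).trans ?_
  · set v : V n := √(n : ℝ) • grad (Φ n J) x with hv
    have hvi : ∀ i, |v i| ≤ √(|B| * n) := fun i => by
      refine Real.abs_le_sqrt ?_
      have h1 : grad (Φ n J) x i ^ 2 ≤ |B| := by
        refine le_trans ?_ (((hC n).grad J x hJ).trans (le_abs_self B))
        rw [sq]
        exact Finset.single_le_sum (f := fun i => grad (Φ n J) x i * grad (Φ n J) x i)
          (fun i _ => mul_self_nonneg _) (Finset.mem_univ i)
      rw [hv, Pi.smul_apply, smul_eq_mul, mul_pow, Real.sq_sqrt n.cast_nonneg, mul_comm]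
      gcongr
    have mD : Measurable fun a => v - X n J a := measurable_const.sub mX
    have h := Q64.jensen (RL (Sum.elim (1 : Unit → ℝ) (0 : Fin m → ℝ)) (Sum.elim 0 1) (sv x))
      mD (K := √(|B| * n) + M) (√(ε / 2)) fun a i =>
        (abs_sub _ _).trans (add_le_add (hvi i) (hM _ _ _ _))
    rw [Real.sq_sqrt (by positivity)] at h
    have e : v - Lm.EN (Sum.elim 1 0) (Sum.elim 0 1) X n J (sv x) = fun i => ∫ a, (v - X n J a) i
        ∂(RL (Sum.elim (1 : Unit → ℝ) (0 : Fin m → ℝ)) (Sum.elim 0 1) (sv x)) := by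
      funext i
      simp only [Pi.sub_apply]
      rw [integral_sub (integrable_const _) (Integrable.of_bound (f := fun a => X n J a i)
        ((measurable_pi_apply i).comp mX).aestronglyMeasurable M (.of_forall fun a => hM _ _ _ _))]
      simp [Lm.EN]
    rw [e]
    refine h.trans (add_le_add le_rfl (mul_le_mul ?_ ?_ measureReal_nonneg (by positivity)))
    · have := Real.sq_sqrt (show 0 ≤ |B| * n by positivity)
      gcongr
      nlinarith [sq_nonneg (√(|B| * n) - M)]
    · rw [Q64.RL_lab]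
      refine ENNReal.toReal_mono (measure_ne_top _ _) ?_
      have ms : MeasurableSet {a : Unit ⊕ Fin m → V n | ¬ nrm (v - X n J a) ≤ √(ε / 2) * √n} := by
        have : Measurable fun a : Unit ⊕ Fin m → V n => nrm (v - X n J a) := by
          unfold nrm dotProduct; fun_prop
        exact (measurableSet_le this measurable_const).compl
      rw [Measure.map_apply (Q64.meas_lab _) ms]
      refine le_trans (le_of_eq ?_) (Measure.le_map_apply (Q64.meas_lab _).aemeasurable _)
      congr 1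
      ext w
      simp [lab, gt, cu_sv, hv]
  · rw [SL.mean_add, hw.mean_const, SL.mean_const_mul]
    have h1 := mul_le_mul_of_nonneg_left hg
      (show 0 ≤ (2 * |B| * n + 2 * M ^ 2) * (n : ℝ) by positivity)
    have h2 := mul_le_mul_of_nonneg_left hn (n.cast_nonneg (α := ℝ))
    nlinarith

theorem outGlue : OutGlue := by
  intro hS hSc hT hCh hF β h0 h1 Φ ⟨r, r0, k, m, X, hX, hb, e⟩
  have hβ : β ∈ Icc (0 : ℝ) 1 := ⟨h0, h1.le⟩
  have it : ∀ l, (∃ C, Sc (Ky^[l] (Ps0 X)) C) ∧ Tr β (ga (Ky^[l] (Ps0 X))) ∧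
      Tr β (gb (Ky^[l] (Ps0 X))) := by
    intro l
    induction l with
    | zero => exact ⟨hSc.base m X hX hb, hCh.base β hβ m X hX hb⟩
    | succ l ih =>
      obtain ⟨⟨C, hC⟩, ha, hb⟩ := ih
      rw [Function.iterate_succ_apply']
      exact ⟨hSc.step _ C hC, hCh.step β hβ _ C hC ha hb⟩
  have z : Tr β fun _ _ _ _ => 0 := fun ι _ c d S Y _ _ _ hY => by
    simpa using apB.add ι β hβ c d Y Y 0 0 hY hY
  have ad : ∀ F G : Vf, Tr β F → Tr β G → Tr β fun n J s y => F n J s y + G n J s y :=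
    fun F G hF hG ι _ c d S Y m1 m2 a1 a2 => by
      simpa using apB.add ι β hβ c d _ _ 1 1 (hF ι c d S Y m1 m2 a1 a2) (hG ι c d S Y m1 m2 a1 a2)
  have sm : ∀ k, (∃ C, Sc (Psk k X) C) ∧ Tr β (ga (Psk k X)) ∧ Tr β (gb (Psk k X)) := by
    intro k
    induction k with
    | zero =>
      have e0 : Psk 0 X = fun _ _ _ _ => 0 := by funext n J s y; simp [Psk]
      rw [e0]
      refine ⟨⟨0, hSc.zero⟩, hT.congr β hβ _ _ z fun n J _ => ?_, hT.congr β hβ _ _ z fun n J _ => ?_⟩
      · funext s y i; simp [ga, grad, SL.incr]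
      · funext s y i; simp [gb]
    | succ k ih =>
      obtain ⟨⟨C, hC⟩, ha, hb⟩ := ih
      obtain ⟨⟨C', hC'⟩, ha', hb'⟩ := it k
      have e1 : Psk (k + 1) X = fun n J s y => Psk k X n J s y + Ky^[k] (Ps0 X) n J s y := by
        funext n J s y; simp [Psk, Finset.sum_range_succ]
      rw [e1]
      refine ⟨⟨_, hSc.add _ _ _ _ hC hC'⟩, hT.congr β hβ _ _ (ad _ _ ha ha') fun n J _ => ?_,
        hT.congr β hβ _ _ (ad _ _ hb hb') fun n J hJ => ?_⟩
      · funext s y i; simp only [ga, grad, SL.incr, Pi.smul_apply, Pi.add_apply, smul_eq_mul]; ring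
      · funext s y i
        simp only [gb, Pi.add_apply]
        rw [fderiv_fun_add (hC.diff n J s hJ y) (hC'.diff n J s hJ y)]
        simp [mul_add]
  obtain ⟨⟨C, hC⟩, ha, hb'⟩ := sm k
  obtain ⟨B, hB⟩ := hSc.top _ C hC r r0
  subst e
  exact hS β h0 h1 _ B (.of_forall fun n => (hB n).1)
    (hF β hβ _ B (fun n => (hB n).1) (hCh.top β hβ _ C hC r r0 ha hb'))

end Crest.Agent.T157.Zf

end
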