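import Crest.Agent.T157.ZDefF_73

/-!
# Row 157, part B, kernel route (helper14): means over Gaussian rows, the multipliers
-/

set_option autoImplicit false
set_option linter.all false

noncomputable section

namespace Crest.Agent.T157.Zf

open MeasureTheory ProbabilityTheory Matrix Filter Set
open Crest.Agent.T157.E Crest.Agent.T157.Eig Crest.Agent.T157.Tap Crest.Agent.T157.Z

namespace Gm14

variable {n : ℕ}

theorem map_dot {κ : Type} [Fintype κ] (a : κ → ℝ) :
    (gv κ).map (fun x => a ⬝ᵥ x) = gaussianReal 0 (a ⬝ᵥ a).toNNReal := by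
  classical
  have : IsProbabilityMeasure ((gv κ).map fun x => a ⬝ᵥ x) :=
    Measure.isProbabilityMeasure_map (by fun_prop)
  refine Measure.ext_of_charFun (funext fun t => ?_)
  have h := Cond.CF_gv (t • a)
  rw [charFun_gaussianReal, charFun_apply_real, integral_map (by fun_prop) (by fun_prop)]
  simp only [Cond.CF, smul_dotProduct, dotProduct_smul, smul_eq_mul] at h
  rw [Real.coe_toNNReal _ (dot_self_nonneg a)]
  push_cast at h ⊢
  rw [h]
  congr 1; ring

theorem map_sqrt {l : ℝ} (hl : 0 ≤ l) :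
    (gaussianReal 0 1).map (fun t => √l * t) = gaussianReal 0 l.toNNReal := by
  rw [gaussianReal_map_const_mul]
  congr 1
  · simp
  · ext; simp [Real.sq_sqrt hl, hl]

variable {ι : Type} [Fintype ι]

theorem lm_nn (c d : ι → ℝ) : 0 ≤ lm c d := Finset.sum_nonneg fun _ _ => by positivity

theorem meas_t (c d : ι → ℝ) (s : Cube n) (k : Fin n) :
    Measurable fun u : ι → V n => sv s k * hr c d u k := by
  simp only [hr, Finset.sum_apply, Pi.smul_apply, smul_eq_mul]
  fun_prop

/-- the law of the local statistic is `N (l, l)` -/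
theorem law (c d : ι → ℝ) (s : Cube n) (k : Fin n) :
    (RL c d (sv s)).map (fun u => sv s k * hr c d u k) =
      (gaussianReal 0 1).map fun z => lm c d + √(lm c d) * z := by
  have ss : sv s k * sv s k = 1 := spin_mul_self _
  set a : ι × Fin n → ℝ := fun p => if p.2 = k then sv s k * (c p.1 / d p.1) else 0 with ha
  have e1 : a ⬝ᵥ a = lm c d := by
    simp only [dotProduct, Fintype.sum_prod_type, ha, ite_mul, mul_ite, mul_zero, zero_mul, lm]
    refine Finset.sum_congr rfl fun l _ => ?_
    rw [Finset.sum_eq_single k (fun j _ hj => by simp [hj]) (by simp)]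
    simp only [if_true]
    rw [← div_pow]
    linear_combination (c l / d l) ^ 2 * ss
  have e2 : ∀ w, sv s k * hr c d (rows c d (sv s) w) k = lm c d + a ⬝ᵥ w := fun w => by
    simp only [dotProduct, Fintype.sum_prod_type, ha, ite_mul, zero_mul, lm, hr, rows,
      Finset.sum_apply, Pi.smul_apply, smul_eq_mul, Finset.sum_ite_eq', Finset.mem_univ, if_true,
      Finset.mul_sum, ← Finset.sum_add_distrib]
    refine Finset.sum_congr rfl fun l _ => ?_
    have e3 : c l / d l ^ 2 * d l = c l / d l := by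
      by_cases h : d l = 0
      · simp [h]
      · field_simp
    linear_combination (c l ^ 2 / d l ^ 2) * ss + sv s k * w (l, k) * e3
  have hm : Measurable (rows c d (sv s)) := by unfold rows; fun_prop
  rw [RL, Measure.map_map (meas_t c d s k) hm,
    show (fun u => sv s k * hr c d u k) ∘ rows c d (sv s) =
      (fun t => lm c d + t) ∘ fun w => a ⬝ᵥ w from funext e2,
    ← Measure.map_map (by fun_prop) (by fun_prop), map_dot, e1, ← map_sqrt (lm_nn c d),
    Measure.map_map (by fun_prop) (by fun_prop)]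
  rfl

theorem int_t (c d : ι → ℝ) (s : Cube n) (k : Fin n) {f : ℝ → ℝ} (hf : Measurable f) :
    ∫ u, f (sv s k * hr c d u k) ∂(RL c d (sv s)) = gl (lm c d) f := by
  rw [← integral_map (meas_t c d s k).aemeasurable hf.aestronglyMeasurable, law,
    integral_map (by fun_prop) hf.aestronglyMeasurable, gl]

theorem l2_t (c d : ι → ℝ) (s : Cube n) (k : Fin n) {f : ℝ → ℝ} (hf : G2 (lm c d) f) :
    MemLp (fun u => f (sv s k * hr c d u k)) 2 (RL c d (sv s)) := by
  have h2 : Measurable fun t => f t ^ 2 := hf.1.pow_const 2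
  refine (memLp_two_iff_integrable_sq (hf.1.comp (meas_t c d s k)).aestronglyMeasurable).2 ?_
  refine (integrable_map_measure h2.aestronglyMeasurable (meas_t c d s k).aemeasurable).1 ?_
  rw [law]
  exact (integrable_map_measure h2.aestronglyMeasurable (by fun_prop)).2 hf.2

/-- Cauchy–Schwarz -/
theorem cs {Ω : Type*} [MeasurableSpace Ω] {μ : Measure Ω} {f g : Ω → ℝ} (hf : MemLp f 2 μ)
    (hg : MemLp g 2 μ) : (∫ u, f u * g u ∂μ) ^ 2 ≤ (∫ u, f u ^ 2 ∂μ) * ∫ u, g u ^ 2 ∂μ := by
  have i1 := hf.integrable_sq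
  have i2 := hg.integrable_sq
  have i3 : Integrable (fun u => f u * g u) μ := hf.integrable_mul hg
  have h : ∀ t : ℝ, 0 ≤ (∫ u, f u ^ 2 ∂μ) * (t * t) + 2 * (∫ u, f u * g u ∂μ) * t +
      ∫ u, g u ^ 2 ∂μ := fun t => by
    have h1 : 0 ≤ ∫ u, (t * t * f u ^ 2 + 2 * t * (f u * g u) + g u ^ 2) ∂μ :=
      integral_nonneg fun u => by
        simp only [Pi.zero_apply]; nlinarith [sq_nonneg (t * f u + g u)]
    have i4 : Integrable (fun u => t * t * f u ^ 2 + 2 * t * (f u * g u)) μ :=
      (i1.const_mul _).add (i3.const_mul _)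
    rw [integral_add i4 i2,
      integral_add (i1.const_mul _) (i3.const_mul _), integral_const_mul, integral_const_mul] at h1
    linarith
  have := discrim_le_zero h
  unfold discrim at this
  nlinarith

theorem nsq (v : V n) : nrm v ^ 2 = ∑ j, v j ^ 2 := by
  rw [nrm_sq]; simp only [dotProduct, sq]

theorem l2_co {Ω : Type*} [MeasurableSpace Ω] {μ : Measure Ω} {Y : Ω → V n} (hY : Measurable Y)
    (hi : Integrable (fun u => nrm (Y u) ^ 2) μ) (k : Fin n) : MemLp (fun u => Y u k) 2 μ := by
  have hm : Measurable fun u => Y u k := (measurable_pi_apply k).comp hY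
  rw [memLp_two_iff_integrable_sq hm.aestronglyMeasurable]
  refine hi.mono' (hm.pow_const 2).aestronglyMeasurable (ae_of_all _ fun u => ?_)
  rw [Real.norm_eq_abs, abs_of_nonneg (sq_nonneg _), nsq]
  exact Finset.single_le_sum (f := fun j => Y u j ^ 2) (fun _ _ => sq_nonneg _) (Finset.mem_univ k)

theorem sum_int {Ω : Type*} [MeasurableSpace Ω] {μ : Measure Ω} {Y : Ω → V n}
    (h : ∀ k, MemLp (fun u => Y u k) 2 μ) : ∑ k, ∫ u, Y u k ^ 2 ∂μ = ∫ u, nrm (Y u) ^ 2 ∂μ := by
  simp only [nsq]
  rw [integral_finsetSum _ fun k _ => (h k).integrable_sq]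

/-! ### multipliers -/

theorem int_abs (a : ℝ) : Integrable (fun z => Real.exp (a * |z|)) (gaussianReal 0 1) := by
  refine ((integrable_exp_mul_gaussianReal a).add (integrable_exp_mul_gaussianReal (-a))).mono'
    (by fun_prop) (ae_of_all _ fun z => ?_)
  have h1 := Real.exp_pos (a * z)
  have h2 := Real.exp_pos (-a * z)
  rw [Real.norm_eq_abs, Real.abs_exp, Pi.add_apply]
  rcases abs_cases z with h | h
  · rw [h.1]; linarith
  · rw [h.1, mul_neg, ← neg_mul]; linarith

theorem mu_of {l : ℝ} {φ : ℝ → ℝ} (hm : Measurable φ) (h0 : ∀ t, 0 ≤ φ t) (h1 : φ l ≤ 1)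
    (hr : ∀ t t', φ t * Real.exp (-(2 * |t - t'|)) ≤ φ t') : Mu l φ := by
  have mom : ∀ q : ℕ, Integrable (fun z => φ (l + √l * z) ^ q) (gaussianReal 0 1) := fun q => by
    refine (int_abs (q * (2 * √l))).mono' ((hm.comp (by fun_prop)).pow_const q).aestronglyMeasurable
      (ae_of_all _ fun z => ?_)
    have h2 := (hr (l + √l * z) l).trans h1
    rw [add_sub_cancel_left, abs_mul, abs_of_nonneg (Real.sqrt_nonneg l), Real.exp_neg,
      ← div_eq_mul_inv, div_le_one (Real.exp_pos _)] at h2
    rw [Real.norm_eq_abs, abs_of_nonneg (pow_nonneg (h0 _) q), mul_assoc, Real.exp_nat_mul,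
      mul_assoc]
    exact pow_le_pow_left₀ (h0 _) h2 q
  refine ⟨⟨hm, mom 2⟩, fun Λ hΛ => ?_, fun p => ⟨gl l fun t => φ t ^ (p + 2), fun Λ hΛ => ?_⟩⟩
  · have m0 : ∀ t, 0 ≤ min (φ t) Λ := fun t => le_min (h0 t) (by linarith)
    have m1 : ∀ t, min (φ t) Λ ^ 2 ≤ φ t ^ 2 := fun t =>
      pow_le_pow_left₀ (m0 t) (min_le_left _ _) 2
    have key : ∀ t t', min (φ t) Λ - min (φ t') Λ ≤ 2 * Λ * |t - t'| := fun t t' => by
      have e0 := Real.exp_pos (-(2 * |t - t'|))
      have e1 := Real.add_one_le_exp (-(2 * |t - t'|))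
      have e2 : Real.exp (-(2 * |t - t'|)) ≤ 1 := Real.exp_le_one_iff.2 (by
        linarith [abs_nonneg (t - t')])
      have a1 : min (φ t) Λ * Real.exp (-(2 * |t - t'|)) ≤ min (φ t') Λ :=
        le_min ((mul_le_mul_of_nonneg_right (min_le_left _ _) e0.le).trans (hr t t'))
          ((mul_le_of_le_one_right (m0 t) e2).trans (min_le_right _ _))
      nlinarith [mul_le_mul_of_nonneg_left e1 (m0 t),
        mul_le_mul_of_nonneg_right (min_le_right (φ t) Λ) (abs_nonneg (t - t'))]
    have hi : Integrable (fun z => min (φ (l + √l * z)) Λ ^ 2) (gaussianReal 0 1) :=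
      (mom 2).mono' (((hm.comp (by fun_prop)).min measurable_const).pow_const 2).aestronglyMeasurable
        (ae_of_all _ fun z => by
          rw [Real.norm_eq_abs, abs_of_nonneg (sq_nonneg _)]; exact m1 _)
    refine ⟨⟨fun t => ?_, fun t t' => abs_le.2 ⟨?_, key t t'⟩⟩, ⟨hm.min measurable_const, hi⟩,
      integral_mono hi (mom 2) fun z => m1 _⟩
    · rw [abs_of_nonneg (m0 t)]; linarith [min_le_right (φ t) Λ]
    · have := key t' t
      rw [abs_sub_comm] at this; linarith
  · have Λ0 : 0 < Λ := by linarith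
    rw [gl, gl, ← integral_div]
    refine integral_mono_of_nonneg (ae_of_all _ fun z => sq_nonneg _) ((mom (p + 2)).div_const _)
      (ae_of_all _ fun z => ?_)
    have f0 := h0 (l + √l * z)
    simp only
    generalize φ (l + √l * z) = x at f0
    rcases le_total x Λ with h | h
    · rw [min_eq_left h, sub_self, zero_pow two_ne_zero]; positivity
    · rw [min_eq_right h, le_div_iff₀ (by positivity), pow_add, mul_comm]
      exact mul_le_mul (pow_le_pow_left₀ Λ0.le h p) (pow_le_pow_left₀ (by linarith) (by linarith) 2)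
        (sq_nonneg _) (by positivity)

theorem rho_ratio (a u u' : ℝ) : Kv.rho a u * Real.exp (-(2 * |u - u'|)) ≤ Kv.rho a u' := by
  rw [Kv.rho, Kv.rho, ← intervalIntegral.integral_mul_const]
  refine intervalIntegral.integral_mono_on zero_le_one
    (Continuous.intervalIntegrable (by fun_prop) _ _)
    (Continuous.intervalIntegrable (by fun_prop) _ _) fun t ht => ?_
  rw [← Real.exp_add]
  refine Real.exp_le_exp.2 ?_
  nlinarith [mul_le_mul_of_nonneg_left (neg_abs_le (u - u')) ht.1, abs_nonneg (u - u'), ht.1, ht.2]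

end Gm14

open Gm14 in
theorem gmStmt : GmStmt where
  err ι _ c d _ n φ φ' Y Y' s h1 h2 m1 m2 i1 i2 := by
    have y1 := l2_co m1 i1
    have y2 := l2_co (Y := fun u => Y s u - Y' s u) (m1.sub m2) i2
    have g1 : ∀ k, ∫ u, (φ (sv s k * hr c d u k) - φ' (sv s k * hr c d u k)) ^ 2 ∂(RL c d (sv s)) =
        gl (lm c d) fun t => (φ t - φ' t) ^ 2 := fun k =>
      int_t c d s k ((h1.1.sub h2.1).pow_const 2)
    have g2 : ∀ k, ∫ u, φ' (sv s k * hr c d u k) ^ 2 ∂(RL c d (sv s)) =
        gl (lm c d) fun t => φ' t ^ 2 := fun k => int_t c d s k (h2.1.pow_const 2)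
    rw [nsq, ← sum_int y1, ← sum_int y2, Finset.mul_sum, Finset.mul_sum, ← Finset.sum_add_distrib]
    refine Finset.sum_le_sum fun k _ => ?_
    have f1 := l2_t c d s k h1
    have f2 := l2_t c d s k h2
    have y3 : MemLp (fun u => Y' s u k) 2 (RL c d (sv s)) := by
      have := (y1 k).sub (y2 k)
      refine (iff_of_eq (congrArg (MemLp · 2 _) (funext fun u => ?_))).1 this
      simp
    have a1 := cs (f1.sub f2) (y1 k)
    have a2 := cs f2 (y2 k)
    simp only [Pi.sub_apply] at a1
    rw [g1] at a1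
    rw [g2] at a2
    have j1 : Integrable (fun u => φ (sv s k * hr c d u k) * Y s u k) (RL c d (sv s)) :=
      f1.integrable_mul (y1 k)
    have j2 : Integrable (fun u => φ' (sv s k * hr c d u k) * Y s u k) (RL c d (sv s)) :=
      f2.integrable_mul (y1 k)
    have j3 : Integrable (fun u => φ' (sv s k * hr c d u k) * Y' s u k) (RL c d (sv s)) :=
      f2.integrable_mul y3
    simp only [Pi.sub_apply, sub_mul, mul_sub] at a1 a2 ⊢
    rw [integral_sub j1 j2] at a1
    rw [integral_sub j2 j3] at a2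
    simp only [Gm]
    nlinarith [sq_nonneg ((∫ u, φ (sv s k * hr c d u k) * Y s u k ∂(RL c d (sv s))) -
      2 * (∫ u, φ' (sv s k * hr c d u k) * Y s u k ∂(RL c d (sv s))) +
      ∫ u, φ' (sv s k * hr c d u k) * Y' s u k ∂(RL c d (sv s)))]
  meas ι _ c d n φ Y s hφ hY := by
    refine measurable_pi_lambda _ fun k => ?_
    exact (StronglyMeasurable.integral_prod_right' (ν := RL c d (sv s))
      (f := fun p : V n × (ι → V n) => φ (sv s k * hr c d p.2 k) * Y p.1 s p.2 k)
      (((hφ.comp (meas_t c d s k)).comp measurable_snd).mul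
        ((measurable_pi_apply k).comp hY)).stronglyMeasurable).measurable

open Gm14 in
theorem muStmt : MuStmt := fun l hl =>
  ⟨mu_of ((Kv.cont_rho l).comp (by fun_prop)).measurable (fun _ => (Kv.rho_pos _ _).le)
      (by simpa [ph1] using Kv.rho_le hl 0) fun t t' => by
        simpa only [ph1, sub_sub_sub_cancel_right] using rho_ratio l (t - l) (t' - l),
    mu_of (by unfold ph2; fun_prop) (fun _ => (Real.exp_pos _).le)
      (Real.exp_le_one_iff.2 (by linarith)) fun t t' => by
        rw [ph2, ph2, ← Real.exp_add]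
        exact Real.exp_le_exp.2 (by linarith [neg_abs_le (t - t')]),
    mu_of measurable_const (fun _ => zero_le_one) le_rfl fun t t' => by
      rw [one_mul]
      exact Real.exp_le_one_iff.2 (by linarith [abs_nonneg (t - t')])⟩

end Crest.Agent.T157.Zf

end
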