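import Crest.Agent.T157.ZDefF_73

/-!
# Row 157, part B, kernel route (helper63): the exact gradient through Gaussian rows
-/

set_option autoImplicit false
set_option linter.unusedSectionVars false

noncomputable section

namespace Crest.Agent.T157.Zf

open MeasureTheory ProbabilityTheory Matrix Real
open Crest.Agent.T157.E Crest.Agent.T157.Eig Crest.Agent.T157.Tap Crest.Agent.T157.Z
open Crest.Agent.T157.SL (MG cm)
open Crest.Agent.T157.Rec (grad fl)

namespace Gs63

variable {n : ℕ} {ι : Type} [Fintype ι] [DecidableEq ι] {c d : ι → ℝ}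

/-- the shift of the noise that moves the spin `k` by `a` -/
def vv (c d : ι → ℝ) (a : ℝ) (k : Fin n) : ι × Fin n → ℝ :=
  fun p => if p.2 = k then a * (c p.1 / d p.1) else 0

/-- the direction of the rows -/
def ek (c : ι → ℝ) (k : Fin n) : ι → V n := fun l => Pi.single k (c l)

lemma mr (c d : ι → ℝ) (σ : V n) : Continuous (rows c d σ) := by unfold rows; fun_prop

lemma rows_add (h : Ad c d) (σ : V n) (a t : ℝ) (k : Fin n) (w : ι × Fin n → ℝ) :
    rows c d σ (w + t • vv c d a k) = rows c d σ w + (t * a) • ek c k := by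
  funext l i
  simp only [rows, vv, ek, Pi.add_apply, Pi.smul_apply, smul_eq_mul, Pi.single_apply]
  split_ifs
  · by_cases hc : c l = 0
    · simp [hc]
    · have := h l hc
      field_simp; ring
  · simp

lemma dot_vv (a : ℝ) (k : Fin n) (w : ι × Fin n → ℝ) :
    w ⬝ᵥ vv c d a k = a * ∑ l, c l / d l * w (l, k) := by
  simp only [dotProduct, vv, Fintype.sum_prod_type, mul_ite, mul_zero, Finset.sum_ite_eq',
    Finset.mem_univ, if_true, Finset.mul_sum]
  exact Finset.sum_congr rfl fun l _ => by ring

lemma vv_vv (a : ℝ) (k : Fin n) : vv c d a k ⬝ᵥ vv c d a k = a * a * lm c d := by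
  simp only [dot_vv, lm, Finset.mul_sum, ← div_pow]
  exact Finset.sum_congr rfl fun l _ => by simp only [vv, if_true]; ring

lemma hr_rows (σ : V n) (k : Fin n) (w : ι × Fin n → ℝ) :
    hr c d (rows c d σ w) k = lm c d * σ k + ∑ l, c l / d l * w (l, k) := by
  simp only [hr, lm, rows, Finset.sum_apply, Pi.smul_apply, smul_eq_mul, Finset.sum_mul,
    ← Finset.sum_add_distrib]
  refine Finset.sum_congr rfl fun l _ => ?_
  by_cases hd : d l = 0
  · simp [hd]
  · field_simp

lemma ek_eq (c : ι → ℝ) (k : Fin n) :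
    ek c k = ∑ l, c l • (Pi.single l (Pi.single k 1) : ι → V n) := by
  funext l i
  simp [ek, Finset.sum_apply, Pi.single_apply, ite_apply]

lemma mg {G : (ι → V n) → ℝ} {L : ℝ} (hc : Continuous G)
    (hL : ∀ u u', |G u - G u'| ≤ L * nA (u - u')) (σ : V n) : MG fun w => G (rows c d σ w) := by
  have m := (MG.const |G (rows c d σ 0)|).add ((MG.sum Finset.univ fun (l : ι) _ =>
    (MG.const 1).add (MG.sum Finset.univ fun (i : Fin n) _ =>
      (((Rec.mg_coord (l, i)).const_mul (d l)).mul
        ((Rec.mg_coord (l, i)).const_mul (d l))))).const_mul |L|)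
  refine m.of_le (hc.comp (mr c d σ)).measurable fun w => le_trans ?_ (le_abs_self _)
  have h1 := hL (rows c d σ w) (rows c d σ 0)
  have h2 : nA (rows c d σ w - rows c d σ 0) ≤ ∑ l, (1 + ∑ i, d l * w (l, i) * (d l * w (l, i))) :=
    Finset.sum_le_sum fun l _ => by
      have e : (rows c d σ w - rows c d σ 0) l = fun i => d l * w (l, i) := by
        funext i; simp [rows]
      have := nrm_sq fun i => d l * w (l, i)
      rw [e]
      simp only [dotProduct] at this
      nlinarith [sq_nonneg (nrm (fun i => d l * w (l, i)) - 1)]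
  have h3 : 0 ≤ nA (rows c d σ w - rows c d σ 0) := Finset.sum_nonneg fun _ _ => nrm_nonneg _
  nlinarith [abs_sub_abs_le_abs_sub (G (rows c d σ w)) (G (rows c d σ 0)),
    mul_le_mul (le_abs_self L) h2 h3 (abs_nonneg L)]

end Gs63

open Gs63

theorem gsStmt : GsStmt := fun ι _ _ c d h n G L hG hL s => by
  funext k
  have hs := Rec.sv_mul_self s k
  set a : ℝ := -2 * sv s k with ha
  set v := vv c d a k with hv
  have mh : Measurable fun u : ι → V n => sv s k * hr c d u k := by
    simp only [hr, Finset.sum_apply]; fun_prop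
  have e1 : ∀ w, rows c d (sv (fl s k)) w = rows c d (sv s) (v + w) := fun w => by
    have := rows_add h (sv s) a 1 k w
    rw [one_smul, one_mul, add_comm] at this
    rw [this, Kv.sv_fl]
    funext l i
    simp only [rows, ek, Pi.add_apply, Pi.smul_apply, smul_eq_mul, Pi.single_apply, ← ha]
    split_ifs <;> ring
  have m := fun t => mg (c := c) (d := d) (hG t).continuous (hL t) (sv s)
  have m' : ∀ t, Integrable (fun w => G t (rows c d (sv s) (v + w))) (gv (ι × Fin n)) :=
    fun t => by simpa using ((m t).affine v 1).int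
  have hl : ∀ w, LipschitzWith (L * nA (a • ek c k)).toNNReal
      fun t : ℝ => G s (rows c d (sv s) (w + t • v)) := fun w =>
    LipschitzWith.of_dist_le_mul fun x y => by
      rw [Real.dist_eq, Real.dist_eq, rows_add h, rows_add h]
      refine (hL _ _ _).trans ?_
      rw [add_sub_add_left_eq_sub, ← sub_smul, ← sub_mul, mul_smul,
        show nA ((x - y) • a • ek c k) = nA (a • ek c k) * |x - y| by
          simp only [nA, Pi.smul_apply, nrm_smul, Finset.mul_sum, mul_comm], ← mul_assoc]
      exact mul_le_mul_of_nonneg_right (Real.le_coe_toNNReal _) (abs_nonneg _)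
  obtain ⟨i1, e2⟩ := Kv.dv (f := fun w => G s (rows c d (sv s) w))
    ((hG s).continuous.comp (mr c d _)) hl
  have e3 : ∀ w, lineDeriv ℝ (fun w => G s (rows c d (sv s) w)) w v = a * ∑ l, c l *
      fderiv ℝ (G s) (rows c d (sv s) w) (Pi.single l (Pi.single k 1)) := fun w => by
    have := (hG s (rows c d (sv s) w)).lineDeriv_eq_fderiv (v := a • ek c k)
    rw [map_smul, ek_eq, map_sum, ← ek_eq] at this
    simp only [map_smul, smul_eq_mul] at this
    rw [← this, lineDeriv, lineDeriv]
    simp only [hv, rows_add h, smul_smul]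
  have e4 : ∀ w, sv s k * hr c d (rows c d (sv s) w) k = lm c d - w ⬝ᵥ v / 2 := fun w => by
    rw [hr_rows, hv, dot_vv, ha]
    linear_combination lm c d * hs
  have e5 : v ⬝ᵥ v = 4 * lm c d := by rw [hv, vv_vv, ha]; linear_combination 4 * lm c d * hs
  have e6 := cm v fun w => G s (rows c d (sv s) w) - G (fl s k) (rows c d (sv s) w)
  rw [integral_sub (m' s) (m' _)] at e6
  rw [integral_sub (m' s) (m s).int] at e2
  simp only [e3, mul_assoc, integral_const_mul] at e2
  rw [Rec.grad_eq, Pi.add_apply, Gm, Gm, RL, RL,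
    integral_map (mr c d _).aemeasurable (hG _).continuous.aestronglyMeasurable,
    integral_map (mr c d _).aemeasurable (hG _).continuous.aestronglyMeasurable,
    integral_map (mr c d _).aemeasurable, integral_map (mr c d _).aemeasurable]
  · simp only [e1, e4, Rec.grad_eq, ph1, ph2, Kv.rho_eq]
    have e7 : ∀ w, exp (-2 * (lm c d - w ⬝ᵥ v / 2)) * (sv s k * (G s (rows c d (sv s) w) -
        G (fl s k) (rows c d (sv s) w)) / 2) = sv s k / 2 * (exp (w ⬝ᵥ v - v ⬝ᵥ v / 2) *
          (G s (rows c d (sv s) w) - G (fl s k) (rows c d (sv s) w))) := fun w => by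
      rw [e5, show -2 * (lm c d - w ⬝ᵥ v / 2) = w ⬝ᵥ v - 4 * lm c d / 2 by ring]; ring
    have e8 : ∀ w, -2 * (lm c d - w ⬝ᵥ v / 2 - lm c d) = w ⬝ᵥ v := fun w => by ring
    simp only [e7, e8, integral_const_mul, ← e6, ← e5, mul_comm (Kv.rr _ _)]
    linear_combination (-sv s k / 2) * e2 + (∫ w, (∑ l, c l * fderiv ℝ (G s) (rows c d (sv s) w)
      (Pi.single l (Pi.single k 1))) * Kv.rr (v ⬝ᵥ v) (w ⬝ᵥ v) ∂gv (ι × Fin n)) * hs
  · refine Measurable.aestronglyMeasurable (Measurable.mul ?_ ?_)
    · exact (measurable_exp.comp (measurable_const_mul _)).comp mh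
    · simp only [Rec.grad_eq]
      exact ((((hG _).continuous.sub (hG _).continuous).const_mul _).div_const _).measurable
  · refine Measurable.aestronglyMeasurable (Measurable.mul ?_ ?_)
    · exact ((Kv.cont_rho _).measurable.comp (measurable_sub_const _)).comp mh
    · exact Finset.measurable_sum _ fun l _ => (measurable_fderiv_apply_const ℝ _ _).const_mul _

end Crest.Agent.T157.Zf

end
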