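import Crest.Agent.T157.ZDefF_73
import Crest.Agent.T157.KCov_47
import Crest.Agent.T157.KRg_75

/-!
# Row 157, part B, kernel route (helper31): sums, the top channel and the norms of `Zf.Sc`
-/

set_option autoImplicit false

noncomputable section

namespace Crest.Agent.T157.Zf

open MeasureTheory Matrix
open Crest.Agent.T157.E Crest.Agent.T157.Eig Crest.Agent.T157.Tap Crest.Agent.T157.Z
open Crest.Agent.T157.Rec (grad Pm)
open Crest.Agent.T157.Conc (ELip)

namespace Sc31

variable {f : Sf} {C : ℝ} {n : ℕ} {J : Mx n}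

theorem elip (h : Sc f C) (hJ : Jᵀ = J) (x : Cube n) : ELip C (f n J x) := fun y y' => by
  simpa [K75.en_eq] using h.lip n J J x y y' hJ hJ

theorem nrm_grad (h : Sc f C) (hJ : Jᵀ = J) (x : Cube n) (y : V n) :
    nrm (grad (fun s => f n J s y) x) ≤ C := (nrm_le_iff h.pos).2 (h.grad n J x y hJ)

theorem Ew_eq (r : ℝ) : Ew r f n J = Pm sv r (f n J) := rfl

end Sc31

open Sc31

theorem sc_add : ∀ f g C C', Sc f C → Sc g C' →
    Sc (fun n J s y => f n J s y + g n J s y) (C + C') := fun f g C C' h h' =>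
  ⟨add_nonneg h.pos h'.pos, fun n J s x y hJ => by simp only [h.gauge n J s x y hJ, h'.gauge n J s x y hJ],
    fun n J e x y hJ => by simp only [h.perm n J e x y hJ, h'.perm n J e x y hJ],
    fun n J J' x y y' hJ hJ' => by
      rw [add_sub_add_comm, add_mul]
      exact (abs_add_le _ _).trans (add_le_add (h.lip n J J' x y y' hJ hJ') (h'.lip n J J' x y y' hJ hJ')),
    fun n J x y hJ => (nrm_le_iff (add_nonneg h.pos h'.pos)).1 (by
      rw [Rec.grad_add]
      exact (nrm_add_le _ _).trans (add_le_add (nrm_grad h hJ x y) (nrm_grad h' hJ x y))),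
    fun n J x y hJ => by
      rw [add_mul]
      exact (abs_add_le _ _).trans (add_le_add (h.sup n J x y hJ) (h'.sup n J x y hJ)),
    fun n J x hJ => (h.diff n J x hJ).add (h'.diff n J x hJ)⟩

theorem sc_zero : Sc (fun _ _ _ _ => 0) 0 :=
  ⟨le_rfl, fun _ _ _ _ _ _ => rfl, fun _ _ _ _ _ _ => rfl, by simp, by simp [Rec.grad_const], by simp,
    fun _ _ _ _ => differentiable_const _⟩

theorem sc_top : ∀ f C, Sc f C → ∀ r ≥ (0 : ℝ), ∃ B, ∀ n, Lm.Cov (Ew r f n) B ∧
    ∀ (J : Mx n) x y, Jᵀ = J → |Ew r f n J x - Ew r f n J y| ≤ B * √n := by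
  intro f C h r hr
  have C0 := h.pos
  have G0 := Kc.Ga_nonneg hr zero_le_one
  have G1 : 0 ≤ 2 * Kc.Ga r 1 * (r * C ^ 2) + 2 * Real.exp (4 * r * 1) * C ^ 2 := by positivity
  refine ⟨2 * Kc.Ga r 1 * (r * C ^ 2) + 2 * Real.exp (4 * r * 1) * C ^ 2 + 2 * C, fun n =>
    ⟨⟨fun J s x hJ => (Kv.iso_sign (Pl.isSign_sv s)).pm (Pl.sv_cmul s x) fun u => h.gauge n J s x u hJ,
      fun J e x hJ => (Kv.iso_perm e).pm (Kv.sv_perm e x) fun u => h.perm n J e x u hJ,
      fun J J' x hJ hJ' => ?_, fun J x hJ => ?_⟩, fun J x y hJ => ?_⟩⟩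
  · have := K75.abs_gauss_sub (δ := C * (√n * opn (J - J'))) (K75.mg_of_elip (elip h hJ x))
      (elip h hJ' x) (fun u => by simpa using h.lip n J J' x u u hJ hJ') (r • sv x) (r • sv x) √r
    rw [sub_self, K75.en_eq, nrm_zero, mul_zero, add_zero] at this
    exact this.trans (mul_le_mul_of_nonneg_right (by linarith)
      (mul_nonneg (Real.sqrt_nonneg _) (opn_nonneg _)))
  · have m := fun x => K75.mg_of_elip (elip h hJ x)
    have h1 := Kc.fg_sv.grad_le' hr m (Pm sv r (f n J) x) x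
    have h2 := K75.var_Pm (φ := sv) hr (elip h hJ x)
    have h3 : Pm sv r (fun x u => grad (fun x => f n J x u) x ⬝ᵥ grad (fun x => f n J x u) x) x ≤
        C ^ 2 := Rec.Pm_le (fun x => SL.MG.sum _ fun j _ => (Kc.mg_grad m x j).mul (Kc.mg_grad m x j))
      fun u => h.grad n J x u hJ
    rw [Ew_eq]
    refine h1.trans (le_add_of_le_of_nonneg ?_ (by positivity))
    gcongr
  · have a : ∀ x, |Ew r f n J x| ≤ C * √n := fun x => by
      simpa [Ew] using norm_integral_le_of_norm_le_const (μ := gv (Fin n)) (C := C * √n)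
        (f := fun w => f n J x (r • sv x + √r • w)) (ae_of_all _ fun w => h.sup n J x _ hJ)
    refine (abs_sub _ _).trans ?_
    nlinarith [a x, a y, mul_nonneg G1 (Real.sqrt_nonneg (n : ℝ))]

theorem sc_nrm : ∀ f C, Sc f C → ∀ n (J : Mx n) s, Jᵀ = J → Measurable (ga f n J s) ∧
    Measurable (gb f n J s) ∧ ∀ y, nrm (ga f n J s y) ≤ C * √n ∧ nrm (gb f n J s y) ≤ C * √n := by
  intro f C h n J s hJ
  have k : ∀ v : V n, nrm v ≤ C → nrm (√(n : ℝ) • v) ≤ C * √n := fun v hv => by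
    rw [nrm_smul, abs_of_nonneg (Real.sqrt_nonneg _), mul_comm]
    exact mul_le_mul_of_nonneg_right hv (Real.sqrt_nonneg _)
  refine ⟨measurable_pi_lambda _ fun j => ?_, measurable_pi_lambda _ fun j =>
    (measurable_fderiv_apply_const ℝ _ _).const_mul _, fun y => ⟨k _ (nrm_grad h hJ s y),
      k (Conc.grad (f n J s) y) ?_⟩⟩
  · have m := fun x => (elip h hJ x).continuous.measurable
    simp only [ga, Pi.smul_apply, smul_eq_mul, Rec.grad_eq]
    exact ((((m _).sub (m _)).const_mul _).div_const _).const_mul _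
  · have := (elip h hJ s).gr2_le y
    rw [Conc.gr2_eq, K75.en_eq] at this
    exact (abs_le_of_sq_le_sq' this h.pos).2

end Crest.Agent.T157.Zf

end
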