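import Crest.Agent.T157.ZfKe_15
import Crest.Agent.T157.ZfSc_31
import Crest.Agent.T157.KDi_8

/-!
# Row 157, part B, kernel route (helper5): scalar regularity of `Ψ₀`
-/

set_option autoImplicit false

noncomputable section

namespace Crest.Agent.T157.Zf

open MeasureTheory Matrix Filter Set
open Crest.Agent.T157.E Crest.Agent.T157.Eig Crest.Agent.T157.Tap Crest.Agent.T157.Z
open Crest.Agent.T157.Rec (grad)
open Crest.Agent.T157.Pl (cmul)

namespace S5

/-- differentiation under the integral for a Lipschitz family -/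
theorem diff_int {H α : Type*} [NormedAddCommGroup H] [NormedSpace ℝ H] [FiniteDimensional ℝ H]
    [TopologicalSpace α] [MeasurableSpace α] [OpensMeasurableSpace α] (μ : Measure α)
    [IsFiniteMeasure μ] {F : α → H → ℝ} (hc : Continuous F.uncurry)
    (hd : ∀ a, Differentiable ℝ (F a)) {L B : ℝ} (hl : ∀ a x x', |F a x - F a x'| ≤ L * ‖x - x'‖)
    (hb : ∀ a x, |F a x| ≤ B) : Differentiable ℝ fun x => ∫ a, F a x ∂μ := fun x => by
  borelize H
  have : ProperSpace H := FiniteDimensional.proper ℝ H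
  have m : ∀ x, AEStronglyMeasurable (fun a => F a x) μ := fun x =>
    (hc.comp (Continuous.prodMk_left x)).aestronglyMeasurable
  exact (hasFDerivAt_integral_of_dominated_loc_of_lip' (F := fun x a => F a x) (bound := fun _ => L)
    (F' := fun a => fderiv ℝ (F a) x) univ_mem (fun x _ => m x)
    (Integrable.of_bound (m x) B (.of_forall fun a => hb a x))
    ((measurable_fderiv_with_param ℝ hc).comp measurable_prodMk_right).aestronglyMeasurable
    (.of_forall fun a x' _ => hl a x' x) (integrable_const _)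
    (.of_forall fun a => (hd a x).hasFDerivAt)).2.differentiableAt

variable {n m : ℕ} {X : Nt (Fin 2 ⊕ Fin m)} {J J' : Mx n} {M L : ℝ}

theorem nrm_le_norm (v : V n) : nrm v ≤ √n * ‖v‖ :=
  (K.Di.nrm_le_sup (norm_nonneg v) fun i => norm_le_pi_norm v i).trans_eq (mul_comm _ _)

theorem abs_div_le {a b : ℝ} (hb : 0 ≤ b) (h : |a| ≤ √n * b) : |a / √n| ≤ b := by
  rw [abs_div, abs_of_nonneg (Real.sqrt_nonneg _)]
  exact div_le_of_le_mul₀ (Real.sqrt_nonneg _) hb (h.trans_eq (mul_comm _ _))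

/-! ### the matrices -/

theorem g1 (h : Jᵀ = J) : Sq.G1 (AA J) :=
  Sq.g1_shift (herm_iff.2 (by rw [tJ, transpose_smul, h])) (L85.opn_tJ J) (by norm_num)
theorem opA (J : Mx n) : opn (AA J) ≤ 7 :=
  (Sq.opn_shift (L85.opn_tJ J) (by norm_num)).trans (by norm_num)
theorem opQ (h : Jᵀ = J) : opn (QQ J) ≤ 3 :=
  abs_le_of_sq_le_sq' (((g1 h).opn_rt.trans_le (opA J)).trans (by norm_num)) (by norm_num) |>.2
theorem dA (J J' : Mx n) : opn (AA J - AA J') ≤ 2 * opn (J - J') := by
  rw [AA, AA, add_sub_add_right_eq_sub]; exact L85.tJ_lip J J'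
theorem dQ (h : Jᵀ = J) (h' : J'ᵀ = J') : opn (QQ J - QQ J') ≤ opn (J - J') :=
  (Sq.rt_lip (g1 h) (g1 h')).trans (by linarith [dA J J'])

theorem cj_apply (s : Cube n) (A : Mx n) (i j : Fin n) : Lm.cj s A i j = sv s i * sv s j * A i j := by
  rw [Lm.cj, mul_diagonal, diagonal_mul]; ring
theorem AA_cj (s : Cube n) (J : Mx n) : AA (Lm.cj s J) = Lm.cj s (AA J) := by
  rw [AA, Lm.cj, L85.tJ_gauge (Pl.isSign_sv s), ← Lm.cj]
  ext i j
  simp only [AA, cj_apply, Matrix.add_apply, Matrix.smul_apply, Matrix.one_apply, smul_eq_mul]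
  split_ifs with e
  · subst e; linear_combination (-4) * Rec.sv_mul_self s i
  · ring
theorem QQ_cj (s : Cube n) (h : Jᵀ = J) : QQ (Lm.cj s J) = Lm.cj s (QQ J) := by
  ext i j
  rw [cj_apply]
  exact Sq.rt_sign (g1 h) (Rec.sv_mul_self s) (fun i j => by rw [AA_cj, cj_apply]) i j
theorem xr_cj (s x : Cube n) (h : Jᵀ = J) (y z : V n) :
    xr (Lm.cj s J) (cmul s x) (sv s * y) (sv s * z) = sv s * xr J x y z := by
  rw [xr, xr, AA_cj, QQ_cj s h, Pl.sv_cmul, Lm.cj, Lm.cj, Kv.cj_mulVec, Kv.cj_mulVec, mul_add, mul_add]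
theorem AA_perm (e : Equiv.Perm (Fin n)) (J : Mx n) : AA (J.submatrix e e) = (AA J).submatrix e e := by
  rw [AA, L85.tJ_perm]
  ext i j
  simp [AA, one_apply]
theorem QQ_perm (e : Equiv.Perm (Fin n)) (h : Jᵀ = J) :
    QQ (J.submatrix e e) = (QQ J).submatrix e e := by
  ext i j
  exact Sq.rt_perm (g1 h) e (fun i j => by rw [AA_perm]; rfl) i j
theorem xr_perm (e : Equiv.Perm (Fin n)) (x : Cube n) (h : Jᵀ = J) (y z : V n) :
    xr (J.submatrix e e) (x ∘ e) (y ∘ e) (z ∘ e) = xr J x y z ∘ e := by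
  rw [xr, xr, AA_perm, QQ_perm e h, Kv.sv_perm, Kv.sub_mulVec, Kv.sub_mulVec]; rfl
theorem xr_eq (h : Jᵀ = J) (s : Cube n) (y z : V n) : xr J s y z = y + QQ J *ᵥ (QQ J *ᵥ sv s + z) := by
  rw [mulVec_add, mulVec_mulVec, QQ, (g1 h).mul, xr, add_assoc, QQ]
theorem nrm_sv (s : Cube n) : nrm (sv s) ≤ 1 * √n :=
  K.Di.nrm_le_sup zero_le_one fun i => by rcases Pl.isSign_sv s i with e | e <;> simp [e]
theorem xr_lip (h : Jᵀ = J) (h' : J'ᵀ = J') (s : Cube n) (y y' z : V n) :
    nrm (xr J s y z - xr J' s y' z) ≤ nrm (y - y') + 2 * (√n * opn (J - J')) + opn (J - J') * nrm z := by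
  have e : xr J s y z - xr J' s y' z = y - y' + (AA J - AA J') *ᵥ sv s + (QQ J - QQ J') *ᵥ z := by
    rw [xr, xr, sub_mulVec, sub_mulVec]; abel
  have a := (nrm_mulVec_le _ _).trans (mul_le_mul (dA J J') (nrm_sv s) (nrm_nonneg _)
    (mul_nonneg zero_le_two (opn_nonneg _)))
  have b := (nrm_mulVec_le _ z).trans (mul_le_mul_of_nonneg_right (dQ h h') (nrm_nonneg _))
  rw [e]
  linarith [nrm_add_le (y - y' + (AA J - AA J') *ᵥ sv s) ((QQ J - QQ J') *ᵥ z),
    nrm_add_le (y - y') ((AA J - AA J') *ᵥ sv s)]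

/-! ### the averaged direction -/

theorem cont_lab : Continuous fun p : (Fin m × Fin n → ℝ) × V n × V n => lab2 p.2.1 p.2.2 p.1 :=
  continuous_pi fun l => by
    rcases l with l | l
    · fin_cases l
      exacts [continuous_snd.fst, continuous_snd.snd]
    · exact continuous_pi fun i => (continuous_apply (l, i)).comp continuous_fst

theorem nA_lab (x y x' y' : V n) (w : Fin m × Fin n → ℝ) :
    nA (lab2 x y w - lab2 x' y' w) = nrm (x - x') + nrm (y - y') := by
  simp [nA, lab2, nrm]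

theorem eb_sup (hM : ∀ n J a i, |X n J a i| ≤ M) (x y : V n) (i : Fin n) : |Eb2 X n J x y i| ≤ M := by
  have := norm_integral_le_of_norm_le_const (μ := gv (Fin m × Fin n))
    (f := fun w => X n J (lab2 x y w) i) (C := M) (.of_forall fun w => hM n J _ i)
  rwa [probReal_univ, mul_one] at this

theorem cont_X (hX : Nw True X) (J : Mx n) (i : Fin n) :
    Continuous fun p : (Fin m × Fin n → ℝ) × V n × V n => X n J (lab2 p.2.1 p.2.2 p.1) i :=
  (continuous_apply i).comp ((L85.cont hX n).comp (continuous_const.prodMk cont_lab))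

theorem eb_lip (hX : Nw True X) (hM : ∀ n J a i, |X n J a i| ≤ M) (L0 : 0 ≤ L)
    (hL : ∀ n J J' a a', nrm (X n J a - X n J' a') ≤ L * (nA (a - a') + √n * opn (J - J')))
    (x y x' y' : V n) : nrm (Eb2 X n J x y - Eb2 X n J' x' y') ≤
      L * (nrm (x - x') + nrm (y - y') + √n * opn (J - J')) := by
  have hi : ∀ J x y i, Integrable (fun w => X n J (lab2 x y w) i) (gv (Fin m × Fin n)) :=
    fun J x y i => Integrable.of_bound ((cont_X hX J i).comp
      (Continuous.prodMk_left (x, y))).aestronglyMeasurable M (.of_forall fun w => hM n J _ i)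
  set u := Eb2 X n J x y - Eb2 X n J' x' y' with hu
  have e : u ⬝ᵥ u = ∫ w, u ⬝ᵥ (X n J (lab2 x y w) - X n J' (lab2 x' y' w)) ∂gv (Fin m × Fin n) := by
    simp only [dotProduct, Pi.sub_apply]
    refine Eq.trans (Finset.sum_congr rfl fun i _ => ?_)
      (integral_finsetSum _ fun i _ => ((hi J x y i).sub (hi J' x' y' i)).const_mul (u i)).symm
    simp only [Pi.sub_apply]
    rw [integral_const_mul, integral_sub (hi J x y i) (hi J' x' y' i)]; rfl
  have h1 := norm_integral_le_of_norm_le_const (μ := gv (Fin m × Fin n))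
    (f := fun w => u ⬝ᵥ (X n J (lab2 x y w) - X n J' (lab2 x' y' w)))
    (C := nrm u * (L * (nrm (x - x') + nrm (y - y') + √n * opn (J - J'))))
    (.of_forall fun w => (abs_dot_le _ _).trans (mul_le_mul_of_nonneg_left
      ((hL n J J' _ _).trans_eq (by rw [nA_lab])) (nrm_nonneg _)))
  rw [probReal_univ, mul_one, ← e, ← nrm_mul_self] at h1
  rcases (nrm_nonneg u).eq_or_lt with h | h
  · rw [← h]
    have := nrm_nonneg (x - x'); have := nrm_nonneg (y - y'); have := opn_nonneg (J - J')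
    positivity
  · exact le_of_mul_le_mul_left ((le_abs_self _).trans h1) h

theorem eb_cj (hX : Nw True X) (s : Cube n) (J : Mx n) (x y : V n) :
    Eb2 X n (Lm.cj s J) (sv s * x) (sv s * y) = sv s * Eb2 X n J x y := by
  ext i
  rw [Pi.mul_apply, Eb2, Eb2, ← integral_const_mul, ← (Kv.iso_sign (ε := fun p : Fin m × Fin n =>
    sv s p.2) fun p => Pl.isSign_sv s p.2).int]
  refine integral_congr_ae (.of_forall fun w => ?_)
  have e : lab2 (sv s * x) (sv s * y) ((fun p : Fin m × Fin n => sv s p.2) * w) =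
      fun l => sv s * lab2 x y w l := by
    funext l
    rcases l with l | l
    · fin_cases l <;> rfl
    · rfl
  simp only [e]
  exact congrFun (L85.gauge hX n J _ _ (Pl.isSign_sv s)) i

theorem eb_perm (hX : Nw True X) (e : Equiv.Perm (Fin n)) (J : Mx n) (x y : V n) :
    Eb2 X n (J.submatrix e e) (x ∘ e) (y ∘ e) = Eb2 X n J x y ∘ e := by
  ext i
  rw [Function.comp_apply, Eb2, Eb2, ← (Kv.iso_perm ((Equiv.refl (Fin m)).prodCongr e)).int]
  refine integral_congr_ae (.of_forall fun w => ?_)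
  have h : lab2 (x ∘ e) (y ∘ e) (w ∘ (Equiv.refl (Fin m)).prodCongr e) =
      fun l => lab2 x y w l ∘ e := by
    funext l
    rcases l with l | l
    · fin_cases l <;> rfl
    · rfl
  simp only [h]
  exact congrFun (L85.perm hX n J _ e) i

theorem eb_diff (hX : Nw True X) (hM : ∀ n J a i, |X n J a i| ≤ M) (L0 : 0 ≤ L)
    (hL : ∀ n J J' a a', nrm (X n J a - X n J' a') ≤ L * (nA (a - a') + √n * opn (J - J')))
    (J : Mx n) : Differentiable ℝ fun p : V n × V n => Eb2 X n J p.1 p.2 :=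
  differentiable_pi.2 fun i => diff_int (gv (Fin m × Fin n))
    (F := fun w (p : V n × V n) => X n J (lab2 p.1 p.2 w) i) (L := L * (2 * √n)) (cont_X hX J i)
    (fun w => (differentiable_pi.1 (L85.diff hX n J) i).comp (differentiable_pi.2 fun l => by
      rcases l with l | l
      · fin_cases l
        exacts [differentiable_fst, differentiable_snd]
      · exact differentiable_const _))
    (fun w p p' => by
      refine (abs_apply_le_nrm (X n J (lab2 p.1 p.2 w) - X n J (lab2 p'.1 p'.2 w)) i).trans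
        ((hL n J J _ _).trans ?_)
      rw [nA_lab, sub_self, opn_zero, mul_zero, add_zero, mul_assoc]
      refine mul_le_mul_of_nonneg_left ?_ L0
      have a : nrm (p.1 - p'.1) ≤ √n * ‖(p - p').1‖ := nrm_le_norm _
      have b : nrm (p.2 - p'.2) ≤ √n * ‖(p - p').2‖ := nrm_le_norm _
      linarith [
        mul_le_mul_of_nonneg_left (norm_fst_le (p - p')) (Real.sqrt_nonneg n),
        mul_le_mul_of_nonneg_left (norm_snd_le (p - p')) (Real.sqrt_nonneg n)])
    fun w p => hM n J _ i

/-! ### the integrand -/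

/-- the integrand of `Ψ₀` -/
def hh (X : Nt (Fin 2 ⊕ Fin m)) (J : Mx n) (s : Cube n) (x y : V n) : ℝ :=
  Eb2 X n J x y ⬝ᵥ (sv s - th x)

theorem nrm_st (s : Cube n) (x : V n) : nrm (sv s - th x) ≤ 2 * √n := by
  linarith [nrm_sub_le (sv s) (th x), nrm_sv s,
    K.Di.nrm_le_sup (v := th x) zero_le_one fun i => (Real.abs_tanh_lt_one _).le]

theorem hh_sup (M0 : 0 ≤ M) (hM : ∀ n J a i, |X n J a i| ≤ M) (s : Cube n) (x y : V n) :
    |hh X J s x y| ≤ √n * (2 * M * √n) :=
  (abs_dot_le _ _).trans ((mul_le_mul (K.Di.nrm_le_sup M0 (eb_sup hM x y)) (nrm_st s x)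
    (nrm_nonneg _) (by positivity)).trans_eq (by ring))

theorem hh_lip (hX : Nw True X) (M0 : 0 ≤ M) (hM : ∀ n J a i, |X n J a i| ≤ M) (L0 : 0 ≤ L)
    (hL : ∀ n J J' a a', nrm (X n J a - X n J' a') ≤ L * (nA (a - a') + √n * opn (J - J')))
    (s : Cube n) (x y x' y' : V n) : |hh X J s x y - hh X J' s x' y'| ≤
      √n * ((2 * L + M) * (nrm (x - x') + nrm (y - y') + √n * opn (J - J'))) := by
  have e : hh X J s x y - hh X J' s x' y' = (Eb2 X n J x y - Eb2 X n J' x' y') ⬝ᵥ (sv s - th x) +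
      Eb2 X n J' x' y' ⬝ᵥ (th x' - th x) := by
    simp only [hh, sub_dotProduct, dotProduct_sub]; ring
  have x0 := nrm_nonneg (x - x')
  have y0 := nrm_nonneg (y - y')
  have d0 := mul_nonneg (Real.sqrt_nonneg n) (opn_nonneg (J - J'))
  have a := (abs_dot_le _ _).trans (mul_le_mul (eb_lip (J := J) (J' := J') hX hM L0 hL x y x' y')
    (nrm_st s x) (nrm_nonneg _) (by positivity))
  have b := (abs_dot_le _ _).trans (mul_le_mul (K.Di.nrm_le_sup M0 (eb_sup (J := J') hM x' y'))
    (K.Di.nrm_th x' x) (nrm_nonneg _) (by positivity))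
  rw [← nrm_neg (x' - x), neg_sub] at b
  rw [e]
  refine (abs_add_le _ _).trans ?_
  linarith [mul_nonneg (mul_nonneg M0 (Real.sqrt_nonneg n)) (add_nonneg y0 d0)]

theorem hh_diff (hX : Nw True X) (hM : ∀ n J a i, |X n J a i| ≤ M) (L0 : 0 ≤ L)
    (hL : ∀ n J J' a a', nrm (X n J a - X n J' a') ≤ L * (nA (a - a') + √n * opn (J - J')))
    (J : Mx n) (s : Cube n) : Differentiable ℝ fun p : V n × V n => hh X J s p.1 p.2 := by
  have t : Differentiable ℝ Real.tanh := by
    rw [show Real.tanh = fun x => Real.sinh x / Real.cosh x from funext Real.tanh_eq_sinh_div_cosh]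
    exact Real.differentiable_sinh.div Real.differentiable_cosh fun x => (Real.cosh_pos x).ne'
  unfold hh dotProduct
  refine Differentiable.fun_sum fun i _ => (differentiable_pi.1 (eb_diff hX hM L0 hL J) i).fun_mul ?_
  exact (differentiable_const _).fun_sub (t.comp (f := fun p : V n × V n => p.1 i) (by fun_prop))

end S5

open S5 in
theorem sc_base : ∀ (m : ℕ) (X : Nt (Fin 2 ⊕ Fin m)), Nw True X → Bd X → ∃ C, Sc (Ps0 X) C := by
  intro m X hX ⟨M', hM'⟩
  obtain ⟨L, L0, hL⟩ := L85.lip hX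
  obtain ⟨M, M0, hM⟩ : ∃ M ≥ (0 : ℝ), ∀ n J a i, |X n J a i| ≤ M :=
    ⟨|M'|, abs_nonneg _, fun n J a i => (hM' n J a i).trans (le_abs_self _)⟩
  have e : ∀ n (J : Mx n) s y, Ps0 X n J s y = (∫ z, hh X J s (xr J s y z) y ∂gv (Fin n)) / √n :=
    fun _ _ _ _ => rfl
  have hc : ∀ {n} (J : Mx n) s, Continuous fun p : V n × V n => hh X J s p.1 p.2 := fun J s =>
    (hh_diff hX hM L0 hL J s).continuous
  have cx : ∀ {n} (J : Mx n) s, Continuous fun p : V n × V n => hh X J s (xr J s p.2 p.1) p.2 :=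
    fun J s => (hc J s).comp (f := fun p : V _ × V _ => (xr J s p.2 p.1, p.2)) (by unfold xr; fun_prop)
  have hi : ∀ {n} (J : Mx n) s y, Integrable (fun z => hh X J s (xr J s y z) y) (gv (Fin n)) :=
    fun J s y => Integrable.of_bound ((cx J s).comp (Continuous.prodMk_left y)).aestronglyMeasurable _
      (.of_forall fun z => hh_sup M0 hM s _ _)
  set K := 2 * L + M with hK
  have K0 : 0 ≤ K := by positivity
  set G := 2 * Kc.Ga 1 7 * (3 * K) ^ 2 + 2 * Real.exp (4 * 1 * 7) * M ^ 2 with hG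
  have g0 := Kc.Ga_nonneg zero_le_one (by norm_num : (0 : ℝ) ≤ 7)
  have G0 : 0 ≤ G := by positivity
  have s0 := Real.sqrt_nonneg G
  refine ⟨4 * K + 2 * M + √G, by positivity, fun n J s x y h => ?_, fun n J p x y h => ?_,
    fun n J J' x y y' h h' => ?_, fun n J x y h => ?_, fun n J x y h => ?_, fun n J x h => ?_⟩
  · rw [e, e, ← (Kv.iso_sign (Pl.isSign_sv s)).int]
    simp only [xr_cj s x h, hh, eb_cj hX, Pl.sv_cmul]
    congr 2 with z
    rw [show th (sv s * xr J x y z) = sv s * th (xr J x y z) from funext fun i => by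
      rcases Pl.isSign_sv s i with e | e <;> simp [th, e], ← mul_sub,
      (Kv.iso_sign (Pl.isSign_sv s)).dot]
  · rw [e, e, ← (Kv.iso_perm p).int]
    simp only [xr_perm p x h, hh, eb_perm hX]
    congr 2 with z
    exact (Kv.iso_perm p).dot _ (sv x - th (xr J x y z))
  · have y0 := nrm_nonneg (y - y')
    have o0 := opn_nonneg (J - J')
    have r0 := Real.sqrt_nonneg n
    rw [e, e, ← sub_div, ← integral_sub (hi J x y) (hi J' x y')]
    refine (abs_div_le (b := K * (2 * nrm (y - y') + 4 * (√n * opn (J - J')))) (by positivity)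
      ?_).trans ?_
    swap
    · have := mul_nonneg (add_nonneg (mul_nonneg zero_le_two M0) s0) (add_nonneg y0 (mul_nonneg r0 o0))
      linarith [mul_nonneg K0 y0]
    have i : Integrable (fun z : V n => √n * K * opn (J - J') * nrm z) (gv (Fin n)) :=
      Nrm.integrable_nrm.const_mul _
    rw [← Real.norm_eq_abs]
    refine (norm_integral_le_of_norm_le ((integrable_const (√n * (K * (2 * nrm (y - y') +
      3 * (√n * opn (J - J')))))).add i) (.of_forall fun z => ?_)).trans ?_
    · refine (hh_lip hX M0 hM L0 hL x _ _ _ _).trans ?_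
      have := mul_le_mul_of_nonneg_left (xr_lip h h' x y y' z) (mul_nonneg r0 K0)
      simp only [Pi.add_apply]
      linarith
    · simp only [Pi.add_apply]
      rw [integral_add (integrable_const _) i, integral_const, probReal_univ, one_smul,
        integral_const_mul]
      have := mul_le_mul_of_nonneg_left (Nrm.integral_nrm_le (ι := Fin n))
        (mul_nonneg (mul_nonneg r0 K0) o0)
      rw [Fintype.card_fin] at this
      linarith
  · set Ψ : Cube n → V n → ℝ := fun s u => hh X J s (y + QQ J *ᵥ u) y / √n with hΨ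
    have e1 : (fun s => Ps0 X n J s y) = Rec.Pm (fun s => QQ J *ᵥ sv s) 1 Ψ := by
      funext s
      simp only [e, Rec.Pm, hΨ, xr_eq h, one_smul, Real.sqrt_one, integral_div]
    have mΨ : ∀ s, SL.MG (Ψ s) := fun s => .of_bdd (((hc J s).comp
      (f := fun u => (y + QQ J *ᵥ u, y)) (by fun_prop)).measurable.div_const _) (2 * M * √n)
      fun u => abs_div_le (by positivity) (hh_sup M0 hM s _ _)
    have fg : Kc.FG (fun s => QQ J *ᵥ sv s) 7 := Kc.fg_opn (by rw [QQ, (g1 h).tmul]; exact opA J)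
    rw [e1]
    refine (fg.grad_le' zero_le_one mΨ (∫ z, Ψ x (QQ J *ᵥ sv x + z) ∂gv (Fin n)) x).trans
      (le_trans (b := G) (add_le_add (mul_le_mul_of_nonneg_left ?_ (by positivity))
        (mul_le_mul_of_nonneg_left ?_ (by positivity))) ?_)
    · simp only [Rec.Pm, one_smul, Real.sqrt_one]
      refine Conc.var_lip (F := fun z => Ψ x (QQ J *ᵥ sv x + z)) fun z z' => ?_
      rw [Nrm.en_eq_nrm, hΨ]
      simp only
      rw [← sub_div]
      refine abs_div_le (mul_nonneg (by positivity) (nrm_nonneg _))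
        ((hh_lip hX M0 hM L0 hL x _ _ _ _).trans ?_)
      rw [add_sub_add_left_eq_sub, ← mulVec_sub, add_sub_add_left_eq_sub, sub_self, sub_self, opn_zero,
        mul_zero, add_zero, nrm_eq_zero.2 rfl, add_zero]
      refine mul_le_mul_of_nonneg_left ?_ (Real.sqrt_nonneg _)
      linarith [mul_le_mul_of_nonneg_left ((nrm_mulVec_le _ (z - z')).trans
        (mul_le_mul_of_nonneg_right (opQ h) (nrm_nonneg _))) K0]
    · have gr : ∀ u, grad (fun s => Ψ s u) x = (√(n : ℝ))⁻¹ • Eb2 X n J (y + QQ J *ᵥ u) y := fun u => by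
        rw [← Rec.grad_lin ((√(n : ℝ))⁻¹ • Eb2 X n J (y + QQ J *ᵥ u) y) x]
        funext j
        simp only [Rec.grad_eq, hΨ, hh, dotProduct_sub, smul_dotProduct, smul_eq_mul]
        ring
      simp only [gr, Rec.Pm]
      refine (Real.le_norm_self _).trans ((norm_integral_le_of_norm_le_const (C := M ^ 2)
        (.of_forall fun z => ?_)).trans_eq (by rw [probReal_univ, mul_one]))
      rw [← nrm_sq, norm_pow, Real.norm_eq_abs, abs_of_nonneg (nrm_nonneg _), nrm_smul,
        abs_of_nonneg (by positivity), inv_mul_eq_div]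
      exact pow_le_pow_left₀ (div_nonneg (nrm_nonneg _) (Real.sqrt_nonneg _)) (div_le_of_le_mul₀
        (Real.sqrt_nonneg _) M0 (T157.K.Di.nrm_le_sup M0 (eb_sup hM _ _))) 2
    · exact (Real.sq_sqrt G0).symm.trans_le (pow_le_pow_left₀ s0 (by linarith) 2)
  · rw [e]
    refine (abs_div_le (b := 2 * M * √n) (by positivity) ?_).trans
      (mul_le_mul_of_nonneg_right (by linarith) (Real.sqrt_nonneg _))
    rw [← Real.norm_eq_abs]
    exact (norm_integral_le_of_norm_le_const (.of_forall fun z => hh_sup M0 hM x _ _)).trans_eq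
      (by rw [probReal_univ, mul_one])
  · rw [funext (e n J x)]
    simp only [div_eq_mul_inv]
    refine Differentiable.mul_const (diff_int (gv (Fin n))
      (F := fun z y => hh X J x (xr J x y z) y) (L := √n * (K * (2 * √n))) (cx J x)
      (fun z => (hh_diff hX hM L0 hL J x).comp (f := fun y => (xr J x y z, y))
        (by unfold xr; fun_prop)) (fun z y y' => ?_) fun z y => hh_sup M0 hM x _ _) _
    refine (hh_lip hX M0 hM L0 hL x _ _ _ _).trans ?_
    rw [show xr J x y z - xr J x y' z = y - y' by rw [xr, xr]; abel, sub_self, opn_zero, mul_zero,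
      add_zero, mul_assoc, mul_assoc]
    refine mul_le_mul_of_nonneg_left (mul_le_mul_of_nonneg_left ?_ K0) (Real.sqrt_nonneg _)
    linarith [nrm_le_norm (y - y')]

theorem scStmt : ScStmt := ⟨sc_base, sc_step, sc_add, sc_zero, sc_top, sc_nrm⟩

end Crest.Agent.T157.Zf

end
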