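import Crest.Agent.T157.ZDefF_73
import Crest.Agent.T157.ZQ_64

/-!
# Row 157, part B, kernel route (helper23): the steps preserve the approximable words
-/

set_option autoImplicit false

noncomputable section

namespace Crest.Agent.T157.Zf

open MeasureTheory ProbabilityTheory Matrix Filter Set
open Crest.Agent.T157.E Crest.Agent.T157.Eig Crest.Agent.T157.Tap Crest.Agent.T157.Z
open Crest.Agent.R339.Guerra (mp_comp)

namespace Tr23

variable {n : ℕ} {ι κ : Type} [Fintype ι] [Fintype κ] {β : ℝ} {c d : ι → ℝ}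

/-- words that agree for symmetric couplings -/
theorem ap_sym (hβ : β ∈ Icc (0 : ℝ) 1) {U W : Nt ι} (h : Ap β c d W)
    (e : ∀ n (J : Mx n) a, Jᵀ = J → U n J a = W n J a) : Ap β c d U :=
  let ⟨_, hK⟩ := hpStmt.good ι β hβ c d
  ApB11.ap_congr hpStmt apA h (A48.imp hpStmt hK fun n J a h => e n J a h.1)

theorem ap_inl (c' d' : κ → ℝ) {U : Nt ι} (h : Ap β c d U) :
    Ap β (Sum.elim c c') (Sum.elim d d') fun n J a => U n J fun l => a (.inl l) :=
  apA.emb ι (ι ⊕ κ) β _ _ Function.Embedding.inl U h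

omit [Fintype ι] [Fintype κ] in
theorem ms_inl {α : ℕ → Type} [∀ n, MeasurableSpace (α n)] {U : ∀ n, Mx n → (ι → V n) → α n}
    (h : Ms U) : Ms fun n J (a : ι ⊕ κ → V n) => U n J fun l => a (.inl l) := fun n J hJ =>
  (h n J hJ).comp (by fun_prop)

theorem ap_AA (hβ : β ∈ Icc (0 : ℝ) 1) {U : Nt ι} (h : Ap β c d U) :
    Ap β c d fun n J a => AA J *ᵥ U n J a := by
  have := apB.add ι β hβ c d _ _ 1 4 (apB.mul ι β hβ c d U h).2.1 h
  simpa only [AA, add_mulVec, smul_mulVec, one_mulVec, one_smul] using this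

theorem ap_BB (hβ : β ∈ Icc (0 : ℝ) 1) {U : Nt ι} (hU : Ap β c d U) :
    Ap β c d fun n J a => BB J *ᵥ U n J a := by
  have key : Ap β c d fun n J a => Sq.rt ((8 : ℝ) • AA J - AA J * AA J) *ᵥ U n J a := by
    refine apA.lim ι β c d _ fun ε hε => ?_
    obtain ⟨⟨C, C0, hC⟩, -⟩ := apA.bd ι β c d U hU
    obtain ⟨K, hK⟩ := hpStmt.good ι β hβ c d
    obtain ⟨p, hp⟩ := Sq.rt_poly 25 (ε := ε / (C + 1)) (by positivity)
    refine ⟨_, Q64.ap_poly hβ c d hU (p.comp (-(Polynomial.X * Polynomial.X) + Polynomial.C 16)),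
      A48.imp hpStmt (hpStmt.and ι β c d _ _ hC hK) ?_⟩
    rintro n J a ⟨h1, h2, h3, -⟩
    have e : (8 : ℝ) • AA J - AA J * AA J = -(J * J) + (16 : ℝ) • (1 : Mx n) := by
      rw [AA, (lipStmt.tJ_le n J).2 h3]
      simp only [smul_add, add_mul, mul_add, smul_mul_assoc, mul_smul_comm, Matrix.one_mul,
        Matrix.mul_one, smul_smul]
      module
    have o : opn (-(J * J)) ≤ 9 := by
      rw [opn_neg]; exact (opn_mul_le J J).trans (by nlinarith [opn_nonneg J])
    have hh : (-(J * J)).IsHermitian := (Q64.herm (by rw [transpose_mul, h2])).neg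
    have h4 := hp n _ (Sq.g1_shift hh o (a := 16) (by norm_num))
      ((Sq.opn_shift o (a := 16) (by norm_num)).trans (by norm_num))
    rw [← sub_mulVec, e, Polynomial.aeval_comp, map_add, map_neg, map_mul, Polynomial.aeval_X,
      Polynomial.aeval_C, Algebra.algebraMap_eq_smul_one]
    refine (nrm_mulVec_le _ _).trans ((mul_le_mul h4 h1 (nrm_nonneg _) (by positivity)).trans ?_)
    rw [← mul_assoc]
    refine mul_le_mul_of_nonneg_right ?_ (Real.sqrt_nonneg _)
    rw [div_mul_eq_mul_div, div_le_iff₀ (by positivity)]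
    nlinarith
  simpa only [BB, smul_mulVec, zero_smul, add_zero] using apB.add ι β hβ c d _ _ (√8)⁻¹ 0 key key

theorem ap_net (hβ : β ∈ Icc (0 : ℝ) 1) {X : Nt κ} {U : κ → Nt ι} (hX : Nw False X)
    (hU : ∀ l, Ap β c d (U l)) : Ap β c d fun n J a => X n J fun l => U l n J a := fun ε hε => by
  obtain ⟨L, L0, hL⟩ := lipStmt.lip κ _ X hX
  set k := Fintype.card κ
  set e := Fintype.equivFin κ
  obtain ⟨m, Y, hY, hp⟩ := apA.com ι β c d k (fun l => U (e.symm l)) (fun l => hU _)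
    (ε / 2 / (L * k + 1)) (by positivity)
  have hN := lipStmt.comp κ _ _ X (fun l => Y (e l)) hX fun l => (hY _).1
  obtain ⟨M, M0, hM⟩ := uiStmt _ β hβ (Sum.elim c (0 : Fin m → ℝ)) (Sum.elim d 1) _ hN (ε / 2)
    (by positivity)
  refine ⟨m, _, (lipStmt.clip _ _ M M0 hN).1, (lipStmt.clip _ _ M M0 hN).2,
    A48.imp hpStmt (hpStmt.and _ β _ _ _ _ hp hM) ?_⟩
  rintro n J a ⟨h1, h2⟩
  refine (A48.tri _ (X n J fun l => Y (e l) n J a) _).trans ?_
  have h3 := hL n J J (fun l => U l n J fun l => a (.inl l)) fun l => Y (e l) n J a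
  have h4 : nA ((fun l => U l n J fun l => a (.inl l)) - fun l => Y (e l) n J a) ≤
      k * (ε / 2 / (L * k + 1) * √n) := by
    refine (Finset.sum_le_card_nsmul _ _ _ fun l _ => ?_).trans_eq (nsmul_eq_mul _ _)
    simpa only [Equiv.symm_apply_apply, Pi.sub_apply] using h1 (e l)
  rw [sub_self, opn_zero, mul_zero, add_zero] at h3
  have h5 : L * (k * (ε / 2 / (L * k + 1) * √n)) ≤ ε / 2 * √n := by
    rw [← mul_assoc, ← mul_assoc]
    refine mul_le_mul_of_nonneg_right ?_ (Real.sqrt_nonneg _)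
    rw [← mul_div_assoc, div_le_iff₀ (by positivity)]
    nlinarith
  linarith [mul_le_mul_of_nonneg_left h4 L0]

theorem meas_cube {α γ : Type} [MeasurableSpace α] [MeasurableSpace γ] {S : α → Cube n}
    (hS : Measurable S) {F : Cube n → α → γ} (hF : ∀ s, Measurable (F s)) :
    Measurable fun a => F (S a) a :=
  (measurable_from_prod_countable_right (f := fun p : Cube n × α => F p.1 p.2) hF).comp
    (hS.prodMk measurable_id)

/-- the even multiplier that reads `f (s h)` at `s = ± 1` -/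
def ev (f : ℝ → ℝ) (v : Fin 2 → ℝ) : ℝ :=
  (1 + max (-1) (min 1 (v 0))) / 2 * f (v 1) + (1 - max (-1) (min 1 (v 0))) / 2 * f (-v 1)

theorem el_ev {f : ℝ → ℝ} {Λ : ℝ} (h : BLp Λ f) : EL (ev f) := by
  have hf : LipschitzWith Λ.toNNReal f := LipschitzWith.of_dist_le' fun x y => h.2 x y
  have hc : LipschitzWith 1 fun v : Fin 2 → ℝ => max (-1 : ℝ) (min 1 (v 0)) :=
    ((LipschitzWith.eval 0).const_min 1).const_max _
  have hb : ∀ x : ℝ, -1 ≤ max (-1 : ℝ) (min 1 x) ∧ max (-1 : ℝ) (min 1 x) ≤ 1 := fun x =>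
    ⟨le_max_left _ _, max_le (by norm_num) (min_le_left _ _)⟩
  have b1 : ∀ v : Fin 2 → ℝ, |(1 + max (-1 : ℝ) (min 1 (v 0))) / 2| ≤ 1 := fun v =>
    abs_le.2 ⟨by linarith [hb (v 0)], by linarith [hb (v 0)]⟩
  have b2 : ∀ v : Fin 2 → ℝ, |(1 - max (-1 : ℝ) (min 1 (v 0))) / 2| ≤ 1 := fun v =>
    abs_le.2 ⟨by linarith [hb (v 0)], by linarith [hb (v 0)]⟩
  refine ⟨fun v => ?_, ?_, Λ + Λ, fun v => (abs_add_le _ _).trans (add_le_add ?_ ?_)⟩
  · simp only [ev, Pi.neg_apply, ApB11.clip_neg zero_le_one, neg_neg]; ring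
  · obtain ⟨K1, h1⟩ := ApB11.lip_mul (L := 1) (LipschitzWith.of_dist_le_mul fun x y => by
      have := hc.dist_le_mul x y
      rw [Real.dist_eq] at this ⊢
      rw [← sub_div, add_sub_add_left_eq_sub, abs_div, abs_two]
      linarith [abs_nonneg (max (-1 : ℝ) (min 1 (x 0)) - max (-1) (min 1 (y 0)))])
      (hf.comp (LipschitzWith.eval (1 : Fin 2))) b1 fun v => h.1 _
    obtain ⟨K2, h2⟩ := ApB11.lip_mul (L := 1) (LipschitzWith.of_dist_le_mul fun x y => by
      have := hc.dist_le_mul x y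
      rw [Real.dist_eq] at this ⊢
      rw [← sub_div, sub_sub_sub_cancel_left, abs_div, abs_two, abs_sub_comm]
      linarith [abs_nonneg (max (-1 : ℝ) (min 1 (x 0)) - max (-1) (min 1 (y 0)))])
      (hf.comp (LipschitzWith.eval (1 : Fin 2)).neg) b2 fun v => h.1 _
    exact ⟨_, h1.add h2⟩
  · rw [abs_mul]; exact (mul_le_of_le_one_left (abs_nonneg _) (b1 v)).trans (h.1 _)
  · rw [abs_mul]; exact (mul_le_of_le_one_left (abs_nonneg _) (b2 v)).trans (h.1 _)

theorem ev_sv (f : ℝ → ℝ) (s : Cube n) (i : Fin n) (x : ℝ) : ev f ![sv s i, x] = f (sv s i * x) := by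
  unfold ev sv
  cases s i <;> simp [Crest.ProbabilityR.SpinGlassDynamics.spin]

theorem nrm_mul_le {φ v : V n} {Λ : ℝ} (h : ∀ i, |φ i| ≤ Λ) (h0 : 0 ≤ Λ) :
    nrm (fun i => φ i * v i) ≤ Λ * nrm v := by
  refine (A48.nrm_mono (v := Λ • v) fun i => ?_).trans_eq (by rw [nrm_smul, abs_of_nonneg h0])
  rw [Pi.smul_apply, smul_eq_mul, mul_pow, mul_pow]
  exact mul_le_mul_of_nonneg_right (sq_le_sq' (abs_le.1 (h i)).1 (abs_le.1 (h i)).2) (sq_nonneg _)

/-- bounded Lipschitz multipliers -/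
theorem tr_blp (hA : AvStmt) (hβ : β ∈ Icc (0 : ℝ) 1) (c d : κ → ℝ) {f : ℝ → ℝ} {Λ M : ℝ}
    {F : ∀ n, Mx n → Cube n → V n → (κ → V n) → V n} (hf : BLp Λ f)
    (hF : ∀ n (J : Mx n) s, Jᵀ = J → (∀ y u, nrm (F n J s y u) ≤ M * √n) ∧
      Measurable fun p : V n × (κ → V n) => F n J s p.1 p.2) (hT : Tr2 β F) :
    Tr β fun n J s y => Gm c d f (fun s u => F n J s y u) s := by
  intro ι _ c0 d0 S Y mS mY aS aY
  have L0 : 0 ≤ Λ := (abs_nonneg _).trans (hf.1 0)
  have mf : Measurable f :=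
    (LipschitzWith.of_dist_le' (K := Λ) fun x y => hf.2 x y).continuous.measurable
  set U : κ → Nt (ι ⊕ κ) := fun l n J a =>
    c l • sv (S n J fun l => a (.inl l)) + d l • a (.inr l) with hU
  have aS' := ap_inl (0 : κ → ℝ) 1 aS
  have aU : ∀ l, Ap β (Sum.elim c0 0) (Sum.elim d0 1) (U l) := fun l =>
    apB.add _ β hβ _ _ _ _ _ _ aS' (apA.net _ β hβ _ _ _ (.inp (Sum.inr l)))
  have mU : ∀ l, Ms (U l) := fun l n J hJ =>
    (((measurable_of_finite sv).comp (ms_inl mS n J hJ)).const_smul (c l)).add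
      ((measurable_pi_apply (Sum.inr l)).const_smul (d l))
  have ah : Ap β (Sum.elim c0 0) (Sum.elim d0 1) fun n J a => hr c d fun l => U l n J a := by
    have := ap_net hβ (lipStmt.lin Unit κ False (of fun _ l => c l / d l ^ 2) ()) aU
    convert this using 4 with n J a
    ext i; simp [hr, lc]
  have aF := hT _ _ _ _ _ U (ms_inl mS) (ms_inl mY) mU aS' (ap_inl 0 1 aY) aU
  have aW := apB.ev _ β hβ _ _ 2 _ ![_, _] _ (el_ev hf)
    (Fin.forall_fin_two.2 ⟨aS', ah⟩) aF
  have mG : ∀ n (J : Mx n) s, Jᵀ = J → Measurable fun p : V n × (κ → V n) => fun k =>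
      f (sv s k * hr c d p.2 k) * F n J s p.1 p.2 k := fun n J s hJ =>
    measurable_pi_lambda _ fun k => (mf.comp (by unfold hr; fun_prop)).mul
      ((measurable_pi_apply k).comp (hF n J s hJ).2)
  have key := hA ι κ β hβ c0 d0 (fun n J a k =>
    f (sv (S n J fun l => a (.inl l)) k * hr c d (fun l => U l n J a) k) *
      F n J (S n J fun l => a (.inl l)) (Y n J fun l => a (.inl l)) (fun l => U l n J a) k)
    ⟨Λ * M, fun n J hJ a => (nrm_mul_le (fun i => hf.1 _) L0).trans (by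
      rw [mul_assoc]; exact mul_le_mul_of_nonneg_left ((hF n J _ hJ).1 _ _) L0)⟩
    (fun n J hJ => meas_cube (ms_inl mS n J hJ) (F := fun s a k =>
      f (sv s k * hr c d (fun l => U l n J a) k) *
        F n J s (Y n J fun l => a (.inl l)) (fun l => U l n J a) k) fun s => (mG n J s hJ).comp
      ((ms_inl mY n J hJ).prodMk (measurable_pi_lambda _ fun l => mU l n J hJ)))
    (ap_sym hβ aW fun n J a _ => funext fun k => congrArg (· * _) ((ev_sv f _ k _).symm.trans
      (congrArg (ev f) (funext (Fin.forall_fin_two.2 ⟨rfl, rfl⟩)))))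
  refine ap_sym hβ key fun n J a hJ => funext fun k => ?_
  refine (integral_map (Hp58.meas_rows c d _).aemeasurable (((measurable_pi_apply k).comp
    ((mG n J (S n J a) hJ).comp measurable_prodMk_left)).aestronglyMeasurable)).trans ?_
  rfl

end Tr23

open Tr23 in
theorem trGlue : TrGlue := fun hS hT hA hG =>
  { xu := fun ι _ β hβ c d Y U Z hY hU hZ => ⟨ap_AA hβ hU, by
      simpa only [xu, one_smul] using apB.add ι β hβ c d _ _ 1 1
        (apB.add ι β hβ c d _ _ 1 1 hY (ap_AA hβ hU)) (ap_BB hβ hZ)⟩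
    sm := fun ι _ β hβ c d X Y F M hF tF mX mY aX aY => by
      have mS : Ms fun n J (a : ι ⊕ Unit → V n) => smp (X n J fun l => a (.inl l)) (a (.inr ())) :=
        fun n J hJ => (hS n).1.comp ((ms_inl mX n J hJ).prodMk (measurable_pi_apply _))
      have aS := hT ι (ι ⊕ Unit) β hβ (Sum.elim c 0) (Sum.elim d 1) Function.Embedding.inl (.inr ())
        (by simp) rfl rfl X aX
      have key := hA ι Unit β hβ c d _ ⟨M, fun n J hJ a => (hF n J _ hJ).2 _⟩
        (fun n J hJ => meas_cube (mS n J hJ) (F := fun s a => F n J s (Y n J fun l => a (.inl l)))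
          fun s => (hF n J s hJ).1.comp (ms_inl mY n J hJ))
        (tF _ _ _ _ _ mS (ms_inl mY) aS (ap_inl 0 1 aY))
      convert key using 5 with n J a k
      have hm := mp_comp (ι := Unit × Fin n) (fun j => ((), j)) fun _ _ h => (Prod.ext_iff.1 h).2
      rw [Sm, ← (hS n).2, show gv (Fin n) = _ from hm.map_eq.symm]
      exact integral_map hm.measurable.aemeasurable ((measurable_of_finite
        fun s => F n J s (Y n J a) k).comp ((hS n).1.comp measurable_prodMk_left)).aestronglyMeasurable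
    gm := fun κ _ β hβ c d φ M F hd hφ hF tF ι _ c0 d0 S Y mS mY aS aY => by
      refine apA.lim ι β c0 d0 _ fun ε hε => ?_
      obtain ⟨C, hC⟩ := hφ.tail 1
      obtain ⟨K, hK⟩ := hpStmt.good ι β hβ c0 d0
      set Λ := 1 + 2 * |C| * M ^ 2 / ε ^ 2 with hΛ
      have h1 : 1 ≤ Λ := le_add_of_nonneg_right (by positivity)
      refine ⟨_, tr_blp hA hβ c d (hφ.cl Λ h1).1 hF tF ι c0 d0 S Y mS mY aS aY,
        A48.imp hpStmt hK fun n J a h => ?_⟩
      have mF : Measurable fun u => F n J (S n J a) (Y n J a) u :=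
        (hF n J _ h.1).2.comp measurable_prodMk_left
      have bF : ∀ u, nrm (F n J (S n J a) (Y n J a) u) ^ 2 ≤ M ^ 2 * n := fun u => by
        have := pow_le_pow_left₀ (nrm_nonneg _) ((hF n J (S n J a) h.1).1 (Y n J a) u) 2
        rwa [mul_pow, Real.sq_sqrt n.cast_nonneg] at this
      have iF : Integrable (fun u => nrm (F n J (S n J a) (Y n J a) u) ^ 2) (RL c d (sv (S n J a))) :=
        .of_bound ((continuous_nrm.measurable.comp mF).pow_const 2).aestronglyMeasurable (M ^ 2 * n)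
          (.of_forall fun u => by rw [Real.norm_of_nonneg (sq_nonneg _)]; exact bF u)
      have h2 := hG.err κ c d hd n φ (fun t => min (φ t) Λ) (fun s u => F n J s (Y n J a) u)
        (fun s u => F n J s (Y n J a) u) (S n J a) hφ.g2 (hφ.cl Λ h1).2.1 mF mF iF (by simp)
      have h3 : ∫ u, nrm (F n J (S n J a) (Y n J a) u) ^ 2 ∂(RL c d (sv (S n J a))) ≤ M ^ 2 * n := by
        simpa using integral_mono iF (integrable_const _) bF
      have h4 : gl (lm c d) (fun t => (φ t - min (φ t) Λ) ^ 2) ≤ |C| / Λ :=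
        (hC Λ h1).trans (by rw [pow_one]; gcongr; exact le_abs_self C)
      have h5 : 2 * (|C| / Λ) * (M ^ 2 * n) ≤ (ε * √n) ^ 2 := by
        rw [mul_pow, Real.sq_sqrt n.cast_nonneg, ← mul_assoc]
        refine mul_le_mul_of_nonneg_right ?_ n.cast_nonneg
        rw [← mul_div_assoc, div_mul_eq_mul_div, div_le_iff₀ (by linarith), hΛ, mul_add,
          mul_div_cancel₀ _ (by positivity)]
        nlinarith
      simp only [sub_self, nrm_zero, ne_eq, OfNat.ofNat_ne_zero, not_false_eq_true, zero_pow,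
        integral_zero, mul_zero, add_zero] at h2
      refine (pow_le_pow_iff_left₀ (nrm_nonneg _) (by positivity) two_ne_zero).1
        (h2.trans (le_trans ?_ h5))
      exact mul_le_mul (by linarith) h3 (integral_nonneg fun _ => sq_nonneg _) (by positivity)
    congr := fun β hβ F G hF e ι _ c d S Y mS mY aS aY =>
      ap_sym hβ (hF ι c d S Y mS mY aS aY) fun n J a hJ => by rw [e n J hJ]
    net := fun _ _ _ _ _ hβ _ _ _ _ hX hU => ap_net hβ hX hU }

end Crest.Agent.T157.Zf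

end
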