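import Crest.Agent.T157.ZfAv_62
import Crest.Agent.T157.ZfCh_8
import Crest.Agent.T157.ZfEx_27
import Crest.Agent.T157.ZfFin_73
import Crest.Agent.T157.ZfGm_14
import Crest.Agent.T157.ZfGs_63
import Crest.Agent.T157.ZfSc_5
import Crest.Agent.T157.ZfTr_23
import Crest.Agent.T157.ZTh_16
import Crest.Agent.T157.LmAll_32

/-!
# Row 157, part B, kernel route (helper5): the collective observables have limits, assembly
-/

set_option autoImplicit false

namespace Crest.Agent.T157.Zf

theorem trStmt : TrStmt := trGlue Z.smpStmt Z.thStmt avStmt gmStmt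
theorem bp2Stmt : Bp2Stmt := bp2Glue trStmt
theorem exStmt : ExStmt := exGlue gsStmt keStmt
theorem chStmt : ChStmt := chGlue muStmt trStmt bp2Stmt keStmt scStmt exStmt
theorem fOut : FOut := outGlue Lm.seamStmt scStmt trStmt chStmt finStmt

end Crest.Agent.T157.Zf
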