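import Crest.Agent.T157.BAll_88
import Crest.Agent.T157.KAll_66
import Crest.Agent.T157.KTm_42
import Crest.Agent.T157.KzFin_42
import Crest.Agent.T157.S1All_83
import Crest.Agent.T157.S1BpAll_50
import Crest.Agent.T157.S1LocF_60
import Crest.Agent.T157.ZfAll_5

/-!
# Row 157: the subcritical statement, unconditional (assembly, helper1; text of helper88)
-/

set_option autoImplicit false

namespace Crest.Agent.T157.TopZ

theorem r30_1 : Top.R30 :=
  r30_B S1.s1Out K.phiStmt Zf.fOut Kz.zSup (S1.SA.locF S1.bPart K.tcStmt K.tmStmt)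

end Crest.Agent.T157.TopZ
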