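import Crest.Agent.T157.St0_44

/-!
# Row 157, part D (helper44): one-site lemmas for the ascent
-/

set_option autoImplicit false

noncomputable section

namespace Crest.Agent.T157.St

open MeasureTheory Matrix Set

variable {β C b : ℝ}

namespace Site

variable (S : Site β C b) {s s' : ℝ}

theorem smono (hs : s ∈ Icc (0 : ℝ) 1) : StrictMono (S.p1 s) :=
  strictMono_of_deriv_pos fun x => by rw [(S.d2 s hs x).deriv]; exact S.pos2 s hs x

theorem p1_X (hs : s ∈ Icc (0 : ℝ) 1) {m : ℝ} (hm : |m| < 1) : S.p1 s (S.X s m) = m :=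
  Function.invFun_eq (S.onto s hs m hm)

theorem X_p1 (hs : s ∈ Icc (0 : ℝ) 1) (x : ℝ) : S.X s (S.p1 s x) = x :=
  Function.leftInverse_invFun (S.smono hs).injective x

theorem aa_pos (hs : s ∈ Icc (0 : ℝ) 1) (m : ℝ) : 0 < S.aa s m := S.pos2 s hs _
theorem aa_le (hs : s ∈ Icc (0 : ℝ) 1) (m : ℝ) : S.aa s m ≤ 1 := S.le2 s hs _
theorem X_aa (hs : s ∈ Icc (0 : ℝ) 1) (m : ℝ) : |S.X s m| * S.aa s m ≤ C := S.dec s hs _

/-- a function with nonnegative derivative on `[0, R]` -/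
theorem le_of_deriv {f f' : ℝ → ℝ} (hf : ∀ y, HasDerivAt f (f' y) y) {R : ℝ} (hR : 0 ≤ R)
    (h : ∀ y, 0 ≤ y → y ≤ R → 0 ≤ f' y) : f 0 ≤ f R := by
  have hm : MonotoneOn f (Icc 0 R) := by
    refine monotoneOn_of_deriv_nonneg (convex_Icc 0 R)
      (fun y _ => (hf y).continuousAt.continuousWithinAt)
      (fun y _ => (hf y).differentiableAt.differentiableWithinAt) fun y hy => ?_
    rw [interior_Icc] at hy
    rw [(hf y).deriv]
    exact h y hy.1.le hy.2.le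
  exact hm ⟨le_rfl, hR⟩ ⟨hR, le_rfl⟩ hR

theorem K1 (hs : s ∈ Icc (0 : ℝ) 1) (x e : ℝ) (he : e = 1 ∨ e = -1) {y : ℝ} (hy : 0 ≤ y) :
    S.p2 s x * y - C * y ^ 2 / 2 ≤ e * (S.p1 s (x + e * y) - S.p1 s x) := by
  have hee : e * e = 1 := by rcases he with h | h <;> rw [h] <;> norm_num
  have hae : |e| = 1 := by rcases he with h | h <;> rw [h] <;> norm_num
  have hd : ∀ z, HasDerivAt (fun z => e * S.p1 s (x + e * z) - S.p2 s x * z + C * z ^ 2 / 2)
      (S.p2 s (x + e * z) - S.p2 s x + C * z) z := fun z => by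
    have h1 : HasDerivAt (fun z => x + e * z) e z := by
      simpa using ((hasDerivAt_id z).const_mul e).const_add x
    have h2 := ((S.d2 s hs (x + e * z)).comp z h1).const_mul e
    have h3 : HasDerivAt (fun z => S.p2 s x * z) (S.p2 s x) z := by
      simpa using (hasDerivAt_id z).const_mul (S.p2 s x)
    have h4 : HasDerivAt (fun z : ℝ => C * z ^ 2 / 2) (C * z) z := by
      refine (((hasDerivAt_pow 2 z).const_mul C).div_const 2).congr_deriv ?_
      push_cast; ring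
    refine ((h2.fun_sub h3).fun_add h4).congr_deriv ?_
    rw [show e * (S.p2 s (x + e * z) * e) = (e * e) * S.p2 s (x + e * z) by ring, hee, one_mul]
  have h := le_of_deriv hd hy fun z hz _ => by
    have h1 := S.lip2 s hs (x + e * z) x
    rw [add_sub_cancel_left, abs_mul, hae, one_mul, abs_of_nonneg hz] at h1
    have := (abs_le.1 h1).1
    linarith
  simp only [mul_zero, add_zero] at h
  nlinarith

/-- convexity: `Λ` is the infimum -/
theorem Lam_le (hs : s ∈ Icc (0 : ℝ) 1) {m : ℝ} (hm : |m| < 1) (x : ℝ) :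
    S.Lam s m ≤ S.Φ s x - x * m := by
  unfold Lam
  set x0 := S.X s m with hx0
  have h0 : S.p1 s x0 = m := S.p1_X hs hm
  have key : ∀ e : ℝ, (e = 1 ∨ e = -1) → ∀ y, 0 ≤ y →
      S.Φ s x0 ≤ S.Φ s (x0 + e * y) - e * y * m := fun e he y hy => by
    have hd : ∀ z, HasDerivAt (fun z => S.Φ s (x0 + e * z) - e * z * m)
        (e * (S.p1 s (x0 + e * z) - m)) z := fun z => by
      have h1 : HasDerivAt (fun z => x0 + e * z) e z := by
        simpa using ((hasDerivAt_id z).const_mul e).const_add x0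
      have h2 := (S.d1 s hs (x0 + e * z)).comp z h1
      have h3 : HasDerivAt (fun z => e * z * m) (e * m) z := by
        simpa using ((hasDerivAt_id z).const_mul e).mul_const m
      refine (h2.fun_sub h3).congr_deriv ?_
      ring
    have h := le_of_deriv hd hy fun z hz _ => by
      rcases he with h | h
      · rw [h, one_mul, one_mul, ← h0]
        exact sub_nonneg.2 ((S.smono hs).monotone (by linarith))
      · rw [h, ← h0]
        have : S.p1 s (x0 + -1 * z) ≤ S.p1 s x0 := (S.smono hs).monotone (by linarith)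
        linarith
    simpa using h
  rcases le_total x0 x with h | h
  · have := key 1 (Or.inl rfl) (x - x0) (by linarith)
    rw [show x0 + 1 * (x - x0) = x by ring] at this
    linarith
  · have := key (-1) (Or.inr rfl) (x0 - x) (by linarith)
    rw [show x0 + -1 * (x0 - x) = x by ring] at this
    linarith

/-- `Φ_xx²` is Lipschitz in the mean (field form) -/
theorem p2_sq_le (hC : 0 < C) (hs : s ∈ Icc (0 : ℝ) 1) (x x' : ℝ) :
    S.p2 s x ^ 2 - S.p2 s x' ^ 2 ≤ 2 * C * |S.p1 s x - S.p1 s x'| := by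
  set α := S.p2 s x with hα
  set α' := S.p2 s x' with hα'
  have h0 : 0 < α' := S.pos2 s hs x'
  rcases le_total α α' with h | h
  · have : α ^ 2 ≤ α' ^ 2 := pow_le_pow_left₀ (S.pos2 s hs x).le h 2
    have : 0 ≤ 2 * C * |S.p1 s x - S.p1 s x'| := by positivity
    linarith
  set y := (α - α') / C with hy
  have hy0 : 0 ≤ y := div_nonneg (by linarith) hC.le
  have hCy : C * y = α - α' := by rw [hy]; field_simp
  have hl := S.lip2 s hs x x'
  have hyl : y ≤ |x - x'| := by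
    rw [hy, div_le_iff₀ hC]
    have := le_abs_self (α - α')
    linarith
  have hval : α * y - C * y ^ 2 / 2 = (α ^ 2 - α' ^ 2) / (2 * C) := by
    rw [hy]; field_simp; ring
  have hfin : (α ^ 2 - α' ^ 2) / (2 * C) ≤ |S.p1 s x - S.p1 s x'| := by
    rw [← hval]
    rcases le_total x x' with hx | hx
    · have h1 := S.K1 hs x 1 (Or.inl rfl) hy0
      rw [abs_of_nonpos (by linarith)] at hyl
      have h2 : S.p1 s (x + 1 * y) ≤ S.p1 s x' := (S.smono hs).monotone (by linarith)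
      have h3 := neg_abs_le (S.p1 s x - S.p1 s x')
      linarith
    · have h1 := S.K1 hs x (-1) (Or.inr rfl) hy0
      rw [abs_of_nonneg (by linarith)] at hyl
      have h2 : S.p1 s x' ≤ S.p1 s (x + -1 * y) := (S.smono hs).monotone (by linarith)
      have h3 := le_abs_self (S.p1 s x - S.p1 s x')
      linarith
  rw [div_le_iff₀ (by positivity)] at hfin
  linarith

theorem aa_sq_lip (hC : 0 < C) (hs : s ∈ Icc (0 : ℝ) 1) {m m' : ℝ} (hm : |m| < 1)
    (hm' : |m'| < 1) : |S.aa s m ^ 2 - S.aa s m' ^ 2| ≤ 2 * C * |m - m'| := by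
  have h1 := S.p2_sq_le hC hs (S.X s m) (S.X s m')
  have h2 := S.p2_sq_le hC hs (S.X s m') (S.X s m)
  rw [S.p1_X hs hm, S.p1_X hs hm'] at h1 h2
  rw [abs_sub_comm m' m] at h2
  unfold aa
  exact abs_le.2 ⟨by linarith, h1⟩

theorem aa_holder (hC : 0 < C) (hs : s ∈ Icc (0 : ℝ) 1) {m m' : ℝ} (hm : |m| < 1)
    (hm' : |m'| < 1) : |S.aa s m - S.aa s m'| ≤ √(2 * C * |m - m'|) := by
  refine Real.le_sqrt_of_sq_le (le_trans ?_ (S.aa_sq_lip hC hs hm hm'))
  have h1 := S.aa_pos hs m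
  have h2 := S.aa_pos hs m'
  rw [sq_sub_sq, abs_mul, sq, abs_of_pos (add_pos h1 h2)]
  refine mul_le_mul_of_nonneg_right ?_ (abs_nonneg _)
  exact abs_le.2 ⟨by linarith, by linarith⟩

theorem aa_time (hC : 1 ≤ C) (hs : s ∈ Icc (0 : ℝ) 1) (hs' : s' ∈ Icc (0 : ℝ) 1) {m : ℝ}
    (hm : |m| < 1) : |S.aa s' m - S.aa s m| ≤ 3 * C * √|s' - s| := by
  have hC0 : 0 < C := by linarith
  set x' := S.X s' m with hx'
  have h1 : S.p1 s' x' = m := S.p1_X hs' hm
  have h2 := S.t1 s hs s' hs' x'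
  rw [h1, abs_sub_comm s s'] at h2
  have h3 := S.t2 s' hs' s hs x'
  have h4 := S.aa_holder hC0 hs (S.abs1 s hs x') hm
  have h5 : S.aa s (S.p1 s x') = S.p2 s x' := by unfold aa; rw [S.X_p1 hs]
  rw [h5] at h4
  have h6 : √(2 * C * |S.p1 s x' - m|) ≤ 2 * C * √|s' - s| := by
    rw [show 2 * C * √|s' - s| = √((2 * C) ^ 2 * |s' - s|) by
      rw [Real.sqrt_mul (by positivity), Real.sqrt_sq (by positivity)]]
    refine Real.sqrt_le_sqrt ?_
    have : 0 ≤ |s' - s| := abs_nonneg _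
    nlinarith
  have h7 : S.aa s' m = S.p2 s' x' := rfl
  rw [h7]
  calc |S.p2 s' x' - S.aa s m| = |(S.p2 s' x' - S.p2 s x') + (S.p2 s x' - S.aa s m)| := by ring_nf
    _ ≤ |S.p2 s' x' - S.p2 s x'| + |S.p2 s x' - S.aa s m| := abs_add_le _ _
    _ ≤ 3 * C * √|s' - s| := by linarith

theorem young {a ρ : ℝ} (ha0 : 0 < a) (hρ0 : 0 < ρ) (hρ : ρ ≤ 1 / 2) (z δ : ℝ) :
    z * δ ≤ a * (1 - ρ) * z ^ 2 / 2 + (1 + 2 * ρ) * δ ^ 2 / (2 * a) := by
  have hq : 1 ≤ (1 - ρ) * (1 + 2 * ρ) := by nlinarith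
  obtain ⟨v, rfl⟩ : ∃ v, δ = a * v := ⟨δ / a, by field_simp⟩
  have h2 : (1 + 2 * ρ) * (a * v) ^ 2 / (2 * a) = a * ((1 + 2 * ρ) * v ^ 2) / 2 := by
    field_simp
  rw [h2]
  have h4 : 2 * (z * v) * (1 - ρ) ≤ ((1 - ρ) * z) ^ 2 + v ^ 2 := by
    nlinarith [sq_nonneg ((1 - ρ) * z - v)]
  have h5 : v ^ 2 ≤ (1 - ρ) * (1 + 2 * ρ) * v ^ 2 := le_mul_of_one_le_left (sq_nonneg v) hq
  have h6 : 2 * (z * v) ≤ (1 - ρ) * z ^ 2 + (1 + 2 * ρ) * v ^ 2 := by
    have h7 : 0 < 1 - ρ := by linarith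
    refine le_of_mul_le_mul_right ?_ h7
    have e : ((1 - ρ) * z ^ 2 + (1 + 2 * ρ) * v ^ 2) * (1 - ρ) =
        ((1 - ρ) * z) ^ 2 + (1 - ρ) * (1 + 2 * ρ) * v ^ 2 := by ring
    rw [e]
    linarith
  have h8 := mul_le_mul_of_nonneg_left h6 ha0.le
  linarith

/-- the step in space -/
theorem space_step (hC : 0 < C) (hs : s ∈ Icc (0 : ℝ) 1) {m δ ρ : ℝ} (hm : |m| < 1)
    (hρ0 : 0 < ρ) (hρ : ρ ≤ 1 / 2) (hδ : |δ| ≤ ρ * S.aa s m ^ 2 / (2 * C)) :
    |m + δ| < 1 ∧ |S.aa s (m + δ) - S.aa s m| ≤ ρ ∧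
      S.Lam s m - S.X s m * δ - (1 + 2 * ρ) * δ ^ 2 / (2 * S.aa s m) ≤ S.Lam s (m + δ) := by
  set x := S.X s m with hx
  set a := S.aa s m with ha
  have ha' : S.p2 s x = a := rfl
  have ha0 : 0 < a := S.aa_pos hs m
  have ha1 : a ≤ 1 := S.aa_le hs m
  have h0 : S.p1 s x = m := S.p1_X hs hm
  set R := ρ * a / C with hR
  have hR0 : 0 < R := by positivity
  have hCR : C * R = ρ * a := by rw [hR]; field_simp
  -- growth of the mean
  have hg : ∀ e : ℝ, (e = 1 ∨ e = -1) → ∀ y, 0 ≤ y → y ≤ R →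
      a * (1 - ρ) * y ≤ e * (S.p1 s (x + e * y) - m) := fun e he y hy hyR => by
    have h1 := S.K1 hs x e he hy
    rw [ha', h0] at h1
    have h2 : C * y ≤ ρ * a := hCR ▸ mul_le_mul_of_nonneg_left hyR hC.le
    have h3 : C * y * y ≤ ρ * a * y := mul_le_mul_of_nonneg_right h2 hy
    have h4 : 0 ≤ ρ * a * y := by positivity
    nlinarith
  have hδR : |δ| ≤ a * (1 - ρ) * R := by
    refine hδ.trans ?_
    rw [hR, show a * (1 - ρ) * (ρ * a / C) = (1 - ρ) * 2 * (ρ * a ^ 2 / (2 * C)) by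
      field_simp]
    have : 0 ≤ ρ * a ^ 2 / (2 * C) := by positivity
    nlinarith
  have hup := hg 1 (Or.inl rfl) R hR0.le le_rfl
  have hdn := hg (-1) (Or.inr rfl) R hR0.le le_rfl
  have hb1 := abs_lt.1 (S.abs1 s hs (x + 1 * R))
  have hb2 := abs_lt.1 (S.abs1 s hs (x + -1 * R))
  have hδ' := abs_le.1 hδR
  have hm' : |m + δ| < 1 := abs_lt.2 ⟨by linarith, by linarith⟩
  set x' := S.X s (m + δ) with hx'
  have h1 : S.p1 s x' = m + δ := S.p1_X hs hm'
  have hxu : x' ≤ x + 1 * R := by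
    by_contra hcon
    have := S.smono hs (not_le.1 hcon)
    linarith
  have hxd : x + -1 * R ≤ x' := by
    by_contra hcon
    have := S.smono hs (not_le.1 hcon)
    linarith
  refine ⟨hm', ?_, ?_⟩
  · have h2 := S.lip2 s hs x' x
    have h3 : |x' - x| ≤ R := abs_le.2 ⟨by linarith, by linarith⟩
    have h4 : C * |x' - x| ≤ ρ * a := hCR ▸ mul_le_mul_of_nonneg_left h3 hC.le
    have h5 : ρ * a ≤ ρ := by nlinarith
    exact h2.trans (h4.trans h5)
  -- second-order lower bound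
  have key : ∀ e : ℝ, (e = 1 ∨ e = -1) → ∀ y, 0 ≤ y → y ≤ R →
      S.Φ s x + a * (1 - ρ) * y ^ 2 / 2 ≤ S.Φ s (x + e * y) - e * y * m := fun e he y hy hyR => by
    have hd : ∀ z, HasDerivAt (fun z => S.Φ s (x + e * z) - e * z * m - a * (1 - ρ) * z ^ 2 / 2)
        (e * (S.p1 s (x + e * z) - m) - a * (1 - ρ) * z) z := fun z => by
      have h1 : HasDerivAt (fun z => x + e * z) e z := by
        simpa using ((hasDerivAt_id z).const_mul e).const_add x
      have h2 := (S.d1 s hs (x + e * z)).comp z h1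
      have h3 : HasDerivAt (fun z => e * z * m) (e * m) z := by
        simpa using ((hasDerivAt_id z).const_mul e).mul_const m
      have h4 : HasDerivAt (fun z : ℝ => a * (1 - ρ) * z ^ 2 / 2) (a * (1 - ρ) * z) z := by
        refine (((hasDerivAt_pow 2 z).const_mul (a * (1 - ρ))).div_const 2).congr_deriv ?_
        push_cast; ring
      refine ((h2.fun_sub h3).fun_sub h4).congr_deriv ?_
      ring
    have h := le_of_deriv hd hy fun z hz hzy => by
      have := hg e he z hz (hzy.trans hyR)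
      linarith
    simp only [mul_zero, add_zero, zero_mul, sub_zero] at h
    nlinarith
  have hsq : S.Φ s x + a * (1 - ρ) * (x' - x) ^ 2 / 2 ≤ S.Φ s x' - (x' - x) * m := by
    rcases le_total x x' with h | h
    · have := key 1 (Or.inl rfl) (x' - x) (by linarith) (by linarith)
      rw [show x + 1 * (x' - x) = x' by ring] at this
      linarith
    · have := key (-1) (Or.inr rfl) (x - x') (by linarith) (by linarith)
      rw [show x + -1 * (x - x') = x' by ring] at this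
      nlinarith
  have e1 : S.Lam s (m + δ) = S.Φ s x' - x' * (m + δ) := rfl
  have e2 : S.Lam s m = S.Φ s x - x * m := rfl
  rw [e1, e2]
  set z := x' - x with hz
  have hx'' : x' = x + z := by rw [hz]; ring
  have hyoung := young ha0 hρ0 hρ z δ
  rw [hx''] at hsq ⊢
  have e3 : (x + z) * (m + δ) = x * m + x * δ + z * m + z * δ := by ring
  rw [e3]
  linarith

/-- the step in time -/
theorem time_step (hs : s ∈ Icc (0 : ℝ) 1) (hs' : s' ∈ Icc (0 : ℝ) 1) {m : ℝ} (hm : |m| < 1) :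
    S.Lam s m - β ^ 2 / 2 * ((s' - s) * S.aa s' m + (S.Zc s' - S.Zc s) * m ^ 2) -
      C * (|s' - s| * √|s' - s|) ≤ S.Lam s' m := by
  have h1 := S.Lam_le hs hm (S.X s' m)
  have h2 := (abs_le.1 (S.pde s hs s' hs' (S.X s' m))).1
  rw [S.p1_X hs' hm] at h2
  have e1 : S.Lam s' m = S.Φ s' (S.X s' m) - S.X s' m * m := rfl
  have e2 : S.aa s' m = S.p2 s' (S.X s' m) := rfl
  rw [e1, e2]
  linarith

theorem sqrt_abs_le (hs : s ∈ Icc (0 : ℝ) 1) (hs' : s' ∈ Icc (0 : ℝ) 1) : √|s' - s| ≤ 1 := by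
  refine Real.sqrt_le_one.2 ?_
  exact abs_le.2 ⟨by linarith [hs.2, hs'.1], by linarith [hs.1, hs'.2]⟩

theorem Lam_time (hC : 0 ≤ C) (hs : s ∈ Icc (0 : ℝ) 1) (hs' : s' ∈ Icc (0 : ℝ) 1) {m : ℝ}
    (hm : |m| < 1) : S.Lam s m - (β ^ 2 + C) * |s' - s| ≤ S.Lam s' m := by
  have h1 := S.time_step hs hs' hm
  have h2 := S.aa_pos hs' m
  have h3 := S.aa_le hs' m
  have h4 := S.zlip s' hs' s hs
  have h5 : m ^ 2 ≤ 1 := by
    rw [← sq_abs]; exact pow_le_one₀ (abs_nonneg _) hm.le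
  have h6 : (s' - s) * S.aa s' m ≤ |s' - s| := by
    have := le_abs_self (s' - s)
    have := abs_nonneg (s' - s)
    nlinarith
  have h7 : (S.Zc s' - S.Zc s) * m ^ 2 ≤ |s' - s| := by
    have := le_abs_self (S.Zc s' - S.Zc s)
    have := abs_nonneg (S.Zc s' - S.Zc s)
    nlinarith [sq_nonneg m]
  have h8 : C * (|s' - s| * √|s' - s|) ≤ C * |s' - s| :=
    mul_le_mul_of_nonneg_left (mul_le_of_le_one_right (abs_nonneg _) (sqrt_abs_le hs hs')) hC
  have h9 : 0 ≤ β ^ 2 / 2 := by positivity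
  nlinarith

theorem pen_time (hC : 0 ≤ C) (hs : s ∈ Icc (0 : ℝ) 1) (hs' : s' ∈ Icc (0 : ℝ) 1) :
    |S.pen s - S.pen s'| ≤ (β ^ 2 + C) * |s' - s| := by
  have h1 := abs_le.1 (S.penD s hs s' hs')
  have h4 := S.zlip s' hs' s hs
  have h5 : |s' * (S.Zc s' - S.Zc s)| ≤ |s' - s| := by
    rw [abs_mul, abs_of_nonneg hs'.1]
    exact (mul_le_of_le_one_left (abs_nonneg _) hs'.2).trans h4
  have h6 := abs_le.1 h5
  have h8 : C * (|s' - s| * √|s' - s|) ≤ C * |s' - s| :=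
    mul_le_mul_of_nonneg_left (mul_le_of_le_one_right (abs_nonneg _) (sqrt_abs_le hs hs')) hC
  have h9 : 0 ≤ β ^ 2 / 2 := by positivity
  have h10 := abs_nonneg (s' - s)
  refine abs_le.2 ⟨by nlinarith, by nlinarith⟩

/-- concavity of `Λ` -/
theorem Lam_concave (hs : s ∈ Icc (0 : ℝ) 1) {m m' t : ℝ} (hm : |m| < 1) (hm' : |m'| < 1)
    (ht : t ∈ Icc (0 : ℝ) 1) :
    (1 - t) * S.Lam s m + t * S.Lam s m' ≤ S.Lam s ((1 - t) * m + t * m') := by
  have h1 := S.Lam_le hs hm (S.X s ((1 - t) * m + t * m'))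
  have h2 := S.Lam_le hs hm' (S.X s ((1 - t) * m + t * m'))
  have e : S.Lam s ((1 - t) * m + t * m') = S.Φ s (S.X s ((1 - t) * m + t * m')) -
      S.X s ((1 - t) * m + t * m') * ((1 - t) * m + t * m') := rfl
  rw [e]
  have h3 := mul_le_mul_of_nonneg_left h1 (sub_nonneg.2 ht.2)
  have h4 := mul_le_mul_of_nonneg_left h2 ht.1
  nlinarith

/-- tangent bound -/
theorem Lam_tangent (hs : s ∈ Icc (0 : ℝ) 1) (m : ℝ) {m' : ℝ} (hm' : |m'| < 1) :
    S.Lam s m' ≤ S.Lam s m - S.X s m * (m' - m) := by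
  have h1 := S.Lam_le hs hm' (S.X s m)
  have e : S.Lam s m = S.Φ s (S.X s m) - S.X s m * m := rfl
  rw [e]
  linarith

/-! ### the top block -/

theorem top_p1 (hs : s ∈ Icc b 1) (x : ℝ) : S.p1 s x = Real.sinh x / Real.cosh x := by
  have hs' : s ∈ Icc (0 : ℝ) 1 := ⟨S.b0.trans hs.1, hs.2⟩
  have e : S.Φ s = fun x => Real.log (2 * Real.cosh x) + β ^ 2 * (1 - s) / 2 :=
    funext (S.top s hs)
  have h1 := S.d1 s hs' x
  rw [e] at h1
  have hc := Real.cosh_pos x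
  have h2 : HasDerivAt (fun x => Real.log (2 * Real.cosh x) + β ^ 2 * (1 - s) / 2)
      (Real.sinh x / Real.cosh x) x := by
    refine ((((Real.hasDerivAt_cosh x).const_mul 2).log (by positivity)).add_const
      (β ^ 2 * (1 - s) / 2)).congr_deriv ?_
    field_simp
  exact h1.unique h2

theorem top_p2 (hs : s ∈ Icc b 1) (x : ℝ) : S.p2 s x = 1 - S.p1 s x ^ 2 := by
  have hs' : s ∈ Icc (0 : ℝ) 1 := ⟨S.b0.trans hs.1, hs.2⟩
  have e : S.p1 s = fun x => Real.sinh x / Real.cosh x := funext (S.top_p1 hs)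
  have h1 := S.d2 s hs' x
  rw [e] at h1
  have hc := Real.cosh_pos x
  have h2 := (Real.hasDerivAt_sinh x).div (Real.hasDerivAt_cosh x) hc.ne'
  have h3 := h1.unique h2
  rw [h3, e]
  field_simp

theorem top_aa (hs : s ∈ Icc b 1) {m : ℝ} (hm : |m| < 1) : S.aa s m = 1 - m ^ 2 := by
  have hs' : s ∈ Icc (0 : ℝ) 1 := ⟨S.b0.trans hs.1, hs.2⟩
  unfold aa
  rw [S.top_p2 hs, S.p1_X hs' hm]

/-- slightly below the top block -/
theorem aa_ge (hC : 1 ≤ C) (hs : s ∈ Icc (0 : ℝ) 1) {r : ℝ} (hr : 0 ≤ r) (hb : b - r ^ 2 ≤ s)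
    {m : ℝ} (hm : |m| < 1) : 1 - m ^ 2 - 3 * C * r ≤ S.aa s m := by
  rcases le_total b s with h | h
  · rw [S.top_aa ⟨h, hs.2⟩ hm]
    have : 0 ≤ 3 * C * r := by positivity
    linarith
  · have h1 := S.aa_time hC hs ⟨S.b0, S.b1⟩ hm
    rw [S.top_aa ⟨le_rfl, S.b1⟩ hm] at h1
    have h2 : √|b - s| ≤ r := by
      rw [abs_of_nonneg (by linarith)]
      exact Real.sqrt_le_iff.2 ⟨hr, by linarith⟩
    have h3 : 3 * C * √|b - s| ≤ 3 * C * r := mul_le_mul_of_nonneg_left h2 (by positivity)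
    have := (abs_le.1 h1).2
    linarith

theorem X_zero (hs : s ∈ Icc (0 : ℝ) 1) : S.X s 0 = 0 := by
  have h1 := S.d1 s hs 0
  have h2 : HasDerivAt (fun x => S.Φ s (-x)) (-S.p1 s 0) 0 := by
    have h3 : HasDerivAt (S.Φ s) (S.p1 s 0) (-0) := by rw [neg_zero]; exact h1
    refine (h3.comp (0 : ℝ) (hasDerivAt_neg (0 : ℝ))).congr_deriv ?_
    ring
  have e : (fun x => S.Φ s (-x)) = S.Φ s := funext (S.even s hs)
  rw [e] at h2
  have h4 : S.p1 s 0 = 0 := by linarith [h1.unique h2]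
  rw [← h4, S.X_p1 hs, h4]

end Site

variable {n : ℕ}

theorem sq_lt_one {m : ℝ} (hm : |m| < 1) : m ^ 2 < 1 := by
  rw [← sq_abs]; exact pow_lt_one₀ (abs_nonneg _) hm (by norm_num)

theorem dot_self_eq (m : Fin n → ℝ) : m ⬝ᵥ m = ∑ i, m i ^ 2 := by
  simp only [dotProduct, sq]

theorem dot_le_n {m : Fin n → ℝ} (hm : m ∈ box n) : m ⬝ᵥ m ≤ n := by
  rw [dot_self_eq]
  calc ∑ i, m i ^ 2 ≤ ∑ _i : Fin n, (1 : ℝ) := Finset.sum_le_sum fun i _ => (sq_lt_one (hm i)).le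
    _ = n := by simp

theorem qq_mem {m : Fin n → ℝ} (hm : m ∈ box n) : qq m ∈ Icc (0 : ℝ) 1 := by
  unfold qq
  refine ⟨div_nonneg (by rw [dot_self_eq]; positivity) (Nat.cast_nonneg n), ?_⟩
  exact div_le_one_of_le₀ (dot_le_n hm) (Nat.cast_nonneg n)

theorem qq_lt_one (hn : 0 < n) {m : Fin n → ℝ} (hm : m ∈ box n) : qq m < 1 := by
  have hn' : (0 : ℝ) < n := by exact_mod_cast hn
  unfold qq
  rw [div_lt_one hn', dot_self_eq]
  have : Nonempty (Fin n) := ⟨⟨0, hn⟩⟩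
  calc ∑ i, m i ^ 2 < ∑ _i : Fin n, (1 : ℝ) :=
        Finset.sum_lt_sum_of_nonempty Finset.univ_nonempty fun i _ => sq_lt_one (hm i)
    _ = n := by simp

theorem n_qq (hn : 0 < n) (m : Fin n → ℝ) : n * qq m = m ⬝ᵥ m := by
  have hn' : (n : ℝ) ≠ 0 := by exact_mod_cast hn.ne'
  unfold qq
  field_simp

theorem V_zero (S : Site β C b) (A : Matrix (Fin n) (Fin n) ℝ) : V S A 0 = n * S.P := by
  have h0 : (0 : ℝ) ∈ Icc (0 : ℝ) 1 := ⟨le_rfl, zero_le_one⟩
  simp only [V, Psi, qq, Site.P, Site.Lam, dotProduct_zero, zero_div, Pi.zero_apply,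
    S.X_zero h0, zero_dotProduct, mul_zero, Finset.sum_const, Finset.card_univ, Fintype.card_fin,
    nsmul_eq_mul]
  ring

/-- the potential is Lipschitz in the level -/
theorem Psi_time (S : Site β C b) (hC : 0 ≤ C) (A : Matrix (Fin n) (Fin n) ℝ) {s s' : ℝ}
    (hs : s ∈ Icc (0 : ℝ) 1) (hs' : s' ∈ Icc (0 : ℝ) 1) {m : Fin n → ℝ} (hm : m ∈ box n) :
    Psi S A s m - 2 * (β ^ 2 + C) * (n * |s' - s|) ≤ Psi S A s' m := by
  unfold Psi
  have h1 : ∑ i, (S.Lam s (m i) - (β ^ 2 + C) * |s' - s|) ≤ ∑ i, S.Lam s' (m i) :=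
    Finset.sum_le_sum fun i _ => S.Lam_time hC hs hs' (hm i)
  rw [Finset.sum_sub_distrib] at h1
  simp only [Finset.sum_const, Finset.card_univ, Fintype.card_fin, nsmul_eq_mul] at h1
  have h2 := (abs_le.1 (S.pen_time hC hs hs')).1
  have h3 := mul_le_mul_of_nonneg_left h2 (Nat.cast_nonneg (α := ℝ) n)
  nlinarith

end Crest.Agent.T157.St

end
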