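import Crest.Agent.T157.AnTapB_46
import Crest.Agent.T157.StA_44

/-!
Row 157, part D (helper46): `An.TapStmt`.
-/

set_option autoImplicit false

noncomputable section

namespace Crest.Agent.T157.An

open MeasureTheory Matrix Real
open Crest.Agent.R339.B Crest.Agent.R339.Var
open Crest.Agent.T157.E Crest.Agent.T157.SL Crest.Agent.T157.Vg Crest.Agent.T157.Eig
open Crest.Agent.T157.St Crest.Agent.T157.Cond Crest.Agent.T157.Pf

namespace Tap46

theorem dot_le_of_box {n : ℕ} {m : Fin n → ℝ} (hm : m ∈ box n) : m ⬝ᵥ m ≤ n := by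
  have h : ∀ i, m i * m i ≤ 1 := fun i => by
    have := abs_lt.1 (hm i); nlinarith
  refine (Finset.sum_le_sum fun i _ => h i).trans ?_
  simp

/-- the bound at one level -/
theorem level {β C : ℝ} (hβ : 0 < β) {P : Par} (hP : P.OK) (S : Site β C P.b) (hS : Sc.Rel P S)
    {n M : ℕ} (hn : 0 < n) (hM : 0 < M) {θ u t : ℝ} (h0 : 0 < θ) (h1 : θ ≤ 1)
    (hu : u ∈ Set.Icc (0 : ℝ) 1) (ht : 0 ≤ t) :
    ∃ B : Set (Matrix (Fin n) (Fin n) ℝ),
      (goe (Fin n) (1 / √n)).real B ≤ exp (-t ^ 2 / (β ^ 2 * n * (4 * M) ^ 2)) ∧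
      ∀ W ∉ B, opn W ≤ 3 → ∀ w : Cube n → ℝ, Wt w → mag w ∈ box n → u ≤ qq (mag w) →
        M * free (β • W) w ≤ M * Psi S (β • W) u (mag w) + (3 * β * n +
          n * M * (θ + θ * β ^ 2 / 2) + β ^ 2 * n / 4 * (20 * (M ^ 2 * dev w w u) + 5) +
          n * (log (M + 1) / θ) + t) := by
  have hb : 0 < β ^ 2 := by positivity
  have hn' : (0 : ℝ) < n := by exact_mod_cast hn
  have hM' : (0 : ℝ) < M := by exact_mod_cast hM
  have hT := Sc.TT_lst hP β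
  obtain ⟨a0, t0, -⟩ := Min62.rest_adm (Sc.adm_lst hP β P.K) (β ^ 2 * u) (mul_nonneg hb.le hu.1)
    (by rw [hT]; nlinarith [hu.2])
  have hpen := pen_rest hP hβ hu
  have hΦ : S.Φ u = PhiL 1 (rest (P.lst β P.K) (β ^ 2 * u)) := by
    rw [hS.1, ← Lip62.PhiT_eq_rest]; rfl
  set l0 := rest (P.lst β P.K) (β ^ 2 * u) with hl0
  obtain ⟨a1, hh⟩ := adm_up h1 a0
  have hnear := Lip62.PhiL_near (near_up h0.le a0) a0 a1
  have hpu := pen_up θ a0 (β ^ 2 * u) (mul_nonneg hb.le hu.1)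
  rw [hpen, pen_eq] at hpu
  have t1 : TT (up θ l0) = β ^ 2 * (1 - u) := by rw [TT_up, t0, hT]; ring
  set l := up θ l0 with hl
  obtain ⟨χ, hχ⟩ := exists_chi a1 h0
  refine ⟨_, vg_tail β tau hn (fun _ _ => 1) (fun _ => hs M l χ)
    (fun _ => Wt.of_pos fun _ => one_pos) (l.map (vl β M))
    (mono_vl β a1 0 (h0.le.trans ((le_max_right _ _).trans hh.le))) (T := 4 * M) (by positivity)
    (fun _ a _ => sum_tau_sq hM a) ht, fun W hW hop w hw hm hq => ?_⟩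
  simp only [Set.mem_ofPred_eq, not_le] at hW
  have b1 := val_ge hM hn hw hβ a1 hu.1 hu.2 t1 hχ hop (dot_le_of_box hm)
    fun i => S.X u (mag w i)
  have b2 := site_le hM a1 h0 ((le_max_right _ _).trans hh.le) fun r => χ r + r * II l
  rw [X_site hβ.ne', Finset.sum_const, Finset.card_univ, Fintype.card_fin, nsmul_eq_mul] at hW
  have b3 := mul_le_mul_of_nonneg_left b2 hn'.le
  have b4 := corr_vl (M := M) β a1 0
  rw [zero_div, zero_smul] at b4
  set p0 := R339.Guerra.pen 0 l / (4 * β ^ 2) with hp0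
  have b5 : β ^ 2 * n / 4 * corr 0 (l.map (vl β M)) = M * (n * p0) := by
    rw [b4, hp0]; field_simp
  have b6 : P.pen β u ≤ p0 + u * II l / 2 := by
    rw [hp0, div_add' _ _ _ (by positivity), le_div_iff₀ (by positivity)]
    linarith
  have b7 : n * u ≤ mag w ⬝ᵥ mag w := by
    rw [qq, le_div_iff₀ hn'] at hq; linarith
  have b8 : ∑ i, (PhiL 1 l (S.X u (mag w i)) - S.X u (mag w i) * mag w i) ≤
      ∑ i, S.Lam u (mag w i) + n * (θ * β ^ 2 / 2) := by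
    have : ∀ i, PhiL 1 l (S.X u (mag w i)) - S.X u (mag w i) * mag w i ≤
        S.Lam u (mag w i) + θ * β ^ 2 / 2 := fun i => by
      have h2 := (abs_le.1 (hnear (S.X u (mag w i)))).1
      have h3 : θ * TT l0 ≤ θ * β ^ 2 := by
        rw [t0, hT]
        exact mul_le_mul_of_nonneg_left (by nlinarith [hu.1]) h0.le
      rw [Site.Lam, hΦ]
      linarith
    refine (Finset.sum_le_sum fun i _ => this i).trans (le_of_eq ?_)
    simp [Finset.sum_add_distrib]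
  have b9 : n * P.pen β u ≤ n * p0 + II l / 2 * (mag w ⬝ᵥ mag w) := by
    have := mul_le_mul_of_nonneg_left b6 hn'.le
    have := mul_le_mul_of_nonneg_left b7 (II_nonneg a1)
    linarith
  have c1 := mul_le_mul_of_nonneg_left b8 hM'.le
  have c2 := mul_le_mul_of_nonneg_left b9 hM'.le
  rw [b5] at hW
  rw [Psi, hS.2.2.2]
  change _ < n * Casc.X _ _ (fun a => -(M * GG l (bar a) (χ (bar a) + bar a * II l))) - _ + _ at hW
  linarith

theorem exp_neg_le {n : ℕ} (hn : 0 < n) {x : ℝ} (h0 : 0 ≤ x) (hx : (n : ℝ) ≤ x ^ 2) :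
    exp (-x) ≤ 24 / (n : ℝ) ^ 2 := by
  have hn' : (0 : ℝ) < n := by exact_mod_cast hn
  have h1 := Real.pow_div_factorial_le_exp x h0 4
  have h2 : (n : ℝ) ^ 2 ≤ x ^ 4 := by nlinarith
  rw [exp_neg, inv_le_comm₀ (exp_pos _) (by positivity), inv_div]
  refine le_trans ?_ h1
  norm_num [Nat.factorial]
  linarith

theorem log_le {N : ℕ} (hN : 0 < N) : log (((N ^ 3 : ℕ) : ℝ) + 1) ≤ 3 * N := by
  have hN' : (0 : ℝ) < N := by exact_mod_cast hN
  have h1 : ((N ^ 3 : ℕ) : ℝ) + 1 ≤ ((N : ℝ) + 1) ^ 3 := by push_cast; nlinarith [sq_nonneg (N : ℝ)]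
  refine (log_le_log (by positivity) h1).trans ?_
  rw [log_pow]
  have := log_le_sub_one_of_pos (show (0 : ℝ) < N + 1 by positivity)
  push_cast
  linarith

theorem sizes {θ N M d L : ℝ} (θ0 : 0 < θ) (θ1 : θ ≤ 1) (N0 : 0 < N) (N1 : 1 ≤ θ * N)
    (N2 : θ * N ≤ 2) (hM : M = N ^ 3) (d1 : d ≤ 4 * θ ^ 4) (hL : L ≤ 3 * N) :
    1 ≤ M * θ ∧ M * d ≤ 32 * θ ∧ L / θ ≤ 3 * (M * θ) := by
  have hM' : 0 < M := by rw [hM]; positivity
  refine ⟨?_, ?_, ?_⟩
  · have a : 1 ≤ (θ * N) ^ 3 := one_le_pow₀ N1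
    have b : θ ^ 2 ≤ 1 := pow_le_one₀ θ0.le θ1
    have c : (θ * N) ^ 3 = θ ^ 2 * (M * θ) := by rw [hM]; ring
    have d := mul_le_mul_of_nonneg_right b (show 0 ≤ M * θ by positivity)
    linarith
  · have a : (θ * N) ^ 3 ≤ 2 ^ 3 := pow_le_pow_left₀ (by positivity) N2 3
    have b := mul_le_mul_of_nonneg_left d1 hM'.le
    have c : M * (4 * θ ^ 4) = 4 * θ * (θ * N) ^ 3 := by rw [hM]; ring
    have d := mul_le_mul_of_nonneg_left a (show 0 ≤ 4 * θ by positivity)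
    linarith
  · rw [div_le_iff₀ θ0]
    have a : 1 ≤ (θ * N) ^ 2 := one_le_pow₀ N1
    have c : 3 * (M * θ) * θ = 3 * N * (θ * N) ^ 2 := by rw [hM]; ring
    have d := mul_le_mul_of_nonneg_left a (show 0 ≤ 3 * N by positivity)
    linarith

theorem arith {β C n M θ F Ps V d L δ : ℝ} (hβ : 1 ≤ β) (hC : 1 ≤ C) (hn : 0 < n) (hM : 0 < M)
    (θ0 : 0 < θ) (s1 : 1 ≤ M * θ) (s2 : M * d ≤ 32 * θ) (s3 : L ≤ 3 * (M * θ)) (s4 : δ ≤ n * θ)
    (k1 : M * F ≤ M * Ps + (3 * β * n + n * M * (θ + θ * β ^ 2 / 2) +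
      β ^ 2 * n / 4 * (20 * (M ^ 2 * d) + 5) + n * L + 4 * β * n * M * θ))
    (k2 : Ps - 2 * (β ^ 2 + C) * δ ≤ V) : F - n * ((200 * β ^ 2 + 2 * C) * θ) ≤ V := by
  have hb1 : β ≤ β ^ 2 := by nlinarith
  have hb2 : 1 ≤ β ^ 2 := hβ.trans hb1
  have Y0 : 0 < n * (M * θ) := by positivity
  have e1 : n ≤ n * (M * θ) := le_mul_of_one_le_right hn.le s1
  have e2 := mul_le_mul hb1 e1 hn.le (by positivity)
  have e3 := mul_le_mul_of_nonneg_right hb2 Y0.le
  have e4 := mul_le_mul_of_nonneg_left s2 (show 0 ≤ β ^ 2 * n * M by positivity)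
  have e5 := mul_le_mul_of_nonneg_left e1 (show 0 ≤ β ^ 2 by positivity)
  have e6 := mul_le_mul_of_nonneg_left s3 hn.le
  have e7 := mul_le_mul_of_nonneg_right hb1 Y0.le
  have e8 : 0 ≤ β ^ 2 * (n * (M * θ)) := by positivity
  have e9 : M * F ≤ M * (Ps + 180 * β ^ 2 * (n * θ)) := by linarith
  have e10 := le_of_mul_le_mul_left e9 hM
  have e11 := mul_le_mul_of_nonneg_left s4 (show 0 ≤ 2 * (β ^ 2 + C) by positivity)
  have e12 : 0 ≤ β ^ 2 * (n * θ) := by positivity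
  linarith

end Tap46

open Tap46 in
theorem tapStmt : TapStmt := by
  intro β C hβ hC
  refine ⟨200 * β ^ 2 + 2 * C, by nlinarith, fun P hP S hS n ρ h1 h2 => ?_⟩
  have hβ0 : 0 < β := by linarith
  have hn : 0 < n := Nat.pos_of_ne_zero fun h => by rw [h] at h1; norm_num at h1
  have hn' : (0 : ℝ) < n := by exact_mod_cast hn
  have hn1 : (1 : ℝ) ≤ n := by exact_mod_cast hn
  have hρ : 0 < ρ := pos_of_mul_pos_left (one_pos.trans_le (mul_comm (n : ℝ) ρ ▸ h1)) hn'.le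
  set θ := √(√ρ) with hθ
  have θ0 : 0 < θ := by positivity
  have θ4 : θ ^ 4 = ρ := by
    rw [show θ ^ 4 = (θ ^ 2) ^ 2 by ring, hθ, sq_sqrt (sqrt_nonneg _), sq_sqrt hρ.le]
  have θ1 : θ ≤ 1 := sqrt_le_one.2 (sqrt_le_one.2 h2)
  set N := ⌈1 / θ⌉₊ with hN
  have N1 : 1 ≤ θ * N := by
    have := Nat.le_ceil (1 / θ); rw [div_le_iff₀ θ0] at this; linarith
  have N2 : θ * N ≤ 2 := by
    have := (Nat.ceil_lt_add_one (show 0 ≤ 1 / θ by positivity)).le
    have h3 := mul_le_mul_of_nonneg_left this θ0.le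
    rw [mul_add, mul_one_div_cancel θ0.ne'] at h3
    linarith
  have N0 : 0 < N := Nat.ceil_pos.2 (by positivity)
  have N0' : (0 : ℝ) < N := by exact_mod_cast N0
  have hM : 0 < N ^ 3 := by positivity
  have hlog := log_le N0
  set M := N ^ 3 with hMd
  have hMr : (M : ℝ) = (N : ℝ) ^ 3 := by rw [hMd]; push_cast; rfl
  have hM' : (0 : ℝ) < M := by exact_mod_cast hM
  have hu : ∀ j : Fin (n + 1), ((j : ℕ) : ℝ) / n ∈ Set.Icc (0 : ℝ) 1 := fun j =>
    ⟨by positivity, (div_le_one hn').2 (by exact_mod_cast Nat.lt_succ_iff.1 j.2)⟩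
  choose B hB1 hB2 using fun j : Fin (n + 1) => level hβ0 hP S hS hn hM θ0 θ1 (hu j)
    (t := 4 * β * n * M * θ) (by positivity)
  have hsub : {W | opn W ≤ 3 ∧ ¬ Tap S (β • W) ρ ((200 * β ^ 2 + 2 * C) * θ)} ⊆ ⋃ j, B j := by
    intro W hW
    by_contra hc
    simp only [Set.mem_iUnion, not_exists] at hc
    refine hW.2 fun w hw hm hov => ?_
    have q0 : 0 ≤ qq (mag w) :=
      div_nonneg (Finset.sum_nonneg fun _ _ => mul_self_nonneg _) hn'.le
    have q1 : qq (mag w) ≤ 1 := (div_le_one hn').2 (dot_le_of_box hm)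
    have f1 := Nat.floor_le (mul_nonneg q0 hn'.le)
    have f2 := (Nat.lt_floor_add_one (qq (mag w) * n)).le
    have hj : ⌊qq (mag w) * n⌋₊ < n + 1 := by
      rw [Nat.lt_succ_iff]
      exact_mod_cast f1.trans (mul_le_of_le_one_left hn'.le q1)
    have k1 := hB2 ⟨_, hj⟩ W (hc _) hW.1 w hw hm ((div_le_iff₀ hn').2 f1)
    have k0 := hu ⟨_, hj⟩
    have k2 := St.Psi_time S (by linarith) (β • W) k0 ⟨q0, q1⟩ hm
    have k3 := dev_le hw ((⌊qq (mag w) * n⌋₊ : ℝ) / n)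
    simp only at k1 k0 k2
    set u := (⌊qq (mag w) * n⌋₊ : ℝ) / n with hud
    have u1 : 0 ≤ qq (mag w) - u := sub_nonneg.2 ((div_le_iff₀ hn').2 f1)
    have u2 : n * (qq (mag w) - u) ≤ 1 := by
      rw [hud, mul_sub, mul_div_cancel₀ _ hn'.ne']; linarith
    have u3 : qq (mag w) - u ≤ ρ := le_of_mul_le_mul_left (u2.trans h1) hn'
    have u4 : (qq (mag w) - u) ^ 2 ≤ ρ :=
      (pow_le_of_le_one u1 (u3.trans h2) two_ne_zero).trans u3
    have d1 : dev w w u ≤ 4 * θ ^ 4 := by linarith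
    rw [abs_of_nonneg u1] at k2
    obtain ⟨s1, s2, s3⟩ := sizes θ0 θ1 N0' N1 N2 hMr d1 hlog
    have s4 : 1 ≤ n * θ := h1.trans (mul_le_mul_of_nonneg_left
      (θ4 ▸ pow_le_of_le_one θ0.le θ1 (by norm_num)) hn'.le)
    exact arith hβ hC hn' hM' θ0 s1 s2 s3 (u2.trans s4) k1 k2
  have hx : ∀ j, (goe (Fin n) (1 / √n)).real (B j) ≤ 24 / (n : ℝ) ^ 2 := fun j => by
    refine (hB1 j).trans ?_
    have e : -(4 * β * n * M * θ) ^ 2 / (β ^ 2 * n * (4 * M) ^ 2) = -(n * θ ^ 2) := by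
      field_simp
    rw [e]
    refine exp_neg_le hn (by positivity) ?_
    rw [mul_pow, ← pow_mul, θ4]
    nlinarith
  refine (measure_mono hsub).trans ?_
  rw [← ofReal_measureReal]
  refine ENNReal.ofReal_le_ofReal ((measureReal_iUnion_fintype_le _).trans
    ((Finset.sum_le_sum fun j _ => hx j).trans ?_))
  rw [Finset.sum_const, Finset.card_univ, Fintype.card_fin, nsmul_eq_mul, ← mul_div_assoc,
    div_le_div_iff₀ (by positivity) hn']
  push_cast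
  have : 48 ≤ 200 * β ^ 2 + 2 * C := by nlinarith
  nlinarith [mul_le_mul_of_nonneg_right this (sq_nonneg (n : ℝ))]

end Crest.Agent.T157.An

end
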