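import Crest.Agent.T157.AnDef_51
import Crest.Agent.T157.PlbDef_78

/-!
Row 157, part D (helper50): the free energy lower bound in the words of `Par`.
-/

set_option autoImplicit false

noncomputable section

namespace Crest.Agent.T157.An

open MeasureTheory
open Crest.Agent.R339.B Crest.Agent.R339.Var
open Crest.Agent.T157.Pf

namespace Free50

theorem adm_of_good {β : ℝ} : ∀ {l : List (ℝ × ℝ)}, R339.Guerra.Good β l → Adm β l
  | [], _ => trivial
  | _ :: l, h => ⟨h.1, by rw [headLv_eq_mh]; exact h.2.1, h.2.2.1, adm_of_good h.2.2.2⟩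

theorem pos_of_good {β : ℝ} : ∀ {l : List (ℝ × ℝ)}, R339.Guerra.Good β l → ∀ p ∈ l, 0 < p.1
  | [], _ => fun _ hp => by simp at hp
  | _ :: l, h => fun p hp => by
    rcases List.mem_cons.1 hp with rfl | hp
    · exact h.1
    · exact pos_of_good h.2.2.2 p hp

/-- `Good.min` in the words of `Plb.IsLB` -/
theorem isLB {β c0 C0 η : ℝ} (hβ : 0 < β) {P : Par} (hG : P.Good β c0 C0 η) :
    Plb.IsLB β ((P.val β - η) / β) := by
  intro ℓ hℓ hT
  have h := hG.min ℓ (adm_of_good hℓ) hT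
  rw [PL, PhiL_eq_Phi (pos_of_good hℓ)] at h
  rw [div_le_iff₀ hβ]
  linarith

end Free50

/-- **(L1)** in the words of `Par`, from the polynomial-rate Parisi lower bound -/
theorem free_of (h : Plb.PlbStmt) : FreeStmt := by
  intro β hβ
  have hβ0 : 0 < β := by linarith
  obtain ⟨C, hC⟩ := h β hβ0
  refine ⟨|C|, abs_nonneg _, fun c0 C0 η P _ hG n => ?_⟩
  have h1 := hC _ (Free50.isLB hβ0 hG) n
  rw [mul_div_cancel₀ _ hβ0.ne'] at h1
  have h2 : C * (n : ℝ) ^ (10 / 11 : ℝ) ≤ |C| * (n : ℝ) ^ (10 / 11 : ℝ) :=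
    mul_le_mul_of_nonneg_right (le_abs_self _) (by positivity)
  linarith

end Crest.Agent.T157.An

end
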