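import Crest.Agent.T157.AnDef_51
import Crest.Agent.T157.PfE_56

/-! Row 157, part D (helper68): the growth of `Γ` above `b`. -/

set_option autoImplicit false

namespace Crest.Agent.T157.An

open Set Crest.Agent.T157.Pf

theorem gamStmt : GamStmt := by
  intro β c0 C0 η P hβ hc h hG s s' hs hss hs1
  have hβ0 : 0 < β := by linarith
  have h0 : 0 ≤ s := h.b_nonneg.trans hs
  have key := le_of_rder (f := fun r => P.Gam β r - ((1 + η) * (r - s) - c0 / 2 * (r - s) ^ 2))
    (f' := fun r => P.Gam' β r - ((1 + η) - c0 * (r - s))) hss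
    (((h.Gam_cont hβ0 s').mono (Icc_subset_Icc_left h0)).sub (by fun_prop))
    (fun r hr => (h.Gam_rder hβ0 (h0.trans hr.1)).sub (HasDerivAt.hasDerivWithinAt (by
      have e := (hasDerivAt_id r).sub_const s
      refine ((e.const_mul (1 + η)).sub ((e.pow 2).const_mul (c0 / 2))).congr_deriv ?_
      simp only [id, Nat.cast_ofNat, Nat.add_one_sub_one, pow_one]
      ring)))
    (fun r hr => by
      have h1 := hG.top r (hs.trans hr.1)
      have h2 : r - s ≤ min (r - P.b) 1 := le_min (by linarith) (by linarith [hr.2])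
      have h3 := mul_le_mul_of_nonneg_left h2 hc.le
      show P.Gam' β r - ((1 + η) - c0 * (r - s)) ≤ 0
      linarith)
  simp only [sub_self, mul_zero] at key
  linarith

end Crest.Agent.T157.An
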