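import Crest.Agent.T157.EDef_39

/-!
Row 157, part D (helper54): the cut statements behind the third part of S0231.
-/

set_option autoImplicit false

noncomputable section

namespace Crest.Agent.T157.Cut

open MeasureTheory Filter
open Crest.ProbabilityR.SpinGlassDynamics Crest.Agent.T157.E

variable {n : ℕ}

/-- two-sided one-flip boundary -/
def bd (A : Set (Cube n)) : Set (Cube n) := {x | ∃ i b, ¬ (x ∈ A ↔ Function.update x i b ∈ A)}

/-- every set of intermediate mass has a boundary of mass `≥ φ` -/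
def NoCut (w : Cube n → ℝ) (d0 φ : ℝ) : Prop :=
  ∀ A : Set (Cube n), d0 ≤ mass w A → d0 ≤ mass w Aᶜ → φ ≤ mass w (bd A)

/-- no bottleneck of mass `exp (-n^(1-c))` at low temperature -/
def CutStmt : Prop :=
  ∀ β : ℝ, 1 < β → ∀ d0 : ℝ, 0 < d0 → ∃ c : ℝ, 1 / 40000000 < c ∧
    Tendsto (fun n : ℕ => disorderLaw n
      {g | ¬ NoCut (gibbsWeight n β g) d0 (Real.exp (-(n : ℝ) ^ (1 - c)))}) atTop (nhds 0)

/-- `g = √(1-d) g0 + √d g1` -/
def mixG (d : ℝ) (g0 g1 : Pair n → ℝ) : Pair n → ℝ :=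
  Real.sqrt (1 - d) • g0 + Real.sqrt d • g1

/-- `B` (a function of `g0` only) has intermediate mass with probability `≥ δ` over `g1`, and a
boundary of mass `≤ φ` for the weight of `√(1-d) g0` -/
def Cut0 (β d δ φ : ℝ) (g0 : Pair n → ℝ) (B : Set (Cube n)) : Prop :=
  ENNReal.ofReal δ ≤ disorderLaw n {g1 | δ ≤ mass (gibbsWeight n β (mixG d g0 g1)) B ∧
      δ ≤ mass (gibbsWeight n β (mixG d g0 g1)) Bᶜ} ∧
    mass (gibbsWeight n β (Real.sqrt (1 - d) • g0)) (bd B) ≤ φ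

/-- no `g0`-measurable bottleneck -/
def Cut0Stmt : Prop :=
  ∀ β : ℝ, 1 < β → ∃ c : ℝ, 1 / 40000000 < c ∧ ∃ d : ℕ → ℝ, (∀ n, 0 ≤ d n ∧ d n ≤ 1) ∧
    (∀ᶠ n : ℕ in atTop, d n ≤ (n : ℝ) ^ (-(2 * c))) ∧ ∀ δ : ℝ, 0 < δ →
      Tendsto (fun n : ℕ => disorderLaw n
        {g0 | ∃ B, Cut0 β (d n) δ (Real.exp (-(n : ℝ) ^ (1 - c))) g0 B}) atTop (nhds 0)

theorem bd_compl (A : Set (Cube n)) : bd Aᶜ = bd A := by
  ext x
  simp only [bd, Set.mem_compl_iff, Set.mem_ofPred_eq, not_iff_not]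

theorem NoCut.mono {w : Cube n → ℝ} {d0 d1 φ ψ : ℝ} (h : NoCut w d0 φ) (hd : d0 ≤ d1)
    (hφ : ψ ≤ φ) : NoCut w d1 ψ :=
  fun A h1 h2 => hφ.trans (h A (hd.trans h1) (hd.trans h2))

end Crest.Agent.T157.Cut

end
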