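import Crest.Agent.T157.TreeA_58

/-!
# Row 157, part D (helper58): ancestors from small two-replica remainders

`tree_core` (any finite space) and `tree_cube` (overlaps and barycentres on the cube).
-/

set_option autoImplicit false
set_option linter.unusedSectionVars false

noncomputable section

namespace Crest.Agent.T157.Tree

open MeasureTheory Real Set Finset Matrix
open Crest.Agent.T157.E Crest.Agent.T157.SL Crest.Agent.T157.Casc

section core
variable {Ω : Type*} [Fintype Ω] [DecidableEq Ω] {w : Ω → ℝ}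

theorem bil_nonneg {p q : Ω → ℝ} (hp : ∀ x, 0 ≤ p x) (hq : ∀ x, 0 ≤ q x) {K : Ω → Ω → ℝ}
    (hK : ∀ x y, 0 ≤ K x y) : 0 ≤ bil p q K :=
  Finset.sum_nonneg fun x _ => Finset.sum_nonneg fun y _ =>
    mul_nonneg (mul_nonneg (hp x) (hq y)) (hK x y)

/-- the exponent of the pointwise domination -/
def lamC (c S lam : ℝ) : ℝ := 2 * ((log c + (lam + 1) ^ 2 * S / 2) / lam) + 5 / 2 * S

/-- **one path of nodes** -/
theorem tree_core (hw : Wt w) (L : List (Lv Ω)) (hL : ∀ l ∈ L, 0 ≤ l.m ∧ l.m ≤ 1) (p : ℕ → ℕ)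
    (hp : Monotone p) (M : ℕ) (K : ℕ → Ω → Ω → ℝ) (hK : ∀ k x y, 0 ≤ K k x y) (u0 : Ω → ℝ)
    {ρ lam : ℝ} (hρ : 0 < ρ) (hlam : 0 < lam) (h : ∀ k ≤ M, pi2 w L (p k) (K k) u0 ≤ ρ) :
    ∃ γ : ℕ → Ω → ℝ, (∀ k x, 0 ≤ γ k x) ∧ (∀ k, ∑ x, γ k x = 1) ∧
      (∀ k ≤ M, bil (γ k) (γ k) (K k) ≤ 3 * (M + 1) * ρ) ∧
      (∀ k ≤ M, bil (γ k) (γ (k + 1)) (K k) ≤ 3 * (M + 1) * ρ) ∧
      ∀ k ≤ M, ∀ x, γ k x ≤ exp (lamC (6 * (M + 1) * Fintype.card Ω) (vs L) lam) *
        prob (fun y => w y * exp (u0 y)) x := by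
  obtain ⟨x0, -⟩ := hw.exists_pos
  have hc : (0 : ℝ) < Fintype.card Ω := by exact_mod_cast Fintype.card_pos_iff.2 ⟨x0⟩
  set A := exp ((lam + 1) ^ 2 * vs L / 2) with hA
  have hA0 : 0 < A := exp_pos _
  set c := ρ / (2 * Fintype.card Ω * A) with hcdef
  have hc0 : 0 < c := by positivity
  set e : (Ω → ℝ) → ℝ := fun u => ∑ x, (exp (lam * (u x - u0 x)) + exp (-lam * (u x - u0 x)))
  have he1 : ∀ x, Eg fun u : Ω → ℝ => exp (lam * (u x - u0 x)) + exp (-lam * (u x - u0 x)) :=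
    fun x => eg_add (eg_exp _ _ x) (eg_exp _ _ x)
  have he : Eg e := eg_sum _ fun x _ => he1 x
  have he0 : ∀ u, 0 ≤ e u := fun u => Finset.sum_nonneg fun x _ => by positivity
  have hne : ∀ j, node w L j e u0 ≤ 2 * Fintype.card Ω * A := fun j => by
    rw [node_sum hw _ fun x _ => he1 x]
    refine (Finset.sum_le_card_nsmul _ _ (2 * A) fun x _ => ?_).trans (le_of_eq ?_)
    · rw [node_add hw (eg_exp _ _ x) (eg_exp _ _ x)]
      have h1 := node_exp_le hw lam (u0 x) x L j u0 hL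
      have h2 := node_exp_le hw (-lam) (u0 x) x L j u0 hL
      simp only [sub_self, mul_zero, zero_add, abs_neg, abs_of_pos hlam] at h1 h2
      simp only []
      linarith
    · rw [nsmul_eq_mul, Finset.card_univ]
      ring
  set p' : ℕ → ℕ := fun k => Nat.casesOn k 0 p
  set T : ℕ → (Ω → ℝ) → ℝ := fun k => Nat.casesOn k (fun _ => 0)
    fun k u => qf (P w (L.drop (p k)) u) (K k) + c * e u
  set K' : ℕ → Ω → Ω → ℝ := fun k => Nat.casesOn k (fun _ _ => 0) K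
  have hp' : Monotone p' := monotone_nat_of_le_succ fun k => by
    cases k with
    | zero => exact Nat.zero_le _
    | succ k => exact hp (Nat.le_succ k)
  have hT : ∀ k, Eg (T k) := fun k => by
    cases k with
    | zero => exact eg_const 0
    | succ k => exact eg_add (eg_qf hw _ _) (eg_mul (eg_const c) he)
  obtain ⟨f, -, hf⟩ := exists_path hw (M + 2) L p' hp' rfl T hT K' u0
  rw [sum_range_succ', sum_range_succ' _ (M + 1)] at hf
  have z1 : T 0 (f 0) + bil (P w (L.drop (p' 0)) (f 0)) (P w (L.drop (p' (0 + 1))) (f (0 + 1)))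
      (K' 0) = 0 := by simp [T, K', bil]
  have z2 : node w L (p' 0) (T 0) u0 + pi2 w L (p' 0) (K' 0) u0 = 0 := by
    simp [p', T, K', pi2, node_zero, qf]
  rw [z1, z2, add_zero, add_zero] at hf
  set γ : ℕ → Ω → ℝ := fun k => P w (L.drop (p k)) (f (k + 1))
  have hγ : ∀ k x, 0 ≤ γ k x := fun k x => P_nonneg hw _ _ x
  have hR : ∑ k ∈ range (M + 1), (node w L (p' (k + 1)) (T (k + 1)) u0 +
      pi2 w L (p' (k + 1)) (K' (k + 1)) u0) ≤ 3 * (M + 1) * ρ := by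
    refine (Finset.sum_le_card_nsmul _ _ (3 * ρ) fun k hk => ?_).trans (le_of_eq ?_)
    · have h1 := h k (Nat.lt_succ_iff.1 (mem_range.1 hk))
      have h2 : c * node w L (p k) e u0 ≤ ρ := by
        refine (mul_le_mul_of_nonneg_left (hne _) hc0.le).trans (le_of_eq ?_)
        rw [hcdef]
        field_simp
      show node w L (p k) (fun u => qf (P w (L.drop (p k)) u) (K k) + c * e u) u0 +
        pi2 w L (p k) (K k) u0 ≤ 3 * ρ
      rw [node_add hw (eg_qf hw _ _) (eg_mul (eg_const c) he), node_const_mul]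
      have h3 : node w L (p k) (fun u => qf (P w (L.drop (p k)) u) (K k)) u0 ≤ ρ := h1
      simp only []
      linarith
    · rw [nsmul_eq_mul, card_range]
      push_cast
      ring
  have hk : ∀ k ≤ M, bil (γ k) (γ k) (K k) + c * e (f (k + 1)) + bil (γ k) (γ (k + 1)) (K k) ≤
      3 * (M + 1) * ρ := fun k hk =>
    (Finset.single_le_sum (f := fun k => bil (γ k) (γ k) (K k) + c * e (f (k + 1)) +
      bil (γ k) (γ (k + 1)) (K k)) (fun j _ => add_nonneg (add_nonneg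
        (bil_nonneg (hγ j) (hγ j) (hK j)) (mul_nonneg hc0.le (he0 _)))
        (bil_nonneg (hγ j) (hγ _) (hK j))) (mem_range.2 (Nat.lt_succ_of_le hk))).trans
      (hf.trans hR)
  have n1 := fun k => bil_nonneg (hγ k) (hγ k) (hK k)
  have n2 := fun k => bil_nonneg (hγ k) (hγ (k + 1)) (hK k)
  have n3 := fun k => mul_nonneg hc0.le (he0 (f (k + 1)))
  refine ⟨γ, hγ, fun k => sum_P hw _ _, fun k hkM => by linarith [hk k hkM, n2 k, n3 k],
    fun k hkM => by linarith [hk k hkM, n1 k, n3 k], fun k hkM x => ?_⟩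
  have h1 : e (f (k + 1)) ≤ 6 * (M + 1) * Fintype.card Ω * A := by
    have h2 : c * e (f (k + 1)) ≤ 3 * (M + 1) * ρ := by linarith [hk k hkM, n1 k, n2 k]
    rw [← le_div_iff₀' hc0, hcdef] at h2
    refine h2.trans (le_of_eq ?_)
    field_simp
    ring
  have h2 : ∀ y, |f (k + 1) y - u0 y| ≤
      (log (6 * (M + 1) * Fintype.card Ω) + (lam + 1) ^ 2 * vs L / 2) / lam := fun y => by
    have h3 : exp (lam * (f (k + 1) y - u0 y)) + exp (-lam * (f (k + 1) y - u0 y)) ≤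
        e (f (k + 1)) := Finset.single_le_sum (f := fun x =>
          exp (lam * (f (k + 1) x - u0 x)) + exp (-lam * (f (k + 1) x - u0 x)))
        (fun x _ => by positivity) (Finset.mem_univ y)
    have h4 : exp (lam * |f (k + 1) y - u0 y|) ≤ 6 * (M + 1) * Fintype.card Ω * A := by
      have := exp_pos (lam * (f (k + 1) y - u0 y))
      have := exp_pos (-lam * (f (k + 1) y - u0 y))
      rcases abs_cases (f (k + 1) y - u0 y) with h5 | h5 <;> rw [h5.1]
      · linarith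
      · rw [show lam * -(f (k + 1) y - u0 y) = -lam * (f (k + 1) y - u0 y) by ring]
        linarith
    rw [le_div_iff₀' hlam, ← exp_le_exp, exp_add, exp_log (by positivity)]
    exact h4
  refine (P_le hw _ (fun l hl => hL l (List.mem_of_mem_drop hl)) _ u0 h2 x).trans
    (mul_le_mul_of_nonneg_right (exp_le_exp.2 ?_) ((wt_exp hw u0).prob_nonneg x))
  have := vs_drop_le L (p k)
  unfold lamC
  linarith

theorem sq_bil_le {p q : Ω → ℝ} (hp : ∀ x, 0 ≤ p x) (hp1 : ∑ x, p x = 1) (hq : ∀ x, 0 ≤ q x)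
    (hq1 : ∑ x, q x = 1) (F : Ω → Ω → ℝ) (a : ℝ) :
    (bil p q F - a) ^ 2 ≤ bil p q fun x y => (F x y - a) ^ 2 := by
  have h1 : ∑ x, ∑ y, p x * q y = 1 := by
    simp only [← Finset.mul_sum, hq1, mul_one, hp1]
  set b := bil p q F - a with hb
  have h2 : bil p q (fun x y => (F x y - a) ^ 2) - b ^ 2 =
      bil p q fun x y => (F x y - a - b) ^ 2 := by
    have e : ∀ x y, p x * q y * (F x y - a - b) ^ 2 = p x * q y * (F x y - a) ^ 2 -
        2 * b * (p x * q y * F x y) + (2 * a * b + b ^ 2) * (p x * q y) := fun x y => by ring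
    have h3 : ∑ x, ∑ y, p x * q y * F x y = b + a := by rw [hb]; simp [bil]
    simp only [bil, e, Finset.sum_add_distrib, Finset.sum_sub_distrib, ← Finset.mul_sum]
    simp only [Finset.mul_sum] at h1 h3 ⊢
    simp only [← Finset.mul_sum] at h1 h3 ⊢
    rw [h1, h3]
    ring
  have h4 := bil_nonneg hp hq (K := fun x y => (F x y - a - b) ^ 2) fun _ _ => sq_nonneg _
  linarith

end core

variable {n : ℕ}

/-- normalised overlap -/
def ovl (x y : Cube n) : ℝ := (sv x ⬝ᵥ sv y) / n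

theorem mag_eq {γ : Cube n → ℝ} (h : ∑ x, γ x = 1) (i : Fin n) :
    mag γ i = ∑ x, γ x * sv x i := by
  simp [mag, meanV, mean, prob, h]

theorem bil_ovl {p q : Cube n → ℝ} (hp : ∑ x, p x = 1) (hq : ∑ x, q x = 1) :
    bil p q ovl = (mag p ⬝ᵥ mag q) / n := by
  simp only [bil, ovl, dotProduct, mag_eq hp, mag_eq hq]
  simp only [Finset.sum_mul_sum]
  rw [Finset.sum_comm (s := Finset.univ (α := Fin n)), Finset.sum_div]
  refine Finset.sum_congr rfl fun x _ => ?_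
  rw [Finset.sum_comm (s := Finset.univ (α := Fin n)), Finset.sum_div]
  refine Finset.sum_congr rfl fun y _ => ?_
  rw [← mul_div_assoc, Finset.mul_sum]
  congr 1
  exact Finset.sum_congr rfl fun i _ => by ring

theorem abs_dot_mag_le {p q : Cube n → ℝ} (hp : ∀ x, 0 ≤ p x) (hp1 : ∑ x, p x = 1)
    (hq : ∀ x, 0 ≤ q x) (hq1 : ∑ x, q x = 1) {a r : ℝ}
    (h : bil p q (fun x y => (ovl x y - a) ^ 2) ≤ r) : |(mag p ⬝ᵥ mag q) / n - a| ≤ √r := by
  rw [← bil_ovl hp1 hq1]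
  exact Real.abs_le_sqrt ((sq_bil_le hp hp1 hq hq1 ovl a).trans h)

/-- a chain of laws: pure at the levels `q k`, consecutive ones overlapping at `q k`, all
dominated by `e^Λ μ` -/
structure Chain (μ : Cube n → ℝ) (q : ℕ → ℝ) (M : ℕ) (ρ Λ : ℝ) (γ : ℕ → Cube n → ℝ) : Prop where
  nn : ∀ k x, 0 ≤ γ k x
  one : ∀ k, ∑ x, γ k x = 1
  pure : ∀ k ≤ M, bil (γ k) (γ k) (fun x y => (ovl x y - q k) ^ 2) ≤ ρ
  cross : ∀ k ≤ M, bil (γ k) (γ (k + 1)) (fun x y => (ovl x y - q k) ^ 2) ≤ ρ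
  dom : ∀ k ≤ M, ∀ x, γ k x ≤ exp Λ * μ x

namespace Chain

variable {μ μ' : Cube n → ℝ} {q : ℕ → ℝ} {M : ℕ} {ρ ρ' Λ Λ' : ℝ} {γ : ℕ → Cube n → ℝ}

theorem mono (h : Chain μ q M ρ Λ γ) (hρ : ρ ≤ ρ') (hμ : ∀ x, exp Λ * μ x ≤ exp Λ' * μ' x) :
    Chain μ' q M ρ' Λ' γ :=
  ⟨h.nn, h.one, fun k hk => (h.pure k hk).trans hρ, fun k hk => (h.cross k hk).trans hρ,
    fun k hk x => (h.dom k hk x).trans (hμ x)⟩

theorem norm (h : Chain μ q M ρ Λ γ) {k : ℕ} (hk : k ≤ M) :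
    |(mag (γ k) ⬝ᵥ mag (γ k)) / n - q k| ≤ √ρ :=
  abs_dot_mag_le (h.nn k) (h.one k) (h.nn k) (h.one k) (h.pure k hk)

theorem dot (h : Chain μ q M ρ Λ γ) {k : ℕ} (hk : k ≤ M) :
    |(mag (γ k) ⬝ᵥ mag (γ (k + 1))) / n - q k| ≤ √ρ :=
  abs_dot_mag_le (h.nn k) (h.one k) (h.nn _) (h.one _) (h.cross k hk)

theorem incr (h : Chain μ q M ρ Λ γ) {k : ℕ} (hk : k < M) :
    |((mag (γ (k + 1)) - mag (γ k)) ⬝ᵥ (mag (γ (k + 1)) - mag (γ k))) / n - (q (k + 1) - q k)| ≤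
      4 * √ρ := by
  have h1 := abs_le.1 (h.norm hk.le)
  have h2 := abs_le.1 (h.norm (Nat.succ_le_of_lt hk))
  have h3 := abs_le.1 (h.dot hk.le)
  rw [sub_dotProduct, dotProduct_sub, dotProduct_sub,
    dotProduct_comm (mag (γ (k + 1))) (mag (γ k)), sub_div, sub_div, sub_div, abs_le]
  constructor <;> linarith [h1.1, h1.2, h2.1, h2.2, h3.1, h3.2]

theorem supp (h : Chain μ q M ρ Λ γ) {k : ℕ} (hk : k ≤ M) {x : Cube n} (hx : μ x = 0) :
    γ k x = 0 := le_antisymm (by simpa [hx] using h.dom k hk x) (h.nn k x)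

/-- relative entropy with respect to any weight `v` whose law dominates `μ` -/
theorem kl_le (h : Chain μ q M ρ Λ γ) {v : Cube n → ℝ} (hv : ∀ x, μ x ≤ prob v x) {k : ℕ}
    (hk : k ≤ M) : kl (γ k) v ≤ Λ := by
  have e : prob (γ k) = γ k := funext fun x => by simp [prob, h.one k]
  rw [kl, e]
  calc ∑ x, γ k x * log (γ k x / prob v x) ≤ ∑ x, γ k x * Λ := Finset.sum_le_sum fun x _ => ?_
    _ = Λ := by rw [← Finset.sum_mul, h.one k, one_mul]
  rcases (h.nn k x).eq_or_lt with h0 | h0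
  · simp [← h0]
  · have h1 := (h.dom k hk x).trans (mul_le_mul_of_nonneg_left (hv x) (exp_pos Λ).le)
    have h2 : 0 < prob v x := (pos_iff_pos_of_mul_pos (h0.trans_le h1)).1 (exp_pos Λ)
    refine mul_le_mul_of_nonneg_left ?_ h0.le
    rw [log_le_iff_le_exp (div_pos h0 h2), div_le_iff₀ h2]
    exact h1

end Chain

theorem tree_cube {w : Cube n → ℝ} (hw : Wt w) (L : List (Lv (Cube n)))
    (hL : ∀ l ∈ L, 0 ≤ l.m ∧ l.m ≤ 1) (p : ℕ → ℕ) (hp : Monotone p) (M : ℕ) (q : ℕ → ℝ)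
    (u0 : Cube n → ℝ) {ρ lam : ℝ} (hρ : 0 < ρ) (hlam : 0 < lam)
    (h : ∀ k ≤ M, pi2 w L (p k) (fun x y => (ovl x y - q k) ^ 2) u0 ≤ ρ) :
    ∃ γ, Chain (prob fun y => w y * exp (u0 y)) q M (3 * (M + 1) * ρ)
      (lamC (6 * (M + 1) * 2 ^ n) (vs L) lam) γ := by
  obtain ⟨γ, h1, h2, h3, h4, h5⟩ := tree_core hw L hL p hp M
    (fun k x y => (ovl x y - q k) ^ 2) (fun _ _ _ => sq_nonneg _) u0 hρ hlam h
  refine ⟨γ, h1, h2, h3, h4, ?_⟩
  simpa using h5

end Crest.Agent.T157.Tree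

end
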