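import Crest.Agent.T157.ScDef_68
import Crest.Agent.T157.CutDef_54
import Crest.Agent.T157.Top_97
import Crest.Agent.T157.TreeB_58

/-!
Row 157, part D (helper51): the ancestors of the upper half of S0231, definitions and statements.

* `Tap`, `TapStmt`   : a law with a concentrated overlap has a barycentre of large potential;
* `TreeOn`, `TreeStmt` : laws on `B` with overlaps at the levels `k b / M`;
* `Sla`, `SlaStmt`   : one good path of the Gaussian channel (no Hamiltonian, no Parisi data);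
* `FreeStmt`, `GamStmt` : the free energy lower bound and the growth of `Γ` above `b`;
* `Anc`, `AncStmt`   : the anchors used by the lifting argument.
-/

set_option autoImplicit false

noncomputable section

namespace Crest.Agent.T157.An

open MeasureTheory Matrix Set Filter
open Crest.ProbabilityR.SpinGlassDynamics
open Crest.Agent.T157.E Crest.Agent.T157.Eig Crest.Agent.T157.Conc Crest.Agent.T157.St
open Crest.Agent.T157.Pf Crest.Agent.T157.Cond Crest.Agent.T157.Sc Crest.Agent.T157.Cut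
open Crest.Agent.T157.Top Crest.Agent.T157.SL Crest.Agent.T157.Tree

variable {n : ℕ} {β C b : ℝ}

/-- mean square distance of the overlap to `u` under the product of the laws of `v` and `w` -/
def dev (v w : Cube n → ℝ) (u : ℝ) : ℝ := bil (prob v) (prob w) fun x y => (ovl x y - u) ^ 2

/-- variance of the overlap of two replicas -/
def ovar (w : Cube n → ℝ) : ℝ := dev w w (qq (mag w))

/-- energy plus entropy of the law of `w` -/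
def free (A : Matrix (Fin n) (Fin n) ℝ) (w : Cube n → ℝ) : ℝ :=
  mean w fun x => 1 / 2 * (sv x ⬝ᵥ A *ᵥ sv x) - Real.log (prob w x)

/-! ### TAP -/

/-- every law with overlap variance `≤ ρ` has a barycentre of potential `≥ free - n ε` -/
def Tap (S : Site β C b) (A : Matrix (Fin n) (Fin n) ℝ) (ρ ε : ℝ) : Prop :=
  ∀ w : Cube n → ℝ, Wt w → mag w ∈ box n → ovar w ≤ ρ → free A w - n * ε ≤ V S A (mag w)

/-- **(TAP)** -/
def TapStmt : Prop :=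
  ∀ β C : ℝ, 1 ≤ β → 1 ≤ C → ∃ C1 : ℝ, 1 ≤ C1 ∧ ∀ P : Par, P.OK → ∀ S : Site β C P.b, Rel P S →
    ∀ (n : ℕ) (ρ : ℝ), 1 ≤ n * ρ → ρ ≤ 1 →
    goe (Fin n) (1 / √n) {W | opn W ≤ 3 ∧ ¬ Tap S (β • W) ρ (C1 * √(√ρ))} ≤
      ENNReal.ofReal (C1 / n)

/-! ### the tree below `b` -/

/-- `n ^ (-a)` -/
def pw (a : ℝ) (n : ℕ) : ℝ := (n : ℝ) ^ (-a)

/-- the resampling strength -/
def dd (n : ℕ) : ℝ := min 1 (pw (1 / 100) n)

/-- the number of coarse levels -/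
def Mc (n : ℕ) : ℕ := ⌈(n : ℝ) ^ (1 / 200 : ℝ)⌉₊

/-- `B` keeps mass `δ` with probability `δ` over the resampling -/
def Heavy (β d δ : ℝ) (g0 : Pair n → ℝ) (B : Set (Cube n)) : Prop :=
  ENNReal.ofReal δ ≤ disorderLaw n {g1 | δ ≤ mass (gibbsWeight n β (mixG d g0 g1)) B}

/-- laws `γ 0, …, γ M` on `B`, of density `≤ exp (n lam)`, with overlaps at the levels `k b / M` -/
def TreeOn (w0 : Cube n → ℝ) (B : Set (Cube n)) (b : ℝ) (M : ℕ) (lam ρ : ℝ) : Prop :=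
  ∃ (q : ℕ → ℝ) (γ : ℕ → Cube n → ℝ), Chain (B.indicator (prob w0)) q M ρ (n * lam) γ ∧
    ∀ k ≤ M, |q k - k * b / M| ≤ 1 / n

/-- a sequence of fine approximate minimisers -/
def Fine (β c0 C0 : ℝ) (P : ℕ → Par) : Prop :=
  ∀ᶠ n : ℕ in atTop, (P n).OK ∧ (P n).Good β c0 C0 (pw (1 / 11) n) ∧ n ≤ (P n).K

/-- **(TREE)** -/
def TreeStmt : Prop :=
  ∀ β c0 C0 δ : ℝ, 1 < β → 0 < c0 → 1 ≤ C0 → 0 < δ → ∀ P : ℕ → Par, Fine β c0 C0 P →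
    Whp disorderLaw fun n g0 => ∀ B, Heavy β (dd n) δ g0 B →
      TreeOn (gibbsWeight n β g0) B (P n).b (Mc n) (pw (1 / 250) n) (pw (1 / 50) n)

/-! ### the channel above `b` -/

/-- one good path: fields `y j` (at a time within `2 D` of `j τ`) and an end point `σ` -/
def Sla (w : Cube n → ℝ) (N : ℕ) (L : ℕ → (Fin n → ℝ) → ℝ) (Y κ ε : ℝ) : Prop :=
  ∃ (y : ℕ → Fin n → ℝ) (σ : Cube n), y 0 = 0 ∧ 0 < w σ ∧
    (∀ j ≤ N, nrm (y j) ≤ Y * √n ∧ ovar (tilt w (y j)) ≤ κ ∧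
      L j (y j) ≤ Real.log (mean w fun x => Real.exp (y j ⬝ᵥ sv x)) + n * ε ∧
      (mag w ⬝ᵥ mag (tilt w (y j)) / n - qq (mag w)) ^ 2 ≤ κ) ∧
    (∀ j < N, nrm (y (j + 1) - y j) ≤ ε * √n ∧
      (mag (tilt w (y j)) ⬝ᵥ mag (tilt w (y (j + 1))) / n - qq (mag (tilt w (y j)))) ^ 2 ≤ κ) ∧
    (sv σ ⬝ᵥ mag (tilt w (y N)) / n - qq (mag (tilt w (y N)))) ^ 2 ≤ κ

/-- a family of `√n`-Lipschitz majorants with `E exp (L j (√(j τ) Z)) ≤ exp (F + n j τ / 2)` -/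
def Fam (τ : ℝ) (N : ℕ) (F : ℝ) (L : ℕ → (Fin n → ℝ) → ℝ) : Prop :=
  ∀ j ≤ N, ELip (√n) (L j) ∧
    ∫ z, Real.exp (L j (√(j * τ) • z)) ∂E.gv (Fin n) ≤ Real.exp (F + n * (j * τ) / 2)

/-- **(SLA)** -/
def SlaStmt : Prop :=
  ∃ C : ℝ, 1 ≤ C ∧ ∀ (n : ℕ) (w : Cube n → ℝ) (τ D : ℝ) (N : ℕ) (L : ℕ → (Fin n → ℝ) → ℝ),
    0 < n → Wt w → 0 < τ → τ ≤ D → D ≤ 1 → Real.log (N + 2) ≤ n → Fam τ N 0 L →
    Sla w N L (C * (1 + N * τ)) (C * (1 + N * τ) / D * (ovar w + 1 / √n))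
      (C * (√D + Real.log (N + 2) / n))

/-! ### two inputs in the words of `Par` -/

/-- **(L1)** in the words of `Par` -/
def FreeStmt : Prop :=
  ∀ β : ℝ, 1 < β → ∃ C1 : ℝ, 0 ≤ C1 ∧ ∀ (c0 C0 η : ℝ) (P : Par), P.OK → P.Good β c0 C0 η →
    ∀ n : ℕ, n * (P.val β - η) - C1 * (n : ℝ) ^ (10 / 11 : ℝ) ≤
      ∫ g, Real.log (∑ x, gibbsWeight n β g x) ∂disorderLaw n

/-- growth of `Γ` above `b` (integrated form of `Good.top`) -/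
def GamStmt : Prop :=
  ∀ (β c0 C0 η : ℝ) (P : Par), 1 < β → 0 < c0 → P.OK → P.Good β c0 C0 η → ∀ s s' : ℝ, P.b ≤ s →
    s ≤ s' → s' ≤ s + 1 → P.Gam β s' - P.Gam β s ≤ (1 + η) * (s' - s) - c0 / 2 * (s' - s) ^ 2

/-! ### the anchors -/

/-- anchors `a s` at the levels `s ∈ [0, b]`, then `(y j, m j)`, then a vertex `σ ∈ B` -/
def Anc (S : Site β C b) (A : Matrix (Fin n) (Fin n) ℝ) (B : Set (Cube n)) (N : ℕ)
    (L : ℕ → (Fin n → ℝ) → ℝ) (Y e ω ε : ℝ) : Prop :=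
  ∃ (a : ℝ → Fin n → ℝ) (y m : ℕ → Fin n → ℝ) (σ : Cube n), a 0 = 0 ∧
    (∀ s ∈ Icc 0 b, a s ∈ box n ∧ n * (S.P - ε) ≤ V S A (a s) ∧ |qq (a s) - s| ≤ ε) ∧
    (∀ s ∈ Icc 0 b, ∀ s' ∈ Icc 0 b, |s - s'| ≤ ω → (a s' - a s) ⬝ᵥ (a s' - a s) ≤ n * ε) ∧
    y 0 = 0 ∧ m 0 = a b ∧
    (∀ j ≤ N, m j ∈ box n ∧ b - ε ≤ qq (m j) ∧ nrm (y j) ≤ Y * √n ∧
      L j (y j) ≤ V S A (m j) + y j ⬝ᵥ m j + n * (e + ε)) ∧
    (∀ j < N, nrm (y (j + 1) - y j) ≤ ε * √n ∧ (m (j + 1) - m j) ⬝ᵥ (m (j + 1) - m j) ≤ n * ε ∧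
      |qq (m (j + 1)) - qq (m j)| ≤ ε) ∧
    σ ∈ B ∧ (sv σ - m N) ⬝ᵥ (sv σ - m N) ≤ n * (1 - qq (m N) + ε)

/-- the law of `(g0, diagonal)` -/
abbrev law2 (n : ℕ) : Measure ((Pair n → ℝ) × (Fin n → ℝ)) := (disorderLaw n).prod (E.gv (Fin n))

/-- **(ANC)** -/
def AncStmt : Prop :=
  ∃ Y0 : ℝ, 1 ≤ Y0 ∧ ∀ β C c0 C0 δ : ℝ, 1 < β → 1 ≤ C → 0 < c0 → 1 ≤ C0 → 0 < δ →
    ∀ P : ℕ → Par, Fine β c0 C0 P → ∀ S : ∀ n, Site β C (P n).b,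
    (∀ᶠ n : ℕ in atTop, Rel (P n) (S n)) → ∀ (τ : ℕ → ℝ) (N : ℕ → ℕ),
    (∀ᶠ n : ℕ in atTop, 0 < τ n ∧ τ n ≤ pw (1 / 200) n ∧ N n ≤ n ∧
      N n * τ n ≤ (n : ℝ) ^ (1 / 1000 : ℝ)) →
    Whp law2 fun n p => ∀ B, Heavy β (dd n) δ p.1 B → ∀ (e : ℝ) (L : ℕ → (Fin n → ℝ) → ℝ),
      Fam (τ n) (N n) (n * ((S n).P + e)) L →
      Anc (S n) (β • Wmat n p.1 p.2) B (N n) L (Y0 * (1 + N n * τ n)) e (pw (1 / 150) n)
        (pw (1 / 3000) n)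

end Crest.Agent.T157.An

end
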