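import Crest.Agent.T157.SlaD_4
import Crest.Agent.T157.AnDef_51

/-!
# Row 157, part D (helper4): `SlaStmt`
-/

set_option autoImplicit false

noncomputable section

namespace Crest.Agent.T157.Sla

open MeasureTheory Set Real Matrix
open Crest.Agent.T157.E Crest.Agent.T157.SL
open Crest.Agent.T157.Eig (nrm nrm_zero)
open Crest.Agent.T157.St (qq)
open Crest.Agent.T157.An (ovar dev SlaStmt)

variable {n : ℕ} {γ : Cube n → ℝ}

theorem ovar_eq (hγ : Wt γ) : ovar γ = (fr sv γ + 2 * mcm γ) / (n : ℝ) ^ 2 := by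
  have h := pair_eq (φ := sv) hγ
  rw [mcm, covM, mag, ← h, ← mean_div_const]
  simp only [ovar, dev, Tree.bil, Tree.ovl, qq, mean, mag, Finset.sum_div, Finset.mul_sum]
  refine Finset.sum_congr rfl fun x _ => Finset.sum_congr rfl fun x' _ => ?_
  rw [← sub_div, div_pow]
  ring

theorem ovar_nonneg (hγ : Wt γ) : 0 ≤ ovar γ := by
  rw [ovar_eq hγ]
  exact div_nonneg (add_nonneg (fr_nonneg _ _) (by linarith [mcm_nonneg hγ])) (sq_nonneg _)

theorem mcm_le_ovar (hγ : Wt γ) (hn : 0 < n) : mcm γ ≤ (n : ℝ) ^ 2 * ovar γ := by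
  have hn' : (0 : ℝ) < n := Nat.cast_pos.2 hn
  rw [ovar_eq hγ, mul_div_cancel₀ _ (by positivity)]
  linarith [fr_nonneg sv γ, mcm_nonneg hγ]

theorem ovar_le (hγ : Wt γ) (hn : 0 < n) : ovar γ ≤ 3 * √(fr sv γ) / n := by
  have hn' : (0 : ℝ) < n := Nat.cast_pos.2 hn
  have h1 : √(fr sv γ) ≤ n := by
    rw [← sqrt_sq hn'.le]; exact sqrt_le_sqrt (fr_le hγ)
  have h2 := mul_le_mul_of_nonneg_left h1 (sqrt_nonneg (fr sv γ))
  rw [mul_self_sqrt (fr_nonneg _ _)] at h2
  rw [ovar_eq hγ, div_le_div_iff₀ (by positivity) hn']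
  nlinarith [mcm_le hγ]

theorem log_mean_exp (hγ : Wt γ) (y : Fin n → ℝ) :
    log (mean γ fun x => exp (y ⬝ᵥ sv x)) = lz γ y - lz γ 0 := by
  rw [mean_eq_div, lz_zero]
  exact log_div (hγ.tilt y).pos.ne' hγ.pos.ne'

theorem sq_div_le (hn : 0 < n) {u v c : ℝ} (h : (u - v) ^ 2 ≤ (n : ℝ) ^ 2 * c) :
    (u / n - v / n) ^ 2 ≤ c := by
  have hn' : (0 : ℝ) < n := Nat.cast_pos.2 hn
  rwa [← sub_div, div_pow, div_le_iff₀' (by positivity)]

set_option maxHeartbeats 1000000 in
/-- **(SLA)** -/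
theorem slaStmt : SlaStmt := by
  refine ⟨12, by norm_num, fun n w τ D N L hn hw hτ hτD hD1 hN hL => ?_⟩
  have hD : 0 < D := hτ.trans_le hτD
  have hn' : (0 : ℝ) < n := Nat.cast_pos.2 hn
  have n0 : 0 < √(n : ℝ) := sqrt_pos.2 hn'
  have nn : √(n : ℝ) * √n = n := mul_self_sqrt hn'.le
  have hN0 : (0 : ℝ) ≤ N := Nat.cast_nonneg N
  set k : ℕ → ℕ := fun j => ⌊j * τ / (2 * D)⌋₊ with hk
  have k1 : ∀ j : ℕ, 2 * (k j : ℝ) * D ≤ j * τ := fun j => by
    have := Nat.floor_le (a := j * τ / (2 * D)) (by positivity)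
    rw [le_div_iff₀ (by positivity)] at this
    linarith
  have k2 : ∀ j : ℕ, j * τ < 2 * ((k j : ℝ) + 1) * D := fun j => by
    have := Nat.lt_floor_add_one (j * τ / (2 * D))
    rw [div_lt_iff₀ (by positivity)] at this
    linarith
  have km : Monotone k := fun a b hab => Nat.floor_le_floor (by gcongr)
  have k0 : k 0 = 0 := by simp [hk]
  have k3 : ∀ j, k (j + 1) = k j ∨ k (j + 1) = k j + 1 := fun j => by
    have a1 := km (Nat.le_succ j)
    have a2 : (k (j + 1) : ℝ) < k j + 2 := by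
      have b1 := k1 (j + 1)
      have b2 := k2 j
      push_cast at b1
      by_contra hc
      nlinarith [not_lt.1 hc]
    have a3 : k (j + 1) < k j + 2 := by exact_mod_cast a2
    simp only [Nat.succ_eq_add_one] at a1
    omega
  have kN : (k N : ℝ) ≤ N := by
    have := k1 N
    by_contra hc
    nlinarith [not_le.1 hc]
  set T : ℝ := N * τ with hT
  have T0 : 0 ≤ T := by positivity
  set r : ℝ := ovar w + 1 / √n with hr
  have o0 := ovar_nonneg hw
  have i0 : 0 < 1 / √(n : ℝ) := by positivity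
  have r0 : 0 < r := by linarith
  obtain ⟨s, y, s0, y0, win, h1, h2⟩ := exists_path2 (κ := Fin (N + 1)) hw hn hD hD1 (k N)
    (L := fun i => L i) (T := fun i => (i : ℕ) * τ) (a := fun _ => 0)
    (fun i => (hL i (Nat.lt_succ_iff.1 i.2)).1) (fun i => (hL i (Nat.lt_succ_iff.1 i.2)).2)
    (ρ := (n : ℝ) ^ 2 * r) ((mcm_le_ovar hw hn).trans (by gcongr; linarith))
    (by
      have : (n : ℝ) ^ 2 * (1 / √n) = n * √n := by
        generalize √(n : ℝ) = b at *
        rw [← nn]; field_simp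
      nlinarith [mul_nonneg (sq_nonneg (n : ℝ)) o0]) rfl
  set M : ℝ := 6 * ((k N + 1) * (Fintype.card (Fin (N + 1)) + 1)) with hM
  set l : ℝ := log (N + 2) / n with hl
  have l0 : 0 ≤ l := div_nonneg (log_nonneg (by linarith)) hn'.le
  have l1 : l ≤ 1 := (div_le_one hn').2 hN
  have M1 : log M / n ≤ 5 * l := by
    rw [hl, ← mul_div_assoc]
    refine div_le_div_of_nonneg_right ?_ hn'.le
    have : log (((N : ℝ) + 2) ^ 5) = 5 * log (N + 2) := by rw [log_pow]; norm_num
    rw [← this]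
    refine log_le_log (by positivity) ?_
    rw [hM, Fintype.card_fin]
    push_cast
    have a1 : (6 : ℝ) ≤ (N + 2) ^ 3 :=
      le_trans (by norm_num) (pow_le_pow_left₀ (by norm_num) (show (2 : ℝ) ≤ N + 2 by linarith) 3)
    calc (6 : ℝ) * ((k N + 1) * (N + 1 + 1)) ≤ (N + 2) ^ 3 * ((N + 2) * (N + 2)) :=
          mul_le_mul a1 (mul_le_mul (by linarith) (by linarith) (by positivity) (by positivity))
            (by positivity) (by positivity)
      _ = _ := by ring
  have M2 : log M ≤ n * (5 * l) := by rwa [div_le_iff₀' hn'] at M1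
  have D2 : D ≤ √D := by
    have := mul_self_sqrt hD.le
    nlinarith [sqrt_le_one.2 hD1, sqrt_nonneg D]
  have D3 : √(3 * D) ≤ 2 * √D := by
    rw [sqrt_le_left (by positivity), mul_pow, sq_sqrt hD.le]; linarith
  have D4 : √D ≤ 1 := sqrt_le_one.2 hD1
  have D0 : 0 < √D := sqrt_pos.2 hD
  have d1 : 1 ≤ 1 / D := by rw [le_div_iff₀ hD]; linarith
  have κe : 12 * (1 + T) / D * r = 12 * (1 + T) * (1 / D) * r := by ring
  have κ0 : 0 ≤ 12 * (1 + T) / D * r := by positivity
  have κ1 : 6 * ((n : ℝ) ^ 2 * r * (k N + 2 / D)) ≤ (n : ℝ) ^ 2 * (12 * (1 + T) / D * r) := by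
    have a1 : (k N : ℝ) ≤ T / D := by
      rw [le_div_iff₀ hD]; nlinarith [k1 N, mul_nonneg (Nat.cast_nonneg (α := ℝ) (k N)) hD.le]
    calc 6 * ((n : ℝ) ^ 2 * r * (k N + 2 / D)) ≤ 6 * ((n : ℝ) ^ 2 * r * (2 * T / D + 2 / D)) := by
          gcongr
          exact a1.trans (by gcongr; linarith)
      _ = _ := by ring
  have hov : ∀ j ≤ N, ovar (tilt w (y (k j))) ≤ 12 * (1 + T) / D * r := fun j hj => by
    by_cases h0 : k j = 0
    · rw [h0, y0, tilt_zero, κe]
      have : 1 ≤ 12 * (1 + T) * (1 / D) := by nlinarith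
      nlinarith
    refine (ovar_le (hw.tilt _) hn).trans ?_
    have a1 : √(fr sv (tilt w (y (k j)))) ≤ 3 * √n * (1 / D) := by
      rw [sqrt_le_left (by positivity)]
      refine ((h1 _ (km hj)).1 h0).trans ?_
      rw [mul_pow, mul_pow, sq_sqrt hn'.le, div_eq_mul_one_div]
      nlinarith [mul_le_mul_of_nonneg_left d1 (show 0 ≤ (n : ℝ) * (1 / D) by positivity),
        show 0 ≤ (n : ℝ) * (1 / D) by positivity]
    have a2 : 3 * (3 * √n * (1 / D)) / n = 9 * (1 / D) * (1 / √(n : ℝ)) := by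
      generalize √(n : ℝ) = b at *
      rw [← nn]; field_simp; norm_num
    calc 3 * √(fr sv (tilt w (y (k j)))) / n ≤ 3 * (3 * √n * (1 / D)) / n := by gcongr
      _ = 9 * (1 / D) * (1 / √(n : ℝ)) := a2
      _ ≤ 12 * (1 + T) * (1 / D) * r := by gcongr <;> linarith
      _ = _ := κe.symm
  obtain ⟨σ, hσ, hσ'⟩ := exists_le_mean (hw.tilt (y (k N))) fun x =>
    (sv x ⬝ᵥ mag (tilt w (y (k N))) - mag (tilt w (y (k N))) ⬝ᵥ mag (tilt w (y (k N)))) ^ 2
  rw [← mcm_eq] at hσ'
  refine ⟨fun j => y (k j), σ, by simp only [k0, y0], (pos_iff_pos_of_mul_pos hσ).2 (exp_pos _),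
    fun j hj => ⟨?_, hov j hj, ?_, ?_⟩, fun j hj => ?_, ?_⟩
  · refine (h1 _ (km hj)).2.2.1.trans (mul_le_mul_of_nonneg_right ?_ n0.le)
    have a1 : s (k j) ≤ T := ((win _).2.trans (k1 j)).trans (by rw [hT]; gcongr)
    have a2 : √(s (k j)) ≤ 1 + T := by
      rw [sqrt_le_left (by positivity)]; nlinarith
    nlinarith [mul_le_mul a2 (show 3 / 2 + log M / n ≤ 7 by linarith) (by
      have : 0 ≤ log M / n := div_nonneg (log_nonneg (by
        rw [hM]
        have := Nat.cast_nonneg (α := ℝ) (k N)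
        have := Nat.cast_nonneg (α := ℝ) (Fintype.card (Fin (N + 1)))
        nlinarith)) hn'.le
      linarith) (by linarith)]
  · have a0 : s (k j) ≤ j * τ := (win _).2.trans (k1 j)
    have a1 := (h1 _ (km hj)).2.2.2 ⟨j, Nat.lt_succ_of_le hj⟩ a0
    simp only at a1
    rw [log_mean_exp hw]
    have a2 : j * τ - s (k j) ≤ 3 * D := by linarith [(win (k j)).1, k2 j]
    have a3 := (sqrt_le_sqrt a2).trans D3
    have a4 : (n : ℝ) * ((j * τ - s (k j)) / 2 + √(j * τ - s (k j))) ≤ n * (12 * √D) := by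
      gcongr; linarith
    nlinarith
  · refine sq_div_le hn (le_trans (le_of_eq ?_) ((h1 _ (km hj)).2.1.trans κ1))
    rw [ovc, dotProduct_sub]
  · rcases k3 j with e | e
    · simp only [e, sub_self, nrm_zero, qq]
      exact ⟨by positivity, by simpa using κ0⟩
    · have hj' : k j < k N := by
        have := km (Nat.succ_le_of_lt hj)
        simp only [Nat.succ_eq_add_one] at this
        omega
      simp only [e]
      refine ⟨(h2 _ hj').1.trans (mul_le_mul_of_nonneg_right ?_ n0.le),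
        sq_div_le hn (le_trans (le_of_eq ?_) ((h2 _ hj').2.trans κ1))⟩
      · nlinarith [mul_le_mul D3 (show 3 / 2 + log M / n ≤ 3 / 2 + 5 * l by linarith) (by
          have : 0 ≤ log M / n := div_nonneg (log_nonneg (by
            rw [hM]
            have := Nat.cast_nonneg (α := ℝ) (k N)
            have := Nat.cast_nonneg (α := ℝ) (Fintype.card (Fin (N + 1)))
            nlinarith)) hn'.le
          linarith) (by linarith), mul_le_mul_of_nonneg_right D4 l0]
      · rw [dotProduct_sub]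
  · exact sq_div_le hn (hσ'.trans ((mcm_le_ovar (hw.tilt _) hn).trans
      (mul_le_mul_of_nonneg_left (hov N le_rfl) (sq_nonneg _))))

end Crest.Agent.T157.Sla

end
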