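import Crest.Agent.T157.TreeD_58
import Crest.Agent.T157.AnDef_51

/-!
# Row 157, part D (helper58): `tree_of : FreeStmt → TreeStmt`
-/

set_option autoImplicit false

noncomputable section

namespace Crest.Agent.T157.Tree

open MeasureTheory Real Filter Topology
open Crest.ProbabilityR.SpinGlassDynamics
open Crest.Agent.T157.E Crest.Agent.T157.Exp Crest.Agent.T157.Cut Crest.Agent.T157.Top

theorem ev_pow (C : ℝ) {a b : ℝ} (h : a < b) :
    ∀ᶠ n : ℕ in atTop, C * (n : ℝ) ^ a ≤ (n : ℝ) ^ b := by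
  filter_upwards [((tendsto_rpow_atTop (sub_pos.2 h)).comp
    tendsto_natCast_atTop_atTop).eventually_ge_atTop C, eventually_gt_atTop 0] with n h1 hn
  have hn' : (0 : ℝ) < n := by exact_mod_cast hn
  rw [show b = (b - a) + a by ring, rpow_add hn']
  exact mul_le_mul_of_nonneg_right h1 (by positivity)

theorem level_close {n a K M k : ℕ} (hn : 0 < n) (hK : n ≤ K) (hM : 0 < M) :
    |((k * a / M : ℕ) : ℝ) / K - k * ((a : ℝ) / K) / M| ≤ 1 / n := by
  have hn' : (0 : ℝ) < n := by exact_mod_cast hn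
  have hK' : (n : ℝ) ≤ K := by exact_mod_cast hK
  have hM' : (0 : ℝ) < M := by exact_mod_cast hM
  have hK0 : (0 : ℝ) < K := hn'.trans_le hK'
  have h1 : ((k * a / M : ℕ) : ℝ) ≤ k * a / M := by
    simpa using (Nat.cast_div_le (α := ℝ) (m := k * a) (n := M))
  have h2 : (k * a : ℝ) / M ≤ ((k * a / M : ℕ) : ℝ) + 1 := by
    rw [div_le_iff₀ hM']
    have := (Nat.lt_div_mul_add hM (a := k * a)).le
    have h3 : ((k * a : ℕ) : ℝ) ≤ ((k * a / M * M + M : ℕ) : ℝ) := by exact_mod_cast this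
    push_cast at h3
    linarith
  rw [show ((k * a / M : ℕ) : ℝ) / K - k * ((a : ℝ) / K) / M =
    (((k * a / M : ℕ) : ℝ) - k * a / M) / K by ring, abs_div, abs_of_pos hK0]
  refine div_le_div₀ zero_le_one (abs_le.2 ⟨by linarith, by linarith⟩) hn' hK'

theorem tree_of (hF : An.FreeStmt) : An.TreeStmt := by
  intro β c0 C0 δ hβ _ hC0 hδ P hP
  rcases lt_or_ge 1 δ with hδ1 | hδ1
  · refine whp_of_eventually (.of_forall fun n g0 B hB => absurd (hB.trans prob_le_one) ?_)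
    rw [not_le, ENNReal.one_lt_ofReal]
    exact hδ1
  obtain ⟨C1, hC1, hF⟩ := hF β hβ
  have hl : 0 ≤ log (1 / δ) := log_nonneg ((one_le_div hδ).2 hδ1)
  have hb : 1 ≤ β ^ 2 := one_le_pow₀ hβ.le
  set cG := 2 * log (1 / δ) + β ^ 2
  have h0 : Tendsto (fun n : ℕ => ENNReal.ofReal ((1 + C1 + 2 * C0) * (n : ℝ) ^ (-(1 / 400) : ℝ)) +
      disorderLaw n (Big n)) atTop (𝓝 0) := by
    have h1 := ENNReal.tendsto_ofReal ((((tendsto_rpow_neg_atTop (by norm_num :
      (0 : ℝ) < 1 / 400)).comp tendsto_natCast_atTop_atTop)).const_mul (1 + C1 + 2 * C0))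
    simpa using h1.add tendsto_big
  refine tendsto_of_tendsto_of_tendsto_of_le_of_le' tendsto_const_nhds h0
    (.of_forall fun _ => zero_le) ?_
  filter_upwards [hP, eventually_ge_atTop 2,
    ev_pow cG (by norm_num : (1 / 2 : ℝ) < 10 / 11 + 1 / 400),
    ev_pow 216 (by norm_num : (1 / 200 + 1 / 200 + (10 / 11 + 1 / 400) : ℝ) <
      -(1 / 50) + (1 + -(1 / 100) + -(1 / 22))),
    ev_pow (3 * (11 * β ^ 2)) (by norm_num : (1 + -(1 / 200) : ℝ) < 1 + -(1 / 250)),
    ev_pow (3 * 36) (by norm_num : (1 / 200 : ℝ) < 1 + -(1 / 250)),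
    ev_pow (3 * cG) (by norm_num : (1 / 2 : ℝ) < 1 + -(1 / 250))] with n hPn hn a1 a2 a3 a4 a5
  obtain ⟨hOK, hG, hK⟩ := hPn
  have hn0 : 0 < n := by omega
  have hN1 : (1 : ℝ) < n := by exact_mod_cast hn
  have hN : (0 : ℝ) < n := by linarith
  have hlt : ∀ a : ℝ, 0 < a → (n : ℝ) ^ (-a) < 1 := fun a ha =>
    rpow_lt_one_of_one_lt_of_neg hN1 (by linarith)
  have hd : An.dd n = (n : ℝ) ^ (-(1 / 100) : ℝ) := min_eq_right (hlt _ (by norm_num)).le
  set d := (n : ℝ) ^ (-(1 / 100) : ℝ) with hdd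
  set e := (n : ℝ) ^ (-(1 / 22) : ℝ) with he
  set y := (n : ℝ) ^ (10 / 11 + 1 / 400 : ℝ) with hy
  set r := (n : ℝ) ^ (1 / 200 : ℝ) with hr
  set M := An.Mc n with hM
  have hd0 : 0 < d := by positivity
  have hd1 : d < 1 := hlt _ (by norm_num)
  have he0 : 0 < e := by positivity
  have he1 : e < 1 := hlt _ (by norm_num)
  have hy0 : 0 < y := by positivity
  have hr1 : 1 ≤ r := one_le_rpow hN1.le (by norm_num)
  have hM0 : 0 < M := Nat.ceil_pos.2 (by linarith)
  have hM3 : (M : ℝ) + 1 ≤ 3 * r := by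
    have : (M : ℝ) < r + 1 := Nat.ceil_lt_add_one (by linarith)
    linarith
  have hsd : √d = (n : ℝ) ^ (-(1 / 200) : ℝ) := by
    rw [sqrt_eq_rpow, hdd, ← rpow_mul hN.le]
    norm_num
  have hGd : Gd n β d δ ≤ cG * (n : ℝ) ^ (1 / 2 : ℝ) := by
    have b1 : √(d * n) ≤ (n : ℝ) ^ (1 / 2 : ℝ) := by
      rw [← sqrt_eq_rpow]
      exact sqrt_le_sqrt (mul_le_of_le_one_left hN.le hd1.le)
    have b2 : 1 ≤ (n : ℝ) ^ (1 / 2 : ℝ) := one_le_rpow hN1.le (by norm_num)
    have b3 := mul_le_mul_of_nonneg_right (add_le_add b2 b1) hl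
    have b4 := mul_le_mul_of_nonneg_left b1 (sq_nonneg β)
    simp only [Gd, cG]
    linarith
  have hG0 : 0 ≤ Gd n β d δ := by unfold Gd; positivity
  have hη : (n : ℝ) * An.pw (1 / 11) n = (n : ℝ) ^ (10 / 11 : ℝ) := by
    rw [An.pw, ← rpow_one_add' hN.le (by norm_num)]
    norm_num
  have hL := hF c0 C0 _ _ hOK hG n
  have key := tree_sk (E1 := (1 + C1) * (n : ℝ) ^ (10 / 11 : ℝ)) hn0 hβ.le hOK hG
    (by rw [mul_sub, hη] at hL; linarith) (p := fun k => k * (P n).a / M)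
    (fun a b hab => Nat.div_le_div_right (Nat.mul_le_mul_right _ hab)) (M := M)
    (Nat.mul_div_cancel_left _ hM0).le hd0 hd1 he0 he1 hδ hδ1 hy0
  refine le_trans (measure_mono ?_) (key.trans (add_le_add (ENNReal.ofReal_le_ofReal ?_) le_rfl))
  · intro g0 hg hT
    refine hg fun B hB => ?_
    rw [hd] at hB
    obtain ⟨γ, hγ⟩ := hT B hB
    refine ⟨_, γ, hγ.mono ?_ fun x => ?_, fun k _ => level_close hn0 hK hM0⟩
    · rw [div_le_iff₀ (by positivity)]
      rw [rpow_add hN, rpow_add hN, rpow_add hN (-(1 / 50)), rpow_add hN (1 + -(1 / 100)),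
        rpow_add hN 1, rpow_one, ← hy, ← hr, ← hdd, ← he] at a2
      have b1 : ((M : ℝ) + 1) ^ 2 ≤ (3 * r) ^ 2 := pow_le_pow_left₀ (by positivity) hM3 2
      have b2 : y + Gd n β d δ ≤ 2 * y := by linarith
      have b3 := mul_le_mul b1 b2 (by positivity) (by positivity)
      have b4 := mul_le_mul_of_nonneg_right hb
        (by positivity : 0 ≤ (n : ℝ) ^ (-(1 / 50) : ℝ) * (n * d * e))
      rw [An.pw]
      linarith
    · refine mul_le_mul_of_nonneg_right (exp_le_exp.2 ?_) (Set.indicator_nonneg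
        (fun x _ => div_nonneg (gibbsWeight_pos β g0 x).le
          (Finset.sum_nonneg fun x _ => (gibbsWeight_pos β g0 x).le)) x)
      have b1 : log (6 * ((M : ℝ) + 1)) ≤ 18 * r :=
        (log_le_self (by positivity)).trans (by linarith)
      rw [rpow_add hN, rpow_one] at a3 a4 a5
      rw [rpow_add hN, rpow_one] at a3
      rw [hsd, An.pw]
      linarith
  · rw [div_le_iff₀ hy0, hy, mul_assoc, ← rpow_add hN]
    have b1 : e ^ 2 = An.pw (1 / 11) n := by
      rw [he, An.pw, ← rpow_natCast, ← rpow_mul hN.le]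
      norm_num
    have b2 : 0 ≤ An.pw (1 / 11) n := by rw [← b1]; positivity
    have b3 : e * An.pw (1 / 11) n ≤ An.pw (1 / 11) n := mul_le_of_le_one_left b2 he1.le
    have b4 := mul_le_mul_of_nonneg_left b3 (by positivity : 0 ≤ n * C0)
    rw [show (-(1 / 400) + (10 / 11 + 1 / 400) : ℝ) = 10 / 11 by norm_num, b1, ← hη]
    linarith

end Crest.Agent.T157.Tree

end
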