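import Crest.Agent.T157.EDef_39
import Crest.Agent.T157.EigN_84
import Crest.Agent.T157.ConcG_16

/-!
# Row 157, part D (helper44): the self-correcting ascent, definitions

`Site` = the facts on the Parisi PDE solution `Φ` (words: `Φ(1,x) = log (2 cosh x)`,
`Φ_s = -(β²/2)(Φ_xx + ζ Φ_x²)`, `Zc s = ∫_0^s ζ`, `pen s = (β²/2) ∫_s^1 r ζ(r) dr`).
`V` = the potential, `step1`, `step2` = one step below / above the last jump `b` of `ζ`.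
`A` is the full coupling matrix (`β • Wmat` or `β • Jmat`).
-/

set_option autoImplicit false

noncomputable section

namespace Crest.Agent.T157.St

open MeasureTheory Matrix Set
open Crest.Agent.T157.E Crest.Agent.T157.Eig Crest.Agent.T157.Conc

/-- the one-site data -/
structure Site (β C b : ℝ) where
  Φ : ℝ → ℝ → ℝ
  p1 : ℝ → ℝ → ℝ
  p2 : ℝ → ℝ → ℝ
  Zc : ℝ → ℝ
  pen : ℝ → ℝ
  b0 : 0 ≤ b
  b1 : b ≤ 1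
  d1 : ∀ s ∈ Icc (0 : ℝ) 1, ∀ x, HasDerivAt (Φ s) (p1 s x) x
  d2 : ∀ s ∈ Icc (0 : ℝ) 1, ∀ x, HasDerivAt (p1 s) (p2 s x) x
  abs1 : ∀ s ∈ Icc (0 : ℝ) 1, ∀ x, |p1 s x| < 1
  pos2 : ∀ s ∈ Icc (0 : ℝ) 1, ∀ x, 0 < p2 s x
  le2 : ∀ s ∈ Icc (0 : ℝ) 1, ∀ x, p2 s x ≤ 1
  onto : ∀ s ∈ Icc (0 : ℝ) 1, ∀ m, |m| < 1 → ∃ x, p1 s x = m
  even : ∀ s ∈ Icc (0 : ℝ) 1, ∀ x, Φ s (-x) = Φ s x
  lip2 : ∀ s ∈ Icc (0 : ℝ) 1, ∀ x x', |p2 s x - p2 s x'| ≤ C * |x - x'|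
  dec : ∀ s ∈ Icc (0 : ℝ) 1, ∀ x, |x| * p2 s x ≤ C
  t1 : ∀ s ∈ Icc (0 : ℝ) 1, ∀ s' ∈ Icc (0 : ℝ) 1, ∀ x, |p1 s x - p1 s' x| ≤ C * |s - s'|
  t2 : ∀ s ∈ Icc (0 : ℝ) 1, ∀ s' ∈ Icc (0 : ℝ) 1, ∀ x, |p2 s x - p2 s' x| ≤ C * √|s - s'|
  zlip : ∀ s ∈ Icc (0 : ℝ) 1, ∀ s' ∈ Icc (0 : ℝ) 1, |Zc s - Zc s'| ≤ |s - s'|
  pde : ∀ s ∈ Icc (0 : ℝ) 1, ∀ s' ∈ Icc (0 : ℝ) 1, ∀ x,
    |Φ s' x - Φ s x + β ^ 2 / 2 * ((s' - s) * p2 s' x + (Zc s' - Zc s) * p1 s' x ^ 2)| ≤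
      C * (|s' - s| * √|s' - s|)
  penD : ∀ s ∈ Icc (0 : ℝ) 1, ∀ s' ∈ Icc (0 : ℝ) 1,
    |pen s - pen s' - β ^ 2 / 2 * (s' * (Zc s' - Zc s))| ≤ C * (|s' - s| * √|s' - s|)
  top : ∀ s ∈ Icc b 1, ∀ x, Φ s x = Real.log (2 * Real.cosh x) + β ^ 2 * (1 - s) / 2
  topP : ∀ s ∈ Icc b 1, pen s = β ^ 2 * (1 - s ^ 2) / 4

variable {n : ℕ} {β C b : ℝ}

/-- the field with mean `m` at level `s` -/
def Site.X (S : Site β C b) (s m : ℝ) : ℝ := Function.invFun (S.p1 s) m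
/-- concave conjugate `Λ(s,m) = inf_x (Φ(s,x) - x m)` -/
def Site.Lam (S : Site β C b) (s m : ℝ) : ℝ := S.Φ s (S.X s m) - S.X s m * m
/-- `Φ_xx` as a function of the mean -/
def Site.aa (S : Site β C b) (s m : ℝ) : ℝ := S.p2 s (S.X s m)
/-- the Parisi value -/
def Site.P (S : Site β C b) : ℝ := S.Φ 0 0 - S.pen 0

/-- average over the sites -/
def av (f : Fin n → ℝ) : ℝ := (∑ i, f i) / n
/-- self-overlap -/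
def qq (m : Fin n → ℝ) : ℝ := (m ⬝ᵥ m) / n
/-- the open cube -/
def box (n : ℕ) : Set (Fin n → ℝ) := {m | ∀ i, |m i| < 1}
/-- the potential at a given level -/
def Psi (S : Site β C b) (A : Matrix (Fin n) (Fin n) ℝ) (s : ℝ) (m : Fin n → ℝ) : ℝ :=
  1 / 2 * (m ⬝ᵥ A *ᵥ m) + ∑ i, S.Lam s (m i) - n * S.pen s
/-- the potential (generalised TAP free energy at the level `|m|²/n`) -/
def V (S : Site β C b) (A : Matrix (Fin n) (Fin n) ℝ) (m : Fin n → ℝ) : ℝ := Psi S A (qq m) m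
/-- `κ = 1 - β² avg Φ_xx²` -/
def kap (S : Site β C b) (m : Fin n → ℝ) : ℝ := 1 - β ^ 2 * av fun i => S.aa (qq m) (m i) ^ 2

/-! ### the matrices -/

/-- `avg |D + u|⁻²` -/
def g2 (D : Fin n → ℝ) (u1 u2 : ℝ) : ℝ := av fun i => ((D i + u1) ^ 2 + u2 ^ 2)⁻¹
/-- `Re avg (D + u)⁻¹` -/
def gr (D : Fin n → ℝ) (u1 u2 : ℝ) : ℝ := av fun i => (D i + u1) * ((D i + u1) ^ 2 + u2 ^ 2)⁻¹
/-- `κ_u` -/
def ku (β : ℝ) (D : Fin n → ℝ) (u1 u2 : ℝ) : ℝ := 1 - β ^ 2 * g2 D u1 u2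
/-- `B + w1 = D + w1 - A` -/
def Bm (A : Matrix (Fin n) (Fin n) ℝ) (D : Fin n → ℝ) (w1 : ℝ) : Matrix (Fin n) (Fin n) ℝ :=
  diagonal (fun i => D i + w1) - A
/-- `K = G G* = ((B + w1)² + w2²)⁻¹` for `G = (B + w1 + i w2)⁻¹` -/
def Km (A : Matrix (Fin n) (Fin n) ℝ) (D : Fin n → ℝ) (w1 w2 : ℝ) : Matrix (Fin n) (Fin n) ℝ :=
  (Bm A D w1 * Bm A D w1 + (w2 ^ 2) • (1 : Matrix (Fin n) (Fin n) ℝ))⁻¹
/-- `(Re G, -Im G)` -/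
def Mm (A : Matrix (Fin n) (Fin n) ℝ) (D : Fin n → ℝ) (w1 w2 : ℝ) :
    Matrix (Fin n) (Fin n ⊕ Fin n) ℝ :=
  fromCols (Bm A D w1 * Km A D w1 w2) (w2 • Km A D w1 w2)

/-- freeness of `A` with ALL diagonals, for normalised traces: with
`w = u + β² avg (D+u)⁻¹`, `tr (D + w - A)⁻¹ / n = avg (D+u)⁻¹ ± ε` (real and imaginary part) -/
def RMT (β : ℝ) (A : Matrix (Fin n) (Fin n) ℝ) (K γ ε : ℝ) : Prop :=
  ∀ D : Fin n → ℝ, (∀ i, 1 ≤ D i ∧ D i ≤ K) → ∀ u1 u2 : ℝ, -(1 / 2) ≤ u1 → u1 ≤ 1 → γ ≤ u2 →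
    u2 ≤ 1 → γ ≤ ku β D u1 u2 →
    |(Bm A D (u1 + β ^ 2 * gr D u1 u2) *
        Km A D (u1 + β ^ 2 * gr D u1 u2) (u2 * ku β D u1 u2)).trace / n - gr D u1 u2| ≤ ε ∧
    |u2 * ku β D u1 u2 * (Km A D (u1 + β ^ 2 * gr D u1 u2) (u2 * ku β D u1 u2)).trace / n -
        u2 * g2 D u1 u2| ≤ ε

/-! ### the steps -/

/-- symmetric clipping -/
def clip (c z : ℝ) : ℝ := max (-c) (min c z)
/-- the regularised diagonal `1 / max (Φ_xx, η⁶)` -/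
def Dt (S : Site β C b) (η : ℝ) (m : Fin n → ℝ) (i : Fin n) : ℝ :=
  (max (S.aa (qq m) (m i)) (η ^ 6))⁻¹
/-- clipping levels (zero on the frozen sites) -/
def cl (S : Site β C b) (η : ℝ) (m : Fin n → ℝ) (i : Fin n) : ℝ :=
  η ^ 14 * max (S.aa (qq m) (m i) - η ^ 6) 0 / (2 * C)
/-- `κ` of the regularised diagonal -/
def kt (S : Site β C b) (η : ℝ) (m : Fin n → ℝ) : ℝ := ku β (Dt S η m) 0 0
/-- the increment of the mean for given `u` and time step `τ` -/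
def inc (S : Site β C b) (A : Matrix (Fin n) (Fin n) ℝ) (η u1 u2 τ : ℝ) (m : Fin n → ℝ)
    (ξ : Fin n ⊕ Fin n → ℝ) (i : Fin n) : ℝ :=
  clip (cl S η m i) (√τ * (Mm A (Dt S η m) (u1 + β ^ 2 * gr (Dt S η m) u1 u2)
    (max (u2 * ku β (Dt S η m) u1 u2) (η ^ 4)) *ᵥ ξ) i)
/-- stage 1: `Re u` -/
def u11 (S : Site β C b) (η : ℝ) (m : Fin n → ℝ) : ℝ :=
  -kt S η m / (2 * β ^ 2 * av fun i => (Dt S η m i)⁻¹ ^ 3) + 200 * β ^ 8 * (|kt S η m| + η) ^ 2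
/-- stage 1: the time step -/
def tau1 (S : Site β C b) (η Δ : ℝ) (m : Fin n → ℝ) : ℝ :=
  Δ * max (ku β (Dt S η m) (u11 S η m) (η ^ 2)) 0 / g2 (Dt S η m) (u11 S η m) (η ^ 2)
/-- stage 1: one step, `q ↦ q + Δ` -/
def step1 (S : Site β C b) (A : Matrix (Fin n) (Fin n) ℝ) (η Δ : ℝ) (m : Fin n → ℝ)
    (ξ : Fin n ⊕ Fin n → ℝ) : Fin n → ℝ :=
  m + inc S A η (u11 S η m) (η ^ 2) (tau1 S η Δ m) m ξ
/-- stage 2: `Re u` -/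
def u21 (S : Site β C b) (η : ℝ) (m : Fin n → ℝ) : ℝ := 4 * β ^ 2 * (max (-kt S η m) 0 + η)
/-- stage 2: one step of the pair (field, mean), `t ↦ t + τ` -/
def step2 (S : Site β C b) (A : Matrix (Fin n) (Fin n) ℝ) (η τ : ℝ)
    (x : (Fin n → ℝ) × (Fin n → ℝ)) (ξ : Fin n ⊕ Fin n → ℝ) : (Fin n → ℝ) × (Fin n → ℝ) :=
  (x.1 + τ • x.2 + √τ • (fun i => ξ (Sum.inl i)), x.2 + inc S A η (u21 S η x.2) η τ x.2 ξ)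

/-- "off a set of measure `≤ p`, the whole `ρ`-ball of seeds has the property" (the input of
`Lift.exists_rep_of_slack`) -/
def Ball {ι : Type*} [Fintype ι] (p ρ : ℝ) (Q : (ι → ℝ) → Prop) : Prop :=
  ∃ B : Set (ι → ℝ), E.gv ι B ≤ ENNReal.ofReal p ∧ ∀ ξ ∉ B, ∀ ξ', en (ξ' - ξ) ≤ ρ → Q ξ'

/-- standing assumptions of a step: `τ` is `Δ` or `τ` -/
structure Hyp (β CA C1 : ℝ) (A : Matrix (Fin n) (Fin n) ℝ) (η τ : ℝ) : Prop where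
  n0 : 0 < n
  sym : A.IsHermitian
  opA : opn A ≤ CA
  η0 : 0 < η
  η1 : C1 * η ≤ 1
  τ0 : 0 < τ
  τ1 : τ ≤ η ^ 60
  rmt : RMT β A ((η ^ 6)⁻¹) (η ^ 2) (η ^ 4)

/-- **one step below `b`** (valid at every level: only `|κ|` small is used) -/
def Step1Stmt : Prop :=
  ∀ β C CA : ℝ, 1 ≤ β → 1 ≤ C → 1 ≤ CA → ∃ C1 : ℝ, 1 ≤ C1 ∧ ∀ (n : ℕ) (b : ℝ) (S : Site β C b)
    (A : Matrix (Fin n) (Fin n) ℝ) (η Δ : ℝ), Hyp β CA C1 A η Δ → ∀ m ∈ box n,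
    C1 * |kap S m| ≤ 1 → ∀ x : ℝ, 1 ≤ x →
    Ball (20 * Real.exp (-x ^ 2 / 2)) 1 fun ξ =>
      step1 S A η Δ m ξ ∈ box n ∧
      V S A m - C1 * (n * Δ * (kap S m ^ 2 + η ^ 2) + x * √(n * Δ) / η ^ 10) ≤
        V S A (step1 S A η Δ m ξ) ∧
      n * |qq (step1 S A η Δ m ξ) - qq m - Δ| ≤ C1 * (n * Δ * η ^ 2 + x * √(n * Δ) / η ^ 10) ∧
      (step1 S A η Δ m ξ - m) ⬝ᵥ (step1 S A η Δ m ξ - m) ≤
        2 * n * Δ + C1 * x * √(n * Δ) / η ^ 10 ∧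
      |m ⬝ᵥ (step1 S A η Δ m ξ - m)| ≤ C1 * x * √(n * Δ) / η ^ 10

/-- **one step above `b - η⁴`**, raw form: `k` is the predicted increment of `q` per unit time -/
def Step2Stmt : Prop :=
  ∀ β C CA : ℝ, 1 ≤ β → 1 ≤ C → 1 ≤ CA → ∃ C1 : ℝ, 1 ≤ C1 ∧ ∀ (n : ℕ) (b : ℝ) (S : Site β C b)
    (A : Matrix (Fin n) (Fin n) ℝ) (η τ : ℝ), Hyp β CA C1 A η τ → ∀ y : Fin n → ℝ, ∀ m ∈ box n,
    b - η ^ 4 ≤ qq m → C1 * max (-kap S m) 0 ≤ 1 → ∀ Y : ℝ, 1 ≤ Y → nrm y ≤ Y * √n →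
    ∀ x : ℝ, 1 ≤ x → ∃ k : ℝ, 0 ≤ k ∧ k ≤ 2 / η ∧ k * max (kap S m) η ≤ C1 ∧
    Ball (20 * Real.exp (-x ^ 2 / 2)) 1 fun ξ =>
      (step2 S A η τ (y, m) ξ).2 ∈ box n ∧
      V S A m + y ⬝ᵥ m + (√τ * (m ⬝ᵥ fun i => ξ (Sum.inl i)) + τ * (m ⬝ᵥ m) / 2 + n * τ / 2) -
          C1 * (n * τ * (k * (max (-kap S m) 0 ^ 2 + η ^ 2) + η ^ 2) +
            x * Y * √(n * τ) / η ^ 10) ≤
        V S A (step2 S A η τ (y, m) ξ).2 +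
          (step2 S A η τ (y, m) ξ).1 ⬝ᵥ (step2 S A η τ (y, m) ξ).2 ∧
      n * |qq (step2 S A η τ (y, m) ξ).2 - qq m - τ * k| ≤
        C1 * (n * τ * η ^ 2 * (1 + k) + x * √(n * τ) / η ^ 10) ∧
      ((step2 S A η τ (y, m) ξ).2 - m) ⬝ᵥ ((step2 S A η τ (y, m) ξ).2 - m) ≤
        C1 * (n * τ / η + x * √(n * τ) / η ^ 10) ∧
      nrm ((step2 S A η τ (y, m) ξ).1 - y) ≤ τ * √n + √τ * (√n + x + 1)

/-- continuity of the steps: in the state on the open cube, and in the seed -/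
def ContStmt : Prop :=
  ∀ (n : ℕ) (β C b : ℝ) (S : Site β C b) (A : Matrix (Fin n) (Fin n) ℝ) (η τ : ℝ),
    0 < n → 1 ≤ β → 1 ≤ C → A.IsHermitian → 0 < η →
    IsOpen (box n) ∧ ContinuousOn (V S A) (box n) ∧ ContinuousOn (kap S (n := n)) (box n) ∧
    (∀ ξ, ContinuousOn (fun m => step1 S A η τ m ξ) (box n)) ∧
    (∀ m, Continuous (step1 S A η τ m)) ∧
    (∀ ξ, ContinuousOn (fun x => step2 S A η τ x ξ) {x | x.2 ∈ box n}) ∧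
    (∀ x, Continuous (step2 S A η τ x))

/-- the potential along a segment -/
def SegStmt : Prop :=
  ∀ β C CA : ℝ, 1 ≤ β → 1 ≤ C → 1 ≤ CA → ∃ C1 : ℝ, 1 ≤ C1 ∧ ∀ (n : ℕ) (b : ℝ) (S : Site β C b)
    (A : Matrix (Fin n) (Fin n) ℝ), 0 < n → opn A ≤ CA → ∀ m ∈ box n, ∀ m' ∈ box n,
    ∀ t ∈ Icc (0 : ℝ) 1, (1 - t) • m + t • m' ∈ box n ∧
      (1 - t) * V S A m + t * V S A m' - C1 * ((m' - m) ⬝ᵥ (m' - m) + n * |qq m' - qq m|) ≤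
        V S A ((1 - t) • m + t • m') ∧
      qq ((1 - t) • m + t • m') =
        (1 - t) * qq m + t * qq m' - t * (1 - t) * ((m' - m) ⬝ᵥ (m' - m)) / n

/-- sign vector -/
def sgn (m : Fin n → ℝ) : Cube n := fun i => decide (0 ≤ m i)

/-- rounding at the end: the vertex `sgn m` carries the potential -/
def EndStmt : Prop :=
  ∀ β C CA : ℝ, 1 ≤ β → 1 ≤ C → 1 ≤ CA → ∃ C1 : ℝ, 1 ≤ C1 ∧ ∀ (n : ℕ) (b : ℝ) (S : Site β C b)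
    (A : Matrix (Fin n) (Fin n) ℝ), 0 < n → opn A ≤ CA → ∀ y : Fin n → ℝ, ∀ m ∈ box n,
    b ≤ qq m → ∀ Y : ℝ, 1 ≤ Y → nrm y ≤ Y * √n →
      V S A m + y ⬝ᵥ m - C1 * Y * n * √(1 - qq m) ≤ Real.log (ising A y (sgn m)) ∧
      (sv (sgn m) - m) ⬝ᵥ (sv (sgn m) - m) ≤ n * (1 - qq m)

end Crest.Agent.T157.St

end
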