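import Crest.Agent.T157.PfDef_56

/-!
Row 157 (helper56): Parisi facts, part B.  Pointwise facts on the profiles
(`|Φ'''| ≤ 2βΦ''|Φ'|`, `Φ'` is onto `(-1,1)`), calculus in time along a list of blocks.
-/

set_option autoImplicit false

namespace Crest.Agent.T157.Pf

open MeasureTheory ProbabilityTheory Filter Topology Set
open Crest.Agent.R164.GC Crest.Agent.R339.B Crest.Agent.R339.Var
open Crest.ProbabilityR.InvariantGlass (gaussOp)

noncomputable section

/-! ### monotone likelihood ratio -/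

theorem cosh_cross {h h' y z : ℝ} (h0 : 0 ≤ h) (hh : h ≤ h') (hz : 0 ≤ z) (hzy : z ≤ y) :
    Real.cosh (h * y) * Real.cosh (h' * z) ≤ Real.cosh (h' * y) * Real.cosh (h * z) := by
  have e : ∀ A B : ℝ, Real.cosh A * Real.cosh B = (Real.cosh (A + B) + Real.cosh (A - B)) / 2 := by
    intro A B
    rw [Real.cosh_add, Real.cosh_sub]
    ring
  rw [e, e]
  have a1 : 0 ≤ (h' - h) * (y - z) := mul_nonneg (by linarith) (by linarith)
  have a2 : 0 ≤ (h' - h) * (y + z) := mul_nonneg (by linarith) (by linarith)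
  have a3 : 0 ≤ (h' + h) * (y - z) := mul_nonneg (by linarith) (by linarith)
  have a4 : 0 ≤ h * y := mul_nonneg h0 (by linarith)
  have a5 : 0 ≤ h' * z := mul_nonneg (by linarith) hz
  have b1 : Real.cosh (h * y + h' * z) ≤ Real.cosh (h' * y + h * z) := by
    rw [Real.cosh_le_cosh, abs_of_nonneg (by linarith)]
    exact le_trans (by nlinarith) (le_abs_self _)
  have b2 : Real.cosh (h * y - h' * z) ≤ Real.cosh (h' * y - h * z) := by
    rw [Real.cosh_le_cosh]
    refine le_trans ?_ (le_abs_self _)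
    rw [abs_le]
    constructor <;> nlinarith
  linarith

theorem cosh_mul_abs (h y : ℝ) : Real.cosh (h * y) = Real.cosh (h * |y|) := by
  rcases le_total 0 y with hy | hy
  · rw [abs_of_nonneg hy]
  · rw [abs_of_nonpos hy, mul_neg, Real.cosh_neg]

theorem even_abs {φ : ℝ → ℝ} (he : ∀ y, φ (-y) = φ y) (y : ℝ) : φ y = φ |y| := by
  rcases le_total 0 y with hy | hy
  · rw [abs_of_nonneg hy]
  · rw [abs_of_nonpos hy, he]

/-- the tilted average preserves "even and nondecreasing on `[0,∞)`" -/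
theorem tE_monoOn {f φ : ℝ → ℝ} (hf : Lip1 f) (hfe : ∀ y, f (-y) = f y) (hφ : EG φ)
    (he : ∀ y, φ (-y) = φ y) (hm : MonotoneOn φ (Ici 0)) (a v : ℝ) :
    MonotoneOn (tE a v f φ) (Ici 0) := by
  rcases le_or_gt v 0 with hv | hv
  · have : tE a v f φ = φ := by
      funext x
      unfold tE
      rw [Real.sqrt_eq_zero'.2 hv, H_zero, H_zero, mul_div_cancel_right₀ _ (Real.exp_pos _).ne']
    rw [this]
    exact hm
  intro x hx x' _ hxx
  have hw : EG fun y => Real.exp (a * f y) := EG.exp_lip hf a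
  have hφw := hφ.mul hw
  have e1 : ∀ y, Real.exp (a * f (-y)) = Real.exp (a * f y) := fun y => by rw [hfe]
  have e2 : ∀ y, φ (-y) * Real.exp (a * f (-y)) = φ y * Real.exp (a * f y) := fun y => by
    rw [hfe, he]
  have d1 := den_pos hf a (√v) x
  have d2 := den_pos hf a (√v) x'
  unfold tE
  rw [div_le_div_iff₀ d1 d2, H_even hv hφw e2, H_even hv hφw e2, H_even hv hw e1, H_even hv hw e1]
  have hx0 : 0 ≤ x / v := div_nonneg hx hv.le
  have hxx' : x / v ≤ x' / v := div_le_div_of_nonneg_right hxx hv.le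
  have key := cheb
    (fa := fun y => ge v y * Real.cosh (x / v * y) * (φ y * Real.exp (a * f y)))
    (fb := fun y => ge v y * Real.cosh (x' / v * y) * Real.exp (a * f y))
    (fc := fun y => ge v y * Real.cosh (x' / v * y) * (φ y * Real.exp (a * f y)))
    (fd := fun y => ge v y * Real.cosh (x / v * y) * Real.exp (a * f y))
    ((ge_cosh_sd hv _).mul hφw).integrable ((ge_cosh_sd hv _).mul hw).integrable
    ((ge_cosh_sd hv _).mul hφw).integrable ((ge_cosh_sd hv _).mul hw).integrable (fun y z => by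
      have p : 0 ≤ (φ y - φ z) * (Real.cosh (x' / v * y) * Real.cosh (x / v * z) -
          Real.cosh (x / v * y) * Real.cosh (x' / v * z)) := by
        rw [cosh_mul_abs _ y, cosh_mul_abs _ z, cosh_mul_abs (x / v) y, cosh_mul_abs (x' / v) z,
          even_abs he y, even_abs he z]
        rcases le_total |z| |y| with h | h
        · have := cosh_cross hx0 hxx' (abs_nonneg z) h
          exact mul_nonneg (sub_nonneg.2 (hm (abs_nonneg z) (abs_nonneg y) h)) (by linarith)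
        · have := cosh_cross hx0 hxx' (abs_nonneg y) h
          exact mul_nonneg_of_nonpos_of_nonpos
            (sub_nonpos.2 (hm (abs_nonneg y) (abs_nonneg z) h)) (by linarith)
      have q : 0 ≤ ge v y * ge v z * Real.exp (a * f y) * Real.exp (a * f z) := by
        have := ge_pos v y
        have := ge_pos v z
        positivity
      have := mul_nonneg q p
      refine this.trans_eq ?_
      ring)
  have g := mul_nonneg (mul_pos (gd_pos hv x) (gd_pos hv x')).le key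
  refine sub_nonneg.1 (g.trans_eq ?_)
  ring

/-! ### the third derivative -/

/-- `Φ'' + βΦ'²` is nondecreasing on `[0,∞)` -/
def Up2 (β : ℝ) (Φ : ℝ → ℝ) : Prop :=
  MonotoneOn (fun x => deriv (deriv Φ) x + β * deriv Φ x ^ 2) (Ici 0)

theorem Inv.d3_nonpos {β m : ℝ} {Φ : ℝ → ℝ} (h : Inv β m Φ) (hm : 0 < m) {x : ℝ} (hx : 0 ≤ x) :
    deriv (deriv (deriv Φ)) x ≤ 0 := by
  rw [u3_eq h]
  have := mul_nonneg (u2_pos h x).le (fb_nonneg h hm hx)
  linarith

theorem Inv.d2_anti {β m : ℝ} {Φ : ℝ → ℝ} (h : Inv β m Φ) (hm : 0 < m) :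
    AntitoneOn (deriv (deriv Φ)) (Ici 0) :=
  antitoneOn_of_deriv_nonpos (convex_Ici 0) h.prof.bd.deriv.cont.continuousOn
    h.prof.bd.deriv.diff.differentiableOn fun x hx => by
      rw [interior_Ici] at hx
      exact Inv.d3_nonpos h hm (le_of_lt hx)

theorem Up2.step {β m : ℝ} {Φ : ℝ → ℝ} (h : Inv β m Φ) (hU : Up2 β Φ) (hm : 0 < m) (hmβ : m ≤ β)
    {d : ℝ} (hd : 0 ≤ d) : Up2 β (gaussOp m d Φ) := by
  have hp := h.prof
  have eT : EG fun y => deriv (deriv Φ) y + β * deriv Φ y ^ 2 :=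
    hp.bd.deriv.eg.add ((hp.bd.eg.pow 2).const_mul β)
  have m1 := tE_monoOn hp.lip h.even eT (fun y => by
    simp only [u2_even h, h.odd, neg_sq]) hU m d
  have eq1 : ∀ x, deriv (deriv (gaussOp m d Φ)) x + β * deriv (gaussOp m d Φ) x ^ 2 =
      tE m d Φ (fun y => deriv (deriv Φ) y + β * deriv Φ y ^ 2) x - (β - m) *
        (VV Φ m d (fun v x => U Φ m 1 v x ^ 2) x d - VV Φ m d (fun v x => U Φ m 1 v x ^ 2) x 0) := by
    intro x
    rw [VV_end hp hm.ne' _ hd, VV_zero hp hm.ne' _ hd, hp.gaussOp_deriv2, U_one, U_one,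
      gaussOp_v0 hm.ne', hp.gaussOp_deriv,
      tE_add hp.lip m d hp.bd.deriv.eg ((hp.bd.eg.pow 2).const_mul β), tE_const_mul]
    have : (fun y => deriv Φ y * deriv Φ y) = fun y => deriv Φ y ^ 2 := by funext y; ring
    rw [this]
    ring
  intro x hx x' hx' hxx
  simp only
  rw [eq1, eq1]
  have tb := tb_U1sq hp hm.ne'
  have m2 := monotoneOn_of_block (a := 0) (b := d)
    (f := fun τ => VV Φ m d (fun v x => U Φ m 1 v x ^ 2) x τ -
      VV Φ m d (fun v x => U Φ m 1 v x ^ 2) x' τ)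
    ((VV_cont hp tb.ug d x).sub (VV_cont hp tb.ug d x')).continuousOn
    (fun τ hτ => (VV_deriv hp tb hτ.1 hτ.2 x).fun_sub (VV_deriv hp tb hτ.1 hτ.2 x'))
    (fun τ hτ => by
      rw [VV_eq hp hm.ne' _ hτ.1.le hτ.2.le, VV_eq hp hm.ne' _ hτ.1.le hτ.2.le]
      have hI := h.step hm hmβ (d - τ)
      have eg : EG fun y => -deriv (deriv (gaussOp m (d - τ) Φ)) y ^ 2 :=
        (hI.prof.bd.deriv.eg.pow 2).neg
      have m3 := tE_monoOn hI.prof.lip hI.even eg (fun y => by rw [u2_even hI])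
        (fun y hy y' hy' hyy => by
          have a1 := Inv.d2_anti hI hm hy hy' hyy
          have a2 := u2_pos hI y'
          simp only
          nlinarith) m τ hx hx' hxx
      have e : (fun y => -deriv (deriv (gaussOp m (d - τ) Φ)) y ^ 2) =
          fun y => (-1) * U Φ m 2 (d - τ) y ^ 2 := by
        funext y; rw [U_two]; ring
      rw [e, tE_const_mul, tE_const_mul] at m3
      linarith)
  have i1 := m2 ⟨le_rfl, hd⟩ ⟨hd, le_rfl⟩ hd
  have i2 := m1 hx hx' hxx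
  simp only at i1
  have : 0 ≤ β - m := by linarith
  nlinarith

theorem up2_phi0 {β : ℝ} (hβ : 0 < β) : Up2 β (phi0 β) := by
  intro x _ y _ _
  simp only
  rw [phi0_deriv2 hβ, phi0_deriv hβ]
  simp only
  linarith

theorem up2_PhiL {β : ℝ} (hβ : 0 < β) : ∀ {l : List (ℝ × ℝ)}, Adm β l → Up2 β (PhiL β l)
  | [], _ => up2_phi0 hβ
  | _ :: _, h => Up2.step ((PhiL_inv hβ h.2.2.2).mono h.2.1) (up2_PhiL hβ h.2.2.2) h.1
      (h.2.1.trans h.2.2.2.head_le) h.2.2.1

theorem up2_PhiT {β : ℝ} (hβ : 0 < β) : ∀ {l : List (ℝ × ℝ)}, Adm β l → ∀ t, Up2 β (PhiT β l t)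
  | [], _, _ => up2_phi0 hβ
  | p :: l, h, t => by
    unfold PhiT
    split_ifs with ht
    · exact Up2.step ((PhiL_inv hβ h.2.2.2).mono h.2.1) (up2_PhiL hβ h.2.2.2) h.1
        (h.2.1.trans h.2.2.2.head_le) (by linarith)
    · exact up2_PhiT hβ h.2.2.2 _

/-- `|Φ'''| ≤ 2 β Φ'' |Φ'|` -/
theorem d3_abs_le {β m : ℝ} {Φ : ℝ → ℝ} (h : Inv β m Φ) (hU : Up2 β Φ) (hm : 0 < m) (x : ℝ) :
    |deriv (deriv (deriv Φ)) x| ≤ 2 * β * deriv (deriv Φ) x * |deriv Φ x| := by
  have key : ∀ y, 0 ≤ y → |deriv (deriv (deriv Φ)) y| ≤ 2 * β * deriv (deriv Φ) y * |deriv Φ y| := by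
    intro y hy
    have d := (h.prof.bd.deriv.hasDerivAt y).fun_add
      (((h.prof.bd.hasDerivAt y).fun_pow 2).const_mul β)
    have hacc : AccPt y (𝓟 (Ici (0:ℝ))) := by
      have : AccPt y (𝓟 (Ici y)) := by
        have h1 : y ∈ closure (Ioi y) := by rw [closure_Ioi]; exact self_mem_Ici
        rw [accPt_principal_iff_clusterPt]
        rw [mem_closure_iff_clusterPt] at h1
        rwa [Ici_sdiff_left]
      exact this.mono (principal_mono.2 (Ici_subset_Ici.2 hy))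
    have n := HasDerivWithinAt.nonneg_of_monotoneOn hacc d.hasDerivWithinAt hU
    rw [abs_of_nonpos (Inv.d3_nonpos h hm hy), abs_of_nonneg (h.nonneg hy)]
    norm_num at n
    linarith
  rcases le_total 0 x with hx | hx
  · exact key x hx
  · have := key (-x) (by linarith)
    rwa [u3_odd h, u2_even h, h.odd, abs_neg, abs_neg] at this

theorem d1_abs_lt {β m : ℝ} {Φ : ℝ → ℝ} (h : Inv β m Φ) (hβ : 0 < β) (x : ℝ) : |deriv Φ x| < 1 := by
  have h1 := (u2_pos h x).trans_le (h.up x)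
  have h2 : deriv Φ x ^ 2 < 1 := by
    by_contra hc
    have : β * (1 - deriv Φ x ^ 2) ≤ 0 := mul_nonpos_of_nonneg_of_nonpos hβ.le (by linarith)
    linarith
  exact (sq_lt_one_iff_abs_lt_one _).1 h2

theorem d3_abs_le' {β m : ℝ} {Φ : ℝ → ℝ} (h : Inv β m Φ) (hU : Up2 β Φ) (hm : 0 < m) (hβ : 0 < β)
    (x : ℝ) : |deriv (deriv (deriv Φ)) x| ≤ 2 * β ^ 2 := by
  refine (d3_abs_le h hU hm x).trans ?_
  have h1 := Inv.d2_le h hβ x
  have h2 := (d1_abs_lt h hβ x).le
  have h3 := (u2_pos h x).le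
  calc 2 * β * deriv (deriv Φ) x * |deriv Φ x| ≤ 2 * β * β * 1 := by gcongr
    _ = 2 * β ^ 2 := by ring

/-- `|x| Φ''(x) ≤ 1` -/
theorem abs_mul_d2_le {β m : ℝ} {Φ : ℝ → ℝ} (h : Inv β m Φ) (hm : 0 < m) (x : ℝ) :
    |x| * deriv (deriv Φ) x ≤ 1 := by
  have h1 := fa_le h hm (abs_nonneg x)
  unfold fa fM at h1
  have h2 := (le_abs_self _).trans (h.prof.b1 |x|)
  rw [even_abs (u2_even h) x]
  have h3 : m * (|x| * deriv (deriv Φ) |x|) ≤ m * 1 := by nlinarith
  exact le_of_mul_le_mul_left h3 hm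

/-! ### `Φ ≥ |x|`, `Φ'` is onto -/

theorem le_gaussOp {Φ : ℝ → ℝ} (h : Prof Φ) (hl : ∀ x, x ≤ Φ x) {m : ℝ} (hm : 0 < m) (v x : ℝ) :
    x ≤ gaussOp m v Φ x := by
  have h1 := h.exp_gaussOp hm.ne' v x
  have eid : EG fun y : ℝ => y := id_egs.eg
  have h2 : H (√v) (fun y => Real.exp (m * x) * (1 + m * (y - x))) x ≤
      H (√v) (fun y => Real.exp (m * Φ y)) x := by
    refine H_mono (((EG.const 1).add ((eid.sub (EG.const x)).const_mul m)).const_mul _)
      (h.exp_egs m).eg (fun y => ?_) _ _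
    have a1 : m * (y - x) + 1 ≤ Real.exp (m * (y - x)) := Real.add_one_le_exp _
    have a2 : Real.exp (m * x) * Real.exp (m * (y - x)) ≤ Real.exp (m * Φ y) := by
      rw [← Real.exp_add]
      exact Real.exp_le_exp.2 (by nlinarith [hl y])
    have a3 := Real.exp_pos (m * x)
    nlinarith
  have h3 : H (√v) (fun y => y) x = x := by
    have := H_id_mul (EGS.const 1) (√v) x
    simp only [mul_one, deriv_const'] at this
    rw [this, H_const, H_const]
    ring
  rw [H_const_mul, H_add (EG.const 1) ((eid.sub (EG.const x)).const_mul m), H_const_mul,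
    H_sub eid (EG.const x), H_const, H_const, h3, ← h1] at h2
  simp only [sub_self, mul_zero, add_zero, mul_one] at h2
  exact le_of_mul_le_mul_left (Real.exp_le_exp.1 h2) hm

theorem le_phi0 {β : ℝ} (hβ : 0 < β) (x : ℝ) : x ≤ phi0 β x := by
  unfold phi0
  rw [le_div_iff₀ hβ, Real.le_log_iff_exp_le (by positivity), Real.cosh_eq, mul_comm x β]
  have := Real.exp_pos (-(β * x))
  linarith

theorem le_PhiL {β : ℝ} (hβ : 0 < β) : ∀ {l : List (ℝ × ℝ)}, (∀ p ∈ l, 0 < p.1) → ∀ x,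
    x ≤ PhiL β l x
  | [], _, x => le_phi0 hβ x
  | p :: l, h, x => le_gaussOp (PhiL_prof hβ l) (le_PhiL hβ fun q hq => h q (by simp [hq]))
      (h p (by simp)) _ x

theorem le_PhiT {β : ℝ} (hβ : 0 < β) : ∀ {l : List (ℝ × ℝ)}, (∀ p ∈ l, 0 < p.1) → ∀ t x,
    x ≤ PhiT β l t x
  | [], _, _, x => le_phi0 hβ x
  | p :: l, h, t, x => by
    unfold PhiT
    split_ifs
    · exact le_gaussOp (PhiL_prof hβ l) (le_PhiL hβ fun q hq => h q (by simp [hq]))
        (h p (by simp)) _ x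
    · exact le_PhiT hβ (fun q hq => h q (by simp [hq])) _ x

theorem d1_onto {β m : ℝ} {Φ : ℝ → ℝ} (h : Inv β m Φ) (hl : ∀ x, x ≤ Φ x) {c : ℝ} (hc : |c| < 1) :
    ∃ x, deriv Φ x = c := by
  have key : ∀ c : ℝ, c < 1 → ∃ x, c ≤ deriv Φ x := by
    intro c hc
    by_contra hn
    push Not at hn
    have hanti : Antitone fun x => Φ x - c * x :=
      antitone_of_deriv_nonpos (h.prof.diff.sub (by fun_prop)) fun x => by
        have := ((h.prof.d1 x).fun_sub ((hasDerivAt_id' x).const_mul c)).deriv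
        rw [this]
        linarith [hn x]
    have h0 : 0 ≤ Φ 0 := hl 0
    have h1 : 0 < 1 - c := by linarith
    have h2 := hanti (show (0:ℝ) ≤ (Φ 0 + 1) / (1 - c) by positivity)
    have h3 := hl ((Φ 0 + 1) / (1 - c))
    have h4 : (1 - c) * ((Φ 0 + 1) / (1 - c)) = Φ 0 + 1 := by field_simp
    simp only at h2
    nlinarith
  obtain ⟨x, hx⟩ := key |c| hc
  have h1 : deriv Φ (-x) ≤ c := by
    rw [h.odd]
    linarith [neg_abs_le c]
  have h2 : c ≤ deriv Φ x := (le_abs_self c).trans hx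
  exact intermediate_value_univ (-x) x h.prof.bd.cont ⟨h1, h2⟩

/-! ### calculus in time -/

/-- the level at time `t` (right-continuous) -/
def lvr (β : ℝ) : List (ℝ × ℝ) → ℝ → ℝ
  | [], _ => β
  | p :: l, t => if t < p.2 then p.1 else lvr β l (t - p.2)

theorem PhiT_zero {β : ℝ} : ∀ {l : List (ℝ × ℝ)}, (∀ p ∈ l, 0 ≤ p.2) → PhiT β l 0 = PhiL β l
  | [], _ => rfl
  | p :: l, h => by
    unfold PhiT
    rw [if_pos (h p (by simp)), sub_zero]
    rfl

theorem PhiT_first {β : ℝ} {p : ℝ × ℝ} {l : List (ℝ × ℝ)} {t : ℝ} (ht : t ≤ p.2) :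
    PhiT β (p :: l) t = gaussOp p.1 (p.2 - t) (PhiL β l) := by
  unfold PhiT
  rw [if_pos ht]

theorem PhiT_next {β : ℝ} {p : ℝ × ℝ} {l : List (ℝ × ℝ)} (hp : p.1 ≠ 0) (hl : ∀ q ∈ l, 0 ≤ q.2)
    {t : ℝ} (ht : p.2 ≤ t) : PhiT β (p :: l) t = PhiT β l (t - p.2) := by
  rcases ht.eq_or_lt with h | h
  · rw [← h, PhiT_first le_rfl, sub_self, gaussOp_v0 hp, PhiT_zero hl]
  · conv_lhs => unfold PhiT
    rw [if_neg (not_le.2 h)]

/-- local structure to the right of a time -/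
theorem PhiT_local {β : ℝ} (hβ : 0 < β) : ∀ {l : List (ℝ × ℝ)}, Adm β l → ∀ {t : ℝ}, 0 ≤ t →
    t < TT l → ∃ (e : ℝ) (Φ : ℝ → ℝ), t < e ∧ e ≤ TT l ∧ Inv β (lvr β l t) Φ ∧ 0 < lvr β l t ∧
      lvr β l t ≤ β ∧ (∀ r ∈ Icc t e, PhiT β l r = gaussOp (lvr β l t) (e - r) Φ) ∧
      ∀ r ∈ Ico t e, lvr β l r = lvr β l t
  | [], _, t, h0, h1 => by
    unfold TT at h1
    simp at h1
    linarith
  | p :: l, hA, t, h0, h1 => by
    have hT : 0 ≤ TT l := TT_nonneg fun q hq => (Adm.pos hA.2.2.2 q hq).2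
    rw [TT_cons] at h1 ⊢
    by_cases ht : t < p.2
    · have e : lvr β (p :: l) t = p.1 := by unfold lvr; rw [if_pos ht]
      rw [e]
      refine ⟨p.2, PhiL β l, ht, by linarith, (PhiL_inv hβ hA.2.2.2).mono hA.2.1, hA.1,
        hA.2.1.trans hA.2.2.2.head_le, fun r hr => PhiT_first hr.2, fun r hr => ?_⟩
      unfold lvr
      rw [if_pos hr.2]
    · have e : ∀ r, t ≤ r → lvr β (p :: l) r = lvr β l (r - p.2) := fun r hr => by
        conv_lhs => unfold lvr
        rw [if_neg (by linarith [not_lt.1 ht])]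
      obtain ⟨e', Φ, a1, a2, a3, a4, a5, a6, a7⟩ :=
        PhiT_local hβ hA.2.2.2 (t := t - p.2) (by linarith [not_lt.1 ht]) (by linarith)
      rw [e t le_rfl]
      refine ⟨e' + p.2, Φ, by linarith, by linarith, a3, a4, a5, fun r hr => ?_, fun r hr => ?_⟩
      · rw [PhiT_next hA.1.ne' (fun q hq => (Adm.pos hA.2.2.2 q hq).2)
          (by linarith [hr.1, not_lt.1 ht]), a6 _ ⟨by linarith [hr.1], by linarith [hr.2]⟩]
        congr 1
        ring
      · rw [e r hr.1, a7 _ ⟨by linarith [hr.1], by linarith [hr.2]⟩]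

/-- continuity in time of functionals of the profile -/
theorem PhiT_cont {β : ℝ} (hβ : 0 < β) {G : (ℝ → ℝ) → ℝ}
    (hG : ∀ Φ, Prof Φ → ∀ m, 0 < m → Continuous fun v => G (gaussOp m v Φ)) :
    ∀ {l : List (ℝ × ℝ)}, Adm β l → Continuous fun t => G (PhiT β l t)
  | [], _ => by
    show Continuous fun _ : ℝ => G (phi0 β)
    exact continuous_const
  | p :: l, hA => by
    have ih := PhiT_cont hβ hG hA.2.2.2
    have c1 : ContinuousOn (fun t => G (PhiT β (p :: l) t)) (Iic p.2) :=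
      ((hG _ (PhiL_prof hβ l) p.1 hA.1).comp (continuous_const.sub continuous_id)).continuousOn.congr
        fun t ht => by rw [PhiT_first ht]; rfl
    have c2 : ContinuousOn (fun t => G (PhiT β (p :: l) t)) (Ici p.2) :=
      (ih.comp (continuous_id.sub continuous_const)).continuousOn.congr
        fun t ht => by
          rw [PhiT_next hA.1.ne' (fun q hq => (Adm.pos hA.2.2.2 q hq).2) ht]; rfl
    have := c1.union_of_isClosed c2 isClosed_Iic isClosed_Ici
    rwa [Iic_union_Ici, continuousOn_univ] at this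

/-- right derivative in time of functionals of the profile -/
theorem PhiT_rder {β : ℝ} (hβ : 0 < β) {G : (ℝ → ℝ) → ℝ} {G' : ℝ → (ℝ → ℝ) → ℝ}
    (hG : ∀ Φ, Prof Φ → ∀ m, 0 < m → ∀ v, 0 < v →
      HasDerivAt (fun v => G (gaussOp m v Φ)) (G' m (gaussOp m v Φ)) v)
    {l : List (ℝ × ℝ)} (hA : Adm β l) {t : ℝ} (h0 : 0 ≤ t) (h1 : t < TT l) :
    HasDerivWithinAt (fun r => G (PhiT β l r)) (-G' (lvr β l t) (PhiT β l t)) (Ici t) t := by
  obtain ⟨e, Φ, a1, _, a3, a4, _, a6, _⟩ := PhiT_local hβ hA h0 h1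
  have d1 := hG Φ a3.prof _ a4 (e - t) (by linarith)
  have d2 : HasDerivAt (fun r => e - r) (-1) t := (hasDerivAt_id' t).const_sub e
  have d3 := (HasDerivAt.comp t (h := fun r => e - r) d1 d2).hasDerivWithinAt (s := Ici t)
  rw [a6 t ⟨le_rfl, a1.le⟩]
  refine (d3.congr_of_eventuallyEq ?_ ?_).congr_deriv (by ring)
  · filter_upwards [Icc_mem_nhdsGE a1] with r hr
    rw [a6 r hr]; rfl
  · rw [a6 t ⟨le_rfl, a1.le⟩]; rfl

theorem rder_of_block {f g : ℝ → ℝ} {d : ℝ} (hf : Continuous f) (hg : Continuous g)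
    (hd : ∀ τ, 0 < τ → τ < d → HasDerivAt f (g τ) τ) {t : ℝ} (h0 : 0 ≤ t) (h1 : t < d) :
    HasDerivWithinAt f (g t) (Ici t) t := by
  refine hasDerivWithinAt_Ici_of_tendsto_deriv (s := Ioo t d)
    (fun τ hτ => (hd τ (by linarith [hτ.1]) hτ.2).differentiableAt.differentiableWithinAt)
    hf.continuousWithinAt (Ioo_mem_nhdsGT h1) ?_
  refine (hg.continuousAt.tendsto.mono_left nhdsWithin_le_nhds).congr' ?_
  filter_upwards [Ioo_mem_nhdsGT h1] with τ hτ
  exact (hd τ (by linarith [hτ.1]) hτ.2).deriv.symm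

/-- right derivative in time of expectations -/
theorem PsiF_rder {G : (ℝ → ℝ) → ℝ → ℝ} {G' : ℝ → (ℝ → ℝ) → ℝ → ℝ} (hG : BFn G)
    (hG' : ∀ c, BFn (G' c)) {β : ℝ} (hβ : 0 < β)
    (hd : ∀ Φ, Prof Φ → ∀ m, 0 < m → ∀ ν, EM ν → ∀ d τ, 0 < τ → τ < d →
      HasDerivAt (EE Φ m d ν (fun v => G (gaussOp m v Φ)))
        (EE Φ m d ν (fun v => G' m (gaussOp m v Φ)) τ) τ) :
    ∀ (l : List (ℝ × ℝ)), Adm β l → (∀ p ∈ l, 0 < p.2) → ∀ ν, GC ν → ∀ t, 0 ≤ t → t < TT l →
    HasDerivWithinAt (PsiF G β l ν) (PsiF (G' (lvr β l t)) β l ν t) (Ici t) t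
  | [], _, _, _, _, t, h0, h1 => by
    unfold TT at h1
    simp at h1
    linarith
  | p :: l, hA, hl, ν, hν, t, h0, h1 => by
    have hC := gclass β
    have hp2 := hl p (by simp)
    have hprof := PhiL_prof hβ l
    by_cases ht : t < p.2
    · have e : lvr β (p :: l) t = p.1 := by unfold lvr; rw [if_pos ht]
      rw [e, PsiF_block hβ hA.1 ν h0 ht.le]
      have d1 := rder_of_block (EE_cont hprof p.1 (hG.ug _ hprof p.1 hA.1) (hC.em ν hν) p.2)
        (EE_cont hprof p.1 ((hG' p.1).ug _ hprof p.1 hA.1) (hC.em ν hν) p.2)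
        (fun τ a b => hd _ hprof p.1 hA.1 ν (hC.em ν hν) p.2 τ a b) h0 ht
      refine d1.congr_of_eventuallyEq ?_ (PsiF_block hβ hA.1 ν h0 ht.le)
      filter_upwards [Icc_mem_nhdsGE ht] with r hr
      exact PsiF_block hβ hA.1 ν (h0.trans hr.1) hr.2
    · obtain ⟨ν', hν', hN⟩ := hC.nx hβ hA hp2 hν
      have ht' := not_lt.1 ht
      rw [TT_cons] at h1
      have ih := PsiF_rder hG hG' hβ hd l hA.2.2.2 (fun q hq => hl q (by simp [hq])) ν' hν'
        (t - p.2) (by linarith) (by linarith)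
      have e : lvr β (p :: l) t = lvr β l (t - p.2) := by
        conv_lhs => unfold lvr
        rw [if_neg ht]
      rw [e, PsiF_next' (hG' _) hβ hA.1 hp2.le (Adm.pos hA.2.2.2) hN ht']
      have d2 : HasDerivWithinAt (fun r => r - p.2) 1 (Ici t) t :=
        ((hasDerivAt_id' t).sub_const p.2).hasDerivWithinAt
      have d3 := HasDerivWithinAt.comp t (h := fun r => r - p.2) ih d2
        (fun r hr => by simp only [mem_Ici] at hr ⊢; linarith)
      rw [mul_one] at d3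
      exact d3.congr (fun r hr => PsiF_next' hG hβ hA.1 hp2.le (Adm.pos hA.2.2.2) hN
        (ht'.trans hr)) (PsiF_next' hG hβ hA.1 hp2.le (Adm.pos hA.2.2.2) hN ht')

end

end Crest.Agent.T157.Pf
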