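import Crest.Agent.T157.Sc2_68
import Crest.Agent.T157.PfB_56

/-!
Row 157, part D (helper68): the law of the Parisi diffusion above the last jump (`EIdStmt`).
-/

set_option autoImplicit false

noncomputable section

namespace Crest.Agent.T157.Sc

open MeasureTheory Real Set
open Crest.Agent.R164.GC Crest.Agent.R339.B Crest.Agent.R339.Var
open Crest.Agent.T157.Pf (Par)
open Crest.ProbabilityR.InvariantGlass (gaussOp)

theorem blk_add (v : ℝ) (c : ℕ) : ∀ (a : ℕ) (z : ℕ → ℝ),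
    blk z v (a + c) = blk z v a ++ blk (fun k => z (a + k)) v c
  | 0, z => by simp [blk]
  | a + 1, z => by
    rw [show a + 1 + c = (a + c) + 1 by ring, blk_succ, blk_succ, blk_add v c a, List.cons_append]
    congr 3
    funext k
    congr 1
    ring

/-- all exponents are `1` -/
def Ones (l : List (ℝ × ℝ)) : Prop := ∀ p ∈ l, p.1 = 1 ∧ 0 ≤ p.2

theorem ones_blk {z : ℕ → ℝ} (hz : ∀ k, z k = 1) {v : ℝ} (hv : 0 ≤ v) (N : ℕ) : Ones (blk z v N) := by
  intro p hp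
  unfold blk at hp
  rw [List.mem_ofFn] at hp
  obtain ⟨k, rfl⟩ := hp
  exact ⟨hz k, hv⟩

theorem lip1_phi0 : Lip1 (phi0 1) := (phi0_prof one_pos).lip

theorem PhiL_ones : ∀ {l : List (ℝ × ℝ)}, Ones l → PhiL 1 l = fun x => phi0 1 x + TT l / 2
  | [], _ => by funext x; simp [PhiL, TT]
  | p :: l, h => by
    have hp := h p List.mem_cons_self
    show gaussOp p.1 p.2 (PhiL 1 l) = _
    rw [PhiL_ones fun q hq => h q (List.mem_cons_of_mem _ hq), hp.1,
      gaussOp_add_const lip1_phi0 one_ne_zero, gaussOp_phi0 hp.2, TT_cons]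
    funext x; ring

theorem PhiT_ones : ∀ {l : List (ℝ × ℝ)}, Ones l → ∀ {u : ℝ}, u ≤ TT l →  0 ≤ u →
    PhiT 1 l u = fun x => phi0 1 x + (TT l - u) / 2
  | [], _, u, h1, h0 => by
    have : TT ([] : List (ℝ × ℝ)) = 0 := rfl
    have hu : u = 0 := by linarith
    funext x; simp [PhiT, TT, hu]
  | p :: l, h, u, h1, h0 => by
    have hp := h p List.mem_cons_self
    have hl : Ones l := fun q hq => h q (List.mem_cons_of_mem _ hq)
    rw [TT_cons] at h1 ⊢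
    unfold PhiT
    split_ifs with h2
    · rw [PhiL_ones hl, hp.1, gaussOp_add_const lip1_phi0 one_ne_zero,
        gaussOp_phi0 (sub_nonneg.2 h2)]
      funext x; ring
    · rw [PhiT_ones hl (by linarith) (by linarith)]
      funext x; ring

theorem tE_phi0_semi {v w : ℝ} (hv : 0 ≤ v) (hw : 0 ≤ w) {φ : ℝ → ℝ} (hφ : EG φ) :
    tE 1 v (phi0 1) (tE 1 w (phi0 1) φ) = tE 1 (v + w) (phi0 1) φ := by
  rw [tE_semi (phi0_prof one_pos) one_ne_zero hv hw hφ, gaussOp_phi0 hw, tE_add_const]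

theorem EX_ones {φ : ℝ → ℝ} (hφ : EG φ) : ∀ {l : List (ℝ × ℝ)}, Ones l → ∀ {u : ℝ}, u ≤ TT l →
    0 ≤ u → EX 1 l u φ = tE 1 u (phi0 1) φ
  | [], _, u, h1, h0 => by
    have : TT ([] : List (ℝ × ℝ)) = 0 := rfl
    have hu : u = 0 := by linarith
    rw [hu, tE_v0]; rfl
  | p :: l, h, u, h1, h0 => by
    have hp := h p List.mem_cons_self
    have hl : Ones l := fun q hq => h q (List.mem_cons_of_mem _ hq)
    rw [TT_cons] at h1
    unfold EX
    split_ifs with h2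
    · rw [PhiL_ones hl, hp.1, gaussOp_add_const lip1_phi0 one_ne_zero,
        gaussOp_phi0 (sub_nonneg.2 h2), tE_add_const, tE_add_const]
    · rw [EX_ones hφ hl (by linarith) (by linarith), PhiL_ones hl, hp.1, tE_add_const,
        tE_phi0_semi hp.2 (by linarith) hφ, add_sub_cancel]

theorem EX_zero (β : ℝ) (φ : ℝ → ℝ) : ∀ {l : List (ℝ × ℝ)}, (∀ p ∈ l, 0 ≤ p.2) → EX β l 0 φ = φ
  | [], _ => rfl
  | p :: l, h => by
    unfold EX
    rw [if_pos (h p List.mem_cons_self), tE_v0]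

theorem EX_next {β : ℝ} {p : ℝ × ℝ} {l : List (ℝ × ℝ)} (hp : p.1 ≠ 0) (hl : ∀ q ∈ l, 0 ≤ q.2)
    {t : ℝ} (ht : p.2 ≤ t) (φ : ℝ → ℝ) :
    EX β (p :: l) t φ = tE p.1 p.2 (PhiL β l) (EX β l (t - p.2) φ) := by
  rcases ht.eq_or_lt with h | h
  · rw [← h, sub_self, EX_zero β φ hl]
    show (if p.2 ≤ p.2 then _ else _) = _
    rw [if_pos le_rfl, sub_self, gaussOp_v0 hp]
  · show (if t ≤ p.2 then _ else _) = _
    rw [if_neg (not_le.2 h)]

theorem TT_nonneg' : ∀ {l : List (ℝ × ℝ)}, (∀ p ∈ l, 0 ≤ p.2) → 0 ≤ TT l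
  | [], _ => le_rfl
  | p :: l, h => by
    rw [TT_cons]
    exact add_nonneg (h p List.mem_cons_self)
      (TT_nonneg' fun q hq => h q (List.mem_cons_of_mem _ hq))

theorem PhiL_append (β : ℝ) (l l' : List (ℝ × ℝ)) : PhiL β (l ++ l') = Rec l (PhiL β l') := by
  rw [← rec_phi0, rec_append, rec_phi0]

theorem EX_append {β : ℝ} (φ : ℝ → ℝ) {l' : List (ℝ × ℝ)} (hl' : ∀ q ∈ l', 0 ≤ q.2) :
    ∀ {l : List (ℝ × ℝ)}, Pos β l → (∀ q ∈ l, 0 ≤ q.2) → ∀ {t : ℝ}, TT l ≤ t →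
      EX β (l ++ l') t φ = EL l (PhiL β l') (EX β l' (t - TT l) φ)
  | [], _, _, t, _ => by simp [EL, TT]
  | p :: l, h, h0, t, ht => by
    have hl : ∀ q ∈ l, 0 ≤ q.2 := fun q hq => h0 q (List.mem_cons_of_mem _ hq)
    have h1 := TT_nonneg' hl
    rw [TT_cons] at ht ⊢
    rw [List.cons_append, EX_next h.head.1.ne' (fun q hq => (List.mem_append.1 hq).elim (hl q)
      (hl' q)) (by linarith), EX_append φ hl' h.tail hl (by linarith), PhiL_append, sub_sub]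
    rfl

theorem PhiT_append {β : ℝ} {l' : List (ℝ × ℝ)} (hl' : ∀ q ∈ l', 0 ≤ q.2) :
    ∀ {l : List (ℝ × ℝ)}, Pos β l → (∀ q ∈ l, 0 ≤ q.2) → ∀ {t : ℝ}, TT l ≤ t →
      PhiT β (l ++ l') t = PhiT β l' (t - TT l)
  | [], _, _, t, _ => by simp [TT]
  | p :: l, h, h0, t, ht => by
    have hl : ∀ q ∈ l, 0 ≤ q.2 := fun q hq => h0 q (List.mem_cons_of_mem _ hq)
    have h1 := TT_nonneg' hl
    rw [TT_cons] at ht ⊢
    rw [List.cons_append, Pf.PhiT_next h.head.1.ne' (fun q hq => (List.mem_append.1 hq).elim (hl q)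
      (hl' q)) (by linarith), PhiT_append hl' h.tail hl (by linarith), sub_sub]

theorem EX_append_ones (φ : ℝ → ℝ) {l' : List (ℝ × ℝ)} (hl' : Ones l') :
    ∀ {l : List (ℝ × ℝ)}, Pos 1 l → ∀ {t : ℝ}, 0 ≤ t → t ≤ TT l →
      EX 1 (l ++ l') t φ = EX 1 l t φ
  | [], _, t, h0, h1 => by
    have : TT ([] : List (ℝ × ℝ)) = 0 := rfl
    have ht : t = 0 := by linarith
    rw [ht, List.nil_append, EX_zero 1 φ fun p hp => (hl' p hp).2]
    rfl
  | p :: l, h, t, h0, h1 => by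
    have e : PhiL 1 (l ++ l') = fun x => PhiL 1 l x + TT l' / 2 := by
      rw [PhiL_append, PhiL_ones hl', rec_add_const lip1_phi0 _ h.tail, rec_phi0]
    rw [TT_cons] at h1
    rw [List.cons_append]
    unfold EX
    split_ifs with h2
    · rw [e, gaussOp_add_const (PhiL_prof one_pos l).lip h.head.1.ne', tE_add_const]
    · rw [e, tE_add_const, EX_append_ones φ hl' h.tail (by linarith) (by linarith)]

theorem lst_split {P : Par} (β : ℝ) {N : ℕ} (hN : P.a ≤ N) :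
    P.lst β N = P.lst β P.a ++ blk (fun k => P.z (P.a + k)) (β ^ 2 / P.K) (N - P.a) := by
  show blk P.z _ N = blk P.z _ P.a ++ _
  rw [← blk_add, Nat.add_sub_cancel' hN]

theorem TT_lst_a (P : Par) (β : ℝ) : TT (P.lst β P.a) = β ^ 2 * P.b := by
  show TT (blk P.z (β ^ 2 / P.K) P.a) = _
  rw [TT_blk, Par.b]; ring

theorem ones_top {P : Par} (h : P.OK) (β : ℝ) (c : ℕ) :
    Ones (blk (fun k => P.z (P.a + k)) (β ^ 2 / P.K) c) :=
  ones_blk (fun _ => h.top _ (Nat.le_add_right _ _)) (by positivity) c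

/-- the profile above the last jump -/
theorem Ph_top {P : Par} (h : P.OK) {β : ℝ} {s : ℝ} (hs : s ∈ Icc P.b 1) :
    P.Ph β s = fun x => phi0 1 x + β ^ 2 * (1 - s) / 2 := by
  have hK : (P.K : ℝ) ≠ 0 := by exact_mod_cast h.Kpos.ne'
  have hb : 0 ≤ β ^ 2 := sq_nonneg β
  have ha := adm_lst h β P.a
  have e : TT (blk (fun k => P.z (P.a + k)) (β ^ 2 / P.K) (P.K - P.a)) = β ^ 2 * (1 - P.b) := by
    rw [TT_blk, Nat.cast_sub h.aK, Par.b]; field_simp
  have h1 : β ^ 2 * P.b ≤ β ^ 2 * s := mul_le_mul_of_nonneg_left hs.1 hb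
  have h2 : β ^ 2 * s ≤ β ^ 2 * 1 := mul_le_mul_of_nonneg_left hs.2 hb
  show PhiT 1 (P.lst β P.K) (β ^ 2 * s) = _
  rw [lst_split β h.aK, PhiT_append (fun q hq => (ones_top h β _ q hq).2) (pos_of_adm ha)
    (adm_nonneg ha) (by rw [TT_lst_a]; exact h1), TT_lst_a,
    PhiT_ones (ones_top h β _) (by rw [e]; linarith) (by linarith), e]
  funext x; ring

/-- `E F(X_s)` above the last jump -/
theorem EX_top {P : Par} (h : P.OK) (β : ℝ) {N : ℕ} (hN : P.a ≤ N) {T : ℝ} (h0 : β ^ 2 * P.b ≤ T)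
    (h1 : T ≤ β ^ 2 * (N / P.K)) {φ : ℝ → ℝ} (hφ : EG φ) :
    EX 1 (P.lst β N) T φ =
      EL (P.lst β P.a) (phi0 1) (tE 1 (T - β ^ 2 * P.b) (phi0 1) φ) := by
  have ha := adm_lst h β P.a
  have e : TT (blk (fun k => P.z (P.a + k)) (β ^ 2 / P.K) (N - P.a)) =
      β ^ 2 * (N / P.K) - β ^ 2 * P.b := by
    rw [TT_blk, Nat.cast_sub hN, Par.b]; ring
  rw [lst_split β hN, EX_append φ (fun q hq => (ones_top h β _ q hq).2) (pos_of_adm ha)
    (adm_nonneg ha) (by rw [TT_lst_a]; exact h0), TT_lst_a,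
    EX_ones hφ (ones_top h β _) (by rw [e]; linarith) (by linarith), PhiL_ones (ones_top h β _),
    EL_add_const lip1_phi0 _ _ (pos_of_adm ha)]

theorem eId : EIdStmt := by
  intro β P hβ h s hs t ht hc F K hF
  have hK : (0 : ℝ) < P.K := by exact_mod_cast h.Kpos
  have hb : 0 < β ^ 2 := by positivity
  have hP := pos_of_adm (adm_lst h β P.K)
  have hs0 : 0 ≤ β ^ 2 * s := mul_nonneg hb.le hs.1
  have hs1 : β ^ 2 * s ≤ β ^ 2 := by nlinarith [hs.2]
  rw [EL_append]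
  rcases hc with rfl | hbs
  · have e1 : Rec [((1 : ℝ), (0 : ℝ))] (P.Ph β s) = P.Ph β s := gaussOp_v0 one_ne_zero _
    have e2 : EL [((1 : ℝ), (0 : ℝ))] (P.Ph β s) F = F := tE_v0 _ _ _
    rw [e1, e2, zero_div, add_zero]
    show EX 1 (blk P.z _ (P.K + ⌈s * P.K⌉₊)) (β ^ 2 * s) F 0 =
      EL (cut (P.lst β P.K) (β ^ 2 * s)) (PhiT 1 (P.lst β P.K) (β ^ 2 * s)) F 0
    rw [EL_cut one_pos hP hs0, blk_add]
    exact congrFun (EX_append_ones F (l := P.lst β P.K)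
      (ones_blk (fun _ => h.top _ (h.aK.trans (Nat.le_add_right _ _))) (by positivity) _) hP hs0
      (by rw [TT_lst h]; exact hs1)) 0
  · have hT := Ph_top (β := β) h ⟨hbs, hs.2⟩
    have hL : Lip1 (P.Ph β s) := (PhiT_prof one_pos _ _).lip
    have e1 : Rec [((1 : ℝ), t)] (P.Ph β s) = fun x => P.Ph β s x + t / 2 := by
      show gaussOp 1 t (P.Ph β s) = _
      rw [hT, gaussOp_add_const lip1_phi0 one_ne_zero, gaussOp_phi0 ht]
      funext x; ring
    have e2 : EL [((1 : ℝ), t)] (P.Ph β s) F = tE 1 t (phi0 1) F := by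
      show tE 1 t (P.Ph β s) F = _
      rw [hT, tE_add_const]
    have hbs' : β ^ 2 * P.b ≤ β ^ 2 * s := mul_le_mul_of_nonneg_left hbs hb.le
    rw [e1, e2, EL_add_const hL _ _ (hP.cut _)]
    show EX 1 (P.lst β (P.K + ⌈(s + t / β ^ 2) * P.K⌉₊)) (β ^ 2 * (s + t / β ^ 2)) F 0 =
      EL (cut (P.lst β P.K) (β ^ 2 * s)) (PhiT 1 (P.lst β P.K) (β ^ 2 * s)) _ 0
    have e3 : β ^ 2 * (s + t / β ^ 2) = β ^ 2 * s + t := by field_simp
    rw [EL_cut one_pos hP hs0, EX_top h β h.aK hbs' (by rw [div_self hK.ne']; linarith)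
      (tE_BC lip1_phi0 _ _ hF).eg, tE_phi0_semi (by linarith) ht hF.eg,
      EX_top h β (h.aK.trans (Nat.le_add_right _ _)) (by rw [e3]; linarith) ?_ hF.eg, e3]
    · congr 3; ring
    · refine mul_le_mul_of_nonneg_left ?_ hb.le
      rw [le_div_iff₀ hK]
      push_cast
      linarith [Nat.le_ceil ((s + t / β ^ 2) * P.K)]

end Crest.Agent.T157.Sc

end
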