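import Crest.Agent.T157.UpDef_74
import Crest.Agent.T157.Sc2b_68
import Crest.Agent.T157.PfSite_56

/-!
# Row 157, part D (helper30): the scalar channel above `b` (`Up.GamEndStmt`)
-/

set_option autoImplicit false

noncomputable section

namespace Crest.Agent.T157.Up

open MeasureTheory Set Real
open Crest.Agent.R164.GC Crest.Agent.R339.B Crest.Agent.R339.Var
open Crest.Agent.T157.Sc Crest.Agent.T157.Pf

theorem Gam30.bc_th : BC (fun x => th 1 x ^ 2) 1 := by
  refine ⟨?_, fun x => ?_⟩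
  · have : (fun x => th 1 x ^ 2) = fun x => (sinh x / cosh x) ^ 2 := by
      funext x; simp [th]
    rw [this]
    exact (continuous_sinh.div continuous_cosh fun x => (cosh_pos x).ne').pow 2
  · have h := th_abs_le 1 x
    rw [abs_pow]
    nlinarith [abs_nonneg (th 1 x)]

theorem Gam30.block {t : ℝ} (ht : 0 ≤ t) (x : ℝ) :
    1 - exp (-t / 2) ≤ tE 1 t (phi0 1) (fun y => th 1 y ^ 2) x := by
  have e : ∀ y, exp (1 * phi0 1 y) = 2 * cosh y := fun y => by
    rw [one_mul, Par.phi0_one, exp_log (by have := cosh_pos y; positivity)]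
  have hE : EG fun y => exp (1 * phi0 1 y) := EG.exp_lip lip1_phi0 1
  have hD : H (sqrt t) (fun y => exp (1 * phi0 1 y)) x = 2 * cosh x * exp (t / 2) := by
    have h1 := congrFun (gaussOp_phi0 ht) x
    rw [gaussOp_ne one_ne_zero] at h1
    have h2 := den_pos lip1_phi0 1 (sqrt t) x
    rw [← exp_log h2]
    have h3 : log (H (sqrt t) (fun y => exp (1 * phi0 1 y)) x) = phi0 1 x + t / 2 := by
      simpa using h1
    rw [h3, exp_add, ← e x, one_mul]
  have hN : H (sqrt t) (fun y => exp (1 * phi0 1 y) - 2) x ≤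
      H (sqrt t) (fun y => th 1 y ^ 2 * exp (1 * phi0 1 y)) x := by
    refine H_mono (hE.sub (EG.const 2)) (Gam30.bc_th.eg.mul hE) (fun y => ?_) _ _
    rw [e y]
    have hc := one_le_cosh y
    have hc0 := cosh_pos y
    have h1 : th 1 y ^ 2 * (2 * cosh y) = 2 * cosh y - 2 / cosh y := by
      simp only [th, one_mul]
      field_simp
      nlinarith [cosh_sq y]
    rw [h1]
    have : 2 / cosh y ≤ 2 := by rw [div_le_iff₀ hc0]; linarith
    linarith
  rw [H_sub hE (EG.const 2), H_const, hD] at hN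
  unfold tE
  rw [hD, le_div_iff₀ (by have := cosh_pos x; positivity)]
  refine le_trans ?_ hN
  have h1 : exp (-t / 2) * exp (t / 2) = 1 := by rw [← exp_add]; simp [neg_div]
  have hc := one_le_cosh x
  nlinarith

/-- **`GamEndStmt`** -/
theorem gamEnd : GamEndStmt := by
  intro β P hβ h s hs t ht
  have hb : 0 < β ^ 2 := by positivity
  have hs0 : 0 ≤ s := h.b_nonneg.trans hs.1
  have hst : P.b ≤ s + t / β ^ 2 := hs.1.trans (le_add_of_nonneg_right (by positivity))
  have hP := (pos_of_adm (adm_lst h β P.K)).cut (β ^ 2 * s)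
  have hL : Lip1 (P.Ph β s) := (PhiT_prof one_pos _ _).lip
  have hT := Ph_top (β := β) h hs
  unfold Par.Gam
  rw [h.Px_top hβ hst, eId β P hβ h s ⟨hs0, hs.2⟩ t ht (Or.inr hs.1) _ 1 Gam30.bc_th, EL_append]
  have hR : Lip1 (Sc.Rec [((1 : ℝ), t)] (P.Ph β s)) := lip1_gaussOp hL one_pos _
  have e2 : EL [((1 : ℝ), t)] (P.Ph β s) (fun x => th 1 x ^ 2) =
      tE 1 t (phi0 1) fun x => th 1 x ^ 2 := by
    show tE 1 t (P.Ph β s) (fun x => th 1 x ^ 2) = _
    rw [hT, tE_add_const]
  rw [e2]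
  have h1 := EL_mono hR (BC.const (1 - exp (-t / 2))) (tE_BC lip1_phi0 1 t Gam30.bc_th)
    (Gam30.block ht) hP 0
  have h2 := EL_affine hR (BC.const 0) (1 - exp (-t / 2)) 0 hP 0
  simp only [zero_mul, add_zero] at h2
  rwa [h2] at h1

end Crest.Agent.T157.Up

end
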