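import Crest.Agent.T157.An_51
import Crest.Agent.T157.AnGam_68
import Crest.Agent.T157.AnFree_50
import Crest.Agent.T157.TreeE_58
import Crest.Agent.T157.SlaE_4
import Crest.Agent.T157.UpGam_30

/-!
Row 157, part D (helper51): `Up.AncStmt` from the leaves that are still open.
-/

namespace Crest.Agent.T157.An

theorem anc_of (hT : TapStmt) (hP : Plb.PlbStmt) (hSc : Sc.ScStmt) : Up.AncStmt :=
  up_anc hT (Tree.tree_of (free_of hP)) Sla.slaStmt (free_of hP) gamStmt Up.gamEnd hSc

end Crest.Agent.T157.An
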