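import Crest.Agent.T157.Exp_54

/-!
Row 157, part D (helper54): the cut statement with the reference weight of `g0` at full strength.
-/

set_option autoImplicit false

noncomputable section

namespace Crest.Agent.T157.Cut

open MeasureTheory Filter
open Crest.ProbabilityR.SpinGlassDynamics Crest.Agent.T157.E Crest.Agent.T157.Exp

variable {n : ℕ}

/-- `B` (a function of `g0` only) has intermediate mass with probability `≥ δ` over `g1`, and a
boundary of mass `≤ φ` for the Gibbs weight of `g0` -/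
def Cut1 (β d δ φ : ℝ) (g0 : Pair n → ℝ) (B : Set (Cube n)) : Prop :=
  ENNReal.ofReal δ ≤ disorderLaw n {g1 | δ ≤ mass (gibbsWeight n β (mixG d g0 g1)) B ∧
      δ ≤ mass (gibbsWeight n β (mixG d g0 g1)) Bᶜ} ∧
    mass (gibbsWeight n β g0) (bd B) ≤ φ

/-- no `g0`-measurable bottleneck (reference weight at full strength) -/
def Cut1Stmt : Prop :=
  ∀ β : ℝ, 1 < β → ∃ c : ℝ, 1 / 40000000 < c ∧ ∃ d : ℕ → ℝ, (∀ n, 0 ≤ d n ∧ d n ≤ 1) ∧
    (∀ᶠ n : ℕ in atTop, d n ≤ (n : ℝ) ^ (-(2 * c))) ∧ ∀ δ : ℝ, 0 < δ →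
      Tendsto (fun n : ℕ => disorderLaw n
        {g0 | ∃ B, Cut1 β (d n) δ (Real.exp (-(n : ℝ) ^ (1 - c))) g0 B}) atTop (nhds 0)

theorem cut0_of_cut1 (h : Cut1Stmt) : Cut0Stmt := by
  intro β hβ
  obtain ⟨c, hc, d, hd, hdc, h⟩ := h β hβ
  obtain ⟨c', hc1, hc2⟩ := exists_between hc
  refine ⟨c', hc1, d, hd, ?_, fun δ hδ => ?_⟩
  · filter_upwards [hdc, eventually_ge_atTop 1] with n a1 hn
    exact a1.trans (Real.rpow_le_rpow_of_exponent_le (by exact_mod_cast hn) (by linarith))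
  have h1 : Tendsto (fun n : ℕ => (n : ℝ) ^ (c - c')) atTop atTop :=
    (tendsto_rpow_atTop (by linarith)).comp tendsto_natCast_atTop_atTop
  have h2 := (h δ hδ).add tendsto_big
  rw [add_zero] at h2
  refine tendsto_of_tendsto_of_tendsto_of_le_of_le' tendsto_const_nhds h2
    (Eventually.of_forall fun _ => zero_le) ?_
  filter_upwards [hdc, eventually_ge_atTop 1, h1.eventually_ge_atTop (2 * β + 1)] with n a1 hn a2
  have hn1 : (1 : ℝ) ≤ n := by exact_mod_cast hn
  have hn0 : (0 : ℝ) < n := by linarith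
  refine le_trans (measure_mono ?_) (measure_union_le _ _)
  rintro g0 ⟨B, b1, b2⟩
  by_cases hg : g0 ∈ Big n
  · exact Or.inr hg
  refine Or.inl ⟨B, b1, ?_⟩
  simp only [Big, Set.mem_ofPred_eq, not_exists, not_le] at hg
  set u := (n : ℝ) ^ (1 - c) with hu
  have hs1 : Real.sqrt (1 - d n) ≤ 1 := Real.sqrt_le_one.2 (by linarith [(hd n).1])
  have hs2 : 1 - d n ≤ Real.sqrt (1 - d n) := by
    have h0 := Real.sqrt_nonneg (1 - d n)
    have h3 := Real.mul_self_sqrt (sub_nonneg.2 (hd n).2)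
    nlinarith
  have hdn : d n * n ≤ u := by
    refine (mul_le_mul_of_nonneg_right a1 hn0.le).trans ?_
    rw [← Real.rpow_add_one hn0.ne']
    exact Real.rpow_le_rpow_of_exponent_le hn1 (by linarith)
  have hb : ∀ x, |β * ((1 - Real.sqrt (1 - d n)) * en1 g0 x)| ≤ β * u := fun x => by
    rw [abs_mul, abs_mul, abs_of_nonneg (by linarith : 0 ≤ β),
      abs_of_nonneg (by linarith : 0 ≤ 1 - Real.sqrt (1 - d n))]
    refine mul_le_mul_of_nonneg_left (le_trans ?_ hdn) (by linarith)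
    exact mul_le_mul (by linarith) (hg x).le (abs_nonneg _) (hd n).1
  have c1 : ∀ x, gibbsWeight n β g0 x ≤
      Real.exp (β * u) * gibbsWeight n β (Real.sqrt (1 - d n) • g0) x := fun x => by
    rw [gibbs_eq, gibbs_eq, ← Real.exp_add, Real.exp_le_exp, en1_smul]
    linarith [(abs_le.1 (hb x)).2]
  have c2 : ∀ x, gibbsWeight n β (Real.sqrt (1 - d n) • g0) x ≤
      Real.exp (β * u) * gibbsWeight n β g0 x := fun x => by
    rw [gibbs_eq, gibbs_eq, ← Real.exp_add, Real.exp_le_exp, en1_smul]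
    linarith [(abs_le.1 (hb x)).1]
  rw [mass_ms] at b2 ⊢
  refine (ms_le (prob_le (gibbsWeight_pos β _) (gibbsWeight_pos β _) (Real.exp_pos _) c1 c2)
    _).trans ((mul_le_mul_of_nonneg_left b2 (by positivity)).trans ?_)
  rw [← Real.exp_nat_mul, ← Real.exp_add, Real.exp_le_exp]
  have e : (n : ℝ) ^ (1 - c') = (n : ℝ) ^ (c - c') * u := by
    rw [hu, ← Real.rpow_add hn0]; ring_nf
  have := mul_le_mul_of_nonneg_right a2 (by positivity : 0 ≤ u)
  rw [e]
  push_cast
  linarith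

theorem cut_of_cut1 (h : Cut1Stmt) : CutStmt := cut_of_cut0 (cut0_of_cut1 h)

end Crest.Agent.T157.Cut

end
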