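import Crest.Agent.T157.G1Def_52
import Crest.Agent.T157.CascC_65
import Crest.Agent.T157.CascD_52

/-!
# Row 157, part D: Guerra interpolation with remainder, proofs (helper52)
-/

set_option autoImplicit false

noncomputable section

namespace Crest.Agent.T157.G1

open MeasureTheory Real Set
open Crest.Agent.T157.E Crest.Agent.T157.Casc Crest.Agent.T157.SL
open Crest.Agent.R339.B Crest.Agent.R339.Var
open Crest.Agent.R339.Guerra (pen)
open Crest.ProbabilityR.SpinGlassDynamics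

variable {n : ℕ} {β : ℝ} {J : Lv (Cube n)} {ℓ : List (ℝ × ℝ)} {w : Cube n → ℝ}

/-! ### elementary facts -/

lemma sc_fld {Ω : Type*} (s : ℝ) (l : Lv Ω) (g : l.ι → ℝ) : (sc s l).fld g = s • l.fld g := by
  funext x
  simp only [Lv.fld, Pi.smul_apply, smul_eq_mul, Finset.mul_sum, mul_assoc]

lemma sc_cov {Ω : Type*} (s : ℝ) (l : Lv Ω) (x y : Ω) : (sc s l).cov x y = s ^ 2 * l.cov x y := by
  simp only [Lv.cov, Finset.mul_sum]
  exact Finset.sum_congr rfl fun i _ => by ring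

lemma fld_add {Ω : Type*} (l : Lv Ω) (g g' : l.ι → ℝ) : l.fld (g + g') = l.fld g + l.fld g' := by
  funext x
  simp only [Lv.fld, Pi.add_apply, mul_add, Finset.sum_add_distrib]

lemma fld_smul {Ω : Type*} (l : Lv Ω) (s : ℝ) (g : l.ι → ℝ) : l.fld (s • g) = s • l.fld g := by
  funext x
  simp only [Lv.fld, Pi.smul_apply, smul_eq_mul, Finset.mul_sum, mul_left_comm]

lemma dot_eq (hn : 0 < n) (x y : Cube n) : sv x ⬝ᵥ sv y = n * ov x y := by
  have : (n : ℝ) ≠ 0 := by positivity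
  rw [ov, mul_div_cancel₀ _ this]

lemma ov_self (hn : 0 < n) (x : Cube n) : ov x x = 1 := by
  have : (n : ℝ) ≠ 0 := by positivity
  rw [ov, sv_dot_self, div_self this]

lemma ov_comm (x y : Cube n) : ov x y = ov y x := by rw [ov, ov, dotProduct_comm]

lemma abs_ov_le (x y : Cube n) : |ov x y| ≤ 1 := by
  rw [ov, abs_div, Nat.abs_cast]
  refine div_le_one_of_le₀ ((Finset.abs_sum_le_sum_abs _ _).trans ?_) (Nat.cast_nonneg _)
  simp [sv, abs_mul, abs_spin]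

lemma nn_of_adm {b : ℝ} : ∀ {l : List (ℝ × ℝ)}, Adm b l → ∀ p ∈ l, 0 ≤ p.2
  | [], _ => by simp
  | _ :: _, h => by
    intro q hq
    rcases List.mem_cons.1 hq with rfl | hq
    exacts [h.2.2.1, nn_of_adm h.2.2.2 q hq]

lemma FL_cons (s : ℝ) (p : ℝ × ℝ) (ℓ : List (ℝ × ℝ)) : FL n s (p :: ℓ) = fl n s p :: FL n s ℓ := rfl

lemma FL_length (s : ℝ) (ℓ : List (ℝ × ℝ)) : (FL n s ℓ).length = ℓ.length := List.length_map _

lemma FL_drop (s : ℝ) (ℓ : List (ℝ × ℝ)) (j : ℕ) : (FL n s ℓ).drop j = FL n s (ℓ.drop j) :=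
  List.map_drop.symm

lemma mono_FL (s : ℝ) : ∀ {l : List (ℝ × ℝ)} {m0 : ℝ}, Adm 1 l → m0 ≤ headLv 1 l →
    Mono m0 (FL n s l)
  | [], _, _, h => h
  | _ :: _, _, h, h' => ⟨h', mono_FL s h.2.2.2 h.2.1⟩

lemma mono_FL0 (s : ℝ) (h : Adm 1 ℓ) : Mono 0 (FL n s ℓ) := mono_FL s h (h.head_pos one_pos).le

lemma ex_FL (s : ℝ) (ℓ : List (ℝ × ℝ)) (j : ℕ) :
    ex (FL n s ℓ) j = if h : j < ℓ.length then ℓ[j].1 else 1 := by
  by_cases h : j < ℓ.length
  · simp [ex, FL, h]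
  · simp [ex, FL, h]

lemma qs_zero (β : ℝ) (ℓ : List (ℝ × ℝ)) : qs β ℓ 0 = 0 := by simp [qs, TT]

lemma qs_nonneg (h : Adm 1 ℓ) (j : ℕ) : 0 ≤ qs β ℓ j :=
  div_nonneg (TT_nonneg fun p hp => nn_of_adm h p (List.mem_of_mem_take hp)) (sq_nonneg _)

lemma qs_le_one (h : Adm 1 ℓ) (hT : TT ℓ = β ^ 2) (j : ℕ) : qs β ℓ j ≤ 1 := by
  refine div_le_one_of_le₀ ?_ (sq_nonneg _)
  have h1 : TT ℓ = TT (ℓ.take j) + TT (ℓ.drop j) := by
    rw [TT, TT, TT, ← List.sum_append, ← List.map_append, List.take_append_drop]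
  have h2 : 0 ≤ TT (ℓ.drop j) := TT_nonneg fun p hp => nn_of_adm h p (List.mem_of_mem_drop hp)
  linarith

lemma sum_dm_sq (s : ℝ) : ∀ (l : List (ℝ × ℝ)) (m0 q : ℝ),
    ∑ j ∈ Finset.range (l.length + 1), dm (FL n s l) m0 j * (q + TT (l.take j)) ^ 2 =
      (q + TT l) ^ 2 - m0 * q ^ 2 - pen q l
  | [], m0, q => by simp [dm, ex, exP, FL, TT, pen]; ring
  | p :: l, m0, q => by
    have ih := sum_dm_sq s l p.1 (q + p.2)
    rw [List.length_cons, Finset.sum_range_succ', FL_cons]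
    simp only [dm_cons_succ, List.take_succ_cons, TT_cons, ← add_assoc, ih, pen]
    simp [dm, ex, exP, TT]
    ring

lemma pair_const_mul {Ω : Type*} [Fintype Ω] {w : Ω → ℝ} (hw : Wt w) (L : List (Lv Ω)) (m0 c : ℝ)
    (K : ℕ → Ω → Ω → ℝ) (z : Ω → ℝ) :
    pair w L m0 (fun j x y => c * K j x y) z = c * pair w L m0 K z := by
  simp only [pair_eq_sum hw, pi2_const_mul, Finset.mul_sum, mul_left_comm c]

lemma rem_eq_sum (hw : Wt w) (β s : ℝ) (ℓ : List (ℝ × ℝ)) (h : Cube n → ℝ) :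
    rem w β s ℓ h = ∑ j ∈ Finset.range (ℓ.length + 1), dm (FL n s ℓ) 0 j *
      pi2 w (FL n s ℓ) j (fun x y => (ov x y - qs β ℓ j) ^ 2) h := by
  rw [rem, pair_eq_sum hw, FL_length]

lemma eg_rem (hw : Wt w) (β s : ℝ) (ℓ : List (ℝ × ℝ)) : Eg (rem w β s ℓ) := eg_pair hw _ _ _

lemma rem_nonneg (hw : Wt w) (hA : Adm 1 ℓ) (s : ℝ) (h : Cube n → ℝ) : 0 ≤ rem w β s ℓ h := by
  rw [rem_eq_sum hw]
  exact Finset.sum_nonneg fun j _ => mul_nonneg (dm_nonneg (mono_FL0 s hA) j)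
    (pi2_nonneg hw _ _ (fun _ _ => sq_nonneg _) _)

lemma rem_le (hw : Wt w) (hA : Adm 1 ℓ) (hT : TT ℓ = β ^ 2) (s : ℝ) (h : Cube n → ℝ) :
    rem w β s ℓ h ≤ 4 := by
  refine (pair_mono hw (mono_FL0 s hA) (K' := fun _ _ _ => 4) (fun j _ x y => ?_) h).trans ?_
  · have h1 := abs_le.1 (abs_ov_le x y)
    have h2 := qs_nonneg (β := β) hA j
    have h3 := qs_le_one hA hT j
    nlinarith
  · rw [pair_const hw, ← Finset.sum_mul, sum_dm, ex_length]; norm_num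

lemma Rem_eq (w : Cube n → ℝ) (β a t : ℝ) (h : Cube n → ℝ) : Rem J w β ℓ a t h =
    ∫ g, rem w β √(1 - t) ℓ (h + (sc √(t - a) J).fld g) ∂gv J.ι := by
  simp only [Rem, sc_fld]

lemma Rem_nonneg (hw : Wt w) (hA : Adm 1 ℓ) (a t : ℝ) (h : Cube n → ℝ) : 0 ≤ Rem J w β ℓ a t h :=
  integral_nonneg fun _ => rem_nonneg hw hA _ _

lemma Rem_le (hw : Wt w) (hA : Adm 1 ℓ) (hT : TT ℓ = β ^ 2) (a t : ℝ) (h : Cube n → ℝ) :
    Rem J w β ℓ a t h ≤ 4 := by
  rw [Rem_eq]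
  refine (integral_mono ((eg_rem hw β _ ℓ).int (sc √(t - a) J) h) (integrable_const 4)
    fun g => rem_le hw hA hT _ _).trans ?_
  simp

lemma meas_Rem (hw : Wt w) (a t : ℝ) : Measurable (Rem J w β ℓ a t) := by
  rw [show Rem J w β ℓ a t = _ from funext (Rem_eq w β a t)]
  exact C.meas_int (sc √(t - a) J) (eg_rem hw β _ ℓ).cont.measurable

/-- the remainder as a two-replica functional of the whole list -/
lemma pair_Lt (hm : J.m = 0) (w : Cube n → ℝ) (a t : ℝ) (K : ℕ → Cube n → Cube n → ℝ)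
    (h : Cube n → ℝ) : pair w (Lt J ℓ a t) 0 K h = ∫ g, pair w (FL n √(1 - t) ℓ) 0
      (fun j => K (j + 1)) (h + (sc √(t - a) J).fld g) ∂gv J.ι := by
  rw [Lt, pair, C.tE_zero (l := sc √(t - a) J) hm]
  simp only [hm, sub_self, zero_mul, zero_add]

lemma Rem_eq_pair (hm : J.m = 0) (w : Cube n → ℝ) (a t : ℝ) (h : Cube n → ℝ) :
    Rem J w β ℓ a t h = pair w (Lt J ℓ a t) 0 (fun j x y => (ov x y - qs β ℓ (j - 1)) ^ 2) h := by
  rw [pair_Lt hm, Rem_eq]; rfl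

/-! ### the interpolation -/

/-- the SK level as a function of time -/
def TJ (J : Lv (Cube n)) (a : ℝ) : TL (Cube n) :=
  ⟨J.ι, fun t x i => √(t - a) * J.A x i, fun t x i => 1 / (2 * √(t - a)) * J.A x i, J.m⟩

/-- a field level as a function of time -/
def TF (n : ℕ) (p : ℝ × ℝ) : TL (Cube n) :=
  ⟨Fin n, fun t x i => √(1 - t) * √p.2 * sv x i,
    fun t x i => -1 / (2 * √(1 - t)) * √p.2 * sv x i, p.1⟩

lemma atL_T (a t : ℝ) : atL (TJ J a :: ℓ.map (TF n)) t = Lt J ℓ a t := by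
  simp only [atL, List.map_cons, List.map_map, Lt, FL]
  rfl

lemma TJ_S {a t : ℝ} (h : a < t) (x y : Cube n) : (TJ J a).S t x y = J.cov x y / 2 := by
  have : √(t - a) ≠ 0 := (sqrt_pos.2 (sub_pos.2 h)).ne'
  simp only [TL.S, TJ, Lv.cov, Finset.sum_div]
  exact Finset.sum_congr rfl fun i _ => by field_simp

lemma TF_S {p : ℝ × ℝ} (hp : 0 ≤ p.2) {t : ℝ} (h : t < 1) (x y : Cube n) :
    (TF n p).S t x y = -(p.2 * (sv x ⬝ᵥ sv y) / 2) := by
  have : √(1 - t) ≠ 0 := (sqrt_pos.2 (sub_pos.2 h)).ne'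
  simp only [TL.S, TF, dotProduct, Finset.mul_sum, Finset.sum_div, ← Finset.sum_neg_distrib]
  refine Finset.sum_congr rfl fun i _ => ?_
  have h2 := mul_self_sqrt hp
  field_simp
  linear_combination (-(sv x i * sv y i)) * h2

lemma Sacc_F {t : ℝ} (h : t < 1) (x y : Cube n) : ∀ {l : List (ℝ × ℝ)}, (∀ p ∈ l, 0 ≤ p.2) →
    ∀ j, Sacc (l.map (TF n)) t j x y = -(TT (l.take j) * (sv x ⬝ᵥ sv y) / 2)
  | [], _, j => by simp [Sacc, TT]
  | p :: l, _, 0 => by simp [Sacc, TT]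
  | p :: l, hl, j + 1 => by
    have ih := Sacc_F h x y (fun q hq => hl q (List.mem_cons_of_mem _ hq)) j
    rw [List.map_cons, Sacc_cons, List.take_succ_cons, TT_cons]
    simp only [ih, TF_S (hl p List.mem_cons_self) h]
    ring

lemma c1_T (a : ℝ) : ∀ l ∈ TJ J a :: ℓ.map (TF n), l.C1 (Ioo a 1) := by
  intro l hl
  rcases List.mem_cons.1 hl with rfl | hl
  · refine ⟨fun t ht x i => ?_, fun x i => ?_⟩
    · exact (((hasDerivAt_id t).sub_const a).sqrt (sub_pos.2 ht.1).ne').mul_const _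
    · refine ContinuousOn.mul (continuousOn_const.div (by fun_prop) fun t ht => ?_)
        continuousOn_const
      have := sqrt_pos.2 (sub_pos.2 ht.1)
      positivity
  · obtain ⟨p, -, rfl⟩ := List.mem_map.1 hl
    refine ⟨fun t ht x i => ?_, fun x i => ?_⟩
    · exact ((((hasDerivAt_id t).const_sub 1).sqrt (sub_pos.2 ht.2).ne').mul_const _).mul_const _
    · refine (ContinuousOn.mul (continuousOn_const.div (by fun_prop) fun t ht => ?_)
        continuousOn_const).mul continuousOn_const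
      have := sqrt_pos.2 (sub_pos.2 ht.2)
      positivity

theorem phi_cont (hw : Wt w) (a : ℝ) (h : Cube n → ℝ) :
    ContinuousOn (fun t => phi J w ℓ a t h) (Icc a 1) := by
  have := continuousOn_X (I := Icc a 1) hw (L := TJ J a :: ℓ.map (TF n)) (fun l hl => by
    refine TL.okC_of_compact isCompact_Icc fun x i => ?_
    rcases List.mem_cons.1 hl with rfl | hl
    · show ContinuousOn (fun t => √(t - a) * J.A x i) _
      fun_prop
    · obtain ⟨p, -, rfl⟩ := List.mem_map.1 hl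
      show ContinuousOn (fun t => √(1 - t) * √p.2 * sv x i) _
      fun_prop) (b := fun _ => h) fun _ => continuousOn_const
  simp only [atL_T] at this
  exact this

theorem phi_der (hn : 0 < n) (hβ : 0 < β) (hJ : IsJ β J) (hA : Adm 1 ℓ) (hT : TT ℓ = β ^ 2)
    (hw : Wt w) {a t : ℝ} (h : Cube n → ℝ) (ha : a < t) (ht : t < 1) :
    HasDerivAt (fun t => phi J w ℓ a t h)
      (-(n * cor β ℓ) - β ^ 2 * n / 4 * Rem J w β ℓ a t h) t := by
  obtain ⟨c0, hc⟩ := hJ.cov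
  have h1 := hasDerivAt_X hw isOpen_Ioo (c1_T (J := J) (ℓ := ℓ) a) ⟨ha, ht⟩ (b := fun _ => h)
    (b' := 0) fun x => hasDerivAt_const _ _
  simp only [atL_T] at h1
  refine h1.congr_deriv ?_
  have hb : β ^ 2 ≠ 0 := by positivity
  have hS : ∀ j x y, Sacc (TJ J a :: ℓ.map (TF n)) t (j + 1) x y =
      β ^ 2 * n / 4 * (ov x y - qs β ℓ j) ^ 2 +
        (-(n / (4 * β ^ 2)) * (0 + TT (ℓ.take j)) ^ 2 - c0 / 2) := fun j x y => by
    rw [Sacc_cons]
    simp only [TJ_S ha, Sacc_F ht x y (nn_of_adm hA), hc, dot_eq hn, qs]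
    field_simp
    ring
  have h2 : ∀ z, pair w (FL n √(1 - t) ℓ) 0 (fun j => Sacc (TJ J a :: ℓ.map (TF n)) t (j + 1)) z =
      β ^ 2 * n / 4 * rem w β √(1 - t) ℓ z + (n * cor β ℓ - β ^ 2 * n / 4 - c0 / 2) := fun z => by
    rw [show (fun j => Sacc (TJ J a :: ℓ.map (TF n)) t (j + 1)) = _ from
      funext fun j => funext fun x => funext (hS j x), pair_add hw, pair_const_mul hw, pair_const hw]
    simp only [mul_sub, Finset.sum_sub_distrib, mul_left_comm _ (-(n / (4 * β ^ 2)) : ℝ)]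
    rw [← Finset.mul_sum, ← Finset.sum_mul, sum_dm, ex_length, FL_length, sum_dm_sq, hT, rem, cor]
    field_simp
    ring
  rw [DX, atL_T, pair_Lt hJ.m]
  simp only [h2, List.length_cons, List.length_map, hS, ov_self hn, qs, List.take_length, hT,
    div_self hb, Pi.zero_apply]
  have i1 : Integrable (fun g : J.ι → ℝ => β ^ 2 * n / 4 *
      rem w β √(1 - t) ℓ (h + (sc √(t - a) J).fld g)) (gv J.ι) :=
    ((eg_rem hw β _ ℓ).int (sc √(t - a) J) h).const_mul _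
  rw [← Finset.sum_mul, sum_P hw, integral_add i1 (integrable_const _), integral_const_mul,
    ← Rem_eq]
  simp only [integral_const, probReal_univ, one_smul]
  field_simp
  ring

lemma Fe_eq (hm : J.m = 0) (w : Cube n → ℝ) (s : ℝ) : Fe J w s = X w [sc s J] := by
  funext h
  rw [C.X_cons, C.step_zero (l := sc s J) hm]
  simp only [sc_fld, X, Fe, Pi.add_apply, Pi.smul_apply, smul_eq_mul]

lemma X_FL_zero (w : Cube n → ℝ) (ℓ : List (ℝ × ℝ)) : X w (FL n 0 ℓ) = X w [] := by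
  have := C.X_of_zero w (L := FL n 0 ℓ) (fun l hl => by
    obtain ⟨p, -, rfl⟩ := List.mem_map.1 hl
    intro x i
    simp) []
  rwa [List.append_nil] at this

theorem phi_one (hm : J.m = 0) (w : Cube n → ℝ) (a : ℝ) (h : Cube n → ℝ) :
    phi J w ℓ a 1 h = Fe J w √(1 - a) h := by
  rw [Fe_eq hm, phi, Lt, C.X_cons, C.X_cons, sub_self, sqrt_zero, X_FL_zero]

theorem phi_start (w : Cube n → ℝ) (a : ℝ) (h : Cube n → ℝ) :
    phi J w ℓ a a h = X w (FL n √(1 - a) ℓ) h := by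
  rw [phi, Lt, C.X_cons, C.step_of_zero (by simp)]

theorem phi_eq (hm : J.m = 0) (w : Cube n → ℝ) (a t : ℝ) (h : Cube n → ℝ) : phi J w ℓ a t h =
    ∫ g, X w (FL n √(1 - t) ℓ) (h + √(t - a) • J.fld g) ∂gv J.ι := by
  rw [phi, Lt, C.X_cons, C.step_zero (l := sc √(t - a) J) hm]
  simp only [sc_fld]

theorem Y_eq (hm : J.m = 0) (w : Cube n → ℝ) (β d : ℝ) (h : Cube n → ℝ) : Y J w β ℓ d h =
    phi J w ℓ (1 - d) (1 - d) h - phi J w ℓ (1 - d) 1 h - d * (n * cor β ℓ) := by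
  rw [phi_start, phi_one hm, sub_sub_cancel, Y]
  ring

theorem fld_FL (s : ℝ) (h : ∀ p ∈ ℓ, 0 ≤ p.2) :
    List.Forall₂ C.Fld (FL n s ℓ) (ℓ.map fun p => (p.1, s ^ 2 * p.2)) := C.fld_map s h

theorem X_FL_one (h : ∀ p ∈ ℓ, 0 ≤ p.2) : X (fun _ => 1) (FL n 1 ℓ) 0 = n * PhiL 1 ℓ 0 := by
  simpa using C.X_cube_zero (fld_FL (n := n) 1 h)

theorem phi_sub (hn : 0 < n) (hβ : 0 < β) (hJ : IsJ β J) (hA : Adm 1 ℓ) (hT : TT ℓ = β ^ 2)
    (hw : Wt w) {a s u : ℝ} (h : Cube n → ℝ) (ha : a ≤ s) (hs : s < u) (hu : u ≤ 1) :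
    ∃ t ∈ Ioo s u, phi J w ℓ a u h - phi J w ℓ a s h =
      (u - s) * (-(n * cor β ℓ) - β ^ 2 * n / 4 * Rem J w β ℓ a t h) := by
  obtain ⟨t, ht, e⟩ := exists_hasDerivAt_eq_slope (fun t => phi J w ℓ a t h) _ hs
    ((phi_cont hw a h).mono (Icc_subset_Icc ha hu))
    fun t ht => phi_der hn hβ hJ hA hT hw h (ha.trans_lt ht.1) (ht.2.trans_le hu)
  exact ⟨t, ht, by rw [e, mul_div_cancel₀ _ (sub_pos.2 hs).ne']⟩

lemma abs_phi_le (hw : Wt w) (a t : ℝ) (h : Cube n → ℝ) :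
    |phi J w ℓ a t h| ≤ |phi J w ℓ a t 0| + ‖h‖ := by
  have := (C.lp_X hw (Lt J ℓ a t)).abs_sub h 0
  rw [sub_zero] at this
  have h2 := abs_sub_abs_le_abs_sub (X w (Lt J ℓ a t) h) (X w (Lt J ℓ a t) 0)
  unfold phi
  linarith

section avg
variable {Θ : Type*} [MeasurableSpace Θ] {μ : Measure Θ} [IsProbabilityMeasure μ]
  {h : Θ → Cube n → ℝ}

lemma int_phi (hw : Wt w) (hm : Measurable h) (hi : Integrable h μ) (a t : ℝ) :
    Integrable (fun θ => phi J w ℓ a t (h θ)) μ :=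
  ((integrable_const _).add hi.norm).mono'
    ((C.lp_X hw _).meas.comp hm).aestronglyMeasurable (.of_forall fun θ => abs_phi_le hw a t (h θ))

lemma int_Rem (hw : Wt w) (hA : Adm 1 ℓ) (hT : TT ℓ = β ^ 2) (hm : Measurable h) (a t : ℝ) :
    Integrable (fun θ => Rem J w β ℓ a t (h θ)) μ :=
  (integrable_const (4 : ℝ)).mono' ((meas_Rem hw a t).comp hm).aestronglyMeasurable
    (.of_forall fun θ => by
      rw [Real.norm_eq_abs, abs_of_nonneg (Rem_nonneg hw hA a t _)]; exact Rem_le hw hA hT a t _)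

theorem avg_cont (hw : Wt w) (hm : Measurable h) (hi : Integrable h μ) (a : ℝ) :
    ContinuousOn (fun t => ∫ θ, phi J w ℓ a t (h θ) ∂μ) (Icc a 1) := by
  obtain ⟨B, hB⟩ := isCompact_Icc.exists_bound_of_continuousOn
    (phi_cont (J := J) (ℓ := ℓ) hw a 0)
  exact continuousOn_of_dominated (bound := fun θ => B + ‖h θ‖)
    (fun t _ => (int_phi hw hm hi a t).1)
    (fun t ht => .of_forall fun θ => (abs_phi_le hw a t (h θ)).trans (add_le_add_left (hB t ht) _))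
    ((integrable_const _).add hi.norm) (.of_forall fun θ => phi_cont hw a (h θ))

theorem avg_der (hn : 0 < n) (hβ : 0 < β) (hJ : IsJ β J) (hA : Adm 1 ℓ) (hT : TT ℓ = β ^ 2)
    (hw : Wt w) (hm : Measurable h) (hi : Integrable h μ) {a t : ℝ} (ha : a < t) (ht : t < 1) :
    HasDerivAt (fun t => ∫ θ, phi J w ℓ a t (h θ) ∂μ)
      (-(n * cor β ℓ) - β ^ 2 * n / 4 * ∫ θ, Rem J w β ℓ a t (h θ) ∂μ) t := by
  have hI := fun t => int_Rem (J := J) (μ := μ) hw hA hT hm a t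
  have := (hasDerivAt_integral_of_dominated_loc_of_deriv_le (μ := μ)
    (F := fun t θ => phi J w ℓ a t (h θ))
    (F' := fun t θ => -(n * cor β ℓ) - β ^ 2 * n / 4 * Rem J w β ℓ a t (h θ))
    (bound := fun _ => |n * cor β ℓ| + β ^ 2 * n / 4 * 4) (Ioo_mem_nhds ha ht)
    (.of_forall fun t => (int_phi hw hm hi a t).1) (int_phi hw hm hi a t)
    ((integrable_const _).sub ((hI t).const_mul _)).1 (.of_forall fun θ s _ => ?_)
    (integrable_const _)
    (.of_forall fun θ s hs => phi_der hn hβ hJ hA hT hw (h θ) hs.1 hs.2)).2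
  · rw [integral_sub (integrable_const _) ((hI t).const_mul _), integral_const_mul] at this
    simpa using this
  · refine (abs_sub _ _).trans ?_
    rw [abs_neg, abs_mul (β ^ 2 * n / 4), abs_of_nonneg (by positivity : 0 ≤ β ^ 2 * n / 4),
      abs_of_nonneg (Rem_nonneg hw hA a s _)]
    gcongr
    exact Rem_le hw hA hT a s _

lemma int_Y (hJ : J.m = 0) (hw : Wt w) (hm : Measurable h) (hi : Integrable h μ) (d : ℝ) :
    Integrable (fun θ => Y J w β ℓ d (h θ)) μ := by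
  simp only [Y_eq hJ]
  exact ((int_phi hw hm hi _ _).sub (int_phi hw hm hi _ _)).sub (integrable_const _)

theorem mvt_avg (hn : 0 < n) (hβ : 0 < β) (hJ : IsJ β J) (hA : Adm 1 ℓ) (hT : TT ℓ = β ^ 2)
    (hw : Wt w) {d : ℝ} (hd : 0 < d) (hm : Measurable h) (hi : Integrable h μ) :
    ∃ t ∈ Ioo (1 - d) 1, ∫ θ, Y J w β ℓ d (h θ) ∂μ =
      d * (β ^ 2 * n / 4 * ∫ θ, Rem J w β ℓ (1 - d) t (h θ) ∂μ) := by
  obtain ⟨t, ht, e⟩ := exists_hasDerivAt_eq_slope _ _ (by linarith : 1 - d < 1)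
    (avg_cont (J := J) (ℓ := ℓ) hw hm hi (1 - d))
    fun t ht => avg_der hn hβ hJ hA hT hw hm hi ht.1 ht.2
  refine ⟨t, ht, ?_⟩
  simp only [Y_eq hJ.m]
  have i1 := int_phi (J := J) (ℓ := ℓ) hw hm hi (1 - d)
  have i2 : Integrable (fun θ => phi J w ℓ (1 - d) (1 - d) (h θ) - phi J w ℓ (1 - d) 1 (h θ)) μ :=
    (i1 _).sub (i1 _)
  rw [integral_sub i2 (integrable_const _), integral_sub (i1 _) (i1 _)]
  rw [sub_sub_cancel, eq_div_iff hd.ne'] at e
  simp only [integral_const, probReal_univ, one_smul]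
  linarith

end avg

theorem mvt (hn : 0 < n) (hβ : 0 < β) (hJ : IsJ β J) (hA : Adm 1 ℓ) (hT : TT ℓ = β ^ 2)
    (hw : Wt w) {d : ℝ} (hd : 0 < d) (h : Cube n → ℝ) : ∃ t ∈ Ioo (1 - d) 1,
    Y J w β ℓ d h = d * (β ^ 2 * n / 4 * Rem J w β ℓ (1 - d) t h) := by
  obtain ⟨t, ht, e⟩ := phi_sub hn hβ hJ hA hT hw h le_rfl (by linarith : 1 - d < 1) le_rfl
  refine ⟨t, ht, ?_⟩
  rw [Y_eq hJ.m]
  linarith

theorem Y_nonneg (hn : 0 < n) (hβ : 0 < β) (hJ : IsJ β J) (hA : Adm 1 ℓ) (hT : TT ℓ = β ^ 2)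
    (hw : Wt w) {d : ℝ} (hd : 0 ≤ d) (h : Cube n → ℝ) : 0 ≤ Y J w β ℓ d h := by
  rcases hd.eq_or_lt with rfl | hd
  · simp [Y_eq hJ.m]
  · obtain ⟨t, -, e⟩ := mvt hn hβ hJ hA hT hw hd h
    have := Rem_nonneg (J := J) (β := β) hw hA (1 - d) t h
    rw [e]; positivity

theorem phi_le (hn : 0 < n) (hβ : 0 < β) (hJ : IsJ β J) (hA : Adm 1 ℓ) (hT : TT ℓ = β ^ 2)
    {t : ℝ} (h0 : 0 ≤ t) (h1 : t ≤ 1) :
    phi J (fun _ => 1) ℓ 0 t 0 ≤ n * (PhiL 1 ℓ 0 - t * cor β ℓ) := by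
  have e0 : phi J (fun _ => 1) ℓ 0 0 0 = n * PhiL 1 ℓ 0 := by
    rw [phi_start, sub_zero, sqrt_one, X_FL_one (nn_of_adm hA)]
  rcases h0.eq_or_lt with rfl | h0
  · simp [e0]
  · obtain ⟨s, -, e⟩ := phi_sub hn hβ hJ hA hT C.wt_one 0 le_rfl h0 h1
    have h2 := Rem_nonneg (J := J) (β := β) C.wt_one hA 0 s 0
    have h3 : 0 ≤ t * (β ^ 2 * n / 4 * Rem J (fun _ => 1) β ℓ 0 s 0) := by positivity
    rw [e0] at e
    linarith

/-- the two parts of the disorder add up -/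
theorem int_Fe (hm : J.m = 0) (hw : Wt w) {d : ℝ} (h0 : 0 ≤ d) (h1 : d ≤ 1) (h : Cube n → ℝ) :
    ∫ g, Fe J w √d (h + √(1 - d) • J.fld g) ∂gv J.ι =
      ∫ g, log (∑ x, w x * exp (h x + J.fld g x)) ∂gv J.ι := by
  have := congrFun (C.X_split hw (l := J) (l1 := sc √(1 - d) J) (l2 := sc √d J) rfl rfl
    (fun x y => by rw [sc_cov, sc_cov, sq_sqrt h0, sq_sqrt (by linarith)]; ring) []) h
  rw [C.X_cons, C.X_cons, C.step_zero hm, C.step_zero (l := sc √(1 - d) J) hm] at this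
  simp only [sc_fld, ← Fe_eq hm] at this
  exact this.symm

lemma int_fld (s : ℝ) : Integrable (fun g => s • J.fld g) (gv J.ι) := by
  have := Eg.norm.int (sc s J) 0
  simp only [zero_add, sc_fld] at this
  exact (integrable_norm_iff ((C.cont_fld J).const_smul s).aestronglyMeasurable).1 this

theorem avg (hn : 0 < n) (hβ : 0 < β) (hJ : IsJ β J) (hA : Adm 1 ℓ) (hT : TT ℓ = β ^ 2)
    {d : ℝ} (h0 : 0 ≤ d) (h1 : d ≤ 1) :
    ∫ g, Y J (fun _ => 1) β ℓ d (√(1 - d) • J.fld g) ∂gv J.ι ≤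
      n * val β ℓ - ∫ g, log (∑ x, exp (J.fld g x)) ∂gv J.ι := by
  have a1 := phi_le hn hβ hJ hA hT (t := 1 - d) (by linarith) (by linarith)
  have a2 := int_Fe hJ.m C.wt_one h0 h1 0
  have i1 := (C.lp_X C.wt_one (FL n √d ℓ)).int (sc √(1 - d) J) 0
  have i2 := (C.lp_X C.wt_one [sc √d J]).int (sc √(1 - d) J) 0
  rw [phi_eq hJ.m, sub_sub_cancel, sub_zero] at a1
  simp only [zero_add, sc_fld, ← Fe_eq hJ.m, Pi.zero_apply, one_mul] at a1 a2 i1 i2
  simp only [Y]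
  have i3 : Integrable (fun g => X (fun _ => 1) (FL n √d ℓ) (√(1 - d) • J.fld g) -
      d * (n * cor β ℓ)) (gv J.ι) := i1.sub (integrable_const _)
  rw [integral_sub i3 i2, integral_sub i1 (integrable_const _), a2, val]
  simp only [integral_const, probReal_univ, one_smul]
  linarith

theorem g1Stmt : G1Stmt := fun n hn _ hβ J hJ ℓ hA hT =>
  { der := fun _ hw _ _ h ha ht => phi_der hn hβ hJ hA hT hw h ha ht
    cont := fun _ hw a h => phi_cont hw a h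
    rem_nonneg := fun _ hw => rem_nonneg hw hA
    rem_le := fun _ hw => rem_le hw hA hT
    mvt := fun _ hw _ hd h => mvt hn hβ hJ hA hT hw hd h
    mvt_avg := fun _ hw _ hd _ _ _ _ _ hm hi => mvt_avg hn hβ hJ hA hT hw hd hm hi
    Y_nonneg := fun _ hw _ hd h => Y_nonneg hn hβ hJ hA hT hw hd h
    Y_le := fun _ _ hw hw' H d h => by
      have := C.X_mono_w hw hw' H (FL n √d ℓ) h
      simp only [Y]
      linarith
    phi_le := fun _ h0 h1 => phi_le hn hβ hJ hA hT h0 h1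
    avg := fun d h0 h1 => ⟨int_Y (h := fun g => √(1 - d) • J.fld g) hJ.m C.wt_one
      ((C.cont_fld J).const_smul √(1 - d)).measurable (int_fld _) d, avg hn hβ hJ hA hT h0 h1⟩ }

/-! ### the two SK levels -/

theorem isJ_Jp (hn : 0 < n) (β : ℝ) : IsJ β (Jp n β) := by
  refine ⟨rfl, β ^ 2 / 2, fun x y => ?_⟩
  have hn' : (0 : ℝ) < n := by exact_mod_cast hn
  set u : Fin n → ℝ := fun i => sv x i * sv y i with hu
  have hu2 : ∀ i, u i * u i = 1 := fun i => by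
    rw [hu, mul_mul_mul_comm]; simp [sv, spin_mul_self]
  have h1 := sum_sum_eq_two_mul_pair (fun i j => u i * u j - if i = j then 1 else 0)
    (fun i j => by rw [mul_comm]; simp only [eq_comm]) (fun i => by simp [hu2])
  have h2 : ∑ p : Pair n, (u p.1.1 * u p.1.2 - if p.1.1 = p.1.2 then 1 else 0) =
      ∑ p : Pair n, u p.1.1 * u p.1.2 :=
    Finset.sum_congr rfl fun p _ => by rw [if_neg p.2.ne, sub_zero]
  have h3 : ∑ i, u i = n * ov x y := dot_eq hn x y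
  simp only [Finset.sum_sub_distrib, Finset.sum_ite_eq, Finset.mem_univ, if_true,
    ← Finset.mul_sum, ← Finset.sum_mul, h3] at h1
  simp only [Finset.sum_sub_distrib] at h2
  have h4 : (Jp n β).cov x y = β ^ 2 / n * ∑ p : Pair n, u p.1.1 * u p.1.2 := by
    simp only [Lv.cov, Finset.mul_sum]
    refine Finset.sum_congr rfl fun p _ => ?_
    rw [mul_mul_mul_comm, div_mul_div_comm, mul_self_sqrt hn'.le, hu]
    ring
  rw [h4, ← h2]
  simp only [Finset.sum_const, Finset.card_univ, Fintype.card_fin, nsmul_eq_mul, mul_one] at h1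
  rw [← mul_right_inj' (two_ne_zero' ℝ), mul_left_comm, ← h1]
  field_simp

theorem isJ_Jw (hn : 0 < n) (β : ℝ) : IsJ β (Jw n β) := by
  refine ⟨rfl, 0, fun x y => ?_⟩
  have hn' : (0 : ℝ) < n := by exact_mod_cast hn
  have h3 : ∑ i, sv x i * sv y i = n * ov x y := dot_eq hn x y
  have h4 : (Jw n β).cov x y = β ^ 2 / (2 * n) * (∑ i, sv x i * sv y i) ^ 2 := by
    rw [sq (∑ i, _), Finset.sum_mul_sum]
    simp only [Lv.cov, Finset.mul_sum, Fintype.sum_prod_type]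
    refine Finset.sum_congr rfl fun i _ => Finset.sum_congr rfl fun j _ => ?_
    have a1 : √2 / √n * (√2 / √n) = 2 / n := by
      rw [div_mul_div_comm, mul_self_sqrt hn'.le, mul_self_sqrt zero_le_two]
    have a2 : β ^ 2 / (2 * n) = β ^ 2 / 4 * (√2 / √n * (√2 / √n)) := by
      rw [a1]; field_simp; ring
    rw [a2]; ring
  rw [h4, h3]
  field_simp
  ring

theorem gibbs_Jp (β : ℝ) (g : Pair n → ℝ) (x : Cube n) :
    gibbsWeight n β g x = exp ((Jp n β).fld g x) := by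
  rw [gibbsWeight, Lv.fld]
  congr 1
  exact Finset.sum_congr rfl fun p _ => by simp only [sv]; ring

/-- Guerra's bound -/
theorem guerra (hn : 0 < n) (hβ : 0 < β) (hJ : IsJ β J) (hA : Adm 1 ℓ) (hT : TT ℓ = β ^ 2) :
    ∫ g, log (∑ x, exp (J.fld g x)) ∂gv J.ι ≤ n * val β ℓ := by
  have := phi_le hn hβ hJ hA hT zero_le_one le_rfl
  rw [phi_one hJ.m] at this
  simpa [Fe, val] using this

end Crest.Agent.T157.G1

end
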