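import Crest.Agent.T157.PlbDef_78
import Crest.Agent.T157.CascC_65
import Crest.Agent.T157.ConcG_16

/-!
# Row 157: `CmpStmt`, `FlatStmt`, `OmStmt` (helper33)
-/

set_option autoImplicit false
set_option linter.unusedSectionVars false

noncomputable section

namespace Crest.Agent.T157.Plb

open MeasureTheory Real
open Crest.Agent.T157.E Crest.Agent.T157.Casc Crest.Agent.T157.SL
open Crest.ProbabilityR.SpinGlassDynamics

namespace C33

variable {Ω : Type} [Fintype Ω] {w : Ω → ℝ}

theorem eg_exp {a : (Ω → ℝ) → ℝ} {A : ℝ} (hc : Continuous a) (hA : ∀ h, |a h| ≤ A) (ζ : ℝ) :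
    Eg fun h => exp (ζ * a h) :=
  (Lg.of hc A 0 fun z => by simpa using hA z).exp ζ

theorem node_jensen (hw : Wt w) {a : (Ω → ℝ) → ℝ} {A : ℝ} (hc : Continuous a)
    (hA : ∀ h, |a h| ≤ A) (ζ : ℝ) (L : List (Lv Ω)) (j : ℕ) (h : Ω → ℝ) :
    exp (ζ * node w L j a h) ≤ node w L j (fun z => exp (ζ * a z)) h := by
  have ha : Eg a := Eg.of_bdd hc A hA
  set c := node w L j a h with hcd
  have h1 := node_mono hw (Φ := fun z => exp (ζ * c) * (ζ * a z + (1 - ζ * c)))
    (((ha.const_mul ζ).add (Eg.const _)).const_mul _) (eg_exp hc hA ζ) (fun z => by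
      have := mul_le_mul_of_nonneg_left (add_one_le_exp (ζ * a z - ζ * c)) (exp_pos (ζ * c)).le
      rw [← exp_add, add_sub_cancel] at this
      linarith) L j h
  rw [node_const_mul, node_add hw (ha.const_mul ζ) (Eg.const _), node_const_mul, node_const hw] at h1
  simpa [← hcd] using h1

theorem node_pos (hw : Wt w) {a : (Ω → ℝ) → ℝ} {A : ℝ} (hc : Continuous a)
    (hA : ∀ h, |a h| ≤ A) (ζ : ℝ) (L : List (Lv Ω)) (j : ℕ) (h : Ω → ℝ) :
    0 < node w L j (fun z => exp (ζ * a z)) h :=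
  (exp_pos _).trans_le (node_jensen hw hc hA ζ L j h)

theorem step_cmp {F G Y : (Ω → ℝ) → ℝ} (hF : Lg F) (hG : Lg G) (hY : Eg Y) (hY0 : ∀ z, 0 < Y z)
    {l : Lv Ω} {ζ : ℝ} (hζ : 0 < ζ) (hm : ζ ≤ l.m) (e : ∀ z, F z + ζ⁻¹ * log (Y z) ≤ G z)
    (z : Ω → ℝ) (hT : 0 < tE l F Y z) : step l F z + ζ⁻¹ * log (tE l F Y z) ≤ step l G z := by
  have hm0 : 0 < l.m := hζ.trans_le hm
  have hZ := hF.Z_pos l z
  set T := tE l F Y z with hTd
  set r := l.m / ζ with hr
  have hr1 : 1 ≤ r := by rw [hr, le_div_iff₀ hζ]; linarith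
  have key : exp (r * log T) * ∫ g, exp (l.m * F (z + l.fld g)) ∂gv l.ι ≤
      ∫ g, exp (l.m * G (z + l.fld g)) ∂gv l.ι := by
    have e1 : tE l F (fun y => exp (r * log T) * (r / T * Y y + (1 - r))) z = exp (r * log T) := by
      rw [tE_const_mul, tE_add hF (hY.const_mul _) (Eg.const _), tE_const hF, tE_const_mul, ← hTd]
      field_simp; ring
    rw [← e1, tE, div_mul_cancel₀ _ hZ.ne']
    refine integral_mono (hF.int (((hY.const_mul _).add (Eg.const _)).const_mul _) l z)
      ((hG.exp l.m).int l z) fun g => ?_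
    have y0 := hY0 (z + l.fld g)
    have b := one_add_mul_self_le_rpow_one_add (s := Y (z + l.fld g) / T - 1)
      (by linarith [div_pos y0 hT]) hr1
    rw [add_sub_cancel, rpow_def_of_pos (div_pos y0 hT), log_div y0.ne' hT.ne'] at b
    have e2 : exp (l.m * F (z + l.fld g)) * (exp (r * log T) *
        exp ((log (Y (z + l.fld g)) - log T) * r)) ≤ exp (l.m * G (z + l.fld g)) := by
      rw [← exp_add, ← exp_add, exp_le_exp]
      have := mul_le_mul_of_nonneg_left (e (z + l.fld g)) hm0.le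
      have e3 : r * log (Y (z + l.fld g)) = l.m * (ζ⁻¹ * log (Y (z + l.fld g))) := by
        rw [hr]; ring
      linarith
    refine le_trans ?_ e2
    simp only
    gcongr
    refine le_trans (le_of_eq ?_) b
    ring
  have := log_le_log (by positivity) key
  rw [log_mul (exp_pos _).ne' hZ.ne', log_exp] at this
  simp only [step, if_neg hm0.ne']
  have e4 : ζ⁻¹ * log T = l.m⁻¹ * (r * log T) := by rw [hr]; field_simp
  rw [e4, ← mul_add]
  exact mul_le_mul_of_nonneg_left (by linarith) (inv_pos.2 hm0).le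

theorem cmp_aux (hw : Wt w) (L₂ Lp : List (Lv Ω)) {ζ : ℝ} (hζ : 0 < ζ) {a : (Ω → ℝ) → ℝ} {A : ℝ}
    (hc : Continuous a) (hA : ∀ h, |a h| ≤ A) (e : ∀ h, X w L₂ h + a h ≤ X w Lp h) :
    ∀ L₁ : List (Lv Ω), (∀ l ∈ L₁, ζ ≤ l.m) → ∀ h, X w (L₁ ++ L₂) h +
      ζ⁻¹ * log (node w (L₁ ++ L₂) L₁.length (fun z => exp (ζ * a z)) h) ≤ X w (L₁ ++ Lp) h
  | [], _, h => by
    have : node w ([] ++ L₂) ([] : List (Lv Ω)).length (fun z => exp (ζ * a z)) h =
      exp (ζ * a h) := by cases L₂ <;> rfl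
    rw [this, log_exp, inv_mul_cancel_left₀ hζ.ne']
    exact e h
  | l :: L₁, hL, h =>
    step_cmp (lg_X hw _) (lg_X hw _) ((eg_exp hc hA ζ).node hw _ _) (node_pos hw hc hA ζ _ _) hζ
      (hL l (by simp)) (cmp_aux hw L₂ Lp hζ hc hA e L₁ fun k hk => hL k (by simp [hk])) h
      (node_pos hw hc hA ζ (l :: (L₁ ++ L₂)) (L₁.length + 1) h)

end C33

open C33

theorem cmpStmt : CmpStmt := by
  intro Ω _ w hw L₁ L₂ Lp Lm ζ hζ hL _ _ _ a A hc hA hp hm h
  have hA' : ∀ h, |(-a h)| ≤ A := fun h => by rw [abs_neg]; exact hA h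
  have hc' : Continuous fun z => -a z := hc.neg
  have h1 := cmp_aux hw L₂ Lp hζ hc hA hp L₁ hL h
  have h2 := cmp_aux hw L₂ Lm hζ hc' hA' (fun h => by
    simpa [sub_eq_add_neg] using hm h) L₁ hL h
  have j1 := node_jensen hw hc hA ζ (L₁ ++ L₂) L₁.length h
  have j2 := node_jensen hw hc' hA' ζ (L₁ ++ L₂) L₁.length h
  have e0 : node w (L₁ ++ L₂) L₁.length (fun z => -a z) h = -node w (L₁ ++ L₂) L₁.length a h := by
    simpa using congrFun (node_const_mul w a (-1) (L₁ ++ L₂) L₁.length) h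
  set c := node w (L₁ ++ L₂) L₁.length a h with hcd
  have j3 := node_jensen hw (a := fun z => |a z - c|) (A := A + |c|)
    ((hc.sub continuous_const).abs) (fun z => by
      rw [abs_abs]; exact (abs_sub _ _).trans (by linarith [hA z])) ζ (L₁ ++ L₂) L₁.length h
  have j4 := node_mono hw (Φ := fun z => exp (ζ * |a z - c|))
    (Φ' := fun z => exp (-(ζ * c)) * exp (ζ * a z) + exp (ζ * c) * exp (ζ * -a z))
    (eg_exp ((hc.sub continuous_const).abs) (A := A + |c|) (fun z => by
      rw [abs_abs]; exact (abs_sub _ _).trans (by linarith [hA z])) ζ)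
    (((eg_exp hc hA ζ).const_mul _).add ((eg_exp hc' hA' ζ).const_mul _)) (fun z => by
      rw [← exp_add, ← exp_add]
      rcases abs_cases (a z - c) with h | h <;> rw [h.1]
      · refine le_add_of_le_of_nonneg (le_of_eq ?_) (exp_pos _).le; congr 1; ring
      · refine le_add_of_nonneg_of_le (exp_pos _).le (le_of_eq ?_); congr 1; ring)
    (L₁ ++ L₂) L₁.length h
  rw [node_add hw ((eg_exp hc hA ζ).const_mul _) ((eg_exp hc' hA' ζ).const_mul _),
    node_const_mul, node_const_mul] at j4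
  simp only at j4
  rw [e0] at j2
  set α := node w (L₁ ++ L₂) L₁.length (fun z => exp (ζ * a z)) h
  set β := node w (L₁ ++ L₂) L₁.length (fun z => exp (ζ * -a z)) h
  have α0 : 0 < α := (exp_pos _).trans_le j1
  have β0 : 0 < β := (exp_pos _).trans_le j2
  have e1 : exp (-(ζ * c)) * exp (ζ * c) = 1 := by rw [← exp_add]; simp
  rw [mul_neg] at j2
  have j5 : exp (-(ζ * c)) * α + exp (ζ * c) * β ≤ 2 * (α * β) := by
    nlinarith [mul_le_mul_of_nonneg_right j1 β0.le, mul_le_mul_of_nonneg_right j2 α0.le]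
  have j6 := log_le_log (exp_pos _) (j3.trans (j4.trans j5))
  rw [log_exp, log_mul two_ne_zero (by positivity), log_mul α0.ne' β0.ne'] at j6
  have k1 := mul_le_mul_of_nonneg_left h1 hζ.le
  have k2 := mul_le_mul_of_nonneg_left h2 hζ.le
  rw [mul_add, mul_inv_cancel_left₀ hζ.ne'] at k1 k2
  linarith

theorem flatStmt : FlatStmt := by
  classical
  intro k M hM Ψ Lp hLp hΨ
  have hM0 : (2 : ℝ) ≤ M := by exact_mod_cast hM
  set lam : (Fin k → Fin (M + 1)) → ℕ → ℝ :=
    fun i j => if h : j < k then 1 + ((i ⟨j, h⟩ : ℕ) : ℝ) / M else 1 with hlam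
  have hv : ∀ v : Fin (M + 1), 0 ≤ ((v : ℕ) : ℝ) / M ∧ ((v : ℕ) : ℝ) / M ≤ 1 := fun v =>
    ⟨by positivity, by
      rw [div_le_one (by linarith)]; exact_mod_cast Nat.lt_succ_iff.1 v.2⟩
  have hbox : ∀ i, Box (lam i) := fun i j => by
    simp only [hlam]
    split_ifs with h
    · constructor <;> linarith [hv (i ⟨j, h⟩)]
    · norm_num
  have hupd : ∀ i (j : Fin k) v, lam (Function.update i j v) =
      Function.update (lam i) j (1 + ((v : ℕ) : ℝ) / M) := by
    intro i j v
    funext t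
    by_cases ht : t = j
    · subst ht; simp [hlam]
    · rw [Function.update_of_ne ht]
      simp only [hlam]
      split_ifs with h
      · rw [Function.update_of_ne fun e => ht (congrArg Fin.val e)]
      · rfl
  set φ : Fin (M + 1) → ℝ := fun v => (((v : ℕ) : ℝ) / M - 1 / 2) ^ 2 with hφ
  obtain ⟨i, hi⟩ := Finite.exists_max fun i : Fin k → Fin (M + 1) =>
    Ψ (lam i) - 4 * Lp * ∑ j, φ (i j)
  have key : ∀ (j : Fin k) (v : Fin (M + 1)),
      Ψ (Function.update (lam i) j (1 + ((v : ℕ) : ℝ) / M)) - Ψ (lam i) ≤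
        4 * Lp * (φ v - φ (i j)) := by
    intro j v
    have h := hi (Function.update i j v)
    have e : ∑ t, φ (Function.update i j v t) = ∑ t, φ (i t) + (φ v - φ (i j)) := by
      rw [← Finset.add_sum_erase _ _ (Finset.mem_univ j),
        ← Finset.add_sum_erase _ (fun t => φ (i t)) (Finset.mem_univ j), Function.update_self,
        Finset.sum_congr rfl fun t ht => by
          rw [Function.update_of_ne (Finset.ne_of_mem_erase ht)]]
      ring
    rw [hupd, e] at h
    linarith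
  refine ⟨lam i, hbox i, fun j hj => ?_⟩
  have hj' : lam i j = 1 + ((i ⟨j, hj⟩ : ℕ) : ℝ) / M := by simp [hlam, hj]
  have hu : 0 < 1 / (M : ℝ) := by positivity
  have hu2 : 1 / (M : ℝ) ≤ 1 / 2 := one_div_le_one_div_of_le two_pos hM0
  have lip : ∀ v : Fin (M + 1), -(Lp * |((v : ℕ) : ℝ) / M - ((i ⟨j, hj⟩ : ℕ) : ℝ) / M|) ≤
      4 * Lp * (φ v - φ (i ⟨j, hj⟩)) := fun v => by
    have h := hΨ (lam i) j (1 + ((v : ℕ) : ℝ) / M) (lam i j) (hbox i) (by linarith [hv v])
      (by linarith [hv v]) (hbox i j).1 (hbox i j).2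
    rw [Function.update_eq_self, hj', add_sub_add_left_eq_sub] at h
    exact le_trans (abs_le.1 h).1 (key ⟨j, hj⟩ v)
  obtain ⟨t, ht⟩ : ∃ t, t = i ⟨j, hj⟩ := ⟨_, rfl⟩
  rw [← ht] at lip hj'
  have h0 : (t : ℕ) ≠ 0 := fun h0 => by
    have := lip ⟨1, by omega⟩
    simp only [hφ, h0, Nat.cast_one, Nat.cast_zero, zero_div, sub_zero, abs_of_pos hu] at this
    nlinarith [mul_pos hLp hu]
  have hM' : (t : ℕ) ≠ M := fun h0 => by
    have := lip ⟨M - 1, by omega⟩
    have e1 : ((M - 1 : ℕ) : ℝ) / M = 1 - 1 / M := by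
      rw [Nat.cast_sub (by omega)]; field_simp; simp
    have e2 : (M : ℝ) / M = 1 := div_self (by linarith)
    simp only [hφ, h0, e1, e2, sub_sub_cancel_left, abs_neg, abs_of_pos hu] at this
    nlinarith [mul_pos hLp hu]
  have k1 := key ⟨j, hj⟩ ⟨t + 1, by omega⟩
  have k2 := key ⟨j, hj⟩ ⟨t - 1, by omega⟩
  have e1 : (((t : ℕ) + 1 : ℕ) : ℝ) / M = ((t : ℕ) : ℝ) / M + 1 / M := by push_cast; ring
  have e2 : (((t : ℕ) - 1 : ℕ) : ℝ) / M = ((t : ℕ) : ℝ) / M - 1 / M := by
    rw [Nat.cast_sub (by omega)]; push_cast; ring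
  simp only [hφ, ← ht, e1, e2] at k1 k2
  rw [d2, hj', add_assoc 1, add_sub_assoc 1]
  have e3 : 8 * Lp / (M : ℝ) ^ 2 = 8 * Lp * (1 / M) ^ 2 := by ring
  rw [e3]
  linarith

theorem omStmt : OmStmt := by
  classical
  intro N hN β
  have hN' : (0 : ℝ) < N := by exact_mod_cast hN
  have hcard : 2 * (Fintype.card (Pair N) : ℝ) ≤ (N : ℝ) ^ 2 := by
    have h := sum_sum_eq_two_mul_pair (n := N) (fun i j => if i = j then (0 : ℝ) else 1)
      (fun i j => by simp [eq_comm]) (fun i => by simp)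
    have h2 : ∑ p : Pair N, (if p.1.1 = p.1.2 then (0 : ℝ) else 1) = Fintype.card (Pair N) := by
      rw [Finset.sum_congr rfl fun p _ => if_neg (ne_of_lt p.2)]; simp
    rw [← h2, ← h]
    calc _ ≤ ∑ _i : Fin N, ∑ _j : Fin N, (1 : ℝ) :=
          Finset.sum_le_sum fun i _ => Finset.sum_le_sum fun j _ => by split_ifs <;> norm_num
      _ = _ := by simp [sq]
  have hm : ∀ (x : Cube N) (s : ℝ), s ^ 2 = 16 → Integrable (fun g => exp (s * (lW N β).fld g x))
      (gv (Pair N)) ∧ ∫ g, exp (s * (lW N β).fld g x) ∂gv (Pair N) ≤ exp (4 * β ^ 2 * N) := by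
    intro x s hs
    have hl := Conc.elip_dot ((lW N β).A x)
    refine ⟨hl.integrable_exp s, ?_⟩
    have h := Conc.mgf_lip hl s
    have e0 : ∫ y : Pair N → ℝ, ∑ i, (lW N β).A x i * y i ∂gv (Pair N) = 0 := by
      rw [integral_finsetSum _ fun i _ => (R339.Guerra.integrable_coord i).const_mul _]
      simp [integral_const_mul, R339.Guerra.integral_coord]
    rw [e0] at h
    simp only [sub_zero] at h
    refine h.trans (exp_le_exp.2 ?_)
    rw [Conc.en_sq, hs]
    have e1 : ∑ i, (lW N β).A x i ^ 2 = Fintype.card (Pair N) * (β ^ 2 / N) := by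
      simp only [mul_pow, div_pow, sq_sqrt hN'.le, sv, spin_sq, mul_one]
      simp
    rw [e1]
    have : (N : ℝ) ^ 2 * (β ^ 2 / N) = β ^ 2 * N := by field_simp
    nlinarith [mul_le_mul_of_nonneg_right hcard (by positivity : 0 ≤ β ^ 2 / N)]
  set a := 2 * exp (4 * β ^ 2) with ha
  have ha0 : 0 < a := by positivity
  have i1 : Integrable (fun g => ∑ x : Cube N, (exp (4 * (lW N β).fld g x) +
      exp (-4 * (lW N β).fld g x))) (gv (Pair N)) :=
    integrable_finsetSum _ fun x _ => (hm x 4 (by norm_num)).1.add (hm x (-4) (by norm_num)).1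
  have i2 : ∫ g, ∑ x : Cube N, (exp (4 * (lW N β).fld g x) + exp (-4 * (lW N β).fld g x))
      ∂gv (Pair N) ≤ 2 * a ^ N := by
    rw [integral_finsetSum (f := fun x g => exp (4 * (lW N β).fld g x) +
      exp (-4 * (lW N β).fld g x)) _ fun x _ =>
        (hm x 4 (by norm_num)).1.add (hm x (-4) (by norm_num)).1]
    calc _ ≤ ∑ _x : Cube N, 2 * exp (4 * β ^ 2 * N) := Finset.sum_le_sum fun x _ => by
          rw [integral_add (hm x 4 (by norm_num)).1 (hm x (-4) (by norm_num)).1]
          linarith [(hm x 4 (by norm_num)).2, (hm x (-4) (by norm_num)).2]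
      _ = _ := by
          rw [ha, mul_pow, ← exp_nat_mul]
          simp [mul_comm, mul_left_comm]
  have h1 := integral_mono_of_nonneg (f := fun g => om N ((lW N β).fld g))
    (.of_forall fun g => (exp_pos _).le) ((integrable_const a).add (i1.const_mul (a / a ^ N)))
    (.of_forall fun g => by
      simp only [Pi.add_apply]
      set h := (lW N β).fld g
      have p1 : om N h ^ N ≤ ∑ x : Cube N, (exp (4 * h x) + exp (-4 * h x)) := by
        rw [om, ← exp_nat_mul, mul_div_cancel₀ _ hN'.ne']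
        obtain ⟨x, hx⟩ := Finite.exists_max fun x => ‖h x‖
        have e : ‖h‖ ≤ |h x| := (pi_norm_le_iff_of_nonneg (abs_nonneg _)).2 hx
        refine le_trans ?_ (Finset.single_le_sum (f := fun x => exp (4 * h x) + exp (-4 * h x))
          (fun _ _ => by positivity) (Finset.mem_univ x))
        rcases abs_cases (h x) with h' | h'
        · exact le_add_of_le_of_nonneg (exp_le_exp.2 (by linarith)) (exp_pos _).le
        · exact le_add_of_nonneg_of_le (exp_pos _).le (exp_le_exp.2 (by linarith))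
      have p0 : 0 < om N h := exp_pos _
      by_cases hc : om N h ≤ a
      · exact le_add_of_le_of_nonneg hc (mul_nonneg (by positivity) ((by positivity :
          0 ≤ om N h ^ N).trans p1))
      · have q1 : 1 ≤ om N h / a := by rw [one_le_div ha0]; exact (not_le.1 hc).le
        have q2 := le_self_pow₀ q1 hN.ne'
        rw [div_pow, div_le_iff₀ ha0] at q2
        have q3 := mul_le_mul_of_nonneg_left p1 (by positivity : 0 ≤ a / a ^ N)
        have q4 : om N h ^ N / a ^ N * a = a / a ^ N * om N h ^ N := by ring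
        linarith)
  simp only [Pi.add_apply] at h1
  rw [integral_add (integrable_const a) (i1.const_mul _), integral_const_mul (a / a ^ N)] at h1
  simp only [integral_const, probReal_univ, smul_eq_mul, one_mul] at h1
  have h2 := mul_le_mul_of_nonneg_left i2 (by positivity : 0 ≤ a / a ^ N)
  have e : a / a ^ N * (2 * a ^ N) = 2 * a := by field_simp
  linarith

end Crest.Agent.T157.Plb

end
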