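import Crest.Agent.T157.PlbDef_78
import Crest.Agent.T157.CascB_65

/-!
# Row 157 (helper36): `Plb.VarStmt`, the Stein variance bound at a node of a cascade
-/

set_option autoImplicit false
set_option linter.unusedSectionVars false

noncomputable section

namespace Crest.Agent.T157.Plb

open MeasureTheory Real
open Crest.Agent.T157.E Crest.Agent.T157.Casc
open Crest.Agent.T157.SL (EG Pt Wt)
open Crest.Agent.R339.Guerra (dual dual_apply)

namespace Var36

variable {Ω : Type} [Fintype Ω] {w : Ω → ℝ}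

/-- mean of `b` at a node -/
def mb (w : Ω → ℝ) (L : List (Lv Ω)) (b : Ω → ℝ) (z : Ω → ℝ) : ℝ := ∑ x, P w L z x * b x

/-- derivative of `mb` in the direction `b` -/
def eta (w : Ω → ℝ) (L : List (Lv Ω)) (b : Ω → ℝ) (z : Ω → ℝ) : ℝ :=
  ∑ y, b y * ∑ x, b x * Hs w L z x y

theorem eg_mb (hw : Wt w) (L : List (Lv Ω)) (b : Ω → ℝ) : Eg (mb w L b) :=
  Eg.sum _ fun x _ => (eg_P hw L x).mul_const _

theorem eg_eta (hw : Wt w) (L : List (Lv Ω)) (b : Ω → ℝ) : Eg (eta w L b) :=
  Eg.sum _ fun y _ => (Eg.sum _ fun x _ => (eg_Hs hw L x y).const_mul _).const_mul _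

theorem gr_mb (hw : Wt w) (L : List (Lv Ω)) (b : Ω → ℝ) :
    Gr (mb w L b) fun y z => ∑ x, b x * Hs w L z x y := by
  have := Gr.sum Finset.univ fun x _ => (gr_P hw L x).const_mul (b x)
  have e : mb w L b = fun z => ∑ x, b x * P w L z x :=
    funext fun z => Finset.sum_congr rfl fun x _ => mul_comm _ _
  rw [e]; exact this

theorem mb_cons (hw : Wt w) (l : Lv Ω) (L : List (Lv Ω)) (b z : Ω → ℝ) :
    mb w (l :: L) b z = tE l (X w L) (mb w L b) z := by
  unfold mb
  rw [tE_sum (lg_X hw L) _ fun x _ => (eg_P hw L x).mul_const _]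
  simp only [tE_mul_const]
  rfl

theorem sum_sq (hw : Wt w) (L : List (Lv Ω)) (b z : Ω → ℝ) (a : ℝ) :
    ∑ x, P w L z x * (b x - a) ^ 2 =
      (mb w L (fun x => b x ^ 2) z - mb w L b z ^ 2) + (mb w L b z - a) ^ 2 := by
  have h1 := sum_P hw L z
  have : ∑ x, P w L z x * (b x - a) ^ 2 = ∑ x, P w L z x * b x ^ 2 -
      2 * a * ∑ x, P w L z x * b x + a ^ 2 * ∑ x, P w L z x := by
    simp only [Finset.mul_sum, ← Finset.sum_sub_distrib, ← Finset.sum_add_distrib]
    exact Finset.sum_congr rfl fun x _ => by ring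
  rw [this, h1]
  simp only [mb]
  ring

theorem var_nonneg (hw : Wt w) (L : List (Lv Ω)) (b z : Ω → ℝ) :
    0 ≤ mb w L (fun x => b x ^ 2) z - mb w L b z ^ 2 := by
  have h := sum_sq hw L b z (mb w L b z)
  have h0 : 0 ≤ ∑ x, P w L z x * (b x - mb w L b z) ^ 2 :=
    Finset.sum_nonneg fun x _ => mul_nonneg (P_nonneg hw L z x) (sq_nonneg _)
  rw [h] at h0
  simpa using h0

theorem sum_PP (p b : Ω → ℝ) (m : ℝ) :
    ∑ y, b y * ∑ x, b x * (m * (p x * p y)) = m * (∑ x, p x * b x) ^ 2 := by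
  rw [sq, Finset.sum_mul_sum, Finset.mul_sum]
  simp only [Finset.mul_sum]
  exact Finset.sum_comm.trans
    (Finset.sum_congr rfl fun y _ => Finset.sum_congr rfl fun x _ => by ring)

theorem eta_nil (b z : Ω → ℝ) :
    eta w [] b z = mb w [] (fun x => b x ^ 2) z - mb w [] b z ^ 2 := by
  classical
  have h := sum_PP (P w [] z) b 1
  simp only [one_mul] at h
  simp only [eta, Hs, mul_sub, Finset.sum_sub_distrib, mb]
  rw [h]
  congr 1
  refine Finset.sum_congr rfl fun y _ => ?_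
  rw [Finset.sum_eq_single y (fun x _ hx => by rw [if_neg hx, mul_zero]) (by simp), if_pos rfl]
  ring

theorem eta_cons (hw : Wt w) (l : Lv Ω) (L : List (Lv Ω)) (b z : Ω → ℝ) :
    eta w (l :: L) b z = tE l (X w L) (fun z => eta w L b z + l.m * mb w L b z ^ 2) z -
      l.m * mb w (l :: L) b z ^ 2 := by
  have hX := lg_X hw L
  have e0 : ∀ x y, Eg fun z => b x * (Hs w L z x y + l.m * (P w L z x * P w L z y)) := fun x y =>
    ((eg_Hs hw L x y).add (((eg_P hw L x).mul (eg_P hw L y)).const_mul _)).const_mul _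
  have e1 : (fun z => eta w L b z + l.m * mb w L b z ^ 2) =
      fun z => ∑ y, b y * ∑ x, b x * (Hs w L z x y + l.m * (P w L z x * P w L z y)) := by
    funext z
    simp only [mul_add, Finset.sum_add_distrib]
    rw [sum_PP]
    rfl
  rw [e1, tE_sum hX _ fun y _ => (Eg.sum _ fun x _ => e0 x y).const_mul _]
  simp only [tE_const_mul, fun y => tE_sum hX Finset.univ (fun x _ => e0 x y) l z]
  simp only [eta, Hs, mul_sub, Finset.sum_sub_distrib]
  rw [sum_PP]
  rfl

theorem eta_ge (hw : Wt w) (b : Ω → ℝ) : ∀ (L : List (Lv Ω)) (μ : ℝ), Mono μ L → ∀ z,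
    μ * (mb w L (fun x => b x ^ 2) z - mb w L b z ^ 2) ≤ eta w L b z
  | [], μ, hμ, z => by
    rw [eta_nil]
    have h := var_nonneg hw [] b z
    have h1 : μ ≤ 1 := hμ
    nlinarith
  | l :: L, μ, hμ, z => by
    have hX := lg_X hw L
    have h := var_nonneg hw (l :: L) b z
    have h1 : μ ≤ l.m := hμ.1
    have h2 : tE l (X w L) (fun z => l.m * mb w L (fun x => b x ^ 2) z) z ≤
        tE l (X w L) (fun z => eta w L b z + l.m * mb w L b z ^ 2) z :=
      tE_mono hX ((eg_mb hw L _).const_mul _)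
        ((eg_eta hw L b).add (((eg_mb hw L b).pow 2).const_mul _))
        (fun z => by linarith [eta_ge hw b L l.m hμ.2 z]) l z
    rw [tE_const_mul, ← mb_cons hw] at h2
    rw [eta_cons hw]
    nlinarith

/-! ### Stein calculus on the Gaussian space -/

section gauss
variable {ι : Type} [Fintype ι] {Φ : (ι → ℝ) → ℝ} {Ψ : ι → (ι → ℝ) → ℝ}

theorem eg_int (h : Eg Φ) : Integrable Φ (gv ι) := by
  classical
  exact (h.toEG Set.univ).int (t := 0) trivial

theorem stein0 (h : Gr Φ Ψ) (i : ι) : ∫ g, g i * Φ g ∂gv ι = ∫ g, Ψ i g ∂gv ι := by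
  classical
  refine SL.stein (h.eg.toEG Set.univ) ((h.eg' i).toEG Set.univ) (Set.mem_univ 0) i fun g => ?_
  have h2 := h.hasDerivAt (hasDerivAt_update g i (g i))
  simp only [Function.update_eq_self] at h2
  refine h2.congr_deriv ?_
  rw [Finset.sum_eq_single i (fun j _ hj => by simp [hj]) (by simp)]
  simp

theorem stein_dir (h : Gr Φ Ψ) (v : ι → ℝ) :
    ∫ g, (∑ i, v i * g i) * Φ g ∂gv ι = ∫ g, ∑ i, v i * Ψ i g ∂gv ι := by
  simp only [Finset.sum_mul, mul_assoc]
  rw [integral_finsetSum _ fun i _ => eg_int (((Eg.coord i).mul h.eg).const_mul _),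
    integral_finsetSum _ fun i _ => eg_int ((h.eg' i).const_mul _)]
  simp only [integral_const_mul, stein0 h]

theorem gr_coord (i : ι) : Gr (fun g : ι → ℝ => g i) fun j _ => by
    classical exact if j = i then 1 else 0 := by
  classical
  refine ⟨Eg.coord i, fun j => Eg.const _, fun g => ?_⟩
  refine ((ContinuousLinearMap.proj i : (ι → ℝ) →L[ℝ] ℝ).hasFDerivAt (x := g)).congr_fderiv ?_
  refine ContinuousLinearMap.ext fun u => ?_
  rw [dual_apply, Finset.sum_eq_single i (fun j _ hj => by simp [hj]) (by simp)]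
  simp

theorem gr_lin (v : ι → ℝ) : Gr (fun g : ι → ℝ => ∑ i, v i * g i) fun j _ => v j := by
  classical
  refine (Gr.sum Finset.univ fun i _ => (gr_coord i).const_mul (v i)).congr fun j g => ?_
  rw [Finset.sum_eq_single j (fun i _ hi => by simp [hi.symm]) (by simp)]
  simp

end gauss

section pull
variable {Φ : (Ω → ℝ) → ℝ} {Ψ : Ω → (Ω → ℝ) → ℝ}

theorem eg_pull (h : Eg Φ) (l : Lv Ω) (z : Ω → ℝ) : Eg fun g : l.ι → ℝ => Φ (z + l.fld g) := by
  classical
  obtain ⟨B, -, hB⟩ := (l.cst_okD Set.univ).toOkC.sh_bd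
  exact eg_of_EG ((h.toEG Set.univ).comp (J := Set.univ)
    (φ := fun p : Pt l.ι => (p.1, z + l.fld p.2))
    (by unfold Lv.fld; fun_prop) (fun _ _ => trivial) ‖z‖ B fun p _ =>
      (norm_add_le _ _).trans (add_le_add le_rfl (hB 0 p.2 trivial))) (Set.mem_univ 0)

theorem gr_pull (h : Gr Φ Ψ) (l : Lv Ω) (z : Ω → ℝ) :
    Gr (fun g : l.ι → ℝ => Φ (z + l.fld g)) fun i g => ∑ y, l.A y i * Ψ y (z + l.fld g) := by
  refine ⟨eg_pull h.eg l z, fun i => Eg.sum _ fun y _ => (eg_pull (h.eg' y) l z).const_mul _,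
    fun g => ?_⟩
  have h1 : HasFDerivAt (fun g : l.ι → ℝ => z + l.fld g)
      (ContinuousLinearMap.pi fun x => dual (l.A x)) g := by
    refine HasFDerivAt.const_add z ?_
    have := (ContinuousLinearMap.pi fun x => dual (l.A x)).hasFDerivAt (x := g)
    refine this.congr_of_eventuallyEq (Filter.Eventually.of_forall fun u => ?_)
    funext x
    simp [Lv.fld]
  refine ((h.fd _).comp g h1).congr_fderiv (ContinuousLinearMap.ext fun u => ?_)
  simp only [ContinuousLinearMap.comp_apply, dual_apply, ContinuousLinearMap.pi_apply,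
    Finset.mul_sum, Finset.sum_mul]
  exact Finset.sum_comm.trans
    (Finset.sum_congr rfl fun i _ => Finset.sum_congr rfl fun y _ => by ring)

end pull

theorem sum_dir (l : Lv Ω) (v : l.ι → ℝ) (q : Ω → ℝ) :
    ∑ i, v i * ∑ y, l.A y i * q y = ∑ y, l.fld v y * q y := by
  simp only [Lv.fld, Finset.mul_sum, Finset.sum_mul]
  exact Finset.sum_comm.trans
    (Finset.sum_congr rfl fun y _ => Finset.sum_congr rfl fun i _ => by ring)

/-- the Stein bound on the mean derivative -/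
theorem tE_eta_le (hw : Wt w) (l : Lv Ω) (L : List (Lv Ω)) (hm : 0 ≤ l.m)
    (h0 : ∀ b z, 0 ≤ eta w L b z) (h : Ω → ℝ) (v : l.ι → ℝ) (a : ℝ) :
    tE l (X w L) (eta w L (l.fld v)) h ≤
      √(∑ i, v i ^ 2) * √(tE l (X w L) (fun z => (mb w L (l.fld v) z - a) ^ 2) h) := by
  have hX := lg_X hw L
  set b := l.fld v with hb
  set ρ : (l.ι → ℝ) → ℝ := fun g => exp (l.m * X w L (h + l.fld g)) with hρ
  set f : (l.ι → ℝ) → ℝ := fun g => mb w L b (h + l.fld g) with hf
  set η : (l.ι → ℝ) → ℝ := fun g => eta w L b (h + l.fld g) with hη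
  set s : (l.ι → ℝ) → ℝ := fun g => ∑ i, v i * g i with hs
  have gρ := gr_pull ((gr_X hw L).exp hX l.m) l h
  have gf := gr_pull (gr_mb hw L b) l h
  have eρ : Eg ρ := gρ.eg
  have ef : Eg f := gf.eg
  have eη : Eg η := eg_pull (eg_eta hw L b) l h
  have es : Eg s := (gr_lin v).eg
  have dρ : ∀ g, ∑ i, v i * ∑ y, l.A y i * (exp (l.m * X w L (h + l.fld g)) *
      (l.m * P w L (h + l.fld g) y)) = ρ g * (l.m * f g) := by
    intro g
    rw [sum_dir]
    simp only [hρ, hf, mb, Finset.mul_sum]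
    exact Finset.sum_congr rfl fun y _ => by ring
  have df : ∀ g, ∑ i, v i * ∑ y, l.A y i * ∑ x, b x * Hs w L (h + l.fld g) x y = η g := by
    intro g
    rw [sum_dir]
    rfl
  -- the Stein identity under the tilt
  have key : ∀ {Φ : (l.ι → ℝ) → ℝ} {Ψ : l.ι → (l.ι → ℝ) → ℝ}, Gr Φ Ψ →
      ∫ g, ρ g * ((s g - l.m * f g) * Φ g) ∂gv l.ι = ∫ g, ρ g * ∑ i, v i * Ψ i g ∂gv l.ι := by
    intro Φ Ψ hΦ
    have h1 := stein_dir (gρ.mul hΦ) v
    have eD : Eg fun g => ∑ i, v i * Ψ i g := Eg.sum _ fun i _ => (hΦ.eg' i).const_mul _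
    have h2 : ∀ g, ∑ i, v i * ((∑ y, l.A y i * (exp (l.m * X w L (h + l.fld g)) *
        (l.m * P w L (h + l.fld g) y))) * Φ g + exp (l.m * X w L (h + l.fld g)) * Ψ i g) =
        ρ g * (l.m * f g) * Φ g + ρ g * ∑ i, v i * Ψ i g := by
      intro g
      rw [← dρ g, Finset.sum_mul, Finset.mul_sum, ← Finset.sum_add_distrib]
      exact Finset.sum_congr rfl fun i _ => by simp only [hρ]; ring
    simp only [h2] at h1
    rw [integral_add (eg_int ((eρ.mul (ef.const_mul _)).mul hΦ.eg)) (eg_int (eρ.mul eD))] at h1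
    have h3 : ∀ g, ρ g * ((s g - l.m * f g) * Φ g) =
        s g * (ρ g * Φ g) - ρ g * (l.m * f g) * Φ g := fun g => by ring
    simp only [h3]
    rw [integral_sub (eg_int (es.mul (eρ.mul hΦ.eg)))
      (eg_int ((eρ.mul (ef.const_mul _)).mul hΦ.eg))]
    linarith
  have k1 := key (gf.add (Gr.const (-a)))
  have k2 := key ((gr_lin v).add (gf.const_mul (-l.m)))
  simp only [add_zero, df] at k1
  have d2 : ∀ g, ∑ i, v i * (v i + -l.m * ∑ y, l.A y i * ∑ x, b x * Hs w L (h + l.fld g) x y) =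
      ∑ i, v i ^ 2 - l.m * η g := by
    intro g
    rw [← df g, Finset.mul_sum, ← Finset.sum_sub_distrib]
    exact Finset.sum_congr rfl fun i _ => by ring
  simp only [d2] at k2
  have hZ : 0 < ∫ g, ρ g ∂gv l.ι := hX.Z_pos l h
  set Z := ∫ g, ρ g ∂gv l.ι with hZd
  set E := ∫ g, ρ g * η g ∂gv l.ι with hE
  set V := ∫ g, ρ g * (f g - a) ^ 2 ∂gv l.ι with hV
  set N := ∑ i, v i ^ 2 with hN
  have hE0 : 0 ≤ E := integral_nonneg fun g => mul_nonneg (exp_pos _).le (h0 _ _)
  have hV0 : 0 ≤ V := integral_nonneg fun g => mul_nonneg (exp_pos _).le (sq_nonneg _)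
  have hN0 : 0 ≤ N := Finset.sum_nonneg fun i _ => sq_nonneg _
  have eU : Eg fun g => s g - l.m * f g := es.sub (ef.const_mul _)
  have efa : Eg fun g => f g - a := ef.sub (Eg.const a)
  have k3 : ∫ g, ρ g * (N - l.m * η g) ∂gv l.ι = N * Z - l.m * E := by
    have : ∀ g, ρ g * (N - l.m * η g) = N * ρ g - l.m * (ρ g * η g) := fun g => by ring
    simp only [this]
    rw [integral_sub (eg_int (eρ.const_mul _)) (eg_int ((eρ.mul eη).const_mul _)),
      integral_const_mul, integral_const_mul]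
  have k1' : ∫ g, ρ g * ((s g - l.m * f g) * (f g - a)) ∂gv l.ι = E := by
    rw [← k1]; rfl
  have k2' : ∫ g, ρ g * (s g - l.m * f g) ^ 2 ∂gv l.ι = N * Z - l.m * E := by
    rw [← k3, ← k2]
    congr 1
    funext g
    simp only [hs, hf]
    ring
  have hq : ∀ t : ℝ, 0 ≤ V * (t * t) + (-2 * E) * t + N * Z := by
    intro t
    have h1 : 0 ≤ ∫ g, ρ g * (t * (f g - a) - (s g - l.m * f g)) ^ 2 ∂gv l.ι :=
      integral_nonneg fun g => mul_nonneg (exp_pos _).le (sq_nonneg _)
    have h2 : ∀ g, ρ g * (t * (f g - a) - (s g - l.m * f g)) ^ 2 =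
        t * t * (ρ g * (f g - a) ^ 2) - 2 * t * (ρ g * ((s g - l.m * f g) * (f g - a))) +
          ρ g * (s g - l.m * f g) ^ 2 := fun g => by ring
    simp only [h2] at h1
    rw [integral_add (eg_int (((eρ.mul (efa.pow 2)).const_mul _).sub
        ((eρ.mul (eU.mul efa)).const_mul _))) (eg_int (eρ.mul (eU.pow 2))),
      integral_sub (eg_int ((eρ.mul (efa.pow 2)).const_mul _))
        (eg_int ((eρ.mul (eU.mul efa)).const_mul _)), integral_const_mul, integral_const_mul,
      k1', k2'] at h1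
    nlinarith [mul_nonneg hm hE0]
  have hd := discrim_le_zero hq
  rw [discrim] at hd
  have e1 : tE l (X w L) (eta w L b) h = E / Z := rfl
  have e2 : tE l (X w L) (fun z => (mb w L b z - a) ^ 2) h = V / Z := rfl
  rw [e1, e2, ← Real.sqrt_mul hN0]
  refine Real.le_sqrt_of_sq_le ?_
  rw [div_pow, div_le_iff₀ (by positivity)]
  have : N * (V / Z) * Z ^ 2 = V * (N * Z) := by field_simp
  rw [this]
  nlinarith

end Var36

open Var36

theorem varStmt : VarStmt := by
  intro Ω _ w hw l L μ hm hμ hL h v a Vf ha hV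
  have hX := lg_X hw L
  have h0 : ∀ b z, 0 ≤ eta w L b z := fun b z =>
    (mul_nonneg hμ.le (var_nonneg hw L b z)).trans (eta_ge hw b L μ hL z)
  have h1 := tE_eta_le hw l L hm h0 h v a
  have hV' : Vf = tE l (X w L) (fun z => (mb w L (l.fld v) z - a) ^ 2) h := hV
  rw [← hV'] at h1
  have e1 := (eg_mb hw L fun x => l.fld v x ^ 2).sub ((eg_mb hw L (l.fld v)).pow 2)
  have h2 : ∑ x, P w (l :: L) h x * (l.fld v x - a) ^ 2 =
      tE l (X w L) (fun z => mb w L (fun x => l.fld v x ^ 2) z - mb w L (l.fld v) z ^ 2) h + Vf := by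
    have := mb_cons hw l L (fun x => (l.fld v x - a) ^ 2) h
    rw [mb] at this
    rw [this, hV', ← tE_add hX e1 (((eg_mb hw L (l.fld v)).sub (Eg.const a)).pow 2)]
    congr 1
    funext z
    exact sum_sq hw L (l.fld v) z a
  have h3 : tE l (X w L)
      (fun z => μ * (mb w L (fun x => l.fld v x ^ 2) z - mb w L (l.fld v) z ^ 2)) h ≤
      tE l (X w L) (eta w L (l.fld v)) h :=
    tE_mono hX (e1.const_mul μ) (eg_eta hw L _) (eta_ge hw _ L μ hL) l h
  rw [tE_const_mul] at h3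
  rw [h2, add_comm]
  refine add_le_add le_rfl ?_
  rw [le_div_iff₀ hμ]
  linarith

end Crest.Agent.T157.Plb

end
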