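import Crest.Agent.T157.PlbB_78
import Crest.Agent.T157.PlbCmp_33
import Crest.Agent.T157.PlbVar_36
import Crest.Agent.T157.PlbDen_61

/-!
# Row 157: the polynomial-rate Parisi lower bound (helper78)
-/

set_option autoImplicit false
set_option linter.unusedSectionVars false

noncomputable section

namespace Crest.Agent.T157.Plb

open MeasureTheory Real Set
open Crest.Agent.T157.E Crest.Agent.T157.Casc Crest.Agent.T157.SL
open Crest.ProbabilityR.SpinGlassDynamics

variable {N : ℕ} {β : ℝ} {w : Cube N → ℝ}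

/-- **synchronisation**, unconditional -/
theorem sync_le : SyncStmt := syncStmt varStmt cmpStmt

/-! ### the cost of the perturbation -/

theorem amp_lip (hw : Wt w) (hN : 0 < N) {m : ℝ} (hm : 0 ≤ m) (s : ℝ) {L : List (Lv (Cube N))}
    (hL : Mono m L) (z : Cube N → ℝ) {a b : ℝ} (ha : 0 ≤ a) (hab : a ≤ b) :
    0 ≤ X w (fl N (m, s * b) :: L) z - X w (fl N (m, s * a) :: L) z ∧
      X w (fl N (m, s * b) :: L) z - X w (fl N (m, s * a) :: L) z ≤ b * s ^ 2 * N * (b - a) := by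
  rcases hab.eq_or_lt with rfl | hab
  · simp
  obtain ⟨t, ht, he⟩ := exists_hasDerivAt_eq_slope (fun t => X w (fl N (m, s * t) :: L) z) _ hab
    (fun t _ => (hasDerivAt_amp hw hN m s t L z).continuousAt.continuousWithinAt)
    fun t _ => hasDerivAt_amp hw hN m s t L z
  rw [eq_div_iff (sub_pos.2 hab).ne'] at he
  have hB := Bf_mem hw (l := fl N (m, s * t)) hm hL z
  have h0 : 0 ≤ t := ha.trans ht.1.le
  have h1 := sub_nonneg.2 hB.2
  have h2 := (sub_pos.2 hab).le
  rw [← he]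
  refine ⟨by positivity, mul_le_mul_of_nonneg_right ((mul_le_of_le_one_right (by positivity)
    (by linarith [hB.1])).trans ?_) h2⟩
  gcongr
  exact ht.2.le

theorem pert (hw : Wt w) (hN : 0 < N) : ∀ (ℓ : List (ℝ × ℝ)) (m0 : ℝ), 0 ≤ m0 → Mono m0 (fL N ℓ) →
    ∀ z, X w [] z ≤ X w (fL N ℓ) z ∧ X w (fL N ℓ) z ≤ X w [] z + N * tot ℓ
  | [], _, _, _, z => by simp [fL, tot]
  | a :: ℓ, _, h0, h, z => by
    have h1 := pert hw hN ℓ a.1 (h0.trans h.1) h.2 z
    have h2 := amp_lip hw hN (h0.trans h.1) a.2 h.2 z le_rfl zero_le_one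
    rw [C.X_cons w (fl N (a.1, a.2 * 0)), C.step_of_zero (l := fl N (a.1, a.2 * 0))
      fun x i => by simp, mul_one] at h2
    simp only [tot, fL, List.map_cons, List.sum_cons] at h1 h2 ⊢
    constructor <;> linarith [h1.1, h1.2, h2.1, h2.2]

theorem par_lip (hw : Wt w) (hN : 0 < N) (k : ℕ) (s : ℝ) (lam : ℕ → ℝ) (j : ℕ) {a b : ℝ}
    (ha : 1 ≤ a) (ha2 : a ≤ 2) (hb : 1 ≤ b) (hb2 : b ≤ 2) (z : Cube N → ℝ) :
    |X w (fL N (par k s (Function.update lam j a))) z -
      X w (fL N (par k s (Function.update lam j b))) z| ≤ 2 * s ^ 2 * N * |a - b| := by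
  wlog hab : b ≤ a generalizing a b
  · rw [abs_sub_comm, abs_sub_comm a]
    exact this hb hb2 ha ha2 (le_of_not_ge hab)
  rcases lt_or_ge j k with hj | hj
  · have hM := mono_drop N k s lam (k - (j + 1)) (j + 1) (by omega) (((j : ℝ) + 1) / ((k : ℝ) + 1))
      (div_le_div_of_nonneg_right (by simp) (by positivity))
    have h := fun z => amp_lip hw hN (by positivity) s hM z (zero_le_one.trans hb) hab
    have hc : a * s ^ 2 * N * (a - b) ≤ 2 * s ^ 2 * N * (a - b) := by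
      have := sub_nonneg.2 hab
      gcongr
    rw [par_update N k s lam hj, par_update N k s lam hj, abs_of_nonneg (sub_nonneg.2 hab), abs_le]
    have h1 := C.X_append_le hw hw (c := 0) (fun z => (sub_nonneg.1 (h z).1).trans (add_zero _).ge)
      ((fL N (par k s lam)).take j) z
    have h2 := C.X_append_le hw hw (fun z => sub_le_iff_le_add'.1 ((h z).2.trans hc))
      ((fL N (par k s lam)).take j) z
    have : 0 ≤ 2 * s ^ 2 * N * (a - b) := by have := sub_nonneg.2 hab; positivity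
    constructor <;> linarith
  · have e : ∀ c, par k s (Function.update lam j c) = par k s lam := fun c =>
      List.map_congr_left fun i hi => by
        rw [Function.update_of_ne (by have := List.mem_range.1 hi; omega)]
    rw [e, e, sub_self, abs_zero]; positivity

/-- the perturbed free energy -/
def FE (N : ℕ) (β : ℝ) (ℓ : List (ℝ × ℝ)) : ℝ := X (fun _ => 1) (lW N β :: fL N ℓ) 0

theorem FE_nil (n : ℕ) (β : ℝ) : FE n β [] = ∫ g, log (∑ x, gibbsWeight n β g x) ∂disorderLaw n := by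
  rw [FE, C.X_cons, C.step_zero rfl, disorderLaw_eq]
  refine integral_congr_ae (.of_forall fun g => ?_)
  simp only [fL, List.map_nil, X, zero_add, one_mul, gibbsWeight, Lv.fld, sv]
  congr 1
  refine Finset.sum_congr rfl fun x _ => ?_
  congr 1
  exact Finset.sum_congr rfl fun p _ => by ring

theorem FE_nonneg (n : ℕ) (β : ℝ) : 0 ≤ FE n β [] := by
  have h := C.int_lin ((lW n β).A fun _ => true)
  rw [FE, C.X_cons, C.step_zero rfl, ← h]
  refine integral_mono (integrable_finsetSum _ fun i _ =>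
    (R339.Guerra.integrable_coord i).const_mul _) ((lg_X wt1 _).eg.int _ _) fun g => ?_
  simp only [fL, List.map_nil, X, zero_add, one_mul]
  rw [le_log_iff_exp_le (Finset.sum_pos (fun _ _ => exp_pos _) Finset.univ_nonempty)]
  exact Finset.single_le_sum (f := fun x => exp ((lW n β).fld g x)) (fun _ _ => (exp_pos _).le)
    (Finset.mem_univ _)

theorem FE_pert (hN : 0 < N) (β : ℝ) (k : ℕ) (s : ℝ) {lam : ℕ → ℝ} (hl : Box lam) :
    FE N β [] ≤ FE N β (par k s lam) ∧ FE N β (par k s lam) ≤ FE N β [] + N * (4 * (k * s ^ 2)) := by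
  have h := pert (wt1 (Ω := Cube N)) hN (par k s lam) 0 le_rfl (mono_par N k s lam)
  have h1 := C.X_append_le wt1 wt1 (c := 0) (fun z => (h z).1.trans (add_zero _).ge) [lW N β] 0
  have h2 := C.X_append_le wt1 wt1 (fun z => (h z).2) [lW N β] 0
  have h3 := mul_le_mul_of_nonneg_left (tot_par k s hl) (Nat.cast_nonneg (α := ℝ) N)
  simp only [List.cons_append, List.nil_append, add_zero] at h1 h2
  exact ⟨h1, h2.trans (add_le_add le_rfl h3)⟩

/-- the temperature of the cavity system -/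
def bt (β : ℝ) (N : ℕ) : ℝ := β * √(N / (N + 1))

theorem int_om_le (hN : 0 < N) (β : ℝ) :
    ∫ g, om N ((lW N (bt β N)).fld g) ∂gv (Pair N) ≤ 6 * exp (4 * β ^ 2) := by
  refine (omStmt N hN _).trans (mul_le_mul_of_nonneg_left (exp_le_exp.2 ?_) (by norm_num))
  rw [bt, mul_pow, sq_sqrt (by positivity)]
  have : (N : ℝ) / (N + 1) ≤ 1 := by rw [div_le_one (by positivity)]; linarith
  nlinarith [sq_nonneg β]

theorem eg_tail {Φ : (Cube (N + 1) → ℝ) → ℝ} (h : Eg Φ) :
    Eg fun z : Cube N → ℝ => Φ fun x => z (Fin.tail x) := by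
  obtain ⟨C, c, h1, h2, h3⟩ := h.bd
  refine ⟨h.cont.comp (by fun_prop), C, c, h1, h2, fun z => (h3 _).trans ?_⟩
  gcongr
  exact (pi_norm_le_iff_of_nonneg (norm_nonneg _)).2 fun x => norm_le_pi_norm z _

/-- weighted expectation over the cavity Hamiltonian -/
def Iw (β : ℝ) (N : ℕ) (Φ : (Cube N → ℝ) → ℝ) : ℝ :=
  ∫ g, om N ((lW N (bt β N)).fld g) * Φ ((lW N (bt β N)).fld g) ∂gv (Pair N)

section Iw
variable {Φ Φ' : (Cube N → ℝ) → ℝ}

theorem Iw_int (h : Eg Φ) : Integrable (fun g => om N ((lW N (bt β N)).fld g) *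
    Φ ((lW N (bt β N)).fld g)) (gv (Pair N)) := Eg.int0 ((eg_om N).mul h) (lW N (bt β N))

theorem Iw_add (h : Eg Φ) (h' : Eg Φ') : Iw β N (fun z => Φ z + Φ' z) = Iw β N Φ + Iw β N Φ' := by
  simp only [Iw, mul_add]; exact integral_add (Iw_int h) (Iw_int h')

theorem Iw_sub (h : Eg Φ) (h' : Eg Φ') : Iw β N (fun z => Φ z - Φ' z) = Iw β N Φ - Iw β N Φ' := by
  simp only [Iw, mul_sub]; exact integral_sub (Iw_int h) (Iw_int h')

theorem Iw_cmul (c : ℝ) : Iw β N (fun z => c * Φ z) = c * Iw β N Φ := by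
  simp only [Iw, mul_left_comm _ c]; exact integral_const_mul _ _

theorem Iw_sum {κ : Type*} (s : Finset κ) {Φ : κ → (Cube N → ℝ) → ℝ} (h : ∀ j, Eg (Φ j)) :
    Iw β N (fun z => ∑ j ∈ s, Φ j z) = ∑ j ∈ s, Iw β N (Φ j) := by
  simp only [Iw, Finset.mul_sum]; exact integral_finsetSum _ fun j _ => Iw_int (h j)

theorem Iw_le (hN : 0 < N) (h : Eg Φ) {c : ℝ} (hc : 0 ≤ c) (e : ∀ z, Φ z ≤ c) :
    Iw β N Φ ≤ c * (6 * exp (4 * β ^ 2)) := by
  refine (integral_mono (Iw_int h) (Iw_int (Eg.const c)) fun g =>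
    mul_le_mul_of_nonneg_left (e _) (zero_le_one.trans (one_le_om _))).trans ?_
  rw [integral_mul_const, mul_comm]
  exact mul_le_mul_of_nonneg_left (int_om_le hN β) hc

end Iw

/-- one increment -/
theorem incr (hβ : 0 < β) : ∃ C : ℝ, 0 ≤ C ∧ ∀ P : ℝ, IsLB β P → ∀ (N k : ℕ), 0 < N →
    ∀ (s : ℝ) (lam : ℕ → ℝ), Box lam → k * s ^ 2 ≤ 1 → ∀ Em : (Cube N → ℝ) → ℝ, Eg Em →
    (∀ h, sync (fun _ => 1) (fL N (par k s lam)) h ≤ Em h) →
    FE N β (par k s lam) + β * P - C * (Iw β N Em + (1 / N + k * s ^ 2 + 1 / (k + 1))) ≤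
      FE (N + 1) β (par k s lam) := by
  obtain ⟨C, hC, hA⟩ := aStmt denStmt β hβ
  refine ⟨C + β ^ 2 / 2, by positivity, fun P hP N k hN s lam hl hs Em hE hEm => ?_⟩
  have hB := bStmt denStmt β hβ N k hN s lam Em hE hEm (bt β N) rfl
  set L := fL N (par k s lam) with hL
  set c : ℝ := 1 / N + k * s ^ 2 + 1 / (k + 1) with hc
  have hc0 : 0 ≤ c := by positivity
  have i1 := Eg.int0 (lg_X wt1 L).eg (lW N (bt β N))
  have i2 := (Eg.int0 ((Eg.const 1).sub (eg_pp wt1 L)) (lW N (bt β N))).const_mul (β ^ 2 / 4)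
  have i3 := (Iw_int (β := β) hE).const_mul C
  have i4 := Eg.int0 (eg_tail (lg_X wt1 (lz N β :: fL (N + 1) (par k s lam))).eg) (lW N (bt β N))
  have h1 := integral_mono ((i1.add i2).add (integrable_const (β * P - C * c))) (i4.add i3) fun g => by
      have a1 := hA P hP N k hN s lam hl hs ((lW N (bt β N)).fld g)
      have a2 := (hEm ((lW N (bt β N)).fld g)).trans (le_mul_of_one_le_left
        ((sync_nonneg wt1 (mono_par N k s lam) _).trans (hEm _)) (one_le_om ((lW N (bt β N)).fld g)))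
      have a3 := mul_le_mul_of_nonneg_left a2 hC
      simp only [Pi.add_apply, hc]
      linarith
  rw [integral_add' (i1.add i2) (integrable_const _), integral_add' i1 i2, integral_add' i4 i3,
    integral_const_mul, integral_const_mul] at h1
  simp only [integral_const, probReal_univ, smul_eq_mul, one_mul] at h1
  have h2 : X (fun _ => 1) (lW N (bt β N) :: L) 0 =
      ∫ g, X (fun _ => 1) L ((lW N (bt β N)).fld g) ∂gv (Pair N) := by
    rw [Casc.C.X_cons, Casc.C.step_zero rfl]; simp only [zero_add]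
  have h3 := mul_nonneg (sq_nonneg β) hc0
  rw [FE, FE, split_W hN _ (β' := bt β N) rfl, Iw]
  linarith

/-- the numerical bounds for the chosen parameters -/
theorem num {r n N k s u : ℝ} (hr1 : 2 ≤ r) (hn0 : 0 < n) (hN3 : n ≤ 3 * N) (hk' : k = r ^ 2)
    (hs0 : 0 < s) (hs2 : s ^ 2 = r ^ 8 / n) (hu' : u = 1 / r ^ 3) :
    6 / (k + 1) + 1 / ((k + 1) * (1 / r)) + 1 / r + 2 * √((k + 1) / (s * √N)) +
      2 * (k * ((k + 1) * log 2 / (u * s ^ 2 * N))) ≤ 24 / r := by
  have hr0 : 0 < r := by linarith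
  have hN1 : 0 < N := by linarith
  have hk1 : 1 / (k + 1) ≤ 1 / r := one_div_le_one_div_of_le hr0 (by rw [hk']; nlinarith)
  have b1 : √((k + 1) / (s * √N)) ≤ 2 / r := by
    refine sqrt_le_iff.2 ⟨by positivity, ?_⟩
    have a1 : r ^ 4 / 2 ≤ s * √N := by
      refine abs_le_of_sq_le_sq' ?_ (by positivity) |>.2
      rw [mul_pow, hs2, sq_sqrt hN1.le, div_mul_eq_mul_div, le_div_iff₀ hn0]
      have : 0 < r ^ 8 := by positivity
      nlinarith
    rw [div_le_iff₀ (by positivity)]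
    refine le_trans ?_ (mul_le_mul_of_nonneg_left a1 (by positivity))
    rw [hk', show (2 / r) ^ 2 * (r ^ 4 / 2) = 2 * r ^ 2 by field_simp]
    nlinarith
  have b2 : 2 * (k * ((k + 1) * log 2 / (u * s ^ 2 * N))) ≤ 12 / r := by
    have a1 : log 2 ≤ 1 := by have := log_two_lt_d9; linarith
    have a2 : r ^ 5 / 3 ≤ u * s ^ 2 * N := by
      rw [hu', hs2, show 1 / r ^ 3 * (r ^ 8 / n) * N = r ^ 5 * N / n by field_simp,
        div_le_div_iff₀ (by norm_num) hn0]
      have : 0 < r ^ 5 := by positivity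
      nlinarith
    have a3 : (k + 1) * log 2 ≤ 2 * r ^ 2 := by
      rw [hk']; nlinarith [log_pos one_lt_two]
    have a4 := div_le_div₀ (by positivity) a3 (by positivity) a2
    refine (mul_le_mul_of_nonneg_left (mul_le_mul_of_nonneg_left a4 (by rw [hk']; positivity))
      zero_le_two).trans (le_of_eq ?_)
    rw [hk']; field_simp; ring
  have b3 : 1 / ((k + 1) * (1 / r)) ≤ 1 / r := by
    refine one_div_le_one_div_of_le hr0 ?_
    rw [hk', mul_one_div, le_div_iff₀ hr0]; nlinarith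
  have a3 : 6 / (k + 1) = 6 * (1 / (k + 1)) := by ring
  have a4 : 24 / r = 24 * (1 / r) := by ring
  have a5 : 12 / r = 12 * (1 / r) := by ring
  have a6 : 2 / r = 2 * (1 / r) := by ring
  linarith

theorem eg_d2 (k : ℕ) (s u : ℝ) (lam : ℕ → ℝ) (j : ℕ) :
    Eg fun z : Cube N → ℝ => d2 (fun lam => X (fun _ => 1) (fL N (par k s lam)) z) u lam j :=
  ((lg_X wt1 _).eg.add (lg_X wt1 _).eg).sub ((lg_X wt1 _).eg.const_mul 2)

/-- a good value of the perturbation -/
theorem exists_lam (β : ℝ) (k M n : ℕ) (hM : 2 ≤ M) (hn : 2 ≤ n) {s : ℝ} (hs : 0 < s) :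
    ∃ lam, Box lam ∧ ∀ j < k, ∑ N ∈ Finset.Ico (n / 2) n, (N : ℝ)⁻¹ * Iw β N (fun z =>
      d2 (fun lam => X (fun _ => 1) (fL N (par k s lam)) z) (1 / M) lam j) ≤
      16 * n * (6 * exp (4 * β ^ 2)) * (s ^ 2 * (1 / M) ^ 2) := by
  set Ω := 6 * exp (4 * β ^ 2) with hΩ
  have hX : ∀ N lam, Eg (X (fun _ => 1) (fL N (par k s lam))) := fun N lam => (lg_X wt1 _).eg
  obtain ⟨lam, hl, hd⟩ := flatStmt k M hM
    (fun lam => ∑ N ∈ Finset.Ico (n / 2) n, (N : ℝ)⁻¹ * Iw β N (X (fun _ => 1) (fL N (par k s lam))))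
    (n * (2 * s ^ 2 * Ω)) (by positivity) fun lam j a b _ ha ha2 hb hb2 => by
      rw [← Finset.sum_sub_distrib]
      refine (Finset.abs_sum_le_sum_abs _ _).trans ((Finset.sum_le_card_nsmul _ _
        (2 * s ^ 2 * Ω * |a - b|) fun N hN => ?_).trans ?_)
      · have hN0 : 0 < N := by have := (Finset.mem_Ico.1 hN).1; omega
        have hN1 : (0 : ℝ) < N := by positivity
        have h := fun z => abs_le.1 (par_lip wt1 hN0 k s lam j ha ha2 hb hb2 z)
        have h1 := Iw_le (β := β) hN0 ((hX N _).sub (hX N _)) (by positivity) fun z => (h z).2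
        have h2 := Iw_le (β := β) hN0 ((hX N _).sub (hX N _)) (by positivity) fun z =>
          (neg_sub _ _).ge.trans (neg_le.1 (h z).1)
        rw [Iw_sub (hX _ _) (hX _ _)] at h1 h2
        rw [← mul_sub, abs_mul, abs_of_pos (inv_pos.2 hN1), inv_mul_le_iff₀ hN1, abs_le]
        constructor <;> linarith
      · have : ((Finset.Ico (n / 2) n).card : ℝ) ≤ n := by
          exact_mod_cast (by simp : (Finset.Ico (n / 2) n).card ≤ n)
        rw [nsmul_eq_mul, ← mul_assoc]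
        gcongr
  refine ⟨lam, hl, fun j hj => le_trans (le_of_eq ?_) ((hd j hj).trans (le_of_eq (by ring)))⟩
  simp only [d2, Finset.mul_sum, ← Finset.sum_add_distrib, ← Finset.sum_sub_distrib]
  refine Finset.sum_congr rfl fun N _ => ?_
  rw [Iw_sub ((hX _ _).add (hX _ _)) ((hX _ _).const_mul 2), Iw_add (hX _ _) (hX _ _), Iw_cmul]
  ring

/-- the dyadic step -/
theorem dyadic (hβ : 0 < β) : ∃ C : ℝ, 0 ≤ C ∧ ∀ P : ℝ, IsLB β P → ∀ n r : ℕ, 2 ≤ r → r ^ 11 ≤ n →
    FE (n / 2) β [] + (n - (n / 2 : ℕ)) * (β * P) - C * (n / r) ≤ FE n β [] := by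
  obtain ⟨C, hC, hI⟩ := incr hβ
  set Ω := 6 * exp (4 * β ^ 2) with hΩ
  have hΩ0 : 0 < Ω := by positivity
  refine ⟨C * (56 * Ω + 5) + 4, by positivity, fun P hP n r hr hn => ?_⟩
  have hr1 : (2 : ℝ) ≤ r := by exact_mod_cast hr
  have hr0 : (0 : ℝ) < r := by linarith
  have hn1 : (r : ℝ) ^ 11 ≤ n := by exact_mod_cast hn
  have hrn : r ≤ n := (Nat.le_self_pow (by norm_num) r).trans hn
  have hrn' : (r : ℝ) ≤ n := by exact_mod_cast hrn
  have hn0 : (0 : ℝ) < n := by linarith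
  obtain ⟨k, hk'⟩ : ∃ k : ℕ, (k : ℝ) = r ^ 2 := ⟨r ^ 2, by simp⟩
  obtain ⟨s, hs0, hs2⟩ : ∃ s : ℝ, 0 < s ∧ s ^ 2 = r ^ 8 / n :=
    ⟨√((r : ℝ) ^ 8 / n), sqrt_pos.2 (by positivity), sq_sqrt (by positivity)⟩
  have hks : k * s ^ 2 ≤ 1 / r := by
    rw [hk', hs2, ← mul_div_assoc, div_le_div_iff₀ hn0 hr0]; linarith
  have hr2 : 1 / (r : ℝ) ≤ 1 := by rw [div_le_one hr0]; linarith
  have hk1 : 1 / ((k : ℝ) + 1) ≤ 1 / r := one_div_le_one_div_of_le hr0 (by rw [hk']; nlinarith)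
  obtain ⟨lam, hl, hd'⟩ := exists_lam β k (r ^ 3) n
    ((by norm_num : 2 ≤ 2 ^ 3).trans (Nat.pow_le_pow_left hr 3)) (by omega) hs0
  obtain ⟨u, hu, hu'⟩ : ∃ u : ℝ, 1 / ((r ^ 3 : ℕ) : ℝ) = u ∧ u = 1 / r ^ 3 := ⟨_, rfl, by simp⟩
  have hu0 : 0 < u := by rw [hu']; positivity
  rw [hu, ← hΩ] at hd'
  set S := Finset.Ico (n / 2) n with hS
  have hcard : (S.card : ℝ) ≤ n := by exact_mod_cast (by simp [hS] : S.card ≤ n)
  obtain ⟨D, hD⟩ : ∃ D : ℕ → ℕ → ℝ, ∀ N j, Iw β N (fun z =>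
      d2 (fun lam => X (fun _ => 1) (fL N (par k s lam)) z) u lam j) = D N j := ⟨_, fun _ _ => rfl⟩
  simp only [hD] at hd'
  have hinc : ∀ N ∈ S, β * P - C * ((24 * Ω + 5) / r +
      2 / (u * s ^ 2) * ∑ j ∈ Finset.range k, (N : ℝ)⁻¹ * D N j) ≤
      FE (N + 1) β (par k s lam) - FE N β (par k s lam) := fun N hN => by
    have hN' := (Finset.mem_Ico.1 hN).1
    have hN0 : 0 < N := by omega
    have hN3 : (n : ℝ) ≤ 3 * N := by exact_mod_cast (by omega : n ≤ 3 * N)
    have hN1 : (0 : ℝ) < N := by positivity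
    have hE := (Eg.sum (Finset.range k) fun j _ =>
      (eg_d2 (N := N) k s u lam j).const_mul (N : ℝ)⁻¹).const_mul (2 / (u * s ^ 2))
    have h1 := hI P hP N k hN0 s lam hl (hks.trans hr2) _ ((Eg.const (24 / r)).add hE) fun h => by
      have a1 := sync_le N k _ wt1 hN0 s u (1 / r) hs0 hu0 (by positivity) lam (fun j => (hl j).1) h
      have a2 := num hr1 hn0 hN3 hk' hs0 hs2 hu'
      refine a1.trans (le_trans (le_of_eq ?_) (add_le_add a2 le_rfl))
      simp only [add_div, Finset.sum_add_distrib, Finset.sum_const, Finset.card_range,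
        nsmul_eq_mul, mul_add, Finset.mul_sum, add_assoc]
      congr 5
      exact Finset.sum_congr rfl fun j _ => by field_simp
    rw [Iw_add (Eg.const _) hE, Iw_cmul, Iw_sum _ fun j => (eg_d2 k s u lam j).const_mul _] at h1
    simp only [Iw_cmul, hD] at h1
    have h3 := Iw_le (β := β) hN0 (Eg.const (24 / r)) (by positivity) fun _ => le_rfl
    have h4 : 1 / (N : ℝ) ≤ 3 * (1 / r) := by
      rw [mul_one_div, div_le_div_iff₀ hN1 hr0]; linarith
    have h5 : Iw β N (fun _ => 24 / r) + (1 / N + k * s ^ 2 + 1 / (k + 1)) ≤ (24 * Ω + 5) / r := by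
      rw [show (24 * Ω + 5) / r = 24 / r * Ω + 5 * (1 / r) by ring]
      linarith
    have h6 := mul_le_mul_of_nonneg_left h5 hC
    linarith
  have h1 := Finset.sum_le_sum hinc
  rw [Finset.sum_Ico_sub (fun N => FE N β (par k s lam)) (Nat.div_le_self n 2),
    Finset.sum_sub_distrib, ← Finset.mul_sum _ _ C, Finset.sum_add_distrib,
    ← Finset.mul_sum _ _ (2 / (u * s ^ 2)), Finset.sum_comm, Finset.sum_const, Finset.sum_const,
    nsmul_eq_mul, nsmul_eq_mul] at h1
  have h2 : 2 / (u * s ^ 2) * ∑ j ∈ Finset.range k, ∑ N ∈ S, (N : ℝ)⁻¹ * D N j ≤ 32 * Ω * (n / r) := by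
    have := Finset.sum_le_card_nsmul _ _ _ fun j hj => hd' j (Finset.mem_range.1 hj)
    rw [Finset.card_range, nsmul_eq_mul] at this
    refine (mul_le_mul_of_nonneg_left this (by positivity)).trans (le_of_eq ?_)
    rw [hk', hu']; field_simp; ring
  have h3 : (S.card : ℝ) * ((24 * Ω + 5) / r) ≤ (24 * Ω + 5) * (n / r) :=
    (mul_le_mul_of_nonneg_right hcard (by positivity)).trans (le_of_eq (by ring))
  have h4 := mul_le_mul_of_nonneg_left (add_le_add h3 h2) hC
  have h5 : (S.card : ℝ) = n - (n / 2 : ℕ) := by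
    rw [hS, Nat.card_Ico, Nat.cast_sub (Nat.div_le_self n 2)]
  have h6 := (FE_pert (N := n / 2) (by omega) β k s hl).1
  have h7 := (FE_pert (N := n) (by omega) β k s hl).2
  have h8 : n * (4 * (k * s ^ 2)) ≤ 4 * ((n : ℝ) / r) :=
    (mul_le_mul_of_nonneg_left (mul_le_mul_of_nonneg_left hks zero_le_four) hn0.le).trans
      (le_of_eq (by ring))
  rw [← h5]
  linarith

/-- **polynomial-rate Parisi lower bound** -/
theorem plbStmt : PlbStmt := by
  intro β hβ
  obtain ⟨C, hC, hD⟩ := dyadic hβ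
  set θ : ℝ := (1 / 2) ^ ((10 : ℝ) / 11) with hθ
  have hθ1 : θ < 1 := rpow_lt_one (by norm_num) (by norm_num) (by norm_num)
  set P0 := |R339.Guerra.Phi β [(β, 1)] 0 - R339.Guerra.pen 0 [(β, 1)] / 4| with hP0
  set C' := 2 * C / (1 - θ) + 2 * (β * P0) with hC'
  have h1 : 0 ≤ 2 * C / (1 - θ) := by have := sub_pos.2 hθ1; positivity
  have h2 : 0 ≤ β * P0 := by positivity
  refine ⟨C', fun P hP n => ?_⟩
  have hPP : β * P ≤ β * P0 := mul_le_mul_of_nonneg_left
    ((hP [(β, 1)] ⟨hβ, le_rfl, zero_le_one, trivial⟩ (by simp)).trans (le_abs_self _)) hβ.le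
  rw [← FE_nil]
  induction n using Nat.strong_induction_on with
  | _ n ih =>
  set x := (n : ℝ) ^ ((1 : ℝ) / 11) with hx
  set y := (n : ℝ) ^ ((10 : ℝ) / 11) with hy
  have hx0 : 0 ≤ x := by positivity
  have hy0 : 0 ≤ y := by positivity
  have hxy : x * y = n := by
    rw [hx, hy, ← rpow_add' (by positivity) (by norm_num)]; norm_num
  have hx11 : x ^ 11 = n := by
    rw [hx, ← rpow_natCast, ← rpow_mul (by positivity)]; norm_num
  rcases le_or_gt 2 x with h | h
  · have hr : 2 ≤ ⌊x⌋₊ := Nat.le_floor (by exact_mod_cast h)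
    have hr1 : (2 : ℝ) ≤ ⌊x⌋₊ := by exact_mod_cast hr
    have hn : ⌊x⌋₊ ^ 11 ≤ n := by
      have : ((⌊x⌋₊ : ℝ)) ^ 11 ≤ n := hx11 ▸ pow_le_pow_left₀ (by positivity) (Nat.floor_le hx0) 11
      exact_mod_cast this
    have hn2 : 0 < n := lt_of_lt_of_le (by positivity) hn
    have a1 := hD P hP n _ hr hn
    have a2 := ih (n / 2) (by omega)
    have a3 : (n : ℝ) / ⌊x⌋₊ ≤ 2 * y := by
      rw [div_le_iff₀ (by linarith), ← hxy]
      have := Nat.lt_floor_add_one x
      nlinarith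
    have a4 : ((n / 2 : ℕ) : ℝ) ^ ((10 : ℝ) / 11) ≤ θ * y := by
      rw [hθ, hy, ← mul_rpow (by norm_num) (by positivity)]
      exact rpow_le_rpow (by positivity) (Nat.cast_div_le.trans (le_of_eq (by push_cast; ring)))
        (by norm_num)
    have a5 := mul_le_mul_of_nonneg_left a3 hC
    have a6 := mul_le_mul_of_nonneg_left a4 (show 0 ≤ C' by positivity)
    have a7 : 2 * C ≤ C' * (1 - θ) := by
      rw [hC', add_mul, div_mul_cancel₀ _ (sub_pos.2 hθ1).ne']
      have := sub_pos.2 hθ1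
      nlinarith
    have a8 := mul_le_mul_of_nonneg_right a7 hy0
    linarith
  · have a1 := FE_nonneg n β
    have a2 := mul_le_mul_of_nonneg_left hPP (Nat.cast_nonneg (α := ℝ) n)
    have a3 : (n : ℝ) ≤ 2 * y := by rw [← hxy]; exact mul_le_mul_of_nonneg_right h.le hy0
    have a4 := mul_le_mul_of_nonneg_right a3 h2
    have a5 := mul_nonneg h1 hy0
    rw [hC']
    linarith

/-- the same with an explicit list -/
theorem plb_exists (hβ : 0 < β) : ∃ C : ℝ, ∀ n : ℕ, ∃ ℓ : R339.Guerra.Lev, R339.Guerra.Good β ℓ ∧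
    (ℓ.map Prod.snd).sum = 1 ∧
    n * (β * (R339.Guerra.Phi β ℓ 0 - R339.Guerra.pen 0 ℓ / 4)) - C * (n : ℝ) ^ ((10 : ℝ) / 11) ≤
      ∫ g, log (∑ x, gibbsWeight n β g x) ∂disorderLaw n := by
  obtain ⟨C, hC⟩ := plbStmt β hβ
  refine ⟨C + β, fun n => ?_⟩
  by_contra hne
  simp only [not_exists, not_and, not_le] at hne
  rcases Nat.eq_zero_or_pos n with rfl | hn
  · have := hne [(β, 1)] ⟨hβ, le_rfl, zero_le_one, trivial⟩ (by simp)
    rw [← FE_nil] at this
    have h0 := FE_nonneg 0 β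
    simp at this
    linarith
  have hn' : (0 : ℝ) < n := by positivity
  set y := (n : ℝ) ^ ((10 : ℝ) / 11) with hy
  have hy0 : 0 < y := by positivity
  set F := ∫ g, log (∑ x, gibbsWeight n β g x) ∂disorderLaw n
  have h1 := hC ((F + (C + β) * y) / (n * β)) (fun ℓ hG hs => by
    rw [div_le_iff₀ (by positivity)]
    have := hne ℓ hG hs
    linarith) n
  rw [← mul_assoc, mul_div_cancel₀ _ (by positivity)] at h1
  have := mul_pos hβ hy0
  linarith

end Crest.Agent.T157.Plb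

end
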