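import Crest.Agent.T157.PsiDef_33
import Crest.Agent.T157.ConcG_16

/-!
Row 157, part D (helper33): `PsiStmt → BarStmt`.
-/

set_option autoImplicit false

noncomputable section

namespace Crest.Agent.T157.Ac

open Finset Matrix MeasureTheory Real Filter
open Crest.ProbabilityR.SpinGlassDynamics
open Crest.Agent.T157.E Crest.Agent.T157.Cond Crest.Agent.T157.Bar Crest.Agent.R339.Guerra
open Crest.Agent.T157.Eig (nrm opn)
open Crest.Agent.T157.Conc (en ELip)

variable {n : ℕ}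

/-! ### the edge weight -/

section Am
variable {η : ℝ} {B : Matrix (Fin n) (Fin n) ℝ}

theorem quad_M (hB : B.IsHermitian) (η : ℝ) (a b : Fin n → ℝ) :
    a ⬝ᵥ (B * B + η ^ 2 • (1 : Matrix (Fin n) (Fin n) ℝ)) *ᵥ b =
      (B *ᵥ a) ⬝ᵥ (B *ᵥ b) + η ^ 2 * (a ⬝ᵥ b) := by
  rw [add_mulVec, smul_mulVec, one_mulVec, dotProduct_add, dotProduct_smul, ← mulVec_mulVec,
    Eig.dot_symm hB, dotProduct_comm, smul_eq_mul]

theorem unit_M (hB : B.IsHermitian) (hη : 0 < η) :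
    IsUnit (B * B + η ^ 2 • (1 : Matrix (Fin n) (Fin n) ℝ)).det := by
  rw [← isUnit_iff_isUnit_det, ← mulVec_injective_iff_isUnit]
  intro a b hab
  have h := quad_M hB η (a - b) (a - b)
  rw [mulVec_sub, hab, sub_self, dotProduct_zero] at h
  by_contra hne
  have h1 := Eig.dot_self_pos (sub_ne_zero.2 hne)
  have h2 := Eig.dot_self_nonneg (B *ᵥ (a - b))
  nlinarith [mul_pos (pow_pos hη 2) h1]

theorem M_inv (hB : B.IsHermitian) (hη : 0 < η) (v : Fin n → ℝ) :
    (B * B + η ^ 2 • (1 : Matrix (Fin n) (Fin n) ℝ)) *ᵥ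
      ((B * B + η ^ 2 • (1 : Matrix (Fin n) (Fin n) ℝ))⁻¹ *ᵥ v) = v := by
  rw [mulVec_mulVec, mul_nonsing_inv _ (unit_M hB hη), one_mulVec]

theorem herm_M (hB : B.IsHermitian) (η : ℝ) :
    (B * B + η ^ 2 • (1 : Matrix (Fin n) (Fin n) ℝ)).IsHermitian := by
  have h := Eig.herm_iff.1 hB
  rw [Eig.herm_iff, transpose_add, transpose_mul, h, transpose_smul, transpose_one]

/-- the two a priori bounds for `a = M⁻¹ v` -/
theorem M_bounds (hB : B.IsHermitian) (η : ℝ) (a : Fin n → ℝ) :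
    η ^ 2 * nrm a ≤ nrm ((B * B + η ^ 2 • (1 : Matrix (Fin n) (Fin n) ℝ)) *ᵥ a) ∧
      η * nrm (B *ᵥ a) ≤ nrm ((B * B + η ^ 2 • (1 : Matrix (Fin n) (Fin n) ℝ)) *ᵥ a) := by
  have e : nrm ((B * B + η ^ 2 • (1 : Matrix (Fin n) (Fin n) ℝ)) *ᵥ a) ^ 2 =
      nrm (B *ᵥ B *ᵥ a) ^ 2 + 2 * (η * nrm (B *ᵥ a)) ^ 2 + (η ^ 2 * nrm a) ^ 2 := by
    rw [mul_pow, mul_pow, Eig.nrm_sq, Eig.nrm_sq, Eig.nrm_sq, Eig.nrm_sq, add_mulVec, smul_mulVec,
      one_mulVec, ← mulVec_mulVec, add_dotProduct, dotProduct_add, dotProduct_add, dotProduct_smul,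
      smul_dotProduct, smul_dotProduct, dotProduct_smul, dotProduct_comm (B *ᵥ B *ᵥ a) a,
      Eig.dot_symm hB a]
    simp only [smul_eq_mul]; ring
  have p := Eig.nrm_nonneg ((B * B + η ^ 2 • (1 : Matrix (Fin n) (Fin n) ℝ)) *ᵥ a)
  constructor <;> refine (abs_le_of_sq_le_sq' ?_ p).2 <;> rw [e] <;>
    nlinarith [sq_nonneg (nrm (B *ᵥ B *ᵥ a)), sq_nonneg (η * nrm (B *ᵥ a)), sq_nonneg (η ^ 2 * nrm a)]

variable {J J' : Matrix (Fin n) (Fin n) ℝ}

theorem herm_B (hJ : Jᵀ = J) : ((2 : ℝ) • (1 : Matrix (Fin n) (Fin n) ℝ) - J).IsHermitian := by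
  rw [Eig.herm_iff, transpose_sub, hJ, transpose_smul, transpose_one]

theorem good_Am (hJ : Jᵀ = J) (hη : 0 < η) : Good (Am η J) := by
  have hB := herm_B hJ
  refine ⟨?_, fun v => ?_⟩
  · rw [Am, transpose_smul, transpose_nonsing_inv, Eig.herm_iff.1 (herm_M hB η)]
  · have h1 := M_inv hB hη v
    rw [Am, smul_mulVec]
    set a := (((2 : ℝ) • 1 - J) * ((2 : ℝ) • 1 - J) +
      η ^ 2 • (1 : Matrix (Fin n) (Fin n) ℝ))⁻¹ *ᵥ v
    have h2 := quad_M hB η a a
    rw [h1, dotProduct_comm] at h2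
    rw [smul_dotProduct, dotProduct_smul, dotProduct_smul, h2]
    simp only [smul_eq_mul]
    nlinarith [Eig.dot_self_nonneg (((2 : ℝ) • (1 : Matrix (Fin n) (Fin n) ℝ) - J) *ᵥ a),
      pow_pos hη 2]

theorem lip_Am (hJ : Jᵀ = J) (hJ' : J'ᵀ = J') (hη : 0 < η) (v : Fin n → ℝ) :
    |v ⬝ᵥ Am η J *ᵥ v - v ⬝ᵥ Am η J' *ᵥ v| ≤ 2 / η * opn (J - J') * (v ⬝ᵥ v) := by
  have hB := herm_B hJ
  have hB' := herm_B hJ'
  have h1 := M_inv hB hη v
  have h1' := M_inv hB' hη v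
  rw [Am, Am, smul_mulVec, smul_mulVec]
  set B := (2 : ℝ) • (1 : Matrix (Fin n) (Fin n) ℝ) - J with hBd
  set B' := (2 : ℝ) • (1 : Matrix (Fin n) (Fin n) ℝ) - J' with hBd'
  set a := (B * B + η ^ 2 • (1 : Matrix (Fin n) (Fin n) ℝ))⁻¹ *ᵥ v
  set a' := (B' * B' + η ^ 2 • (1 : Matrix (Fin n) (Fin n) ℝ))⁻¹ *ᵥ v
  obtain ⟨b1, b2⟩ := M_bounds hB η a
  obtain ⟨b1', b2'⟩ := M_bounds hB' η a'
  rw [h1] at b1 b2
  rw [h1'] at b1' b2'
  have e1 : v ⬝ᵥ a = (B' *ᵥ a) ⬝ᵥ (B' *ᵥ a') + η ^ 2 * (a ⬝ᵥ a') := by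
    rw [← quad_M hB', h1', dotProduct_comm]
  have e2 : v ⬝ᵥ a' = (B *ᵥ a) ⬝ᵥ (B *ᵥ a') + η ^ 2 * (a ⬝ᵥ a') := by
    rw [dotProduct_comm (B *ᵥ a), dotProduct_comm a, ← quad_M hB, h1, dotProduct_comm]
  have hD : B' = B + (J - J') := by rw [hBd, hBd']; abel
  have hDs : (J - J').IsHermitian := by rw [Eig.herm_iff, transpose_sub, hJ, hJ']
  have e3 : (B' *ᵥ a) ⬝ᵥ (B' *ᵥ a') - (B *ᵥ a) ⬝ᵥ (B *ᵥ a') =
      (B' *ᵥ a') ⬝ᵥ (J - J') *ᵥ a + (B *ᵥ a) ⬝ᵥ (J - J') *ᵥ a' := by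
    have f1 : B' *ᵥ a = B *ᵥ a + (J - J') *ᵥ a := by rw [hD, add_mulVec]
    have f2 : B' *ᵥ a' = B *ᵥ a' + (J - J') *ᵥ a' := by rw [hD, add_mulVec]
    rw [f1, add_dotProduct, dotProduct_comm ((J - J') *ᵥ a)]
    nth_rewrite 1 [f2]
    rw [dotProduct_add]; ring
  have c1 := Eig.abs_bil_le (J - J') (B' *ᵥ a') a
  have c2 := Eig.abs_bil_le (J - J') (B *ᵥ a) a'
  have e4 : v ⬝ᵥ η ^ 2 • a - v ⬝ᵥ η ^ 2 • a' = η ^ 2 *
      ((B' *ᵥ a') ⬝ᵥ (J - J') *ᵥ a + (B *ᵥ a) ⬝ᵥ (J - J') *ᵥ a') := by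
    rw [dotProduct_smul, dotProduct_smul, e1, e2, ← e3]; simp only [smul_eq_mul]; ring
  rw [e4, abs_mul, abs_of_pos (pow_pos hη 2), ← Eig.nrm_mul_self v, div_mul_eq_mul_div,
    div_mul_eq_mul_div, le_div_iff₀ hη]
  have o := Eig.opn_nonneg (J - J')
  have n1 := Eig.nrm_nonneg a
  have n2 := Eig.nrm_nonneg a'
  have n3 := Eig.nrm_nonneg (B *ᵥ a)
  have n4 := Eig.nrm_nonneg (B' *ᵥ a')
  have n5 := Eig.nrm_nonneg v
  have d1 : (η * nrm (B' *ᵥ a')) * (η ^ 2 * nrm a) ≤ nrm v * nrm v :=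
    mul_le_mul b2' b1 (by positivity) n5
  have d2 : (η * nrm (B *ᵥ a)) * (η ^ 2 * nrm a') ≤ nrm v * nrm v :=
    mul_le_mul b2 b1' (by positivity) n5
  have d3 := mul_le_mul_of_nonneg_left ((abs_add_le _ _).trans (add_le_add c1 c2))
    (by positivity : 0 ≤ η ^ 3)
  nlinarith [mul_le_mul_of_nonneg_left d1 o, mul_le_mul_of_nonneg_left d2 o]

end Am

/-! ### Lipschitz bounds -/

theorem Jg_symm (x : Fin n × Fin n → ℝ) : (Jg n x)ᵀ = Jg n x := symG_transpose _ x

theorem Jg_sub (x x' : Fin n × Fin n → ℝ) : Jg n x - Jg n x' = Jg n (x - x') := by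
  ext i j; simp only [Jg, symG, Matrix.sub_apply, of_apply, Pi.sub_apply]; ring

theorem quad_Jg (x : Fin n × Fin n → ℝ) (v : Fin n → ℝ) :
    v ⬝ᵥ Jg n x *ᵥ v = √2 / √n * ∑ p : Fin n × Fin n, v p.1 * v p.2 * x p := by
  have h2 : √2 * √2 = 2 := mul_self_sqrt (by norm_num)
  have h3 : √2 ≠ 0 := by positivity
  have e1 : v ⬝ᵥ Jg n x *ᵥ v = 1 / √n / √2 *
      (∑ i, ∑ j, v i * v j * x (i, j) + ∑ i, ∑ j, v i * v j * x (j, i)) := by
    simp only [Jg, symG, dotProduct, mulVec, of_apply, mul_sum, ← sum_add_distrib]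
    exact sum_congr rfl fun i _ => sum_congr rfl fun j _ => by ring
  have e2 : ∑ i, ∑ j, v i * v j * x (j, i) = ∑ i, ∑ j, v i * v j * x (i, j) := by
    rw [sum_comm]; exact sum_congr rfl fun i _ => sum_congr rfl fun j _ => by ring
  rw [e1, e2, Fintype.sum_prod_type]
  have : 1 / √(n : ℝ) / √2 * 2 = √2 / √n := by
    field_simp; rw [sq, h2]
  rw [← this]; ring

theorem opn_Jg (x : Fin n × Fin n → ℝ) : opn (Jg n x) ≤ 2 / √n * en x := by
  refine (Eig.opn_le_sqrt_frob _).trans (sqrt_le_iff.2 ⟨mul_nonneg (by positivity)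
    (Conc.en_nonneg x), ?_⟩)
  rw [mul_pow, Conc.en_sq, Fintype.sum_prod_type]
  have h2 : √2 ^ 2 = 2 := sq_sqrt (by norm_num)
  have e2 : ∑ i, ∑ j, x (j, i) ^ 2 = ∑ i, ∑ j, x (i, j) ^ 2 := sum_comm
  have e1 : ∑ i, ∑ j, Jg n x i j ^ 2 ≤
      (1 / √n) ^ 2 * (∑ i, ∑ j, x (i, j) ^ 2 + ∑ i, ∑ j, x (j, i) ^ 2) := by
    simp only [mul_sum, ← sum_add_distrib]
    refine sum_le_sum fun i _ => sum_le_sum fun j _ => ?_
    simp only [Jg, symG, of_apply]
    rw [mul_pow, div_pow (1 / √n), h2]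
    nlinarith [mul_nonneg (sq_nonneg (1 / √(n : ℝ))) (sq_nonneg (x (i, j) - x (j, i)))]
  rw [e2] at e1
  have p : 0 ≤ ∑ i, ∑ j, x (i, j) ^ 2 := by positivity
  have e3 : (2 / √(n : ℝ)) ^ 2 = 4 * (1 / √n) ^ 2 := by ring
  rw [e3]
  nlinarith [mul_nonneg (sq_nonneg (1 / √(n : ℝ))) p]

theorem sq_div (n : ℕ) : 2 / √(n : ℝ) * n = 2 * √n := by
  rw [div_mul_eq_mul_div, mul_div_assoc, div_sqrt]

theorem abs_quad_Jg (x : Fin n × Fin n → ℝ) (σ : Cube n) :
    |sv σ ⬝ᵥ Jg n x *ᵥ sv σ| ≤ 2 * √n * en x := by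
  refine (Eig.abs_quad_le _ _).trans ?_
  rw [sv_dot_self, ← sq_div]
  nlinarith [mul_le_mul_of_nonneg_right (opn_Jg x) (Nat.cast_nonneg (α := ℝ) n)]

theorem lip_quad_Am {η : ℝ} (hη : 0 < η) (v : Fin n → ℝ) :
    ELip (2 / η * (2 / √n) * (v ⬝ᵥ v)) fun x => v ⬝ᵥ Am η (Jg n x) *ᵥ v := fun x x' => by
  refine (lip_Am (Jg_symm x) (Jg_symm x') hη v).trans ?_
  rw [Jg_sub]
  have := mul_le_mul_of_nonneg_right (mul_le_mul_of_nonneg_left (opn_Jg (x - x'))
    (by positivity : 0 ≤ 2 / η)) (Eig.dot_self_nonneg v)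
  linarith

theorem lip_Qf {η : ℝ} (hη : 0 < η) (σ : Cube n) :
    ELip (4 * √n / η) fun x => Qf (Am η (Jg n x)) σ := by
  have h := lip_quad_Am hη (sv σ)
  rw [sv_dot_self, mul_assoc, sq_div] at h
  exact h.mono (le_of_eq (by ring))

theorem continuous_trace {η : ℝ} (hη : 0 < η) :
    Continuous fun x : Fin n × Fin n → ℝ => (Am η (Jg n x)).trace := by
  refine continuous_finsetSum _ fun i _ => ?_
  simpa using (lip_quad_Am hη (Pi.single i 1)).continuous

theorem Good.trace_le {A : Matrix (Fin n) (Fin n) ℝ} (hA : Good A) : A.trace ≤ n := by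
  calc A.trace ≤ ∑ _i : Fin n, (1 : ℝ) := sum_le_sum fun i _ => by
        simpa using hA.le (Pi.single i 1)
    _ = n := by simp

theorem Hm_eq (β d : ℝ) (x0 x1 : Fin n × Fin n → ℝ) (σ : Cube n) : Hm β d x0 x1 σ =
    β / 2 * √(1 - d) * (sv σ ⬝ᵥ Jg n x0 *ᵥ sv σ) + β / 2 * √d * (sv σ ⬝ᵥ Jg n x1 *ᵥ sv σ) := by
  rw [Hm, add_mulVec, smul_mulVec, smul_mulVec, dotProduct_add, dotProduct_smul, dotProduct_smul]
  simp only [smul_eq_mul]; ring

theorem sum_exp_pos {Ω : Type*} [Fintype Ω] [Nonempty Ω] (u : Ω → ℝ) : 0 < ∑ σ, exp (u σ) :=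
  Zs_pos univ_nonempty u

theorem abs_lse_sub {Ω : Type*} [Fintype Ω] [Nonempty Ω] {u u' : Ω → ℝ} {K : ℝ}
    (h : ∀ σ, |u σ - u' σ| ≤ K) : |log (∑ σ, exp (u σ)) - log (∑ σ, exp (u' σ))| ≤ K := by
  have key : ∀ u u' : Ω → ℝ, (∀ σ, u σ - u' σ ≤ K) →
      log (∑ σ, exp (u σ)) - log (∑ σ, exp (u' σ)) ≤ K := fun u u' h => by
    have h1 : ∑ σ, exp (u σ) ≤ exp K * ∑ σ, exp (u' σ) := by
      rw [mul_sum]
      exact sum_le_sum fun σ _ => by rw [← exp_add, exp_le_exp]; linarith [h σ]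
    have h2 := log_le_log (sum_exp_pos u) h1
    rw [log_mul (exp_pos K).ne' (sum_exp_pos u').ne', log_exp] at h2
    linarith
  rw [abs_le]
  exact ⟨by linarith [key u' u fun σ => by linarith [(abs_le.1 (h σ)).1]],
    key u u' fun σ => (abs_le.1 (h σ)).2⟩

theorem en_inl {ι κ : Type*} [Fintype ι] [Fintype κ] (x : ι ⊕ κ → ℝ) :
    en (fun i => x (Sum.inl i)) ≤ en x := by
  refine sqrt_le_sqrt ?_
  rw [Fintype.sum_sum_type]
  exact le_add_of_nonneg_right (by positivity)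

theorem en_inr {ι κ : Type*} [Fintype ι] [Fintype κ] (x : ι ⊕ κ → ℝ) :
    en (fun i => x (Sum.inr i)) ≤ en x := by
  refine sqrt_le_sqrt ?_
  rw [Fintype.sum_sum_type]
  exact le_add_of_nonneg_left (by positivity)

/-- `psi` as a function of one Gaussian vector -/
def psiS (β d η l : ℝ) (x : (Fin n × Fin n) ⊕ (Fin n × Fin n) → ℝ) : ℝ :=
  psi β d η l (fun i => x (Sum.inl i)) fun i => x (Sum.inr i)

theorem lip_psiS {β d η : ℝ} (hβ : 0 ≤ β) (hd : 0 ≤ d) (hd1 : d ≤ 1) (hη : 0 < η) (l : ℝ) :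
    ELip ((2 * β + 4 * |l| / η) * √n) (psiS (n := n) β d η l) := fun x x' => by
  refine abs_lse_sub fun σ => ?_
  have a0 := abs_quad_Jg ((fun i => x (Sum.inl i)) - fun i => x' (Sum.inl i)) σ
  have a1 := abs_quad_Jg ((fun i => x (Sum.inr i)) - fun i => x' (Sum.inr i)) σ
  have a2 := lip_Qf hη σ (fun i => x (Sum.inl i)) fun i => x' (Sum.inl i)
  have b0 : en ((fun i => x (Sum.inl i)) - fun i => x' (Sum.inl i)) ≤ en (x - x') := en_inl (x - x')
  have b1 : en ((fun i => x (Sum.inr i)) - fun i => x' (Sum.inr i)) ≤ en (x - x') := en_inr (x - x')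
  rw [← Jg_sub, sub_mulVec, dotProduct_sub] at a0 a1
  have s0 : √(1 - d) ≤ 1 := sqrt_le_one.2 (by linarith)
  have s1 : √d ≤ 1 := sqrt_le_one.2 hd1
  rw [Hm_eq, Hm_eq]
  set P0 := sv σ ⬝ᵥ Jg n (fun i => x (Sum.inl i)) *ᵥ sv σ
  set P0' := sv σ ⬝ᵥ Jg n (fun i => x' (Sum.inl i)) *ᵥ sv σ
  set P1 := sv σ ⬝ᵥ Jg n (fun i => x (Sum.inr i)) *ᵥ sv σ
  set P1' := sv σ ⬝ᵥ Jg n (fun i => x' (Sum.inr i)) *ᵥ sv σ
  set Q := Qf (Am η (Jg n fun i => x (Sum.inl i))) σ
  set Q' := Qf (Am η (Jg n fun i => x' (Sum.inl i))) σ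
  have e : β / 2 * √(1 - d) * P0 + β / 2 * √d * P1 - l * Q -
      (β / 2 * √(1 - d) * P0' + β / 2 * √d * P1' - l * Q') =
      β / 2 * √(1 - d) * (P0 - P0') + β / 2 * √d * (P1 - P1') - l * (Q - Q') := by ring
  rw [e]
  refine (abs_sub _ _).trans ((add_le_add_left (abs_add_le _ _) _).trans ?_)
  rw [abs_mul, abs_mul (β / 2 * √d), abs_mul l, abs_of_nonneg (by positivity : 0 ≤ β / 2 * √(1 - d)),
    abs_of_nonneg (by positivity : 0 ≤ β / 2 * √d)]
  have p := Conc.en_nonneg (x - x')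
  have c0 : β / 2 * √(1 - d) * |P0 - P0'| ≤ β / 2 * 1 * (2 * √n * en (x - x')) := by
    gcongr; exact a0.trans (by gcongr)
  have c1 : β / 2 * √d * |P1 - P1'| ≤ β / 2 * 1 * (2 * √n * en (x - x')) := by
    gcongr; exact a1.trans (by gcongr)
  have c2 : |l| * |Q - Q'| ≤ |l| * (4 * √n / η * en (x - x')) := by
    gcongr; exact a2.trans (by gcongr)
  have e2 : (2 * β + 4 * |l| / η) * √n * en (x - x') = β / 2 * 1 * (2 * √n * en (x - x')) +
    β / 2 * 1 * (2 * √n * en (x - x')) + |l| * (4 * √n / η * en (x - x')) := by ring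
  linarith

theorem integrable_psi {β d η : ℝ} (hβ : 0 ≤ β) (hd : 0 ≤ d) (hd1 : d ≤ 1) (hη : 0 < η) (l : ℝ) :
    Integrable (fun p : (Fin n × Fin n → ℝ) × (Fin n × Fin n → ℝ) => psi β d η l p.1 p.2)
      ((G (Fin n × Fin n)).prod (G (Fin n × Fin n))) :=
  mp_sum.integrable_comp_of_integrable (lip_psiS hβ hd hd1 hη l).integrable

theorem Psi_eq_prod {β d η : ℝ} (hβ : 0 ≤ β) (hd : 0 ≤ d) (hd1 : d ≤ 1) (hη : 0 < η) (l : ℝ) :
    Psi n β d η l = ∫ p : (Fin n × Fin n → ℝ) × (Fin n × Fin n → ℝ), psi β d η l p.1 p.2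
      ∂((G (Fin n × Fin n)).prod (G (Fin n × Fin n))) :=
  (integral_prod _ (integrable_psi hβ hd hd1 hη l)).symm

theorem Psi_eq_sum {β d η : ℝ} (hβ : 0 ≤ β) (hd : 0 ≤ d) (hd1 : d ≤ 1) (hη : 0 < η) (l : ℝ) :
    Psi n β d η l = ∫ x, psiS (n := n) β d η l x ∂(G _) := by
  rw [Psi_eq_prod hβ hd hd1 hη,
    ← mp_int mp_sum (lip_psiS hβ hd hd1 hη l).continuous.aestronglyMeasurable]
  rfl

/-! ### thermal estimates -/

section thermal
variable {Ω : Type*} [Fintype Ω] [Nonempty Ω]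

theorem sum_pz_exp (u Q : Ω → ℝ) (l : ℝ) : ∑ σ, pz u σ * exp (-(l * Q σ)) =
    exp (log (∑ σ, exp (u σ - l * Q σ)) - log (∑ σ, exp (u σ - 0 * Q σ))) := by
  simp only [zero_mul, sub_zero]
  rw [exp_sub, exp_log (sum_exp_pos fun σ => u σ - l * Q σ), sum_div]
  refine sum_congr rfl fun σ _ => ?_
  rw [pz, ← exp_add, ← exp_sub]
  congr 1; simp only [Zs]; ring

theorem jensen (u t : Ω → ℝ) : exp (∑ σ, pz u σ * t σ) ≤ ∑ σ, pz u σ * exp (t σ) := by
  set m := ∑ σ, pz u σ * t σ with hm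
  calc exp m = ∑ σ, pz u σ * (exp m * (t σ - m + 1)) := by
        have : ∑ σ, pz u σ * (exp m * (t σ - m + 1)) =
            exp m * (∑ σ, pz u σ * t σ - m * ∑ σ, pz u σ + ∑ σ, pz u σ) := by
          rw [mul_sum, ← sum_sub_distrib, ← sum_add_distrib, mul_sum]
          exact sum_congr rfl fun σ _ => by ring
        rw [this, sum_pz, ← hm]; ring
    _ ≤ _ := sum_le_sum fun σ _ => mul_le_mul_of_nonneg_left (by
        have := mul_le_mul_of_nonneg_left (add_one_le_exp (t σ - m)) (exp_pos m).le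
        rwa [← exp_add, add_sub_cancel] at this) (pz_pos u σ).le

theorem thermal (u Q : Ω → ℝ) {l : ℝ} (hl : 0 < l) :
    ∑ z, pz u z * ∑ σ, pz u σ * |Q σ - Q z| ≤ 2 / l *
      (log (∑ σ, exp (u σ - l * Q σ)) + log (∑ σ, exp (u σ - -l * Q σ)) -
        2 * log (∑ σ, exp (u σ - 0 * Q σ)) + 1) := by
  set m := ∑ σ, pz u σ * Q σ with hm
  set D := ∑ σ, pz u σ * |Q σ - m| with hD
  have h1 : ∑ z, pz u z * ∑ σ, pz u σ * |Q σ - Q z| ≤ 2 * D := by
    calc _ ≤ ∑ z, pz u z * (D + |Q z - m|) := sum_le_sum fun z _ =>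
          mul_le_mul_of_nonneg_left (by
            rw [hD, ← one_mul |Q z - m|, ← sum_pz u, sum_mul, ← sum_add_distrib]
            refine sum_le_sum fun σ _ => ?_
            rw [← mul_add]
            refine mul_le_mul_of_nonneg_left ?_ (pz_pos u σ).le
            have := abs_sub_le (Q σ) m (Q z)
            rwa [abs_sub_comm m] at this) (pz_pos u z).le
      _ = 2 * D := by
          simp only [mul_add, sum_add_distrib, ← sum_mul, sum_pz]; rw [← hD]; ring
  have ha := sum_pz_exp u Q l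
  have hb := sum_pz_exp u Q (-l)
  set a := log (∑ σ, exp (u σ - l * Q σ)) - log (∑ σ, exp (u σ - 0 * Q σ)) with hda
  set b := log (∑ σ, exp (u σ - -l * Q σ)) - log (∑ σ, exp (u σ - 0 * Q σ)) with hdb
  have ja := jensen u fun σ => -(l * Q σ)
  have jb := jensen u fun σ => -(-l * Q σ)
  have ea : ∑ σ, pz u σ * -(l * Q σ) = -(l * m) := by
    rw [hm, mul_sum, ← sum_neg_distrib]; exact sum_congr rfl fun σ _ => by ring
  have eb : ∑ σ, pz u σ * -(-l * Q σ) = l * m := by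
    rw [hm, mul_sum]; exact sum_congr rfl fun σ _ => by ring
  rw [ha, ea, exp_le_exp] at ja
  rw [hb, eb, exp_le_exp] at jb
  have jc := jensen u fun σ => l * |Q σ - m|
  have ec : ∑ σ, pz u σ * (l * |Q σ - m|) = l * D := by
    rw [hD, mul_sum]; exact sum_congr rfl fun σ _ => by ring
  have h2 : ∑ σ, pz u σ * exp (l * |Q σ - m|) ≤ exp (a + l * m) + exp (b - l * m) := by
    rw [exp_add, exp_sub b, ← ha, ← hb, sum_mul, sum_div, ← sum_add_distrib]
    refine sum_le_sum fun σ _ => ?_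
    rw [mul_assoc, mul_div_assoc, ← mul_add, ← exp_add, ← exp_sub]
    refine mul_le_mul_of_nonneg_left ?_ (pz_pos u σ).le
    rcases abs_cases (Q σ - m) with h | h <;> rw [h.1]
    · refine le_add_of_nonneg_of_le (exp_pos _).le (le_of_eq ?_); congr 1; ring
    · refine le_add_of_le_of_nonneg (le_of_eq ?_) (exp_pos _).le; congr 1; ring
  have h3 : exp (a + l * m) + exp (b - l * m) ≤ exp (a + b + 1) := by
    have p1 : exp (a + l * m) ≤ exp (a + b) := exp_le_exp.2 (by linarith)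
    have p2 : exp (b - l * m) ≤ exp (a + b) := exp_le_exp.2 (by linarith)
    have p3 := add_one_le_exp 1
    rw [exp_add (a + b)]
    nlinarith [exp_pos (a + b)]
  rw [ec] at jc
  have h4 := exp_le_exp.1 (jc.trans (h2.trans h3))
  rw [div_mul_eq_mul_div, le_div_iff₀ hl]
  nlinarith

theorem low_mass (u Q : Ω → ℝ) {l : ℝ} (hl : 0 ≤ l) (q : ℝ) (T : Finset Ω) (hT : ∀ z ∈ T, Q z < q) :
    ∑ z ∈ T, pz u z ≤
      exp (l * q + (log (∑ σ, exp (u σ - l * Q σ)) - log (∑ σ, exp (u σ - 0 * Q σ)))) := by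
  rw [exp_add, ← sum_pz_exp, mul_sum]
  refine le_trans (sum_le_sum fun z hz => ?_) (sum_le_sum_of_subset_of_nonneg (subset_univ T)
    fun z _ _ => mul_nonneg (exp_pos _).le (mul_nonneg (pz_pos _ _).le (exp_pos _).le))
  rw [mul_left_comm, ← exp_add]
  refine le_mul_of_one_le_right (pz_pos _ _).le (one_le_exp ?_)
  nlinarith [hT z hz]

end thermal

/-! ### transfer to the two-matrix model -/

theorem bar_congr {w w' : Cube n → ℝ} (h : prob w = prob w') (ε : ℝ) : Bar w ε ↔ Bar w' ε := by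
  simp only [Bar, mass, h]

theorem mp_J {d : ℝ} (hd : 0 ≤ d) (hd1 : d ≤ 1) : MeasurePreserving
    (fun p : (Fin n × Fin n → ℝ) × (Fin n × Fin n → ℝ) => √(1 - d) • Jg n p.1 + √d • Jg n p.2)
    ((G (Fin n × Fin n)).prod (G (Fin n × Fin n))) (goe (Fin n) (1 / √n)) := by
  have h0 : MeasurePreserving (Jg n) (G (Fin n × Fin n)) (goe (Fin n) (1 / √n)) :=
    ⟨measurable_symG _, rfl⟩
  have h1 : ∀ c : ℝ, MeasurePreserving (fun W : Matrix (Fin n) (Fin n) ℝ => c • W)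
      (goe (Fin n) (1 / √n)) (goe (Fin n) (c * (1 / √n))) := fun c =>
    ⟨by fun_prop, goe_smul _ c⟩
  have h2 : MeasurePreserving
      (fun p : Matrix (Fin n) (Fin n) ℝ × Matrix (Fin n) (Fin n) ℝ => p.1 + p.2)
      ((goe (Fin n) (√(1 - d) * (1 / √n))).prod (goe (Fin n) (√d * (1 / √n))))
      (goe (Fin n) (1 / √n)) :=
    ⟨by fun_prop, goe_add _ _ _ (by
      rw [mul_pow, mul_pow, sq_sqrt (by linarith), sq_sqrt hd]; ring)⟩
  exact h2.comp (((h1 _).comp h0).prod ((h1 _).comp h0))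

theorem prob_Wmat (β : ℝ) (g : Pair n → ℝ) (e : Fin n → ℝ) :
    prob (fun σ => exp (β / 2 * (sv σ ⬝ᵥ Wmat n g e *ᵥ sv σ))) = prob (gibbsWeight n β g) := by
  rw [← prob_smul (gibbsWeight n β g) (exp_pos (β / 2 * ∑ i, √2 * e i / √n)).ne']
  congr 1
  funext σ
  rw [gibbsWeight_eq_ising, ising, ← exp_add, Wmat, add_mulVec, dotProduct_add, smul_mulVec,
    dotProduct_smul, zero_dotProduct]
  have : sv σ ⬝ᵥ (diagonal fun i => √2 * e i / √n) *ᵥ sv σ = ∑ i, √2 * e i / √n := by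
    simp only [dotProduct, mulVec_diagonal]
    refine sum_congr rfl fun i _ => ?_
    rw [mul_left_comm, sv, spin_mul_self, mul_one]
  rw [this, smul_eq_mul]
  congr 1; ring

theorem transfer (β ε : ℝ) {d : ℝ} (hd : 0 ≤ d) (hd1 : d ≤ 1) :
    disorderLaw n {g | ¬ Bar (gibbsWeight n β g) ε} =
      ((G (Fin n × Fin n)).prod (G (Fin n × Fin n)))
        {p | ¬ Bar (fun σ => exp (Hm β d p.1 p.2 σ)) ε} := by
  have hS : MeasurableSet {W : Matrix (Fin n) (Fin n) ℝ |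
      ¬ Bar (fun σ => exp (β / 2 * (sv σ ⬝ᵥ W *ᵥ sv σ))) ε} :=
    (measurableSet_bar (w := fun (W : Matrix (Fin n) (Fin n) ℝ) σ =>
      exp (β / 2 * (sv σ ⬝ᵥ W *ᵥ sv σ))) (fun σ => by fun_prop) ε).compl
  have h1 := (mp_J (n := n) hd hd1).measure_preimage hS.nullMeasurableSet
  have h2 := (mp_Wmat (n := n)).measure_preimage hS.nullMeasurableSet
  have e : (fun p : (Pair n → ℝ) × (Fin n → ℝ) => Wmat n p.1 p.2) ⁻¹'
      {W : Matrix (Fin n) (Fin n) ℝ | ¬ Bar (fun σ => exp (β / 2 * (sv σ ⬝ᵥ W *ᵥ sv σ))) ε} =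
      {g | ¬ Bar (gibbsWeight n β g) ε} ×ˢ Set.univ := by
    ext p
    simp only [Set.mem_preimage, Set.mem_ofPred_eq, Set.mem_prod, Set.mem_univ, and_true]
    rw [bar_congr (prob_Wmat β p.1 p.2)]
  rw [e, Measure.prod_prod, measure_univ, mul_one] at h2
  rw [h2, ← h1]
  rfl

theorem integral_sqrt_le {X : Type*} [MeasurableSpace X] {μ : Measure X} [IsProbabilityMeasure μ]
    {f : X → ℝ} (hf : Integrable f μ) (h0 : ∀ x, 0 ≤ f x) (hs : Integrable (fun x => √(f x)) μ) :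
    ∫ x, √(f x) ∂μ ≤ √(∫ x, f x ∂μ) := by
  refine le_of_forall_pos_le_add fun ε hε => ?_
  have hI : 0 ≤ ∫ x, f x ∂μ := integral_nonneg h0
  set c := √(∫ x, f x ∂μ) + ε with hc
  have hs0 := sqrt_nonneg (∫ x, f x ∂μ)
  have hc0 : 0 < c := by positivity
  have h3 := integral_mono hs (((hf.div_const c).add (integrable_const c)).div_const 2) fun x => by
    simp only [Pi.add_apply]
    rw [div_add' _ _ _ hc0.ne', div_div, le_div_iff₀ (by positivity)]
    nlinarith [sq_nonneg (√(f x) - c), mul_self_sqrt (h0 x)]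
  simp only [Pi.add_apply] at h3
  rw [integral_div, integral_add (hf.div_const c) (integrable_const c), integral_div] at h3
  simp only [integral_const, probReal_univ, smul_eq_mul, one_mul] at h3
  have h4 : (∫ x, f x ∂μ) / c ≤ √(∫ x, f x ∂μ) := by
    rw [div_le_iff₀ hc0, hc]
    nlinarith [mul_self_sqrt hI]
  linarith

theorem continuous_Hm (β d : ℝ) (σ : Cube n) :
    Continuous fun p : (Fin n × Fin n → ℝ) × (Fin n × Fin n → ℝ) => Hm β d p.1 p.2 σ := by
  simp only [Hm_eq, quad_Jg]; fun_prop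

theorem exp_neg_le {x : ℝ} (hx : 0 < x) : exp (-x) ≤ 1 / x := by
  rw [exp_neg, one_div]
  exact inv_anti₀ hx (by linarith [add_one_le_exp x])

theorem int_comb {X : Type*} [MeasurableSpace X] {μ : Measure X} [IsProbabilityMeasure μ]
    {f g h : X → ℝ} (hf : Integrable f μ) (hg : Integrable g μ) (hh : Integrable h μ) :
    Integrable (fun p => f p + g p - 2 * h p + 1) μ ∧
      ∫ p, (f p + g p - 2 * h p + 1) ∂μ = ∫ p, f p ∂μ + ∫ p, g p ∂μ - 2 * ∫ p, h p ∂μ + 1 := by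
  have i1 : Integrable (fun p => f p + g p) μ := hf.add hg
  have i2 : Integrable (fun p => f p + g p - 2 * h p) μ := i1.sub (hh.const_mul 2)
  refine ⟨i2.add (integrable_const 1), ?_⟩
  rw [integral_add i2 (integrable_const 1), integral_sub i1 (hh.const_mul 2), integral_add hf hg,
    integral_const_mul]
  simp

theorem bound_aux {β d η l : ℝ} (_hn : 0 < n) (hβ : 0 < β) (hd : 0 < d) (hd1 : d ≤ 1) (hη : 0 < η)
    (hl : 0 < l) : 0 ≤ Psi n β d η l + Psi n β d η (-l) - 2 * Psi n β d η 0 + 1 := by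
  have ip := integrable_psi (n := n) hβ.le hd.le hd1 hη
  have h : 0 ≤ ∫ p : (Fin n × Fin n → ℝ) × (Fin n × Fin n → ℝ), (psi β d η l p.1 p.2 +
      psi β d η (-l) p.1 p.2 - 2 * psi β d η 0 p.1 p.2 + 1)
      ∂((G (Fin n × Fin n)).prod (G (Fin n × Fin n))) := integral_nonneg fun p => by
    have h1 := thermal (Hm β d p.1 p.2) (Qf (Am η (Jg n p.1))) hl
    have h2 : 0 ≤ ∑ z, pz (Hm β d p.1 p.2) z * ∑ σ, pz (Hm β d p.1 p.2) σ *
        |Qf (Am η (Jg n p.1)) σ - Qf (Am η (Jg n p.1)) z| :=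
      sum_nonneg fun z _ => mul_nonneg (pz_pos _ _).le
        (sum_nonneg fun σ _ => mul_nonneg (pz_pos _ _).le (abs_nonneg _))
    exact nonneg_of_mul_nonneg_right (h2.trans h1) (by positivity)
  rw [(int_comb (ip l) (ip (-l)) (ip 0)).2] at h
  simpa only [Psi_eq_prod hβ.le hd.le hd1 hη] using h

/-- the finite-`n` estimate -/
theorem bound {β d η l q L : ℝ} (hn : 0 < n) (hβ : 0 < β) (hd : 0 < d) (hd1 : d ≤ 1) (hη : 0 < η)
    (hl : 0 < l) (hq : 4 ≤ q) (hL : 1 ≤ L) (hP : Psi n β d η l - Psi n β d η 0 ≤ -(2 * l * q)) :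
    (disorderLaw n).real {g | ¬ Bar (gibbsWeight n β g) (exp (-L))} ≤
      exp (-(l * q / 2) ^ 2 / (2 * ((4 * β + 4 * l / η) * √n) ^ 2)) + exp (-(l * q / 2)) +
      8 * exp 1 * L / (3 * q) * (2 * √(Tau n η) / (β / 2 * √d * (√2 / √n)) +
        2 / l * (Psi n β d η l + Psi n β d η (-l) - 2 * Psi n β d η 0 + 1)) := by
  classical
  have hn' : (0 : ℝ) < n := by exact_mod_cast hn
  set κ := β / 2 * √d * (√2 / √n) with hκ
  have hκ0 : 0 < κ := by positivity
  set P := (G (Fin n × Fin n)).prod (G (Fin n × Fin n)) with hPd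
  have hH := continuous_Hm (n := n) β d
  have hQ : ∀ σ, Continuous fun p : (Fin n × Fin n → ℝ) × (Fin n × Fin n → ℝ) =>
      Qf (Am η (Jg n p.1)) σ := fun σ => (lip_Qf hη σ).continuous.comp continuous_fst
  have hQb : ∀ x σ, 0 ≤ Qf (Am η (Jg n x)) σ ∧ Qf (Am η (Jg n x)) σ ≤ n := fun x σ =>
    ⟨(good_Am (Jg_symm x) hη).nonneg _, sv_dot_self σ ▸ (good_Am (Jg_symm x) hη).le _⟩
  have hS := (measurableSet_bar (w := fun (p : (Fin n × Fin n → ℝ) × (Fin n × Fin n → ℝ)) σ =>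
    exp (Hm β d p.1 p.2 σ)) (fun σ => (hH σ).rexp.measurable) (exp (-L))).compl
  -- the two observables
  set f1 : (Fin n × Fin n → ℝ) × (Fin n × Fin n → ℝ) → ℝ := fun p =>
    mass (fun σ => exp (Hm β d p.1 p.2 σ)) {σ | Qf (Am η (Jg n p.1)) σ < q} with hf1
  set f2 : (Fin n × Fin n → ℝ) × (Fin n × Fin n → ℝ) → ℝ := fun p =>
    fl (fun σ => exp (Hm β d p.1 p.2 σ)) (Qf (Am η (Jg n p.1))) with hf2
  have e1 : ∀ p, f1 p = ∑ z, if Qf (Am η (Jg n p.1)) z < q then pz (Hm β d p.1 p.2) z else 0 :=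
    fun p => by simp only [hf1]; rw [mass_exp, sum_filter]; rfl
  have e2 : ∀ p, f2 p = ∑ z, pz (Hm β d p.1 p.2) z * ∑ σ, pz (Hm β d p.1 p.2) σ *
      |Qf (Am η (Jg n p.1)) σ - Qf (Am η (Jg n p.1)) z| := fun p => by simp only [hf2, fl, pz_eq]
  have f11 : ∀ p, f1 p ≤ 1 := fun p => by
    rw [e1, ← sum_pz (Hm β d p.1 p.2)]
    refine sum_le_sum fun z _ => ?_
    split_ifs
    · exact le_rfl
    · exact (pz_pos _ _).le
  have i1 : Integrable f1 P := by
    rw [funext e1]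
    refine integrable_finsetSum _ fun z _ => (integrable_const (1 : ℝ)).mono'
      (Measurable.ite (measurableSet_lt (hQ z).measurable measurable_const)
        (continuous_pz hH z).measurable measurable_const).aestronglyMeasurable
      (Eventually.of_forall fun p => ?_)
    split_ifs
    · rw [norm_eq_abs, abs_of_pos (pz_pos _ _)]; exact pz_le _ _
    · simp
  have i2 : Integrable f2 P := by
    rw [funext e2]
    refine integrable_finsetSum _ fun z _ => ?_
    simp only [mul_sum]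
    refine integrable_finsetSum _ fun σ _ => (integrable_const (n : ℝ)).mono'
      ((continuous_pz hH z).mul ((continuous_pz hH σ).mul
        ((hQ σ).sub (hQ z)).abs)).aestronglyMeasurable (Eventually.of_forall fun p => ?_)
    have a1 := pz_pos (Hm β d p.1 p.2) z
    have a2 := pz_pos (Hm β d p.1 p.2) σ
    have a3 : |Qf (Am η (Jg n p.1)) σ - Qf (Am η (Jg n p.1)) z| ≤ n := by
      rw [abs_le]; constructor <;> linarith [hQb p.1 σ, hQb p.1 z]
    rw [norm_eq_abs, abs_of_nonneg (by positivity)]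
    calc _ ≤ 1 * (1 * (n : ℝ)) := by gcongr <;> exact pz_le _ _
      _ = n := by ring
  have itr : Integrable (fun x => (Am η (Jg n x)).trace) (G (Fin n × Fin n)) :=
    (integrable_const (n : ℝ)).mono' (continuous_trace hη).aestronglyMeasurable
      (Eventually.of_forall fun x => by
        rw [norm_eq_abs, abs_of_nonneg (good_Am (Jg_symm x) hη).trace_nonneg]
        exact (good_Am (Jg_symm x) hη).trace_le)
  have isq : Integrable (fun x => √(Am η (Jg n x)).trace) (G (Fin n × Fin n)) :=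
    (integrable_const √(n : ℝ)).mono' (continuous_trace hη).sqrt.aestronglyMeasurable
      (Eventually.of_forall fun x => by
        rw [norm_eq_abs, abs_of_nonneg (sqrt_nonneg _)]
        exact sqrt_le_sqrt (good_Am (Jg_symm x) hη).trace_le)
  have htr := integral_sqrt_le itr (fun x => (good_Am (Jg_symm x) hη).trace_nonneg) isq
  -- the core estimate for each `J₀`
  have hc : ∀ x0, ∫ x1, Set.indicator {p : (Fin n × Fin n → ℝ) × (Fin n × Fin n → ℝ) |
      Bar (fun σ => exp (Hm β d p.1 p.2 σ)) (exp (-L))}ᶜ 1 (x0, x1) ∂(G (Fin n × Fin n)) ≤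
      ∫ x1, f1 (x0, x1) ∂(G (Fin n × Fin n)) + 8 * exp 1 * L / (3 * q) *
        (2 * √(Am η (Jg n x0)).trace / κ + ∫ x1, f2 (x0, x1) ∂(G (Fin n × Fin n))) := by
    intro x0
    have h := core (good_Am (Jg_symm x0) hη)
      (H0 := fun σ => β / 2 * √(1 - d) * (sv σ ⬝ᵥ Jg n x0 *ᵥ sv σ))
      (fun σ => by simp [sv_neg, mulVec_neg]) hκ0 hq hL
    have eH : ∀ x1, ((fun σ => β / 2 * √(1 - d) * (sv σ ⬝ᵥ Jg n x0 *ᵥ sv σ)) + lin
        (fun σ (p : Fin n × Fin n) => κ * (sv σ p.1 * sv σ p.2)) x1) = Hm β d x0 x1 := by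
      intro x1
      funext σ
      rw [Hm_eq, Pi.add_apply, quad_Jg x1, lin, hκ, mul_sum, mul_sum]
      congr 1
      exact sum_congr rfl fun p _ => by ring
    simp only [eH] at h
    refine le_trans (le_of_eq ?_) h
    exact integral_indicator_one (measurable_prodMk_left hS)
  have iI : Integrable (Set.indicator {p : (Fin n × Fin n → ℝ) × (Fin n × Fin n → ℝ) |
      Bar (fun σ => exp (Hm β d p.1 p.2 σ)) (exp (-L))}ᶜ
      (1 : (Fin n × Fin n → ℝ) × (Fin n × Fin n → ℝ) → ℝ)) P :=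
    (integrable_const (1 : ℝ)).indicator hS
  have iJ : Integrable (fun x0 => 2 * √(Am η (Jg n x0)).trace / κ +
      ∫ x1, f2 (x0, x1) ∂(G (Fin n × Fin n))) (G (Fin n × Fin n)) :=
    ((isq.const_mul 2).div_const κ).add i2.integral_prod_left
  have h1 := integral_mono iI.integral_prod_left (i1.integral_prod_left.add
    (iJ.const_mul (8 * exp 1 * L / (3 * q)))) hc
  simp only [Pi.add_apply] at h1
  rw [← integral_prod _ iI, integral_indicator_one hS, integral_add i1.integral_prod_left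
    (iJ.const_mul _), integral_const_mul,
    integral_add ((isq.const_mul 2).div_const κ) i2.integral_prod_left, ← integral_prod _ i1,
    ← integral_prod _ i2, integral_div, integral_const_mul] at h1
  -- thermal part
  have ip := integrable_psi (n := n) hβ.le hd.le hd1 hη
  have h2 : ∫ p, f2 p ∂P ≤
      2 / l * (Psi n β d η l + Psi n β d η (-l) - 2 * Psi n β d η 0 + 1) := by
    have h := integral_mono i2 ((int_comb (ip l) (ip (-l)) (ip 0)).1.const_mul (2 / l)) fun p => by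
        rw [e2]; exact thermal _ _ hl
    rw [integral_const_mul, (int_comb (ip l) (ip (-l)) (ip 0)).2] at h
    simpa only [Psi_eq_prod hβ.le hd.le hd1 hη] using h
  -- lower tail of `Q`
  have hY : ELip ((4 * β + 4 * l / η) * √n)
      fun x => psiS (n := n) β d η l x - psiS β d η 0 x := by
    have := (lip_psiS (n := n) hβ.le hd.le hd1 hη l).add (lip_psiS hβ.le hd.le hd1 hη 0).neg
    rw [abs_of_pos hl, abs_zero] at this
    exact this.mono (le_of_eq (by ring))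
  have hEY : ∫ x, (psiS (n := n) β d η l x - psiS β d η 0 x) ∂(G _) ≤ -(2 * l * q) := by
    rw [integral_sub (lip_psiS hβ.le hd.le hd1 hη l).integrable
      (lip_psiS hβ.le hd.le hd1 hη 0).integrable, ← Psi_eq_sum hβ.le hd.le hd1 hη,
      ← Psi_eq_sum hβ.le hd.le hd1 hη]
    exact hP
  have ht := Conc.tail_lip hY (t := l * q / 2) (by positivity)
  set EY := ∫ x, (psiS (n := n) β d η l x - psiS β d η 0 x) ∂(G _)
  have hT : MeasurableSet {x | l * q / 2 ≤ psiS (n := n) β d η l x - psiS β d η 0 x - EY} :=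
    measurableSet_le measurable_const (hY.continuous.sub continuous_const).measurable
  have hT' := mp_sum.measurable hT
  have h3 : ∫ p, f1 p ∂P ≤
      exp (-(l * q / 2) ^ 2 / (2 * ((4 * β + 4 * l / η) * √n) ^ 2)) + exp (-(l * q / 2)) := by
    have h := integral_mono i1 (((integrable_const (1 : ℝ)).indicator hT').add
      (integrable_const (exp (-(l * q / 2))))) fun p => by
        simp only [Pi.add_apply]
        by_cases hp : p ∈ (fun p : (Fin n × Fin n → ℝ) × (Fin n × Fin n → ℝ) =>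
            (Sum.elim p.1 p.2 : (Fin n × Fin n) ⊕ (Fin n × Fin n) → ℝ)) ⁻¹'
            {x | l * q / 2 ≤ psiS (n := n) β d η l x - psiS β d η 0 x - EY}
        · rw [Set.indicator_of_mem hp]
          linarith [f11 p, exp_pos (-(l * q / 2))]
        · rw [Set.indicator_of_notMem hp, zero_add]
          simp only [hf1]
          rw [mass_exp]
          refine (low_mass _ (Qf (Am η (Jg n p.1))) hl.le q _ fun z hz =>
            (mem_filter.1 hz).2).trans (exp_le_exp.2 ?_)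
          have hp' : ¬ l * q / 2 ≤ psi β d η l p.1 p.2 - psi β d η 0 p.1 p.2 - EY := hp
          simp only [psi] at hp'
          linarith
    simp only [Pi.add_apply] at h
    rw [integral_add ((integrable_const (1 : ℝ)).indicator hT') (integrable_const _)] at h
    simp only [integral_const, probReal_univ, smul_eq_mul, one_mul] at h
    have e := integral_indicator_one (μ := P) hT'
    have e' := mp_sum.measureReal_preimage hT.nullMeasurableSet
    refine h.trans (add_le_add_left ?_ _)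
    exact (e.trans e').le.trans ht
  have h4 : 2 * (∫ x, √(Am η (Jg n x)).trace ∂(G (Fin n × Fin n))) / κ ≤ 2 * √(Tau n η) / κ := by
    gcongr; exact htr
  rw [measureReal_def, transfer β _ hd.le hd1]
  refine le_trans h1 (add_le_add h3 (mul_le_mul_of_nonneg_left (add_le_add h4 h2) (by positivity)))

/-- **(L4)**: the free-energy input gives the barrier -/
theorem bar_of_psi (h : PsiStmt) : BarStmt := by
  intro β hβ
  obtain ⟨c, hc, d, η, l, m, h1, h2, h3⟩ := h β hβ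
  refine ⟨c, hc, ?_⟩
  have hβ0 : 0 < β := by linarith
  have h4 := ((((h3.pow 2).const_mul (128 * β ^ 2)).add (h3.const_mul 2)).add
    (h2.const_mul (8 * exp 1)))
  simp only [mul_zero, add_zero, ne_eq, OfNat.ofNat_ne_zero, not_false_eq_true, zero_pow] at h4
  have h5 : Tendsto (fun n : ℕ => (disorderLaw n).real
      {g | ¬ Bar (gibbsWeight n β g) (exp (-(n : ℝ) ^ c))}) atTop (nhds 0) := by
    refine squeeze_zero' (Eventually.of_forall fun n => measureReal_nonneg) ?_ h4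
    filter_upwards [h1, h3.eventually (gt_mem_nhds (by norm_num : (0 : ℝ) < 1 / 4)),
      eventually_gt_atTop 0] with n ⟨hd, hd1, hη, hη1, hl, hm, hP⟩ hr hn
    have hn1 : (1 : ℝ) ≤ n := by exact_mod_cast hn
    have hs1 : 1 ≤ √(n : ℝ) := one_le_sqrt.2 hn1
    have hss : √(n : ℝ) * √(n : ℝ) = n := mul_self_sqrt (by linarith)
    have hL : 1 ≤ (n : ℝ) ^ c := one_le_rpow hn1 (by linarith)
    set r := (1 / l n + 1 / η n) / (m n * √n) with hr'
    have hr0 : 0 < r := by positivity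
    have e0 : r * (m n * √n) = 1 / l n + 1 / η n := by rw [hr']; field_simp
    have hη' : 1 ≤ 1 / η n := by rw [le_div_iff₀ hη]; linarith
    have hl' : 0 < 1 / l n := by positivity
    have hq : 4 ≤ n * m n := by nlinarith [mul_pos hm (by linarith : 0 < √(n : ℝ))]
    have hb := bound hn hβ0 hd hd1 hη hl hq hL (by linarith)
    have hb0 := bound_aux hn hβ0 hd hd1 hη hl
    refine hb.trans (add_le_add (add_le_add ?_ ?_) ?_)
    · have x0 : 0 < (l n * (n * m n) / 2) ^ 2 / (2 * ((4 * β + 4 * l n / η n) * √n) ^ 2) := by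
        positivity
      rw [neg_div]
      refine (exp_neg_le x0).trans ?_
      rw [one_div_div, div_le_iff₀ (by positivity)]
      have a1 : (4 * β + 4 * l n / η n) * √n ≤ 4 * β * r * (l n * (n * m n)) := by
        have : 4 * β * r * (l n * (n * m n)) = 4 * β * (r * (m n * √n)) * l n * √n := by
          rw [← hss]; simp only [sqrt_mul_self (sqrt_nonneg (n : ℝ))]; ring
        rw [this, e0]
        refine mul_le_mul_of_nonneg_right ?_ (by positivity)
        have : 4 * β * (1 / l n + 1 / η n) * l n = 4 * β + β * (4 * l n / η n) := by field_simp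
        rw [this]
        nlinarith [(by positivity : 0 < 4 * l n / η n)]
      have a2 := pow_le_pow_left₀ (by positivity) a1 2
      nlinarith
    · refine (exp_neg_le (by positivity)).trans ?_
      rw [div_le_iff₀ (by positivity)]
      have : 1 ≤ r * (m n * √n) * l n := by
        rw [e0, add_mul, one_div_mul_cancel hl.ne']
        exact le_add_of_nonneg_right (by positivity)
      have b : r * (m n * √n) * l n * 1 ≤ r * (m n * √n) * l n * √n := by gcongr
      nlinarith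
    · set Δ := Psi n β (d n) (η n) (l n) + Psi n β (d n) (η n) (-l n) -
        2 * Psi n β (d n) (η n) 0 + 1
      have hsd : 0 < √(d n) := sqrt_pos.2 hd
      have h2' : √2 * √2 = 2 := mul_self_sqrt (by norm_num)
      have h21 : 4 / 3 ≤ √2 := by
        rw [le_sqrt (by norm_num) (by norm_num)]; norm_num
      have a1 : 2 * √(Tau n (η n)) / (β / 2 * √(d n) * (√2 / √n)) ≤
          3 * n * √(Tau n (η n) / (n * d n)) := by
        rw [sqrt_div' _ (by positivity), sqrt_mul (by positivity), div_le_iff₀ (by positivity)]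
        have : 3 * n * (√(Tau n (η n)) / (√n * √(d n))) * (β / 2 * √(d n) * (√2 / √n)) =
            √(Tau n (η n)) * (3 / 2 * β * √2) := by
          field_simp
          rw [sq_sqrt (by positivity), mul_comm]
        rw [this]
        nlinarith [sqrt_nonneg (Tau n (η n)), mul_le_mul hβ.le h21 (by norm_num) hβ0.le]
      have a2 : 2 / l n * Δ ≤ 3 * n * (Δ / (l n * n)) := by
        have : 3 * n * (Δ / (l n * n)) = 3 / l n * Δ := by field_simp
        rw [this]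
        gcongr; norm_num
      calc _ ≤ 8 * exp 1 * (n : ℝ) ^ c / (3 * (n * m n)) * (3 * n * √(Tau n (η n) / (n * d n)) +
            3 * n * (Δ / (l n * n))) := by gcongr
        _ = _ := by field_simp; ring
  have h6 := ENNReal.tendsto_ofReal h5
  simpa [ofReal_measureReal] using h6

end Crest.Agent.T157.Ac
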