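import Crest.Agent.T157.ScB_68

/-!
Row 157, part D (helper62): rounding to the grid (`Sc.roundStmt`).
-/

set_option autoImplicit false

noncomputable section

namespace Crest.Agent.T157.Sc

open MeasureTheory Matrix Set
open Crest.Agent.T157.E Crest.Agent.T157.Eig Crest.Agent.T157.Conc Crest.Agent.T157.St

namespace R62

variable {n : ℕ} {β C b : ℝ}

theorem abs_bk_le {N : ℕ} (hN : 0 < N) (k : Fin (2 * N + 1)) : |bk N k| ≤ 1 := by
  have hN' : (0 : ℝ) < N := by exact_mod_cast hN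
  have h1 : ((k : ℕ) : ℝ) ≤ 2 * N := by exact_mod_cast Nat.lt_succ_iff.1 k.2
  have h2 : (0 : ℝ) ≤ (k : ℕ) := Nat.cast_nonneg _
  rw [bk, abs_div, abs_of_pos hN', div_le_one hN', abs_le]
  constructor <;> linarith

theorem exists_grid {N : ℕ} (hN : 0 < N) {m : ℝ} (hm : |m| < 1) (y : ℝ) :
    ∃ k : Fin (2 * N + 1), |bk N k - m| ≤ 1 / N ∧ y * m ≤ bk N k * y := by
  have hN' : (0 : ℝ) < N := by exact_mod_cast hN
  have h0 : 0 ≤ N * m + N := by nlinarith [(abs_lt.1 hm).1]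
  have h2 : N * m + N ≤ ((2 * N : ℕ) : ℝ) := by push_cast; nlinarith [(abs_lt.1 hm).2]
  have key : ∀ k : Fin (2 * N + 1), bk N k - m = (((k : ℕ) : ℝ) - (N * m + N)) / N := by
    intro k; unfold bk; field_simp; ring
  rcases le_total 0 y with hy | hy
  · let k : Fin (2 * N + 1) := ⟨⌈N * m + N⌉₊, Nat.lt_succ_of_le (Nat.ceil_le.2 h2)⟩
    have a1 : N * m + N ≤ ((k : ℕ) : ℝ) := Nat.le_ceil _
    have a2 : ((k : ℕ) : ℝ) < N * m + N + 1 := Nat.ceil_lt_add_one h0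
    have a3 : 0 ≤ bk N k - m := by rw [key]; exact div_nonneg (by linarith) hN'.le
    refine ⟨k, ?_, by nlinarith⟩
    rw [abs_of_nonneg a3, key]
    exact div_le_div_of_nonneg_right (by linarith) hN'.le
  · let k : Fin (2 * N + 1) := ⟨⌊N * m + N⌋₊, Nat.lt_succ_of_le (by
      have := (Nat.floor_le h0).trans h2
      exact_mod_cast this)⟩
    have a1 : ((k : ℕ) : ℝ) ≤ N * m + N := Nat.floor_le h0
    have a2 : N * m + N < ((k : ℕ) : ℝ) + 1 := Nat.lt_floor_add_one _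
    have a3 : bk N k - m ≤ 0 := by
      rw [key]; exact div_nonpos_of_nonpos_of_nonneg (by linarith) hN'.le
    refine ⟨k, ?_, by nlinarith⟩
    rw [abs_of_nonpos a3, key, ← neg_div]
    exact div_le_div_of_nonneg_right (by linarith) hN'.le

theorem lse_le {Ω : Type*} [Fintype Ω] [Nonempty Ω] {u u' : Ω → ℝ} {K : ℝ}
    (h : ∀ σ, u σ ≤ u' σ + K) :
    Real.log (∑ σ, Real.exp (u σ)) ≤ Real.log (∑ σ, Real.exp (u' σ)) + K := by
  have p : ∀ v : Ω → ℝ, 0 < ∑ σ, Real.exp (v σ) := fun v =>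
    Finset.sum_pos (fun _ _ => Real.exp_pos _) Finset.univ_nonempty
  have h1 : ∑ σ, Real.exp (u σ) ≤ (∑ σ, Real.exp (u' σ)) * Real.exp K := by
    rw [Finset.sum_mul]
    exact Finset.sum_le_sum fun σ _ => by rw [← Real.exp_add, Real.exp_le_exp]; exact h σ
  have h2 := Real.log_le_log (p u) h1
  rwa [Real.log_mul (p u').ne' (Real.exp_pos K).ne', Real.log_exp] at h2

theorem elip_lse {Ω : Type*} [Fintype Ω] [Nonempty Ω] (c : Ω → ℝ) (v : Ω → Fin n → ℝ)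
    (hv : ∀ σ i, |v σ i| ≤ 1) {M : ℝ} (hM : 0 < M) :
    ELip (√n) fun y => M⁻¹ * Real.log (∑ σ, Real.exp (M * (c σ + v σ ⬝ᵥ y))) := by
  have key : ∀ x y : Fin n → ℝ, M⁻¹ * Real.log (∑ σ, Real.exp (M * (c σ + v σ ⬝ᵥ x))) -
      M⁻¹ * Real.log (∑ σ, Real.exp (M * (c σ + v σ ⬝ᵥ y))) ≤ √n * en (x - y) := by
    intro x y
    have h1 := lse_le (u := fun σ => M * (c σ + v σ ⬝ᵥ x)) (u' := fun σ => M * (c σ + v σ ⬝ᵥ y))
      (K := M * (√n * en (x - y))) fun σ => by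
        have a1 := (le_abs_self _).trans (Conc.abs_dot_le (v σ) (x - y))
        have a2 : en (v σ) ≤ √n := by
          refine Real.sqrt_le_sqrt ?_
          calc ∑ i, v σ i ^ 2 ≤ ∑ _i : Fin n, (1 : ℝ) :=
                Finset.sum_le_sum fun i _ => (sq_le_one_iff_abs_le_one _).2 (hv σ i)
            _ = n := by simp
        have a3 := mul_le_mul_of_nonneg_right a2 (en_nonneg (x - y))
        have a4 : ∑ i, v σ i * (x - y) i = v σ ⬝ᵥ x - v σ ⬝ᵥ y := by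
          rw [← dotProduct_sub]; rfl
        rw [← mul_add]
        exact mul_le_mul_of_nonneg_left (by linarith) hM.le
    have h2 := mul_le_mul_of_nonneg_left h1 (inv_pos.2 hM).le
    rw [mul_add, ← mul_assoc, inv_mul_cancel₀ hM.ne', one_mul] at h2
    linarith
  intro x y
  have h1 := key x y
  have h2 := key y x
  rw [en_sub_comm] at h2
  exact abs_le.2 ⟨by linarith, h1⟩

theorem le_lse {Ω : Type*} [Fintype Ω] (u : Ω → ℝ) {M : ℝ} (hM : 0 < M) (s : Ω) :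
    u s ≤ M⁻¹ * Real.log (∑ σ, Real.exp (M * u σ)) := by
  have h1 : Real.exp (M * u s) ≤ ∑ σ, Real.exp (M * u σ) :=
    Finset.single_le_sum (f := fun σ => Real.exp (M * u σ)) (fun _ _ => (Real.exp_pos _).le)
      (Finset.mem_univ s)
  have h2 := Real.log_le_log (Real.exp_pos _) h1
  rw [Real.log_exp] at h2
  have h3 := mul_le_mul_of_nonneg_left h2 (inv_pos.2 hM).le
  rwa [← mul_assoc, inv_mul_cancel₀ hM.ne', one_mul] at h3

theorem Lam_bounds (S : Site β C b) (hC : 0 ≤ C) {q m : ℝ} (hq : q ∈ Icc (0 : ℝ) 1)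
    (hm : |m| < 1) : -(β ^ 2 + C) ≤ S.Lam q m ∧ S.Lam q m ≤ 1 + (β ^ 2 + C) := by
  have h1 : (1 : ℝ) ∈ Icc (0 : ℝ) 1 := ⟨zero_le_one, le_rfl⟩
  have hb : (1 : ℝ) ∈ Icc b 1 := ⟨S.b1, le_rfl⟩
  have hK : 0 ≤ β ^ 2 + C := by positivity
  have a1 := S.Lam_time hC h1 hq hm
  have a2 := S.Lam_time hC hq h1 hm
  have a3 : (β ^ 2 + C) * |q - 1| ≤ β ^ 2 + C :=
    mul_le_of_le_one_right hK (abs_le.2 ⟨by linarith [hq.1], by linarith [hq.2]⟩)
  rw [abs_sub_comm] at a2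
  have a4 := S.Lam_le h1 hm 0
  rw [S.top 1 hb] at a4
  have a5 : Real.log 2 ≤ 1 := by linarith [Real.log_le_sub_one_of_pos (two_pos (α := ℝ))]
  simp only [Real.cosh_zero, mul_one, sub_self, mul_zero, zero_div, add_zero, zero_mul,
    sub_zero] at a4
  have a6 : 0 ≤ S.Lam 1 m := by
    unfold Site.Lam
    rw [S.top 1 hb]
    set x := S.X 1 m
    have b1 : Real.exp |x| ≤ 2 * Real.cosh x := by
      rw [← Real.cosh_abs, Real.cosh_eq]
      linarith [Real.exp_pos (-|x|)]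
    have b2 := Real.log_le_log (Real.exp_pos _) b1
    rw [Real.log_exp] at b2
    have b3 : x * m ≤ |x| := (le_abs_self _).trans (by
      rw [abs_mul]; exact mul_le_of_le_one_right (abs_nonneg _) hm.le)
    simp only [sub_self, mul_zero, zero_div, add_zero]
    linarith
  constructor <;> linarith

theorem nrm_le_of {v : Fin n → ℝ} {c : ℝ} (hc : 0 ≤ c) (h : ∀ i, |v i| ≤ c) :
    nrm v ≤ c * √n := by
  rw [nrm_le_iff (by positivity), mul_pow, Real.sq_sqrt (Nat.cast_nonneg n), dot_self_eq]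
  calc ∑ i, v i ^ 2 ≤ ∑ _i : Fin n, c ^ 2 :=
        Finset.sum_le_sum fun i _ => by rw [← sq_abs]; exact pow_le_pow_left₀ (abs_nonneg _) (h i) 2
    _ = _ := by simp [mul_comm]

theorem quad_le (A : Matrix (Fin n) (Fin n) ℝ) {a m : Fin n → ℝ} {d : ℝ} (hd : 0 ≤ d)
    (ha : ∀ i, |a i| ≤ 1) (hm : ∀ i, |m i| ≤ 1) (h : ∀ i, |a i - m i| ≤ d) :
    m ⬝ᵥ A *ᵥ m ≤ a ⬝ᵥ A *ᵥ a + 2 * opn A * d * n := by
  have e : a ⬝ᵥ A *ᵥ a - m ⬝ᵥ A *ᵥ m = a ⬝ᵥ A *ᵥ (a - m) + (a - m) ⬝ᵥ A *ᵥ m := by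
    rw [mulVec_sub, dotProduct_sub, sub_dotProduct]; ring
  have h1 := nrm_le_of zero_le_one ha
  have h2 := nrm_le_of zero_le_one hm
  have h3 := nrm_le_of (v := a - m) hd h
  have hs : √(n : ℝ) * √n = n := Real.mul_self_sqrt (Nat.cast_nonneg n)
  have b1 : nrm a * nrm (a - m) ≤ d * n := by
    calc _ ≤ (1 * √n) * (d * √n) := mul_le_mul h1 h3 (nrm_nonneg _) (by positivity)
      _ = d * (√n * √n) := by ring
      _ = _ := by rw [hs]
  have b2 : nrm (a - m) * nrm m ≤ d * n := by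
    calc _ ≤ (d * √n) * (1 * √n) := mul_le_mul h3 h2 (nrm_nonneg _) (by positivity)
      _ = d * (√n * √n) := by ring
      _ = _ := by rw [hs]
  have c1 := (abs_le.1 ((abs_bil_le A a (a - m)).trans
    (mul_le_mul_of_nonneg_left b1 (opn_nonneg A)))).1
  have c2 := (abs_le.1 ((abs_bil_le A (a - m) m).trans
    (mul_le_mul_of_nonneg_left b2 (opn_nonneg A)))).1
  linarith

theorem abs_qq_sub (hn : 0 < n) {a m : Fin n → ℝ} {d : ℝ}
    (ha : ∀ i, |a i| ≤ 1) (hm : ∀ i, |m i| ≤ 1) (h : ∀ i, |a i - m i| ≤ d) :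
    |qq a - qq m| ≤ 2 * d := by
  have hn' : (0 : ℝ) < n := by exact_mod_cast hn
  unfold qq
  rw [← sub_div, abs_div, abs_of_pos hn', div_le_iff₀ hn', dot_self_eq, dot_self_eq,
    ← Finset.sum_sub_distrib]
  refine (Finset.abs_sum_le_sum_abs _ _).trans ?_
  calc ∑ i, |a i ^ 2 - m i ^ 2| ≤ ∑ _i : Fin n, 2 * d := Finset.sum_le_sum fun i _ => by
        rw [sq_sub_sq, abs_mul]
        exact mul_le_mul ((abs_add_le _ _).trans (by linarith [ha i, hm i])) (h i) (abs_nonneg _)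
          (by norm_num)
    _ = _ := by simp [mul_comm]

theorem sum_ge {f g : Fin n → ℝ} {c : ℝ} (h : ∀ i, f i - c ≤ g i) :
    ∑ i, f i - n * c ≤ ∑ i, g i := by
  have := Finset.sum_le_sum fun i (_ : i ∈ Finset.univ) => h i
  simpa [Finset.sum_sub_distrib] using this

theorem fin_le {β C ν δ x M : ℝ} (hβ : 1 ≤ β) (hC : 0 ≤ C) (hν : 0 ≤ ν) (hδ : 0 ≤ δ) (hx : 0 ≤ x)
    (hz : 0 ≤ M * δ) :
    6 * β * δ * ν + ν * (δ * (1 + 2 * (β ^ 2 + C))) + 2 * (β ^ 2 + C) * (ν * (2 * δ)) +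
      ν * (x * (2 * δ)) + M * β ^ 2 * ν / 4 * (6 * δ) ^ 2 ≤
      ν * ((6 * β + 3 + 6 * (β ^ 2 + C) + 9 * β ^ 2) * δ * (1 + x + M * δ)) := by
  have e : 6 * β * δ * ν + ν * (δ * (1 + 2 * (β ^ 2 + C))) + 2 * (β ^ 2 + C) * (ν * (2 * δ)) +
      ν * (x * (2 * δ)) + M * β ^ 2 * ν / 4 * (6 * δ) ^ 2 =
      ν * δ * (6 * β + 1 + 6 * (β ^ 2 + C) + 2 * x + 9 * β ^ 2 * (M * δ)) := by ring
  rw [e, show ν * ((6 * β + 3 + 6 * (β ^ 2 + C) + 9 * β ^ 2) * δ * (1 + x + M * δ)) =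
    ν * δ * ((6 * β + 3 + 6 * (β ^ 2 + C) + 9 * β ^ 2) * (1 + x + M * δ)) by ring]
  refine mul_le_mul_of_nonneg_left ?_ (mul_nonneg hν hδ)
  have hb := sq_nonneg β
  have d1 : 0 ≤ (6 * β + 1 + 6 * (β ^ 2 + C) + 9 * β ^ 2) * x := mul_nonneg (by linarith) hx
  have d2 : 0 ≤ (6 * β + 3 + 6 * (β ^ 2 + C)) * (M * δ) := mul_nonneg (by linarith) hz
  have e2 : (6 * β + 3 + 6 * (β ^ 2 + C) + 9 * β ^ 2) * (1 + x + M * δ) =
      (6 * β + 1 + 6 * (β ^ 2 + C) + 2 * x + 9 * β ^ 2 * (M * δ)) + (2 + 9 * β ^ 2) +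
        (6 * β + 1 + 6 * (β ^ 2 + C) + 9 * β ^ 2) * x +
        (6 * β + 3 + 6 * (β ^ 2 + C)) * (M * δ) := by ring
  rw [e2]
  linarith

theorem det_le (S : Site β C b) (hβ : 1 ≤ β) (hC0 : 0 ≤ C) (hn : 0 < n)
    {A : Matrix (Fin n) (Fin n) ℝ} (hA : opn A ≤ β * 3) {δ M q ε G L : ℝ} {g : ℝ → ℝ}
    (hδ : 0 < δ) (hδ2 : δ ≤ 1 / 2) (hM : 0 < M) (hq : q ∈ Icc (0 : ℝ) 1) (hg : Tst g G L)
    (hL : 0 ≤ L) {a u m : Fin n → ℝ} (hm : ∀ i, |m i| < 1) (hqm : |qq m - q| ≤ 2 * δ)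
    (hu1 : ∀ i, |u i| < 1) (ha1 : ∀ i, |a i| < 1) (hau : ∀ i, a i = (1 - δ) * m i + δ * u i) :
    V S A m + ε * ∑ i, g (m i) - n * ((6 * β + 3 + 6 * (β ^ 2 + C) + 9 * β ^ 2) * δ *
      (1 + |ε| * L + M * δ)) ≤ En S A M q ε g a := by
  have hK : 0 ≤ β ^ 2 + C := by positivity
  have hn' : (0 : ℝ) < n := by exact_mod_cast hn
  have ham : ∀ i, |a i - m i| ≤ 2 * δ := fun i => by
    have e : a i - m i = δ * (u i - m i) := by rw [hau]; ring
    rw [e, abs_mul, abs_of_pos hδ, mul_comm]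
    exact mul_le_mul_of_nonneg_right ((abs_sub _ _).trans (by linarith [hu1 i, hm i])) hδ.le
  have p2 := quad_le A (by linarith : 0 ≤ 2 * δ) (fun i => (ha1 i).le) (fun i => (hm i).le) ham
  have p2' : 2 * opn A * (2 * δ) * n ≤ 12 * β * δ * n := by
    have := mul_le_mul_of_nonneg_right hA (by positivity : 0 ≤ 4 * δ * n)
    linarith
  have p3 : ∑ i, S.Lam q (m i) - n * (δ * (1 + 2 * (β ^ 2 + C))) ≤ ∑ i, S.Lam q (a i) :=
    sum_ge fun i => by
      have c1 := S.Lam_concave hq (hm i) (hu1 i) (t := δ) ⟨hδ.le, by linarith⟩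
      have c2 := mul_le_mul_of_nonneg_left (Lam_bounds S hC0 hq (hm i)).2 hδ.le
      have c3 := mul_le_mul_of_nonneg_left (Lam_bounds S hC0 hq (hu1 i)).1 hδ.le
      rw [← hau] at c1
      linarith
  have p4 := Psi_time S hC0 A (qq_mem hm) hq hm
  have p4' : 2 * (β ^ 2 + C) * (n * |q - qq m|) ≤ 2 * (β ^ 2 + C) * (n * (2 * δ)) := by
    rw [abs_sub_comm]
    exact mul_le_mul_of_nonneg_left (mul_le_mul_of_nonneg_left hqm hn'.le) (by positivity)
  have p5 : ∑ i, ε * g (m i) - n * (|ε| * L * (2 * δ)) ≤ ∑ i, ε * g (a i) :=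
    sum_ge fun i => by
      have c1 := (hg.2 _ _ (hm i) (ha1 i)).trans
        (mul_le_mul_of_nonneg_left ((abs_sub_comm _ _).trans_le (ham i)) hL)
      have c2 : ε * (g (m i) - g (a i)) ≤ |ε| * (L * (2 * δ)) := by
        refine (le_abs_self _).trans ?_
        rw [abs_mul]
        exact mul_le_mul_of_nonneg_left c1 (abs_nonneg _)
      linarith
  rw [← Finset.mul_sum, ← Finset.mul_sum] at p5
  have p6 : (qq a - q) ^ 2 ≤ (6 * δ) ^ 2 := by
    have c1 := abs_qq_sub hn (fun i => (ha1 i).le) (fun i => (hm i).le) ham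
    have c2 : |qq a - q| ≤ 6 * δ := by
      have := abs_sub_le (qq a) (qq m) q
      linarith
    rw [← sq_abs]
    exact pow_le_pow_left₀ (abs_nonneg _) c2 2
  have p6' : M * β ^ 2 * n / 4 * (qq a - q) ^ 2 ≤ M * β ^ 2 * n / 4 * (6 * δ) ^ 2 :=
    mul_le_mul_of_nonneg_left p6 (by positivity)
  have hx : 0 ≤ |ε| * L := by positivity
  have hz : 0 ≤ M * δ := by positivity
  have fin := fin_le hβ hC0 hn'.le hδ.le hx hz
  have e1 : Psi S A q m = 1 / 2 * (m ⬝ᵥ A *ᵥ m) + ∑ i, S.Lam q (m i) - n * S.pen q := rfl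
  have e2 : En S A M q ε g a = 1 / 2 * (a ⬝ᵥ A *ᵥ a) + ∑ i, S.Lam q (a i) - n * S.pen q +
      ε * ∑ i, g (a i) - M * β ^ 2 * n / 4 * (qq a - q) ^ 2 := rfl
  have e3 : V S A m = Psi S A (qq m) m := rfl
  rw [e2, e3]
  rw [e1] at p4
  generalize Psi S A (qq m) m = v0 at *
  generalize m ⬝ᵥ A *ᵥ m = v1 at *
  generalize a ⬝ᵥ A *ᵥ a = v2 at *
  generalize ∑ i, S.Lam q (m i) = v3 at *
  generalize ∑ i, S.Lam q (a i) = v4 at *
  generalize ∑ i, g (m i) = v5 at *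
  generalize ∑ i, g (a i) = v6 at *
  linarith

end R62

open R62

theorem roundStmt : RoundStmt := by
  intro β C hβ hC
  have hC0 : 0 ≤ C := by linarith
  refine ⟨6 * β + 3 + 6 * (β ^ 2 + C) + 9 * β ^ 2, by linarith [sq_nonneg β], ?_⟩
  intro b S n hn W N δ M q ε G L g hW hδ hδ2 hN hM hq hg hL
  have hN0 : 0 < N := by
    rcases Nat.eq_zero_or_pos N with rfl | h
    · norm_num at hN
    · exact h
  have hN' : (0 : ℝ) < N := by exact_mod_cast hN0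
  have hA : opn (β • W) ≤ β * 3 := by
    rw [opn_smul, abs_of_pos (by linarith : 0 < β)]
    exact mul_le_mul_of_nonneg_left hW (by linarith)
  generalize β • W = A at *
  constructor
  · exact elip_lse (fun s : Fin n → Fin (2 * N + 1) =>
      En S A M q ε g fun i => (1 - δ) * bk N (s i)) (fun s i => bk N (s i))
      (fun s i => abs_bk_le hN0 (s i)) hM
  intro y m hm hqm
  choose s hs1 hs2 using fun i => exists_grid hN0 (hm i) (y i)
  have h0 : En S A M q ε g (fun i => (1 - δ) * bk N (s i)) + (fun i => bk N (s i)) ⬝ᵥ y ≤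
      LN S A N δ M q ε g y :=
    le_lse (fun s : Fin n → Fin (2 * N + 1) =>
      En S A M q ε g (fun i => (1 - δ) * bk N (s i)) + (fun i => bk N (s i)) ⬝ᵥ y) hM s
  have hNd : 1 / (N : ℝ) ≤ δ := by rw [div_le_iff₀ hN']; exact hN
  have h1 : 0 < 1 - δ := by linarith
  have p1 : y ⬝ᵥ m ≤ (fun i => bk N (s i)) ⬝ᵥ y := Finset.sum_le_sum fun i _ => hs2 i
  have p2 := det_le S hβ hC0 hn hA (ε := ε) hδ hδ2 hM hq hg hL
    (a := fun i => (1 - δ) * bk N (s i)) (u := fun i => (1 - δ) * (bk N (s i) - m i) / δ) hm hqm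
    (fun i => by
      rw [abs_div, abs_of_pos hδ, div_lt_one hδ, abs_mul, abs_of_pos h1]
      have c1 := mul_le_mul_of_nonneg_left ((hs1 i).trans hNd) h1.le
      have c2 := mul_pos hδ hδ
      linarith)
    (fun i => by
      rw [abs_mul, abs_of_pos h1]
      have c1 := mul_le_mul_of_nonneg_left (abs_bk_le hN0 (s i)) h1.le
      linarith)
    (fun i => by field_simp; ring)
  linarith

end Crest.Agent.T157.Sc

end
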