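import Crest.Agent.T157.Sc5_68
import Crest.Agent.T157.ScR_62

/-! Row 157, part D (helper68): the self-correcting bounds (SC). -/

namespace Crest.Agent.T157.Sc

theorem scStmt : ScStmt := sc_of_round roundStmt

end Crest.Agent.T157.Sc
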