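import Crest.Agent.T157.Vg_54
import Crest.Agent.T157.ConcG_16

/-!
Row 157, part D (helper54): the vector Guerra bound with high probability; idle levels.
-/

set_option autoImplicit false

noncomputable section

namespace Crest.Agent.T157.Vg

open MeasureTheory ProbabilityTheory Matrix Real Set
open Crest.Agent.T157.E Crest.Agent.T157.Casc Crest.Agent.T157.SL Crest.Agent.T157.Cond

section idle
variable {Ω : Type*} [Fintype Ω] (w : Ω → ℝ)

theorem X_append_left (L' : List (Lv Ω)) : ∀ (L : List (Lv Ω)), (∀ l ∈ L, ∀ x i, l.A x i = 0) →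
    X w (L ++ L') = X w L'
  | [], _ => rfl
  | l :: L, h => by
    funext z
    rw [List.cons_append, X, step_zero _ (h l (by simp)),
      X_append_left L' L fun k hk => h k (by simp [hk])]

theorem X_append_right {L' : List (Lv Ω)} (h : ∀ l ∈ L', ∀ x i, l.A x i = 0) :
    ∀ (L : List (Lv Ω)), X w (L ++ L') = X w L
  | [] => funext fun z => X_zero w L' h z
  | l :: L => by
    funext z
    rw [List.cons_append, X, X, X_append_right h L]

end idle

variable {M 𝒜 : Type} [Fintype M] {n : ℕ} (β : ℝ) (τ : 𝒜 → M → ℝ)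

theorem fr2_ov_le (hn : 0 < n) {T : ℝ} (s : Fin n → 𝒜) (hT : ∀ i, ∑ c, τ (s i) c ^ 2 ≤ T) :
    fr2 (ov τ s s) ≤ T ^ 2 := by
  have hn' : (0 : ℝ) < n := by exact_mod_cast hn
  have h1 := sum_aW 1 τ hn s s
  have hT0 : 0 ≤ T := le_trans (by positivity) (hT ⟨0, hn⟩)
  have h2 : ∀ p : Fin n × Fin n, aW 1 τ s p * aW 1 τ s p ≤ 1 / (n * 2) * T ^ 2 := by
    intro p
    have e : 1 / (√n * √2) * (1 / (√n * √2)) = 1 / (n * 2) := by
      rw [div_mul_div_comm, mul_mul_mul_comm, mul_self_sqrt hn'.le, mul_self_sqrt zero_le_two,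
        one_mul]
    rw [aW, mul_mul_mul_comm, e, ← sq, sq T]
    refine mul_le_mul_of_nonneg_left ((Finset.sum_mul_sq_le_sq_mul_sq _ _ _).trans ?_)
      (by positivity)
    exact mul_le_mul (hT _) (hT _) (by positivity) hT0
  have h3 := Finset.sum_le_sum fun p (_ : p ∈ Finset.univ) => h2 p
  rw [h1, Finset.sum_const, Finset.card_univ, Fintype.card_prod, Fintype.card_fin,
    nsmul_eq_mul] at h3
  have h4 : ((n * n : ℕ) : ℝ) * (1 / (n * 2) * T ^ 2) = 1 ^ 2 * n / 2 * T ^ 2 := by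
    push_cast; field_simp
  rw [h4] at h3
  exact le_of_mul_le_mul_left h3 (by positivity)

theorem HW_symG (g : Fin n × Fin n → ℝ) (s : Fin n → 𝒜) :
    HW β τ (symG (1 / √n) g) s = ∑ p, aW β τ s p * g p := by
  rw [← fld_tW]
  change ∑ p : Fin n × Fin n, √1 * aW β τ s p * g p = _
  simp only [sqrt_one, one_mul]

variable [Fintype 𝒜]

/-- levels without fixed features drop out -/
theorem val_eq_log (w h : Fin n → 𝒜 → ℝ) {L : List (VL M 𝒜)} (hL : ∀ l ∈ L, ∀ a k, l.F a k = 0)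
    (W : Matrix (Fin n) (Fin n) ℝ) : val β τ w h L W = log (∑ s : Fin n → 𝒜, (∏ i, w i (s i)) *
      exp (∑ i, h i (s i) + HW β τ W s - pen β τ (Qtop L) s)) := by
  refine X_zero _ _ (fun l hl => ?_) _
  obtain ⟨l, hl', rfl⟩ := List.mem_map.1 hl
  exact fun s p => hL l hl' _ _

/-- a single level with fixed features -/
theorem val_eq_step (w h : Fin n → 𝒜 → ℝ) {L L' : List (VL M 𝒜)} (l : VL M 𝒜)
    (hL : ∀ l ∈ L, ∀ a k, l.F a k = 0) (hL' : ∀ l ∈ L', ∀ a k, l.F a k = 0)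
    (W : Matrix (Fin n) (Fin n) ℝ) : val β τ w h (L ++ l :: L') W =
      step (prodL n l.fix) (fun z => log (∑ s : Fin n → 𝒜, (∏ i, w i (s i)) * exp (z s)))
        fun s => ∑ i, h i (s i) + HW β τ W s - pen β τ (Qtop (L ++ l :: L')) s := by
  have a : ∀ K : List (VL M 𝒜), (∀ l ∈ K, ∀ a k, l.F a k = 0) →
      ∀ k ∈ K.map fun l => prodL n l.fix, ∀ x i, k.A x i = 0 := by
    intro K hK k hk
    obtain ⟨k, hk', rfl⟩ := List.mem_map.1 hk
    exact fun s p => hK k hk' _ _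
  rw [val, List.map_append, X_append_left _ _ _ (a L hL), List.map_cons, X,
    show X _ (L'.map fun l => prodL n l.fix) = _ from funext (X_zero _ _ (a L' hL'))]

theorem abs_val_sub_le (w h : Fin n → 𝒜 → ℝ) (hw : ∀ i, Wt (w i)) (L : List (VL M 𝒜))
    {W W' : Matrix (Fin n) (Fin n) ℝ} {c : ℝ}
    (hc : ∀ s, (∀ i, w i (s i) ≠ 0) → |HW β τ W' s - HW β τ W s| ≤ c) :
    |val β τ w h L W' - val β τ w h L W| ≤ c := by
  refine abs_X_sub_le (wt_prod hw) _ fun s hs => ?_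
  convert hc s fun i => Finset.prod_ne_zero_iff.1 hs i (Finset.mem_univ i) using 2
  ring

theorem elip_val (hn : 0 < n) (w h : Fin n → 𝒜 → ℝ) (hw : ∀ i, Wt (w i)) (L : List (VL M 𝒜))
    {T : ℝ} (hT0 : 0 ≤ T) (hT : ∀ i a, w i a ≠ 0 → ∑ c, τ a c ^ 2 ≤ T) :
    Conc.ELip (|β| * √(n / 2) * T) fun g => val β τ w h L (symG (1 / √n) g) := by
  intro g g'
  refine abs_val_sub_le β τ w h hw L fun s hs => ?_
  rw [HW_symG, HW_symG]
  refine ((Conc.elip_dot (aW β τ s)).mono ?_) g g'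
  refine Real.sqrt_le_iff.2 ⟨by positivity, ?_⟩
  simp only [sq (aW β τ s _)]
  rw [sum_aW β τ hn, mul_pow, mul_pow, sq_abs, sq_sqrt (by positivity), mul_div_assoc]
  exact mul_le_mul_of_nonneg_left (fr2_ov_le τ hn s fun i => hT i _ (hs i)) (by positivity)

/-- the bound with high probability, Gaussian array form -/
theorem vg_tail_symG (hn : 0 < n) (w h : Fin n → 𝒜 → ℝ) (hw : ∀ i, Wt (w i))
    (L : List (VL M 𝒜)) (hL : Mono 0 (L.map VL.fix)) {T : ℝ} (hT0 : 0 ≤ T)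
    (hT : ∀ i a, w i a ≠ 0 → ∑ c, τ a c ^ 2 ≤ T) {t : ℝ} (ht : 0 ≤ t) :
    (gv (Fin n × Fin n)).real {g | ∑ i, X (w i) (L.map (VL.site β τ)) (h i) -
      β ^ 2 * n / 4 * corr 0 L + t ≤ val β τ w h L (symG (1 / √n) g)} ≤
      exp (-t ^ 2 / (β ^ 2 * n * T ^ 2)) := by
  have h1 := Conc.tail_lip (elip_val β τ hn w h hw L hT0 hT) ht
  have h2 := vg β τ hn w h hw L hL
  have e : 2 * (|β| * √(n / 2) * T) ^ 2 = β ^ 2 * n * T ^ 2 := by
    rw [mul_pow, mul_pow, sq_abs, sq_sqrt (by positivity)]; ring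
  rw [e] at h1
  refine le_trans (measureReal_mono fun g hg => ?_) h1
  simp only [mem_ofPred_eq] at hg ⊢
  linarith

/-- the bound with high probability, GOE form -/
theorem vg_tail (hn : 0 < n) (w h : Fin n → 𝒜 → ℝ) (hw : ∀ i, Wt (w i))
    (L : List (VL M 𝒜)) (hL : Mono 0 (L.map VL.fix)) {T : ℝ} (hT0 : 0 ≤ T)
    (hT : ∀ i a, w i a ≠ 0 → ∑ c, τ a c ^ 2 ≤ T) {t : ℝ} (ht : 0 ≤ t) :
    (goe (Fin n) (1 / √n)).real {W | ∑ i, X (w i) (L.map (VL.site β τ)) (h i) -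
      β ^ 2 * n / 4 * corr 0 L + t ≤ val β τ w h L W} ≤ exp (-t ^ 2 / (β ^ 2 * n * T ^ 2)) := by
  rw [goe, map_measureReal_apply (measurable_symG _)
    (measurableSet_le measurable_const (continuous_val β τ w h hw L).measurable)]
  exact vg_tail_symG β τ hn w h hw L hL hT0 hT ht

/-- the bound with high probability for the completed coupling matrix -/
theorem vg_tail_Wmat (hn : 0 < n) (w h : Fin n → 𝒜 → ℝ) (hw : ∀ i, Wt (w i))
    (L : List (VL M 𝒜)) (hL : Mono 0 (L.map VL.fix)) {T : ℝ} (hT0 : 0 ≤ T)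
    (hT : ∀ i a, w i a ≠ 0 → ∑ c, τ a c ^ 2 ≤ T) {t : ℝ} (ht : 0 ≤ t) :
    ((gv (Crest.ProbabilityR.SpinGlassDynamics.Pair n)).prod (gv (Fin n))).real
      {p | ∑ i, X (w i) (L.map (VL.site β τ)) (h i) - β ^ 2 * n / 4 * corr 0 L + t ≤
        val β τ w h L (Wmat n p.1 p.2)} ≤ exp (-t ^ 2 / (β ^ 2 * n * T ^ 2)) := by
  refine le_trans (le_of_eq ?_) (vg_tail β τ hn w h hw L hL hT0 hT ht)
  rw [← goe_Wmat, map_measureReal_apply measurable_Wmat
    (measurableSet_le measurable_const (continuous_val β τ w h hw L).measurable)]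
  rfl

end Crest.Agent.T157.Vg

end
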