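import Crest.Agent.T157.UpDef_74
import Crest.Agent.T157.VgB_54
import Crest.Agent.T157.Sc2_68

/-!
Row 157, part D (helper61): Guerra's upper bound in tail form (`Up.FeStmt`).
-/

set_option autoImplicit false

noncomputable section

namespace Crest.Agent.T157.Up

open MeasureTheory Matrix Set Filter Real Topology
open Crest.ProbabilityR.SpinGlassDynamics
open Crest.Agent.T157.E Crest.Agent.T157.Casc Crest.Agent.T157.Vg Crest.Agent.T157.Pf
open Crest.Agent.R339.B Crest.Agent.R339.Var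

namespace Fe61

/-- the spin as a one-replica feature -/
def sp : Bool → Unit → ℝ := fun a _ => spin a

/-- a block `(exponent, variance)` as a site level -/
def vl (β : ℝ) (p : ℝ × ℝ) : VL Unit Bool :=
  ⟨Unit, Matrix.of fun _ _ => √p.2 / β, Empty, fun _ k => k.elim, p.1⟩

local instance uq : Unique (Unit ⊕ Empty) where
  default := Sum.inl ()
  uniq := fun x => by
    rcases x with x | x
    · rfl
    · exact x.elim

theorem X_site {β : ℝ} (hβ : β ≠ 0) : ∀ (l : List (ℝ × ℝ)) (x : ℝ),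
    X (fun _ => 1) ((l.map (vl β)).map (VL.site β sp)) (fun b => x * spin b) = PhiL 1 l x
  | [], x => by
    simp [X, PhiL, phi0, spin, cosh_eq, mul_div_cancel₀]
  | p :: l, x => by
    have e : ∀ g : Unit ⊕ Empty → ℝ, (fun b => x * spin b) + (VL.site β sp (vl β p)).fld g =
        fun b => (x + √p.2 * g (Sum.inl ())) * spin b := fun g => by
      funext b
      show x * spin b + ∑ i : Unit ⊕ Empty, Sum.elim
        (fun _ : Unit => β * ∑ _c : Unit, spin b * (√p.2 / β))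
        (fun k : Empty => (k.elim : ℝ)) i * g i = _
      rw [Fintype.sum_sum_type]
      simp only [Finset.univ_unique, Finset.sum_singleton, Sum.elim_inl,
        Finset.univ_eq_empty, Finset.sum_empty, add_zero, PUnit.default_eq_unit]
      field_simp
    have mp := measurePreserving_funUnique (ProbabilityTheory.gaussianReal 0 1) (Unit ⊕ Empty)
    have ih := X_site hβ l
    have h1 : ∀ F : ℝ → ℝ, ∫ g : Unit ⊕ Empty → ℝ, F (g (Sum.inl ())) ∂gv (Unit ⊕ Empty) =
        ∫ g, F g ∂ProbabilityTheory.gaussianReal 0 1 := fun F => by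
      rw [← mp.integral_comp' F]
      congr!
    show step (VL.site β sp (vl β p)) _ _ = Crest.ProbabilityR.InvariantGlass.gaussOp p.1 p.2 _ x
    unfold step Crest.ProbabilityR.InvariantGlass.gaussOp
    rw [← h1 fun g => PhiL 1 l (x + √p.2 * g), ← h1 fun g => exp (p.1 * PhiL 1 l (x + √p.2 * g))]
    simp only [e, ih]
    rfl

theorem vl_C {β : ℝ} {p : ℝ × ℝ} (hp : 0 ≤ p.2) :
    (vl β p).C = Matrix.of fun _ _ => p.2 / β ^ 2 := by
  ext i j
  show ∑ _k : Unit, √p.2 / β * (√p.2 / β) = p.2 / β ^ 2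
  rw [Finset.univ_unique, Finset.sum_singleton, div_mul_div_comm, mul_self_sqrt hp, sq]

theorem corr_vl {β : ℝ} (hβ : β ≠ 0) : ∀ (l : List (ℝ × ℝ)), (∀ p ∈ l, 0 ≤ p.2) → ∀ q : ℝ,
    corr (Matrix.of fun _ _ => q / β ^ 2) (l.map (vl β)) = R339.Guerra.pen q l / β ^ 4
  | [], _, q => by simp [corr, R339.Guerra.pen]
  | p :: l, h, q => by
    have hp := h p List.mem_cons_self
    have e : (Matrix.of fun _ _ => q / β ^ 2 : Matrix Unit Unit ℝ) + (vl β p).C =
        Matrix.of fun _ _ => (q + p.2) / β ^ 2 := by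
      rw [vl_C hp]; ext i j; simp [add_div]
    rw [List.map_cons, corr, e, corr_vl hβ l (fun r hr => h r (List.mem_cons_of_mem _ hr)),
      R339.Guerra.pen]
    show p.1 * _ + _ = _
    simp only [fr2, Finset.univ_unique, Finset.sum_singleton, Matrix.of_apply]
    field_simp

theorem Qtop_vl (β : ℝ) : ∀ (l : List (ℝ × ℝ)), (∀ p ∈ l, 0 ≤ p.2) →
    Qtop (l.map (vl β)) = Matrix.of fun _ _ => TT l / β ^ 2
  | [], _ => by ext i j; simp [Qtop, TT]
  | p :: l, h => by
    rw [List.map_cons, Qtop_cons, Qtop_vl β l (fun r hr => h r (List.mem_cons_of_mem _ hr)),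
      vl_C (h p List.mem_cons_self), Sc.TT_cons]
    ext i j; simp [add_div]

theorem mono_vl (β : ℝ) : ∀ (l : List (ℝ × ℝ)), Adm 1 l → ∀ m0 : ℝ, m0 ≤ headLv 1 l →
    Mono m0 ((l.map (vl β)).map VL.fix)
  | [], _, _, h => h
  | _ :: l, hl, _, h => ⟨h, mono_vl β l hl.2.2.2 _ hl.2.1⟩

theorem cut_TT : ∀ (l : List (ℝ × ℝ)), (∀ p ∈ l, 0 < p.2) → Sc.cut l (TT l) = l
  | [], _ => rfl
  | [p], _ => by simp [Sc.cut, TT]
  | p :: r :: l, h => by
    have h1 : 0 < TT (r :: l) := by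
      rw [Sc.TT_cons]
      exact add_pos_of_pos_of_nonneg (h r (by simp)) (TT_nonneg fun q hq => (h q (by simp [hq])).le)
    rw [Sc.TT_cons, Sc.cut, if_neg (by linarith), add_sub_cancel_left,
      cut_TT (r :: l) fun q hq => h q (List.mem_cons_of_mem _ hq)]

theorem lst_pos {P : Par} (h : P.OK) {β : ℝ} (hβ : 0 < β) : ∀ p ∈ P.lst β P.K, 0 < p.2 := by
  intro p hp
  obtain ⟨k, rfl⟩ := List.mem_ofFn.1 hp
  have : (0 : ℝ) < P.K := by exact_mod_cast h.Kpos
  positivity

theorem Ph_zero {P : Par} (h : P.OK) {β : ℝ} (hβ : 0 < β) :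
    P.Ph β 0 0 = PhiL 1 (P.lst β P.K) 0 := by
  have e4 : ∀ l : List (ℝ × ℝ), (∀ p ∈ l, 0 < p.2) → PhiT 1 l 0 = PhiL 1 l := fun l hl => by
    cases l with
    | nil => rfl
    | cons p l => simp [PhiT, PhiL, (hl p (by simp)).le]
  rw [Par.Ph, mul_zero, e4 _ (lst_pos h hβ)]

theorem pen_lst {P : Par} (h : P.OK) {β : ℝ} (hβ : 0 < β) :
    R339.Guerra.pen 0 (P.lst β P.K) = 4 * β ^ 2 * P.pen β 0 := by
  have h1 := Sc.pen_cut h hβ (s := 1) ⟨zero_le_one, le_rfl⟩
  rw [mul_one] at h1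
  nth_rewrite 1 [← Sc.TT_lst h β] at h1
  rw [cut_TT _ (lst_pos h hβ)] at h1
  rw [h1]
  simp [Par.pen]

/-- the tail bound at fixed `n` -/
theorem tail {n : ℕ} (hn : 0 < n) {P : Par} (h : P.OK) {β : ℝ} (hβ : 0 < β) {t : ℝ} (ht : 0 ≤ t) :
    (Om n).real {z | n * P.val β + t ≤ log (Zw (ising (β • Wmat n z.1 z.2) 0))} ≤
      exp (-t ^ 2 / (β ^ 2 * n)) := by
  have hl : ∀ p ∈ P.lst β P.K, 0 ≤ p.2 := fun p hp => (lst_pos h hβ p hp).le
  have hA := Sc.adm_lst h β P.K
  have h0 : (0 : ℝ) ≤ headLv 1 (P.lst β P.K) := by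
    cases hc : P.lst β P.K with
    | nil => exact zero_le_one
    | cons p l => rw [hc] at hA; exact hA.1.le
  have h1 := vg_tail_Wmat β sp hn (fun _ _ => 1) (fun _ b => 0 * spin b)
    (fun _ => SL.Wt.of_pos fun _ => one_pos) ((P.lst β P.K).map (vl β)) (mono_vl β _ hA 0 h0)
    (T := 1) zero_le_one (fun i a _ => by simp [sp, spin_sq]) ht
  have hn' : (n : ℝ) ≠ 0 := by exact_mod_cast hn.ne'
  have e1 : ∑ _i : Fin n, X (fun _ => (1 : ℝ)) (((P.lst β P.K).map (vl β)).map (VL.site β sp))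
      (fun b => 0 * spin b) - β ^ 2 * n / 4 * corr 0 ((P.lst β P.K).map (vl β)) =
      n * P.val β := by
    have e0 : (0 : Matrix Unit Unit ℝ) = Matrix.of fun _ _ => 0 / β ^ 2 := by ext i j; simp
    rw [X_site hβ.ne', e0, corr_vl hβ.ne' _ hl, pen_lst h hβ, Par.val, Ph_zero h hβ]
    simp only [Finset.sum_const, Finset.card_univ, Fintype.card_fin, nsmul_eq_mul]
    field_simp
  have e2 : ∀ W : Matrix (Fin n) (Fin n) ℝ, val β sp (fun _ _ => 1) (fun _ b => 0 * spin b)
      ((P.lst β P.K).map (vl β)) W = log (Zw (ising (β • W) 0)) := fun W => by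
    rw [val_eq_log β sp _ _ (fun l hl a k => by
      obtain ⟨p, _, rfl⟩ := List.mem_map.1 hl
      exact k.elim), Qtop_vl β _ hl, Sc.TT_lst h, Zw]
    congr 1
    refine Finset.sum_congr rfl fun s _ => ?_
    have e3 : ov sp s s = Matrix.of fun _ _ => β ^ 2 / β ^ 2 := by
      ext i j
      show sv s ⬝ᵥ sv s / n = β ^ 2 / β ^ 2
      rw [sv_dot_self, div_self hn', div_self (by positivity)]
    have e4 : HW β sp W s = β / 2 * (sv s ⬝ᵥ W *ᵥ sv s) := by
      rw [HW, Finset.univ_unique, Finset.sum_singleton]; rfl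
    rw [Vg.pen, e3, e4, ising, smul_mulVec, dotProduct_smul]
    simp [fr2]
    ring
  simp only [e1, e2, one_pow, mul_one] at h1
  exact h1

end Fe61

open Fe61

/-- Guerra's upper bound in tail form -/
theorem feStmt : FeStmt := by
  intro β hβ P hP
  have hβ0 : 0 < β := by linarith
  have ha : Tendsto (fun n : ℕ => exp (-((n : ℝ) ^ (1 - 200 / 10000000 : ℝ) / β ^ 2))) atTop
      (𝓝 0) := by
    refine tendsto_exp_neg_atTop_nhds_zero.comp (Tendsto.atTop_div_const (by positivity) ?_)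
    exact (tendsto_rpow_atTop (by norm_num)).comp tendsto_natCast_atTop_atTop
  refine Top.whp_of_real_le ha ?_
  filter_upwards [hP, eventually_gt_atTop 0] with n hn hn0
  have hn' : (0 : ℝ) < n := by exact_mod_cast hn0
  have he : 0 ≤ eps n := rpow_nonneg hn'.le _
  have h1 := tail hn0 hn hβ0 (t := n * eps n ^ 100) (by positivity)
  have e : -(n * eps n ^ 100) ^ 2 / (β ^ 2 * n) = -((n : ℝ) ^ (1 - 200 / 10000000 : ℝ) / β ^ 2) := by
    have e1 : eps n ^ 200 = (n : ℝ) ^ (-(200 / 10000000 : ℝ)) := by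
      rw [eps, ← rpow_natCast, ← rpow_mul hn'.le]; norm_num
    rw [sub_eq_add_neg, rpow_add hn', rpow_one, ← e1]
    field_simp
  rw [e] at h1
  refine le_trans (measureReal_mono fun z hz => ?_) h1
  simp only [mem_ofPred_eq, not_le] at hz ⊢
  linarith

end Crest.Agent.T157.Up

end
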