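import Crest.Agent.T157.Sd_12
import Crest.Agent.T157.UpFe_61
import Crest.Agent.T157.AnFree_50

/-!
Row 157, part D (helper12): the bridges of `Sd_12`, and `PsiStmt` from `G1Stmt`, `PlbStmt`,
`ParStmt`.
-/

set_option autoImplicit false

noncomputable section

namespace Crest.Agent.T157.Sd

open Finset Matrix MeasureTheory Real
open Crest.Agent.T157.E Crest.Agent.T157.Casc Crest.Agent.T157.SdM
open Crest.Agent.T157.Ac Crest.Agent.T157.G1 Crest.Agent.T157.Pf
open Crest.ProbabilityR.SpinGlassDynamics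

variable {n : ℕ}

theorem sv_sq (σ : Cube n) (i : Fin n) : sv σ i * sv σ i = 1 := by
  unfold sv; cases σ i <;> simp [spin]

theorem dot_sq (x y : Cube n) :
    (sv x ⬝ᵥ sv y) ^ 2 = ∑ i, ∑ j, sv x i * sv x j * (sv y i * sv y j) := by
  rw [sq, dotProduct, sum_mul_sum]
  exact sum_congr rfl fun i _ => sum_congr rfl fun j _ => by ring

theorem cov_Jw (hn : 0 < n) (β : ℝ) (x y : Cube n) :
    (Jw n β).cov x y = β ^ 2 / (2 * n) * (sv x ⬝ᵥ sv y) ^ 2 := by
  have hn' : (0 : ℝ) < n := by exact_mod_cast hn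
  have h : β / 2 * (√2 / √n) * (β / 2 * (√2 / √n)) = β ^ 2 / (2 * n) := by
    rw [mul_mul_mul_comm, div_mul_div_comm √2, mul_self_sqrt (by norm_num), mul_self_sqrt hn'.le]
    field_simp
  rw [dot_sq, Lv.cov, Fintype.sum_prod_type, ← h, mul_sum]
  refine sum_congr rfl fun i _ => ?_
  rw [mul_sum]
  exact sum_congr rfl fun j _ => by ring

theorem cov_Jp (hn : 0 < n) (β : ℝ) (x y : Cube n) :
    (Jp n β).cov x y = β ^ 2 / (2 * n) * (sv x ⬝ᵥ sv y) ^ 2 - β ^ 2 / 2 := by
  have hn' : (0 : ℝ) < n := by exact_mod_cast hn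
  have h : β / √n * (β / √n) = β ^ 2 / n := by
    rw [div_mul_div_comm, mul_self_sqrt hn'.le, sq]
  have e := sum_sum_eq_two_mul_pair (fun i j : Fin n =>
    sv x i * sv x j * (sv y i * sv y j) - if i = j then 1 else 0)
    (fun i j => by simp only [eq_comm (a := i)]; ring) fun i => by simp [sv_sq]
  simp only [sum_sub_distrib, sum_ite_eq, mem_univ, if_true, sum_const, card_univ,
    Fintype.card_fin, nsmul_eq_mul, mul_one, fun p : Pair n => ne_of_lt p.2, if_false,
    sub_zero, ← dot_sq] at e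
  have e2 : (Jp n β).cov x y =
      β ^ 2 / n * ∑ p : Pair n, sv x p.1.1 * sv x p.1.2 * (sv y p.1.1 * sv y p.1.2) := by
    rw [Lv.cov, mul_sum, ← h]
    exact sum_congr rfl fun p _ => by ring
  rw [e2]
  generalize ∑ p : Pair n, sv x p.1.1 * sv x p.1.2 * (sv y p.1.1 * sv y p.1.2) = S at e
  field_simp
  linear_combination (-β ^ 2) * e

theorem bridge : Bridge := fun n hn β hβ => by
  have hn' : (0 : ℝ) < n := by exact_mod_cast hn
  refine ⟨⟨rfl, 0, fun x y => ?_⟩, ?_, fun P h => ?_⟩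
  · rw [cov_Jw hn, ov]; field_simp; ring
  · have e := C.X_split wt1 (l := Jw n β) (l1 := ⟨Unit, fun _ _ => β / √2, 0⟩) (l2 := Jp n β)
      rfl rfl (fun x y => by
        rw [cov_Jw hn, cov_Jp hn]
        simp only [Lv.cov, univ_unique, sum_singleton]
        rw [div_mul_div_comm, mul_self_sqrt (by norm_num)]
        ring) []
    have e2 := congrFun e 0
    rw [C.X_cons _ ⟨Unit, _, 0⟩, C.step_of_const (a := fun _ => β / √2) (fun _ => rfl)
      (C.X_add_const wt1 _), C.X_cons, C.X_cons, C.step_zero (l := Jw n β) rfl,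
      C.step_zero (l := Jp n β) rfl] at e2
    simp only [X, zero_add, one_mul, zero_mul, zero_div, add_zero] at e2
    rw [FE, e2]
    refine integral_congr_ae (ae_of_all _ fun g => ?_)
    simp only [gibbsWeight, Lv.fld, sv]
    congr 1
    refine sum_congr rfl fun x _ => ?_
    congr 1
    exact sum_congr rfl fun p _ => by ring
  · rw [G1.val, cor, Up.Fe61.pen_lst h hβ, Par.val, Up.Fe61.Ph_zero h hβ]
    field_simp

/-- **the lower half of S0231 from the three remaining inputs** -/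
theorem psi_of' (hG : G1Stmt) (hL : Plb.PlbStmt) (hP : ParStmt) : PsiStmt :=
  psi_of hG bridge (An.free_of hL) hP

end Crest.Agent.T157.Sd
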