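import Crest.Agent.T157.St0_44

/-!
# Row 157, part D: `ContStmt`, `SegStmt`, `EndStmt` (helper65)
-/

set_option autoImplicit false

noncomputable section

namespace Crest.Agent.T157.St

open MeasureTheory Matrix Set Filter Topology
open Crest.Agent.T157.E Crest.Agent.T157.Eig

namespace E65

variable {n : ℕ} {β C b : ℝ} (S : Site β C b) {s s' m m' : ℝ}

/-! ### one site -/

theorem p1_mono (hs : s ∈ Icc (0 : ℝ) 1) : StrictMono (S.p1 s) :=
  strictMono_of_deriv_pos fun x => by rw [(S.d2 s hs x).deriv]; exact S.pos2 s hs x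

theorem p1_X (hs : s ∈ Icc (0 : ℝ) 1) (hm : |m| < 1) : S.p1 s (S.X s m) = m :=
  Function.invFun_eq (S.onto s hs m hm)

theorem Lam_le (hs : s ∈ Icc (0 : ℝ) 1) (hm : |m| < 1) (x : ℝ) : S.Lam s m ≤ S.Φ s x - x * m := by
  have hc : ConvexOn ℝ univ (S.Φ s) := by
    refine Monotone.convexOn_univ_of_deriv (fun x => (S.d1 s hs x).differentiableAt) ?_
    rw [show deriv (S.Φ s) = S.p1 s from funext fun x => (S.d1 s hs x).deriv]
    exact (p1_mono S hs).monotone
  have h1 := p1_X S hs hm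
  rw [Site.Lam]
  rcases lt_trichotomy x (S.X s m) with h | h | h
  · have := hc.slope_le_of_hasDerivAt (mem_univ x) (mem_univ _) h (S.d1 s hs _)
    rw [h1, slope_def_field, div_le_iff₀ (sub_pos.2 h)] at this
    linarith
  · rw [h]
  · have := hc.le_slope_of_hasDerivAt (mem_univ _) (mem_univ x) h (S.d1 s hs _)
    rw [h1, slope_def_field, le_div_iff₀ (sub_pos.2 h)] at this
    linarith

theorem abs_seg {t : ℝ} (ht : t ∈ Icc (0 : ℝ) 1) (hm : |m| < 1) (hm' : |m'| < 1) :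
    |(1 - t) * m + t * m'| < 1 := by
  have h := (convex_Ioo (-1 : ℝ) 1) (abs_lt.1 hm) (abs_lt.1 hm') (sub_nonneg.2 ht.2) ht.1 (by ring)
  exact abs_lt.2 h

theorem Lam_concave (hs : s ∈ Icc (0 : ℝ) 1) (hm : |m| < 1) (hm' : |m'| < 1) {t : ℝ}
    (ht : t ∈ Icc (0 : ℝ) 1) :
    (1 - t) * S.Lam s m + t * S.Lam s m' ≤ S.Lam s ((1 - t) * m + t * m') := by
  have h1 := mul_le_mul_of_nonneg_left (Lam_le S hs hm (S.X s ((1 - t) * m + t * m')))
    (sub_nonneg.2 ht.2)
  have h2 := mul_le_mul_of_nonneg_left (Lam_le S hs hm' (S.X s ((1 - t) * m + t * m'))) ht.1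
  rw [Site.Lam, Site.Lam, Site.Lam] at *
  linarith

theorem sqrt_mul_le (hs : s ∈ Icc (0 : ℝ) 1) (hs' : s' ∈ Icc (0 : ℝ) 1) :
    |s' - s| * √|s' - s| ≤ |s' - s| :=
  mul_le_of_le_one_right (abs_nonneg _) (Real.sqrt_le_one.2 (abs_le.2
    ⟨by linarith [hs.2, hs'.1], by linarith [hs.1, hs'.2]⟩))

theorem Phi_lip (hC : 0 ≤ C) (hs : s ∈ Icc (0 : ℝ) 1) (hs' : s' ∈ Icc (0 : ℝ) 1) (x : ℝ) :
    |S.Φ s' x - S.Φ s x| ≤ (β ^ 2 + C) * |s' - s| := by
  have h1 := (S.pde s hs s' hs' x).trans (mul_le_mul_of_nonneg_left (sqrt_mul_le hs hs') hC)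
  have h2 : |(s' - s) * S.p2 s' x| ≤ |s' - s| := by
    rw [abs_mul, abs_of_pos (S.pos2 s' hs' x)]
    exact mul_le_of_le_one_right (abs_nonneg _) (S.le2 s' hs' x)
  have h3 : |(S.Zc s' - S.Zc s) * S.p1 s' x ^ 2| ≤ |s' - s| := by
    rw [abs_mul, abs_pow]
    exact (mul_le_of_le_one_right (abs_nonneg _) (pow_le_one₀ (abs_nonneg _)
      (S.abs1 s' hs' x).le)).trans (S.zlip s' hs' s hs)
  have h4 := mul_le_mul_of_nonneg_left ((abs_add_le _ _).trans (add_le_add h2 h3))
    (by positivity : 0 ≤ β ^ 2 / 2)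
  have h5 := abs_sub (S.Φ s' x - S.Φ s x + β ^ 2 / 2 * ((s' - s) * S.p2 s' x +
    (S.Zc s' - S.Zc s) * S.p1 s' x ^ 2)) (β ^ 2 / 2 * ((s' - s) * S.p2 s' x +
    (S.Zc s' - S.Zc s) * S.p1 s' x ^ 2))
  rw [add_sub_cancel_right, abs_mul (β ^ 2 / 2), abs_of_nonneg (by positivity : 0 ≤ β ^ 2 / 2)] at h5
  linarith

theorem pen_lip (hC : 0 ≤ C) (hs : s ∈ Icc (0 : ℝ) 1) (hs' : s' ∈ Icc (0 : ℝ) 1) :
    |S.pen s - S.pen s'| ≤ (β ^ 2 + C) * |s' - s| := by
  have h1 := (S.penD s hs s' hs').trans (mul_le_mul_of_nonneg_left (sqrt_mul_le hs hs') hC)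
  have h3 : |s' * (S.Zc s' - S.Zc s)| ≤ |s' - s| := by
    rw [abs_mul, abs_of_nonneg hs'.1]
    exact (mul_le_of_le_one_left (abs_nonneg _) hs'.2).trans (S.zlip s' hs' s hs)
  have h4 := mul_le_mul_of_nonneg_left h3 (by positivity : 0 ≤ β ^ 2 / 2)
  have h5 := abs_add_le (S.pen s - S.pen s' - β ^ 2 / 2 * (s' * (S.Zc s' - S.Zc s)))
    (β ^ 2 / 2 * (s' * (S.Zc s' - S.Zc s)))
  rw [sub_add_cancel, abs_mul (β ^ 2 / 2), abs_of_nonneg (by positivity : 0 ≤ β ^ 2 / 2)] at h5
  nlinarith [abs_nonneg (s' - s), sq_nonneg β]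

theorem Lam_lip (hC : 0 ≤ C) (hs : s ∈ Icc (0 : ℝ) 1) (hs' : s' ∈ Icc (0 : ℝ) 1) (hm : |m| < 1) :
    S.Lam s m ≤ S.Lam s' m + (β ^ 2 + C) * |s' - s| := by
  have h1 := Lam_le S hs hm (S.X s' m)
  have h2 := (abs_le.1 (Phi_lip S hC hs hs' (S.X s' m))).1
  rw [Site.Lam, Site.Lam] at *
  linarith

/-! ### continuity -/

section cont

variable {T : Type*} [TopologicalSpace T] {q x μ : T → ℝ}

theorem cont_two {f : ℝ → ℝ → ℝ} {ω : ℝ → ℝ} (hω : Continuous ω) (h0 : ω 0 = 0)
    (h1 : ∀ s ∈ Icc (0 : ℝ) 1, ∀ s' ∈ Icc (0 : ℝ) 1, ∀ x, |f s x - f s' x| ≤ ω (s - s'))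
    (h2 : ∀ s ∈ Icc (0 : ℝ) 1, Continuous (f s)) (hq : Continuous q) (hq' : ∀ t, q t ∈ Icc (0 : ℝ) 1)
    (hx : Continuous x) : Continuous fun t => f (q t) (x t) := by
  refine continuous_iff_continuousAt.2 fun t0 => ?_
  have e1 : Tendsto (fun t => f (q t) (x t) - f (q t0) (x t)) (𝓝 t0) (𝓝 0) := by
    refine squeeze_zero_norm (fun t => h1 _ (hq' t) _ (hq' t0) _) ?_
    have : Continuous fun t => ω (q t - q t0) := by fun_prop
    simpa [h0] using this.tendsto t0
  have e2 := ((h2 _ (hq' t0)).comp hx).tendsto t0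
  simpa [ContinuousAt] using e1.add e2

theorem cont_Phi (hC : 0 ≤ C) (hq : Continuous q) (hq' : ∀ t, q t ∈ Icc (0 : ℝ) 1)
    (hx : Continuous x) : Continuous fun t => S.Φ (q t) (x t) :=
  cont_two (ω := fun u => (β ^ 2 + C) * |u|) (by fun_prop) (by simp)
    (fun _ hs _ hs' x => Phi_lip S hC hs' hs x)
    (fun s hs => continuous_iff_continuousAt.2 fun x => (S.d1 s hs x).continuousAt) hq hq' hx

theorem cont_p1 (hq : Continuous q) (hq' : ∀ t, q t ∈ Icc (0 : ℝ) 1) (hx : Continuous x) :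
    Continuous fun t => S.p1 (q t) (x t) :=
  cont_two (ω := fun u => C * |u|) (by fun_prop) (by simp) S.t1
    (fun s hs => continuous_iff_continuousAt.2 fun x => (S.d2 s hs x).continuousAt) hq hq' hx

theorem cont_p2 (hq : Continuous q) (hq' : ∀ t, q t ∈ Icc (0 : ℝ) 1) (hx : Continuous x) :
    Continuous fun t => S.p2 (q t) (x t) :=
  cont_two (ω := fun u => C * √|u|) (by fun_prop) (by simp) S.t2
    (fun s hs => continuous_iff_continuousAt.2 fun x0 => by
      have e1 : Tendsto (fun x => S.p2 s x - S.p2 s x0) (𝓝 x0) (𝓝 0) := by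
        refine squeeze_zero_norm (fun x => S.lip2 s hs x x0) ?_
        have : Continuous fun x => C * |x - x0| := by fun_prop
        simpa using this.tendsto x0
      simpa [ContinuousAt] using e1.add_const (S.p2 s x0)) hq hq' hx

theorem cont_pen (hC : 0 ≤ C) (hq : Continuous q) (hq' : ∀ t, q t ∈ Icc (0 : ℝ) 1) :
    Continuous fun t => S.pen (q t) :=
  cont_two (f := fun s _ => S.pen s) (ω := fun u => (β ^ 2 + C) * |u|) (x := q) (by fun_prop)
    (by simp) (fun _ hs _ hs' _ => by simpa [abs_sub_comm] using pen_lip S hC hs hs')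
    (fun _ _ => continuous_const) hq hq' hq

theorem cont_X (hq : Continuous q) (hq' : ∀ t, q t ∈ Icc (0 : ℝ) 1) (hμ : Continuous μ)
    (hμ' : ∀ t, |μ t| < 1) : Continuous fun t => S.X (q t) (μ t) := by
  refine continuous_iff_continuousAt.2 fun t0 => tendsto_order.2 ⟨fun a ha => ?_, fun a ha => ?_⟩
  · have h1 := p1_mono S (hq' t0) ha
    rw [p1_X S (hq' t0) (hμ' t0)] at h1
    refine ((cont_p1 S hq hq' (continuous_const (y := a))).continuousAt.eventually_lt
      hμ.continuousAt h1).mono fun t ht => ?_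
    rw [← p1_X S (hq' t) (hμ' t)] at ht
    exact (p1_mono S (hq' t)).lt_iff_lt.1 ht
  · have h1 := p1_mono S (hq' t0) ha
    rw [p1_X S (hq' t0) (hμ' t0)] at h1
    refine (hμ.continuousAt.eventually_lt
      (cont_p1 S hq hq' (continuous_const (y := a))).continuousAt h1).mono fun t ht => ?_
    rw [← p1_X S (hq' t) (hμ' t)] at ht
    exact (p1_mono S (hq' t)).lt_iff_lt.1 ht

theorem dot_le_card {m : Fin n → ℝ} (hm : m ∈ box n) : m ⬝ᵥ m ≤ n := by
  calc m ⬝ᵥ m ≤ ∑ _i : Fin n, (1 : ℝ) := Finset.sum_le_sum fun i _ => by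
        have := abs_lt.1 (hm i); nlinarith
    _ = n := by simp

theorem qq_mem {m : Fin n → ℝ} (hm : m ∈ box n) : qq m ∈ Icc (0 : ℝ) 1 :=
  ⟨div_nonneg (dot_self_nonneg m) (Nat.cast_nonneg n),
    div_le_one_of_le₀ (dot_le_card hm) (Nat.cast_nonneg n)⟩

variable {M : T → Fin n → ℝ} {η : ℝ}

theorem cont_qq (hM : Continuous M) : Continuous fun t => qq (M t) := by
  unfold qq dotProduct; fun_prop

theorem cont_av {f : T → Fin n → ℝ} (hf : ∀ i, Continuous fun t => f t i) :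
    Continuous fun t => av (f t) := by
  unfold av; fun_prop

theorem cont_aa (hM : Continuous M) (hM' : ∀ t, M t ∈ box n) (i : Fin n) :
    Continuous fun t => S.aa (qq (M t)) (M t i) :=
  cont_p2 S (cont_qq hM) (fun t => qq_mem (hM' t)) (cont_X S (cont_qq hM) (fun t => qq_mem (hM' t))
    ((continuous_apply i).comp hM) fun t => hM' t i)

theorem cont_V (hC : 0 ≤ C) (A : Matrix (Fin n) (Fin n) ℝ) (hM : Continuous M)
    (hM' : ∀ t, M t ∈ box n) : Continuous fun t => V S A (M t) := by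
  have hq := cont_qq hM
  have hq' := fun t => qq_mem (hM' t)
  have hX := fun i => cont_X S hq hq' ((continuous_apply i).comp hM) fun t => hM' t i
  refine (Continuous.add ?_ (continuous_finsetSum _ fun i _ => (cont_Phi S hC hq hq' (hX i)).sub
    ((hX i).mul ((continuous_apply i).comp hM)))).sub (continuous_const.mul (cont_pen S hC hq hq'))
  unfold dotProduct mulVec dotProduct
  fun_prop

theorem Dt_pos (hη : 0 < η) (m : Fin n → ℝ) (i : Fin n) : 0 < Dt S η m i :=
  inv_pos.2 (lt_max_of_lt_right (by positivity))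

theorem cont_Dt (hη : 0 < η) (hM : Continuous M) (hM' : ∀ t, M t ∈ box n) (i : Fin n) :
    Continuous fun t => Dt S η (M t) i :=
  ((cont_aa S hM hM' i).max continuous_const).inv₀ fun _ =>
    (lt_max_of_lt_right (by positivity)).ne'

variable {D : T → Fin n → ℝ} {u1 u2 τ : T → ℝ}

theorem cont_g2 (hD : ∀ i, Continuous fun t => D t i) (h1 : Continuous u1) (h2 : Continuous u2)
    (h0 : ∀ t i, (D t i + u1 t) ^ 2 + u2 t ^ 2 ≠ 0) : Continuous fun t => g2 (D t) (u1 t) (u2 t) :=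
  cont_av fun i => Continuous.inv₀ (by have := hD i; fun_prop) fun t => h0 t i

theorem cont_gr (hD : ∀ i, Continuous fun t => D t i) (h1 : Continuous u1) (h2 : Continuous u2)
    (h0 : ∀ t i, (D t i + u1 t) ^ 2 + u2 t ^ 2 ≠ 0) : Continuous fun t => gr (D t) (u1 t) (u2 t) :=
  cont_av fun i => ((hD i).add h1).mul (Continuous.inv₀ (by have := hD i; fun_prop) fun t => h0 t i)

theorem cont_ku (β : ℝ) (hD : ∀ i, Continuous fun t => D t i) (h1 : Continuous u1)
    (h2 : Continuous u2) (h0 : ∀ t i, (D t i + u1 t) ^ 2 + u2 t ^ 2 ≠ 0) :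
    Continuous fun t => ku β (D t) (u1 t) (u2 t) :=
  continuous_const.sub (continuous_const.mul (cont_g2 hD h1 h2 h0))

theorem cont_kt (hη : 0 < η) (hM : Continuous M) (hM' : ∀ t, M t ∈ box n) :
    Continuous fun t => kt S η (M t) :=
  cont_ku β (cont_Dt S hη hM hM') continuous_const continuous_const fun t i => by
    have := Dt_pos S hη (M t) i
    positivity

theorem det_ne {B : Matrix (Fin n) (Fin n) ℝ} (hB : B.IsHermitian) {w : ℝ} (hw : w ≠ 0) :
    (B * B + (w ^ 2) • (1 : Matrix (Fin n) (Fin n) ℝ)).det ≠ 0 := by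
  have h1 : (B * B).PosSemidef := by
    have := posSemidef_conjTranspose_mul_self B
    rwa [hB.eq] at this
  have h2 : ((w ^ 2) • (1 : Matrix (Fin n) (Fin n) ℝ)).PosDef :=
    PosDef.one.smul (by positivity : 0 < w ^ 2)
  exact (h2.posSemidef_add h1).det_pos.ne'

theorem cont_Mm {A : Matrix (Fin n) (Fin n) ℝ} (hA : A.IsHermitian)
    (hD : ∀ i, Continuous fun t => D t i) (h1 : Continuous u1) (h2 : Continuous u2)
    (h0 : ∀ t, u2 t ≠ 0) : Continuous fun t => Mm A (D t) (u1 t) (u2 t) := by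
  have hB : Continuous fun t => Bm A (D t) (u1 t) :=
    (Continuous.matrix_diagonal (continuous_pi fun i => (hD i).add h1)).sub continuous_const
  have hN : Continuous fun t => Bm A (D t) (u1 t) * Bm A (D t) (u1 t) +
      (u2 t ^ 2) • (1 : Matrix (Fin n) (Fin n) ℝ) := (hB.matrix_mul hB).add (by fun_prop)
  have hK : Continuous fun t => Km A (D t) (u1 t) (u2 t) := by
    simp only [Km, Matrix.inv_def, Ring.inverse_eq_inv']
    exact (hN.matrix_det.inv₀ fun t => det_ne ((isHermitian_diagonal _).sub hA) (h0 t)).smul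
      hN.matrix_adjugate
  refine continuous_matrix fun i j => ?_
  cases j with
  | inl j => exact (hB.matrix_mul hK).matrix_elem i j
  | inr j => exact (h2.smul hK).matrix_elem i j

theorem cont_inc {A : Matrix (Fin n) (Fin n) ℝ} (hA : A.IsHermitian) (hη : 0 < η)
    (hM : Continuous M) (hM' : ∀ t, M t ∈ box n) (h1 : Continuous u1) {c : ℝ} (hc : c ≠ 0)
    (hτ : Continuous τ) (ξ : Fin n ⊕ Fin n → ℝ) :
    Continuous fun t => inc S A η (u1 t) c (τ t) (M t) ξ := by
  have hD := cont_Dt S hη hM hM'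
  have h0 : ∀ t i, (Dt S η (M t) i + u1 t) ^ 2 + c ^ 2 ≠ 0 := fun t i => by positivity
  have hm := cont_Mm (u2 := fun t => max (c * ku β (Dt S η (M t)) (u1 t) c) (η ^ 4)) hA hD
    (h1.add ((continuous_const (y := β ^ 2)).mul (cont_gr hD h1 continuous_const h0)))
    ((continuous_const.mul (cont_ku β hD h1 continuous_const h0)).max continuous_const)
    fun t => (lt_max_of_lt_right (by positivity)).ne'
  refine continuous_pi fun i => ?_
  have ha := cont_aa S hM hM' i
  have hc : Continuous fun t => cl S η (M t) i := by unfold cl; fun_prop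
  exact hc.neg.max (hc.min (hτ.sqrt.mul ((continuous_apply i).comp
    (hm.matrix_mulVec continuous_const))))

theorem cont_inc' (A : Matrix (Fin n) (Fin n) ℝ) (η u1 u2 τ : ℝ) (m : Fin n → ℝ) :
    Continuous (inc S A η u1 u2 τ m) :=
  continuous_pi fun i => continuous_const.max (continuous_const.min (continuous_const.mul
    ((continuous_apply i).comp (continuous_const.matrix_mulVec continuous_id))))

theorem av_pos (hn : 0 < n) {f : Fin n → ℝ} (hf : ∀ i, 0 < f i) : 0 < av f :=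
  haveI : Nonempty (Fin n) := ⟨⟨0, hn⟩⟩
  div_pos (Finset.sum_pos (fun i _ => hf i) Finset.univ_nonempty) (Nat.cast_pos.2 hn)

end cont

end E65

open E65

theorem contStmt : ContStmt := by
  intro n β C b S A η τ hn hβ hC hA hη
  have hC0 : 0 ≤ C := zero_le_one.trans hC
  have hv : Continuous (Subtype.val : box n → Fin n → ℝ) := continuous_subtype_val
  have hv' : ∀ t : box n, (t : Fin n → ℝ) ∈ box n := fun t => t.2
  refine ⟨?_, continuousOn_iff_continuous_domRestrict.2 (cont_V S hC0 A hv hv'),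
    continuousOn_iff_continuous_domRestrict.2 (continuous_const.sub (continuous_const.mul
      (cont_av fun i => (cont_aa S hv hv' i).pow 2))), fun ξ => ?_,
    fun m => continuous_const.add (cont_inc' S A _ _ _ _ m), fun ξ => ?_, fun x => ?_⟩
  · rw [show box n = ⋂ i, {m : Fin n → ℝ | |m i| < 1} by ext; simp [box]]
    exact isOpen_iInter_of_finite fun i => isOpen_lt (by fun_prop) continuous_const
  · have hD := cont_Dt S hη hv hv'
    have hk := cont_kt S hη hv hv'
    have hu : Continuous fun t : box n => u11 S η (t : Fin n → ℝ) := by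
      refine (hk.neg.div (continuous_const.mul (cont_av fun i => ((hD i).inv₀ fun t =>
        (Dt_pos S hη _ i).ne').pow 3)) fun t => ?_).add (by fun_prop)
      have := av_pos hn fun i => pow_pos (inv_pos.2 (Dt_pos S hη (t : Fin n → ℝ) i)) 3
      exact (mul_pos (by positivity) this).ne'
    have h0 : ∀ (t : box n) i,
        (Dt S η (t : Fin n → ℝ) i + u11 S η (t : Fin n → ℝ)) ^ 2 + (η ^ 2) ^ 2 ≠ 0 :=
      fun t i => by positivity
    refine continuousOn_iff_continuous_domRestrict.2 (hv.add (cont_inc S hA hη hv hv' hu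
      (by positivity) ?_ ξ))
    exact (continuous_const.mul ((cont_ku β hD hu continuous_const h0).max continuous_const)).div
      (cont_g2 hD hu continuous_const h0) fun t => (av_pos hn fun i => by positivity).ne'
  · have hw : Continuous fun t : {x : (Fin n → ℝ) × (Fin n → ℝ) | x.2 ∈ box n} => t.1.2 := by
      fun_prop
    have hw' : ∀ t : {x : (Fin n → ℝ) × (Fin n → ℝ) | x.2 ∈ box n}, t.1.2 ∈ box n := fun t => t.2
    have hk := cont_kt S hη hw hw'
    refine continuousOn_iff_continuous_domRestrict.2 (Continuous.prodMk (by fun_prop)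
      (hw.add (cont_inc S hA hη hw hw' ?_ hη.ne' continuous_const ξ)))
    unfold u21
    fun_prop
  · exact Continuous.prodMk (by fun_prop) (continuous_const.add (cont_inc' S A _ _ _ _ x.2))

theorem segStmt : SegStmt := by
  intro β C CA hβ hC hCA
  refine ⟨CA + 2 * (β ^ 2 + C), by nlinarith, fun n b S A hn hA m hm m' hm' t ht => ?_⟩
  have hC0 : 0 ≤ C := zero_le_one.trans hC
  have hn' : (0 : ℝ) < n := Nat.cast_pos.2 hn
  have hb : (1 - t) • m + t • m' ∈ box n := fun i => abs_seg ht (hm i) (hm' i)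
  have hq : qq ((1 - t) • m + t • m') =
      (1 - t) * qq m + t * qq m' - t * (1 - t) * ((m' - m) ⬝ᵥ (m' - m)) / n := by
    simp only [qq, add_dotProduct, dotProduct_add, smul_dotProduct, dotProduct_smul, sub_dotProduct,
      dotProduct_sub, smul_eq_mul]
    ring
  refine ⟨hb, ?_, hq⟩
  set d := (m' - m) ⬝ᵥ (m' - m) with hd
  have hd0 : 0 ≤ d := dot_self_nonneg _
  set q := qq ((1 - t) • m + t • m') with hqd
  have ht1 : 0 ≤ 1 - t := sub_nonneg.2 ht.2
  have htt : 0 ≤ t * (1 - t) := mul_nonneg ht.1 ht1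
  have htt' : t * (1 - t) ≤ 1 := by nlinarith [ht.1]
  have hdn : 0 ≤ t * (1 - t) * d / n := by positivity
  have hdn' : t * (1 - t) * d / n ≤ d / n := by gcongr; exact mul_le_of_le_one_left hd0 htt'
  have ha := abs_nonneg (qq m' - qq m)
  have e1 : |q - qq m| ≤ |qq m' - qq m| + d / n := by
    have h1 := mul_le_mul_of_nonneg_left (le_abs_self (qq m' - qq m)) ht.1
    have h2 := mul_le_mul_of_nonneg_left (neg_abs_le (qq m' - qq m)) ht.1
    have h3 := mul_le_mul_of_nonneg_right ht.2 ha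
    rw [hq, abs_le]; constructor <;> linarith
  have e2 : |q - qq m'| ≤ |qq m' - qq m| + d / n := by
    have h1 := mul_le_mul_of_nonneg_left (le_abs_self (qq m' - qq m)) ht1
    have h2 := mul_le_mul_of_nonneg_left (neg_abs_le (qq m' - qq m)) ht1
    have h3 := mul_nonneg ht.1 ha
    rw [hq, abs_le]; constructor <;> linarith
  set K := (β ^ 2 + C) * (|qq m' - qq m| + d / n) with hK
  have hK0 : 0 ≤ β ^ 2 + C := by positivity
  have f1 := mul_le_mul_of_nonneg_left e1 hK0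
  have f2 := mul_le_mul_of_nonneg_left e2 hK0
  have l1 : ∑ i, ((1 - t) * S.Lam (qq m) (m i) + t * S.Lam (qq m') (m' i) - K) ≤
      ∑ i, S.Lam q (((1 - t) • m + t • m') i) := Finset.sum_le_sum fun i _ => by
    have h1 := mul_le_mul_of_nonneg_left (Lam_lip S hC0 (qq_mem hm) (qq_mem hb) (hm i)) ht1
    have h2 := mul_le_mul_of_nonneg_left (Lam_lip S hC0 (qq_mem hm') (qq_mem hb) (hm' i)) ht.1
    have h3 := Lam_concave S (qq_mem hb) (hm i) (hm' i) ht
    have h4 := mul_le_mul_of_nonneg_left f1 ht1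
    have h5 := mul_le_mul_of_nonneg_left f2 ht.1
    change _ ≤ S.Lam q ((1 - t) * m i + t * m' i)
    linarith
  have l2 : S.pen q ≤ (1 - t) * S.pen (qq m) + t * S.pen (qq m') + K := by
    have h1 := mul_le_mul_of_nonneg_left (abs_le.1 (pen_lip S hC0 (qq_mem hm) (qq_mem hb))).1 ht1
    have h2 := mul_le_mul_of_nonneg_left (abs_le.1 (pen_lip S hC0 (qq_mem hm') (qq_mem hb))).1 ht.1
    have h4 := mul_le_mul_of_nonneg_left f1 ht1
    have h5 := mul_le_mul_of_nonneg_left f2 ht.1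
    linarith
  have l3 : ((1 - t) • m + t • m') ⬝ᵥ A *ᵥ ((1 - t) • m + t • m') = (1 - t) * (m ⬝ᵥ A *ᵥ m) +
      t * (m' ⬝ᵥ A *ᵥ m') - t * (1 - t) * ((m' - m) ⬝ᵥ A *ᵥ (m' - m)) := by
    simp only [add_dotProduct, dotProduct_add, smul_dotProduct, dotProduct_smul, sub_dotProduct,
      dotProduct_sub, mulVec_add, mulVec_smul, mulVec_sub, smul_eq_mul]
    ring
  have l4 : t * (1 - t) * ((m' - m) ⬝ᵥ A *ᵥ (m' - m)) ≤ CA * d := by
    have h1 : (m' - m) ⬝ᵥ A *ᵥ (m' - m) ≤ CA * d :=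
      ((le_abs_self _).trans (abs_quad_le A _)).trans (mul_le_mul_of_nonneg_right hA hd0)
    exact (mul_le_mul_of_nonneg_left h1 htt).trans (mul_le_of_le_one_left (by positivity) htt')
  have l5 : n * K = (β ^ 2 + C) * (d + n * |qq m' - qq m|) := by rw [hK]; field_simp; ring
  simp only [Finset.sum_sub_distrib, Finset.sum_add_distrib, ← Finset.mul_sum, Finset.sum_const,
    Finset.card_univ, Fintype.card_fin, nsmul_eq_mul] at l1
  have l6 := mul_le_mul_of_nonneg_left l2 hn'.le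
  have l7 : 0 ≤ CA * (n * |qq m' - qq m|) := by positivity
  have l8 : 0 ≤ CA * d := by positivity
  simp only [V, Psi, ← hqd, l3]
  nlinarith

theorem endStmt : EndStmt := by
  intro β C CA hβ hC hCA
  refine ⟨CA + 3 + β ^ 2, by nlinarith, fun n b S A hn hA y m hm hb Y hY hy => ?_⟩
  have hn' : (0 : ℝ) < n := Nat.cast_pos.2 hn
  have hq := qq_mem hm
  set δ := 1 - qq m with hδ
  have hs : ∑ i, (1 - m i * m i) = n * δ := by
    rw [hδ, qq, dotProduct]; simp; field_simp
  have hδ0 : 0 < δ := by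
    have : Nonempty (Fin n) := ⟨⟨0, hn⟩⟩
    rw [← mul_pos_iff_of_pos_left hn', ← hs]
    refine Finset.sum_pos (fun i _ => ?_) Finset.univ_nonempty
    have := abs_lt.1 (hm i); nlinarith
  have hδ1 : δ ≤ 1 := by linarith [hq.1]
  have hσ : ∀ i, sv (sgn m) i * m i = |m i| := fun i => by
    by_cases h : 0 ≤ m i <;> simp [sv, sgn, h, ProbabilityR.SpinGlassDynamics.spin, abs_of_nonneg,
      abs_of_neg, not_le.1]
  have hσ2 : ∀ i, sv (sgn m) i * sv (sgn m) i = 1 := fun i => spin_mul_self _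
  have h2 : (sv (sgn m) - m) ⬝ᵥ (sv (sgn m) - m) ≤ n * δ := by
    rw [← hs]
    refine Finset.sum_le_sum fun i _ => ?_
    have := hσ i; have := hσ2 i; have := hm i; have := abs_mul_abs_self (m i)
    simp only [Pi.sub_apply]
    nlinarith [abs_nonneg (m i)]
  refine ⟨?_, h2⟩
  have hr : 0 < √δ := Real.sqrt_pos.2 hδ0
  have hr2 : √δ * √δ = δ := Real.mul_self_sqrt hδ0.le
  have hr1 : δ ≤ √δ := by nlinarith [Real.sqrt_le_one.2 hδ1]
  have hL : Real.log (2 * Real.cosh (√δ)⁻¹) ≤ (√δ)⁻¹ + √δ := by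
    have e1 : 2 * Real.cosh (√δ)⁻¹ = Real.exp (√δ)⁻¹ * (1 + Real.exp (-(2 * (√δ)⁻¹))) := by
      rw [Real.cosh_eq, mul_add, ← Real.exp_add]; ring_nf
    have e2 : Real.exp (-(2 * (√δ)⁻¹)) ≤ √δ := by
      rw [Real.exp_neg, inv_le_comm₀ (Real.exp_pos _) hr]
      linarith [Real.add_one_le_exp (2 * (√δ)⁻¹), inv_pos.2 hr]
    rw [e1, Real.log_mul (Real.exp_pos _).ne' (by positivity), Real.log_exp]
    linarith [Real.log_le_sub_one_of_pos (by positivity : 0 < 1 + Real.exp (-(2 * (√δ)⁻¹)))]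
  have l1 : ∑ i, S.Lam (qq m) (m i) ≤
      ∑ i, ((√δ)⁻¹ * (1 - m i * m i) + (√δ + β ^ 2 * δ / 2)) := Finset.sum_le_sum fun i _ => by
    have h1 := Lam_le S hq (hm i) ((√δ)⁻¹ * sv (sgn m) i)
    have h3 : Real.cosh ((√δ)⁻¹ * sv (sgn m) i) = Real.cosh (√δ)⁻¹ := by
      rw [← Real.cosh_abs, abs_mul, sv, abs_spin, mul_one, Real.cosh_abs]
    rw [S.top _ ⟨hb, hq.2⟩, h3, mul_assoc, hσ] at h1
    have h4 : 1 - |m i| ≤ 1 - m i * m i := by
      have := hm i; have := abs_mul_abs_self (m i); nlinarith [abs_nonneg (m i)]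
    have := mul_le_mul_of_nonneg_left h4 (inv_pos.2 hr).le
    linarith
  rw [Finset.sum_add_distrib, ← Finset.mul_sum, hs] at l1
  simp only [Finset.sum_const, Finset.card_univ, Fintype.card_fin, nsmul_eq_mul] at l1
  have l2 : (√δ)⁻¹ * (n * δ) = n * √δ := by field_simp; linarith
  have l3 : 0 ≤ S.pen (qq m) := by
    rw [S.topP _ ⟨hb, hq.2⟩]
    have : 0 ≤ 1 - qq m ^ 2 := by nlinarith [hq.1, hq.2]
    positivity
  have n1 : nrm (sv (sgn m) - m) ≤ √n * √δ := by
    rw [← Real.sqrt_mul hn'.le]; exact Real.sqrt_le_sqrt h2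
  have n2 : nrm (sv (sgn m)) ≤ √n := by rw [nrm, sv_dot_self]
  have n3 : nrm m ≤ √n := Real.sqrt_le_sqrt (dot_le_card hm)
  have hnn : √(n : ℝ) * √n = n := Real.mul_self_sqrt hn'.le
  have k0 := opn_nonneg A
  have l4 : |(sv (sgn m) - m) ⬝ᵥ A *ᵥ sv (sgn m)| ≤ CA * (n * √δ) := by
    refine (abs_dot_le _ _).trans ((mul_le_mul n1 ((nrm_mulVec_le _ _).trans
      (mul_le_mul hA n2 (nrm_nonneg _) (by linarith))) (nrm_nonneg _) (by positivity)).trans ?_)
    exact le_of_eq (by linear_combination CA * √δ * hnn)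
  have l5 : |m ⬝ᵥ A *ᵥ (sv (sgn m) - m)| ≤ CA * (n * √δ) := by
    refine (abs_dot_le _ _).trans ((mul_le_mul n3 ((nrm_mulVec_le _ _).trans
      (mul_le_mul hA n1 (nrm_nonneg _) (by linarith))) (nrm_nonneg _) (by positivity)).trans ?_)
    exact le_of_eq (by linear_combination CA * √δ * hnn)
  have l6 : |y ⬝ᵥ (sv (sgn m) - m)| ≤ Y * (n * √δ) := by
    refine (abs_dot_le _ _).trans ((mul_le_mul hy n1 (nrm_nonneg _) (by positivity)).trans ?_)
    exact le_of_eq (by linear_combination Y * √δ * hnn)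
  rw [sub_dotProduct] at l4
  rw [mulVec_sub, dotProduct_sub] at l5
  rw [dotProduct_sub] at l6
  have m1 := (abs_le.1 l4).1
  have m2 := (abs_le.1 l5).1
  have m3 := (abs_le.1 l6).1
  have m4 := mul_nonneg hn'.le l3
  have m5 : n * (β ^ 2 * δ / 2) ≤ β ^ 2 * (n * √δ) := by
    have := mul_le_mul_of_nonneg_left hr1 (by positivity : 0 ≤ n * β ^ 2)
    have : 0 ≤ n * β ^ 2 * δ := by positivity
    linarith
  have m6 : (CA + 2 + β ^ 2) * (n * √δ) ≤ (CA + 2 + β ^ 2) * Y * (n * √δ) := by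
    gcongr
    exact le_mul_of_one_le_right (by positivity) hY
  rw [ising, Real.log_exp, V, Psi]
  linarith

end Crest.Agent.T157.St

end
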