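import Crest.Agent.T157.PfA_56

/-!
Row 157 (helper56): Parisi data in STANDARD words (`Φ(1,x) = log 2cosh x`, exponents `ζ ∈ (0,1]`,
field variance `β² ds`).  This is the recursion of `R339` at `β = 1` on the list of blocks
`(ζ_k, β²/K)`, in the time `β² s`.
-/

set_option autoImplicit false

namespace Crest.Agent.T157.Pf

open MeasureTheory Set
open Crest.Agent.R339.B Crest.Agent.R339.Var
open Crest.ProbabilityR.InvariantGlass (gaussOp)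

noncomputable section

/-- the recursion with an arbitrary terminal function; entries are `(exponent, variance)` -/
def Rec : List (ℝ × ℝ) → (ℝ → ℝ) → ℝ → ℝ
  | [], f => f
  | p :: l, f => gaussOp p.1 p.2 (Rec l f)

/-- the part of a list of blocks before the time `t` -/
def cut : List (ℝ × ℝ) → ℝ → List (ℝ × ℝ)
  | [], _ => []
  | p :: l, t => if t ≤ p.2 then [(p.1, t)] else p :: cut l (t - p.2)

/-- the part of a list of blocks after the time `t` -/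
def rest : List (ℝ × ℝ) → ℝ → List (ℝ × ℝ)
  | [], _ => []
  | p :: l, t => if t ≤ p.2 then (p.1, p.2 - t) :: l else rest l (t - p.2)

/-- a step function on the grid `1/K`: `ζ = z k` on `[k/K, (k+1)/K)`, `= 1` from `a/K` on -/
structure Par where
  K : ℕ
  a : ℕ
  z : ℕ → ℝ

namespace Par

variable (P : Par) (β : ℝ)

/-- admissible data -/
structure OK : Prop where
  Kpos : 0 < P.K
  aK : P.a ≤ P.K
  mono : Monotone P.z
  pos : ∀ k, 0 < P.z k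
  top : ∀ k, P.a ≤ k → P.z k = 1

/-- the first `N` blocks `(ζ_k, β²/K)` -/
def lst (N : ℕ) : List (ℝ × ℝ) := List.ofFn fun k : Fin N => (P.z k, β ^ 2 / P.K)

/-- the top of the support, `q*` -/
def b : ℝ := (P.a : ℝ) / P.K

/-- `ζ(s)` -/
def zeta (s : ℝ) : ℝ := P.z ⌊s * P.K⌋₊

/-- `Φ(s,x)`, `0 ≤ s ≤ 1` (`log 2cosh x` for `s ≥ 1`) -/
def Ph (s x : ℝ) : ℝ := PhiT 1 (P.lst β P.K) (β ^ 2 * s) x

/-- `Φ_x` -/
def Px (s : ℝ) : ℝ → ℝ := deriv (P.Ph β s)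

/-- `Φ_xx` -/
def Pxx (s : ℝ) : ℝ → ℝ := deriv (deriv (P.Ph β s))

/-- `Φ_xxx` -/
def Pxxx (s : ℝ) : ℝ → ℝ := deriv (deriv (deriv (P.Ph β s)))

/-- `E F(X_s)` for the Parisi diffusion started at `0`, for every `s ≥ 0` (above `b` the drift is
`β² tanh`) -/
def E (s : ℝ) (F : ℝ → ℝ) : ℝ := EX 1 (P.lst β (P.K + ⌈s * P.K⌉₊)) (β ^ 2 * s) F 0

/-- `Γ(s) = E Φ_x(s,X_s)²` -/
def Gam (s : ℝ) : ℝ := P.E β s fun x => P.Px β s x ^ 2

/-- `Γ'(s) = β² E Φ_xx(s,X_s)²` -/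
def Gam' (s : ℝ) : ℝ := β ^ 2 * P.E β s fun x => P.Pxx β s x ^ 2

/-- `λ(s) = ∫_s^1 ζ` -/
def Zi (s : ℝ) : ℝ := ∫ r in s..1, P.zeta r

/-- `(β²/2) ∫_s^1 r ζ(r) dr` -/
def pen (s : ℝ) : ℝ := β ^ 2 / 2 * ∫ r in s..1, r * P.zeta r

/-- the Parisi functional (free energy per spin, `log 2` included) -/
def val : ℝ := P.Ph β 0 0 - P.pen β 0

/-- the concave conjugate `Λ(s,m)`, `|m| ≤ 1` -/
def Lam (s m : ℝ) : ℝ := ⨅ x : ℝ, (P.Ph β s x - x * m)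

/-- the inverse of `Φ_x(s,·)`, `|m| < 1` -/
def xi (s m : ℝ) : ℝ := Function.invFun (P.Px β s) m

/-- `Φ_xx` as a function of `m = Φ_x` (`0` for `|m| ≥ 1`) -/
def aa (s m : ℝ) : ℝ := if |m| < 1 then P.Pxx β s (P.xi β s m) else 0

/-- the facts that hold at the grid minimiser, up to the error `η` -/
structure Good (c C η : ℝ) : Prop where
  b_ge : c ≤ P.b
  b_le : P.b ≤ 1 - c
  gam : ∀ s ∈ Icc 0 P.b, |P.Gam β s - s| ≤ η
  gam' : ∀ s ∈ Icc 0 P.b, |P.Gam' β s - 1| ≤ η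
  top : ∀ s, P.b ≤ s → P.Gam' β s ≤ 1 + η - c * min (s - P.b) 1
  lam : ∀ s ∈ Icc 0 P.b, |P.E β s (P.Pxx β s) - P.Zi s| ≤ η
  lam0 : |β * P.Zi 0 - 1| ≤ η
  zlin : ∀ s ∈ Icc (0:ℝ) 1, P.zeta s ≤ C * s + η
  min : ∀ l : List (ℝ × ℝ), Adm β l → TT l = 1 → P.val β ≤ β * PL β l + η
  pert : ∀ (Q : Par) (e : ℝ), Q.OK → Q.K = P.K → Q.a = P.a → (∀ k, |Q.z k - P.z k| ≤ e) →
    Q.val β ≤ P.val β + C * (e * η + e ^ 2)

end Par

/-- **the grid minimiser**: error `C K^{-1/8}` -/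
def ParStmt : Prop := ∀ β : ℝ, 1 < β → ∃ c C : ℝ, 0 < c ∧ c ≤ 1 ∧ 1 ≤ C ∧ ∃ K0 : ℕ, ∀ K : ℕ, K0 ≤ K →
  ∃ P : Par, P.K = K ∧ P.OK ∧ P.Good β c C (C * (K : ℝ) ^ (-(1 / 8 : ℝ)))

end

end Crest.Agent.T157.Pf
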