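import Crest.Agent.T157.CascDef_65
import Crest.Agent.T157.CondA_53

/-!
Row 157, part D (helper54): the penalised vector Guerra bound, definitions and statement.

Sites `Fin n`, site alphabet `𝒜`, features `τ : 𝒜 → M → ℝ` (`M` = replica index).  A level has an
interpolated part (site covariance `β² τᵀ (B Bᵀ) τ`), a fixed part (site features `F`) and an
exponent.
-/

set_option autoImplicit false

noncomputable section

namespace Crest.Agent.T157.Vg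

open MeasureTheory Matrix
open Crest.Agent.T157.E Crest.Agent.T157.Casc Crest.Agent.T157.Cond

/-- a site level -/
structure VL (M 𝒜 : Type) where
  κ : Type
  [fin : Fintype κ]
  B : Matrix M κ ℝ
  κ' : Type
  [fin' : Fintype κ']
  F : 𝒜 → κ' → ℝ
  m : ℝ

attribute [instance] VL.fin VL.fin'

variable {M 𝒜 : Type} [Fintype M] {n : ℕ}

/-- the covariance matrix of the interpolated part -/
def VL.C (l : VL M 𝒜) : Matrix M M ℝ := l.B * l.Bᵀ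

/-- the fixed part as a site level -/
def VL.fix (l : VL M 𝒜) : Lv 𝒜 := ⟨l.κ', l.F, l.m⟩

/-- the full site level -/
def VL.site (β : ℝ) (τ : 𝒜 → M → ℝ) (l : VL M 𝒜) : Lv 𝒜 :=
  ⟨l.κ ⊕ l.κ', fun a => Sum.elim (fun k => β * ∑ c, τ a c * l.B c k) (l.F a), l.m⟩

/-- independent copies of a site level at every site -/
def prodL (n : ℕ) (l : Lv 𝒜) : Lv (Fin n → 𝒜) :=
  ⟨Fin n × l.ι, fun s p => l.A (s p.1) p.2, l.m⟩

/-- squared Frobenius norm -/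
def fr2 (Q : Matrix M M ℝ) : ℝ := ∑ a, ∑ b, Q a b ^ 2

/-- total covariance -/
def Qtop (L : List (VL M 𝒜)) : Matrix M M ℝ := (L.map VL.C).sum

/-- `∑_l m_l (|Q_l|² - |Q_{l-1}|²)`, `Q_l = Q + C_1 + … + C_l` -/
def corr : Matrix M M ℝ → List (VL M 𝒜) → ℝ
  | _, [] => 0
  | Q, l :: L => l.m * (fr2 (Q + l.C) - fr2 Q) + corr (Q + l.C) L

/-- the feature vector of replica `c` -/
def fv (τ : 𝒜 → M → ℝ) (s : Fin n → 𝒜) (c : M) : Fin n → ℝ := fun i => τ (s i) c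

/-- overlap matrix -/
def ov (τ : 𝒜 → M → ℝ) (s s' : Fin n → 𝒜) : Matrix M M ℝ :=
  Matrix.of fun a b => fv τ s a ⬝ᵥ fv τ s' b / n

/-- `∑_c (β/2) τ^c · W τ^c` -/
def HW (β : ℝ) (τ : 𝒜 → M → ℝ) (W : Matrix (Fin n) (Fin n) ℝ) (s : Fin n → 𝒜) : ℝ :=
  ∑ c, β / 2 * (fv τ s c ⬝ᵥ W *ᵥ fv τ s c)

/-- the penalty `(β² n / 4) |R(s,s) - Q|²` -/
def pen (β : ℝ) (τ : 𝒜 → M → ℝ) (Q : Matrix M M ℝ) (s : Fin n → 𝒜) : ℝ :=
  β ^ 2 * n / 4 * fr2 (ov τ s s - Q)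

variable [Fintype 𝒜]

/-- the penalised cascade for a given coupling matrix -/
def val (β : ℝ) (τ : 𝒜 → M → ℝ) (w h : Fin n → 𝒜 → ℝ) (L : List (VL M 𝒜))
    (W : Matrix (Fin n) (Fin n) ℝ) : ℝ :=
  X (fun s : Fin n → 𝒜 => ∏ i, w i (s i)) (L.map fun l => prodL n l.fix)
    fun s => ∑ i, h i (s i) + HW β τ W s - pen β τ (Qtop L) s

/-- the penalised vector Guerra bound -/
def VgStmt : Prop :=
  ∀ (M 𝒜 : Type) [Fintype M] [Fintype 𝒜] (n : ℕ), 0 < n → ∀ (β : ℝ) (τ : 𝒜 → M → ℝ)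
    (w h : Fin n → 𝒜 → ℝ) (L : List (VL M 𝒜)), (∀ i a, 0 ≤ w i a) → (∀ i, ∃ a, 0 < w i a) →
    Mono 0 (L.map VL.fix) →
    Integrable (val β τ w h L) (goe (Fin n) (1 / √n)) ∧
    ∫ W, val β τ w h L W ∂goe (Fin n) (1 / √n) ≤
      ∑ i, X (w i) (L.map (VL.site β τ)) (h i) - β ^ 2 * n / 4 * corr 0 L

end Crest.Agent.T157.Vg

end
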