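import Crest.Agent.T157.LiftE_74
import Crest.Agent.T157.ScDef_68
import Crest.Agent.T157.Cut1_54
import Crest.Agent.T157.Top_97

/-!
# Row 157, part D (helper74): the top of the upper half, statements

`Cut1Stmt` follows from the one-step lemmas (44), (SC) (68), the Parisi facts (56) and the leaves
`AncStmt`, `FeStmt`, `GamEndStmt`, `RmtStmt`, `SiteStmt` stated here.
All exponents are powers of `eps n = n ^ (-10⁻⁷)`.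
-/

set_option autoImplicit false

noncomputable section

namespace Crest.Agent.T157.Up

open MeasureTheory Matrix Set Filter
open Crest.ProbabilityR.SpinGlassDynamics
open Crest.Agent.T157.E Crest.Agent.T157.Eig Crest.Agent.T157.Conc Crest.Agent.T157.St
open Crest.Agent.T157.Pf Crest.Agent.T157.Cond Crest.Agent.T157.Sc Crest.Agent.T157.Cut

variable {n : ℕ} {β C b : ℝ}

/-- squared Euclidean distance -/
def ds (x z : Fin n → ℝ) : ℝ := (x - z) ⬝ᵥ (x - z)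

/-- the input of the planted Markov bound: `E exp F_k (√(kτ) Z) ≤ exp n (P + kτ/2 + e)` -/
def Mom (P τ e : ℝ) (N : ℕ) (F : ℕ → (Fin n → ℝ) → ℝ) : Prop :=
  ∀ k ≤ N, ELip (√n) (F k) ∧
    ∫ z, Real.exp (F k (√(k * τ) • z)) ∂E.gv (Fin n) ≤ Real.exp (n * (P + k * τ / 2 + e))

/-- **ancestors of the set `B`**: a chain `m 0, …, m K` of good points at the levels
`q 0 ≤ … ≤ q K` below `b`, then pairs `(y k, μ k)`, `k ≤ N`, and a vertex `X ∈ B`. -/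
def Anc (S : Site β C b) (A : Matrix (Fin n) (Fin n) ℝ) (F : ℕ → (Fin n → ℝ) → ℝ)
    (D e Y r : ℝ) (N : ℕ) (B : Set (Cube n)) : Prop :=
  ∃ (K : ℕ) (q : ℕ → ℝ) (m y μ : ℕ → Fin n → ℝ) (X : Cube n),
    q 0 ≤ D ∧ b - D ≤ q K ∧
    (∀ p < K, q p ≤ q (p + 1) ∧ q (p + 1) ≤ q p + D ∧ ds (m (p + 1)) (m p) ≤ D * n) ∧
    (∀ p ≤ K, m p ∈ box n ∧ |qq (m p) - q p| ≤ D ∧ n * (S.P - e) ≤ V S A (m p)) ∧
    ds (y 0) 0 ≤ D * n ∧ ds (μ 0) (m K) ≤ D * n ∧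
    (∀ k < N, ds (y (k + 1)) (y k) ≤ D * n ∧ ds (μ (k + 1)) (μ k) ≤ D * n) ∧
    (∀ k ≤ N, μ k ∈ box n ∧ b - D ≤ qq (μ k) ∧ nrm (y k) ≤ Y * √n ∧
      F k (y k) ≤ V S A (μ k) + y k ⬝ᵥ μ k + e * n) ∧
    X ∈ B ∧ ds (sv X) (μ N) < r * n

/-- the base scale -/
def eps (n : ℕ) : ℝ := (n : ℝ) ^ (-(1 / 10000000 : ℝ))
/-- the time step -/
def tau (n : ℕ) : ℝ := eps n ^ 7560
/-- the number of steps above `b`; the total time is `1 / eps n` up to `tau n` -/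
def NN (n : ℕ) : ℕ := ⌈(eps n ^ 7561)⁻¹⌉₊

/-- couplings and the diagonal of the GOE completion -/
abbrev Om (n : ℕ) : Measure ((Pair n → ℝ) × (Fin n → ℝ)) := (disorderLaw n).prod (E.gv (Fin n))

/-- the Parisi data used at size `n` -/
def Data (β C c0 C0 : ℝ) (P : ℕ → Par) (S : ∀ n, Site β C (P n).b) : Prop :=
  ∀ᶠ n : ℕ in atTop, (P n).K = n ^ 16 ∧ (P n).OK ∧ (P n).Good β c0 C0 (1 / n) ∧ Rel (P n) (S n)

/-- **ANCESTORS** (51) -/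
def AncStmt : Prop :=
  ∀ β C c0 C0 : ℝ, 1 < β → 1 ≤ C → 0 < c0 → c0 ≤ 1 → 1 ≤ C0 →
    ∀ (P : ℕ → Par) (S : ∀ n, Site β C (P n).b), Data β C c0 C0 P S →
    ∃ d : ℕ → ℝ, (∀ n, 0 ≤ d n ∧ d n ≤ 1) ∧ (∀ᶠ n : ℕ in atTop, d n ≤ eps n ^ 8) ∧
      ∀ δ : ℝ, 0 < δ → Top.Whp Om fun n z => ∀ B : Set (Cube n),
        ENNReal.ofReal δ ≤
          disorderLaw n {g1 | δ ≤ mass (gibbsWeight n β (mixG (d n) z.1 g1)) B} →
        ∀ F : ℕ → (Fin n → ℝ) → ℝ, Mom (S n).P (tau n) (eps n ^ 43) (NN n) F →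
          Anc (S n) (β • Wmat n z.1 z.2) F (eps n ^ 210) (eps n ^ 42) ((eps n ^ 2)⁻¹)
            (eps n ^ 14) (NN n) B

/-- Guerra's upper bound in tail form -/
def FeStmt : Prop :=
  ∀ β : ℝ, 1 < β → ∀ P : ℕ → Par, (∀ᶠ n : ℕ in atTop, (P n).OK) →
    Top.Whp Om fun n z =>
      Real.log (Zw (ising (β • Wmat n z.1 z.2) 0)) ≤ n * ((P n).val β + eps n ^ 100)

/-- the scalar channel above `b` -/
def GamEndStmt : Prop :=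
  ∀ (β : ℝ) (P : Par), 0 < β → P.OK → ∀ s ∈ Icc P.b 1, ∀ t : ℝ, 0 ≤ t →
    1 - Real.exp (-t / 2) ≤ P.Gam β (s + t / β ^ 2)

/-- freeness with all diagonals -/
def RmtStmt : Prop :=
  ∀ β : ℝ, 1 < β → ∀ k : ℕ, 1 ≤ k → k ≤ 126 → Top.Whp Om fun n z =>
    RMT β (β • Wmat n z.1 z.2) (((eps n ^ k) ^ 6)⁻¹) ((eps n ^ k) ^ 2) ((eps n ^ k) ^ 4)

/-- the site data of a step function -/
def SiteStmt : Prop :=
  ∀ β : ℝ, 1 < β → ∃ C : ℝ, 1 ≤ C ∧ ∀ P : Par, P.OK → ∃ S : Site β C P.b, Rel P S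

/-- `St.Step2Stmt` with the lower bound `(1 - q)² ≤ C1 (k + η²)` of the predicted increment -/
def Step2L : Prop :=
  ∀ β C CA : ℝ, 1 ≤ β → 1 ≤ C → 1 ≤ CA → ∃ C1 : ℝ, 1 ≤ C1 ∧ ∀ (n : ℕ) (b : ℝ) (S : Site β C b)
    (A : Matrix (Fin n) (Fin n) ℝ) (η τ : ℝ), Hyp β CA C1 A η τ → ∀ y : Fin n → ℝ, ∀ m ∈ box n,
    b - η ^ 4 ≤ qq m → C1 * max (-kap S m) 0 ≤ 1 → ∀ Y : ℝ, 1 ≤ Y → nrm y ≤ Y * √n →
    ∀ x : ℝ, 1 ≤ x → ∃ k : ℝ, 0 ≤ k ∧ k ≤ 2 / η ∧ (1 - qq m) ^ 2 ≤ C1 * (k + η ^ 2) ∧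
    Ball (20 * Real.exp (-x ^ 2 / 2)) 1 fun ξ =>
      (step2 S A η τ (y, m) ξ).2 ∈ box n ∧
      V S A m + y ⬝ᵥ m + (√τ * (m ⬝ᵥ fun i => ξ (Sum.inl i)) + τ * (m ⬝ᵥ m) / 2 + n * τ / 2) -
          C1 * (n * τ * (k * (max (-kap S m) 0 ^ 2 + η ^ 2) + η ^ 2) +
            x * Y * √(n * τ) / η ^ 10) ≤
        V S A (step2 S A η τ (y, m) ξ).2 +
          (step2 S A η τ (y, m) ξ).1 ⬝ᵥ (step2 S A η τ (y, m) ξ).2 ∧
      n * |qq (step2 S A η τ (y, m) ξ).2 - qq m - τ * k| ≤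
        C1 * (n * τ * η ^ 2 * (1 + k) + x * √(n * τ) / η ^ 10) ∧
      ((step2 S A η τ (y, m) ξ).2 - m) ⬝ᵥ ((step2 S A η τ (y, m) ξ).2 - m) ≤
        C1 * (n * τ / η + x * √(n * τ) / η ^ 10) ∧
      nrm ((step2 S A η τ (y, m) ξ).1 - y) ≤ τ * √n + √τ * (√n + x + 1)

/-- the assembly proved in `Up_74` -/
def UpGlue : Prop :=
  ParStmt → SiteStmt → Step1Stmt → Step2L → ContStmt → SegStmt → EndStmt → ScStmt → RmtStmt →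
    FeStmt → GamEndStmt → AncStmt → Cut1Stmt

end Crest.Agent.T157.Up

end
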