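import Crest.Agent.T157.StG_44
import Crest.Agent.T157.UpDef_74

/-!
# Row 157, part D (helper44): the step above `b - η⁴`
-/

set_option autoImplicit false

noncomputable section

namespace Crest.Agent.T157.St

open MeasureTheory Matrix Set Finset
open Crest.Agent.T157.Eig Crest.Agent.T157.Conc

variable {n : ℕ} {β C b : ℝ} {A : Matrix (Fin n) (Fin n) ℝ}

theorem ball_upper' {ι : Type} [Fintype ι] {F : (ι → ℝ) → ℝ} (h : ELip 1 F) {x : ℝ}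
    (hx : 1 ≤ x) :
    Ball (Real.exp (-x ^ 2 / 2)) 1 fun ξ => F ξ ≤ ∫ y, F y ∂E.gv ι + x + 1 := by
  refine ⟨{ξ | x ≤ F ξ - ∫ y, F y ∂E.gv ι}, ?_, fun ξ hξ ξ' hξ' => ?_⟩
  · have h1 := tail_lip h (t := x) (by linarith)
    rw [show -x ^ 2 / (2 * 1 ^ 2) = -x ^ 2 / 2 by norm_num] at h1
    rw [← ofReal_measureReal]
    exact ENNReal.ofReal_le_ofReal h1
  · have h1 : F ξ - ∫ y, F y ∂E.gv ι < x := not_le.1 hξ
    have h2 := (abs_le.1 (h ξ' ξ)).2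
    linarith

theorem ball_fst' {x : ℝ} (hx : 1 ≤ x) :
    Ball (Real.exp (-x ^ 2 / 2)) 1 fun ξ : Fin n ⊕ Fin n → ℝ => nrm (fst ξ) ≤ √n + x + 1 := by
  have h : ELip 1 fun ξ : Fin n ⊕ Fin n → ℝ => nrm (fst ξ) := fun ξ ξ' => by
    show |nrm (fst ξ) - nrm (fst ξ')| ≤ _
    rw [one_mul, ← en_eq_nrm, ← en_eq_nrm]
    refine (abs_en_sub_le _ _).trans ?_
    rw [en_eq_nrm]
    exact nrm_fst_le (ξ - ξ')
  refine (ball_upper' h hx).mono le_rfl fun ξ hξ => ?_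
  have i2 : Integrable (fun ξ : Fin n ⊕ Fin n → ℝ => nrm (fst ξ) ^ 2) (E.gv _) := by
    simpa only [sq] using elip_int_mul h h
  have h1 := integral_abs_le_sqrt h.integrable i2
  simp only [abs_of_nonneg (nrm_nonneg _), nrm_sq] at h1
  have h2 : (∫ ξ : Fin n ⊕ Fin n → ℝ, fst ξ ⬝ᵥ fst ξ ∂Conc.gv _) = n := mean_fst_sq
  rw [h2] at h1
  have h3 : (∫ ξ : Fin n ⊕ Fin n → ℝ, nrm (fst ξ) ∂E.gv _) ≤ √n := h1
  linarith

theorem one_sub_qq (S : Site β C b) (hn : 0 < n) (hC : 1 ≤ C) {η : ℝ} {m : Fin n → ℝ}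
    (hm : m ∈ box n) (hb : b - η ^ 4 ≤ qq m) :
    1 - qq m ≤ (av fun i => (Dt S η m i)⁻¹) + 3 * C * η ^ 2 := by
  have e : (av fun i => 1 - m i ^ 2) = 1 - qq m := by
    rw [D49.av_sub, av_const hn]
    unfold av qq
    simp only [dotProduct, sq]
  rw [← e, ← av_const hn (3 * C * η ^ 2), ← D49.av_add]
  refine av_mono fun i => ?_
  have h1 := S.aa_ge hC (qq_mem hm) (r := η ^ 2) (sq_nonneg η) (by rw [← pow_mul]; exact hb) (hm i)
  have h2 : S.aa (qq m) (m i) ≤ (Dt S η m i)⁻¹ := by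
    unfold Dt
    rw [inv_inv]
    exact le_max_left _ _
  linarith

theorem g0_sq (hn : 0 < n) {D : Fin n → ℝ} (hD : ∀ i, 1 ≤ D i) {u1 u2 : ℝ} (h0 : 0 ≤ u1)
    (h1 : u1 ≤ 1) (h2 : u2 ^ 2 ≤ 1) : (av fun i => (D i)⁻¹) ^ 2 ≤ 5 * g2 D u1 u2 := by
  refine (D49.sq_av_le hn _).trans ?_
  unfold g2
  rw [← D49.av_mul]
  refine av_mono fun i => ?_
  have h3 := hD i
  have h4 : 0 < (D i + u1) ^ 2 + u2 ^ 2 := by positivity
  rw [inv_pow, ← div_eq_mul_inv, inv_eq_one_div, div_le_div_iff₀ (by positivity) h4]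
  nlinarith

theorem num_step2 {β η κ t u1 ku g gr' g0 k tB C p : ℝ} (hβ : 1 ≤ β) (hC : 1 ≤ C) (hη : 0 < η)
    (hη1 : η ≤ 1) (ht0 : 0 ≤ t) (ht : t ≤ κ + 2 * η) (hu : u1 = 4 * β ^ 2 * t) (hu1 : u1 ≤ 1)
    (hk1 : η ≤ ku) (hk2 : ku ≤ 1) (hku : ku = 1 - β ^ 2 * g) (hg : 0 < g) (hk0 : 0 ≤ k)
    (hgr : |gr'| ≤ 2) (h0 : 0 ≤ g0) (h1 : g0 ≤ 1) (h5 : g0 ^ 2 ≤ 5 * g) (hp0 : 0 ≤ p)
    (hp : p ≤ g0 + 3 * C * η ^ 2)
    (hd : -(g / ku) * (u1 ^ 2 + η ^ 2) ≤ (gr' - g0) + (u1 + β ^ 2 * (gr' - g0)) * (g / ku))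
    (r1 : |tB - gr'| ≤ η ^ 4) (r2 : |η * ku * k - η * g| ≤ η ^ 4) :
    k ≤ 2 / η ∧ p ^ 2 ≤ (10 + 18 * C ^ 2) * (k + η ^ 2) ∧
      p - (129 * β ^ 4 + 3 * C + 7 * β ^ 2) * (k * (κ ^ 2 + η ^ 2) + η ^ 2) ≤
        tB + (u1 + β ^ 2 * (gr' - g0)) * k := by
  have hb1 : 1 ≤ β ^ 2 := one_le_pow₀ hβ
  have hb4 : 1 ≤ β ^ 4 := one_le_pow₀ hβ
  have hku0 : 0 < ku := hη.trans_le hk1
  have hη2 : 0 < η ^ 2 := by positivity
  have hη21 : η ^ 2 ≤ 1 := pow_le_one₀ hη.le hη1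
  have hη4 : η ^ 4 ≤ η ^ 2 := pow_le_pow_of_le_one hη.le hη1 (by norm_num)
  have hu0 : 0 ≤ u1 := by rw [hu]; positivity
  have a1 : |k - g / ku| ≤ η ^ 2 := by
    have e : k - g / ku = (η * ku * k - η * g) / (η * ku) := by field_simp
    rw [e, abs_div, abs_of_pos (mul_pos hη hku0), div_le_iff₀ (mul_pos hη hku0)]
    refine r2.trans ?_
    calc η ^ 4 = η ^ 2 * (η * η) := by ring
      _ ≤ _ := mul_le_mul_of_nonneg_left (mul_le_mul_of_nonneg_left hk1 hη.le) hη2.le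
  obtain ⟨a2, a3⟩ := abs_le.1 a1
  have hg1 : g ≤ 1 := by linarith [le_mul_of_one_le_left hg.le hb1]
  have a4 : g / ku ≤ 1 / η := div_le_div₀ zero_le_one hg1 hη hk1
  have a5 : 1 ≤ 1 / η := by rw [le_div_iff₀ hη]; linarith
  have a6 : g ≤ g / ku := by rw [le_div_iff₀ hku0]; exact mul_le_of_le_one_right hg.le hk2
  refine ⟨?_, ?_, ?_⟩
  · rw [show 2 / η = 1 / η + 1 / η by ring]; linarith
  · have b1 : p ^ 2 ≤ (g0 + 3 * C * η ^ 2) ^ 2 := pow_le_pow_left₀ hp0 hp 2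
    have b2 : C ^ 2 * (η ^ 2 * η ^ 2) ≤ C ^ 2 * (k + η ^ 2) :=
      mul_le_mul_of_nonneg_left (by linarith [mul_le_of_le_one_right hη2.le hη21]) (sq_nonneg C)
    linarith [sq_nonneg (g0 - 3 * C * η ^ 2)]
  · obtain ⟨w, hw⟩ : ∃ w, w = u1 + β ^ 2 * (gr' - g0) := ⟨_, rfl⟩
    rw [← hw] at hd ⊢
    have b1 : |w| ≤ 4 * β ^ 2 := by
      obtain ⟨h2, h3⟩ := abs_le.1 hgr
      have h4 := mul_le_mul_of_nonneg_left (by linarith : gr' - g0 ≤ 3) (sq_nonneg β)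
      have h5 := mul_le_mul_of_nonneg_left (by linarith : -3 ≤ gr' - g0) (sq_nonneg β)
      rw [hw, abs_le]
      constructor <;> linarith
    have b2 : |w * (k - g / ku)| ≤ 4 * β ^ 2 * η ^ 2 := by
      rw [abs_mul]; exact mul_le_mul b1 a1 (abs_nonneg _) (by positivity)
    have b3 := (abs_le.1 b2).1
    have b4 : t ^ 2 ≤ 8 * (κ ^ 2 + η ^ 2) := by
      have h2 : t ^ 2 ≤ (κ + 2 * η) ^ 2 := pow_le_pow_left₀ ht0 ht 2
      linarith [sq_nonneg (κ - 2 * η), sq_nonneg κ]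
    have b5 : u1 ^ 2 + η ^ 2 ≤ 129 * β ^ 4 * (κ ^ 2 + η ^ 2) := by
      have h2 := mul_le_mul_of_nonneg_left b4 (by positivity : 0 ≤ β ^ 4)
      have h3 : κ ^ 2 + η ^ 2 ≤ β ^ 4 * (κ ^ 2 + η ^ 2) := le_mul_of_one_le_left (by positivity) hb4
      rw [hu]
      linarith [sq_nonneg κ]
    have b6 : u1 ^ 2 + η ^ 2 ≤ 2 := by linarith [pow_le_one₀ (n := 2) hu0 hu1]
    have b7 : g / ku * (u1 ^ 2 + η ^ 2) ≤ (k + η ^ 2) * (u1 ^ 2 + η ^ 2) :=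
      mul_le_mul_of_nonneg_right (by linarith) (by positivity)
    have b8 := mul_le_mul_of_nonneg_left b5 hk0
    have b9 := mul_le_mul_of_nonneg_left b6 hη2.le
    have c1 := (abs_le.1 r1).1
    have c2 : η ^ 2 ≤ β ^ 2 * η ^ 2 := le_mul_of_one_le_left hη2.le hb1
    have c3 : 0 ≤ k * (κ ^ 2 + η ^ 2) := by positivity
    have c4 : 0 ≤ C * (k * (κ ^ 2 + η ^ 2)) := by positivity
    have c5 : 0 ≤ β ^ 2 * (k * (κ ^ 2 + η ^ 2)) := by positivity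
    have c6 : 0 ≤ β ^ 4 * η ^ 2 := by positivity
    linarith

/-- **one step above `b - η⁴`** -/
theorem step2L : Up.Step2L := by
  intro β C CA hβ hC hCA
  obtain ⟨C2, hC2, hcore⟩ := core β C CA (1 + 2 * β ^ 2) hβ hC hCA
  have hb1 : 1 ≤ β ^ 2 := one_le_pow₀ hβ
  have hb4 : 1 ≤ β ^ 4 := one_le_pow₀ hβ
  have hC2' : 1 ≤ C ^ 2 := one_le_pow₀ hC
  obtain ⟨R, hR⟩ : ∃ R, R = CR C CA (1 + 2 * β ^ 2) := ⟨_, rfl⟩
  have hR0 : 0 ≤ R := by rw [hR]; unfold CR; positivity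
  obtain ⟨C1, hC1⟩ : ∃ C1, C1 = 129 * β ^ 4 + 3 * C + 48 * β ^ 2 + 2 * C2 + R + 18 * C ^ 2 + 10 :=
    ⟨_, rfl⟩
  refine ⟨C1, by linarith, ?_⟩
  intro n b S A η τ H y m hm hb hκ Y hY hy x hx
  have hn := H.n0
  have hn' : (0 : ℝ) < n := by exact_mod_cast hn
  have hη := H.η0
  have hη' := H.η1
  have hτ := H.τ0
  have hκ0 := le_max_right (-kap S m) 0
  have hsm : ∀ c z : ℝ, 0 ≤ z → C1 * z ≤ 1 → c ≤ C1 → c * z ≤ 1 := fun c z h0 h1 h2 =>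
    (mul_le_mul_of_nonneg_right h2 h0).trans h1
  have hη2 : η ≤ 1 / 2 := by linarith [hsm 2 η hη.le hη' (by linarith)]
  have hη1 : η ≤ 1 := by linarith
  have hτ1 : τ ≤ 1 := H.τ1.trans (pow_le_one₀ hη.le hη1)
  have hDm := Dt_mem S hη hη1 hm
  have hD1 : ∀ i, 1 ≤ Dt S η m i := fun i => (hDm i).1
  obtain ⟨k1, k2⟩ := kt_kap S hn hη hm
  have h48 := hsm (48 * β ^ 2) η hη.le hη' (by linarith)
  have ht : max (-kt S η m) 0 ≤ max (-kap S m) 0 + η := by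
    have h1 : β ^ 2 * η ^ 12 ≤ η := by
      have h2 : η ^ 12 ≤ η ^ 2 := pow_le_pow_of_le_one hη.le hη1 (by norm_num)
      have h3 := mul_le_mul_of_nonneg_left h2 (sq_nonneg β)
      have h4 := mul_le_mul_of_nonneg_left h48 hη.le
      linarith
    exact max_le (by linarith [le_max_left (-kap S m) 0]) (by linarith)
  have ht' : 24 * β ^ 2 * max (-kt S η m) 0 ≤ 1 := by
    have h1 : β ^ 2 * η ^ 12 ≤ η ^ 2 := by
      have h2 : η ^ 12 ≤ η ^ 3 := pow_le_pow_of_le_one hη.le hη1 (by norm_num)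
      have h3 := mul_le_mul_of_nonneg_left h2 (sq_nonneg β)
      have h4 := mul_le_mul_of_nonneg_left h48 (sq_nonneg η)
      linarith [sq_nonneg η]
    have h2 := mul_le_mul_of_nonneg_left ht (by positivity : 0 ≤ 24 * β ^ 2)
    linarith [hsm (48 * β ^ 2) _ hκ0 hκ (by linarith)]
  obtain ⟨d1, d2, d3, d4, d5⟩ := D49.d2 (u1 := u21 S η m) hn hβ hD1 hη (by linarith) ht' rfl η
  have hku : η ≤ ku β (Dt S η m) (u21 S η m) η := (le_max_right _ _).trans d3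
  have hη22 : η ^ 2 ≤ η := by simpa using pow_le_pow_of_le_one hη.le hη1 (by norm_num : 1 ≤ 2)
  have hw : η ^ 4 ≤ η * ku β (Dt S η m) (u21 S η m) η := by
    calc η ^ 4 ≤ η ^ 2 := pow_le_pow_of_le_one hη.le hη1 (by norm_num)
      _ = η * η := sq η
      _ ≤ _ := mul_le_mul_of_nonneg_left hku hη.le
  have hu' : -(1 / 2) ≤ u21 S η m := by linarith
  obtain ⟨r1, r2⟩ := H.rmt (Dt S η m) hDm (u21 S η m) η hu' d2 hη22 hη1 (hη22.trans hku)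
  have hgr := D49.abs_gr_le hn hD1 hu' η
  have hw1 : |u21 S η m + β ^ 2 * gr (Dt S η m) (u21 S η m) η| ≤ 1 + 2 * β ^ 2 := by
    refine (abs_add_le _ _).trans ?_
    rw [abs_mul, abs_of_nonneg (sq_nonneg β), abs_of_nonneg d1]
    linarith [mul_le_mul_of_nonneg_left hgr (sq_nonneg β)]
  have hK0 := trK_nonneg (D := Dt S η m) (w1 := u21 S η m + β ^ 2 * gr (Dt S η m) (u21 S η m) η)
    H.sym ((by positivity : 0 < η ^ 4).trans_le hw)
  rw [mul_div_assoc] at r2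
  have hq := qq_mem hm
  obtain ⟨a1, a2, a3⟩ := num_step2 (κ := max (-kap S m) 0) (t := max (-kt S η m) 0 + η)
    (u1 := u21 S η m) hβ hC hη
    hη1 (by positivity) (by linarith) rfl d2 hku d4 rfl (D49.g2_pos hn hD1 hu' η)
    (div_nonneg hK0 hn'.le) hgr (av_nonneg fun i => (D49.inv_mem hD1 i).1.le)
    (D49.av_le_const hn fun i => (D49.inv_mem hD1 i).2)
    (g0_sq hn hD1 d1 d2 (pow_le_one₀ hη.le hη1)) (sub_nonneg.2 hq.2) (one_sub_qq S hn hC hm hb)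
    d5 r1 r2
  have hδ := inc_eq S A η (u21 S η m) η τ m
  rw [max_eq_left hw] at hδ
  have hz : nrm (y + τ • m) ≤ 2 * Y * √n := by
    refine (nrm_add_le _ _).trans ?_
    rw [nrm_smul, abs_of_pos hτ]
    have h1 : τ * nrm m ≤ Y * √n :=
      mul_le_mul (hτ1.trans hY) (nrm_box hm) (nrm_nonneg _) (by linarith)
    linarith
  have hB := hcore n b S A η _ _ τ τ hn H.sym H.opA hη hη2 hw1 hw hτ.le le_rfl hτ H.τ1 m hm
    (y + τ • m) (2 * Y) (by linarith) hz x hx _ hδ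
  have hX := core_cross S hC H.sym H.opA hη hη1 hw1 hw hτ H.τ1 hm hx
  rw [← hδ, ← hR] at hX
  have he := (Real.exp_pos (-x ^ 2 / 2)).le
  obtain ⟨k, hk⟩ : ∃ k, k = (Km A (Dt S η m) (u21 S η m + β ^ 2 * gr (Dt S η m) (u21 S η m) η)
    (η * ku β (Dt S η m) (u21 S η m) η)).trace / n := ⟨_, rfl⟩
  have hk0 : 0 ≤ k := hk ▸ div_nonneg hK0 hn'.le
  have hk' : (Km A (Dt S η m) (u21 S η m + β ^ 2 * gr (Dt S η m) (u21 S η m) η)
      (η * ku β (Dt S η m) (u21 S η m) η)).trace = n * k := by rw [hk]; field_simp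
  rw [← hk] at a1 a2 a3
  rw [hk'] at hB
  refine ⟨k, hk0, a1, a2.trans (mul_le_mul_of_nonneg_right (by linarith) (by positivity)), ?_⟩
  refine ((hB.and hX (by positivity) he).and (ball_fst' hx) (by positivity) he).mono
    (by linarith) fun ξ hξ => ?_
  obtain ⟨⟨⟨c1, c2, c3, c4⟩, c5⟩, c6⟩ := hξ
  have e0 : step2 S A η τ (y, m) ξ =
      (y + τ • m + √τ • fst ξ, m + inc S A η (u21 S η m) η τ m ξ) := rfl
  have e00 : (fun i => ξ (Sum.inl i)) = fst ξ := rfl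
  rw [e0, e00]
  dsimp only
  obtain ⟨δ, hδ'⟩ : ∃ δ, δ = inc S A η (u21 S η m) η τ m ξ := ⟨_, rfl⟩
  rw [← hδ'] at c1 c2 c3 c4 c5 ⊢
  rw [add_sub_cancel_left]
  have hdq := n_dq hn m δ
  have e3 : n * |qq (m + δ) - qq m - τ * k| = |2 * (m ⬝ᵥ δ) + δ ⬝ᵥ δ - n * (τ * k)| := by
    rw [← hdq, ← mul_sub, abs_mul, abs_of_pos hn']
  have e4 : (y + τ • m + √τ • fst ξ) ⬝ᵥ (m + δ) = y ⬝ᵥ m + τ * (m ⬝ᵥ m) + √τ * (m ⬝ᵥ fst ξ) +
      (y + τ • m) ⬝ᵥ δ + √τ * (fst ξ ⬝ᵥ δ) := by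
    simp only [add_dotProduct, dotProduct_add, smul_dotProduct, smul_eq_mul,
      dotProduct_comm (fst ξ) m]
    ring
  have e5 : x * Y * √(n * τ) / η ^ 10 = Y * (x * √(n * τ) / η ^ 10) := by ring
  rw [e3, e4, e5, ← n_qq hn m]
  have hL0 : 0 ≤ x * √(n * τ) / η ^ 10 := by positivity
  have hU0 : 0 ≤ n * τ := by positivity
  have a4 := mul_le_mul_of_nonneg_left a3 hU0
  have e6 : ∀ t : ℝ, n * τ * (t / n) = τ * t := fun t => by field_simp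
  rw [mul_add (n * τ) (_ / (n : ℝ)), e6] at a4
  generalize x * √(n * τ) / η ^ 10 = L at *
  generalize max (-kap S m) 0 = κ at *
  have hYL : L ≤ Y * L := le_mul_of_one_le_left hL0 hY
  have p1 : 0 ≤ n * τ * η ^ 2 := by positivity
  have p2 : 0 ≤ n * τ * (k * κ ^ 2) := by positivity
  have p3 : 0 ≤ n * τ * (k * η ^ 2) := by positivity
  have c3' := abs_le.1 c3
  have c4' := abs_le.1 c4
  have g1 : (C2 + 4) * L ≤ C1 * L := mul_le_mul_of_nonneg_right (by linarith) hL0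
  have g2' : C2 * (n * τ * η ^ 2 * (1 + k)) ≤ C1 * (n * τ * η ^ 2 * (1 + k)) :=
    mul_le_mul_of_nonneg_right (by linarith) (by positivity)
  refine ⟨c1, ?_, abs_le.2 ⟨by linarith, by linarith⟩, ?_, ?_⟩
  · have h1 : (2 * C2 + 6) * (Y * L) ≤ C1 * (Y * L) :=
      mul_le_mul_of_nonneg_right (by linarith) (hL0.trans hYL)
    have h2 : (129 * β ^ 4 + 3 * C + 7 * β ^ 2 + C2 + (R + 2)) *
        (n * τ * (k * (κ ^ 2 + η ^ 2) + η ^ 2)) ≤ C1 * (n * τ * (k * (κ ^ 2 + η ^ 2) + η ^ 2)) :=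
      mul_le_mul_of_nonneg_right (by linarith) (by positivity)
    have h3 := mul_nonneg (by linarith : 0 ≤ C2) p2
    have h4 := mul_nonneg (by linarith : 0 ≤ R + 2) (add_nonneg p2 p3)
    have h5 : 0 ≤ (129 * β ^ 4 + 3 * C + 7 * β ^ 2) * (n * τ * (k * (κ ^ 2 + η ^ 2) + η ^ 2)) := by
      positivity
    linarith
  · have h1 : η ^ 2 * (1 + k) ≤ 1 / η := by
      have h2 := mul_le_mul_of_nonneg_left a1 (sq_nonneg η)
      rw [show η ^ 2 * (2 / η) = 2 * η by field_simp] at h2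
      have h3 : 2 ≤ 1 / η := by rw [le_div_iff₀ hη]; linarith
      linarith
    have h2 := mul_le_mul_of_nonneg_left h1 (mul_nonneg (by linarith : 0 ≤ C2) hU0)
    have h3 := mul_le_mul_of_nonneg_left a1 hU0
    have h4 : (C2 + 2) * (n * τ / η) ≤ C1 * (n * τ / η) :=
      mul_le_mul_of_nonneg_right (by linarith) (by positivity)
    have e7 : n * τ * (2 / η) = 2 * (n * τ / η) := by ring
    have e8 : C2 * (n * τ) * (1 / η) = C2 * (n * τ / η) := by ring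
    linarith
  · rw [show y + τ • m + √τ • fst ξ - y = τ • m + √τ • fst ξ by abel]
    refine (nrm_add_le _ _).trans ?_
    rw [nrm_smul, nrm_smul, abs_of_pos hτ, abs_of_nonneg (Real.sqrt_nonneg τ)]
    exact add_le_add (mul_le_mul_of_nonneg_left (nrm_box hm) hτ.le)
      (mul_le_mul_of_nonneg_left c6 (Real.sqrt_nonneg τ))

end Crest.Agent.T157.St

end
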