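import Crest.Agent.T157.FrB_98

/-!
Row 157 (helper98), freeness with diagonals, part C: uniformity over all diagonals (net), the
versions for `Wmat`, `Jmat`, and the deterministic consequences (trace form, stability, Ward).
-/

set_option autoImplicit false
set_option linter.unusedSimpArgs false

noncomputable section

namespace Crest.Agent.T157.Fr

open Matrix Finset MeasureTheory ProbabilityTheory
open Crest.ProbabilityR.SpinGlassDynamics
open Crest.Agent.T157.Eig Crest.Agent.T157.Cond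
open Crest.Agent.T157.Conc (en ELip en_nonneg)
open Crest.Agent.T157.E (gv Jmat Wmat)

variable {ι : Type*} [Fintype ι] [DecidableEq ι]
variable {s A η : ℝ} {d d' : ι → ℂ} {W W' : Matrix ι ι ℝ}

/-- a finite net inside any bounded subset of `ℂ` -/
lemma exists_net_C (B : Set ℂ) {A δ : ℝ} (hA : 0 ≤ A) (hδ : 0 < δ) (hB : ∀ z ∈ B, ‖z‖ ≤ A) :
    ∃ T : Finset ℂ, (∀ z ∈ T, z ∈ B) ∧ (T.card : ℝ) ≤ (2 * A / δ + 3) ^ 2 ∧
      ∀ z ∈ B, ∃ z' ∈ T, ‖z - z'‖ ≤ 2 * δ := by
  classical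
  set M : ℕ := ⌈A / δ⌉₊ with hM
  set lab : ℂ → ℤ × ℤ := fun z => (⌊z.re / δ⌋, ⌊z.im / δ⌋) with hlab
  set I : Finset (ℤ × ℤ) := Icc (-(M : ℤ)) M ×ˢ Icc (-(M : ℤ)) M with hI
  have hfl : ∀ r : ℝ, |r| ≤ A → ⌊r / δ⌋ ∈ Icc (-(M : ℤ)) M := fun r hr => by
    have h1 : A / δ ≤ M := Nat.le_ceil _
    have h2 : r / δ ≤ A / δ := by gcongr; exact (abs_le.1 hr).2
    have h3 : -(A / δ) ≤ r / δ := by rw [← neg_div]; gcongr; exact (abs_le.1 hr).1
    rw [mem_Icc, Int.le_floor]
    refine ⟨by push_cast; linarith, ?_⟩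
    have : (⌊r / δ⌋ : ℝ) ≤ ((M : ℤ) : ℝ) := (Int.floor_le _).trans (by push_cast; linarith)
    exact_mod_cast this
  have hclose : ∀ r r' : ℝ, ⌊r / δ⌋ = ⌊r' / δ⌋ → |r - r'| ≤ δ := fun r r' h => by
    have h1 := Int.abs_sub_lt_one_of_floor_eq_floor h
    rw [← sub_div, abs_div, abs_of_pos hδ, div_lt_one hδ] at h1
    exact h1.le
  set rep : ℤ × ℤ → ℂ := fun l => if h : ∃ z ∈ B, lab z = l then h.choose else 0 with hrep
  refine ⟨(I.filter fun l => ∃ z ∈ B, lab z = l).image rep, ?_, ?_, ?_⟩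
  · intro z hz
    obtain ⟨l, hl, rfl⟩ := mem_image.1 hz
    have h := (mem_filter.1 hl).2
    simp only [hrep, dif_pos h]
    exact h.choose_spec.1
  · have h1 : ((I.filter fun l => ∃ z ∈ B, lab z = l).image rep).card ≤ (2 * M + 1) ^ 2 := by
      refine card_image_le.trans ((card_filter_le _ _).trans (le_of_eq ?_))
      rw [hI, card_product, Int.card_Icc]
      have : ((M : ℤ) + 1 - -(M : ℤ)).toNat = 2 * M + 1 := by omega
      rw [this, sq]
    have h2 : (M : ℝ) ≤ A / δ + 1 := (Nat.ceil_lt_add_one (by positivity)).le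
    calc _ ≤ (((2 * M + 1) ^ 2 : ℕ) : ℝ) := by exact_mod_cast h1
      _ ≤ _ := by
        push_cast
        refine pow_le_pow_left₀ (by positivity) ?_ 2
        rw [mul_div_assoc]; linarith
  · intro z hz
    have h : ∃ z' ∈ B, lab z' = lab z := ⟨z, hz, rfl⟩
    refine ⟨rep (lab z), mem_image.2 ⟨lab z, mem_filter.2 ⟨?_, h⟩, rfl⟩, ?_⟩
    · exact mem_product.2 ⟨hfl _ ((Complex.abs_re_le_norm z).trans (hB z hz)),
        hfl _ ((Complex.abs_im_le_norm z).trans (hB z hz))⟩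
    · simp only [hrep, dif_pos h]
      have h2 := h.choose_spec.2
      have h3 := hclose _ _ (congrArg Prod.fst h2).symm
      have h4 := hclose _ _ (congrArg Prod.snd h2).symm
      refine (Complex.norm_le_abs_re_add_abs_im _).trans ?_
      rw [Complex.sub_re, Complex.sub_im]
      linarith

lemma measurable_res (d : ι → ℂ) (i j : ι) : Measurable fun W : Matrix ι ι ℝ => res d W i j := by
  have h1 : Continuous fun W : Matrix ι ι ℝ => Zm d W :=
    continuous_const.sub (continuous_matrix fun i j =>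
      Complex.continuous_ofReal.comp (continuous_id.matrix_elem i j))
  have h2 : (fun W : Matrix ι ι ℝ => res d W i j) = fun W =>
      ((Zm d W).det)⁻¹ * (Zm d W).adjugate i j := by
    ext1 W
    rw [res, Matrix.inv_def, Ring.inverse_eq_inv', Matrix.smul_apply, smul_eq_mul]
  rw [h2]
  exact h1.matrix_det.measurable.inv.mul (h1.matrix_adjugate.matrix_elem i j).measurable

lemma measurable_cn_err (s : ℝ) (d : ι → ℂ) : Measurable fun W : Matrix ι ι ℝ => cn (err s d W) := by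
  have h := measurable_res d
  unfold cn err mtr trace
  simp only [diag_apply]
  refine Measurable.sqrt (Finset.measurable_sum _ fun i _ => Measurable.pow_const
    (Measurable.norm ?_) 2)
  exact ((measurable_const.sub (measurable_const.mul
    (Finset.measurable_sum _ fun j _ => h j j))).mul (h i i)).sub measurable_const

/-- the threshold of the uniform Dyson equation -/
def thr (ι : Type*) [Fintype ι] (s A η δ t : ℝ) : ℝ :=
  √(Fintype.card ι) * (2 * s ^ 2 / η ^ 2 + (6 * s + 4 * δ) * Lam ι s A η) + t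

/-- the failure probability -/
def pfail (ι : Type*) [Fintype ι] (s A η δ t : ℝ) : ℝ :=
  (2 * A / δ + 3) ^ (2 * Fintype.card ι) * Real.exp (-t ^ 2 / (4 * s ^ 2 * Lam ι s A η ^ 2))

/-- **uniform vector Dyson equation** for the GOE -/
theorem unif_goe (hs : 0 < s) (hη : 0 < η) (hA : η ≤ A) {δ t : ℝ} (hδ : 0 < δ) (ht : 0 ≤ t) :
    (goe ι s).real {W | ∃ d, Box A η d ∧ thr ι s A η δ t < cn (err s d W)} ≤
      pfail ι s A η δ t := by
  have hA0 : 0 < A := hη.trans_le hA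
  obtain ⟨T, hT, hcard, hnet⟩ := exists_net_C {z : ℂ | η ≤ z.im ∧ ‖z‖ ≤ A} hA0.le hδ
    fun z hz => hz.2
  set E : (ι → ℂ) → Set (Matrix ι ι ℝ) := fun d => {W | √(Fintype.card ι) *
    (2 * s ^ 2 / η ^ 2 + 6 * s * Lam ι s A η) + t ≤ cn (err s d W)} with hE
  have hEm : ∀ d, MeasurableSet (E d) := fun d =>
    measurableSet_le measurable_const (measurable_cn_err s d)
  have hEp : ∀ d ∈ Fintype.piFinset fun _ : ι => T, (goe ι s).real (E d) ≤
      Real.exp (-t ^ 2 / (4 * s ^ 2 * Lam ι s A η ^ 2)) := fun d hd => by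
    rw [goe, map_measureReal_apply (measurable_symG s) (hEm d)]
    exact tail_err hs hη hA0 (fun i => hT _ (Fintype.mem_piFinset.1 hd i)) ht
  have hsub : {W | ∃ d, Box A η d ∧ thr ι s A η δ t < cn (err s d W)} ≤ᵐ[goe ι s]
      ⋃ d ∈ Fintype.piFinset fun _ : ι => T, E d := by
    filter_upwards [goe_ae_symm (ι := ι) s] with W hW
    rintro ⟨d, hd, h⟩
    choose d' hd'T hd' using fun i => hnet (d i) (hd i)
    refine Set.mem_iUnion₂.2 ⟨d', Fintype.mem_piFinset.2 hd'T, ?_⟩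
    have h1 := err_sub_d hη hA hd (fun i => hT _ (hd'T i)) hW s (by positivity) hd'
    have h2 := (abs_le.1 (abs_cn_sub_le (err s d W) (err s d' W))).2
    simp only [hE, Set.mem_setOf_eq]
    unfold thr at h
    nlinarith
  calc _ ≤ (goe ι s).real (⋃ d ∈ Fintype.piFinset fun _ : ι => T, E d) :=
        ENNReal.toReal_mono (measure_ne_top _ _) (measure_mono_ae hsub)
    _ ≤ ∑ d ∈ Fintype.piFinset fun _ : ι => T, (goe ι s).real (E d) :=
        measureReal_biUnion_finset_le _ _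
    _ ≤ ∑ _d ∈ Fintype.piFinset fun _ : ι => T,
        Real.exp (-t ^ 2 / (4 * s ^ 2 * Lam ι s A η ^ 2)) := sum_le_sum hEp
    _ ≤ _ := by
      rw [sum_const, Fintype.card_piFinset, prod_const, card_univ, nsmul_eq_mul, pfail, pow_mul]
      push_cast
      gcongr

lemma real_preimage_le {α β : Type*} [MeasurableSpace α] [MeasurableSpace β] {μ : Measure α}
    {ν : Measure β} [IsFiniteMeasure ν] {f : α → β} (h : MeasurePreserving f μ ν) (S : Set β) :
    μ.real (f ⁻¹' S) ≤ ν.real S := by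
  refine ENNReal.toReal_mono (measure_ne_top _ _) ?_
  rw [← h.map_eq]
  exact Measure.le_map_apply h.measurable.aemeasurable S

variable {n : ℕ}

lemma mp_smul_Wmat (β : ℝ) : MeasurePreserving
    (fun p : (Pair n → ℝ) × (Fin n → ℝ) => β • Wmat n p.1 p.2)
    ((disorderLaw n).prod (gv (Fin n))) (goe (Fin n) (β / √n)) := by
  have h : MeasurePreserving (fun W : Matrix (Fin n) (Fin n) ℝ => β • W)
      (goe (Fin n) (1 / √n)) (goe (Fin n) (β / √n)) :=
    ⟨(continuous_const_smul β).measurable, by rw [goe_smul, mul_one_div]⟩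
  exact h.comp mp_Wmat

/-- uniform Dyson equation for `β • Wmat` -/
theorem unif_Wmat {β : ℝ} (hβ : 0 < β) (hn : 0 < n) (hη : 0 < η) (hA : η ≤ A) {δ t : ℝ}
    (hδ : 0 < δ) (ht : 0 ≤ t) : ((disorderLaw n).prod (gv (Fin n))).real
      {p | ∃ d, Box A η d ∧ thr (Fin n) (β / √n) A η δ t <
        cn (err (β / √n) d (β • Wmat n p.1 p.2))} ≤ pfail (Fin n) (β / √n) A η δ t :=
  (real_preimage_le (mp_smul_Wmat β) _).trans
    (unif_goe (by have : (0 : ℝ) < n := Nat.cast_pos.2 hn; positivity) hη hA hδ ht)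

lemma en_tail (n : ℕ) : (gv (Fin n)).real {z | 2 * √n ≤ en z} ≤ Real.exp (-(n / 2)) := by
  have h := Crest.Agent.T157.Conc.tail_lip (Crest.Agent.T157.Conc.elip_en (ι := Fin n))
    (Real.sqrt_nonneg n)
  have hm : ∫ z, en z ∂(gv (Fin n)) ≤ √n := by
    simp only [Nrm.en_eq_nrm]
    simpa using Nrm.integral_nrm_le (ι := Fin n)
  rw [Real.sq_sqrt (Nat.cast_nonneg n)] at h
  refine le_trans (measureReal_mono fun z hz => ?_) (h.trans (le_of_eq (by congr 1; ring)))
  simp only [Set.mem_setOf_eq] at hz ⊢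
  linarith

/-- uniform Dyson equation for `β • Jmat` (zero diagonal) -/
theorem unif_Jmat {β : ℝ} (hβ : 0 < β) (hn : 0 < n) (hη : 0 < η) (hA : η ≤ A) {δ t : ℝ}
    (hδ : 0 < δ) (ht : 0 ≤ t) : (disorderLaw n).real
      {g | ∃ d, Box A η d ∧ thr (Fin n) (β / √n) (A + 3 * β) η δ t + 3 * β / η <
        cn (err (β / √n) d (β • Jmat n g))} ≤
      pfail (Fin n) (β / √n) (A + 3 * β) η δ t + Real.exp (-(n / 2)) := by
  have hn' : (0 : ℝ) < n := Nat.cast_pos.2 hn
  have hsq : 0 < √(n : ℝ) := Real.sqrt_pos.2 hn'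
  set S := {g : Pair n → ℝ | ∃ d, Box A η d ∧ thr (Fin n) (β / √n) (A + 3 * β) η δ t + 3 * β / η <
    cn (err (β / √n) d (β • Jmat n g))} with hS
  have h1 := unif_Wmat (A := A + 3 * β) hβ hn hη (by linarith) hδ ht
  have h2 : ((disorderLaw n).prod (gv (Fin n))).real (Set.univ ×ˢ {z | 2 * √n ≤ en z}) ≤
      Real.exp (-(n / 2)) := by
    rw [measureReal_prod_prod, probReal_univ, one_mul]; exact en_tail n
  have h3 : (disorderLaw n).real S = ((disorderLaw n).prod (gv (Fin n))).real (S ×ˢ Set.univ) := by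
    rw [measureReal_prod_prod, probReal_univ, mul_one]
  rw [h3]
  refine le_trans ((measureReal_mono ?_).trans (measureReal_union_le _ _)) (add_le_add h1 h2)
  rintro ⟨g, z⟩ ⟨⟨d, hd, h⟩, -⟩
  by_cases hz : 2 * √n ≤ en z
  · exact Or.inr ⟨trivial, hz⟩
  left
  push Not at hz
  set w : Fin n → ℂ := fun i => ((β * (√2 * z i / √n) : ℝ) : ℂ) with hw
  have h2le : √2 ≤ 3 / 2 := Real.sqrt_le_iff.2 ⟨by norm_num, by norm_num⟩
  have hwn : cn w ≤ 3 * β := by
    have e : w = ((β * √2 / √n : ℝ) : ℂ) • fun i => (z i : ℂ) := by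
      ext i; simp only [hw, Pi.smul_apply, smul_eq_mul]; push_cast; ring
    have e2 : cn (fun i => (z i : ℂ)) = en z := by simp [cn, en]
    rw [e, cn_smul, e2, Complex.norm_real, Real.norm_of_nonneg (by positivity)]
    calc β * √2 / √n * en z ≤ β * (3 / 2) / √n * (2 * √n) := by
          gcongr; exact en_nonneg z
      _ = 3 * β := by field_simp
  have hZ : res (d + w) (β • Wmat n g z) = res d (β • Jmat n g) := by
    unfold res Zm
    congr 1
    ext i j
    by_cases hij : i = j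
    · subst hij; simp [E.Wmat, hw]
    · simp [E.Wmat, hij]
  have hJ : (β • Jmat n g)ᵀ = β • Jmat n g := by rw [transpose_smul, E.Jmat_transpose]
  refine ⟨d + w, fun i => ⟨by simpa [hw] using (hd i).1,
    (norm_add_le _ _).trans (add_le_add (hd i).2 ((norm_le_cn w i).trans hwn))⟩, ?_⟩
  have e : err (β / √n) d (β • Jmat n g) = err (β / √n) (d + w) (β • Wmat n g z) -
      fun i => w i * res d (β • Jmat n g) i i := by
    ext i; simp only [err, mtr, hZ, Pi.sub_apply, Pi.add_apply]; ring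
  have h4 : cn (fun i => w i * res d (β • Jmat n g) i i) ≤ 3 * β / η := by
    refine cn_le_of_sq (by positivity) ?_
    have h5 : ∀ i, ‖w i * res d (β • Jmat n g) i i‖ ^ 2 ≤ ‖w i‖ ^ 2 * (1 / η) ^ 2 := fun i => by
      rw [norm_mul, mul_pow]
      gcongr
      exact (entry_le _ i i).trans (cop_res_le hη (fun i => (hd i).1) hJ)
    calc _ ≤ ∑ i, ‖w i‖ ^ 2 * (1 / η) ^ 2 := sum_le_sum fun i _ => h5 i
      _ = cn w ^ 2 * (1 / η) ^ 2 := by rw [← sum_mul, cn_sq]
      _ ≤ (3 * β) ^ 2 * (1 / η) ^ 2 := by gcongr; exact cn_nonneg w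
      _ = _ := by ring
  rw [e] at h
  have h6 := cn_sub_le (err (β / √n) (d + w) (β • Wmat n g z))
    fun i => w i * res d (β • Jmat n g) i i
  simp only [Set.mem_setOf_eq]
  linarith

/-! ### deterministic consequences -/

lemma im_sub_mtr (hη : 0 < η) (hd : ∀ i, η ≤ (d i).im) (hW : Wᵀ = W) (s : ℝ) (i : ι) :
    η ≤ (d i - mtr s d W).im := by
  have := im_mtr_nonpos hη hd hW s
  have := hd i
  rw [Complex.sub_im]; linarith

lemma res_sub_inv (hη : 0 < η) (hd : ∀ i, η ≤ (d i).im) (hW : Wᵀ = W) (s : ℝ) (i : ι) :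
    ‖res d W i i - (d i - mtr s d W)⁻¹‖ ≤ ‖err s d W i‖ / η := by
  have h1 := (im_sub_mtr hη hd hW s i).trans (Complex.im_le_norm _)
  have h0 : d i - mtr s d W ≠ 0 := norm_pos_iff.1 (hη.trans_le h1)
  have e : res d W i i - (d i - mtr s d W)⁻¹ = err s d W i / (d i - mtr s d W) := by
    simp only [err]; field_simp
  rw [e, norm_div]
  gcongr

/-- `ℓ²` form: `G_ii ≈ 1/(d_i - s² tr G)` -/
theorem cn_res_sub_inv (hη : 0 < η) (hd : ∀ i, η ≤ (d i).im) (hW : Wᵀ = W) (s : ℝ) :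
    cn (fun i => res d W i i - (d i - mtr s d W)⁻¹) ≤ cn (err s d W) / η := by
  refine cn_le_of_sq (div_nonneg (cn_nonneg _) hη.le) ?_
  rw [div_pow, cn_sq, sum_div]
  refine sum_le_sum fun i _ => ?_
  rw [← div_pow]
  exact pow_le_pow_left₀ (norm_nonneg _) (res_sub_inv hη hd hW s i) 2

/-- trace form (helper44): `tr G ≈ ∑ 1/(d_i - s² tr G)` -/
theorem trace_sub_le (hη : 0 < η) (hd : ∀ i, η ≤ (d i).im) (hW : Wᵀ = W) (s : ℝ) :
    ‖(res d W).trace - ∑ i, (d i - mtr s d W)⁻¹‖ ≤ √(Fintype.card ι) * (cn (err s d W) / η) := by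
  rw [trace, ← sum_sub_distrib]
  refine ((norm_sum_le _ _).trans (sum_norm_le_cn _)).trans ?_
  exact mul_le_mul_of_nonneg_left (cn_res_sub_inv hη hd hW s) (Real.sqrt_nonneg _)

/-- the diagonal of `G` is on the stable branch -/
theorem diag_stable (hη : 0 < η) (hd : ∀ i, η ≤ (d i).im) (hW : Wᵀ = W) (s : ℝ)
    (he : |s| * cn (err s d W) ≤ η) : |s| * cn (res d W).diag ≤ 1 := by
  set y := -(mtr s d W).im with hy
  have hy0 : 0 ≤ y := neg_nonneg.2 (im_mtr_nonpos hη hd hW s)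
  set X := |s| * cn (res d W).diag with hX
  have h1 : ∀ i, (η + y) * ‖res d W i i‖ ^ 2 ≤ -(res d W i i).im +
      ‖err s d W i‖ * ‖res d W i i‖ := fun i => by
    have e : (d i - mtr s d W) * (res d W i i * star (res d W i i)) =
        star (res d W i i) + err s d W i * star (res d W i i) := by
      simp only [err]; ring
    have e2 := congrArg Complex.im e
    rw [Complex.star_def, Complex.mul_conj, Complex.normSq_eq_norm_sq, mul_comm,
      Complex.im_ofReal_mul, Complex.add_im, Complex.conj_im] at e2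
    have h2 := Complex.im_le_norm (err s d W i * (starRingEnd ℂ) (res d W i i))
    rw [norm_mul, Complex.norm_conj] at h2
    have h3 : η + y ≤ (d i - mtr s d W).im := by rw [Complex.sub_im]; linarith [hd i]
    nlinarith [sq_nonneg ‖res d W i i‖]
  have h2 : (η + y) * cn (res d W).diag ^ 2 ≤ ∑ i, -(res d W i i).im +
      cn (err s d W) * cn (res d W).diag := by
    rw [cn_sq, mul_sum]
    refine (sum_le_sum fun i _ => h1 i).trans ?_
    rw [sum_add_distrib]
    gcongr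
    exact sum_mul_le_cn (err s d W) (res d W).diag
  have h3 : s ^ 2 * ∑ i, -(res d W i i).im = y := by
    rw [hy, mtr, Complex.im_ofReal_mul, trace, Complex.im_sum, sum_neg_distrib]
    simp
  have h4 : (η + y) * X ^ 2 ≤ y + |s| * cn (err s d W) * X := by
    have := mul_le_mul_of_nonneg_left h2 (sq_nonneg s)
    rw [mul_add, h3, ← sq_abs s] at this
    calc _ = |s| ^ 2 * ((η + y) * cn (res d W).diag ^ 2) := by rw [hX]; ring
      _ ≤ _ := this
      _ = _ := by rw [hX]; ring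
  by_contra hc
  push Not at hc
  have h5 : |s| * cn (err s d W) * X ≤ η * X := by gcongr
  nlinarith [mul_pos hη (sub_pos.2 hc), mul_nonneg hy0 (sub_pos.2 hc).le]

/-- `m(a) = s² ∑ 1/a_i` -/
def mv (s : ℝ) (a : ι → ℂ) : ℂ := ((s ^ 2 : ℝ) : ℂ) * ∑ i, (a i)⁻¹

/-- `S(a) = s² ∑ |a_i|⁻²` -/
def Sv (s : ℝ) (a : ι → ℂ) : ℝ := s ^ 2 * ∑ i, ‖(a i)⁻¹‖ ^ 2

omit [DecidableEq ι] in
lemma Sv_eq (s : ℝ) (a : ι → ℂ) : Sv s a = (|s| * cn fun i => (a i)⁻¹) ^ 2 := by
  rw [mul_pow, sq_abs, cn_sq, Sv]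

/-- **stability**: on the branch `S(a) ≤ 1 - κ`, `d = a + m(a)` -/
theorem mtr_sub_mv {a : ι → ℂ} (ha : ∀ i, a i ≠ 0) {κ : ℝ} (hκ : 0 < κ) (hS : Sv s a ≤ 1 - κ)
    (hη : 0 < η) (hd : ∀ i, η ≤ (a i + mv s a).im) (hW : Wᵀ = W)
    (he : |s| * cn (err s (fun i => a i + mv s a) W) ≤ η) :
    ‖mtr s (fun i => a i + mv s a) W - mv s a‖ ≤
      2 * (|s| * cn (err s (fun i => a i + mv s a) W)) / κ := by
  set d : ι → ℂ := fun i => a i + mv s a with hdd
  have hX := diag_stable hη hd hW s he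
  set Y := |s| * cn fun i => (a i)⁻¹ with hY
  have hY0 : 0 ≤ Y := mul_nonneg (abs_nonneg s) (cn_nonneg _)
  have hY1 : Y ≤ 1 - κ / 2 := by
    rw [Sv_eq] at hS
    have hκ1 : κ ≤ 1 := by nlinarith [sq_nonneg Y]
    exact abs_le_of_sq_le_sq' (by nlinarith [sq_nonneg κ]) (by linarith) |>.2
  set Δ := mtr s d W - mv s a with hΔ
  have e : Δ = ((s ^ 2 : ℝ) : ℂ) * ∑ i, err s d W i * (a i)⁻¹ +
      Δ * (((s ^ 2 : ℝ) : ℂ) * ∑ i, (res d W).diag i * (a i)⁻¹) := by
    have : ∀ i, res d W i i - (a i)⁻¹ = err s d W i * (a i)⁻¹ +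
        Δ * (res d W i i * (a i)⁻¹) := fun i => by
      have := ha i
      simp only [err, hΔ, hdd]; field_simp; ring
    calc Δ = ((s ^ 2 : ℝ) : ℂ) * ∑ i, (res d W i i - (a i)⁻¹) := by
          rw [hΔ, mtr, mv, trace, sum_sub_distrib, mul_sub]; rfl
      _ = _ := by
          simp only [this, sum_add_distrib, ← mul_sum, diag_apply]; ring
  have hn : ∀ u : ι → ℂ, ‖((s ^ 2 : ℝ) : ℂ) * ∑ i, u i * (a i)⁻¹‖ ≤ |s| * cn u * Y := fun u => by
    rw [norm_mul, Complex.norm_real, Real.norm_of_nonneg (sq_nonneg s), ← sq_abs s, hY]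
    calc _ ≤ |s| ^ 2 * (cn u * cn fun i => (a i)⁻¹) :=
          mul_le_mul_of_nonneg_left (norm_sum_mul_le _ _) (sq_nonneg _)
      _ = _ := by ring
  have h1 : ‖Δ‖ ≤ |s| * cn (err s d W) * Y + ‖Δ‖ * (|s| * cn (res d W).diag * Y) := by
    conv_lhs => rw [e]
    refine (norm_add_le _ _).trans (add_le_add (hn _) ?_)
    rw [norm_mul]
    exact mul_le_mul_of_nonneg_left (hn _) (norm_nonneg _)
  have he0 : 0 ≤ |s| * cn (err s d W) := mul_nonneg (abs_nonneg s) (cn_nonneg _)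
  have h2 : |s| * cn (res d W).diag * Y ≤ 1 - κ / 2 := by nlinarith
  have h3 : |s| * cn (err s d W) * Y ≤ |s| * cn (err s d W) := by nlinarith
  rw [le_div_iff₀ hκ]
  nlinarith [mul_le_mul_of_nonneg_left h2 (norm_nonneg Δ)]

/-- `a_i G_ii ≈ 1` in `ℓ²` -/
theorem cn_mul_res_sub_one {a : ι → ℂ} (ha : ∀ i, a i ≠ 0) {κ : ℝ} (hκ : 0 < κ)
    (hS : Sv s a ≤ 1 - κ) (hη : 0 < η) (hd : ∀ i, η ≤ (a i + mv s a).im) (hW : Wᵀ = W)
    (he : |s| * cn (err s (fun i => a i + mv s a) W) ≤ η) :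
    cn (fun i => a i * res (fun i => a i + mv s a) W i i - 1) ≤
      3 * cn (err s (fun i => a i + mv s a) W) / κ := by
  set d : ι → ℂ := fun i => a i + mv s a with hdd
  have hX := diag_stable hη hd hW s he
  have h1 := mtr_sub_mv ha hκ hS hη hd hW he
  have hκ1 : κ ≤ 1 := by rw [Sv_eq] at hS; nlinarith [sq_nonneg (|s| * cn fun i => (a i)⁻¹)]
  have e : (fun i => a i * res d W i i - 1) =
      err s d W + (mtr s d W - mv s a) • (res d W).diag := by
    ext i; simp only [err, hdd, Pi.add_apply, Pi.smul_apply, diag_apply, smul_eq_mul]; ring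
  rw [e]
  refine (cn_add_le _ _).trans ?_
  rw [cn_smul]
  have h0 := cn_nonneg (err s d W)
  have h2 : ‖mtr s d W - mv s a‖ * cn (res d W).diag ≤ 2 * cn (err s d W) / κ := by
    calc _ ≤ 2 * (|s| * cn (err s d W)) / κ * cn (res d W).diag :=
          mul_le_mul_of_nonneg_right h1 (cn_nonneg _)
      _ = 2 * cn (err s d W) / κ * (|s| * cn (res d W).diag) := by ring
      _ ≤ 2 * cn (err s d W) / κ * 1 := by gcongr
      _ = _ := mul_one _
  have h3 : cn (err s d W) ≤ cn (err s d W) / κ := by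
    rw [le_div_iff₀ hκ]; nlinarith
  calc _ ≤ cn (err s d W) / κ + 2 * cn (err s d W) / κ := add_le_add h3 h2
    _ = _ := by ring

omit [DecidableEq ι] in
/-- `Im (a + m(a)) = y (1 - S(a))` when all `a_i` have imaginary part `y` -/
lemma im_add_mv {a : ι → ℂ} {y : ℝ} (ha : ∀ i, (a i).im = y) (s : ℝ) (i : ι) :
    (a i + mv s a).im = y * (1 - Sv s a) := by
  have : ∀ j, ((a j)⁻¹).im = -(y * ‖(a j)⁻¹‖ ^ 2) := fun j => by
    rw [Complex.inv_im, ha j, norm_inv, inv_pow, Complex.sq_norm]; ring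
  rw [Complex.add_im, ha, mv, Complex.im_ofReal_mul, Complex.im_sum, Sv]
  simp only [this, sum_neg_distrib, ← mul_sum]
  ring

/-- Ward identity for a constant imaginary part: `(G G*)_ii = -Im G_ii / y` -/
lemma ward_const {y : ℝ} (hy : 0 < y) (hd : ∀ i, (d i).im = y) (hW : Wᵀ = W) (i : ι) :
    ∑ j, ‖res d W j i‖ ^ 2 = -(res d W i i).im / y := by
  rw [ward (unit_Zm hy (fun i => (hd i).ge) hW) hW i]
  simp only [hd, ← mul_sum]
  field_simp

end Crest.Agent.T157.Fr
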