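import Crest.Agent.T157.UpDef_74
import Crest.Agent.T157.FrC_98

/-!
# Row 157, part D (helper54): `Up.RmtStmt` from the uniform vector Dyson equation
-/

set_option autoImplicit false

noncomputable section

namespace Crest.Agent.T157.Up.Rmt54

open MeasureTheory Matrix Filter Topology
open Crest.ProbabilityR.SpinGlassDynamics
open Crest.Agent.T157.E Crest.Agent.T157.St Crest.Agent.T157.Fr

variable {n : ℕ}

/-- the resolvent in real words -/
lemma res_eq {A : Matrix (Fin n) (Fin n) ℝ} (hA : Aᵀ = A) (D : Fin n → ℝ) (w1 : ℝ) {w2 : ℝ}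
    (hw : 0 < w2) : res (fun i => ((D i + w1 : ℝ) : ℂ) + (w2 : ℂ) * Complex.I) A =
      cx (Bm A D w1 * Km A D w1 w2) - ((w2 : ℂ) * Complex.I) • cx (Km A D w1 w2) := by
  set B := Bm A D w1 with hB
  set c : ℂ := (w2 : ℂ) * Complex.I with hc
  set d : Fin n → ℂ := fun i => ((D i + w1 : ℝ) : ℂ) + c with hd
  have hZ : Zm d A = cx B + c • (1 : Matrix (Fin n) (Fin n) ℂ) := by
    ext i j
    by_cases h : i = j
    · subst h; simp [Zm, hB, Bm, hd]; ring
    · simp [Zm, hB, Bm, h]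
  have hu : IsUnit (Zm d A).det := unit_Zm hw (fun i => by simp [hd, hc]) hA
  have hBt : (cx B)ᴴ = cx B := by
    ext i j
    have : B j i = B i j := by
      have h1 : A j i = A i j := by simpa using congrFun (congrFun hA i) j
      by_cases h : i = j
      · subst h; rfl
      · simp [hB, Bm, h, Ne.symm h, h1]
    simp [conjTranspose_apply, this]
  have hZ' : (Zm d A)ᴴ = cx B - c • (1 : Matrix (Fin n) (Fin n) ℂ) := by
    rw [hZ, conjTranspose_add, hBt, conjTranspose_smul, conjTranspose_one]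
    have : star c = -c := by simp [hc]
    rw [this, neg_smul, sub_eq_add_neg]
  have hu' : IsUnit (cx B - c • (1 : Matrix (Fin n) (Fin n) ℂ)).det := by
    rw [← hZ', det_conjTranspose]; exact hu.star
  have hcc : c * c = -((w2 ^ 2 : ℝ) : ℂ) := by
    rw [hc]; push_cast
    linear_combination (w2 : ℂ) ^ 2 * Complex.I_mul_I
  have hprod : Zm d A * (cx B - c • (1 : Matrix (Fin n) (Fin n) ℂ)) =
      cx (B * B + (w2 ^ 2) • (1 : Matrix (Fin n) (Fin n) ℝ)) := by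
    rw [hZ, cx_add, cx_mul, cx_smul, cx_one, add_mul, mul_sub, mul_sub, Matrix.mul_smul,
      Matrix.smul_mul, Matrix.smul_mul, Matrix.mul_smul, smul_smul, hcc]
    simp only [Matrix.mul_one, Matrix.one_mul, neg_smul]
    abel
  have hK : cx (Km A D w1 w2) = (Zm d A * (cx B - c • (1 : Matrix (Fin n) (Fin n) ℂ)))⁻¹ := by
    rw [hprod, Km, cx_inv]
  have e : cx (B * Km A D w1 w2) - c • cx (Km A D w1 w2) =
      (cx B - c • (1 : Matrix (Fin n) (Fin n) ℂ)) * cx (Km A D w1 w2) := by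
    rw [cx_mul, sub_mul, Matrix.smul_mul, Matrix.one_mul]
  rw [e, hK, Matrix.mul_inv_rev, ← Matrix.mul_assoc, mul_nonsing_inv _ hu', Matrix.one_mul]
  rfl

lemma trace_cx (M : Matrix (Fin n) (Fin n) ℝ) : (cx M).trace = (M.trace : ℂ) := by
  simp [trace]

lemma inv_eq (x y : ℝ) : ((x : ℂ) + (y : ℂ) * Complex.I)⁻¹ =
    ((x * (x ^ 2 + y ^ 2)⁻¹ : ℝ) : ℂ) - ((y * (x ^ 2 + y ^ 2)⁻¹ : ℝ) : ℂ) * Complex.I := by
  rw [Complex.inv_def, Complex.normSq_add_mul_I]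
  simp
  ring

lemma mv_eq (hn : 0 < n) (β : ℝ) (D : Fin n → ℝ) (u1 u2 : ℝ) :
    mv (β / √n) (fun i => ((D i + u1 : ℝ) : ℂ) + (u2 : ℂ) * Complex.I) =
      ((β ^ 2 * gr D u1 u2 : ℝ) : ℂ) - ((β ^ 2 * (u2 * g2 D u1 u2) : ℝ) : ℂ) * Complex.I := by
  have hn' : (0 : ℝ) < n := Nat.cast_pos.2 hn
  simp only [mv, inv_eq, Finset.sum_sub_distrib, ← Finset.sum_mul, gr, g2, av]
  rw [div_pow, Real.sq_sqrt hn'.le, ← Complex.ofReal_sum, ← Complex.ofReal_sum,
    ← Finset.mul_sum]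
  push_cast
  ring

lemma Sv_eq' (hn : 0 < n) (β : ℝ) (D : Fin n → ℝ) (u1 u2 : ℝ) :
    Sv (β / √n) (fun i => ((D i + u1 : ℝ) : ℂ) + (u2 : ℂ) * Complex.I) = β ^ 2 * g2 D u1 u2 := by
  have hn' : (0 : ℝ) < n := Nat.cast_pos.2 hn
  simp only [Sv, g2, av, norm_inv, inv_pow, Complex.sq_norm, Complex.normSq_add_mul_I]
  rw [div_pow, Real.sq_sqrt hn'.le]
  ring

/-- deterministic part -/
theorem rmt_of_err (hn : 0 < n) {β K γ ε : ℝ} (hβ : 1 ≤ β) (hγ : 0 < γ)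
    {A : Matrix (Fin n) (Fin n) ℝ} (hA : Aᵀ = A) {θ : ℝ}
    (h : ∀ d, Box (K + 2 + 2 * β ^ 2) (γ ^ 2) d → β / √n * cn (err (β / √n) d A) ≤ θ)
    (h1 : θ ≤ γ ^ 2) (h2 : 2 * θ ≤ γ * ε) : RMT β A K γ ε := by
  have hn' : (0 : ℝ) < n := Nat.cast_pos.2 hn
  intro D hD u1 u2 hu1 hu1' hu2 hu2' hk
  set a : Fin n → ℂ := fun i => ((D i + u1 : ℝ) : ℂ) + (u2 : ℂ) * Complex.I with ha
  set w1 := u1 + β ^ 2 * gr D u1 u2 with hw1
  set w2 := u2 * ku β D u1 u2 with hw2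
  have hw : γ ^ 2 ≤ w2 := by rw [hw2, sq]; exact mul_le_mul hu2 hk hγ.le (hγ.le.trans hu2)
  have hγ2 : 0 < γ ^ 2 := by positivity
  have hm := mv_eq hn β D u1 u2
  have hd : (fun i => a i + mv (β / √n) a) =
      fun i => ((D i + w1 : ℝ) : ℂ) + (w2 : ℂ) * Complex.I := by
    ext i
    rw [ha, hm, hw1, hw2, ku]
    push_cast
    ring
  have hre : ∀ i, 1 / 2 ≤ ‖a i‖ := fun i => by
    refine le_trans ?_ (Complex.re_le_norm _)
    simp only [ha, Complex.add_re, Complex.ofReal_re, Complex.mul_re, Complex.I_re, mul_zero,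
      Complex.ofReal_im, Complex.I_im, mul_one, sub_self, add_zero]
    linarith [(hD i).1]
  have ha0 : ∀ i, a i ≠ 0 := fun i => norm_pos_iff.1 (lt_of_lt_of_le (by norm_num) (hre i))
  have hmv : ‖mv (β / √n) a‖ ≤ 2 * β ^ 2 := by
    rw [mv, norm_mul, Complex.norm_real, Real.norm_of_nonneg (sq_nonneg _), div_pow,
      Real.sq_sqrt hn'.le]
    have : ‖∑ i, (a i)⁻¹‖ ≤ n * 2 := by
      refine (norm_sum_le _ _).trans ?_
      calc ∑ i, ‖(a i)⁻¹‖ ≤ ∑ _i : Fin n, (2 : ℝ) := Finset.sum_le_sum fun i _ => by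
            rw [norm_inv]
            exact inv_le_of_inv_le₀ (by norm_num) (by simpa using hre i)
        _ = n * 2 := by simp
    calc β ^ 2 / n * ‖∑ i, (a i)⁻¹‖ ≤ β ^ 2 / n * (n * 2) := by gcongr
      _ = 2 * β ^ 2 := by field_simp
  have him : ∀ i, γ ^ 2 ≤ (a i + mv (β / √n) a).im := fun i => by
    rw [congrFun hd i]; simpa using hw
  have hbox : Box (K + 2 + 2 * β ^ 2) (γ ^ 2) fun i => a i + mv (β / √n) a := fun i => by
    refine ⟨him i, (norm_add_le _ _).trans (add_le_add ?_ hmv)⟩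
    refine (norm_add_le _ _).trans ?_
    rw [norm_mul, Complex.norm_I, mul_one, Complex.norm_real, Complex.norm_real,
      Real.norm_of_nonneg (by linarith [(hD i).1]), Real.norm_of_nonneg (hγ.le.trans hu2)]
    linarith [(hD i).2]
  have hs0 : 0 ≤ β / √n := by positivity
  have he := h _ hbox
  have hS : Sv (β / √n) a ≤ 1 - γ := by
    rw [ha, Sv_eq' hn]; unfold ku at hk; linarith
  have key := mtr_sub_mv ha0 hγ hS hγ2 him hA (by rw [abs_of_nonneg hs0]; linarith)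
  rw [abs_of_nonneg hs0] at key
  have key2 : ‖mtr (β / √n) (fun i => a i + mv (β / √n) a) A - mv (β / √n) a‖ ≤ ε := by
    refine key.trans ?_
    rw [div_le_iff₀ hγ]; linarith
  have e : mtr (β / √n) (fun i => a i + mv (β / √n) a) A - mv (β / √n) a =
      ((β ^ 2 * ((Bm A D w1 * Km A D w1 w2).trace / n - gr D u1 u2) : ℝ) : ℂ) +
      ((-(β ^ 2 * (w2 * (Km A D w1 w2).trace / n - u2 * g2 D u1 u2)) : ℝ) : ℂ) * Complex.I := by
    rw [hd, mtr, res_eq hA D w1 (hγ2.trans_le hw), trace_sub, trace_smul, trace_cx, trace_cx, ha,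
      hm, div_pow, Real.sq_sqrt hn'.le, smul_eq_mul]
    push_cast
    ring
  rw [e] at key2
  have hb : 1 ≤ β ^ 2 := one_le_pow₀ hβ
  have r1 := (Complex.abs_re_le_norm _).trans key2
  have r2 := (Complex.abs_im_le_norm _).trans key2
  simp only [Complex.add_re, Complex.ofReal_re, Complex.mul_re, Complex.I_re, mul_zero,
    Complex.ofReal_im, Complex.I_im, mul_one, sub_self, add_zero, Complex.add_im, Complex.mul_im,
    zero_add, abs_neg, abs_mul, abs_of_nonneg (sq_nonneg β)] at r1 r2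
  exact ⟨(le_mul_of_one_le_left (abs_nonneg _) hb).trans r1,
    (le_mul_of_one_le_left (abs_nonneg _) hb).trans r2⟩

/-- the numbers -/
lemma numeric {β : ℝ} (hβ : 1 ≤ β) {x η N : ℝ} (hx : 1000 * β ^ 5 ≤ x) (hη : 0 < η) (hη1 : η ≤ 1)
    (hηx : η⁻¹ ≤ x) (hN : N = x ^ 1000) {L : ℝ}
    (hL : L = ((η ^ 6)⁻¹ + 2 + 2 * β ^ 2) / ((η ^ 2) ^ 2) ^ 2 +
      2 * ((β / x ^ 500) ^ 2 * N) / ((η ^ 2) ^ 2) ^ 3) :
    β / x ^ 500 * (x ^ 500 * (2 * (β / x ^ 500) ^ 2 / ((η ^ 2) ^ 2) ^ 2 +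
      (6 * (β / x ^ 500) + 4 * (1 / x ^ 500)) * L) + x ^ 100) ≤ η ^ 6 / 2 ∧
    2 * Real.log (2 * ((η ^ 6)⁻¹ + 2 + 2 * β ^ 2) / (1 / x ^ 500) + 3) + 1 ≤
      (x ^ 100) ^ 2 / (4 * β ^ 2 * L ^ 2) := by
  set y := η⁻¹ with hy
  have hy1 : 1 ≤ y := one_le_inv₀ hη |>.2 hη1
  have hb5 : ∀ k, k ≤ 5 → β ^ k ≤ β ^ 5 := fun k hk => pow_le_pow_right₀ hβ hk
  have hb1 : ∀ k, 1 ≤ β ^ k := fun k => one_le_pow₀ hβ
  have hx1 : 1000 ≤ x := by nlinarith [hb1 5]
  have hx0 : 0 < x := by linarith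
  have hx1' : 1 ≤ x := by linarith
  have hyx : ∀ k m, k ≤ m → y ^ k ≤ x ^ m := fun k m h =>
    (pow_le_pow_left₀ (by linarith) hηx k).trans (pow_le_pow_right₀ hx1' h)
  have hxp : ∀ m, 1 ≤ x ^ m := fun m => one_le_pow₀ hx1'
  have hL' : L = (y ^ 6 + 2 + 2 * β ^ 2) * y ^ 8 + 2 * β ^ 2 * y ^ 12 := by
    rw [hL, hN, hy]; field_simp
  have hA : y ^ 6 + 2 + 2 * β ^ 2 ≤ 5 * β ^ 2 * x ^ 6 := by
    have := hyx 6 6 le_rfl
    nlinarith [hb1 2, hxp 6, mul_le_mul (hb1 2) (hxp 6) zero_le_one (by positivity)]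
  have hL0 : 0 < L := by rw [hL']; positivity
  have hL1 : L ≤ 7 * β ^ 2 * x ^ 14 := by
    rw [hL']
    have h1 : (y ^ 6 + 2 + 2 * β ^ 2) * y ^ 8 ≤ 5 * β ^ 2 * x ^ 6 * x ^ 8 :=
      mul_le_mul hA (hyx 8 8 le_rfl) (by positivity) (by positivity)
    have h2 : 2 * β ^ 2 * y ^ 12 ≤ 2 * β ^ 2 * x ^ 14 := by gcongr; exact hyx 12 14 (by norm_num)
    calc _ ≤ 5 * β ^ 2 * x ^ 6 * x ^ 8 + 2 * β ^ 2 * x ^ 14 := add_le_add h1 h2
      _ = _ := by ring
  constructor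
  · have e : β / x ^ 500 * (x ^ 500 * (2 * (β / x ^ 500) ^ 2 / ((η ^ 2) ^ 2) ^ 2 +
        (6 * (β / x ^ 500) + 4 * (1 / x ^ 500)) * L) + x ^ 100) =
        (2 * β ^ 3 * y ^ 8 / x ^ 500 + β * (6 * β + 4) * L + β * x ^ 100) / x ^ 500 := by
      rw [hy]; field_simp
    have h1 : 2 * β ^ 3 * y ^ 8 / x ^ 500 ≤ 2 * β ^ 5 * x ^ 100 := by
      refine (div_le_self (by positivity) (hxp 500)).trans ?_
      exact mul_le_mul (by linarith [hb5 3 (by norm_num)]) (hyx 8 100 (by norm_num))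
        (by positivity) (by positivity)
    have h2 : β * (6 * β + 4) * L ≤ 70 * β ^ 5 * x ^ 100 := by
      calc β * (6 * β + 4) * L ≤ β * (10 * β) * (7 * β ^ 2 * x ^ 14) := by
            gcongr; linarith
        _ = 70 * β ^ 4 * x ^ 14 := by ring
        _ ≤ _ := mul_le_mul (by linarith [hb5 4 (by norm_num)])
            (pow_le_pow_right₀ hx1' (by norm_num)) (by positivity) (by positivity)
    have h3 : β * x ^ 100 ≤ β ^ 5 * x ^ 100 := by
      gcongr; simpa using hb5 1 (by norm_num)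
    have h4 : η ^ 6 = 1 / y ^ 6 := by rw [hy]; field_simp
    rw [e, h4, div_div, div_le_div_iff₀ (by positivity) (by positivity)]
    calc _ ≤ (73 * β ^ 5 * x ^ 100) * (x ^ 6 * 2) :=
          mul_le_mul (by linarith) (by linarith [hyx 6 6 le_rfl]) (by positivity) (by positivity)
      _ = (146 * β ^ 5) * x ^ 106 := by ring
      _ ≤ x * x ^ 499 :=
          mul_le_mul (by linarith [hb1 5]) (pow_le_pow_right₀ hx1' (by norm_num))
            (by positivity) hx0.le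
      _ = _ := by ring
  · have h1 : 2 * ((η ^ 6)⁻¹ + 2 + 2 * β ^ 2) / (1 / x ^ 500) + 3 ≤ x ^ 507 := by
      rw [← inv_pow, ← hy, div_div_eq_mul_div, div_one]
      have h2 : 2 * (y ^ 6 + 2 + 2 * β ^ 2) * x ^ 500 ≤ 2 * (5 * β ^ 2 * x ^ 6) * x ^ 500 := by
        gcongr
      have h3 : 3 ≤ 3 * β ^ 2 * x ^ 506 := by
        nlinarith [mul_le_mul (hb1 2) (hxp 506) zero_le_one (by positivity)]
      calc _ ≤ 2 * (5 * β ^ 2 * x ^ 6) * x ^ 500 + 3 * β ^ 2 * x ^ 506 := add_le_add h2 h3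
        _ = (13 * β ^ 2) * x ^ 506 := by ring
        _ ≤ x * x ^ 506 := by gcongr; linarith [hb5 2 (by norm_num), hb1 5]
        _ = _ := by ring
    have h2 : Real.log (2 * ((η ^ 6)⁻¹ + 2 + 2 * β ^ 2) / (1 / x ^ 500) + 3) ≤ 507 * x := by
      refine (Real.log_le_log (by positivity) h1).trans ?_
      rw [Real.log_pow]
      push_cast
      have := Real.log_le_sub_one_of_pos hx0
      linarith
    rw [le_div_iff₀ (by positivity)]
    calc _ ≤ (1015 * x) * (4 * β ^ 2 * (7 * β ^ 2 * x ^ 14) ^ 2) :=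
          mul_le_mul (by linarith) (by gcongr) (by positivity) (by positivity)
      _ = (1015 * (196 * (β ^ 3 * β ^ 3))) * x ^ 29 := by ring
      _ ≤ (x ^ 2 * (x * x)) * x ^ 196 := by
          refine mul_le_mul (mul_le_mul (by nlinarith) ?_ (by positivity) (by positivity))
            (pow_le_pow_right₀ hx1' (by norm_num)) (by positivity) (by positivity)
          have h5 : 14 * β ^ 3 ≤ x := by linarith [hb5 3 (by norm_num), hb1 5]
          calc 196 * (β ^ 3 * β ^ 3) = (14 * β ^ 3) * (14 * β ^ 3) := by ring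
            _ ≤ x * x := mul_le_mul h5 h5 (by positivity) hx0.le
      _ = _ := by ring

/-- the tail bound -/
theorem tail {β : ℝ} (hβ : 1 ≤ β) {x η : ℝ} (hx : 1000 * β ^ 5 ≤ x) (hη : 0 < η) (hη1 : η ≤ 1)
    (hηx : η⁻¹ ≤ x) (hN : (n : ℝ) = x ^ 1000) :
    (Om n).real {z | ¬ RMT β (β • Wmat n z.1 z.2) ((η ^ 6)⁻¹) (η ^ 2) (η ^ 4)} ≤
      Real.exp (-n) := by
  have hx0 : 0 < x := lt_of_lt_of_le (by positivity) hx
  have hn' : (0 : ℝ) < n := by rw [hN]; positivity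
  have hn : 0 < n := Nat.cast_pos.1 hn'
  have hsq : √(n : ℝ) = x ^ 500 := by
    rw [hN, show x ^ 1000 = (x ^ 500) ^ 2 by ring, Real.sqrt_sq (by positivity)]
  obtain ⟨n1, n2⟩ := numeric hβ hx hη hη1 hηx hN rfl
  have hle : (η ^ 2) ^ 2 ≤ (η ^ 6)⁻¹ + 2 + 2 * β ^ 2 := by
    have : (η ^ 2) ^ 2 ≤ 1 := pow_le_one₀ (by positivity) (pow_le_one₀ hη.le hη1)
    have : 0 ≤ (η ^ 6)⁻¹ := by positivity
    nlinarith [sq_nonneg β]
  have h := unif_Wmat (n := n) (A := (η ^ 6)⁻¹ + 2 + 2 * β ^ 2) (η := (η ^ 2) ^ 2)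
    (by linarith : 0 < β) hn (by positivity) hle (δ := 1 / x ^ 500) (t := x ^ 100)
    (by positivity) (by positivity)
  refine le_trans (measureReal_mono fun z hz => ?_) (h.trans ?_)
  · by_contra hc
    simp only [Set.mem_setOf_eq, not_exists, not_and, not_lt] at hc
    refine hz (rmt_of_err hn hβ (by positivity) (by rw [transpose_smul, Wmat_transpose])
      (θ := η ^ 6 / 2) (fun d hd => ?_) ?_ (le_of_eq (by ring)))
    · refine le_trans (mul_le_mul_of_nonneg_left (hc d hd) (by positivity)) ?_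
      simpa only [thr, Lam, Fintype.card_fin, hsq] using n1
    · have : η ^ 6 ≤ η ^ 4 := pow_le_pow_of_le_one hη.le hη1 (by norm_num)
      have : 0 ≤ η ^ 6 := by positivity
      nlinarith
  · simp only [pfail, Lam, Fintype.card_fin, hsq]
    set L := ((η ^ 6)⁻¹ + 2 + 2 * β ^ 2) / ((η ^ 2) ^ 2) ^ 2 +
      2 * ((β / x ^ 500) ^ 2 * n) / ((η ^ 2) ^ 2) ^ 3 with hL
    set M := 2 * ((η ^ 6)⁻¹ + 2 + 2 * β ^ 2) / (1 / x ^ 500) + 3 with hM
    have hM0 : 0 < M := by positivity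
    have hL0 : 0 < L := by positivity
    rw [← Real.exp_log (pow_pos hM0 _), ← Real.exp_add, Real.log_pow]
    refine Real.exp_le_exp.2 ?_
    have e : -(x ^ 100) ^ 2 / (4 * (β / x ^ 500) ^ 2 * L ^ 2) =
        -(n * ((x ^ 100) ^ 2 / (4 * β ^ 2 * L ^ 2))) := by
      rw [hN]; field_simp
    rw [e]
    push_cast
    nlinarith [mul_le_mul_of_nonneg_left n2 hn'.le]

end Crest.Agent.T157.Up.Rmt54

namespace Crest.Agent.T157.Up

open MeasureTheory Filter Topology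

/-- **freeness with all diagonals** -/
theorem rmtStmt : RmtStmt := by
  intro β hβ k _ hk
  refine Top.whp_of_real_le (a := fun n : ℕ => Real.exp (-n))
    (Real.tendsto_exp_neg_atTop_nhds_zero.comp tendsto_natCast_atTop_atTop) ?_
  have ht : Tendsto (fun n : ℕ => (n : ℝ) ^ (1 / 1000 : ℝ)) atTop atTop :=
    (tendsto_rpow_atTop (by norm_num)).comp tendsto_natCast_atTop_atTop
  filter_upwards [ht.eventually_ge_atTop (1000 * β ^ 5), eventually_ge_atTop 1] with n h1 h2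
  have hn : (1 : ℝ) ≤ n := by exact_mod_cast h2
  have hn0 : (0 : ℝ) < n := by linarith
  have he0 : 0 < eps n := Real.rpow_pos_of_pos hn0 _
  have he1 : eps n ≤ 1 := Real.rpow_le_one_of_one_le_of_nonpos hn (by norm_num)
  refine Rmt54.tail hβ.le h1 (pow_pos he0 k) (pow_le_one₀ he0.le he1) ?_ ?_
  · rw [eps, ← Real.rpow_natCast, ← Real.rpow_mul hn0.le, ← Real.rpow_neg hn0.le]
    refine Real.rpow_le_rpow_of_exponent_le hn ?_
    have : (k : ℝ) ≤ 126 := by exact_mod_cast hk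
    linarith
  · rw [← Real.rpow_natCast, ← Real.rpow_mul hn0.le]
    norm_num

end Crest.Agent.T157.Up

end
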