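import Crest.Agent.T157.UpDef_74
import Crest.Agent.T157.PfSite_56

/-! Row 157: `Up.SiteStmt` from helper56's site construction (helper41). -/

set_option autoImplicit false

namespace Crest.Agent.T157.Up

open Crest.Agent.T157.Pf

theorem siteStmt : SiteStmt := fun β hβ =>
  ⟨Par.CS β, Par.one_le_CS β, fun _ h => ⟨h.site (zero_lt_one.trans hβ), rfl, rfl, rfl, rfl⟩⟩

end Crest.Agent.T157.Up
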