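import Crest.Agent.T157.MixC_49
import Crest.Agent.T157.Psi_33
import Crest.Agent.T157.SdBr_12
import Crest.Agent.T157.G1_52
import Crest.Agent.T157.Plb_78
import Crest.Agent.T157.PfC_56
import Crest.Agent.T157.AnAll_51
import Crest.Agent.T157.Sc_68
import Crest.Agent.T157.StH_44
import Crest.Agent.T157.StE_65
import Crest.Agent.T157.UpFe_61
import Crest.Agent.T157.UpGam_30
import Crest.Agent.T157.UpRmt_54
import Crest.Agent.T157.UpSite_41
import Crest.Agent.T157.Cut1_54
import Crest.Agent.T157.Top_97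

/-! Row 157, part D (helper68): the top of S0231. -/

namespace Crest.Agent.T157.DTop

theorem psiStmt : Ac.PsiStmt := Sd.psi_of' G1.g1Stmt Plb.plbStmt Pf.parStmt

theorem r31_of (hT : An.TapStmt) (hU : Up.UpGlue) : Top.R31 := fun β hβ η hη =>
  Mix.s0231_of (Ac.bar_of_psi psiStmt)
    (Cut.cut_of_cut1 (hU Pf.parStmt Up.siteStmt St.step1Stmt St.step2L St.contStmt St.segStmt
      St.endStmt Sc.scStmt Up.rmtStmt Up.feStmt Up.gamEnd (An.anc_of hT Plb.plbStmt Sc.scStmt)))
    β hβ η hη

end Crest.Agent.T157.DTop
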