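import Crest.Agent.T157.UpDef2_74
import Crest.Agent.T157.PlbDen_61

/-!
# Row 157, part D (helper65): the family of majorants
-/

set_option autoImplicit false

noncomputable section

namespace Crest.Agent.T157.Up

open MeasureTheory Real
open Crest.Agent.T157.E
open Crest.Agent.T157.Conc (ELip en)

namespace F65

variable {n : ℕ}

/-- nonnegative with log-Lipschitz growth -/
def Lg (c : ℝ) (U : (Fin n → ℝ) → ℝ) : Prop :=
  (∀ y, 0 ≤ U y) ∧ ∀ y y', U y ≤ exp (c * en (y - y')) * U y'

variable {c : ℝ} {U V : (Fin n → ℝ) → ℝ}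

lemma lg_exp {L : (Fin n → ℝ) → ℝ} (h : ELip c L) : Lg c fun y => exp (L y) :=
  ⟨fun _ => (exp_pos _).le, fun y y' => by
    rw [← exp_add]
    exact exp_le_exp.2 (by linarith [(abs_le.1 (h y y')).2])⟩

lemma Lg.add (hU : Lg c U) (hV : Lg c V) : Lg c fun y => U y + V y :=
  ⟨fun y => add_nonneg (hU.1 y) (hV.1 y), fun y y' => by
    rw [mul_add]; exact add_le_add (hU.2 y y') (hV.2 y y')⟩

lemma Lg.const_mul (hU : Lg c U) {b : ℝ} (hb : 0 ≤ b) : Lg c fun y => b * U y :=
  ⟨fun y => mul_nonneg hb (hU.1 y), fun y y' => by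
    rw [mul_left_comm]; exact mul_le_mul_of_nonneg_left (hU.2 y y') hb⟩

lemma Lg.elip (hU : Lg c U) (hp : ∀ y, 0 < U y) : ELip c fun y => log (U y) := by
  have key : ∀ y y', log (U y) - log (U y') ≤ c * en (y - y') := fun y y' => by
    have := log_le_log (hp y) (hU.2 y y')
    rw [log_mul (exp_pos _).ne' (hp y').ne', log_exp] at this
    linarith
  intro y y'
  refine abs_le.2 ⟨?_, key y y'⟩
  have := key y' y
  rw [Conc.en_sub_comm] at this
  linarith

lemma Lg.integrable (hU : Lg c U) (hp : ∀ y, 0 < U y) (y : Fin n → ℝ) (s : ℝ) :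
    Integrable (fun z => U (y + s • z)) (gv (Fin n)) := by
  have h1 : ELip (c * |s|) fun z => log (U (y + s • z)) := fun z z' => by
    have := hU.elip hp (y + s • z) (y + s • z')
    rwa [add_sub_add_left_eq_sub, ← smul_sub, Conc.en_smul, ← mul_assoc] at this
  refine (h1.integrable_exp 1).congr (.of_forall fun z => ?_)
  simp only [one_mul, exp_log (hp _)]

lemma Lg.continuous (hU : Lg c U) (hp : ∀ y, 0 < U y) : Continuous U := by
  have := continuous_exp.comp (hU.elip hp).continuous
  refine this.congr fun y => ?_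
  simp only [Function.comp, exp_log (hp _)]

lemma Lg.conv (hU : Lg c U) (hp : ∀ y, 0 < U y) (s : ℝ) :
    Lg c fun y => ∫ z, U (y + s • z) ∂gv (Fin n) :=
  ⟨fun y => integral_nonneg fun z => hU.1 _, fun y y' => by
    rw [← integral_const_mul]
    refine integral_mono (hU.integrable hp y s) ((hU.integrable hp y' s).const_mul _) fun z => ?_
    have := hU.2 (y + s • z) (y' + s • z)
    rwa [add_sub_add_right_eq_sub] at this⟩

lemma Lg.fubini (hU : Lg c U) (hp : ∀ y, 0 < U y) {s t : ℝ} (hs : 0 ≤ s) (ht : 0 ≤ t) :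
    Integrable (fun z => ∫ z', U (√s • z + √t • z') ∂gv (Fin n)) (gv (Fin n)) ∧
    ∫ z, ∫ z', U (√s • z + √t • z') ∂gv (Fin n) ∂gv (Fin n) =
      ∫ z, U (√(s + t) • z) ∂gv (Fin n) := by
  have hc := hU.continuous hp
  have hm := SL.map_add_smul (ι := Fin n) hs ht
  have h0 : Integrable (fun z => U (√(s + t) • z)) (gv (Fin n)) := by
    simpa using hU.integrable hp 0 √(s + t)
  have h1 : Integrable U ((gv (Fin n)).map fun z => √(s + t) • z) :=
    (integrable_map_measure hc.aestronglyMeasurable (by fun_prop)).2 h0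
  have h2 : Integrable (fun p : (Fin n → ℝ) × (Fin n → ℝ) => U (√s • p.1 + √t • p.2))
      ((gv (Fin n)).prod (gv (Fin n))) := by
    have h3 : Integrable U (((gv (Fin n)).prod (gv (Fin n))).map
        fun p => √s • p.1 + √t • p.2) := hm ▸ h1
    exact (integrable_map_measure hc.aestronglyMeasurable (by fun_prop)).1 h3
  refine ⟨h2.integral_prod_left, ?_⟩
  rw [← integral_prod _ h2, ← integral_map (f := U) (by fun_prop) hc.aestronglyMeasurable,
    ← integral_map (f := U) (φ := fun z => √(s + t) • z) (by fun_prop) hc.aestronglyMeasurable]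
  exact congrArg (fun μ => ∫ y, U y ∂μ) hm

lemma en_sv (x : Cube n) : en (sv x) = √n := by
  rw [en, ← sv_dot_self x]
  simp only [dotProduct, sq]

lemma lg_tilt {w : Cube n → ℝ} (hw : ∀ x, 0 ≤ w x) : Lg (√n) fun y => ∑ x, tilt w y x :=
  ⟨fun y => Finset.sum_nonneg fun x _ => mul_nonneg (hw x) (exp_pos _).le, fun y y' => by
    rw [Finset.mul_sum]
    refine Finset.sum_le_sum fun x _ => ?_
    rw [tilt, tilt, mul_left_comm, ← exp_add]
    refine mul_le_mul_of_nonneg_left (exp_le_exp.2 ?_) (hw x)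
    have := Conc.abs_dot_le (y - y') (sv x)
    rw [en_sv] at this
    have h2 : y ⬝ᵥ sv x = ∑ i, (y - y') i * sv x i + y' ⬝ᵥ sv x := by
      rw [← dotProduct, sub_dotProduct]; ring
    rw [h2]
    linarith [le_abs_self (∑ i, (y - y') i * sv x i), mul_comm (en (y - y')) √(n : ℝ)]⟩

lemma int_tilt (w : Cube n → ℝ) {s : ℝ} (hs : 0 ≤ s) :
    Integrable (fun z => ∑ x, tilt w (√s • z) x) (gv (Fin n)) ∧
    ∫ z, ∑ x, tilt w (√s • z) x ∂gv (Fin n) = (∑ x, w x) * exp (n * s / 2) := by
  have e : ∀ (z : Fin n → ℝ) (x : Cube n), tilt w (√s • z) x = w x * exp (z ⬝ᵥ (√s • sv x)) :=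
    fun z x => by rw [tilt, smul_dotProduct, dotProduct_smul]
  simp only [e]
  have hi : ∀ x ∈ (Finset.univ : Finset (Cube n)),
      Integrable (fun z : Fin n → ℝ => w x * exp (z ⬝ᵥ (√s • sv x))) (gv (Fin n)) :=
    fun x _ => (Plb.Den61.int_exp_dot _).const_mul _
  refine ⟨integrable_finsetSum _ hi, ?_⟩
  rw [integral_finsetSum _ hi, Finset.sum_mul]
  refine Finset.sum_congr rfl fun x _ => ?_
  rw [integral_const_mul, Plb.Den61.integral_exp_dot, smul_dotProduct, dotProduct_smul,
    sv_dot_self, smul_eq_mul, smul_eq_mul, ← mul_assoc, mul_self_sqrt hs, mul_comm s]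

/-- the backward recursion; `j` steps are left -/
def UU (N : ℕ) (τ Lb : ℝ) (L : ℕ → (Fin n → ℝ) → ℝ) (w : Cube n → ℝ) : ℕ → (Fin n → ℝ) → ℝ
  | 0 => fun y => exp (L N y) + exp Lb * ∑ x, tilt w y x
  | j + 1 => fun y => exp (L (N - (j + 1)) y) +
      exp (-(n * τ / 2)) * ∫ z, UU N τ Lb L w j (y + √τ • z) ∂gv (Fin n)

end F65

open F65 in
theorem famStmt : FamStmt := by
  intro n N τ a Lb L w hτ hL hw hb
  have int_L : ∀ k ≤ N, Integrable (fun z => exp (L k (√(k * τ) • z))) (gv (Fin n)) :=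
    fun k hk => by simpa using (lg_exp (hL k hk).1).integrable (fun _ => exp_pos _) 0 √(k * τ)
  have main : ∀ j k, j + k = N → Lg (√n) (UU N τ Lb L w j) ∧
      (∀ y, exp (L k y) ≤ UU N τ Lb L w j y) ∧
      ∫ z, UU N τ Lb L w j (√(k * τ) • z) ∂gv (Fin n) ≤ (j + 2) * exp (a + n * (k * τ) / 2) := by
    intro j
    induction j with
    | zero =>
      intro k hk
      obtain rfl : k = N := by omega
      have h2 := (lg_tilt hw).const_mul (exp_pos Lb).le
      refine ⟨(lg_exp (hL k le_rfl).1).add h2, fun y => le_add_of_nonneg_right (h2.1 y), ?_⟩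
      have hs : 0 ≤ (k : ℝ) * τ := by positivity
      simp only [UU]
      rw [integral_add (int_L k le_rfl) ((int_tilt w hs).1.const_mul _), integral_const_mul,
        (int_tilt w hs).2, ← mul_assoc]
      have h3 := mul_le_mul_of_nonneg_right hb (exp_pos (n * (k * τ) / 2)).le
      rw [← exp_add] at h3
      have := (hL k le_rfl).2
      push_cast
      linarith
    | succ j ih =>
      intro k hk
      obtain ⟨h1, h2, h3⟩ := ih (k + 1) (by omega)
      have hp : ∀ y, 0 < UU N τ Lb L w j y := fun y => (exp_pos _).trans_le (h2 y)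
      have e : N - (j + 1) = k := by omega
      have hkN : k ≤ N := by omega
      have h4 := (h1.conv hp √τ).const_mul (exp_pos (-(n * τ / 2))).le
      simp only [UU, e]
      refine ⟨(lg_exp (hL k hkN).1).add h4, fun y => le_add_of_nonneg_right (h4.1 y), ?_⟩
      have hs : 0 ≤ (k : ℝ) * τ := by positivity
      have h5 := h1.fubini hp hs hτ
      rw [integral_add (int_L k hkN) (h5.1.const_mul _), integral_const_mul, h5.2]
      have e2 : (k : ℝ) * τ + τ = ((k + 1 : ℕ) : ℝ) * τ := by push_cast; ring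
      rw [e2]
      have h6 := mul_le_mul_of_nonneg_left h3 (exp_pos (-(n * τ / 2))).le
      rw [mul_left_comm, ← exp_add] at h6
      have e3 : -(n * τ / 2) + (a + n * (((k + 1 : ℕ) : ℝ) * τ) / 2) = a + n * (k * τ) / 2 := by
        push_cast; ring
      rw [e3] at h6
      have := (hL k hkN).2
      rw [Nat.cast_succ j]
      linarith
  have pos : ∀ k ≤ N, ∀ y, 0 < UU N τ Lb L w (N - k) y := fun k hk y =>
    (exp_pos _).trans_le ((main (N - k) k (by omega)).2.1 y)
  refine ⟨fun k y => log (UU N τ Lb L w (N - k) y), fun k hk => ?_, fun k hk y => ?_,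
    fun y σ => ?_⟩
  · obtain ⟨h1, h2, h3⟩ := main (N - k) k (by omega)
    refine ⟨h1.elip (pos k hk), fun y => (le_log_iff_exp_le (pos k hk y)).2 (h2 y), ?_⟩
    simp only [exp_log (pos k hk _)]
    refine h3.trans (mul_le_mul_of_nonneg_right ?_ (exp_pos _).le)
    have : ((N - k : ℕ) : ℝ) ≤ N := by exact_mod_cast Nat.sub_le N k
    linarith
  · simp only [exp_log (pos (k + 1) hk _)]
    rw [exp_add, exp_log (pos k hk.le _)]
    have e : N - k = (N - (k + 1)) + 1 := by omega
    rw [e]
    simp only [UU]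
    rw [add_mul, mul_right_comm, ← exp_add (-(n * τ / 2)), neg_add_cancel, exp_zero, one_mul]
    exact le_add_of_nonneg_left (by positivity)
  · rw [exp_log (pos N le_rfl y), Nat.sub_self]
    simp only [UU]
    refine le_trans ?_ (le_add_of_nonneg_left (exp_pos _).le)
    refine mul_le_mul_of_nonneg_left ?_ (exp_pos _).le
    exact Finset.single_le_sum (f := fun x => tilt w y x)
      (fun x _ => mul_nonneg (hw x) (exp_pos _).le) (Finset.mem_univ σ)

end Crest.Agent.T157.Up

end
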