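import Crest.Agent.T157.UpD_74
import Crest.Agent.T157.UpFam_65

/-!
# Row 157, part D (helper74): the top of the upper half
-/

set_option autoImplicit false

noncomputable section

namespace Crest.Agent.T157.Up

open MeasureTheory Matrix Set Filter Topology
open Crest.ProbabilityR.SpinGlassDynamics
open Crest.Agent.T157.E Crest.Agent.T157.Eig Crest.Agent.T157.St
open Crest.Agent.T157.Sc Crest.Agent.T157.Top Crest.Agent.T157.Pf Crest.Agent.T157.Cond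
open Crest.Agent.T157.Cut Crest.Agent.T157.An

lemma exists_data {β : ℝ} (hβ : 1 < β) (hP : ParStmt) (hS : SiteStmt) :
    ∃ C c0 C0 : ℝ, 1 ≤ C ∧ 0 < c0 ∧ c0 ≤ 1 ∧ 1 ≤ C0 ∧
      ∃ (P : ℕ → Par) (S : ∀ n, Site β C (P n).b), Data β C c0 C0 P S := by
  obtain ⟨c0, C0, h1, h2, h3, K0, hP⟩ := hP β hβ
  obtain ⟨C, hC, hS⟩ := hS β hβ
  choose P hP using fun n : ℕ => hP (max K0 (n ^ 16)) (le_max_left _ _)
  choose S hS using fun n : ℕ => hS (P n) (hP n).2.1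
  refine ⟨C, c0, C0, hC, h1, h2, h3, P, S, ?_⟩
  filter_upwards [eventually_ge_atTop K0, eventually_gt_atTop 0,
    tendsto_natCast_atTop_atTop.eventually_ge_atTop C0] with n a1 a2 a3
  have hn : (0 : ℝ) < n := by exact_mod_cast a2
  have e : max K0 (n ^ 16) = n ^ 16 := max_eq_right (a1.trans (Nat.le_self_pow (by norm_num) n))
  obtain ⟨b1, b2, b3⟩ := hP n
  rw [e] at b1 b3
  refine ⟨b1, b2, good_mono b3 (by linarith) ?_, hS n⟩
  have e2 : ((n ^ 16 : ℕ) : ℝ) ^ (-(1 / 8 : ℝ)) = ((n : ℝ) * n)⁻¹ := by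
    rw [Nat.cast_pow, ← Real.rpow_natCast, ← Real.rpow_mul hn.le, ← sq, ← Real.rpow_natCast,
      ← Real.rpow_neg hn.le]
    norm_num
  rw [e2, ← div_eq_mul_inv, div_le_div_iff₀ (by positivity) hn]
  nlinarith

lemma tail_mono {C u N : ℝ} (hC : 0 < C) (u0 : 0 < u) (u1 : u ≤ 1) (hN : 0 ≤ N) :
    C / (u ^ 42) ^ 5 * Real.exp (-(N * (u ^ 42) ^ 4 / C)) ≤
      C / (u ^ 1400) ^ 5 * Real.exp (-(N * (u ^ 1400) ^ 4 / C)) := by
  have h : u ^ 1400 ≤ u ^ 42 := pow_le_pow_of_le_one u0.le u1 (by norm_num)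
  have h0 : 0 < u ^ 1400 := pow_pos u0 _
  generalize u ^ 1400 = a at h h0
  generalize u ^ 42 = b at h
  gcongr

theorem upGlue : UpGlue := by
  intro hPar hSite h1 h2 hCont hSeg hEnd hSc hRmt hFe hGam hAnc β hβ
  have hβ0 : 0 < β := by linarith
  obtain ⟨C, c0, C0, hC, hc0, hc01, hC0, P, S, hD⟩ := exists_data hβ hPar hSite
  obtain ⟨d, hd1, hd2, hAnc⟩ := hAnc β C c0 C0 hβ hC hc0 hc01 hC0 P S hD
  have hCA : 1 ≤ 3 * β := by linarith
  obtain ⟨C1, hC1, h1⟩ := h1 β C _ hβ.le hC hCA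
  obtain ⟨C2, hC2, h2⟩ := h2 β C _ hβ.le hC hCA
  obtain ⟨C3, hC3, hSeg⟩ := hSeg β C _ hβ.le hC hCA
  obtain ⟨C4, hC4, hEnd⟩ := hEnd β C _ hβ.le hC hCA
  obtain ⟨c, Cs, hc, hc1, hCs, hSc⟩ := hSc β C c0 C0 hβ.le hC hc0.le
  refine ⟨4 / 10000000, by norm_num, d, hd1, ?_, fun δ hδ => ?_⟩
  · filter_upwards [hd2] with n hn
    rw [eps_pow, pw] at hn
    refine hn.trans (le_of_eq ?_)
    congr 1; norm_num
  have hn1 : ∀ {n : ℕ}, 0 < n → ∀ k : ℕ, k ≤ 10000000 → 1 / (n : ℝ) ≤ eps n ^ k := fun hn k hk => by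
    rw [← pw_one]
    refine pw_le hn k ?_
    rw [div_le_one (by norm_num)]
    exact_mod_cast hk
  have hsc : ∀ᶠ n : ℕ in atTop,
      goe (Fin n) (1 / √n) {W | opn W ≤ 3 ∧ ¬ SC1 (S n) (β • W) c (Cs * (eps n ^ 42) ^ 2)} ≤
        ENNReal.ofReal (Cs / (eps n ^ 1400) ^ 5 * Real.exp (-(n * (eps n ^ 1400) ^ 4 / Cs))) ∧
      ∀ t : ℝ, 0 ≤ t → goe (Fin n) (1 / √n) {W | opn W ≤ 3 ∧ ¬ SC2 (S n) ((P n).Gam β) (β • W) c
        (Cs * (1 + t) * (eps n ^ 42) ^ 2) ((eps n ^ 42) ^ 4) t} ≤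
        ENNReal.ofReal (Cs / (eps n ^ 1400) ^ 5 * Real.exp (-(n * (eps n ^ 1400) ^ 4 / Cs))) := by
    filter_upwards [hD, eventually_gt_atTop 0, ev_eps 2] with n h hn u2
    have u0 := eps_pos hn
    have a0 := hn1 hn (42 * 4) (by norm_num)
    rw [div_le_iff₀ (by exact_mod_cast hn), mul_comm, pow_mul] at a0
    have a1 := hSc (P n) (eps n ^ 42) h.2.1 (good_mono h.2.2.1 (by linarith)
      (by rw [← pow_mul]; exact hn1 hn _ (by norm_num))) (S n) h.2.2.2 (pow_pos u0 _)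
      ((pow_le_of_le_one u0.le (by linarith) (by norm_num)).trans (by linarith)) n a0
    have a2 := ENNReal.ofReal_le_ofReal
      (tail_mono (by linarith : 0 < Cs) u0 (by linarith) (Nat.cast_nonneg n))
    exact ⟨a1.1.trans a2, fun t ht => (a1.2 t ht).trans a2⟩
  have E1 : Whp Om fun n z => SC1 (S n) (β • Wmat n z.1 z.2) c (Cs * (eps n ^ 42) ^ 2) := by
    refine whp_goe (Q := fun n W => SC1 (S n) (β • W) c (Cs * (eps n ^ 42) ^ 2))
      (tendsto_union (by linarith : 0 < Cs)) ?_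
    filter_upwards [hsc, eventually_gt_atTop 0] with n h hn
    have u0 := eps_pos hn
    exact h.1.trans (ENNReal.ofReal_le_ofReal (le_mul_of_one_le_left (by positivity)
      (le_add_of_nonneg_left (Nat.cast_nonneg _))))
  have E2 : Whp Om fun n z => ∀ j ≤ NN n, SC2 (S n) ((P n).Gam β) (β • Wmat n z.1 z.2) c
      (Cs * (1 + j * tau n) * (eps n ^ 42) ^ 2) ((eps n ^ 42) ^ 4) (j * tau n) := by
    refine whp_goe (Q := fun n W => ∀ j ≤ NN n, SC2 (S n) ((P n).Gam β) (β • W) c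
      (Cs * (1 + j * tau n) * (eps n ^ 42) ^ 2) ((eps n ^ 42) ^ 4) (j * tau n))
      (tendsto_union (by linarith : 0 < Cs)) ?_
    filter_upwards [hsc, eventually_gt_atTop 0] with n h hn
    have u0 := eps_pos hn
    refine le_trans (measure_mono (t := ⋃ j ∈ Finset.range (NN n + 1), {W | opn W ≤ 3 ∧
      ¬ SC2 (S n) ((P n).Gam β) (β • W) c (Cs * (1 + j * tau n) * (eps n ^ 42) ^ 2)
        ((eps n ^ 42) ^ 4) (j * tau n)}) fun W hW => ?_) ?_
    · obtain ⟨a2, a3⟩ := hW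
      push Not at a3
      obtain ⟨j, hj, a4⟩ := a3
      exact mem_iUnion₂.2 ⟨j, Finset.mem_range.2 (by omega), a2, a4⟩
    refine (measure_biUnion_finset_le _ _).trans ((Finset.sum_le_sum fun (j : ℕ) _ =>
      h.2 (j * tau n) (mul_nonneg (Nat.cast_nonneg _) (pow_pos u0 _).le)).trans (le_of_eq ?_))
    rw [Finset.sum_const, Finset.card_range, nsmul_eq_mul, ← Nat.cast_succ,
      ENNReal.ofReal_mul (Nat.cast_nonneg _), ENNReal.ofReal_natCast]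
  have main : Whp Om fun n z =>
      ¬ ∃ B, Cut1 β (d n) δ (Real.exp (-(n : ℝ) ^ (1 - 4 / 10000000 : ℝ))) z.1 B := by
    refine ((((((whp_opn.and (hRmt β hβ 126 (by norm_num) le_rfl)).and
      (hRmt β hβ 42 (by norm_num) (by norm_num))).and E1).and E2).and
      (hFe β hβ P (hD.mono fun n h => h.2.1))).and (hAnc δ hδ)).mono ?_
    filter_upwards [hD, eventually_gt_atTop 0, ev_eps (100 + 30 * C1 + 30 * C2 + 30 * C3 + 30 * C4 +
      10 * Cs + 50 * (3 * β) + (1 + (C1 + C2) / c) * (5 + Cs) +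
      9 * Real.exp (2 * ((C1 + C2) / c)) + C1 ^ 2 / c + C2 ^ 2 / c + 6 / c0 +
      2 * C2 * (C2 + 2) / c0 ^ 2 + 2 ^ 16 * (Nat.factorial 16)), ev_eps 1, ev_eps C1, ev_eps C2,
      tendsto_natCast_atTop_atTop.eventually_ge_atTop (1622016 : ℝ)] with n h hn hK u1 k1 k2 hn2 z hz
    rintro ⟨B, b1, b2⟩
    obtain ⟨⟨⟨⟨⟨⟨z1, z2⟩, z3⟩, z4⟩, z5⟩, z6⟩, z7⟩ := hz
    obtain ⟨-, hOK, hGd, hR⟩ := h
    have hn' : (0 : ℝ) < n := by exact_mod_cast hn
    have u0 := eps_pos hn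
    rw [one_mul] at u1
    obtain ⟨t1, t2, t3⟩ := NN_tau hn u1
    have hP : (S n).P = (P n).val β := by rw [Site.P, hR.1, hR.2.2.2]; rfl
    have τ0 : 0 < tau n := pow_pos u0 _
    have opA : opn (β • Wmat n z.1 z.2) ≤ 3 * β := by
      rw [opn_smul, abs_of_pos hβ0, mul_comm]; exact mul_le_mul_of_nonneg_right z1 hβ0.le
    have her : (β • Wmat n z.1 z.2).IsHermitian := herm_smul (Wmat_isHermitian _ _) β
    have pw1 : ∀ {C' : ℝ} (k : ℕ), 1 ≤ C' → C' * eps n ≤ 1 → C' * eps n ^ (k + 1) ≤ 1 :=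
      fun k a1 a2 => (mul_le_mul_of_nonneg_left (pow_le_of_le_one u0.le u1 k.succ_ne_zero)
        (by linarith)).trans a2
    have H1 : Hyp β (3 * β) C1 (β • Wmat n z.1 z.2) (eps n ^ 126) (tau n) :=
      ⟨hn, her, opA, pow_pos u0 _, pw1 125 hC1 k1, τ0, by rw [← pow_mul]; exact le_rfl, z2⟩
    have H2 : Hyp β (3 * β) C2 (β • Wmat n z.1 z.2) (eps n ^ 42) (tau n) :=
      ⟨hn, her, opA, pow_pos u0 _, pw1 41 hC2 k2, τ0, by
        rw [← pow_mul]; exact pow_le_pow_of_le_one u0.le u1 (by norm_num), z3⟩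
    obtain ⟨-, c1, -, c2, c3, -, -⟩ := hCont n β C _ (S n) _ (eps n ^ 126) (tau n) hn hβ.le hC her
      (pow_pos u0 _)
    obtain ⟨-, -, -, -, -, c4, c5⟩ := hCont n β C _ (S n) _ (eps n ^ 42) (tau n) hn hβ.le hC her
      (pow_pos u0 _)
    refine det famStmt (x := (n : ℝ) ^ (1 / 4 : ℝ)) (B := B) hn hC1 hC2 hC3 hC4 hCs hCA hc hc1 hc0
      hGd.b_ge hGd.b_le le_rfl u0 hK rfl t1 t2 t3 ?_ ?_ hn2 opA (h1 n _ (S n) _ _ _ H1)
      (h2 n _ (S n) _ _ _ H2) (fun m hm m' hm' t ht => (hSeg n _ (S n) _ hn opA m hm m' hm' t ht).2.1)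
      (hEnd n _ (S n) _ hn opA) c1 c2 c3 c4 c5 z4 z5
      (fun s hs => hGam β (P n) hβ0 hOK s hs _ (by positivity)) (hP ▸ z6) ?_ fun F hF =>
      ⟨z7 B (b1.trans (measure_mono fun g hg => hg.1)) F hF,
        z7 Bᶜ (b1.trans (measure_mono fun g hg => hg.2)) F hF⟩
    · have a := pw_le hn (a := 1 / 4) 6000 (by norm_num)
      rwa [pw, Real.rpow_neg hn'.le, inv_le_iff_one_le_mul₀' (by positivity)] at a
    · rw [← Real.rpow_natCast, ← Real.rpow_mul hn'.le]; norm_num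
    · have e : (n : ℝ) * eps n ^ 4 = (n : ℝ) ^ (1 - 4 / 10000000 : ℝ) := by
        rw [eps_pow, pw, sub_eq_add_neg, Real.rpow_add hn', Real.rpow_one]; norm_num
      rw [e]
      refine le_trans (le_of_eq ?_) b2
      rw [mass, mass, prob_W]
  have := Whp.of_prod_fst (μ := disorderLaw) (ν := fun n => E.gv (Fin n))
    (P := fun n g => ¬ ∃ B, Cut1 β (d n) δ (Real.exp (-(n : ℝ) ^ (1 - 4 / 10000000 : ℝ))) g B) main
  simpa only [Whp, not_not] using this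

end Crest.Agent.T157.Up

end
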