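import Crest.Agent.T157.CpDef_72
import Crest.Agent.T157.QeA_24

/-!
# Row 157, part C (helper62): Gaussian integrals over boxes (`Cp.boxGlue`)
-/

set_option autoImplicit false

noncomputable section

namespace Crest.Agent.T157.Cp

open MeasureTheory ProbabilityTheory Matrix Set Filter
open scoped ENNReal
open Crest.ProbabilityR.SpinGlassDynamics
open Crest.Agent.T157.E Crest.Agent.T157.Cw
open Crest.Agent.T157.Qe
open Crest.Agent.T157.Conc (ex ex_add ex_mono ex_le_iff ex_ne_top)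
open Crest.Agent.T157.Dq (Dg)

namespace Box62

variable {n : ℕ}

lemma box_eq (ρ : ℝ) : (box ρ : Set (V n)) = Icc (fun _ => -ρ) fun _ => ρ := by
  ext x
  simp only [box, mem_ofPred_eq, mem_Icc, Pi.le_def, abs_le, forall_and]

lemma mbox (ρ : ℝ) : MeasurableSet (box ρ : Set (V n)) := by
  rw [box_eq]; exact measurableSet_Icc

/-- the integral over the box -/
def Bx (ρ : ℝ) (N : Mx n) : ℝ≥0∞ := ∫⁻ x in box ρ, ex ((x ⬝ᵥ x - x ⬝ᵥ N *ᵥ x) / 2) ∂Conc.gv (Fin n)

lemma int_box (ρ : ℝ) (N : Mx n) :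
    IntegrableOn (fun x : V n => Real.exp ((x ⬝ᵥ x - x ⬝ᵥ N *ᵥ x) / 2)) (box ρ) (Conc.gv (Fin n)) := by
  rw [box_eq]
  refine ContinuousOn.integrableOn_compact isCompact_Icc (Continuous.continuousOn ?_)
  have h1 : Continuous fun x : V n => x ⬝ᵥ x := continuous_id.dotProduct continuous_id
  have h2 : Continuous fun x : V n => x ⬝ᵥ N *ᵥ x :=
    continuous_id.dotProduct (continuous_const.matrix_mulVec continuous_id)
  exact Real.continuous_exp.comp ((h1.sub h2).div_const 2)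

lemma bx_eq (ρ : ℝ) (N : Mx n) : Bx ρ N = ENNReal.ofReal
    (∫ x in box ρ, Real.exp ((x ⬝ᵥ x - x ⬝ᵥ N *ᵥ x) / 2) ∂Conc.gv (Fin n)) :=
  (ofReal_integral_eq_lintegral_ofReal (int_box ρ N)
    (Eventually.of_forall fun _ => (Real.exp_pos _).le)).symm

/-- the box integral against Lebesgue measure -/
lemma bx_vol (ρ : ℝ) (N : Mx n) : Bx ρ N = ENNReal.ofReal (Kr.phi 1 (0 : V n)) *
    ∫⁻ x, (box ρ).indicator (fun x : V n => ex (-(x ⬝ᵥ N *ᵥ x) / 2)) x := by
  have m : ∀ {f : V n → ℝ≥0∞}, Measurable f → Measurable ((box ρ).indicator f) :=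
    fun hf => hf.indicator (mbox ρ)
  rw [Bx, ← lintegral_indicator (mbox ρ), Kr.lintegral_gv (m (by fun_prop)),
    ← lintegral_const_mul _ (m (by fun_prop))]
  refine lintegral_congr fun y => ?_
  by_cases hy : y ∈ box ρ
  · rw [indicator_of_mem hy, indicator_of_mem hy, ex, ex,
      ← ENNReal.ofReal_mul (Kr.phi_nonneg _ _), ← ENNReal.ofReal_mul (Kr.phi_nonneg _ _)]
    congr 1
    simp only [Kr.phi, mul_assoc, ← Real.exp_add]
    congr 2
    simp only [dotProduct_zero]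
    ring
  · rw [indicator_of_notMem hy, indicator_of_notMem hy, mul_zero, mul_zero]

lemma bx_pos {ρ : ℝ} (hρ : 0 < ρ) (N : Mx n) : 0 < Bx ρ N := by
  rw [bx_vol, lintegral_indicator (mbox ρ)]
  refine ENNReal.mul_pos (ENNReal.ofReal_pos.2 (Kr.phi_pos one_pos _)).ne' (ne_of_gt ?_)
  rw [setLIntegral_pos_iff (by fun_prop)]
  have : Function.support (fun x : V n => ex (-(x ⬝ᵥ N *ᵥ x) / 2)) = univ :=
    eq_univ_of_forall fun x => (ENNReal.ofReal_pos.2 (Real.exp_pos _)).ne'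
  rw [this, univ_inter, box_eq, Real.volume_Icc_pi]
  refine pos_iff_ne_zero.2 (Finset.prod_ne_zero_iff.2 fun i _ => ?_)
  exact (ENNReal.ofReal_pos.2 (by linarith)).ne'

lemma ex_jx {ρ : ℝ} (hρ : 0 < ρ) (N : Mx n) : ex (Jx ρ N) = Bx ρ N := by
  have h := bx_pos hρ N
  rw [bx_eq] at h ⊢
  rw [ex, Jx, Real.exp_log (ENNReal.ofReal_pos.1 h)]

lemma meas (ρ z : ℝ) : Measurable fun W : Mx n => Jx ρ (z • (1 : Mx n) - W) := by
  refine Real.measurable_log.comp (StronglyMeasurable.integral_prod_right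
    (f := fun (W : Mx n) (x : V n) => Real.exp ((x ⬝ᵥ x - x ⬝ᵥ (z • (1 : Mx n) - W) *ᵥ x) / 2))
    (Measurable.stronglyMeasurable ?_)).measurable
  simp only [qf_sub, qf_smul, qf_one]
  show Measurable fun p : Mx n × V n =>
    Real.exp ((p.2 ⬝ᵥ p.2 - (z * (p.2 ⬝ᵥ p.2) - p.2 ⬝ᵥ p.1 *ᵥ p.2)) / 2)
  fun_prop

lemma lt {C : ℝ} (h : LtStmt C) (ρ z : ℝ) (dd : V n) (hρ : 0 < ρ) :
    LT (C * ρ ^ 8) fun g => Jx ρ (z • (1 : Mx n) - Wmat n g dd) := by
  set N0 : Mx n := z • (1 : Mx n) - diagonal fun i => √2 * dd i / √n with hN0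
  set ν : Measure (V n) := ((Conc.gv (Fin n)).restrict (box ρ)).withDensity
    fun x => ex ((x ⬝ᵥ x - x ⬝ᵥ N0 *ᵥ x) / 2) with hν
  have hu : ν univ = Bx ρ N0 := by
    rw [hν, withDensity_apply _ MeasurableSet.univ, Measure.restrict_univ, Bx]
  have : IsFiniteMeasure ν := ⟨by rw [hu, bx_eq]; exact ENNReal.ofReal_lt_top⟩
  have h0 : ν ≠ 0 := fun e => by
    have := bx_pos hρ N0
    rw [← hu, e] at this
    exact lt_irrefl _ this
  have hb : ∀ᵐ x ∂ν, ∑ e : Pair n, (x e.1.1 * x e.1.2 / √n) ^ 4 ≤ ρ ^ 8 := by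
    rw [hν]
    refine (withDensity_absolutelyContinuous _ _).ae_le ?_
    filter_upwards [ae_restrict_mem (mbox ρ)] with x hx
    have a : ∀ e : Pair n, (x e.1.1 * x e.1.2 / √n) ^ 4 ≤ ρ ^ 8 / √n ^ 4 := fun e => by
      rw [div_pow]
      refine div_le_div_of_nonneg_right ?_ (by positivity)
      have : |x e.1.1 * x e.1.2| ≤ ρ ^ 2 := by
        rw [abs_mul, sq]; exact mul_le_mul (hx _) (hx _) (abs_nonneg _) hρ.le
      calc _ = |x e.1.1 * x e.1.2| ^ 4 := (Even.pow_abs (by decide) _).symm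
        _ ≤ (ρ ^ 2) ^ 4 := pow_le_pow_left₀ (abs_nonneg _) this 4
        _ = _ := by ring
    refine (Finset.sum_le_sum fun e _ => a e).trans ?_
    rw [Finset.sum_const, Finset.card_univ, nsmul_eq_mul]
    have cp : (Fintype.card (Pair n) : ℝ) ≤ √(n : ℝ) ^ 4 := by
      have : Fintype.card (Pair n) ≤ Fintype.card (Fin n × Fin n) := Fintype.card_subtype_le _
      rw [Fintype.card_prod, Fintype.card_fin] at this
      rw [show 4 = 2 * 2 from rfl, pow_mul, Real.sq_sqrt (Nat.cast_nonneg n), sq]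
      exact_mod_cast this
    refine (mul_le_mul_of_nonneg_right cp (by positivity)).trans ?_
    rcases eq_or_ne (√(n : ℝ) ^ 4) 0 with e | e
    · rw [e, zero_mul]; positivity
    · rw [mul_div_cancel₀ _ e]
  have := h.det (Pair n) (V n) ν (fun e x => x e.1.1 * x e.1.2 / √n) (ρ ^ 8) h0
    (fun e => by fun_prop) hb
  convert this using 2 with g
  rw [Jx, hν, integral_withDensity_eq_integral_toReal_smul (by fun_prop)
    (Eventually.of_forall fun x => (ex_ne_top _).lt_top)]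
  congr 1
  refine integral_congr_ae (Eventually.of_forall fun x => ?_)
  have e : z • (1 : Mx n) - Wmat n g dd = N0 - Jmat n g := by rw [hN0, Wmat]; abel
  simp only [ex, ENNReal.toReal_ofReal (Real.exp_pos _).le, smul_eq_mul, ← Real.exp_add]
  rw [e, qf_sub, dot_Jmat]
  congr 1
  have : ∑ p : Pair n, g p / √n * x p.1.1 * x p.1.2 =
      ∑ p : Pair n, g p * (x p.1.1 * x p.1.2 / √n) := Finset.sum_congr rfl fun p _ => by ring
  rw [this]
  ring

lemma dg_res {W : Mx n} {a : V n} (h : Dg W a) (z : ℝ) :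
    Dg (z • (1 : Mx n) - W) fun i => z - a i := by
  have := dg_affine h (-1) z
  rw [show (-1 : ℝ) • W + z • (1 : Mx n) = z • (1 : Mx n) - W by rw [neg_one_smul]; abel] at this
  convert this using 2
  ring

lemma gi_res {W : Mx n} {a : V n} {z : ℝ} (h : Dg W a) (hz : ∀ i, a i < z) :
    Gi (z • (1 : Mx n) - W) = ex (-Ph a z / 2) :=
  gi_dg (dg_res h z) fun i => sub_pos.2 (hz i)

lemma up {ρ z : ℝ} {W : Mx n} {a : V n} (hρ : 0 < ρ) (h : Dg W a) (hz : ∀ i, a i < z) :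
    Jx ρ (z • (1 : Mx n) - W) ≤ -Ph a z / 2 := by
  rw [← ex_le_iff, ex_jx hρ, ← gi_res h hz]
  exact setLIntegral_le_lintegral _ _

lemma sh {ρ : ℝ} {N : Mx n} {u : V n} (hρ : 0 < ρ) (hN : Nᵀ = N) (hu : u ∈ box ρ) :
    Jx ρ N - u ⬝ᵥ N *ᵥ u / 2 ≤ Jx (2 * ρ) N := by
  rw [← ex_le_iff, sub_eq_add_neg, ex_add, ex_jx hρ, ex_jx (by positivity), bx_vol, bx_vol,
    mul_assoc]
  refine mul_le_mul_right ?_ _
  set F : V n → ℝ≥0∞ := (box (2 * ρ)).indicator fun x : V n => ex (-(x ⬝ᵥ N *ᵥ x) / 2) with hF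
  have mF : Measurable F := Measurable.indicator (by fun_prop) (mbox _)
  have mG : Measurable ((box ρ).indicator fun x : V n => ex (-(x ⬝ᵥ N *ᵥ x) / 2)) :=
    Measurable.indicator (by fun_prop) (mbox _)
  have e1 : ∫⁻ x, F (u + x) = ∫⁻ x, F x := lintegral_add_left_eq_self F u
  have e2 : ∫⁻ x, F (u + -x) = ∫⁻ x, F x := by
    rw [lintegral_neg_eq_self (fun x => F (u + x)), e1]
  refine (ENNReal.mul_le_mul_iff_right (a := 2) two_ne_zero ENNReal.ofNat_ne_top).1 ?_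
  rw [two_mul (∫⁻ x, F x)]
  nth_rewrite 1 [← e1]
  nth_rewrite 1 [← e2]
  rw [← lintegral_add_left (by fun_prop), ← lintegral_mul_const _ mG,
    ← lintegral_const_mul _ (mG.mul_const _)]
  refine lintegral_mono fun x => ?_
  by_cases hx : x ∈ box ρ
  · have a1 : u + x ∈ box (2 * ρ) := fun i => by
      have := abs_add_le (u i) (x i); have := hu i; have := hx i
      rw [Pi.add_apply]; linarith
    have a2 : u + -x ∈ box (2 * ρ) := fun i => by
      have := abs_add_le (u i) (-x i); have := hu i; have := hx i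
      rw [abs_neg] at *
      rw [Pi.add_apply, Pi.neg_apply]; linarith
    simp only [hF]
    rw [indicator_of_mem hx, indicator_of_mem a1, indicator_of_mem a2, ← ex_add, qf_add_add hN,
      qf_add_add hN, mulVec_neg, dotProduct_neg, dotProduct_neg, neg_dotProduct, neg_neg, ex, ex,
      ex, ← ENNReal.ofReal_add (Real.exp_pos _).le (Real.exp_pos _).le, ← ENNReal.ofReal_ofNat 2,
      ← ENNReal.ofReal_mul zero_le_two]
    refine ENNReal.ofReal_le_ofReal ?_
    set A := -(x ⬝ᵥ N *ᵥ x) / 2 + -(u ⬝ᵥ N *ᵥ u / 2) with hA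
    set t := u ⬝ᵥ N *ᵥ x
    rw [show -(u ⬝ᵥ N *ᵥ u + 2 * t + x ⬝ᵥ N *ᵥ x) / 2 = A + -t by rw [hA]; ring,
      show -(u ⬝ᵥ N *ᵥ u + 2 * -t + x ⬝ᵥ N *ᵥ x) / 2 = A + t by rw [hA]; ring,
      Real.exp_add A, Real.exp_add A]
    nlinarith [Real.add_one_le_exp t, Real.add_one_le_exp (-t), Real.exp_pos A]
  · simp only [indicator_of_notMem hx, zero_mul, mul_zero, zero_le]

/-- moment generating function -/
lemma mgf {N : Mx n} (hN : Nᵀ = N) (hd : N.det ≠ 0) (v : V n) (b : ℝ) :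
    ∫⁻ x, ex ((x ⬝ᵥ x - x ⬝ᵥ N *ᵥ x) / 2 + (v ⬝ᵥ x - b)) ∂Conc.gv (Fin n) =
      ex (v ⬝ᵥ N⁻¹ *ᵥ v / 2 - b) * Gi N := by
  have hu : IsUnit N.det := isUnit_iff_ne_zero.2 hd
  set t := N⁻¹ *ᵥ v with ht
  have e : N *ᵥ t = v := by rw [ht, mulVec_mulVec, mul_nonsing_inv _ hu, one_mulVec]
  have h := gi_affine (f := fun x => x ⬝ᵥ N *ᵥ x) (by fun_prop) (L := (1 : Mx n)) (by simp) (-t)
  simp only [one_mulVec, det_one, inv_one, abs_one, ENNReal.ofReal_one, one_mul] at h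
  rw [Gi, ← h, ← lintegral_const_mul _ (by fun_prop)]
  refine lintegral_congr fun x => ?_
  rw [← ex_add, qf_add_add hN, qf_comm hN (-t) x, mulVec_neg, e, dotProduct_neg, dotProduct_neg,
    neg_dotProduct, dotProduct_comm x v, dotProduct_comm t v]
  congr 1
  ring

lemma lo {ρ z K : ℝ} {W : Mx n} {a : V n} (hn : 1 ≤ n) (hρ : 0 < ρ) (hK : 0 < K) (h : Dg W a)
    (hz : ∀ i, a i < z) (hR : ∀ i, Rz z W i i ≤ K) (hl : 2 * K * Real.log (4 * n) ≤ ρ ^ 2) :
    -Ph a z / 2 - Real.log 2 ≤ Jx ρ (z • (1 : Mx n) - W) := by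
  set N := z • (1 : Mx n) - W with hNd
  set A := -Ph a z / 2 with hA
  have hG : Gi N = ex A := gi_res h hz
  obtain ⟨O, hO, hN'⟩ : Dg N fun i => z - a i := dg_res h z
  have hN : Nᵀ = N := by
    rw [hN', transpose_mul, transpose_mul, transpose_transpose, diagonal_transpose,
      Matrix.mul_assoc]
  have hd : N.det ≠ 0 := by
    have e := congrArg det hO
    rw [det_mul, det_one] at e
    rw [hN', det_mul, det_mul, mul_right_comm, e, one_mul, det_diagonal]
    exact Finset.prod_ne_zero_iff.2 fun i _ => (sub_pos.2 (hz i)).ne'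
  set θ := ρ / K with hθ
  have hθ0 : 0 < θ := by positivity
  set T : Fin n → ℝ → V n → ℝ≥0∞ := fun i s x =>
    ex ((x ⬝ᵥ x - x ⬝ᵥ N *ᵥ x) / 2 + ((s • Pi.single i (1 : ℝ) : V n) ⬝ᵥ x - θ * ρ)) with hT
  have mT : ∀ i s, Measurable (T i s) := fun i s => by simp only [hT]; fun_prop
  have n0 : (0 : ℝ) < n := by exact_mod_cast hn
  have iT : ∀ i s, s ^ 2 = θ ^ 2 → ∫⁻ x, T i s x ∂Conc.gv (Fin n) ≤
      ENNReal.ofReal (Real.exp A / (4 * n)) := fun i s hs => by
    simp only [hT]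
    rw [mgf hN hd, hG, ← ex_add, div_eq_mul_inv (Real.exp A),
      ← Real.exp_log (show 0 < (4 * (n : ℝ))⁻¹ by positivity), ← Real.exp_add, Real.log_inv]
    refine ex_mono ?_
    have e : (s • Pi.single i (1 : ℝ) : V n) ⬝ᵥ N⁻¹ *ᵥ (s • Pi.single i (1 : ℝ)) =
        θ ^ 2 * Rz z W i i := by
      rw [mulVec_smul, smul_dotProduct, dotProduct_smul, single_one_dotProduct, mulVec_single_one,
        smul_eq_mul, smul_eq_mul, ← mul_assoc, ← sq, hs]
      rfl
    have e2 : θ ^ 2 * K / 2 - θ * ρ = -(ρ ^ 2 / (2 * K)) := by rw [hθ]; field_simp; ring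
    have e3 : Real.log (4 * n) ≤ ρ ^ 2 / (2 * K) := by
      rw [le_div_iff₀ (by positivity)]; linarith
    have e4 := mul_le_mul_of_nonneg_left (hR i) (sq_nonneg θ)
    rw [e]
    linarith
  have key : Gi N ≤ Bx ρ N + ∑ i, (∫⁻ x, T i θ x ∂Conc.gv (Fin n) + ∫⁻ x, T i (-θ) x ∂Conc.gv (Fin n)) := by
    simp only [← lintegral_add_left (mT _ _)]
    rw [← lintegral_finsetSum (f := fun i x => T i θ x + T i (-θ) x) _
      fun i _ => (mT _ _).add (mT _ _), Bx,
      ← lintegral_indicator (mbox ρ),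
      ← lintegral_add_left (Measurable.indicator (by fun_prop) (mbox ρ))]
    refine lintegral_mono fun x => ?_
    by_cases hx : x ∈ box ρ
    · simp only [indicator_of_mem hx]; exact le_self_add
    · obtain ⟨i, hi⟩ := not_forall.1 hx
      refine le_add_left (le_trans ?_ (Finset.single_le_sum (f := fun i => T i θ x + T i (-θ) x)
        (fun _ _ => zero_le) (Finset.mem_univ i)))
      have e : ∀ s : ℝ, (s • Pi.single i (1 : ℝ) : V n) ⬝ᵥ x = s * x i := fun s => by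
        rw [smul_dotProduct, single_one_dotProduct, smul_eq_mul]
      rcases lt_abs.1 (not_le.1 hi) with c | c
      · refine le_add_right (ex_mono ?_)
        rw [e]; nlinarith
      · refine le_add_left (ex_mono ?_)
        rw [e]; nlinarith
  have k2 : ex A ≤ ENNReal.ofReal (Real.exp (Jx ρ N) + Real.exp A / 2) := by
    rw [← hG, ENNReal.ofReal_add (Real.exp_pos _).le (by positivity)]
    refine key.trans (add_le_add (ex_jx hρ N).ge ?_)
    refine (Finset.sum_le_sum fun i _ => add_le_add (iT i θ rfl) (iT i (-θ) (neg_sq θ))).trans ?_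
    rw [← ENNReal.ofReal_add (by positivity) (by positivity),
      ← ENNReal.ofReal_sum_of_nonneg fun _ _ => by positivity]
    refine ENNReal.ofReal_le_ofReal (le_of_eq ?_)
    rw [Finset.sum_const, Finset.card_univ, Fintype.card_fin, nsmul_eq_mul]
    field_simp
    ring
  rw [ex, ENNReal.ofReal_le_ofReal_iff (by positivity)] at k2
  rw [← Real.exp_le_exp, Real.exp_sub, Real.exp_log two_pos]
  linarith

end Box62

theorem boxGlue : BoxGlue := fun _ h =>
  { meas := fun _ ρ z => Box62.meas ρ z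
    lt := fun _ ρ z dd hρ => Box62.lt h ρ z dd hρ
    up := fun _ _ _ _ _ hρ h hz => Box62.up hρ h hz
    lo := fun _ _ _ _ _ _ hn hρ hK h hz hR hl => Box62.lo hn hρ hK h hz hR hl
    sh := fun _ _ _ _ hρ hN hu => Box62.sh hρ hN hu }

end Crest.Agent.T157.Cp

end
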