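import Crest.Agent.T157.CpDef_72
import Crest.Agent.T157.QeTi_61
import Crest.Agent.T157.QeA_24

/-!
# Row 157, part C (helper17): the diagonal of the resolvent and linear statistics of two matrices
-/

set_option autoImplicit false

noncomputable section

namespace Crest.Agent.T157.Cp

open MeasureTheory ProbabilityTheory Matrix Set Filter
open scoped ENNReal
open Crest.Agent.T157.E Crest.Agent.T157.Cw Crest.Agent.T157.Cond
open Crest.Agent.T157.Qe (V Mx Le zz ell GOE)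
open Crest.Agent.T157.Conc (ex)
open Crest.Agent.T157.Dq (Dg)

variable {n : ℕ}

namespace Diag17

lemma rz_conj {O : Mx n} (hO : O * Oᵀ = 1) (z : ℝ) (W : Mx n) :
    Rz z (O * W * Oᵀ) = O * Rz z W * Oᵀ := by
  have hO' : Oᵀ * O = 1 := mul_eq_one_comm.1 hO
  have e : z • (1 : Mx n) - O * W * Oᵀ = O * (z • (1 : Mx n) - W) * Oᵀ := by
    rw [Matrix.mul_sub, Matrix.sub_mul, Matrix.mul_smul, Matrix.smul_mul, Matrix.mul_one, hO]
  rw [Rz, e, Matrix.mul_inv_rev, Matrix.mul_inv_rev, inv_eq_right_inv hO, inv_eq_right_inv hO', Rz,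
    Matrix.mul_assoc]

lemma meas_rz (z : ℝ) (i j : Fin n) : Measurable fun W : Mx n => Rz z W i j := by
  have hc : Continuous fun W : Mx n => z • (1 : Mx n) - W := continuous_const.sub continuous_id
  simp only [Rz, inv_def, Ring.inverse_eq_inv', Matrix.smul_apply, smul_eq_mul]
  exact hc.matrix_det.measurable.inv.mul (hc.matrix_adjugate.matrix_elem i j).measurable

lemma chern {z η : ℝ} (h0 : 0 < η) (h1 : η ≤ 1 / 16) {W : Mx n} (hW : Wᵀ = W)
    (hL : Le W ((z - η) • (1 : Mx n))) (hT : (Rz z W).trace ≤ 4 * n) :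
    Conc.gv (Fin n) {y | 32 * (y ⬝ᵥ y) < y ⬝ᵥ Rz z W *ᵥ y} ≤ ex (-(2 * η * n)) := by
  obtain ⟨a, ha⟩ := Qe.dg_symm hW
  have hz : ∀ i, η ≤ z - a i := fun i => by linarith [Qe.le_dg ha hL i]
  have hG : Dg (Rz z W) fun i => (z - a i)⁻¹ := (Qe.Ti61.dg_inv ha fun i => by linarith [hz i]).1
  have hp : ∀ i, 0 ≤ η / 2 * (z - a i)⁻¹ ∧ η / 2 * (z - a i)⁻¹ ≤ 1 / 2 := fun i => by
    have h2 := h0.trans_le (hz i)
    refine ⟨by positivity, ?_⟩
    rw [← div_eq_mul_inv, div_le_iff₀ h2]; linarith [hz i]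
  have hN := Qe.dg_affine hG (-(η / 2)) (1 + 16 * η)
  have hm : MeasurableSet {y : V n | 32 * (y ⬝ᵥ y) < y ⬝ᵥ Rz z W *ᵥ y} :=
    measurableSet_lt (by fun_prop) (by fun_prop)
  rw [Qe.dg_trace hG] at hT
  refine le_trans ?_ ((Qe.gi_dg hN fun i => by linarith [hp i]).trans_le (Conc.ex_mono ?_))
  · rw [← lintegral_indicator_one hm]
    refine lintegral_mono fun y => ?_
    by_cases hy : y ∈ {y : V n | 32 * (y ⬝ᵥ y) < y ⬝ᵥ Rz z W *ᵥ y}
    · rw [indicator_of_mem hy, Pi.one_apply, ← Conc.ex_zero]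
      refine Conc.ex_mono ?_
      rw [Qe.qf_add, Qe.qf_smul, Qe.qf_smul, Qe.qf_one]
      have := mul_lt_mul_of_pos_left (show 32 * (y ⬝ᵥ y) < y ⬝ᵥ Rz z W *ᵥ y from hy) h0
      linarith
    · rw [indicator_of_notMem hy]; exact zero_le
  · have h3 : ∑ i : Fin n, (8 * η - η * (z - a i)⁻¹) ≤
        ∑ i, Real.log (-(η / 2) * (z - a i)⁻¹ + (1 + 16 * η)) := Finset.sum_le_sum fun i _ => by
      obtain ⟨p0, p1⟩ := hp i
      have hb : 0 < -(η / 2) * (z - a i)⁻¹ + (1 + 16 * η) := by linarith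
      refine le_trans ?_ (Real.one_sub_inv_le_log_of_pos hb)
      rw [le_sub_comm, inv_le_iff_one_le_mul₀ hb]
      have e : η * (z - a i)⁻¹ = 2 * (η / 2 * (z - a i)⁻¹) := by ring
      rw [e, neg_mul]
      generalize η / 2 * (z - a i)⁻¹ = p at *
      nlinarith [mul_nonneg p0 h0.le, mul_nonneg p0 (sub_nonneg.2 p1), mul_nonneg h0.le (sub_nonneg.2 h1)]
    simp only [Finset.sum_sub_distrib, ← Finset.mul_sum, Finset.sum_const, Finset.card_univ,
      Fintype.card_fin, nsmul_eq_mul] at h3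
    nlinarith [mul_le_mul_of_nonneg_left hT h0.le]

lemma fr_eq (X : Mx n) : fr X = (X * Xᵀ).trace := by
  simp only [fr, trace, diag_apply, mul_apply, transpose_apply, sq]

lemma fr_conj {O O' : Mx n} (hO : O * Oᵀ = 1) (hO' : O' * O'ᵀ = 1) (X : Mx n) :
    fr (Oᵀ * X * O') = fr X := by
  rw [fr_eq, fr_eq, transpose_mul, transpose_mul, transpose_transpose,
    show Oᵀ * X * O' * (O'ᵀ * (Xᵀ * O)) = Oᵀ * (X * (O' * O'ᵀ) * Xᵀ) * O by simp only [Matrix.mul_assoc],
    hO', Matrix.mul_one, trace_mul_cycle, hO, Matrix.one_mul]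

end Diag17

open Diag17

theorem diagGlue : DiagGlue := by
  intro hR n z η h0 h1
  let F : Fin n → Set (Mx n) := fun i => {W | Wᵀ = W ∧ Le W ((z - η) • (1 : Mx n)) ∧
    (Rz z W).trace ≤ 4 * n ∧ 32 < Rz z W i i}
  have hF : ∀ i, GOE n (F i) ≤ ex (-(2 * η * n)) := fun i => by
    refine hR n _ _ ?_ fun W hW => ?_
    · refine MeasurableSet.inter (isClosed_eq continuous_id.matrix_transpose continuous_id).measurableSet
        (MeasurableSet.inter (Qe.measurableSet_le measurable_id measurable_const)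
          (MeasurableSet.inter (measurableSet_le (Finset.measurable_sum _ fun j _ => meas_rz z j j)
            measurable_const) (measurableSet_lt measurable_const (meas_rz z i i))))
    · by_cases hE : ∃ O : Mx n, O * Oᵀ = 1 ∧ O * W * Oᵀ ∈ F i
      · obtain ⟨O, hO, -, hL, hT, -⟩ := hE
        have hO' : Oᵀ * O = 1 := mul_eq_one_comm.1 hO
        rw [rz_conj hO, trace_mul_cycle, hO', Matrix.one_mul] at hT
        refine ⟨Pi.single i 1, {y | 32 * (y ⬝ᵥ y) < y ⬝ᵥ Rz z W *ᵥ y}, by simp,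
          measurableSet_lt (by fun_prop) (by fun_prop), fun c hc x => ?_, chern h0 h1 hW (fun u => ?_) hT,
          Or.inr fun P hP hm => ?_⟩
        · simp only [mem_ofPred_eq, mulVec_smul, smul_dotProduct, dotProduct_smul, smul_eq_mul]
          have := mul_pos hc hc
          constructor <;> intro h <;> nlinarith
        · have h2 := hL (O *ᵥ u)
          have e : ∀ X : Mx n, O *ᵥ u ⬝ᵥ X *ᵥ (O *ᵥ u) = u ⬝ᵥ (Oᵀ * X * O) *ᵥ u := fun X => by
            rw [← mulVec_mulVec, ← mulVec_mulVec, dotProduct_mulVec u, vecMul_transpose]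
          rwa [e, e, Matrix.mul_smul, Matrix.smul_mul, Matrix.mul_one, hO',
            show Oᵀ * (O * W * Oᵀ) * O = Oᵀ * O * W * (Oᵀ * O) by simp only [Matrix.mul_assoc], hO',
            Matrix.one_mul, Matrix.mul_one] at h2
        · have h2 := hm.2.2.2
          have e : ∀ X : Mx n, Pᵀ *ᵥ Pi.single i 1 ⬝ᵥ X *ᵥ (Pᵀ *ᵥ Pi.single i 1) = (P * X * Pᵀ) i i :=
            fun X => by
              rw [← Qe.qf_conj, transpose_transpose, mulVec_single_one, single_one_dotProduct, col_apply]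
          have e1 := e 1
          rw [one_mulVec, Matrix.mul_one, hP, one_apply_eq] at e1
          rw [rz_conj hP] at h2
          rw [mem_ofPred_eq, e1, e]; linarith
      · exact ⟨Pi.single i 1, ∅, by simp, MeasurableSet.empty, by simp, by simp,
          Or.inr fun O hO hm => hE ⟨O, hO, hm⟩⟩
  have hs : E3 z η ⊆ ⋃ i, F i := fun W ⟨a, b, c, i, d⟩ => mem_iUnion.2 ⟨i, a, b, c, d⟩
  refine (measure_mono hs).trans ((measure_iUnion_fintype_le _ _).trans ?_)
  exact (Finset.sum_le_sum fun i _ => hF i).trans (by simp)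

theorem hwStmt : HwStmt := by
  rintro n _ _ a a' φ ψ f ⟨O, hO, rfl⟩ ⟨O', hO', rfl⟩ hf
  have h1 : Oᵀ * O = 1 := mul_eq_one_comm.1 hO
  have h2 : O'ᵀ * O' = 1 := mul_eq_one_comm.1 hO'
  set U := Oᵀ * O' with hU
  have hr : ∀ k, ∑ l, U k l ^ 2 = 1 := fun k => by
    have : U * Uᵀ = 1 := by
      rw [hU, transpose_mul, transpose_transpose, Matrix.mul_assoc, ← Matrix.mul_assoc O', hO',
        Matrix.one_mul, h1]
    simpa only [mul_apply, transpose_apply, one_apply_eq, ← sq] using congrFun (congrFun this k) k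
  have hc : ∀ l, ∑ k, U k l ^ 2 = 1 := fun l => by
    have : Uᵀ * U = 1 := by
      rw [hU, transpose_mul, transpose_transpose, Matrix.mul_assoc, ← Matrix.mul_assoc O, hO,
        Matrix.one_mul, h2]
    simpa only [mul_apply, transpose_apply, one_apply_eq, ← sq] using congrFun (congrFun this l) l
  have e0 : ∀ x y : V n, ∑ k, x k + ∑ l, y l = ∑ q : Fin n × Fin n, (x q.1 + y q.2) * U q.1 q.2 ^ 2 :=
    fun x y => by
      simp only [Fintype.sum_prod_type, add_mul, Finset.sum_add_distrib, ← Finset.mul_sum, hr, mul_one]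
      rw [Finset.sum_comm]
      simp only [← Finset.mul_sum, hc, mul_one]
  have e1 : fr (O * diagonal a * Oᵀ - O' * diagonal a' * O'ᵀ) =
      ∑ q : Fin n × Fin n, (|a q.1 - a' q.2| * |U q.1 q.2|) ^ 2 := by
    have : Oᵀ * (O * diagonal a * Oᵀ - O' * diagonal a' * O'ᵀ) * O' = diagonal a * U - U * diagonal a' := by
      rw [Matrix.mul_sub, Matrix.sub_mul, hU]
      simp only [Matrix.mul_assoc, h2, Matrix.mul_one]
      rw [← Matrix.mul_assoc Oᵀ O, h1, Matrix.one_mul]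
    rw [← fr_conj hO hO', this, fr, Fintype.sum_prod_type]
    simp only [Matrix.sub_apply, diagonal_mul, mul_diagonal, mul_pow, sq_abs]
    exact Finset.sum_congr rfl fun k _ => Finset.sum_congr rfl fun l _ => by ring
  have e2 : ∑ k, f (a k) - ∑ l, f (a' l) =
      ∑ q : Fin n × Fin n, (f (a q.1) - f (a' q.2)) * U q.1 q.2 ^ 2 := by
    have := e0 (fun k => f (a k)) fun l => -f (a' l)
    simpa only [Finset.sum_neg_distrib, ← sub_eq_add_neg] using this
  have b1 : |∑ k, f (a k) - ∑ l, f (a' l)| ≤ ∑ q : Fin n × Fin n,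
      ((φ q.1 + ψ q.2) * |U q.1 q.2|) * (|a q.1 - a' q.2| * |U q.1 q.2|) := by
    rw [e2]
    refine (Finset.abs_sum_le_sum_abs _ _).trans (Finset.sum_le_sum fun q _ => ?_)
    rw [abs_mul, abs_sq, ← sq_abs (U q.1 q.2)]
    exact (mul_le_mul_of_nonneg_right (hf q.1 q.2) (sq_nonneg _)).trans_eq (by ring)
  have b2 : ∑ q : Fin n × Fin n, ((φ q.1 + ψ q.2) * |U q.1 q.2|) ^ 2 ≤
      2 * (∑ k, φ k ^ 2 + ∑ l, ψ l ^ 2) := by
    rw [e0, Finset.mul_sum]
    refine Finset.sum_le_sum fun q _ => ?_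
    rw [mul_pow, sq_abs]
    nlinarith [mul_nonneg (sq_nonneg (φ q.1 - ψ q.2)) (sq_nonneg (U q.1 q.2))]
  rw [← sq_abs, e1]
  exact (pow_le_pow_left₀ (abs_nonneg _) b1 2).trans ((Finset.sum_mul_sq_le_sq_mul_sq _ _ _).trans
    (mul_le_mul_of_nonneg_right b2 (Finset.sum_nonneg fun _ _ => sq_nonneg _)))

end Crest.Agent.T157.Cp

end
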