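import Crest.Agent.T157.CpDef_72

/-!
# Row 157, part C (helper80): from the grid to all spectral parameters (`Cp.GridStmt`)
-/

set_option autoImplicit false

noncomputable section

namespace Crest.Agent.T157.Cp

open Set Real
open Crest.Agent.T157.Qe (V zz ell)

namespace Grid80

variable {n : ℕ} {a : V n} {z z' g g1 g2 w δ D : ℝ}

theorem Tz_anti (ha : ∀ i, a i < z) (h : z ≤ z') : Tz a z' ≤ Tz a z :=
  Finset.sum_le_sum fun i _ => inv_anti₀ (sub_pos.2 (ha i)) (by linarith)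

theorem Ph_up (ha : ∀ i, a i < z) (h : z ≤ z') : Ph a z' - Ph a z ≤ (z' - z) * Tz a z := by
  rw [Ph, Ph, Tz, ← Finset.sum_sub_distrib, Finset.mul_sum]
  refine Finset.sum_le_sum fun i _ => ?_
  have h1 := sub_pos.2 (ha i)
  have h2 : 0 < z' - a i := by linarith
  rw [← log_div h2.ne' h1.ne']
  refine (log_le_sub_one_of_pos (div_pos h2 h1)).trans_eq ?_
  field_simp
  ring

theorem Ph_lo (ha : ∀ i, a i < z) (h : z ≤ z') : (z' - z) * Tz a z' ≤ Ph a z' - Ph a z := by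
  rw [Ph, Ph, Tz, ← Finset.sum_sub_distrib, Finset.mul_sum]
  refine Finset.sum_le_sum fun i _ => ?_
  have h1 := sub_pos.2 (ha i)
  have h2 : 0 < z' - a i := by linarith
  have h3 := log_le_sub_one_of_pos (div_pos h1 h2)
  rw [log_div h1.ne' h2.ne'] at h3
  have e : (z' - z) * (z' - a i)⁻¹ = 1 - (z - a i) / (z' - a i) := by field_simp; ring
  linarith

theorem zz_sub (h1 : 0 < g1) (h2 : 0 < g2) :
    zz g2 - zz g1 = (g1 - g2) * (1 - g1 * g2) / (g1 * g2) := by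
  unfold zz; field_simp; ring

theorem zz_two (h : 0 < g) : zz g - 2 = (1 - g) ^ 2 / g := by unfold zz; field_simp; ring

theorem sq_le_zz (h : 0 < g) (h1 : g ≤ 1) : (1 - g) ^ 2 ≤ zz g - 2 := by
  rw [zz_two h, le_div_iff₀ h]
  exact mul_le_of_le_one_right (sq_nonneg _) h1

theorem zz_gap (h2 : 0 < g2) (h : g2 ≤ g1) (h1 : g1 ≤ 1) :
    (g1 - g2) * (1 - g1) ≤ zz g2 - zz g1 := by
  have h0 : 0 < g1 := h2.trans_le h
  rw [zz_sub h0 h2, le_div_iff₀ (mul_pos h0 h2)]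
  have a1 : g1 * g2 ≤ g1 := mul_le_of_le_one_right h0.le (h.trans h1)
  have a2 : (1 - g1) * (g1 * g2) ≤ 1 - g1 * g2 :=
    (mul_le_of_le_one_right (by linarith) (by linarith)).trans (by linarith)
  rw [mul_assoc]
  exact mul_le_mul_of_nonneg_left a2 (by linarith)

theorem zz_anti (h2 : 0 < g2) (h : g2 ≤ g1) (h1 : g1 ≤ 1) : zz g1 ≤ zz g2 := by
  have := zz_gap h2 h h1
  nlinarith

theorem ell_up (h2 : 0 < g2) (h : g2 ≤ g1) (h1 : g1 ≤ 1) :
    ell g2 - ell g1 ≤ g1 * (zz g2 - zz g1) := by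
  have h0 : 0 < g1 := h2.trans_le h
  have r1 : 1 ≤ g1 / g2 := (one_le_div h2).2 h
  have a := self_le_sinh_iff.2 (log_nonneg r1)
  rw [sinh_log (by positivity), log_div h0.ne' h2.ne'] at a
  have e : g1 * (zz g2 - zz g1) - ((g1 / g2 - (g1 / g2)⁻¹) / 2 + (g2 ^ 2 - g1 ^ 2) / 2) =
      (g1 - g2) ^ 2 * (1 - g1 * g2) / (2 * (g1 * g2)) := by unfold zz; field_simp; ring
  have b : 0 ≤ (g1 - g2) ^ 2 * (1 - g1 * g2) / (2 * (g1 * g2)) :=
    div_nonneg (mul_nonneg (sq_nonneg _) (by nlinarith)) (by positivity)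
  unfold ell
  linarith

theorem ell_lo (h2 : 0 < g2) (h : g2 ≤ g1) (h1 : g1 ≤ 1) :
    g2 * (zz g2 - zz g1) ≤ ell g2 - ell g1 := by
  have h0 : 0 < g1 := h2.trans_le h
  have a := le_log_one_add_of_nonneg (x := (g1 - g2) / g2) (div_nonneg (by linarith) h2.le)
  rw [show 1 + (g1 - g2) / g2 = g1 / g2 by field_simp; ring, log_div h0.ne' h2.ne'] at a
  have e : 2 * ((g1 - g2) / g2) / ((g1 - g2) / g2 + 2) + (g2 ^ 2 - g1 ^ 2) / 2 -
      g2 * (zz g2 - zz g1) = (g1 - g2) ^ 2 * (2 - g1 * (g1 + g2)) / (2 * (g1 * (g1 + g2))) := by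
    have : g1 - g2 + g2 * 2 ≠ 0 := by linarith
    unfold zz
    rw [show (g1 - g2) / g2 + 2 = (g1 + g2) / g2 by field_simp; ring]
    field_simp
    ring
  have b : 0 ≤ (g1 - g2) ^ 2 * (2 - g1 * (g1 + g2)) / (2 * (g1 * (g1 + g2))) :=
    div_nonneg (mul_nonneg (sq_nonneg _) (by nlinarith)) (by positivity)
  unfold ell
  linarith

theorem half_le (hw : 0 < w) (ha : ∀ i, a i ≤ 2 + w ^ 2 / 2) (h : 0 < g) (h1 : g ≤ 1 - w)
    (i : Fin n) : (zz g - 2) / 2 ≤ zz g - a i ∧ a i < zz g := by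
  have a1 := sq_le_zz h (by linarith)
  have a2 : w ^ 2 ≤ (1 - g) ^ 2 := pow_le_pow_left₀ hw.le (by linarith) 2
  have a3 := ha i
  have a4 := pow_pos hw 2
  constructor <;> linarith

/-- two neighbouring grid points -/
theorem slope (hδ : 0 < δ) (hw : 0 < w) (hD : 0 ≤ D) (ha : ∀ i, a i ≤ 2 + w ^ 2 / 2) (h : 0 < g)
    (h1 : g + δ ≤ 1 - w) (q2 : |Ph a (zz g) - n * ell g| ≤ D)
    (q1 : |Ph a (zz (g + δ)) - n * ell (g + δ)| ≤ D) :
    Tz a (zz g) ≤ n * (g + δ) + 2 * D / (δ * w) ∧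
      n * g - 2 * D / (δ * w) ≤ Tz a (zz (g + δ)) := by
  have n0 : (0 : ℝ) ≤ n := n.cast_nonneg
  have hg : g ≤ g + δ := by linarith
  have hl : ∀ i, a i < zz (g + δ) := fun i => (half_le hw ha (by linarith) h1 i).2
  have hz := zz_anti h hg (by linarith)
  have b1 := Ph_lo hl hz
  have b2 := Ph_up hl hz
  have b3 := mul_le_mul_of_nonneg_left (ell_up h hg (by linarith)) n0
  have b4 := mul_le_mul_of_nonneg_left (ell_lo h hg (by linarith)) n0
  have b5 : δ * w ≤ zz g - zz (g + δ) := le_trans (by nlinarith) (zz_gap h hg (by linarith))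
  have b6 : 0 < zz g - zz (g + δ) := (mul_pos hδ hw).trans_le b5
  have b7 : 2 * D ≤ (zz g - zz (g + δ)) * (2 * D / (δ * w)) := by
    rw [← mul_div_assoc, le_div_iff₀ (mul_pos hδ hw)]
    nlinarith
  rw [abs_le] at q1 q2
  constructor <;> refine le_of_mul_le_mul_left ?_ b6 <;> linarith [q1.1, q1.2, q2.1, q2.2]

structure Hy (a : V n) (w δ D : ℝ) : Prop where
  d0 : 0 < δ
  dw : 128 * δ ≤ w
  w4 : w ≤ 1 / 4
  D0 : 0 ≤ D
  Dn : 2 * D ≤ n * δ * w
  ha : ∀ i, a i ≤ 2 + w ^ 2 / 2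
  hq : ∀ j : ℕ, j * δ ∈ Icc (1 / 128 : ℝ) (1 - w) → Tz a (zz (j * δ)) ≤ 4 * n →
    |Ph a (zz (j * δ)) - n * ell (j * δ)| ≤ D

theorem Hy.w0 (h : Hy a w δ D) : 0 < w := by linarith [h.d0, h.dw]

theorem Hy.four (h : Hy a w δ D) (j : ℕ) (hj : j * δ ∈ Icc (1 / 128 : ℝ) (1 - w)) :
    Tz a (zz (j * δ)) ≤ 4 * n := by
  induction j using Nat.strong_induction_on with
  | _ j ih =>
  have n0 : (0 : ℝ) ≤ n := n.cast_nonneg
  have d0 := h.d0
  have dw := h.dw
  have w4 := h.w4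
  have w0 := h.w0
  have g0 : 0 < j * δ := by linarith [hj.1]
  rcases le_or_gt (j * δ) (1 / 4) with h4 | h4
  · have a1 : ∀ i, (zz (j * δ) - a i)⁻¹ ≤ 4 := fun i => by
      have b1 := (half_le w0 h.ha g0 hj.2 i).1
      have b2 := sq_le_zz g0 (by linarith)
      rw [inv_le_comm₀ (by nlinarith) four_pos]
      nlinarith
    simpa [Tz, mul_comm] using Finset.sum_le_card_nsmul Finset.univ _ 4 fun i _ => a1 i
  · obtain ⟨k, rfl⟩ : ∃ k, j = k + 2 := by
      refine ⟨j - 2, (Nat.sub_add_cancel ?_).symm⟩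
      by_contra hc
      have : (j : ℝ) ≤ 2 := by exact_mod_cast (not_le.1 hc).le
      nlinarith
    have e1 : ((k + 1 : ℕ) : ℝ) * δ = k * δ + δ := by push_cast; ring
    have e2 : ((k + 2 : ℕ) : ℝ) * δ = k * δ + 2 * δ := by push_cast; ring
    rw [e2] at hj h4 g0 ⊢
    have m0 : (k : ℝ) * δ ∈ Icc (1 / 128 : ℝ) (1 - w) := ⟨by linarith, by linarith [hj.2]⟩
    have m1 : ((k + 1 : ℕ) : ℝ) * δ ∈ Icc (1 / 128 : ℝ) (1 - w) := by
      rw [e1]; exact ⟨by linarith, by linarith [hj.2]⟩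
    have q0 := h.hq k m0 (ih k (by omega) m0)
    have q1 := h.hq (k + 1) m1 (ih (k + 1) (by omega) m1)
    rw [e1] at q1
    generalize (k : ℝ) * δ = g at *
    have g1 : 0 < g := by linarith
    have s1 := (slope d0 w0 h.D0 h.ha g1 (by linarith [hj.2]) q0 q1).1
    have s2 : 2 * D / (δ * w) ≤ n := by rw [div_le_iff₀ (mul_pos d0 w0)]; linarith [h.Dn]
    have s3 : n * (g + δ) ≤ n := mul_le_of_le_one_right n0 (by linarith [hj.2])
    have s4 : zz g - zz (g + 2 * δ) ≤ (zz (g + 2 * δ) - 2) / 2 := by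
      rw [zz_sub g0 g1, zz_two g0, div_div, div_le_div_iff₀ (by positivity) (by positivity)]
      have u1 : 128 * δ ≤ 1 - (g + 2 * δ) := by linarith [hj.2]
      have u2 : 1 - (g + 2 * δ) * g ≤ 3 * (1 - (g + 2 * δ)) := by nlinarith
      have u3 : 12 * δ ≤ g * (1 - (g + 2 * δ)) := by nlinarith
      have u4 : 4 * δ * (1 - (g + 2 * δ) * g) ≤ (1 - (g + 2 * δ)) ^ 2 * g := by nlinarith
      nlinarith
    have s5 : Tz a (zz (g + 2 * δ)) ≤ 2 * Tz a (zz g) := by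
      rw [Tz, Tz, Finset.mul_sum]
      refine Finset.sum_le_sum fun i _ => ?_
      have b1 := half_le w0 h.ha g0 hj.2 i
      have b2 := sub_pos.2 (half_le w0 h.ha g1 m0.2 i).2
      rw [← div_eq_mul_inv, inv_eq_one_div, div_le_div_iff₀ (sub_pos.2 b1.2) b2]
      linarith [b1.1]
    linarith

theorem Hy.q (h : Hy a w δ D) (j : ℕ) (hj : j * δ ∈ Icc (1 / 128 : ℝ) (1 - w)) :
    |Ph a (zz (j * δ)) - n * ell (j * δ)| ≤ D := h.hq j hj (h.four j hj)

theorem exists_grid (d0 : 0 < δ) (hg : 0 ≤ g) : ∃ j : ℕ, j * δ ≤ g ∧ g < j * δ + δ := by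
  refine ⟨⌊g / δ⌋₊, (le_div_iff₀ d0).1 (Nat.floor_le (by positivity)), ?_⟩
  have := (div_lt_iff₀ d0).1 (Nat.lt_floor_add_one (g / δ))
  linarith

theorem Hy.pair (h : Hy a w δ D) (j : ℕ) (h1 : 1 / 128 ≤ j * δ) (h2 : j * δ + δ ≤ 1 - w) :
    Tz a (zz (j * δ)) ≤ n * (j * δ + δ) + 2 * D / (δ * w) ∧
      n * (j * δ) - 2 * D / (δ * w) ≤ Tz a (zz (j * δ + δ)) := by
  have d0 := h.d0
  have e1 : ((j + 1 : ℕ) : ℝ) * δ = j * δ + δ := by push_cast; ring
  have q1 := h.q (j + 1) (by rw [e1]; exact ⟨by linarith, h2⟩)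
  rw [e1] at q1
  exact slope d0 h.w0 h.D0 h.ha (by linarith) h2 (h.q j ⟨h1, by linarith⟩) q1

theorem Hy.tz (h : Hy a w δ D) (h1 : 3 / 256 ≤ g) (h2 : g ≤ 1 - 3 * w / 2) :
    |Tz a (zz g) - n * g| ≤ 2 * n * δ + 2 * D / (δ * w) := by
  have n0 : (0 : ℝ) ≤ n := n.cast_nonneg
  have d0 := h.d0
  have dw := h.dw
  have w4 := h.w4
  have w0 := h.w0
  obtain ⟨j, j1, j2⟩ := exists_grid d0 (g := g - δ) (by linarith)
  have e2 : ((j + 2 : ℕ) : ℝ) * δ = j * δ + 2 * δ := by push_cast; ring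
  have p1 := (h.pair j (by linarith) (by linarith)).2
  have p2 := (h.pair (j + 2) (by linarith) (by linarith)).1
  rw [e2] at p2
  have t1 : Tz a (zz (j * δ + δ)) ≤ Tz a (zz g) :=
    Tz_anti (fun i => (half_le w0 h.ha (by linarith) (by linarith) i).2)
      (zz_anti (by linarith) (by linarith) (by linarith))
  have t2 : Tz a (zz g) ≤ Tz a (zz (j * δ + 2 * δ)) :=
    Tz_anti (fun i => (half_le w0 h.ha (by linarith) (by linarith) i).2)
      (zz_anti (by linarith) (by linarith) (by linarith))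
  have a1 := mul_le_mul_of_nonneg_left j1 n0
  have a2 := mul_le_mul_of_nonneg_left j2.le n0
  exact abs_le.2 ⟨by linarith, by linarith⟩

theorem le_sqrt_zz (h : 0 < g) (h1 : g ≤ 1) : 1 - g ≤ √(zz g - 2) :=
  le_sqrt_of_sq_le (sq_le_zz h h1)

end Grid80

open Grid80

theorem gridStmt : GridStmt := fun n a w δ D d0 dw w4 D0 Dn ha hq g hg => by
  have h : Hy a w δ D := ⟨d0, dw, w4, D0, Dn, ha, hq⟩
  have n0 : (0 : ℝ) ≤ n := n.cast_nonneg
  have w0 := h.w0
  have g1 := hg.1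
  have g2 := hg.2
  have g0 : 0 < g := by linarith
  have t0 := h.tz (g := g) (by linarith) (by linarith)
  have hl : ∀ i, a i < zz g := fun i => (half_le w0 ha g0 (by linarith) i).2
  have sq := le_sqrt_zz g0 (by linarith)
  refine ⟨t0, ?_, ?_⟩
  · obtain ⟨j, j1, j2⟩ := exists_grid d0 g0.le
    have q := h.q j ⟨by linarith, by linarith⟩
    generalize (j : ℝ) * δ = g' at *
    have g0' : 0 < g' := by linarith
    have t1 := h.tz (g := g') (by linarith) (by linarith)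
    have hz := zz_anti g0' j1 (by linarith)
    have b1 := Ph_lo hl hz
    have b2 := Ph_up hl hz
    have b3 := mul_le_mul_of_nonneg_left (ell_up g0' j1 (by linarith)) n0
    have b4 := mul_le_mul_of_nonneg_left (ell_lo g0' j1 (by linarith)) n0
    have b5 : zz g' - zz g ≤ 24576 * δ * √(zz g - 2) := by
      refine le_trans ?_ (mul_le_mul_of_nonneg_left sq (by positivity))
      rw [zz_sub g0 g0', div_le_iff₀ (by positivity)]
      have u1 : 1 - g * g' ≤ 3 * (1 - g) := by nlinarith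
      have u2 : 1 / 64 * (1 / 128) ≤ g * g' := mul_le_mul g1 (by linarith) (by norm_num) g0.le
      have u3 : (g - g') * (1 - g * g') ≤ δ * (3 * (1 - g)) :=
        mul_le_mul (by linarith) u1 (by nlinarith) d0.le
      nlinarith [mul_le_mul_of_nonneg_left u2 (by nlinarith : 0 ≤ δ * (1 - g))]
    have b6 : 0 ≤ zz g' - zz g := by linarith
    have a1 := mul_le_mul_of_nonneg_left j2.le n0
    have τ0 : 0 ≤ 3 * n * δ + 2 * D / (δ * w) := by positivity
    have b7 := mul_le_mul_of_nonneg_right b5 τ0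
    rw [abs_le] at t0 t1 q ⊢
    have c1 : n * g - Tz a (zz g') ≤ 3 * n * δ + 2 * D / (δ * w) := by linarith [t1.1]
    have c2 : Tz a (zz g) - n * g' ≤ 3 * n * δ + 2 * D / (δ * w) := by linarith [t0.2]
    have c3 := mul_le_mul_of_nonneg_left c1 b6
    have c4 := mul_le_mul_of_nonneg_left c2 b6
    constructor <;> linarith [q.1, q.2]
  · obtain ⟨g', e⟩ : ∃ g', g' = g + (1 - g) / 4 := ⟨_, rfl⟩
    have g0' : 0 < g' := by linarith
    have t1 := h.tz (g := g') (by linarith) (by linarith)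
    have hl' : ∀ i, a i < zz g' := fun i => (half_le w0 ha g0' (by linarith) i).2
    have s0 : 0 < zz g - 2 := lt_of_lt_of_le (pow_pos (by linarith) 2) (sq_le_zz g0 (by linarith))
    have b1 : (zz g - 2) / 4 ≤ zz g - zz g' := by
      rw [zz_sub g0' g0, zz_two g0, div_div, div_le_div_iff₀ (by positivity) (by positivity)]
      have u1 : (1 - g) * g' ≤ 1 - g' * g := by nlinarith
      have u2 : g' - g = (1 - g) / 4 := by linarith
      rw [u2]
      nlinarith [mul_le_mul_of_nonneg_left u1 (by nlinarith : 0 ≤ (1 - g) * g)]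
    have b2 : (zz g - zz g') * ∑ i, ((zz g - a i) ^ 2)⁻¹ ≤ Tz a (zz g') - Tz a (zz g) := by
      rw [Tz, Tz, ← Finset.sum_sub_distrib, Finset.mul_sum]
      refine Finset.sum_le_sum fun i _ => ?_
      have u1 := sub_pos.2 (hl i)
      have u2 := sub_pos.2 (hl' i)
      have e' : (zz g' - a i)⁻¹ - (zz g - a i)⁻¹ =
          (zz g - zz g') * ((zz g' - a i) * (zz g - a i))⁻¹ := by field_simp; ring
      rw [e']
      refine mul_le_mul_of_nonneg_left (inv_anti₀ (mul_pos u2 u1) ?_) (by linarith)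
      nlinarith
    have b3 : 0 ≤ ∑ i, ((zz g - a i) ^ 2)⁻¹ := by positivity
    have b4 := mul_le_mul_of_nonneg_right b1 b3
    have b5 := mul_le_mul_of_nonneg_left sq n0
    rw [abs_le] at t0 t1
    rw [le_div_iff₀ s0]
    have b6 : n * g' = n * g + n * (1 - g) / 4 := by rw [e]; ring
    linarith [t0.1, t1.2]

end Crest.Agent.T157.Cp

end
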