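import Crest.Agent.T157.LlQC_47

/-!
# Row 157, local law: `qDet : ResApi → QDetStmt` (helper47)
-/

set_option autoImplicit false

noncomputable section

namespace Crest.Agent.T157.Ll

namespace Q47

open MeasureTheory Matrix Function

variable {n : ℕ}

lemma sum3 (R : ResApi) (E : Ens n) (hn : 1 ≤ n) (F : Fin n → Fin n → ℝ) (hF : ∀ k l, 0 ≤ F k l)
    {M : ℝ} (hM : ∑ k, ∑ l, F k l ≤ M * (√(n : ℝ) * n)) :
    ∑ a, |E.c a| * (E.c a ^ 2 * (F (E.i a) (E.j a) + F (E.j a) (E.i a))) ≤ 2 * M := by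
  have hn' : (0 : ℝ) < n := by exact_mod_cast hn
  have hr : 0 < √(n : ℝ) := Real.sqrt_pos.2 hn'
  have hc : ∀ a, |E.c a| ≤ 1 / √(n : ℝ) := fun a => by
    refine (pow_le_pow_iff_left₀ (abs_nonneg _) (by positivity) two_ne_zero).1 ?_
    rw [sq_abs, div_pow, one_pow, Real.sq_sqrt hn'.le]; exact E.c_sq a
  calc _ ≤ ∑ a, 1 / √(n : ℝ) * (E.c a ^ 2 * (F (E.i a) (E.j a) + F (E.j a) (E.i a))) :=
        Finset.sum_le_sum fun a _ => mul_le_mul_of_nonneg_right (hc a)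
          (mul_nonneg (sq_nonneg _) (add_nonneg (hF _ _) (hF _ _)))
    _ ≤ 1 / √(n : ℝ) * (2 * (M * (√(n : ℝ) * n)) / n) := by
        rw [← Finset.mul_sum]
        refine mul_le_mul_of_nonneg_left ((R.cov_le E F hF).trans ?_) (by positivity)
        gcongr
    _ = 2 * M := by field_simp

lemma cs_real (f g : Fin n → ℝ) {A B : ℝ} (hA : 0 ≤ A) (hB : 0 ≤ B) (hf : ∑ k, f k ^ 2 ≤ A ^ 2)
    (hg : ∑ k, g k ^ 2 ≤ B ^ 2) : ∑ k, f k * g k ≤ A * B := by
  have h1 := Finset.sum_mul_sq_le_sq_mul_sq Finset.univ f g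
  have h2 := mul_le_mul hf hg (Finset.sum_nonneg fun k _ => sq_nonneg _) (sq_nonneg _)
  refine le_trans (le_abs_self _) ((pow_le_pow_iff_left₀ (abs_nonneg _) (mul_nonneg hA hB)
    two_ne_zero).1 ?_)
  rw [sq_abs, mul_pow]; exact h1.trans h2

/-- the one-index sums -/
structure Sums (al y : Fin n → ℝ) (r V ψ : ℝ) : Prop where
  a1 : ∑ k, al k ≤ r
  y1 : ∑ k, y k ≤ 3 * (n * ψ)
  y2 : ∑ k, y k ^ 2 ≤ 9 * (n * ψ ^ 2)
  y3 : ∑ k, y k ^ 3 ≤ 27 * V * (n * ψ ^ 2)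
  ay : ∑ k, al k * y k ≤ 3 * (r * ψ)
  ay2 : ∑ k, al k * y k ^ 2 ≤ 9 * V * (r * ψ)

lemma Base.sums {g : (Fin n → ℝ) → (Fin n → ℝ) → ℂ} {z : ℂ} {u v : Fin n → ℝ} {Γ V ψ : ℝ}
    (B : Base g z u v Γ V ψ) (hu : u ⬝ᵥ u ≤ 1) :
    Sums (fun k => |u k|) (yy g u v ψ) √(n : ℝ) V ψ := by
  have hn0 : (0 : ℝ) ≤ n := Nat.cast_nonneg _
  have hr : √(n : ℝ) ^ 2 = n := Real.sq_sqrt hn0
  have hr0 : 0 ≤ √(n : ℝ) := Real.sqrt_nonneg _
  have ψ0 := B.ψ0
  have hV : 0 ≤ V := by linarith [B.one, B.le]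
  have y2 : ∑ k, yy g u v ψ k ^ 2 ≤ 9 * (n * ψ ^ 2) := by
    calc _ ≤ ∑ k, (3 * ‖g (ee k) u‖ ^ 2 + 3 * ‖g (ee k) v‖ ^ 2 + 3 * ψ ^ 2) :=
          Finset.sum_le_sum fun k _ => by
            unfold yy
            nlinarith [sq_nonneg (‖g (ee k) u‖ - ‖g (ee k) v‖), sq_nonneg (‖g (ee k) u‖ - ψ),
              sq_nonneg (‖g (ee k) v‖ - ψ)]
      _ ≤ _ := by
          rw [Finset.sum_add_distrib, Finset.sum_add_distrib, ← Finset.mul_sum, ← Finset.mul_sum]
          simp only [Finset.sum_const, Finset.card_univ, Fintype.card_fin, nsmul_eq_mul]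
          linarith [B.w _ (inS_u u v), B.w _ (inS_v u v)]
  have y2' : ∑ k, yy g u v ψ k ^ 2 ≤ (3 * (√(n : ℝ) * ψ)) ^ 2 := by
    rw [mul_pow, mul_pow, hr]; linarith
  have o2 : ∑ _k : Fin n, (1 : ℝ) ^ 2 ≤ √(n : ℝ) ^ 2 := by rw [hr]; simp
  have a2 : ∑ k, |u k| ^ 2 ≤ 1 ^ 2 := by rw [one_pow]; exact sum_sq_le hu
  have ay : ∑ k, |u k| * yy g u v ψ k ≤ 3 * (√(n : ℝ) * ψ) := by
    simpa using cs_real _ _ zero_le_one (by positivity) a2 y2'
  have yV : ∀ k, yy g u v ψ k ≤ 3 * V := fun k => (B.y_le k).trans (by linarith [B.le])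
  refine ⟨?_, ?_, y2, ?_, ay, ?_⟩
  · simpa using cs_real _ _ zero_le_one hr0 a2 o2
  · have := cs_real _ _ hr0 (by positivity) o2 y2'
    simp only [one_mul] at this
    refine this.trans (le_of_eq ?_)
    calc _ = 3 * (√(n : ℝ) ^ 2 * ψ) := by ring
      _ = _ := by rw [hr]
  · calc _ ≤ ∑ k, 3 * V * yy g u v ψ k ^ 2 := Finset.sum_le_sum fun k _ => by
          have := mul_le_mul_of_nonneg_right (yV k) (sq_nonneg (yy g u v ψ k))
          calc _ = yy g u v ψ k * yy g u v ψ k ^ 2 := by ring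
            _ ≤ _ := this
      _ ≤ _ := by
          rw [← Finset.mul_sum]
          have := mul_le_mul_of_nonneg_left y2 (show 0 ≤ 3 * V by positivity)
          linarith
  · calc _ ≤ ∑ k, 3 * V * (|u k| * yy g u v ψ k) := Finset.sum_le_sum fun k _ => by
          have := mul_le_mul_of_nonneg_right (yV k) (mul_nonneg (abs_nonneg (u k)) (B.y0 k))
          calc _ = yy g u v ψ k * (|u k| * yy g u v ψ k) := by ring
            _ ≤ _ := this
      _ ≤ _ := by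
          rw [← Finset.mul_sum]
          have := mul_le_mul_of_nonneg_left ay (show 0 ≤ 3 * V by positivity)
          linarith

lemma dbl (f g f' g' : Fin n → ℝ) :
    ∑ k, ∑ l, (f k * g l + f' k * g' l) = (∑ k, f k) * (∑ l, g l) + (∑ k, f' k) * ∑ l, g' l := by
  rw [Finset.sum_mul_sum, Finset.sum_mul_sum, ← Finset.sum_add_distrib]
  exact Finset.sum_congr rfl fun k _ => Finset.sum_add_distrib

section abs
variable (R : ResApi) (E : Ens n) (hn : 1 ≤ n) {al y : Fin n → ℝ} {V ψ : ℝ}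
  (S : Sums al y √(n : ℝ) V ψ) (ha : ∀ k, 0 ≤ al k) (hy : ∀ k, 0 ≤ y k) (hV : 1 ≤ V) (ψ0 : 0 ≤ ψ)
include R hn S ha hy hV ψ0

omit hV in
lemma A1 : ∑ a, |E.c a| * E.c a ^ 2 * ((al (E.i a) + al (E.j a)) * (y (E.i a) + y (E.j a))) ≤
    12 * ψ := by
  have h := sum3 R E hn (fun k l => al k * y k * 1 + al k * y l)
    (fun k l => by have := ha k; have := hy k; have := hy l; positivity) (M := 6 * ψ) (by
      rw [dbl]
      simp only [Finset.sum_const, Finset.card_univ, Fintype.card_fin, nsmul_eq_mul, mul_one]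
      have e1 := mul_le_mul_of_nonneg_right S.ay (Nat.cast_nonneg (α := ℝ) n)
      have e2 := mul_le_mul S.a1 S.y1 (Finset.sum_nonneg fun k _ => hy k) (Real.sqrt_nonneg _)
      linarith)
  refine le_trans (le_of_eq (Finset.sum_congr rfl fun a _ => ?_)) (h.trans (le_of_eq (by ring)))
  ring

lemma A2 (ψ1 : ψ ≤ 1) : ∑ a, |E.c a| * E.c a ^ 2 *
    ((al (E.i a) + al (E.j a)) * (y (E.i a) + y (E.j a)) * (y (E.i a) * y (E.j a))) ≤
    108 * V * ψ ^ 2 := by
  have h := sum3 R E hn (fun k l => al k * y k ^ 2 * y l + al k * y k * y l ^ 2)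
    (fun k l => by have := ha k; have := hy k; have := hy l; positivity) (M := 54 * V * ψ ^ 2) (by
      rw [dbl]
      have e1 := mul_le_mul S.ay2 S.y1 (Finset.sum_nonneg fun k _ => hy k) (by positivity)
      have y2 : ∑ k, y k ^ 2 ≤ 9 * V * (n * ψ) := by
        have h1 : ψ ^ 2 ≤ V * ψ := by rw [sq]; exact mul_le_mul_of_nonneg_right (ψ1.trans hV) ψ0
        have h2 := mul_le_mul_of_nonneg_left h1 (Nat.cast_nonneg (α := ℝ) n)
        linarith [S.y2]
      have e2 := mul_le_mul S.ay y2 (Finset.sum_nonneg fun k _ => sq_nonneg _) (by positivity)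
      linarith)
  refine le_trans (le_of_eq (Finset.sum_congr rfl fun a _ => ?_)) (h.trans (le_of_eq (by ring)))
  ring

lemma A3 : ∑ a, |E.c a| * E.c a ^ 2 *
    ((al (E.i a) * y (E.j a) + al (E.j a) * y (E.i a)) * (y (E.i a) + y (E.j a)) ^ 2) ≤
    216 * V * ψ ^ 2 := by
  have h := sum3 R E hn (fun k l => 2 * (al k * y k ^ 2) * y l + 2 * al k * y l ^ 3)
    (fun k l => by have := ha k; have := hy k; have := hy l; positivity) (M := 108 * V * ψ ^ 2) (by
      rw [dbl, ← Finset.mul_sum, ← Finset.mul_sum]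
      have e1 := mul_le_mul S.ay2 S.y1 (Finset.sum_nonneg fun k _ => hy k) (by positivity)
      have e2 := mul_le_mul S.a1 S.y3 (Finset.sum_nonneg fun k _ => pow_nonneg (hy k) 3)
        (Real.sqrt_nonneg _)
      linarith)
  refine le_trans (Finset.sum_le_sum fun a _ => ?_) (h.trans (le_of_eq (by ring)))
  rw [mul_assoc]
  refine mul_le_mul_of_nonneg_left (mul_le_mul_of_nonneg_left ?_ (sq_nonneg _)) (abs_nonneg _)
  have h0 : 0 ≤ al (E.i a) * y (E.j a) + al (E.j a) * y (E.i a) :=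
    add_nonneg (mul_nonneg (ha _) (hy _)) (mul_nonneg (ha _) (hy _))
  nlinarith [mul_nonneg h0 (sq_nonneg (y (E.i a) - y (E.j a)))]

lemma A4 : ∑ a, |E.c a| * E.c a ^ 2 *
    ((al (E.i a) * y (E.j a) + al (E.j a) * y (E.i a)) * (y (E.i a) * y (E.j a)) ^ 2) ≤
    486 * V ^ 2 * ψ ^ 3 := by
  have h := sum3 R E hn (fun k l => al k * y k ^ 2 * y l ^ 3)
    (fun k l => by have := ha k; have := hy k; have := hy l; positivity)
    (M := 243 * V ^ 2 * ψ ^ 3) (by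
      rw [← Finset.sum_mul_sum]
      have e1 := mul_le_mul S.ay2 S.y3 (Finset.sum_nonneg fun k _ => pow_nonneg (hy k) 3)
        (by positivity)
      linarith)
  refine le_trans (le_of_eq (Finset.sum_congr rfl fun a _ => ?_)) (h.trans (le_of_eq (by ring)))
  ring

end abs

lemma wt_le {t V : ℝ} (hV : 1 ≤ V) (h : |t| ≤ V) : wt t ≤ 2 * V ^ 3 := by
  unfold wt
  have h1 : |t| ^ 3 ≤ V ^ 3 := pow_le_pow_left₀ (abs_nonneg _) h 3
  have h2 : V ≤ V ^ 3 := by simpa using pow_le_pow_right₀ hV (show 1 ≤ 3 by norm_num)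
  linarith

lemma wsum {ι : Type} [Fintype ι] {x : ι → ℝ} {V : ℝ} (hV : 1 ≤ V) (h : ∀ a, |x a| ≤ V)
    {b : ι → ℝ} (hb : ∀ a, 0 ≤ b a) {M : ℝ} (hM : ∑ a, b a ≤ M) :
    ∑ a, wt (x a) * b a ≤ 2 * V ^ 3 * M := by
  calc _ ≤ ∑ a, 2 * V ^ 3 * b a :=
        Finset.sum_le_sum fun a _ => mul_le_mul_of_nonneg_right (wt_le hV (h a)) (hb a)
    _ ≤ _ := by
        rw [← Finset.mul_sum]; exact mul_le_mul_of_nonneg_left hM (by positivity)

end Q47

open Q47 Matrix Function in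
theorem qDet (R : ResApi) : QDetStmt := by
  refine ⟨4000, 7, by norm_num, fun n E z u v hn hz hzn hu hv =>
    ⟨dat E z u v, rfl, dat_ok R E hn hz hzn hu hv, ?_⟩⟩
  intro x W Γ ψ hW hΓ hzΓ hx hWΓ hBd ψ0 ψ1 hψ hIm
  have hn' : (0 : ℝ) < n := by exact_mod_cast hn
  have hz0 : 0 < z.im := lt_of_lt_of_le (by positivity) hz
  have hη : 1 ≤ n * z.im := by rw [div_le_iff₀ hn'] at hz; linarith
  set V := W * Γ with hVdef
  have hΓV : Γ ≤ V := by nlinarith
  have hWV : W ≤ V := by nlinarith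
  have hV : 1 ≤ V := hΓ.trans hΓV
  have hH := R.herm E x
  set g := gb (E.H x) z with hg
  have B : Base g z u v Γ V ψ := by
    refine ⟨hn, R.symm hH z, hΓ, hΓV, hzΓ, hBd, ψ0, ψ1, fun p hp => ?_⟩
    rw [R.ward hH hz0 p, div_le_iff₀ hz0]
    have := hIm p hp
    unfold qq at this
    rw [one_div_mul_eq_div, div_le_iff₀ (by positivity)] at this
    linarith
  have hl : Lin g := R.lin (E.H x) z
  have ho : Op g := fun w hw => by
    simp only [B.s w]
    rw [R.ward hH hz0 w]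
    have h1 := ((le_abs_self _).trans (Complex.abs_im_le_norm _)).trans (R.bound hH hz0 w w hw hw)
    have h2 : 1 / z.im ≤ n := by rw [div_le_iff₀ hz0]; linarith
    calc _ ≤ (1 / z.im) / z.im := by gcongr
      _ = (1 / z.im) ^ 2 := by ring
      _ ≤ _ := by gcongr
  have hr : 0 < √(n : ℝ) := Real.sqrt_pos.2 hn'
  have hr2 : √(n : ℝ) ^ 2 = n := Real.sq_sqrt hn'.le
  have hc : ∀ a, |E.c a| * √(n : ℝ) ≤ 1 := fun a => by
    refine (sq_le_one_iff₀ (by positivity)).1 ?_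
    have := E.c_sq a
    rw [le_div_iff₀ hn'] at this
    rwa [mul_pow, sq_abs, hr2]
  have hcψ : ∀ a, |E.c a| ≤ ψ := fun a =>
    (pow_le_pow_iff_left₀ (abs_nonneg _) ψ0 two_ne_zero).1 (by
      rw [sq_abs]; exact (E.c_sq a).trans hψ)
  have P : ∀ a, ∀ t ∈ Set.uIcc 0 (x a),
      Pert g (gb (E.H (update x a t)) z) Γ V ψ ((t - x a) * E.c a) (E.i a) (E.j a) := by
    intro a t ht
    have h1 : |t - x a| ≤ W := by
      refine le_trans ?_ (hx a)
      have := Set.abs_sub_right_of_mem_uIcc ht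
      rwa [sub_zero, abs_sub_comm] at this
    have h2 : |(t - x a) * E.c a| * Γ ≤ V * |E.c a| := by
      rw [abs_mul]
      calc _ ≤ W * |E.c a| * Γ := by gcongr
        _ = _ := by rw [hVdef]; ring
    refine ⟨R.symm (R.herm E _) z, fun p q => ?_, h2.trans ?_, h2.trans (by gcongr; exact hcψ a)⟩
    · rw [R.upd E x a t]; exact R.pert hH hz0 _ _ _ p q
    · have h3 : V ≤ √(n : ℝ) / 8 := by rw [hVdef]; linarith
      calc _ ≤ √(n : ℝ) / 8 * |E.c a| := by gcongr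
        _ ≤ _ := by linarith [hc a]
  have S := B.sums hu
  have ha : ∀ k, 0 ≤ |u k| := fun k => abs_nonneg _
  have hy := B.y0
  have hxV : ∀ a, |x a| ≤ V := fun a => (hx a).trans hWV
  have pw : ∀ k l : ℕ, k ≤ l → V ^ k ≤ V ^ l := fun k l h => pow_le_pow_right₀ hV h
  refine ⟨fun a => |E.c a| * (4 * V ^ 2) *
      (|u (E.i a)| * yy g u v ψ (E.j a) + |u (E.j a)| * yy g u v ψ (E.i a)),
    fun a => E.c a ^ 2 * (16 * V ^ 3) *
      ((|u (E.i a)| + |u (E.j a)|) * (yy g u v ψ (E.i a) + yy g u v ψ (E.j a))),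
    fun a => |E.c a| * E.c a ^ 2 * (128 * V ^ 4) *
      ((|u (E.i a)| + |u (E.j a)|) * (yy g u v ψ (E.i a) + yy g u v ψ (E.j a))),
    fun a => |E.c a| * (128 * V ^ 5) * (yy g u v ψ (E.i a) * yy g u v ψ (E.j a)),
    fun a => E.c a ^ 2 * (1152 * V ^ 6) * (yy g u v ψ (E.i a) + yy g u v ψ (E.j a)) ^ 2,
    fun a t ht => ⟨(P a t ht).f0 B _, (P a t ht).f1 B _, (P a t ht).f2 B _, (P a t ht).x1 B _,
      (P a t ht).x2 B _, ?_⟩, ?_, ?_, ?_⟩
  · show ‖QQ (E.H (update x a t)) z u v - QQ (E.H x) z u v‖ ≤ _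
    rw [QQ_eq R, QQ_eq R, add_sub_add_left_eq_sub]
    refine ((P a t ht).x0 B).trans ?_
    have := mul_le_mul_of_nonneg_right (pw 3 7 (by norm_num)) ψ0
    have := mul_nonneg (pow_nonneg (zero_le_one.trans hV) 7) ψ0
    linarith
  · have h1 := S1 R E B hl hu
    have h2 := wsum hV hxV (b := fun a => |E.c a| * E.c a ^ 2 * (128 * V ^ 4) *
      ((|u (E.i a)| + |u (E.j a)|) * (yy g u v ψ (E.i a) + yy g u v ψ (E.j a))))
      (fun a => by have := hy (E.i a); have := hy (E.j a); positivity)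
      (M := 128 * V ^ 4 * (12 * ψ)) (by
        refine le_trans (le_of_eq ?_) (mul_le_mul_of_nonneg_left (A1 R E hn S ha hy ψ0)
          (show 0 ≤ 128 * V ^ 4 by positivity))
        rw [Finset.mul_sum]; exact Finset.sum_congr rfl fun a _ => by ring)
    refine (add_le_add h1 h2).trans ?_
    have e1 : ψ ≤ V ^ 7 * ψ := by simpa using mul_le_mul_of_nonneg_right (pw 0 7 (by norm_num)) ψ0
    have e2 : Γ * ψ ≤ V ^ 7 * ψ := mul_le_mul_of_nonneg_right
      (hΓV.trans (by simpa using pw 1 7 (by norm_num))) ψ0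
    nlinarith
  · have h1 := S2 R E B hl ho hu (RingHom.id ℂ) (fun _ => rfl) (fun _ => rfl)
    have h1' := S2 R E B hl ho hu (starRingEnd ℂ) (fun w => Complex.norm_conj w)
      (fun t => Complex.conj_ofReal t)
    have h2 := wsum hV hxV (b := fun a => E.c a ^ 2 * (16 * V ^ 3) *
      ((|u (E.i a)| + |u (E.j a)|) * (yy g u v ψ (E.i a) + yy g u v ψ (E.j a))) *
      (|E.c a| * (128 * V ^ 5) * (yy g u v ψ (E.i a) * yy g u v ψ (E.j a))) +
      |E.c a| * (4 * V ^ 2) *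
      (|u (E.i a)| * yy g u v ψ (E.j a) + |u (E.j a)| * yy g u v ψ (E.i a)) *
      (E.c a ^ 2 * (1152 * V ^ 6) * (yy g u v ψ (E.i a) + yy g u v ψ (E.j a)) ^ 2))
      (fun a => by have := hy (E.i a); have := hy (E.j a); positivity)
      (M := 2048 * V ^ 8 * (108 * V * ψ ^ 2) + 4608 * V ^ 8 * (216 * V * ψ ^ 2)) (by
        refine le_trans (le_of_eq ?_) (add_le_add
          (mul_le_mul_of_nonneg_left (A2 R E hn S ha hy hV ψ0 ψ1) (show 0 ≤ 2048 * V ^ 8 by positivity))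
          (mul_le_mul_of_nonneg_left (A3 R E hn S ha hy hV ψ0) (show 0 ≤ 4608 * V ^ 8 by positivity)))
        rw [Finset.mul_sum, Finset.mul_sum, ← Finset.sum_add_distrib]
        exact Finset.sum_congr rfl fun a _ => by ring)
    refine (add_le_add (add_le_add h1 h1') h2).trans ?_
    have e1 := mul_le_mul_of_nonneg_right (pw 2 14 (by norm_num)) (sq_nonneg ψ)
    have e2 := mul_le_mul_of_nonneg_right (pw 12 14 (by norm_num)) (sq_nonneg ψ)
    have e3 : 0 ≤ V ^ 14 * ψ ^ 2 := by positivity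
    calc _ = 26 * (V ^ 2 * ψ ^ 2) + 2433024 * (V ^ 12 * ψ ^ 2) := by ring
      _ ≤ 16000000 * (V ^ 14 * ψ ^ 2) := by linarith
      _ = _ := by ring
  · have h2 := wsum hV hxV (b := fun a => |E.c a| * (4 * V ^ 2) *
      (|u (E.i a)| * yy g u v ψ (E.j a) + |u (E.j a)| * yy g u v ψ (E.i a)) *
      (|E.c a| * (128 * V ^ 5) * (yy g u v ψ (E.i a) * yy g u v ψ (E.j a))) ^ 2)
      (fun a => by have := hy (E.i a); have := hy (E.j a); positivity)
      (M := 65536 * V ^ 12 * (486 * V ^ 2 * ψ ^ 3)) (by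
        refine le_trans (le_of_eq ?_) (mul_le_mul_of_nonneg_left (A4 R E hn S ha hy hV ψ0)
          (show 0 ≤ 65536 * V ^ 12 by positivity))
        rw [Finset.mul_sum]
        exact Finset.sum_congr rfl fun a _ => by rw [← sq_abs (E.c a)]; ring)
    refine h2.trans ?_
    have e2 := mul_le_mul_of_nonneg_right (pw 17 21 (by norm_num)) (pow_nonneg ψ0 3)
    have e3 : 0 ≤ V ^ 21 * ψ ^ 3 := by positivity
    calc _ = 63700992 * (V ^ 17 * ψ ^ 3) := by ring
      _ ≤ 64000000000 * (V ^ 21 * ψ ^ 3) := by linarith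
      _ = _ := by ring

end Crest.Agent.T157.Ll
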