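import Mathlib

/-!
# Row 157, part E: the semicircle law on the real line (helper84)

* `scF t = (t - sin t cos t) / π` (mass of `[2 cos t, 2]`), `scN x` (mass of `[x, ∞)`),
  quantiles `scT`, classical locations `gam n k`;
* edge bounds `scN_edge_le`, `le_scN_edge`, inverse estimate `cube_le`;
* integrals `scI f`, integration by parts `scI_eq`, explicit values `scI_res`, `scI_res2`, `scI_log`.
-/

set_option autoImplicit false

noncomputable section

namespace Crest.Agent.T157.Sc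

open Real Set MeasureTheory intervalIntegral

lemma le_of_deriv {f f' : ℝ → ℝ} (h : ∀ x, HasDerivAt f (f' x) x) {a b : ℝ} (hab : a ≤ b)
    (h0 : ∀ x ∈ Icc a b, 0 ≤ f' x) : f a ≤ f b := by
  rcases hab.eq_or_lt with rfl | hlt
  · exact le_rfl
  obtain ⟨c, hc, e⟩ := exists_hasDerivAt_eq_slope f f' hlt
    (fun x _ => (h x).continuousAt.continuousWithinAt) fun x _ => h x
  have := h0 c (Ioo_subset_Icc_self hc)
  rw [e, le_div_iff₀ (sub_pos.2 hlt)] at this
  linarith

/-- semicircle mass of `[2 cos t, 2]` -/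
def scF (t : ℝ) : ℝ := (t - sin t * cos t) / π

lemma hasDerivAt_scF (t : ℝ) : HasDerivAt scF (2 * sin t ^ 2 / π) t := by
  have := ((hasDerivAt_id t).sub ((hasDerivAt_sin t).mul (hasDerivAt_cos t))).div_const π
  refine this.congr_deriv ?_
  congr 1
  nlinarith [sin_sq_add_cos_sq t]

lemma continuous_scF : Continuous scF := by unfold scF; fun_prop

lemma scF_mono : Monotone scF := fun _ _ hab =>
  le_of_deriv hasDerivAt_scF hab fun _ _ => by have := pi_pos; positivity

@[simp] lemma scF_zero : scF 0 = 0 := by simp [scF]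
@[simp] lemma scF_pi : scF π = 1 := by simp [scF, pi_ne_zero]

lemma scF_pi_sub (t : ℝ) : scF (π - t) = 1 - scF t := by
  simp only [scF, sin_pi_sub, cos_pi_sub]
  field_simp
  ring

lemma scF_le_cube {t : ℝ} (ht : 0 ≤ t) : scF t ≤ 2 * t ^ 3 / (3 * π) := by
  have h := sin_ge_sub_cube (x := 2 * t) (by linarith)
  rw [sin_two_mul] at h
  rw [scF, div_le_div_iff₀ pi_pos (by have := pi_pos; positivity)]
  have := mul_le_mul_of_nonneg_right h pi_pos.le
  nlinarith

lemma sub_sin_ge {x : ℝ} (h0 : 0 ≤ x) (h1 : x ≤ π) : 2 / (3 * π ^ 2) * x ^ 3 ≤ x - sin x := by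
  have := le_of_deriv (f := fun x => x - sin x - 2 / (3 * π ^ 2) * x ^ 3)
    (f' := fun x => 1 - cos x - 2 / π ^ 2 * x ^ 2) (fun x => by
      have := ((hasDerivAt_id x).sub (hasDerivAt_sin x)).sub
        ((hasDerivAt_pow 3 x).const_mul (2 / (3 * π ^ 2)))
      refine this.congr_deriv ?_
      field_simp
      norm_num
      ring) h0 fun y hy => by
        have := cos_le_one_sub_mul_cos_sq (x := y) (by rw [abs_of_nonneg hy.1]; linarith [hy.2])
        linarith
  simp only [sin_zero, sub_zero, ne_eq, OfNat.ofNat_ne_zero, not_false_eq_true, zero_pow,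
    mul_zero] at this
  linarith

lemma cube_le_scF {t : ℝ} (h0 : 0 ≤ t) (h1 : t ≤ π) : t ^ 3 / π ^ 3 ≤ scF t := by
  have hp := pi_pos
  rw [scF, div_le_div_iff₀ (by positivity) hp]
  suffices t ^ 3 ≤ (t - sin t * cos t) * π ^ 2 by nlinarith
  rcases le_total t (π / 2) with h | h
  · have := sub_sin_ge (x := 2 * t) (by linarith) (by linarith)
    rw [sin_two_mul, div_mul_eq_mul_div, div_le_iff₀ (by positivity)] at this
    nlinarith [pow_nonneg h0 3]
  · have a1 := sin_nonneg_of_nonneg_of_le_pi h0 h1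
    have a2 := cos_nonpos_of_pi_div_two_le_of_le h (by linarith)
    have a3 : t ^ 2 ≤ π ^ 2 := pow_le_pow_left₀ h0 h1 2
    nlinarith [mul_nonneg a1 (neg_nonneg.2 a2), mul_le_mul_of_nonneg_left a3 h0,
      mul_nonneg (mul_nonneg a1 (neg_nonneg.2 a2)) (sq_nonneg π)]

lemma scF_le_sin_cube {t : ℝ} (h0 : 0 ≤ t) (h1 : t ≤ π / 2) : scF t ≤ sin t ^ 3 := by
  have hp := pi_pos
  have a1 := pow_le_pow_left₀ (by positivity) (mul_le_sin h0 h1) 3
  refine (scF_le_cube h0).trans (le_trans ?_ a1)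
  rw [mul_pow, div_pow, div_mul_eq_mul_div, div_le_div_iff₀ (by positivity) (by positivity)]
  have a2 : π ^ 2 ≤ 12 := by nlinarith [pi_lt_d2]
  nlinarith [mul_le_mul_of_nonneg_left a2 (mul_nonneg (pow_nonneg h0 3) hp.le)]

lemma min_le_sin_cube {t : ℝ} (h0 : 0 ≤ t) (h1 : t ≤ π) : min (scF t) (1 - scF t) ≤ sin t ^ 3 := by
  rcases le_total t (π / 2) with h | h
  · exact (min_le_left _ _).trans (scF_le_sin_cube h0 h)
  · refine (min_le_right _ _).trans ?_
    rw [← scF_pi_sub, ← sin_pi_sub]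
    exact scF_le_sin_cube (by linarith) (by linarith)

lemma cos_sub_mul_le' {s t : ℝ} (h0 : 0 ≤ s) (hst : s ≤ t) (h1 : t ≤ π) :
    (cos s - cos t) * sin t ≤ π * (scF t - scF s) := by
  have hp := pi_pos
  set g : ℝ → ℝ := fun u => π * scF u + sin t * cos u with hg
  have hd : ∀ u, HasDerivAt g (sin u * (2 * sin u - sin t)) u := fun u => by
    have := ((hasDerivAt_scF u).const_mul π).add ((hasDerivAt_cos u).const_mul (sin t))
    refine this.congr_deriv ?_
    field_simp
    ring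
  suffices g s ≤ g t by simp only [hg] at this; linarith
  have ht0 := sin_nonneg_of_nonneg_of_le_pi (h0.trans hst) h1
  by_cases hc : sin t ≤ 2 * sin s
  · refine le_of_deriv hd hst fun u hu => mul_nonneg
      (sin_nonneg_of_nonneg_of_le_pi (h0.trans hu.1) (hu.2.trans h1)) ?_
    rcases le_total u (π / 2) with h | h
    · have := sin_le_sin_of_le_of_le_pi_div_two (x := s) (y := u) (by linarith) h hu.1
      linarith
    · have := sin_le_sin_of_le_of_le_pi_div_two (x := π - t) (y := π - u) (by linarith)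
        (by linarith) (by linarith [hu.2])
      rw [sin_pi_sub, sin_pi_sub] at this
      linarith
  · have hs : s ≤ π / 2 := by
      by_contra h
      have := sin_le_sin_of_le_of_le_pi_div_two (x := π - t) (y := π - s) (by linarith)
        (by linarith) (by linarith)
      rw [sin_pi_sub, sin_pi_sub] at this
      linarith
    have a1 : -g 0 ≤ -g s := le_of_deriv (f := fun u => -g u) (fun u => (hd u).neg) h0
      fun u hu => by
        have b1 := sin_le_sin_of_le_of_le_pi_div_two (x := u) (y := s) (by linarith [hu.1]) hs hu.2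
        have b2 := sin_nonneg_of_nonneg_of_le_pi hu.1 (by linarith [hu.2])
        nlinarith
    have a2 : g 0 ≤ g t := by
      simp only [hg, cos_zero, scF]
      have := sin_le (h0.trans hst)
      field_simp
      simp only [sin_zero]
      linarith
    linarith

lemma cos_sub_mul_le {s t : ℝ} (hs : s ∈ Icc 0 π) (ht : t ∈ Icc 0 π) :
    |cos s - cos t| * sin t ≤ π * |scF s - scF t| := by
  rcases le_total s t with h | h
  · have a1 := cos_le_cos_of_nonneg_of_le_pi hs.1 ht.2 h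
    rw [abs_of_nonneg (by linarith), abs_sub_comm, abs_of_nonneg (sub_nonneg.2 (scF_mono h))]
    exact cos_sub_mul_le' hs.1 h ht.2
  · have a1 := cos_le_cos_of_nonneg_of_le_pi ht.1 hs.2 h
    have := cos_sub_mul_le' (s := π - s) (t := π - t) (by linarith [hs.2]) (by linarith)
      (by linarith [ht.1])
    rw [cos_pi_sub, cos_pi_sub, sin_pi_sub, scF_pi_sub, scF_pi_sub] at this
    rw [abs_of_nonpos (by linarith), abs_of_nonneg (sub_nonneg.2 (scF_mono h))]
    linarith

/-- semicircle mass of `[x, ∞)` -/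
def scN (x : ℝ) : ℝ := scF (arccos (x / 2))

lemma continuous_scN : Continuous scN :=
  continuous_scF.comp (continuous_arccos.comp (continuous_id.div_const 2))

lemma scN_anti : Antitone scN := fun _ _ h => scF_mono (arccos_le_arccos (by linarith))

lemma scN_of_two_le {x : ℝ} (h : 2 ≤ x) : scN x = 0 := by
  rw [scN, arccos_of_one_le (by linarith), scF_zero]

lemma scN_of_le {x : ℝ} (h : x ≤ -2) : scN x = 1 := by
  rw [scN, arccos_of_le_neg_one (by linarith), scF_pi]

lemma scN_nonneg (x : ℝ) : 0 ≤ scN x := scF_zero ▸ scF_mono (arccos_nonneg _)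
lemma scN_le_one (x : ℝ) : scN x ≤ 1 := scF_pi ▸ scF_mono (arccos_le_pi _)

lemma scN_neg (x : ℝ) : scN (-x) = 1 - scN x := by
  rw [scN, neg_div, arccos_neg, scF_pi_sub, scN]

lemma scN_cos {t : ℝ} (ht : t ∈ Icc 0 π) : scN (2 * cos t) = scF t := by
  rw [scN, mul_div_cancel_left₀ _ two_ne_zero, arccos_cos ht.1 ht.2]

lemma two_cos_arccos {x : ℝ} (hx : |x| ≤ 2) : 2 * cos (arccos (x / 2)) = x := by
  rw [cos_arccos (by linarith [(abs_le.1 hx).1]) (by linarith [(abs_le.1 hx).2])]; ring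

/-- `scN (2 - x) ≤ x^{3/2}` -/
lemma scN_edge_le {x : ℝ} (hx : 0 ≤ x) : scN (2 - x) ≤ x * √x := by
  have hp := pi_pos
  rcases le_total x 4 with h4 | h4
  · set t := arccos ((2 - x) / 2) with ht
    have h0 : 0 ≤ t := arccos_nonneg _
    have h1 : t ≤ π := arccos_le_pi _
    have e : 2 * cos t = 2 - x := two_cos_arccos (abs_le.2 ⟨by linarith, by linarith⟩)
    have a1 := cos_le_one_sub_mul_cos_sq (x := t) (by rwa [abs_of_nonneg h0])
    have a2 : (2 * t / π) ^ 2 ≤ x := by
      rw [show (2 * t / π) ^ 2 = 2 * (2 / π ^ 2 * t ^ 2) by field_simp]; linarith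
    have a3 : 2 * t / π ≤ √x := le_sqrt_of_sq_le a2
    have a4 := mul_le_mul a2 a3 (by positivity) hx
    refine (scF_le_cube h0).trans (le_trans ?_ a4)
    rw [show (2 * t / π) ^ 2 * (2 * t / π) = 8 * t ^ 3 / π ^ 3 by field_simp; ring,
      div_le_div_iff₀ (by positivity) (by positivity)]
    have a2 : π ^ 2 ≤ 12 := by nlinarith [pi_lt_d2]
    nlinarith [mul_le_mul_of_nonneg_left a2 (mul_nonneg (pow_nonneg h0 3) hp.le)]
  · have : 1 ≤ √x := one_le_sqrt.2 (by linarith)
    nlinarith [scN_le_one (2 - x)]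

/-- `x^{3/2} / 32 ≤ scN (2 - x)` on `[0, 4]` -/
lemma le_scN_edge {x : ℝ} (hx : 0 ≤ x) (h4 : x ≤ 4) : x * √x / 32 ≤ scN (2 - x) := by
  have hp := pi_pos
  set t := arccos ((2 - x) / 2) with ht
  have h0 : 0 ≤ t := arccos_nonneg _
  have h1 : t ≤ π := arccos_le_pi _
  have e : 2 * cos t = 2 - x := two_cos_arccos (abs_le.2 ⟨by linarith, by linarith⟩)
  have a2 : x ≤ t ^ 2 := by linarith [one_sub_sq_div_two_le_cos (x := t)]
  have a3 : √x ≤ t := sqrt_le_iff.2 ⟨h0, a2⟩
  have a4 := mul_le_mul a2 a3 (sqrt_nonneg x) (sq_nonneg t)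
  refine le_trans ?_ (cube_le_scF h0 h1)
  have a5 : π ^ 3 ≤ 32 := by
    have := pow_le_pow_left₀ hp.le pi_lt_d2.le 3
    linarith [show (3.15 : ℝ) ^ 3 ≤ 32 by norm_num]
  exact div_le_div₀ (by positivity) (by linarith) (by positivity) a5

/-- inverse estimate for the distribution function -/
lemma cube_le {x y : ℝ} (hx : |x| ≤ 2) (hy : |y| ≤ 2) :
    |x - y| ^ 3 * min (scN y) (1 - scN y) ≤ 250 * |scN x - scN y| ^ 3 := by
  have hp := pi_pos
  have h := cos_sub_mul_le (s := arccos (x / 2)) (t := arccos (y / 2))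
    ⟨arccos_nonneg _, arccos_le_pi _⟩ ⟨arccos_nonneg _, arccos_le_pi _⟩
  have e : |x - y| = 2 * |cos (arccos (x / 2)) - cos (arccos (y / 2))| := by
    conv_lhs => rw [← two_cos_arccos hx, ← two_cos_arccos hy]
    rw [← mul_sub, abs_mul, abs_two]
  have hs := sin_nonneg_of_nonneg_of_le_pi (arccos_nonneg (y / 2)) (arccos_le_pi _)
  have a1 := pow_le_pow_left₀ (mul_nonneg (abs_nonneg _) hs) h 3
  have a2 := mul_le_mul_of_nonneg_left (min_le_sin_cube (arccos_nonneg (y / 2)) (arccos_le_pi _))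
    (pow_nonneg (abs_nonneg (x - y)) 3)
  have a5 : π ^ 3 ≤ 31.25 := by
    have := pow_le_pow_left₀ hp.le pi_lt_d4.le 3
    linarith [show (3.1416 : ℝ) ^ 3 ≤ 31.25 by norm_num]
  have a6 := mul_le_mul_of_nonneg_right a5 (pow_nonneg (abs_nonneg (scN x - scN y)) 3)
  refine a2.trans ?_
  rw [e]
  rw [mul_pow, mul_pow] at a1
  simp only [scN] at a6 ⊢
  nlinarith

/-- the quantile angle -/
def scT (p : ℝ) : ℝ := Classical.epsilon fun t => t ∈ Icc 0 π ∧ scF t = p

lemma scT_spec {p : ℝ} (h0 : 0 ≤ p) (h1 : p ≤ 1) : scT p ∈ Icc 0 π ∧ scF (scT p) = p :=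
  Classical.epsilon_spec (p := fun t => t ∈ Icc 0 π ∧ scF t = p)
    (intermediate_value_Icc pi_pos.le continuous_scF.continuousOn (by simpa using ⟨h0, h1⟩))

/-- classical location of the `k`-th largest eigenvalue (`k = 0, …, n - 1`) -/
def gam (n k : ℕ) : ℝ := 2 * cos (scT ((k + 1 / 2) / n))

lemma abs_gam_le (n k : ℕ) : |gam n k| ≤ 2 := by
  rw [gam, abs_mul, abs_two]; linarith [abs_cos_le_one (scT ((k + 1 / 2) / n))]

lemma scN_gam {n k : ℕ} (hk : k < n) : n * scN (gam n k) = k + 1 / 2 := by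
  have h1 : (k : ℝ) + 1 ≤ n := by exact_mod_cast hk
  have hn : (0 : ℝ) < n := by linarith [Nat.cast_nonneg (α := ℝ) k]
  have h := scT_spec (p := (k + 1 / 2) / n) (by positivity) ((div_le_one hn).2 (by linarith))
  rw [gam, scN_cos h.1, h.2]
  field_simp

/-! ### integrals against the semicircle law -/

/-- `∫ f dsc` -/
def scI (f : ℝ → ℝ) : ℝ := ∫ t in (0 : ℝ)..π, f (2 * cos t) * (2 * sin t ^ 2 / π)

lemma two_cos_mem (t : ℝ) : 2 * cos t ∈ Icc (-2 : ℝ) 2 :=
  ⟨by linarith [neg_one_le_cos t], by linarith [cos_le_one t]⟩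

lemma scI_congr {f g : ℝ → ℝ} (h : ∀ x ∈ Icc (-2 : ℝ) 2, f x = g x) : scI f = scI g := by
  simp only [scI, h _ (two_cos_mem _)]

lemma continuous_integrand {f : ℝ → ℝ} (hf : ContinuousOn f (Icc (-2) 2)) :
    Continuous fun t => f (2 * cos t) * (2 * sin t ^ 2 / π) :=
  (hf.comp_continuous (by fun_prop) two_cos_mem).mul (by fun_prop)

lemma scI_const (c : ℝ) : scI (fun _ => c) = c := by
  rw [scI, intervalIntegral.integral_const_mul, integral_eq_sub_of_hasDerivAt
    (fun t _ => hasDerivAt_scF t) (Continuous.intervalIntegrable (by fun_prop) _ _)]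
  simp

lemma scI_add {f g : ℝ → ℝ} (hf : ContinuousOn f (Icc (-2) 2)) (hg : ContinuousOn g (Icc (-2) 2)) :
    scI (fun x => f x + g x) = scI f + scI g := by
  simp only [scI, add_mul]
  exact integral_add ((continuous_integrand hf).intervalIntegrable _ _)
    ((continuous_integrand hg).intervalIntegrable _ _)

lemma scI_const_mul (c : ℝ) (f : ℝ → ℝ) : scI (fun x => c * f x) = c * scI f := by
  simp only [scI, mul_assoc, intervalIntegral.integral_const_mul]

lemma scI_mono {f g : ℝ → ℝ} (hf : ContinuousOn f (Icc (-2) 2)) (hg : ContinuousOn g (Icc (-2) 2))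
    (h : ∀ x ∈ Icc (-2 : ℝ) 2, f x ≤ g x) : scI f ≤ scI g :=
  integral_mono_on pi_pos.le ((continuous_integrand hf).intervalIntegrable _ _)
    ((continuous_integrand hg).intervalIntegrable _ _) fun t _ =>
      mul_le_mul_of_nonneg_right (h _ (two_cos_mem t)) (by have := pi_pos; positivity)

/-- integration by parts -/
theorem scI_eq {f f' : ℝ → ℝ} {a b : ℝ} (ha : a ≤ -2) (hb : 2 ≤ b)
    (hf : ∀ x ∈ Icc a b, HasDerivAt f (f' x) x) (hc : ContinuousOn f' (Icc a b)) :
    scI f = f a + ∫ x in a..b, f' x * scN x := by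
  have hsub : Icc (-2 : ℝ) 2 ⊆ Icc a b := Icc_subset_Icc ha hb
  have hfc : ContinuousOn f (Icc a b) := fun x hx => (hf x hx).continuousAt.continuousWithinAt
  have hg : ContinuousOn (fun x => f' x * scN x) (Icc a b) := hc.mul continuous_scN.continuousOn
  have hi : ∀ {u v : ℝ}, u ≤ v → a ≤ u → v ≤ b →
      IntervalIntegrable (fun x => f' x * scN x) volume u v := fun huv hu hv =>
    (hg.mono (by rw [uIcc_of_le huv]; exact Icc_subset_Icc hu hv)).intervalIntegrable
  have c1 : Continuous fun t => f' (2 * cos t) :=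
    hc.comp_continuous (by fun_prop) fun t => hsub (two_cos_mem t)
  have h1 : ∫ t in (0 : ℝ)..π, (f' (2 * cos t) * (2 * -sin t) * scF t +
      f (2 * cos t) * (2 * sin t ^ 2 / π)) = f (2 * cos π) * scF π - f (2 * cos 0) * scF 0 :=
    integral_eq_sub_of_hasDerivAt (f := fun t => f (2 * cos t) * scF t)
      (fun t _ => ((hf _ (hsub (two_cos_mem t))).comp t ((hasDerivAt_cos t).const_mul 2)).mul
        (hasDerivAt_scF t))
      (Continuous.intervalIntegrable (((c1.mul (by fun_prop)).mul continuous_scF).add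
        (continuous_integrand (hfc.mono hsub))) _ _)
  have c2 : Continuous fun t => f' (2 * cos t) * (2 * -sin t) * scF t :=
    (c1.mul (by fun_prop)).mul continuous_scF
  rw [integral_add (c2.intervalIntegrable _ _)
    ((continuous_integrand (hfc.mono hsub)).intervalIntegrable _ _)] at h1
  have h2 := integral_comp_mul_deriv' (a := 0) (b := π) (f := fun t => 2 * cos t)
    (f' := fun t => 2 * -sin t) (g := fun x => f' x * scN x)
    (fun t _ => (hasDerivAt_cos t).const_mul 2) (by fun_prop)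
    (hg.mono (by rintro _ ⟨t, -, rfl⟩; exact hsub (two_cos_mem t)))
  have h3 : ∫ t in (0 : ℝ)..π, f' (2 * cos t) * (2 * -sin t) * scF t =
      ∫ t in (0 : ℝ)..π, ((fun x => f' x * scN x) ∘ fun t => 2 * cos t) t * (2 * -sin t) := by
    refine integral_congr fun t ht => ?_
    rw [uIcc_of_le pi_pos.le] at ht
    simp only [Function.comp, scN_cos ht]
    ring
  rw [h3, h2] at h1
  simp only [cos_zero, cos_pi, mul_one, mul_neg, scF_pi, scF_zero, mul_zero, sub_zero] at h1
  rw [integral_symm] at h1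
  have h4 : ∫ x in a..(-2), f' x * scN x = f (-2) - f a := by
    rw [← integral_eq_sub_of_hasDerivAt (f := f) (f' := f') (fun x hx => hf x (by
        rw [uIcc_of_le ha] at hx; exact ⟨hx.1, by linarith [hx.2]⟩))
      (hc.mono (by rw [uIcc_of_le ha]; exact Icc_subset_Icc le_rfl (by linarith))).intervalIntegrable]
    refine integral_congr fun x hx => ?_
    rw [uIcc_of_le ha] at hx
    simp only [scN_of_le hx.2, mul_one]
  have h5 : ∫ x in (2 : ℝ)..b, f' x * scN x = 0 := by
    rw [← intervalIntegral.integral_zero (a := 2) (b := b) (μ := volume)]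
    refine integral_congr fun x hx => ?_
    rw [uIcc_of_le hb] at hx
    simp only [scN_of_two_le hx.1, mul_zero]
  rw [← integral_add_adjacent_intervals (hi ha le_rfl (by linarith))
    (hi (by linarith) ha le_rfl), ← integral_add_adjacent_intervals (b := 2)
    (hi (by norm_num) ha hb) (hi hb (by linarith) le_rfl), h4, h5, scI]
  linarith

/-! ### explicit integrals, `z = ρ + 1/ρ` -/

lemma den_pos {ρ x : ℝ} (h : |ρ| < 1) (hx : x ∈ Icc (-2 : ℝ) 2) : 0 < 1 - ρ * x + ρ ^ 2 := by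
  have h1 : |ρ * x| ≤ |ρ| * 2 := by
    rw [abs_mul]; exact mul_le_mul_of_nonneg_left (abs_le.2 hx) (abs_nonneg ρ)
  nlinarith [le_abs_self (ρ * x), sq_abs ρ, sq_pos_of_pos (sub_pos.2 h)]

lemma integral_poisson {ρ : ℝ} (h : |ρ| < 1) :
    ∫ t in (0 : ℝ)..π, (1 - ρ ^ 2) / (1 - ρ * (2 * cos t) + ρ ^ 2) = π := by
  have h1 : ∀ t, 0 < 1 - ρ * cos t := fun t => by
    have : |ρ * cos t| ≤ |ρ| * 1 := by
      rw [abs_mul]; exact mul_le_mul_of_nonneg_left (abs_cos_le_one t) (abs_nonneg ρ)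
    linarith [le_abs_self (ρ * cos t)]
  have c1 : Continuous fun t => (1 - ρ ^ 2) / (1 - ρ * (2 * cos t) + ρ ^ 2) :=
    continuous_const.div (by fun_prop) fun t => (den_pos h (two_cos_mem t)).ne'
  rw [integral_eq_sub_of_hasDerivAt (f := fun t => t + 2 * arctan (ρ * sin t / (1 - ρ * cos t)))
    (fun t _ => ?_) (c1.intervalIntegrable _ _)]
  · simp
  have := (hasDerivAt_id t).add ((((hasDerivAt_sin t).const_mul ρ).div
    (((hasDerivAt_cos t).const_mul ρ).const_sub 1) (h1 t).ne').arctan.const_mul 2)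
  refine this.congr_deriv ?_
  have h2 := (h1 t).ne'
  have h3 := (den_pos h (two_cos_mem t)).ne'
  have h4 : 1 + (ρ * sin t / (1 - ρ * cos t)) ^ 2 =
      (1 - ρ * (2 * cos t) + ρ ^ 2) / (1 - ρ * cos t) ^ 2 := by
    field_simp
    nlinarith [sin_sq_add_cos_sq t]
  simp only [Pi.div_apply]
  have h5 : ρ * cos t * (1 - ρ * cos t) - ρ * sin t * -(ρ * -sin t) =
      (1 - ρ ^ 2 - (1 - ρ * (2 * cos t) + ρ ^ 2)) / 2 := by
    have := sin_sq_add_cos_sq t
    linear_combination (-ρ ^ 2) * this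
  rw [h4, h5]
  generalize 1 - ρ * (2 * cos t) + ρ ^ 2 = D at h3 ⊢
  field_simp
  ring

/-- `∫ dsc(x) / (1 - ρ x + ρ²) = 1` -/
theorem scI_gen {ρ : ℝ} (h : |ρ| < 1) : scI (fun x => 1 / (1 - ρ * x + ρ ^ 2)) = 1 := by
  by_cases h0 : ρ = 0
  · simpa [h0] using scI_const 1
  have hp := pi_pos
  have h1 : 0 < 1 - ρ ^ 2 := by nlinarith [abs_nonneg ρ, sq_abs ρ]
  have e : ∀ t, 1 / (1 - ρ * (2 * cos t) + ρ ^ 2) * (2 * sin t ^ 2 / π) =
      (1 / (ρ * π) * cos t + (1 + ρ ^ 2) / (2 * ρ ^ 2 * π)) - (1 - ρ ^ 2) / (2 * ρ ^ 2 * π) *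
        ((1 - ρ ^ 2) / (1 - ρ * (2 * cos t) + ρ ^ 2)) := fun t => by
    have h3 := (den_pos h (two_cos_mem t)).ne'
    have := sin_sq_add_cos_sq t
    have key : sin t ^ 2 = ((2 * ρ * cos t + 1 + ρ ^ 2) * (1 - ρ * (2 * cos t) + ρ ^ 2) -
        (1 - ρ ^ 2) ^ 2) / (4 * ρ ^ 2) := by
      field_simp
      linear_combination (4 * ρ ^ 2) * this
    rw [key]
    generalize 1 - ρ * (2 * cos t) + ρ ^ 2 = D at h3 ⊢
    field_simp
    ring
  have c1 : Continuous fun t => (1 - ρ ^ 2) / (1 - ρ * (2 * cos t) + ρ ^ 2) :=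
    continuous_const.div (by fun_prop) fun t => (den_pos h (two_cos_mem t)).ne'
  simp only [scI, e]
  rw [integral_sub (Continuous.intervalIntegrable (by fun_prop) _ _)
    ((c1.const_mul _).intervalIntegrable _ _), intervalIntegral.integral_const_mul,
    integral_poisson h, integral_add (Continuous.intervalIntegrable (by fun_prop) _ _)
    (Continuous.intervalIntegrable (by fun_prop) _ _), intervalIntegral.integral_const_mul,
    integral_cos]
  simp only [sin_pi, sin_zero, intervalIntegral.integral_const, smul_eq_mul]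
  field_simp
  ring

/-- `∫ dsc(x) / (1 - ρ x + ρ²)² = 1 / (1 - ρ²)` -/
theorem scI_gen2 {ρ : ℝ} (h : |ρ| < 1) :
    scI (fun x => 1 / (1 - ρ * x + ρ ^ 2) ^ 2) = 1 / (1 - ρ ^ 2) := by
  by_cases h0 : ρ = 0
  · simpa [h0] using scI_const 1
  have hp := pi_pos
  have h1 : 0 < 1 - ρ ^ 2 := by nlinarith [abs_nonneg ρ, sq_abs ρ]
  have hd := fun t => (den_pos h (two_cos_mem t)).ne'
  have c1 : Continuous fun t => (1 - ρ ^ 2) / (1 - ρ * (2 * cos t) + ρ ^ 2) :=
    continuous_const.div (by fun_prop) hd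
  have c2 : Continuous fun t => cos t / (1 - ρ * (2 * cos t) + ρ ^ 2) :=
    continuous_cos.div (by fun_prop) hd
  have c3 : Continuous fun t => 2 * sin t ^ 2 / (1 - ρ * (2 * cos t) + ρ ^ 2) ^ 2 :=
    Continuous.div (by fun_prop) (by fun_prop) fun t => pow_ne_zero 2 (hd t)
  have a1 : ∫ t in (0 : ℝ)..π, (cos t / (1 - ρ * (2 * cos t) + ρ ^ 2) -
      ρ * (2 * sin t ^ 2 / (1 - ρ * (2 * cos t) + ρ ^ 2) ^ 2)) = 0 := by
    have c4 : Continuous fun t => cos t / (1 - ρ * (2 * cos t) + ρ ^ 2) -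
      ρ * (2 * sin t ^ 2 / (1 - ρ * (2 * cos t) + ρ ^ 2) ^ 2) := c2.sub (c3.const_mul _)
    rw [integral_eq_sub_of_hasDerivAt (f := fun t => sin t / (1 - ρ * (2 * cos t) + ρ ^ 2))
      (fun t _ => ?_) (c4.intervalIntegrable _ _)]
    · simp
    have := (hasDerivAt_sin t).div
      (((((hasDerivAt_cos t).const_mul 2).const_mul ρ).const_sub 1).add_const (ρ ^ 2)) (hd t)
    refine this.congr_deriv ?_
    have := hd t
    generalize 1 - ρ * (2 * cos t) + ρ ^ 2 = D at this ⊢
    field_simp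
  rw [integral_sub (c2.intervalIntegrable _ _) ((c3.const_mul _).intervalIntegrable _ _),
    intervalIntegral.integral_const_mul] at a1
  have e : ∀ t, cos t / (1 - ρ * (2 * cos t) + ρ ^ 2) = (1 + ρ ^ 2) / (2 * ρ * (1 - ρ ^ 2)) *
      ((1 - ρ ^ 2) / (1 - ρ * (2 * cos t) + ρ ^ 2)) - 1 / (2 * ρ) := fun t => by
    have := hd t
    have key : cos t = (1 + ρ ^ 2 - (1 - ρ * (2 * cos t) + ρ ^ 2)) / (2 * ρ) := by
      field_simp
      ring
    generalize 1 - ρ * (2 * cos t) + ρ ^ 2 = D at this key ⊢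
    rw [key]
    field_simp
  simp only [e] at a1
  rw [integral_sub ((c1.const_mul _).intervalIntegrable _ _) intervalIntegrable_const,
    intervalIntegral.integral_const_mul, integral_poisson h] at a1
  have e2 : ∀ t, 1 / (1 - ρ * (2 * cos t) + ρ ^ 2) ^ 2 * (2 * sin t ^ 2 / π) =
      1 / π * (2 * sin t ^ 2 / (1 - ρ * (2 * cos t) + ρ ^ 2) ^ 2) := fun t => by ring
  simp only [scI, e2]
  rw [intervalIntegral.integral_const_mul]
  set I := ∫ t in (0 : ℝ)..π, 2 * sin t ^ 2 / (1 - ρ * (2 * cos t) + ρ ^ 2) ^ 2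
  simp only [intervalIntegral.integral_const, smul_eq_mul, sub_zero] at a1
  have a2 : ρ * I = ρ * (π / (1 - ρ ^ 2)) := by
    rw [sub_eq_zero] at a1
    rw [← a1]
    field_simp
    ring
  rw [mul_left_cancel₀ h0 a2]
  field_simp

/-- `∫ log (1 - ρ x + ρ²) dsc(x) = ρ² / 2` -/
theorem scI_logD {ρ : ℝ} (h0 : 0 ≤ ρ) (h : ρ < 1) :
    scI (fun x => log (1 - ρ * x + ρ ^ 2)) = ρ ^ 2 / 2 := by
  have hr : ∀ r : ℝ, |max 0 (min r ρ)| < 1 := fun r => by
    rw [abs_of_nonneg (le_max_left _ _)]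
    exact max_lt one_pos ((min_le_right _ _).trans_lt h)
  set c : ℝ → ℝ := fun r => max 0 (min r ρ) with hc
  have hcc : Continuous c := by simp only [hc]; fun_prop
  have hce : ∀ r ∈ uIcc 0 ρ, c r = r := fun r hr => by
    rw [uIcc_of_le h0] at hr
    simp only [hc, min_eq_left hr.2, max_eq_right hr.1]
  set G : ℝ → ℝ → ℝ := fun t r => (2 * c r - 2 * cos t) / (1 - c r * (2 * cos t) + c r ^ 2) *
    (2 * sin t ^ 2 / π) with hG
  have hGc : Continuous (Function.uncurry G) := by
    refine Continuous.mul (Continuous.div (by fun_prop) (by fun_prop) fun p => ?_) (by fun_prop)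
    exact (den_pos (hr p.2) (two_cos_mem p.1)).ne'
  have e1 : ∀ t, log (1 - ρ * (2 * cos t) + ρ ^ 2) * (2 * sin t ^ 2 / π) =
      ∫ r in (0 : ℝ)..ρ, G t r := fun t => by
    have c4 : Continuous fun r => G t r := hGc.comp (Continuous.prodMk_right t)
    rw [integral_eq_sub_of_hasDerivAt
      (f := fun r => log (1 - r * (2 * cos t) + r ^ 2) * (2 * sin t ^ 2 / π)) (fun r hr' => ?_)
      (c4.intervalIntegrable _ _)]
    · simp
    have h3 := (den_pos (hr r) (two_cos_mem t)).ne'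
    have h4 := hce r hr'
    simp only [hc] at h4
    rw [h4] at h3
    have := (((((hasDerivAt_id r).mul_const (2 * cos t)).const_sub 1).add
      (hasDerivAt_pow 2 r)).log h3).mul_const (2 * sin t ^ 2 / π)
    refine this.congr_deriv ?_
    simp only [hG, hce r hr', id, Pi.add_apply]
    congr 2
    norm_num
    ring
  have e2 : ∀ r ∈ uIcc 0 ρ, ∫ t in (0 : ℝ)..π, G t r = r := fun r hr' => by
    have h5 := hr r
    have h4 := hce r hr'
    simp only [hc] at h4
    rw [h4] at h5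
    simp only [hG, hce r hr']
    change scI (fun x => (2 * r - x) / (1 - r * x + r ^ 2)) = r
    by_cases hr0 : r = 0
    · subst hr0
      have : ∀ t, HasDerivAt (fun t => -(4 / (3 * π)) * sin t ^ 3)
          ((2 * 0 - 2 * cos t) / (1 - 0 * (2 * cos t) + 0 ^ 2) * (2 * sin t ^ 2 / π)) t := fun t => by
        refine (((hasDerivAt_sin t).pow 3).const_mul _).congr_deriv ?_
        have := pi_pos
        field_simp
        norm_num
        ring
      rw [scI, integral_eq_sub_of_hasDerivAt (fun t _ => this t)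
        (Continuous.intervalIntegrable (by fun_prop (disch := simp)) _ _)]
      simp
    have c4 : ContinuousOn (fun x => -((1 - r ^ 2) / r) * (1 / (1 - r * x + r ^ 2))) (Icc (-2) 2) :=
      continuousOn_const.mul (continuousOn_const.div (by fun_prop) fun x hx => (den_pos h5 hx).ne')
    rw [scI_congr (g := fun x => 1 / r + -((1 - r ^ 2) / r) * (1 / (1 - r * x + r ^ 2)))
      (fun x hx => by
        have := (den_pos h5 hx).ne'
        have key : x = (1 + r ^ 2 - (1 - r * x + r ^ 2)) / r := by field_simp; ring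
        generalize 1 - r * x + r ^ 2 = D at this key ⊢
        rw [key]
        field_simp
        ring),
      scI_add continuousOn_const c4, scI_const, scI_const_mul, scI_gen h5]
    field_simp
    ring
  simp only [scI, e1]
  rw [intervalIntegral.integral_of_le pi_pos.le]
  simp only [intervalIntegral.integral_of_le h0]
  rw [integral_integral_swap, ← intervalIntegral.integral_of_le h0]
  · simp only [← intervalIntegral.integral_of_le pi_pos.le]
    rw [integral_congr e2, integral_id]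
    ring
  · rw [Measure.prod_restrict, ← Measure.volume_eq_prod]
    exact (hGc.continuousOn.integrableOn_compact (isCompact_Icc.prod isCompact_Icc)).mono_set
      (Set.prod_mono Ioc_subset_Icc_self Ioc_subset_Icc_self)

lemma sub_eq_den {ρ : ℝ} (h0 : 0 < ρ) (x : ℝ) : ρ + 1 / ρ - x = (1 - ρ * x + ρ ^ 2) / ρ := by
  field_simp; ring

/-- Stieltjes transform on the real axis -/
theorem scI_res {ρ : ℝ} (h0 : 0 < ρ) (h : ρ < 1) : scI (fun x => 1 / (ρ + 1 / ρ - x)) = ρ := by
  have h' : |ρ| < 1 := by rwa [abs_of_pos h0]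
  rw [scI_congr (g := fun x => ρ * (1 / (1 - ρ * x + ρ ^ 2))) (fun x _ => by
    rw [sub_eq_den h0]; field_simp), scI_const_mul, scI_gen h', mul_one]

theorem scI_res2 {ρ : ℝ} (h0 : 0 < ρ) (h : ρ < 1) :
    scI (fun x => 1 / (ρ + 1 / ρ - x) ^ 2) = ρ ^ 2 / (1 - ρ ^ 2) := by
  have h' : |ρ| < 1 := by rwa [abs_of_pos h0]
  rw [scI_congr (g := fun x => ρ ^ 2 * (1 / (1 - ρ * x + ρ ^ 2) ^ 2)) (fun x _ => by
    rw [sub_eq_den h0]; field_simp), scI_const_mul, scI_gen2 h', mul_one_div]

theorem scI_log {ρ : ℝ} (h0 : 0 < ρ) (h : ρ < 1) :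
    scI (fun x => log (ρ + 1 / ρ - x)) = ρ ^ 2 / 2 - log ρ := by
  have h' : |ρ| < 1 := by rwa [abs_of_pos h0]
  rw [scI_congr (g := fun x => log (1 - ρ * x + ρ ^ 2) + -log ρ) (fun x hx => by
      rw [sub_eq_den h0, log_div (den_pos h' hx).ne' h0.ne']; ring),
    scI_add (ContinuousOn.log (by fun_prop) fun x hx => (den_pos h' hx).ne') continuousOn_const,
    scI_logD h0.le h, scI_const]
  ring

/-- the root `ρ ∈ (0, 1)` of `ρ + 1/ρ = z` -/
def rt (z : ℝ) : ℝ := (z - √(z ^ 2 - 4)) / 2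

lemma rt_spec {z : ℝ} (hz : 2 < z) : 0 < rt z ∧ rt z < 1 ∧ rt z + 1 / rt z = z := by
  have h4 : 0 ≤ z ^ 2 - 4 := by nlinarith
  have hs := sq_sqrt h4
  have h1 : √(z ^ 2 - 4) < z := (sqrt_lt' (by linarith)).2 (by linarith)
  have h2 : z - 2 < √(z ^ 2 - 4) := lt_sqrt_of_sq_lt (by nlinarith)
  have h0 : 0 < rt z := by rw [rt]; linarith
  refine ⟨h0, by rw [rt]; linarith, ?_⟩
  field_simp
  rw [rt]
  nlinarith

end Crest.Agent.T157.Sc

end
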