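import Crest.Agent.T157.LlDef_91
import Crest.Agent.T157.Sc_84

/-!
# Row 157, part E: rigidity and linear eigenvalue statistics from the counting estimate (helper84)

* `CntA A M`: the counting function is within `M` of the semicircle law on the whole line;
* deterministic consequences: locations, edge counting, `CntA.rig`, linear statistics
  `CntA.sum_le`, `CntA.res`, `CntA.res2`, `CntA.log`;
* `Good ε n A`, `good : VhpM (Good ε)`, `RigStmt`, `rig`.
-/

set_option autoImplicit false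

noncomputable section

namespace Crest.Agent.T157.Ll.Rig

open Real Set MeasureTheory Filter Topology
open Crest.Agent.T157.Eig Crest.Agent.T157.Sc

variable {n : ℕ} {A : Matrix (Fin n) (Fin n) ℝ} {M : ℝ}

/-- the counting function is within `M` of the semicircle law -/
def CntA (A : Matrix (Fin n) (Fin n) ℝ) (M : ℝ) : Prop := ∀ x, |(cnt A x : ℝ) - n * scN x| ≤ M

lemma cntA_of (h : ∀ t ∈ Icc (0 : ℝ) π,
    |(cnt A (2 * cos t) : ℝ) - n * (t - sin t * cos t) / π| ≤ M) : CntA A M := by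
  have h0 : ∀ x, |x| ≤ 2 → |(cnt A x : ℝ) - n * scN x| ≤ M := fun x hx => by
    have := h _ ⟨arccos_nonneg (x / 2), arccos_le_pi _⟩
    rwa [two_cos_arccos hx, mul_div_assoc] at this
  intro x
  rcases le_total x (-2) with h1 | h1
  · have a1 := h0 (-2) (by simp)
    have a2 : (cnt A (-2) : ℝ) ≤ cnt A x := Nat.cast_le.2 (cnt_anti A h1)
    have a3 : (cnt A x : ℝ) ≤ n := by exact_mod_cast (cnt_le_card A x).trans (Fintype.card_fin n).le
    rw [scN_of_le le_rfl, abs_le] at a1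
    rw [scN_of_le h1, abs_le]
    constructor <;> linarith [a1.1, a1.2, (abs_nonneg _).trans (h0 0 (by simp))]
  rcases le_total 2 x with h2 | h2
  · have a1 := h0 2 (by simp)
    have a2 : (cnt A x : ℝ) ≤ cnt A 2 := Nat.cast_le.2 (cnt_anti A h2)
    rw [scN_of_two_le le_rfl, abs_le] at a1
    rw [scN_of_two_le h2, abs_le]
    constructor <;> linarith [a1.1, a1.2, (abs_nonneg _).trans (h0 0 (by simp)),
      Nat.cast_nonneg (α := ℝ) (cnt A x)]
  · exact h0 x (abs_le.2 ⟨h1, h2⟩)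

namespace CntA

lemma nonneg (h : CntA A M) : 0 ≤ M := (abs_nonneg _).trans (h 0)

lemma mono (h : CntA A M) {M' : ℝ} (hM : M ≤ M') : CntA A M' := fun x => (h x).trans hM

lemma loc_le (hA : A.IsHermitian) (h : CntA A M) {k : ℕ} (hk : k < n) :
    (k : ℝ) + 1 ≤ n * scN (lam A k) + M := by
  have h1 : k < cnt A (lam A k) := (lt_cnt_iff hA).2 ⟨by simpa using hk, le_rfl⟩
  have h2 : (k : ℝ) + 1 ≤ cnt A (lam A k) := by exact_mod_cast h1
  linarith [(abs_le.1 (h (lam A k))).2]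

lemma le_loc (hA : A.IsHermitian) (h : CntA A M) {k : ℕ} (hk : k < n) :
    n * scN (lam A k) ≤ k + M := by
  have h1 : Tendsto (fun x => n * scN x) (𝓝[>] (lam A k)) (𝓝 (n * scN (lam A k))) :=
    ((continuous_scN.const_mul _).tendsto _).mono_left nhdsWithin_le_nhds
  refine le_of_tendsto h1 (eventually_nhdsWithin_of_forall fun x hx => ?_)
  have h2 : (cnt A x : ℝ) ≤ k := Nat.cast_le.2 ((cnt_le_iff hA (by simpa using hk)).2 hx)
  linarith [(abs_le.1 (h x)).1]

lemma edge_cnt_le (h : CntA A M) {x : ℝ} (hx : 0 ≤ x) : cnt A (2 - x) ≤ n * (x * √x) + M := by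
  have := mul_le_mul_of_nonneg_left (scN_edge_le hx) (Nat.cast_nonneg (α := ℝ) n)
  linarith [(abs_le.1 (h (2 - x))).2]

lemma le_edge_cnt (h : CntA A M) {x : ℝ} (hx : 0 ≤ x) (h4 : x ≤ 4) :
    n * (x * √x / 32) - M ≤ cnt A (2 - x) := by
  have := mul_le_mul_of_nonneg_left (le_scN_edge hx h4) (Nat.cast_nonneg (α := ℝ) n)
  linarith [(abs_le.1 (h (2 - x))).1]

/-- the `k`-th eigenvalue is not too close to the edge -/
lemma gap_lower (hA : A.IsHermitian) (h : CntA A M) {k : ℕ} (hk : k < n) {x : ℝ} (hx : 0 ≤ x)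
    (hl : 2 - lam A k ≤ x) : (k : ℝ) + 1 ≤ n * (x * √x) + M := by
  have a1 := (scN_anti (show 2 - x ≤ lam A k by linarith)).trans (scN_edge_le hx)
  have := mul_le_mul_of_nonneg_left a1 (Nat.cast_nonneg (α := ℝ) n)
  linarith [h.loc_le hA hk]

/-- the `k`-th eigenvalue is not too far from the edge -/
lemma gap_upper (hA : A.IsHermitian) (h : CntA A M) {k : ℕ} (hk : k < n) {x : ℝ} (hx : 0 ≤ x)
    (h4 : x ≤ 4) (hl : x ≤ 2 - lam A k) : n * (x * √x / 32) ≤ k + M := by
  have a1 := (le_scN_edge hx h4).trans (scN_anti (show lam A k ≤ 2 - x by linarith))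
  have := mul_le_mul_of_nonneg_left a1 (Nat.cast_nonneg (α := ℝ) n)
  linarith [h.le_loc hA hk]

/-- **rigidity**, deterministic form -/
theorem rig (hA : A.IsHermitian) (h : CntA A M) {κ : ℝ} (hκ : 0 ≤ κ) (hE : opn A ≤ 2 + κ) {k : ℕ}
    (hk : k < n) : |lam A k - gam n k| ^ 3 * min ((k : ℝ) + 1) (n - k) * n ^ 2 ≤
      2000 * (M + 1) ^ 3 + 4 * κ ^ 3 * M * n ^ 2 := by
  have hM := h.nonneg
  have h1 : (k : ℝ) + 1 ≤ n := by exact_mod_cast hk
  have hk0 : (0 : ℝ) ≤ k := Nat.cast_nonneg k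
  have hn : (0 : ℝ) < n := by linarith
  have a1 := h.loc_le hA hk
  have a2 := h.le_loc hA hk
  have a3 := abs_le.1 ((abs_lam_le hA k).trans hE)
  set l := lam A k with hl
  set m := min ((k : ℝ) + 1) (n - k) with hm
  have hm0 : 0 ≤ m := le_min (by linarith) (by linarith)
  obtain ⟨x, hx, hxs, hxl⟩ : ∃ x, |x| ≤ 2 ∧ scN x = scN l ∧ |l - x| ^ 3 * m ≤ κ ^ 3 * M := by
    rcases le_total l (-2) with b | b
    · refine ⟨-2, by simp, by rw [scN_of_le le_rfl, scN_of_le b], ?_⟩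
      rw [scN_of_le b] at a2
      exact mul_le_mul (pow_le_pow_left₀ (abs_nonneg _) (abs_le.2 ⟨by linarith, by linarith⟩) 3)
        ((min_le_right _ _).trans (by linarith)) hm0 (by positivity)
    rcases le_total 2 l with b' | b'
    · refine ⟨2, by simp, by rw [scN_of_two_le le_rfl, scN_of_two_le b'], ?_⟩
      rw [scN_of_two_le b'] at a1
      exact mul_le_mul (pow_le_pow_left₀ (abs_nonneg _) (abs_le.2 ⟨by linarith, by linarith⟩) 3)
        ((min_le_left _ _).trans (by linarith)) hm0 (by positivity)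
    · exact ⟨l, abs_le.2 ⟨b, b'⟩, rfl, by simp; positivity⟩
  have c1 := cube_le hx (abs_gam_le n k)
  have c2 := scN_gam hk
  set g := gam n k
  have c3 : n * |scN x - scN g| ≤ M + 1 := by
    rw [← abs_of_pos hn, ← abs_mul, mul_sub, hxs, c2, abs_le]
    constructor <;> linarith
  have c4 : m ≤ 2 * (n * min (scN g) (1 - scN g)) := by
    rw [mul_min_of_nonneg _ _ hn.le, mul_sub, c2, mul_min_of_nonneg _ _ (by norm_num)]
    exact min_le_min (by linarith) (by linarith)
  have c5 : |x - g| ^ 3 * m * n ^ 2 ≤ 500 * (M + 1) ^ 3 := by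
    have d1 := pow_le_pow_left₀ (by positivity) c3 3
    have d2 := mul_le_mul_of_nonneg_left c4 (pow_nonneg (abs_nonneg (x - g)) 3)
    have d3 := mul_le_mul_of_nonneg_right d2 (sq_nonneg (n : ℝ))
    have d4 := mul_le_mul_of_nonneg_right c1 (pow_nonneg hn.le 3)
    nlinarith
  have c6 : |l - g| ^ 3 ≤ 4 * (|l - x| ^ 3 + |x - g| ^ 3) := by
    have d1 := pow_le_pow_left₀ (abs_nonneg _) (abs_sub_le l x g) 3
    have d2 := abs_nonneg (l - x)
    have d3 := abs_nonneg (x - g)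
    nlinarith [mul_nonneg (add_nonneg d2 d3) (sq_nonneg (|l - x| - |x - g|))]
  have c7 := mul_le_mul_of_nonneg_right (mul_le_mul_of_nonneg_right c6 hm0) (sq_nonneg (n : ℝ))
  have c8 := mul_le_mul_of_nonneg_right hxl (sq_nonneg (n : ℝ))
  nlinarith

/-- **linear statistics** -/
theorem sum_le (h : CntA A M) {f f' : ℝ → ℝ} {a b : ℝ} (ha : a ≤ -2) (hb : 2 ≤ b)
    (hs : ∀ k < n, lam A k ∈ Icc a b) (hf : ∀ x ∈ Icc a b, HasDerivAt f (f' x) x)
    (hc : ContinuousOn f' (Icc a b)) :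
    |∑ k ∈ Finset.range n, f (lam A k) - n * scI f| ≤ M * ∫ x in a..b, |f' x| := by
  have hab : a ≤ b := by linarith
  have hi : IntervalIntegrable f' volume a b := (hc.mono (uIcc_of_le hab).le).intervalIntegrable
  have hi1 : ∀ k ∈ Finset.range n,
      IntervalIntegrable (indicator {x | x ≤ lam A k} f') volume a b := fun k _ =>
    ⟨hi.1.indicator measurableSet_Iic, hi.2.indicator measurableSet_Iic⟩
  have e1 : ∀ k ∈ Finset.range n,
      f (lam A k) = f a + ∫ x in a..b, indicator {x | x ≤ lam A k} f' x := fun k hk => by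
    have hk' := hs k (Finset.mem_range.1 hk)
    rw [intervalIntegral.integral_indicator hk', intervalIntegral.integral_eq_sub_of_hasDerivAt
      (fun x hx => hf x (by rw [uIcc_of_le hk'.1] at hx; exact ⟨hx.1, hx.2.trans hk'.2⟩))
      (hc.mono (by rw [uIcc_of_le hk'.1]; exact Icc_subset_Icc le_rfl hk'.2)).intervalIntegrable]
    ring
  have e2 : ∀ x, ∑ k ∈ Finset.range n, indicator {x | x ≤ lam A k} f' x = f' x * cnt A x := by
    intro x
    rw [cnt_eq_sum, Fintype.card_fin, Finset.mul_sum]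
    refine Finset.sum_congr rfl fun k _ => ?_
    simp [indicator]
  have hi2 : IntervalIntegrable (fun x => f' x * cnt A x) volume a b := by
    have := IntervalIntegrable.sum _ hi1
    refine this.congr fun x _ => ?_
    rw [Finset.sum_apply, e2]
  have hi3 : IntervalIntegrable (fun x => n * (f' x * scN x)) volume a b :=
    (hi.mul_continuousOn continuous_scN.continuousOn).const_mul _
  rw [Finset.sum_congr rfl e1, Finset.sum_add_distrib, ← intervalIntegral.integral_finsetSum hi1,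
    scI_eq ha hb hf hc]
  simp only [e2, Finset.sum_const, Finset.card_range, nsmul_eq_mul]
  rw [mul_add, add_sub_add_left_eq_sub, ← intervalIntegral.integral_const_mul,
    ← intervalIntegral.integral_sub hi2 hi3, ← intervalIntegral.integral_const_mul,
    ← Real.norm_eq_abs]
  refine intervalIntegral.norm_integral_le_of_norm_le hab (ae_of_all _ fun x _ => ?_)
    (hi.abs.const_mul _)
  rw [Real.norm_eq_abs, show f' x * cnt A x - n * (f' x * scN x) =
    (cnt A x - n * scN x) * f' x by ring, abs_mul]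
  exact mul_le_mul_of_nonneg_right (h x) (abs_nonneg _)

theorem sum_mono (h : CntA A M) {f f' : ℝ → ℝ} {a b : ℝ} (ha : a ≤ -2) (hb : 2 ≤ b)
    (hs : ∀ k < n, lam A k ∈ Icc a b) (hf : ∀ x ∈ Icc a b, HasDerivAt f (f' x) x)
    (hc : ContinuousOn f' (Icc a b)) (h0 : ∀ x ∈ Icc a b, 0 ≤ f' x) :
    |∑ k ∈ Finset.range n, f (lam A k) - n * scI f| ≤ M * (f b - f a) := by
  have hab : a ≤ b := by linarith
  refine (h.sum_le ha hb hs hf hc).trans (le_of_eq ?_)
  rw [← intervalIntegral.integral_eq_sub_of_hasDerivAt (fun x hx => hf x (uIcc_of_le hab ▸ hx))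
    (hc.mono (uIcc_of_le hab).le).intervalIntegrable]
  congr 1
  exact intervalIntegral.integral_congr fun x hx => abs_of_nonneg (h0 x (uIcc_of_le hab ▸ hx))

lemma spec_mem (hA : A.IsHermitian) {b : ℝ} (hE : opn A ≤ b) (k : ℕ) : lam A k ∈ Icc (-b) b :=
  abs_le.1 ((abs_lam_le hA k).trans hE)

/-- Stieltjes transform on the real axis outside the spectrum -/
theorem res (hA : A.IsHermitian) (h : CntA A M) {b z : ℝ} (hb : 2 ≤ b) (hE : opn A ≤ b)
    (hz : b < z) : |∑ k ∈ Finset.range n, 1 / (z - lam A k) - n * rt z| ≤ M / (z - b) := by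
  obtain ⟨r0, r1, r2⟩ := rt_spec (z := z) (by linarith)
  have hne : ∀ x ∈ Icc (-b) b, z - x ≠ 0 := fun x hx => by linarith [hx.2, sub_pos.2 hz]
  have := h.sum_mono (f := fun x => 1 / (z - x)) (f' := fun x => 1 / (z - x) ^ 2) (a := -b) (b := b)
    (by linarith) hb (fun k _ => spec_mem hA hE k) (fun x hx => by
      refine ((hasDerivAt_const x (1 : ℝ)).div ((hasDerivAt_id x).const_sub z) (hne x hx)).congr_deriv ?_
      simp)
    (continuousOn_const.div (by fun_prop) fun x hx => pow_ne_zero 2 (hne x hx))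
    fun x _ => by positivity
  have e := scI_res r0 r1
  rw [r2] at e
  rw [e] at this
  refine this.trans ?_
  have : 0 ≤ M * (1 / (z - -b)) := mul_nonneg h.nonneg (one_div_nonneg.2 (by linarith))
  rw [mul_sub, mul_one_div]
  linarith

theorem res2 (hA : A.IsHermitian) (h : CntA A M) {b z : ℝ} (hb : 2 ≤ b) (hE : opn A ≤ b)
    (hz : b < z) : |∑ k ∈ Finset.range n, 1 / (z - lam A k) ^ 2 - n * (rt z ^ 2 / (1 - rt z ^ 2))| ≤
      M / (z - b) ^ 2 := by
  obtain ⟨r0, r1, r2⟩ := rt_spec (z := z) (by linarith)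
  have hpos : ∀ x ∈ Icc (-b) b, 0 < z - x := fun x hx => by linarith [hx.2]
  have := h.sum_mono (f := fun x => 1 / (z - x) ^ 2) (f' := fun x => 2 / (z - x) ^ 3) (a := -b)
    (b := b) (by linarith) hb (fun k _ => spec_mem hA hE k) (fun x hx => by
      refine ((hasDerivAt_const x (1 : ℝ)).div (((hasDerivAt_id x).const_sub z).pow 2)
        (pow_ne_zero 2 (hpos x hx).ne')).congr_deriv ?_
      have := (hpos x hx).ne'
      simp only [id, Pi.pow_apply]
      field_simp
      norm_num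
      ring)
    (continuousOn_const.div (by fun_prop) fun x hx => pow_ne_zero 3 (hpos x hx).ne')
    fun x hx => by have := hpos x hx; positivity
  have e := scI_res2 r0 r1
  rw [r2] at e
  rw [e] at this
  refine this.trans ?_
  have : 0 ≤ M * (1 / (z - -b) ^ 2) := mul_nonneg h.nonneg (by positivity)
  rw [mul_sub, mul_one_div]
  linarith

/-- logarithm of the characteristic polynomial outside the spectrum -/
theorem log (hA : A.IsHermitian) (h : CntA A M) {b z : ℝ} (hb : 2 ≤ b) (hE : opn A ≤ b)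
    (hz : b < z) : |∑ k ∈ Finset.range n, Real.log (z - lam A k) -
      n * (rt z ^ 2 / 2 - Real.log (rt z))| ≤ M * (Real.log (z + b) - Real.log (z - b)) := by
  obtain ⟨r0, r1, r2⟩ := rt_spec (z := z) (by linarith)
  have hpos : ∀ x ∈ Icc (-b) b, 0 < z - x := fun x hx => by linarith [hx.2]
  have := h.sum_mono (f := fun x => -1 * Real.log (z - x)) (f' := fun x => 1 / (z - x)) (a := -b)
    (b := b) (by linarith) hb (fun k _ => spec_mem hA hE k) (fun x hx => by
      refine ((((hasDerivAt_id x).const_sub z).log (hpos x hx).ne').const_mul (-1)).congr_deriv ?_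
      simp only [id]
      ring)
    (continuousOn_const.div (by fun_prop) fun x hx => (hpos x hx).ne')
    fun x hx => by have := hpos x hx; positivity
  have e := scI_log r0 r1
  rw [r2] at e
  rw [scI_const_mul, e, ← Finset.mul_sum, ← abs_neg, sub_neg_eq_add] at this
  convert this using 2 <;> ring

end CntA

/-- the good event: symmetric, no outliers, counting function close to the semicircle law -/
def Good (ε : ℝ) (n : ℕ) (A : Matrix (Fin n) (Fin n) ℝ) : Prop :=
  A.IsHermitian ∧ opn A ≤ 2 + (n : ℝ) ^ (-(2 / 3 : ℝ) + ε) ∧ CntA A ((n : ℝ) ^ ε)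

theorem good (R : ResApi) (V : VhpApi) (hE : EdgeStmt) (hC : CntStmt) {ε : ℝ} (hε : 0 < ε) :
    VhpM (Θ := fun _ => Unit) fun n _ A => Good ε n A :=
  V.mono (V.and (hE ε hε) (hC ε hε)) (Eventually.of_forall fun _ E _ x hx =>
    ⟨R.herm E x, hx.1, cntA_of hx.2⟩)

/-- rigidity on the good event -/
theorem Good.rig {ε : ℝ} (hε : 0 < ε) : ∀ᶠ n : ℕ in atTop, ∀ A, Good (ε / 2) n A → ∀ k < n,
    |lam A k - gam n k| ≤
      (n : ℝ) ^ (-(2 / 3 : ℝ) + ε) * (min ((k : ℝ) + 1) (n - k)) ^ (-(1 / 3 : ℝ)) := by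
  have h1 : ∀ᶠ n : ℕ in atTop, 200 ≤ (n : ℝ) ^ (ε / 2) :=
    ((tendsto_rpow_atTop (by positivity)).comp tendsto_natCast_atTop_atTop).eventually_ge_atTop _
  filter_upwards [h1] with n hn A hA k hk
  have h1 : (k : ℝ) + 1 ≤ n := by exact_mod_cast hk
  have hk0 : (0 : ℝ) ≤ k := Nat.cast_nonneg k
  have hn0 : (0 : ℝ) < n := by linarith
  have h := hA.2.2.rig hA.1 (by positivity) hA.2.1 hk
  set m := min ((k : ℝ) + 1) (n - k) with hm
  have hm0 : 0 < m := lt_min (by linarith) (by linarith)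
  set T := (n : ℝ) ^ (ε / 2) with hT
  have e1 : ((n : ℝ) ^ (-(2 / 3 : ℝ) + ε / 2)) ^ 3 * n ^ 2 = T ^ 3 := by
    rw [hT, ← rpow_natCast _ 3, ← rpow_natCast _ 3, ← rpow_natCast _ 2, ← rpow_mul hn0.le,
      ← rpow_mul hn0.le, ← rpow_add hn0]
    congr 1; push_cast; ring
  have e2 : ((n : ℝ) ^ (-(2 / 3 : ℝ) + ε)) ^ 3 * n ^ 2 = T ^ 6 := by
    rw [hT, ← rpow_natCast _ 3, ← rpow_natCast _ 6, ← rpow_natCast _ 2, ← rpow_mul hn0.le,
      ← rpow_mul hn0.le, ← rpow_add hn0]
    congr 1; push_cast; ring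
  have e3 : (m ^ (-(1 / 3 : ℝ))) ^ 3 * m = 1 := by
    rw [← rpow_natCast _ 3, ← rpow_mul hm0.le, show -(1 / 3 : ℝ) * ((3 : ℕ) : ℝ) = -1 by norm_num,
      rpow_neg_one, inv_mul_cancel₀ hm0.ne']
  refine (pow_le_pow_iff_left₀ (abs_nonneg _) (by positivity) three_ne_zero).1 ?_
  refine le_of_mul_le_mul_right (le_of_mul_le_mul_right (h.trans ?_) (pow_pos hn0 2)) hm0
  have e4 : ((n : ℝ) ^ (-(2 / 3 : ℝ) + ε) * m ^ (-(1 / 3 : ℝ))) ^ 3 * m * n ^ 2 = T ^ 6 := by
    rw [← e2, mul_pow]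
    linear_combination ((n : ℝ) ^ (-(2 / 3 : ℝ) + ε)) ^ 3 * n ^ 2 * e3
  have e5 : 4 * ((n : ℝ) ^ (-(2 / 3 : ℝ) + ε / 2)) ^ 3 * T * n ^ 2 = 4 * T ^ 4 := by
    linear_combination 4 * T * e1
  rw [e4, e5]
  have b1 : (T + 1) ^ 3 ≤ (2 * T) ^ 3 := pow_le_pow_left₀ (by linarith) (by linarith) 3
  have b2 : 0 ≤ T ^ 3 := by positivity
  have b3 : 200 * T ^ 3 ≤ T ^ 4 := by nlinarith
  have b4 : 40000 * T ^ 4 ≤ T ^ 6 := by
    have : 40000 ≤ T ^ 2 := by nlinarith
    nlinarith
  nlinarith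

/-- **rigidity of the eigenvalues** -/
def RigStmt : Prop :=
  ∀ ε : ℝ, 0 < ε → VhpM (Θ := fun _ => Unit) fun n _ A => ∀ k < n, |lam A k - gam n k| ≤
    (n : ℝ) ^ (-(2 / 3 : ℝ) + ε) * (min ((k : ℝ) + 1) (n - k)) ^ (-(1 / 3 : ℝ))

theorem rig (R : ResApi) (V : VhpApi) (hE : EdgeStmt) (hC : CntStmt) : RigStmt := fun _ hε =>
  V.mono (good R V hE hC (half_pos hε)) ((Good.rig hε).mono fun _ hn _ _ _ hx => hn _ hx)

end Crest.Agent.T157.Ll.Rig

end
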