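import Crest.Agent.T157.LlTopQ_91
import Crest.Agent.T157.LlQ_47
import Crest.Agent.T157.LlRig_84

/-!
# Row 157, part E: THE LOCAL LAW, unconditional (helper91)

All statements of `LlDef_91`; use `VhpM.coupling / .disorder / .wmat / .goe`, `instApi.toJ / toW`
to pass to `Jmat`, `Wmat`, `goe`.
-/

set_option autoImplicit false

namespace Crest.Agent.T157.Ll.All

theorem qDetStmt : QDetStmt := qDet resApi
theorem aprStmt : AprStmt := (all_of_qDet qDetStmt).1
theorem pStmt : PStmt := (all_of_qDet qDetStmt).2.1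
theorem avgStmt : AvgStmt := (all_of_qDet qDetStmt).2.2.1
theorem isoStmt : IsoStmt := (all_of_qDet qDetStmt).2.2.2.1
theorem edgeStmt : EdgeStmt := (all_of_qDet qDetStmt).2.2.2.2.1
theorem cntStmt : CntStmt := (all_of_qDet qDetStmt).2.2.2.2.2.1
theorem delStmt : DelStmt := (all_of_qDet qDetStmt).2.2.2.2.2.2
theorem rigStmt : Rig.RigStmt := Rig.rig resApi vhp edgeStmt cntStmt
theorem good {ε : ℝ} (hε : 0 < ε) : VhpM (Θ := fun _ => Unit) fun n _ A => Rig.Good ε n A :=
  Rig.good resApi vhp edgeStmt cntStmt hε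

end Crest.Agent.T157.Ll.All
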