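import Crest.Agent.T157.CpDef_72
import Crest.Agent.T157.LlAll_91
import Crest.Agent.T157.ConcM_16

/-!
# Row 157, part C (helper56): `Cp.nearStmt`, `Cp.fineStmt`
-/

set_option autoImplicit false

noncomputable section

namespace Crest.Agent.T157.Cp

open MeasureTheory Matrix Set Filter Real
open scoped ENNReal
open Crest.Agent.T157.Qe (V Mx zz ell GOE)
open Crest.Agent.T157.Conc (ex gv en)
open Crest.Agent.T157.Cond (symG measurable_symG)
open Crest.Agent.T157.Dq (Dg)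
open Crest.Agent.T157.Eig Crest.Agent.T157.Sc

namespace N56

variable {n : ℕ}

lemma fr_symG (s : ℝ) (x y : Fin n × Fin n → ℝ) :
    fr (symG s x - symG s y) ≤ 2 * s ^ 2 * en (x - y) ^ 2 := by
  have h2 : (s / √2) ^ 2 = s ^ 2 / 2 := by rw [div_pow, sq_sqrt zero_le_two]
  have h : ∀ i j, (symG s x - symG s y) i j ^ 2 ≤
      s ^ 2 * (x - y) (i, j) ^ 2 + s ^ 2 * (x - y) (j, i) ^ 2 := fun i j => by
    have e : (symG s x - symG s y) i j = s / √2 * ((x - y) (i, j) + (x - y) (j, i)) := by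
      simp only [symG, Matrix.sub_apply, of_apply, Pi.sub_apply]; ring
    rw [e, mul_pow, h2]
    nlinarith [mul_nonneg (sq_nonneg s) (sq_nonneg ((x - y) (i, j) - (x - y) (j, i)))]
  refine (Finset.sum_le_sum fun i _ => Finset.sum_le_sum fun j _ => h i j).trans (le_of_eq ?_)
  simp only [Finset.sum_add_distrib, ← Finset.mul_sum]
  rw [Conc.en_sq, Fintype.sum_prod_type,
    Finset.sum_comm (f := fun i j : Fin n => (x - y) (j, i) ^ 2)]
  ring

lemma rt_zz {g : ℝ} (h0 : 0 < g) (h1 : g < 1) : rt (zz g) = g := by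
  have h2 : g ≤ 1 / g := by rw [le_div_iff₀ h0]; nlinarith
  have h3 : g * (1 / g) = 1 := by field_simp
  have : zz g ^ 2 - 4 = (1 / g - g) ^ 2 := by unfold zz; nlinarith
  rw [rt, this, sqrt_sq (by linarith), zz]; ring

lemma sum_eq {A : Mx n} (hA : A.IsHermitian) (f : ℝ → ℝ) :
    ∑ k ∈ Finset.range n, f (lam A k) = ∑ i, f (hA.eigenvalues i) := by
  simpa only [Fintype.card_fin] using sum_range_eq hA fun l _ => f l

lemma abs_eig {A : Mx n} (hA : A.IsHermitian) (i : Fin n) : |hA.eigenvalues i| ≤ opn A := by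
  have := abs_lam_le hA ((eqv (Fin n)).symm i)
  rwa [lam_fin hA, Equiv.apply_symm_apply] at this

/-- the diagonal of the resolvent, from delocalised eigenvectors -/
lemma rz_le {A : Mx n} {a : V n} (h : Dg A a) {z D : ℝ} (hz : ∀ i, a i < z)
    (hD : ∀ (w : V n) (l : ℝ), A *ᵥ w = l • w → w ⬝ᵥ w ≤ 1 → ∀ k, w k ^ 2 ≤ D) (i : Fin n) :
    Rz z A i i ≤ D * Tz a z := by
  obtain ⟨O, hO, rfl⟩ := h
  have hO' : Oᵀ * O = 1 := mul_eq_one_comm.1 hO
  have c : ∀ X : Mx n, Oᵀ * (O * X) = X := fun X => by rw [← Matrix.mul_assoc, hO', Matrix.one_mul]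
  have e1 : z • (1 : Mx n) - O * diagonal a * Oᵀ = O * diagonal (fun k => z - a k) * Oᵀ := by
    rw [← diagonal_sub, ← smul_one_eq_diagonal, Matrix.mul_sub, Matrix.sub_mul, Matrix.mul_smul,
      Matrix.mul_one, Matrix.smul_mul, hO]
  have e : Rz z (O * diagonal a * Oᵀ) = O * diagonal (fun k => (z - a k)⁻¹) * Oᵀ := by
    refine inv_eq_right_inv ?_
    rw [e1]
    simp only [Matrix.mul_assoc, c]
    rw [← Matrix.mul_assoc (diagonal _), diagonal_mul_diagonal,
      show (fun k => (z - a k) * (z - a k)⁻¹) = fun _ => (1 : ℝ) from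
        funext fun k => mul_inv_cancel₀ (sub_pos.2 (hz k)).ne', diagonal_one, Matrix.one_mul, hO]
  rw [e, mul_apply, Tz, Finset.mul_sum]
  refine Finset.sum_le_sum fun k _ => ?_
  have h1 := hD (fun j => O j k) (a k) (by
    have : O * diagonal a * Oᵀ * O = O * diagonal a := by
      rw [Matrix.mul_assoc, hO', Matrix.mul_one]
    funext j
    have h2 := congrFun (congrFun this j) k
    rw [mul_diagonal, mul_apply] at h2
    simpa only [mulVec, dotProduct, Pi.smul_apply, smul_eq_mul, mul_comm (a k)] using h2) (by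
    have h2 := congrFun (congrFun hO' k) k
    rw [mul_apply, one_apply_eq] at h2
    exact h2.le) i
  rw [mul_diagonal, transpose_apply]
  nlinarith [mul_le_mul_of_nonneg_right h1 (inv_pos.2 (sub_pos.2 (hz k))).le]

lemma ev_log {c : ℝ} (hc : 0 < c) : ∀ᶠ n : ℕ in atTop, log 258 + log n ≤ (n : ℝ) ^ c := by
  have h := (isLittleO_log_rpow_atTop hc).bound (show (0 : ℝ) < 1 / 2 by norm_num)
  have h2 := (tendsto_rpow_atTop hc).eventually_ge_atTop (2 * log 258)
  filter_upwards [tendsto_natCast_atTop_atTop.eventually (h.and h2)] with n hn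
  have h3 := hn.1
  rw [Real.norm_eq_abs, Real.norm_eq_abs, abs_of_nonneg (rpow_nonneg (Nat.cast_nonneg n) c)] at h3
  linarith [le_abs_self (log (n : ℝ)), hn.2]

lemma fine_of {ζ : ℝ} (hζ : 0 < ζ) (hn : 1 ≤ n) (hl : log 258 + log n ≤ (n : ℝ) ^ ζ) {A : Mx n}
    (h : Ll.Rig.Good ζ n A) (hD : ∀ (w : V n) (l : ℝ), A *ᵥ w = l • w → w ⬝ᵥ w ≤ 1 →
      ∀ k, w k ^ 2 ≤ (n : ℝ) ^ (-1 + ζ)) : Fine ζ A := by
  obtain ⟨hA, hE, hC⟩ := h
  have n1 : (1 : ℝ) ≤ n := by exact_mod_cast hn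
  have n0 : (0 : ℝ) < n := by linarith
  rw [show -(2 / 3 : ℝ) + ζ = ζ - 2 / 3 by ring] at hE
  have x0 : (n : ℝ)⁻¹ ≤ (n : ℝ) ^ (ζ - 2 / 3) := by
    rw [← rpow_neg_one]; exact rpow_le_rpow_of_exponent_le n1 (by linarith)
  have x1 := inv_pos.2 n0
  have ha := fun i => (abs_eig hA i).trans hE
  refine ⟨hA.eigenvalues, Dq.dg_herm hA, ha, fun g hg hs => ?_⟩
  generalize (n : ℝ) ^ (ζ - 2 / 3) = x at *
  have g0 : 0 < g := lt_of_lt_of_le (by norm_num) hg.1
  have hz : 2 + x < zz g := by linarith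
  have z1 : zz g ≤ 129 := by
    have : 1 / g ≤ 128 := by rw [div_le_iff₀ g0]; linarith [hg.1]
    unfold zz; linarith [hg.2]
  have r1 := hC.res hA (by linarith) hE hz
  have r2 := hC.log hA (by linarith) hE hz
  rw [rt_zz g0 hg.2] at r1 r2
  rw [sum_eq hA fun l => 1 / (zz g - l)] at r1
  rw [sum_eq hA fun l => Real.log (zz g - l)] at r2
  simp only [one_div] at r1
  refine ⟨r1.trans ?_, r2.trans ?_, fun i => ?_⟩
  · rw [div_le_div_iff₀ (by linarith) (by linarith)]
    nlinarith [hC.nonneg]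
  · rw [two_mul, rpow_add n0]
    refine mul_le_mul_of_nonneg_left ?_ hC.nonneg
    have a1 : log (zz g + (2 + x)) ≤ log 258 := log_le_log (by linarith) (by linarith)
    have a2 : log (n : ℝ)⁻¹ ≤ log (zz g - (2 + x)) := log_le_log x1 (by linarith)
    rw [log_inv] at a2
    linarith
  · rw [show ζ - 1 = -1 + ζ by ring]
    exact rz_le (Dq.dg_herm hA) (fun i => by linarith [(abs_le.1 (ha i)).2]) hD i

end N56

open N56 in
theorem nearStmt : NearStmt := by
  intro n F H hn hH hF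
  have n0 : (0 : ℝ) < n := by exact_mod_cast hn
  have hm := measurable_symG (ι := Fin n) (1 / √n)
  have hc : IsClosed {W : Mx n | ∀ W' ∈ F, 16 * H / n ≤ fr (W - W')} := by
    simp only [ofPred_forall]
    refine isClosed_iInter fun W' => isClosed_iInter fun _ => isClosed_le continuous_const ?_
    unfold fr; fun_prop
  have h1 : 1 / 2 ≤ (gv (Fin n × Fin n)).real (symG (1 / √n) ⁻¹' F) := by
    have a1 := measureReal_union_le (μ := gv (Fin n × Fin n)) (symG (1 / √n) ⁻¹' F)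
      (symG (1 / √n) ⁻¹' F)ᶜ
    have a2 : (gv (Fin n × Fin n)).real (symG (1 / √n) ⁻¹' F)ᶜ ≤ 2⁻¹ := by
      have := ENNReal.toReal_mono (by simp) ((Measure.le_map_apply hm.aemeasurable Fᶜ).trans hF)
      rw [ENNReal.toReal_inv, ENNReal.toReal_ofNat] at this
      exact this
    rw [union_compl_self, probReal_univ] at a1
    linarith
  have h2 := Conc.enlarge (symG (1 / √n) ⁻¹' F) (s := 6 / 5) (t := √(2 * H)) (by norm_num)
    (sqrt_nonneg _) (lt_of_lt_of_le (by
      rw [← exp_log (show (0 : ℝ) < 1 / 2 by norm_num), one_div, log_inv, exp_lt_exp]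
      linarith [log_two_lt_d9]) h1)
  have hs := sq_sqrt (show 0 ≤ 2 * H by linarith)
  rw [hs, show -(2 * H) / 2 = -H by ring] at h2
  rw [GOE, Cond.goe, Measure.map_apply hm hc.measurableSet]
  refine (measure_mono fun x hx a ha => ?_).trans
    ((ENNReal.le_ofReal_iff_toReal_le (measure_ne_top _ _) (exp_pos _).le).2 h2)
  have h3 := (hx _ ha).trans (fr_symG _ x a)
  rw [div_pow, sq_sqrt n0.le, div_le_iff₀ n0] at h3
  have e : 2 * (1 ^ 2 / (n : ℝ)) * en (x - a) ^ 2 * n = 2 * en (x - a) ^ 2 := by field_simp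
  refine (abs_le_of_sq_le_sq' ?_ (Conc.en_nonneg _)).2
  nlinarith [sq_nonneg (6 / 5 - √(2 * H))]

open N56 in
theorem fineStmt : FineStmt := fun ζ hζ =>
  Ll.vhp.mono (Ll.vhp.and (Ll.All.good hζ)
    (Ll.vhp.comp (Θ' := fun _ => Unit) (fun n _ => (0 : Fin n → ℝ)) (Ll.All.delStmt ζ hζ))) <| by
  filter_upwards [ev_log hζ, eventually_ge_atTop 1] with n hl hn E θ x hx
  exact fine_of hζ hn hl hx.1 fun w l h1 h2 => (hx.2 (by simp) w l h1 h2).2

end Crest.Agent.T157.Cp

end
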