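import Crest.Agent.T157.CpDef_72
import Crest.Agent.R164.HaarCpl
import Crest.Agent.R166.Gauss_286

/-!
# Row 157, part C (helper10): averaging over the orthogonal group, `Cp.rotStmt`
-/

set_option autoImplicit false

noncomputable section

namespace Crest.Agent.T157.Cp

open MeasureTheory ProbabilityTheory Matrix Set Filter
open scoped ENNReal
open Crest.Agent.T157.Cond
open Crest.Agent.T157.Qe (V Mx GOE)
open Crest.Agent.R164.Haar

namespace Rot10

variable {n : ℕ} {ν : Measure (Mat (Fin n))} [IsProbabilityMeasure ν]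

/-- averaging an invariant law over the group -/
lemma avg {X : Type*} [MeasurableSpace X] (hν : RHaar ν) (μ : Measure X) [SFinite μ]
    {T : Mat (Fin n) → X → X} (hT : Measurable fun p : X × Mat (Fin n) => T p.2 p.1)
    (h : ∀ O : Mat (Fin n), of O * (of O)ᵀ = 1 → μ.map (T O) = μ) {E : Set X}
    (hE : MeasurableSet E) : ∫⁻ z, ν {O | T O z ∈ E} ∂μ = μ E := by
  have hS := hE.preimage hT
  refine ((Measure.prod_apply (μ := μ) (ν := ν) hS).symm.trans
    (Measure.prod_apply_symm hS)).trans ?_
  rw [lintegral_congr_ae (g := fun _ => μ E), lintegral_const, measure_univ, mul_one]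
  filter_upwards [hν.mem] with O hO
  conv_rhs => rw [← h O ((mem_orthogonalGroup_iff _ _).1 hO)]
  exact (Measure.map_apply (hT.comp (measurable_prodMk_right (y := O))) hE).symm

lemma meas_of : Measurable fun O : Mat (Fin n) => (of O : Mx n) :=
  measurable_mat_iff.2 fun i j => by simp only [of_apply]; fun_prop

lemma meas_mv (v : V n) {A : Set (V n)} (hA : MeasurableSet A) :
    MeasurableSet {O : Mat (Fin n) | of O *ᵥ v ∈ A} := by
  have := meas_of (n := n)
  exact hA.preimage (f := fun O : Mat (Fin n) => of O *ᵥ v) (by fun_prop)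

/-- a rotated unit vector is a Gaussian direction -/
lemma sphere (hν : RHaar ν) {v : V n} (hv : v ⬝ᵥ v = 1) {A : Set (V n)} (hA : MeasurableSet A)
    (hc : ∀ c : ℝ, 0 < c → ∀ x, c • x ∈ A ↔ x ∈ A) :
    ν {O | of O *ᵥ v ∈ A} = Conc.gv (Fin n) A := by
  cases n with
  | zero => simp at hv
  | succ N =>
    have key : ∀ u : V (N + 1), ∑ i, u i ^ 2 = 1 →
        ν {O | of O *ᵥ u ∈ A} = ν {O | of O *ᵥ Pi.single (Fin.last N) 1 ∈ A} := fun u hu => by
      conv_rhs => rw [← hν.inv _ (Hh_mem hu)]
      rw [Measure.map_apply (continuous_rmul _).measurable (meas_mv _ hA)]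
      congr 1
      ext O
      change _ ↔ (of O * Hh u) *ᵥ _ ∈ A
      rw [← mulVec_mulVec, show Hh u *ᵥ Pi.single (Fin.last N) 1 = u from
        funext fun i => by rw [mulVec_single_one]; exact Hh_last hu i]
      rfl
    have := meas_of (n := N + 1)
    rw [← avg hν (Conc.gv _) (T := fun O x => of O *ᵥ x) (by fun_prop)
      (fun O hO => R166.Gauss286.gv_map_mulVec _ hO) hA,
      lintegral_congr_ae (g := fun _ => ν {O | of O *ᵥ v ∈ A}), lintegral_const, measure_univ,
      mul_one]
    filter_upwards [gam_nrm_ne_zero (N := N)] with x hx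
    rw [key v (by simpa only [dotProduct, sq] using hv), ← key _ (sum_un hx)]
    congr 1
    ext O
    have h0 : 0 < nrm x := lt_of_le_of_ne (Real.sqrt_nonneg _) hx.symm
    have e : x = nrm x • un x := funext fun i => by
      rw [Pi.smul_apply, un, smul_eq_mul, mul_div_cancel₀ _ hx]
    change of O *ᵥ x ∈ A ↔ of O *ᵥ un x ∈ A
    rw [← hc _ h0 (of O *ᵥ un x), ← mulVec_smul, ← e]

end Rot10

open Rot10

theorem rotStmt : RotStmt := by
  intro n E δ hE h
  obtain ⟨ν, _, hν⟩ := exists_haar n
  have := meas_of (n := n)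
  rw [← avg hν (GOE n) (T := fun O W => of O * W * (of O)ᵀ) (by fun_prop)
    (fun O hO => goe_conj _ _ hO) hE]
  refine (lintegral_mono_ae (g := fun _ => δ) ?_).trans (by simp)
  filter_upwards [goe_ae_symm (1 / √n)] with W hW
  obtain ⟨v, A, hv, hA, hc, hδ, h1 | h1⟩ := h W hW
  · refine (measure_mono_ae ?_).trans ((sphere hν hv hA hc).trans_le hδ)
    filter_upwards [hν.mem] with O hO using h1 _ ((mem_orthogonalGroup_iff _ _).1 hO)
  · refine le_trans ?_ ((sphere hν hv hA hc).trans_le hδ)
    conv_rhs => rw [← hν.map_tr]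
    rw [Measure.map_apply continuous_tr.measurable (meas_mv v hA)]
    refine measure_mono_ae ?_
    filter_upwards [hν.mem] with O hO using h1 _ ((mem_orthogonalGroup_iff _ _).1 hO)

end Crest.Agent.T157.Cp

end
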