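import Crest.Agent.T157.CpDef_72
import Crest.Agent.T157.QeA_24

/-!
# Row 157, part C (helper71): the top eigenvector is flat (`Cp.TopGlue`)
-/

set_option autoImplicit false

noncomputable section

namespace Crest.Agent.T157.Cp

open MeasureTheory ProbabilityTheory Matrix Set Filter
open scoped ENNReal
open Crest.Agent.T157.Qe (V Mx Le GOE)
open Crest.Agent.T157.Conc (ex ex_add ex_mono ex_zero)
open Crest.Agent.T157.Dq (Dg)

namespace Top71

variable {n : ℕ}

lemma ex_sum {ι : Type*} (s : Finset ι) (f : ι → ℝ) : ex (∑ i ∈ s, f i) = ∏ i ∈ s, ex (f i) := by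
  classical
  induction s using Finset.induction_on with
  | empty => simp [ex_zero]
  | insert a s ha ih => rw [Finset.sum_insert ha, Finset.prod_insert ha, ex_add, ih]

/-- exponential Chebyshev inequality -/
lemma cher {Ω : Type*} [MeasurableSpace Ω] (μ : Measure Ω) {f : Ω → ℝ} (hf : Measurable f)
    (a : ℝ) : μ {y | a ≤ f y} ≤ ex (-a) * ∫⁻ y, ex (f y) ∂μ := by
  rw [← lintegral_const_mul _ (by fun_prop),
    ← lintegral_indicator_one (measurableSet_le measurable_const hf)]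
  refine lintegral_mono fun y => ?_
  by_cases h : a ≤ f y
  · rw [indicator_of_mem (show y ∈ {y | a ≤ f y} from h), ← ex_add, Pi.one_apply, ← ex_zero]
    exact ex_mono (by linarith)
  · rw [indicator_of_notMem (show y ∉ {y | a ≤ f y} from h)]
    exact zero_le

lemma small (n : ℕ) : Conc.gv (Fin n) {y | y ⬝ᵥ y < n / 2} ≤ ex (-(n / 16 : ℝ)) := by
  have h1 := cher (Conc.gv (Fin n)) (f := fun y : V n => -(y ⬝ᵥ y) / 2)
    (by unfold dotProduct; fun_prop) (-(n / 4 : ℝ))
  have h2 := Qe.gi_dg (Dq.dg_diagonal fun _ : Fin n => (2 : ℝ)) fun _ => two_pos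
  have e : ∀ y : V n, (y ⬝ᵥ y - y ⬝ᵥ diagonal (fun _ : Fin n => (2 : ℝ)) *ᵥ y) / 2 =
      -(y ⬝ᵥ y) / 2 := fun y => by
    have : y ⬝ᵥ diagonal (fun _ : Fin n => (2 : ℝ)) *ᵥ y = 2 * (y ⬝ᵥ y) := by
      simp only [dotProduct, mulVec_diagonal, Finset.mul_sum]
      exact Finset.sum_congr rfl fun i _ => by ring
    rw [this]; ring
  simp only [Qe.Gi, e] at h2
  rw [h2, ← ex_add] at h1
  refine (measure_mono fun y hy => ?_).trans (h1.trans (ex_mono ?_))
  · simp only [mem_ofPred_eq] at hy ⊢; linarith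
  · have := Real.log_two_gt_d9
    have hn : (0 : ℝ) ≤ n := Nat.cast_nonneg n
    simp only [Finset.sum_const, Finset.card_univ, Fintype.card_fin, nsmul_eq_mul]
    nlinarith

/-- the mass of the large coordinates -/
def hv (B : ℝ) (y : V n) : ℝ := ∑ i, if B < y i ^ 2 then y i ^ 2 else 0

lemma meas_hv {B : V n → ℝ} (hB : Measurable B) : Measurable fun y : V n => hv (B y) y := by
  unfold hv
  refine Finset.measurable_sum _ fun i _ => Measurable.ite ?_ (by fun_prop) measurable_const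
  exact measurableSet_lt hB (by fun_prop)

lemma hv_anti {B B' : ℝ} (h : B ≤ B') (y : V n) : hv B' y ≤ hv B y := by
  refine Finset.sum_le_sum fun i _ => ?_
  have := sq_nonneg (y i)
  split_ifs with h1 h2 <;> linarith

lemma hv_smul {c : ℝ} (hc : 0 < c) (B : ℝ) (y : V n) : hv (c ^ 2 * B) (c • y) = c ^ 2 * hv B y := by
  unfold hv
  rw [Finset.mul_sum]
  refine Finset.sum_congr rfl fun i _ => ?_
  have h2 : 0 < c ^ 2 := by positivity
  simp only [Pi.smul_apply, smul_eq_mul, mul_pow, mul_lt_mul_iff_right₀ h2]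
  split_ifs <;> simp

lemma mgf_hv (B : ℝ) :
    ∫⁻ y, ex (hv B y / 4) ∂Conc.gv (Fin n) ≤ ex (n * (2 * Real.exp (-B / 8))) := by
  classical
  have h1 : ∀ y : V n, ex (hv B y / 4) ≤ ∑ S ∈ (Finset.univ : Finset (Fin n)).powerset,
      ex (∑ _i ∈ S, -B / 8) *
        ex ((y ⬝ᵥ y - y ⬝ᵥ diagonal (fun i => if i ∈ S then (1 / 4 : ℝ) else 1) *ᵥ y) / 2) := by
    intro y
    calc ex (hv B y / 4) = ∏ i, ex ((if B < y i ^ 2 then y i ^ 2 else 0) / 4) := by
          rw [hv, Finset.sum_div, ex_sum]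
      _ ≤ ∏ i, (1 + ex (-B / 8 + 3 / 8 * y i ^ 2)) := by
          refine Finset.prod_le_prod' fun i _ => ?_
          split_ifs with h
          · exact (ex_mono (by linarith)).trans le_add_self
          · rw [zero_div, ex_zero]; exact le_self_add
      _ = _ := by
          rw [Finset.prod_one_add]
          refine Finset.sum_congr rfl fun S _ => ?_
          rw [← ex_sum, ← ex_add, Finset.sum_add_distrib]
          congr 2
          have : ∑ i ∈ S, 3 / 8 * y i ^ 2 = ∑ i, if i ∈ S then 3 / 8 * y i ^ 2 else 0 := by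
            rw [Finset.sum_ite_mem, Finset.univ_inter]
          rw [this]
          simp only [dotProduct, mulVec_diagonal, ← Finset.sum_sub_distrib, Finset.sum_div]
          refine Finset.sum_congr rfl fun i _ => ?_
          split_ifs <;> ring
  refine (lintegral_mono h1).trans ?_
  rw [lintegral_finsetSum _ fun S _ => by unfold dotProduct mulVec dotProduct; fun_prop]
  have h2 : ∀ S : Finset (Fin n), ∫⁻ y, ex (∑ _i ∈ S, -B / 8) *
      ex ((y ⬝ᵥ y - y ⬝ᵥ diagonal (fun i => if i ∈ S then (1 / 4 : ℝ) else 1) *ᵥ y) / 2)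
        ∂Conc.gv (Fin n) = ∏ _i ∈ S, ex (-B / 8 + Real.log 2) := by
    intro S
    have h3 := Qe.gi_dg (Dq.dg_diagonal fun i : Fin n => if i ∈ S then (1 / 4 : ℝ) else 1)
      fun i => by split_ifs <;> norm_num
    rw [lintegral_const_mul _ (by unfold dotProduct mulVec dotProduct; fun_prop)]
    rw [Qe.Gi] at h3
    rw [h3, ← ex_add, ← ex_sum, Finset.sum_add_distrib]
    congr 2
    have h4 : Real.log (1 / 4) = -(2 * Real.log 2) := by
      rw [one_div, Real.log_inv, show (4 : ℝ) = 2 ^ 2 by norm_num, Real.log_pow]; norm_num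
    have h5 : ∑ i, Real.log (if i ∈ S then (1 / 4 : ℝ) else 1) =
        ∑ i, if i ∈ S then -(2 * Real.log 2) else 0 :=
      Finset.sum_congr rfl fun i _ => by split_ifs <;> simp [← h4]
    rw [h5, Finset.sum_ite_mem, Finset.univ_inter]
    simp only [Finset.sum_const, nsmul_eq_mul]
    ring
  simp only [h2]
  rw [← Finset.prod_one_add]
  calc ∏ _i : Fin n, (1 + ex (-B / 8 + Real.log 2))
      ≤ ∏ _i : Fin n, ex (2 * Real.exp (-B / 8)) := by
        refine Finset.prod_le_prod' fun i _ => ?_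
        rw [ex, ex, ← ENNReal.ofReal_one, ← ENNReal.ofReal_add zero_le_one (Real.exp_pos _).le,
          Real.exp_add, Real.exp_log two_pos]
        refine ENNReal.ofReal_le_ofReal ?_
        linarith [Real.add_one_le_exp (2 * Real.exp (-B / 8))]
    _ = _ := by
        rw [← ex_sum]
        simp only [Finset.sum_const, Finset.card_univ, Fintype.card_fin, nsmul_eq_mul]

/-- the directions with a heavy set of large coordinates -/
def AA (x β : ℝ) : Set (V n) := {y | x / 14 * (y ⬝ᵥ y) ≤ hv (β * (y ⬝ᵥ y)) y}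

lemma meas_AA (x β : ℝ) : MeasurableSet (AA x β : Set (V n)) :=
  measurableSet_le (by unfold dotProduct; fun_prop) (meas_hv (by unfold dotProduct; fun_prop))

lemma AA_smul (x β : ℝ) {c : ℝ} (hc : 0 < c) (y : V n) : c • y ∈ AA x β ↔ y ∈ AA x β := by
  have h2 : 0 < c ^ 2 := by positivity
  have e : (c • y) ⬝ᵥ (c • y) = c ^ 2 * (y ⬝ᵥ y) := by
    rw [smul_dotProduct, dotProduct_smul, smul_eq_mul, smul_eq_mul]; ring
  simp only [AA, mem_ofPred_eq]
  rw [e, mul_left_comm β, hv_smul hc, mul_left_comm (x / 14), mul_le_mul_iff_right₀ h2]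

lemma gv_AA {x β : ℝ} (hn : 1 ≤ n) (hx : 0 < x) (hβ : 0 ≤ β) (h : 16 * Real.log n ≤ β * n) :
    Conc.gv (Fin n) (AA x β) ≤ ex (-(n / 16 : ℝ)) + ex (2 - x * n / 112) := by
  have hn' : (1 : ℝ) ≤ n := by exact_mod_cast hn
  have h1 := cher (Conc.gv (Fin n)) (f := fun y : V n => hv (β * n / 2) y / 4)
    ((meas_hv measurable_const).div_const 4) (x * n / 112)
  have h2 : ex (-(x * n / 112)) * ∫⁻ y, ex (hv (β * n / 2) y / 4) ∂Conc.gv (Fin n) ≤
      ex (2 - x * n / 112) := by
    refine (mul_le_mul_right (mgf_hv _) _).trans ?_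
    rw [← ex_add]
    refine ex_mono ?_
    have h3 : Real.exp (-(β * n / 2) / 8) ≤ (n : ℝ)⁻¹ := by
      rw [← Real.exp_log (show (0 : ℝ) < (n : ℝ)⁻¹ by positivity), Real.log_inv]
      exact Real.exp_le_exp.2 (by linarith)
    have h4 : (n : ℝ) * Real.exp (-(β * n / 2) / 8) ≤ 1 := by
      calc _ ≤ (n : ℝ) * (n : ℝ)⁻¹ := by gcongr
        _ = 1 := mul_inv_cancel₀ (by positivity)
    linarith
  refine le_trans ?_ (add_le_add (small n) (h1.trans h2))
  refine (measure_mono fun y hy => ?_).trans (measure_union_le _ _)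
  by_cases h5 : y ⬝ᵥ y < n / 2
  · exact Or.inl h5
  · right
    have h6 : (n : ℝ) / 2 ≤ y ⬝ᵥ y := not_lt.1 h5
    have h7 := hv_anti (show β * n / 2 ≤ β * (y ⬝ᵥ y) by nlinarith) y
    simp only [AA, mem_ofPred_eq] at hy ⊢
    nlinarith

lemma meas_E1 (ρ z x H : ℝ) : MeasurableSet (E1 ρ z x H : Set (Mx n)) := by
  have h1 : IsClosed {W : Mx n | Wᵀ = W} := isClosed_eq (by fun_prop) continuous_id
  have h2 : IsClosed {W : Mx n | ∀ u ∈ box ρ, u ⬝ᵥ (W - z • (1 : Mx n)) *ᵥ u ≤ 2 * H} := by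
    simp only [Set.ofPred_forall]
    exact isClosed_iInter fun u => isClosed_iInter fun _ => isClosed_le
      (continuous_const.dotProduct
        ((continuous_id.sub continuous_const).matrix_mulVec continuous_const)) continuous_const
  exact h1.measurableSet.inter ((Qe.measurableSet_le measurable_const measurable_id).inter
    ((Qe.measurableSet_le measurable_id measurable_const).inter
      ((Qe.measurableSet_le measurable_id measurable_const).compl.inter h2.measurableSet)))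

/-- the deterministic core -/
lemma core {ρ z x H l : ℝ} {W : Mx n} {p : V n} (hρ : 0 < ρ) (hx : 0 < x) (hx1 : x ≤ 1)
    (hH : 0 < H) (hW : W ∈ E1 ρ z x H) (hp : p ⬝ᵥ p = 1) (hl : W *ᵥ p = l • p)
    (ht : Le W (l • (1 : Mx n))) : p ∈ AA x (ρ ^ 2 * x / (8 * H)) := by
  obtain ⟨hs, h3, h3', hz, hb⟩ := hW
  set β := ρ ^ 2 * x / (8 * H) with hβ
  by_contra hA
  simp only [AA, mem_ofPred_eq, hp, mul_one, not_le] at hA
  have hl1 : z + x < l := by
    by_contra hc
    refine hz fun u => (ht u).trans ?_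
    rw [Qe.qf_smul, Qe.qf_smul, Qe.qf_one]
    exact mul_le_mul_of_nonneg_right (not_lt.1 hc) (Finset.sum_nonneg fun i _ => mul_self_nonneg _)
  have hpp : p ⬝ᵥ W *ᵥ p = l := by rw [hl, dotProduct_smul, hp, smul_eq_mul, mul_one]
  have hl3 : l ≤ 3 := by
    have := h3' p
    rwa [Qe.qf_smul, Qe.qf_one, hp, hpp, mul_one] at this
  set q : V n := fun i => if β < p i ^ 2 then p i else 0 with hq
  have hqq : q ⬝ᵥ q = hv β p := Finset.sum_congr rfl fun i _ => by
    simp only [hq]; split_ifs <;> ring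
  have hqp : q ⬝ᵥ p = hv β p := Finset.sum_congr rfl fun i _ => by
    simp only [hq]; split_ifs <;> ring
  have hm : 0 ≤ hv β p := hqq ▸ Finset.sum_nonneg fun i _ => mul_self_nonneg _
  have hqW : -3 * hv β p ≤ q ⬝ᵥ W *ᵥ q := by
    have := h3 q
    rwa [Qe.qf_smul, Qe.qf_one, hqq] at this
  have hpq : p ⬝ᵥ W *ᵥ q = l * hv β p := by
    rw [Qe.qf_comm hs, hl, dotProduct_smul, hqp, smul_eq_mul]
  set s := √(8 * H / x) with hs'
  have hs2 : s ^ 2 = 8 * H / x := Real.sq_sqrt (by positivity)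
  have hu : s • p + (-s) • q ∈ box ρ := by
    intro i
    refine abs_le_of_sq_le_sq' ?_ hρ.le |> abs_le.2
    have e : s ^ 2 * β = ρ ^ 2 := by rw [hs2, hβ]; field_simp
    simp only [Pi.add_apply, Pi.smul_apply, smul_eq_mul, hq]
    split_ifs with h
    · have : s * p i + -s * p i = 0 := by ring
      rw [this]; nlinarith
    · rw [← e, mul_zero, add_zero, mul_pow]
      exact mul_le_mul_of_nonneg_left (not_lt.1 h) (sq_nonneg _)
  have hf := hb _ hu
  have hs1 : (W - z • (1 : Mx n))ᵀ = W - z • (1 : Mx n) := by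
    rw [transpose_sub, hs, transpose_smul, transpose_one]
  rw [Qe.qf_expand hs1] at hf
  simp only [Qe.qf_sub, Qe.qf_smul, Qe.qf_one, hpp, hp, hpq, hqq, dotProduct_comm p q, hqp] at hf
  have key : x / 2 < (l - z * 1) - 2 * (l * hv β p - z * hv β p) + (q ⬝ᵥ W *ᵥ q - z * hv β p) := by
    have a1 : 0 ≤ (l - z - x) * (1 - hv β p) := mul_nonneg (by linarith) (by linarith)
    have a2 : 0 ≤ (3 - l) * hv β p := mul_nonneg (by linarith) hm
    have a3 : 0 ≤ (1 - x) * hv β p := mul_nonneg (by linarith) hm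
    nlinarith
  have h8 : s ^ 2 * (x / 2) = 4 * H := by rw [hs2]; field_simp; ring
  have h9 : 0 < s ^ 2 := by rw [hs2]; positivity
  have h10 := mul_lt_mul_of_pos_left key h9
  nlinarith

end Top71

open Top71 in
theorem topGlue : TopGlue := by
  intro hR n ρ z x H hn hρ hx hx1 hH h
  refine hR n _ _ (meas_E1 ρ z x H) fun W hW => ?_
  obtain ⟨a, ha⟩ := Qe.dg_symm hW
  have : Nonempty (Fin n) := ⟨⟨0, hn⟩⟩
  obtain ⟨i, -, hi⟩ := Finset.exists_max_image Finset.univ a Finset.univ_nonempty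
  have hle := Qe.dg_le ha fun j => hi j (Finset.mem_univ j)
  obtain ⟨Q, hQ, hWQ⟩ := ha
  have hQ' : Qᵀ * Q = 1 := mul_eq_one_comm.1 hQ
  have nrm : ∀ (O : Mx n) (u : V n), Oᵀ * O = 1 → (O *ᵥ u) ⬝ᵥ (O *ᵥ u) = u ⬝ᵥ u := fun O u hO => by
    have := Qe.qf_conj O 1 u u
    rw [Matrix.mul_one, hO, one_mulVec, one_mulVec] at this
    exact this.symm
  have hv1 : (Q *ᵥ Pi.single i 1) ⬝ᵥ (Q *ᵥ Pi.single i 1) = 1 := by
    rw [nrm _ _ hQ']; simp
  have hev : W *ᵥ (Q *ᵥ Pi.single i 1) = a i • (Q *ᵥ Pi.single i 1) := by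
    rw [hWQ, mulVec_mulVec, Matrix.mul_assoc, hQ', Matrix.mul_one, ← mulVec_mulVec, ← mulVec_smul]
    congr 1
    ext j
    by_cases hj : j = i <;> simp [hj, mulVec_diagonal]
  refine ⟨Q *ᵥ Pi.single i 1, AA x (ρ ^ 2 * x / (8 * H)), hv1, meas_AA _ _,
    fun c hc y => AA_smul _ _ hc y, gv_AA hn hx (by positivity) ?_, Or.inl fun O hO hE => ?_⟩
  · rw [div_mul_eq_mul_div, le_div_iff₀ (by positivity)]
    linarith
  · have hO' : Oᵀ * O = 1 := mul_eq_one_comm.1 hO
    refine core (l := a i) hρ hx hx1 hH hE (by rw [nrm _ _ hO', hv1]) ?_ fun u => ?_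
    · rw [mulVec_mulVec, Matrix.mul_assoc, hO', Matrix.mul_one, ← mulVec_mulVec, hev, mulVec_smul]
    · have e := Qe.qf_conj Oᵀ W u u
      rw [transpose_transpose] at e
      have h2 := hle (Oᵀ *ᵥ u)
      rw [Qe.qf_smul, Qe.qf_one, nrm _ _ (by rw [transpose_transpose, hO])] at h2
      rw [e, Qe.qf_smul, Qe.qf_one]
      exact h2

end Crest.Agent.T157.Cp

end
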