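import Crest.Agent.T157.CpPen_72
import Crest.Agent.T157.CpBox_62
import Crest.Agent.T157.CpRot_10
import Crest.Agent.T157.CpTop_71
import Crest.Agent.T157.CpDiag_17
import Crest.Agent.T157.CpNear_56
import Crest.Agent.T157.CpGrid_80
import Crest.Agent.T157.CwLtA_15

/-!
# Row 157, coin windows: the penalty, unconditional (helper72)
-/

set_option autoImplicit false

namespace Crest.Agent.T157.Cp

theorem penStmt : PenStmt :=
  penGlue _ Cw.ltStmt (boxGlue _ Cw.ltStmt) (topGlue rotStmt) (diagGlue rotStmt) nearStmt hwStmt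
    gridStmt fineStmt

end Crest.Agent.T157.Cp
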