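import Crest.Agent.T157.EtG_81
import Crest.Agent.T157.O7Def_64

/-!
# Row 157, coin windows (helper81): the edge windows for coins
-/

set_option autoImplicit false

noncomputable section

namespace Crest.Agent.T157.Cw

open MeasureTheory Set Real Filter Topology
open Crest.ProbabilityR.SpinGlassDynamics
open Crest.Agent.T157.E
open Crest.Agent.T157.Crit (CovAt)
open Crest.Agent.T157.Tr (Off)
open Crest.Agent.T157.O7 (Mt lo QW)
open Crest.Agent.T157.Soft (N23)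
open Crest.Agent.T157.Et (un)

namespace Edge81

lemma ev_lt {x y : ℝ} (h : x < y) (A : ℝ) :
    ∀ᶠ n : ℕ in atTop, A * (n : ℝ) ^ x ≤ (n : ℝ) ^ y := by
  filter_upwards [((tendsto_rpow_atTop (sub_pos.2 h)).comp
    tendsto_natCast_atTop_atTop).eventually_ge_atTop A, eventually_gt_atTop 0] with n h1 hn
  have n0 : (0 : ℝ) < n := by exact_mod_cast hn
  calc _ ≤ (n : ℝ) ^ (y - x) * (n : ℝ) ^ x := mul_le_mul_of_nonneg_right h1 (by positivity)
    _ = _ := by rw [← rpow_add n0, sub_add_cancel]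

/-- the numerics of the edge window -/
structure Wn (s τ A : ℝ) (n : ℕ) (r : ℝ) : Prop where
  r0 : 0 < r
  rt : r ≤ τ
  ru : r ≤ un n / N23 n
  xs : s ≤ N23 n * r
  xM : N23 n * r ≤ Mt n r
  Mu : A * Mt n r + A ≤ un n
  us : un n ≤ √n

lemma wn {s τ A : ℝ} (hs : 1 ≤ s) (hτ : 0 < τ) (hA : 0 ≤ A) :
    ∀ᶠ n : ℕ in atTop, ∀ r ∈ Icc (s / N23 n) (lo (1 / 400) n), Wn s τ A n r := by
  filter_upwards [ev_lt (show (1 / 400 : ℝ) < 2 / 3 by norm_num) τ⁻¹,
    ev_lt (show (3 / 800 : ℝ) < 1 / 192 by norm_num) (2 * A), eventually_gt_atTop 0]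
    with n h1 h2 hn r hr
  have n1 : (1 : ℝ) ≤ n := by exact_mod_cast hn
  have n0 : (0 : ℝ) < n := by linarith
  have N0 := Soft.N23_pos hn
  have a1 : s ≤ N23 n * r := by have := hr.1; rwa [div_le_iff₀' N0] at this
  have a2 : N23 n * r ≤ (n : ℝ) ^ (1 / 400 : ℝ) := by
    have := hr.2; rwa [lo, le_div_iff₀' N0] at this
  have r0 : 0 < r := (mul_pos_iff_of_pos_left N0).1 (by linarith)
  have a3 : Mt n r = (N23 n * r) ^ (3 / 2 : ℝ) := by
    rw [Mt, mul_rpow N0.le r0.le, N23, ← rpow_mul n0.le]; norm_num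
  have a4 : Mt n r ≤ (n : ℝ) ^ (3 / 800 : ℝ) := by
    rw [a3]
    refine (rpow_le_rpow (by linarith) a2 (by norm_num)).trans (le_of_eq ?_)
    rw [← rpow_mul n0.le]; norm_num
  have a5 : 1 ≤ (n : ℝ) ^ (3 / 800 : ℝ) := one_le_rpow n1 (by norm_num)
  refine ⟨r0, ?_, ?_, a1, ?_, ?_, ?_⟩
  · rw [inv_mul_le_iff₀ hτ] at h1
    have : N23 n * r ≤ N23 n * τ := by rw [mul_comm _ τ]; exact a2.trans h1
    exact le_of_mul_le_mul_left this N0
  · rw [le_div_iff₀' N0]
    exact a2.trans (rpow_le_rpow_of_exponent_le n1 (by norm_num))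
  · rw [a3]; exact self_le_rpow_of_one_le (by linarith) (by norm_num)
  · refine le_trans ?_ h2
    nlinarith [mul_le_mul_of_nonneg_left a4 hA, mul_le_mul_of_nonneg_left a5 hA]
  · rw [sqrt_eq_rpow]; exact rpow_le_rpow_of_exponent_le n1 (by norm_num)

lemma qw_le {n : ℕ} (g : Pair n → ℝ) {r k k' H H' : ℝ} (r0 : 0 < r) (hk : k ≤ k') (hH : H' ≤ H)
    (h : CovAt (gibbsWeight n 1 g) r (k / r) (exp (-H))) :
    CovAt (gibbsWeight n 1 g) r (k' / r) (exp (-H')) :=
  le_trans (Q1.covAt_mono (SL.Wt.of_pos (gibbsWeight_pos 1 g)) h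
    (div_le_div_of_nonneg_right hk r0.le)) (exp_le_exp.2 (neg_le_neg hH))

/-- the general form -/
lemma gen81 {ε s s0 t0 A : ℝ} (hε : 0 < ε) (hs : 1 ≤ s) (hs0 : s0 ≤ s) (ht : 0 < t0) (hA : 0 ≤ A)
    {k k1 k' H H' : ℕ → ℝ → ℝ}
    (hG : Off disorderLaw (ε / 3) fun n g =>
      QW (gibbsWeight n 1 g) (s0 / N23 n) t0 (k n) (H n))
    (h : ∀ n r, Wn s (min t0 1) A n r → k n r ≤ k1 n r ∧ 1 ≤ k1 n r ∧
      (1 + 4 * (un n)⁻¹) * k1 n r ≤ k' n r ∧ H' n r + 4 ≤ H n r ∧ H' n r + 4 ≤ un n) :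
    Off (couplingLaw true) ε fun n g =>
      QW (gibbsWeight n 1 g) (s / N23 n) (lo (1 / 400) n) (k' n) (H' n) := by
  have hw := wn hs (lt_min ht one_pos) hA
  have h1 : Off (couplingLaw false) (ε / 3) fun n g =>
      QW (gibbsWeight n 1 g) (s / N23 n) (lo (1 / 400) n) (k1 n) (H n) := by
    refine Off.mono (μ := disorderLaw) hG ?_
    filter_upwards [hw, eventually_gt_atTop 0] with n p hn g q r hr
    have p1 := p r hr
    exact qw_le g p1.r0 (h n r p1).1 le_rfl (q r ⟨le_trans (div_le_div_of_nonneg_right hs0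
      (Soft.N23_pos hn).le) hr.1, p1.rt.trans (min_le_left _ _)⟩)
  have h2 : Off (couplingLaw true) (3 * (ε / 3)) fun n g =>
      QW (gibbsWeight n 1 g) (s / N23 n) (lo (1 / 400) n)
        (fun r => (1 + 4 * (un n)⁻¹) * k1 n r) fun r => min (H n r) (un n) - 4 :=
    Et.edge_qw (fun n => s / N23 n) (lo (1 / 400)) k1 H (by positivity)
      (hw.mono fun n p r hr => ⟨(p r hr).r0, (p r hr).ru,
        ((p r hr).rt.trans (min_le_right _ _)).trans (h n r (p r hr)).2.1⟩) h1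
  refine (h2.le (by linarith)).mono (hw.mono fun n p g q r hr => ?_)
  obtain ⟨-, -, b1, b2, b3⟩ := h n r (p r hr)
  exact qw_le g (p r hr).r0 b1 (by have := le_min b2 b3; linarith) (q r hr)

lemma Wn.u1 {s τ A : ℝ} {n : ℕ} {r : ℝ} (h : Wn s τ A n r) (hs : 1 ≤ s) (hA : 0 ≤ A) :
    A ≤ un n ∧ s ≤ Mt n r := by
  have := h.xs.trans h.xM
  exact ⟨by nlinarith [h.Mu], this⟩

end Edge81

open Edge81

theorem edge0 (hG : O7.G0 disorderLaw) : ∀ ε > (0 : ℝ), ∀ L : ℝ, ∃ K s0 : ℝ,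
    Off (couplingLaw true) ε fun n g => QW (gibbsWeight n 1 g) (s0 / N23 n) (lo (1 / 400) n)
      (fun _ => K) fun r => min (L * Mt n r) √n := by
  intro ε hε L
  obtain ⟨K, s0, t0, ht, hG⟩ := hG (ε / 3) (by positivity) (L + 1)
  refine ⟨5 * max K 1, max s0 4, gen81 (A := |L| + 4) (k1 := fun _ _ => max K 1) hε
    (le_max_of_le_right (by norm_num)) (le_max_left _ _) ht (by positivity) hG fun n r p => ?_⟩
  obtain ⟨a1, a2⟩ := p.u1 (le_max_of_le_right (by norm_num)) (by positivity)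
  have a3 : 4 ≤ Mt n r := (le_max_right _ _).trans a2
  have a4 : L * Mt n r + 4 ≤ un n := by
    nlinarith [p.Mu, le_abs_self L, abs_nonneg L]
  have a5 := min_le_left (L * Mt n r) √n
  have a6 : (un n)⁻¹ ≤ 1 := inv_le_one_of_one_le₀ (by linarith [abs_nonneg L])
  refine ⟨le_max_left _ _, le_max_right _ _, ?_, le_min (by linarith) (by linarith [p.us]),
    by linarith⟩
  exact mul_le_mul_of_nonneg_right (by linarith) (le_max_of_le_right zero_le_one)

theorem edge1 (hG : O7.G1 disorderLaw) : ∀ ε > (0 : ℝ), ∀ e > (0 : ℝ), ∃ c0 > (0 : ℝ), ∃ s0 : ℝ,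
    Off (couplingLaw true) ε fun n g => QW (gibbsWeight n 1 g) (s0 / N23 n) (lo (1 / 400) n)
      (fun _ => 1 + e) fun r => min (c0 * Mt n r) √n := by
  intro ε hε e he
  obtain ⟨c, hc, s0, t0, ht, hG⟩ := hG (ε / 3) (by positivity) (e / 2) (by positivity)
  have c0 : 0 < 8 / c := by positivity
  have hs : 1 ≤ max s0 (8 / c + 1) := le_max_of_le_right (by linarith)
  refine ⟨c / 2, by positivity, max s0 (8 / c + 1), gen81 (A := c + 4 + 8 / e + 4)
    (k1 := fun _ _ => 1 + e / 2) hε hs (le_max_left _ _) ht (by positivity) hG fun n r p => ?_⟩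
  obtain ⟨a1, a2⟩ := p.u1 hs (by positivity)
  have a3 : 8 / c + 1 ≤ Mt n r := (le_max_right _ _).trans a2
  have e0 : 0 < 8 / e := by positivity
  have a4 : c / 2 * Mt n r + 4 ≤ un n := by nlinarith [p.Mu]
  have a5 := min_le_left (c / 2 * Mt n r) √n
  have a6 : 8 ≤ c * Mt n r := by
    have := (div_le_iff₀' hc).1 (show 8 / c ≤ Mt n r by linarith); linarith
  have a7 : (un n)⁻¹ * (8 + 4 * e) ≤ e := by
    rw [inv_mul_le_iff₀ (by linarith)]
    have : e * (8 / e + 4) ≤ e * un n := mul_le_mul_of_nonneg_left (by linarith) he.le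
    rw [mul_add, mul_div_cancel₀ _ he.ne'] at this
    linarith
  exact ⟨le_rfl, by linarith, by linarith, le_min (by linarith) (by linarith [p.us]), by linarith⟩

theorem edge2 (hG : O7.G2 disorderLaw) : ∀ ε > (0 : ℝ), ∃ c > (0 : ℝ), ∃ C s0 : ℝ,
    Off (couplingLaw true) ε fun n g => QW (gibbsWeight n 1 g) (s0 / N23 n) (lo (1 / 400) n)
      (fun r => 1 + C * (r ^ c + (N23 n * r) ^ (-c))) fun r => (N23 n * r) ^ c := by
  intro ε hε
  obtain ⟨c, hc, C, s0, t0, ht, hG⟩ := hG (ε / 3) (by positivity)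
  have h3 : (1 : ℝ) ≤ 3 ^ (2 / c) := one_le_rpow (by norm_num) (by positivity)
  have hs : 1 ≤ max s0 (3 ^ (2 / c)) := le_max_of_le_right h3
  refine ⟨min (c / 2) 1, by positivity, 5 * |C| + 4, max s0 (3 ^ (2 / c)), gen81 (A := 4)
    (k1 := fun n r => 1 + |C| * (r ^ c + (N23 n * r) ^ (-c))) hε hs (le_max_left _ _) ht
    (by positivity) hG fun n r p => ?_⟩
  obtain ⟨a1, a2⟩ := p.u1 hs (by positivity)
  have r0 := p.r0
  have r1 : r ≤ 1 := p.rt.trans (min_le_right _ _)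
  have xM := p.xM
  have Mu := p.Mu
  have x1 := hs.trans p.xs
  have x3 := (le_max_right _ _).trans p.xs
  generalize N23 n * r = x at *
  have x0 : 0 < x := by linarith
  have m1 := min_le_left (c / 2) 1
  have m2 := min_le_right (c / 2) 1
  have z0 : 0 ≤ r ^ c + x ^ (-c) := by positivity
  have b1 : x ^ min (c / 2) 1 ≤ x :=
    (rpow_le_rpow_of_exponent_le x1 m2).trans (rpow_one x).le
  have b2 : x ^ min (c / 2) 1 ≤ x ^ (c / 2) := rpow_le_rpow_of_exponent_le x1 m1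
  have b3 : 3 ≤ x ^ (c / 2) := by
    refine le_trans (le_of_eq ?_) (rpow_le_rpow (by positivity) x3 (by positivity))
    rw [← rpow_mul (by norm_num), show 2 / c * (c / 2) = 1 by field_simp, rpow_one]
  have b4 : x ^ c = x ^ (c / 2) * x ^ (c / 2) := by rw [← rpow_add x0, add_halves]
  have b5 : r ^ c ≤ r ^ min (c / 2) 1 := rpow_le_rpow_of_exponent_ge r0 r1 (by linarith)
  have b6 : x ^ (-c) ≤ x ^ (-min (c / 2) 1) := rpow_le_rpow_of_exponent_le x1 (by linarith)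
  have b7 : (un n)⁻¹ ≤ x ^ (-min (c / 2) 1) := by
    rw [rpow_neg x0.le]; exact inv_anti₀ (by positivity) (by linarith)
  have b8 : (un n)⁻¹ ≤ 1 := inv_le_one_of_one_le₀ (by linarith)
  have b9 : 0 ≤ r ^ min (c / 2) 1 := by positivity
  have b0 := mul_nonneg (abs_nonneg C) z0
  refine ⟨by linarith [mul_le_mul_of_nonneg_right (le_abs_self C) z0], by linarith, ?_,
    by nlinarith, by linarith⟩
  have d1 := mul_le_mul_of_nonneg_right b8 b0
  have d2 := mul_le_mul_of_nonneg_left (add_le_add b5 b6) (abs_nonneg C)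
  linarith

end Crest.Agent.T157.Cw

end
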