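import Crest.Agent.T157.Top3_97

/-!
# Row 157, part A at criticality: the window statements (helper97, architect)

`w = ising W 0`, `W ∼ GOE n`; `y_r` is the localisation process driven by `w`.
Only covariance bounds at the point `y_r` occur (no balls of fields): the glue is the transport
lemma (`V' = C V`), not entropic stability.
-/

set_option autoImplicit false

noncomputable section

namespace Crest.Agent.T157.Crit

open MeasureTheory Filter Topology Set Matrix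
open Crest.ProbabilityR.SpinGlassDynamics
open Crest.Agent.T157.E Crest.Agent.T157.Tap Crest.Agent.T157.Top

variable {n : ℕ}

/-- covariance bound -/
def CovLe (w : Cube n → ℝ) (K : ℝ) : Prop := ∀ u : V n, u ⬝ᵥ covM w *ᵥ u ≤ K * (u ⬝ᵥ u)

/-- at time `r` the covariance of the posterior exceeds `K` with probability at most `p` -/
def CovAt (w : Cube n → ℝ) (r K p : ℝ) : Prop :=
  (SL.law sv w r).real {y | ¬ CovLe (tilt w y) K} ≤ p

/-- `n^{2/3}` -/
def N23 (n : ℕ) : ℝ := (n : ℝ) ^ (2 / 3 : ℝ)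

/-- the time scale of the entropy level `H` -/
def sH (n : ℕ) (H : ℝ) : ℝ := (H / n) ^ (2 / 3 : ℝ)

/-- up to time `s` a density bounded by `e^H` loses at most `H / 8` of its entropy -/
def Early (w : Cube n → ℝ) (s H : ℝ) : Prop :=
  ∀ f : Cube n → ℝ, (∀ x, 0 ≤ f x) → (∀ x, f x ≤ Real.exp H * mean w f) →
    ent w f ≤ slE sv w s (fun _ y => ent (tilt w y) f) + H / 8 * mean w f

/-- (W0) the edge window: crude bound, polynomial failure probability -/
def W0Stmt : Prop := ∀ D M : ℝ, Whp GOE fun n W =>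
  ∀ r ∈ Icc (0 : ℝ) (M * Real.log n ^ (2 / 3 : ℝ) / N23 n),
    CovAt (ising W 0) r (Real.log n ^ (1 / 6 : ℝ) * N23 n) ((n : ℝ) ^ (-D))

/-- (W1) the sharp bound; the failure probability is only `exp (-M r n^{2/3})` -/
def W1Stmt : Prop := ∀ ε > (0 : ℝ), ∀ δ > (0 : ℝ), ∀ M : ℝ, ∃ t0 > (0 : ℝ), Whp GOE fun n W =>
  ∀ r ∈ Icc ((n : ℝ) ^ δ / N23 n) t0,
    CovAt (ising W 0) r ((1 + ε) / r) (Real.exp (-(M * r * N23 n)))

/-- (W2) the non-sharp bounds at entropy level `H`: any constant on `[c s_H, L s_H]`,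
the constant `2 + ε` on `[L s_H, H n^{-2/3}]` -/
def W2Stmt : Prop := ∀ ε > (0 : ℝ), ∀ c > (0 : ℝ), ∀ M : ℝ, ∃ L K : ℝ, ∃ t0 > (0 : ℝ),
  Whp GOE fun n W => ∀ H : ℝ, Real.log n ≤ H → ∀ r : ℝ, r ≤ t0 → r ≤ H / N23 n →
    (c * sH n H ≤ r → CovAt (ising W 0) r (K / r) (Real.exp (-(M * H)))) ∧
    (L * sH n H ≤ r → CovAt (ising W 0) r ((2 + ε) / r) (Real.exp (-(M * H))))

/-- (W3) the early stage -/
def W3Stmt : Prop := ∃ c > (0 : ℝ), Whp GOE fun n W =>
  ∀ H : ℝ, Real.log n ≤ H → H ≤ n → Early (ising W 0) (c * sH n H) H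

/-- local fields have Gaussian tails (planted model) -/
def FieldStmt : Prop := ∀ δ > (0 : ℝ), Whp disorderLaw fun n g => ∀ θ ∈ Icc (0 : ℝ) (1 / 100),
  mean (gibbsWeight n 1 g) (fun x => Real.exp (θ * ∑ i,
    if (n : ℝ) ^ δ < Ent.lf (gibbsWeight n 1 g) i x then Ent.lf (gibbsWeight n 1 g) i x ^ 2 else 0))
      ≤ 2

/-- (W2S) high levels, sharp: one constant `K` on `[c s_H, n^δ s_H]`, then `κ / r` for any
`κ > 1`; it implies `W1Stmt` and the part `H ≥ n^δ` of `W2Stmt` -/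
def W2SStmt : Prop := ∀ c > (0 : ℝ), ∀ M : ℝ, ∃ K : ℝ, ∀ κ > (1 : ℝ), ∀ δ > (0 : ℝ),
  ∃ t0 > (0 : ℝ), Whp GOE fun n W => ∀ H : ℝ, (n : ℝ) ^ δ ≤ H → ∀ r : ℝ, r ≤ t0 →
    (c * sH n H ≤ r → CovAt (ising W 0) r (K / r) (Real.exp (-(M * H)))) ∧
    ((n : ℝ) ^ δ * sH n H ≤ r → CovAt (ising W 0) r (κ / r) (Real.exp (-(M * H))))

/-- spectral profile at level `H`: bounded functions on sets of mass at most `e^{-H}` -/
def SLev (w : Cube n → ℝ) (H lam : ℝ) : Prop :=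
  ∀ g : Cube n → ℝ, (∀ x, 0 ≤ g x) →
    (∀ x, g x ^ 2 ≤ Real.exp (2 * H) * mean w fun y => g y ^ 2) →
    mean w (fun x => if 0 < g x then 1 else 0) ≤ Real.exp (-H) →
    lam * mean w (fun y => g y ^ 2) ≤ dir w g

/-- the level form of the critical inequality (input of part C) -/
def LevCrit : Prop := ∀ κ > (0 : ℝ), ∀ δ > (0 : ℝ), Whp disorderLaw fun n g =>
  ∀ H : ℝ, (n : ℝ) ^ κ ≤ H → H ≤ n →
    SLev (gibbsWeight n 1 g) H ((n : ℝ) ^ (-δ) * sH n H * H)

def GLevCrit : Prop := W2SStmt → W3Stmt → LpStmt → UFStmt → FrzStmt → FrozStmt → CovStmt → LevCrit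

/-- the glue: levels (34) + transport (64) + end stage -/
def GCrit : Prop := W0Stmt → W1Stmt → W2Stmt → W3Stmt → FieldStmt → LpStmt →
  UFStmt → FrzStmt → FrozStmt → CovStmt → LsiCrit

end Crest.Agent.T157.Crit

end
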