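import Crest.Agent.T157.CwDef_8

/-!
# Row 157, part C (helper66): `Cw.AlgStmt`
-/

set_option autoImplicit false

noncomputable section

namespace Crest.Agent.T157.Cw

open Set Filter Topology Real

namespace Alg66

/-- a function with its first four derivatives -/
structure Ch (f0 f1 f2 f3 f4 : ℝ → ℝ) : Prop where
  d0 : ∀ t, HasDerivAt f0 (f1 t) t
  d1 : ∀ t, HasDerivAt f1 (f2 t) t
  d2 : ∀ t, HasDerivAt f2 (f3 t) t
  d3 : ∀ t, HasDerivAt f3 (f4 t) t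

variable {f0 f1 f2 f3 f4 g0 g1 g2 g3 g4 : ℝ → ℝ}

lemma Ch.dv4 (h : Ch f0 f1 f2 f3 f4) : iteratedDeriv 4 f0 = f4 := by
  rw [iteratedDeriv_succ, iteratedDeriv_succ, iteratedDeriv_succ, iteratedDeriv_one,
    funext fun t => (h.d0 t).deriv, funext fun t => (h.d1 t).deriv,
    funext fun t => (h.d2 t).deriv, funext fun t => (h.d3 t).deriv]

lemma Ch.contDiff (h : Ch f0 f1 f2 f3 f4) (hc : Continuous f4) : ContDiff ℝ 4 f0 := by
  have step : ∀ (k : ℕ) (f f' : ℝ → ℝ), (∀ t, HasDerivAt f (f' t) t) → ContDiff ℝ k f' →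
      ContDiff ℝ (k + 1 : ℕ) f := fun k f f' h1 h2 => by
    rw [Nat.cast_succ, contDiff_succ_iff_deriv]
    exact ⟨fun t => (h1 t).differentiableAt, by simp, by rwa [funext fun t => (h1 t).deriv]⟩
  exact step 3 _ _ h.d0 (step 2 _ _ h.d1 (step 1 _ _ h.d2 (step 0 _ _ h.d3 (by simpa using hc))))

lemma ch_of {f : ℝ → ℝ} (h : ContDiff ℝ 4 f) : Ch f (dv 1 f) (dv 2 f) (dv 3 f) (dv 4 f) := by
  have d : ∀ j : ℕ, j < 4 → ∀ t, HasDerivAt (iteratedDeriv j f) (iteratedDeriv (j + 1) f t) t :=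
    fun j hj t => by
      rw [iteratedDeriv_succ]
      exact (h.differentiable_iteratedDeriv j (by exact_mod_cast hj) t).hasDerivAt
  exact ⟨by simpa only [iteratedDeriv_zero] using d 0 (by norm_num), d 1 (by norm_num),
    d 2 (by norm_num), d 3 (by norm_num)⟩

lemma Ch.mul (h : Ch f0 f1 f2 f3 f4) (k : Ch g0 g1 g2 g3 g4) :
    Ch (fun t => f0 t * g0 t) (fun t => f1 t * g0 t + f0 t * g1 t)
      (fun t => f2 t * g0 t + 2 * (f1 t * g1 t) + f0 t * g2 t)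
      (fun t => f3 t * g0 t + 3 * (f2 t * g1 t) + 3 * (f1 t * g2 t) + f0 t * g3 t)
      (fun t => f4 t * g0 t + 4 * (f3 t * g1 t) + 6 * (f2 t * g2 t) + 4 * (f1 t * g3 t) +
        f0 t * g4 t) :=
  ⟨fun t => (h.d0 t).mul (k.d0 t),
    fun t => (((h.d1 t).mul (k.d0 t)).add ((h.d0 t).mul (k.d1 t))).congr_deriv (by ring),
    fun t => ((((h.d2 t).mul (k.d0 t)).add (((h.d1 t).mul (k.d1 t)).const_mul 2)).add
      ((h.d0 t).mul (k.d2 t))).congr_deriv (by ring),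
    fun t => (((((h.d3 t).mul (k.d0 t)).add (((h.d2 t).mul (k.d1 t)).const_mul 3)).add
      (((h.d1 t).mul (k.d2 t)).const_mul 3)).add ((h.d0 t).mul (k.d3 t))).congr_deriv (by ring)⟩

lemma Ch.comp (h : Ch f0 f1 f2 f3 f4) (k : Ch g0 g1 g2 g3 g4) :
    Ch (fun t => f0 (g0 t)) (fun t => f1 (g0 t) * g1 t)
      (fun t => f2 (g0 t) * (g1 t * g1 t) + f1 (g0 t) * g2 t)
      (fun t => f3 (g0 t) * (g1 t * g1 t * g1 t) + 3 * (f2 (g0 t) * (g1 t * g2 t)) +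
        f1 (g0 t) * g3 t)
      (fun t => f4 (g0 t) * g1 t ^ 4 + 6 * (f3 (g0 t) * (g1 t ^ 2 * g2 t)) +
        3 * (f2 (g0 t) * g2 t ^ 2) + 4 * (f2 (g0 t) * (g1 t * g3 t)) + f1 (g0 t) * g4 t) := by
  have c0 := fun t => (h.d0 (g0 t)).comp t (k.d0 t)
  have c1 : ∀ t, HasDerivAt (fun t => f1 (g0 t)) (f2 (g0 t) * g1 t) t :=
    fun t => (h.d1 (g0 t)).comp t (k.d0 t)
  have c2 : ∀ t, HasDerivAt (fun t => f2 (g0 t)) (f3 (g0 t) * g1 t) t :=
    fun t => (h.d2 (g0 t)).comp t (k.d0 t)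
  have c3 : ∀ t, HasDerivAt (fun t => f3 (g0 t)) (f4 (g0 t) * g1 t) t :=
    fun t => (h.d3 (g0 t)).comp t (k.d0 t)
  refine ⟨c0, fun t => ((c1 t).fun_mul (k.d1 t)).congr_deriv (by ring),
    fun t => (((c2 t).fun_mul ((k.d1 t).fun_mul (k.d1 t))).fun_add
      ((c1 t).fun_mul (k.d2 t))).congr_deriv (by ring),
    fun t => ((((c3 t).fun_mul (((k.d1 t).fun_mul (k.d1 t)).fun_mul (k.d1 t))).fun_add
      (((c2 t).fun_mul ((k.d1 t).fun_mul (k.d2 t))).const_mul 3)).fun_add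
      ((c1 t).fun_mul (k.d3 t))).congr_deriv (by ring)⟩

/-- the exponential continued by `g` -/
def pc (g : ℝ → ℝ) (u : ℝ) : ℝ := if u ≤ 0 then exp u else g u

lemma pc_deriv {g g' : ℝ → ℝ} (hg : ∀ u, HasDerivAt g (g' u) u) (h0 : g 0 = 1) (h1 : g' 0 = 1)
    (u : ℝ) : HasDerivAt (pc g) (pc g' u) u := by
  rcases lt_trichotomy u 0 with h | rfl | h
  · rw [pc, if_pos h.le]
    refine (hasDerivAt_exp u).congr_of_eventuallyEq ?_
    filter_upwards [Iio_mem_nhds h] with v hv using if_pos (le_of_lt hv)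
  · rw [pc, if_pos le_rfl, exp_zero, ← hasDerivWithinAt_univ, ← Iic_union_Ici (a := (0 : ℝ))]
    refine HasDerivWithinAt.union ?_ ?_
    · have := (hasDerivAt_exp 0).hasDerivWithinAt (s := Iic 0)
      rw [exp_zero] at this
      exact this.congr (fun v hv => if_pos hv) (if_pos le_rfl)
    · have := (hg 0).hasDerivWithinAt (s := Ici 0)
      rw [h1] at this
      have e : ∀ v ∈ Ici (0 : ℝ), pc g v = g v := fun v hv => by
        rcases (mem_Ici.1 hv).eq_or_lt with rfl | h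
        · rw [pc, if_pos le_rfl, exp_zero, h0]
        · exact if_neg (not_le.2 h)
      exact this.congr e (e 0 self_mem_Ici)
  · rw [pc, if_neg (not_le.2 h)]
    refine (hg u).congr_of_eventuallyEq ?_
    filter_upwards [Ioi_mem_nhds h] with v hv using if_neg (not_le.2 hv)

def T3 (u : ℝ) : ℝ := 1 + u + u ^ 2 / 2 + u ^ 3 / 6
def T2 (u : ℝ) : ℝ := 1 + u + u ^ 2 / 2
def T1 (u : ℝ) : ℝ := 1 + u

lemma ch_fE : Ch fE (pc T3) (pc T2) (pc T1) (pc fun _ => 1) := by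
  have p : ∀ (k : ℕ) (c u : ℝ), HasDerivAt (fun u : ℝ => u ^ k / c) (k * u ^ (k - 1) / c) u :=
    fun k c u => (hasDerivAt_pow k u).div_const c
  have a1 : ∀ u : ℝ, HasDerivAt (fun u : ℝ => 1 + u) 1 u := fun u => (hasDerivAt_id u).const_add 1
  refine ⟨pc_deriv (g := fun u => 1 + u + u ^ 2 / 2 + u ^ 3 / 6 + u ^ 4 / 24) (fun u => ?_)
    (by norm_num) (by norm_num [T3]), pc_deriv (fun u => ?_) (by norm_num [T3]) (by norm_num [T2]),
    pc_deriv (fun u => ?_) (by norm_num [T2]) (by norm_num [T1]),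
    pc_deriv a1 (by norm_num [T1]) rfl⟩
  · exact ((((a1 u).fun_add (p 2 2 u)).fun_add (p 3 6 u)).fun_add (p 4 24 u)).congr_deriv
      (by norm_num [T3]; ring)
  · exact (((a1 u).fun_add (p 2 2 u)).fun_add (p 3 6 u)).congr_deriv (by norm_num [T2]; ring)
  · exact ((a1 u).fun_add (p 2 2 u)).congr_deriv (by norm_num [T1])

lemma cont_pc : Continuous (pc fun _ => 1) :=
  Continuous.if_le continuous_exp continuous_const continuous_id continuous_const fun _ h => by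
    rw [show _ = (0 : ℝ) from h, exp_zero]

lemma fE_pos (u : ℝ) : 0 < fE u := by
  unfold fE
  split_ifs with h
  · exact exp_pos u
  · have := not_le.1 h; positivity

/-- the derivatives against the scale `1 + u₊` -/
lemma ratios (u : ℝ) : ∃ c1 c2 c3 c4 : ℝ, c1 ∈ Icc (1 : ℝ) 24 ∧ c2 ∈ Icc (1 : ℝ) 24 ∧
    c3 ∈ Icc (1 : ℝ) 24 ∧ c4 ∈ Icc (1 : ℝ) 24 ∧ pc T3 u = fE u * c1 * (1 + max u 0)⁻¹ ∧
    pc T2 u = fE u * c2 * (1 + max u 0)⁻¹ ^ 2 ∧ pc T1 u = fE u * c3 * (1 + max u 0)⁻¹ ^ 3 ∧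
    pc (fun _ => 1) u = fE u * c4 * (1 + max u 0)⁻¹ ^ 4 := by
  by_cases h : u ≤ 0
  · refine ⟨1, 1, 1, 1, by norm_num, by norm_num, by norm_num, by norm_num, ?_⟩
    simp [pc, fE, h]
  have h0 := not_le.1 h
  have hE := fE_pos u
  have e : fE u = 1 + u + u ^ 2 / 2 + u ^ 3 / 6 + u ^ 4 / 24 := if_neg h
  have h2 := pow_pos h0 2
  have h3 := pow_pos h0 3
  have h4 := pow_pos h0 4
  have b : ∀ y : ℝ, fE u ≤ y → y ≤ 24 * fE u → y / fE u ∈ Icc (1 : ℝ) 24 := fun y a b =>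
    ⟨(one_le_div hE).2 a, (div_le_iff₀ hE).2 b⟩
  refine ⟨T3 u * (1 + u) / fE u, T2 u * (1 + u) ^ 2 / fE u, T1 u * (1 + u) ^ 3 / fE u,
    (1 + u) ^ 4 / fE u, b _ ?_ ?_, b _ ?_ ?_, b _ ?_ ?_, b _ ?_ ?_, ?_⟩
  any_goals (simp only [e, T1, T2, T3]; nlinarith)
  simp only [pc, if_neg h, max_eq_left h0.le]
  refine ⟨?_, ?_, ?_, ?_⟩ <;> field_simp

lemma young {a b m : ℝ} (ha : 0 ≤ a) (hm : 0 ≤ m) :
    240 * (a ^ 3 * m) + 384 * (a ^ 2 * m ^ 2) + 384 * (a * m * b) + 312 * (a * m ^ 3) +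
      264 * (m ^ 2 * b) + 121 * m ^ 4 ≤ a ^ 4 + 3 * b ^ 2 + 10 ^ 12 * m ^ 4 := by
  have h1 : 240 * (a ^ 3 * m) + 37248 * (a ^ 2 * m ^ 2) + 312 * (a * m ^ 3) ≤
      a ^ 4 + 3 * 10 ^ 11 * m ^ 4 := by
    rcases le_total a (1000 * m) with h | h
    · have e3 := mul_le_mul_of_nonneg_right (pow_le_pow_left₀ ha h 3) hm
      have e2 := mul_le_mul_of_nonneg_right (pow_le_pow_left₀ ha h 2) (pow_nonneg hm 2)
      have e1 := mul_le_mul_of_nonneg_right h (pow_nonneg hm 3)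
      nlinarith [pow_nonneg ha 4, pow_nonneg hm 4]
    · have e3 := mul_le_mul_of_nonneg_left h (pow_nonneg ha 3)
      have e2 := mul_le_mul_of_nonneg_left (pow_le_pow_left₀ (by positivity) h 2) (pow_nonneg ha 2)
      have e1 := mul_le_mul_of_nonneg_left (pow_le_pow_left₀ (by positivity) h 3) ha
      nlinarith [pow_nonneg ha 4, pow_nonneg hm 4]
  nlinarith [sq_nonneg (b - 192 * (a * m)), sq_nonneg (b - 132 * m ^ 2), sq_nonneg b,
    pow_nonneg hm 4]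

lemma abs_c {c y z : ℝ} (hc : c ∈ Icc (1 : ℝ) 24) (h : |y| ≤ z) : |c * y| ≤ 24 * z := by
  rw [abs_mul, abs_of_nonneg (by linarith [hc.1])]
  exact mul_le_mul hc.2 h (abs_nonneg _) (by norm_num)

lemma low {F1 G φ γ : ℝ} (h1 : |F1| ≤ φ) (h2 : |G| ≤ γ) : -(φ * γ) ≤ F1 * G :=
  neg_le_of_abs_le (by rw [abs_mul]; exact mul_le_mul h1 h2 (abs_nonneg _) ((abs_nonneg _).trans h1))

/-- the normalised inequality -/
lemma key {a b2 b3 b4 c1 c2 c3 c4 F F1 F2 F3 F4 m : ℝ} (h1 : c1 ∈ Icc (1 : ℝ) 24)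
    (h2 : c2 ∈ Icc (1 : ℝ) 24) (h3 : c3 ∈ Icc (1 : ℝ) 24) (h4 : c4 ∈ Icc (1 : ℝ) 24) (hm : 0 ≤ m)
    (hF : 0 ≤ F) (f1 : |F1| ≤ m * F) (f2 : |F2| ≤ m ^ 2 * F) (f3 : |F3| ≤ m ^ 3 * F)
    (f4 : |F4| ≤ m ^ 4 * F) (j2 : -(m * |a| + m ^ 2) ≤ b2)
    (j3 : |b3| ≤ m * (|b2| + m * |a| + m ^ 2)) (j4 : |b4| ≤ m ^ 2 * (|b2| + m * |a| + m ^ 2)) :
    -(10 ^ 12 * m ^ 4 * F) ≤ F4 + 4 * (F3 * (c1 * a)) + 6 * (F2 * (c2 * (a * a) + c1 * b2)) +
      4 * (F1 * (c3 * (a * a * a) + 3 * (c2 * (a * b2)) + c1 * b3)) +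
      F * (c4 * a ^ 4 + 6 * (c3 * (a ^ 2 * b2)) + 3 * (c2 * b2 ^ 2) + 4 * (c2 * (a * b3)) +
        c1 * b4) := by
  have ha := abs_nonneg a
  have y := young (b := |b2|) ha hm
  have g1 := low f3 (abs_c h1 (le_refl |a|))
  have g2 := low f2 ((abs_add_le _ _).trans (add_le_add
    (abs_c h2 (abs_mul a a).le) (abs_c h1 (le_refl |b2|))))
  have g3 := low f1 ((abs_add_le _ _).trans (add_le_add ((abs_add_le _ _).trans (add_le_add
    (abs_c h3 (show |a * a * a| ≤ |a| * |a| * |a| by rw [abs_mul, abs_mul]))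
    (show |3 * (c2 * (a * b2))| ≤ 3 * (24 * (|a| * |b2|)) by
      rw [abs_mul, abs_of_pos three_pos]
      exact mul_le_mul_of_nonneg_left (abs_c h2 (abs_mul a b2).le) three_pos.le))) (abs_c h1 j3)))
  have k1 : |a| ^ 4 ≤ c4 * a ^ 4 := by
    rw [show |a| ^ 4 = a ^ 4 by rw [show 4 = 2 * 2 from rfl, pow_mul, pow_mul, sq_abs]]
    exact le_mul_of_one_le_left (by positivity) h4.1
  have k2 : -(24 * (|a| ^ 2 * (m * |a| + m ^ 2))) ≤ c3 * (a ^ 2 * b2) := by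
    rw [sq_abs]
    have p1 := mul_le_mul_of_nonneg_left j2 (sq_nonneg a)
    have p2 : 0 ≤ a ^ 2 * (m * |a| + m ^ 2) := by positivity
    nlinarith [mul_le_mul_of_nonneg_left p1 (show 0 ≤ c3 by linarith [h3.1]),
      mul_le_mul_of_nonneg_right h3.2 p2]
  have k3 : |b2| ^ 2 ≤ c2 * b2 ^ 2 := by
    rw [sq_abs]; exact le_mul_of_one_le_left (sq_nonneg _) h2.1
  have k4 := neg_le_of_abs_le (abs_c h2 (show |a * b3| ≤ |a| * (m * (|b2| + m * |a| + m ^ 2)) by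
    rw [abs_mul]; exact mul_le_mul_of_nonneg_left j3 ha))
  have k5 := neg_le_of_abs_le (abs_c h1 j4)
  have k := mul_le_mul_of_nonneg_left (add_le_add (add_le_add (add_le_add (add_le_add k1
    (mul_le_mul_of_nonneg_left k2 (show (0 : ℝ) ≤ 6 by norm_num)))
    (mul_le_mul_of_nonneg_left k3 (show (0 : ℝ) ≤ 3 by norm_num)))
    (mul_le_mul_of_nonneg_left k4 (show (0 : ℝ) ≤ 4 by norm_num))) k5) hF
  have y' := mul_le_mul_of_nonneg_left y hF
  have g0 := neg_le_of_abs_le f4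
  linarith

end Alg66

open Alg66 in
/-- **task 813** -/
theorem algStmt : AlgStmt := by
  refine ⟨10 ^ 12, by positivity, ch_fE.contDiff cont_pc, ?_, fE_pos, fun u => ?_, ?_⟩
  · refine monotone_of_deriv_nonneg (fun u => (ch_fE.d0 u).differentiableAt) fun u => ?_
    obtain ⟨c1, -, -, -, h1, -, -, -, e, -⟩ := ratios u
    have := fE_pos u
    have := h1.1
    rw [(ch_fE.d0 u).deriv, e]
    positivity
  · unfold fE
    split_ifs with h
    · rw [max_eq_right h]; simpa using h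
    · have h0 := not_le.1 h
      rw [max_eq_left h0.le]
      nlinarith [pow_pos h0 2, pow_pos h0 3, pow_pos h0 4]
  intro F B x ω R β hF hω hR hβ hF0 hD hJ
  have e := congrFun ((ch_of hF).mul (ch_fE.comp (ch_of hJ.cd))).dv4 x
  obtain ⟨c1, c2, c3, c4, h1, h2, h3, h4, e1, e2, e3, e4⟩ := ratios (B x)
  have hE := fE_pos (B x)
  set θ := (1 + max (B x) 0)⁻¹ with hθ
  have θ0 : 0 < θ := by positivity
  set γ := θ * β with hγ
  have γ0 : 0 ≤ γ := by positivity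
  set m := max (max R ω) √γ with hm
  have m1 : R ≤ m := (le_max_left _ _).trans (le_max_left _ _)
  have m2 : ω ≤ m := (le_max_right _ _).trans (le_max_left _ _)
  have m0 : 0 ≤ m := hR.trans m1
  have m3 : γ ≤ m ^ 2 := by
    rw [← sq_sqrt γ0]; exact pow_le_pow_left₀ (sqrt_nonneg _) (le_max_right _ _) 2
  have m4 : m ^ 4 ≤ R ^ 4 + γ ^ 2 + ω ^ 4 := by
    have a1 := pow_nonneg hR 4
    have a2 := pow_nonneg hω 4
    have a3 := sq_nonneg γ
    rcases max_cases (max R ω) √γ with h | h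
    · rcases max_cases R ω with h' | h' <;> rw [hm, h.1, h'.1] <;> linarith
    · rw [hm, h.1, show √γ ^ 4 = (√γ ^ 2) ^ 2 by ring, sq_sqrt γ0]; linarith
  have f : ∀ j ∈ Icc 1 4, |dv j F x| ≤ m ^ j * F x := fun j hj =>
    (hD j hj).trans (mul_le_mul_of_nonneg_right (pow_le_pow_left₀ hω m2 j) hF0)
  have ab : ∀ y, |θ * y| = θ * |y| := fun y => by rw [abs_mul, abs_of_pos θ0]
  have s : θ * (|dv 2 B x| + R * |dv 1 B x| + β) ≤ |θ * dv 2 B x| + m * |θ * dv 1 B x| + m ^ 2 := by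
    rw [ab, ab]
    nlinarith [mul_le_mul_of_nonneg_right m1 (mul_nonneg θ0.le (abs_nonneg (dv 1 B x)))]
  have s0 : 0 ≤ θ * (|dv 2 B x| + R * |dv 1 B x| + β) := by positivity
  have k := key (a := θ * dv 1 B x) (b2 := θ * dv 2 B x) (b3 := θ * dv 3 B x)
    (b4 := θ * dv 4 B x) h1 h2 h3 h4 m0 hF0 (by simpa using f 1 (by simp)) (f 2 (by simp))
    (f 3 (by simp)) (f 4 (by simp))
    (by rw [ab]
        nlinarith [mul_le_mul_of_nonneg_left hJ.h2 θ0.le,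
          mul_le_mul_of_nonneg_right m1 (mul_nonneg θ0.le (abs_nonneg (dv 1 B x)))])
    (by rw [ab]
        refine (mul_le_mul_of_nonneg_left hJ.h3 θ0.le).trans ?_
        rw [mul_left_comm]
        exact mul_le_mul m1 s s0 m0)
    (by rw [ab]
        refine (mul_le_mul_of_nonneg_left hJ.h4 θ0.le).trans ?_
        rw [mul_left_comm]
        exact mul_le_mul (pow_le_pow_left₀ hR m1 2) s s0 (by positivity))
  have k' := mul_le_mul_of_nonneg_left k hE.le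
  have k2 := mul_le_mul_of_nonneg_right m4 (mul_nonneg hF0 hE.le)
  rw [dv, e, e1, e2, e3, e4, div_eq_inv_mul, ← hθ, ← hγ]
  linarith

end Crest.Agent.T157.Cw

end
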