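import Mathlib
import Crest.Agent.T157.OcA_9

set_option autoImplicit false

/-!
Row 157, A2 tools (helper9).  Polynomial mollifier on `SO(n)`; the class `RD` of `C^1` functions on
`SO(n)`; logarithmic Sobolev and Poincare inequalities for it; gradient bound of Lipschitz
polynomials.
-/

namespace Crest.Agent.T157.Oc

open MvPolynomial MeasureTheory Crest.Agent.Lib.OrthPoinc Filter Topology Set

variable {n : ℕ}

/-- `f` is `C^1` on `SO(n)`, `D a` its derivative along the rotation `a`. -/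
structure RD (f : Mat n → ℝ) (D : Fin n × Fin n → Mat n → ℝ) : Prop where
  c : ContinuousOn f (SO n)
  r : ∀ a, R1 a f (D a)

/-- squared gradient -/
noncomputable def sqD (D : Fin n × Fin n → Mat n → ℝ) (U : Mat n) : ℝ := ∑ a, D a U ^ 2

theorem sqD_nonneg (D : Fin n × Fin n → Mat n → ℝ) (U : Mat n) : 0 ≤ sqD D U := by
  unfold sqD; positivity

namespace RD

variable {f g : Mat n → ℝ} {D E : Fin n × Fin n → Mat n → ℝ}

/-- constructor in the words of `rot` -/
theorem of_rot (hf : ContinuousOn f (SO n)) (hD : ∀ a, ContinuousOn (D a) (SO n))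
    (h0 : ∀ i, ∀ U ∈ SO n, D (i, i) U = 0)
    (hd : ∀ i j, i ≠ j → ∀ U ∈ SO n, HasDerivAt (fun t => f (rot i j t U)) (D (i, j) U) 0) :
    RD f D := by
  refine ⟨hf, fun a => ⟨hf, hD a, fun U hU => ?_⟩⟩
  obtain ⟨i, j⟩ := a
  unfold ro
  by_cases h : i = j
  · subst h
    simp only [if_true, h0 i U hU]
    exact hasDerivAt_const _ _
  · simp only [h, if_false]
    exact hd i j h U hU

theorem poly (p : PolyM n) : RD (ev p) (fun a => ev (XL a p)) :=
  ⟨(continuous_ev p).continuousOn, fun a => R1.polyL a p⟩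

theorem const (c : ℝ) : RD (n := n) (fun _ => c) (fun _ _ => 0) :=
  ⟨continuousOn_const, fun a => R1.const a c⟩

theorem add (hf : RD f D) (hg : RD g E) : RD (fun U => f U + g U) (fun a U => D a U + E a U) :=
  ⟨hf.c.add hg.c, fun a => (hf.r a).add (hg.r a)⟩

theorem sub (hf : RD f D) (hg : RD g E) : RD (fun U => f U - g U) (fun a U => D a U - E a U) :=
  ⟨hf.c.sub hg.c, fun a => (hf.r a).sub (hg.r a)⟩

theorem mul (hf : RD f D) (hg : RD g E) :
    RD (fun U => f U * g U) (fun a U => D a U * g U + f U * E a U) :=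
  ⟨hf.c.mul hg.c, fun a => (hf.r a).mul (hg.r a)⟩

theorem congr (hf : RD f D) (h1 : ∀ U ∈ SO n, f U = g U) (h2 : ∀ a, ∀ U ∈ SO n, D a U = E a U) :
    RD g E :=
  ⟨hf.c.congr fun U hU => (h1 U hU).symm, fun a => (hf.r a).congr h1 (h2 a)⟩

theorem const_mul (hf : RD f D) (c : ℝ) : RD (fun U => c * f U) (fun a U => c * D a U) :=
  ((const c).mul hf).congr (fun _ _ => rfl) fun _ _ _ => by ring

theorem sum {ι : Type*} (s : Finset ι) {f : ι → Mat n → ℝ} {D : ι → Fin n × Fin n → Mat n → ℝ}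
    (h : ∀ k ∈ s, RD (f k) (D k)) :
    RD (fun U => ∑ k ∈ s, f k U) (fun a U => ∑ k ∈ s, D k a U) :=
  ⟨continuousOn_finsetSum s fun k hk => (h k hk).c, fun a => R1.sum s fun k hk => (h k hk).r a⟩

theorem comp (hf : RD f D) {S : Set ℝ} (hS : ∀ U ∈ SO n, f U ∈ S) {φ φ' : ℝ → ℝ}
    (hφ : ∀ x ∈ S, HasDerivAt φ (φ' x) x) (hφ' : ContinuousOn φ' S) :
    RD (fun U => φ (f U)) (fun a U => φ' (f U) * D a U) :=
  ⟨ContinuousOn.comp (g := φ) (fun x hx => (hφ x hx).continuousAt.continuousWithinAt) hf.c hS,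
    fun a => (hf.r a).comp hS hφ hφ'⟩

theorem exp (hf : RD f D) : RD (fun U => Real.exp (f U)) (fun a U => Real.exp (f U) * D a U) :=
  ⟨Real.continuous_exp.comp_continuousOn hf.c, fun a => (hf.r a).exp⟩

theorem log (hf : RD f D) (h0 : ∀ U ∈ SO n, 0 < f U) :
    RD (fun U => Real.log (f U)) (fun a U => (f U)⁻¹ * D a U) :=
  ⟨hf.c.log fun U hU => (h0 U hU).ne', fun a => (hf.r a).log h0⟩

theorem cD (hf : RD f D) : ContinuousOn (sqD D) (SO n) :=
  continuousOn_finsetSum _ fun a _ => (hf.r a).c'.pow 2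

end RD

/-! ### products, traces, Frobenius distance -/

/-- the product `V U` -/
noncomputable def mm (V U : Mat n) : Mat n := rmul (Matrix.of U) V

theorem mm_apply (V U : Mat n) (a b : Fin n) : mm V U a b = ∑ k, V a k * U k b := by
  simp [mm, rmul_apply]

theorem mm_mem {V U : Mat n} (hV : V ∈ SO n) (hU : U ∈ SO n) : mm V U ∈ SO n := rmul_mem_SO hU hV

theorem continuous_mm (U : Mat n) : Continuous fun V => mm V U := continuous_rmul _

theorem ro_mm (a : Fin n × Fin n) (t : ℝ) (V U : Mat n) : ro a t (mm V U) = mm V (ro a t U) := by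
  obtain ⟨R, -, h⟩ := exists_ro_eq a t
  rw [h, h, mm, mm, rmul_rmul]
  rfl

theorem so_cols {V : Mat n} (hV : V ∈ SO n) (i j : Fin n) :
    ∑ a, V a i * V a j = if i = j then 1 else 0 := by
  simpa using so_rows (transpose_mem_so hV) i j

theorem so_rows' {V : Mat n} (hV : V ∈ SO n) (a b : Fin n) :
    ∑ k, V a k * V b k = if a = b then 1 else 0 := ((mem_SO_iff V).mp hV).1 a b

theorem frob_mul {V : Mat n} (hV : V ∈ SO n) (Y : Mat n) :
    ∑ a, ∑ b, (∑ i, V a i * Y i b) ^ 2 = ∑ i, ∑ b, Y i b ^ 2 := by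
  rw [Finset.sum_comm, Finset.sum_comm (f := fun i b => Y i b ^ 2)]
  refine Finset.sum_congr rfl fun b _ => ?_
  have h : ∀ a, (∑ i, V a i * Y i b) ^ 2 = ∑ i, ∑ j, (V a i * V a j) * (Y i b * Y j b) := by
    intro a
    rw [sq, Finset.sum_mul_sum]
    exact Finset.sum_congr rfl fun i _ => Finset.sum_congr rfl fun j _ => by ring
  simp only [h]
  rw [Finset.sum_comm]
  refine Finset.sum_congr rfl fun i _ => ?_
  rw [Finset.sum_comm]
  simp only [← Finset.sum_mul, so_cols hV]
  simp [sq]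

/-- squared Frobenius distance -/
noncomputable def fd (U W : Mat n) : ℝ := ∑ a, ∑ b, (U a b - W a b) ^ 2

theorem fd_nonneg (U W : Mat n) : 0 ≤ fd U W := by unfold fd; positivity

theorem fd_mm {V : Mat n} (hV : V ∈ SO n) (U W : Mat n) : fd (mm V U) (mm V W) = fd U W := by
  unfold fd
  rw [← frob_mul hV (fun i b => U i b - W i b)]
  refine Finset.sum_congr rfl fun a _ => Finset.sum_congr rfl fun b _ => ?_
  rw [mm_apply, mm_apply, ← Finset.sum_sub_distrib]
  congr 1
  exact Finset.sum_congr rfl fun k _ => by ring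

/-- trace -/
noncomputable def tr (V : Mat n) : ℝ := ∑ a, V a a

theorem continuous_tr : Continuous (tr (n := n)) := by unfold tr; fun_prop

theorem ip_mm {U : Mat n} (hU : U ∈ SO n) (V : Mat n) :
    ∑ a, ∑ b, mm V U a b * U a b = tr V := by
  unfold tr
  refine Finset.sum_congr rfl fun a _ => ?_
  simp only [mm_apply, Finset.sum_mul]
  rw [Finset.sum_comm]
  have : ∀ k, ∑ b, V a k * U k b * U a b = V a k * if k = a then 1 else 0 := by
    intro k
    rw [← so_rows' hU k a, Finset.mul_sum]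
    exact Finset.sum_congr rfl fun b _ => by ring
  simp [this]

theorem frob_so {U : Mat n} (hU : U ∈ SO n) : ∑ a, ∑ b, U a b ^ 2 = n := by
  have : ∀ a, ∑ b, U a b ^ 2 = 1 := fun a => by simpa [sq] using so_rows' hU a a
  simp [this]

theorem fd_mm_self {V U : Mat n} (hV : V ∈ SO n) (hU : U ∈ SO n) :
    fd (mm V U) U = 2 * n - 2 * tr V := by
  have h1 := frob_so (mm_mem hV hU)
  have h2 := frob_so hU
  have h3 := ip_mm hU V
  have : fd (mm V U) U = ∑ a, ∑ b, mm V U a b ^ 2 + ∑ a, ∑ b, U a b ^ 2 -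
      2 * ∑ a, ∑ b, mm V U a b * U a b := by
    unfold fd
    simp only [Finset.mul_sum, ← Finset.sum_add_distrib, ← Finset.sum_sub_distrib]
    exact Finset.sum_congr rfl fun a _ => Finset.sum_congr rfl fun b _ => by ring
  rw [this, h1, h2, h3]; ring

theorem sq_le_fd (U W : Mat n) (a b : Fin n) : (U a b - W a b) ^ 2 ≤ fd U W := by
  unfold fd
  calc (U a b - W a b) ^ 2 ≤ ∑ b, (U a b - W a b) ^ 2 :=
        Finset.single_le_sum (f := fun b => (U a b - W a b) ^ 2) (fun _ _ => sq_nonneg _)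
          (Finset.mem_univ b)
    _ ≤ _ := Finset.single_le_sum (f := fun a => ∑ b, (U a b - W a b) ^ 2)
          (fun _ _ => by positivity) (Finset.mem_univ a)

theorem neg_le_tr {V : Mat n} (hV : V ∈ SO n) : 0 ≤ n + tr V := by
  have : ∑ _a : Fin n, (-1 : ℝ) ≤ tr V :=
    Finset.sum_le_sum fun a _ => (abs_le.mp (abs_le_one_of_so hV a a)).1
  simp at this
  linarith

variable {μ : Measure (Mat n)} [IsProbabilityMeasure μ]

theorem meas_nbhd_pos (hμ : SOInv μ) {δ : ℝ} (hδ : 0 < δ) : 0 < μ.real {V | n - δ < tr V} := by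
  have hN : IsOpen {V : Mat n | n - δ < tr V} := isOpen_lt continuous_const continuous_tr
  rw [measureReal_def, ENNReal.toReal_pos_iff]
  refine ⟨pos_iff_ne_zero.mpr fun h0 => ?_, measure_lt_top _ _⟩
  have h1 : μ (SO n) = 0 := by
    refine isCompact_SO.measure_zero_of_nhdsWithin fun U hU => ?_
    refine ⟨rmul (Matrix.of U).transpose ⁻¹' {V | n - δ < tr V}, mem_nhdsWithin_of_mem_nhds ?_, ?_⟩
    · refine (hN.preimage (continuous_rmul _)).mem_nhds ?_
      have : tr (rmul (Matrix.of U).transpose U) = n := by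
        unfold tr
        have : ∀ a, rmul (Matrix.of U).transpose U a a = 1 := fun a => by
          simpa [rmul_apply] using so_rows' hU a a
        simp [this]
      simp only [mem_preimage, Set.mem_ofPred_eq, this]
      linarith
    · rw [(hμ.mp (V := (Matrix.of U).transpose) (transpose_mem_so hU)).measure_preimage hN.measurableSet.nullMeasurableSet, h0]
  have h2 : μ (SO n)ᶜ = 0 := hμ.mem
  have h3 := measure_add_measure_compl (μ := μ) (isClosed_SO (n := n)).measurableSet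
  rw [h1, h2] at h3
  simp at h3

/-- the kernel -/
noncomputable def ker (m : ℕ) (V : Mat n) : ℝ := (n + tr V) ^ m

theorem continuous_ker (m : ℕ) : Continuous (ker (n := n) m) :=
  (continuous_const.add continuous_tr).pow m

theorem ker_nonneg (m : ℕ) {V : Mat n} (hV : V ∈ SO n) : 0 ≤ ker m V := pow_nonneg (neg_le_tr hV) m

theorem ker_lower (hμ : SOInv μ) {δ : ℝ} (hδn : δ ≤ 2 * n) (m : ℕ) :
    (2 * n - δ) ^ m * μ.real {V | n - δ < tr V} ≤ ∫ V, ker m V ∂μ := by
  refine le_trans ?_ (mul_meas_ge_le_integral_of_nonneg ?_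
    (integrable_of hμ (continuous_ker m).continuousOn) ((2 * n - δ) ^ m))
  · refine mul_le_mul_of_nonneg_left (measureReal_mono fun V hV => ?_) (pow_nonneg (by linarith) m)
    simp only [Set.mem_ofPred_eq] at hV ⊢
    exact pow_le_pow_left₀ (by linarith) (by linarith) m
  · filter_upwards [hμ.mem] with V hV using ker_nonneg m hV

theorem ker_pos (hμ : SOInv μ) (hn : 0 < n) (m : ℕ) : 0 < ∫ V, ker m V ∂μ := by
  have h1 : (1 : ℝ) ≤ n := by exact_mod_cast hn
  refine lt_of_lt_of_le ?_ (ker_lower hμ (δ := 1) (by linarith) m)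
  exact mul_pos (pow_pos (by linarith) m) (meas_nbhd_pos hμ one_pos)

/-- the mollified function -/
noncomputable def mol (μ : Measure (Mat n)) (m : ℕ) (g : Mat n → ℝ) (U : Mat n) : ℝ :=
  (∫ V, ker m V ∂μ)⁻¹ * ∫ V, g (mm V U) * ker m V ∂μ

theorem contOn_mm {g : Mat n → ℝ} (hg : ContinuousOn g (SO n)) {U : Mat n} (hU : U ∈ SO n) :
    ContinuousOn (fun V => g (mm V U)) (SO n) :=
  hg.comp (continuous_mm U).continuousOn fun _ hV => mm_mem hV hU

theorem exists_poly_aux (hμ : SOInv μ) (m : ℕ) : ∀ g : Mat n → ℝ, ContinuousOn g (SO n) →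
    ∃ p : PolyM n, ∀ U, ev p U = ∫ W, g W * (n + ∑ a, ∑ b, W a b * U a b) ^ m ∂μ := by
  induction m with
  | zero => exact fun g _ => ⟨C (∫ W, g W ∂μ), fun U => by simp [ev_C]⟩
  | succ m ih =>
    intro g hg
    obtain ⟨p, hp⟩ := ih g hg
    have hc : ∀ a b : Fin n, ContinuousOn (fun W : Mat n => g W * W a b) (SO n) := fun a b =>
      hg.mul (by fun_prop : Continuous fun W : Mat n => W a b).continuousOn
    choose q hq using fun a b : Fin n => ih (fun W => g W * W a b) (hc a b)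
    refine ⟨C (n : ℝ) * p + ∑ a, ∑ b, X (a, b) * q a b, fun U => ?_⟩
    have hk : Continuous fun W : Mat n => ((n : ℝ) + ∑ a, ∑ b, W a b * U a b) ^ m := by fun_prop
    have i1 : Integrable (fun W => (n : ℝ) * (g W * (n + ∑ a, ∑ b, W a b * U a b) ^ m)) μ :=
      (integrable_of hμ (hg.mul hk.continuousOn)).const_mul _
    have i2 : ∀ a b, Integrable (fun W => U a b *
        (g W * W a b * (n + ∑ a, ∑ b, W a b * U a b) ^ m)) μ := fun a b =>
      (integrable_of hμ ((hc a b).mul hk.continuousOn)).const_mul _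
    simp only [ev_add, ev_mul, ev_C, ev_sum, ev_X, hp, hq, ← integral_const_mul]
    have e : ∀ a, ∑ b, ∫ W, U a b * (g W * W a b * (n + ∑ a, ∑ b, W a b * U a b) ^ m) ∂μ =
        ∫ W, ∑ b, U a b * (g W * W a b * (n + ∑ a, ∑ b, W a b * U a b) ^ m) ∂μ := fun a =>
      (integral_finsetSum _ fun b _ => i2 a b).symm
    simp only [e]
    rw [← integral_finsetSum _ fun a _ => integrable_finsetSum _ fun b _ => i2 a b,
      ← integral_add i1 (integrable_finsetSum _ fun a _ => integrable_finsetSum _ fun b _ => i2 a b)]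
    congr 1
    funext W
    set Y := ((n : ℝ) + ∑ a, ∑ b, W a b * U a b) ^ m with hY
    rw [pow_succ, ← hY, mul_add, mul_add, Finset.mul_sum, Finset.mul_sum]
    congr 1
    · ring
    · refine Finset.sum_congr rfl fun a _ => ?_
      rw [Finset.mul_sum, Finset.mul_sum]
      exact Finset.sum_congr rfl fun b _ => by ring

theorem exists_poly_mol (hμ : SOInv μ) (m : ℕ) {g : Mat n → ℝ} (hg : ContinuousOn g (SO n)) :
    ∃ p : PolyM n, ∀ U ∈ SO n, ev p U = mol μ m g U := by
  obtain ⟨p, hp⟩ := exists_poly_aux hμ m g hg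
  refine ⟨(∫ V, ker m V ∂μ)⁻¹ • p, fun U hU => ?_⟩
  rw [ev_smul, hp, mol]
  congr 1
  have hk : Continuous fun W : Mat n => ((n : ℝ) + ∑ a, ∑ b, W a b * U a b) ^ m := by fun_prop
  have h2 := integral_map (μ := μ) (φ := rmul (Matrix.of U))
    (f := fun W => g W * (n + ∑ a, ∑ b, W a b * U a b) ^ m)
    (continuous_rmul _).measurable.aemeasurable
    (by rw [hμ.inv (Matrix.of U) hU]; exact aesm_of hμ (hg.mul hk.continuousOn))
  rw [hμ.inv (Matrix.of U) hU] at h2
  rw [h2]
  congr 1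
  funext V
  have := ip_mm hU V
  unfold mm at this
  rw [this]; rfl

theorem hasDerivAt_mol (hμ : SOInv μ) (m : ℕ) {a : Fin n × Fin n} {f f' : Mat n → ℝ}
    (hf : R1 a f f') {U : Mat n} (hU : U ∈ SO n) :
    HasDerivAt (fun t => mol μ m f (ro a t U)) (mol μ m f' U) 0 := by
  unfold mol
  refine HasDerivAt.const_mul _ ?_
  have hj : Continuous fun z : ℝ × Mat n => ro a z.1 (mm z.2 U) :=
    (continuous_ro a).comp (f := fun z : ℝ × Mat n => (z.1, mm z.2 U))
      (continuous_fst.prodMk ((continuous_mm U).comp continuous_snd))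
  have := hasDerivAt_int hμ isOpen_univ (F := fun t V => f (ro a t (mm V U)) * ker m V)
    (F' := fun t V => f' (ro a t (mm V U)) * ker m V)
    (fun t _ => by
      simp only [ro_mm]
      exact (contOn_mm hf.c (ro_mem a t hU)).mul (continuous_ker m).continuousOn)
    ((hf.c'.comp hj.continuousOn fun z hz => ro_mem a z.1 (mm_mem hz.2 hU)).mul
      ((continuous_ker m).comp continuous_snd).continuousOn)
    (fun t _ V hV => (hf.d_at (mm_mem hV hU) t).mul_const _) (mem_univ 0)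
  simpa only [ro_mm, ro_zero] using this

theorem mol_sub_le (hμ : SOInv μ) (hn : 0 < n) (m : ℕ) {h : Mat n → ℝ}
    {ε B : ℝ} (hb : ∀ V ∈ SO n, |h V * ker m V| ≤ ε * ker m V + B) :
    |(∫ V, ker m V ∂μ)⁻¹ * ∫ V, h V * ker m V ∂μ| ≤ ε + B / ∫ V, ker m V ∂μ := by
  have hZ := ker_pos hμ hn m
  have ik := integrable_of hμ (continuous_ker (n := n) m).continuousOn
  have h1 : |∫ V, h V * ker m V ∂μ| ≤ ∫ V, (ε * ker m V + B) ∂μ := by
    rw [← Real.norm_eq_abs]
    refine norm_integral_le_of_norm_le ((ik.const_mul ε).add (integrable_const B)) ?_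
    filter_upwards [hμ.mem] with V hV using hb V hV
  rw [integral_add (ik.const_mul ε) (integrable_const B), integral_const_mul] at h1
  simp only [integral_const, probReal_univ, smul_eq_mul, one_mul] at h1
  rw [abs_mul, abs_of_pos (inv_pos.mpr hZ)]
  calc _ ≤ (∫ V, ker m V ∂μ)⁻¹ * (ε * ∫ V, ker m V ∂μ + B) :=
        mul_le_mul_of_nonneg_left h1 (inv_pos.mpr hZ).le
    _ = _ := by field_simp

theorem mol_sub_eq (hμ : SOInv μ) (hn : 0 < n) (m : ℕ) {g : Mat n → ℝ} (hg : ContinuousOn g (SO n))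
    {U : Mat n} (hU : U ∈ SO n) (c : ℝ) :
    mol μ m g U - c = (∫ V, ker m V ∂μ)⁻¹ * ∫ V, (g (mm V U) - c) * ker m V ∂μ := by
  have hZ := ker_pos hμ hn m
  have ik := integrable_of hμ (continuous_ker (n := n) m).continuousOn
  have i1 : Integrable (fun V => g (mm V U) * ker m V) μ :=
    integrable_of hμ ((contOn_mm hg hU).mul (continuous_ker m).continuousOn)
  simp only [sub_mul]
  rw [integral_sub i1 (ik.const_mul c), integral_const_mul, mol]
  field_simp

theorem mol_approx (hμ : SOInv μ) (hn : 0 < n) {g : Mat n → ℝ} (hg : ContinuousOn g (SO n))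
    {ε : ℝ} (hε : 0 < ε) : ∀ᶠ m in atTop, ∀ U ∈ SO n, |mol μ m g U - g U| ≤ ε := by
  have h1n : (1 : ℝ) ≤ n := by exact_mod_cast hn
  obtain ⟨K, hK⟩ := isCompact_SO.exists_bound_of_continuousOn hg
  obtain ⟨η, hη, hu⟩ := Metric.uniformContinuousOn_iff.mp
    (isCompact_SO.uniformContinuousOn_of_continuous hg) (ε / 2) (by linarith)
  set δ := min 1 (η ^ 2 / 4) with hδ
  have hδ0 : 0 < δ := lt_min one_pos (by positivity)
  have hδ1 : δ ≤ 1 := min_le_left _ _
  have hδ2 : δ ≤ η ^ 2 / 4 := min_le_right _ _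
  set c := μ.real {V | n - δ / 2 < tr V} with hc
  have hc0 : 0 < c := meas_nbhd_pos hμ (by linarith)
  have hr : Tendsto (fun m : ℕ => 2 * |K| / c * ((2 * n - δ) / (2 * n - δ / 2)) ^ m) atTop
      (𝓝 (2 * |K| / c * 0)) :=
    (tendsto_pow_atTop_nhds_zero_of_lt_one (div_nonneg (by linarith) (by linarith))
      ((div_lt_one (by linarith)).mpr (by linarith))).const_mul _
  rw [mul_zero] at hr
  filter_upwards [hr.eventually (ge_mem_nhds (by linarith : 0 < ε / 2))] with m hm U hU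
  rw [mol_sub_eq hμ hn m hg hU]
  have hp : 0 ≤ (2 * (n : ℝ) - δ) ^ m := pow_nonneg (by linarith) m
  refine (mol_sub_le hμ hn m (h := fun V => g (mm V U) - g U) (ε := ε / 2)
    (B := 2 * |K| * (2 * n - δ) ^ m) fun V hV => ?_).trans ?_
  · have hk := ker_nonneg m hV
    rw [abs_mul, abs_of_nonneg hk]
    by_cases hV1 : n - δ < tr V
    · have hd : dist (mm V U) U < η := by
        rw [dist_pi_lt_iff hη]
        intro a
        rw [dist_pi_lt_iff hη]
        intro b
        have h3 := sq_le_fd (mm V U) U a b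
        rw [fd_mm_self hV hU] at h3
        rw [Real.dist_eq]
        refine abs_lt_of_sq_lt_sq ?_ hη.le
        nlinarith
      have h4 := hu _ (mm_mem hV hU) _ hU hd
      rw [Real.dist_eq] at h4
      have h5 : 0 ≤ 2 * |K| * (2 * (n : ℝ) - δ) ^ m := by positivity
      have h6 := mul_le_mul_of_nonneg_right h4.le hk
      linarith
    · push Not at hV1
      have h3 : ker m V ≤ (2 * (n : ℝ) - δ) ^ m := pow_le_pow_left₀ (neg_le_tr hV) (by linarith) m
      have h4 : |g (mm V U) - g U| ≤ 2 * |K| := by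
        have a1 := hK _ (mm_mem hV hU)
        have a2 := hK _ hU
        rw [Real.norm_eq_abs] at a1 a2
        have a3 := le_abs_self K
        have := abs_sub (g (mm V U)) (g U)
        linarith
      have h5 : |g (mm V U) - g U| * ker m V ≤ 2 * |K| * (2 * (n : ℝ) - δ) ^ m :=
        mul_le_mul h4 h3 hk (by positivity)
      have h6 : 0 ≤ ε / 2 * ker m V := by positivity
      linarith
  · have h3 := ker_lower hμ (δ := δ / 2) (by linarith) m
    have h4 : 0 < (2 * (n : ℝ) - δ / 2) ^ m := pow_pos (by linarith) m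
    have h5 : 2 * |K| * (2 * n - δ) ^ m / ∫ V, ker m V ∂μ ≤
        2 * |K| * (2 * n - δ) ^ m / ((2 * (n : ℝ) - δ / 2) ^ m * c) :=
      div_le_div_of_nonneg_left (by positivity) (by positivity) h3
    have h6 : 2 * |K| * (2 * n - δ) ^ m / ((2 * (n : ℝ) - δ / 2) ^ m * c) =
        2 * |K| / c * ((2 * n - δ) / (2 * n - δ / 2)) ^ m := by
      rw [div_pow]; field_simp
    linarith

theorem ev_XL_of_mol (hμ : SOInv μ) {m : ℕ} {a : Fin n × Fin n} {f f' : Mat n → ℝ}
    (hf : R1 a f f') {p : PolyM n} (hp : ∀ U ∈ SO n, ev p U = mol μ m f U) {U : Mat n}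
    (hU : U ∈ SO n) : ev (XL a p) U = mol μ m f' U := by
  have h1 := (R1.polyL a p).d U hU
  have h2 := hasDerivAt_mol hμ m hf hU
  refine h1.unique (h2.congr_of_eventuallyEq (Eventually.of_forall fun t => hp _ (ro_mem a t hU)))

/-- `C^1` approximation by polynomials on `SO(n)`. -/
theorem RD.approx (hμ : SOInv μ) (hn : 0 < n) {f : Mat n → ℝ} {D : Fin n × Fin n → Mat n → ℝ}
    (hf : RD f D) {ε : ℝ} (hε : 0 < ε) :
    ∃ p : PolyM n, ∀ U ∈ SO n, |ev p U - f U| ≤ ε ∧ ∀ a, |ev (XL a p) U - D a U| ≤ ε := by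
  obtain ⟨m, h1, h2⟩ := ((mol_approx hμ hn hf.c hε).and
    (eventually_all.mpr fun a => mol_approx hμ hn (hf.r a).c' hε)).exists
  obtain ⟨p, hp⟩ := exists_poly_mol hμ m hf.c
  refine ⟨p, fun U hU => ⟨by rw [hp U hU]; exact h1 U hU, fun a => ?_⟩⟩
  rw [ev_XL_of_mol hμ (hf.r a) hp hU]
  exact h2 a U hU

theorem tendsto_int (hμ : SOInv μ) {G : ℕ → Mat n → ℝ} {g : Mat n → ℝ}
    (hG : ∀ k, ContinuousOn (G k) (SO n)) (K : ℝ) (hK : ∀ k, ∀ U ∈ SO n, |G k U| ≤ K)
    (hl : ∀ U ∈ SO n, Tendsto (fun k => G k U) atTop (𝓝 (g U))) :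
    Tendsto (fun k => ∫ U, G k U ∂μ) atTop (𝓝 (∫ U, g U ∂μ)) := by
  refine tendsto_integral_of_dominated_convergence (fun _ => K) (fun k => aesm_of hμ (hG k))
    (integrable_const _) (fun k => ?_) ?_
  · filter_upwards [hμ.mem] with U hU using hK k U hU
  · filter_upwards [hμ.mem] with U hU using hl U hU

theorem RD.seq (hμ : SOInv μ) (hn : 0 < n) {f : Mat n → ℝ} {D : Fin n × Fin n → Mat n → ℝ}
    (hf : RD f D) {ε : ℝ} (hε : 0 < ε) :
    ∃ (p : ℕ → PolyM n) (K : ℝ), (∀ k, ∀ U ∈ SO n, |ev (p k) U - f U| ≤ ε) ∧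
      (∀ k, ∀ U ∈ SO n, |ev (p k) U| ≤ K) ∧ (∀ k, ∀ U ∈ SO n, Gam (p k) U ≤ K) ∧
      (∀ U ∈ SO n, Tendsto (fun k => ev (p k) U) atTop (𝓝 (f U))) ∧
      (∀ U ∈ SO n, Tendsto (fun k => Gam (p k) U) atTop (𝓝 (sqD D U))) := by
  choose p hp using fun k : ℕ => hf.approx hμ hn (ε := ε * (1 / ((k : ℝ) + 1))) (by positivity)
  have hε0 : Tendsto (fun k : ℕ => ε * (1 / ((k : ℝ) + 1))) atTop (𝓝 0) := by
    simpa using (tendsto_one_div_add_atTop_nhds_zero_nat (𝕜 := ℝ)).const_mul ε
  have hε1 : ∀ k : ℕ, ε * (1 / ((k : ℝ) + 1)) ≤ ε := by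
    intro k
    refine mul_le_of_le_one_right hε.le ?_
    rw [div_le_one (by positivity)]
    have : (0 : ℝ) ≤ k := Nat.cast_nonneg k
    linarith
  obtain ⟨K0, hK0⟩ := isCompact_SO.exists_bound_of_continuousOn hf.c
  obtain ⟨K1, hK1⟩ := isCompact_SO.exists_bound_of_continuousOn hf.cD
  refine ⟨p, max (K0 + ε) (2 * K1 + 2 * ∑ _a : Fin n × Fin n, ε ^ 2), fun k U hU =>
    (hp k U hU).1.trans (hε1 k), fun k U hU => le_trans ?_ (le_max_left _ _),
    fun k U hU => le_trans ?_ (le_max_right _ _), fun U hU => ?_, fun U hU => ?_⟩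
  · have h1 := (hp k U hU).1.trans (hε1 k)
    have h2 := hK0 U hU
    rw [Real.norm_eq_abs] at h2
    have h3 := abs_sub_abs_le_abs_sub (ev (p k) U) (f U)
    linarith
  · have h2 := (le_abs_self _).trans (hK1 U hU)
    have h3 : Gam (p k) U ≤ ∑ a, (2 * D a U ^ 2 + 2 * ε ^ 2) := by
      rw [Gam_eq]
      refine Finset.sum_le_sum fun a _ => ?_
      have h4 := abs_le.mp (((hp k U hU).2 a).trans (hε1 k))
      nlinarith [sq_nonneg (ev (XL a (p k)) U - 2 * D a U)]
    rw [Finset.sum_add_distrib, ← Finset.mul_sum, ← Finset.mul_sum] at h3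
    unfold sqD at h2
    linarith
  · rw [tendsto_iff_dist_tendsto_zero]
    exact squeeze_zero (fun _ => dist_nonneg) (fun k => (hp k U hU).1) hε0
  · simp only [Gam_eq]
    refine tendsto_finsetSum _ fun a _ => Tendsto.pow ?_ 2
    rw [tendsto_iff_dist_tendsto_zero]
    exact squeeze_zero (fun _ => dist_nonneg) (fun k => (hp k U hU).2 a) hε0

theorem SO_nonempty : (SO n).Nonempty := ⟨fun a b => if a = b then 1 else 0, by
  have : Matrix.of (fun a b : Fin n => if a = b then (1 : ℝ) else 0) = 1 := by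
    ext a b; simp [Matrix.one_apply]
  unfold SO
  rw [Set.mem_ofPred_eq, this]; exact Submonoid.one_mem _⟩

/-- **LSI**, positive form. -/
theorem RD.lsi_pos (hμ : SOInv μ) (hn : 2 < n) {f : Mat n → ℝ} {D : Fin n × Fin n → Mat n → ℝ}
    (hf : RD f D) (h0 : ∀ U ∈ SO n, 0 < f U) :
    ∫ U, f U * Real.log (f U) ∂μ - (∫ U, f U ∂μ) * Real.log (∫ U, f U ∂μ) ≤
      (2 * ((n : ℝ) - 2))⁻¹ * ∫ U, sqD D U / f U ∂μ := by
  obtain ⟨U0, hU0, hmin⟩ := isCompact_SO.exists_isMinOn SO_nonempty hf.c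
  set m0 := f U0 with hm0
  have hm0p : 0 < m0 := h0 U0 hU0
  obtain ⟨p, K, h1, h2, h3, h4, h5⟩ := hf.seq hμ (by omega) (ε := m0 / 2) (by linarith)
  have hlow : ∀ k, ∀ U ∈ SO n, m0 / 2 ≤ ev (p k) U := fun k U hU => by
    have a1 := (abs_le.mp (h1 k U hU)).1
    have a2 : m0 ≤ f U := hmin hU
    linarith
  have hpos : ∀ k, ∀ U ∈ SO n, 0 < ev (p k) U := fun k U hU => by linarith [hlow k U hU]
  obtain ⟨K1, hK1⟩ := (isCompact_Icc (a := -K) (b := K)).exists_bound_of_continuousOn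
    Real.continuous_mul_log.continuousOn
  have t1 := tendsto_int hμ (G := fun k U => ev (p k) U * Real.log (ev (p k) U))
    (g := fun U => f U * Real.log (f U))
    (fun k => Real.continuous_mul_log.comp_continuousOn (continuous_ev _).continuousOn) K1
    (fun k U hU => hK1 _ (abs_le.mp (h2 k U hU)))
    (fun U hU => (Real.continuous_mul_log.tendsto _).comp (h4 U hU))
  have t2 := tendsto_int hμ (G := fun k U => ev (p k) U) (g := f)
    (fun k => (continuous_ev _).continuousOn) K h2 h4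
  have t3 := tendsto_int hμ (G := fun k U => Gam (p k) U / ev (p k) U)
    (g := fun U => sqD D U / f U)
    (fun k => (continuous_Gam _).continuousOn.div (continuous_ev _).continuousOn
      fun U hU => (hpos k U hU).ne') (K / (m0 / 2))
    (fun k U hU => by
      rw [abs_of_nonneg (div_nonneg (Gam_nonneg _ _) (hpos k U hU).le)]
      exact div_le_div₀ ((Gam_nonneg _ _).trans (h3 k U hU)) (h3 k U hU) (by linarith)
        (hlow k U hU))
    (fun U hU => (h5 U hU).div (h4 U hU) (h0 U hU).ne')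
  exact le_of_tendsto_of_tendsto' (t1.sub ((Real.continuous_mul_log.tendsto _).comp t2))
    (t3.const_mul _) fun k => poly_lsi hμ hn (p k) (hpos k)

/-- **LSI on `SO(n)`**: `Ent(e^g) ≤ (2(n-2))⁻¹ E[|Dg|² e^g]`. -/
theorem RD.lsi (hμ : SOInv μ) (hn : 2 < n) {g : Mat n → ℝ} {D : Fin n × Fin n → Mat n → ℝ}
    (hg : RD g D) :
    ∫ U, g U * Real.exp (g U) ∂μ - (∫ U, Real.exp (g U) ∂μ) * Real.log (∫ U, Real.exp (g U) ∂μ) ≤
      (2 * ((n : ℝ) - 2))⁻¹ * ∫ U, sqD D U * Real.exp (g U) ∂μ := by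
  have h := hg.exp.lsi_pos hμ hn fun U _ => Real.exp_pos _
  have e1 : ∀ U, Real.exp (g U) * Real.log (Real.exp (g U)) = g U * Real.exp (g U) := fun U => by
    rw [Real.log_exp, mul_comm]
  have e2 : ∀ U, sqD (fun a U => Real.exp (g U) * D a U) U / Real.exp (g U) =
      sqD D U * Real.exp (g U) := fun U => by
    unfold sqD
    rw [div_eq_iff (Real.exp_pos _).ne', Finset.sum_mul, Finset.sum_mul]
    exact Finset.sum_congr rfl fun a _ => by ring
  simpa only [e1, e2] using h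

/-- **Poincare inequality on `SO(n)`** for `C^1` functions. -/
theorem RD.poincare (hμ : SOInv μ) (hn : 2 < n) {f : Mat n → ℝ} {D : Fin n × Fin n → Mat n → ℝ}
    (hf : RD f D) :
    ∫ U, (f U - ∫ V, f V ∂μ) ^ 2 ∂μ ≤ ((n : ℝ) - 2)⁻¹ * ∫ U, sqD D U ∂μ := by
  have hρ0 : (0 : ℝ) < (n : ℝ) - 2 := by
    have : (2 : ℝ) < n := by exact_mod_cast hn
    linarith
  obtain ⟨p, K, -, h2, h3, h4, h5⟩ := hf.seq hμ (by omega) one_pos
  have t2 := tendsto_int hμ (G := fun k U => ev (p k) U) (g := f)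
    (fun k => (continuous_ev _).continuousOn) K h2 h4
  have hm : ∀ k, |∫ V, ev (p k) V ∂μ| ≤ K := fun k => by
    have : ‖∫ V, ev (p k) V ∂μ‖ ≤ K * μ.real univ := norm_integral_le_of_norm_le_const (by
      filter_upwards [hμ.mem] with U hU using h2 k U hU)
    simpa using this
  have t1 := tendsto_int hμ (G := fun k U => (ev (p k) U - ∫ V, ev (p k) V ∂μ) ^ 2)
    (g := fun U => (f U - ∫ V, f V ∂μ) ^ 2)
    (fun k => (((continuous_ev _).sub continuous_const).pow 2).continuousOn) ((2 * K) ^ 2)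
    (fun k U hU => by
      rw [abs_of_nonneg (sq_nonneg _)]
      have a1 := abs_le.mp (h2 k U hU)
      have a2 := abs_le.mp (hm k)
      exact sq_le_sq' (by linarith [a1.1, a2.2]) (by linarith [a1.2, a2.1]))
    (fun U hU => ((h4 U hU).sub t2).pow 2)
  have t3 := tendsto_int hμ (G := fun k U => Gam (p k) U) (g := sqD D)
    (fun k => (continuous_Gam _).continuousOn) K
    (fun k U hU => by rw [abs_of_nonneg (Gam_nonneg _ _)]; exact h3 k U hU) h5
  have := le_of_tendsto_of_tendsto' (t1.const_mul _) t3 fun k => poly_poincare hμ hn (p k)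
  rw [inv_mul_eq_div, le_div_iff₀ hρ0]
  linarith

/-! ### Lipschitz functions -/

theorem exists_curve (c : Fin n × Fin n → ℝ) {U : Mat n} (hU : U ∈ SO n)
    (s : Finset (Fin n × Fin n)) : ∃ γ : ℝ → Mat n, (∀ t, γ t ∈ SO n) ∧ γ 0 = U ∧
      ∀ a b, HasDerivAt (fun t => γ t a b) (∑ e ∈ s, c e * ev (XL e (X (a, b))) U) 0 := by
  classical
  induction s using Finset.induction_on with
  | empty => exact ⟨fun _ => U, fun _ => hU, rfl, fun a b => by simpa using hasDerivAt_const _ _⟩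
  | insert e s he ih =>
    obtain ⟨γ, h1, h2, h3⟩ := ih
    refine ⟨fun t => ro e (c e * t) (γ t), fun t => ro_mem _ _ (h1 t), by simp [ro_zero, h2],
      fun a b => ?_⟩
    rw [Finset.sum_insert he]
    have hX : ev (XL e (X (a, b))) U = (if b = e.2 then U a e.1 else 0) -
        (if b = e.1 then U a e.2 else 0) := by
      have : XL e (X (a, b)) = Xd e.1 e.2 (X (a, b)) := rfl
      rw [this, Xd_X, ev_sub]
      congr 1 <;> split_ifs <;> simp [ev_X, ev_zero]
    rw [hX]
    have hl : HasDerivAt (fun t => c e * t) (c e) 0 := by simpa using (hasDerivAt_id (0 : ℝ)).const_mul (c e)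
    have hcos := hl.cos
    have hsin := hl.sin
    simp only [mul_zero, Real.sin_zero, neg_zero, zero_mul, Real.cos_zero, one_mul] at hcos hsin
    unfold ro
    by_cases h : e.1 = e.2
    · simp only [h, if_true, sub_self, mul_zero, zero_add]
      exact h3 a b
    · simp only [h, if_false]
      unfold rot
      by_cases hb : b = e.2
      · have hb' : ¬ b = e.1 := fun h' => h (h'.symm.trans hb)
        simp only [hb, if_true, Ne.symm h, if_false]
        refine ((hcos.fun_mul (h3 a e.2)).add (hsin.fun_mul (h3 a e.1))).congr_deriv ?_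
        simp [h2]; ring
      · by_cases hb' : b = e.1
        · simp only [hb', if_true, h, if_false]
          refine ((hcos.fun_mul (h3 a e.1)).sub (hsin.fun_mul (h3 a e.2))).congr_deriv ?_
          simp [h2]; ring
        · simp only [hb, hb', if_false, sub_self, mul_zero, zero_add]
          exact h3 a b

theorem hasDerivAt_ev_curve (c : Fin n × Fin n → ℝ) {U : Mat n} {γ : ℝ → Mat n} (h2 : γ 0 = U)
    (h3 : ∀ a b, HasDerivAt (fun t => γ t a b) (∑ e, c e * ev (XL e (X (a, b))) U) 0)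
    (p : PolyM n) : HasDerivAt (fun t => ev p (γ t)) (∑ e, c e * ev (XL e p) U) 0 := by
  induction p using MvPolynomial.induction_on with
  | C r =>
    have h : ∀ e : Fin n × Fin n, XL e (C r : PolyM n) = 0 := fun e =>
      MvPolynomial.derivation_C (Xd e.1 e.2) r
    simp only [ev_C, h, ev_zero, mul_zero, Finset.sum_const_zero]
    exact hasDerivAt_const _ _
  | add p q hp hq =>
    simp only [ev_add, map_add, mul_add, Finset.sum_add_distrib]
    exact hp.add hq
  | mul_X p ab hp =>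
    obtain ⟨a, b⟩ := ab
    simp only [ev_mul, ev_X]
    refine (hp.fun_mul (h3 a b)).congr_deriv ?_
    rw [h2, Finset.sum_mul, Finset.mul_sum, ← Finset.sum_add_distrib]
    refine Finset.sum_congr rfl fun e _ => ?_
    have : XL e (p * X (a, b)) = p * XL e (X (a, b)) + X (a, b) * XL e p := by
      have := (Xd e.1 e.2).leibniz p (X (a, b))
      rw [smul_eq_mul, smul_eq_mul] at this
      exact this
    rw [this, ev_add, ev_mul, ev_mul, ev_X]; ring

/-- A polynomial which is `L`-Lipschitz on `SO(n)` for the Frobenius distance has `Γ ≤ 4 L²`. -/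
theorem Gam_le_of_lip (p : PolyM n) {L : ℝ}
    (hL : ∀ U ∈ SO n, ∀ W ∈ SO n, |ev p U - ev p W| ≤ L * √(fd U W)) {U : Mat n} (hU : U ∈ SO n) :
    Gam p U ≤ 4 * L ^ 2 := by
  set y : Fin n × Fin n → ℝ := fun e => ev (XL e p) U with hy
  obtain ⟨γ, h1, h2, h3⟩ := exists_curve y hU Finset.univ
  have h4 := hasDerivAt_ev_curve y h2 h3 p
  have hG : ∑ e, y e * ev (XL e p) U = Gam p U := by
    rw [Gam_eq]; exact Finset.sum_congr rfl fun e _ => by rw [hy, sq]
  rw [hG] at h4
  have hv : ∀ a b, ∑ e, y e * ev (XL e (X (a, b))) U = ∑ i, U a i * (2 * y (i, b)) := by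
    intro a b
    have hX : ∀ e : Fin n × Fin n, ev (XL e (X (a, b))) U = (if b = e.2 then U a e.1 else 0) -
        (if b = e.1 then U a e.2 else 0) := by
      intro e
      have : XL e (X (a, b)) = Xd e.1 e.2 (X (a, b)) := rfl
      rw [this, Xd_X, ev_sub]
      congr 1 <;> split_ifs <;> simp [ev_X, ev_zero]
    have hsk : ∀ j, y (b, j) = - y (j, b) := fun j => by
      have : XL (b, j) p = - XL (j, b) p := Xd_swap_apply j b p
      simp only [hy, this, ev_neg]
    simp only [hX, mul_sub, Finset.sum_sub_distrib, Fintype.sum_prod_type, mul_ite, mul_zero,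
      Finset.sum_ite_eq, Finset.mem_univ, if_true]
    rw [Finset.sum_comm]
    simp only [Finset.sum_ite_eq, Finset.mem_univ, if_true, hsk, ← Finset.sum_sub_distrib]
    exact Finset.sum_congr rfl fun i _ => by ring
  have hs : ∑ a, ∑ b, (∑ e, y e * ev (XL e (X (a, b))) U) ^ 2 = 4 * Gam p U := by
    simp only [hv]
    rw [frob_mul hU (fun i b => 2 * y (i, b)), Gam_eq, Fintype.sum_prod_type, Finset.mul_sum]
    refine Finset.sum_congr rfl fun i _ => ?_
    rw [Finset.mul_sum]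
    exact Finset.sum_congr rfl fun b _ => by ring
  have t1 := h4.tendsto_slope_zero_right
  have t2 : Tendsto (fun t : ℝ => L * √(∑ a, ∑ b, (t⁻¹ • (γ (0 + t) a b - γ 0 a b)) ^ 2)) (𝓝[>] 0)
      (𝓝 (L * √(4 * Gam p U))) := by
    rw [← hs]
    refine Tendsto.const_mul _ (Tendsto.sqrt ?_)
    exact tendsto_finsetSum _ fun a _ => tendsto_finsetSum _ fun b _ =>
      (h3 a b).tendsto_slope_zero_right.pow 2
  have h5 : Gam p U ≤ L * √(4 * Gam p U) := by
    refine le_of_tendsto_of_tendsto t1 t2 ?_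
    filter_upwards [self_mem_nhdsWithin] with t ht
    have ht0 : 0 < t⁻¹ := inv_pos.mpr ht
    have h6 := (le_abs_self _).trans (hL _ (h1 (0 + t)) _ (h1 0))
    have h7 : √(∑ a, ∑ b, (t⁻¹ • (γ (0 + t) a b - γ 0 a b)) ^ 2) = t⁻¹ * √(fd (γ (0 + t)) (γ 0)) := by
      simp only [smul_eq_mul, mul_pow, ← Finset.mul_sum]
      rw [Real.sqrt_mul (sq_nonneg _), Real.sqrt_sq ht0.le]; rfl
    change t⁻¹ • (ev p (γ (0 + t)) - ev p (γ 0)) ≤
      L * √(∑ a, ∑ b, (t⁻¹ • (γ (0 + t) a b - γ 0 a b)) ^ 2)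
    rw [h7, smul_eq_mul]
    nlinarith
  have h6 := Gam_nonneg p U
  have h7 : √(4 * Gam p U) ^ 2 = 4 * Gam p U := Real.sq_sqrt (by linarith)
  nlinarith [sq_nonneg (√(4 * Gam p U) - 4 * L)]

theorem contOn_of_lip {f : Mat n → ℝ} {L : ℝ}
    (hL : ∀ U ∈ SO n, ∀ W ∈ SO n, |f U - f W| ≤ L * √(fd U W)) : ContinuousOn f (SO n) := by
  intro W hW
  rw [ContinuousWithinAt, tendsto_iff_dist_tendsto_zero]
  have hc : Continuous fun U : Mat n => L * √(fd U W) := by unfold fd; fun_prop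
  have h0 : L * √(fd W W) = 0 := by simp [fd]
  refine squeeze_zero' (Eventually.of_forall fun _ => dist_nonneg) ?_
    (h0 ▸ (hc.tendsto W).mono_left nhdsWithin_le_nhds)
  filter_upwards [self_mem_nhdsWithin] with U hU using hL U hU W hW

/-- approximation of Lipschitz functions by polynomials with `Γ ≤ 4 L²` -/
theorem lip_approx (hμ : SOInv μ) (hn : 0 < n) {f : Mat n → ℝ} {L : ℝ}
    (hL : ∀ U ∈ SO n, ∀ W ∈ SO n, |f U - f W| ≤ L * √(fd U W)) {ε : ℝ} (hε : 0 < ε) :
    ∃ p : PolyM n, ∀ U ∈ SO n, |ev p U - f U| ≤ ε ∧ Gam p U ≤ 4 * L ^ 2 := by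
  have hf := contOn_of_lip hL
  obtain ⟨m, h1⟩ := (mol_approx hμ hn hf hε).exists
  obtain ⟨p, hp⟩ := exists_poly_mol hμ m hf
  refine ⟨p, fun U hU => ⟨by rw [hp U hU]; exact h1 U hU, Gam_le_of_lip p ?_ hU⟩⟩
  intro U hU W hW
  rw [hp U hU, hp W hW]
  have i1 : ∀ Y ∈ SO n, Integrable (fun V => f (mm V Y) * ker m V) μ := fun Y hY =>
    integrable_of hμ ((contOn_mm hf hY).mul (continuous_ker m).continuousOn)
  have e : mol μ m f U - mol μ m f W =
      (∫ V, ker m V ∂μ)⁻¹ * ∫ V, (f (mm V U) - f (mm V W)) * ker m V ∂μ := by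
    simp only [sub_mul]
    rw [integral_sub (i1 U hU) (i1 W hW), mol, mol]; ring
  rw [e]
  have := mol_sub_le hμ hn m (h := fun V => f (mm V U) - f (mm V W)) (ε := L * √(fd U W)) (B := 0)
    fun V hV => by
      have hk := ker_nonneg m hV
      have h2 := hL _ (mm_mem hV hU) _ (mm_mem hV hW)
      rw [fd_mm hV] at h2
      rw [abs_mul, abs_of_nonneg hk, add_zero]
      exact mul_le_mul_of_nonneg_right h2 hk
  simpa using this

end Crest.Agent.T157.Oc
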