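import Mathlib
import Crest.Agent.T157.OcB_9

set_option autoImplicit false

/-!
Row 157, A2 tools (helper9).  (MM): matrix moment inequality from a Poincare inequality
(Huang-Tropp), abstract form and the instance `SO(n)`.
-/

namespace Crest.Agent.T157.Oc

open MeasureTheory Matrix Crest.Agent.Lib.OrthPoinc Filter Topology

section Alg

variable {m : Type*} [Fintype m] [DecidableEq m]

theorem exists_spec {g : Matrix m m ℝ} (hg : gᵀ = g) : ∃ (Q : Matrix m m ℝ) (l : m → ℝ),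
    Q * Qᵀ = 1 ∧ Qᵀ * Q = 1 ∧ ∀ k : ℕ, g ^ k = Q * diagonal (fun i => l i ^ k) * Qᵀ := by
  have h : g.IsHermitian := by
    unfold Matrix.IsHermitian
    rwa [conjTranspose_eq_transpose_of_trivial]
  have h1 : (h.eigenvectorUnitary : Matrix m m ℝ) * (h.eigenvectorUnitary : Matrix m m ℝ)ᵀ = 1 := by
    have := (h.eigenvectorUnitary).2.2
    rwa [star_eq_conjTranspose, conjTranspose_eq_transpose_of_trivial] at this
  have h2 := mul_eq_one_comm.mp h1
  have h3 : g = (h.eigenvectorUnitary : Matrix m m ℝ) * diagonal h.eigenvalues *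
      (h.eigenvectorUnitary : Matrix m m ℝ)ᵀ := by
    have := h.spectral_theorem
    simp only [Unitary.conjStarAlgAut_apply, star_eq_conjTranspose,
      conjTranspose_eq_transpose_of_trivial] at this
    simpa using this
  generalize (h.eigenvectorUnitary : Matrix m m ℝ) = Q at h1 h2 h3
  generalize h.eigenvalues = l at h3
  refine ⟨Q, l, h1, h2, fun k => ?_⟩
  induction k with
  | zero => simp [h1]
  | succ k ih =>
    rw [pow_succ, ih, h3]
    have : Q * diagonal (fun i => l i ^ k) * Qᵀ * (Q * diagonal l * Qᵀ) =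
        Q * (diagonal (fun i => l i ^ k) * (Qᵀ * Q) * diagonal l) * Qᵀ := by
      simp only [Matrix.mul_assoc]
    rw [this, h2, Matrix.mul_one, diagonal_mul_diagonal]
    simp only [pow_succ]

theorem diag_conj (W : Matrix m m ℝ) (d : m → ℝ) (i : m) :
    (W * diagonal d * Wᵀ) i i = ∑ j, W i j ^ 2 * d j := by
  rw [Matrix.mul_apply]
  refine Finset.sum_congr rfl fun j _ => ?_
  rw [mul_diagonal, transpose_apply]; ring

theorem trace_conj {Q : Matrix m m ℝ} (h : Q * Qᵀ = 1) (B : Matrix m m ℝ) :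
    (Qᵀ * B * Q).trace = B.trace := by
  rw [trace_mul_cycle, h, Matrix.one_mul]

theorem conj_back {Q : Matrix m m ℝ} (h : Qᵀ * Q = 1) (B : Matrix m m ℝ) :
    Qᵀ * (Q * B * Qᵀ) * Q = B := by
  have : Qᵀ * (Q * B * Qᵀ) * Q = (Qᵀ * Q) * B * (Qᵀ * Q) := by simp only [Matrix.mul_assoc]
  rw [this, h, Matrix.one_mul, Matrix.mul_one]

/-- Jensen in a basis. -/
theorem jensen_diag {B Q : Matrix m m ℝ} (hB : Bᵀ = B) (hQ : Qᵀ * Q = 1) {k : ℕ}
    (hk : Even k ∨ ∀ R : Matrix m m ℝ, ∀ i, 0 ≤ (Rᵀ * B * R) i i) (i : m) :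
    ((Qᵀ * B * Q) i i) ^ k ≤ (Qᵀ * B ^ k * Q) i i := by
  obtain ⟨R, l, h1, h2, h3⟩ := exists_spec hB
  have e : ∀ j : ℕ, (Qᵀ * B ^ j * Q) i i = ∑ a, (Qᵀ * R) i a ^ 2 * l a ^ j := by
    intro j
    rw [← diag_conj, h3, transpose_mul, transpose_transpose]
    simp only [Matrix.mul_assoc]
  have e0 := e 0
  have e1 := e 1
  simp only [pow_zero, hQ, one_apply_eq, mul_one] at e0
  simp only [pow_one] at e1
  rw [e k, e1]
  rcases hk with hk | hk
  · exact Real.pow_arith_mean_le_arith_mean_pow_of_even _ _ _ (fun _ _ => sq_nonneg _) e0.symm hk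
  · refine Real.pow_arith_mean_le_arith_mean_pow _ _ _ (fun _ _ => sq_nonneg _) e0.symm
      (fun a _ => ?_) k
    have h4 := hk R a
    have h5 := h3 1
    rw [pow_one] at h5
    rw [h5, conj_back h2] at h4
    simpa using h4

/-- derivative of `g^(r+1)` in the direction `D` -/
noncomputable def dp (g D : Matrix m m ℝ) : ℕ → Matrix m m ℝ
  | 0 => D
  | r + 1 => dp g D r * g + g ^ (r + 1) * D

/-- divided difference -/
noncomputable def dc (a b : ℝ) : ℕ → ℝ
  | 0 => 1
  | r + 1 => dc a b r * b + a ^ (r + 1)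

theorem abs_dc_le (a b : ℝ) (r : ℕ) : |dc a b r| ≤ (r + 1) * max |a| |b| ^ r := by
  induction r with
  | zero => simp [dc]
  | succ r ih =>
    have h1 : |b| ≤ max |a| |b| := le_max_right _ _
    have h2 : |a| ^ (r + 1) ≤ max |a| |b| ^ (r + 1) :=
      pow_le_pow_left₀ (abs_nonneg _) (le_max_left _ _) _
    have h3 : |dc a b r| * |b| ≤ (r + 1) * max |a| |b| ^ r * max |a| |b| :=
      mul_le_mul ih h1 (abs_nonneg _) (by positivity)
    calc |dc a b (r + 1)| ≤ |dc a b r * b| + |a ^ (r + 1)| := abs_add_le _ _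
      _ = |dc a b r| * |b| + |a| ^ (r + 1) := by rw [abs_mul, abs_pow]
      _ ≤ (r + 1) * max |a| |b| ^ r * max |a| |b| + max |a| |b| ^ (r + 1) := add_le_add h3 h2
      _ = _ := by push_cast; ring

theorem dc_sq_le (a b : ℝ) (r : ℕ) :
    dc a b r ^ 2 ≤ ((r : ℝ) + 1) ^ 2 * (a ^ (2 * r) + b ^ (2 * r)) := by
  have h1 : dc a b r ^ 2 ≤ ((r + 1) * max |a| |b| ^ r) ^ 2 := by
    rw [← sq_abs]; exact pow_le_pow_left₀ (abs_nonneg _) (abs_dc_le a b r) 2
  refine h1.trans ?_
  rw [mul_pow, ← pow_mul, mul_comm r 2]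
  refine mul_le_mul_of_nonneg_left ?_ (by positivity)
  have ha : 0 ≤ a ^ (2 * r) := (even_two_mul r).pow_nonneg a
  have hb : 0 ≤ b ^ (2 * r) := (even_two_mul r).pow_nonneg b
  rcases le_total |a| |b| with h | h
  · rw [max_eq_right h, (even_two_mul r).pow_abs]; linarith
  · rw [max_eq_left h, (even_two_mul r).pow_abs]; linarith

omit [DecidableEq m] in
theorem frob_eq_trace (X : Matrix m m ℝ) : ∑ k, ∑ l, X k l ^ 2 = (X * Xᵀ).trace := by
  simp [Matrix.trace, Matrix.mul_apply, sq]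

theorem frob_conj {Q : Matrix m m ℝ} (h : Q * Qᵀ = 1) (X : Matrix m m ℝ) :
    ∑ k, ∑ l, (Qᵀ * X * Q) k l ^ 2 = ∑ k, ∑ l, X k l ^ 2 := by
  rw [frob_eq_trace, frob_eq_trace, ← trace_conj h (X * Xᵀ)]
  congr 1
  have : Qᵀ * X * Q * (Qᵀ * X * Q)ᵀ = Qᵀ * X * (Q * Qᵀ) * Xᵀ * Q := by
    simp only [transpose_mul, transpose_transpose, Matrix.mul_assoc]
  rw [this, h]
  simp only [Matrix.mul_one, Matrix.mul_assoc]

/-- (L1) chain rule inequality -/
theorem frob_dp_le {g D : Matrix m m ℝ} (hg : gᵀ = g) (hD : Dᵀ = D) (r : ℕ) :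
    ∑ k, ∑ l, dp g D r k l ^ 2 ≤ 2 * ((r : ℝ) + 1) ^ 2 * (g ^ (2 * r) * (D * D)).trace := by
  obtain ⟨Q, l, h1, h2, h3⟩ := exists_spec hg
  set E := Qᵀ * D * Q with hE
  have hEs : ∀ a b, E a b = E b a := fun a b => by
    have : Eᵀ = E := by
      rw [hE, transpose_mul, transpose_mul, transpose_transpose, hD, Matrix.mul_assoc]
    rw [← transpose_apply E b a, this]
  have hc : ∀ (X : Matrix m m ℝ) (k : ℕ), Qᵀ * (X * g ^ k) * Q =
      Qᵀ * X * Q * diagonal fun i => l i ^ k := fun X k => by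
    rw [h3]
    have : Qᵀ * (X * (Q * diagonal (fun i => l i ^ k) * Qᵀ)) * Q =
      Qᵀ * X * Q * diagonal (fun i => l i ^ k) * (Qᵀ * Q) := by simp only [Matrix.mul_assoc]
    rw [this, h2, Matrix.mul_one]
  have hc' : ∀ (X : Matrix m m ℝ) (k : ℕ), Qᵀ * (g ^ k * X) * Q =
      (diagonal fun i => l i ^ k) * (Qᵀ * X * Q) := fun X k => by
    rw [h3]
    have : Qᵀ * (Q * diagonal (fun i => l i ^ k) * Qᵀ * X) * Q =
      (Qᵀ * Q) * diagonal (fun i => l i ^ k) * (Qᵀ * X * Q) := by simp only [Matrix.mul_assoc]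
    rw [this, h2, Matrix.one_mul]
  have hdp : ∀ r a b, (Qᵀ * dp g D r * Q) a b = dc (l a) (l b) r * E a b := by
    intro r
    induction r with
    | zero => intro a b; simp [dp, dc, hE]
    | succ r ih =>
      intro a b
      have h4 := hc (dp g D r) 1
      rw [pow_one] at h4
      rw [dp, Matrix.mul_add, Matrix.add_mul, h4, hc', Matrix.add_apply, mul_diagonal, diagonal_mul, ih, dc]
      ring
  have ht : (g ^ (2 * r) * (D * D)).trace = ∑ a, ∑ b, l a ^ (2 * r) * E a b ^ 2 := by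
    rw [← trace_conj h1, hc']
    have : Qᵀ * (D * D) * Q = E * E := by
      have : E * E = Qᵀ * D * (Q * Qᵀ) * D * Q := by simp only [hE, Matrix.mul_assoc]
      rw [this, h1]; simp only [Matrix.mul_one, Matrix.mul_assoc]
    rw [this]
    simp only [Matrix.trace, diag_apply, diagonal_mul]
    simp only [Matrix.mul_apply, Finset.mul_sum]
    exact Finset.sum_congr rfl fun a _ => Finset.sum_congr rfl fun b _ => by rw [hEs b a]; ring
  have ht' : (g ^ (2 * r) * (D * D)).trace = ∑ a, ∑ b, l b ^ (2 * r) * E a b ^ 2 := by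
    rw [ht, Finset.sum_comm]
    exact Finset.sum_congr rfl fun a _ => Finset.sum_congr rfl fun b _ => by rw [hEs b a]
  rw [← frob_conj h1]
  calc _ ≤ ∑ a, ∑ b, ((r : ℝ) + 1) ^ 2 * (l a ^ (2 * r) * E a b ^ 2 + l b ^ (2 * r) * E a b ^ 2) := by
        refine Finset.sum_le_sum fun a _ => Finset.sum_le_sum fun b _ => ?_
        rw [hdp, mul_pow]
        have := mul_le_mul_of_nonneg_right (dc_sq_le (l a) (l b) r) (sq_nonneg (E a b))
        linarith
    _ = _ := by
        have e : ∀ X Y : ℝ, (g ^ (2 * r) * (D * D)).trace = X → (g ^ (2 * r) * (D * D)).trace = Y →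
            2 * ((r : ℝ) + 1) ^ 2 * (g ^ (2 * r) * (D * D)).trace = ((r : ℝ) + 1) ^ 2 * (X + Y) :=
          fun X Y h h' => by rw [← h, ← h']; ring
        rw [e _ _ ht ht', ← Finset.sum_add_distrib, Finset.mul_sum]
        refine Finset.sum_congr rfl fun a _ => ?_
        rw [← Finset.sum_add_distrib, Finset.mul_sum]

theorem young_pow {x y : ℝ} (hx : 0 ≤ x) (hy : 0 ≤ y) (r : ℕ) :
    ((r : ℝ) + 1) * (x ^ r * y) ≤ r * x ^ (r + 1) + y ^ (r + 1) := by
  induction r with
  | zero => simp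
  | succ r ih =>
    have h1 : 0 ≤ (x - y) * (x ^ (r + 1) - y ^ (r + 1)) := by
      rcases le_total x y with h | h
      · exact mul_nonneg_of_nonpos_of_nonpos (by linarith)
          (by linarith [pow_le_pow_left₀ hx h (r + 1)])
      · exact mul_nonneg (by linarith) (by linarith [pow_le_pow_left₀ hy h (r + 1)])
    have h2 := mul_le_mul_of_nonneg_left ih hx
    push_cast
    have e1 : x ^ (r + 1 + 1) = x * x ^ (r + 1) := by ring
    have e2 : y ^ (r + 1 + 1) = y * y ^ (r + 1) := by ring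
    have e3 : x * (((r : ℝ) + 1) * (x ^ r * y)) = (r + 1) * (x ^ (r + 1) * y) := by ring
    rw [e3] at h2
    rw [e1, e2]
    nlinarith

/-- (L2) Young inequality for traces -/
theorem trace_young {g S : Matrix m m ℝ} (hg : gᵀ = g) (hS : Sᵀ = S)
    (hp : ∀ R : Matrix m m ℝ, ∀ i, 0 ≤ (Rᵀ * S * R) i i) {c : ℝ} (hc : 0 ≤ c) (r : ℕ) :
    ((r : ℝ) + 1) * (c * (g ^ (2 * r) * S).trace) ≤
      r * (g ^ (2 * (r + 1))).trace + c ^ (r + 1) * (S ^ (r + 1)).trace := by
  obtain ⟨Q, l, h1, h2, h3⟩ := exists_spec hg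
  have e1 : (g ^ (2 * r) * S).trace = ∑ i, l i ^ (2 * r) * (Qᵀ * S * Q) i i := by
    rw [h3, Matrix.mul_assoc, Matrix.mul_assoc, trace_mul_comm, Matrix.mul_assoc, Matrix.mul_assoc]
    simp only [Matrix.trace, diag_apply, diagonal_mul]
  have e2 : (g ^ (2 * (r + 1))).trace = ∑ i, l i ^ (2 * (r + 1)) := by
    rw [← trace_conj h1, h3, conj_back h2, trace_diagonal]
  have e3 : (S ^ (r + 1)).trace = ∑ i, (Qᵀ * S ^ (r + 1) * Q) i i := by
    rw [← trace_conj h1]; rfl
  rw [e1, e2, e3, Finset.mul_sum, Finset.mul_sum, Finset.mul_sum, Finset.mul_sum,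
    ← Finset.sum_add_distrib]
  refine Finset.sum_le_sum fun i _ => ?_
  have h4 := young_pow (sq_nonneg (l i)) (mul_nonneg hc (hp Q i)) r
  have h5 := jensen_diag hS h2 (k := r + 1) (Or.inr hp) i
  have h6 := mul_le_mul_of_nonneg_left h5 (pow_nonneg hc (r + 1))
  rw [← pow_mul, ← pow_mul, mul_pow] at h4
  nlinarith

omit [DecidableEq m] in
theorem sum_sq_psd {ι : Type*} [Fintype ι] {D : ι → Matrix m m ℝ} (hD : ∀ a, (D a)ᵀ = D a)
    (R : Matrix m m ℝ) (i : m) : 0 ≤ (Rᵀ * (∑ a, D a * D a) * R) i i := by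
  rw [Matrix.mul_sum, Matrix.sum_mul, Matrix.sum_apply]
  refine Finset.sum_nonneg fun a _ => ?_
  have : Rᵀ * (D a * D a) * R = (D a * R)ᵀ * (D a * R) := by
    rw [transpose_mul, hD]; simp only [Matrix.mul_assoc]
  rw [this, Matrix.mul_apply]
  exact Finset.sum_nonneg fun j _ => mul_self_nonneg _

/-- a quadratic form is bounded by the trace of an even power -/
theorem quad_pow_le_trace {A : Matrix m m ℝ} (hA : Aᵀ = A) {u : m → ℝ} (hu : u ⬝ᵥ u = 1) {k : ℕ}
    (hk : Even k) : (u ⬝ᵥ A *ᵥ u) ^ k ≤ (A ^ k).trace := by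
  obtain ⟨Q, l, h1, h2, h3⟩ := exists_spec hA
  have e : ∀ j : ℕ, u ⬝ᵥ (A ^ j) *ᵥ u = ∑ a, (Qᵀ *ᵥ u) a ^ 2 * l a ^ j := by
    intro j
    rw [h3, ← mulVec_mulVec, ← mulVec_mulVec, dotProduct_mulVec, ← mulVec_transpose]
    simp only [dotProduct, mulVec_diagonal]
    exact Finset.sum_congr rfl fun a _ => by ring
  have e0 := e 0
  have e1 := e 1
  simp only [pow_zero, one_mulVec, hu, mul_one] at e0
  simp only [pow_one] at e1
  have e2 : (A ^ k).trace = ∑ i, l i ^ k := by
    rw [← trace_conj h1, h3, conj_back h2, trace_diagonal]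
  rw [e1, e2]
  refine (Real.pow_arith_mean_le_arith_mean_pow_of_even _ _ _ (fun _ _ => sq_nonneg _) e0.symm
    hk).trans (Finset.sum_le_sum fun a _ => ?_)
  have h4 : (Qᵀ *ᵥ u) a ^ 2 ≤ 1 := by
    rw [e0]
    exact Finset.single_le_sum (f := fun a => (Qᵀ *ᵥ u) a ^ 2) (fun _ _ => sq_nonneg _)
      (Finset.mem_univ a)
  exact mul_le_of_le_one_left (hk.pow_nonneg _) h4

end Alg

section Prob

variable {Ω : Type*} [MeasurableSpace Ω] {P : Measure Ω}
variable {m : Type*} [Fintype m] [DecidableEq m]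

/-- bounded measurable -/
abbrev BM (P : Measure Ω) (f : Ω → ℝ) : Prop := MemLp f ⊤ P

theorem BM.mul {f g : Ω → ℝ} (hf : BM P f) (hg : BM P g) : BM P fun x => f x * g x :=
  MemLp.mul' hg hf

theorem BM.sq {f : Ω → ℝ} (hf : BM P f) : BM P fun x => f x ^ 2 := by
  simpa only [_root_.sq] using hf.mul hf

theorem BM.int [IsFiniteMeasure P] {f : Ω → ℝ} (hf : BM P f) : Integrable f P :=
  hf.integrable le_top

theorem BM.bound {f : Ω → ℝ} (hf : BM P f) : ∃ B : ℝ, ∀ᵐ x ∂P, ‖f x‖ ≤ B := by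
  refine ⟨(eLpNormEssSup f P).toReal, ?_⟩
  have h := hf.2
  rw [eLpNorm_exponent_top] at h
  filter_upwards [ae_le_eLpNormEssSup (f := f) (μ := P)] with x hx
  rw [← toReal_enorm]
  exact ENNReal.toReal_mono h.ne hx

/-- bounded measurable matrices -/
def BMM (P : Measure Ω) (F : Ω → Matrix m m ℝ) : Prop := ∀ k l, BM P fun x => F x k l

namespace BMM

variable {F G : Ω → Matrix m m ℝ}

omit [Fintype m] [DecidableEq m] in
theorem const (A : Matrix m m ℝ) : BMM P fun _ => A := fun _ _ => memLp_top_const _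

omit [Fintype m] [DecidableEq m] in
theorem add (hF : BMM P F) (hG : BMM P G) : BMM P fun x => F x + G x :=
  fun k l => (hF k l).add (hG k l)

omit [Fintype m] [DecidableEq m] in
theorem sub (hF : BMM P F) (hG : BMM P G) : BMM P fun x => F x - G x :=
  fun k l => (hF k l).sub (hG k l)

omit [DecidableEq m] in
theorem mul (hF : BMM P F) (hG : BMM P G) : BMM P fun x => F x * G x := fun k l => by
  simp only [Matrix.mul_apply]
  exact memLp_finsetSum _ fun j _ => (hF k j).mul (hG j l)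

theorem pow (hF : BMM P F) (k : ℕ) : BMM P fun x => F x ^ k := by
  induction k with
  | zero => simpa using const 1
  | succ k ih => simpa only [pow_succ] using ih.mul hF

omit [Fintype m] [DecidableEq m] in
theorem sum {ι : Type*} (s : Finset ι) {F : ι → Ω → Matrix m m ℝ} (h : ∀ a ∈ s, BMM P (F a)) :
    BMM P fun x => ∑ a ∈ s, F a x := fun k l => by
  simp only [Matrix.sum_apply]
  exact memLp_finsetSum _ fun a ha => h a ha k l

omit [DecidableEq m] in
theorem trace (hF : BMM P F) : BM P fun x => (F x).trace :=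
  memLp_finsetSum _ fun j _ => hF j j

theorem dp (hF : BMM P F) (hG : BMM P G) (r : ℕ) : BMM P fun x => dp (F x) (G x) r := by
  induction r with
  | zero => exact hG
  | succ r ih => exact (ih.mul hF).add ((hF.pow _).mul hG)

omit [Fintype m] [DecidableEq m] in
theorem fst [IsProbabilityMeasure P] (hF : BMM P F) : BMM (P.prod P) fun z => F z.1 :=
  fun k l => (hF k l).comp_measurePreserving measurePreserving_fst

omit [Fintype m] [DecidableEq m] in
theorem snd [IsProbabilityMeasure P] (hF : BMM P F) : BMM (P.prod P) fun z => F z.2 :=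
  fun k l => (hF k l).comp_measurePreserving measurePreserving_snd

end BMM

variable [IsProbabilityMeasure P]

/-- antisymmetric functions: the second moment is at most twice the conditional variance -/
theorem anti_le {φ Ψ : Ω × Ω → ℝ} (hφ : BM (P.prod P) φ) (hΨ : BM (P.prod P) Ψ)
    (ha : ∀ x y, φ (y, x) = -φ (x, y))
    (hv : ∀ x, ∫ y, (φ (x, y) - ∫ y', φ (x, y') ∂P) ^ 2 ∂P ≤ ∫ y, Ψ (x, y) ∂P) :
    ∫ z, φ z ^ 2 ∂(P.prod P) ≤ 2 * ∫ z, Ψ z ∂(P.prod P) := by
  set k : Ω → ℝ := fun x => ∫ y, φ (x, y) ∂P with hk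
  have hkB : BM P k := by
    obtain ⟨B, hB⟩ := hφ.bound
    refine memLp_top_of_bound hφ.1.integral_prod_right' B ?_
    filter_upwards [Measure.ae_ae_of_ae_prod hB] with x hx
    simpa using norm_integral_le_of_norm_le_const hx
  have hk1 : BM (P.prod P) fun z => k z.1 := hkB.comp_measurePreserving measurePreserving_fst
  have hk2 : BM (P.prod P) fun z => k z.2 := hkB.comp_measurePreserving measurePreserving_snd
  set H := ∫ x, k x ^ 2 ∂P with hH
  have a1 : ∫ z, φ z * k z.1 ∂(P.prod P) = H := by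
    rw [integral_prod _ (hφ.mul hk1).int]
    simp only [integral_mul_const, hH, sq]
    rfl
  have a2 : ∫ z, φ z * k z.2 ∂(P.prod P) = -H := by
    rw [← integral_prod_swap, ← a1, ← integral_neg]
    congr 1
    funext z
    have := ha z.1 z.2
    simp only [Prod.snd_swap]
    rw [show z.swap = (z.2, z.1) from rfl, this]; ring
  have a3 : ∫ z, k z.1 * k z.2 ∂(P.prod P) = (∫ x, k x ∂P) * ∫ x, k x ∂P := integral_prod_mul k k
  have a4 : ∫ z, k z.1 ^ 2 ∂(P.prod P) = H := by
    rw [integral_prod _ hk1.sq.int]; simp [hH]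
  have a5 : ∫ z, k z.2 ^ 2 ∂(P.prod P) = H := by
    rw [integral_prod _ hk2.sq.int]; simp [hH]
  have b1 : 2 * H ≤ ∫ z, φ z ^ 2 ∂(P.prod P) := by
    have h0 : 0 ≤ ∫ z, (φ z - k z.1 + k z.2) ^ 2 ∂(P.prod P) := integral_nonneg fun _ => sq_nonneg _
    have e : ∀ z : Ω × Ω, (φ z - k z.1 + k z.2) ^ 2 = (φ z ^ 2 + (k z.1 ^ 2 + k z.2 ^ 2)) +
        (2 * (φ z * k z.2) - (2 * (φ z * k z.1) + 2 * (k z.1 * k z.2))) := fun z => by ring
    simp only [e] at h0
    have i1 := hφ.sq.int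
    have i2 := hk1.sq.int
    have i3 := hk2.sq.int
    have i4 := (hφ.mul hk2).int.const_mul 2
    have i5 := (hφ.mul hk1).int.const_mul 2
    have i6 := (hk1.mul hk2).int.const_mul 2
    have i23 : Integrable (fun z : Ω × Ω => k z.1 ^ 2 + k z.2 ^ 2) (P.prod P) := i2.add i3
    have i56 : Integrable (fun z : Ω × Ω => 2 * (φ z * k z.1) + 2 * (k z.1 * k z.2)) (P.prod P) :=
      i5.add i6
    have i123 : Integrable (fun z : Ω × Ω => φ z ^ 2 + (k z.1 ^ 2 + k z.2 ^ 2)) (P.prod P) :=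
      i1.add i23
    have i456 : Integrable (fun z : Ω × Ω => 2 * (φ z * k z.2) -
      (2 * (φ z * k z.1) + 2 * (k z.1 * k z.2))) (P.prod P) := i4.sub i56
    rw [integral_add i123 i456, integral_add i1 i23, integral_add i2 i3,
      integral_sub i4 i56, integral_add i5 i6, integral_const_mul, integral_const_mul,
      integral_const_mul, a1, a2, a3, a4, a5] at h0
    nlinarith [mul_self_nonneg (∫ x, k x ∂P)]
  have hψ : BM (P.prod P) fun z => (φ z - k z.1) ^ 2 := BM.sq (hφ.sub hk1)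
  have b2 : ∫ z, (φ z - k z.1) ^ 2 ∂(P.prod P) = ∫ z, φ z ^ 2 ∂(P.prod P) - H := by
    have e : ∀ z : Ω × Ω, (φ z - k z.1) ^ 2 = (φ z ^ 2 + k z.1 ^ 2) - 2 * (φ z * k z.1) :=
      fun z => by ring
    simp only [e]
    have i12 : Integrable (fun z : Ω × Ω => φ z ^ 2 + k z.1 ^ 2) (P.prod P) :=
      hφ.sq.int.add hk1.sq.int
    rw [integral_sub i12 ((hφ.mul hk1).int.const_mul 2),
      integral_add hφ.sq.int hk1.sq.int, integral_const_mul, a1, a4]
    ring
  have b3 : ∫ z, (φ z - k z.1) ^ 2 ∂(P.prod P) ≤ ∫ z, Ψ z ∂(P.prod P) := by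
    rw [integral_prod _ hψ.int, integral_prod _ hΨ.int]
    exact integral_mono hψ.int.integral_prod_left hΨ.int.integral_prod_left hv
  linarith

/-- (L3) Jensen for the trace of an even power -/
theorem trace_pow_le_integral {G : Ω → Matrix m m ℝ} (hG : BMM P G) (hs : ∀ᵐ y ∂P, (G y)ᵀ = G y)
    {k : ℕ} (hk : Even k) :
    ((Matrix.of fun a b => ∫ y, G y a b ∂P) ^ k).trace ≤ ∫ y, (G y ^ k).trace ∂P := by
  set A : Matrix m m ℝ := Matrix.of fun a b => ∫ y, G y a b ∂P with hA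
  have hAs : Aᵀ = A := by
    ext a b
    simp only [hA, transpose_apply, of_apply]
    refine integral_congr_ae ?_
    filter_upwards [hs] with y hy
    rw [← transpose_apply (G y) a b, hy]
  obtain ⟨Q, l, h1, h2, h3⟩ := exists_spec hAs
  have hc : ∀ {F : Ω → Matrix m m ℝ}, BMM P F → ∀ i, BM P fun y => (Qᵀ * F y * Q) i i :=
    fun hF i => (((BMM.const Qᵀ).mul hF).mul (BMM.const Q)) i i
  have e1 : (A ^ k).trace = ∑ i, l i ^ k := by
    rw [← trace_conj h1, h3, conj_back h2, trace_diagonal]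
  have e2 : ∀ i, l i = ∫ y, (Qᵀ * G y * Q) i i ∂P := by
    intro i
    have h4 : (Qᵀ * A * Q) i i = l i := by
      have h5 := h3 1
      rw [pow_one] at h5
      rw [h5, conj_back h2]; simp
    rw [← h4]
    simp only [Matrix.mul_apply, hA, of_apply]
    rw [integral_finsetSum _ fun b _ =>
      (integrable_finsetSum _ fun a _ => (hG a b).int.const_mul _).mul_const _]
    refine Finset.sum_congr rfl fun b _ => ?_
    rw [integral_mul_const, integral_finsetSum _ fun a _ => (hG a b).int.const_mul _]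
    simp only [integral_const_mul]
  have e3 : ∫ y, (G y ^ k).trace ∂P = ∑ i, ∫ y, (Qᵀ * G y ^ k * Q) i i ∂P := by
    rw [← integral_finsetSum _ fun i _ => (hc (hG.pow k) i).int]
    congr 1
    funext y
    rw [← trace_conj h1]; rfl
  rw [e1, e3]
  refine Finset.sum_le_sum fun i _ => ?_
  have hi : Integrable (fun y => ((Qᵀ * G y * Q) i i) ^ k) P := by
    obtain ⟨B, hB⟩ := (hc hG i).bound
    refine Integrable.of_bound ((hc hG i).1.pow k) (B ^ k) ?_
    filter_upwards [hB] with y hy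
    rw [norm_pow]; exact pow_le_pow_left₀ (norm_nonneg _) hy k
  have j1 : (∫ y, (Qᵀ * G y * Q) i i ∂P) ^ k ≤ ∫ y, ((Qᵀ * G y * Q) i i) ^ k ∂P :=
    hk.convexOn_pow.map_integral_le (continuous_pow k).continuousOn isClosed_univ
      (Eventually.of_forall fun _ => trivial) (hc hG i).int hi
  rw [e2]
  refine j1.trans (integral_mono_ae hi (hc (hG.pow k) i).int ?_)
  filter_upwards [hs] with y hy using jensen_diag hy h2 (Or.inl hk) i

/-- A class of functions with derivatives `D a`, closed under the ring operations, on which a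
Poincare inequality with constant `α` holds. -/
structure PCl {ι : Type*} [Fintype ι] (P : Measure Ω) (α : ℝ)
    (C : (Ω → ℝ) → (ι → Ω → ℝ) → Prop) : Prop where
  const : ∀ c, C (fun _ => c) fun _ _ => 0
  add : ∀ {f g D E}, C f D → C g E → C (fun x => f x + g x) fun a x => D a x + E a x
  mul : ∀ {f g D E}, C f D → C g E → C (fun x => f x * g x) fun a x => D a x * g x + f x * E a x
  poinc : ∀ {f D}, C f D → ∫ x, (f x - ∫ y, f y ∂P) ^ 2 ∂P ≤ α * ∫ x, ∑ a, D a x ^ 2 ∂P

variable {ι : Type*} [Fintype ι] {α : ℝ} {C : (Ω → ℝ) → (ι → Ω → ℝ) → Prop}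

omit [IsProbabilityMeasure P] in
theorem PCl.sum (h : PCl P α C) {κ : Type*} (s : Finset κ) {f : κ → Ω → ℝ} {D : κ → ι → Ω → ℝ}
    (hf : ∀ k ∈ s, C (f k) (D k)) : C (fun x => ∑ k ∈ s, f k x) fun a x => ∑ k ∈ s, D k a x := by
  classical
  induction s using Finset.induction_on with
  | empty => simpa using h.const 0
  | insert e s he ih =>
    simp only [Finset.sum_insert he]
    exact h.add (hf e (Finset.mem_insert_self _ _)) (ih fun k hk => hf k (Finset.mem_insert_of_mem hk))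

omit [IsProbabilityMeasure P] in
theorem PCl.pow (h : PCl P α C) {G : Ω → Matrix m m ℝ} {D : ι → Ω → Matrix m m ℝ}
    (hG : ∀ k l, C (fun x => G x k l) fun a x => D a x k l) (r : ℕ) :
    ∀ k l, C (fun x => (G x ^ (r + 1)) k l) fun a x => dp (G x) (D a x) r k l := by
  induction r with
  | zero => simpa only [zero_add, pow_one, dp] using hG
  | succ r ih =>
    intro k l
    have := h.sum Finset.univ fun j _ => h.mul (ih k j) (hG j l)
    simp only [Finset.sum_add_distrib] at this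
    simpa only [pow_succ (G _) (r + 1), dp, Matrix.add_apply, Matrix.mul_apply] using this

/-- **(MM) matrix moment inequality** (Huang-Tropp), exponent `q = r+1` odd:
`E tr (F - E F)^(2q) ≤ (4 α q²)^q E tr (∑ₐ (DₐF)²)^q`. -/
theorem PCl.mm (h : PCl P α C) (hα : 0 ≤ α) {F : Ω → Matrix m m ℝ} {D : ι → Ω → Matrix m m ℝ}
    (hF : ∀ k l, C (fun x => F x k l) fun a x => D a x k l) (bF : BMM P F) (bD : ∀ a, BMM P (D a))
    (sF : ∀ᵐ x ∂P, (F x)ᵀ = F x) (sD : ∀ᵐ x ∂P, ∀ a, (D a x)ᵀ = D a x) {r : ℕ} (hr : Even r) :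
    ∫ x, ((F x - Matrix.of fun k l => ∫ y, F y k l ∂P) ^ (2 * (r + 1))).trace ∂P ≤
      (4 * α * ((r : ℝ) + 1) ^ 2) ^ (r + 1) * ∫ x, ((∑ a, D a x * D a x) ^ (r + 1)).trace ∂P := by
  set g : Ω × Ω → Matrix m m ℝ := fun z => F z.2 - F z.1 with hg
  set S : Ω → Matrix m m ℝ := fun x => ∑ a, D a x * D a x with hS
  set c : ℝ := 4 * α * ((r : ℝ) + 1) ^ 2 with hc
  have hc0 : 0 ≤ c := by positivity
  have bg : BMM (P.prod P) g := bF.snd.sub bF.fst
  have bS : BMM P S := BMM.sum _ fun a _ => (bD a).mul (bD a)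
  have sg : ∀ᵐ z ∂(P.prod P), (g z)ᵀ = g z := by
    filter_upwards [(measurePreserving_fst (μ := P) (ν := P)).quasiMeasurePreserving.ae sF,
      (measurePreserving_snd (μ := P) (ν := P)).quasiMeasurePreserving.ae sF] with z h1 h2
    simp only [hg, transpose_sub, h1, h2]
  have sD2 : ∀ᵐ z ∂(P.prod P), ∀ a, (D a z.2)ᵀ = D a z.2 :=
    (measurePreserving_snd (μ := P) (ν := P)).quasiMeasurePreserving.ae sD
  set T := ∫ z, (g z ^ (2 * (r + 1))).trace ∂(P.prod P) with hT
  have bΨ : ∀ k l, BM (P.prod P) fun z => α * ∑ a, dp (g z) (D a z.2) r k l ^ 2 := fun k l =>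
    (memLp_finsetSum _ fun a _ => BM.sq ((bg.dp (bD a).snd r) k l)).const_mul α
  have s1 : ∀ k l, ∫ z, (g z ^ (r + 1)) k l ^ 2 ∂(P.prod P) ≤
      2 * ∫ z, α * ∑ a, dp (g z) (D a z.2) r k l ^ 2 ∂(P.prod P) := by
    intro k l
    refine anti_le (φ := fun z => (g z ^ (r + 1)) k l) (bg.pow _ k l) (bΨ k l) (fun x y => ?_)
      fun x => ?_
    · have : g (y, x) = -g (x, y) := by simp [hg]
      simp only [this, hr.add_one.neg_pow, Matrix.neg_apply]
    · have h1 : ∀ k l, C (fun y => g (x, y) k l) fun a y => D a y k l := fun k l => by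
        have := h.add (hF k l) (h.const (-F x k l))
        simpa only [add_zero, hg, Matrix.add_apply, Matrix.neg_apply, sub_eq_add_neg] using this
      rw [integral_const_mul]
      exact h.poinc (h.pow h1 r k l)
  have s2 : T = ∑ k, ∑ l, ∫ z, (g z ^ (r + 1)) k l ^ 2 ∂(P.prod P) := by
    have e : ∀ k, ∑ l, ∫ z, (g z ^ (r + 1)) k l ^ 2 ∂(P.prod P) =
        ∫ z, ∑ l, (g z ^ (r + 1)) k l ^ 2 ∂(P.prod P) := fun k =>
      (integral_finsetSum _ fun l _ => (BM.sq (bg.pow _ k l)).int).symm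
    simp only [e]
    rw [← integral_finsetSum _ fun k _ => integrable_finsetSum _ fun l _ =>
      (BM.sq (bg.pow _ k l)).int]
    refine integral_congr_ae ?_
    filter_upwards [sg] with z hz
    rw [frob_eq_trace, transpose_pow, hz, ← pow_add, two_mul]
  have bt : BM (P.prod P) fun z => (g z ^ (2 * r) * S z.2).trace := ((bg.pow _).mul bS.snd).trace
  have s3 : T ≤ ∫ z, c * (g z ^ (2 * r) * S z.2).trace ∂(P.prod P) := by
    have e : ∀ k, ∑ l, 2 * ∫ z, α * ∑ a, dp (g z) (D a z.2) r k l ^ 2 ∂(P.prod P) =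
        ∫ z, ∑ l, 2 * (α * ∑ a, dp (g z) (D a z.2) r k l ^ 2) ∂(P.prod P) := fun k => by
      rw [integral_finsetSum _ fun l _ => (bΨ k l).int.const_mul 2]
      simp only [integral_const_mul]
    have i1 : ∀ k, Integrable (fun z => ∑ l, 2 * (α * ∑ a, dp (g z) (D a z.2) r k l ^ 2))
      (P.prod P) := fun k => integrable_finsetSum _ fun l _ => (bΨ k l).int.const_mul 2
    rw [s2]
    refine (Finset.sum_le_sum fun k _ => Finset.sum_le_sum fun l _ => s1 k l).trans ?_
    simp only [e]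
    rw [← integral_finsetSum _ fun k _ => i1 k]
    refine integral_mono_ae (integrable_finsetSum _ fun k _ => i1 k) (bt.int.const_mul c) ?_
    filter_upwards [sg, sD2] with z hz hD
    have e2 : ∑ k, ∑ l, 2 * (α * ∑ a, dp (g z) (D a z.2) r k l ^ 2) =
        2 * α * ∑ a, ∑ k, ∑ l, dp (g z) (D a z.2) r k l ^ 2 := by
      simp only [← Finset.mul_sum, mul_assoc]
      congr 2
      calc _ = ∑ k, ∑ a, ∑ l, dp (g z) (D a z.2) r k l ^ 2 :=
            Finset.sum_congr rfl fun k _ => Finset.sum_comm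
        _ = _ := Finset.sum_comm
    have e3 : (g z ^ (2 * r) * S z.2).trace = ∑ a, (g z ^ (2 * r) * (D a z.2 * D a z.2)).trace := by
      simp only [hS, Matrix.mul_sum, trace_sum]
    rw [e2, e3]
    have h4 := Finset.sum_le_sum fun a (_ : a ∈ Finset.univ) => frob_dp_le hz (hD a) r
    rw [← Finset.mul_sum] at h4
    have h5 := mul_le_mul_of_nonneg_left h4 (by positivity : 0 ≤ 2 * α)
    rw [hc]; linarith
  have bT : BM (P.prod P) fun z => (g z ^ (2 * (r + 1))).trace := (bg.pow _).trace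
  have bR : BM (P.prod P) fun z => (S z.2 ^ (r + 1)).trace := (bS.pow _).snd.trace
  have s4 : ((r : ℝ) + 1) * ∫ z, c * (g z ^ (2 * r) * S z.2).trace ∂(P.prod P) ≤
      r * T + c ^ (r + 1) * ∫ x, (S x ^ (r + 1)).trace ∂P := by
    have e : ∫ x, (S x ^ (r + 1)).trace ∂P = ∫ z, (S z.2 ^ (r + 1)).trace ∂(P.prod P) := by
      rw [integral_prod _ bR.int]; simp
    rw [e, hT, ← integral_const_mul, ← integral_const_mul, ← integral_const_mul,
      ← integral_add (bT.int.const_mul _) (bR.int.const_mul _)]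
    refine integral_mono_ae ((bt.int.const_mul c).const_mul _)
      ((bT.int.const_mul _).add (bR.int.const_mul _)) ?_
    filter_upwards [sg, sD2] with z hz hD
    refine trace_young hz ?_ (sum_sq_psd hD) hc0 r
    simp only [transpose_sum, transpose_mul, hD]
  have s5 : T ≤ c ^ (r + 1) * ∫ x, (S x ^ (r + 1)).trace ∂P := by
    have := mul_le_mul_of_nonneg_left s3 (by positivity : (0 : ℝ) ≤ (r : ℝ) + 1)
    linarith
  refine le_trans ?_ s5
  rw [hT, integral_prod _ bT.int]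
  refine integral_mono_ae ((bF.sub (BMM.const _)).pow _).trace.int bT.int.integral_prod_left ?_
  filter_upwards [sF] with x hx
  have h1 := trace_pow_le_integral (G := fun y => F y - F x) (bF.sub (BMM.const _))
    (by filter_upwards [sF] with y hy; rw [transpose_sub, hy, hx]) (even_two_mul (r + 1))
  have h2 : (Matrix.of fun a b => ∫ y, (F y - F x) a b ∂P) =
      -(F x - Matrix.of fun k l => ∫ y, F y k l ∂P) := by
    ext a b
    simp only [of_apply, Matrix.sub_apply, Matrix.neg_apply]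
    rw [integral_sub (bF a b).int (integrable_const _)]
    simp
  rw [h2, (even_two_mul (r + 1)).neg_pow] at h1
  exact h1

/-- Markov: operator-norm tail from a trace moment -/
theorem op_tail {G : Ω → Matrix m m ℝ} (bG : BMM P G) (sG : ∀ᵐ x ∂P, (G x)ᵀ = G x) {k : ℕ}
    (hk : Even k) {s : ℝ} (hs : 0 < s) :
    P.real {x | ∃ u : m → ℝ, u ⬝ᵥ u = 1 ∧ s ≤ |u ⬝ᵥ G x *ᵥ u|} ≤ (∫ x, (G x ^ k).trace ∂P) / s ^ k := by
  have h0 : 0 ≤ᵐ[P] fun x => (G x ^ k).trace := by
    filter_upwards [sG] with x hx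
    obtain ⟨Q, l, h1, h2, h3⟩ := exists_spec hx
    rw [← trace_conj h1, h3, conj_back h2, trace_diagonal]
    exact Finset.sum_nonneg fun i _ => hk.pow_nonneg _
  have h1 := mul_meas_ge_le_integral_of_nonneg h0 (bG.pow k).trace.int (s ^ k)
  rw [le_div_iff₀ (pow_pos hs k), mul_comm]
  refine le_trans (mul_le_mul_of_nonneg_left ?_ (pow_pos hs k).le) h1
  refine ENNReal.toReal_mono (measure_ne_top _ _) (measure_mono_ae ?_)
  filter_upwards [sG] with x hx
  rintro ⟨u, hu, hsu⟩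
  have h2 := quad_pow_le_trace hx hu hk
  have h3 := pow_le_pow_left₀ hs.le hsu k
  rw [hk.pow_abs] at h3
  exact h3.trans h2

end Prob

variable {n : ℕ} {μ : Measure (Mat n)} [IsProbabilityMeasure μ]

theorem pcl_RD (hμ : SOInv μ) (hn : 2 < n) : PCl μ ((n : ℝ) - 2)⁻¹ RD :=
  ⟨RD.const, RD.add, RD.mul, fun hf => hf.poincare hμ hn⟩

omit [IsProbabilityMeasure μ] in
theorem bm_of (hμ : SOInv μ) {f : Mat n → ℝ} (hf : ContinuousOn f (SO n)) : BM μ f := by
  obtain ⟨K, hK⟩ := isCompact_SO.exists_bound_of_continuousOn hf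
  refine memLp_top_of_bound (aesm_of hμ hf) K ?_
  filter_upwards [hμ.mem] with U hU using hK U hU

/-- **(MM) on `SO(n)`**, `q = r+1` odd. -/
theorem RD.mm {m : Type*} [Fintype m] [DecidableEq m] (hμ : SOInv μ) (hn : 2 < n)
    {F : Mat n → Matrix m m ℝ} {D : Fin n × Fin n → Mat n → Matrix m m ℝ}
    (hF : ∀ k l, RD (fun U => F U k l) fun a U => D a U k l)
    (sF : ∀ U ∈ SO n, (F U)ᵀ = F U) {r : ℕ} (hr : Even r) :
    ∫ U, ((F U - Matrix.of fun k l => ∫ V, F V k l ∂μ) ^ (2 * (r + 1))).trace ∂μ ≤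
      (4 * ((n : ℝ) - 2)⁻¹ * ((r : ℝ) + 1) ^ 2) ^ (r + 1) *
        ∫ U, ((∑ a, D a U * D a U) ^ (r + 1)).trace ∂μ := by
  have hρ0 : (0 : ℝ) < (n : ℝ) - 2 := by
    have : (2 : ℝ) < n := by exact_mod_cast hn
    linarith
  refine (pcl_RD hμ hn).mm (inv_pos.mpr hρ0).le hF (fun k l => bm_of hμ (hF k l).c)
    (fun a k l => bm_of hμ ((hF k l).r a).c') ?_ ?_ hr
  · filter_upwards [hμ.mem] with U hU using sF U hU
  · filter_upwards [hμ.mem] with U hU a
    ext k l
    rw [transpose_apply]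
    refine (((hF l k).r a).d U hU).unique ((((hF k l).r a).d U hU).congr_of_eventuallyEq
      (Eventually.of_forall fun t => ?_))
    have := sF _ (ro_mem a t (U := U) hU)
    simp only
    rw [← transpose_apply (F (ro a t U)) k l, this]

end Crest.Agent.T157.Oc
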