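import Mathlib

/-!
# Row 157, SWAP for coins (helper91): a calculus of bounds for three derivatives
-/

set_option autoImplicit false

noncomputable section

namespace Crest.Agent.T157.Sw14.Der91

open Filter Topology Finset Metric Set

/-- `f` is `C³` at `t` with `|f^{(m)} t| ≤ A D^m` -/
def Bd (f : ℝ → ℝ) (t A D : ℝ) : Prop :=
  ContDiffAt ℝ 3 f t ∧ ∀ m : ℕ, m ≤ 3 → |iteratedDeriv m f t| ≤ A * D ^ m

variable {f g : ℝ → ℝ} {t A A' D D' : ℝ}

lemma Bd.nonneg (h : Bd f t A D) : 0 ≤ A := by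
  have := h.2 0 (by norm_num)
  rw [pow_zero, mul_one] at this
  exact (abs_nonneg _).trans this

lemma Bd.mono (h : Bd f t A D) (hA : A ≤ A') (h0 : 0 ≤ D) (hD : D ≤ D') : Bd f t A' D' :=
  ⟨h.1, fun m hm => (h.2 m hm).trans
    (mul_le_mul hA (pow_le_pow_left₀ h0 hD m) (pow_nonneg h0 m) (h.nonneg.trans hA))⟩

lemma Bd.congr (h : Bd f t A D) (e : g =ᶠ[𝓝 t] f) : Bd g t A D :=
  ⟨h.1.congr_of_eventuallyEq e, fun m hm => by rw [e.iteratedDeriv_eq m]; exact h.2 m hm⟩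

lemma Bd.mul (h : Bd f t A D) (h' : Bd g t A' D) :
    Bd (fun x => f x * g x) t (A * A') (2 * D) := by
  refine ⟨h.1.mul h'.1, fun m hm => ?_⟩
  have hm' : (m : WithTop ℕ∞) ≤ 3 := by exact_mod_cast hm
  rw [iteratedDeriv_fun_mul (h.1.of_le hm') (h'.1.of_le hm')]
  refine (abs_sum_le_sum_abs _ _).trans ?_
  have e : A * A' * (2 * D) ^ m = ∑ i ∈ range (m + 1), (m.choose i : ℝ) * (A * A' * D ^ m) := by
    rw [← sum_mul, ← Nat.cast_sum, Nat.sum_range_choose]; push_cast; ring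
  rw [e]
  refine sum_le_sum fun i hi => ?_
  have hi' : i ≤ m := Nat.lt_succ_iff.1 (mem_range.1 hi)
  have a1 := h.2 i (by omega)
  have a2 := h'.2 (m - i) (by omega)
  have a3 := mul_le_mul a1 a2 (abs_nonneg _) ((abs_nonneg _).trans a1)
  have e2 : A * D ^ i * (A' * D ^ (m - i)) = A * A' * D ^ m := by
    rw [show D ^ m = D ^ i * D ^ (m - i) by rw [← pow_add]; congr 1; omega]; ring
  rw [mul_assoc, abs_mul, abs_mul, Nat.abs_cast, ← e2]
  exact mul_le_mul_of_nonneg_left a3 (Nat.cast_nonneg _)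

lemma bd_const {a : ℝ} (ha : |a| ≤ A) (hD : 0 ≤ D) : Bd (fun _ => a) t A D := by
  refine ⟨contDiffAt_const, fun m _ => ?_⟩
  have A0 : 0 ≤ A := (abs_nonneg _).trans ha
  rw [iteratedDeriv_const]
  split_ifs with h
  · subst h; simpa using ha
  · rw [abs_zero]; positivity

lemma bd_add (h : Bd f t A D) (h' : Bd g t A' D') {m : ℕ} (hm : m ≤ 3) :
    |iteratedDeriv m (fun x => f x + g x) t| ≤ A * D ^ m + A' * D' ^ m := by
  have hm' : (m : WithTop ℕ∞) ≤ 3 := by exact_mod_cast hm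
  rw [iteratedDeriv_fun_add (h.1.of_le hm') (h'.1.of_le hm')]
  exact (abs_add_le _ _).trans (add_le_add (h.2 m hm) (h'.2 m hm))

lemma iter_re {U : Set ℂ} (hU : IsOpen U) (m : ℕ) : ∀ {F : ℂ → ℂ}, DifferentiableOn ℂ F U →
    ∀ x : ℝ, (x : ℂ) ∈ U → iteratedDeriv m (fun x : ℝ => (F x).re) x = (iteratedDeriv m F x).re := by
  induction m with
  | zero => intro F _ x _; simp
  | succ m ih =>
    intro F hF x hx
    rw [iteratedDeriv_succ', iteratedDeriv_succ', ← ih (hF.deriv hU) x hx]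
    refine EventuallyEq.iteratedDeriv_eq m ?_
    filter_upwards [Complex.continuous_ofReal.continuousAt.preimage_mem_nhds (hU.mem_nhds hx)]
      with y hy
    exact ((hF.differentiableAt (hU.mem_nhds hy)).hasDerivAt.real_of_complex).deriv

/-- Cauchy estimates -/
lemma bd_of_cx {F : ℂ → ℂ} {ρ : ℝ} (hρ : 0 < ρ) (hF : DifferentiableOn ℂ F (ball (t : ℂ) ρ))
    (hA : ∀ z ∈ ball (t : ℂ) ρ, ‖F z‖ ≤ A) : Bd (fun x : ℝ => (F x).re) t A (4 / ρ) := by
  have ht : (t : ℂ) ∈ ball (t : ℂ) ρ := mem_ball_self hρ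
  have A0 : 0 ≤ A := (norm_nonneg _).trans (hA _ ht)
  refine ⟨?_, fun m hm => ?_⟩
  · have h1 : ContDiffAt ℂ 3 F t := (hF.contDiffOn isOpen_ball).contDiffAt
      (isOpen_ball.mem_nhds ht)
    exact Complex.reCLM.contDiff.contDiffAt.comp t
      ((h1.restrict_scalars ℝ).comp t Complex.ofRealCLM.contDiff.contDiffAt)
  · rw [iter_re isOpen_ball m hF t ht]
    have sub : closedBall (t : ℂ) (ρ / 2) ⊆ ball (t : ℂ) ρ := closedBall_subset_ball (by linarith)
    have h2 := Complex.norm_iteratedDeriv_le_of_forall_mem_sphere_norm_le (c := t) (R := ρ / 2)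
      (C := A) m (by linarith) (hF.diffContOnCl_ball sub)
      fun z hz => hA z (sub (sphere_subset_closedBall hz))
    refine (Complex.abs_re_le_norm _).trans (h2.trans ?_)
    have h3 : (m.factorial : ℝ) ≤ 2 ^ m := by
      interval_cases m <;> norm_num [Nat.factorial]
    rw [show 4 / ρ = 2 / (ρ / 2) by field_simp; norm_num, div_pow 2, ← mul_div_assoc, mul_comm A]
    gcongr

/-- the same after the affine change of variables `x ↦ (x - y) / s` -/
lemma bd_aff {F : ℂ → ℂ} {r s y : ℝ} (hr : 0 < r) (hs : 0 < s)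
    (hF : DifferentiableOn ℂ F (ball 0 r)) (hA : ∀ z ∈ ball (0 : ℂ) r, ‖F z‖ ≤ A)
    (ht : |t - y| ≤ s * r / 2) {f : ℝ → ℝ} (hf : ∀ u : ℝ, |u| < r → F u = f (y + s * u)) :
    Bd f t A (8 / (s * r)) := by
  have key : ∀ z ∈ ball (t : ℂ) (s * r / 2), (z - y) / s ∈ ball (0 : ℂ) r := fun z hz => by
    rw [mem_ball_zero_iff, norm_div, Complex.norm_real, Real.norm_eq_abs, abs_of_pos hs,
      div_lt_iff₀ hs]
    have h1 : ‖z - t‖ < s * r / 2 := mem_ball_iff_norm.1 hz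
    have h2 : ‖(t : ℂ) - y‖ = |t - y| := by rw [← Complex.ofReal_sub, Complex.norm_real]; rfl
    have h3 := norm_sub_le_norm_sub_add_norm_sub z t y
    linarith
  have h := bd_of_cx (t := t) (A := A) (F := fun z => F ((z - y) / s)) (ρ := s * r / 2)
    (by positivity) (hF.comp (by fun_prop) key) fun z hz => hA _ (key z hz)
  rw [show 4 / (s * r / 2) = 8 / (s * r) by field_simp; norm_num] at h
  refine h.congr ?_
  filter_upwards [Complex.continuous_ofReal.continuousAt.preimage_mem_nhds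
    (isOpen_ball.mem_nhds (mem_ball_self (show 0 < s * r / 2 by positivity) :
      (t : ℂ) ∈ ball (t : ℂ) _))] with x hx
  have h1 := key _ hx
  have e : ((x : ℂ) - y) / s = (((x - y) / s : ℝ) : ℂ) := by push_cast; rfl
  rw [e, mem_ball_zero_iff, Complex.norm_real] at h1
  rw [e, hf _ h1, Complex.ofReal_re]
  congr 1; field_simp; ring

/-- composition with a cutoff -/
lemma bd_comp {ι : Type*} [Fintype ι] {ω : (ι → ℝ) → ℝ} {q : ℝ → ι → ℝ} {C : ℝ}
    (hω : ContDiff ℝ 3 ω) (hq : ContDiff ℝ 3 q)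
    (hC : ∀ i ≤ 3, ∀ x, ‖iteratedFDeriv ℝ i ω x‖ ≤ C) (hA : 1 ≤ A) (hD : 0 ≤ D)
    (h : ∀ k, Bd (fun x => q x k) t A D) : Bd (fun x => ω (q x)) t (6 * C) (A * D) := by
  refine ⟨(hω.comp hq).contDiffAt, fun m hm => ?_⟩
  have hm' : (m : WithTop ℕ∞) ≤ 3 := by exact_mod_cast hm
  have C0 : 0 ≤ C := (norm_nonneg _).trans (hC 0 (by norm_num) 0)
  have h1 := norm_iteratedFDeriv_comp_le hω hq hm' t (C := C) (D := A * D)
    (fun i hi => hC i (hi.trans hm) _) fun i h1 hi => by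
      have hi' : (i : WithTop ℕ∞) ≤ 3 := by exact_mod_cast hi.trans hm
      rw [norm_iteratedFDeriv_eq_norm_iteratedDeriv, pi_norm_le_iff_of_nonneg (by positivity)]
      intro k
      have e := (ContinuousLinearMap.proj (R := ℝ) (φ := fun _ : ι => ℝ) k).iteratedFDeriv_comp_left
        (hq.contDiffAt (x := t)) hi'
      have e2 : iteratedDeriv i q t k = iteratedDeriv i (fun x => q x k) t := by
        have := congrArg (fun L => L fun _ => (1 : ℝ)) e
        exact this.symm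
      rw [e2, Real.norm_eq_abs, mul_pow]
      exact ((h k).2 i (hi.trans hm)).trans
        (mul_le_mul_of_nonneg_right (le_self_pow₀ hA (by omega)) (pow_nonneg hD i))
  rw [norm_iteratedFDeriv_eq_norm_iteratedDeriv, Real.norm_eq_abs] at h1
  refine h1.trans ?_
  have h3 : (m.factorial : ℝ) ≤ 6 := by interval_cases m <;> norm_num [Nat.factorial]
  gcongr

lemma exists_bd {E : Type*} [NormedAddCommGroup E] [NormedSpace ℝ E] {ω : E → ℝ}
    (hω : ContDiff ℝ 3 ω) (hc : HasCompactSupport ω) :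
    ∃ C : ℝ, 1 ≤ C ∧ ∀ i ≤ 3, ∀ x, ‖iteratedFDeriv ℝ i ω x‖ ≤ C := by
  have h : ∀ i : Fin 4, ∃ C : ℝ, ∀ x, ‖iteratedFDeriv ℝ i ω x‖ ≤ C := fun i =>
    (hω.continuous_iteratedFDeriv (by exact_mod_cast Nat.lt_succ_iff.1 i.2)
      ).bounded_above_of_compact_support (hc.iteratedFDeriv i)
  choose C hC using h
  refine ⟨1 + ∑ i, |C i|, by simp [sum_nonneg], fun i hi x => ?_⟩
  have h1 := hC ⟨i, by omega⟩ x
  have h2 := single_le_sum (f := fun i => |C i|) (fun _ _ => abs_nonneg _)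
    (mem_univ (⟨i, by omega⟩ : Fin 4))
  have h3 := le_abs_self (C ⟨i, by omega⟩)
  simp only at h1 h2
  linarith

/-- bilinear forms of bounded vectors -/
lemma norm_dot {ι : Type*} [Fintype ι] {a b : ι → ℂ} {N : ℝ} (ha : ∑ k, ‖a k‖ ^ 2 ≤ N)
    (hb : ∑ k, ‖b k‖ ^ 2 ≤ N) : ‖∑ k, a k * b k‖ ≤ N := by
  refine (norm_sum_le _ _).trans ?_
  have : ∑ k, ‖a k * b k‖ ≤ ∑ k, (‖a k‖ ^ 2 + ‖b k‖ ^ 2) / 2 := sum_le_sum fun k _ => by
    rw [norm_mul]; nlinarith [sq_nonneg (‖a k‖ - ‖b k‖)]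
  rw [← sum_div, sum_add_distrib] at this
  linarith

lemma norm_ent {a b : ℂ} {n N : ℝ} (hn : 0 < n) (ha : n * ‖a‖ ^ 2 ≤ N) (hb : n * ‖b‖ ^ 2 ≤ N) :
    ‖a * b‖ ≤ N / n := by
  rw [le_div_iff₀ hn, norm_mul]
  nlinarith [mul_nonneg hn.le (sq_nonneg (‖a‖ - ‖b‖))]

/-- Schwarz -/
lemma near {F : ℂ → ℂ} {r u a b : ℝ} (hF : DifferentiableOn ℂ F (ball 0 r))
    (hA : ∀ z ∈ ball (0 : ℂ) r, ‖F z‖ ≤ A) (hu : |u| < r) (ha : F u = a) (hb : F 0 = b) :
    |a - b| ≤ 2 * A / r * |u| := by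
  have r0 : 0 < r := (abs_nonneg _).trans_lt hu
  have h := Complex.dist_le_div_mul_dist_of_mapsTo_ball (f := F) (c := 0) (z := u) (R₂ := 2 * A) hF
    (fun z hz => by
      rw [mem_closedBall, dist_eq_norm]
      linarith [norm_sub_le (F z) (F 0), hA z hz, hA 0 (mem_ball_self r0)])
    (by rw [mem_ball_zero_iff, Complex.norm_real]; exact hu)
  rwa [ha, hb, dist_eq_norm, ← Complex.ofReal_sub, Complex.norm_real, dist_zero_right,
    Complex.norm_real] at h

end Crest.Agent.T157.Sw14.Der91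

end
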