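import Crest.Agent.T157.CwDef_8
import Crest.Agent.T157.SwDerA_91
import Crest.Agent.T157.OcD_9

/-!
# Row 157, coin windows (helper90): the jets of the Schatten norm in one coupling
-/

set_option autoImplicit false

noncomputable section

namespace Crest.Agent.T157.Cw

open Matrix Set Function Metric Filter Topology
open Crest.ProbabilityR.SpinGlassDynamics
open Crest.Agent.T157.E Crest.Agent.T157.Un
open Crest.Agent.T157.Qe (V Mx Le)

namespace Jet90

/-- the real tilt parameter -/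
def uu (t θ : ℝ) : ℝ := Real.tanh θ / (1 + t * Real.tanh θ)

/-- its continuation -/
def UU (t : ℝ) (ζ : ℂ) : ℂ := Complex.sinh ζ / (Complex.cosh ζ + t * Complex.sinh ζ)

lemma uu_eq (t θ : ℝ) : uu t θ = Real.sinh θ / (Real.cosh θ + t * Real.sinh θ) := by
  have hc := (Real.cosh_pos θ).ne'
  rw [uu, Real.tanh_eq_sinh_div_cosh, show 1 + t * (Real.sinh θ / Real.cosh θ) =
    (Real.cosh θ + t * Real.sinh θ) / Real.cosh θ by field_simp, div_div_div_cancel_right₀ hc]

lemma UU_real (t θ : ℝ) : UU t θ = uu t θ := by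
  rw [uu_eq, UU]; push_cast; rfl

lemma contDiff_uu {t : ℝ} (ht : |t| ≤ 1) : ContDiff ℝ 4 (uu t) := by
  rw [show uu t = fun θ => Real.sinh θ / (Real.cosh θ + t * Real.sinh θ) from funext (uu_eq t)]
  refine Real.contDiff_sinh.div (Real.contDiff_cosh.add (contDiff_const.mul Real.contDiff_sinh))
    fun θ => ne_of_gt ?_
  have h1 : |t * Real.sinh θ| ≤ |Real.sinh θ| := by
    rw [abs_mul]; exact mul_le_of_le_one_left (abs_nonneg _) ht
  have h2 : |Real.sinh θ| < Real.cosh θ := by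
    rw [Real.abs_sinh, ← Real.cosh_abs]; exact Real.sinh_lt_cosh _
  linarith [neg_abs_le (t * Real.sinh θ)]

lemma den {t : ℝ} (ht : |t| ≤ 1) {ζ : ℂ} (hζ : ‖ζ‖ ≤ 1 / 4) :
    ‖Complex.sinh ζ‖ ≤ 5 / 4 * ‖ζ‖ ∧ 5 / 8 ≤ ‖Complex.cosh ζ + t * Complex.sinh ζ‖ := by
  have a := Complex.norm_exp_sub_one_sub_id_le (x := ζ) (by linarith)
  have b := Complex.norm_exp_sub_one_sub_id_le (x := -ζ) (by rw [norm_neg]; linarith)
  rw [norm_neg] at b
  have z0 := norm_nonneg ζ
  have s : ‖Complex.sinh ζ‖ ≤ 5 / 4 * ‖ζ‖ := by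
    have e : Complex.sinh ζ = ζ + ((Complex.exp ζ - 1 - ζ) - (Complex.exp (-ζ) - 1 - -ζ)) / 2 := by
      rw [Complex.sinh]; ring
    rw [e]
    refine (norm_add_le _ _).trans ?_
    rw [norm_div, Complex.norm_two]
    nlinarith [norm_sub_le (Complex.exp ζ - 1 - ζ) (Complex.exp (-ζ) - 1 - -ζ)]
  refine ⟨s, ?_⟩
  have e : (1 : ℂ) = (Complex.cosh ζ + t * Complex.sinh ζ) - t * Complex.sinh ζ -
      ((Complex.exp ζ - 1 - ζ) + (Complex.exp (-ζ) - 1 - -ζ)) / 2 := by
    rw [Complex.cosh]; ring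
  have h1 := congrArg norm e
  rw [norm_one] at h1
  have h2 := norm_sub_le ((Complex.cosh ζ + t * Complex.sinh ζ) - t * Complex.sinh ζ)
    (((Complex.exp ζ - 1 - ζ) + (Complex.exp (-ζ) - 1 - -ζ)) / 2)
  have h3 := norm_sub_le (Complex.cosh ζ + t * Complex.sinh ζ) (t * Complex.sinh ζ)
  have h4 : ‖(t : ℂ) * Complex.sinh ζ‖ ≤ ‖Complex.sinh ζ‖ := by
    rw [norm_mul, Complex.norm_real, Real.norm_eq_abs]
    exact mul_le_of_le_one_left (norm_nonneg _) ht
  rw [norm_div, Complex.norm_two] at h2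
  nlinarith [norm_add_le (Complex.exp ζ - 1 - ζ) (Complex.exp (-ζ) - 1 - -ζ)]

lemma norm_UU {t : ℝ} (ht : |t| ≤ 1) {ζ : ℂ} (hζ : ‖ζ‖ ≤ 1 / 4) : ‖UU t ζ‖ ≤ 2 * ‖ζ‖ := by
  obtain ⟨h1, h2⟩ := den ht hζ
  rw [UU, norm_div, div_le_iff₀ (by linarith)]
  nlinarith [norm_nonneg ζ]

lemma diff_UU {t : ℝ} (ht : |t| ≤ 1) {ζ : ℂ} (hζ : ‖ζ‖ ≤ 1 / 4) : DifferentiableAt ℂ (UU t) ζ := by
  refine Complex.differentiableAt_sinh.div (Complex.differentiableAt_cosh.add
    (Complex.differentiableAt_sinh.const_mul _)) fun h => ?_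
  have := (den ht hζ).2
  rw [h, norm_zero] at this
  linarith

lemma deriv_UU (t : ℝ) : HasDerivAt (UU t) 1 0 := by
  have := (Complex.hasDerivAt_sinh 0).div ((Complex.hasDerivAt_cosh 0).add
    ((Complex.hasDerivAt_sinh 0).const_mul (t : ℂ))) (by simp)
  refine this.congr_deriv ?_
  simp

lemma cauchy {F : ℂ → ℂ} {c : ℂ} {ρ A : ℝ} (hρ : 0 < ρ) (hF : DifferentiableOn ℂ F (ball c (2 * ρ)))
    (hA : ∀ z, ‖z - c‖ = ρ → ‖F z‖ ≤ A) (m : ℕ) :
    |(iteratedDeriv m F c).re| ≤ m.factorial * A / ρ ^ m :=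
  (Complex.abs_re_le_norm _).trans (Complex.norm_iteratedDeriv_le_of_forall_mem_sphere_norm_le m hρ
    (hF.diffContOnCl_ball (closedBall_subset_ball (by linarith))) fun z hz =>
      hA z (mem_sphere_iff_norm.1 hz))

lemma jets {L q : ℝ → ℝ} {G : ℂ → ℂ} {x0 h t r l a M : ℝ} (hh : 0 < h) (ht : |t| ≤ 1) (r0 : 0 < r)
    (r1 : r ≤ 1 / 2) (hG : Ex r q G) (hM : ∀ z ∈ ball (0 : ℂ) r, ‖G z‖ ≤ M) (l0 : 0 ≤ l)
    (hL : ∀ x, |uu t ((x - x0) * h)| < r → L x =
      l * (1 + a * uu t ((x - x0) * h) + uu t ((x - x0) * h) ^ 2 * q (uu t ((x - x0) * h)))) :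
    dv 1 L x0 = l * a * h ∧ l * h ^ 2 * (2 * q 0 - 32 * |a|) ≤ dv 2 L x0 ∧
    |dv 3 L x0| ≤ l * h ^ 3 * (24576 * |a| + 96 * M / r) ∧
    |dv 4 L x0| ≤ l * h ^ 4 * (24576 * |a| + 1536 * M / r ^ 2) := by
  set U : ℂ → ℂ := fun z => UU t ((z - x0) * h) with hU
  have nz : ∀ z : ℂ, ‖(z - x0) * h‖ = ‖z - x0‖ * h := fun z => by
    rw [norm_mul, Complex.norm_real, Real.norm_eq_abs, abs_of_pos hh]
  have b1 : ∀ z ∈ ball (x0 : ℂ) (2 * (1 / (8 * h))), ‖(z - x0) * h‖ ≤ 1 / 4 := fun z hz => by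
    rw [mem_ball_iff_norm] at hz
    rw [nz]
    refine (mul_le_mul_of_nonneg_right hz.le hh.le).trans_eq ?_
    field_simp; norm_num
  have dU : DifferentiableOn ℂ U (ball (x0 : ℂ) (2 * (1 / (8 * h)))) := fun z hz =>
    (DifferentiableAt.comp (g := UU t) (f := fun z : ℂ => (z - x0) * h) z (diff_UU ht (b1 z hz))
      (by fun_prop)).differentiableWithinAt
  have sub : ball (x0 : ℂ) (2 * (r / (4 * h))) ⊆ ball (x0 : ℂ) (2 * (1 / (8 * h))) :=
    ball_subset_ball (by
      rw [mul_le_mul_iff_right₀ two_pos, div_le_div_iff₀ (by positivity) (by positivity)]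
      nlinarith)
  have mp : ∀ z ∈ ball (x0 : ℂ) (2 * (r / (4 * h))), U z ∈ ball (0 : ℂ) r := fun z hz => by
    rw [mem_ball_zero_iff]
    refine (norm_UU ht (b1 z (sub hz))).trans_lt ?_
    rw [mem_ball_iff_norm] at hz
    rw [nz]
    refine (mul_lt_mul_of_pos_left (mul_lt_mul_of_pos_right hz hh) two_pos).trans_eq ?_
    field_simp; norm_num
  have dW : DifferentiableOn ℂ (fun z => G (U z)) (ball (x0 : ℂ) (2 * (r / (4 * h)))) :=
    hG.diff.comp (dU.mono sub) mp
  have dH : DifferentiableOn ℂ (fun z => U z * (U z * G (U z)))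
      (ball (x0 : ℂ) (2 * (r / (4 * h)))) := (dU.mono sub).mul ((dU.mono sub).mul dW)
  have m0 : (x0 : ℂ) ∈ ball (x0 : ℂ) (2 * (r / (4 * h))) := mem_ball_self (by positivity)
  have nb := isOpen_ball.mem_nhds m0
  have cU : ∀ j : ℕ, ContDiffAt ℂ j U x0 := fun j =>
    ((dU.mono sub).contDiffOn isOpen_ball).contDiffAt nb
  have cW : ∀ j : ℕ, ContDiffAt ℂ j (fun z => G (U z)) x0 := fun j =>
    (dW.contDiffOn isOpen_ball).contDiffAt nb
  have key : ∀ j : ℕ, 0 < j → dv j L x0 = l * (a * (iteratedDeriv j U x0).re +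
      (iteratedDeriv j (fun z => U z * (U z * G (U z))) x0).re) := fun j hj => by
    have ev : L =ᶠ[𝓝 x0] fun x : ℝ =>
        ((l : ℂ) * (1 + ((a : ℂ) * U x + U x * (U x * G (U x))))).re := by
      filter_upwards [Complex.continuous_ofReal.continuousAt.preimage_mem_nhds nb] with x hx
      have e : U x = uu t ((x - x0) * h) := by rw [← UU_real, hU]; push_cast; rfl
      have h1 := mp x hx
      rw [e, mem_ball_zero_iff, Complex.norm_real, Real.norm_eq_abs] at h1
      rw [hL x h1, e, hG.eq _ h1]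
      norm_cast
      ring
    rw [dv, ev.iteratedDeriv_eq, Sw14.Der91.iter_re isOpen_ball j (F := fun z =>
      (l : ℂ) * (1 + ((a : ℂ) * U z + U z * (U z * G (U z)))))
      ((((dU.mono sub).const_mul _).add dH).const_add _ |>.const_mul _) x0 m0,
      iteratedDeriv_const_mul_field, iteratedDeriv_const_add hj,
      iteratedDeriv_fun_add (contDiffAt_const.mul (cU j)) ((cU j).mul ((cU j).mul (cW j))),
      iteratedDeriv_const_mul_field]
    simp
  have U0 : U x0 = 0 := by simp [hU, UU]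
  have U1 : deriv U x0 = h := by
    have h1 : HasDerivAt (fun z : ℂ => (z - x0) * h) h x0 := by
      simpa using ((hasDerivAt_id' (x0 : ℂ)).sub_const (x0 : ℂ)).mul_const (h : ℂ)
    have h2 := (show HasDerivAt (UU t) 1 (((x0 : ℂ) - x0) * h) by
      rw [sub_self, zero_mul]; exact deriv_UU t).comp (x0 : ℂ) h1
    rw [one_mul] at h2
    exact h2.deriv
  have G0 : G 0 = q 0 := by simpa using hG.eq 0 (by simpa using r0)
  have V1 : iteratedDeriv 1 (fun z => U z * G (U z)) x0 = h * q 0 := by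
    rw [iteratedDeriv_fun_mul (cU 1) (cW 1)]
    simp [Finset.sum_range_succ, U0, U1, G0]
  have H1 : iteratedDeriv 1 (fun z => U z * (U z * G (U z))) x0 = 0 := by
    rw [iteratedDeriv_fun_mul (cU 1) ((cU 1).mul (cW 1))]
    simp [Finset.sum_range_succ, U0]
  have H2 : iteratedDeriv 2 (fun z => U z * (U z * G (U z))) x0 = 2 * h * (h * q 0) := by
    rw [iteratedDeriv_fun_mul (cU 2) ((cU 2).mul (cW 2))]
    simp only [Finset.sum_range_succ, Finset.range_zero, Finset.sum_empty, V1]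
    simp [U0, U1]
  have bU := cauchy (A := 1 / 4) (by positivity) dU fun z hz => by
    have h1 : ‖(z - x0) * h‖ = 1 / 8 := by rw [nz, hz]; field_simp
    refine (norm_UU ht (by rw [h1]; norm_num)).trans ?_
    rw [h1]; norm_num
  have bH := cauchy (A := r / 2 * (r / 2 * M)) (by positivity) dH fun z hz => by
    have h1 : ‖(z - x0) * h‖ = r / 4 := by rw [nz, hz]; field_simp
    have h2 : ‖U z‖ ≤ r / 2 := (norm_UU ht (by rw [h1]; linarith)).trans (by rw [h1]; linarith)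
    have h3 := hM (U z) (mem_ball_zero_iff.2 (by linarith))
    rw [norm_mul, norm_mul]
    exact mul_le_mul h2 (mul_le_mul h2 h3 (norm_nonneg _) (by positivity)) (by positivity)
      (by positivity)
  have tri : ∀ {x y X Y : ℝ}, |x| ≤ X → |y| ≤ Y → |l * (a * x + y)| ≤ l * (|a| * X + Y) :=
    fun {x y X Y} hx hy => by
      rw [abs_mul, abs_of_nonneg l0]
      refine mul_le_mul_of_nonneg_left ((abs_add_le _ _).trans (add_le_add ?_ hy)) l0
      rw [abs_mul]; exact mul_le_mul_of_nonneg_left hx (abs_nonneg a)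
  refine ⟨?_, ?_, ?_, ?_⟩
  · rw [key 1 one_pos, H1, iteratedDeriv_one, U1]; simp [mul_assoc]
  · have h1 := bU 2
    rw [show ((2 : ℕ).factorial : ℝ) * (1 / 4) / (1 / (8 * h)) ^ 2 = 32 * h ^ 2 by
      simp only [Nat.factorial]; field_simp; norm_num] at h1
    have h2 : |a * (iteratedDeriv 2 U x0).re| ≤ |a| * (32 * h ^ 2) := by
      rw [abs_mul]; exact mul_le_mul_of_nonneg_left h1 (abs_nonneg a)
    rw [key 2 two_pos, H2, mul_assoc l]
    refine mul_le_mul_of_nonneg_left ?_ l0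
    have e : (2 * (h : ℂ) * (h * (q 0 : ℝ))).re = 2 * h * (h * q 0) := by norm_cast
    rw [e]
    linarith [neg_abs_le (a * (iteratedDeriv 2 U x0).re)]
  · rw [key 3 (by norm_num)]
    refine (tri (bU 3) (bH 3)).trans ?_
    rw [mul_assoc l]
    refine mul_le_mul_of_nonneg_left ?_ l0
    rw [show ((3 : ℕ).factorial : ℝ) * (1 / 4) / (1 / (8 * h)) ^ 3 = 768 * h ^ 3 by
      simp only [Nat.factorial]; field_simp; norm_num,
      show ((3 : ℕ).factorial : ℝ) * (r / 2 * (r / 2 * M)) / (r / (4 * h)) ^ 3 =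
        h ^ 3 * (96 * M / r) by simp only [Nat.factorial]; field_simp; norm_num; ring]
    nlinarith [mul_nonneg (abs_nonneg a) (pow_pos hh 3).le]
  · rw [key 4 (by norm_num)]
    refine (tri (bU 4) (bH 4)).trans (le_of_eq ?_)
    simp only [Nat.factorial]; field_simp; norm_num; ring

variable {n : ℕ}

lemma le_sch {M : Mx n} {ε : ℝ} {k : ℕ} (hn : 1 ≤ n) (hk : 1 ≤ k) (hε : 0 < ε) (hM : Mᵀ = M)
    (h : Le (ε • 1) M) : 0 < (M ^ k).trace ∧ Le M (sch k M • 1) ∧ ε ≤ sch k M := by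
  obtain ⟨Q, l, h1, h2, h3⟩ := Oc.exists_spec hM
  have e : ∀ (u : V n) (j : ℕ), u ⬝ᵥ (M ^ j) *ᵥ u = ∑ a, (Qᵀ *ᵥ u) a ^ 2 * l a ^ j := by
    intro u j
    rw [h3, ← mulVec_mulVec, ← mulVec_mulVec, dotProduct_mulVec, ← mulVec_transpose]
    simp only [dotProduct, mulVec_diagonal]
    exact Finset.sum_congr rfl fun a _ => by ring
  have e2 : (M ^ k).trace = ∑ i, l i ^ k := by
    rw [← Oc.trace_conj h1, h3, Oc.conj_back h2, trace_diagonal]
  have lo : ∀ i, ε ≤ l i := fun i => by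
    have a := h (Q *ᵥ Pi.single i 1)
    have b := e (Q *ᵥ Pi.single i 1)
    rw [mulVec_mulVec, h2, one_mulVec] at b
    have b0 := b 0
    have b1 := b 1
    rw [pow_zero, one_mulVec] at b0
    rw [pow_one] at b1
    rw [smul_mulVec, one_mulVec, dotProduct_smul, b0, b1] at a
    simpa [Pi.single_apply] using a
  have l0 : ∀ i, 0 ≤ l i := fun i => hε.le.trans (lo i)
  have up : ∀ i, l i ≤ sch k M := fun i => by
    rw [sch, e2, ← Real.pow_rpow_inv_natCast (l0 i) (show k ≠ 0 by omega)]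
    exact Real.rpow_le_rpow (pow_nonneg (l0 i) k) (Finset.single_le_sum
      (f := fun i => l i ^ k) (fun i _ => pow_nonneg (l0 i) k) (Finset.mem_univ i)) (by positivity)
  refine ⟨?_, fun u => ?_, (lo ⟨0, hn⟩).trans (up _)⟩
  · rw [e2]
    exact Finset.sum_pos (fun i _ => pow_pos (hε.trans_le (lo i)) k) ⟨⟨0, hn⟩, Finset.mem_univ _⟩
  · have b0 := e u 0
    have b1 := e u 1
    rw [pow_zero, one_mulVec] at b0
    rw [pow_one] at b1
    rw [smul_mulVec, one_mulVec, dotProduct_smul, b0, b1, smul_eq_mul, Finset.mul_sum]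
    refine Finset.sum_le_sum fun a _ => ?_
    rw [pow_one, pow_zero, mul_one, mul_comm (sch k M)]
    exact mul_le_mul_of_nonneg_left (up a) (sq_nonneg _)

lemma contDiff_pow {N : ℝ → Mx n} (h : ∀ i j, ContDiff ℝ 4 fun x => N x i j) (k : ℕ) :
    ∀ i j, ContDiff ℝ 4 fun x => (N x ^ k) i j := by
  induction k with
  | zero => intro i j; simpa only [pow_zero] using contDiff_const
  | succ k ih =>
    intro i j
    simp only [pow_succ, Matrix.mul_apply]
    exact ContDiff.sum fun m _ => (ih i m).mul (h m j)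

lemma alg {L1 L2 L3 L4 l h ε v b a k D : ℝ} (hh : 0 < h) (hε : 0 < ε) (hl : ε ≤ l) (hv : 0 ≤ v)
    (hv4 : v ≤ 4) (hb : 0 ≤ b) (hb1 : b ≤ 1) (ha : |a| ≤ 2) (hk : 1 ≤ k) (hD : 1 ≤ D)
    (h1 : L1 = l * a * h) (h2 : l * h ^ 2 * (2 * (ε / (4 * l) * v - b) - 32 * |a|) ≤ L2)
    (h3 : |L3| ≤ l * h ^ 3 * (24576 * |a| + D * k ^ 2 * (v + b)))
    (h4 : |L4| ≤ l * h ^ 4 * (24576 * |a| + D * k ^ 3 * (v + b))) :
    (∀ R β, R = 80000 * D * (k ^ 2 * (l / ε) * h) → β = 80000 * D * (b * l * h ^ 2) →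
      -(R * |L1| + β) ≤ L2 ∧ |L3| ≤ R * (|L2| + R * |L1| + β) ∧
        |L4| ≤ R ^ 2 * (|L2| + R * |L1| + β)) ∧
    ∀ R β, R = 80000 * D * (k * h) → β = 80000 * D * (k * l * h ^ 2) →
      -(R * |L1| + β) ≤ L2 ∧ |L3| ≤ R * (|L2| + R * |L1| + β) ∧
        |L4| ≤ R ^ 2 * (|L2| + R * |L1| + β) := by
  have l0 : 0 < l := hε.trans_le hl
  have eP : |L1| = l * |a| * h := by rw [h1, abs_mul, abs_mul, abs_of_pos l0, abs_of_pos hh]
  have P0 := abs_nonneg L1
  have Q0 := abs_nonneg L2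
  have e2 : l * h ^ 2 * (2 * (ε / (4 * l) * v - b) - 32 * |a|) =
      ε / 2 * (v * h ^ 2) - 2 * (b * l * h ^ 2) - 32 * (h * |L1|) := by
    rw [eP]; field_simp; ring
  rw [e2] at h2
  have y0 : 0 ≤ ε / 2 * (v * h ^ 2) := by positivity
  have B0 : 0 ≤ b * l * h ^ 2 := by positivity
  set K := 80000 * D with hK
  have K1 : 80000 ≤ K := by linarith
  have lam : 1 ≤ l / ε := (one_le_div hε).2 hl
  have k2 : k ≤ k ^ 2 := by nlinarith
  refine ⟨?_, ?_⟩
  · rintro R β rfl rfl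
    set ω := k ^ 2 * (l / ε) * h with hω
    set B := b * l * h ^ 2
    have w1 : k * h ≤ ω :=
      mul_le_mul_of_nonneg_right (k2.trans (le_mul_of_one_le_right (by positivity) lam)) hh.le
    have w2 : h ≤ ω := le_trans (le_mul_of_one_le_left hh.le hk) w1
    have w3 : k ^ 2 * h ≤ ω :=
      mul_le_mul_of_nonneg_right (le_mul_of_one_le_right (by positivity) lam) hh.le
    have w0 : 0 ≤ ω := hh.le.trans w2
    have p1 : h * |L1| ≤ ω * |L1| := mul_le_mul_of_nonneg_right w2 P0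
    have p0 : 0 ≤ ω * |L1| := by positivity
    have y1 : k ^ 2 * h * (l * h ^ 2 * (v + b)) ≤ ω * (2 * |L2| + 64 * (ω * |L1|) + 5 * B) := by
      have e : k ^ 2 * h * (l * h ^ 2 * (v + b)) = ω * (2 * (ε / 2 * (v * h ^ 2))) + k ^ 2 * h * B := by
        simp only [hω, B]; field_simp
      have a1 : 2 * (ε / 2 * (v * h ^ 2)) ≤ 2 * |L2| + 64 * (ω * |L1|) + 4 * B := by
        linarith [le_abs_self L2]
      rw [e]
      nlinarith [mul_le_mul_of_nonneg_left a1 w0, mul_le_mul_of_nonneg_right w3 B0]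
    have S : 24576 * (ω * |L1|) + D * (2 * |L2| + 64 * (ω * |L1|) + 5 * B) ≤
        K * (|L2| + K * ω * |L1| + K * B) := by
      have a1 : K * (ω * |L1|) ≤ K * (K * (ω * |L1|)) :=
        mul_le_mul_of_nonneg_left (le_mul_of_one_le_left p0 (by linarith)) (by linarith)
      have a2 : K * B ≤ K * (K * B) :=
        mul_le_mul_of_nonneg_left (le_mul_of_one_le_left B0 (by linarith)) (by linarith)
      have a3 : ω * |L1| ≤ D * (ω * |L1|) := le_mul_of_one_le_left p0 hD
      have a4 : 0 ≤ D * |L2| := by positivity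
      have a5 : 0 ≤ D * B := by positivity
      have e : K * (|L2| + K * ω * |L1| + K * B) = K * |L2| + K * (K * (ω * |L1|)) + K * (K * B) := by
        ring
      rw [e]
      simp only [hK] at a1 a2 ⊢
      nlinarith
    have S0 : 0 ≤ |L2| + K * ω * |L1| + K * B := by positivity
    refine ⟨by nlinarith [mul_le_mul_of_nonneg_right K1 p0, mul_le_mul_of_nonneg_right K1 B0], ?_, ?_⟩
    · refine h3.trans ?_
      have e : l * h ^ 3 * (24576 * |a| + D * k ^ 2 * (v + b)) =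
          24576 * (h * (h * |L1|)) + D * (k ^ 2 * h * (l * h ^ 2 * (v + b))) := by rw [eP]; ring
      have a1 : h * (h * |L1|) ≤ ω * (ω * |L1|) := mul_le_mul w2 p1 (by positivity) w0
      rw [e]
      nlinarith [mul_le_mul_of_nonneg_left y1 (show 0 ≤ D by linarith),
        mul_le_mul_of_nonneg_left S w0]
    · refine h4.trans ?_
      have e : l * h ^ 4 * (24576 * |a| + D * k ^ 3 * (v + b)) = 24576 * (h * (h * (h * |L1|))) +
          D * (k * h * (k ^ 2 * h * (l * h ^ 2 * (v + b)))) := by rw [eP]; ring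
      have a1 : h * (h * (h * |L1|)) ≤ ω * (ω * (ω * |L1|)) :=
        mul_le_mul w2 (mul_le_mul w2 p1 (by positivity) w0) (by positivity) w0
      have a2 := mul_le_mul w1 y1 (by positivity) w0
      have a3 : ω * ω * (K * (|L2| + K * ω * |L1| + K * B)) ≤
          (K * ω) ^ 2 * (|L2| + K * ω * |L1| + K * B) := by
        rw [← mul_assoc]
        refine mul_le_mul_of_nonneg_right ?_ S0
        nlinarith [mul_nonneg (mul_nonneg w0 w0) (show 0 ≤ K * (K - 1) by nlinarith)]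
      rw [e]
      nlinarith [mul_le_mul_of_nonneg_left a2 (show 0 ≤ D by linarith),
        mul_le_mul_of_nonneg_left S (mul_nonneg w0 w0)]
  · rintro R β rfl rfl
    have z0 : 0 < l * h ^ 2 := by positivity
    have R0 : 0 ≤ K * (k * h) := by positivity
    have p0 : 0 ≤ h * |L1| := by positivity
    have S : K * (k * l * h ^ 2) ≤ |L2| + K * (k * h) * |L1| + K * (k * l * h ^ 2) := by
      have := mul_nonneg R0 P0
      linarith
    have T : ∀ m : ℝ, 1 ≤ m → 24576 * |a| + D * m * (v + b) ≤ K * m := fun m hm => by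
      have a1 : D * m * (v + b) ≤ D * m * 5 := mul_le_mul_of_nonneg_left (by linarith) (by positivity)
      have a2 : 1 ≤ D * m := one_le_mul_of_one_le_of_one_le hD hm
      simp only [hK]
      nlinarith
    have KK : K ≤ K * K := le_mul_of_one_le_left (by linarith) (by linarith)
    refine ⟨?_, h3.trans (le_trans ?_ (mul_le_mul_of_nonneg_left S R0)),
      h4.trans (le_trans ?_ (mul_le_mul_of_nonneg_left S (sq_nonneg _)))⟩
    · have a1 : 32 * (h * |L1|) ≤ K * k * (h * |L1|) :=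
        mul_le_mul_of_nonneg_right (by nlinarith) p0
      have a2 : 2 * b * (l * h ^ 2) ≤ K * k * (l * h ^ 2) :=
        mul_le_mul_of_nonneg_right (by nlinarith) z0.le
      nlinarith
    · refine (mul_le_mul_of_nonneg_left (T _ (one_le_pow₀ hk)) (by positivity)).trans ?_
      nlinarith [mul_le_mul_of_nonneg_right KK (show 0 ≤ l * h ^ 3 * k ^ 2 by positivity)]
    · refine (mul_le_mul_of_nonneg_left (T _ (one_le_pow₀ hk)) (by positivity)).trans ?_
      have : K ≤ K * K * K := KK.trans (le_mul_of_one_le_right (by positivity) (by linarith))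
      nlinarith [mul_le_mul_of_nonneg_right this (show 0 ≤ l * h ^ 4 * k ^ 3 by positivity)]

end Jet90

open Jet90 in
theorem jetGlue : JetGlue := by
  rintro ⟨C, c, hC, c0, c1, H⟩ T
  have D1 : 1 ≤ 1536 * C / c ^ 2 := by
    rw [le_div_iff₀ (by positivity)]; nlinarith
  refine ⟨80000 * (1536 * C / c ^ 2), by linarith, fun n k ε s g dd y e hk hε hs => ?_⟩
  have hn : 1 ≤ n := e.1.1.pos
  have n0 : (0 : ℝ) < n := by exact_mod_cast hn
  have s0 : 0 < √(n : ℝ) := Real.sqrt_pos.2 n0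
  have k2 : (2 : ℝ) ≤ k := by exact_mod_cast hk
  have pos : ∀ (W : Mx n) σ, 0 < ising W y σ := fun W σ => Real.exp_pos _
  have base : ∀ W : Mx n, (Mr ε s W y)ᵀ = Mr ε s W y ∧ Le (ε • 1) (Mr ε s W y) := fun W => by
    obtain ⟨-, a, -, b, -⟩ := T.bd n _ _ (pos W) (sgn_chi e)
    refine ⟨by rw [Mr, transpose_add, transpose_smul, transpose_smul, transpose_one, a], fun u => ?_⟩
    have := b u
    rw [zero_mulVec, dotProduct_zero] at this
    rw [Mr, add_mulVec, dotProduct_add, smul_mulVec s, dotProduct_smul, smul_eq_mul]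
    linarith [mul_nonneg hs this]
  set w := ising (Wmat n g dd) y with hw
  set M := Mr ε s (Wmat n g dd) y with hM
  set A := s • K3 w (chi e) with hA
  set B := s • vecMulVec (covV w (chi e) sv) (covV w (chi e) sv) with hB
  obtain ⟨ht, sC, sK, pC, lK, uK, uB⟩ := T.bd n w _ (pos _) (sgn_chi e)
  have eM : ∀ x, Mr ε s (Wmat n (update g e x) dd) y =
      M + uu (mean w (chi e)) ((x - g e) * (√n)⁻¹) • A -
        uu (mean w (chi e)) ((x - g e) * (√n)⁻¹) ^ 2 • B := fun x => by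
    rw [Mr, T.upd, T.tilt n _ _ _ (pos _) (sgn_chi e), div_eq_mul_inv (x - g e), hM, Mr, hA, hB, uu]
    module
  obtain ⟨-, hΛ, hl⟩ := le_sch (k := k) hn (by omega) hε (base (Wmat n g dd)).1 (base _).2
  have qM : ∀ u : V n, u ⬝ᵥ M *ᵥ u = ε * (u ⬝ᵥ u) + s * (u ⬝ᵥ covM w *ᵥ u) := fun u => by
    simp only [hM, Mr, add_mulVec, dotProduct_add, smul_mulVec, dotProduct_smul, smul_eq_mul,
      one_mulVec, hw]
  have uu0 : ∀ u : V n, 0 ≤ ε * (u ⬝ᵥ u) := fun u =>
    mul_nonneg hε.le (Finset.sum_nonneg fun i _ => mul_self_nonneg _)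
  obtain ⟨v, q, G, ha, hv, hv4, -, hb, hb1, hG, hGM, hq, hs'⟩ := H n k M A B ε (sch k M) hn hk hε
    (base _).1 (by rw [hA, transpose_smul, sK]) (by rw [hB, transpose_smul, transpose_vecMulVec])
    (base _).2 hΛ
    (fun u => by
      have := mul_le_mul_of_nonneg_left (lK u) hs
      simp only [hA, smul_mulVec, dotProduct_smul, smul_eq_mul, qM] at this ⊢
      linarith [uu0 u])
    (fun u => by
      have := mul_le_mul_of_nonneg_left (uK u) hs
      simp only [hA, smul_mulVec, dotProduct_smul, smul_eq_mul, qM] at this ⊢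
      linarith [uu0 u])
    (fun u => by
      rw [zero_mulVec, dotProduct_zero, hB, smul_mulVec, dotProduct_smul, vecMulVec_mulVec,
        op_smul_eq_smul, dotProduct_smul, dotProduct_comm u]
      exact mul_nonneg hs (mul_self_nonneg _))
    (fun u => by
      have := mul_le_mul_of_nonneg_left (uB u) hs
      simp only [hB, smul_mulVec, dotProduct_smul, smul_eq_mul, qM] at this ⊢
      linarith [uu0 u])
  replace hl : ε ≤ sch k M := hl
  have l0 : 0 < sch k M := hε.trans_le hl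
  obtain ⟨j1, j2, j3, j4⟩ := jets (L := fun x => lm k ε s (Wmat n (update g e x) dd) y) (x0 := g e)
    (a := av k M A) (inv_pos.2 s0) ht (by positivity) (by rw [div_le_iff₀ (by linarith)]; linarith)
    hG hGM l0.le fun x hx => by rw [lm, eM, hs' _ hx]
  have cd : ContDiff ℝ 4 fun x => lm k ε s (Wmat n (update g e x) dd) y := by
    have u : ContDiff ℝ 4 fun x : ℝ => uu (mean w (chi e)) ((x - g e) * (√n)⁻¹) :=
      (contDiff_uu ht).comp ((contDiff_id.sub contDiff_const).mul contDiff_const)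
    refine ContDiff.rpow_const_of_ne (ContDiff.sum fun i _ => contDiff_pow (fun i j => ?_) k i i)
      fun x => (le_sch (k := k) hn (by omega) hε (base _).1 (base _).2).1.ne'
    simp only [eM, Matrix.sub_apply, Matrix.add_apply, Matrix.smul_apply, smul_eq_mul]
    exact (contDiff_const.add (u.mul contDiff_const)).sub ((u.pow 2).mul contDiff_const)
  have vb : 0 ≤ v + av k M B := by linarith
  obtain ⟨r1, r2⟩ := alg (k := k) (inv_pos.2 s0) hε hl hv (by linarith [sq_nonneg (av k M A)]) hb hb1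
    ha (by linarith) D1 j1
    (le_trans (mul_le_mul_of_nonneg_left (by linarith) (by positivity)) j2)
    (j3.trans (mul_le_mul_of_nonneg_left (add_le_add le_rfl (by
      rw [show 96 * (C * k * (v + av k M B)) / (c / k) = 96 * C * c / c ^ 2 * k ^ 2 * (v + av k M B) by
        field_simp]
      exact mul_le_mul_of_nonneg_right (mul_le_mul_of_nonneg_right (div_le_div_of_nonneg_right
        (by nlinarith) (by positivity)) (by positivity)) vb)) (by positivity)))
    (j4.trans_eq (by field_simp))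
  have e2 : ((√(n : ℝ))⁻¹) ^ 2 = (n : ℝ)⁻¹ := by rw [inv_pow, Real.sq_sqrt n0.le]
  obtain ⟨a2, a3, a4⟩ := r1 (80000 * (1536 * C / c ^ 2) * k ^ 2 * sch k M / (ε * √n))
    (80000 * (1536 * C / c ^ 2) * av k M B * sch k M / n) (by field_simp) (by rw [e2]; ring)
  obtain ⟨b2, b3, b4⟩ := r2 (80000 * (1536 * C / c ^ 2) * k / √n)
    (80000 * (1536 * C / c ^ 2) * k * sch k M / n) (by ring) (by rw [e2]; ring)
  exact ⟨⟨cd, a2, a3, a4⟩, ⟨cd, b2, b3, b4⟩⟩

end Crest.Agent.T157.Cw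

end
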