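import Crest.Agent.T157.CwDef_8

/-!
# Row 157, part C (helper80): elementary facts about the Schatten norm of the regularised
covariance (`Cw.LmGlue`)
-/

set_option autoImplicit false

noncomputable section

namespace Crest.Agent.T157.Cw

open Matrix Function MeasureTheory
open Crest.ProbabilityR.SpinGlassDynamics
open Crest.Agent.T157.E Crest.Agent.T157.Un Crest.Agent.T157.Crit Crest.Agent.T157.SL
open Crest.Agent.T157.Qe (V Mx Le)

namespace Lm80

variable {n : ℕ}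

/-- orthonormal eigenbasis: rows of `P` -/
structure Eb (M P : Mx n) (μ : V n) : Prop where
  o : Pᵀ * P = 1
  e : M = Pᵀ * diagonal μ * P

theorem exists_eb {M : Mx n} (h : Mᵀ = M) : ∃ P μ, Eb M P μ := by
  obtain ⟨O, hO, e⟩ := Dq.dg_herm
    (show M.IsHermitian by rwa [IsHermitian, conjTranspose_eq_transpose_of_trivial])
  exact ⟨Oᵀ, _, by simpa using hO, by simpa using e⟩

namespace Eb
variable {M P : Mx n} {μ : V n}

theorem o' (h : Eb M P μ) : P * Pᵀ = 1 := mul_eq_one_comm.1 h.o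

theorem pow (h : Eb M P μ) (k : ℕ) : M ^ k = Pᵀ * diagonal (fun i => μ i ^ k) * P := by
  induction k with
  | zero => simp [h.o]
  | succ k ih =>
    rw [pow_succ, ih]
    conv_lhs => rw [h.e]
    simp only [Matrix.mul_assoc]
    rw [← Matrix.mul_assoc P, h.o', Matrix.one_mul, ← Matrix.mul_assoc (diagonal _),
      diagonal_mul_diagonal]
    simp only [pow_succ]

theorem conj_diag (P B : Mx n) (i : Fin n) : (P * B * Pᵀ) i i = P i ⬝ᵥ B *ᵥ P i := by
  simp only [mul_apply, transpose_apply, dotProduct, mulVec, Finset.sum_mul, Finset.mul_sum]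
  rw [Finset.sum_comm]
  exact Finset.sum_congr rfl fun a _ => Finset.sum_congr rfl fun b _ => by ring

theorem tr (h : Eb M P μ) (k : ℕ) (B : Mx n) :
    (M ^ k * B).trace = ∑ i, μ i ^ k * (P i ⬝ᵥ B *ᵥ P i) := by
  rw [h.pow, Matrix.mul_assoc, Matrix.mul_assoc, trace_mul_comm, Matrix.mul_assoc]
  simp only [trace, Matrix.diag_apply, diagonal_mul, conj_diag]

theorem unit (h : Eb M P μ) (i : Fin n) : P i ⬝ᵥ P i = 1 := by
  have := conj_diag P 1 i
  rw [Matrix.mul_one, h.o', one_mulVec] at this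
  simpa using this.symm

theorem eig (h : Eb M P μ) (i : Fin n) : P i ⬝ᵥ M *ᵥ P i = μ i := by
  rw [← conj_diag, h.e]
  simp only [Matrix.mul_assoc]
  rw [h.o', Matrix.mul_one, ← Matrix.mul_assoc, h.o', Matrix.one_mul, diagonal_apply_eq]

theorem tr1 (h : Eb M P μ) (k : ℕ) : (M ^ k).trace = ∑ i, μ i ^ k := by
  have := h.tr k 1
  simpa only [Matrix.mul_one, one_mulVec, h.unit, mul_one] using this

theorem form_le (h : Eb M P μ) {l : ℝ} (hl : ∀ i, μ i ≤ l) (u : V n) :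
    u ⬝ᵥ M *ᵥ u ≤ l * (u ⬝ᵥ u) := by
  have e1 : u ⬝ᵥ M *ᵥ u = ∑ i, μ i * (P *ᵥ u) i ^ 2 := by
    rw [h.e, ← mulVec_mulVec, ← mulVec_mulVec, dotProduct_mulVec, vecMul_transpose]
    simp only [dotProduct, mulVec_diagonal]
    exact Finset.sum_congr rfl fun i _ => by ring
  have e2 : u ⬝ᵥ u = ∑ i, (P *ᵥ u) i ^ 2 := by
    rw [show u ⬝ᵥ u = u ⬝ᵥ (Pᵀ * P) *ᵥ u by rw [h.o, one_mulVec], ← mulVec_mulVec,
      dotProduct_mulVec, vecMul_transpose]
    simp only [dotProduct, sq]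
  rw [e1, e2, Finset.mul_sum]
  exact Finset.sum_le_sum fun i _ => mul_le_mul_of_nonneg_right (hl i) (sq_nonneg _)

theorem le_sch (h : Eb M P μ) (h0 : ∀ i, 0 ≤ μ i) {k : ℕ} (hk : 1 ≤ k) (i : Fin n) :
    μ i ≤ sch k M := by
  rw [sch, h.tr1, ← Real.pow_rpow_inv_natCast (h0 i) (by omega : k ≠ 0)]
  exact Real.rpow_le_rpow (pow_nonneg (h0 i) _)
    (Finset.single_le_sum (fun j _ => pow_nonneg (h0 j) k) (Finset.mem_univ i)) (by positivity)

theorem sch_nonneg (h : Eb M P μ) (h0 : ∀ i, 0 ≤ μ i) (k : ℕ) : 0 ≤ sch k M := by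
  rw [sch, h.tr1]
  exact Real.rpow_nonneg (Finset.sum_nonneg fun j _ => pow_nonneg (h0 j) k) _

theorem sch_le (h : Eb M P μ) (h0 : ∀ i, 0 ≤ μ i) {k : ℕ} (hk : 1 ≤ k) {l : ℝ} (hl0 : 0 ≤ l)
    (hl : ∀ i, μ i ≤ l) : sch k M ≤ (n : ℝ) ^ (k : ℝ)⁻¹ * l := by
  rw [sch, h.tr1]
  conv_rhs => rw [← Real.pow_rpow_inv_natCast hl0 (by omega : k ≠ 0)]
  rw [← Real.mul_rpow (by positivity) (by positivity)]
  refine Real.rpow_le_rpow (Finset.sum_nonneg fun j _ => pow_nonneg (h0 j) k) ?_ (by positivity)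
  simpa using Finset.sum_le_card_nsmul Finset.univ (fun i => μ i ^ k) (l ^ k)
    fun i _ => pow_le_pow_left₀ (h0 i) (hl i) k

theorem av_nonneg (h : Eb M P μ) (h0 : ∀ i, 0 ≤ μ i) (k : ℕ) {B : Mx n}
    (hB : ∀ u, 0 ≤ u ⬝ᵥ B *ᵥ u) : 0 ≤ av k M B := by
  rw [av, h.tr, h.tr1]
  exact div_nonneg (Finset.sum_nonneg fun i _ => mul_nonneg (pow_nonneg (h0 i) _) (hB _))
    (Finset.sum_nonneg fun j _ => pow_nonneg (h0 j) k)

theorem av_le (h : Eb M P μ) (h0 : ∀ i, 0 ≤ μ i) {k : ℕ} (hk : 1 ≤ k) {B : Mx n} {c : ℝ}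
    (hc : 0 ≤ c) (hB : ∀ u, u ⬝ᵥ B *ᵥ u ≤ c * (u ⬝ᵥ M *ᵥ u)) : av k M B ≤ c := by
  rw [av, h.tr, h.tr1]
  refine div_le_of_le_mul₀ (Finset.sum_nonneg fun j _ => pow_nonneg (h0 j) k) hc ?_
  rw [Finset.mul_sum]
  refine Finset.sum_le_sum fun i _ => ?_
  have h1 := hB (P i)
  rw [h.eig] at h1
  obtain ⟨k, rfl⟩ : ∃ j, k = j + 1 := ⟨k - 1, by omega⟩
  rw [Nat.add_sub_cancel, pow_succ]
  nlinarith [mul_le_mul_of_nonneg_left h1 (pow_nonneg (h0 i) k)]

end Eb

theorem av_sum {κ : Type*} (S : Finset κ) (k : ℕ) (M : Mx n) (B : κ → Mx n) :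
    ∑ e ∈ S, av k M (B e) = av k M (∑ e ∈ S, B e) := by
  simp only [av, Matrix.mul_sum, trace_sum, Finset.sum_div]

theorem av_smul (k : ℕ) (M B : Mx n) (c : ℝ) : av k M (c • B) = c * av k M B := by
  simp only [av, Matrix.mul_smul, trace_smul, smul_eq_mul, mul_div_assoc]

theorem ipos (W : Mx n) (y : V n) (x : Cube n) : 0 < ising W y x := Real.exp_pos _

theorem wt (W : Mx n) (y : V n) : Wt (ising W y) := Wt.of_pos (ipos W y)

theorem Mr_form (ε s : ℝ) (W : Mx n) (y u : V n) :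
    u ⬝ᵥ Mr ε s W y *ᵥ u = ε * (u ⬝ᵥ u) + s * (u ⬝ᵥ covM (ising W y) *ᵥ u) := by
  simp only [Mr, add_mulVec, smul_mulVec, one_mulVec, dotProduct_add, dotProduct_smul, smul_eq_mul]

theorem Mr_symm (ε s : ℝ) (W : Mx n) (y : V n) : (Mr ε s W y)ᵀ = Mr ε s W y := by
  simp only [Mr, transpose_add, transpose_smul, transpose_one, covM, covMat_transpose]

theorem cov_nn (W : Mx n) (y u : V n) : 0 ≤ u ⬝ᵥ covM (ising W y) *ᵥ u :=
  (wt W y).covMat_quad_nonneg sv u

theorem eig_ge {ε s : ℝ} {W P : Mx n} {y μ : V n} (h : Eb (Mr ε s W y) P μ) (hs : 0 ≤ s)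
    (i : Fin n) : ε ≤ μ i := by
  rw [← h.eig i, Mr_form, h.unit]
  nlinarith [cov_nn W y (P i)]

theorem covLe_of {k : ℕ} {ε s K : ℝ} {W : Mx n} {y : V n} (hk : 1 ≤ k) (hε : 0 < ε) (hs : 0 < s)
    (hK : lm k ε s W y ≤ ε + s * K) : CovLe (ising W y) K := fun u => by
  obtain ⟨P, μ, h⟩ := exists_eb (Mr_symm ε s W y)
  have h0 : ∀ i, 0 ≤ μ i := fun i => hε.le.trans (eig_ge h hs.le i)
  have h1 := h.form_le (l := ε + s * K) (fun i => (h.le_sch h0 hk i).trans hK) u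
  rw [Mr_form] at h1
  refine le_of_mul_le_mul_left ?_ hs
  linarith

theorem vmv_quad (c u : V n) : u ⬝ᵥ vecMulVec c c *ᵥ u = (u ⬝ᵥ c) ^ 2 := by
  rw [vecMulVec_mulVec, dotProduct_smul, dotProduct_comm c u, sq]; simp

theorem dnn (u : V n) : 0 ≤ u ⬝ᵥ u := Finset.sum_nonneg fun _ _ => mul_self_nonneg _

theorem c_mean {f : Mx n × V n → Cube n → ℝ} (hf : ∀ σ, Continuous fun p => f p σ) :
    Continuous fun p : Mx n × V n => mean (ising p.1 p.2) (f p) := by
  have h1 : ∀ σ, Continuous fun p : Mx n × V n => ising p.1 p.2 σ := fun σ => by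
    unfold ising; fun_prop
  exact continuous_finsetSum _ fun σ _ => ((h1 σ).div (continuous_finsetSum _ fun τ _ => h1 τ)
    fun p => (wt p.1 p.2).pos.ne').mul (hf σ)

theorem c_cov (f g : Cube n → ℝ) : Continuous fun p : Mx n × V n => cov (ising p.1 p.2) f g :=
  c_mean fun _ => (continuous_const.sub (c_mean (f := fun _ => f) fun _ => continuous_const)).mul
    (continuous_const.sub (c_mean (f := fun _ => g) fun _ => continuous_const))

theorem c_Mr (ε s : ℝ) : Continuous fun p : Mx n × V n => Mr ε s p.1 p.2 :=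
  continuous_const.add ((continuous_pi fun _ => continuous_pi fun _ => c_cov _ _ :
    Continuous fun p : Mx n × V n => covM (ising p.1 p.2)).const_smul s)

end Lm80

open Lm80

theorem lmGlue : LmGlue := fun hT => by
  refine ⟨fun n k ε s => ?_, fun n k ε s e => ?_, fun n k ε s W y hn hk hε hs => ⟨?_, ?_⟩,
    fun n k ε s K W y hk hε hs hK hC => ?_, fun n W y u => ?_, fun n k ε s W y e hk hε hs => ?_,
    fun n k ε s W y hk hε hs => ?_⟩
  · exact ((c_Mr ε s).pow k).matrix_trace.measurable.pow_const _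
  · have hc : Continuous fun p : Mx n × V n => covV (ising p.1 p.2) (chi e) sv :=
      continuous_pi fun _ => c_cov _ _
    exact (((c_Mr ε s).pow (k - 1)).matrix_mul
      ((hc.matrix_vecMulVec hc).const_smul s)).matrix_trace.measurable.div
      ((c_Mr ε s).pow k).matrix_trace.measurable
  · obtain ⟨P, μ, h⟩ := exists_eb (Mr_symm ε s W y)
    exact (eig_ge h hs ⟨0, hn⟩).trans (h.le_sch (fun i => hε.le.trans (eig_ge h hs i)) hk _)
  · exact fun K hK hs' => covLe_of hk hε hs' hK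
  · obtain ⟨P, μ, h⟩ := exists_eb (Mr_symm ε s W y)
    refine h.sch_le (fun i => hε.le.trans (eig_ge h hs i)) hk (by positivity) fun i => ?_
    have h1 := hC (P i)
    rw [← h.eig i, Mr_form, h.unit] at *
    nlinarith
  · rw [covM, covMat_quad, (wt W y).cov_eq]
    have h1 := (wt W y).mean_le (f := fun x => u ⬝ᵥ sv x * (u ⬝ᵥ sv x)) (c := n * (u ⬝ᵥ u))
      fun x => by
        have := Eig.dot_sq_le u (sv x)
        rw [sv_dot_self] at this
        nlinarith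
    nlinarith [mul_self_nonneg (mean (ising W y) fun x => u ⬝ᵥ sv x)]
  · obtain ⟨P, μ, h⟩ := exists_eb (Mr_symm ε s W y)
    have h0 : ∀ i, 0 ≤ μ i := fun i => hε.le.trans (eig_ge h hs i)
    refine ⟨h.av_nonneg h0 k fun u => ?_, h.av_le h0 hk zero_le_one fun u => ?_⟩
    · rw [smul_mulVec, dotProduct_smul, vmv_quad, smul_eq_mul]; positivity
    · have h1 := (hT.bd n _ _ (ipos W y) (sgn_chi e)).2.2.2.2.2.2 u
      rw [smul_mulVec, dotProduct_smul, smul_eq_mul, Mr_form]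
      nlinarith [mul_le_mul_of_nonneg_left h1 hs, dnn u]
  · obtain ⟨P, μ, h⟩ := exists_eb (Mr_symm ε s W y)
    have h0 : ∀ i, 0 ≤ μ i := fun i => hε.le.trans (eig_ge h hs.le i)
    have hl : 0 ≤ lm k ε s W y := h.sch_nonneg h0 k
    have hC : CovLe (ising W y) (lm k ε s W y / s) :=
      covLe_of hk hε hs (by rw [mul_div_cancel₀ _ hs.ne']; linarith)
    simp only [bb]
    rw [av_sum, ← av_smul, ← Finset.smul_sum]
    refine h.av_le h0 hk (by positivity) fun u => ?_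
    have h1 := hT.sum n _ _ (ipos W y) hC u
    simp only [smul_mulVec, dotProduct_smul, smul_eq_mul] at h1 ⊢
    rw [Mr_form]
    have h2 := mul_le_mul_of_nonneg_left h1 (mul_pos hs hs).le
    have e : s * s * (2 * n * (lm k ε s W y / s) * (u ⬝ᵥ covM (ising W y) *ᵥ u)) =
        2 * n * lm k ε s W y * (s * (u ⬝ᵥ covM (ising W y) *ᵥ u)) := by field_simp
    have h3 : 0 ≤ 2 * n * lm k ε s W y * (ε * (u ⬝ᵥ u)) := by have := dnn u; positivity
    rw [e] at h2
    linarith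

end Crest.Agent.T157.Cw

end
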