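import Crest.Agent.T157.DqD_9

/-!
# Row 157, part A2 (helper24): the quenched edge (3q), definitions and exact leaves

Paper proof: `docs/T157_W24.md`, section 5 (constants as in this file).
`PtStmt`: under the planted tilt, conditionally on `W p`, on a rigid spectrum the matrix
`2 + diag D - β e e' - W` is nonnegative off probability `exp(C log n + E - ε⁹ q² n / 64)`.
-/

set_option autoImplicit false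

noncomputable section

namespace Crest.Agent.T157.Qe

open Matrix Finset MeasureTheory Set
open scoped ENNReal
open Crest.Agent.T157.E Crest.Agent.T157.Cond Crest.Agent.T157.Dq
open Crest.Agent.T157.Conc (ex)

abbrev V (n : ℕ) : Type := Fin n → ℝ
abbrev Mx (n : ℕ) : Type := Matrix (Fin n) (Fin n) ℝ
/-- the same measure as `Tap.GOE` -/
abbrev GOE (n : ℕ) : Measure (Mx n) := goe (Fin n) (1 / Real.sqrt n)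

variable {n : ℕ}

/-- order of quadratic forms -/
def Le (A B : Mx n) : Prop := ∀ u : V n, u ⬝ᵥ A *ᵥ u ≤ u ⬝ᵥ B *ᵥ u
/-- Gaussian integral (`det^{-1/2}`) -/
def Gi (N : Mx n) : ℝ≥0∞ := ∫⁻ x, ex ((x ⬝ᵥ x - x ⬝ᵥ N *ᵥ x) / 2) ∂gv (Fin n)
def zz (g : ℝ) : ℝ := g + 1 / g
/-- logarithmic potential of the semicircle at `zz g` -/
def ell (g : ℝ) : ℝ := g ^ 2 / 2 - Real.log g
/-- the spherical integral exponent, cut at `zz g0` -/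
def Jb (g0 u : ℝ) : ℝ := zz (min u g0) * u / 2 - ell (min u g0) / 2 - Real.log u / 2 - 1 / 2
/-- spectral data used by (QS) -/
def Sp (g0 E : ℝ) (W : Mx n) : Prop := ∃ a, Dg W a ∧ (∀ i, -4 ≤ a i ∧ a i < zz g0) ∧
  ∀ g ∈ Icc (1 / 64 : ℝ) g0, n * ell g - E ≤ ∑ i, Real.log (zz g - a i)
/-- invariance under the orthogonal group of the range of `P` -/
def Inv (P : Mx n) (ν : Measure (Mx n)) (Φ : Mx n → Mx n) : Prop :=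
  ∀ O : Mx n, O * Oᵀ = 1 → O * (1 - P) = 1 - P → ∀ ξ : V n,
    ∫⁻ W, ex ((O *ᵥ ξ) ⬝ᵥ Φ W *ᵥ (O *ᵥ ξ) / 2) ∂ν = ∫⁻ W, ex (ξ ⬝ᵥ Φ W *ᵥ ξ / 2) ∂ν

/-- the data of (QS): the random matrix is `Φ W`, `W ∼ ν` -/
structure QD (P S : Mx n) (ν : Measure (Mx n)) (Φ : Mx n → Mx n) (g0 E : ℝ) : Prop where
  proj : IsProj P
  tr : (n : ℝ) - 3 ≤ P.trace
  fin : IsFiniteMeasure ν
  meas : Measurable Φ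
  inv : Inv P ν Φ
  symm : Sᵀ = S
  zero : S * P = 0
  nonneg : Le 0 S
  ae : ∀ᵐ W ∂ν, Sp g0 E (Φ W) ∧ Le (Φ W + S) (zz g0 • (1 : Mx n))

/-- **(QS)** quenched spherical integral -/
def QsStmt : Prop := ∃ C : ℕ, ∀ (n : ℕ) (P S : Mx n) (ν : Measure (Mx n)) (Φ : Mx n → Mx n)
    (g0 E : ℝ) (ξ : V n), 8 ≤ n → QD P S ν Φ g0 E → g0 ∈ Icc (1 / 2 : ℝ) 1 →
  (P *ᵥ ξ) ⬝ᵥ (P *ᵥ ξ) / n ∈ Icc (1 / 64 : ℝ) 10 →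
  ∫⁻ W, ex (ξ ⬝ᵥ Φ W *ᵥ ξ / 2) ∂ν ≤ ν univ * ex (C * Real.log n +
    (ξ - P *ᵥ ξ) ⬝ᵥ (zz g0 • (1 : Mx n) - S) *ᵥ (ξ - P *ᵥ ξ) / 2 +
    n * Jb g0 ((P *ᵥ ξ) ⬝ᵥ (P *ᵥ ξ) / n) + E / 2)

/-- parameters -/
structure Par (n : ℕ) (ε q : ℝ) : Prop where
  n8 : 8 ≤ n
  e0 : 0 < ε
  e1 : ε ≤ 1 / 100
  q0 : 0 < q
  q1 : q ≤ ε ^ 3 / 10 ^ 6
  nq : 1 ≤ n * ε * q

/-- the diagonal and its free edge gap -/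
structure Dv (ε q : ℝ) (D : V n) : Prop where
  lo : ∀ i, -(3 * q) ≤ D i
  hi : ∀ i, D i ≤ 3
  m1 : ∑ i, D i ≤ 4 * q ^ 2 * n
  m2 : ∑ i, D i ^ 2 ≤ 4 * q ^ 2 * n
  gap : ε * q ^ 2 * n ≤ ∑ i, D i - ∑ i, D i ^ 2

def uu (ε : ℝ) : ℝ := 1 + ε / 16
def gg (ε q : ℝ) : ℝ := 1 - ε ^ 2 * q
def GG (D : V n) (a : ℝ) : ℝ := (∑ i, Real.log (1 + a * D i)) / 2

/-- **upper bound** of the quartic integral on the invariant event -/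
def UpStmt : Prop := ∃ C : ℕ, ∀ (n : ℕ) (ε q E : ℝ) (P S B : Mx n) (ν : Measure (Mx n))
    (Φ : Mx n → Mx n) (D : V n),
  Par n ε q → 0 ≤ E → QD P S ν Φ (gg ε q) E → Dv ε q D → Bᵀ = B →
  P * B * P = P * diagonal D * P →
  Le ((ε * q ^ 2) • (1 - P)) (B + S + (uu ε)⁻¹ • P) →
  ∫⁻ W, II (1 / Real.sqrt n) (B + (2 - uu ε) • (1 : Mx n) - Φ W) ∂ν ≤ ν univ *
    ex (C * Real.log n + E / 2 + n * (uu ε ^ 2 / 4 - 1 / 4) - GG D 1 - ε ^ 2 * q ^ 2 * n / 256)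

def UpGlue : Prop := QsStmt → UpStmt

/-- **lower bound** of the quartic integral when `2 + B - W` is not nonnegative -/
def LoStmt : Prop := ∃ C : ℕ, ∀ (n : ℕ) (ε q y : ℝ) (P B : Mx n) (D : V n),
  Par n ε q → 0 ≤ y → y ≤ n → IsProj P → (n : ℝ) - 3 ≤ P.trace → Dv ε q D → Bᵀ = B →
  P * B * P = P * diagonal D * P → Le ((-2 : ℝ) • (1 : Mx n)) B → Le B ((4 : ℝ) • (1 : Mx n)) →
  ∃ G : Set (Mx n), GOE n Gᶜ ≤ ex (C * Real.log n - y) ∧ ∀ W' ∈ G, ∀ W : Mx n,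
    P * W * P = P * W' * P → (∃ a, Dg W a ∧ ∀ i, -4 ≤ a i ∧ a i ≤ 3) →
    ¬ Le W (B + (2 : ℝ) • (1 : Mx n)) →
    ex (n * (uu ε ^ 2 / 4 - 1 / 4) - GG D 1 - 200 * q ^ 3 * n - y / 4 - C * Real.log n) ≤
      II (1 / Real.sqrt n) (B + (2 - uu ε) • (1 : Mx n) - W)

/-- projector on the complement of the unit vector `e` -/
def R1 (e : V n) : Mx n := 1 - vecMulVec e e
def P2 (e c : V n) : Mx n := nextR (R1 e) c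
def P3 (e c τ : V n) : Mx n := nextR (P2 e c) τ
def bv (e c : V n) : V n := R1 e *ᵥ c
/-- the planted matrix given its column `W e = c` -/
def Wm (e c τ : V n) (W : Mx n) : Mx n :=
  glue (rk2 c e) (R1 e) (W + (1 / (n : ℝ)) • vecMulVec τ τ)
def Sg (z : ℝ) (e c : V n) : Mx n := (z - e ⬝ᵥ c)⁻¹ • vecMulVec (z • e - c) (z • e - c)
def Tm (ε q : ℝ) (τ : V n) : Mx n := (q ^ 2 / ε / (τ ⬝ᵥ τ)) • vecMulVec τ τ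
def Mm (D : V n) (β : ℝ) (e : V n) : Mx n :=
  diagonal D - β • vecMulVec e e + (2 : ℝ) • (1 : Mx n)

/-- an invariant event of rigid spectra -/
structure WS (ε q E Cw : ℝ) (S : Set (Mx n)) : Prop where
  meas : MeasurableSet S
  inv : ∀ O W : Mx n, O * Oᵀ = 1 → W ∈ S → O * W * Oᵀ ∈ S
  sp : ∀ W ∈ S, ∃ a, Dg W a ∧ (∀ i, -4 ≤ a i ∧ a i ≤ 2 + ε ^ 4 * q ^ 2 / 2) ∧
    (∀ g ∈ Icc (1 / 64 : ℝ) (gg ε q), n * ell g - E ≤ ∑ i, Real.log (zz g - a i)) ∧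
    ∑ i, ((zz (gg ε q) - a i) ^ 2)⁻¹ ≤ Cw * n / (ε ^ 2 * q)

/-- the statistics used by the tilt bound -/
structure FS (ε q : ℝ) (e c τ : V n) : Prop where
  unit : e ⬝ᵥ e = 1
  orth : e ⬝ᵥ τ = 0
  t1 : (n : ℝ) / 2 ≤ τ ⬝ᵥ τ
  t2 : τ ⬝ᵥ τ ≤ n
  pos : 0 < zz (gg ε q) - e ⬝ᵥ c
  w1 : (unitv (bv e c) ⬝ᵥ τ) ^ 2 ≤ n / 4
  w2 : (unitv (bv e c) ⬝ᵥ τ) ^ 2 * (zz (gg ε (2 * q)) -
    bv e c ⬝ᵥ bv e c / (zz (gg ε q) - e ⬝ᵥ c) - (τ ⬝ᵥ τ - (unitv (bv e c) ⬝ᵥ τ) ^ 2) / n) ≤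
      ε ^ 9 * q ^ 2 * n / 64

/-- **tilt bound**: the planted direction does not sit in the soft modes -/
def TiStmt : Prop := ∃ C : ℕ, ∀ (n : ℕ) (ε q E Cw : ℝ) (e c τ : V n) (S : Set (Mx n)),
  Par n ε q → 0 ≤ Cw → 1100 * (1 + Cw) * q ≤ ε ^ 3 → WS ε q E Cw S → FS ε q e c τ →
  GOE n {W | Wm e c τ W ∈ S ∧ ¬ Le (Wm e c τ W + Tm ε q τ) (zz (gg ε q) • (1 : Mx n))} ≤
    ex (C * Real.log n + E / 2 - ε ^ 9 * q ^ 2 * n / 64)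

def TiGlue : Prop := QsStmt → TiStmt

/-- the scalar statistics of `(x, s, W p)` -/
structure St (C δ q : ℝ) (D : V n) (β : ℝ) (e c τ : V n) : Prop where
  unit : e ⬝ᵥ e = 1
  orth : e ⬝ᵥ τ = 0
  t1 : (1 - δ) * n ≤ τ ⬝ᵥ τ
  t2 : τ ⬝ᵥ τ ≤ n
  b0 : 0 ≤ β
  b1 : β ≤ 1
  s1 : q / C ≤ 2 - e ⬝ᵥ c
  s2 : 2 - e ⬝ᵥ c ≤ C * q
  s3 : |bv e c ⬝ᵥ bv e c - (2 - e ⬝ᵥ c)| ≤ δ * (2 - e ⬝ᵥ c)
  e1 : 2 * q ^ 2 ≤ e ⬝ᵥ diagonal D *ᵥ e - β + 2 * (e ⬝ᵥ diagonal D *ᵥ bv e c) -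
    bv e (diagonal D *ᵥ e) ⬝ᵥ bv e (diagonal D *ᵥ e)
  e2 : bv e (diagonal D *ᵥ e) ⬝ᵥ bv e (diagonal D *ᵥ e) ≤ C * q ^ 2
  e3 : |e ⬝ᵥ diagonal D *ᵥ bv e c| ≤ C * q ^ 2
  v1 : -(δ * q ^ 2) ≤ bv e c ⬝ᵥ diagonal D *ᵥ bv e c
  v2 : (diagonal D *ᵥ bv e c) ⬝ᵥ (diagonal D *ᵥ bv e c) ≤ δ * q ^ 2
  u1 : (diagonal D *ᵥ τ) ⬝ᵥ (diagonal D *ᵥ τ) ≤ C * q ^ 2 * n
  u2 : -(C * q ^ 2 * n) ≤ τ ⬝ᵥ diagonal D *ᵥ τ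
  u3 : (e ⬝ᵥ diagonal D *ᵥ τ) ^ 2 ≤ C * q ^ 4 * n
  u4 : (bv e c ⬝ᵥ diagonal D *ᵥ τ) ^ 2 ≤ C * q ^ 4 * n
  u5 : (bv e c ⬝ᵥ τ) ^ 2 ≤ C * q ^ 3 * n

/-- **the 3 x 3 criterion** -/
def NumStmt : Prop := ∀ C ≥ (1 : ℝ), ∃ ε0 > (0 : ℝ), ∀ ε ∈ Ioc 0 ε0, ∃ δ > (0 : ℝ), ∃ q1 > (0 : ℝ),
  ∀ (n : ℕ) (q β : ℝ) (D e c τ : V n), 0 < n → q ∈ Ioc 0 q1 → (∀ i, -(3 * q) ≤ D i) →
  St C δ q D β e c τ → FS ε q e c τ ∧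
    Le ((ε * q ^ 2) • (1 - P3 e c τ)) (diagonal D - β • vecMulVec e e +
      (Sg (zz (gg ε q)) e c + Tm ε q τ) + (uu ε)⁻¹ • P3 e c τ)

/-- **(3q), conditional form** -/
def CoreStmt : Prop := ∀ C ≥ (1 : ℝ), ∀ Cw ≥ (0 : ℝ), ∃ ε0 > (0 : ℝ), ∀ ε ∈ Ioc 0 ε0,
  ∃ δ > (0 : ℝ), ∃ q1 > (0 : ℝ), ∃ K : ℕ, ∀ (n : ℕ) (q E β : ℝ) (D e c τ : V n) (S : Set (Mx n)),
  8 ≤ n → q ∈ Ioc 0 q1 → 1 ≤ n * ε * q → 0 ≤ E → WS ε q E Cw S → Dv ε q D → St C δ q D β e c τ →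
  GOE n {W | Wm e c τ W ∈ S ∧ ¬ Le (Wm e c τ W) (Mm D β e)} ≤
    ex (K * Real.log n + E / 2 - ε ^ 9 * q ^ 2 * n / 64)

def CoreGlue : Prop := UpStmt → LoStmt → TiStmt → NumStmt → CoreStmt

/-- **(3q), planted form** -/
def PtStmt : Prop := ∀ C ≥ (1 : ℝ), ∀ Cw ≥ (0 : ℝ), ∃ ε0 > (0 : ℝ), ∀ ε ∈ Ioc 0 ε0,
  ∃ δ > (0 : ℝ), ∃ q1 > (0 : ℝ), ∃ K : ℕ, ∀ (n : ℕ) (q E β : ℝ) (D p s : V n) (S : Set (Mx n))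
    (F : V n → ℝ≥0∞),
  8 ≤ n → q ∈ Ioc 0 q1 → 1 ≤ n * ε * q → 0 ≤ E → WS ε q E Cw S → Dv ε q D → p ≠ 0 → Measurable F →
  (∀ b, F b ≠ 0 → St C δ q D β (unitv p) ((len p)⁻¹ • b) (bv (unitv p) s)) →
  ∫⁻ W in {W | W ∈ S ∧ ¬ Le W (Mm D β (unitv p))}, ex (s ⬝ᵥ W *ᵥ s / 2) * F (W *ᵥ p) ∂GOE n ≤
    ex (K * Real.log n + E / 2 - ε ^ 9 * q ^ 2 * n / 64) *
      ∫⁻ W, ex (s ⬝ᵥ W *ᵥ s / 2) * F (W *ᵥ p) ∂GOE n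

def PtGlue : Prop := CoreStmt → PtStmt

theorem pt_of (h1 : QsStmt) (h2 : UpGlue) (h3 : LoStmt) (h4 : TiGlue) (h5 : NumStmt)
    (h6 : CoreGlue) (h7 : PtGlue) : PtStmt := h7 (h6 (h2 h1) h3 (h4 h1) h5)

end Crest.Agent.T157.Qe

end
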