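import Crest.Agent.T157.CwSchB_72
import Crest.Agent.T157.CwDef_8

/-!
# Row 157, coin windows: `Cw.SchStmt` (helper72)
-/

set_option autoImplicit false

noncomputable section

namespace Crest.Agent.T157.Cw

open Matrix Finset Metric Crest.Agent.T157.CwSch
open Crest.Agent.T157.Qe (V Mx Le)

namespace Sch72

variable {n : ℕ}

lemma pow_conj {O : Mx n} (h : Oᵀ * O = 1) (N : Mx n) (j : ℕ) :
    (O * N * Oᵀ) ^ (j + 1) = O * N ^ (j + 1) * Oᵀ := by
  induction j with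
  | zero => simp
  | succ j ih =>
    rw [pow_succ, ih, pow_succ N (j + 1)]
    simp only [mul_assoc]
    rw [← mul_assoc Oᵀ, h, one_mul]

lemma tr_conj {O : Mx n} (h : Oᵀ * O = 1) (N : Mx n) : (O * N * Oᵀ).trace = N.trace := by
  rw [trace_mul_comm, ← mul_assoc, h, one_mul]

lemma quad (P A : Mx n) (x : V n) : x ⬝ᵥ (P * A * Pᵀ) *ᵥ x = (Pᵀ *ᵥ x) ⬝ᵥ A *ᵥ (Pᵀ *ᵥ x) := by
  rw [← mulVec_mulVec, ← mulVec_mulVec, dotProduct_mulVec, mulVec_transpose]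

end Sch72

open Sch72

theorem schStmt : SchStmt := by
  refine ⟨300, 1 / 25, by norm_num, by norm_num, by norm_num, ?_⟩
  intro n k M A B δ Λ hn hk hδ hM hA hB hlo hhi hA1 hA2 hB0 hB1
  obtain ⟨k, rfl⟩ := Nat.exists_eq_add_of_le' hk
  have hH : M.IsHermitian := by simpa [IsHermitian] using hM
  obtain ⟨O, o1, hMO⟩ := Dq.dg_herm hH
  generalize hH.eigenvalues = μ at hMO
  have o2 : Oᵀ * O = 1 := mul_eq_one_comm.1 o1
  have hD : Oᵀ * M * Oᵀᵀ = diagonal μ := by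
    rw [hMO, transpose_transpose]
    simp only [mul_assoc]
    rw [o2, mul_one, ← mul_assoc, o2, one_mul]
  have hμ : ∀ i, δ ≤ μ i ∧ μ i ≤ Λ := fun i => by
    have e : ∀ c : ℝ, (Oᵀᵀ *ᵥ Pi.single i 1) ⬝ᵥ (c • (1 : Mx n)) *ᵥ (Oᵀᵀ *ᵥ Pi.single i 1) = c :=
      fun c => by rw [← quad, transpose_transpose, mul_smul_comm, mul_one, smul_mul_assoc, o2]; simp
    have e2 : (Oᵀᵀ *ᵥ Pi.single i 1) ⬝ᵥ M *ᵥ (Oᵀᵀ *ᵥ Pi.single i 1) = μ i := by
      rw [← quad, hD]; simp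
    exact ⟨by rw [← e δ, ← e2]; exact hlo _, by rw [← e Λ, ← e2]; exact hhi _⟩
  have μp : ∀ i, 0 < μ i := fun i => hδ.trans_le (hμ i).1
  have μ0 : ∀ i, 0 ≤ μ i := fun i => (μp i).le
  have : Nonempty (Fin n) := ⟨⟨0, hn⟩⟩
  have Λ0 : 0 < Λ := (μp (Classical.arbitrary _)).trans_le (hμ _).2
  set R := O * Sq μ with hR
  set P : Mx n := diagonal (fun i => (√(μ i))⁻¹) * Oᵀ with hP
  have sT : (Sq μ)ᵀ = Sq μ := by simp [Sq]
  have PR : P * R = 1 := by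
    rw [hP, hR, mul_assoc, ← mul_assoc Oᵀ, o2, one_mul, Sq, diagonal_mul_diagonal, ← diagonal_one]
    exact congrArg _ (funext fun i => inv_mul_cancel₀ (Real.sqrt_pos.2 (μp i)).ne')
  have RP : R * P = 1 := mul_eq_one_comm.1 PR
  have PR' : Rᵀ * Pᵀ = 1 := by rw [← transpose_mul, PR, transpose_one]
  have RP' : Pᵀ * Rᵀ = 1 := by rw [← transpose_mul, RP, transpose_one]
  have MR : M = R * Rᵀ := by
    rw [hR, transpose_mul, sT, mul_assoc, ← mul_assoc (Sq μ), Sq_sq μ0, ← mul_assoc, ← hMO]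
  have back : ∀ X : Mx n, X = R * (P * X * Pᵀ) * Rᵀ := fun X => by
    simp only [← mul_assoc]; rw [RP, one_mul, mul_assoc, RP', mul_one]
  have PM : P * M * Pᵀ = 1 := by rw [MR, ← mul_assoc, PR, one_mul, PR']
  have qM : ∀ x : V n, (Pᵀ *ᵥ x) ⬝ᵥ M *ᵥ (Pᵀ *ᵥ x) = x ⬝ᵥ x := fun x => by
    rw [← quad, PM, one_mulVec]
  have sy : ∀ X : Mx n, Xᵀ = X → (P * X * Pᵀ)ᵀ = P * X * Pᵀ := fun X h => by
    rw [transpose_mul (P * X), transpose_mul P X, transpose_transpose, h, mul_assoc P X]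
  have x0 : ∀ x : V n, 0 ≤ x ⬝ᵥ x := fun x => sum_nonneg fun i _ => mul_self_nonneg _
  have hY : Qb (P * A * Pᵀ) 2 := ⟨sy A hA, fun x => by
    have h1 := hA1 (Pᵀ *ᵥ x)
    have h2 := hA2 (Pᵀ *ᵥ x)
    rw [smul_mulVec, dotProduct_smul, qM, smul_eq_mul] at h1 h2
    rw [quad, abs_le]; constructor <;> linarith⟩
  have hB' : ∀ x : V n, 0 ≤ x ⬝ᵥ (P * B * Pᵀ) *ᵥ x ∧ x ⬝ᵥ (P * B * Pᵀ) *ᵥ x ≤ x ⬝ᵥ x := fun x => by
    have h1 := hB0 (Pᵀ *ᵥ x)
    have h2 := hB1 (Pᵀ *ᵥ x)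
    rw [qM] at h2
    rw [zero_mulVec, dotProduct_zero] at h1
    rw [quad]; exact ⟨h1, h2⟩
  have eA := back A
  have eB := back B
  have sB := sy B hB
  generalize P * A * Pᵀ = Y at hY eA
  generalize P * B * Pᵀ = E at hB' eB sB
  have hE : Qb E 1 := ⟨sB, fun x => by rw [abs_of_nonneg (hB' x).1, one_mul]; exact (hB' x).2⟩
  have sqs : ∀ (X : Mx n) (c : ℝ) i, ∑ j, (X - c • (1 : Mx n)) i j ^ 2 =
      ∑ j, X i j ^ 2 - 2 * c * X i i + c ^ 2 := fun X c i => by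
    have : ∀ j, (X - c • (1 : Mx n)) i j ^ 2 =
        X i j ^ 2 + if i = j then c ^ 2 - 2 * c * X i i else 0 := fun j => by
      rw [Matrix.sub_apply, Matrix.smul_apply, one_apply]
      split_ifs with h
      · subst h; simp; ring
      · simp
    simp only [this, sum_add_distrib, sum_ite_eq, mem_univ, if_true]; ring
  have hE2 : ∀ i, ∑ j, E i j ^ 2 ≤ E i i := fun i => by
    have h : Qb (E - (1 / 2 : ℝ) • (1 : Mx n)) (1 / 2) := ⟨by simp [sB], fun x => by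
      rw [sub_mulVec, smul_mulVec, one_mulVec, dotProduct_sub, dotProduct_smul, smul_eq_mul, abs_le]
      constructor <;> linarith [(hB' x).1, (hB' x).2]⟩
    have := h.row (by norm_num) i
    rw [sqs] at this
    linarith
  have cj : ∀ X : Mx n, R * X * Rᵀ = O * (Sq μ * X * Sq μ) * Oᵀ := fun X => by
    rw [hR, transpose_mul, sT]; simp only [mul_assoc]
  set T := ∑ i, μ i ^ (k + 2) with hT
  have T0 : 0 < T := sum_pos (fun i _ => pow_pos (μp i) _) univ_nonempty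
  have trM : (M ^ (k + 2)).trace = T := by
    rw [hMO, pow_conj o2, tr_conj o2, diagonal_pow, trace_diagonal]; rfl
  have avX : ∀ X : Mx n, av (k + 2) M (R * X * Rᵀ) * T = ∑ i, μ i ^ (k + 2) * X i i := fun X => by
    rw [av, trM, div_mul_cancel₀ _ T0.ne', cj, show k + 2 - 1 = k + 1 from rfl]
    conv_lhs => rw [hMO]
    rw [pow_conj o2, show O * diagonal μ ^ (k + 1) * Oᵀ * (O * (Sq μ * X * Sq μ) * Oᵀ) =
      O * (diagonal μ ^ (k + 1) * (Sq μ * X * Sq μ)) * Oᵀ by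
        simp only [mul_assoc]; rw [← mul_assoc Oᵀ, o2, one_mul], tr_conj o2, diagonal_pow, trace]
    refine sum_congr rfl fun i _ => ?_
    rw [diag_apply, diagonal_mul, sandr, Real.mul_self_sqrt (μ0 i), Pi.pow_apply]; ring
  have Mi : M⁻¹ = Pᵀ * P := inv_eq_right_inv (by
    rw [MR, mul_assoc, ← mul_assoc Rᵀ, PR', one_mul, RP])
  have eAA : A * M⁻¹ * A = R * (Y * Y) * Rᵀ := by
    rw [eA, Mi]
    simp only [mul_assoc]
    rw [← mul_assoc Rᵀ, PR', one_mul, ← mul_assoc P, PR, one_mul]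
  have ha := avX Y
  have hb := avX E
  have hm := avX (Y * Y)
  rw [← eA] at ha
  rw [← eB] at hb
  rw [← eAA] at hm
  have YY : ∀ i, (Y * Y) i i = ∑ j, Y i j ^ 2 := fun i => by
    rw [mul_apply]
    exact sum_congr rfl fun j _ => by rw [sq, ← transpose_apply Y i j, hY.1]
  simp only [YY] at hm
  have eS : sch (k + 2) M = T ^ ((k : ℝ) + 2)⁻¹ := by rw [sch, trM]; push_cast; rfl
  have eU : ∀ u : ℝ, sch (k + 2) (M + u • A - u ^ 2 • B) =
      ((Sq μ * (1 + u • Y - u ^ 2 • E) * Sq μ) ^ (k + 2)).trace ^ ((k : ℝ) + 2)⁻¹ := fun u => by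
    have : M + u • A - u ^ 2 • B = R * (1 + u • Y - u ^ 2 • E) * Rᵀ := by
      rw [mul_sub, mul_add, sub_mul, add_mul, mul_one, mul_smul_comm, mul_smul_comm, smul_mul_assoc,
        smul_mul_assoc, ← eA, ← eB, ← MR]
    rw [sch, this, cj, pow_conj o2, tr_conj o2]; push_cast; rfl
  generalize av (k + 2) M A = a at *
  generalize av (k + 2) M B = b at *
  generalize av (k + 2) M (A * M⁻¹ * A) = m at *
  have wt : ∀ (f : Fin n → ℝ) (x c : ℝ), x * T = ∑ i, μ i ^ (k + 2) * f i →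
      ((∀ i, f i ≤ c) → x ≤ c) ∧ ((∀ i, c ≤ f i) → c ≤ x) := fun f x c h =>
    ⟨fun hf => le_of_mul_le_mul_right (by
      rw [h, hT, mul_sum]
      exact sum_le_sum fun i _ => by nlinarith [hf i, pow_pos (μp i) (k + 2)]) T0,
    fun hf => le_of_mul_le_mul_right (by
      rw [h, hT, mul_sum]
      exact sum_le_sum fun i _ => by nlinarith [hf i, pow_pos (μp i) (k + 2)]) T0⟩
  have a2 : |a| ≤ 2 := abs_le.2 ⟨(wt _ _ _ ha).2 fun i => (abs_le.1 (hY.diag i)).1,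
    (wt _ _ _ ha).1 fun i => (abs_le.1 (hY.diag i)).2⟩
  have b0 : 0 ≤ b := (wt _ _ _ hb).2 fun i => le_trans (by positivity) (hE2 i)
  have b1 : b ≤ 1 := (wt _ _ _ hb).1 fun i => (abs_le.1 (hE.diag i)).2
  have m4 : m ≤ 2 ^ 2 := (wt _ _ _ hm).1 fun i => hY.row two_pos i
  have hv : (m - a ^ 2) * T = ∑ i, μ i ^ (k + 2) * ∑ j, (Y - a • (1 : Mx n)) i j ^ 2 := by
    simp only [sqs, mul_add, mul_sub, sum_add_distrib, sum_sub_distrib, mul_left_comm _ (2 * a)]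
    rw [← mul_sum, ← sum_mul, ← hm, ← ha, ← hT]; ring
  have v0 : 0 ≤ m - a ^ 2 := (wt _ _ _ hv).2 fun i => by positivity
  obtain ⟨q, G, h1, h2, h3, h4, h5⟩ := core μ0 k hY hE hE2 a2 hT T0 ha hb hv v0 b0
    (by nlinarith [sq_nonneg a]) (ρ := δ / Λ) (fun i j => by
      rw [div_mul_eq_mul_div, div_le_iff₀ Λ0]
      exact mul_le_mul (hμ j).1 (hμ i).2 (μ0 i) (μ0 j)) (by positivity)
  push_cast
  refine ⟨m - a ^ 2, q, G, a2, v0, by linarith, by ring, b0, b1, ⟨h1, h2⟩, h3, le_trans ?_ h4,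
    fun u hu => by rw [eU, eS, h5 u hu]⟩
  have : δ / (4 * Λ) ≤ δ / Λ / 2 := by
    rw [div_div]; exact div_le_div_of_nonneg_left hδ.le (by positivity) (by linarith)
  nlinarith

theorem schGlue : SchGlue := fun _ => schStmt

end Crest.Agent.T157.Cw

end
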