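import Crest.Agent.T157.CwDef_8

/-!
# Row 157, part C (helper54): the covariance under the tilt by a sign function (`Cw.TiltStmt`)
-/

set_option autoImplicit false

noncomputable section

namespace Crest.Agent.T157.Cw

open Matrix Function
open Crest.ProbabilityR.SpinGlassDynamics
open Crest.Agent.T157.E Crest.Agent.T157.Un Crest.Agent.T157.Crit Crest.Agent.T157.SL
open Crest.Agent.T157.Qe (V Mx Le)

namespace Tilt54

variable {n : ℕ} {w τ : Cube n → ℝ}

lemma mean_rw (hw : Wt w) (hτ : Sgn τ) (x : ℝ) (g : Cube n → ℝ) : mean (rw w τ x) g =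
    mean w g + Real.tanh x / (1 + mean w τ * Real.tanh x) * cov w g τ := by
  have hc := (Real.cosh_pos x).ne'
  have e : ∀ σ, Real.exp (x * τ σ) = Real.cosh x * (1 + Real.tanh x * τ σ) := fun σ => by
    rw [Real.tanh_eq_sinh_div_cosh]
    rcases hτ σ with h | h <;> rw [h] <;> field_simp
    · simp
    · rw [← sub_eq_add_neg, Real.cosh_sub_sinh]
  have h1 : |mean w τ * Real.tanh x| < 1 := by
    rw [abs_mul]
    exact mul_lt_one_of_nonneg_of_lt_one_right (hw.abs_mean_le fun σ => (hτ.abs σ).le)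
      (abs_nonneg _) (Real.abs_tanh_lt_one x)
  have h2 : 1 + mean w τ * Real.tanh x ≠ 0 := by linarith [(abs_lt.1 h1).1]
  have h3 : ∀ σ, Real.cosh x * (1 + Real.tanh x * τ σ) * g σ =
      Real.cosh x * (g σ + Real.tanh x * (g σ * τ σ)) := fun σ => by ring
  rw [show rw w τ x = fun σ => w σ * Real.exp (x * τ σ) from rfl, mean_mul_weight _ _ _ hw.pos.ne',
    hw.cov_eq]
  simp only [e, h3, mean_const_mul, mean_add, hw.mean_const]
  rw [mul_comm (Real.tanh x) (mean w τ), mul_div_mul_left _ _ hc, div_mul_eq_mul_div,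
    add_div' _ _ _ h2]
  congr 1
  ring

lemma quad (w c : Cube n → ℝ) (a : Cube n → V n) (u : V n) :
    u ⬝ᵥ (fun i j => mean w fun x => a x i * a x j * c x : Mx n) *ᵥ u =
      mean w fun x => (u ⬝ᵥ a x) ^ 2 * c x := by
  simp only [dotProduct, mulVec, ← mean_mul_const, ← mean_const_mul, ← mean_sum]
  congr 1
  funext x
  simp only [sq, Finset.sum_mul, Finset.mul_sum]
  exact Finset.sum_congr rfl fun i _ => Finset.sum_congr rfl fun j _ => by ring

lemma cov_quad (w : Cube n → ℝ) (u : V n) :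
    u ⬝ᵥ covM w *ᵥ u = mean w fun x => (u ⬝ᵥ (sv x - mag w)) ^ 2 := by
  simp only [covM, covMat_quad, cov_eq_mean, dotProduct_sub, mag, meanV_dot, sq]

lemma vmv_quad (c u : V n) : u ⬝ᵥ vecMulVec c c *ᵥ u = (u ⬝ᵥ c) ^ 2 := by
  rw [vecMulVec_mulVec, dotProduct_smul, dotProduct_comm c u, sq]; simp

lemma var_le (hw : Wt w) (f : Cube n → ℝ) (c : ℝ) : var w f ≤ mean w fun x => (f x - c) ^ 2 := by
  have e : ∀ x, (f x - c) ^ 2 = f x * f x - 2 * c * f x + c ^ 2 := fun x => by ring
  simp only [var_eq_cov, hw.cov_eq, e, mean_add, mean_sub, mean_const_mul, hw.mean_const]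
  nlinarith [sq_nonneg (mean w f - c)]

/-- variance of a quadratic form -/
lemma var_quad (hw : Wt w) {K : ℝ} (hK : CovLe w K) {A : Mx n} (hA : Aᵀ = A) :
    var w (fun x => sv x ⬝ᵥ A *ᵥ sv x) ≤ 4 * n * (K * ∑ i, A i ⬝ᵥ A i) := by
  refine (var_le hw _ (mag w ⬝ᵥ A *ᵥ mag w)).trans ?_
  have h1 : ∀ x, (sv x ⬝ᵥ A *ᵥ sv x - mag w ⬝ᵥ A *ᵥ mag w) ^ 2 ≤
      4 * n * ∑ i, (A i ⬝ᵥ (sv x - mag w)) ^ 2 := fun x => by
    have e : sv x ⬝ᵥ A *ᵥ sv x - mag w ⬝ᵥ A *ᵥ mag w = (sv x + mag w) ⬝ᵥ A *ᵥ (sv x - mag w) := by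
      have : mag w ⬝ᵥ A *ᵥ sv x = sv x ⬝ᵥ A *ᵥ mag w := by
        rw [dotProduct_mulVec, ← mulVec_transpose, hA, dotProduct_comm]
      rw [mulVec_sub, dotProduct_sub, add_dotProduct, add_dotProduct, this]; ring
    rw [e]
    refine (Eig.dot_sq_le _ _).trans (mul_le_mul ?_ (le_of_eq ?_)
      (Finset.sum_nonneg fun _ _ => mul_self_nonneg _) (by positivity))
    · refine (Finset.sum_le_card_nsmul _ _ 4 fun i _ => ?_).trans (by simp [mul_comm])
      have h2 : ∀ y : Cube n, |sv y i| ≤ 1 := fun y => by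
        unfold sv; cases y i <;> simp [spin]
      have h3 := abs_le.1 (h2 x)
      have h4 : -1 ≤ mag w i ∧ mag w i ≤ 1 := abs_le.1 (hw.abs_mean_le h2)
      simp only [Pi.add_apply]
      nlinarith
    · simp only [sq]; rfl
  refine (hw.mean_mono h1).trans ?_
  rw [mean_const_mul, mean_sum, Finset.mul_sum _ _ K]
  refine mul_le_mul_of_nonneg_left (Finset.sum_le_sum fun i _ => ?_) (by positivity)
  rw [← cov_quad]
  exact hK _

end Tilt54

open Tilt54

theorem tiltStmt : TiltStmt := by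
  refine ⟨fun n w τ x h hτ => ?_, fun n w τ h hτ => ?_, fun n g dd y e x => ?_,
    fun n w K h hK v => ?_⟩
  · have hw := Wt.of_pos h
    ext i j
    have h1 : K3 w τ i j = cum3 w (fun x => sv x i) (fun x => sv x j) τ := rfl
    simp only [Matrix.sub_apply, Matrix.add_apply, Matrix.smul_apply, smul_eq_mul, vecMulVec_apply,
      h1, hw.cum3_eq, covM, covMat, covV, (Wt.of_pos (rw_pos h x)).cov_eq, mean_rw hw hτ,
      cov_comm w τ]
    rw [hw.cov_eq (fun x => sv x i) fun x => sv x j]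
    ring
  · have hw := Wt.of_pos h
    have h1 := hw.abs_mean_le fun σ => (hτ.abs σ).le
    have h2 : ∀ σ, -2 ≤ τ σ - mean w τ ∧ τ σ - mean w τ ≤ 2 := fun σ => by
      have := abs_le.1 h1
      have := abs_le.1 (hτ.abs σ).le
      constructor <;> linarith
    have h3 : ∀ u : V n, u ⬝ᵥ K3 w τ *ᵥ u =
        mean w fun x => (u ⬝ᵥ (sv x - mag w)) ^ 2 * (τ x - mean w τ) := fun u =>
      quad w (fun x => τ x - mean w τ) (fun x => sv x - mag w) u
    refine ⟨h1, covMat_transpose _ _, ?_, fun u => ?_, fun u => ?_, fun u => ?_, fun u => ?_⟩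
    · ext i j
      simp only [transpose_apply, K3, mul_comm (sv _ i - mag w i)]
    · simpa [covM] using hw.covMat_quad_nonneg sv u
    · rw [h3, smul_mulVec, dotProduct_smul, cov_quad, smul_eq_mul, ← mean_const_mul]
      exact hw.mean_mono fun x => by nlinarith [(h2 x).1, sq_nonneg (u ⬝ᵥ (sv x - mag w))]
    · rw [h3, smul_mulVec, dotProduct_smul, cov_quad, smul_eq_mul, ← mean_const_mul]
      exact hw.mean_mono fun x => by nlinarith [(h2 x).2, sq_nonneg (u ⬝ᵥ (sv x - mag w))]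
    · rw [vmv_quad]
      refine (hw.dot_covV_sq_le τ sv u).trans (mul_le_of_le_one_left (hw.covMat_quad_nonneg sv u)
        ((var_le hw τ 0).trans (hw.mean_le fun x => ?_)))
      rw [sub_zero, ← sq_abs, hτ.abs, one_pow]
  · funext σ
    have : ∀ p : Pair n, update g e x p / √n * sv σ p.1.1 * sv σ p.1.2 =
        g p / √n * sv σ p.1.1 * sv σ p.1.2 + if p = e then (x - g e) / √n * chi e σ else 0 := by
      intro p
      rcases eq_or_ne p e with rfl | hp
      · simp only [update_self, if_true, chi, sv]; ring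
      · simp [hp]
    simp only [Un.rw, ising, Wmat, add_mulVec, dotProduct_add, dot_Jmat, this, ← Real.exp_add,
      Finset.sum_add_distrib, Finset.sum_ite_eq', Finset.mem_univ, if_true]
    congr 1
    ring
  · have hw := Wt.of_pos h
    rcases Nat.eq_zero_or_pos n with rfl | hn
    · simp [dotProduct]
    have hr : (0 : ℝ) < √n := Real.sqrt_pos.2 (by exact_mod_cast hn)
    have hr2 : √(n : ℝ) ^ 2 = n := Real.sq_sqrt (Nat.cast_nonneg n)
    set U : Pair n → ℝ := fun e => v ⬝ᵥ covV w (chi e) sv with hU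
    have h0 := hw.covMat_quad_nonneg sv v
    rw [sum_mulVec, dotProduct_sum, smul_mulVec, dotProduct_smul, smul_eq_mul]
    simp only [vmv_quad]
    change ∑ e, U e ^ 2 ≤ _
    set S := ∑ e, U e ^ 2 with hS
    have h1 : ∑ i, Jmat n U i ⬝ᵥ Jmat n U i = 2 * S / √n ^ 2 := by
      simp only [dotProduct]
      rw [sum_sum_eq_two_mul_pair (fun i j => Jmat n U i j * Jmat n U i j)
        (fun i j => by rw [Jmat_symm]) fun i => by simp [Jmat_diag], mul_div_assoc, hS,
        Finset.sum_div]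
      congr 1
      exact Finset.sum_congr rfl fun p _ => by rw [Jmat_apply_lt U p.2]; ring
    have h2 : v ⬝ᵥ covV w (fun x => sv x ⬝ᵥ Jmat n U *ᵥ sv x) sv = 2 * S / √n := by
      rw [covV_dot, cov_comm, mul_div_assoc, hS, Finset.sum_div]
      simp only [dot_Jmat, cov_const_mul, cov_sum, mul_assoc]
      congr 1
      refine Finset.sum_congr rfl fun p _ => ?_
      rw [cov_comm, ← covV_dot, sq, div_mul_eq_mul_div]
      rfl
    have h3 := (hw.dot_covV_sq_le _ sv v).trans
      (mul_le_mul_of_nonneg_right (var_quad hw hK (Jmat_transpose U)) h0)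
    rw [h1, h2, ← hr2] at h3
    change _ ≤ _ * (v ⬝ᵥ covM w *ᵥ v) at h3
    change 0 ≤ v ⬝ᵥ covM w *ᵥ v at h0
    have hS1 : 0 ≤ S := Finset.sum_nonneg fun e _ => sq_nonneg (U e)
    rcases hS1.eq_or_lt with hS0 | hS0
    · rw [← hS0, mul_assoc]
      refine mul_nonneg (by positivity) ?_
      rcases le_total 0 K with hK0 | hK0
      · exact mul_nonneg hK0 h0
      · rw [le_antisymm ((hK v).trans (mul_nonpos_of_nonpos_of_nonneg hK0
          (Finset.sum_nonneg fun _ _ => mul_self_nonneg _))) h0, mul_zero]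
    · rw [← hr2]
      simp only [Real.sqrt_sq hr.le] at h3 ⊢
      field_simp at h3
      nlinarith

end Crest.Agent.T157.Cw

end
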