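import Crest.Agent.T157.CwEng_63
import Crest.Agent.T157.CwAlg_66
import Crest.Agent.T157.CwJet_90
import Crest.Agent.T157.CwLm_80
import Crest.Agent.T157.CwSch_72
import Crest.Agent.T157.CwTilt_54
import Crest.Agent.T157.CwLtA_15

/-!
# Row 157, coin windows: the comparison engine, unconditional (helper15)
-/

namespace Crest.Agent.T157.Cw

theorem jetStmt : JetStmt := jetGlue schStmt tiltStmt

theorem lmStmt : LmStmt := lmGlue tiltStmt

theorem engStmt : EngStmt := eng63 tiltStmt jetStmt lmStmt algStmt ltStmt

end Crest.Agent.T157.Cw
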