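import Crest.Agent.T157.O0S_5

/-!
# Row 157, block A2 (helper5): covariance bound at constant times, no spectral event
-/

set_option autoImplicit false

namespace Crest.Agent.T157.O0.S5

open MeasureTheory Matrix Filter Topology Set
open Crest.Agent.T157.E Crest.Agent.T157.SL Crest.Agent.T157.Ks Crest.Agent.T157.Eig
open Crest.Agent.T157.Tap Crest.Agent.T157.Tap.Cov15 Crest.Agent.T157.Ks.St0

/-- **J4** with a ball of fields -/
theorem jw4' {s : ℝ} (hs : 0 < s) (T : ℝ) : ∃ K : ℝ, ∃ ρ > (0 : ℝ), ∃ e0 > (0 : ℝ),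
    Lu (Icc s T) e0 fun _ n z => CovOK (ising z.1 0) K (ρ * √n) z.2 := by
  obtain ⟨T0, γ, -, h⟩ := startStmt
  obtain ⟨κ0, hκ, c1, -, r1, -, K1, M1, h⟩ := h (max (max T0 T) s) (le_max_of_le_left (le_max_left _ _))
    s ⟨hs, le_max_right _ _⟩
  obtain ⟨K, M, ρ, ρ0, H⟩ := h (fun _ _ => False) (fun _ => .const _) κ0 ⟨hκ, le_rfl⟩ s ⟨hs, le_rfl⟩
    1 one_pos 1 one_pos fun _ _ => .of_forall fun n => by simp
  refine ⟨K1, ρ, ρ0, κ0 / 10, by positivity, (lu_of (I := Icc s T) (WW := fun _ _ => True)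
    (fun _ => .univ) (fun n => meas_cov K1 (ρ * √n)) ((H.le (show κ0 / 8 ≤ κ0 / 4 by linarith)).imp
      fun n W hW _ u hu => (hW.2.1 u ⟨hu.1, ?_⟩).1) (by linarith)).imp subset_rfl le_rfl
        fun _ _ _ _ h => h trivial⟩
  linarith [hu.2, le_max_right T0 T, le_max_left (max T0 T) s]

/-- **J4**: at all constant times the covariance is bounded, off planted probability `exp (-e0 n)` -/
theorem jw4 {s : ℝ} (hs : 0 < s) (T : ℝ) : ∃ K : ℝ, ∃ e0 > (0 : ℝ), ∀ᶠ n : ℕ in atTop, ∀ t ∈ Icc s T,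
    JP t n {z | ¬ CB (ising z.1 z.2) sv K} ≤ ENNReal.ofReal (Real.exp (-(e0 * n))) := by
  obtain ⟨K, ρ, ρ0, e0, h0, h⟩ := jw4' hs T
  exact ⟨K, e0, h0, h.imp subset_rfl le_rfl fun _ _ _ _ h => cb_of h (by positivity)⟩

end Crest.Agent.T157.O0.S5
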