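import Crest.Agent.T157.O7Def_64

/-!
# Row 157, block A2, section 7 (helper22): `W2Glue`
-/

set_option autoImplicit false

noncomputable section

namespace Crest.Agent.T157.O7

open MeasureTheory Filter Set Matrix Real
open Crest.Agent.T157.E Crest.Agent.T157.SL
open Crest.Agent.T157.Tap (Mx V GOE)
open Crest.Agent.T157.Top (Whp)
open Crest.Agent.T157.Crit (CovLe CovAt sH)
open Crest.Agent.T157.Soft (N23)

namespace W22

variable {n : ℕ}

theorem cvb_one (w : Cube n → ℝ) (k : ℝ) : CvB w 1 k ↔ CovLe w k := by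
  simp only [CvB, CovLe, one_mulVec]

theorem Mt_mono {r t : ℝ} (hr : 0 ≤ r) (h : r ≤ t) : Mt n r ≤ Mt n t :=
  mul_le_mul_of_nonneg_left (rpow_le_rpow hr h (by norm_num)) n.cast_nonneg

theorem Mt_sH (hn : (0 : ℝ) < n) {a H : ℝ} (ha : 0 ≤ a) (hH : 0 ≤ H) :
    Mt n (a * sH n H) = a ^ (3 / 2 : ℝ) * H := by
  have h : 0 ≤ H / n := div_nonneg hH hn.le
  rw [Mt, sH, mul_rpow ha (rpow_nonneg h _), ← rpow_mul h]
  norm_num
  field_simp

theorem lo_eq (d : ℝ) : lo d n = (n : ℝ) ^ d * sH n 1 := by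
  rw [lo, sH, div_rpow zero_le_one n.cast_nonneg, one_rpow, mul_one_div]

theorem lo_le (hn : (1 : ℝ) ≤ n) {a δ H : ℝ} (ha : 1 ≤ a * (n : ℝ) ^ (δ / 3))
    (hH : (n : ℝ) ^ δ ≤ H) : lo (δ / 3) n ≤ a * sH n H := by
  have n0 : (0 : ℝ) < n := by linarith
  have p : 0 < (n : ℝ) ^ (δ / 3) := rpow_pos_of_pos n0 _
  have a0 : 0 ≤ a := by by_contra h; nlinarith [not_le.1 h]
  have e : (n : ℝ) ^ (δ / 3) * (n : ℝ) ^ (δ / 3) ≤ H ^ (2 / 3 : ℝ) := by
    refine le_trans (le_of_eq ?_) (rpow_le_rpow (rpow_nonneg n0.le δ) hH (by norm_num))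
    rw [← rpow_add n0, ← rpow_mul n0.le]
    congr 1; ring
  rw [lo, sH, div_rpow ((rpow_nonneg n0.le δ).trans hH) n0.le, ← mul_div_assoc]
  refine div_le_div_of_nonneg_right ?_ (rpow_nonneg n0.le _)
  nlinarith [mul_le_mul_of_nonneg_left e a0]

theorem ev_one {a d : ℝ} (ha : 0 < a) (hd : 0 < d) (b : ℝ) :
    ∀ᶠ n : ℕ in atTop, b ≤ a * (n : ℝ) ^ d :=
  (((tendsto_rpow_atTop hd).comp tendsto_natCast_atTop_atTop).const_mul_atTop ha).eventually_ge_atTop b

theorem core (qu : QuStmt) {d t0 e0 A k : ℝ} (hd : 0 < d) (he : 0 < e0) (hA : 0 < A)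
    (hJ : JB (lo d) t0 (fun n t => min (A * Mt n t) (e0 * n))
      fun _ t W y => CovLe (ising W y) (k / t)) :
    Whp GOE fun n W => ∀ r ∈ Icc (lo d n) t0, ∀ k' Y : ℝ, (1 + 12 / n) * max k 0 ≤ k' →
      Y ≤ A * Mt n r → Y ≤ e0 * n → Y ≤ n →
      CovAt (ising W 0) r (k' / r) (2 * exp (-(Y / 2))) := by
  have h := qu (lo d) t0 (min d (1 / 2)) _ (fun _ t => k / t) (fun _ _ => 1)
    (lt_min hd (by norm_num)) ?_ (by simpa only [cvb_one] using hJ)
  · refine h.mono ?_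
    filter_upwards [eventually_ge_atTop 1] with n hn W h r hr k' Y hk h1 h2 h3
    have n0 : (0 : ℝ) < n := by exact_mod_cast hn
    have r0 : 0 < r := lt_of_lt_of_le (div_pos (rpow_pos_of_pos n0 _) (rpow_pos_of_pos n0 _)) hr.1
    obtain ⟨t, ht, -, h⟩ := h r hr
    have t0 : 0 < t := r0.trans_le ht.1
    have := isProb_law (φ := sv) (s := r) (Wt.of_pos fun _ => exp_pos _ : Wt (ising W 0))
    refine le_trans (measureReal_mono ?_ (measure_ne_top _ _)) (h.trans ?_)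
    · refine fun y hy hc => hy fun u => ?_
      rw [tilt_ising, zero_add]
      refine ((cvb_one _ _).1 hc u).trans (mul_le_mul_of_nonneg_right ?_
        (Finset.sum_nonneg fun i _ => mul_self_nonneg _))
      have m0 : 0 ≤ (1 + 12 / (n : ℝ)) * max k 0 := mul_nonneg (by positivity) (le_max_right _ _)
      calc _ ≤ (1 + 12 / (n : ℝ)) * (max k 0 / t) := by gcongr; exact le_max_left _ _
        _ = (1 + 12 / (n : ℝ)) * max k 0 / t := by ring
        _ ≤ _ := div_le_div₀ (m0.trans hk) hk r0 ht.1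
    · have a1 : Y ≤ min (A * Mt n t) (e0 * n) :=
        le_min (h1.trans (mul_le_mul_of_nonneg_left (Mt_mono r0.le ht.1) hA.le)) h2
      have a2 := exp_le_exp.2 (show -(min (A * Mt n t) (e0 * n) / 2) ≤ -(Y / 2) by linarith)
      have a3 := exp_le_exp.2 (show -((n : ℝ) / 2) ≤ -(Y / 2) by linarith)
      linarith
  · filter_upwards [eventually_ge_atTop 1, ev_one hA (half_pos hd) 1, ev_one he one_half_pos 1]
      with n hn h1 h2
    have n1 : (1 : ℝ) ≤ n := by exact_mod_cast hn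
    have n0 : (0 : ℝ) < n := by linarith
    have l0 : 0 ≤ lo d n := div_nonneg (rpow_nonneg n0.le _) (rpow_nonneg n0.le _)
    refine ⟨l0, fun t ht => le_min ?_ ?_⟩
    · refine le_trans ?_ (mul_le_mul_of_nonneg_left (Mt_mono l0 ht.1) hA.le)
      rw [lo_eq, Mt_sH n0 (rpow_nonneg n0.le _) zero_le_one, mul_one, ← rpow_mul n0.le,
        show d * (3 / 2) = d / 2 + d by ring, rpow_add n0, ← mul_assoc]
      exact (rpow_le_rpow_of_exponent_le n1 (min_le_left _ _)).trans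
        (le_mul_of_one_le_left (rpow_nonneg n0.le _) h1)
    · have e : (n : ℝ) = (n : ℝ) ^ (1 / 2 : ℝ) * (n : ℝ) ^ (1 / 2 : ℝ) := by
        rw [← rpow_add n0]; norm_num
      refine (rpow_le_rpow_of_exponent_le n1 (min_le_right _ _)).trans ?_
      conv_rhs => rw [e, ← mul_assoc]
      exact le_mul_of_one_le_left (rpow_nonneg n0.le _) h2

theorem two_exp {M H : ℝ} (hH : 1 ≤ H) : 2 * exp (-(4 * (|M| + 1) * H / 2)) ≤ exp (-(M * H)) := by
  have h1 : (2 : ℝ) ≤ exp 1 := by linarith [add_one_le_exp 1]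
  refine (mul_le_mul_of_nonneg_right h1 (exp_pos _).le).trans ?_
  rw [← exp_add, exp_le_exp]
  nlinarith [le_abs_self M, abs_nonneg M]

end W22

open W22

theorem w2Glue : W2Glue := by
  intro qu j0 j1 c hc M
  have m0 : 0 < 4 * (|M| + 1) := by positivity
  have c0 : 0 < c ^ (3 / 2 : ℝ) := rpow_pos_of_pos hc _
  obtain ⟨K, j0⟩ := j0 (4 * (|M| + 1) / c ^ (3 / 2 : ℝ))
  refine ⟨2 * max K 0, fun κ hκ δ hδ => ?_⟩
  have d0 : 0 < δ / 3 := by positivity
  have e0 : 0 < (κ - 1) / 2 := by linarith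
  obtain ⟨t1, ht1, e1, he1, j0⟩ := j0 _ d0
  obtain ⟨c2, hc2, t2, ht2, e2, he2, j1⟩ := j1 _ e0 _ d0
  obtain ⟨e, he, a1, a2, a3⟩ : ∃ e, 0 < e ∧ e ≤ e1 ∧ e ≤ e2 ∧ e ≤ 1 :=
    ⟨min e1 (min e2 1), by positivity, min_le_left _ _, (min_le_right _ _).trans (min_le_left _ _),
      (min_le_right _ _).trans (min_le_right _ _)⟩
  refine ⟨min t1 t2, lt_min ht1 ht2, e / (4 * (|M| + 1)), by positivity,
    ((core qu d0 he1 (by positivity) j0).and (core qu d0 he2 hc2 j1)).mono ?_⟩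
  filter_upwards [eventually_ge_atTop 12, ev_one hc d0 1, ev_one hc2 hδ (4 * (|M| + 1)),
    ev_one e0 one_pos (12 * (1 + (κ - 1) / 2))] with n hn h1 h2 h3 W hW H hH1 hH2 r hr
  have n1 : (12 : ℝ) ≤ n := by exact_mod_cast hn
  have n0 : (0 : ℝ) < n := by linarith
  have p1 : ∀ x : ℝ, 0 ≤ x → 1 ≤ (n : ℝ) ^ x := fun x hx => one_le_rpow (by linarith) hx
  have H1 : 1 ≤ H := (p1 δ hδ.le).trans hH1
  have s0 : 0 ≤ sH n H := rpow_nonneg (by positivity) _
  have y : 4 * (|M| + 1) * H ≤ e * n := by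
    rw [div_mul_eq_mul_div, le_div_iff₀ m0] at hH2; linarith
  have y1 := y.trans (mul_le_mul_of_nonneg_right a1 n0.le)
  have y2 := y.trans (mul_le_mul_of_nonneg_right a2 n0.le)
  have y3 : 4 * (|M| + 1) * H ≤ n := by nlinarith
  refine ⟨fun hr1 _ => le_trans (hW.1 r ⟨(lo_le (by linarith) h1 hH1).trans hr1,
    hr.trans (min_le_left _ _)⟩ _ _ ?_ ?_ y1 y3) (two_exp H1),
    fun hr1 => le_trans (hW.2 r ⟨(lo_le (by linarith) (one_le_mul_of_one_le_of_one_le (p1 δ hδ.le)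
      (p1 _ d0.le)) hH1).trans hr1, hr.trans (min_le_right _ _)⟩ _ _ ?_ ?_ y2 y3) (two_exp H1)⟩
  · refine mul_le_mul_of_nonneg_right ?_ (le_max_right _ _)
    have : 12 / (n : ℝ) ≤ 1 := (div_le_one n0).2 n1
    linarith
  · refine le_trans (le_of_eq ?_) (mul_le_mul_of_nonneg_left (Mt_mono (by positivity) hr1)
      (by positivity))
    rw [Mt_sH n0 hc.le (by linarith)]
    field_simp
  · rw [max_eq_left (by linarith)]
    rw [rpow_one] at h3
    have : 12 * (1 + (κ - 1) / 2) / n ≤ (κ - 1) / 2 := (div_le_iff₀ n0).2 h3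
    calc _ = 1 + (κ - 1) / 2 + 12 * (1 + (κ - 1) / 2) / n := by ring
      _ ≤ _ := by linarith
  · refine le_trans ?_ (mul_le_mul_of_nonneg_left (Mt_mono (by positivity) hr1) hc2.le)
    rw [Mt_sH n0 (by positivity) (by linarith), ← mul_assoc]
    refine mul_le_mul_of_nonneg_right (h2.trans (mul_le_mul_of_nonneg_left ?_ hc2.le)) (by linarith)
    exact self_le_rpow_of_one_le (p1 δ hδ.le) (by norm_num)

end Crest.Agent.T157.O7

end
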