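import Crest.Agent.T157.CtPen_63
import Crest.Agent.T157.CwAll_15
import Crest.Agent.T157.CpNear_56
import Crest.Agent.T157.O0JW_21
import Crest.Agent.T157.O0S4_5
import Crest.Agent.T157.O7W_22
import Crest.Agent.T157.CnDef_63

/-!
# Row 157, coin windows (helper63): `G0`-`G3` and `WinC` for coins
-/

set_option autoImplicit false

noncomputable section

namespace Crest.Agent.T157.Cw

open MeasureTheory Set Real Filter Topology
open Crest.ProbabilityR.SpinGlassDynamics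
open Crest.Agent.T157.E Crest.Agent.T157.Crit
open Crest.Agent.T157.Top (Whp)
open Crest.Agent.T157.Tr (Off)
open Crest.Agent.T157.O7 (Mt lo QW)
open Crest.Agent.T157.O7.G13 Pen63

/-! ### above the edge -/

def U0 : Prop := ∀ L > (0 : ℝ), ∃ K : ℝ, ∀ d ∈ Ioo (0 : ℝ) (2 / 3), ∀ d' ∈ Ioo (0 : ℝ) 1,
  ∃ t0 > (0 : ℝ), Whp (couplingLaw true) fun n g => QW (gibbsWeight n 1 g) (lo d n) t0 (fun _ => K)
    fun r => min (L * Mt n r) ((n : ℝ) ^ (1 - d'))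

def U1 : Prop := ∀ e > (0 : ℝ), ∀ d ∈ Ioo (0 : ℝ) (2 / 3), ∀ d' ∈ Ioo (0 : ℝ) 1, ∃ c0 > (0 : ℝ),
  ∃ t0 > (0 : ℝ), Whp (couplingLaw true) fun n g => QW (gibbsWeight n 1 g) (lo d n) t0
    (fun _ => 1 + e) fun r => min (c0 * Mt n r) ((n : ℝ) ^ (1 - d'))

def U2 : Prop := ∀ d ∈ Ioo (0 : ℝ) (2 / 3), ∃ c ∈ Ioc (0 : ℝ) 1, ∃ t0 ∈ Ioc (0 : ℝ) 1,
  Whp (couplingLaw true) fun n g => QW (gibbsWeight n 1 g) (lo d n) t0
    (fun r => 1 + 22 * (r ^ c + (n : ℝ) ^ (-c))) fun _ => (n : ℝ) ^ c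

def U4 : Prop := ∀ T : ℝ, ∀ s > (0 : ℝ), ∀ d' ∈ Ioo (0 : ℝ) 1, ∃ K : ℝ,
  Whp (couplingLaw true) fun n g => QW (gibbsWeight n 1 g) s T (fun _ => K)
    fun _ => (n : ℝ) ^ (1 - d')

/-! ### the edge -/

def X0 : Prop := ∀ ε > (0 : ℝ), ∀ L : ℝ, ∃ K s0 : ℝ, Off (couplingLaw true) ε fun n g =>
  QW (gibbsWeight n 1 g) (s0 / Soft.N23 n) (lo (1 / 400) n) (fun _ => K)
    fun r => min (L * Mt n r) √n

def X1 : Prop := ∀ ε > (0 : ℝ), ∀ e > (0 : ℝ), ∃ c0 > (0 : ℝ), ∃ s0 : ℝ,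
  Off (couplingLaw true) ε fun n g => QW (gibbsWeight n 1 g) (s0 / Soft.N23 n) (lo (1 / 400) n)
    (fun _ => 1 + e) fun r => min (c0 * Mt n r) √n

def X2 : Prop := ∀ ε > (0 : ℝ), ∃ c > (0 : ℝ), ∃ C s0 : ℝ, Off (couplingLaw true) ε fun n g =>
  QW (gibbsWeight n 1 g) (s0 / Soft.N23 n) (lo (1 / 400) n)
    (fun r => 1 + C * (r ^ c + (Soft.N23 n * r) ^ (-c))) fun r => (Soft.N23 n * r) ^ c

namespace Win63

lemma qw_mono {n : ℕ} {w : Cube n → ℝ} (hw : ∀ x, 0 < w x) {a b r k' H' : ℝ} {k H : ℝ → ℝ}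
    (h : QW w a b k H) (hr : r ∈ Icc a b) (r0 : 0 ≤ r) (hk : k r ≤ k') (hH : H' ≤ H r) :
    CovAt w r (k' / r) (exp (-H')) :=
  covAt_mono hw (h r hr) (div_le_div_of_nonneg_right hk r0) (exp_le_exp.2 (neg_le_neg hH))

lemma glue {ε s0 t0 t1 : ℝ} {m : ℕ → ℝ} {k k' kk H H' HH : ℕ → ℝ → ℝ} (hε : 0 < ε)
    (hE : Off (couplingLaw true) (ε / 2) fun n g =>
      QW (gibbsWeight n 1 g) (s0 / Soft.N23 n) (m n) (k n) (H n))
    (hJ : Whp (couplingLaw true) fun n g => QW (gibbsWeight n 1 g) (m n) t0 (kk n) (HH n))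
    (ht : t1 ≤ t0) (h : ∀ n : ℕ, 0 < n → ∀ r, 0 < r → 1 ≤ Soft.N23 n * r → r ≤ t1 →
      k n r ≤ k' n r ∧ H' n r ≤ H n r ∧ kk n r ≤ k' n r ∧ H' n r ≤ HH n r) :
    Off (couplingLaw true) ε fun n g =>
      QW (gibbsWeight n 1 g) (max s0 1 / Soft.N23 n) t1 (k' n) (H' n) := by
  have h1 := hE.and (Tr.off_of_whp hJ (half_pos hε)) (half_pos hε).le (half_pos hε).le
  rw [add_halves] at h1
  refine h1.mono ((eventually_gt_atTop 0).mono fun n hn g hg r hr => ?_)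
  have r0 := (a_le s0 hn).2.trans_le hr.1
  obtain ⟨a1, a2, a3, a4⟩ := h n hn r r0
    ((le_max_right _ _).trans ((div_le_iff₀' (Soft.N23_pos hn)).1 hr.1)) hr.2
  rcases le_total r (m n) with h7 | h7
  · exact qw_mono (gibbsWeight_pos 1 g) hg.1 ⟨(a_le s0 hn).1.trans hr.1, h7⟩ r0.le a1 a2
  · exact qw_mono (gibbsWeight_pos 1 g) hg.2 ⟨h7, hr.2.trans ht⟩ r0.le a3 a4

lemma sq_eq (n : ℕ) : √(n : ℝ) = (n : ℝ) ^ (1 - 1 / 2 : ℝ) := by rw [sqrt_eq_rpow]; norm_num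

lemma m400 : (1 / 400 : ℝ) ∈ Ioo (0 : ℝ) (2 / 3) := ⟨by norm_num, by norm_num⟩

lemma m2 : (1 / 2 : ℝ) ∈ Ioo (0 : ℝ) 1 := ⟨by norm_num, by norm_num⟩

end Win63

open Win63

theorem u0 (hP : Cp.PenStmt) (j : O0.JW0) : U0 := fun L hL => by
  obtain ⟨K, hK⟩ := j (4 * L)
  refine ⟨(1 + 7 * 1) * max K 1, fun d hd d' hd' => ?_⟩
  obtain ⟨e, he, κ, hκ, τ, hτ, t0, ht0, e0, he0, h⟩ := hK d hd.1
  have := qc63 engStmt lmStmt algStmt hP Cp.fineStmt (b := t0) hκ hd.1 hd.2 hd'.1 hd'.2 he.1 he.2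
    hτ.1 hτ.2 (show 0 < 4 * L by positivity) (le_max_right K 1) one_pos le_rfl he0 ?_
  · exact ⟨t0, ht0.1, by simpa only [mul_div_cancel_left₀ L (four_ne_zero' ℝ)] using this⟩
  filter_upwards [h, eventually_gt_atTop 0] with n h hn t ht
  exact (h t ht).le (div_le_div_of_nonneg_right (le_max_left _ _)
    ((lo_pos d hn).le.trans ht.1)) le_rfl

theorem u1 (hP : Cp.PenStmt) (j : O0.JW1) : U1 := fun ε hε d hd d' hd' => by
  obtain ⟨x, x0, x1, x2⟩ : ∃ x > (0 : ℝ), x ≤ ε / 15 ∧ x ≤ 1 :=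
    ⟨min (ε / 15) 1, by positivity, min_le_left _ _, min_le_right _ _⟩
  obtain ⟨c0, c00, e, he, κ, hκ, τ, hτ, t0, ht0, e0, he0, h⟩ := j x x0 d hd.1
  refine ⟨c0 / 4, by positivity, t0, ht0.1, (qc63 engStmt lmStmt algStmt hP Cp.fineStmt (b := t0) hκ
    hd.1 hd.2 hd'.1 hd'.2 he.1 he.2 hτ.1 hτ.2 c00 (show 1 ≤ 1 + x by linarith) x0 x2 he0 h).mono ?_⟩
  filter_upwards [eventually_gt_atTop 0] with n hn g hg r hr
  exact qw_mono (gibbsWeight_pos 1 g) hg hr ((lo_pos d hn).le.trans hr.1) (by nlinarith) le_rfl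

theorem u2 (hP : Cp.PenStmt) (j : O0.JW2) : U2 := fun d hd => by
  obtain ⟨κ, hκ, d1, hd1, h⟩ := j d hd.1
  refine q263 engStmt lmStmt algStmt hP Cp.fineStmt hκ hd.1 hd.2 hd1 fun ζ hζ => ?_
  obtain ⟨c, hc, τ, hτ, t0, ht0, h⟩ := h ζ hζ
  exact ⟨c, hc, τ, hτ, t0, ht0.1, h⟩

theorem u4 : U4 := fun T s hs d' hd' => by
  obtain ⟨K, e0, he0, h⟩ := O0.S5.jw4 hs T
  exact ⟨_, q463 engStmt lmStmt algStmt hs he0 hd'.1 hd'.2 h⟩

theorem g0C (u : U0) (x : X0) : O7.G0 (couplingLaw true) := fun ε hε L => by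
  obtain ⟨KE, s0, hE⟩ := x (ε / 2) (half_pos hε) L
  obtain ⟨K, hK⟩ := u (max L 1) (lt_max_of_lt_right one_pos)
  obtain ⟨t0, ht0, hJ⟩ := hK _ m400 _ m2
  exact ⟨max KE K, _, t0, ht0, glue (k := fun _ _ => KE) (kk := fun _ _ => K) hε hE hJ le_rfl
    fun n _ r r0 _ _ => ⟨le_max_left _ _, le_rfl, le_max_right _ _, min_le_min
      (mul_le_mul_of_nonneg_right (le_max_left _ _) (Mt_nn n r0.le)) (sq_eq n).le⟩⟩

theorem g1C (u : U1) (x : X1) : O7.G1 (couplingLaw true) := fun ε hε e he => by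
  obtain ⟨cE, hcE, s0, hE⟩ := x (ε / 2) (half_pos hε) e he
  obtain ⟨c0, hc0, t0, ht0, hJ⟩ := u e he _ m400 _ m2
  exact ⟨min cE c0, lt_min hcE hc0, _, t0, ht0, glue (k := fun _ _ => 1 + e) (kk := fun _ _ => 1 + e)
    hε hE hJ le_rfl fun n _ r r0 _ _ => ⟨le_rfl, min_le_min (mul_le_mul_of_nonneg_right
      (min_le_left _ _) (Mt_nn n r0.le)) le_rfl, le_rfl, min_le_min
      (mul_le_mul_of_nonneg_right (min_le_right _ _) (Mt_nn n r0.le)) (sq_eq n).le⟩⟩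

theorem g2C (u : U2) (x : X2) : O7.G2 (couplingLaw true) := fun ε hε => by
  obtain ⟨cE, hcE, CE, s0, hE⟩ := x (ε / 2) (half_pos hε)
  obtain ⟨c, hc, t0, ht0, hJ⟩ := u _ m400
  have c1 := min_le_left cE c
  have c2 := min_le_right cE c
  have c0 := lt_min hcE hc.1
  refine ⟨min cE c, c0, |CE| + 22, _, t0, ht0.1, glue hε hE hJ le_rfl fun n hn r r0 x1 r1 => ?_⟩
  have n1 : (1 : ℝ) ≤ n := by exact_mod_cast hn
  replace r1 := r1.trans ht0.2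
  have x0 : 0 < Soft.N23 n * r := by linarith
  have x2 : Soft.N23 n * r ≤ n := (mul_le_of_le_one_right (Soft.N23_pos hn).le r1).trans
    ((rpow_le_rpow_of_exponent_le n1 (by norm_num)).trans (rpow_one _).le)
  have A0 : 0 ≤ r ^ min cE c + (Soft.N23 n * r) ^ (-min cE c) := by positivity
  have aE := abs_nonneg CE
  refine ⟨?_, rpow_le_rpow_of_exponent_le x1 c1, ?_,
    (rpow_le_rpow x0.le x2 c0.le).trans (rpow_le_rpow_of_exponent_le n1 c2)⟩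
  · have b1 := add_le_add (rpow_le_rpow_of_exponent_ge r0 r1 c1)
      (rpow_le_rpow_of_exponent_le x1 (neg_le_neg c1))
    have := (mul_le_mul_of_nonneg_right (le_abs_self CE) (by positivity)).trans
      (mul_le_mul_of_nonneg_left b1 aE)
    nlinarith
  · have b1 := add_le_add (rpow_le_rpow_of_exponent_ge r0 r1 c2)
      ((rpow_le_rpow_of_exponent_le n1 (neg_le_neg c2)).trans
        (rpow_le_rpow_of_nonpos x0 x2 (neg_nonpos.2 c0.le)))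
    nlinarith [mul_nonneg aE A0]

theorem g3C (T : ℝ) : O7.G3 (couplingLaw true) T := fun t0 ht0 => by
  obtain ⟨K, h⟩ := u4 T t0 ht0 _ m2
  exact ⟨K, by simpa only [sq_eq] using h⟩

theorem winC (v0 : U0) (v1 : U1) (T : ℝ) : Cn.WinC T := by
  intro d hd c hc
  obtain ⟨d', d0, d1⟩ : ∃ d' ∈ Ioo (0 : ℝ) 1, d' ≤ d / 2 :=
    ⟨min (d / 2) (1 / 2), ⟨by positivity, (min_le_right _ _).trans_lt (by norm_num)⟩,
      min_le_left _ _⟩
  have c0 : 0 < c ^ (3 / 2 : ℝ) := rpow_pos_of_pos hc _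
  obtain ⟨K, hK⟩ := v0 (3 / c ^ (3 / 2 : ℝ)) (by positivity)
  obtain ⟨t1, t10, h1⟩ := hK (1 / 3) ⟨by norm_num, by norm_num⟩ d' d0
  obtain ⟨K4, h4⟩ := u4 T t1 t10 d' d0
  refine ⟨max K K4, fun δ hδ => ?_⟩
  obtain ⟨x, x0, x1, x2⟩ : ∃ x > (0 : ℝ), x ≤ δ ∧ x ≤ 1 :=
    ⟨min δ 1, by positivity, min_le_left _ _, min_le_right _ _⟩
  have x3 : x / 3 ∈ Ioo (0 : ℝ) (2 / 3) := ⟨by positivity, by linarith⟩
  obtain ⟨t2, t20, h2⟩ := hK _ x3 d' d0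
  obtain ⟨c1, c10, t3, t30, h3⟩ := v1 δ hδ _ x3 d' d0
  obtain ⟨K5, h5⟩ := u4 T t3 t30 d' d0
  refine ⟨t3, t30, K5, (((h1.and h4).and h2).and (h3.and h5)).mono ?_⟩
  filter_upwards [eventually_gt_atTop 0, ev_mul hc x3.1 1, ev_mul c10 hδ 3,
    ev_lo (show (1 / 3 : ℝ) < 2 / 3 by norm_num) t20,
    ev_lt (show 1 - d < 1 - d' by linarith) one_pos 3] with n hn p1 p2 p3 p4 g hg H hH1 hH2 r hr
  obtain ⟨⟨⟨g1, g4⟩, g2⟩, g3, g5⟩ := hg
  have n1 : (1 : ℝ) ≤ n := by exact_mod_cast hn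
  have n0 : (0 : ℝ) < n := by linarith
  have q1 : ∀ x : ℝ, 0 ≤ x → 1 ≤ (n : ℝ) ^ x := fun x hx => one_le_rpow n1 hx
  have H1 : 1 ≤ H := (q1 δ hδ.le).trans hH1
  have H2 := (rpow_le_rpow_of_exponent_le n1 x1).trans hH1
  have H3 : 3 * H ≤ (n : ℝ) ^ (1 - d') := by linarith
  have s0 : 0 ≤ sH n H := rpow_nonneg (by positivity) _
  have w0 := gibbsWeight_pos (n := n) 1 g
  refine ⟨fun hr1 _ => ?_, fun hr1 hr2 => ?_, fun hr1 =>
    qw_mono w0 g5 ⟨hr1, hr⟩ (t30.le.trans hr1) le_rfl H3⟩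
  · have r0 : 0 ≤ r := le_trans (by positivity) hr1
    have a : 3 * H ≤ min (3 / c ^ (3 / 2 : ℝ) * Mt n r) ((n : ℝ) ^ (1 - d')) := by
      refine le_min (le_trans (le_of_eq ?_) (mul_le_mul_of_nonneg_left
        (Mt_mono (by positivity) hr1) (by positivity))) H3
      rw [O7.W22.Mt_sH n0 hc.le (by linarith)]
      field_simp
    rcases le_total t1 r with b1 | b1
    · exact qw_mono w0 g4 ⟨b1, hr⟩ r0 (le_max_right _ _) H3
    rcases le_total (lo (1 / 3) n) r with b2 | b2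
    · exact qw_mono w0 g1 ⟨b2, b1⟩ r0 (le_max_left _ _) a
    · exact qw_mono w0 g2 ⟨(O7.W22.lo_le n1 p1 H2).trans hr1, b2.trans p3⟩ r0 (le_max_left _ _) a
  · refine qw_mono w0 g3 ⟨(O7.W22.lo_le n1 (one_le_mul_of_one_le_of_one_le (q1 δ hδ.le)
      (q1 _ x3.1.le)) H2).trans hr1, hr2⟩ (le_trans (by positivity) hr1) le_rfl (le_min ?_ H3)
    refine le_trans ?_ (mul_le_mul_of_nonneg_left (Mt_mono (by positivity) hr1) c10.le)
    rw [O7.W22.Mt_sH n0 (by positivity) (by linarith), ← mul_assoc]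
    refine mul_le_mul_of_nonneg_right (p2.trans (mul_le_mul_of_nonneg_left ?_ c10.le)) (by linarith)
    exact self_le_rpow_of_one_le (q1 δ hδ.le) (by norm_num)

end Crest.Agent.T157.Cw

end
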