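import Crest.Agent.T157.FinF_88
import Crest.Agent.T157.CtWin_63
import Crest.Agent.T157.CpAll_72
import Crest.Agent.T157.CtEdge_81
import Crest.Agent.T157.O0JW_21

/-!
# Row 157: the coin inputs from the joint planted theorem (helper88, text of helper63)
-/

set_option autoImplicit false

namespace Crest.Agent.T157.TopZ

open Crest.Agent.T157.Cw

theorem kIn (h : O0.Thm) : KIn :=
  have J := jIn h
  have G := O7.gGlue O7.quStmt J.j0 J.j1 J.j2 J.ed
  have v0 := u0 Cp.penStmt (O0.jw0 h)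
  have v1 := u1 Cp.penStmt (O0.jw1 h)
  ⟨g0C v0 (edge0 G.1), g1C v1 (edge1 G.2.1), g2C (u2 Cp.penStmt (O0.jw2 h)) (edge2 G.2.2),
    fun T _ _ => g3C T, fun T _ _ => winC v0 v1 T⟩

theorem r32_fin (h : O0.Thm) : Top.R32 := r32_thm h (kIn h)

theorem r33_fin (h : O0.Thm) : Top.R33 := r33_thm h (kIn h)

end Crest.Agent.T157.TopZ
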