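import Crest.Agent.T157.G1_52
import Crest.Agent.T157.Sc2_68

/-!
# Row 157, part D: bridges for the Guerra interpolation (helper52)
-/

set_option autoImplicit false

noncomputable section

namespace Crest.Agent.T157.G1

open MeasureTheory Real
open Crest.Agent.T157.E Crest.Agent.T157.Casc Crest.Agent.T157.SL Crest.Agent.T157.Pf
open Crest.Agent.R339.B Crest.Agent.R339.Var
open Crest.Agent.R339.Guerra (pen)
open Crest.ProbabilityR.SpinGlassDynamics

variable {n : ℕ} {β : ℝ}

theorem cut_TT : ∀ (l : List (ℝ × ℝ)), (∀ p ∈ l, 0 < p.2) → Sc.cut l (TT l) = l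
  | [], _ => rfl
  | [p], _ => by simp [Sc.cut, TT]
  | p :: r :: l, h => by
    have h1 : 0 < TT (r :: l) := by
      rw [TT_cons]
      exact add_pos_of_pos_of_nonneg (h r (by simp))
        (TT_nonneg fun q hq => (h q (by simp [hq])).le)
    rw [TT_cons, Sc.cut, if_neg (by linarith), add_sub_cancel_left,
      cut_TT (r :: l) fun q hq => h q (List.mem_cons_of_mem _ hq)]

theorem lst_pos {P : Par} (h : P.OK) (hβ : 0 < β) (N : ℕ) : ∀ p ∈ P.lst β N, 0 < p.2 := by
  intro p hp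
  obtain ⟨k, rfl⟩ := List.mem_ofFn.1 hp
  have : (0 : ℝ) < P.K := by exact_mod_cast h.Kpos
  positivity

theorem Ph_zero {P : Par} (h : P.OK) (hβ : 0 < β) : P.Ph β 0 = PhiL 1 (P.lst β P.K) := by
  have e4 : ∀ l : List (ℝ × ℝ), (∀ p ∈ l, 0 < p.2) → PhiT 1 l 0 = PhiL 1 l := fun l hl => by
    cases l with
    | nil => rfl
    | cons p l => simp [PhiT, PhiL, (hl p (by simp)).le]
  funext x
  rw [Par.Ph, mul_zero, e4 _ (lst_pos h hβ _)]

theorem cor_lst {P : Par} (h : P.OK) (hβ : 0 < β) : cor β (P.lst β P.K) = P.pen β 0 := by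
  have h1 := Sc.pen_cut h hβ (s := 1) ⟨zero_le_one, le_rfl⟩
  rw [mul_one] at h1
  nth_rewrite 1 [← Sc.TT_lst h β] at h1
  rw [cut_TT _ (lst_pos h hβ _)] at h1
  rw [cor, h1, mul_div_cancel_left₀ _ (by positivity)]
  simp [Par.pen]

/-- the two Parisi values agree -/
theorem val_lst {P : Par} (h : P.OK) (hβ : 0 < β) : val β (P.lst β P.K) = P.val β := by
  rw [val, Par.val, Ph_zero h hβ, cor_lst h hβ]

theorem length_lst (P : Par) (β : ℝ) (N : ℕ) : (P.lst β N).length = N := List.length_ofFn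

theorem qs_lst (P : Par) (hβ : 0 < β) {N j : ℕ} (hj : j ≤ N) :
    qs β (P.lst β N) j = j / P.K := by
  have h1 : ((P.lst β N).take j).map Prod.snd = List.replicate j (β ^ 2 / P.K) := by
    rw [List.eq_replicate_iff]
    refine ⟨by simp [length_lst, hj], fun b hb => ?_⟩
    obtain ⟨p, hp, rfl⟩ := List.mem_map.1 hb
    obtain ⟨k, rfl⟩ := List.mem_ofFn.1 (List.mem_of_mem_take hp)
    rfl
  rw [qs, TT, h1, List.sum_replicate, nsmul_eq_mul]
  field_simp

theorem ex_lst {P : Par} (h : P.OK) (β s : ℝ) (j : ℕ) : ex (FL n s (P.lst β P.K)) j = P.z j := by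
  rw [ex_FL]
  split_ifs with hj
  · simp [Par.lst]
  · rw [length_lst] at hj
    exact (h.top j (h.aK.trans (not_lt.1 hj))).symm

/-- the interpolation for the list of a step function -/
theorem g1_lst (hn : 0 < n) (hβ : 0 < β) {J : Lv (Cube n)} (hJ : IsJ β J) {P : Par} (h : P.OK) :
    G1 β J (P.lst β P.K) := g1Stmt n hn β hβ J hJ _ (Sc.adm_lst h β _) (Sc.TT_lst h β)

/-- a constant in the covariance of a plain level does not change the value -/
theorem X_cov_const {Ω : Type*} [Fintype Ω] {w : Ω → ℝ} (hw : Wt w) {l l' : Lv Ω} (h : l.m = 0)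
    (h' : l'.m = 0) {c : ℝ} (hc : 0 ≤ c) (H : ∀ x y, l.cov x y = l'.cov x y + c)
    (L : List (Lv Ω)) : X w (l :: L) = X w (l' :: L) := by
  rw [C.X_split hw (l := l) (l1 := l') (l2 := ⟨Unit, fun _ _ => √c, 0⟩) (h.trans h'.symm) h'
    (fun x y => by rw [H]; simp [Lv.cov, mul_self_sqrt hc]) L, C.X_cons, C.X_cons w l', C.X_cons]
  congr 1
  funext z
  rw [C.step_of_const (l := ⟨Unit, fun _ _ => √c, 0⟩) (a := fun _ => √c) (fun _ => rfl)
    (C.X_add_const hw L)]
  simp

/-- all SK levels give the same values -/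
theorem IsJ.X_eq {J J' : Lv (Cube n)} (h : IsJ β J) (h' : IsJ β J') {w : Cube n → ℝ} (hw : Wt w)
    (L : List (Lv (Cube n))) : X w (J :: L) = X w (J' :: L) := by
  obtain ⟨c, hc⟩ := h.cov
  obtain ⟨c', hc'⟩ := h'.cov
  rcases le_total c c' with H | H
  · exact X_cov_const hw h.m h'.m (sub_nonneg.2 H) (fun x y => by rw [hc, hc']; ring) L
  · exact (X_cov_const hw h'.m h.m (sub_nonneg.2 H) (fun x y => by rw [hc, hc']; ring) L).symm

/-- the mean free energy does not depend on the model of the disorder -/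
theorem IsJ.free (hn : 0 < n) {J : Lv (Cube n)} (h : IsJ β J) :
    ∫ g, log (∑ x, exp (J.fld g x)) ∂gv J.ι =
      ∫ g, log (∑ x, gibbsWeight n β g x) ∂disorderLaw n := by
  have := congrFun (h.X_eq (isJ_Jp hn β) C.wt_one []) 0
  rw [C.X_cons, C.X_cons, C.step_zero h.m, C.step_zero (l := Jp n β) rfl] at this
  simp only [X, zero_add, one_mul] at this
  simp only [gibbs_Jp]
  exact this

theorem free_Jw (hn : 0 < n) (β : ℝ) :
    ∫ g, log (∑ x, exp ((Jw n β).fld g x)) ∂gv (Fin n × Fin n) =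
      ∫ g, log (∑ x, gibbsWeight n β g x) ∂disorderLaw n := (isJ_Jw hn β).free hn

/-- Guerra's bound in the words of the statements -/
theorem guerra_lst (hn : 0 < n) (hβ : 0 < β) {P : Par} (h : P.OK) :
    ∫ g, log (∑ x, gibbsWeight n β g x) ∂disorderLaw n ≤ n * P.val β := by
  rw [← (isJ_Jp hn β).free hn, ← val_lst h hβ]
  exact guerra hn hβ (isJ_Jp hn β) (Sc.adm_lst h β _) (Sc.TT_lst h β)

end Crest.Agent.T157.G1

end
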