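import Mathlib

set_option autoImplicit false

/-!
Row 157 (helper27): a calculus of exponents.  `Ub f a : 0 ≤ f ≤ exp a`, `Lb f a : exp a ≤ f`,
`Eb f a : f = exp a`.  The tactic `nm` computes the exponents of an expression from its atoms, `num`
reduces `f ≤ g` to linear inequalities between exponents.
-/

namespace Crest.Agent.T157.Nm

open Real

def Ub (f a : ℝ) : Prop := 0 ≤ f ∧ f ≤ exp a
def Lb (f a : ℝ) : Prop := exp a ≤ f
def Eb (f a : ℝ) : Prop := f = exp a

variable {f g a b y : ℝ}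

theorem Lb.pos (h : Lb f a) : 0 < f := (exp_pos a).trans_le h
theorem Eb.pos (h : Eb f a) : 0 < f := h ▸ exp_pos a
theorem Eb.ub (h : Eb f a) : Ub f a := ⟨h.pos.le, h.le⟩
theorem Eb.lb (h : Eb f a) : Lb f a := h.ge
theorem Eb.log (h : 0 < f) : Eb f (log f) := (exp_log h).symm
theorem Eb.log_eq (h : Eb f a) : Real.log f = a := by rw [h, log_exp]
theorem Eb.one : Eb 1 0 := exp_zero.symm
theorem Eb.exp : Eb (exp a) a := rfl
theorem Eb.mul (hf : Eb f a) (hg : Eb g b) : Eb (f * g) (a + b) := by rw [Eb, hf, hg, exp_add]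
theorem Eb.div (hf : Eb f a) (hg : Eb g b) : Eb (f / g) (a - b) := by rw [Eb, hf, hg, exp_sub]
theorem Eb.inv (hf : Eb f a) : Eb f⁻¹ (-a) := by rw [Eb, hf, exp_neg]
theorem Eb.pow {k : ℕ} (hf : Eb f a) : Eb (f ^ k) (k * a) := by rw [Eb, hf, exp_nat_mul]
theorem Eb.rpow (hf : Eb f a) : Eb (f ^ y) (y * a) := by rw [Eb, hf, ← exp_mul, mul_comm]
theorem Eb.sqrt (hf : Eb f a) : Eb (√f) (1 / 2 * a) := by rw [sqrt_eq_rpow]; exact hf.rpow
theorem Eb.max (hf : Eb f a) (hg : Eb g b) : Eb (max f g) (max a b) := by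
  rw [Eb, hf, hg, exp_monotone.map_max]
theorem Eb.min (hf : Eb f a) (hg : Eb g b) : Eb (min f g) (min a b) := by
  rw [Eb, hf, hg, exp_monotone.map_min]
/-- order of exact quantities -/
theorem Eb.le_iff (hf : Eb f a) (hg : Eb g b) : f ≤ g ↔ a ≤ b := by rw [hf, hg, exp_le_exp]
theorem Eb.lt_iff (hf : Eb f a) (hg : Eb g b) : f < g ↔ a < b := by rw [hf, hg, exp_lt_exp]

theorem Ub.mono (h : Ub f a) (hab : a ≤ b) : Ub f b := ⟨h.1, h.2.trans (exp_le_exp.2 hab)⟩
theorem Lb.mono (h : Lb f a) (hab : b ≤ a) : Lb f b := (exp_le_exp.2 hab).trans h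
theorem Ub.of_le (h : Ub g a) (h0 : 0 ≤ f) (hfg : f ≤ g) : Ub f a := ⟨h0, hfg.trans h.2⟩
theorem Lb.of_le (h : Lb f a) (hfg : f ≤ g) : Lb g a := le_trans h hfg
/-- a constant is its own exponent -/
theorem Ub.self (h0 : 0 ≤ f) (h : f ≤ a) : Ub f a := ⟨h0, h.trans (by linarith [add_one_le_exp a])⟩
theorem Lb.self (h0 : 0 < f) (h : 1 / f ≤ a) : Lb f (-a) := by
  rw [Lb, exp_neg, inv_le_comm₀ (exp_pos a) h0, ← one_div]
  exact (Ub.self (by positivity) h).2
theorem Lb.of_one (h : 1 ≤ f) : Lb f 0 := by rwa [Lb, exp_zero]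
theorem Ub.of_one (h0 : 0 ≤ f) (h : f ≤ 1) : Ub f 0 := ⟨h0, by rwa [exp_zero]⟩
theorem Ub.ofNat (c : ℕ) [c.AtLeastTwo] : Ub (OfNat.ofNat c) (OfNat.ofNat c) :=
  Ub.self (Nat.ofNat_nonneg c) le_rfl
theorem Lb.ofNat (c : ℕ) [c.AtLeastTwo] : Lb (OfNat.ofNat c) 0 := Lb.of_one Nat.one_le_ofNat

theorem Ub.mul (hf : Ub f a) (hg : Ub g b) : Ub (f * g) (a + b) :=
  ⟨mul_nonneg hf.1 hg.1, by rw [exp_add]; exact mul_le_mul hf.2 hg.2 hg.1 (exp_pos a).le⟩
theorem Ub.max (hf : Ub f a) (hg : Ub g b) : Ub (max f g) (max a b) :=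
  ⟨le_max_of_le_left hf.1, max_le (hf.mono (le_max_left _ _)).2 (hg.mono (le_max_right _ _)).2⟩
theorem Ub.min (hf : Ub f a) (hg : Ub g b) : Ub (min f g) (min a b) :=
  ⟨le_min hf.1 hg.1, by rw [exp_monotone.map_min]; exact min_le_min hf.2 hg.2⟩
theorem Ub.add (hf : Ub f a) (hg : Ub g b) : Ub (f + g) (Max.max a b + 1) := by
  refine ⟨add_nonneg hf.1 hg.1, ?_⟩
  have h1 := (hf.mono (le_max_left a b)).2
  have h2 := (hg.mono (le_max_right a b)).2
  have h3 := mul_le_mul_of_nonneg_left (add_one_le_exp 1) (exp_pos (Max.max a b)).le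
  rw [exp_add]; linarith
theorem Ub.inv (hg : Lb g b) : Ub g⁻¹ (-b) :=
  ⟨(inv_pos.2 hg.pos).le, by rw [exp_neg]; exact inv_anti₀ (exp_pos b) hg⟩
theorem Ub.div (hf : Ub f a) (hg : Lb g b) : Ub (f / g) (a - b) := by
  rw [div_eq_mul_inv, sub_eq_add_neg]; exact hf.mul (Ub.inv hg)
theorem Ub.pow {k : ℕ} (hf : Ub f a) : Ub (f ^ k) (k * a) :=
  ⟨pow_nonneg hf.1 k, by rw [exp_nat_mul]; exact pow_le_pow_left₀ hf.1 hf.2 k⟩
theorem Ub.rpow (hy : 0 ≤ y) (hf : Ub f a) : Ub (f ^ y) (y * a) :=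
  ⟨rpow_nonneg hf.1 y, by rw [mul_comm, exp_mul]; exact rpow_le_rpow hf.1 hf.2 hy⟩
theorem Ub.rpow_neg (hy : y ≤ 0) (hf : Lb f a) : Ub (f ^ y) (y * a) :=
  ⟨rpow_nonneg hf.pos.le y, by rw [mul_comm, exp_mul]; exact rpow_le_rpow_of_nonpos (exp_pos a) hf hy⟩
theorem Ub.sqrt (hf : Ub f a) : Ub (√f) (1 / 2 * a) := by
  rw [sqrt_eq_rpow]; exact hf.rpow (by norm_num)
/-- a difference, with the sign as a side goal -/
theorem Ub.sub (h : g ≤ f) (hg : 0 ≤ g) (hf : Ub f a) : Ub (f - g) a :=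
  hf.of_le (sub_nonneg.2 h) (sub_le_self _ hg)

theorem Lb.mul (hf : Lb f a) (hg : Lb g b) : Lb (f * g) (a + b) := by
  rw [Lb, exp_add]; exact mul_le_mul hf hg (exp_pos b).le hf.pos.le
theorem Lb.max (hf : Lb f a) (hg : Lb g b) : Lb (max f g) (max a b) := by
  rw [Lb, exp_monotone.map_max]; exact max_le_max hf hg
theorem Lb.min (hf : Lb f a) (hg : Lb g b) : Lb (min f g) (min a b) := by
  rw [Lb, exp_monotone.map_min]; exact min_le_min hf hg
theorem Lb.add (hf : Lb f a) (hg : Lb g b) : Lb (f + g) (Max.max a b) :=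
  (hf.max hg).of_le (max_le (le_add_of_nonneg_right hg.pos.le) (le_add_of_nonneg_left hf.pos.le))
theorem Lb.add_l (hg : 0 ≤ g) (hf : Lb f a) : Lb (f + g) a := hf.of_le (le_add_of_nonneg_right hg)
theorem Lb.add_r (hf : 0 ≤ f) (hg : Lb g a) : Lb (f + g) a := hg.of_le (le_add_of_nonneg_left hf)
theorem Lb.inv (hg : Ub g b) (h0 : 0 < g) : Lb g⁻¹ (-b) := by
  rw [Lb, exp_neg]; exact inv_anti₀ h0 hg.2
theorem Lb.div (hf : Lb f a) (hg : Ub g b) (h0 : 0 < g) : Lb (f / g) (a - b) := by
  rw [div_eq_mul_inv, sub_eq_add_neg]; exact hf.mul (Lb.inv hg h0)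
theorem Lb.pow {k : ℕ} (hf : Lb f a) : Lb (f ^ k) (k * a) := by
  rw [Lb, exp_nat_mul]; exact pow_le_pow_left₀ (exp_pos a).le hf k
theorem Lb.rpow (hy : 0 ≤ y) (hf : Lb f a) : Lb (f ^ y) (y * a) := by
  rw [Lb, mul_comm, exp_mul]; exact rpow_le_rpow (exp_pos a).le hf hy
theorem Lb.rpow_neg (hy : y ≤ 0) (hf : Ub f a) (h0 : 0 < f) : Lb (f ^ y) (y * a) := by
  rw [Lb, mul_comm, exp_mul]; exact rpow_le_rpow_of_nonpos h0 hf.2 hy
theorem Lb.sqrt (hf : Lb f a) : Lb (√f) (1 / 2 * a) := by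
  rw [sqrt_eq_rpow]; exact hf.rpow (by norm_num)
/-- a difference whose second term is at most half of the first -/
theorem Lb.sub (h : 2 * g ≤ f) (hf : Lb f a) : Lb (f - g) (a - 1) := by
  have h1 := mul_le_mul_of_nonneg_left (add_one_le_exp 1) (exp_pos (a - 1)).le
  rw [← exp_add, sub_add_cancel] at h1
  unfold Lb at *; linarith

theorem le_of (hf : Ub f a) (hg : Lb g b) (h : a ≤ b) : f ≤ g := (hf.mono h).2.trans hg
theorem lt_of (hf : Ub f a) (hg : Lb g b) (h : a < b) : f < g :=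
  hf.2.trans_lt ((exp_lt_exp.2 h).trans_le hg)

/-- side conditions -/
macro "nm_side" : tactic => `(tactic| first | assumption | positivity | linarith)

macro "nm_e" : tactic => `(tactic| with_reducible (refine (?_ : Eb _ _); first
  | assumption | apply Eb.one | apply Eb.mul | apply Eb.div | apply Eb.inv | apply Eb.pow
  | apply Eb.rpow | apply Eb.sqrt | apply Eb.max | apply Eb.min | apply Eb.exp))

macro "nm_u" : tactic => `(tactic| ((with_reducible refine (?_ : Ub _ _)); first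
  | with_reducible assumption
  | ((with_reducible apply Eb.ub); (focus ((repeat' nm_e); done)))
  | with_reducible apply Ub.mul | with_reducible apply Ub.add | with_reducible apply Ub.div
  | with_reducible apply Ub.inv | with_reducible apply Ub.pow | with_reducible apply Ub.sqrt
  | with_reducible apply Ub.max | with_reducible apply Ub.min | with_reducible apply Ub.ofNat
  | ((with_reducible apply Ub.rpow); (focus (nm_side; done)))
  | ((with_reducible apply Ub.rpow_neg); (focus (nm_side; done)))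
  | ((with_reducible apply Ub.sub); (focus (nm_side; done)); (focus (nm_side; done)))))

syntax "nm" : tactic

macro "nm_l" : tactic => `(tactic| ((with_reducible refine (?_ : Lb _ _)); first
  | with_reducible assumption
  | ((with_reducible apply Eb.lb); (focus ((repeat' nm_e); done)))
  | with_reducible apply Lb.mul | with_reducible apply Lb.div
  | with_reducible apply Lb.inv | with_reducible apply Lb.pow | with_reducible apply Lb.sqrt
  | with_reducible apply Lb.max | with_reducible apply Lb.min | with_reducible apply Lb.ofNat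
  | ((with_reducible apply Lb.add); (focus (nm; done)); (focus (nm; done)))
  | ((with_reducible apply Lb.add_l); (focus (nm_side; done)); (focus (nm; done)))
  | ((with_reducible apply Lb.add_r); (focus (nm_side; done)))
  | ((with_reducible apply Lb.rpow); (focus (nm_side; done)))
  | ((with_reducible apply Lb.rpow_neg); (focus (nm_side; done)))
  | ((with_reducible apply Lb.sub); (focus (nm_side; done)))))

macro "nm_p" : tactic => `(tactic| ((with_reducible refine (?_ : (0 : ℝ) < _)); first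
  | assumption | positivity | apply Lb.pos))

macro_rules | `(tactic| nm) => `(tactic| repeat' first | nm_u | nm_l | nm_e | nm_p)

theorem sub_min' (a b c : ℝ) : a - min b c = max (a - b) (a - c) := (max_sub_sub_left a b c).symm
theorem max_sub' (a b c : ℝ) : max a b - c = max (a - c) (b - c) := (max_sub_sub_right a b c).symm
theorem neg_min' (a b : ℝ) : -min a b = max (-a) (-b) := (max_neg_neg a b).symm
theorem min_sub' (a b c : ℝ) : min a b - c = min (a - c) (b - c) := (min_sub_sub_right a b c).symm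

/-- splits an inequality between exponents into linear ones -/
macro "nm_split" : tactic => `(tactic|
  ((try simp (disch := nm_side) only [add_max, max_add, max_sub', sub_min', neg_min',
      mul_max_of_nonneg, max_le_iff, max_lt_iff, Nat.cast_ofNat, Nat.cast_one, Nat.cast_add]);
    (repeat' apply And.intro)))

macro "nm_lin" : tactic => `(tactic| first
  | linarith
  | ((simp only [max_def, min_def]); (split_ifs) <;> linarith))

/-- proves `f ≤ g`, `f < g`, `Ub f a` or `Lb f a` (given exponent) -/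
macro "num" : tactic => `(tactic|
  ((first
    | ((with_reducible refine (?_ : Ub _ _)); apply Ub.mono; (focus (nm; done)))
    | ((with_reducible refine (?_ : Lb _ _)); apply Lb.mono; (focus (nm; done)))
    | ((first | apply le_of | apply lt_of); (focus (nm; done)); (focus (nm; done))));
   nm_split; all_goals nm_lin))

/-- the same, leaving the linear goals -/
macro "num?" : tactic => `(tactic|
  ((first
    | ((with_reducible refine (?_ : Ub _ _)); apply Ub.mono)
    | ((with_reducible refine (?_ : Lb _ _)); apply Lb.mono)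
    | ((first | apply le_of | apply lt_of); (focus nm))); (focus nm)))

example (n t B k l s u : ℝ) (hn : Eb n l) (ht : Eb t (-s)) (hB : Ub B u) (hB' : Lb B 0) (_k0 : 0 ≤ k)
    (h1 : 1000 ≤ u) (h2 : 1000 * u ≤ k * s) (h3 : k * s ≤ s / 100) (h4 : s ≤ 2 / 3 * l) :
    3 * (B * n * t ^ (1 + k) + 2 * (B / t) ^ 2 * t ^ 3 + √(B * t) * max t (B * t ^ 2)) / (B + 1) ≤
      n * √t / B := by
  num

end Crest.Agent.T157.Nm
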