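import Crest.Agent.T157.CascC_52

/-!
# Row 157: cascades — products, shared levels, relabelling, zero / merged / annealed levels (helper52)
-/

set_option autoImplicit false
set_option linter.unusedSectionVars false

noncomputable section

namespace Crest.Agent.T157.Casc.C

open MeasureTheory Real
open Crest.Agent.T157.E Crest.Agent.T157.SL Crest.Agent.T157.Casc
open Crest.Agent.R339.Guerra (mp_int mp_sum)

variable {Ω Ω' : Type*} [Fintype Ω] [Fintype Ω']

/-! ### products -/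

section prod
variable {N : Type} [Fintype N] [DecidableEq N] {S : Type*} [Fintype S]

/-- independent copies of a level at every site -/
def prodLv (N : Type) [Fintype N] (l : Lv S) : Lv (N → S) :=
  ⟨N × l.ι, fun x p => l.A (x p.1) p.2, l.m⟩

/-- additive states -/
def pe (hs : N → S → ℝ) : (N → S) → ℝ := fun x => ∑ i, hs i (x i)

/-- product weights -/
def pw (w : N → S → ℝ) : (N → S) → ℝ := fun x => ∏ i, w i (x i)

@[simp] lemma prodLv_m (l : Lv S) : (prodLv N l).m = l.m := rfl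

lemma prodLv_cov (l : Lv S) (x y : N → S) : (prodLv N l).cov x y = ∑ i, l.cov (x i) (y i) := by
  show ∑ p : N × l.ι, l.A (x p.1) p.2 * l.A (y p.1) p.2 = _
  rw [Fintype.sum_prod_type]
  rfl

lemma pe_zero : pe (fun (_ : N) => (0 : S → ℝ)) = 0 := by funext x; simp [pe]

lemma pe_add_fld (l : Lv S) (hs : N → S → ℝ) (g : N × l.ι → ℝ) :
    pe hs + (prodLv N l).fld g = pe fun i => hs i + l.fld fun j => g (i, j) := by
  funext x
  show ∑ i, hs i (x i) + ∑ p : N × l.ι, l.A (x p.1) p.2 * g p = _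
  rw [Fintype.sum_prod_type, ← Finset.sum_add_distrib]
  rfl

lemma sum_pw (w : N → S → ℝ) : ∑ x, pw w x = ∏ i, ∑ s, w i s := by
  rw [Finset.prod_univ_sum, Fintype.piFinset_univ]
  rfl

lemma wt_pw {w : N → S → ℝ} (hw : ∀ i, Wt (w i)) : Wt (pw w) :=
  ⟨fun x => Finset.prod_nonneg fun i _ => (hw i).nn _, by
    rw [sum_pw]; exact Finset.prod_pos fun i _ => (hw i).pos⟩

lemma pw_mul_exp (w hs : N → S → ℝ) :
    (fun x => pw w x * exp (pe hs x)) = pw fun i s => w i s * exp (hs i s) := by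
  funext x
  simp only [pw, pe, exp_sum, Finset.prod_mul_distrib]

lemma prob_pw (w : N → S → ℝ) (x : N → S) : prob (pw w) x = ∏ i, prob (w i) (x i) := by
  simp only [prob, sum_pw, Finset.prod_div_distrib]
  rfl

lemma int_prod {ι : Type} [Fintype ι] (f : N → (ι → ℝ) → ℝ) :
    ∫ g, ∏ i, f i (fun j => g (i, j)) ∂gv (N × ι) = ∏ i, ∫ g, f i g ∂gv ι := by
  have h : MeasurePreserving (MeasurableEquiv.curry N ι ℝ) (gv (N × ι))
      (Measure.pi fun _ : N => gv ι) :=
    ⟨(MeasurableEquiv.curry N ι ℝ).measurable, Crest.Agent.R166.Gauss286.gv_map_curry⟩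
  rw [← integral_fintype_prod_eq_prod, ← h.integral_comp']
  rfl

lemma mp_row {ι : Type} [Fintype ι] (i : N) :
    MeasurePreserving (fun (g : N × ι → ℝ) j => g (i, j)) (gv (N × ι)) (gv ι) :=
  Crest.Agent.R339.Guerra.mp_comp (fun j => (i, j)) fun _ _ h => (Prod.ext_iff.1 h).2

variable {F : ((N → S) → ℝ) → ℝ} {Fi : N → (S → ℝ) → ℝ}

lemma int_exp_prod (l : Lv S) (hF : ∀ hs, F (pe hs) = ∑ i, Fi i (hs i))
    {Φ : ((N → S) → ℝ) → ℝ} {Φi : N → (S → ℝ) → ℝ} (hΦ : ∀ hs, Φ (pe hs) = ∏ i, Φi i (hs i))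
    (hs : N → S → ℝ) :
    ∫ g, exp (l.m * F (pe hs + (prodLv N l).fld g)) * Φ (pe hs + (prodLv N l).fld g)
        ∂gv (N × l.ι) =
      ∏ i, ∫ g, exp (l.m * Fi i (hs i + l.fld g)) * Φi i (hs i + l.fld g) ∂gv l.ι := by
  rw [← int_prod]
  refine integral_congr_ae (Filter.Eventually.of_forall fun g => ?_)
  simp only [pe_add_fld, hF, hΦ, Finset.mul_sum, exp_sum, Finset.prod_mul_distrib]

lemma step_prod (l : Lv S) (hFi : ∀ i, Lp (Fi i)) (hF : ∀ hs, F (pe hs) = ∑ i, Fi i (hs i))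
    (hs : N → S → ℝ) : step (prodLv N l) F (pe hs) = ∑ i, step l (Fi i) (hs i) := by
  by_cases hm : l.m = 0
  · rw [step_zero (l := prodLv N l) hm]
    simp only [step_zero hm]
    have : ∀ i, Integrable (fun g : N × l.ι → ℝ => Fi i (hs i + l.fld fun j => g (i, j)))
        (gv (N × l.ι)) := fun i =>
      (mp_row i).integrable_comp_of_integrable ((hFi i).int l (hs i))
    show ∫ g, F (pe hs + (prodLv N l).fld g) ∂gv (N × l.ι) = _
    simp only [pe_add_fld, hF]
    rw [integral_finsetSum _ fun i _ => this i]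
    exact Finset.sum_congr rfl fun i _ => mp_int (mp_row i)
      (f := fun g => Fi i (hs i + l.fld g)) ((hFi i).int l (hs i)).aestronglyMeasurable
  · rw [step_ne (l := prodLv N l) hm]
    simp only [step_ne hm]
    have := int_exp_prod l hF (Φ := fun _ => 1) (Φi := fun _ _ => 1) (by simp) hs
    simp only [mul_one] at this
    show l.m⁻¹ * log (∫ g, exp (l.m * F (pe hs + (prodLv N l).fld g)) ∂gv (N × l.ι)) = _
    rw [this, log_prod fun i _ => ((hFi i).pos l _ _).ne', Finset.mul_sum]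

lemma tE_prod (l : Lv S) (hF : ∀ hs, F (pe hs) = ∑ i, Fi i (hs i))
    {Φ : ((N → S) → ℝ) → ℝ} {Φi : N → (S → ℝ) → ℝ} (hΦ : ∀ hs, Φ (pe hs) = ∏ i, Φi i (hs i))
    (hs : N → S → ℝ) : tE (prodLv N l) F Φ (pe hs) = ∏ i, tE l (Fi i) (Φi i) (hs i) := by
  have h1 := int_exp_prod l hF (Φ := fun _ => 1) (Φi := fun _ _ => 1) (by simp) hs
  simp only [mul_one] at h1
  have h2 := int_exp_prod l hF hΦ hs
  simp only [tE, Finset.prod_div_distrib]
  rw [← h1, ← h2]
  rfl

variable {w : N → S → ℝ}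

/-- decoupling over sites (or independent replicas) -/
theorem X_prod (hw : ∀ i, Wt (w i)) : ∀ (L : List (Lv S)) (hs : N → S → ℝ),
    X (pw w) (L.map (prodLv N)) (pe hs) = ∑ i, X (w i) L (hs i)
  | [], hs => by
      have := sum_pw fun i s => w i s * exp (hs i s)
      rw [← pw_mul_exp] at this
      simp only [List.map_nil, X]
      rw [this, log_prod fun i _ => (sum_exp_pos (hw i) _).ne']
  | l :: L, hs => step_prod l (fun i => lp_X (hw i) L) (X_prod hw L) hs

theorem node_prod (hw : ∀ i, Wt (w i)) {Φ : ((N → S) → ℝ) → ℝ} {Φi : N → (S → ℝ) → ℝ}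
    (hΦ : ∀ hs, Φ (pe hs) = ∏ i, Φi i (hs i)) : ∀ (L : List (Lv S)) (j : ℕ) (hs : N → S → ℝ),
    node (pw w) (L.map (prodLv N)) j Φ (pe hs) = ∏ i, node (w i) L j (Φi i) (hs i)
  | L, 0, hs => by simpa using hΦ hs
  | [], j + 1, hs => by simpa using hΦ hs
  | l :: L, j + 1, hs => by
      simp only [List.map_cons, node_cons]
      exact tE_prod l (X_prod hw L) (node_prod hw hΦ L j) hs

theorem P_prod (hw : ∀ i, Wt (w i)) (x : N → S) : ∀ (L : List (Lv S)) (hs : N → S → ℝ),
    P (pw w) (L.map (prodLv N)) (pe hs) x = ∏ i, P (w i) L (hs i) (x i)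
  | [], hs => by
      simp only [List.map_nil, P]
      rw [pw_mul_exp, prob_pw]
  | l :: L, hs => by
      simp only [List.map_cons, P]
      exact tE_prod l (X_prod hw L) (P_prod hw x L) hs

/-- an observable of one site -/
theorem node_prod_site (hw : ∀ i, Wt (w i)) (i : N) {Φ : ((N → S) → ℝ) → ℝ} {Φ0 : (S → ℝ) → ℝ}
    (hΦ : ∀ hs, Φ (pe hs) = Φ0 (hs i)) (L : List (Lv S)) (j : ℕ) (hs : N → S → ℝ) :
    node (pw w) (L.map (prodLv N)) j Φ (pe hs) = node (w i) L j Φ0 (hs i) := by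
  rw [node_prod hw (Φi := fun i' => if i' = i then Φ0 else fun _ => 1) ?_ L j hs,
    Finset.prod_eq_single i]
  · simp
  · intro i' _ h
    simp [h, node_const (hw i')]
  · simp
  · intro hs
    rw [hΦ, Finset.prod_eq_single i]
    · simp
    · intro i' _ h; simp [h]
    · simp

end prod

/-! ### shared levels -/

section shared
variable {κ : Type} [Fintype κ] [DecidableEq κ] {S : Type*} [Fintype S]

/-- a level shared by the replicas `κ`: the same Gaussian vector, exponent `m / |κ|` -/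
def shLv (κ : Type) [Fintype κ] (l : Lv S) : Lv (κ → S) :=
  ⟨l.ι, fun x i => ∑ a, l.A (x a) i, l.m / Fintype.card κ⟩

/-- the state of the replicated system -/
def dup (κ : Type) [Fintype κ] (h : S → ℝ) : (κ → S) → ℝ := pe fun _ => h

lemma shLv_cov (l : Lv S) (x y : κ → S) :
    (shLv κ l).cov x y = ∑ a, ∑ b, l.cov (x a) (y b) := by
  show ∑ i : l.ι, (∑ a, l.A (x a) i) * (∑ b, l.A (y b) i) = _
  simp only [Finset.sum_mul_sum, Lv.cov]
  rw [Finset.sum_comm]
  exact Finset.sum_congr rfl fun a _ => Finset.sum_comm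

lemma dup_add_fld (l : Lv S) (h : S → ℝ) (g : l.ι → ℝ) :
    dup κ h + (shLv κ l).fld g = dup κ (h + l.fld g) := by
  funext x
  show ∑ a, h (x a) + ∑ i : l.ι, (∑ a, l.A (x a) i) * g i = ∑ a, (h (x a) + ∑ i, l.A (x a) i * g i)
  simp only [Finset.sum_mul, Finset.sum_add_distrib]
  rw [Finset.sum_comm]

lemma rel_sh [Nonempty κ] (l : Lv S) : Rel (dup κ) (Fintype.card κ) (shLv κ l) l :=
  ⟨div_mul_cancel₀ _ (by exact_mod_cast Fintype.card_ne_zero), fun h G _ => by
    simp only [← dup_add_fld]; rfl⟩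

lemma forall₂_sh [Nonempty κ] (L : List (Lv S)) :
    List.Forall₂ (Rel (dup κ) (Fintype.card κ)) (L.map (shLv κ)) L := by
  induction L with
  | nil => exact .nil
  | cons l L ih => exact .cons (rel_sh l) ih

lemma X_dup {w : S → ℝ} (hw : Wt w) (M : List (Lv S)) (h : S → ℝ) :
    X (pw fun _ : κ => w) (M.map (prodLv κ)) (dup κ h) = Fintype.card κ * X w M h + 0 := by
  rw [dup, X_prod fun _ => hw]
  simp

/-- replicas sharing the levels `L`, independent on the levels `M` -/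
theorem X_shared [Nonempty κ] {w : S → ℝ} (hw : Wt w) (L M : List (Lv S)) (h : S → ℝ) :
    X (pw fun _ : κ => w) (L.map (shLv κ) ++ M.map (prodLv κ)) (dup κ h) =
      Fintype.card κ * X w (L ++ M) h := by
  simpa using X_transfer (wt_pw fun _ => hw) hw (by exact_mod_cast Fintype.card_ne_zero)
    (X_dup hw M) (forall₂_sh L) h

theorem node_shared [Nonempty κ] {w : S → ℝ} (hw : Wt w) (L M : List (Lv S)) {j : ℕ}
    (hj : j ≤ L.length) {Φ : ((κ → S) → ℝ) → ℝ} (hΦ : Measurable Φ) (h : S → ℝ) :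
    node (pw fun _ : κ => w) (L.map (shLv κ) ++ M.map (prodLv κ)) j Φ (dup κ h) =
      node w (L ++ M) j (fun h' => Φ (dup κ h')) h :=
  node_transfer (wt_pw fun _ => hw) hw (by exact_mod_cast Fintype.card_ne_zero)
    (X_dup hw M) (forall₂_sh L) (by simpa using hj) hΦ h

theorem P_shared [Nonempty κ] {w : S → ℝ} (hw : Wt w) (L M : List (Lv S)) (h : S → ℝ)
    (x : κ → S) :
    P (pw fun _ : κ => w) (L.map (shLv κ) ++ M.map (prodLv κ)) (dup κ h) x =
      node w (L ++ M) L.length (fun h' => ∏ a, P w M h' (x a)) h := by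
  rw [P_transfer (wt_pw fun _ => hw) hw (by exact_mod_cast Fintype.card_ne_zero)
    (X_dup hw M) (forall₂_sh L) h x, List.length_map]
  congr 1
  funext h'
  exact P_prod (fun _ => hw) x M _

end shared

/-! ### relabelling -/

section comap

/-- a level read through a map -/
def coLv (ρ : Ω → Ω') (l : Lv Ω') : Lv Ω := ⟨l.ι, fun x => l.A (ρ x), l.m⟩

open Classical in
/-- push-forward of a weight -/
def push (ρ : Ω → Ω') (w : Ω → ℝ) (y : Ω') : ℝ := ∑ x, if ρ x = y then w x else 0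

lemma coLv_cov (ρ : Ω → Ω') (l : Lv Ω') (x y : Ω) : (coLv ρ l).cov x y = l.cov (ρ x) (ρ y) := rfl

lemma sum_push (ρ : Ω → Ω') (w : Ω → ℝ) (f : Ω' → ℝ) :
    ∑ y, push ρ w y * f y = ∑ x, w x * f (ρ x) := by
  classical
  simp only [push, Finset.sum_mul]
  rw [Finset.sum_comm]
  refine Finset.sum_congr rfl fun x _ => ?_
  rw [Finset.sum_eq_single (ρ x)]
  · simp
  · intro y _ h; simp [Ne.symm h]
  · simp

lemma wt_push (ρ : Ω → Ω') {w : Ω → ℝ} (hw : Wt w) : Wt (push ρ w) :=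
  ⟨fun y => Finset.sum_nonneg fun x _ => by split_ifs; exacts [hw.nn x, le_rfl], by
    have := sum_push ρ w fun _ => 1
    simp only [mul_one] at this
    rw [this]; exact hw.pos⟩

lemma push_equiv (ρ : Ω ≃ Ω') (w : Ω → ℝ) : push ρ w = fun y => w (ρ.symm y) := by
  funext y
  rw [push, Finset.sum_eq_single (ρ.symm y)]
  · simp
  · intro x _ h
    rw [if_neg]
    rintro rfl
    simp at h
  · simp

lemma rel_co (ρ : Ω → Ω') (l : Lv Ω') : Rel (fun h x => h (ρ x)) 1 (coLv ρ l) l :=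
  ⟨mul_one _, fun _ _ _ => rfl⟩

lemma forall₂_co (ρ : Ω → Ω') (L : List (Lv Ω')) :
    List.Forall₂ (Rel (fun h x => h (ρ x)) 1) (L.map (coLv ρ)) L := by
  induction L with
  | nil => exact .nil
  | cons l L ih => exact .cons (rel_co ρ l) ih

lemma X_nil_co (ρ : Ω → Ω') (w : Ω → ℝ) (h : Ω' → ℝ) :
    X w [] (fun x => h (ρ x)) = 1 * X (push ρ w) [] h + 0 := by
  simp only [X, sum_push ρ w fun y => exp (h y), one_mul, add_zero]

theorem X_co (ρ : Ω → Ω') {w : Ω → ℝ} (hw : Wt w) (L : List (Lv Ω')) (h : Ω' → ℝ) :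
    X w (L.map (coLv ρ)) (fun x => h (ρ x)) = X (push ρ w) L h := by
  simpa using X_transfer hw (wt_push ρ hw) one_ne_zero (X_nil_co ρ w) (forall₂_co ρ L) h

theorem node_co (ρ : Ω → Ω') {w : Ω → ℝ} (hw : Wt w) (L : List (Lv Ω')) {j : ℕ}
    (hj : j ≤ L.length) {Φ : (Ω → ℝ) → ℝ} (hΦ : Measurable Φ) (h : Ω' → ℝ) :
    node w (L.map (coLv ρ)) j Φ (fun x => h (ρ x)) =
      node (push ρ w) L j (fun h' => Φ fun x => h' (ρ x)) h := by
  simpa using node_transfer hw (wt_push ρ hw) one_ne_zero (X_nil_co ρ w) (forall₂_co ρ L)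
    (by simpa using hj) hΦ h

end comap

/-! ### zero levels and constant levels -/

lemma fld_of_zero {l : Lv Ω} (H : ∀ x i, l.A x i = 0) (g : l.ι → ℝ) : l.fld g = 0 := by
  funext x; simp [Lv.fld, H]

lemma step_of_zero {l : Lv Ω} (H : ∀ x i, l.A x i = 0) (F : (Ω → ℝ) → ℝ) : step l F = F := by
  funext h
  by_cases hm : l.m = 0
  · simp [step_zero hm, fld_of_zero H]
  · simp [step_ne hm, fld_of_zero H, hm]

lemma tE_of_zero {l : Lv Ω} (H : ∀ x i, l.A x i = 0) (F Φ : (Ω → ℝ) → ℝ) : tE l F Φ = Φ := by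
  funext h
  simp [tE, fld_of_zero H]

lemma X_of_zero (w : Ω → ℝ) {L : List (Lv Ω)} (H : ∀ l ∈ L, ∀ x i, l.A x i = 0)
    (M : List (Lv Ω)) : X w (L ++ M) = X w M := by
  induction L with
  | nil => rfl
  | cons l L ih =>
    rw [List.cons_append, X_cons, step_of_zero (H l (by simp)), ih fun l' h => H l' (by simp [h])]

lemma int_exp_lin {ι : Type} [Fintype ι] (a : ι → ℝ) :
    ∫ g, exp (∑ i, a i * g i) ∂gv ι = exp ((∑ i, a i * a i) / 2) := by
  simp only [exp_sum, Finset.sum_div]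
  rw [integral_fintype_prod_eq_prod (fun i x => exp (a i * x))]
  refine Finset.prod_congr rfl fun i _ => ?_
  have := ProbabilityTheory.mgf_id_gaussianReal (μ := 0) (v := 1)
  have h := congrFun this (a i)
  simp only [ProbabilityTheory.mgf, id] at h
  rw [h]
  congr 1
  simp
  ring

lemma integrable_exp_lin {ι : Type} [Fintype ι] (a : ι → ℝ) :
    Integrable (fun g : ι → ℝ => exp (∑ i, a i * g i)) (gv ι) :=
  Integrable.of_integral_ne_zero (by rw [int_exp_lin]; exact (exp_pos _).ne')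

lemma int_lin {ι : Type} [Fintype ι] (a : ι → ℝ) : ∫ g, ∑ i, a i * g i ∂gv ι = 0 := by
  rw [integral_finsetSum _ fun i _ => (Crest.Agent.R339.Guerra.integrable_coord i).const_mul _]
  simp [integral_const_mul, Crest.Agent.R339.Guerra.integral_coord]

/-- a level whose features do not depend on the configuration -/
lemma step_of_const {l : Lv Ω} {a : l.ι → ℝ} (H : ∀ x, l.A x = a) {F : (Ω → ℝ) → ℝ}
    (hF : ∀ h c, F (h + fun _ => c) = F h + c) (h : Ω → ℝ) :
    step l F h = F h + l.m * (∑ i, a i * a i) / 2 := by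
  have e : ∀ g, F (h + l.fld g) = F h + ∑ i, a i * g i := fun g => by
    rw [← hF]; congr 2; funext x; simp [Lv.fld, H]
  by_cases hm : l.m = 0
  · rw [step_zero hm]
    simp only [e]
    rw [integral_add (integrable_const _) (integrable_finsetSum _ fun i _ =>
      (Crest.Agent.R339.Guerra.integrable_coord i).const_mul _), int_lin]
    simp [hm]
  · rw [step_ne hm]
    have e2 : ∀ g, exp (l.m * F (h + l.fld g)) = exp (l.m * F h) * exp (∑ i, (l.m * a i) * g i) :=
      fun g => by rw [e, mul_add, exp_add, Finset.mul_sum]; simp only [mul_assoc]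
    simp only [e2]
    rw [integral_const_mul, int_exp_lin, ← exp_add, log_exp]
    have : ∑ i, l.m * a i * (l.m * a i) = l.m * (l.m * ∑ i, a i * a i) := by
      simp only [Finset.mul_sum]; exact Finset.sum_congr rfl fun i _ => by ring
    rw [this]
    field_simp

/-! ### the annealed level -/

lemma int_exp_fld (l : Lv Ω) (h : Ω → ℝ) (x : Ω) :
    ∫ g, exp ((h + l.fld g) x) ∂gv l.ι = exp (h x + l.cov x x / 2) := by
  simp only [Pi.add_apply, exp_add, Lv.fld, Lv.cov]
  rw [integral_const_mul, int_exp_lin]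

lemma integrable_exp_fld (l : Lv Ω) (h : Ω → ℝ) (x : Ω) :
    Integrable (fun g => exp ((h + l.fld g) x)) (gv l.ι) :=
  Integrable.of_integral_ne_zero (by rw [int_exp_fld]; exact (exp_pos _).ne')

lemma exp_X_nil {w : Ω → ℝ} (hw : Wt w) (h : Ω → ℝ) :
    exp (X w [] h) = ∑ x, w x * exp (h x) := exp_log (sum_exp_pos hw h)

lemma int_exp_X_nil {w : Ω → ℝ} (hw : Wt w) (l : Lv Ω) (h : Ω → ℝ) :
    ∫ g, exp (X w [] (h + l.fld g)) ∂gv l.ι = ∑ x, w x * exp (h x + l.cov x x / 2) := by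
  simp only [exp_X_nil hw]
  rw [integral_finsetSum _ fun x _ => (integrable_exp_fld l h x).const_mul _]
  simp only [integral_const_mul, int_exp_fld]

/-- a last level with exponent `1` is annealed -/
theorem X_annealed {w : Ω → ℝ} (hw : Wt w) {l : Lv Ω} (hm : l.m = 1) (h : Ω → ℝ) :
    X w [l] h = X w [] (h + fun x => l.cov x x / 2) := by
  rw [X_cons, step_ne (by rw [hm]; exact one_ne_zero), hm]
  simp only [inv_one, one_mul, int_exp_X_nil hw]
  rfl

theorem P_annealed {w : Ω → ℝ} (hw : Wt w) {l : Lv Ω} (hm : l.m = 1) (h : Ω → ℝ) (x : Ω) :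
    P w [l] h x = P w [] (h + fun x => l.cov x x / 2) x := by
  have e : ∀ h' : Ω → ℝ, exp (X w [] h') * P w [] h' x = w x * exp (h' x) := fun h' => by
    rw [exp_X_nil hw]
    simp only [P, prob]
    rw [mul_div_cancel₀ _ (sum_exp_pos hw h').ne']
  have : P w [l] h x = tE l (X w []) (fun h' => P w [] h' x) h := rfl
  rw [this, tE, hm]
  simp only [one_mul, e, int_exp_X_nil hw]
  rw [integral_const_mul, int_exp_fld]
  rfl

theorem X_annealed_const {w : Ω → ℝ} (hw : Wt w) {l : Lv Ω} (hm : l.m = 1) {v : ℝ}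
    (hv : ∀ x, l.cov x x = v) (h : Ω → ℝ) : X w [l] h = X w [] h + v / 2 := by
  rw [X_annealed hw hm, ← X_add_const hw]
  simp only [hv]

/-! ### merging two levels -/

/-- the sum of two independent levels (exponent of the first) -/
def addLv (l l' : Lv Ω) : Lv Ω := ⟨l.ι ⊕ l'.ι, fun x => Sum.elim (l.A x) (l'.A x), l.m⟩

lemma addLv_cov (l l' : Lv Ω) (x y : Ω) : (addLv l l').cov x y = l.cov x y + l'.cov x y := by
  show ∑ p : l.ι ⊕ l'.ι, Sum.elim (l.A x) (l'.A x) p * Sum.elim (l.A y) (l'.A y) p = _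
  rw [Fintype.sum_sum_type]
  rfl

lemma addLv_fld (l l' : Lv Ω) (g : l.ι → ℝ) (g' : l'.ι → ℝ) :
    (addLv l l').fld (Sum.elim g g') = l.fld g + l'.fld g' := by
  funext x
  show ∑ p : l.ι ⊕ l'.ι, Sum.elim (l.A x) (l'.A x) p * Sum.elim g g' p = _
  rw [Fintype.sum_sum_type]
  rfl

lemma int_addLv (l l' : Lv Ω) (h : Ω → ℝ) {G : (Ω → ℝ) → ℝ}
    (hG : Integrable (fun g => G (h + (addLv l l').fld g)) (gv (addLv l l').ι)) :
    ∫ g, G (h + (addLv l l').fld g) ∂gv (addLv l l').ι =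
      ∫ g, ∫ g', G (h + l.fld g + l'.fld g') ∂gv l'.ι ∂gv l.ι := by
  have h1 := mp_sum (ι := l.ι) (κ := l'.ι)
  have h2 := mp_int h1 hG.aestronglyMeasurable
  have h3 := h1.integrable_comp_of_integrable hG
  refine h2.symm.trans ((integral_prod _ h3).trans ?_)
  refine integral_congr_ae (Filter.Eventually.of_forall fun g => ?_)
  refine integral_congr_ae (Filter.Eventually.of_forall fun g' => ?_)
  show G (h + (addLv l l').fld (Sum.elim g g')) = G (h + l.fld g + l'.fld g')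
  rw [addLv_fld, add_assoc]

lemma exp_step {l : Lv Ω} (hm : l.m ≠ 0) {F : (Ω → ℝ) → ℝ} (hF : Lp F) (h : Ω → ℝ) :
    exp (l.m * step l F h) = ∫ g, exp (l.m * F (h + l.fld g)) ∂gv l.ι := by
  rw [step_ne hm, ← mul_assoc, mul_inv_cancel₀ hm, one_mul, exp_log (hF.pos l _ h)]

lemma int_exp_addLv {l l' : Lv Ω} (H : l.m = l'.m) {F : (Ω → ℝ) → ℝ} (hF : Lp F) (h : Ω → ℝ) :
    ∫ g, exp (l.m * F (h + (addLv l l').fld g)) ∂gv (addLv l l').ι =
      ∫ g, exp (l.m * step l' F (h + l.fld g)) ∂gv l.ι := by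
  rw [int_addLv l l' h (G := fun h => exp (l.m * F h)) (hF.int_exp _ _ _)]
  by_cases hm : l.m = 0
  · simp [hm]
  · simp only [H] at hm ⊢
    simp only [exp_step hm hF]

theorem step_addLv {l l' : Lv Ω} (H : l.m = l'.m) {F : (Ω → ℝ) → ℝ} (hF : Lp F) :
    step (addLv l l') F = step l (step l' F) := by
  funext h
  by_cases hm : l.m = 0
  · rw [step_zero (l := addLv l l') hm, step_zero hm, int_addLv l l' h (hF.int _ _)]
    simp only [step_zero (H ▸ hm : l'.m = 0)]
  · rw [step_ne (l := addLv l l') hm, step_ne hm, ← int_exp_addLv H hF]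
    rfl

theorem tE_addLv {l l' : Lv Ω} (H : l.m = l'.m) {F Φ : (Ω → ℝ) → ℝ} (hF : Lp F) (h : Ω → ℝ)
    (hΦ : Integrable (fun g => exp (l.m * F (h + (addLv l l').fld g)) *
      Φ (h + (addLv l l').fld g)) (gv (addLv l l').ι)) :
    tE (addLv l l') F Φ h = tE l (step l' F) (tE l' F Φ) h := by
  have h1 := int_addLv l l' h (G := fun h => exp (l.m * F h) * Φ h) hΦ
  have h2 := int_exp_addLv H hF h
  show (∫ g, exp (l.m * F (h + (addLv l l').fld g)) * Φ (h + (addLv l l').fld g)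
    ∂gv (addLv l l').ι) / (∫ g, exp (l.m * F (h + (addLv l l').fld g)) ∂gv (addLv l l').ι) = _
  rw [h1, h2, tE]
  congr 1
  refine integral_congr_ae (Filter.Eventually.of_forall fun g => ?_)
  by_cases hm : l.m = 0
  · simp [hm, tE_zero (H ▸ hm : l'.m = 0)]
  · simp only [H] at hm ⊢
    rw [exp_step hm hF, tE, mul_div_cancel₀ _ (hF.pos l' _ _).ne']

theorem X_addLv {w : Ω → ℝ} (hw : Wt w) {l l' : Lv Ω} (H : l.m = l'.m) (L : List (Lv Ω)) :
    X w (addLv l l' :: L) = X w (l :: l' :: L) := step_addLv H (lp_X hw L)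

/-- splitting a level into two levels with the same exponent -/
theorem X_split {w : Ω → ℝ} (hw : Wt w) {l l1 l2 : Lv Ω} (h1 : l.m = l1.m) (h2 : l1.m = l2.m)
    (hc : ∀ x y, l.cov x y = l1.cov x y + l2.cov x y) (L : List (Lv Ω)) :
    X w (l :: L) = X w (l1 :: l2 :: L) := by
  rw [← X_addLv hw h2, X_cons, X_cons]
  exact Same.step (l := l) (l' := addLv l1 l2)
    ⟨h1, by funext x y; exact (hc x y).trans (addLv_cov l1 l2 x y).symm⟩ (lp_X hw L)

/-- lists with the same value below a common prefix -/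
theorem X_append_congr (w : Ω → ℝ) {M M' : List (Lv Ω)} (H : X w M = X w M') :
    ∀ L : List (Lv Ω), X w (L ++ M) = X w (L ++ M')
  | [] => H
  | l :: L => by rw [List.cons_append, List.cons_append, X_cons, X_cons, X_append_congr w H L]

/-- comparison below a common prefix -/
theorem X_append_le {w w' : Ω → ℝ} (hw : Wt w) (hw' : Wt w') {M M' : List (Lv Ω)} {c : ℝ}
    (H : ∀ h, X w M h ≤ X w' M' h + c) :
    ∀ (L : List (Lv Ω)) (h : Ω → ℝ), X w (L ++ M) h ≤ X w' (L ++ M') h + c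
  | [], h => H h
  | l :: L, _ => step_le (lp_X hw _) (lp_X hw' _) l fun _ => X_append_le hw hw' H L _

end Crest.Agent.T157.Casc.C

end
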