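import Crest.Agent.T157.CascDef_65
import Crest.Agent.R339.Var71I

/-!
# Row 157, part D: Guerra interpolation with remainder, definitions and statements (helper52)

Standard words: a list `ℓ` of blocks `(exponent, variance)`, `Adm 1 ℓ`, `TT ℓ = β²`
(for instance `P.lst β P.K` of `PfDef_56`).
-/

set_option autoImplicit false

noncomputable section

namespace Crest.Agent.T157.G1

open MeasureTheory Real
open Crest.Agent.T157.E Crest.Agent.T157.Casc Crest.Agent.T157.SL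
open Crest.Agent.R339.B Crest.Agent.R339.Var
open Crest.Agent.R339.Guerra (pen)
open Crest.ProbabilityR.SpinGlassDynamics

variable {n : ℕ}

/-- a level with the features multiplied by `s` -/
abbrev sc {Ω : Type*} (s : ℝ) (l : Lv Ω) : Lv Ω := ⟨l.ι, fun x i => s * l.A x i, l.m⟩

/-- normalised overlap -/
def ov (x y : Cube n) : ℝ := sv x ⬝ᵥ sv y / n

/-- external fields: exponent `p.1`, variance `s² p.2` at every site -/
abbrev fl (n : ℕ) (s : ℝ) (p : ℝ × ℝ) : Lv (Cube n) :=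
  ⟨Fin n, fun x i => s * √p.2 * sv x i, p.1⟩

/-- the field levels -/
def FL (n : ℕ) (s : ℝ) (ℓ : List (ℝ × ℝ)) : List (Lv (Cube n)) := ℓ.map (fl n s)

/-- the overlap `q_j` after `j` blocks -/
def qs (β : ℝ) (ℓ : List (ℝ × ℝ)) (j : ℕ) : ℝ := TT (ℓ.take j) / β ^ 2

/-- an SK level: plain expectation, covariance `β² n R² / 2` up to a constant -/
structure IsJ (β : ℝ) (J : Lv (Cube n)) : Prop where
  m : J.m = 0
  cov : ∃ c0, ∀ x y, J.cov x y = β ^ 2 * n / 2 * ov x y ^ 2 - c0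

/-- the SK level on pairs: `gibbsWeight n β g x = exp ((Jp n β).fld g x)` -/
abbrev Jp (n : ℕ) (β : ℝ) : Lv (Cube n) :=
  ⟨Pair n, fun x p => β / √n * (sv x p.1.1 * sv x p.1.2), 0⟩

/-- the GOE level: `(Jw n β).fld g x = β / 2 * (sv x ⬝ᵥ symG (1/√n) g *ᵥ sv x)` -/
abbrev Jw (n : ℕ) (β : ℝ) : Lv (Cube n) :=
  ⟨Fin n × Fin n, fun x p => β / 2 * (√2 / √n) * (sv x p.1 * sv x p.2), 0⟩

/-- the correction per site and unit time -/
def cor (β : ℝ) (ℓ : List (ℝ × ℝ)) : ℝ := pen 0 ℓ / (4 * β ^ 2)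

/-- the Parisi functional (free energy per site) -/
def val (β : ℝ) (ℓ : List (ℝ × ℝ)) : ℝ := PhiL 1 ℓ 0 - cor β ℓ

/-- the levels at time `t ∈ [a,1]` -/
def Lt (J : Lv (Cube n)) (ℓ : List (ℝ × ℝ)) (a t : ℝ) : List (Lv (Cube n)) :=
  sc √(t - a) J :: FL n √(1 - t) ℓ

/-- the interpolating free energy -/
def phi (J : Lv (Cube n)) (w : Cube n → ℝ) (ℓ : List (ℝ × ℝ)) (a t : ℝ) (h : Cube n → ℝ) : ℝ :=
  X w (Lt J ℓ a t) h

/-- the remainder for a frozen Hamiltonian `h`: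
`∑_{j ≤ K} (ζ_j - ζ_{j-1}) pi2 j ((R - q_j)²)`, `ζ_{-1} = 0`, `ζ_K = 1` -/
def rem (w : Cube n → ℝ) (β s : ℝ) (ℓ : List (ℝ × ℝ)) (h : Cube n → ℝ) : ℝ :=
  pair w (FL n s ℓ) 0 (fun j x y => (ov x y - qs β ℓ j) ^ 2) h

/-- the remainder at time `t` -/
def Rem (J : Lv (Cube n)) (w : Cube n → ℝ) (β : ℝ) (ℓ : List (ℝ × ℝ)) (a t : ℝ)
    (h : Cube n → ℝ) : ℝ :=
  ∫ g, rem w β √(1 - t) ℓ (h + √(t - a) • J.fld g) ∂gv J.ι

/-- `E log ∑ w exp (h + s H)` -/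
def Fe (J : Lv (Cube n)) (w : Cube n → ℝ) (s : ℝ) (h : Cube n → ℝ) : ℝ :=
  ∫ g, log (∑ x, w x * exp (h x + s * J.fld g x)) ∂gv J.ι

/-- the Guerra gap on `[1-d,1]` for the frozen part `h` of the Hamiltonian -/
def Y (J : Lv (Cube n)) (w : Cube n → ℝ) (β : ℝ) (ℓ : List (ℝ × ℝ)) (d : ℝ) (h : Cube n → ℝ) : ℝ :=
  X w (FL n √d ℓ) h - d * (n * cor β ℓ) - Fe J w √d h

/-- **Guerra interpolation in the last part of the disorder** -/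
structure G1 (β : ℝ) (J : Lv (Cube n)) (ℓ : List (ℝ × ℝ)) : Prop where
  /-- the derivative -/
  der : ∀ w, Wt w → ∀ a t h, a < t → t < 1 → HasDerivAt (fun t => phi J w ℓ a t h)
    (-(n * cor β ℓ) - β ^ 2 * n / 4 * Rem J w β ℓ a t h) t
  cont : ∀ w, Wt w → ∀ a h, ContinuousOn (fun t => phi J w ℓ a t h) (Set.Icc a 1)
  rem_nonneg : ∀ w : Cube n → ℝ, Wt w → ∀ s h, 0 ≤ rem w β s ℓ h
  rem_le : ∀ w : Cube n → ℝ, Wt w → ∀ s h, rem w β s ℓ h ≤ 4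
  /-- one time for a frozen `h` -/
  mvt : ∀ w, Wt w → ∀ d, 0 < d → ∀ h, ∃ t ∈ Set.Ioo (1 - d) 1,
    Y J w β ℓ d h = d * (β ^ 2 * n / 4 * Rem J w β ℓ (1 - d) t h)
  /-- one time for a random `h` (random weight included: `w e^f` is `h + f`) -/
  mvt_avg : ∀ w, Wt w → ∀ d, 0 < d → ∀ (Θ : Type) [MeasurableSpace Θ] (μ : Measure Θ)
    [IsProbabilityMeasure μ] (h : Θ → Cube n → ℝ), Measurable h → Integrable h μ →
    ∃ t ∈ Set.Ioo (1 - d) 1, ∫ θ, Y J w β ℓ d (h θ) ∂μ =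
      d * (β ^ 2 * n / 4 * ∫ θ, Rem J w β ℓ (1 - d) t (h θ) ∂μ)
  Y_nonneg : ∀ w, Wt w → ∀ d, 0 ≤ d → ∀ h, 0 ≤ Y J w β ℓ d h
  /-- restricting the weight costs the restricted free energy -/
  Y_le : ∀ w w', Wt w → Wt w' → (∀ x, w x ≤ w' x) → ∀ d h,
    Y J w β ℓ d h ≤ Y J w' β ℓ d h + (Fe J w' √d h - Fe J w √d h)
  /-- Guerra's bound at any time -/
  phi_le : ∀ t, 0 ≤ t → t ≤ 1 → phi J (fun _ => 1) ℓ 0 t 0 ≤ n * (PhiL 1 ℓ 0 - t * cor β ℓ)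
  /-- the mean gap -/
  avg : ∀ d, 0 ≤ d → d ≤ 1 →
    Integrable (fun g => Y J (fun _ => 1) β ℓ d (√(1 - d) • J.fld g)) (gv J.ι) ∧
    ∫ g, Y J (fun _ => 1) β ℓ d (√(1 - d) • J.fld g) ∂gv J.ι ≤
      n * val β ℓ - ∫ g, log (∑ x, exp (J.fld g x)) ∂gv J.ι

/-- the statement -/
def G1Stmt : Prop :=
  ∀ (n : ℕ), 0 < n → ∀ β : ℝ, 0 < β → ∀ J : Lv (Cube n), IsJ β J →
    ∀ ℓ : List (ℝ × ℝ), Adm 1 ℓ → TT ℓ = β ^ 2 → G1 β J ℓ

end Crest.Agent.T157.G1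

end
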