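import Crest.Agent.T157.EdBase_88

/-!
# Row 157, part E: eigenvalue bounds from the two-sided bound of the form (helper6)

Lower bound: Dirichlet constraints at the points `j p`; upper bound: disjoint tents.
-/

set_option autoImplicit false

noncomputable section

namespace Crest.Agent.T157.Ed

open Matrix Finset
open Crest.Agent.T157.Eig

namespace Cnt

lemma sum_blocks (F : ℕ → ℝ) (q K : ℕ) :
    ∑ i ∈ range (K * q), F i = ∑ j ∈ range K, ∑ r ∈ range q, F (j * q + r) := by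
  induction K with
  | zero => simp
  | succ K ih => rw [Nat.succ_mul, sum_range_add, ih, sum_range_succ]

/-- Poincaré inequality on a block starting at a zero -/
lemma block_le (w : ℕ → ℝ) (h0 : w 0 = 0) (p : ℕ) :
    ∑ r ∈ range p, w r ^ 2 ≤ (p : ℝ) ^ 2 * ∑ r ∈ range p, (w (r + 1) - w r) ^ 2 := by
  have h1 : ∀ r ∈ range p, w r ^ 2 ≤ p * ∑ r ∈ range p, (w (r + 1) - w r) ^ 2 := by
    intro r hr
    have hr' : r ≤ p := (mem_range.1 hr).le
    have h2 : w r = ∑ i ∈ range r, (w (i + 1) - w i) := by rw [sum_range_sub, h0, sub_zero]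
    have h3 := sq_sum_le_card_mul_sum_sq (s := range r) (f := fun i => w (i + 1) - w i)
    rw [← h2, card_range] at h3
    refine h3.trans (mul_le_mul (by exact_mod_cast hr') ?_ (sum_nonneg fun _ _ => sq_nonneg _)
      (Nat.cast_nonneg _))
    exact sum_le_sum_of_subset_of_nonneg (range_subset_range.2 hr') fun _ _ _ => sq_nonneg _
  refine (sum_le_card_nsmul _ _ _ h1).trans (le_of_eq ?_)
  rw [card_range, nsmul_eq_mul]; ring

lemma blocks_le (u : ℕ → ℝ) (p K : ℕ) (h : ∀ j, j < K → u (j * p) = 0) :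
    ∑ i ∈ range (K * p), u i ^ 2 ≤
      (p : ℝ) ^ 2 * ∑ i ∈ range (K * p), (u (i + 1) - u i) ^ 2 := by
  rw [sum_blocks, sum_blocks, mul_sum]
  exact sum_le_sum fun j hj => block_le (fun r => u (j * p + r)) (h j (mem_range.1 hj)) p

lemma sum_le_of_vanish {F : ℕ → ℝ} (h0 : ∀ i, 0 ≤ F i) {N : ℕ} (hN : ∀ i, N ≤ i → F i = 0)
    (M : ℕ) : ∑ i ∈ range M, F i ≤ ∑ i ∈ range N, F i := by
  rcases le_total M N with h | h
  · exact sum_le_sum_of_subset_of_nonneg (range_subset_range.2 h) fun i _ _ => h0 i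
  · exact (sum_subset (range_subset_range.2 h) fun i _ hi =>
      hN i (not_lt.1 fun h' => hi (mem_range.2 h'))).ge

/-- the lower bound of the energy under the Dirichlet constraints -/
lemma lower {n : ℕ} {s t : ℝ} (hs : 0 < s) (ht : 0 < t) {u : ℕ → ℝ} (hu : Adm n u) {p K : ℕ}
    (hK : t ^ 3 = K) (hp1 : s ^ 2 ≤ p * t) (hp2 : p * t ≤ 2 * s ^ 2)
    (h : ∀ j, j < K → u (j * p) = 0) : t ^ 2 / 4 * nrm n u ≤ kin n s u + pot n s u := by
  have hs2 : 0 < s ^ 2 := by positivity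
  set D := ∑ i ∈ range (n + 1), (u (i + 1) - u i) ^ 2 with hD
  have hD0 : 0 ≤ D := sum_nonneg fun _ _ => sq_nonneg _
  have h1 : ∑ i ∈ range (K * p), u i ^ 2 ≤ (p : ℝ) ^ 2 * D := by
    refine (blocks_le u p K h).trans (mul_le_mul_of_nonneg_left ?_ (sq_nonneg _))
    refine sum_le_of_vanish (fun _ => sq_nonneg _) (fun i hi => ?_) _
    rw [hu.2 i (by omega), hu.2 (i + 1) (by omega)]; simp
  have h2 : ∑ i ∈ range (n + 1), (if i < K * p then u i ^ 2 else 0) ≤
      ∑ i ∈ range (K * p), u i ^ 2 := by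
    refine (sum_le_of_vanish (F := fun i => if i < K * p then u i ^ 2 else 0) (N := K * p)
      (fun i => ?_) (fun i hi => if_neg (not_lt.2 hi)) _).trans
      (le_of_eq (sum_congr rfl fun i hi => if_pos (mem_range.1 hi)))
    split_ifs
    · exact sq_nonneg _
    · exact le_rfl
  have h3 : ∀ i : ℕ, t ^ 2 / 4 * u i ^ 2 ≤
      t ^ 2 / 4 * (if i < K * p then u i ^ 2 else 0) + (i : ℝ) / s ^ 2 * u i ^ 2 := by
    intro i
    split_ifs with hi
    · exact le_add_of_nonneg_right (by positivity)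
    · rw [mul_zero, zero_add]
      refine mul_le_mul_of_nonneg_right ?_ (sq_nonneg _)
      have h4 : (K : ℝ) * p ≤ i := by exact_mod_cast not_lt.1 hi
      rw [le_div_iff₀ hs2]
      have h5 : t ^ 2 * s ^ 2 ≤ t ^ 2 * (p * t) := mul_le_mul_of_nonneg_left hp1 (sq_nonneg _)
      have h6 : t ^ 2 * (p * t) = K * p := by rw [← hK]; ring
      have h7 : 0 ≤ t ^ 2 * s ^ 2 := by positivity
      linarith
  have h4 : t ^ 2 / 4 * nrm n u ≤
      t ^ 2 / 4 * ∑ i ∈ range (n + 1), (if i < K * p then u i ^ 2 else 0) + pot n s u := by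
    rw [nrm, pot, mul_sum, mul_sum, ← sum_add_distrib]
    exact sum_le_sum fun i _ => h3 i
  have h5 : t ^ 2 / 4 * ((p : ℝ) ^ 2 * D) ≤ kin n s u := by
    rw [kin, ← hD, ← mul_assoc]
    refine mul_le_mul_of_nonneg_right ?_ hD0
    have h6 : (p * t) ^ 2 ≤ (2 * s ^ 2) ^ 2 := pow_le_pow_left₀ (by positivity) hp2 2
    nlinarith
  have h6 := mul_le_mul_of_nonneg_left (h2.trans h1) (by positivity : 0 ≤ t ^ 2 / 4)
  linarith

/-- the tent profile on a block of length `2 p` -/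
def psi (p r : ℕ) : ℝ := min (r : ℝ) (2 * p - r)

/-- disjoint tents with heights `c j` -/
def tent (p : ℕ) (c : ℕ → ℝ) (i : ℕ) : ℝ := c (i / (2 * p)) * psi p (i % (2 * p))

lemma psi_zero (p : ℕ) : psi p 0 = 0 := by simp [psi]

lemma psi_end (p : ℕ) : psi p (2 * p) = 0 := by simp [psi]

lemma psi_of_le {p r : ℕ} (h : r ≤ p) : psi p r = r := by
  have : (r : ℝ) ≤ p := by exact_mod_cast h
  exact min_eq_left (by linarith)

lemma psi_step (p r : ℕ) : (psi p (r + 1) - psi p r) ^ 2 ≤ 1 := by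
  rw [sq_le_one_iff_abs_le_one, abs_le, psi, psi]
  push_cast
  rcases le_total ((r : ℝ) + 1) (2 * p - (r + 1)) with h | h <;>
    rcases le_total (r : ℝ) (2 * p - r) with h' | h' <;>
    simp only [min_eq_left h, min_eq_right h, min_eq_left h', min_eq_right h'] <;>
    constructor <;> linarith

lemma sum_sq_ge (p : ℕ) : (p : ℝ) ^ 3 / 3 ≤ ∑ r ∈ range (p + 1), (r : ℝ) ^ 2 := by
  induction p with
  | zero => simp
  | succ p ih =>
    rw [sum_range_succ]
    push_cast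
    have : (0 : ℝ) ≤ p := Nat.cast_nonneg p
    nlinarith

lemma sum_psi_ge {p : ℕ} (hp : 1 ≤ p) : (p : ℝ) ^ 3 / 3 ≤ ∑ r ∈ range (2 * p), psi p r ^ 2 := by
  refine (sum_sq_ge p).trans ?_
  calc ∑ r ∈ range (p + 1), (r : ℝ) ^ 2 = ∑ r ∈ range (p + 1), psi p r ^ 2 :=
        sum_congr rfl fun r hr => by rw [psi_of_le (Nat.lt_succ_iff.1 (mem_range.1 hr))]
    _ ≤ _ := sum_le_sum_of_subset_of_nonneg (range_subset_range.2 (by omega))
        fun _ _ _ => sq_nonneg _

lemma tent_block {p : ℕ} (hp : 1 ≤ p) (c : ℕ → ℝ) (j : ℕ) {r : ℕ} (hr : r ≤ 2 * p) :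
    tent p c (j * (2 * p) + r) = c j * psi p r := by
  have hq : 0 < 2 * p := by omega
  rcases hr.eq_or_lt with h | h
  · rw [h, tent, ← Nat.succ_mul, Nat.mul_mod_left, psi_zero, psi_end, mul_zero, mul_zero]
  · rw [tent, add_comm, Nat.add_mul_div_right _ _ hq, Nat.add_mul_mod_self_right,
      Nat.div_eq_of_lt h, Nat.mod_eq_of_lt h, zero_add]

lemma tent_zero (p : ℕ) (c : ℕ → ℝ) : tent p c 0 = 0 := by simp [tent, psi_zero]

lemma tent_of_le {p K : ℕ} (hp : 1 ≤ p) {c : ℕ → ℝ} (hc : ∀ j, K ≤ j → c j = 0) {i : ℕ}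
    (hi : K * (2 * p) ≤ i) : tent p c i = 0 := by
  rw [tent, hc _ ((Nat.le_div_iff_mul_le (by omega)).2 hi), zero_mul]

lemma tent_adm {n p K : ℕ} (hp : 1 ≤ p) (hn : K * (2 * p) ≤ n + 1) {c : ℕ → ℝ}
    (hc : ∀ j, K ≤ j → c j = 0) : Adm n (tent p c) :=
  ⟨tent_zero p c, fun _ hi => tent_of_le hp hc (by omega)⟩

lemma tent_nrm {n p K : ℕ} (hp : 1 ≤ p) (hn : K * (2 * p) ≤ n + 1) (c : ℕ → ℝ) :
    (p : ℝ) ^ 3 / 3 * ∑ j ∈ range K, c j ^ 2 ≤ nrm n (tent p c) := by
  refine le_trans ?_ (sum_le_sum_of_subset_of_nonneg (range_subset_range.2 hn)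
    fun _ _ _ => sq_nonneg _)
  rw [sum_blocks, mul_sum]
  refine sum_le_sum fun j _ => ?_
  rw [sum_congr rfl fun r hr => by rw [tent_block hp c j (mem_range.1 hr).le, mul_pow],
    ← mul_sum, mul_comm]
  exact mul_le_mul_of_nonneg_left (sum_psi_ge hp) (sq_nonneg _)

lemma tent_kin (n : ℕ) {p K : ℕ} (hp : 1 ≤ p) {c : ℕ → ℝ} (hc : ∀ j, K ≤ j → c j = 0) :
    ∑ i ∈ range (n + 1), (tent p c (i + 1) - tent p c i) ^ 2 ≤
      2 * p * ∑ j ∈ range K, c j ^ 2 := by
  refine (sum_le_of_vanish (F := fun i => (tent p c (i + 1) - tent p c i) ^ 2) (N := K * (2 * p))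
    (fun _ => sq_nonneg _) (fun i hi => ?_) _).trans ?_
  · rw [tent_of_le hp hc hi, tent_of_le hp hc (by omega)]; simp
  rw [sum_blocks, mul_sum]
  refine sum_le_sum fun j _ => ?_
  have h1 : ∀ r ∈ range (2 * p),
      (tent p c (j * (2 * p) + r + 1) - tent p c (j * (2 * p) + r)) ^ 2 ≤ c j ^ 2 := by
    intro r hr
    rw [add_assoc, tent_block hp c j (mem_range.1 hr), tent_block hp c j (mem_range.1 hr).le,
      ← mul_sub, mul_pow]
    exact mul_le_of_le_one_right (sq_nonneg _) (psi_step p r)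
  refine (sum_le_card_nsmul _ _ _ h1).trans (le_of_eq ?_)
  rw [card_range, nsmul_eq_mul]; push_cast; ring

/-- the upper bound of the energy of the tents -/
lemma upper {n : ℕ} {s t : ℝ} (hs : 0 < s) (ht : 0 < t) {p K : ℕ} (hp : 1 ≤ p)
    (hK : t ^ 3 = K) (hp1 : s ^ 2 ≤ p * t) (hp2 : p * t ≤ 2 * s ^ 2) (hn : K * (2 * p) ≤ n + 1)
    {c : ℕ → ℝ} (hc : ∀ j, K ≤ j → c j = 0) :
    kin n s (tent p c) + pot n s (tent p c) ≤ 10 * t ^ 2 * nrm n (tent p c) := by
  have hs2 : 0 < s ^ 2 := by positivity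
  have hp0 : (0 : ℝ) < p := by exact_mod_cast hp
  have hS : 0 ≤ ∑ j ∈ range K, c j ^ 2 := sum_nonneg fun _ _ => sq_nonneg _
  have h1 : kin n s (tent p c) ≤ 6 * t ^ 2 * nrm n (tent p c) := by
    have h2 := mul_le_mul_of_nonneg_left (tent_kin n hp hc) (by positivity : 0 ≤ s ^ 4)
    have h3 := mul_le_mul_of_nonneg_left (tent_nrm hp hn c) (by positivity : 0 ≤ 6 * t ^ 2)
    have h4 : (s ^ 2) ^ 2 ≤ (p * t) ^ 2 := pow_le_pow_left₀ hs2.le hp1 2
    have h5 := mul_le_mul_of_nonneg_right h4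
      (mul_nonneg (by positivity : (0 : ℝ) ≤ 2 * p) hS)
    rw [kin]
    nlinarith
  have h2 : pot n s (tent p c) ≤ 4 * t ^ 2 * nrm n (tent p c) := by
    rw [pot, nrm, mul_sum]
    refine sum_le_sum fun i _ => ?_
    by_cases hi : i < K * (2 * p)
    · refine mul_le_mul_of_nonneg_right ?_ (sq_nonneg _)
      have h4 : (i : ℝ) ≤ K * (2 * p) := by exact_mod_cast hi.le
      rw [div_le_iff₀ hs2]
      have h5 : t ^ 2 * (p * t) ≤ t ^ 2 * (2 * s ^ 2) := mul_le_mul_of_nonneg_left hp2 (sq_nonneg _)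
      have h6 : t ^ 2 * (p * t) = K * p := by rw [← hK]; ring
      linarith
    · rw [tent_of_le hp hc (not_lt.1 hi)]; simp
  linarith

/-- the tents as a linear map -/
def tentL (n p K : ℕ) : (Fin K → ℝ) →ₗ[ℝ] (Fin n → ℝ) where
  toFun c := res n (tent p fun j => ext c (j + 1))
  map_add' c d := by
    funext i; simp only [res, tent, ext_add, Pi.add_apply]; ring
  map_smul' r c := by
    funext i; simp only [res, tent, ext_smul, Pi.smul_apply, smul_eq_mul, RingHom.id_apply]; ring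

lemma scales {n k : ℕ} {s : ℝ} (hs : 0 < s) (hn : s ^ 6 = n) (hk : k < n) :
    ∃ (t : ℝ) (p : ℕ), 0 < t ∧ t ^ 3 = ((k + 1 : ℕ) : ℝ) ∧ ((k : ℝ) + 1) ^ (2 / 3 : ℝ) = t ^ 2 ∧
      1 ≤ p ∧ s ^ 2 ≤ p * t ∧ p * t ≤ 2 * s ^ 2 := by
  have hK : (0 : ℝ) < (k : ℝ) + 1 := by positivity
  set t : ℝ := ((k : ℝ) + 1) ^ (1 / 3 : ℝ) with ht
  have ht0 : 0 < t := Real.rpow_pos_of_pos hK _
  have ht3 : t ^ 3 = (k : ℝ) + 1 := by
    rw [ht, ← Real.rpow_natCast, ← Real.rpow_mul hK.le]; norm_num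
  have ht2 : ((k : ℝ) + 1) ^ (2 / 3 : ℝ) = t ^ 2 := by
    rw [ht, ← Real.rpow_natCast, ← Real.rpow_mul hK.le]; norm_num
  have hts : t ≤ s ^ 2 := by
    refine le_of_pow_le_pow_left₀ (by norm_num : 3 ≠ 0) (by positivity) ?_
    have : (k : ℝ) + 1 ≤ n := by exact_mod_cast hk
    rw [ht3, ← pow_mul]; norm_num; linarith
  have hr : 1 ≤ s ^ 2 / t := (one_le_div ht0).2 hts
  have h1 := Nat.le_ceil (s ^ 2 / t)
  have h2 := Nat.ceil_lt_add_one (by linarith : 0 ≤ s ^ 2 / t)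
  refine ⟨t, ⌈s ^ 2 / t⌉₊, ht0, by rw [ht3]; push_cast; ring, ht2, ?_, ?_, ?_⟩
  · exact Nat.ceil_pos.2 (by linarith)
  · exact (div_le_iff₀ ht0).1 h1
  · have h3 : (⌈s ^ 2 / t⌉₊ : ℝ) ≤ 2 * s ^ 2 / t := by rw [mul_div_assoc]; linarith
    exact (le_div_iff₀ ht0).1 h3

end Cnt

open Cnt in
theorem cntStmt : CntStmt := by
  intro n s a b κ hs hn h2 k hk
  obtain ⟨t, p, ht, ht3, ht2, hp, hp1, hp2⟩ := scales hs hn hk
  rw [ht2]
  have hH := Hm_herm (n := n) s a b
  refine ⟨?_, fun h8 => ?_⟩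
  · have h := lam_le_of_perp hH (k := k) (by simpa using hk) (range k)
      (fun j => res n fun i => if i = (j + 1) * p then 1 else 0) (by simp)
      (x := κ - t ^ 2 / 256) fun v hv => ?_
    · linarith
    have hz : ∀ j, j < k + 1 → ext v (j * p) = 0 := by
      intro j hj
      rcases j with _ | j
      · rw [zero_mul, ext_zero]
      by_cases hjn : n < (j + 1) * p
      · exact ext_of_lt v hjn
      obtain ⟨m, hm⟩ : ∃ m, (j + 1) * p = m + 1 :=
        Nat.exists_eq_succ_of_ne_zero (Nat.mul_pos (Nat.succ_pos j) hp).ne'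
      have h1 := hv j (mem_range.2 (by omega))
      have hmn : m < n := by omega
      rw [hm, ext_succ' v hmn, ← h1, dotProduct, sum_eq_single (⟨m, hmn⟩ : Fin n)]
      · simp [res, hm]
      · intro i _ hi
        have : ¬ ((i : ℕ) + 1 = (j + 1) * p) := fun e => hi (Fin.ext (by simp only; omega))
        simp only [res, if_neg this, zero_mul]
      · simp
    have h3 := lower hs ht (adm_ext v) ht3 hp1 hp2 hz
    have h4 := (h2 _ (adm_ext v)).1
    rw [quad_Hm, ← nrm_ext]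
    linarith
  · have hN : (k + 1) * (2 * p) ≤ n + 1 := by
      have h8' : 8 * ((k + 1 : ℕ) : ℝ) ≤ n := by exact_mod_cast h8
      have hts : 2 * t ≤ s ^ 2 := by
        refine le_of_pow_le_pow_left₀ (by norm_num : 3 ≠ 0) (by positivity) ?_
        rw [mul_pow, ht3, ← pow_mul]; norm_num; push_cast at h8'; linarith
      have h3 : (2 * t) ^ 2 ≤ (s ^ 2) ^ 2 := pow_le_pow_left₀ (by positivity) hts 2
      have h4 : t ^ 2 * (p * t) ≤ t ^ 2 * (2 * s ^ 2) :=
        mul_le_mul_of_nonneg_left hp2 (sq_nonneg _)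
      have h5 := mul_le_mul_of_nonneg_right h3 (sq_nonneg s)
      have h6 : ((k + 1 : ℕ) : ℝ) * (2 * p) ≤ n := by
        rw [← ht3, ← hn]; nlinarith
      have h7 : (k + 1) * (2 * p) ≤ n := by exact_mod_cast h6
      omega
    have h := transfer (A := (0 : Matrix (Fin (k + 1)) (Fin (k + 1)) ℝ)) isHermitian_zero hH
      (tentL n p (k + 1)) (k := k) (by simp) (y := -(60 * t ^ 2 + κ)) fun c _ => ?_
    · linarith
    have hc : ∀ j, k + 1 ≤ j → ext c (j + 1) = 0 := fun j hj => ext_of_lt c (by omega)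
    have hadm := tent_adm hp hN hc
    have he : ext (tentL n p (k + 1) c) = tent p fun j => ext c (j + 1) := ext_res hadm
    refine ⟨fun h0 => ?_, ?_⟩
    · have h3 := tent_nrm hp hN fun j => ext c (j + 1)
      rw [← he, nrm_ext, h0, dotProduct_zero, Finset.sum_range] at h3
      simp only [ext_succ] at h3
      by_contra hne
      have h4 := dot_self_pos hne
      have hp0 : (0 : ℝ) < p := by exact_mod_cast hp
      have h5 : c ⬝ᵥ c = ∑ i, c i ^ 2 := by simp only [dotProduct, sq]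
      rw [← h5] at h3
      have := mul_pos (by positivity : (0 : ℝ) < (p : ℝ) ^ 3 / 3) h4
      linarith
    · have h3 := upper hs ht hp ht3 hp1 hp2 hN hc
      have h4 := (h2 _ hadm).2
      rw [quad_Hm, ← nrm_ext, he]
      linarith

end Crest.Agent.T157.Ed

end
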