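import Crest.Agent.T157.EdDetA_88

/-!
# Row 157, part E: edge limit — `LbStmt` (helper88)
-/

set_option autoImplicit false

noncomputable section

namespace Crest.Agent.T157.Ed.Lb88

open Finset Crest.Agent.T157.Ed

lemma win (η w : ℕ → ℝ) {l : ℕ} (hl : 1 ≤ l) {o : ℝ} (h : ∀ r, r ≤ l → |∑ i ∈ range r, η i| ≤ o) :
    |∑ r ∈ range l, η r * w r| ≤
      o / l * ∑ r ∈ range l, |w r| + 3 * o * ∑ r ∈ range (l - 1), |w (r + 1) - w r| := by
  have hl0 : (0 : ℝ) < l := by exact_mod_cast hl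
  have ho : 0 ≤ o := (abs_nonneg _).trans (h 0 (Nat.zero_le l))
  have h1 := abel η w l h
  have h2 : |w 0| ≤ (∑ r ∈ range l, |w r|) / l + ∑ r ∈ range (l - 1), |w (r + 1) - w r| := by
    have h3 : ∑ _r ∈ range l, |w 0| ≤
        ∑ r ∈ range l, (|w r| + ∑ r ∈ range (l - 1), |w (r + 1) - w r|) :=
      sum_le_sum fun r hr => by
        have := abs_sub_le_sum w (r := r) (l := l - 1) (by have := mem_range.1 hr; omega)
        have := abs_sub_abs_le_abs_sub (w 0) (w r)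
        rw [abs_sub_comm] at this
        linarith
    rw [sum_add_distrib, sum_const, sum_const, card_range, nsmul_eq_mul, nsmul_eq_mul] at h3
    rw [← sub_le_iff_le_add, le_div_iff₀ hl0]
    linarith
  have e : ∑ r ∈ range l, η r * w r =
      ∑ r ∈ range l, η r * (w r - w 0) + (∑ r ∈ range l, η r) * w 0 := by
    rw [sum_mul, ← sum_add_distrib]
    exact sum_congr rfl fun r _ => by ring
  rw [e]
  refine (abs_add_le _ _).trans ?_
  rw [abs_mul (∑ r ∈ range l, η r)]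
  have h4 := mul_le_mul (h l le_rfl) h2 (abs_nonneg _) ho
  have e2 : o / l * ∑ r ∈ range l, |w r| = o * ((∑ r ∈ range l, |w r|) / l) := by ring
  linarith

lemma amgm {s : ℝ} (hs : 0 < s) (o c x y : ℝ) :
    c * (s * o) * |x * y| ≤ s ^ 4 * x ^ 2 / 256 + 64 * c ^ 2 * (o / s) ^ 2 * y ^ 2 := by
  obtain ⟨t, rfl⟩ : ∃ t, o = s * t := ⟨o / s, by field_simp⟩
  rw [mul_div_cancel_left₀ _ hs.ne', abs_mul, ← sq_abs x, ← sq_abs y]
  nlinarith [sq_nonneg (s ^ 2 * |x| / 16 - 8 * c * t * |y|)]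

lemma sum_pred_le {F : ℕ → ℝ} (hF : ∀ i, 0 ≤ F i) (l : ℕ) :
    ∑ r ∈ range (l - 1), F r ≤ ∑ r ∈ range l, F r :=
  sum_le_sum_of_subset_of_nonneg (range_subset_range.2 (Nat.sub_le _ _)) fun _ _ _ => hF _

lemma sum_pred_succ_le {F : ℕ → ℝ} (hF : ∀ i, 0 ≤ F i) (l : ℕ) :
    ∑ r ∈ range (l - 1), F (r + 1) ≤ ∑ r ∈ range l, F r := by
  rcases l with _ | l
  · simp
  · rw [Nat.add_sub_cancel, sum_range_succ' F l]
    linarith [hF 0]

/-- the noise on one window -/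
lemma noise_win {s : ℝ} (hs : 0 < s) (a x U : ℕ → ℝ) {l : ℕ} (hl : 1 ≤ l) {oa ox : ℝ}
    (ha : ∀ r, r ≤ l → |∑ i ∈ range r, a i| ≤ oa) (hx : ∀ r, r ≤ l → |∑ i ∈ range r, x i| ≤ ox) :
    |s * ∑ r ∈ range l, (a r * U r ^ 2 + x r * (U r * U (r + 1)))| ≤
      s ^ 4 * (∑ r ∈ range l, (U (r + 1) - U r) ^ 2) / 64 +
      (2400 * ((oa / s) ^ 2 + (ox / s) ^ 2) + (s ^ 2 / l) ^ 2) * ∑ r ∈ range l, U r ^ 2 := by
  have hl0 : (1 : ℝ) ≤ l := by exact_mod_cast hl
  have hox : 0 ≤ ox := (abs_nonneg _).trans (hx 0 (Nat.zero_le l))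
  have h1 := mul_le_mul_of_nonneg_left (win a (fun r => U r ^ 2) hl ha) hs.le
  have h2 := mul_le_mul_of_nonneg_left (win x (fun r => U r * U (r + 1)) hl hx) hs.le
  simp only [abs_sq] at h1
  set K := ∑ r ∈ range l, (U (r + 1) - U r) ^ 2 with hK
  set N := ∑ r ∈ range l, U r ^ 2 with hN
  have hN0 : 0 ≤ N := sum_nonneg fun _ _ => sq_nonneg _
  have k1 : ∑ r ∈ range (l - 1), (U (r + 1) - U r) ^ 2 ≤ K := sum_pred_le (fun _ => sq_nonneg _) l
  have k2 : ∑ r ∈ range (l - 1), (U (r + 1 + 1) - U (r + 1)) ^ 2 ≤ K :=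
    sum_pred_succ_le (F := fun r => (U (r + 1) - U r) ^ 2) (fun _ => sq_nonneg _) l
  have k3 : ∑ r ∈ range (l - 1), U r ^ 2 ≤ N := sum_pred_le (fun _ => sq_nonneg _) l
  have k4 : ∑ r ∈ range (l - 1), U (r + 1) ^ 2 ≤ N :=
    sum_pred_succ_le (F := fun r => U r ^ 2) (fun _ => sq_nonneg _) l
  have hs4 : 0 ≤ s ^ 4 := by positivity
  have av : ∀ o : ℝ, s * (o / l) ≤ ((o / s) ^ 2 + (s ^ 2 / l) ^ 2) / 2 := fun o => by
    have : s * (o / l) = (o / s) * (s ^ 2 / l) := by field_simp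
    rw [this]; nlinarith [sq_nonneg (o / s - s ^ 2 / l)]
  have b1 : s * (3 * oa * ∑ r ∈ range (l - 1), |U (r + 1) ^ 2 - U r ^ 2|) ≤
      s ^ 4 * K / 256 + 2304 * (oa / s) ^ 2 * N := by
    have : ∀ r ∈ range (l - 1), s * (3 * oa * |U (r + 1) ^ 2 - U r ^ 2|) ≤
        s ^ 4 / 256 * (U (r + 1) - U r) ^ 2 + 1152 * (oa / s) ^ 2 * U r ^ 2 +
          1152 * (oa / s) ^ 2 * U (r + 1) ^ 2 := fun r _ => by
      have := amgm hs oa 3 (U (r + 1) - U r) (U (r + 1) + U r)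
      rw [show (U (r + 1) - U r) * (U (r + 1) + U r) = U (r + 1) ^ 2 - U r ^ 2 by ring] at this
      nlinarith [mul_nonneg (sq_nonneg (oa / s)) (sq_nonneg (U (r + 1) - U r))]
    have h3 := sum_le_sum this
    simp only [sum_add_distrib, ← mul_sum] at h3
    nlinarith [mul_le_mul_of_nonneg_left k1 hs4, mul_le_mul_of_nonneg_left k3 (sq_nonneg (oa / s)),
      mul_le_mul_of_nonneg_left k4 (sq_nonneg (oa / s))]
  have b2 : s * (3 * ox * ∑ r ∈ range (l - 1), |U (r + 1) * U (r + 1 + 1) - U r * U (r + 1)|) ≤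
      2 * (s ^ 4 * K / 256) + 1152 * (ox / s) ^ 2 * N := by
    have : ∀ r ∈ range (l - 1), s * (3 * ox * |U (r + 1) * U (r + 1 + 1) - U r * U (r + 1)|) ≤
        s ^ 4 / 256 * (U (r + 1 + 1) - U (r + 1)) ^ 2 + s ^ 4 / 256 * (U (r + 1) - U r) ^ 2 +
          1152 * (ox / s) ^ 2 * U (r + 1) ^ 2 := fun r _ => by
      have h3 := amgm hs ox 3 (U (r + 1 + 1) - U (r + 1)) (U (r + 1))
      have h4 := amgm hs ox 3 (U (r + 1) - U r) (U (r + 1))
      have h5 := abs_add_le ((U (r + 1 + 1) - U (r + 1)) * U (r + 1)) ((U (r + 1) - U r) * U (r + 1))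
      rw [show (U (r + 1 + 1) - U (r + 1)) * U (r + 1) + (U (r + 1) - U r) * U (r + 1) =
        U (r + 1) * U (r + 1 + 1) - U r * U (r + 1) by ring] at h5
      nlinarith [mul_le_mul_of_nonneg_left h5 (mul_nonneg hs.le hox)]
    have h3 := sum_le_sum this
    simp only [sum_add_distrib, ← mul_sum] at h3
    nlinarith [mul_le_mul_of_nonneg_left k1 hs4, mul_le_mul_of_nonneg_left k2 hs4,
      mul_le_mul_of_nonneg_left k4 (sq_nonneg (ox / s))]
  have b3 : s * (ox / l * ∑ r ∈ range l, |U r * U (r + 1)|) ≤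
      s ^ 4 * K / 256 + (64 * (ox / s) ^ 2 + ((ox / s) ^ 2 + (s ^ 2 / l) ^ 2) / 2) * N := by
    have : ∀ r ∈ range l, s * (ox / l * |U r * U (r + 1)|) ≤
        s ^ 4 / 256 * (U (r + 1) - U r) ^ 2 +
          (64 * (ox / s) ^ 2 + ((ox / s) ^ 2 + (s ^ 2 / l) ^ 2) / 2) * U r ^ 2 := fun r _ => by
      have h3 := amgm hs ox 1 (U (r + 1) - U r) (U r)
      have h4 := abs_add_le ((U (r + 1) - U r) * U r) (U r ^ 2)
      rw [show (U (r + 1) - U r) * U r + U r ^ 2 = U r * U (r + 1) by ring, abs_sq] at h4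
      have h5 : ox / l ≤ ox := div_le_self hox hl0
      have h6 : 0 ≤ ox / l := by positivity
      have h7 := mul_le_mul_of_nonneg_left h4 (mul_nonneg hs.le h6)
      have h8 := mul_le_mul_of_nonneg_right (av ox) (sq_nonneg (U r))
      have h9 := mul_le_mul_of_nonneg_right (mul_le_mul_of_nonneg_left h5 hs.le)
        (abs_nonneg ((U (r + 1) - U r) * U r))
      linarith
    have h3 := sum_le_sum this
    simp only [sum_add_distrib, ← mul_sum] at h3
    linarith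
  have b4 := mul_le_mul_of_nonneg_right (av oa) hN0
  rw [abs_mul, abs_of_pos hs, sum_add_distrib]
  have h5 := mul_le_mul_of_nonneg_left (abs_add_le (∑ r ∈ range l, a r * U r ^ 2)
    (∑ r ∈ range l, x r * (U r * U (r + 1)))) hs.le
  nlinarith [mul_nonneg (sq_nonneg (oa / s)) hN0, mul_nonneg (sq_nonneg (ox / s)) hN0]

variable {n : ℕ} {s : ℝ} {u : ℕ → ℝ}

lemma sum_win {F : ℕ → ℝ} {l : ℕ} (hl : 1 ≤ l) (h : ∀ i, n < i → F i = 0) :
    ∑ i ∈ range (n + 1), F i = ∑ j ∈ range (n + 1), ∑ r ∈ range l, F (j * l + r) := by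
  rw [← sum_range_mul]
  refine sum_subset (range_subset_range.2 (Nat.le_mul_of_pos_right _ hl)) fun i _ hi => h i ?_
  simpa [Nat.lt_succ_iff] using hi

lemma noise (hs : 0 < s) (hu : Adm n u) (a x : ℕ → ℝ) {l : ℕ} (hl : 1 ≤ l) :
    |s * ∑ i ∈ range (n + 1), (a i * u i ^ 2 + x i * (u i * u (i + 1)))| ≤
      (kin n s u + pot n s u) / 64 + kap n s a x l * nrm n u := by
  rw [kin, pot, nrm, sum_win hl fun i hi => by simp [hu.2 i hi],
    sum_win (F := fun i => (u (i + 1) - u i) ^ 2) hl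
      fun i hi => by simp [hu.2 i hi, hu.2 (i + 1) (by omega)],
    sum_win (F := fun i => (i : ℝ) / s ^ 2 * u i ^ 2) hl fun i hi => by simp [hu.2 i hi],
    sum_win (F := fun i => u i ^ 2) hl fun i hi => by simp [hu.2 i hi],
    mul_sum, mul_sum, mul_sum, ← sum_add_distrib, sum_div, ← sum_add_distrib]
  refine (abs_sum_le_sum_abs _ _).trans (sum_le_sum fun j hj => ?_)
  refine (noise_win hs (fun r => a (j * l + r)) (fun r => x (j * l + r)) (fun r => u (j * l + r)) hl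
    (fun r hr => le_osc a l j hr) fun r hr => le_osc x l j hr).trans ?_
  have h1 := le_kap n s a x l (j := j) (by have := mem_range.1 hj; omega)
  have h2 : (j : ℝ) * l / s ^ 2 * ∑ r ∈ range l, u (j * l + r) ^ 2 ≤
      ∑ r ∈ range l, ((j * l + r : ℕ) : ℝ) / s ^ 2 * u (j * l + r) ^ 2 := by
    rw [mul_sum]
    refine sum_le_sum fun r _ => mul_le_mul_of_nonneg_right ?_ (sq_nonneg _)
    push_cast
    gcongr
    linarith [Nat.cast_nonneg (α := ℝ) r]
  have h3 := mul_le_mul_of_nonneg_right h1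
    (sum_nonneg fun r (_ : r ∈ range l) => sq_nonneg (u (j * l + r)))
  have e : (j : ℝ) * l / (64 * s ^ 2) = (j : ℝ) * l / s ^ 2 / 64 := by ring
  rw [e] at h3
  simp only [add_assoc]
  linarith

lemma gam {β : ℕ → ℝ} (hc : Coef n s β) (hn : 8 ≤ n) {i : ℕ} (hi : i ≤ n) :
    0 ≤ β i ∧ (i : ℝ) / (2 * s ^ 2) ≤ s * (s ^ 3 - β i) ∧
      (s * (s ^ 3 - β i) ≤ 3 * (i / s ^ 2) ∧ s * (s ^ 3 - β i) ≤ 2 * ((i + 1) / s ^ 2)) ∧
      (2 * i ≤ n → s ^ 3 / 2 ≤ β i) := by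
  have hs := hc.hs
  rcases Nat.eq_zero_or_pos i with h | h
  · subst h
    rw [hc.b0]
    refine ⟨by positivity, by simp, ⟨by simp, by simp; positivity⟩, fun _ => ?_⟩
    linarith [pow_pos hs 3]
  have hi1 : (1 : ℝ) ≤ i := by exact_mod_cast h
  have hin : (i : ℝ) ≤ s ^ 6 := by rw [hc.hn]; exact_mod_cast hi
  have h1 := hc.lo i h
  have h2 := hc.hi i h
  have h6 : 0 < s ^ 6 := by positivity
  refine ⟨(Real.sqrt_nonneg _).trans h1, ?_, ?_, fun h3 => le_trans ?_ h1⟩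
  · rw [← hc.hn] at h2
    have h3 := Det.sqrt_upper (y := i) hs (by linarith)
    have : (i : ℝ) / (2 * s ^ 2) = s * (i / (2 * s ^ 3)) := by field_simp
    rw [this]
    exact mul_le_mul_of_nonneg_left (by linarith) hs.le
  · have h3 : s ^ 3 - (i + 2) / s ^ 3 ≤ Real.sqrt ((n : ℝ) - i - 2) := by
      rcases le_total (s ^ 3 - (i + 2) / s ^ 3) 0 with h4 | h4
      · exact h4.trans (Real.sqrt_nonneg _)
      · refine Real.le_sqrt_of_sq_le ?_
        have h5 : (0 : ℝ) ≤ (i + 2) / s ^ 3 := by positivity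
        have h7 : s ^ 3 * ((i + 2) / s ^ 3) = i + 2 := by field_simp
        rw [← hc.hn]
        nlinarith [mul_nonneg h4 h5]
    have h4 : s * (s ^ 3 - β i) ≤ s * ((i + 2) / s ^ 3) :=
      mul_le_mul_of_nonneg_left (by linarith) hs.le
    have : s * (((i : ℝ) + 2) / s ^ 3) = (i + 2) / s ^ 2 := by field_simp
    rw [this] at h4
    constructor <;> refine h4.trans ?_ <;> rw [← mul_div_assoc] <;> gcongr <;> linarith
  · refine Real.le_sqrt_of_sq_le ?_
    have h4 : (2 * i : ℝ) ≤ n := by exact_mod_cast h3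
    have h5 : (8 : ℝ) ≤ n := by exact_mod_cast hn
    have h7 := hc.hn
    nlinarith

lemma det {β : ℕ → ℝ} (hc : Coef n s β) (hn : 8 ≤ n) (hu : Adm n u) :
    (kin n s u + pot n s u) / 32 ≤
      2 * s ^ 4 * nrm n u - s * ∑ i ∈ range (n + 1), 2 * β i * (u i * u (i + 1)) ∧
    2 * s ^ 4 * nrm n u - s * ∑ i ∈ range (n + 1), 2 * β i * (u i * u (i + 1)) ≤
      kin n s u + 5 * pot n s u := by
  have hs := hc.hs
  have e1 := sum_sq_shift hu fun _ => 1
  have e2 := sum_sq_shift hu fun i => (i : ℝ) / s ^ 2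
  simp only [one_mul] at e1
  have e3 : 2 * s ^ 4 * nrm n u - s * ∑ i ∈ range (n + 1), 2 * β i * (u i * u (i + 1)) =
      ∑ i ∈ range (n + 1), (s * β i * (u (i + 1) - u i) ^ 2 +
        s * (s ^ 3 - β i) * u i ^ 2 + s * (s ^ 3 - β i) * u (i + 1) ^ 2) := by
    have e4 : ∀ i : ℕ, s * β i * (u (i + 1) - u i) ^ 2 +
        s * (s ^ 3 - β i) * u i ^ 2 + s * (s ^ 3 - β i) * u (i + 1) ^ 2 =
        s ^ 4 * u i ^ 2 + s ^ 4 * u (i + 1) ^ 2 - s * (2 * β i * (u i * u (i + 1))) :=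
      fun i => by ring
    simp only [e4, sum_add_distrib, sum_sub_distrib, ← mul_sum, e1, nrm]
    ring
  rw [e3, kin, pot]
  constructor
  · have h1 : ∀ i ∈ range (n + 1), s ^ 4 / 32 * (u (i + 1) - u i) ^ 2 +
        3 / 8 * ((i : ℝ) / s ^ 2 * u i ^ 2) - 1 / 8 * (((i + 1 : ℕ) : ℝ) / s ^ 2 * u (i + 1) ^ 2) ≤
        s * β i * (u (i + 1) - u i) ^ 2 + s * (s ^ 3 - β i) * u i ^ 2 +
          s * (s ^ 3 - β i) * u (i + 1) ^ 2 := fun i hi => by
      obtain ⟨g0, g1, -, g3⟩ := gam hc hn (i := i) (by have := mem_range.1 hi; omega)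
      have g4 : (i : ℝ) / (2 * s ^ 2) = i / s ^ 2 / 2 := by ring
      have g5 : (0 : ℝ) ≤ i / s ^ 2 := by positivity
      have g6 : (i : ℝ) / s ^ 2 ≤ ((i + 1 : ℕ) : ℝ) / s ^ 2 := by gcongr; omega
      rw [g4] at g1
      have k1 := mul_le_mul_of_nonneg_right g1 (sq_nonneg (u i))
      have k2 := mul_nonneg (le_trans (by positivity) g1) (sq_nonneg (u (i + 1)))
      have k3 := mul_nonneg g5 (sq_nonneg (u i))
      have k4 := mul_nonneg (g5.trans g6) (sq_nonneg (u (i + 1)))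
      by_cases h : 2 * i ≤ n
      · have k5 := mul_le_mul_of_nonneg_right (mul_le_mul_of_nonneg_left (g3 h) hs.le)
          (sq_nonneg (u (i + 1) - u i))
        have k6 := mul_nonneg (by positivity : 0 ≤ s ^ 4) (sq_nonneg (u (i + 1) - u i))
        linarith
      · have k5 : s ^ 4 ≤ 2 * ((i : ℝ) / s ^ 2) := by
          rw [← mul_div_assoc, le_div_iff₀ (by positivity), ← pow_add, hc.hn]
          exact_mod_cast (not_le.1 h).le
        have k6 := mul_nonneg (mul_nonneg hs.le g0) (sq_nonneg (u (i + 1) - u i))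
        have k7 := mul_le_mul_of_nonneg_right k5 (sq_nonneg (u i))
        have k8 := mul_le_mul_of_nonneg_right (k5.trans (mul_le_mul_of_nonneg_left g6 zero_le_two))
          (sq_nonneg (u (i + 1)))
        have k9 := mul_nonneg (by positivity : 0 ≤ s ^ 4) (sq_nonneg (u (i + 1) + u i))
        nlinarith
    have h2 := sum_le_sum h1
    rw [sum_sub_distrib, sum_add_distrib, ← mul_sum, ← mul_sum, ← mul_sum, e2] at h2
    have h3 := pot_nonneg n s u
    rw [pot] at h3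
    linarith
  · have h1 : ∀ i ∈ range (n + 1), s * β i * (u (i + 1) - u i) ^ 2 + s * (s ^ 3 - β i) * u i ^ 2 +
          s * (s ^ 3 - β i) * u (i + 1) ^ 2 ≤ s ^ 4 * (u (i + 1) - u i) ^ 2 +
        3 * ((i : ℝ) / s ^ 2 * u i ^ 2) + 2 * (((i + 1 : ℕ) : ℝ) / s ^ 2 * u (i + 1) ^ 2) :=
      fun i hi => by
      obtain ⟨-, g1, ⟨g2, g3⟩, -⟩ := gam hc hn (i := i) (by have := mem_range.1 hi; omega)
      have g5 : (0 : ℝ) ≤ i / (2 * s ^ 2) := by positivity
      have k1 := mul_le_mul_of_nonneg_right g2 (sq_nonneg (u i))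
      have k2 := mul_nonneg (g5.trans g1) (sq_nonneg (u (i + 1) - u i))
      have g7 : s * (s ^ 3 - β i) ≤ 2 * (((i + 1 : ℕ) : ℝ) / s ^ 2) := by
        push_cast; exact g3
      have k3 := mul_le_mul_of_nonneg_right g7 (sq_nonneg (u (i + 1)))
      linarith
    have h2 := sum_le_sum h1
    rw [sum_add_distrib (f := fun i => s ^ 4 * (u (i + 1) - u i) ^ 2 +
      3 * ((i : ℝ) / s ^ 2 * u i ^ 2)), sum_add_distrib (f := fun i => s ^ 4 * (u (i + 1) - u i) ^ 2),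
      ← mul_sum, ← mul_sum, ← mul_sum, e2] at h2
    linarith

theorem lbStmt : LbStmt := by
  intro n s β a x l hn hc hl u hu
  have h1 := abs_le.1 (noise hc.hs hu a x hl)
  have h2 := det hc hn hu
  have e : ∑ i ∈ range (n + 1), (a i * u i ^ 2 + 2 * bx β x i * (u i * u (i + 1))) =
      ∑ i ∈ range (n + 1), (a i * u i ^ 2 + x i * (u i * u (i + 1))) +
        ∑ i ∈ range (n + 1), 2 * β i * (u i * u (i + 1)) := by
    rw [← sum_add_distrib]
    exact sum_congr rfl fun i _ => by rw [bx]; ring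
  rw [Qf, e]
  have := kin_nonneg n s u
  have := pot_nonneg n s u
  constructor <;> linarith [h1.1, h1.2, h2.1, h2.2]

end Crest.Agent.T157.Ed.Lb88

end
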