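import Crest.Agent.T157.ConcT_16

/-!
# Row 157, part E (helper16): sub-exponential toolbox

`SubE X v b μ` : `E exp(t X) ≤ exp(v t²)` for `|t| ≤ b` (lower integral, no integrability needed).
Bernstein tails `SubE.tail`, `SubE.tail_abs`, moments `SubE.moment`; bridges from
`HasSubgaussianMGF`; products of exponentials under a product law; mixing two independent copies.
-/

set_option autoImplicit false

noncomputable section

namespace Crest.Agent.T157.Conc

open MeasureTheory ProbabilityTheory Set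
open scoped ENNReal NNReal

section general
variable {Ω : Type*} [MeasurableSpace Ω] {μ : Measure Ω}

lemma integrable_of_lint_ex {u : Ω → ℝ} (hu : AEMeasurable u μ) {c : ℝ}
    (h : ∫⁻ x, ex (u x) ∂μ ≤ ex c) : Integrable (fun x => Real.exp (u x)) μ := by
  refine ⟨(Real.measurable_exp.comp_aemeasurable hu).aestronglyMeasurable, ?_⟩
  rw [hasFiniteIntegral_iff_ofReal (ae_of_all _ fun _ => (Real.exp_pos _).le)]
  exact lt_of_le_of_lt h (ex_ne_top _).lt_top

lemma integral_le_of_lint_ex {u : Ω → ℝ} (hu : AEMeasurable u μ) {c : ℝ}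
    (h : ∫⁻ x, ex (u x) ∂μ ≤ ex c) : ∫ x, Real.exp (u x) ∂μ ≤ Real.exp c := by
  rw [lintegral_ex (integrable_of_lint_ex hu h)] at h
  exact (ENNReal.ofReal_le_ofReal_iff (Real.exp_pos _).le).1 h

lemma lint_ex_le_of_integral {u : Ω → ℝ} (hi : Integrable (fun x => Real.exp (u x)) μ) {c : ℝ}
    (h : ∫ x, Real.exp (u x) ∂μ ≤ Real.exp c) : ∫⁻ x, ex (u x) ∂μ ≤ ex c := by
  rw [lintegral_ex hi]; exact ENNReal.ofReal_le_ofReal h

lemma subG_lint {X : Ω → ℝ} {c : ℝ≥0} (h : HasSubgaussianMGF X c μ) (t : ℝ) :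
    ∫⁻ x, ex (t * X x) ∂μ ≤ ex (c * t ^ 2 / 2) :=
  lint_ex_le_of_integral (h.integrable_exp_mul t) (h.mgf_le t)

lemma subG_of_lint {X : Ω → ℝ} (hX : AEMeasurable X μ) {c : ℝ≥0}
    (h : ∀ t, ∫⁻ x, ex (t * X x) ∂μ ≤ ex (c * t ^ 2 / 2)) : HasSubgaussianMGF X c μ :=
  ⟨fun t => integrable_of_lint_ex (hX.const_mul t) (h t),
    fun t => integral_le_of_lint_ex (hX.const_mul t) (h t)⟩

/-- Chernoff bound -/
lemma chernoff {X : Ω → ℝ} (hX : AEMeasurable X μ) {t c : ℝ} (ht : 0 ≤ t)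
    (h : ∫⁻ x, ex (t * X x) ∂μ ≤ ex c) (u : ℝ) : μ {x | u ≤ X x} ≤ ex (c - t * u) := by
  have h1 := mul_meas_ge_le_lintegral₀ (μ := μ) (f := fun x => ex (t * X x)) (by fun_prop)
    (ex (t * u))
  have h2 : μ {x | u ≤ X x} ≤ μ {x | ex (t * u) ≤ ex (t * X x)} :=
    measure_mono fun x hx => ex_mono (mul_le_mul_of_nonneg_left hx ht)
  calc μ {x | u ≤ X x} = ex (-(t * u)) * (ex (t * u) * μ {x | u ≤ X x}) := by
        rw [← mul_assoc, ← ex_add, neg_add_cancel, ex_zero, one_mul]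
    _ ≤ ex (-(t * u)) * ex c := mul_le_mul_right (((mul_le_mul_right h2 _).trans h1).trans h) _
    _ = _ := by rw [← ex_add]; congr 1; ring

lemma real_le_of_le_ex {A : Set Ω} {c : ℝ} (h : μ A ≤ ex c) : μ.real A ≤ Real.exp c :=
  ENNReal.toReal_le_of_le_ofReal (Real.exp_pos _).le h

/-- convexity of `exp`: average of two exponents -/
lemma ex_add_le (a b : ℝ) : ex (a + b) ≤ 2⁻¹ * ex (2 * a) + 2⁻¹ * ex (2 * b) := by
  have h : Real.exp (a + b) ≤ 2⁻¹ * Real.exp (2 * a) + 2⁻¹ * Real.exp (2 * b) := by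
    rw [Real.exp_add, two_mul, two_mul, Real.exp_add, Real.exp_add]
    nlinarith [sq_nonneg (Real.exp a - Real.exp b)]
  have e : (2⁻¹ : ℝ≥0∞) = ENNReal.ofReal 2⁻¹ := by
    rw [ENNReal.ofReal_inv_of_pos two_pos]; simp
  simp only [ex]
  rw [e, ← ENNReal.ofReal_mul (by norm_num), ← ENNReal.ofReal_mul (by norm_num),
    ← ENNReal.ofReal_add (by positivity) (by positivity)]
  exact ENNReal.ofReal_le_ofReal h

lemma lint_ex_add_le {u v : Ω → ℝ} (hu : AEMeasurable u μ) {c : ℝ}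
    (h1 : ∫⁻ x, ex (2 * u x) ∂μ ≤ ex c) (h2 : ∫⁻ x, ex (2 * v x) ∂μ ≤ ex c) :
    ∫⁻ x, ex (u x + v x) ∂μ ≤ ex c := by
  refine (lintegral_mono fun x => ex_add_le _ _).trans ?_
  rw [lintegral_add_left' (by fun_prop), lintegral_const_mul' _ _ (by simp),
    lintegral_const_mul' _ _ (by simp)]
  refine (add_le_add (mul_le_mul_right h1 _) (mul_le_mul_right h2 _)).trans (le_of_eq ?_)
  rw [← add_mul, ENNReal.inv_two_add_inv_two, one_mul]

/-- sub-exponential variable: `E exp(tX) ≤ exp(v t²)` for `|t| ≤ b` -/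
def SubE (X : Ω → ℝ) (v b : ℝ) (μ : Measure Ω) : Prop :=
  AEMeasurable X μ ∧ ∀ t, |t| ≤ b → ∫⁻ x, ex (t * X x) ∂μ ≤ ex (v * t ^ 2)

lemma SubE.of_subG {X : Ω → ℝ} {c : ℝ≥0} (h : HasSubgaussianMGF X c μ) (b : ℝ) :
    SubE X (c / 2) b μ :=
  ⟨h.aemeasurable, fun t _ => (subG_lint h t).trans (le_of_eq (by congr 1; ring))⟩

lemma SubE.neg {X : Ω → ℝ} {v b : ℝ} (h : SubE X v b μ) : SubE (fun x => -X x) v b μ :=
  ⟨h.1.neg, fun t ht => by
    have := h.2 (-t) (by rwa [abs_neg])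
    simpa only [neg_mul, mul_neg, neg_sq] using this⟩

lemma SubE.mono {X : Ω → ℝ} {v b v' b' : ℝ} (h : SubE X v b μ) (hv : v ≤ v') (hb : b' ≤ b) :
    SubE X v' b' μ :=
  ⟨h.1, fun t ht => (h.2 t (ht.trans hb)).trans
    (ex_mono (mul_le_mul_of_nonneg_right hv (sq_nonneg _)))⟩

lemma SubE.const_mul {X : Ω → ℝ} {v b : ℝ} (h : SubE X v b μ) {a : ℝ} (ha : a ≠ 0) :
    SubE (fun x => a * X x) (a ^ 2 * v) (b / |a|) μ :=
  ⟨h.1.const_mul a, fun t ht => by
    have h1 : |t * a| ≤ b := by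
      rw [abs_mul]; rwa [le_div_iff₀ (abs_pos.2 ha)] at ht
    have := h.2 _ h1
    simp only [mul_assoc] at this ⊢
    refine this.trans (le_of_eq ?_)
    congr 1; ring⟩

lemma SubE.add {X Y : Ω → ℝ} {v b : ℝ} (h : SubE X v b μ) (h' : SubE Y v b μ) :
    SubE (fun x => X x + Y x) (4 * v) (b / 2) μ :=
  ⟨h.1.add h'.1, fun t ht => by
    have h1 : |2 * t| ≤ b := by rw [abs_mul, abs_two]; linarith
    simp only [mul_add]
    refine lint_ex_add_le (h.1.const_mul t) ?_ ?_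
    · simpa only [mul_assoc, show v * (2 * t) ^ 2 = 4 * (v * t ^ 2) by ring] using h.2 _ h1
    · simpa only [mul_assoc, show v * (2 * t) ^ 2 = 4 * (v * t ^ 2) by ring] using h'.2 _ h1⟩

lemma SubE.integrable_exp {X : Ω → ℝ} {v b : ℝ} (h : SubE X v b μ) {t : ℝ} (ht : |t| ≤ b) :
    Integrable (fun x => Real.exp (t * X x)) μ :=
  integrable_of_lint_ex (h.1.const_mul t) (h.2 t ht)

lemma SubE.integral_exp_le {X : Ω → ℝ} {v b : ℝ} (h : SubE X v b μ) {t : ℝ} (ht : |t| ≤ b) :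
    ∫ x, Real.exp (t * X x) ∂μ ≤ Real.exp (v * t ^ 2) :=
  integral_le_of_lint_ex (h.1.const_mul t) (h.2 t ht)

/-- **Bernstein tail** -/
theorem SubE.tail {X : Ω → ℝ} {v b : ℝ} (h : SubE X v b μ) (hv : 0 < v) (hb : 0 ≤ b) {u : ℝ}
    (hu : 0 ≤ u) : μ.real {x | u ≤ X x} ≤ Real.exp (-min (u ^ 2 / (4 * v)) (b * u / 2)) := by
  rcases le_total (u / (2 * v)) b with h1 | h1
  · have h0 : 0 ≤ u / (2 * v) := by positivity
    refine (real_le_of_le_ex (chernoff h.1 h0 (h.2 _ (by rwa [abs_of_nonneg h0])) u)).trans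
      (Real.exp_le_exp.2 ?_)
    have e : v * (u / (2 * v)) ^ 2 - u / (2 * v) * u = -(u ^ 2 / (4 * v)) := by field_simp; ring
    rw [e]
    exact neg_le_neg (min_le_left _ _)
  · refine (real_le_of_le_ex (chernoff h.1 hb (h.2 _ (by rw [abs_of_nonneg hb])) u)).trans
      (Real.exp_le_exp.2 ?_)
    rw [le_div_iff₀ (by positivity)] at h1
    have : min (u ^ 2 / (4 * v)) (b * u / 2) ≤ b * u / 2 := min_le_right _ _
    nlinarith [mul_le_mul_of_nonneg_left h1 hb]

theorem SubE.tail_abs [IsFiniteMeasure μ] {X : Ω → ℝ} {v b : ℝ} (h : SubE X v b μ) (hv : 0 < v)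
    (hb : 0 ≤ b) {u : ℝ} (hu : 0 ≤ u) :
    μ.real {x | u ≤ |X x|} ≤ 2 * Real.exp (-min (u ^ 2 / (4 * v)) (b * u / 2)) := by
  have h1 := h.tail hv hb hu
  have h2 := h.neg.tail hv hb hu
  have : {ω | u ≤ |X ω|} ⊆ {ω | u ≤ X ω} ∪ {ω | u ≤ -X ω} := fun ω hω =>
    (le_abs.1 (show u ≤ |X ω| from hω) : u ≤ X ω ∨ u ≤ -X ω)
  have h3 := (measureReal_mono this).trans (measureReal_union_le (μ := μ) _ _)
  linarith

lemma abs_pow_le_exp (x : ℝ) {t : ℝ} (ht : 0 < t) (p : ℕ) :
    |x| ^ p ≤ p.factorial / t ^ p * (Real.exp (t * x) + Real.exp (-t * x)) := by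
  have h1 := Real.pow_div_factorial_le_exp (t * |x|) (by positivity) p
  have h2 : Real.exp (t * |x|) ≤ Real.exp (t * x) + Real.exp (-t * x) := by
    rcases abs_cases x with ⟨e, _⟩ | ⟨e, _⟩
    · rw [e]; linarith [Real.exp_pos (-t * x)]
    · rw [e, mul_neg, ← neg_mul]; linarith [Real.exp_pos (t * x)]
  have hf : (0:ℝ) < p.factorial := by exact_mod_cast p.factorial_pos
  rw [div_le_iff₀ hf, mul_pow] at h1
  rw [div_mul_eq_mul_div, le_div_iff₀ (by positivity)]
  nlinarith [mul_le_mul_of_nonneg_right h2 hf.le]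

lemma SubE.integrable_pow {X : Ω → ℝ} {v b : ℝ} (h : SubE X v b μ) (hb : 0 < b) (p : ℕ) :
    Integrable (fun x => |X x| ^ p) μ := by
  have h1 := h.integrable_exp (t := b) (by rw [abs_of_pos hb])
  have h2 := h.integrable_exp (t := -b) (by rw [abs_neg, abs_of_pos hb])
  have hX := h.1
  refine ((h1.add h2).const_mul (p.factorial / b ^ p)).mono'
    (AEMeasurable.aestronglyMeasurable (by fun_prop)) (ae_of_all _ fun x => ?_)
  rw [Real.norm_eq_abs, abs_of_nonneg (by positivity)]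
  exact abs_pow_le_exp _ hb p

/-- **moments**: `E|X|^p ≤ 2 p! t^{-p} exp(v t²)` for every `0 < t ≤ b` -/
theorem SubE.moment {X : Ω → ℝ} {v b : ℝ} (h : SubE X v b μ) {t : ℝ} (ht : 0 < t) (htb : t ≤ b)
    (p : ℕ) : ∫ x, |X x| ^ p ∂μ ≤ 2 * p.factorial / t ^ p * Real.exp (v * t ^ 2) := by
  have a1 : |t| ≤ b := by rwa [abs_of_pos ht]
  have a2 : |-t| ≤ b := by rwa [abs_neg]
  have h1 := h.integrable_exp a1
  have h2 := h.integrable_exp a2
  have h3 : Integrable (fun x => Real.exp (t * X x) + Real.exp (-t * X x)) μ := h1.add h2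
  refine (integral_mono (h.integrable_pow (ht.trans_le htb) p) (h3.const_mul _)
    fun x => abs_pow_le_exp _ ht p).trans ?_
  rw [integral_const_mul, integral_add h1 h2]
  have b1 := h.integral_exp_le a1
  have b2 := h.integral_exp_le a2
  rw [neg_sq] at b2
  have : (0:ℝ) ≤ p.factorial / t ^ p := by positivity
  calc _ ≤ p.factorial / t ^ p * (2 * Real.exp (v * t ^ 2)) :=
        mul_le_mul_of_nonneg_left (by linarith) this
    _ = _ := by ring

/-- moments of a sub-Gaussian variable: `E|X|^p ≤ 2 (c p)^{p/2}`, written with `√(c p)` -/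
theorem subG_moment {X : Ω → ℝ} {c : ℝ≥0} (h : HasSubgaussianMGF X c μ) (hc : 0 < (c : ℝ)) {p : ℕ}
    (hp : 0 < p) : ∫ x, |X x| ^ p ∂μ ≤ 2 * Real.sqrt (Real.exp 1 * c * p) ^ p := by
  have hp' : (0:ℝ) < p := by exact_mod_cast hp
  have ht : 0 < Real.sqrt (p / c) := Real.sqrt_pos.2 (by positivity)
  refine ((SubE.of_subG h _).moment ht le_rfl p).trans ?_
  rw [Real.sq_sqrt (by positivity)]
  have e1 : Real.exp (c / 2 * (p / c)) = Real.sqrt (Real.exp 1) ^ p := by
    rw [Real.sqrt_eq_rpow, ← Real.exp_mul, ← Real.exp_nat_mul]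
    congr 1; field_simp
  have e2 : Real.sqrt (Real.exp 1 * c * p) =
      p / Real.sqrt (p / c) * Real.sqrt (Real.exp 1) := by
    rw [mul_assoc, Real.sqrt_mul (Real.exp_pos _).le, mul_comm]
    congr 1
    rw [eq_div_iff ht.ne', ← Real.sqrt_mul (by positivity),
      show (c:ℝ) * p * (p / c) = p ^ 2 by field_simp, Real.sqrt_sq hp'.le]
  rw [e1, e2, mul_pow, div_pow, mul_div_assoc, mul_assoc]
  have : (p.factorial : ℝ) ≤ (p : ℝ) ^ p := by exact_mod_cast Nat.factorial_le_pow p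
  gcongr

end general

variable {ι : Type*} [Fintype ι]

/-- product of exponentials under a product law -/
lemma lint_ex_sum {α : ι → Type*} [∀ i, MeasurableSpace (α i)] {ν : ∀ i, Measure (α i)}
    [∀ i, SigmaFinite (ν i)] {u : ∀ i, α i → ℝ} {c : ι → ℝ} (hu : ∀ i, AEMeasurable (u i) (ν i))
    (h : ∀ i, ∫⁻ x, ex (u i x) ∂ν i ≤ ex (c i)) :
    ∫⁻ x, ex (∑ i, u i (x i)) ∂Measure.pi ν ≤ ex (∑ i, c i) := by
  refine lint_ex_le_of_integral ?_ ?_
  · simp only [Real.exp_sum]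
    exact Integrable.fintype_prod_dep (f := fun i x => Real.exp (u i x))
      fun i => integrable_of_lint_ex (hu i) (h i)
  · simp only [Real.exp_sum]
    rw [integral_fintype_prod_eq_prod (fun i x => Real.exp (u i x))]
    exact Finset.prod_le_prod (fun i _ => integral_nonneg fun _ => (Real.exp_pos _).le)
      fun i _ => integral_le_of_lint_ex (hu i) (h i)

/-- sums of independent sub-exponential variables -/
theorem subE_sum {α : ι → Type*} [∀ i, MeasurableSpace (α i)] {ν : ∀ i, Measure (α i)}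
    [∀ i, IsProbabilityMeasure (ν i)] {X : ∀ i, α i → ℝ} {v : ι → ℝ} {b : ℝ}
    (h : ∀ i, SubE (X i) (v i) b (ν i)) :
    SubE (fun x : ∀ i, α i => ∑ i, X i (x i)) (∑ i, v i) b (Measure.pi ν) := by
  refine ⟨Finset.aemeasurable_fun_sum _ fun i _ =>
    (h i).1.comp_quasiMeasurePreserving (measurePreserving_eval ν i).quasiMeasurePreserving,
    fun t ht => ?_⟩
  simp only [Finset.mul_sum, Finset.sum_mul]
  exact lint_ex_sum (u := fun i x => t * X i x) (fun i => (h i).1.const_mul t)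
    fun i => (h i).2 t ht

/-- mixing two independent copies along a set of coordinates -/
theorem mp_mix {α : ι → Type*} [∀ i, MeasurableSpace (α i)] (ν : ∀ i, Measure (α i))
    [∀ i, IsProbabilityMeasure (ν i)] (p : ι → Prop) [DecidablePred p] :
    MeasurePreserving (fun (z : (∀ i, α i) × (∀ i, α i)) i => if p i then z.1 i else z.2 i)
      ((Measure.pi ν).prod (Measure.pi ν)) (Measure.pi ν) := by
  have hm : Measurable (fun (z : (∀ i, α i) × (∀ i, α i)) i => if p i then z.1 i else z.2 i) := by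
    refine measurable_pi_lambda _ fun i => ?_
    by_cases h : p i
    · simp only [h, if_true]; exact (measurable_pi_apply i).comp measurable_fst
    · simp only [h, if_false]; exact (measurable_pi_apply i).comp measurable_snd
  refine ⟨hm, (Measure.pi_eq fun s hs => ?_).symm⟩
  rw [Measure.map_apply hm (MeasurableSet.univ_pi hs)]
  have : (fun (z : (∀ i, α i) × (∀ i, α i)) i => if p i then z.1 i else z.2 i) ⁻¹' (univ.pi s) =
      (univ.pi fun i => if p i then s i else univ) ×ˢ (univ.pi fun i => if p i then univ else s i) := by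
    ext ⟨x, y⟩
    simp only [mem_preimage, mem_pi, mem_univ, true_implies, mem_prod]
    constructor
    · intro h
      refine ⟨fun i => ?_, fun i => ?_⟩ <;> have := h i <;> by_cases hi : p i <;>
        simp only [hi, if_true, if_false, mem_univ] at this ⊢ <;> exact this
    · rintro ⟨h1, h2⟩ i
      have a := h1 i
      have b := h2 i
      by_cases hi : p i <;> simp only [hi, if_true, if_false] at a b ⊢
      · exact a
      · exact b
  rw [this, Measure.prod_prod, Measure.pi_pi, Measure.pi_pi, ← Finset.prod_mul_distrib]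
  refine Finset.prod_congr rfl fun i _ => ?_
  by_cases hi : p i <;> simp [hi]

end Crest.Agent.T157.Conc
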