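import Crest.Agent.T157.EdBase_88
import Crest.Agent.T157.ConcS_16

/-!
# Row 157, part E: edge limit — `BetStmt`, `OscStmt`, `KapGlue` (helper7)
-/

set_option autoImplicit false

noncomputable section

namespace Crest.Agent.T157.Ed.Osc7

open MeasureTheory ProbabilityTheory Filter Topology Finset
open Crest.Agent.T157.E Crest.Agent.T157.Ed
open Crest.Agent.T157.Conc (ELip en ex ex_add ex_mono ex_zero ex_ne_top)
open scoped ENNReal

/-- resampling one coordinate of a finite product -/
theorem mp_upd {τ α : Type*} [Fintype τ] [DecidableEq τ] [MeasurableSpace α] (μ : Measure α)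
    [IsProbabilityMeasure μ] (j : τ) :
    MeasurePreserving (fun p : (τ → α) × α => Function.update p.1 j p.2)
      ((Measure.pi fun _ : τ => μ).prod μ) (Measure.pi fun _ : τ => μ) := by
  have hm : Measurable (fun p : (τ → α) × α => Function.update p.1 j p.2) := measurable_update'
  refine ⟨hm, (Measure.pi_eq fun s hs => ?_).symm⟩
  rw [Measure.map_apply hm (MeasurableSet.univ_pi hs)]
  have : (fun p : (τ → α) × α => Function.update p.1 j p.2) ⁻¹' (Set.univ.pi s) =
      (Set.univ.pi (Function.update s j Set.univ)) ×ˢ (s j) := by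
    ext ⟨g, t⟩
    simp only [Set.mem_preimage, Set.mem_pi, Set.mem_univ, true_implies, Set.mem_prod]
    constructor
    · intro h
      refine ⟨fun i => ?_, by simpa using h j⟩
      by_cases hi : i = j
      · subst hi; simp
      · simpa [Function.update_of_ne hi] using h i
    · rintro ⟨h1, h2⟩ i
      by_cases hi : i = j
      · subst hi; simpa using h2
      · simpa [Function.update_of_ne hi] using h1 i
  rw [this, Measure.prod_prod, Measure.pi_pi]
  rw [← Finset.mul_prod_erase Finset.univ (fun i => μ (s i)) (Finset.mem_univ j),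
    ← Finset.mul_prod_erase Finset.univ (fun i => μ (Function.update s j Set.univ i))
      (Finset.mem_univ j)]
  simp only [Function.update_self, measure_univ, one_mul]
  rw [mul_comm]
  congr 1
  refine Finset.prod_congr rfl fun i hi => ?_
  rw [Function.update_of_ne (Finset.ne_of_mem_erase hi)]

section maximal
variable {n : ℕ} {E : Type*} [MeasurableSpace E]

/-- partial sums of independent increments -/
def ps (φ : Fin n → E → ℝ) (a r : ℕ) (g : Fin n → E) : ℝ :=
  ∑ i ∈ range r, ext (fun k => φ k (g k)) (a + i)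

lemma measurable_ps {φ : Fin n → E → ℝ} (hφ : ∀ i, Measurable (φ i)) (a r : ℕ) :
    Measurable (ps φ a r) :=
  Finset.measurable_sum _ fun _ _ =>
    measurable_ext (fun k => (hφ k).comp (measurable_pi_apply k)) _

omit [MeasurableSpace E] in
lemma ps_succ (φ : Fin n → E → ℝ) (a r : ℕ) (g : Fin n → E) :
    ps φ a (r + 1) g = ext (fun k => φ k (g k)) a + ps φ (a + 1) r g := by
  rw [ps, sum_range_succ', add_zero, add_comm, ps]
  congr 1
  exact sum_congr rfl fun i _ => by rw [show a + (i + 1) = a + 1 + i by omega]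

omit [MeasurableSpace E] in
lemma ps_update (φ : Fin n → E → ℝ) (k : Fin n) (r : ℕ) (g : Fin n → E) (x : E) :
    ps φ (k + 1 + 1) r (Function.update g k x) = ps φ (k + 1 + 1) r g := by
  refine sum_congr rfl fun i _ => ?_
  unfold ext
  split_ifs with h
  · beta_reduce
    rw [Function.update_of_ne]
    intro e
    have := congrArg Fin.val e
    simp only at this
    omega
  · rfl

/-- **maximal inequality** for partial sums of independent increments -/
theorem maximal (μ : Measure E) [IsProbabilityMeasure μ] {φ : Fin n → E → ℝ}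
    (hφ : ∀ i, Measurable (φ i)) {lam c : ℝ} (hl : 0 ≤ lam) (hc : 0 ≤ c)
    (h : ∀ i, ∫⁻ x, ex (lam * φ i x) ∂μ ≤ ex c) (l : ℕ) : ∀ (a : ℕ) (t : ℝ),
    (Measure.pi fun _ : Fin n => μ) {g | ∃ r, r ≤ l ∧ t ≤ ps φ a r g} ≤ ex (l * c - lam * t) := by
  have triv : ∀ (l : ℕ) (t : ℝ) (S : Set (Fin n → E)), t ≤ 0 →
      (Measure.pi fun _ : Fin n => μ) S ≤ ex (l * c - lam * t) := fun l t S ht => by
    refine prob_le_one.trans (ex_zero ▸ ex_mono ?_)
    have := mul_nonneg (Nat.cast_nonneg (α := ℝ) l) hc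
    nlinarith
  induction l with
  | zero =>
    intro a t
    by_cases ht : t ≤ 0
    · exact triv 0 t _ ht
    · have : {g : Fin n → E | ∃ r, r ≤ 0 ∧ t ≤ ps φ a r g} = ∅ := by
        ext g
        simp only [Set.mem_ofPred_eq, Set.mem_empty_iff_false, iff_false, not_exists, not_and]
        intro r hr
        obtain rfl : r = 0 := by omega
        simpa [ps] using ht
      rw [this, measure_empty]; exact zero_le
  | succ l ih =>
    intro a t
    by_cases ht : t ≤ 0
    · exact triv _ t _ ht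
    have hsub : {g : Fin n → E | ∃ r, r ≤ l + 1 ∧ t ≤ ps φ a r g} ⊆
        {g | ∃ r, r ≤ l ∧ t - ext (fun k => φ k (g k)) a ≤ ps φ (a + 1) r g} := by
      rintro g ⟨r, hr, hg⟩
      rcases r with _ | r
      · exact absurd (by simpa [ps] using hg) ht
      · rw [ps_succ] at hg
        exact ⟨r, by omega, by linarith⟩
    refine (measure_mono hsub).trans ?_
    by_cases ha : 1 ≤ a ∧ a ≤ n
    · obtain ⟨k, rfl⟩ : ∃ k : Fin n, a = k + 1 := ⟨⟨a - 1, by omega⟩, by simp only; omega⟩
      simp only [ext_succ]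
      have hm : MeasurableSet {g : Fin n → E | ∃ r, r ≤ l ∧
          t - φ k (g k) ≤ ps φ (k + 1 + 1) r g} :=
        (Measurable.exists fun r => measurable_const.and (measurableSet_setOfPred.1
          (measurableSet_le (measurable_const.sub ((hφ k).comp (measurable_pi_apply k)))
            (measurable_ps hφ _ r)))).setOf
      rw [← (mp_upd μ k).measure_preimage hm.nullMeasurableSet,
        Measure.prod_apply_symm ((mp_upd μ k).measurable hm)]
      calc ∫⁻ x, (Measure.pi fun _ : Fin n => μ) ((fun g => (g, x)) ⁻¹'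
              ((fun p : (Fin n → E) × E => Function.update p.1 k p.2) ⁻¹'
                {g | ∃ r, r ≤ l ∧ t - φ k (g k) ≤ ps φ (k + 1 + 1) r g})) ∂μ
          ≤ ∫⁻ x, ex (l * c - lam * t) * ex (lam * φ k x) ∂μ := by
            refine lintegral_mono fun x => ?_
            have := ih (k + 1 + 1) (t - φ k x)
            rw [← ex_add, show l * c - lam * t + lam * φ k x = l * c - lam * (t - φ k x) by ring]
            refine le_trans (le_of_eq ?_) this
            congr 1
            ext g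
            simp only [Set.mem_preimage, Set.mem_ofPred_eq, Function.update_self, ps_update]
        _ ≤ ex (l * c - lam * t) * ex c := by
            rw [lintegral_const_mul' _ _ (ex_ne_top _)]
            exact mul_le_mul_right (h k) _
        _ = _ := by rw [← ex_add]; congr 1; push_cast; ring
    · have : ∀ g : Fin n → E, ext (fun k => φ k (g k)) a = 0 := fun g => dif_neg ha
      simp only [this, sub_zero]
      refine (ih (a + 1) t).trans (ex_mono ?_)
      push_cast; linarith

/-- two-sided form for sub-Gaussian increments -/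
theorem osc_tail (μ : Measure E) [IsProbabilityMeasure μ] {φ : Fin n → E → ℝ}
    (hφ : ∀ i, Measurable (φ i)) (h : ∀ i s, ∫⁻ x, ex (s * φ i x) ∂μ ≤ ex (2 * s ^ 2))
    (l j : ℕ) (t : ℝ) (hl : 1 ≤ l) (ht : 0 ≤ t) :
    (Measure.pi fun _ : Fin n => μ).real {g | t ≤ osc (ext fun k => φ k (g k)) l j} ≤
      2 * Real.exp (-t ^ 2 / (8 * l)) := by
  have hl' : (0 : ℝ) < l := by exact_mod_cast hl
  have h0 : 0 ≤ t / (4 * l) := by positivity
  have e : l * (2 * (t / (4 * l)) ^ 2) - t / (4 * l) * t = -t ^ 2 / (8 * l) := by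
    field_simp; ring
  have h1 := maximal μ hφ h0 (by positivity) (fun i => h i _) l (j * l) t
  have h2 := maximal μ (φ := fun i x => -φ i x) (fun i => (hφ i).neg) h0
    (c := 2 * (t / (4 * l)) ^ 2) (by positivity) (fun i => by
      have := h i (-(t / (4 * l)))
      simpa only [neg_mul, mul_neg, neg_sq] using this) l (j * l) t
  rw [e] at h1 h2
  have h3 := Conc.real_le_of_le_ex h1
  have h4 := Conc.real_le_of_le_ex h2
  have hsub : {g : Fin n → E | t ≤ osc (ext fun k => φ k (g k)) l j} ⊆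
      {g | ∃ r, r ≤ l ∧ t ≤ ps φ (j * l) r g} ∪
        {g | ∃ r, r ≤ l ∧ t ≤ ps (fun i x => -φ i x) (j * l) r g} := by
    intro g hg
    obtain ⟨r, hr, he⟩ := exists_osc_eq (ext fun k => φ k (g k)) l j
    rw [Set.mem_ofPred_eq, he] at hg
    rcases le_abs.1 hg with h5 | h5
    · exact Or.inl ⟨r, hr, h5⟩
    · refine Or.inr ⟨r, hr, h5.trans (le_of_eq ?_)⟩
      rw [ps, ← sum_neg_distrib]
      refine sum_congr rfl fun i _ => ?_
      unfold ext
      split_ifs <;> simp
  have h5 := (measureReal_mono hsub).trans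
    (measureReal_union_le (μ := Measure.pi fun _ : Fin n => μ) _ _)
  linarith

end maximal

/-! ### the rows -/

/-- the `χ` variable of a row -/
def chi {n : ℕ} (k : Fin n) (r : Fin n → ℝ) : ℝ := Real.sqrt (∑ j ∈ univ.filter (k < ·), r j ^ 2)

lemma chi_eq {n : ℕ} (k : Fin n) (r : Fin n → ℝ) :
    chi k r = en fun j => if k < j then r j else 0 := by
  rw [chi, en, sum_filter]
  congr 1
  exact sum_congr rfl fun j _ => by split_ifs <;> simp

lemma elip_chi {n : ℕ} (k : Fin n) : ELip 1 (chi k) := fun x y => by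
  rw [chi_eq, chi_eq, one_mul]
  refine (Conc.abs_en_sub_le _ _).trans (Real.sqrt_le_sqrt (sum_le_sum fun j _ => ?_))
  simp only [Pi.sub_apply]
  split_ifs
  · exact le_rfl
  · simpa using sq_nonneg _

lemma bet_succ {n : ℕ} (k : Fin n) : bet n (k + 1) = ∫ r, chi k r ∂gv (Fin n) := by
  rw [bet, if_neg (by omega)]
  have : ∀ g : Fin n → Fin n → ℝ, rowB n g (k + 1) = chi k (g k) := fun g => ext_succ _ k
  simp only [this]
  have hmp := measurePreserving_eval (fun _ : Fin n => gv (Fin n)) k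
  rw [← hmp.map_eq, integral_map hmp.measurable.aemeasurable
    (elip_chi k).continuous.aestronglyMeasurable]

lemma bet_of_lt {n i : ℕ} (h : n < i) : bet n i = 0 := by
  rw [bet, if_neg (by omega)]
  have : ∀ g : Fin n → Fin n → ℝ, rowB n g i = 0 := fun g => ext_of_lt _ h
  simp [this]

lemma rowX_eq (n : ℕ) (g : Fin n → Fin n → ℝ) :
    rowX n g = ext fun k => 2 * (chi k (g k) - ∫ r, chi k r ∂gv (Fin n)) := by
  funext i
  by_cases h0 : i = 0
  · rw [h0, rowX, if_pos rfl, ext_zero]
  by_cases h1 : n < i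
  · rw [rowX, if_neg h0, ext_of_lt _ h1, bet_of_lt h1, rowB, ext_of_lt _ h1]; ring
  obtain ⟨k, rfl⟩ : ∃ k : Fin n, i = k + 1 := ⟨⟨i - 1, by omega⟩, by simp only; omega⟩
  rw [rowX, if_neg h0, ext_succ, bet_succ, rowB, ext_succ]
  rfl

lemma lint_lip {n : ℕ} {L : ℝ} {F : (Fin n → ℝ) → ℝ} (h : ELip L F) (s : ℝ) :
    ∫⁻ x, ex (s * (F x - ∫ y, F y ∂gv (Fin n))) ∂gv (Fin n) ≤ ex (L ^ 2 * s ^ 2 / 2) :=
  Conc.lint_ex_le_of_integral ((h.sub_const _).integrable_exp s) (Conc.mgf_lip h s)

lemma integral_coord {n : ℕ} (k : Fin n) (F : ℝ → ℝ) (hF : Continuous F) :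
    ∫ r, F (r k) ∂gv (Fin n) = ∫ x, F x ∂gaussianReal 0 1 := by
  have hmp := measurePreserving_eval (fun _ : Fin n => gaussianReal 0 1) k
  rw [← hmp.map_eq, integral_map hmp.measurable.aemeasurable hF.aestronglyMeasurable]

theorem oscStmt : OscStmt := by
  intro n l j t hl ht
  constructor
  · refine osc_tail (gv (Fin n)) (φ := fun k r => Real.sqrt 2 * r k) (fun k => by fun_prop)
      (fun k s => ?_) l j t hl ht
    have hL : ELip 1 fun r : Fin n → ℝ => r k := fun x y => by
      rw [one_mul]; exact Conc.abs_le_en (x - y) k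
    have h1 := lint_lip hL (s * Real.sqrt 2)
    have h2 : ∫ y : Fin n → ℝ, y k ∂gv (Fin n) = 0 := by
      rw [integral_coord k (fun x => x) continuous_id, integral_id_gaussianReal]
    simp only [h2, sub_zero, mul_assoc] at h1
    refine h1.trans (ex_mono ?_)
    rw [mul_pow, Real.sq_sqrt (by norm_num)]
    nlinarith [sq_nonneg s]
  · simp only [rowX_eq]
    refine osc_tail (gv (Fin n))
      (φ := fun k r => 2 * (chi k r - ∫ r, chi k r ∂gv (Fin n)))
      (fun k => ((elip_chi k).continuous.measurable.sub measurable_const).const_mul _)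
      (fun k s => ?_) l j t hl ht
    have h1 := lint_lip (elip_chi k) (s * 2)
    simp only [mul_assoc] at h1
    exact h1.trans (ex_mono (le_of_eq (by ring)))

/-! ### the mean of a `χ` variable -/

lemma two_add_sq_le (x : ℝ) : 2 + x ^ 2 ≤ Real.exp x + Real.exp (-x) := by
  have h1 : |x / 2| ≤ |Real.sinh (x / 2)| := by
    rw [Real.abs_sinh]; exact Real.self_le_sinh_iff.2 (abs_nonneg _)
  have h2 : (x / 2) ^ 2 ≤ Real.sinh (x / 2) ^ 2 := sq_le_sq.2 h1
  have h3 := Real.cosh_two_mul (x / 2)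
  have h4 := Real.cosh_sq (x / 2)
  rw [show 2 * (x / 2) = x by ring, Real.cosh_eq] at h3
  nlinarith

lemma integral_chi_sq {n : ℕ} (k : Fin n) :
    Integrable (fun r => chi k r ^ 2) (gv (Fin n)) ∧
      ∫ r, chi k r ^ 2 ∂gv (Fin n) = (n : ℝ) - (k + 1) := by
  have e : (fun r => chi k r ^ 2) = fun r : Fin n → ℝ => ∑ j ∈ univ.filter (k < ·), r j ^ 2 :=
    funext fun r => Real.sq_sqrt (sum_nonneg fun _ _ => sq_nonneg _)
  have hi : ∀ j : Fin n, Integrable (fun r : Fin n → ℝ => r j ^ 2) (gv (Fin n)) := fun j =>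
    (measurePreserving_eval (fun _ : Fin n => gaussianReal 0 1) j).integrable_comp_of_integrable
      (g := fun x : ℝ => x ^ 2) (memLp_id_gaussianReal (μ := 0) (v := 1) 2).integrable_sq
  have h1 : ∫ x : ℝ, x ^ 2 ∂gaussianReal 0 1 = 1 := by
    have := variance_id_gaussianReal (μ := 0) (v := 1)
    rw [variance_eq_integral aemeasurable_id] at this
    simpa using this
  rw [e]
  refine ⟨integrable_finsetSum _ fun j _ => hi j, ?_⟩
  rw [integral_finsetSum _ fun j _ => hi j]
  have h2 : ∀ j : Fin n, ∫ r : Fin n → ℝ, r j ^ 2 ∂gv (Fin n) = 1 := fun j => by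
    rw [integral_coord j (fun x => x ^ 2) (by fun_prop), h1]
  simp only [h2, sum_const, nsmul_eq_mul, mul_one]
  have h3 : univ.filter (k < ·) = Finset.Ioi k := by ext j; simp
  rw [h3, Fin.card_Ioi]
  have := k.2
  rw [Nat.cast_sub (by omega), Nat.cast_sub (by omega)]
  push_cast; ring

lemma chi_mean {n : ℕ} (k : Fin n) :
    (n : ℝ) - (k + 1) - 2 ≤ (∫ r, chi k r ∂gv (Fin n)) ^ 2 ∧
      (∫ r, chi k r ∂gv (Fin n)) ^ 2 ≤ (n : ℝ) - (k + 1) := by
  obtain ⟨h1, h2⟩ := integral_chi_sq k
  have h3 : Integrable (chi k) (gv (Fin n)) := (elip_chi k).integrable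
  set m := ∫ r, chi k r ∂gv (Fin n) with hm
  have e : (fun r => (chi k r - m) ^ 2) = fun r => chi k r ^ 2 - 2 * m * chi k r + m ^ 2 :=
    funext fun r => by ring
  have h4 : Integrable (fun r => chi k r ^ 2 - 2 * m * chi k r) (gv (Fin n)) :=
    h1.sub (h3.const_mul _)
  have hV : ∫ r, (chi k r - m) ^ 2 ∂gv (Fin n) = (n : ℝ) - (k + 1) - m ^ 2 := by
    rw [e, integral_add h4 (integrable_const _), integral_sub h1 (h3.const_mul _),
      integral_const_mul, h2, ← hm]
    simp only [integral_const, probReal_univ, smul_eq_mul, one_mul]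
    ring
  have hVi : Integrable (fun r => (chi k r - m) ^ 2) (gv (Fin n)) := by
    rw [e]; exact h4.add (integrable_const _)
  have h5 : 0 ≤ ∫ r, (chi k r - m) ^ 2 ∂gv (Fin n) := integral_nonneg fun _ => sq_nonneg _
  have a1 := Conc.mgf_lip (elip_chi k) 1
  have a2 := Conc.mgf_lip (elip_chi k) (-1)
  have b1 := ((elip_chi k).sub_const m).integrable_exp 1
  have b2 := ((elip_chi k).sub_const m).integrable_exp (-1)
  have h6 : ∫ r, (2 + (chi k r - m) ^ 2) ∂gv (Fin n) ≤
      ∫ r, (Real.exp (1 * (chi k r - m)) + Real.exp (-1 * (chi k r - m))) ∂gv (Fin n) :=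
    integral_mono ((integrable_const _).add hVi) (b1.add b2) fun r => by
      simpa using two_add_sq_le (chi k r - m)
  rw [integral_add (integrable_const _) hVi, integral_add b1 b2] at h6
  simp only [integral_const, probReal_univ, smul_eq_mul, one_mul] at h6
  have h7 : Real.exp (1 / 2) ≤ 2 := by
    have := Real.exp_one_lt_d9
    have h8 : Real.exp (1 / 2) ^ 2 = Real.exp 1 := by rw [← Real.exp_nat_mul]; norm_num
    nlinarith [Real.exp_pos (1 / 2)]
  rw [← hm] at a1 a2
  norm_num at a1 a2 h6 h7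
  constructor <;> linarith

theorem betStmt : BetStmt := by
  intro n hn
  refine ⟨sx_pos hn, sx_pow_six n, by rw [bet, if_pos rfl, sqrt_eq], fun i hi => ?_,
    fun i hi => ?_⟩
  · by_cases h1 : n < i
    · rw [bet_of_lt h1, Real.sqrt_eq_zero'.2]
      have : (n : ℝ) < i := by exact_mod_cast h1
      linarith
    obtain ⟨k, rfl⟩ : ∃ k : Fin n, i = k + 1 := ⟨⟨i - 1, by omega⟩, by simp only; omega⟩
    rw [bet_succ]
    refine Real.sqrt_le_iff.2 ⟨integral_nonneg fun _ => Real.sqrt_nonneg _, ?_⟩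
    push_cast
    exact (chi_mean k).1
  · by_cases h1 : n < i
    · rw [bet_of_lt h1]; exact Real.sqrt_nonneg _
    obtain ⟨k, rfl⟩ : ∃ k : Fin n, i = k + 1 := ⟨⟨i - 1, by omega⟩, by simp only; omega⟩
    rw [bet_succ]
    refine Real.le_sqrt_of_sq_le ?_
    push_cast
    exact (chi_mean k).2

/-! ### exponential moments of `kap` -/

/-- exponential moment from an exponential tail -/
lemma lint_ex_of_tail {Ω : Type*} [MeasurableSpace Ω] (μ : Measure Ω) [IsFiniteMeasure μ]
    {Z : Ω → ℝ} (hZ : Measurable Z) (h0 : ∀ ω, 0 ≤ Z ω)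
    (h : ∀ k : ℕ, μ.real {ω | (k : ℝ) ≤ Z ω} ≤ 2 * Real.exp (-(2 * k))) :
    ∫⁻ ω, ex (Z ω) ∂μ ≤ ex 3 := by
  have hm : ∀ k : ℕ, MeasurableSet {ω | (k : ℝ) ≤ Z ω} := fun k =>
    measurableSet_le measurable_const hZ
  have he : Real.exp (-1) ≤ 1 / 2 := by
    rw [Real.exp_neg, one_div]
    exact inv_anti₀ two_pos (by linarith [Real.add_one_le_exp 1])
  calc ∫⁻ ω, ex (Z ω) ∂μ
      ≤ ∫⁻ ω, ∑' k : ℕ, {ω | (k : ℝ) ≤ Z ω}.indicator (fun _ => ex (k + 1)) ω ∂μ := by
        refine lintegral_mono fun ω => le_trans ?_ (ENNReal.le_tsum ⌊Z ω⌋₊)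
        rw [Set.indicator_of_mem (show ω ∈ {ω' | ((⌊Z ω⌋₊ : ℕ) : ℝ) ≤ Z ω'} from
          Nat.floor_le (h0 ω))]
        exact ex_mono (Nat.lt_floor_add_one _).le
    _ = ∑' k : ℕ, ex (k + 1) * μ {ω | (k : ℝ) ≤ Z ω} := by
        rw [lintegral_tsum fun k => (measurable_const.indicator (hm k)).aemeasurable]
        exact tsum_congr fun k => by rw [lintegral_indicator_const (hm k)]
    _ ≤ ∑' k : ℕ, ENNReal.ofReal (2 * Real.exp 1 * (1 / 2) ^ k) := by
        refine ENNReal.tsum_le_tsum fun k => ?_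
        rw [← ofReal_measureReal, ex, ← ENNReal.ofReal_mul (Real.exp_pos _).le]
        refine ENNReal.ofReal_le_ofReal
          ((mul_le_mul_of_nonneg_left (h k) (Real.exp_pos _).le).trans ?_)
        have e : Real.exp (k + 1) * (2 * Real.exp (-(2 * k))) =
            2 * Real.exp 1 * Real.exp (-1) ^ k := by
          rw [← Real.exp_nat_mul, mul_left_comm, mul_assoc, ← Real.exp_add, ← Real.exp_add]
          congr 2; ring
        rw [e]
        exact mul_le_mul_of_nonneg_left (pow_le_pow_left₀ (Real.exp_pos _).le he k) (by positivity)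
    _ ≤ ex 3 := by
        rw [← ENNReal.ofReal_tsum_of_nonneg (fun _ => by positivity)
          (summable_geometric_two.mul_left _), tsum_mul_left, tsum_geometric_two]
        refine ENNReal.ofReal_le_ofReal ?_
        have e : Real.exp 3 = Real.exp 1 * (Real.exp 1 * Real.exp 1) := by
          rw [← Real.exp_add, ← Real.exp_add]; norm_num
        have h2 : 2 ≤ Real.exp 1 := by linarith [Real.add_one_le_exp 1]
        rw [e]; nlinarith [mul_le_mul h2 h2 two_pos.le (Real.exp_pos 1).le]

lemma lint_osc_sq {Ω : Type*} [MeasurableSpace Ω] (μ : Measure Ω) [IsFiniteMeasure μ]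
    {X : Ω → ℝ} (hX : Measurable X) (h0 : ∀ ω, 0 ≤ X ω) {s lam : ℝ} {l : ℕ} (hs : 0 < s)
    (hlam : 0 < lam) (hl : 1 ≤ l) (hle : 16 * lam * l ≤ s ^ 2)
    (h : ∀ t, 0 ≤ t → μ.real {ω | t ≤ X ω} ≤ 2 * Real.exp (-t ^ 2 / (8 * l))) :
    ∫⁻ ω, ex (lam * (X ω / s) ^ 2) ∂μ ≤ ex 3 := by
  have hl' : (0 : ℝ) < l := by exact_mod_cast hl
  refine lint_ex_of_tail μ (by fun_prop) (fun ω => by positivity) fun k => ?_
  have hk : (0 : ℝ) ≤ k * s ^ 2 / lam := by positivity
  have h1 := h (Real.sqrt (k * s ^ 2 / lam)) (Real.sqrt_nonneg _)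
  rw [Real.sq_sqrt hk] at h1
  refine (measureReal_mono fun ω hω => ?_).trans (h1.trans ?_)
  · refine Real.sqrt_le_iff.2 ⟨h0 ω, ?_⟩
    rw [Set.mem_ofPred_eq, div_pow, ← mul_div_assoc, le_div_iff₀ (by positivity)] at hω
    rw [div_le_iff₀ hlam]; linarith
  · refine mul_le_mul_of_nonneg_left (Real.exp_le_exp.2 ?_) two_pos.le
    rw [neg_div, neg_le_neg_iff, div_div, le_div_iff₀ (by positivity)]
    have := mul_le_mul_of_nonneg_left hle (Nat.cast_nonneg (α := ℝ) k)
    linarith

theorem kapGlue : KapGlue := by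
  intro hO A0 hA0
  obtain ⟨A, hA, hAA⟩ : ∃ A : ℝ, 0 < A ∧ A0 ≤ A := ⟨A0 + 1, by linarith, by linarith⟩
  set h : ℝ := 1 / (32 * (4800 * A)) with hh
  have hpos : 0 < h := by positivity
  set q : ℝ := Real.exp (-(A * h / 64)) with hq
  have hq0 : 0 ≤ q := (Real.exp_pos _).le
  have hq1 : q < 1 := Real.exp_lt_one_iff.2 (neg_lt_zero.2 (by positivity))
  refine ⟨h, Real.exp (A / h ^ 2 + 3) * (1 - q)⁻¹, hpos, ?_⟩
  have hev : ∀ᶠ n : ℕ in atTop, 1 ≤ h * sx n ^ 2 :=
    (((tendsto_pow_atTop two_ne_zero).comp tendsto_sx).const_mul_atTop hpos).eventually_ge_atTop 1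
  filter_upwards [hev, eventually_ge_atTop 1] with n h1 hn
  have hs := sx_pos hn
  set s := sx n
  set l := ⌈h * s ^ 2⌉₊ with hl
  have hl1 : h * s ^ 2 ≤ l := Nat.le_ceil _
  have hl2 : (l : ℝ) ≤ 2 * (h * s ^ 2) := by
    have := Nat.ceil_lt_add_one (a := h * s ^ 2) (by linarith)
    linarith
  have hl3 : 1 ≤ l := by exact_mod_cast h1.trans hl1
  have hl0 : (0 : ℝ) < l := by linarith
  have hle : 16 * (4800 * A) * l ≤ s ^ 2 := by
    have e : 16 * (4800 * A) * (2 * (h * s ^ 2)) = s ^ 2 := by rw [hh]; field_simp; ring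
    rw [← e]; exact mul_le_mul_of_nonneg_left hl2 (by positivity)
  have mA := fun j => measurable_osc (fun i => (continuous_rowA n i).measurable) l j
  have mX := fun j => measurable_osc (fun i => (continuous_rowX n i).measurable) l j
  have key : ∀ j : ℕ, ∫⁻ g, ex (2400 * A * (osc (rowA n g) l j / s) ^ 2 +
      2400 * A * (osc (rowX n g) l j / s) ^ 2) ∂gm n ≤ ex 3 := fun j => by
    have a1 := lint_osc_sq (gm n) (mA j) (fun g => osc_nonneg _ _ _) hs (by positivity) hl3 hle
      fun t ht => (hO n l j t hl3 ht).1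
    have a2 := lint_osc_sq (gm n) (mX j) (fun g => osc_nonneg _ _ _) hs (by positivity) hl3 hle
      fun t ht => (hO n l j t hl3 ht).2
    have := mA j
    refine Conc.lint_ex_add_le (Measurable.aemeasurable (by fun_prop)) ?_ ?_
    · simpa only [← mul_assoc, show (2 : ℝ) * 2400 = 4800 by norm_num] using a1
    · simpa only [← mul_assoc, show (2 : ℝ) * 2400 = 4800 by norm_num] using a2
  calc ∫⁻ g, ENNReal.ofReal (Real.exp (A0 * kap n s (rowA n g) (rowX n g) l)) ∂gm n
      ≤ ∫⁻ g, ∑ j : Fin (n + 1), ex (A / h ^ 2 - (j : ℕ) * (A * h / 64)) *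
          ex (2400 * A * (osc (rowA n g) l j / s) ^ 2 +
            2400 * A * (osc (rowX n g) l j / s) ^ 2) ∂gm n := by
        refine lintegral_mono fun g => ?_
        obtain ⟨j, hj⟩ := exists_eq_ciSup_of_finite (f := fun j : Fin (n + 1) =>
          2400 * ((osc (rowA n g) l j / s) ^ 2 + (osc (rowX n g) l j / s) ^ 2) + (s ^ 2 / l) ^ 2 -
            ((j : ℕ) : ℝ) * l / (64 * s ^ 2))
        refine le_trans ?_ (single_le_sum (f := fun j : Fin (n + 1) =>
          ex (A / h ^ 2 - (j : ℕ) * (A * h / 64)) *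
          ex (2400 * A * (osc (rowA n g) l j / s) ^ 2 +
            2400 * A * (osc (rowX n g) l j / s) ^ 2)) (fun _ _ => zero_le) (mem_univ j))
        rw [← ex_add]
        refine ex_mono ((mul_le_mul_of_nonneg_right hAA (kap_nonneg _ _ _ _ _)).trans ?_)
        rw [kap, ← hj]
        have b1 : (s ^ 2 / l) ^ 2 ≤ 1 / h ^ 2 := by
          rw [← one_pow 2, ← div_pow]
          refine pow_le_pow_left₀ (by positivity) ?_ 2
          rw [div_le_div_iff₀ hl0 hpos]; linarith
        have b2 : ((j : ℕ) : ℝ) * (h / 64) ≤ ((j : ℕ) : ℝ) * l / (64 * s ^ 2) := by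
          rw [mul_div_assoc]
          refine mul_le_mul_of_nonneg_left ?_ (Nat.cast_nonneg _)
          rw [div_le_div_iff₀ (by norm_num) (by positivity)]; linarith
        have b3 := mul_le_mul_of_nonneg_left b1 hA.le
        have b4 := mul_le_mul_of_nonneg_left b2 hA.le
        rw [mul_one_div] at b3
        linarith
    _ ≤ ∑ j : Fin (n + 1), ex (A / h ^ 2 - (j : ℕ) * (A * h / 64)) * ex 3 := by
        rw [lintegral_finsetSum _ fun j _ => by have := mA j; have := mX j; fun_prop]
        refine sum_le_sum fun j _ => ?_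
        rw [lintegral_const_mul' _ _ (ex_ne_top _)]
        exact mul_le_mul_right (key j) _
    _ = ENNReal.ofReal (Real.exp (A / h ^ 2 + 3) * ∑ j ∈ range (n + 1), q ^ j) := by
        rw [mul_sum, ENNReal.ofReal_sum_of_nonneg fun _ _ => by positivity, Finset.sum_range]
        refine sum_congr rfl fun j _ => ?_
        rw [← ex_add, ex, hq, ← Real.exp_nat_mul, ← Real.exp_add]
        congr 2; ring
    _ ≤ _ := by
        refine ENNReal.ofReal_le_ofReal (mul_le_mul_of_nonneg_left ?_ (Real.exp_pos _).le)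
        rw [← tsum_geometric_of_lt_one hq0 hq1]
        exact (summable_geometric_of_lt_one hq0 hq1).sum_le_tsum _ fun _ _ => by positivity

theorem kapStmt : KapStmt := kapGlue oscStmt

end Crest.Agent.T157.Ed.Osc7

end
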