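import Crest.Agent.T157.EdBase_88

/-!
# Row 157, edge limit: Householder reduction of the GOE in law (helper62)
-/

set_option autoImplicit false

noncomputable section

namespace Crest.Agent.T157.Ed.Tri62

open MeasureTheory ProbabilityTheory Matrix Finset
open Crest.Agent.T157.E Crest.Agent.T157.Eig Crest.Agent.T157.Cond
open scoped ENNReal

variable {n : ℕ}

/-- bordered matrix -/
def blk (a : ℝ) (w : Fin n → ℝ) (G : Mat n) : Mat (n + 1) :=
  Matrix.of (Fin.cons (Fin.cons a w) fun i => Fin.cons (w i) (G i))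

@[simp] lemma blk_zz (a : ℝ) (w : Fin n → ℝ) (G : Mat n) : blk a w G 0 0 = a := rfl
@[simp] lemma blk_zs (a : ℝ) (w : Fin n → ℝ) (G : Mat n) (j : Fin n) :
    blk a w G 0 j.succ = w j := rfl
@[simp] lemma blk_sz (a : ℝ) (w : Fin n → ℝ) (G : Mat n) (i : Fin n) :
    blk a w G i.succ 0 = w i := rfl
@[simp] lemma blk_ss (a : ℝ) (w : Fin n → ℝ) (G : Mat n) (i j : Fin n) :
    blk a w G i.succ j.succ = G i j := rfl

lemma measurable_blk {Ω : Type*} [MeasurableSpace Ω] {a : Ω → ℝ} {w : Ω → Fin n → ℝ}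
    {G : Ω → Mat n} (ha : Measurable a) (hw : Measurable w) (hG : Measurable G) :
    Measurable fun ω => blk (a ω) (w ω) (G ω) := by
  refine measurable_mat_iff.2 fun i j => ?_
  refine Fin.cases ?_ (fun i => ?_) i <;> refine Fin.cases ?_ (fun j => ?_) j
  · exact ha
  · exact (measurable_pi_apply j).comp hw
  · exact (measurable_pi_apply i).comp hw
  · exact hG.t157_entry i j

lemma blk_transpose (a : ℝ) (w : Fin n → ℝ) (G : Mat n) : (blk a w G)ᵀ = blk a w Gᵀ := by
  ext i j
  refine Fin.cases ?_ (fun i => ?_) i <;> refine Fin.cases ?_ (fun j => ?_) j <;> simp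

/-- first basis vector -/
def e0 (n : ℕ) : Fin n → ℝ := fun i => if (i : ℕ) = 0 then 1 else 0

lemma blk_orth {O : Mat n} (hO : O * Oᵀ = 1) : blk 1 0 O * (blk 1 0 O)ᵀ = 1 := by
  ext i j
  refine Fin.cases ?_ (fun i => ?_) i <;> refine Fin.cases ?_ (fun j => ?_) j
  · simp [Matrix.mul_apply, Fin.sum_univ_succ]
  · simp [Matrix.mul_apply, Fin.sum_univ_succ, (Fin.succ_ne_zero j).symm]
  · simp [Matrix.mul_apply, Fin.sum_univ_succ]
  · have := congrFun (congrFun hO i) j
    simpa [Matrix.mul_apply, Fin.sum_univ_succ, Matrix.one_apply] using this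

lemma blk_e0 (O : Mat n) : blk 1 0 O *ᵥ e0 (n + 1) = e0 (n + 1) := by
  ext i
  refine Fin.cases ?_ (fun i => ?_) i <;>
    simp [Matrix.mulVec, dotProduct, e0]

lemma blk_conj (O : Mat n) (a : ℝ) (w : Fin n → ℝ) (G : Mat n) :
    blk 1 0 O * blk a w G * (blk 1 0 O)ᵀ = blk a (O *ᵥ w) (O * G * Oᵀ) := by
  ext i j
  refine Fin.cases ?_ (fun i => ?_) i <;> refine Fin.cases ?_ (fun j => ?_) j <;>
    simp [Matrix.mul_apply, Fin.sum_univ_succ, Matrix.mulVec, dotProduct, mul_comm]

/-- Householder reflection -/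
lemma exists_orth {ι : Type*} [Fintype ι] [DecidableEq ι] (v w : ι → ℝ) (h : v ⬝ᵥ v = w ⬝ᵥ w) :
    ∃ O : Matrix ι ι ℝ, O * Oᵀ = 1 ∧ O *ᵥ w = v := by
  by_cases hvw : w - v = 0
  · exact ⟨1, by simp, by rw [one_mulVec, sub_eq_zero.1 hvw]⟩
  set u := w - v with hu
  have hpos : 0 < u ⬝ᵥ u := dot_self_pos hvw
  have huw : 2 * (u ⬝ᵥ w) = u ⬝ᵥ u := by
    simp only [hu, sub_dotProduct, dotProduct_sub, dotProduct_comm w v]
    linarith
  refine ⟨1 - (2 / (u ⬝ᵥ u)) • vecMulVec u u, ?_, ?_⟩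
  · rw [transpose_sub, transpose_one, transpose_smul, transpose_vecMulVec, Matrix.sub_mul,
      Matrix.mul_sub, Matrix.mul_sub, Matrix.one_mul, Matrix.one_mul, Matrix.mul_one,
      Matrix.smul_mul, Matrix.mul_smul, vecMulVec_mul_vecMulVec, smul_smul]
    ext i j
    simp only [Matrix.sub_apply, Matrix.smul_apply, vecMulVec_apply, smul_eq_mul, Pi.smul_apply]
    field_simp
    ring
  · rw [sub_mulVec, one_mulVec, smul_mulVec, vecMulVec_mulVec]
    ext i
    have : v i = w i - u i := by simp [hu]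
    rw [this]
    simp only [Pi.sub_apply, Pi.smul_apply, smul_eq_mul, MulOpposite.smul_eq_mul_unop,
      MulOpposite.unop_op]
    rw [← huw] at hpos ⊢
    have : u ⬝ᵥ w ≠ 0 := by intro h0; rw [h0] at hpos; simp at hpos
    field_simp

/-- Euclidean norm -/
def rr (w : Fin n → ℝ) : ℝ := Real.sqrt (∑ j, w j ^ 2)

lemma exists_orth_e0 (w : Fin n → ℝ) : ∃ O : Mat n, O * Oᵀ = 1 ∧ O *ᵥ w = rr w • e0 n := by
  refine exists_orth _ _ ?_
  cases n with
  | zero => simp [dotProduct]
  | succ n =>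
    have h1 : e0 (n + 1) ⬝ᵥ e0 (n + 1) = 1 := by simp [dotProduct, e0]
    rw [smul_dotProduct, dotProduct_smul, h1, smul_eq_mul, smul_eq_mul, mul_one, rr,
      Real.mul_self_sqrt (sum_nonneg fun j _ => sq_nonneg _)]
    simp [dotProduct, sq]

/-- invariance under the stabiliser of the first basis vector -/
def Inv (n : ℕ) (F : Mat n → ℝ≥0∞) : Prop :=
  ∀ O : Mat n, O * Oᵀ = 1 → O *ᵥ e0 n = e0 n → ∀ W : Mat n, Wᵀ = W → F (O * W * Oᵀ) = F W

lemma Inv.blk {F : Mat (n + 1) → ℝ≥0∞} (hF : Inv (n + 1) F) {O : Mat n} (hO : O * Oᵀ = 1)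
    (a : ℝ) (w : Fin n → ℝ) {G : Mat n} (hG : Gᵀ = G) :
    F (blk a (O *ᵥ w) (O * G * Oᵀ)) = F (blk a w G) := by
  rw [← blk_conj]
  exact hF _ (blk_orth hO) (blk_e0 O) _ (by rw [blk_transpose, hG])

/-- the GOE as a bordered matrix -/
lemma law_blk (n : ℕ) : ((gv (Fin (n + 1))).prod (goe (Fin n) 1)).map
    (fun p => blk (Real.sqrt 2 * p.1 0) (fun j => p.1 j.succ) p.2) = goe (Fin (n + 1)) 1 := by
  refine map_eq_goe (measurable_blk (by fun_prop) (by fun_prop) measurable_snd) fun M => ?_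
  set t : Fin (n + 1) → ℝ := Fin.cons (Real.sqrt 2 * M 0 0) fun j => M 0 j.succ + M j.succ 0
    with ht
  set M' : Mat n := Matrix.of fun i j => M i.succ j.succ with hM'
  have h1 : ∀ p : (Fin (n + 1) → ℝ) × Mat n,
      pair M (blk (Real.sqrt 2 * p.1 0) (fun j => p.1 j.succ) p.2) = t ⬝ᵥ p.1 + pair M' p.2 := by
    intro p
    simp only [pair, Fin.sum_univ_succ, blk_zz, blk_zs, blk_sz, blk_ss, dotProduct, ht, hM',
      Fin.cons_zero, Fin.cons_succ, Matrix.of_apply, sum_add_distrib, add_mul]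
    ring
  simp_rw [h1]
  rw [CF_prod (gv (Fin (n + 1))) (goe (Fin n) 1) (fun x => t ⬝ᵥ x) fun W => pair M' W, CF_gv,
    CF_goe, ← Complex.exp_add]
  have h2 : t ⬝ᵥ t + 1 ^ 2 * Vq M' = 1 ^ 2 * Vq M := by
    have h3 : Real.sqrt 2 * Real.sqrt 2 = 2 := Real.mul_self_sqrt (by norm_num)
    have h4 : ∑ j : Fin n, (M j.succ 0 + M 0 j.succ) ^ 2 =
        ∑ j : Fin n, (M 0 j.succ + M j.succ 0) ^ 2 := sum_congr rfl fun j _ => by ring
    have h5 : ∑ j : Fin n, (M 0 j.succ + M j.succ 0) * (M 0 j.succ + M j.succ 0) =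
        ∑ j : Fin n, (M 0 j.succ + M j.succ 0) ^ 2 := sum_congr rfl fun j _ => by ring
    simp only [Vq_eq_sum, Fin.sum_univ_succ, dotProduct, ht, hM', Fin.cons_zero, Fin.cons_succ,
      Matrix.of_apply, sum_add_distrib, h4, h5]
    linear_combination (M 0 0) ^ 2 * h3
  rw [← h2]
  push_cast
  ring_nf

lemma mp_tail (n : ℕ) : MeasurePreserving (fun (x : Fin (n + 1) → ℝ) (j : Fin n) => x j.succ)
    (gv (Fin (n + 1))) (gv (Fin n)) :=
  measurePreserving_snd.comp
    (measurePreserving_piFinSuccAbove (fun _ : Fin (n + 1) => gaussianReal 0 1) 0)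

lemma mp_rows (n : ℕ) : MeasurePreserving
    (fun g : Fin (n + 1) → Fin (n + 1) → ℝ => (g 0, fun (i j : Fin n) => g i.succ j.succ))
    (gm (n + 1)) ((gv (Fin (n + 1))).prod (gm n)) :=
  ((MeasurePreserving.id _).prod (measurePreserving_pi (fun _ : Fin n => gv (Fin (n + 1)))
    (fun _ : Fin n => gv (Fin n)) fun _ => mp_tail n)).comp
    (measurePreserving_piFinSuccAbove (fun _ : Fin (n + 1) => gv (Fin (n + 1))) 0)

lemma tri_succ (a b : ℕ → ℝ) : tri (n + 1) a b =
    blk (a 1) (b 1 • e0 n) (tri n (fun i => a (i + 1)) fun i => b (i + 1)) := by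
  ext i j
  refine Fin.cases ?_ (fun i => ?_) i <;> refine Fin.cases ?_ (fun j => ?_) j
  · simp [tri]
  · by_cases hj : (j : ℕ) = 0 <;> simp [tri, e0, (Fin.succ_ne_zero j).symm, hj, eq_comm]
  · by_cases hi : (i : ℕ) = 0 <;> simp [tri, e0, hi, eq_comm]
  · simp [tri]

lemma ext_tail (v : Fin (n + 1) → ℝ) {i : ℕ} (hi : 1 ≤ i) :
    ext v (i + 1) = ext (fun k : Fin n => v k.succ) i := by
  obtain ⟨i, rfl⟩ : ∃ k, i = k + 1 := ⟨i - 1, by omega⟩
  by_cases h : i < n
  · rw [ext_succ' v (by omega), ext_succ' _ h]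
    rfl
  · rw [ext_of_lt v (by omega), ext_of_lt _ (by omega)]

/-- the unnormalised tridiagonal model -/
def T0 (n : ℕ) (g : Fin n → Fin n → ℝ) : Mat n := tri n (rowA n g) (rowB n g)

lemma measurable_T0 (n : ℕ) : Measurable (T0 n) :=
  (continuous_tri (continuous_rowA n) (continuous_rowB n)).measurable

lemma T0_succ (g : Fin (n + 1) → Fin (n + 1) → ℝ) : T0 (n + 1) g =
    blk (Real.sqrt 2 * g 0 0) (rr (fun j : Fin n => g 0 j.succ) • e0 n)
      (T0 n fun i j => g i.succ j.succ) := by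
  rw [T0, tri_succ]
  have h1 : rowA (n + 1) g 1 = Real.sqrt 2 * g 0 0 := ext_succ _ (0 : Fin (n + 1))
  have h2 : rowB (n + 1) g 1 = rr fun j : Fin n => g 0 j.succ := by
    refine (ext_succ _ (0 : Fin (n + 1))).trans ?_
    simp [rr, sum_filter, Fin.sum_univ_succ]
  rw [h1, h2, T0]
  congr 1
  refine tri_congr (fun i hi => ?_) fun i hi => ?_
  · exact ext_tail _ hi
  · refine (ext_tail _ hi).trans ?_
    unfold rowB
    congr 1
    funext k
    simp [sum_filter, Fin.sum_univ_succ]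

lemma measurable_rr : Measurable (rr : (Fin n → ℝ) → ℝ) := by
  unfold rr; fun_prop

theorem core (n : ℕ) : ∀ F : Mat n → ℝ≥0∞, Measurable F → Inv n F →
    ∫⁻ W, F W ∂goe (Fin n) 1 = ∫⁻ g, F (T0 n g) ∂gm n := by
  induction n with
  | zero =>
    intro F _ _
    have h : ∀ W, F W = F 0 := fun W => congrArg F (Subsingleton.elim _ _)
    simp_rw [h]
    simp
  | succ n ih =>
    intro F hF hI
    have hb : Measurable fun p : (Fin (n + 1) → ℝ) × Mat n =>
        blk (Real.sqrt 2 * p.1 0) (fun j => p.1 j.succ) p.2 :=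
      measurable_blk (by fun_prop) (by fun_prop) measurable_snd
    have hc : Measurable fun p : (Fin (n + 1) → ℝ) × (Fin n → Fin n → ℝ) =>
        F (blk (Real.sqrt 2 * p.1 0) (rr (fun j : Fin n => p.1 j.succ) • e0 n) (T0 n p.2)) :=
      hF.comp (measurable_blk (by fun_prop)
        ((measurable_rr.comp (by fun_prop)).smul_const _) ((measurable_T0 n).comp measurable_snd))
    simp_rw [T0_succ]
    have hb' : Measurable fun p : (Fin (n + 1) → ℝ) × Mat n =>
        F (blk (Real.sqrt 2 * p.1 0) (fun j => p.1 j.succ) p.2) := hF.comp hb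
    have hr := (mp_rows n).lintegral_comp hc
    simp only at hr
    rw [← law_blk, lintegral_map hF hb, lintegral_prod _ hb'.aemeasurable, hr,
      lintegral_prod _ hc.aemeasurable]
    refine lintegral_congr fun x => ?_
    obtain ⟨O, hO, hw⟩ := exists_orth_e0 fun j : Fin n => x j.succ
    have hm : Measurable fun G : Mat n =>
        F (blk (Real.sqrt 2 * x 0) (rr (fun j : Fin n => x j.succ) • e0 n) G) :=
      hF.comp (measurable_blk measurable_const measurable_const measurable_id)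
    rw [← ih _ hm]
    · conv_rhs => rw [← goe_conj 1 O hO, lintegral_map hm (by fun_prop)]
      refine lintegral_congr_ae ?_
      filter_upwards [goe_ae_symm (ι := Fin n) 1] with G hG
      rw [← hw]
      exact (hI.blk hO _ _ hG).symm
    · intro Q hQ he W hW
      have := hI.blk hQ (Real.sqrt 2 * x 0) (rr (fun j : Fin n => x j.succ) • e0 n) hW
      rwa [mulVec_smul, he] at this

end Crest.Agent.T157.Ed.Tri62

namespace Crest.Agent.T157.Ed

open MeasureTheory ProbabilityTheory Matrix Finset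
open Crest.Agent.T157.E Crest.Agent.T157.Eig Crest.Agent.T157.Cond Tri62

theorem triStmt : TriStmt := by
  intro n
  have hs : Measurable fun W : Mat n => (1 / Real.sqrt n) • W := by fun_prop
  have hl : Measurable fun W : Mat n => (lam ((1 / Real.sqrt n) • W) : ℕ → ℝ) :=
    measurable_lam.comp hs
  have h1 : GOE n = (goe (Fin n) 1).map fun W => (1 / Real.sqrt n) • W := by
    rw [goe_smul, mul_one]
  have hT : Measurable fun g => (lam (Tm n g) : ℕ → ℝ) := measurable_lam.comp (measurable_Tm n)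
  rw [h1, Measure.map_map measurable_lam hs]
  ext S hS
  rw [← lintegral_indicator_one hS, ← lintegral_indicator_one hS,
    lintegral_map (measurable_one.indicator hS) (measurable_lam.comp hs),
    lintegral_map (measurable_one.indicator hS) hT]
  refine core n _ ((measurable_one.indicator hS).comp hl) fun O hO _ W hW => ?_
  have : (lam ((1 / Real.sqrt n) • (O * W * Oᵀ)) : ℕ → ℝ) = lam ((1 / Real.sqrt n) • W) := by
    funext k
    have h2 := lam_conj (herm_smul (herm_iff.2 hW) (1 / Real.sqrt n)) (Q := Oᵀ)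
      (by rw [transpose_transpose, hO]) rfl k
    rw [← h2, transpose_transpose, Matrix.mul_smul, Matrix.smul_mul]
  simp only [Function.comp_apply, this]

end Crest.Agent.T157.Ed

end
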