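import Crest.Agent.T157.EdDetA_88

/-!
# Row 157, part E: edge limit — `DetStmt` (helper88)

IMS cut-off, sampling and linear interpolation.
-/

set_option autoImplicit false

noncomputable section

namespace Crest.Agent.T157.Ed.Det

open Finset Matrix Crest.Agent.T157.Ed Crest.Agent.T157.Eig

variable {n P p J : ℕ} {v : ℕ → ℝ} {s : ℝ}

/-! ### the cut-off -/

/-- angle of the partition of unity -/
def ang (P i : ℕ) : ℝ := Real.pi / 2 * max 0 (min 1 (2 * (i : ℝ) / P - 1))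

lemma ang_of_le {i : ℕ} (hP : 0 < P) (h : 2 * i ≤ P) : ang P i = 0 := by
  have h0 : (0 : ℝ) < P := by exact_mod_cast hP
  have h1 : (2 * i / P - 1 : ℝ) ≤ 0 := by
    rw [sub_nonpos, div_le_one h0]; exact_mod_cast h
  rw [ang, max_eq_left ((min_le_right _ _).trans h1), mul_zero]

lemma ang_of_ge {i : ℕ} (hP : 0 < P) (h : P ≤ i) : ang P i = Real.pi / 2 := by
  have h0 : (0 : ℝ) < P := by exact_mod_cast hP
  have h1 : (1 : ℝ) ≤ 2 * i / P - 1 := by
    rw [le_sub_iff_add_le, le_div_iff₀ h0]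
    have : (P : ℝ) ≤ i := by exact_mod_cast h
    linarith
  rw [ang, min_eq_left h1, max_eq_right zero_le_one, mul_one]

lemma abs_ang_sub (hP : 0 < P) (i : ℕ) : |ang P (i + 1) - ang P i| ≤ 4 / P := by
  have h0 : (0 : ℝ) < P := by exact_mod_cast hP
  rw [ang, ang, ← mul_sub, abs_mul, abs_of_pos (by positivity : 0 < Real.pi / 2)]
  have h1 : |max 0 (min 1 (2 * ((i + 1 : ℕ) : ℝ) / P - 1)) - max 0 (min 1 (2 * (i : ℝ) / P - 1))|
      ≤ 2 / P := by
    rw [max_comm 0, max_comm 0]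
    refine (abs_max_sub_max_le_abs _ _ _).trans ?_
    refine (abs_min_sub_min_le_max _ _ _ _).trans (max_le (by simp; positivity) (le_of_eq ?_))
    rw [show (2 * ((i + 1 : ℕ) : ℝ) / P - 1) - (2 * (i : ℝ) / P - 1) = 2 / P by
      push_cast; ring, abs_of_pos (by positivity)]
  have h2 : Real.pi / 2 ≤ 2 := by linarith [Real.pi_le_four]
  calc _ ≤ 2 * (2 / (P : ℝ)) := mul_le_mul h2 h1 (abs_nonneg _) (by norm_num)
    _ = 4 / P := by ring

/-- inner part -/
def cut (P : ℕ) (v : ℕ → ℝ) : ℕ → ℝ := fun i => Real.cos (ang P i) * v i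
/-- outer part -/
def out (P : ℕ) (v : ℕ → ℝ) : ℕ → ℝ := fun i => Real.sin (ang P i) * v i

lemma sup_cut (hP : 0 < P) (hv : Adm n v) : Sup P (cut P v) :=
  ⟨by simp [cut, hv.1], fun i hi => by simp [cut, ang_of_ge hP hi]⟩

lemma adm_out (hv : Adm n v) : Adm n (out P v) :=
  ⟨by simp [out, hv.1], fun i hi => by simp [out, hv.2 i hi]⟩

lemma nrm_cut_out : nrm n (cut P v) + nrm n (out P v) = nrm n v := by
  simp only [nrm, ← sum_add_distrib, cut, out]
  refine sum_congr rfl fun i _ => ?_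
  have := Real.cos_sq_add_sin_sq (ang P i)
  rw [mul_pow, mul_pow, ← add_mul, this, one_mul]

lemma ims (hP : 0 < P) (hv : Adm n v) (hs : 0 < s) {a b : ℕ → ℝ}
    (hb : ∀ i, i < P → |b i| ≤ 2 * s ^ 3) :
    Qf n s a b (cut P v) + Qf n s a b (out P v) ≤
      Qf n s a b v + 32 * s ^ 4 / P ^ 2 * nrm n v := by
  have h0 : (0 : ℝ) < P := by exact_mod_cast hP
  have e : Qf n s a b (cut P v) + Qf n s a b (out P v) = Qf n s a b v +
      ∑ i ∈ range (n + 1), s * (2 * b i * (v i * v (i + 1)) *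
        (1 - Real.cos (ang P (i + 1) - ang P i))) := by
    have e1 : ∑ i ∈ range (n + 1), (a i * cut P v i ^ 2 + 2 * b i * (cut P v i * cut P v (i + 1))) +
        ∑ i ∈ range (n + 1), (a i * out P v i ^ 2 + 2 * b i * (out P v i * out P v (i + 1))) =
        ∑ i ∈ range (n + 1), (a i * v i ^ 2 + 2 * b i * (v i * v (i + 1))) -
        ∑ i ∈ range (n + 1), 2 * b i * (v i * v (i + 1)) *
          (1 - Real.cos (ang P (i + 1) - ang P i)) := by
      rw [← sum_add_distrib, ← sum_sub_distrib]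
      refine sum_congr rfl fun i _ => ?_
      have := Real.cos_sq_add_sin_sq (ang P i)
      simp only [cut, out, Real.cos_sub]
      linear_combination (a i * v i ^ 2) * this
    have e2 := nrm_cut_out (n := n) (P := P) (v := v)
    rw [← mul_sum]
    simp only [Qf]
    linear_combination (2 * s ^ 4) * e2 - s * e1
  rw [e]
  have h1 : ∀ i ∈ range (n + 1), s * (2 * b i * (v i * v (i + 1)) *
      (1 - Real.cos (ang P (i + 1) - ang P i))) ≤
      16 * s ^ 4 / P ^ 2 * v i ^ 2 + 16 * s ^ 4 / P ^ 2 * v (i + 1) ^ 2 := fun i _ => by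
    by_cases hi : i < P
    · have h2 := Real.one_sub_sq_div_two_le_cos (x := ang P (i + 1) - ang P i)
      have h3 := Real.cos_le_one (ang P (i + 1) - ang P i)
      have h4 : (ang P (i + 1) - ang P i) ^ 2 ≤ (4 / P) ^ 2 := by
        rw [← sq_abs]; exact pow_le_pow_left₀ (abs_nonneg _) (abs_ang_sub hP i) 2
      have h5 : 2 * b i * (v i * v (i + 1)) ≤ 2 * s ^ 3 * (v i ^ 2 + v (i + 1) ^ 2) := by
        have h6 := abs_le.1 (hb i hi)
        nlinarith [mul_nonneg (sub_nonneg.2 h6.2) (sq_nonneg (v i + v (i + 1))),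
          mul_nonneg (neg_le_iff_add_nonneg.1 h6.1) (sq_nonneg (v i - v (i + 1)))]
      have h7 : 1 - Real.cos (ang P (i + 1) - ang P i) ≤ 8 / P ^ 2 := by
        have : (4 / (P : ℝ)) ^ 2 = 2 * (8 / P ^ 2) := by ring
        linarith
      have h8 : 2 * b i * (v i * v (i + 1)) * (1 - Real.cos (ang P (i + 1) - ang P i)) ≤
          2 * s ^ 3 * (v i ^ 2 + v (i + 1) ^ 2) * (8 / P ^ 2) :=
        (mul_le_mul_of_nonneg_right h5 (by linarith)).trans
          (mul_le_mul_of_nonneg_left h7 (by positivity))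
      refine (mul_le_mul_of_nonneg_left h8 hs.le).trans (le_of_eq ?_)
      ring
    · rw [ang_of_ge hP (not_lt.1 hi), ang_of_ge hP (by omega), sub_self, Real.cos_zero, sub_self,
        mul_zero, mul_zero]
      positivity
  have h9 := sum_le_sum h1
  rw [sum_add_distrib, sum_sq_shift hv fun _ => 16 * s ^ 4 / P ^ 2] at h9
  have : 32 * s ^ 4 / P ^ 2 * nrm n v = 2 * ∑ i ∈ range (n + 1), 16 * s ^ 4 / P ^ 2 * v i ^ 2 := by
    rw [nrm, ← mul_sum]; ring
  linarith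

lemma pot_out (hP : 0 < P) (hs : 0 < s) {L : ℝ} (hL : L * s ^ 2 ≤ P) :
    L / 2 * nrm n (out P v) ≤ pot n s (out P v) := by
  rw [nrm, pot, mul_sum]
  refine sum_le_sum fun i _ => ?_
  by_cases h : 2 * i ≤ P
  · simp [out, ang_of_le hP h]
  · refine mul_le_mul_of_nonneg_right ?_ (sq_nonneg _)
    rw [le_div_iff₀ (by positivity)]
    have : (P : ℝ) ≤ 2 * i := by exact_mod_cast (not_le.1 h).le
    linarith

/-! ### linear interpolation -/

/-- linear interpolation from the mesh `p` -/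
def itp (p : ℕ) (u : ℕ → ℝ) : ℕ → ℝ :=
  fun i => u (i / p) + ((i % p : ℕ) : ℝ) / p * (u (i / p + 1) - u (i / p))

lemma itp_apply (hp : 1 ≤ p) (u : ℕ → ℝ) (j : ℕ) {r : ℕ} (hr : r ≤ p) :
    itp p u (j * p + r) = u j + (r : ℝ) / p * (u (j + 1) - u j) := by
  have h0 : (p : ℝ) ≠ 0 := by positivity
  rcases hr.lt_or_eq with h | h
  · have e1 : (j * p + r) / p = j := by
      rw [mul_comm, Nat.mul_add_div (by omega), Nat.div_eq_of_lt h, add_zero]
    have e2 : (j * p + r) % p = r := by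
      rw [mul_comm, Nat.mul_add_mod, Nat.mod_eq_of_lt h]
    rw [itp, e1, e2]
  · have e1 : (j * p + r) / p = j + 1 := by
      rw [h, ← Nat.succ_mul, Nat.mul_div_cancel _ (by omega)]
    have e2 : (j * p + r) % p = 0 := by
      rw [h, ← Nat.succ_mul, Nat.mul_mod_left]
    rw [itp, e1, e2, h, div_self h0]
    simp

lemma itp_mul (hp : 1 ≤ p) (u : ℕ → ℝ) (j : ℕ) : itp p u (j * p) = u j := by
  simpa using itp_apply hp u j (Nat.zero_le p)

lemma sup_itp (hp : 1 ≤ p) {u : ℕ → ℝ} (hu : Adm J u) : Sup ((J + 1) * p) (itp p u) := by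
  refine ⟨by simp [itp, hu.1], fun i hi => ?_⟩
  have h : J + 1 ≤ i / p := (Nat.le_div_iff_mul_le (by omega)).2 hi
  rw [itp, hu.2 _ (by omega), hu.2 _ (by omega)]
  simp

lemma kin_itp (hp : 1 ≤ p) (hP : (J + 1) * p ≤ n + 1) (hs : 0 < s) {u : ℕ → ℝ} (hu : Adm J u) :
    kin n s (itp p u) =
      p * (1 / (p / s ^ 2) ^ 2 * ∑ j ∈ range (J + 1), (u (j + 1) - u j) ^ 2) := by
  have h0 : (p : ℝ) ≠ 0 := by positivity
  rw [(sup_itp hp hu).kin_eq hP, sum_range_mul, mul_sum, mul_sum, mul_sum]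
  refine sum_congr rfl fun j _ => ?_
  have : ∀ r ∈ range p, (itp p u (j * p + r + 1) - itp p u (j * p + r)) ^ 2 =
      ((u (j + 1) - u j) / p) ^ 2 := fun r hr => by
    have hr' := mem_range.1 hr
    rw [add_assoc, itp_apply hp u j (r := r + 1) hr', itp_apply hp u j hr'.le]
    push_cast; ring
  rw [sum_congr rfl this, sum_const, card_range, nsmul_eq_mul]
  field_simp

/-! ### the two linear maps -/

/-- cut-off and sampling -/
def smpL (n P p J : ℕ) : (Fin n → ℝ) →ₗ[ℝ] (Fin J → ℝ) where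
  toFun v := res J fun j => cut P (ext v) (j * p)
  map_add' v w := by funext j; simp [res, cut, ext_add, mul_add]
  map_smul' c v := by funext j; simp [res, cut, ext_smul]; ring

/-- interpolation -/
def itpL (n p J : ℕ) : (Fin J → ℝ) →ₗ[ℝ] (Fin n → ℝ) where
  toFun u := res n (itp p (ext u))
  map_add' v w := by funext j; simp [res, itp, ext_add]; ring
  map_smul' c v := by funext j; simp [res, itp, ext_smul]; ring

lemma Sup.adm_smp (h : Sup ((J + 1) * p) v) : Adm J fun j => v (j * p) :=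
  ⟨by simpa using h.1, fun j hj => h.2 _ (Nat.mul_le_mul_right p hj)⟩

lemma lam_le_kap {a b : ℕ → ℝ} {κ : ℝ} (h : Two n s a b κ) {k : ℕ} (hk : k < n) :
    lam (Hm n s a b) k ≤ κ := by
  refine lam_le (Hm_herm s a b) (by simpa using hk) (cod_top.mono (Nat.zero_le k)) fun w _ => ?_
  have h1 := (h _ (adm_ext w)).1
  rw [quad_Hm, ← nrm_ext]
  linarith [kin_nonneg n s (ext w), pot_nonneg n s (ext w)]

lemma num1 {t T M e θ δ η η1 N Nc K Q R : ℝ} (hT : 1 ≤ T) (ht : |t| ≤ T) (hM : 0 ≤ M)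
    (he1 : e ≤ 1) (hθ : θ * (M + 1) = e / 8) (hδ0 : 0 ≤ δ) (hδ : T * δ ≤ θ) (hη0 : 0 ≤ η)
    (hη : η ≤ θ) (hη1 : η1 ≤ e / 8) (hN : 0 ≤ N) (hK0 : 0 ≤ K) (hK : K ≤ M * N)
    (hc : |N - Nc| ≤ δ * (K + N)) (hQ : Q ≤ t * N + η1 * N) (hR : R ≤ Q + η * (K + N)) :
    N ≤ 2 * Nc ∧ R ≤ (t + e) * Nc := by
  have hE : K + N ≤ (M + 1) * N := by linarith
  have hθ0 : 0 ≤ θ := hη0.trans hη
  have he0 : 0 ≤ e := by nlinarith
  have h1 : θ * (K + N) ≤ e / 8 * N := by
    rw [← hθ, mul_assoc]; exact mul_le_mul_of_nonneg_left hE hθ0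
  have hE0 : 0 ≤ K + N := by linarith
  have h2 : T * (δ * (K + N)) ≤ e / 8 * N := by
    rw [← mul_assoc]; exact (mul_le_mul_of_nonneg_right hδ hE0).trans h1
  have h3 : δ * (K + N) ≤ e / 8 * N := by
    nlinarith [mul_nonneg hδ0 hE0]
  have h4 : η * (K + N) ≤ e / 8 * N := (mul_le_mul_of_nonneg_right hη hE0).trans h1
  have h5 : t * (N - Nc) ≤ T * (δ * (K + N)) := by
    refine (le_abs_self _).trans ?_
    rw [abs_mul]
    exact mul_le_mul ht hc (abs_nonneg _) (by linarith)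
  have h6 := (abs_le.1 hc).2
  have h7 : e * N ≤ 1 * N := mul_le_mul_of_nonneg_right he1 hN
  have h8 : N ≤ 2 * Nc := by linarith
  refine ⟨h8, ?_⟩
  have h9 : η1 * N ≤ e / 8 * N := mul_le_mul_of_nonneg_right hη1 hN
  have h10 : e * N ≤ e * (2 * Nc) := mul_le_mul_of_nonneg_left h8 he0
  nlinarith [mul_nonneg he0 hN]

lemma num2 {t T κ e θ δ η N Nc K Q : ℝ} (hκ : 0 ≤ κ) (hT : 1 ≤ T) (ht : |t| ≤ T)
    (htκ : t + κ + 1 ≤ T) (he1 : e ≤ 1) (hθ : θ * (128 * T + 1) = e / 8) (hδ0 : 0 ≤ δ)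
    (hδ : T * δ ≤ θ) (hη0 : 0 ≤ η) (hη : η ≤ θ) (hN : 0 ≤ N) (hK0 : 0 ≤ K)
    (hc : |N - Nc| ≤ δ * (K + N)) (hl : K / 64 - κ * N ≤ Q) (hQ : Q ≤ t * Nc + η * (K + N)) :
    Q ≤ (t + e) * N := by
  have hθ0 : 0 ≤ θ := hη0.trans hη
  have he0 : 0 ≤ e := by nlinarith
  have hE0 : 0 ≤ K + N := by linarith
  have hθ1 : θ ≤ 1 / 256 := by nlinarith
  have h5 : t * (Nc - N) ≤ T * (δ * (K + N)) := by
    refine (le_abs_self _).trans ?_
    rw [abs_mul, abs_sub_comm]
    exact mul_le_mul ht hc (abs_nonneg _) (by linarith)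
  have h2 : T * (δ * (K + N)) ≤ θ * (K + N) := by
    rw [← mul_assoc]; exact mul_le_mul_of_nonneg_right hδ hE0
  have h4 : η * (K + N) ≤ θ * (K + N) := mul_le_mul_of_nonneg_right hη hE0
  have h6 : Q ≤ t * N + 2 * (θ * (K + N)) := by linarith
  have h7 : θ * (K + N) ≤ 1 / 256 * (K + N) := mul_le_mul_of_nonneg_right hθ1 hE0
  have h8 : (t + κ + 1) * N ≤ T * N := mul_le_mul_of_nonneg_right htκ hN
  have h9 : K + N ≤ (128 * T + 1) * N := by linarith
  have h10 : θ * (K + N) ≤ e / 8 * N := by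
    rw [← hθ, mul_assoc]; exact mul_le_mul_of_nonneg_left h9 hθ0
  nlinarith [mul_nonneg he0 hN]

section core
variable {β a x : ℕ → ℝ} {κ x0 T e θ η L δ : ℝ} {k : ℕ} {z : Fin J → ℝ}

lemma fine_coarse (hs : 0 < s) (hp : 1 ≤ p) (hP : (J + 1) * p ≤ n + 1) (hkn : k < n)
    (hδ : δ = p / s ^ 2) (htwo : Two n s a (bx β x) κ) (hx : 0 ≤ x0) (hκ : 0 ≤ κ)
    (hT : T = x0 + κ + 1) (he0 : 0 < e) (he1 : e ≤ 1 / 2) (hθe : θ * (128 * T + 1) = e / 8)
    (hTδ : T * δ ≤ θ) (hη0 : 0 ≤ η) (hηθ : η ≤ θ) (hL : 128 * (T + 1) ≤ L)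
    (hL1 : L * s ^ 2 ≤ ((J : ℝ) + 1) * p) (hb : ∀ i, i < (J + 1) * p → |bx β x i| ≤ 2 * s ^ 3)
    (hI : 32 * s ^ 4 / (((J + 1) * p : ℕ) : ℝ) ^ 2 ≤ e / 8)
    (cmp : ∀ v, Sup ((J + 1) * p) v → |Qf n s a (bx β x) v - kin n s v -
      p * ∑ j ∈ range (J + 1), (j * δ - ext z j) * v (j * p) ^ 2| ≤ η * (kin n s v + nrm n v))
    (htx : -lam (Hm n s a (bx β x)) k < x0) :
    Phi J δ z k ≤ -lam (Hm n s a (bx β x)) k + e := by
  have hlam := lam_le_kap htwo hkn
  have hp0 : (0 : ℝ) < p := by exact_mod_cast hp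
  have hP0 : 0 < (J + 1) * p := by positivity
  have hδ0 : 0 ≤ δ := by rw [hδ]; positivity
  obtain ⟨t, ht⟩ : ∃ t, lam (Hm n s a (bx β x)) k = -t := ⟨_, (neg_neg _).symm⟩
  have key : -(t + e) ≤ lam (Hc J δ z) k := by
    refine transfer (Hm_herm s a (bx β x)) (Hc_herm J δ z) (smpL n ((J + 1) * p) p J)
      (by simpa using hkn) fun w hw => ?_
    rw [quad_Hm, ← nrm_ext, ht] at hw
    rw [ht] at hlam htx
    have hv := adm_ext w
    obtain ⟨v, hvdef⟩ : ∃ v, v = cut ((J + 1) * p) (ext w) := ⟨_, rfl⟩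
    have hsup : Sup ((J + 1) * p) v := hvdef ▸ sup_cut hP0 hv
    have h1 := ims hP0 hv hs (a := a) hb
    have h2 := nrm_cut_out (n := n) (P := (J + 1) * p) (v := ext w)
    have h3 := (htwo _ (adm_out (P := (J + 1) * p) hv)).1
    have h4 := pot_out (n := n) (v := ext w) hP0 hs (L := L) (by push_cast; exact hL1)
    have h5 := kin_nonneg n s (out ((J + 1) * p) (ext w))
    have h6 := nrm_nonneg n (out ((J + 1) * p) (ext w))
    have h7 := nrm_nonneg n v
    have h8 := mul_le_mul_of_nonneg_right hI (nrm_nonneg n (ext w))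
    rw [← hvdef] at h1 h2
    have h9 : (t + e / 8 + 1) * nrm n (out ((J + 1) * p) (ext w)) ≤
        (L / 128 - κ) * nrm n (out ((J + 1) * p) (ext w)) :=
      mul_le_mul_of_nonneg_right (by linarith) h6
    have hQ : Qf n s a (bx β x) v ≤ t * nrm n v + e / 8 * nrm n v -
        nrm n (out ((J + 1) * p) (ext w)) := by
      rw [← h2] at hw h8 h1
      linarith
    have h10 := (htwo _ (hsup.adm hP)).1
    have h11 := pot_nonneg n s v
    have hK : kin n s v ≤ 128 * T * nrm n v := by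
      have : (t + e / 8 + κ) * nrm n v ≤ 2 * T * nrm n v :=
        mul_le_mul_of_nonneg_right (by linarith) h7
      linarith
    have hext : ext (smpL n ((J + 1) * p) p J w) = fun j => v (j * p) := by
      rw [hvdef] at hsup ⊢
      exact ext_res hsup.adm_smp
    have hR := hsup.cmp_kin hP hs hp
    have hc1 := (abs_le.1 (cmp v hsup)).1
    have hc2 := hsup.cmp_nrm hP hs
    rw [← hδ] at hR hc2
    obtain ⟨k1, k2⟩ := num1 (t := t) (T := T) (e := e) (η1 := e / 8) (Q := Qf n s a (bx β x) v)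
      (R := p * (1 / δ ^ 2 * ∑ j ∈ range (J + 1), (v ((j + 1) * p) - v (j * p)) ^ 2) +
        p * ∑ j ∈ range (J + 1), (j * δ - ext z j) * v (j * p) ^ 2) (by linarith)
      (abs_le.2 ⟨by linarith, by linarith⟩) (by linarith) (by linarith) hθe hδ0 hTδ hη0 hηθ
      le_rfl h7 (kin_nonneg n s v) hK hc2 (by linarith) (by linarith)
    constructor
    · intro h0
      have e1 : nrm J (fun j => v (j * p)) = 0 := by rw [← hext, nrm_ext, h0]; simp
      rw [e1] at k1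
      have e2 : nrm n v = 0 := by linarith
      have e3 : nrm n (out ((J + 1) * p) (ext w)) = 0 := by
        have := kin_nonneg n s v
        rw [e2] at hQ h10
        linarith
      have e4 : w ⬝ᵥ w = 0 := by rw [← nrm_ext, ← h2, e2, e3, add_zero]
      exact dotProduct_self_eq_zero.1 e4
    · rw [quad_Hc, ← nrm_ext, hext]
      refine le_of_mul_le_mul_left ?_ hp0
      linarith
  rw [Phi, ht]; linarith

lemma coarse_fine (hs : 0 < s) (hp : 1 ≤ p) (hP : (J + 1) * p ≤ n + 1) (hkn : k < n) (hk : k < J)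
    (hδ : δ = p / s ^ 2) (htwo : Two n s a (bx β x) κ) (hx : 0 ≤ x0) (hκ : 0 ≤ κ)
    (hT : T = x0 + κ + 1) (he1 : e ≤ 1 / 2) (hθe : θ * (128 * T + 1) = e / 8)
    (hTδ : T * δ ≤ θ) (hη0 : 0 ≤ η) (hηθ : η ≤ θ)
    (cmp : ∀ v, Sup ((J + 1) * p) v → |Qf n s a (bx β x) v - kin n s v -
      p * ∑ j ∈ range (J + 1), (j * δ - ext z j) * v (j * p) ^ 2| ≤ η * (kin n s v + nrm n v))
    (htx : Phi J δ z k < x0) : -lam (Hm n s a (bx β x)) k ≤ Phi J δ z k + e := by
  have hlam := lam_le_kap htwo hkn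
  have hp0 : (0 : ℝ) < p := by exact_mod_cast hp
  have hδ0 : 0 ≤ δ := by rw [hδ]; positivity
  obtain ⟨t', ht'⟩ : ∃ t', t' = max (Phi J δ z k) (-κ - 1) := ⟨_, rfl⟩
  have h1 : t' ≤ x0 := ht' ▸ max_le htx.le (by linarith)
  have h2 : -κ - 1 ≤ t' := ht' ▸ le_max_right _ _
  have h3 : Phi J δ z k ≤ t' := ht' ▸ le_max_left _ _
  have key : -(t' + e) ≤ lam (Hm n s a (bx β x)) k := by
    refine transfer (Hc_herm J δ z) (Hm_herm s a (bx β x)) (itpL n p J)
      (by simpa using hk) fun w hw => ?_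
    rw [quad_Hc, ← nrm_ext] at hw
    have hu := adm_ext w
    have hsup := sup_itp hp hu
    have hext : ext (itpL n p J w) = itp p (ext w) := ext_res (hsup.adm hP)
    have hsm : (fun j => itp p (ext w) (j * p)) = ext w := funext fun j => itp_mul hp _ j
    constructor
    · intro h0
      rw [h0] at hext
      rw [← res_ext w, ← hsm, ← hext]
      funext j
      simp [res, Ed.ext]
    · rw [quad_Hm, ← nrm_ext, hext]
      have c1 := (abs_le.1 (cmp _ hsup)).2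
      have c2 := hsup.cmp_nrm hP hs
      have c3 := kin_itp hp hP hs hu
      have c4 := (htwo _ (hsup.adm hP)).1
      simp only [itp_mul hp] at c1
      rw [hsm] at c2
      rw [← hδ] at c2 c3
      have c5 : Phi J δ z k * nrm J (ext w) ≤ t' * nrm J (ext w) :=
        mul_le_mul_of_nonneg_right h3 (nrm_nonneg _ _)
      rw [Phi] at c5
      have c6 : 1 / δ ^ 2 * ∑ j ∈ range (J + 1), (ext w (j + 1) - ext w j) ^ 2 +
          ∑ j ∈ range (J + 1), (j * δ - ext z j) * ext w j ^ 2 ≤ t' * nrm J (ext w) := by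
        linarith
      have c7 := mul_le_mul_of_nonneg_left c6 hp0.le
      have := num2 (t := t') (T := T) (e := e) (Q := Qf n s a (bx β x) (itp p (ext w))) hκ
        (by linarith) (abs_le.2 ⟨by linarith, by linarith⟩) (by linarith) (by linarith) hθe hδ0
        hTδ hη0 hηθ (nrm_nonneg _ _) (kin_nonneg n s _) c2
        (by linarith [pot_nonneg n s (itp p (ext w))]) (by linarith)
      linarith
  rcases max_cases (Phi J δ z k) (-κ - 1) with h | h
  · rw [ht', h.1] at key; linarith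
  · rw [ht', h.1] at key; linarith

lemma abs_bx_le (hc : Coef n s β) (hp : 1 ≤ p) {ω : ℝ} (hω : ω ≤ 1)
    (ho : ∀ j, j ≤ J → osc a p j ≤ ω * s ∧ osc x p j ≤ ω * s) (i : ℕ) (hi : i < (J + 1) * p) :
    |bx β x i| ≤ 2 * s ^ 3 := by
  have hs := hc.hs
  have hs1 := one_le_of_pow_six hs hc.hn
  have h1 : i / p ≤ J := Nat.lt_succ_iff.1 ((Nat.div_lt_iff_lt_mul (by omega)).2 hi)
  have h2 := abs_le_two_osc x p (i / p) (Nat.mod_lt i (by omega : 0 < p))
  rw [Nat.div_add_mod'] at h2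
  have h3 := (ho _ h1).2
  have h4 : 0 ≤ β i ∧ β i ≤ s ^ 3 := by
    rcases Nat.eq_zero_or_pos i with h | h
    · rw [h, hc.b0]; exact ⟨by positivity, le_rfl⟩
    · refine ⟨(Real.sqrt_nonneg _).trans (hc.lo i h), (hc.hi i h).trans ?_⟩
      rw [← sqrt_eq_of_pow_six hs hc.hn]
      exact Real.sqrt_le_sqrt (by linarith [Nat.cast_nonneg (α := ℝ) i])
  have h5 : s ≤ s ^ 3 := le_self_pow₀ hs1 (by norm_num)
  have h6 : ω * s ≤ 1 * s := mul_le_mul_of_nonneg_right hω hs.le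
  rw [bx, abs_le] at *
  constructor <;> linarith [h2.1, h2.2, h4.1, h4.2]

end core

lemma exists_const {T e : ℝ} (hT1 : 1 ≤ T) (he0 : 0 < e) (he1 : e ≤ 1 / 2) :
    ∃ θ L : ℝ, 0 < θ ∧ θ ≤ 1 ∧ θ * (128 * T + 1) = e / 8 ∧ 128 * (T + 1) ≤ L ∧ 256 ≤ L ∧
      256 ≤ e * L ^ 2 := by
  have hθe : e / (8 * (128 * T + 1)) * (128 * T + 1) = e / 8 := by field_simp
  have hθ0 : 0 < e / (8 * (128 * T + 1)) := by positivity
  have hLe : 0 < 256 / e := by positivity
  have h1 : e * (256 / e) = 256 := by field_simp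
  refine ⟨_, 128 * (T + 1) + 256 / e, hθ0, by nlinarith, hθe, by linarith, by linarith, ?_⟩
  have h2 : 256 ≤ e * (128 * (T + 1) + 256 / e) := by nlinarith
  have h3 : 1 ≤ 128 * (T + 1) + 256 / e := by linarith
  nlinarith

theorem detStmt : DetStmt := by
  intro x0 κ ε hx hκ hε
  obtain ⟨e, he0, he1, heε⟩ : ∃ e : ℝ, 0 < e ∧ e ≤ 1 / 2 ∧ e ≤ ε :=
    ⟨min ε (1 / 2), lt_min hε (by norm_num), min_le_right _ _, min_le_left _ _⟩
  obtain ⟨T, hT⟩ : ∃ T, T = x0 + κ + 1 := ⟨_, rfl⟩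
  have hT1 : 1 ≤ T := by linarith
  obtain ⟨θ, L, hθ0, hθ1, hθe, hL, hL2, heL⟩ := exists_const hT1 he0 he1
  have hL0 : 0 < L := by linarith
  refine ⟨L, θ / (3 * (2 * L + 1) * T), θ / 21, hL0, by positivity, by positivity,
    ⌈(3 * (L + 3 + 15 * L ^ 2) / θ) ^ 3⌉₊, ?_⟩
  intro n hn s β a x p J hc hp hpδ hL1 hL3 htwo ho k hk
  have hs := hc.hs
  have hs1 := one_le_of_pow_six hs hc.hn
  have hs2 : 1 ≤ s ^ 2 := one_le_pow₀ hs1
  have hp0 : (0 : ℝ) < p := by exact_mod_cast hp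
  have hSs : 3 * (L + 3 + 15 * L ^ 2) / θ ≤ s ^ 2 := by
    refine le_of_pow_le_pow_left₀ (by norm_num : 3 ≠ 0) (by positivity) ?_
    rw [← pow_mul, hc.hn]
    exact Nat.ceil_le.1 hn
  have hS1 : 3 * (L + 3 + 15 * L ^ 2) ≤ s ^ 2 * θ := by rwa [div_le_iff₀ hθ0] at hSs
  have h3L : 3 * L ≤ s ^ 2 := by
    have := mul_le_mul_of_nonneg_left hθ1 (sq_nonneg s)
    linarith [sq_nonneg L]
  have hn3 : 3 * L * s ^ 2 ≤ n := by
    rw [← hc.hn, show s ^ 6 = s ^ 2 * s ^ 2 * s ^ 2 by ring]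
    refine mul_le_mul_of_nonneg_right (h3L.trans ?_) (sq_nonneg s)
    exact le_mul_of_one_le_right (sq_nonneg s) hs2
  have hPn : (J + 1) * p ≤ n := by
    have : (((J + 1) * p : ℕ) : ℝ) ≤ n := by
      push_cast; linarith [mul_nonneg hL0.le (sq_nonneg s)]
    exact_mod_cast this
  have hP : (J + 1) * p ≤ n + 1 := by omega
  have hkn : k < n := by
    have : (J + 1) * 1 ≤ (J + 1) * p := Nat.mul_le_mul_left _ hp
    omega
  obtain ⟨δ, hδ⟩ : ∃ δ, δ = (p : ℝ) / s ^ 2 := ⟨_, rfl⟩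
  have hδ0 : 0 < δ := by rw [hδ]; positivity
  have hδ1 : δ * (3 * (2 * L + 1) * T) ≤ θ := by
    rw [← le_div_iff₀ (by positivity), hδ, div_le_iff₀ (by positivity)]; exact hpδ
  have hTδ : T * δ ≤ θ := by
    have := mul_nonneg hL0.le (mul_pos hδ0 (by linarith : 0 < T)).le
    have := mul_pos hδ0 (by linarith : 0 < T)
    linarith
  have hη0 : 0 ≤ (2 * L + 1) * δ + 7 * (θ / 21) + (L + 3 + 15 * L ^ 2) / s ^ 2 := by positivity
  have hηθ : (2 * L + 1) * δ + 7 * (θ / 21) + (L + 3 + 15 * L ^ 2) / s ^ 2 ≤ θ := by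
    have h1 : (L + 3 + 15 * L ^ 2) / s ^ 2 ≤ θ / 3 := by
      rw [div_le_iff₀ (by positivity)]; linarith
    have h2 := mul_le_mul_of_nonneg_left hT1 (mul_pos hδ0 (by linarith : 0 < 2 * L + 1)).le
    linarith
  have cmp : ∀ v, Sup ((J + 1) * p) v → |Qf n s a (bx β x) v - kin n s v -
      p * ∑ j ∈ range (J + 1), (j * δ - ext (zblk s a x p J) j) * v (j * p) ^ 2| ≤
      ((2 * L + 1) * δ + 7 * (θ / 21) + (L + 3 + 15 * L ^ 2) / s ^ 2) *
        (kin n s v + nrm n v) := fun v hv =>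
    hδ ▸ hv.cmp hP hc hp (by linarith) hL3 hn3 (by positivity) ho
  have hI : 32 * s ^ 4 / (((J + 1) * p : ℕ) : ℝ) ^ 2 ≤ e / 8 := by
    rw [div_le_iff₀ (by positivity)]
    have h1 : (L * s ^ 2) ^ 2 ≤ (((J + 1) * p : ℕ) : ℝ) ^ 2 := by
      push_cast; gcongr
    have h2 := mul_le_mul_of_nonneg_left h1 he0.le
    have h3 := mul_le_mul_of_nonneg_right heL (by positivity : 0 ≤ s ^ 4)
    linarith
  have hA := fine_coarse hs hp hP hkn hδ htwo hx hκ hT he0 he1 hθe hTδ hη0 hηθ hL hL1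
    (abs_bx_le hc hp (by linarith) ho) hI cmp
  have hB := coarse_fine hs hp hP hkn hk hδ htwo hx hκ hT he1 hθe hTδ hη0 hηθ cmp
  rw [← hδ, abs_le]
  generalize -lam (Hm n s a (bx β x)) k = t at hA hB ⊢
  generalize Phi J δ (zblk s a x p J) k = f at hA hB ⊢
  constructor
  · rcases lt_or_ge t x0 with h | h
    · have := hA h
      rw [min_eq_left h.le]
      linarith [min_le_left f x0]
    · rw [min_eq_right h]
      linarith [min_le_right f x0]
  · rcases lt_or_ge f x0 with h | h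
    · have := hB h
      rw [min_eq_left h.le]
      linarith [min_le_left t x0]
    · rw [min_eq_right h]
      linarith [min_le_right t x0]

end Crest.Agent.T157.Ed.Det

end
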