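import Mathlib

/-!
# Row 157, part C: soft weak-convergence tools (helper90)

* `IsCyl φ`: bounded Lipschitz functions of finitely many coordinates of `I → ℝ`;
* `exists_weak_limit`: tightness + convergence of the cylinder integrals (with a limit that does not
  depend on the index `b` of the sequence) give one weak limit for all the sequences;
* `exists_tendsto_of_approx`, `abs_integral_sub_le`, `cyl_conv_of_approx`: the Cauchy argument;
* `isTight_of_modulus`: Arzelà–Ascoli tightness criterion in `C(T, ℝ)`;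
* `resolvent_dense`: `x ↦ (1 + x) e^{-s x}` is a uniform limit on `[0, ∞)` of linear combinations of
  the functions `x ↦ (1 + x) / (α + x)`, `α > 0`.
-/

set_option autoImplicit false

noncomputable section

namespace Crest.Agent.T157.Soft

open MeasureTheory Filter Topology BoundedContinuousFunction Set

/-- bounded Lipschitz functions of finitely many coordinates -/
def IsCyl {I : Type*} (φ : (I → ℝ) → ℝ) : Prop :=
  ∃ (s : Finset I) (K : ℝ), 0 ≤ K ∧ (∀ x, |φ x| ≤ K) ∧
    ∀ x y, |φ x - φ y| ≤ K * ∑ i ∈ s, |x i - y i|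

namespace IsCyl
variable {I : Type*} {φ ψ : (I → ℝ) → ℝ}

lemma const (c : ℝ) : IsCyl (fun _ : I → ℝ => c) :=
  ⟨∅, |c|, abs_nonneg c, fun _ => le_rfl, fun _ _ => by simp⟩

lemma continuous (h : IsCyl φ) : Continuous φ := by
  obtain ⟨s, K, -, -, h⟩ := h
  rw [continuous_iff_continuousAt]
  intro x
  rw [ContinuousAt, tendsto_iff_dist_tendsto_zero]
  have h1 : Tendsto (fun y : I → ℝ => K * ∑ i ∈ s, |y i - x i|) (𝓝 x)
      (𝓝 (K * ∑ i ∈ s, |x i - x i|)) := by
    refine Continuous.tendsto (f := fun y : I → ℝ => K * ∑ i ∈ s, |y i - x i|) ?_ x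
    fun_prop
  simp only [sub_self, abs_zero, Finset.sum_const_zero, mul_zero] at h1
  exact squeeze_zero (fun _ => dist_nonneg) (fun y => by rw [Real.dist_eq]; exact h y x) h1

lemma measurable (h : IsCyl φ) : Measurable φ := by
  classical
  have hc := h.continuous
  obtain ⟨s, K, -, -, h⟩ := h
  let ext : (s → ℝ) → I → ℝ := fun z i => if hi : i ∈ s then z ⟨i, hi⟩ else 0
  have hext : Continuous ext := continuous_pi fun i => by
    by_cases hi : i ∈ s
    · simp only [ext, dif_pos hi]; fun_prop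
    · simp only [ext, dif_neg hi]; fun_prop
  have hφ : φ = (φ ∘ ext) ∘ fun (x : I → ℝ) (i : s) => x i := by
    funext x
    have := h x (ext fun i : s => x i)
    rw [Finset.sum_eq_zero (fun i hi => by simp [ext, hi]), mul_zero] at this
    simpa [sub_eq_zero] using this
  rw [hφ]
  exact (hc.comp hext).measurable.comp (measurable_pi_lambda _ fun i => measurable_pi_apply _)

private lemma sum_le_union [DecidableEq I] (s t : Finset I) (x y : I → ℝ) :
    ∑ i ∈ s, |x i - y i| ≤ ∑ i ∈ s ∪ t, |x i - y i| :=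
  Finset.sum_le_sum_of_subset_of_nonneg Finset.subset_union_left fun _ _ _ => abs_nonneg _

lemma add (h : IsCyl φ) (h' : IsCyl ψ) : IsCyl fun x => φ x + ψ x := by
  classical
  obtain ⟨s, K, hK, hb, hl⟩ := h
  obtain ⟨t, M, hM, hb', hl'⟩ := h'
  refine ⟨s ∪ t, K + M, by positivity, fun x => (abs_add_le _ _).trans (add_le_add (hb x) (hb' x)),
    fun x y => ?_⟩
  have h1 := sum_le_union s t x y
  have h2 := sum_le_union t s x y
  rw [Finset.union_comm] at h2
  calc |φ x + ψ x - (φ y + ψ y)| = |(φ x - φ y) + (ψ x - ψ y)| := by ring_nf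
    _ ≤ |φ x - φ y| + |ψ x - ψ y| := abs_add_le _ _
    _ ≤ K * ∑ i ∈ s ∪ t, |x i - y i| + M * ∑ i ∈ s ∪ t, |x i - y i| :=
        add_le_add ((hl x y).trans (by gcongr)) ((hl' x y).trans (by gcongr))
    _ = _ := by ring

lemma mul (h : IsCyl φ) (h' : IsCyl ψ) : IsCyl fun x => φ x * ψ x := by
  classical
  obtain ⟨s, K, hK, hb, hl⟩ := h
  obtain ⟨t, M, hM, hb', hl'⟩ := h'
  refine ⟨s ∪ t, 2 * (K * M), by positivity, fun x => ?_, fun x y => ?_⟩
  · rw [abs_mul]
    have := mul_le_mul (hb x) (hb' x) (abs_nonneg _) hK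
    have : 0 ≤ K * M := by positivity
    linarith
  have h1 := sum_le_union s t x y
  have h2 := sum_le_union t s x y
  rw [Finset.union_comm] at h2
  set S := ∑ i ∈ s ∪ t, |x i - y i|
  have e1 : |φ x - φ y| ≤ K * S := (hl x y).trans (by gcongr)
  have e2 : |ψ x - ψ y| ≤ M * S := (hl' x y).trans (by gcongr)
  calc |φ x * ψ x - φ y * ψ y| = |(φ x - φ y) * ψ x + φ y * (ψ x - ψ y)| := by ring_nf
    _ ≤ |φ x - φ y| * |ψ x| + |φ y| * |ψ x - ψ y| := by
        rw [← abs_mul, ← abs_mul]; exact abs_add_le _ _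
    _ ≤ K * S * M + K * (M * S) :=
        add_le_add (mul_le_mul e1 (hb' x) (abs_nonneg _) ((abs_nonneg _).trans e1))
          (mul_le_mul (hb y) e2 (abs_nonneg _) hK)
    _ = _ := by ring

lemma arctan (i : I) : IsCyl fun x : I → ℝ => Real.arctan (x i) := by
  refine ⟨{i}, 2, by norm_num, fun x => ?_, fun x y => ?_⟩
  · have h1 := Real.arctan_lt_pi_div_two (x i)
    have h2 := Real.neg_pi_div_two_lt_arctan (x i)
    have h3 := Real.pi_le_four
    rw [abs_le]; constructor <;> linarith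
  · rw [Finset.sum_singleton]
    have h : LipschitzWith 1 Real.arctan := by
      refine lipschitzWith_of_nnnorm_deriv_le Real.differentiable_arctan fun z => ?_
      rw [Real.deriv_arctan, ← NNReal.coe_le_coe, coe_nnnorm, Real.norm_eq_abs,
        abs_of_nonneg (by positivity), NNReal.coe_one, div_le_one (by positivity)]
      nlinarith [sq_nonneg z]
    have := h.dist_le_mul (x i) (y i)
    simp only [Real.dist_eq, NNReal.coe_one, one_mul] at this
    linarith [abs_nonneg (x i - y i)]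

end IsCyl

/-- **One weak limit.** Tight sequences of laws on a Polish space whose cylinder integrals converge,
with limits that do not depend on the sequence, have a common weak limit. -/
theorem exists_weak_limit {X I B : Type*} [TopologicalSpace X] [PolishSpace X] [MeasurableSpace X]
    [BorelSpace X] [Nonempty B] (e : X → I → ℝ) (he : ∀ i, Continuous fun x => e x i)
    (hsep : Function.Injective e) (μ : B → ℕ → ProbabilityMeasure X)
    (ht : ∀ b, IsTightMeasureSet {(μ b n : Measure X) | n})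
    (hc : ∀ φ : (I → ℝ) → ℝ, IsCyl φ →
      ∃ L, ∀ b, Tendsto (fun n => ∫ x, φ (e x) ∂(μ b n : Measure X)) atTop (𝓝 L)) :
    ∃ Q : ProbabilityMeasure X, ∀ b, Tendsto (μ b) atTop (𝓝 Q) := by
  have hE : Continuous e := continuous_pi he
  let A : StarSubalgebra ℝ (X →ᵇ ℝ) :=
    { carrier := {g | ∃ φ : (I → ℝ) → ℝ, IsCyl φ ∧ ∀ x, g x = φ (e x)}
      mul_mem' := by
        rintro g g' ⟨φ, hφ, h⟩ ⟨ψ, hψ, h'⟩
        exact ⟨_, hφ.mul hψ, fun x => by simp [h, h']⟩
      add_mem' := by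
        rintro g g' ⟨φ, hφ, h⟩ ⟨ψ, hψ, h'⟩
        exact ⟨_, hφ.add hψ, fun x => by simp [h, h']⟩
      algebraMap_mem' := fun c => ⟨_, IsCyl.const c, fun x => by simp⟩
      star_mem' := by
        rintro g ⟨φ, hφ, h⟩
        exact ⟨φ, hφ, fun x => by simp [h]⟩ }
  have hA : (A.map (toContinuousMapStarₐ ℝ)).SeparatesPoints := by
    intro x y hxy
    obtain ⟨i, hi⟩ : ∃ i, e x i ≠ e y i := by
      by_contra hcon
      push Not at hcon
      exact hxy (hsep (funext hcon))
    obtain ⟨s, K, hK, hb, -⟩ := IsCyl.arctan i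
    let g : X →ᵇ ℝ := BoundedContinuousFunction.ofNormedAddCommGroup
      (fun z => Real.arctan (e z i)) (Real.continuous_arctan.comp (he i)) K fun z => hb (e z)
    refine ⟨g, ⟨toContinuousMapStarₐ ℝ g, ⟨g, ⟨_, IsCyl.arctan i, fun z => rfl⟩, rfl⟩, rfl⟩, ?_⟩
    exact fun h => hi (Real.arctan_injective h)
  obtain ⟨b₀⟩ := ‹Nonempty B›
  have hcomp : IsCompact (closure {μ b₀ n | n}) :=
    isCompact_closure_of_isTightMeasureSet (by simpa using ht b₀)
  let U : Ultrafilter ℕ := Ultrafilter.of atTop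
  have hU : (U : Filter ℕ) ≤ atTop := Ultrafilter.of_le _
  obtain ⟨Q, -, hQ : Tendsto _ _ _⟩ := hcomp.ultrafilter_le_nhds (U.map (μ b₀))
    (.trans (by simp) (monotone_principal subset_closure))
  refine ⟨Q, fun b => ProbabilityMeasure.tendsto_of_tight_of_separatesPoints ℝ (ht b) hA ?_⟩
  rintro g ⟨φ, hφ, hg⟩
  obtain ⟨L, hL⟩ := hc φ hφ
  have h1 : Tendsto (fun n => ∫ x, g x ∂(μ b₀ n : Measure X)) U (𝓝 (∫ x, g x ∂(Q : Measure X))) :=
    (ProbabilityMeasure.tendsto_iff_forall_integral_tendsto.1 hQ) g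
  have h2 : Tendsto (fun n => ∫ x, g x ∂(μ b₀ n : Measure X)) U (𝓝 L) := by
    simp_rw [hg]; exact (hL b₀).mono_left hU
  rw [tendsto_nhds_unique h1 h2]
  simp_rw [hg]
  exact hL b

/-- Cauchy argument for real sequences -/
theorem exists_tendsto_of_approx {B : Type*} [Nonempty B] (a : B → ℕ → ℝ)
    (h : ∀ ε > 0, ∃ L : ℝ, ∀ b, ∀ᶠ n in atTop, |a b n - L| ≤ ε) :
    ∃ L, ∀ b, Tendsto (a b) atTop (𝓝 L) := by
  obtain ⟨b₀⟩ := ‹Nonempty B›
  have hc : CauchySeq (a b₀) := by
    rw [Metric.cauchySeq_iff]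
    intro ε hε
    obtain ⟨L, hL⟩ := h (ε / 3) (by positivity)
    obtain ⟨N, hN⟩ := eventually_atTop.1 (hL b₀)
    refine ⟨N, fun m hm n hn => ?_⟩
    have h1 := abs_le.1 (hN m hm)
    have h2 := abs_le.1 (hN n hn)
    rw [Real.dist_eq, abs_lt]
    constructor <;> linarith [h1.1, h1.2, h2.1, h2.2]
  obtain ⟨L, hL⟩ := cauchySeq_tendsto_of_complete hc
  refine ⟨L, fun b => ?_⟩
  rw [Metric.tendsto_nhds]
  intro ε hε
  obtain ⟨L', hL'⟩ := h (ε / 3) (by positivity)
  have h0 : |L - L'| ≤ ε / 3 :=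
    le_of_tendsto ((hL.sub_const L').abs) (hL' b₀)
  filter_upwards [hL' b] with n hn
  have h1 := abs_le.1 h0
  have h2 := abs_le.1 hn
  rw [Real.dist_eq, abs_lt]
  constructor <;> linarith [h1.1, h1.2, h2.1, h2.2]

/-- two bounded variables that are close outside a small set have close expectations -/
theorem abs_integral_sub_le {Ω : Type*} [MeasurableSpace Ω] (P : Measure Ω) [IsProbabilityMeasure P]
    {u v : Ω → ℝ} (hu : AEStronglyMeasurable u P) (hv : AEStronglyMeasurable v P) {K η ε : ℝ}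
    (hK : 0 ≤ K) (hη : 0 ≤ η) (hε : 0 ≤ ε) (hub : ∀ ω, |u ω| ≤ K) (hvb : ∀ ω, |v ω| ≤ K)
    {S : Set Ω} (hS : P S ≤ ENNReal.ofReal ε) (h : ∀ ω ∉ S, |u ω - v ω| ≤ η) :
    |∫ ω, u ω ∂P - ∫ ω, v ω ∂P| ≤ η + 2 * K * ε := by
  have hui : Integrable u P := Integrable.of_bound hu K (ae_of_all _ hub)
  have hvi : Integrable v P := Integrable.of_bound hv K (ae_of_all _ hvb)
  set S' := toMeasurable P S
  have hS' : MeasurableSet S' := measurableSet_toMeasurable P S
  have hS'' : P.real S' ≤ ε := by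
    rw [Measure.real, measure_toMeasurable]
    exact ENNReal.toReal_le_of_le_ofReal hε hS
  rw [← integral_sub hui hvi]
  have hi : Integrable (fun ω => η + S'.indicator (fun _ => 2 * K) ω) P :=
    (integrable_const η).add ((integrable_const _).indicator hS')
  calc |∫ ω, u ω - v ω ∂P| ≤ ∫ ω, |u ω - v ω| ∂P := abs_integral_le_integral_abs
    _ ≤ ∫ ω, η + S'.indicator (fun _ => 2 * K) ω ∂P := by
        refine integral_mono (hui.sub hvi).abs hi fun ω => ?_
        by_cases hω : ω ∈ S'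
        · simp only [indicator_of_mem hω]
          have := abs_sub (u ω) (v ω)
          linarith [hub ω, hvb ω]
        · simp only [indicator_of_notMem hω, add_zero]
          exact h ω fun hh => hω (subset_toMeasurable P S hh)
    _ = η + P.real S' * (2 * K) := by
        rw [integral_add (integrable_const η) ((integrable_const _).indicator hS'),
          integral_indicator hS']
        simp
    _ ≤ η + 2 * K * ε := by nlinarith

/-- **Approximation lemma.** If on every finite set of coordinates `X` is within `ε`, outside a set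
of probability `ε`, of a random vector `Z` whose cylinder integrals converge (to limits independent of
`b`), then the cylinder integrals of `X` converge. -/
theorem cyl_conv_of_approx {I B : Type*} [Nonempty B] {Ω : ℕ → Type*} [∀ n, MeasurableSpace (Ω n)]
    (P : B → ∀ n, Measure (Ω n)) [∀ b n, IsProbabilityMeasure (P b n)]
    (X : ∀ n, Ω n → I → ℝ) (hX : ∀ n i, Measurable fun ω => X n ω i)
    (h : ∀ (s : Finset I) (ε : ℝ), 0 < ε → ∃ Z : B → ∀ n, Ω n → I → ℝ,
      (∀ b n i, Measurable fun ω => Z b n ω i) ∧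
      (∀ b, ∀ᶠ n in atTop,
        P b n {ω | ∃ i ∈ s, ε < |X n ω i - Z b n ω i|} ≤ ENNReal.ofReal ε) ∧
      ∀ φ : (I → ℝ) → ℝ, IsCyl φ →
        ∃ L, ∀ b, Tendsto (fun n => ∫ ω, φ (Z b n ω) ∂P b n) atTop (𝓝 L))
    (φ : (I → ℝ) → ℝ) (hφ : IsCyl φ) :
    ∃ L, ∀ b, Tendsto (fun n => ∫ ω, φ (X n ω) ∂P b n) atTop (𝓝 L) := by
  refine exists_tendsto_of_approx _ fun ε hε => ?_
  obtain ⟨s, K, hK, hb, hl⟩ := id hφ
  set η : ℝ := ε / (2 * (K * s.card + 2 * K + 1)) with hη
  have hη0 : 0 < η := by positivity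
  obtain ⟨Z, hZ, hP, hconv⟩ := h s η hη0
  obtain ⟨L, hL⟩ := hconv φ hφ
  refine ⟨L, fun b => ?_⟩
  filter_upwards [hP b, (Metric.tendsto_nhds.1 (hL b)) (ε / 2) (by positivity)] with n h1 h2
  have h3 := abs_integral_sub_le (P b n) (u := fun ω => φ (X n ω)) (v := fun ω => φ (Z b n ω))
    (hφ.measurable.comp (measurable_pi_lambda _ (hX n))).aestronglyMeasurable
    (hφ.measurable.comp (measurable_pi_lambda _ (hZ b n))).aestronglyMeasurable
    (η := K * s.card * η) hK (by positivity) hη0.le (fun ω => hb _) (fun ω => hb _) h1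
    (fun ω hω => by
      simp only [mem_ofPred_eq, not_exists, not_and, not_lt] at hω
      refine (hl _ _).trans ?_
      rw [mul_assoc]
      gcongr
      simpa using Finset.sum_le_card_nsmul s _ η hω)
  rw [Real.dist_eq] at h2
  have h4 : K * s.card * η + 2 * K * η ≤ ε / 2 := by
    have : (K * s.card + 2 * K + 1) * η = ε / 2 := by rw [hη]; field_simp
    nlinarith
  have h5 := abs_sub_le (∫ ω, φ (X n ω) ∂P b n) (∫ ω, φ (Z b n ω) ∂P b n) L
  linarith

/-- The approximation lemma when the approximants are continuous functions `Ψ` of a random element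
`Y` that converges in law (same limit for all `b`). -/
theorem cyl_conv_of_factor {I B E : Type*} [Nonempty B] [TopologicalSpace E] [MeasurableSpace E]
    [OpensMeasurableSpace E] {Ω : ℕ → Type*} [∀ n, MeasurableSpace (Ω n)]
    (P : B → ∀ n, Measure (Ω n)) [∀ b n, IsProbabilityMeasure (P b n)]
    (X : ∀ n, Ω n → I → ℝ) (hX : ∀ n i, Measurable fun ω => X n ω i)
    (Y : ∀ n, Ω n → E) (hY : ∀ n, Measurable (Y n))
    (hYc : ∀ F : E →ᵇ ℝ, ∃ L, ∀ b, Tendsto (fun n => ∫ ω, F (Y n ω) ∂P b n) atTop (𝓝 L))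
    (h : ∀ (i : I) (ε : ℝ), 0 < ε → ∃ Ψ : E → ℝ, Continuous Ψ ∧
      ∀ b, ∀ᶠ n in atTop, P b n {ω | ε < |X n ω i - Ψ (Y n ω)|} ≤ ENNReal.ofReal ε)
    (φ : (I → ℝ) → ℝ) (hφ : IsCyl φ) :
    ∃ L, ∀ b, Tendsto (fun n => ∫ ω, φ (X n ω) ∂P b n) atTop (𝓝 L) := by
  refine cyl_conv_of_approx P X hX (fun s ε hε => ?_) φ hφ
  set η : ℝ := ε / (s.card + 1) with hη
  have hη0 : 0 < η := by positivity
  have hηε : η ≤ ε := div_le_self hε.le (by linarith [(Nat.cast_nonneg s.card : (0 : ℝ) ≤ _)])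
  choose Ψ hΨ hP using fun i => h i η hη0
  refine ⟨fun _ n ω i => Ψ i (Y n ω), fun _ n i => (hΨ i).measurable.comp (hY n), fun b => ?_,
    fun ψ hψ => ?_⟩
  · filter_upwards [(eventually_all_finset s).2 fun i _ => hP i b] with n hn
    calc P b n {ω | ∃ i ∈ s, ε < |X n ω i - Ψ i (Y n ω)|}
        ≤ P b n (⋃ i ∈ s, {ω | η < |X n ω i - Ψ i (Y n ω)|}) := by
          refine measure_mono fun ω ⟨i, hi, h⟩ => ?_
          exact mem_biUnion hi (hηε.trans_lt h)
      _ ≤ ∑ i ∈ s, P b n {ω | η < |X n ω i - Ψ i (Y n ω)|} := measure_biUnion_finset_le _ _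
      _ ≤ ∑ _i ∈ s, ENNReal.ofReal η := Finset.sum_le_sum hn
      _ = ENNReal.ofReal (s.card * η) := by
          rw [Finset.sum_const, nsmul_eq_mul, ENNReal.ofReal_mul (Nat.cast_nonneg _),
            ENNReal.ofReal_natCast]
      _ ≤ ENNReal.ofReal ε := by
          refine ENNReal.ofReal_le_ofReal ?_
          have : (s.card + 1) * η = ε := by rw [hη]; field_simp
          nlinarith
  · obtain ⟨t, K, hK, hb, -⟩ := id hψ
    exact hYc (BoundedContinuousFunction.ofNormedAddCommGroup (fun y => ψ fun i => Ψ i y)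
      (hψ.continuous.comp (continuous_pi hΨ)) K fun y => hb _)

/-! ### tightness in `C(T, ℝ)` -/

/-- from "eventually in `n`" to "for all `n`" along a decreasing family of sets with empty
intersection -/
theorem forall_of_eventually {X : Type*} [MeasurableSpace X] (μ : ℕ → Measure X)
    [∀ n, IsFiniteMeasure (μ n)] (S : ℕ → Set X) (hS : Antitone S) (hm : ∀ m, MeasurableSet (S m))
    (h0 : ⋂ m, S m = ∅) {ε : ENNReal} (hε : 0 < ε) (h : ∃ m, ∀ᶠ n in atTop, μ n (S m) ≤ ε) :
    ∃ m, ∀ n, μ n (S m) ≤ ε := by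
  obtain ⟨m, hm'⟩ := h
  obtain ⟨N, hN⟩ := eventually_atTop.1 hm'
  have h1 : ∀ n, ∀ᶠ k in atTop, μ n (S k) ≤ ε := fun n => by
    have := tendsto_measure_iInter_atTop (μ := μ n) (fun k => (hm k).nullMeasurableSet) hS
      ⟨0, measure_ne_top _ _⟩
    rw [h0, measure_empty] at this
    exact this.eventually (ge_mem_nhds hε)
  obtain ⟨k, hk, hk'⟩ := (((eventually_all_finset (Finset.range N)).2 fun n _ => h1 n).and
    (eventually_ge_atTop m)).exists
  refine ⟨k, fun n => ?_⟩
  rcases lt_or_ge n N with hn | hn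
  · exact hk n (Finset.mem_range.2 hn)
  · exact (measure_mono (hS hk')).trans (hN n hn)

section modulus
variable {T : Type*} [MetricSpace T]

/-- Arzelà–Ascoli: uniform bounds and moduli on a covering by neighbourhoods -/
theorem isCompact_modulus (K : ℕ → Set T) (hK : ∀ x, ∃ j, K j ∈ 𝓝 x) (M : ℕ → ℝ)
    (δ : ℕ → ℕ → ℝ) (hδ : ∀ j k, 0 < δ j k) :
    IsCompact {f : C(T, ℝ) | ∀ j, (∀ x ∈ K j, |f x| ≤ M j) ∧
      ∀ k : ℕ, ∀ x ∈ K j, ∀ y ∈ K j, dist x y < δ j k → |f x - f y| ≤ 1 / (k + 1)} := by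
  set S' : Set (T → ℝ) := {f | ∀ j, (∀ x ∈ K j, |f x| ≤ M j) ∧
      ∀ k : ℕ, ∀ x ∈ K j, ∀ y ∈ K j, dist x y < δ j k → |f x - f y| ≤ 1 / (k + 1)} with hS'
  have key : ∀ (x : T) (ε : ℝ), 0 < ε → ∀ᶠ y in 𝓝 x, ∀ f ∈ S', dist (f x) (f y) < ε := by
    intro x ε hε
    obtain ⟨j, hj⟩ := hK x
    obtain ⟨k, hk⟩ := exists_nat_one_div_lt hε
    filter_upwards [hj, Metric.ball_mem_nhds x (hδ j k)] with y hy hy' f hf
    rw [Real.dist_eq]
    exact ((hf j).2 k x (mem_of_mem_nhds hj) y hy (by rwa [dist_comm])).trans_lt hk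
  have hcont : ∀ f ∈ S', Continuous f := fun f hf => by
    rw [continuous_iff_continuousAt]
    intro x
    rw [ContinuousAt, Metric.tendsto_nhds]
    intro ε hε
    filter_upwards [key x ε hε] with y hy
    rw [dist_comm]; exact hy f hf
  refine ArzelaAscoli.isCompact_of_equicontinuous _ ?_ ?_
  · have himg : ContinuousMap.toFun '' {f : C(T, ℝ) | ∀ j, (∀ x ∈ K j, |f x| ≤ M j) ∧
        ∀ k : ℕ, ∀ x ∈ K j, ∀ y ∈ K j, dist x y < δ j k → |f x - f y| ≤ 1 / (k + 1)} = S' := by
      ext f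
      constructor
      · rintro ⟨g, hg, rfl⟩; exact hg
      · intro hf; exact ⟨⟨f, hcont f hf⟩, hf, rfl⟩
    rw [himg]
    choose j hj using hK
    have hclosed : IsClosed S' := by
      simp only [hS', ofPred_forall, ofPred_and]
      refine isClosed_iInter fun j => IsClosed.inter ?_ ?_
      · exact isClosed_iInter fun x => isClosed_iInter fun _ => isClosed_le (by fun_prop) (by fun_prop)
      · refine isClosed_iInter fun k => isClosed_iInter fun x => isClosed_iInter fun _ =>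
          isClosed_iInter fun y => isClosed_iInter fun _ => isClosed_iInter fun _ => ?_
        exact isClosed_le (by fun_prop) (by fun_prop)
    refine (isCompact_univ_pi fun x => isCompact_Icc (a := -M (j x)) (b := M (j x))).of_isClosed_subset
      hclosed fun f hf x _ => abs_le.1 ((hf (j x)).1 x (mem_of_mem_nhds (hj x)))
  · intro x
    rw [Metric.equicontinuousAt_iff_right]
    intro ε hε
    filter_upwards [key x ε hε] with y hy f
    exact hy f.1 f.2

/-- **Tightness criterion** in `C(T, ℝ)`: asymptotic bounds on the size and on the modulus of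
continuity on each set of a compact exhaustion. -/
theorem isTight_of_modulus [MeasurableSpace C(T, ℝ)] [BorelSpace C(T, ℝ)]
    (K : ℕ → Set T) (hKc : ∀ j, IsCompact (K j)) (hK : ∀ x, ∃ j, K j ∈ 𝓝 x)
    (μ : ℕ → Measure C(T, ℝ)) [∀ n, IsFiniteMeasure (μ n)]
    (hb : ∀ (j : ℕ) (ε : ENNReal), 0 < ε → ∃ M : ℝ, ∀ᶠ n in atTop,
      μ n {f | ∃ x ∈ K j, M < |f x|} ≤ ε)
    (hmod : ∀ (j : ℕ) (η : ℝ) (ε : ENNReal), 0 < η → 0 < ε → ∃ δ : ℝ, 0 < δ ∧ ∀ᶠ n in atTop,
      μ n {f | ∃ x ∈ K j, ∃ y ∈ K j, dist x y < δ ∧ η < |f x - f y|} ≤ ε) :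
    IsTightMeasureSet {μ n | n} := by
  rw [isTightMeasureSet_iff_exists_isCompact_measure_compl_le]
  intro ε hε
  obtain ⟨e, he, hsum⟩ := ENNReal.exists_pos_sum_of_countable' hε.ne' (ℕ × Option ℕ)
  have hb' : ∀ j, ∃ m : ℕ, ∀ n, μ n {f | ∃ x ∈ K j, (m : ℝ) < |f x|} ≤ e (j, none) := by
    intro j
    refine forall_of_eventually μ (fun m : ℕ => {f | ∃ x ∈ K j, (m : ℝ) < |f x|}) ?_ ?_ ?_
      (he _) ?_
    · rintro m m' hm f ⟨x, hx, h⟩
      exact ⟨x, hx, lt_of_le_of_lt (by exact_mod_cast hm) h⟩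
    · intro m
      refine IsOpen.measurableSet ?_
      simp only [ofPred_exists, ofPred_and]
      exact isOpen_iUnion fun x => isOpen_const.inter (isOpen_lt (by fun_prop) (by fun_prop))
    · rw [eq_empty_iff_forall_notMem]
      intro f hf
      obtain ⟨C, hC⟩ := (hKc j).exists_bound_of_continuousOn f.continuous.continuousOn
      obtain ⟨m, hm⟩ := exists_nat_ge C
      obtain ⟨x, hx, h⟩ := mem_iInter.1 hf m
      exact absurd ((hC x hx).trans hm) (not_le.2 h)
    · obtain ⟨M, hM⟩ := hb j _ (he (j, none))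
      obtain ⟨m, hm⟩ := exists_nat_ge M
      refine ⟨m, hM.mono fun n hn => le_trans (measure_mono ?_) hn⟩
      rintro f ⟨x, hx, h⟩
      exact ⟨x, hx, hm.trans_lt h⟩
  have hm' : ∀ j k : ℕ, ∃ m : ℕ, ∀ n, μ n {f | ∃ x ∈ K j, ∃ y ∈ K j,
      dist x y < 1 / ((m : ℝ) + 1) ∧ 1 / ((k : ℝ) + 1) < |f x - f y|} ≤ e (j, some k) := by
    intro j k
    refine forall_of_eventually μ (fun m : ℕ => {f | ∃ x ∈ K j, ∃ y ∈ K j,
      dist x y < 1 / ((m : ℝ) + 1) ∧ 1 / ((k : ℝ) + 1) < |f x - f y|}) ?_ ?_ ?_ (he _) ?_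
    · rintro m m' hm f ⟨x, hx, y, hy, h, h'⟩
      exact ⟨x, hx, y, hy, h.trans_le (Nat.one_div_le_one_div hm), h'⟩
    · intro m
      refine IsOpen.measurableSet ?_
      simp only [ofPred_exists, ofPred_and]
      exact isOpen_iUnion fun x => isOpen_const.inter (isOpen_iUnion fun y => isOpen_const.inter
        (isOpen_const.inter (isOpen_lt (by fun_prop) (by fun_prop))))
    · rw [eq_empty_iff_forall_notMem]
      intro f hf
      have hu := (hKc j).uniformContinuousOn_of_continuous f.continuous.continuousOn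
      obtain ⟨d, hd, hd'⟩ := Metric.uniformContinuousOn_iff.1 hu (1 / ((k : ℝ) + 1))
        Nat.one_div_pos_of_nat
      obtain ⟨m, hm⟩ := exists_nat_one_div_lt hd
      obtain ⟨x, hx, y, hy, h, h'⟩ := mem_iInter.1 hf m
      have := hd' x hx y hy (h.trans hm)
      rw [Real.dist_eq] at this
      exact absurd this (not_lt.2 h'.le)
    · obtain ⟨d, hd, hM⟩ := hmod j _ _ (Nat.one_div_pos_of_nat (n := k)) (he (j, some k))
      obtain ⟨m, hm⟩ := exists_nat_one_div_lt hd
      refine ⟨m, hM.mono fun n hn => le_trans (measure_mono ?_) hn⟩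
      rintro f ⟨x, hx, y, hy, h, h'⟩
      exact ⟨x, hx, y, hy, h.trans hm, h'⟩
  choose M hM using hb'
  choose m hm using hm'
  refine ⟨_, isCompact_modulus K hK (fun j => (M j : ℝ)) (fun j k => 1 / ((m j k : ℝ) + 1))
    (fun j k => Nat.one_div_pos_of_nat), ?_⟩
  rintro _ ⟨n, rfl⟩
  let S : ℕ × Option ℕ → Set C(T, ℝ) := fun p => match p with
    | (j, none) => {f | ∃ x ∈ K j, (M j : ℝ) < |f x|}
    | (j, some k) => {f | ∃ x ∈ K j, ∃ y ∈ K j,
        dist x y < 1 / ((m j k : ℝ) + 1) ∧ 1 / ((k : ℝ) + 1) < |f x - f y|}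
  have hS : ∀ p, μ n (S p) ≤ e p := by
    rintro ⟨j, _ | k⟩
    exacts [hM j n, hm j k n]
  refine le_trans (measure_mono (t := ⋃ p, S p) fun f hf => ?_)
    ((measure_iUnion_le _).trans ((ENNReal.tsum_le_tsum hS).trans hsum.le))
  by_contra hcon
  simp only [mem_iUnion, not_exists] at hcon
  refine hf fun j => ⟨fun x hx => ?_, fun k x hx y hy hxy => ?_⟩
  · by_contra h
    exact hcon (j, none) ⟨x, hx, not_le.1 h⟩
  · by_contra h
    exact hcon (j, some k) ⟨x, hx, y, hy, hxy, not_le.1 h⟩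

end modulus

/-! ### resolvent kernels are dense -/

section resolvent

private lemma den_pos (α : Ioi (0 : ℝ)) (u : Icc (0 : ℝ) 1) : 0 < 1 + (α.1 - 1) * u.1 := by
  have h1 : 0 < α.1 := α.2
  have h2 := u.2.1
  have h3 := u.2.2
  rcases eq_or_lt_of_le h2 with h | h
  · rw [← h]; simp
  · nlinarith [mul_pos h1 h]

private def gk (α : Ioi (0 : ℝ)) : C(Icc (0 : ℝ) 1, ℝ) where
  toFun u := (1 + (α.1 - 1) * u.1)⁻¹
  continuous_toFun := Continuous.inv₀ (by fun_prop) fun u => (den_pos α u).ne'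

private lemma continuous_gk : Continuous gk :=
  ContinuousMap.continuous_of_continuous_uncurry _
    (Continuous.inv₀ (f := fun p : Ioi (0 : ℝ) × Icc (0 : ℝ) 1 => 1 + (p.1.1 - 1) * p.2.1)
      (by fun_prop) fun p => (den_pos p.1 p.2).ne')

private lemma gk_mul {α β : Ioi (0 : ℝ)} (h : α.1 ≠ β.1) :
    gk α * gk β = ((α.1 - 1) / (α.1 - β.1)) • gk α - ((β.1 - 1) / (α.1 - β.1)) • gk β := by
  ext u
  have h1 := (den_pos α u).ne'
  have h2 := (den_pos β u).ne'
  have h3 : α.1 - β.1 ≠ 0 := sub_ne_zero.2 h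
  change (1 + (α.1 - 1) * u.1)⁻¹ * (1 + (β.1 - 1) * u.1)⁻¹ =
    (α.1 - 1) / (α.1 - β.1) * (1 + (α.1 - 1) * u.1)⁻¹ - (β.1 - 1) / (α.1 - β.1) * (1 + (β.1 - 1) * u.1)⁻¹
  generalize hA : 1 + (α.1 - 1) * u.1 = A at h1 ⊢
  generalize hB : 1 + (β.1 - 1) * u.1 = B at h2 ⊢
  field_simp
  rw [← hA, ← hB]
  ring

private lemma gk_dense : (Submodule.span ℝ (range gk)).topologicalClosure = ⊤ := by
  set V := (Submodule.span ℝ (range gk)).topologicalClosure with hV
  have hVc : IsClosed (V : Set C(Icc (0 : ℝ) 1, ℝ)) := Submodule.isClosed_topologicalClosure _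
  have hg : ∀ α, gk α ∈ V := fun α =>
    Submodule.le_topologicalClosure _ (Submodule.subset_span (mem_range_self α))
  have h1 : ∀ α β, gk α * gk β ∈ V := by
    have h0 : ∀ α β : Ioi (0 : ℝ), α.1 ≠ β.1 → gk α * gk β ∈ V := fun α β h => by
      rw [gk_mul h]
      exact V.sub_mem (V.smul_mem _ (hg α)) (V.smul_mem _ (hg β))
    intro α β
    by_cases h : α.1 = β.1
    swap
    · exact h0 α β h
    let γ : ℕ → Ioi (0 : ℝ) := fun n => ⟨β.1 + 1 / ((n : ℝ) + 1),
      mem_Ioi.2 (add_pos (mem_Ioi.1 β.2) Nat.one_div_pos_of_nat)⟩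
    have hγ : Tendsto γ atTop (𝓝 β) := by
      rw [tendsto_subtype_rng]
      simpa [γ] using tendsto_one_div_add_atTop_nhds_zero_nat.const_add β.1
    refine hVc.mem_of_tendsto (((continuous_gk.tendsto β).comp hγ).const_mul (gk α))
      (Eventually.of_forall fun n => h0 α (γ n) ?_)
    have : (0 : ℝ) < 1 / ((n : ℝ) + 1) := Nat.one_div_pos_of_nat
    simp only [γ, h]
    linarith
  have step : ∀ w, (∀ α, gk α * w ∈ V) → ∀ v ∈ V, v * w ∈ V := by
    intro w hw v hv
    have hsub : (Submodule.span ℝ (range gk) : Set C(Icc (0 : ℝ) 1, ℝ)) ⊆ {v | v * w ∈ V} := by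
      intro v hv
      induction hv using Submodule.span_induction with
      | mem x hx => obtain ⟨α, rfl⟩ := hx; exact hw α
      | zero => simp
      | add x y _ _ hx hy => simpa [add_mul] using V.add_mem hx hy
      | smul a x _ hx => simpa using V.smul_mem a hx
    exact closure_minimal hsub (hVc.preimage (continuous_mul_const w)) hv
  have h2 : ∀ v ∈ V, ∀ w ∈ V, v * w ∈ V := fun v hv w hw =>
    step w (fun α => by rw [mul_comm]; exact step (gk α) (fun β => h1 β α) w hw) v hv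
  have hone : (1 : C(Icc (0 : ℝ) 1, ℝ)) ∈ V := by
    have : gk ⟨1, mem_Ioi.2 one_pos⟩ = 1 := by
      ext u
      change (1 + ((1 : ℝ) - 1) * u.1)⁻¹ = 1
      simp
    exact this ▸ hg _
  let A : Subalgebra ℝ C(Icc (0 : ℝ) 1, ℝ) := V.toSubalgebra hone fun v w hv hw => h2 v hv w hw
  have hA : A.SeparatesPoints := by
    intro x y hxy
    refine ⟨gk ⟨2, mem_Ioi.2 two_pos⟩, ⟨_, hg _, rfl⟩, fun h => hxy (Subtype.ext ?_)⟩
    change (1 + ((2 : ℝ) - 1) * x.1)⁻¹ = (1 + ((2 : ℝ) - 1) * y.1)⁻¹ at h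
    have := inv_injective h
    linarith
  have htop := ContinuousMap.subalgebra_topologicalClosure_eq_top_of_separatesPoints A hA
  rw [eq_top_iff]
  intro f _
  have hf : f ∈ A.topologicalClosure := htop ▸ Algebra.mem_top
  exact closure_minimal (s := (A : Set C(Icc (0 : ℝ) 1, ℝ))) (fun _ h => h) hVc hf

/-- a continuous function on `[0, ∞)` that vanishes at infinity is a uniform limit of linear
combinations of the kernels `(1 + x) / (α + x)`, `α > 0` -/
theorem resolvent_dense_of (F : ℝ → ℝ) (hF : Continuous F) (h0 : Tendsto F atTop (𝓝 0)) {ε : ℝ}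
    (hε : 0 < ε) : ∃ (t : Finset (Ioi (0 : ℝ))) (w : Ioi (0 : ℝ) → ℝ),
      ∀ x, 0 ≤ x → |F x - ∑ α ∈ t, w α * ((1 + x) / (α.1 + x))| ≤ ε := by
  classical
  have hc : ContinuousOn (fun u : ℝ => if u = 0 then 0 else F (u⁻¹ - 1)) (Icc 0 1) := by
    intro u hu
    rcases eq_or_lt_of_le hu.1 with h | h
    · subst h
      refine ContinuousWithinAt.mono (t := Ici 0) ?_ Icc_subset_Ici_self
      rw [← continuousWithinAt_Ioi_iff_Ici, ContinuousWithinAt, if_pos rfl]
      refine (h0.comp (tendsto_atTop_add_const_right _ (-1) tendsto_inv_nhdsGT_zero)).congr' ?_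
      filter_upwards [self_mem_nhdsWithin] with v hv
      rw [if_neg (ne_of_gt hv)]
      rfl
    · refine ContinuousAt.continuousWithinAt ?_
      have : ContinuousAt (fun u : ℝ => F (u⁻¹ - 1)) u :=
        hF.continuousAt.comp ((continuousAt_inv₀ h.ne').sub continuousAt_const)
      refine this.congr ?_
      filter_upwards [lt_mem_nhds h] with v hv
      rw [if_neg (ne_of_gt hv)]
  let h : C(Icc (0 : ℝ) 1, ℝ) := ⟨fun u => if u.1 = 0 then 0 else F (u.1⁻¹ - 1), hc.domRestrict⟩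
  have hmem : h ∈ closure (Submodule.span ℝ (range gk) : Set C(Icc (0 : ℝ) 1, ℝ)) := by
    have : h ∈ (Submodule.span ℝ (range gk)).topologicalClosure := gk_dense ▸ Submodule.mem_top
    exact this
  obtain ⟨v, hv, hd⟩ := Metric.mem_closure_iff.1 hmem ε hε
  obtain ⟨c, rfl⟩ := Finsupp.mem_span_range_iff_exists_finsupp.1 hv
  refine ⟨c.support, c, fun x hx => ?_⟩
  have h1 : 0 < 1 + x := by positivity
  let u : Icc (0 : ℝ) 1 := ⟨(1 + x)⁻¹, by positivity, inv_le_one_of_one_le₀ (by linarith)⟩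
  have h2 := (ContinuousMap.dist_apply_le_dist (f := h) (g := c.sum fun α a => a • gk α) u).trans hd.le
  rw [Real.dist_eq] at h2
  have e1 : F x = h u := by
    change F x = if (1 + x)⁻¹ = 0 then 0 else F ((1 + x)⁻¹⁻¹ - 1)
    rw [if_neg (inv_ne_zero h1.ne'), inv_inv, add_sub_cancel_left]
  have e2 : ∑ α ∈ c.support, c α * ((1 + x) / (α.1 + x)) = (c.sum fun α a => a • gk α) u := by
    rw [Finsupp.sum, ContinuousMap.sum_apply]
    refine Finset.sum_congr rfl fun α _ => ?_
    change _ = c α * (1 + (α.1 - 1) * (1 + x)⁻¹)⁻¹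
    have h3 : 0 < α.1 + x := add_pos_of_pos_of_nonneg α.2 hx
    congr 1
    have : 1 + (α.1 - 1) * (1 + x)⁻¹ = (α.1 + x) / (1 + x) := by field_simp; ring
    rw [this, inv_div]
  rw [e1, e2]
  exact h2

theorem resolvent_dense {s : ℝ} (hs : 0 < s) {ε : ℝ} (hε : 0 < ε) :
    ∃ (t : Finset (Ioi (0 : ℝ))) (w : Ioi (0 : ℝ) → ℝ), ∀ x, 0 ≤ x →
      |(1 + x) * Real.exp (-(s * x)) - ∑ α ∈ t, w α * ((1 + x) / (α.1 + x))| ≤ ε := by
  refine resolvent_dense_of (fun x => (1 + x) * Real.exp (-(s * x))) (by fun_prop) ?_ hε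
  have h1 : Tendsto (fun x : ℝ => s * x) atTop atTop := tendsto_id.const_mul_atTop hs
  have h2 := (Real.tendsto_exp_neg_atTop_nhds_zero.comp h1).add
    (((Real.tendsto_pow_mul_exp_neg_atTop_nhds_zero 1).comp h1).const_mul s⁻¹)
  simp only [mul_zero, add_zero] at h2
  refine h2.congr fun x => ?_
  simp only [Function.comp, pow_one]
  field_simp

/-- a finite positive combination of exponentials is, at a fixed time, approximated by finitely many
values of its Laplace transform, with an error proportional to the value at `1` -/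
theorem exp_sum_approx {s : ℝ} (hs : 0 < s) {ε : ℝ} (hε : 0 < ε) :
    ∃ (t : Finset (Ioi (0 : ℝ))) (w : Ioi (0 : ℝ) → ℝ), ∀ {J : Type} [Fintype J] (c lam : J → ℝ),
      (∀ j, 0 ≤ c j) → (∀ j, 0 ≤ lam j) →
      |∑ j, c j * Real.exp (-(s * lam j)) - ∑ α ∈ t, w α * ∑ j, c j / (α.1 + lam j)| ≤
        ε * ∑ j, c j / (1 + lam j) := by
  obtain ⟨t, w, h⟩ := resolvent_dense hs hε
  refine ⟨t, w, fun c lam hc hl => ?_⟩
  simp_rw [Finset.mul_sum]
  rw [Finset.sum_comm, ← Finset.sum_sub_distrib]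
  refine (Finset.abs_sum_le_sum_abs _ _).trans (Finset.sum_le_sum fun j _ => ?_)
  have h1 : 0 < 1 + lam j := by linarith [hl j]
  have : c j * Real.exp (-(s * lam j)) - ∑ α ∈ t, w α * (c j / (α.1 + lam j)) =
      c j / (1 + lam j) * ((1 + lam j) * Real.exp (-(s * lam j)) -
        ∑ α ∈ t, w α * ((1 + lam j) / (α.1 + lam j))) := by
    rw [mul_sub, Finset.mul_sum]
    congr 1
    · field_simp
    · refine Finset.sum_congr rfl fun α _ => ?_
      field_simp
  rw [this, abs_mul, abs_of_nonneg (div_nonneg (hc j) h1.le), mul_comm]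
  exact mul_le_mul_of_nonneg_right (h _ (hl j)) (div_nonneg (hc j) h1.le)

end resolvent

end Crest.Agent.T157.Soft

end
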