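import Crest.Agent.T157.EdBase_88
import Crest.Agent.T157.Weak_90

/-!
# Row 157, part E: the glue statements `EdgeTGlue`, `LimGlue`, `TopGlue` (helper83)
-/

set_option autoImplicit false

noncomputable section

namespace Crest.Agent.T157.Ed

open MeasureTheory ProbabilityTheory Matrix Filter Topology Finset BoundedContinuousFunction
open Crest.ProbabilityR.SpinGlassDynamics Crest.Agent.T157.E Crest.Agent.T157.Eig
open Crest.Agent.T157.Cond Crest.Agent.T157.Soft

/-! ### rough rigidity of the GOE -/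

lemma top_one_le_ceil {h : ℝ} (hh : 0 < h) {n : ℕ} (hn : 1 ≤ n) : 1 ≤ ⌈h * sx n ^ 2⌉₊ :=
  Nat.ceil_pos.2 (mul_pos hh (pow_pos (sx_pos hn) 2))

lemma top_kapL_le (hBet : BetStmt) (hLb : LbStmt) (hCnt : CntStmt) {n l : ℕ} (hn : 8 ≤ n)
    (hl : 1 ≤ l) (g : Fin n → Fin n → ℝ) :
    kapL n (lam (Tm n g)) ≤ kap n (sx n) (rowA n g) (rowX n g) l := by
  have : Nonempty (Fin n) := ⟨⟨0, by omega⟩⟩
  have h1 : 1 ≤ n := by omega
  have h2 := hCnt n (sx n) _ _ _ (sx_pos h1) (sx_pow_six n)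
    (hLb n (sx n) (bet n) (rowA n g) (rowX n g) l hn (hBet n h1) hl)
  refine ciSup_le fun k => ?_
  obtain ⟨h3, h4⟩ := h2 k k.2
  rw [← Lam_Tm g k.2] at h3 h4
  refine max_le (by linarith) ?_
  split_ifs with h5
  · linarith [h4 h5]
  · exact kap_nonneg _ _ _ _ _

theorem edgeTGlue : EdgeTGlue := by
  intro hTri hBet hLb hCnt hKap A hA
  obtain ⟨h, C, hh, hC⟩ := hKap A hA
  refine ⟨C, ?_⟩
  filter_upwards [hC, eventually_ge_atTop 8] with n hn h8
  have hm : Measurable fun l : ℕ → ℝ => ENNReal.ofReal (Real.exp (A * kapL n l)) :=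
    (((measurable_kapL n).const_mul A).exp).ennreal_ofReal
  have e : ∫⁻ W, ENNReal.ofReal (Real.exp (A * kapL n (lam W))) ∂GOE n =
      ∫⁻ g, ENNReal.ofReal (Real.exp (A * kapL n (lam (Tm n g)))) ∂gm n := by
    rw [← lintegral_map hm measurable_lam, hTri n]
    exact lintegral_map hm (measurable_lam.comp (measurable_Tm n))
  rw [e]
  refine le_trans (lintegral_mono fun g => ?_) hn
  exact ENNReal.ofReal_le_ofReal (Real.exp_le_exp.2 (mul_le_mul_of_nonneg_left
    (top_kapL_le hBet hLb hCnt h8 (top_one_le_ceil hh (by omega)) g) hA))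

/-! ### existence of the limit -/

/-- Markov's inequality for an exponential moment -/
lemma top_markov {Ω : ℕ → Type*} [∀ n, MeasurableSpace (Ω n)] (P : ∀ n, Measure (Ω n))
    (f : ∀ n, Ω n → ℝ) (hf : ∀ n, Measurable (f n)) {C : ℝ}
    (h : ∀ᶠ n in atTop, ∫⁻ ω, ENNReal.ofReal (Real.exp (1 * f n ω)) ∂P n ≤ ENNReal.ofReal C)
    {ε : ℝ} (hε : 0 < ε) : ∃ t : ℝ, 0 ≤ t ∧ ∀ᶠ n in atTop,
      P n {ω | t < f n ω} ≤ ENNReal.ofReal ε := by
  refine ⟨|C| / ε, by positivity, h.mono fun n hn => ?_⟩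
  set t := |C| / ε with ht
  have h0 : 0 < Real.exp t := Real.exp_pos t
  have h1 := meas_ge_le_lintegral_div (μ := P n)
    (f := fun ω => ENNReal.ofReal (Real.exp (1 * f n ω)))
    (((hf n).const_mul 1).exp.ennreal_ofReal).aemeasurable
    (ε := ENNReal.ofReal (Real.exp t)) (ENNReal.ofReal_pos.2 h0).ne' ENNReal.ofReal_ne_top
  refine le_trans (measure_mono fun ω hω => ?_) (h1.trans ?_)
  · have hω' : t < f n ω := hω
    exact ENNReal.ofReal_le_ofReal (Real.exp_le_exp.2 (by linarith))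
  · refine (ENNReal.div_le_div_right hn _).trans ?_
    rw [← ENNReal.ofReal_div_of_pos h0]
    refine ENNReal.ofReal_le_ofReal ?_
    rw [div_le_iff₀ h0]
    have h2 : t + 1 ≤ Real.exp t := Real.add_one_le_exp t
    have h3 : ε * t = |C| := by rw [ht]; field_simp
    nlinarith [le_abs_self C]

lemma top_map_LamV (hTri : TriStmt) (n K : ℕ) :
    (GOE n).map (LamV n K) = (gm n).map fun g => LamV n K (Tm n g) := by
  have hG : Measurable fun (l : ℕ → ℝ) (k : Fin K) => tau n * (2 - l k) := by fun_prop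
  have h := congrArg (Measure.map fun (l : ℕ → ℝ) (k : Fin K) => tau n * (2 - l k)) (hTri n)
  have hT : Measurable fun g => (lam (Tm n g) : ℕ → ℝ) := measurable_lam.comp (measurable_Tm n)
  rw [Measure.map_map hG measurable_lam, Measure.map_map hG hT] at h
  exact h

lemma top_norm_le {n K : ℕ} (hn : 8 * K ≤ n) (W : Mat n) {t : ℝ} (ht : 0 ≤ t)
    (h : kapL n (lam W) ≤ t) : ‖LamV n K W‖ ≤ 60 * K + t := by
  refine (pi_norm_le_iff_of_nonneg (by positivity)).2 fun k => ?_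
  have hk := k.2
  have h1 := (le_ciSup (f := fun k : Fin n =>
    max ((((k : ℕ) : ℝ) + 1) ^ (2 / 3 : ℝ) / 256 - tau n * (2 - lam W k))
    (if 8 * ((k : ℕ) + 1) ≤ n then tau n * (2 - lam W k) - 60 * (((k : ℕ) : ℝ) + 1) ^ (2 / 3 : ℝ)
      else 0)) (Finite.bddAbove_range _) ⟨k, by omega⟩).trans h
  rw [max_le_iff, if_pos (by simp only; omega)] at h1
  obtain ⟨h2, h3⟩ := h1
  simp only at h2 h3
  have h4 : (0 : ℝ) ≤ (((k : ℕ) : ℝ) + 1) ^ (2 / 3 : ℝ) := by positivity
  have h5 : (((k : ℕ) : ℝ) + 1) ^ (2 / 3 : ℝ) ≤ K := by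
    have h6 : (1 : ℝ) ≤ ((k : ℕ) : ℝ) + 1 := by linarith [(Nat.cast_nonneg k : (0 : ℝ) ≤ _)]
    refine (Real.rpow_le_self_of_one_le h6 (by norm_num)).trans ?_
    exact_mod_cast hk
  have h7 : (0 : ℝ) ≤ K := Nat.cast_nonneg K
  rw [Real.norm_eq_abs, LamV, Lam, abs_le]
  constructor <;> linarith

/-- asymptotic tightness of the rescaled edge eigenvalues -/
lemma top_tight (hE : EdgeTStmt) (K : ℕ) {ε : ℝ} (hε : 0 < ε) : ∃ x0 : ℝ, 0 ≤ x0 ∧
    ∀ᶠ n in atTop, (GOE n).map (LamV n K) {y | x0 < ‖y‖} ≤ ENNReal.ofReal ε := by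
  obtain ⟨C, hC⟩ := hE 1 zero_le_one
  obtain ⟨t, ht, h⟩ := top_markov (fun n => GOE n) (fun n W => kapL n (lam W))
    (fun n => (measurable_kapL n).comp measurable_lam) hC hε
  refine ⟨60 * K + t, by positivity, ?_⟩
  filter_upwards [h, eventually_ge_atTop (8 * K)] with n hn h8
  rw [Measure.map_apply (measurable_LamV n K) (measurableSet_lt measurable_const measurable_norm)]
  refine le_trans (measure_mono fun W hW => ?_) hn
  by_contra hc
  exact absurd (top_norm_le h8 W ht (not_lt.1 hc)) (not_le.2 hW)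

lemma Two.mono {n : ℕ} {s : ℝ} {a b : ℕ → ℝ} {κ κ' : ℝ} (h : Two n s a b κ) (hκ : κ ≤ κ') :
    Two n s a b κ' := fun u hu => by
  have h1 := mul_le_mul_of_nonneg_right hκ (nrm_nonneg n u)
  obtain ⟨h2, h3⟩ := h u hu
  constructor <;> linarith

/-- the reference eigenvalues depend continuously on the mesh, uniformly in the noise -/
lemma top_Phi_mesh (J : ℕ) {δ : ℝ} (hδ : 0 < δ) {ε : ℝ} (hε : 0 < ε) :
    ∀ᶠ δ' in 𝓝 δ, ∀ (z : Fin J → ℝ) (k : ℕ), |Phi J δ' z k - Phi J δ z k| ≤ ε := by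
  have hc : ∀ i j : Fin J, ContinuousAt (fun δ' : ℝ => Hc J δ' 0 i j) δ := by
    intro i j
    have h1 : ContinuousAt (fun δ' : ℝ => δ' ^ 2) δ := by fun_prop
    have h2 : δ ^ 2 ≠ 0 := by positivity
    unfold Hc tri
    split_ifs
    · exact (continuousAt_const.sub (continuousAt_const.div h1 h2)).sub (by fun_prop)
    · exact continuousAt_const.div h1 h2
    · exact continuousAt_const.div h1 h2
    · exact continuousAt_const
  have h1 : Tendsto (fun δ' : ℝ => ∑ i, ∑ j, |Hc J δ 0 i j - Hc J δ' 0 i j|) (𝓝 δ)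
      (𝓝 (∑ i, ∑ j, |Hc J δ 0 i j - Hc J δ 0 i j|)) :=
    tendsto_finsetSum _ fun i _ => tendsto_finsetSum _ fun j _ =>
      (tendsto_const_nhds.sub (hc i j)).abs
  simp only [sub_self, abs_zero, sum_const_zero] at h1
  filter_upwards [h1.eventually (ge_mem_nhds hε)] with δ' h2 z k
  have h3 := abs_lam_sub_le (Hc_herm J δ z) (Hc_herm J δ' z) k
  have h4 : ∀ i j, Hc J δ z i j - Hc J δ' z i j = Hc J δ 0 i j - Hc J δ' 0 i j := by
    intro i j
    unfold Hc tri
    split_ifs <;> ring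
  simp only [h4] at h3
  rw [Phi, Phi, neg_sub_neg]
  exact h3.trans h2

lemma top_tendsto_mesh {δ : ℝ} (hδ : 0 < δ) :
    Tendsto (fun n => (⌈δ * sx n ^ 2⌉₊ : ℝ) / sx n ^ 2) atTop (𝓝 δ) := by
  have h1 : Tendsto (fun n => sx n ^ 2) atTop atTop :=
    (tendsto_pow_atTop two_ne_zero).comp tendsto_sx
  have h2 := (tendsto_nat_ceil_mul_div_atTop (R := ℝ) hδ.le).comp h1
  exact h2

lemma top_choose_J (K : ℕ) {L δ0 ω ε : ℝ} (hL : 0 < L) (hδ0 : 0 < δ0) (hω : 0 < ω) (hε : 0 < ε) :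
    ∃ J : ℕ, K ≤ J ∧ 2 * (L / (J + 1)) ≤ δ0 ∧
      ((J : ℝ) + 1) * (4 * Real.exp (-(ω ^ 2 / (16 * (L / (J + 1)))))) ≤ ε := by
  have h0 : Tendsto (fun J : ℕ => (J : ℝ) + 1) atTop atTop :=
    tendsto_atTop_add_const_right _ 1 tendsto_natCast_atTop_atTop
  have h1 : Tendsto (fun J : ℕ => 2 * (L / ((J : ℝ) + 1))) atTop (𝓝 (2 * 0)) :=
    (tendsto_const_nhds.div_atTop h0).const_mul 2
  set c := ω ^ 2 / (16 * L) with hc
  have hc0 : 0 < c := by positivity
  have h2 := (((Real.tendsto_pow_mul_exp_neg_atTop_nhds_zero 1).comp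
    (h0.const_mul_atTop hc0)).const_mul (4 / c))
  rw [mul_zero] at h1 h2
  obtain ⟨J, h3, h4, h5⟩ := ((eventually_ge_atTop K).and
    ((h1.eventually (ge_mem_nhds hδ0)).and (h2.eventually (ge_mem_nhds hε)))).exists
  refine ⟨J, h3, h4, le_of_eq_of_le ?_ h5⟩
  have h6 : ω ^ 2 / (16 * (L / ((J : ℝ) + 1))) = c * ((J : ℝ) + 1) := by
    rw [hc]; field_simp
  simp only [Function.comp, pow_one, h6]
  field_simp

/-- the oscillations in the first `J + 1` windows are small with large probability -/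
lemma top_osc (hOsc : OscStmt) (n p J : ℕ) (hp : 1 ≤ p) {s ω δ ε : ℝ} (hs : 0 < s) (hω : 0 < ω)
    (hδ : 0 < δ) (hpδ : (p : ℝ) ≤ 2 * δ * s ^ 2)
    (hJ : ((J : ℝ) + 1) * (4 * Real.exp (-(ω ^ 2 / (16 * δ)))) ≤ ε) :
    gm n {g | ∃ j, j ≤ J ∧ (ω * s ≤ osc (rowA n g) p j ∨ ω * s ≤ osc (rowX n g) p j)} ≤
      ENNReal.ofReal ε := by
  set e := Real.exp (-(ω ^ 2 / (16 * δ))) with he
  have he0 : 0 ≤ e := (Real.exp_pos _).le
  have hp0 : (0 : ℝ) < p := by exact_mod_cast hp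
  have h1 : Real.exp (-(ω * s) ^ 2 / (8 * p)) ≤ e := by
    refine Real.exp_le_exp.2 ?_
    rw [neg_div, neg_le_neg_iff, div_le_div_iff₀ (by positivity) (by positivity)]
    have := mul_le_mul_of_nonneg_left hpδ (by positivity : 0 ≤ 8 * ω ^ 2)
    nlinarith
  have h2 : ∀ j, gm n ({g | ω * s ≤ osc (rowA n g) p j} ∪ {g | ω * s ≤ osc (rowX n g) p j}) ≤
      ENNReal.ofReal (4 * e) := by
    intro j
    obtain ⟨h3, h4⟩ := hOsc n p j (ω * s) hp (by positivity)
    rw [← ofReal_measureReal]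
    refine ENNReal.ofReal_le_ofReal ((measureReal_union_le _ _).trans ?_)
    linarith
  calc gm n {g | ∃ j, j ≤ J ∧ (ω * s ≤ osc (rowA n g) p j ∨ ω * s ≤ osc (rowX n g) p j)}
      ≤ gm n (⋃ j ∈ range (J + 1),
        ({g | ω * s ≤ osc (rowA n g) p j} ∪ {g | ω * s ≤ osc (rowX n g) p j})) := by
        refine measure_mono fun g ⟨j, hj, h⟩ => ?_
        exact Set.mem_biUnion (mem_coe.2 (mem_range.2 (by omega : j < J + 1))) h
    _ ≤ ∑ j ∈ range (J + 1), gm n
        ({g | ω * s ≤ osc (rowA n g) p j} ∪ {g | ω * s ≤ osc (rowX n g) p j}) :=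
        measure_biUnion_finset_le _ _
    _ ≤ ∑ _j ∈ range (J + 1), ENNReal.ofReal (4 * e) := sum_le_sum fun j _ => h2 j
    _ = ENNReal.ofReal (((J + 1 : ℕ) : ℝ) * (4 * e)) := by
        rw [sum_const, card_range, nsmul_eq_mul, ENNReal.ofReal_mul (Nat.cast_nonneg _),
          ENNReal.ofReal_natCast]
    _ ≤ ENNReal.ofReal ε := ENNReal.ofReal_le_ofReal (by push_cast; exact hJ)

/-- approximation of the edge eigenvalues by the truncated reference eigenvalues -/
lemma top_approx (hTri : TriStmt) (hBet : BetStmt) (hOsc : OscStmt) (hKap : KapStmt)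
    (hLb : LbStmt) (hDet : DetStmt) (hE : EdgeTStmt) (K : ℕ) {ε : ℝ} (hε : 0 < ε) :
    ∃ (J : ℕ) (δ x0 : ℝ), 0 < δ ∧ ∀ᶠ n in atTop, gm n {g | ∃ k : Fin K,
      ε < |LamV n K (Tm n g) k - min (Phi J δ
        (zblk (sx n) (rowA n g) (rowX n g) ⌈δ * sx n ^ 2⌉₊ J) k) x0|} ≤ ENNReal.ofReal ε := by
  have hε3 : 0 < ε / 3 := by positivity
  obtain ⟨x0, hx0, h1⟩ := top_tight hE K hε3
  obtain ⟨h, C, hh, hC⟩ := hKap 1 zero_le_one
  obtain ⟨κ, hκ, h2⟩ := top_markov (fun n => gm n)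
    (fun n g => kap n (sx n) (rowA n g) (rowX n g) ⌈h * sx n ^ 2⌉₊)
    (fun n => measurable_kap n _ _) hC hε3
  obtain ⟨L, δ0, ω, hL, hδ0, hω, n0, hD⟩ := hDet x0 κ (ε / 2) hx0 hκ (by positivity)
  obtain ⟨J, hKJ, hJ1, hJ2⟩ := top_choose_J K hL hδ0 hω hε3
  set δ := L / ((J : ℝ) + 1) with hδ
  have hδ' : 0 < δ := by positivity
  have hδJ : ((J : ℝ) + 1) * δ = L := by rw [hδ]; field_simp
  refine ⟨J, δ, x0, hδ', ?_⟩
  have h3 := (top_tendsto_mesh hδ').eventually (top_Phi_mesh J hδ' (half_pos hε))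
  have h4 := (top_tendsto_mesh hδ').eventually (ge_mem_nhds (by linarith : δ < 2 * δ))
  filter_upwards [h1, h2, h3, h4, eventually_ge_atTop n0, eventually_ge_atTop 8,
    eventually_ge_atTop K] with n h1 h2 h3 h4 hn0 h8 hK
  have hn1 : 1 ≤ n := by omega
  have hs := sx_pos hn1
  have hs2 : 0 < sx n ^ 2 := pow_pos hs 2
  set p := ⌈δ * sx n ^ 2⌉₊ with hp
  have hp1 : 1 ≤ p := top_one_le_ceil hδ' hn1
  have hp2 : (p : ℝ) ≤ 2 * δ * sx n ^ 2 := (div_le_iff₀ hs2).1 h4
  have hp3 : δ * sx n ^ 2 ≤ p := Nat.le_ceil _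
  have h5 := top_osc hOsc n p J hp1 hs hω hδ' hp2 hJ2
  have hX : Measurable fun g => LamV n K (Tm n g) := (measurable_LamV n K).comp (measurable_Tm n)
  rw [top_map_LamV hTri, Measure.map_apply hX
    (measurableSet_lt measurable_const measurable_norm)] at h1
  have h6 := (measure_union_le _ _).trans (add_le_add
    ((measure_union_le _ _).trans (add_le_add h1 h2)) h5)
  rw [← ENNReal.ofReal_add hε3.le hε3.le, ← ENNReal.ofReal_add (by positivity) hε3.le,
    show ε / 3 + ε / 3 + ε / 3 = ε by ring] at h6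
  refine le_trans (measure_mono fun g ⟨k, hk⟩ => ?_) h6
  by_contra hc
  simp only [Set.mem_union, Set.mem_preimage, Set.mem_ofPred_eq, not_or, not_lt, not_exists,
    not_and, not_le] at hc
  obtain ⟨⟨c1, c2⟩, c3⟩ := hc
  have hk2 := k.2
  have hJ0 : (0 : ℝ) < (J : ℝ) + 1 := by positivity
  have d1 := hD n hn0 (sx n) (bet n) (rowA n g) (rowX n g) p J (hBet n hn1) hp1
    (hp2.trans (mul_le_mul_of_nonneg_right hJ1 hs2.le))
    (by rw [← hδJ, mul_assoc]; exact mul_le_mul_of_nonneg_left hp3 hJ0.le)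
    (by
      have := mul_le_mul_of_nonneg_left hp2 hJ0.le
      rw [← hδJ]; linarith)
    ((hLb n (sx n) (bet n) (rowA n g) (rowX n g) _ h8 (hBet n hn1)
      (top_one_le_ceil hh hn1)).mono c2)
    (fun j hj => ⟨(c3 j hj).1.le, (c3 j hj).2.le⟩) k (by omega)
  rw [← Lam_Tm g (by omega : (k : ℕ) < n)] at d1
  have d2 : tau n * (2 - lam (Tm n g) k) ≤ x0 :=
    (le_abs_self _).trans ((norm_le_pi_norm (LamV n K (Tm n g)) k).trans c1)
  rw [min_eq_left d2] at d1
  have d3 := (abs_min_sub_min_le_max _ x0 _ x0).trans (max_le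
    (h3 (zblk (sx n) (rowA n g) (rowX n g) p J) k) (by simpa using (half_pos hε).le))
  have d4 := (abs_sub_le _ _ _).trans (add_le_add d1 d3)
  rw [add_halves] at d4
  exact absurd d4 (not_le.2 hk)

theorem limGlue : LimGlue := by
  intro hTri hBet hOsc hKap hLb hDet hClt hE K
  let μ : Unit → ℕ → ProbabilityMeasure (Fin K → ℝ) := fun _ n =>
    ⟨(GOE n).map (LamV n K), Measure.isProbabilityMeasure_map (measurable_LamV n K).aemeasurable⟩
  have hX : ∀ n, Measurable fun g => LamV n K (Tm n g) := fun n =>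
    (measurable_LamV n K).comp (measurable_Tm n)
  have ht : ∀ b, IsTightMeasureSet {(μ b n : Measure (Fin K → ℝ)) | n} := by
    intro b
    refine isTightMeasureSet_range_of_tendsto_limsup_measure_norm_gt
      (μ := fun n => (μ b n : Measure (Fin K → ℝ))) ?_
    refine ENNReal.tendsto_nhds_zero.2 fun ε hε => ?_
    obtain ⟨η, -, hη, hη'⟩ := ENNReal.lt_iff_exists_real_btwn.1 hε
    obtain ⟨x0, -, h⟩ := top_tight hE K (ENNReal.ofReal_pos.1 hη)
    filter_upwards [eventually_ge_atTop x0] with r hr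
    refine limsup_le_of_le (by isBoundedDefault) (h.mono fun n hn => ?_)
    exact (le_trans (measure_mono fun y hy => lt_of_le_of_lt hr hy) hn).trans hη'.le
  have happ : ∀ (s : Finset (Fin K)) (ε : ℝ), 0 < ε →
      ∃ Z : Unit → ∀ n, (Fin n → Fin n → ℝ) → Fin K → ℝ,
      (∀ b n i, Measurable fun g => Z b n g i) ∧
      (∀ b, ∀ᶠ n in atTop,
        gm n {g | ∃ i ∈ s, ε < |LamV n K (Tm n g) i - Z b n g i|} ≤ ENNReal.ofReal ε) ∧
      ∀ φ : (Fin K → ℝ) → ℝ, IsCyl φ →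
        ∃ L, ∀ b, Tendsto (fun n => ∫ g, φ (Z b n g) ∂gm n) atTop (𝓝 L) := by
    intro s ε hε
    obtain ⟨J, δ, x0, hδ, h⟩ := top_approx hTri hBet hOsc hKap hLb hDet hE K hε
    have hΨ : ∀ k : Fin K, Continuous fun z : Fin J → ℝ => min (Phi J δ z k) x0 := fun k =>
      (continuous_Phi J δ k).min continuous_const
    refine ⟨fun _ n g k => min (Phi J δ
      (zblk (sx n) (rowA n g) (rowX n g) ⌈δ * sx n ^ 2⌉₊ J) k) x0,
      fun _ n k => ((hΨ k).comp (continuous_zblk n _ _ J)).measurable,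
      fun _ => h.mono fun n hn => le_trans (measure_mono ?_) hn, fun ψ hψ => ?_⟩
    · rintro g ⟨k, -, hk⟩
      exact ⟨k, hk⟩
    obtain ⟨t, M, -, hb, -⟩ := id hψ
    obtain ⟨l, hl⟩ := hClt δ hδ J (BoundedContinuousFunction.ofNormedAddCommGroup
      (fun z => ψ fun k => min (Phi J δ z k) x0) (hψ.continuous.comp (continuous_pi hΨ)) M
      fun z => hb _)
    exact ⟨l, fun _ => hl⟩
  have hc : ∀ φ : (Fin K → ℝ) → ℝ, IsCyl φ →
      ∃ L, ∀ b, Tendsto (fun n => ∫ x, φ x ∂(μ b n : Measure (Fin K → ℝ))) atTop (𝓝 L) := by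
    intro φ hφ
    obtain ⟨L, hL⟩ := cyl_conv_of_approx (B := Unit) (fun _ n => gm n)
      (fun n g => LamV n K (Tm n g)) (fun n i => (measurable_pi_apply i).comp (hX n)) happ φ hφ
    refine ⟨L, fun b => (hL b).congr fun n => ?_⟩
    change _ = ∫ x, φ x ∂(GOE n).map (LamV n K)
    rw [top_map_LamV hTri, integral_map (hX n).aemeasurable hφ.continuous.aestronglyMeasurable]
  obtain ⟨Q, hQ⟩ := exists_weak_limit (fun y : Fin K → ℝ => y) (fun i => continuous_apply i)
    (fun _ _ h => h) μ ht hc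
  refine ⟨Q, inferInstance, fun F => ?_⟩
  refine (ProbabilityMeasure.tendsto_iff_forall_integral_tendsto.1 (hQ ()) F).congr fun n => ?_
  exact integral_map (measurable_LamV n K).aemeasurable F.continuous.aestronglyMeasurable

/-! ### universality of the limit -/

/-- vague convergence to a probability measure is weak convergence -/
lemma top_vague {K : ℕ} (μ : ℕ → Measure (Fin K → ℝ)) [∀ n, IsProbabilityMeasure (μ n)]
    (ν : Measure (Fin K → ℝ)) [IsProbabilityMeasure ν]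
    (h : ∀ G : (Fin K → ℝ) → ℝ, Continuous G → HasCompactSupport G →
      Tendsto (fun n => ∫ y, G y ∂μ n) atTop (𝓝 (∫ y, G y ∂ν))) (F : (Fin K → ℝ) →ᵇ ℝ) :
    Tendsto (fun n => ∫ y, F y ∂μ n) atTop (𝓝 (∫ y, F y ∂ν)) := by
  rw [Metric.tendsto_nhds]
  intro ε hε
  set η := ε / (4 * (‖F‖ + 1)) with hη
  have hη0 : 0 < η := by positivity
  obtain ⟨S, hS, hνS⟩ := (isTightMeasureSet_iff_exists_isCompact_measure_compl_le.1
    (isTightMeasureSet_singleton (μ := ν))) _ (ENNReal.ofReal_pos.2 hη0)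
  obtain ⟨χ, hχ1, -, hχc, hχ⟩ := exists_continuous_one_zero_of_isCompact hS isClosed_empty
    (Set.disjoint_empty S)
  have hb : ∀ y, |χ y| ≤ 1 := fun y => abs_le.2 ⟨by linarith [(hχ y).1], (hχ y).2⟩
  have hi : ∀ (ρ : Measure (Fin K → ℝ)) [IsProbabilityMeasure ρ], Integrable χ ρ :=
    fun ρ _ => Integrable.of_bound χ.continuous.aestronglyMeasurable 1 (ae_of_all _ hb)
  have key : ∀ (ρ : Measure (Fin K → ℝ)) [IsProbabilityMeasure ρ],
      |∫ y, F y ∂ρ - ∫ y, F y * χ y ∂ρ| ≤ ‖F‖ * (1 - ∫ y, χ y ∂ρ) := by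
    intro ρ _
    have h1 : Integrable (fun y => F y * χ y) ρ :=
      (F.integrable ρ).mul_bdd χ.continuous.aestronglyMeasurable (ae_of_all _ hb)
    rw [← integral_sub (F.integrable ρ) h1]
    refine abs_integral_le_integral_abs.trans ?_
    have h2 : ‖F‖ * (1 - ∫ y, χ y ∂ρ) = ∫ y, ‖F‖ * (1 - χ y) ∂ρ := by
      rw [integral_const_mul, integral_sub (integrable_const _) (hi ρ)]; simp
    rw [h2]
    refine integral_mono ((F.integrable ρ).sub h1).abs
      (((integrable_const _).sub (hi ρ)).const_mul _) fun y => ?_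
    have h3 : 0 ≤ 1 - χ y := by linarith [(hχ y).2]
    simp only
    rw [← mul_one_sub, abs_mul, abs_of_nonneg h3]
    exact mul_le_mul_of_nonneg_right (F.norm_coe_le_norm y) h3
  have h1 : 1 - ∫ y, χ y ∂ν ≤ η := by
    have h2 := abs_integral_sub_le ν (u := fun _ => (1 / 2 : ℝ)) (v := fun y => χ y - 1 / 2)
      aestronglyMeasurable_const (χ.continuous.sub continuous_const).aestronglyMeasurable
      (K := 1 / 2) (η := 0) (by norm_num) le_rfl hη0.le (fun _ => by norm_num)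
      (fun y => abs_le.2 ⟨by linarith [(hχ y).1], by linarith [(hχ y).2]⟩)
      (hνS ν (Set.mem_singleton ν)) (fun y hy => by
        have : χ y = 1 := hχ1 (not_not.1 hy)
        rw [this]; norm_num)
    rw [integral_sub (hi ν) (integrable_const _)] at h2
    simp only [integral_const, probReal_univ, smul_eq_mul, one_mul] at h2
    linarith [le_abs_self (1 / 2 - (∫ y, χ y ∂ν - 1 / 2))]
  have h2 := Metric.tendsto_nhds.1 (h χ χ.continuous hχc) η hη0
  have h3 := Metric.tendsto_nhds.1 (h (fun y => F y * χ y) (F.continuous.mul χ.continuous)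
    hχc.mul_left) η hη0
  filter_upwards [h2, h3] with n h2 h3
  rw [Real.dist_eq, abs_lt] at h2 h3 ⊢
  have h4 := abs_le.1 ((key ν).trans (mul_le_mul_of_nonneg_left h1 (norm_nonneg F)))
  have h5 := abs_le.1 ((key (μ n)).trans (mul_le_mul_of_nonneg_left
    (by linarith [h2.1] : 1 - ∫ y, χ y ∂μ n ≤ 2 * η) (norm_nonneg F)))
  have h6 : 4 * (‖F‖ * η) + 4 * η = ε := by rw [hη]; field_simp
  have h7 : 0 ≤ ‖F‖ * η := by positivity
  constructor <;> nlinarith [h3.1, h3.2, h4.1, h4.2, h5.1, h5.2]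

theorem topGlue : TopGlue := by
  intro hLim hU hN K
  obtain ⟨ν, hν, hF⟩ := hLim K
  refine ⟨ν, hν, hF, fun b F => ?_, fun hK x => ?_⟩
  · have hX : ∀ n, Measurable fun g => LamV n K (Jmat n g) := fun n =>
      (measurable_LamV n K).comp measurable_Jmat
    have := fun n => Measure.isProbabilityMeasure_map (μ := couplingLaw b n) (hX n).aemeasurable
    refine (top_vague (fun n => (couplingLaw b n).map fun g => LamV n K (Jmat n g)) ν
      (fun G hG hc => ?_) F).congr fun n =>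
        integral_map (hX n).aemeasurable F.continuous.aestronglyMeasurable
    obtain ⟨M, hM⟩ := hc.exists_bound_of_continuous hG
    have h := (hU K G hG hc b).add (hF (BoundedContinuousFunction.ofNormedAddCommGroup G hG M hM))
    rw [zero_add] at h
    refine h.congr fun n => ?_
    rw [integral_map (hX n).aemeasurable hG.aestronglyMeasurable]
    exact sub_add_cancel _ _
  · obtain ⟨c, hc, h⟩ := hN x
    let μ : ℕ → ProbabilityMeasure (Fin K → ℝ) := fun n =>
      ⟨(GOE n).map (LamV n K), Measure.isProbabilityMeasure_map (measurable_LamV n K).aemeasurable⟩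
    have hμ : Tendsto μ atTop (𝓝 (⟨ν, hν⟩ : ProbabilityMeasure (Fin K → ℝ))) :=
      ProbabilityMeasure.tendsto_iff_forall_integral_tendsto.2 fun F => (hF F).congr fun n =>
        (integral_map (measurable_LamV n K).aemeasurable F.continuous.aestronglyMeasurable).symm
    have hcl : IsClosed {y : Fin K → ℝ | y ⟨0, hK⟩ ≤ -x} :=
      isClosed_le (continuous_apply _) continuous_const
    refine lt_of_lt_of_le (ENNReal.ofReal_pos.2 hc) (le_trans ?_
      (ProbabilityMeasure.limsup_measure_closed_le_of_tendsto hμ hcl))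
    refine le_limsup_of_frequently_le (h.mono fun n hn => ?_).frequently (by isBoundedDefault)
    change _ ≤ (GOE n).map (LamV n K) _
    rw [Measure.map_apply (measurable_LamV n K) hcl.measurableSet]
    exact ENNReal.ofReal_le_of_le_toReal hn

end Crest.Agent.T157.Ed

end
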