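import Crest.Agent.T157.Bar_33
import Crest.Agent.T157.SF_33
import Crest.Agent.T157.EigN_84
import Crest.Agent.R166.GaussQ_286

/-!
Row 157, part D (helper33): step (L4) of the lower half of S0231 by one Gaussian integration by
parts: if the quadratic form `Q(σ) = σ·Aσ` of an almost low-rank `A` is large and thermally
concentrated, then the slab `|σ·Az| ≤ Q(z)/2` is a barrier for a typical `z`.
-/

set_option autoImplicit false

noncomputable section

namespace Crest.Agent.T157.Ac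

open Finset Matrix MeasureTheory Real
open Crest.ProbabilityR.SpinGlassDynamics
open Crest.Agent.T157.E Crest.Agent.T157.Bar Crest.Agent.T157.SF Crest.Agent.R339.Guerra

section fin
variable {Ω : Type*} [Fintype Ω]

/-- restricted partition function -/
def Zs (S : Finset Ω) (u : Ω → ℝ) : ℝ := ∑ σ ∈ S, exp (u σ)

/-- restricted Gibbs average -/
def av (S : Finset Ω) (u c : Ω → ℝ) : ℝ := (∑ σ ∈ S, exp (u σ) * c σ) / Zs S u

omit [Fintype Ω] in
theorem Zs_pos {S : Finset Ω} (hS : S.Nonempty) (u : Ω → ℝ) : 0 < Zs S u :=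
  sum_pos (fun _ _ => exp_pos _) hS

omit [Fintype Ω] in
theorem av_le {S : Finset Ω} (hS : S.Nonempty) (u : Ω → ℝ) {c : Ω → ℝ} {M : ℝ}
    (h : ∀ σ ∈ S, c σ ≤ M) : av S u c ≤ M := by
  rw [av, div_le_iff₀ (Zs_pos hS u), Zs, mul_sum]
  exact sum_le_sum fun σ hσ => by
    rw [mul_comm M]; exact mul_le_mul_of_nonneg_left (h σ hσ) (exp_pos _).le

theorem abs_av_le {S : Finset Ω} (hS : S.Nonempty) (u c : Ω → ℝ) : |av S u c| ≤ ∑ σ, |c σ| := by
  have hb : ∀ σ, |c σ| ≤ ∑ σ, |c σ| := fun σ =>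
    single_le_sum (f := fun σ => |c σ|) (fun _ _ => abs_nonneg _) (mem_univ σ)
  have h1 := av_le hS u (c := c) fun σ _ => (le_abs_self _).trans (hb σ)
  have h2 := av_le hS u (c := fun σ => -c σ) fun σ _ => (neg_le_abs _).trans (hb σ)
  have e : av S u (fun σ => -c σ) = -av S u c := by
    simp [av, neg_div]
  rw [abs_le]; constructor <;> linarith

omit [Fintype Ω] in
theorem av_sum {ι : Type*} [Fintype ι] (S : Finset Ω) (u : Ω → ℝ) (v : ι → ℝ) (a : Ω → ι → ℝ) :
    ∑ j, v j * av S u (fun σ => a σ j) = av S u fun σ => ∑ j, a σ j * v j := by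
  simp only [av, mul_sum, ← mul_div_assoc, ← sum_div]
  congr 1
  rw [sum_comm]
  exact sum_congr rfl fun σ _ => sum_congr rfl fun j _ => by ring

omit [Fintype Ω] in
theorem hasDerivAt_logZ {S : Finset Ω} (hS : S.Nonempty) {U : ℝ → Ω → ℝ} {c : Ω → ℝ} {t : ℝ}
    (h : ∀ σ, HasDerivAt (fun s => U s σ) (c σ) t) :
    HasDerivAt (fun s => log (Zs S (U s))) (av S (U t) c) t :=
  (HasDerivAt.fun_sum fun σ _ => (h σ).exp).log (Zs_pos hS (U t)).ne'

omit [Fintype Ω] in
theorem continuous_Zs {X : Type*} [TopologicalSpace X] (S : Finset Ω) {U : X → Ω → ℝ}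
    (h : ∀ σ, Continuous fun x => U x σ) : Continuous fun x => Zs S (U x) :=
  continuous_finsetSum _ fun σ _ => (h σ).rexp

omit [Fintype Ω] in
theorem continuous_av {X : Type*} [TopologicalSpace X] {S : Finset Ω} (hS : S.Nonempty)
    {U : X → Ω → ℝ} (h : ∀ σ, Continuous fun x => U x σ) (c : Ω → ℝ) :
    Continuous fun x => av S (U x) c :=
  (continuous_finsetSum _ fun σ _ => (h σ).rexp.mul continuous_const).div (continuous_Zs S h)
    fun x => (Zs_pos hS (U x)).ne'

variable [Nonempty Ω]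

/-- Gibbs probability -/
def pz (u : Ω → ℝ) (z : Ω) : ℝ := exp (u z - log (Zs univ u))

/-- the power `μ(S)^α` -/
def ee (α : ℝ) (S : Finset Ω) (u : Ω → ℝ) : ℝ := exp (α * (log (Zs S u) - log (Zs univ u)))

theorem pz_eq (u : Ω → ℝ) (z : Ω) : pz u z = prob (fun σ => exp (u σ)) z := by
  rw [pz, exp_sub, exp_log (Zs_pos univ_nonempty u)]; rfl

omit [Nonempty Ω] in
theorem pz_pos (u : Ω → ℝ) (z : Ω) : 0 < pz u z := exp_pos _

theorem sum_pz (u : Ω → ℝ) : ∑ z, pz u z = 1 := by
  simp only [pz_eq, prob]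
  rw [← sum_div]; exact div_self (Zs_pos univ_nonempty u).ne'

theorem pz_le (u : Ω → ℝ) (z : Ω) : pz u z ≤ 1 := by
  rw [← sum_pz u]; exact single_le_sum (fun σ _ => (pz_pos u σ).le) (mem_univ z)

theorem av_univ (u c : Ω → ℝ) : av univ u c = ∑ σ, pz u σ * c σ := by
  simp only [pz_eq, prob, av, sum_div]
  exact sum_congr rfl fun σ _ => by rw [Zs]; ring

omit [Nonempty Ω] in
theorem ee_pos (α : ℝ) (S : Finset Ω) (u : Ω → ℝ) : 0 < ee α S u := exp_pos _

omit [Nonempty Ω] in
theorem ee_le {α : ℝ} (hα : 0 ≤ α) {S : Finset Ω} (hS : S.Nonempty) (u : Ω → ℝ) :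
    ee α S u ≤ 1 := by
  rw [ee, exp_le_one_iff]
  refine mul_nonpos_of_nonneg_of_nonpos hα (sub_nonpos.2 (log_le_log (Zs_pos hS u) ?_))
  exact sum_le_sum_of_subset_of_nonneg (subset_univ S) fun _ _ _ => (exp_pos _).le

/-- the test function -/
def Ff (α : ℝ) (S : Finset Ω) (z : Ω) (u : Ω → ℝ) : ℝ := pz u z * (2 - ee α S u)

/-- its derivative in the direction `c` -/
def dF (α : ℝ) (S : Finset Ω) (z : Ω) (u c : Ω → ℝ) : ℝ :=
  pz u z * (c z - av univ u c) * (2 - ee α S u) -
    pz u z * (ee α S u * (α * (av S u c - av univ u c)))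

theorem hasDerivAt_Ff (α : ℝ) {S : Finset Ω} (hS : S.Nonempty) (z : Ω) {U : ℝ → Ω → ℝ}
    {c : Ω → ℝ} {t : ℝ} (h : ∀ σ, HasDerivAt (fun s => U s σ) (c σ) t) :
    HasDerivAt (fun s => Ff α S z (U s)) (dF α S z (U t) c) t := by
  have h1 := ((h z).sub (hasDerivAt_logZ univ_nonempty h)).exp
  have h2 := ((((hasDerivAt_logZ hS h).sub (hasDerivAt_logZ univ_nonempty h)).const_mul
    α).exp).const_sub 2
  refine (h1.mul h2).congr_deriv ?_
  simp only [dF, pz, ee, Pi.sub_apply]
  ring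

theorem abs_Ff_le {α : ℝ} (hα : 0 ≤ α) {S : Finset Ω} (hS : S.Nonempty) (z : Ω) (u : Ω → ℝ) :
    |Ff α S z u| ≤ 2 := by
  have h1 := pz_pos u z
  have h2 := pz_le u z
  have h3 := ee_pos α S u
  have h4 := ee_le hα hS u
  rw [Ff, abs_of_nonneg (mul_nonneg h1.le (by linarith))]
  nlinarith

theorem abs_dF_le {α : ℝ} (hα : 0 ≤ α) {S : Finset Ω} (hS : S.Nonempty) (z : Ω) (u c : Ω → ℝ) :
    |dF α S z u c| ≤ (4 + 2 * α) * ∑ σ, |c σ| := by
  have h1 := pz_pos u z
  have h2 := pz_le u z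
  have h3 := ee_pos α S u
  have h4 := ee_le hα hS u
  have a1 := abs_av_le hS u c
  have a2 := abs_av_le univ_nonempty u c
  have a3 : |c z| ≤ ∑ σ, |c σ| :=
    single_le_sum (f := fun σ => |c σ|) (fun _ _ => abs_nonneg _) (mem_univ z)
  set M := ∑ σ, |c σ|
  have b1 : |c z - av univ u c| ≤ 2 * M := (abs_sub _ _).trans (by linarith)
  have b2 : |av S u c - av univ u c| ≤ 2 * M := (abs_sub _ _).trans (by linarith)
  refine (abs_sub _ _).trans ?_
  rw [abs_mul, abs_mul, abs_mul, abs_mul, abs_mul, abs_of_pos h1, abs_of_pos h3, abs_of_nonneg hα,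
    abs_of_nonneg (by linarith : 0 ≤ 2 - ee α S u)]
  have c1 : pz u z * |c z - av univ u c| * (2 - ee α S u) ≤ 1 * (2 * M) * 2 := by
    gcongr <;> linarith
  have c2 : pz u z * (ee α S u * (α * |av S u c - av univ u c|)) ≤ 1 * (1 * (α * (2 * M))) := by
    gcongr
  linarith

omit [Nonempty Ω] in
theorem dF_sum {ι : Type*} [Fintype ι] (α : ℝ) (S : Finset Ω) (z : Ω) (u : Ω → ℝ) (v : ι → ℝ)
    (a : Ω → ι → ℝ) :
    ∑ j, v j * dF α S z u (fun σ => a σ j) = dF α S z u fun σ => ∑ j, a σ j * v j := by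
  simp only [dF, ← av_sum]
  rw [← sum_sub_distrib, ← sum_sub_distrib, mul_sum, sum_mul, mul_sum, mul_sum, mul_sum,
    ← sum_sub_distrib]
  exact sum_congr rfl fun j _ => by ring

theorem continuous_pz {X : Type*} [TopologicalSpace X] {U : X → Ω → ℝ}
    (h : ∀ σ, Continuous fun x => U x σ) (z : Ω) : Continuous fun x => pz (U x) z :=
  ((h z).sub ((continuous_Zs univ h).log fun _ => (Zs_pos univ_nonempty _).ne')).rexp

theorem continuous_ee {X : Type*} [TopologicalSpace X] (α : ℝ) {S : Finset Ω} (hS : S.Nonempty)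
    {U : X → Ω → ℝ} (h : ∀ σ, Continuous fun x => U x σ) : Continuous fun x => ee α S (U x) :=
  (continuous_const.mul (((continuous_Zs S h).log fun _ => (Zs_pos hS _).ne').sub
    ((continuous_Zs univ h).log fun _ => (Zs_pos univ_nonempty _).ne'))).rexp

theorem continuous_dF {X : Type*} [TopologicalSpace X] (α : ℝ) {S : Finset Ω} (hS : S.Nonempty)
    (z : Ω) {U : X → Ω → ℝ} (h : ∀ σ, Continuous fun x => U x σ) (c : Ω → ℝ) :
    Continuous fun x => dF α S z (U x) c := by
  have h1 := continuous_pz h z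
  have h2 := continuous_ee α hS h
  have h3 := continuous_av hS h c
  have h4 := continuous_av univ_nonempty h c
  unfold dF
  fun_prop

/-- Gaussian integration by parts for the test function -/
theorem stein_Ff {ι : Type*} [Fintype ι] {α : ℝ} (hα : 0 ≤ α) {S : Finset Ω} (hS : S.Nonempty)
    (z : Ω) (H0 : Ω → ℝ) (a : Ω → ι → ℝ) (v : ι → ℝ) :
    ∫ g, (∑ j, v j * g j) * Ff α S z (H0 + lin a g) ∂(G ι) =
      ∫ g, dF α S z (H0 + lin a g) (fun σ => ∑ j, a σ j * v j) ∂(G ι) := by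
  classical
  have hc : ∀ σ, Continuous fun g : ι → ℝ => (H0 + lin a g) σ := fun σ =>
    continuous_const.add ((continuous_apply σ).comp (continuous_lin a))
  have hF : Continuous fun g : ι → ℝ => Ff α S z (H0 + lin a g) :=
    (continuous_pz hc z).mul (continuous_const.sub (continuous_ee α hS hc))
  have hst : ∀ j, ∫ g, g j * Ff α S z (H0 + lin a g) ∂(G ι) =
      ∫ g, dF α S z (H0 + lin a g) (fun σ => a σ j) ∂(G ι) := fun j => by
    refine steinG j hF (continuous_dF α hS z hc _).measurable (fun g => ?_)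
      (fun g => abs_Ff_le hα hS z _) (fun g => abs_dF_le hα hS z _ _)
    have h1 := hasDerivAt_Ff α hS z (U := fun t => H0 + lin a (Function.update g j t))
      (c := fun σ => a σ j) (t := g j) fun σ =>
        (hasDerivAt_pi.1 (hasDerivAt_lin_update a g j (g j)) σ).const_add (H0 σ)
    simpa only [Function.update_eq_self] using h1
  have i1 : ∀ j, Integrable (fun g : ι → ℝ => g j * Ff α S z (H0 + lin a g)) (G ι) := fun j =>
    (integrable_coord j).mul_bdd hF.aestronglyMeasurable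
      (Filter.Eventually.of_forall fun g => abs_Ff_le hα hS z _)
  have i2 : ∀ j, Integrable (fun g : ι → ℝ => dF α S z (H0 + lin a g) fun σ => a σ j) (G ι) :=
    fun j => (integrable_const _).mono' (continuous_dF α hS z hc _).aestronglyMeasurable
      (Filter.Eventually.of_forall fun g => abs_dF_le hα hS z _ _)
  simp only [← dF_sum, sum_mul, mul_assoc]
  rw [integral_finsetSum _ fun j _ => (i1 j).const_mul _,
    integral_finsetSum _ fun j _ => (i2 j).const_mul _]
  exact sum_congr rfl fun j _ => by rw [integral_const_mul, integral_const_mul, hst]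

/-- the pointwise lower bound for the derivative -/
theorem dF_ge {α : ℝ} (hα : 0 ≤ α) (hα1 : α ≤ 1) {S : Finset Ω} (hS : S.Nonempty) (z : Ω)
    (u : Ω → ℝ) {κ : ℝ} (hκ : 0 ≤ κ) {r Q : Ω → ℝ} (hz : r z = Q z) (hr : ∀ σ, r σ ≤ Q σ)
    (hrS : ∀ σ ∈ S, r σ ≤ Q z / 4) :
    κ * (3 / 4 * α * Q z * (pz u z * ee α S u) - 2 * (pz u z * ∑ σ, pz u σ * |Q σ - Q z|)) ≤
      dF α S z u fun σ => κ * r σ := by
  have e : ∀ T : Finset Ω, av T u (fun σ => κ * r σ) = κ * av T u r := fun T => by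
    simp only [av, mul_left_comm _ κ, ← mul_sum, mul_div_assoc]
  have h1 := pz_pos u z
  have h3 := ee_pos α S u
  have h4 := ee_le hα hS u
  have a1 := av_le hS u hrS
  set D := ∑ σ, pz u σ * |Q σ - Q z|
  have hD : 0 ≤ D := sum_nonneg fun σ _ => mul_nonneg (pz_pos u σ).le (abs_nonneg _)
  have a2 : av univ u r ≤ Q z + D := by
    rw [av_univ, ← one_mul (Q z), ← sum_pz u, sum_mul, ← sum_add_distrib]
    refine sum_le_sum fun σ _ => ?_
    rw [← mul_add]
    exact mul_le_mul_of_nonneg_left (by linarith [hr σ, le_abs_self (Q σ - Q z)]) (pz_pos u σ).le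
  have b1 : ee α S u * α ≤ 1 := mul_le_one₀ h4 hα hα1
  have b0 : 0 ≤ ee α S u * α := mul_nonneg h3.le hα
  have key : 3 / 4 * α * Q z * ee α S u - 2 * D ≤ (Q z - av univ u r) * (2 - ee α S u) -
      ee α S u * (α * (av S u r - av univ u r)) := by
    have k1 : -(2 * D) ≤ (Q z - av univ u r) * (2 - ee α S u - ee α S u * α) := by nlinarith
    have k2 : ee α S u * α * av S u r ≤ ee α S u * α * (Q z / 4) :=
      mul_le_mul_of_nonneg_left a1 b0
    nlinarith
  have := mul_le_mul_of_nonneg_left key (mul_nonneg hκ h1.le)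
  simp only [dF, e, hz]
  linarith

end fin

section mat
variable {ι : Type*} [Fintype ι] [DecidableEq ι]

/-- symmetric matrices with `A² ≤ A` (i.e. spectrum in `[0,1]`) -/
structure Good (A : Matrix ι ι ℝ) : Prop where
  symm : Aᵀ = A
  sq : ∀ v, (A *ᵥ v) ⬝ᵥ (A *ᵥ v) ≤ v ⬝ᵥ A *ᵥ v

variable {A : Matrix ι ι ℝ}

theorem Good.herm (hA : Good A) : A.IsHermitian := Eig.herm_iff.2 hA.symm

theorem Good.nonneg (hA : Good A) (v : ι → ℝ) : 0 ≤ v ⬝ᵥ A *ᵥ v :=
  (Eig.dot_self_nonneg _).trans (hA.sq v)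

theorem Good.le (hA : Good A) (v : ι → ℝ) : v ⬝ᵥ A *ᵥ v ≤ v ⬝ᵥ v := by
  have h1 := Eig.dot_sq_le v (A *ᵥ v)
  have h2 := hA.sq v
  have h3 := hA.nonneg v
  have h4 := Eig.dot_self_nonneg v
  by_contra h
  rw [not_le] at h
  nlinarith

theorem Good.cs (hA : Good A) (u v : ι → ℝ) :
    (u ⬝ᵥ A *ᵥ v) ^ 2 ≤ (u ⬝ᵥ A *ᵥ u) * (v ⬝ᵥ A *ᵥ v) := by
  have h := discrim_le_zero (a := v ⬝ᵥ A *ᵥ v) (b := 2 * (u ⬝ᵥ A *ᵥ v)) (c := u ⬝ᵥ A *ᵥ u)
    fun t => by
      have h1 := hA.nonneg (u + t • v)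
      rw [mulVec_add, mulVec_smul, add_dotProduct, dotProduct_add, dotProduct_add, smul_dotProduct,
        smul_dotProduct, dotProduct_smul, dotProduct_smul, Eig.dot_symm hA.herm v u] at h1
      simp only [smul_eq_mul] at h1
      linarith
  rw [discrim] at h
  linarith

omit [DecidableEq ι] in
theorem dot_sq (u v : ι → ℝ) :
    (u ⬝ᵥ v) ^ 2 = ∑ p : ι × ι, (u p.1 * u p.2) * (v p.1 * v p.2) := by
  rw [sq, dotProduct, sum_mul_sum, Fintype.sum_prod_type]
  exact sum_congr rfl fun i _ => sum_congr rfl fun j _ => by ring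

omit [DecidableEq ι] in
theorem integrable_dot_sq (a : ι → ℝ) : Integrable (fun g => (a ⬝ᵥ g) * (a ⬝ᵥ g)) (G ι) := by
  have h : MemLp (fun g : ι → ℝ => ∑ i, a i * g i) 2 (G ι) :=
    memLp_finsetSum _ fun i _ =>
      ((ProbabilityTheory.memLp_id_gaussianReal 2).comp_measurePreserving
        (measurePreserving_eval (fun _ : ι => γ) i)).const_mul (a i)
  simpa [sq, dotProduct] using h.integrable_sq

theorem integral_quad (hA : A.IsHermitian) :
    Integrable (fun g => g ⬝ᵥ A *ᵥ g) (G ι) ∧ ∫ g, g ⬝ᵥ A *ᵥ g ∂(G ι) = A.trace := by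
  simp only [Eig.quad_eq hA]
  refine ⟨integrable_finsetSum _ fun k _ => (integrable_dot_sq _).const_mul _, ?_⟩
  rw [integral_finsetSum _ fun k _ => (integrable_dot_sq _).const_mul _, Eig.trace_eq hA]
  refine sum_congr rfl fun k hk => ?_
  have h := R166.Gauss286.lin_sq (Eig.vec A k)
  simp only [sq] at h
  rw [Eig.sum_vec_sq hA (mem_range.1 hk)] at h
  rw [integral_const_mul]
  simp only [dotProduct]
  rw [h, mul_one]

theorem Good.trace_nonneg (hA : Good A) : 0 ≤ A.trace := by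
  rw [← (integral_quad hA.herm).2]; exact integral_nonneg fun g => hA.nonneg g

/-- Sudakov-Fernique bound for quadratic forms on an ellipsoid -/
theorem emax (hA : Good A) {I : Type*} [Fintype I] [Nonempty I] (y : I → ι → ℝ)
    (h1 : ∀ a, y a ⬝ᵥ y a ≤ 1) (h2 : ∀ a g, (g ⬝ᵥ y a) ^ 2 ≤ g ⬝ᵥ A *ᵥ g) :
    ∫ x, mx (lin (fun a (p : ι × ι) => y a p.1 * y a p.2) x) ∂(G (ι × ι)) ≤ 2 * √A.trace := by
  refine (sf _ (fun a i => 2 * y a i) fun a b => ?_).trans ?_
  · have e1 : ∑ p : ι × ι, (y a p.1 * y a p.2 - y b p.1 * y b p.2) ^ 2 =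
        (y a ⬝ᵥ y a) ^ 2 + (y b ⬝ᵥ y b) ^ 2 - 2 * (y a ⬝ᵥ y b) ^ 2 := by
      rw [dot_sq, dot_sq, dot_sq, mul_sum, ← sum_add_distrib, ← sum_sub_distrib]
      exact sum_congr rfl fun i _ => by ring
    have e2 : ∑ i, (2 * y a i - 2 * y b i) ^ 2 =
        4 * (y a ⬝ᵥ y a + y b ⬝ᵥ y b - 2 * (y a ⬝ᵥ y b)) := by
      simp only [dotProduct, mul_sum, ← sum_add_distrib, ← sum_sub_distrib]
      exact sum_congr rfl fun i _ => by ring
    rw [e1, e2]
    have c := Eig.dot_sq_le (y a) (y b)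
    have p1 := h1 a
    have p2 := h1 b
    have q1 := Eig.dot_self_nonneg (y a)
    have q2 := Eig.dot_self_nonneg (y b)
    have q3 := Eig.dot_self_nonneg (y a - y b)
    rw [sub_dotProduct, dotProduct_sub, dotProduct_sub, dotProduct_comm (y b) (y a)] at q3
    set s := y a ⬝ᵥ y a
    set t := y b ⬝ᵥ y b
    set r := y a ⬝ᵥ y b
    have k : s ^ 2 + t ^ 2 - 2 * r ^ 2 ≤ (s + t - 2 * r) * (s + t + 2 * r) := by nlinarith
    have k2 : (s + t - 2 * r) * (s + t + 2 * r) ≤ (s + t - 2 * r) * 4 :=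
      mul_le_mul_of_nonneg_left (by linarith) (by linarith)
    linarith
  · refine le_of_forall_pos_le_add fun ε hε => ?_
    set c := √A.trace + ε with hc
    have hs := sqrt_nonneg A.trace
    have hc0 : 0 < c := by positivity
    obtain ⟨i1, i2⟩ := integral_quad hA.herm
    have h3 := integral_mono (integrable_mx fun a i => 2 * y a i)
      ((i1.div_const c).add (integrable_const c)) fun g => mx_le fun a => by
        have e : lin (fun a i => 2 * y a i) g a = 2 * (g ⬝ᵥ y a) := by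
          simp only [lin, dotProduct, mul_sum]
          exact sum_congr rfl fun i _ => by ring
        have := h2 a g
        simp only [Pi.add_apply]
        rw [e, div_add' _ _ _ hc0.ne', le_div_iff₀ hc0]
        nlinarith [sq_nonneg (g ⬝ᵥ y a - c)]
    simp only [Pi.add_apply] at h3
    rw [integral_add (i1.div_const c) (integrable_const c), integral_div, i2] at h3
    simp only [integral_const, probReal_univ, smul_eq_mul, one_mul] at h3
    have h4 : A.trace / c ≤ √A.trace := by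
      rw [div_le_iff₀ hc0, hc]
      nlinarith [mul_self_sqrt hA.trace_nonneg]
    linarith

end mat

variable {n : ℕ}

/-- the quadratic form on the cube -/
def Qf (A : Matrix (Fin n) (Fin n) ℝ) (σ : Cube n) : ℝ := sv σ ⬝ᵥ A *ᵥ sv σ

/-- thermal fluctuation `⟨|Q(σ¹) - Q(σ²)|⟩` -/
def fl (w Q : Cube n → ℝ) : ℝ := ∑ z, prob w z * ∑ σ, prob w σ * |Q σ - Q z|

theorem mass_exp (u : Cube n → ℝ) (B : Set (Cube n)) [DecidablePred (· ∈ B)] :
    mass (fun σ => exp (u σ)) B = ∑ z ∈ univ.filter (· ∈ B), pz u z := by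
  simp only [mass, pz_eq]
  congr

theorem core {A : Matrix (Fin n) (Fin n) ℝ} (hA : Good A) {H0 : Cube n → ℝ}
    (hH : ∀ σ, H0 (neg σ) = H0 σ) {κ q L : ℝ} (hκ : 0 < κ) (hq : 4 ≤ q) (hL : 1 ≤ L) :
    (G (Fin n × Fin n)).real {x | ¬ Bar (fun σ => exp ((H0 + lin
        (fun σ (p : Fin n × Fin n) => κ * (sv σ p.1 * sv σ p.2)) x) σ)) (exp (-L))} ≤
      ∫ x, mass (fun σ => exp ((H0 + lin
        (fun σ (p : Fin n × Fin n) => κ * (sv σ p.1 * sv σ p.2)) x) σ)) {σ | Qf A σ < q}
          ∂(G (Fin n × Fin n)) +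
      8 * exp 1 * L / (3 * q) * (2 * √A.trace / κ +
        ∫ x, fl (fun σ => exp ((H0 + lin
          (fun σ (p : Fin n × Fin n) => κ * (sv σ p.1 * sv σ p.2)) x) σ)) (Qf A)
            ∂(G (Fin n × Fin n))) := by
  classical
  set a : Cube n → Fin n × Fin n → ℝ := fun σ p => κ * (sv σ p.1 * sv σ p.2) with ha
  set u : (Fin n × Fin n → ℝ) → Cube n → ℝ := fun x => H0 + lin a x with hu
  have huc : ∀ σ, Continuous fun x => u x σ := fun σ =>
    continuous_const.add ((continuous_apply σ).comp (continuous_lin a))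
  have hL0 : 0 < L := by linarith
  have hq0 : 0 < q := by linarith
  set α := 1 / L with hα
  have hα0 : 0 < α := by positivity
  have hα1 : α ≤ 1 := by rw [hα, div_le_one hL0]; exact hL
  set S : Cube n → Finset (Cube n) :=
    fun z => univ.filter fun σ => |sv σ ⬝ᵥ A *ᵥ sv z| ≤ Qf A z / 2 with hS
  set T : Finset (Cube n) := univ.filter fun z => q ≤ Qf A z ∧ (S z).Nonempty with hT
  have hTq : ∀ z ∈ T, q ≤ Qf A z := fun z hz => (mem_filter.1 hz).2.1
  have hTS : ∀ z ∈ T, (S z).Nonempty := fun z hz => (mem_filter.1 hz).2.2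
  set y : Option (Cube n) → Fin n → ℝ :=
    fun o => o.elim 0 fun z => (√(Qf A z))⁻¹ • A *ᵥ sv z with hy
  have hQ0 : ∀ z, 0 ≤ Qf A z := fun z => hA.nonneg _
  have hinv : ∀ z, (√(Qf A z))⁻¹ ^ 2 * Qf A z ≤ 1 := fun z => by
    rw [inv_pow, sq_sqrt (hQ0 z)]; exact inv_mul_le_one
  have hdot : ∀ z (g : Fin n → ℝ), (g ⬝ᵥ y (some z)) ^ 2 =
      (√(Qf A z))⁻¹ ^ 2 * (g ⬝ᵥ A *ᵥ sv z) ^ 2 := fun z g => by
    simp only [hy, Option.elim_some, dotProduct_smul, smul_eq_mul, mul_pow]
  have hy2 : ∀ o g, (g ⬝ᵥ y o) ^ 2 ≤ g ⬝ᵥ A *ᵥ g := by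
    rintro (_ | z) g
    · simpa [hy] using hA.nonneg g
    · rw [hdot]
      calc _ ≤ (√(Qf A z))⁻¹ ^ 2 * ((g ⬝ᵥ A *ᵥ g) * Qf A z) :=
            mul_le_mul_of_nonneg_left (hA.cs g (sv z)) (sq_nonneg _)
        _ = ((√(Qf A z))⁻¹ ^ 2 * Qf A z) * (g ⬝ᵥ A *ᵥ g) := by ring
        _ ≤ _ := mul_le_of_le_one_left (hA.nonneg g) (hinv z)
  have hy1 : ∀ o, y o ⬝ᵥ y o ≤ 1 := by
    rintro (_ | z)
    · simp [hy]
    · simp only [hy, Option.elim_some, dotProduct_smul, smul_dotProduct, smul_eq_mul]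
      have := mul_le_mul_of_nonneg_left (hA.sq (sv z)) (sq_nonneg (√(Qf A z))⁻¹)
      have h2 := hinv z
      simp only [Qf] at this h2 ⊢
      nlinarith
  set V : Option (Cube n) → Fin n × Fin n → ℝ := fun o p => y o p.1 * y o p.2 with hV
  have hmax := emax hA y hy1 hy2
  have hmx0 : ∀ x, 0 ≤ mx (lin V x) := fun x => by
    have := le_mx (lin V x) none
    simpa [lin, hV, hy] using this
  have i1 : ∀ z ∈ T, Integrable (fun x => pz (u x) z * ee α (S z) (u x)) (G (Fin n × Fin n)) :=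
    fun z hz => (integrable_const 1).mono'
      ((continuous_pz huc z).mul (continuous_ee α (hTS z hz) huc)).aestronglyMeasurable
        (Filter.Eventually.of_forall fun x => by
          rw [norm_eq_abs, abs_of_pos (mul_pos (pz_pos _ _) (ee_pos _ _ _))]
          exact mul_le_one₀ (pz_le _ _) (ee_pos _ _ _).le (ee_le hα0.le (hTS z hz) _))
  have p0 : ∀ x z, 0 ≤ ∑ σ, pz (u x) σ * |Qf A σ - Qf A z| := fun x z =>
    sum_nonneg fun σ _ => mul_nonneg (pz_pos _ _).le (abs_nonneg _)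
  have i2 : ∀ z, Integrable (fun x => pz (u x) z * ∑ σ, pz (u x) σ * |Qf A σ - Qf A z|)
      (G (Fin n × Fin n)) := fun z =>
    (integrable_const (∑ σ, |Qf A σ - Qf A z|)).mono' ((continuous_pz huc z).mul
      (continuous_finsetSum _ fun σ _ =>
        (continuous_pz huc σ).mul continuous_const)).aestronglyMeasurable
      (Filter.Eventually.of_forall fun x => by
        rw [norm_eq_abs, abs_of_nonneg (mul_nonneg (pz_pos _ _).le (p0 x z))]
        exact (mul_le_of_le_one_left (p0 x z) (pz_le _ _)).trans (sum_le_sum fun σ _ =>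
          mul_le_of_le_one_left (abs_nonneg _) (pz_le _ _)))
  have i3 : ∀ z, Integrable (fun x => pz (u x) z * mx (lin V x)) (G (Fin n × Fin n)) := fun z =>
    (integrable_mx V).bdd_mul (c := 1) (continuous_pz huc z).aestronglyMeasurable
      (Filter.Eventually.of_forall fun x => by
        rw [norm_eq_abs, abs_of_pos (pz_pos _ _)]; exact pz_le _ _)
  -- Stein for each `z ∈ T`
  have hst : ∀ z ∈ T, ∫ x, κ * (3 / 4 * α * Qf A z * (pz (u x) z * ee α (S z) (u x)) -
      2 * (pz (u x) z * ∑ σ, pz (u x) σ * |Qf A σ - Qf A z|)) ∂(G (Fin n × Fin n)) ≤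
      ∫ x, 2 * (pz (u x) z * mx (lin V x)) ∂(G (Fin n × Fin n)) := by
    intro z hz
    have hQz : 0 < Qf A z := hq0.trans_le (hTq z hz)
    have h1 := stein_Ff hα0.le (hTS z hz) z H0 a (V (some z))
    have e : (fun σ => ∑ j, a σ j * V (some z) j) = fun σ => κ * (sv σ ⬝ᵥ y (some z)) ^ 2 := by
      funext σ
      rw [dot_sq, mul_sum]
      exact sum_congr rfl fun i _ => by simp only [ha, hV]; ring
    rw [e] at h1
    have hcz : (√(Qf A z))⁻¹ ^ 2 = (Qf A z)⁻¹ := by rw [inv_pow, sq_sqrt hQz.le]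
    have c1 := continuous_pz huc z
    have c2 := continuous_ee α (hTS z hz) huc
    have i0 : Integrable (fun x => dF α (S z) z (u x) fun σ => κ * (sv σ ⬝ᵥ y (some z)) ^ 2)
        (G (Fin n × Fin n)) :=
      (integrable_const _).mono' (continuous_dF α (hTS z hz) z huc _).aestronglyMeasurable
        (Filter.Eventually.of_forall fun g => abs_dF_le hα0.le (hTS z hz) z _ _)
    have i4 : Integrable (fun x => (∑ j, V (some z) j * x j) * Ff α (S z) z (u x))
        (G (Fin n × Fin n)) :=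
      (integrable_finsetSum _ fun j _ => (integrable_coord j).const_mul _).mul_bdd (c := 2)
        (c1.mul (continuous_const.sub c2)).aestronglyMeasurable
        (Filter.Eventually.of_forall fun x => abs_Ff_le hα0.le (hTS z hz) z _)
    refine (integral_mono ((((i1 z hz).const_mul _).sub ((i2 z).const_mul _)).const_mul _) i0 fun x =>
      dF_ge hα0.le hα1 (hTS z hz) z (u x) hκ.le (r := fun σ => (sv σ ⬝ᵥ y (some z)) ^ 2)
        (Q := Qf A) ?_ (fun σ => hy2 _ _) fun σ hσ => ?_).trans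
      (h1.symm.le.trans (integral_mono i4 ((i3 z).const_mul 2) fun x => ?_))
    · simp only [hdot, hcz]
      change (Qf A z)⁻¹ * Qf A z ^ 2 = _
      field_simp
    · simp only [hdot, hcz]
      have h2 : |sv σ ⬝ᵥ A *ᵥ sv z| ≤ Qf A z / 2 := (mem_filter.1 hσ).2
      have h3 := pow_le_pow_left₀ (abs_nonneg _) h2 2
      rw [sq_abs] at h3
      rw [inv_mul_le_iff₀ hQz]
      linarith
    · have p1 : ∑ j, V (some z) j * x j ≤ mx (lin V x) := le_mx (lin V x) (some z)
      have p2 := hmx0 x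
      have p3 := pz_pos (u x) z
      have p4 := ee_pos α (S z) (u x)
      have p5 := ee_le hα0.le (hTS z hz) (u x)
      have p6 : 0 ≤ Ff α (S z) z (u x) := mul_nonneg p3.le (by linarith)
      calc (∑ j, V (some z) j * x j) * Ff α (S z) z (u x) ≤ mx (lin V x) * Ff α (S z) z (u x) :=
            mul_le_mul_of_nonneg_right p1 p6
        _ ≤ mx (lin V x) * (pz (u x) z * 2) :=
            mul_le_mul_of_nonneg_left (mul_le_mul_of_nonneg_left (by linarith) p3.le) p2
        _ = _ := by ring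
  have hfl : ∀ x, fl (fun σ => exp (u x σ)) (Qf A) =
      ∑ z, pz (u x) z * ∑ σ, pz (u x) σ * |Qf A σ - Qf A z| := fun x => by
    simp only [fl, pz_eq]
  set E1 := ∑ z ∈ T, ∫ x, pz (u x) z * ee α (S z) (u x) ∂(G (Fin n × Fin n)) with hE1
  set E2 := ∫ x, fl (fun σ => exp (u x σ)) (Qf A) ∂(G (Fin n × Fin n)) with hE2
  have s1 : ∑ z ∈ T, ∫ x, pz (u x) z * ∑ σ, pz (u x) σ * |Qf A σ - Qf A z|
      ∂(G (Fin n × Fin n)) ≤ E2 := by
    simp only [hE2, hfl]
    rw [integral_finsetSum _ fun z _ => i2 z]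
    exact sum_le_sum_of_subset_of_nonneg (subset_univ T) fun z _ _ =>
      integral_nonneg fun x => mul_nonneg (pz_pos _ _).le (p0 x z)
  have s2 : ∑ z ∈ T, ∫ x, pz (u x) z * mx (lin V x) ∂(G (Fin n × Fin n)) ≤ 2 * √A.trace := by
    refine (sum_le_sum_of_subset_of_nonneg (subset_univ T) fun z _ _ =>
      integral_nonneg fun x => mul_nonneg (pz_pos _ _).le (hmx0 x)).trans ?_
    rw [← integral_finsetSum _ fun z _ => i3 z]
    simp only [← sum_mul, sum_pz, one_mul]
    exact hmax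
  have s3 : κ * (3 / 4 * α * q * E1 - 2 * E2) ≤ 4 * √A.trace := by
    have h1 : ∀ z ∈ T, κ * (3 / 4 * α * q * ∫ x, pz (u x) z * ee α (S z) (u x)
        ∂(G (Fin n × Fin n)) - 2 * ∫ x, pz (u x) z * ∑ σ, pz (u x) σ * |Qf A σ - Qf A z|
        ∂(G (Fin n × Fin n))) ≤ 2 * ∫ x, pz (u x) z * mx (lin V x) ∂(G (Fin n × Fin n)) := by
      intro z hz
      have h := hst z hz
      rw [integral_const_mul, integral_const_mul, integral_sub ((i1 z hz).const_mul _)
        ((i2 z).const_mul _), integral_const_mul, integral_const_mul] at h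
      refine le_trans (mul_le_mul_of_nonneg_left (sub_le_sub_right ?_ _) hκ.le) h
      refine mul_le_mul_of_nonneg_right (mul_le_mul_of_nonneg_left (hTq z hz) (by positivity)) ?_
      exact integral_nonneg fun x => (mul_pos (pz_pos _ _) (ee_pos _ _ _)).le
    have h2 := sum_le_sum h1
    rw [← mul_sum, ← mul_sum, sum_sub_distrib, ← mul_sum, ← mul_sum] at h2
    nlinarith
  have s4 : E1 ≤ 8 * L / (3 * q) * (2 * √A.trace / κ + E2) := by
    have e : 8 * L / (3 * q) * (2 * √A.trace / κ + E2) =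
        (4 * √A.trace + κ * (2 * E2)) / (κ * (3 / 4 * α * q)) := by
      rw [hα]; field_simp; ring
    rw [e, le_div_iff₀ (by positivity)]
    linarith
  -- pointwise
  have hw : ∀ σ, Measurable fun x => exp (u x σ) := fun σ => (huc σ).rexp.measurable
  have hms := (measurableSet_bar hw (exp (-L))).compl
  have im : Integrable (fun x => mass (fun σ => exp (u x σ)) {σ | Qf A σ < q})
      (G (Fin n × Fin n)) := by
    simp only [mass_exp]
    exact integrable_finsetSum _ fun z _ => (integrable_const 1).mono'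
      (continuous_pz huc z).aestronglyMeasurable (Filter.Eventually.of_forall fun x => by
        rw [norm_eq_abs, abs_of_pos (pz_pos _ _)]; exact pz_le _ _)
  have iT := integrable_finsetSum T i1
  have key : ∀ x, Set.indicator {x | Bar (fun σ => exp (u x σ)) (exp (-L))}ᶜ 1 x ≤
      mass (fun σ => exp (u x σ)) {σ | Qf A σ < q} +
        exp 1 * ∑ z ∈ T, pz (u x) z * ee α (S z) (u x) := by
    intro x
    have n1 : 0 ≤ mass (fun σ => exp (u x σ)) {σ | Qf A σ < q} := by
      rw [mass_exp]; exact sum_nonneg fun z _ => (pz_pos _ _).le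
    have n2 : 0 ≤ ∑ z ∈ T, pz (u x) z * ee α (S z) (u x) :=
      sum_nonneg fun z _ => (mul_pos (pz_pos _ _) (ee_pos _ _ _)).le
    by_cases hb : Bar (fun σ => exp (u x σ)) (exp (-L))
    · rw [Set.indicator_of_notMem (by simpa using hb)]; positivity
    rw [Set.indicator_of_mem (by simpa using hb), Pi.one_apply]
    conv_lhs => rw [← sum_pz (u x)]
    rw [mass_exp, mul_sum, sum_filter, hT, sum_filter, ← sum_add_distrib]
    refine sum_le_sum fun z _ => ?_
    have pp := pz_pos (u x) z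
    have pe := ee_pos α (S z) (u x)
    by_cases hz : Qf A z < q
    · have : z ∈ {σ | Qf A σ < q} := hz
      rw [if_pos this, if_neg (fun h => absurd h.1 (not_le.2 hz)), add_zero]
    have hz' : q ≤ Qf A z := not_lt.1 hz
    have hm : exp (-L) < mass (fun σ => exp (u x σ))
        {σ | |sv σ ⬝ᵥ A *ᵥ sv z| ≤ Qf A z / 2} := by
      by_contra h
      refine hb (bar_of_vec (fun σ => exp_pos _) (fun σ => ?_) (A *ᵥ sv z) (a := Qf A z / 2)
        (by linarith) (fun i => ?_) (not_lt.1 h))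
      · simp only [hu, Pi.add_apply, hH, lin, ha, sv_neg, Pi.neg_apply, neg_mul_neg]
      · refine (Eig.abs_apply_le_nrm _ i).trans ((Eig.nrm_le_iff (by linarith)).2 ?_)
        have := hA.sq (sv z)
        change _ ≤ Qf A z at this
        nlinarith
    rw [mass_exp] at hm
    change exp (-L) < ∑ σ ∈ S z, pz (u x) σ at hm
    have hne : (S z).Nonempty := by
      rw [nonempty_iff_ne_empty]
      intro h
      rw [h, sum_empty] at hm
      exact absurd hm (not_lt.2 (exp_pos _).le)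
    have : z ∉ {σ | Qf A σ < q} := hz
    rw [if_neg this, if_pos ⟨hz', hne⟩, zero_add]
    have e1 : ∑ σ ∈ S z, pz (u x) σ = exp (log (Zs (S z) (u x)) - log (Zs univ (u x))) := by
      simp only [pz, exp_sub]
      rw [exp_log (Zs_pos hne _), ← sum_div]; rfl
    rw [e1, exp_lt_exp] at hm
    have e2 : 1 ≤ exp 1 * ee α (S z) (u x) := by
      rw [ee, ← exp_add]
      refine one_le_exp ?_
      have := mul_le_mul_of_nonneg_left hm.le hα0.le
      have e3 : α * -L = -1 := by rw [hα]; field_simp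
      linarith
    nlinarith
  have fin := integral_mono ((integrable_const (1 : ℝ)).indicator hms) (im.add (iT.const_mul _)) key
  simp only [Pi.add_apply] at fin
  rw [integral_add im (iT.const_mul _), integral_const_mul, integral_finsetSum _ i1] at fin
  have e5 := integral_indicator_one (μ := G (Fin n × Fin n)) hms
  have e6 := mul_le_mul_of_nonneg_left s4 (exp_pos 1).le
  change (G (Fin n × Fin n)).real {x | Bar (fun σ => exp (u x σ)) (exp (-L))}ᶜ ≤ _
  rw [← e5]
  refine fin.trans (add_le_add_right (e6.trans (le_of_eq ?_)) _)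
  ring

end Crest.Agent.T157.Ac
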