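import Crest.Agent.T157.AnDef_51
import Crest.Agent.T157.StA_44

/-!
Row 157, part D (helper51): laws on the cube, shrinking of barycentres, the potential of a posterior.
-/

set_option autoImplicit false

noncomputable section

namespace Crest.Agent.T157.An

open MeasureTheory Matrix Set Finset
open Crest.Agent.T157.E Crest.Agent.T157.Eig Crest.Agent.T157.St
open Crest.Agent.T157.SL Crest.Agent.T157.Tree

variable {n : ℕ} {β C b : ℝ} {w v : Cube n → ℝ}

lemma pr_nn (hw : Wt w) (x : Cube n) : 0 ≤ prob w x := div_nonneg (hw.nn x) hw.pos.le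

lemma pr_one (hw : Wt w) : ∑ x, prob w x = 1 := by
  simp only [prob, ← Finset.sum_div]; exact div_self hw.pos.ne'

lemma pr_self (h : ∑ x, w x = 1) : prob w = w := funext fun x => by simp [prob, h]

lemma wt_of_one (h0 : ∀ x, 0 ≤ w x) (h : ∑ x, w x = 1) : Wt w := ⟨h0, by rw [h]; exact one_pos⟩

lemma mag_prob (hw : Wt w) : mag (prob w) = mag w := by
  funext i; simp only [mag, meanV, mean, pr_self (pr_one hw)]

lemma wt_tilt (hw : Wt w) (y : Fin n → ℝ) : Wt (tilt w y) := by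
  refine ⟨fun x => mul_nonneg (hw.nn x) (Real.exp_pos _).le, ?_⟩
  obtain ⟨x, hx⟩ := hw.exists_pos
  exact Finset.sum_pos' (fun x _ => mul_nonneg (hw.nn x) (Real.exp_pos _).le)
    ⟨x, Finset.mem_univ _, mul_pos hx (Real.exp_pos _)⟩

lemma mag_eq' (w : Cube n → ℝ) : mag w = ∑ x, prob w x • sv x := by
  funext i; simp [mag, meanV, mean, Finset.sum_apply]

lemma dot_mag (u : Fin n → ℝ) (w : Cube n → ℝ) : u ⬝ᵥ mag w = ∑ x, prob w x * (u ⬝ᵥ sv x) := by
  rw [mag_eq', dotProduct_sum]; simp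

lemma abs_mag_le (hw : Wt w) (i : Fin n) : |mag w i| ≤ 1 := by
  simp only [mag, meanV, mean]
  refine (Finset.abs_sum_le_sum_abs _ _).trans (le_of_eq ?_)
  rw [← pr_one hw]
  exact Finset.sum_congr rfl fun x _ => by
    rw [abs_mul, abs_of_nonneg (pr_nn hw x), sv, abs_spin, mul_one]

lemma mag_dot_le (hw : Wt w) : mag w ⬝ᵥ mag w ≤ n := by
  rw [dot_self_eq]
  calc ∑ i, mag w i ^ 2 ≤ ∑ _i : Fin n, (1 : ℝ) := Finset.sum_le_sum fun i _ => by
        have := abs_le.1 (abs_mag_le hw i); nlinarith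
    _ = n := by simp

lemma qq_nn (m : Fin n → ℝ) : 0 ≤ qq m := by
  unfold qq; rw [dot_self_eq]; positivity

lemma qq_mag_le (hw : Wt w) : qq (mag w) ≤ 1 := div_le_one_of_le₀ (mag_dot_le hw) (Nat.cast_nonneg _)

lemma qq_smul (c : ℝ) (m : Fin n → ℝ) : qq (c • m) = c ^ 2 * qq m := by
  simp only [qq, smul_dotProduct, dotProduct_smul, smul_eq_mul]; ring

lemma abs_ovl_le (x y : Cube n) : |ovl x y| ≤ 1 := by
  rw [ovl, abs_div, Nat.abs_cast]
  refine div_le_one_of_le₀ ((abs_dot_le _ _).trans (le_of_eq ?_)) (Nat.cast_nonneg _)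
  simp only [nrm, sv_dot_self]
  exact Real.mul_self_sqrt (Nat.cast_nonneg _)

lemma bil_const {p q : Cube n → ℝ} (hp : ∑ x, p x = 1) (hq : ∑ x, q x = 1) (c : ℝ) :
    bil p q (fun _ _ => c) = c := by
  simp only [bil, ← Finset.sum_mul, ← Finset.mul_sum, hq, mul_one, hp, one_mul]

lemma dev_eq (hw : Wt w) (u : ℝ) : dev w w u = ovar w + (qq (mag w) - u) ^ 2 := by
  have h1 := bil_ovl (pr_one hw) (pr_one hw)
  rw [mag_prob hw] at h1
  have h2 := bil_const (pr_one hw) (pr_one hw) ((qq (mag w) - u) ^ 2 - 2 * (qq (mag w) - u) * qq (mag w))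
  unfold ovar dev
  change bil _ _ _ = qq (mag w) at h1
  set q := qq (mag w)
  have e : bil (prob w) (prob w) (fun x y => (ovl x y - u) ^ 2) =
      bil (prob w) (prob w) (fun x y => (ovl x y - q) ^ 2) + 2 * (q - u) * bil (prob w) (prob w) ovl +
        bil (prob w) (prob w) (fun _ _ => (q - u) ^ 2 - 2 * (q - u) * q) := by
    simp only [bil, Finset.mul_sum, ← Finset.sum_add_distrib]
    exact Finset.sum_congr rfl fun x _ => Finset.sum_congr rfl fun y _ => by ring
  rw [e, h1, h2]; ring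

lemma ovar_le (hw : Wt w) (u : ℝ) : ovar w ≤ dev w w u := by
  rw [dev_eq hw]; exact le_add_of_nonneg_right (sq_nonneg _)

/-! ### mixing with the uniform law -/

/-- the uniform law -/
def unif (n : ℕ) : Cube n → ℝ := fun _ => (2 ^ n : ℝ)⁻¹

lemma unif_one : ∑ x, unif n x = 1 := by simp [unif]

lemma sum_sv (i : Fin n) : ∑ x : Cube n, sv x i = 0 := by
  have h := Equiv.sum_comp (Function.Involutive.toPerm (fun x : Cube n => fun j => !x j)
    (fun x => by funext j; simp)) (fun x => sv x i)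
  have e : ∑ x : Cube n, -sv x i = ∑ x : Cube n, sv x i :=
    (Finset.sum_congr rfl fun x _ => (spin_not (x i)).symm).trans h
  rw [Finset.sum_neg_distrib] at e
  linarith

/-- the mixture -/
def mixU (θ : ℝ) (w : Cube n → ℝ) : Cube n → ℝ := fun x => (1 - θ) * prob w x + θ * unif n x

lemma mixU_one (hw : Wt w) (θ : ℝ) : ∑ x, mixU θ w x = 1 := by
  simp only [mixU, Finset.sum_add_distrib, ← Finset.mul_sum, pr_one hw, unif_one]; ring

lemma unif_pos (x : Cube n) : 0 < unif n x := by unfold unif; positivity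

lemma mixU_nn (hw : Wt w) {θ : ℝ} (h0 : 0 ≤ θ) (h1 : θ ≤ 1) (x : Cube n) : 0 ≤ mixU θ w x :=
  add_nonneg (mul_nonneg (by linarith) (pr_nn hw x)) (mul_nonneg h0 (unif_pos x).le)

lemma mag_mixU (hw : Wt w) (θ : ℝ) : mag (mixU θ w) = (1 - θ) • mag w := by
  funext i
  rw [mag_eq (mixU_one hw θ), Pi.smul_apply, ← mag_prob hw, mag_eq (pr_one hw)]
  simp only [mixU, unif, add_mul, Finset.sum_add_distrib, mul_assoc, ← Finset.mul_sum, sum_sv]
  simp

lemma shr_box (hw : Wt w) {θ : ℝ} (h0 : 0 < θ) (h1 : θ ≤ 1) : (1 - θ) • mag w ∈ box n := fun i => by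
  rw [Pi.smul_apply, smul_eq_mul, abs_mul, abs_of_nonneg (by linarith : 0 ≤ 1 - θ)]
  have := abs_mag_le hw i
  nlinarith [abs_nonneg (mag w i)]

lemma bil_le {p q : Cube n → ℝ} (hp0 : ∀ x, 0 ≤ p x) (hp : ∑ x, p x = 1) (hq0 : ∀ x, 0 ≤ q x)
    (hq : ∑ x, q x = 1) {K : Cube n → Cube n → ℝ} {c : ℝ} (h : ∀ x y, K x y ≤ c) :
    bil p q K ≤ c := by
  rw [← bil_const hp hq c]
  exact Finset.sum_le_sum fun x _ => Finset.sum_le_sum fun y _ =>
    mul_le_mul_of_nonneg_left (h x y) (mul_nonneg (hp0 x) (hq0 y))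

lemma ovar_mixU (hw : Wt w) {θ : ℝ} (h0 : 0 ≤ θ) (h1 : θ ≤ 1) :
    ovar (mixU θ w) ≤ ovar w + 8 * θ := by
  refine (ovar_le (wt_of_one (mixU_nn hw h0 h1) (mixU_one hw θ)) (qq (mag w))).trans ?_
  unfold ovar dev
  rw [pr_self (mixU_one hw θ)]
  set K := fun x y : Cube n => (ovl x y - qq (mag w)) ^ 2
  have hK : ∀ x y, K x y ≤ 4 := fun x y => by
    have := abs_le.1 (abs_ovl_le x y)
    have h2 := qq_nn (mag w)
    have h3 := qq_mag_le hw
    simp only [K]; nlinarith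
  have e : bil (mixU θ w) (mixU θ w) K = (1 - θ) ^ 2 * bil (prob w) (prob w) K +
      (1 - θ) * θ * bil (prob w) (unif n) K + θ * bil (unif n) (mixU θ w) K := by
    simp only [bil, Finset.mul_sum, ← Finset.sum_add_distrib]
    exact Finset.sum_congr rfl fun x _ => Finset.sum_congr rfl fun y _ => by
      simp only [mixU]; ring
  have a1 := bil_le (pr_nn hw) (pr_one hw) (fun x => (unif_pos x).le) unif_one hK
  have a2 := bil_le (fun x => (unif_pos x).le) unif_one (mixU_nn hw h0 h1) (mixU_one hw θ) hK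
  have a3 : 0 ≤ bil (prob w) (prob w) K := bil_nonneg (pr_nn hw) (pr_nn hw) fun _ _ => sq_nonneg _
  have a4 : (1 - θ) * θ * bil (prob w) (unif n) K ≤ (1 - θ) * θ * 4 :=
    mul_le_mul_of_nonneg_left a1 (mul_nonneg (by linarith) h0)
  have a5 : θ * bil (unif n) (mixU θ w) K ≤ θ * 4 := mul_le_mul_of_nonneg_left a2 h0
  have a6 : (1 - θ) ^ 2 * bil (prob w) (prob w) K ≤ 1 * bil (prob w) (prob w) K :=
    mul_le_mul_of_nonneg_right (by nlinarith) a3
  rw [e]; nlinarith

lemma free_eq (A : Matrix (Fin n) (Fin n) ℝ) (w : Cube n → ℝ) : free A w =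
    ∑ x, prob w x * (1 / 2 * (sv x ⬝ᵥ A *ᵥ sv x)) + ∑ x, Real.negMulLog (prob w x) := by
  simp only [free, mean, ← Finset.sum_add_distrib, Real.negMulLog]
  exact Finset.sum_congr rfl fun x _ => by ring

lemma abs_H_le {A : Matrix (Fin n) (Fin n) ℝ} {CA : ℝ} (hA : opn A ≤ CA) (x : Cube n) :
    |1 / 2 * (sv x ⬝ᵥ A *ᵥ sv x)| ≤ n * CA / 2 := by
  have := abs_quad_le A (sv x)
  rw [sv_dot_self] at this
  rw [abs_mul, abs_of_pos (by norm_num : (0 : ℝ) < 1 / 2)]
  nlinarith [mul_le_mul_of_nonneg_right hA (Nat.cast_nonneg (α := ℝ) n)]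

lemma ent_le (hw : Wt w) : ∑ x, Real.negMulLog (prob w x) ≤ n := by
  have h : ∀ x, Real.negMulLog (prob w x) ≤ prob w x * n + (unif n x - prob w x) := fun x => by
    rcases (pr_nn hw x).eq_or_lt with h0 | h0
    · rw [← h0]; simpa using (unif_pos x).le
    have h1 := Real.log_le_sub_one_of_pos (div_pos (unif_pos x) h0)
    rw [Real.log_div (unif_pos x).ne' h0.ne'] at h1
    have h2 : -(n : ℝ) ≤ Real.log (unif n x) := by
      rw [unif, Real.log_inv, Real.log_pow]
      have := Real.log_two_lt_d9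
      nlinarith [Nat.cast_nonneg (α := ℝ) n]
    have h3 : prob w x * (unif n x / prob w x - 1) = unif n x - prob w x := by field_simp
    rw [Real.negMulLog]
    nlinarith [mul_le_mul_of_nonneg_left h1 h0.le, mul_le_mul_of_nonneg_left h2 h0.le]
  refine (Finset.sum_le_sum fun x _ => h x).trans (le_of_eq ?_)
  simp only [Finset.sum_add_distrib, Finset.sum_sub_distrib, ← Finset.sum_mul, pr_one hw, unif_one]
  ring

lemma free_mixU (hw : Wt w) {A : Matrix (Fin n) (Fin n) ℝ} {CA θ : ℝ} (hA : opn A ≤ CA)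
    (h0 : 0 ≤ θ) (h1 : θ ≤ 1) : free A w - n * (θ * (CA + 1)) ≤ free A (mixU θ w) := by
  rw [free_eq, free_eq, pr_self (mixU_one hw θ)]
  set H := fun x : Cube n => 1 / 2 * (sv x ⬝ᵥ A *ᵥ sv x)
  have a1 : (1 - θ) * ∑ x, Real.negMulLog (prob w x) ≤ ∑ x, Real.negMulLog (mixU θ w x) := by
    rw [Finset.mul_sum]
    refine Finset.sum_le_sum fun x _ => ?_
    have h := Real.concaveOn_negMulLog.2 (pr_nn hw x) (unif_pos x).le (by linarith : 0 ≤ 1 - θ) h0
      (by ring)
    have h2 : 0 ≤ Real.negMulLog (unif n x) := Real.negMulLog_nonneg (unif_pos x).le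
      (inv_le_one_of_one_le₀ (one_le_pow₀ one_le_two))
    simp only [smul_eq_mul] at h
    exact le_trans (le_add_of_nonneg_right (mul_nonneg h0 h2)) h
  have a2 : ∑ x, mixU θ w x * H x = (1 - θ) * ∑ x, prob w x * H x + θ * ∑ x, unif n x * H x := by
    simp only [mixU, Finset.mul_sum, ← Finset.sum_add_distrib]
    exact Finset.sum_congr rfl fun x _ => by ring
  have a3 : ∑ x, prob w x * H x ≤ ∑ x, prob w x * (n * CA / 2) := Finset.sum_le_sum fun x _ =>
    mul_le_mul_of_nonneg_left (le_of_abs_le (abs_H_le hA x)) (pr_nn hw x)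
  have a4 : ∑ x, unif n x * (-(n * CA / 2)) ≤ ∑ x, unif n x * H x := Finset.sum_le_sum fun x _ =>
    mul_le_mul_of_nonneg_left (neg_le_of_abs_le (abs_H_le hA x)) (unif_pos x).le
  rw [← Finset.sum_mul, pr_one hw] at a3
  rw [← Finset.sum_mul, unif_one] at a4
  have a5 := ent_le hw
  rw [a2]
  nlinarith [mul_le_mul_of_nonneg_left a3 h0, mul_le_mul_of_nonneg_left a4 h0,
    mul_le_mul_of_nonneg_left a5 h0]

/-- TAP for the shrunk barycentre -/
theorem Tap.shr {S : Site β C b} {A : Matrix (Fin n) (Fin n) ℝ} {ρ ε CA θ : ℝ} (h : Tap S A ρ ε)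
    (hA : opn A ≤ CA) (h0 : 0 < θ) (h1 : θ ≤ 1) (hw : Wt w) (hρ : ovar w + 8 * θ ≤ ρ) :
    free A w - n * (ε + θ * (CA + 1)) ≤ V S A ((1 - θ) • mag w) := by
  have := h (mixU θ w) (wt_of_one (mixU_nn hw h0.le h1) (mixU_one hw θ))
    (by rw [mag_mixU hw]; exact shr_box hw h0 h1) ((ovar_mixU hw h0.le h1).trans hρ)
  rw [mag_mixU hw] at this
  linarith [free_mixU hw hA h0.le h1]

/-- the free energy of a tilt of a dominated law -/
theorem free_tilt (hw : Wt w) {A : Matrix (Fin n) (Fin n) ℝ} {Λ : ℝ}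
    (hd : ∀ x, prob w x ≤ Real.exp Λ * prob (ising A 0) x) (y : Fin n → ℝ) :
    Real.log (∑ x, ising A 0 x) - Λ + Real.log (mean w fun x => Real.exp (y ⬝ᵥ sv x)) ≤
      free A (tilt w y) + y ⬝ᵥ mag (tilt w y) := by
  have ht := wt_tilt hw y
  have hZ : 0 < ∑ x, ising A 0 x :=
    Finset.sum_pos (fun _ _ => Real.exp_pos _) Finset.univ_nonempty
  set M := mean w fun x => Real.exp (y ⬝ᵥ sv x) with hM
  have eM : M = (∑ x, tilt w y x) / ∑ x, w x := by
    simp only [hM, mean, prob, tilt, Finset.sum_div]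
    exact Finset.sum_congr rfl fun x _ => by ring
  have hM0 : 0 < M := by rw [eM]; exact div_pos ht.pos hw.pos
  have ep : ∀ x, prob (tilt w y) x = prob w x * Real.exp (y ⬝ᵥ sv x) / M := fun x => by
    have := hw.pos.ne'; have := ht.pos.ne'
    rw [eM, prob, prob, tilt]; field_simp
  have e0 : ∀ c : ℝ, c = ∑ x, prob (tilt w y) x * c := fun c => by
    rw [← Finset.sum_mul, pr_one ht, one_mul]
  rw [dot_mag, free, mean, ← Finset.sum_add_distrib,
    e0 (Real.log (∑ x, ising A 0 x) - Λ + Real.log M)]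
  refine Finset.sum_le_sum fun x _ => ?_
  rw [← mul_add]
  rcases (pr_nn ht x).eq_or_lt with h0 | h0
  · rw [← h0]; simp
  refine mul_le_mul_of_nonneg_left ?_ h0.le
  have h1 : prob (tilt w y) x ≤ Real.exp (Λ + 1 / 2 * (sv x ⬝ᵥ A *ᵥ sv x) + y ⬝ᵥ sv x -
      Real.log (∑ x, ising A 0 x) - Real.log M) := by
    rw [ep, Real.exp_sub, Real.exp_sub, Real.exp_log hZ, Real.exp_log hM0, Real.exp_add,
      Real.exp_add]
    refine div_le_div_of_nonneg_right ?_ hM0.le
    have := mul_le_mul_of_nonneg_right (hd x) (Real.exp_pos (y ⬝ᵥ sv x)).le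
    refine this.trans (le_of_eq ?_)
    rw [prob, ising, zero_dotProduct, add_zero]; ring
  have := (Real.log_le_iff_le_exp h0).2 h1
  linarith

end Crest.Agent.T157.An

end
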