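import Crest.Agent.T157.AnA_51
import Crest.Agent.T157.UpDef_74

/-!
Row 157, part D (helper51): the deterministic construction of the ancestors.
-/

set_option autoImplicit false

noncomputable section

namespace Crest.Agent.T157.An

open MeasureTheory Matrix Set Finset
open Crest.Agent.T157.E Crest.Agent.T157.Eig Crest.Agent.T157.St Crest.Agent.T157.Conc
open Crest.Agent.T157.SL Crest.Agent.T157.Tree Crest.Agent.T157.Sc Crest.Agent.T157.Up

variable {n : ℕ} {β C b : ℝ}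

lemma int_exp_smul {L : ℝ} {F : (Fin n → ℝ) → ℝ} (h : ELip L F) (a : ℝ) :
    Integrable (fun z => Real.exp (F (a • z))) (E.gv (Fin n)) := by
  have h1 : ELip (L * |a|) fun z => F (a • z) := fun x y => by
    have := h (a • x) (a • y)
    rwa [← smul_sub, en_smul, ← mul_assoc] at this
  simpa using h1.integrable_exp 1

/-- two families are merged into one -/
lemma fam_max {τ : ℝ} {N : ℕ} {F G : ℕ → (Fin n → ℝ) → ℝ} {a a' : ℝ}
    (hF : ∀ j ≤ N, ELip (√n) (F j) ∧ ∫ z, Real.exp (F j (√(j * τ) • z)) ∂E.gv (Fin n) ≤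
      Real.exp (a + n * (j * τ) / 2))
    (hG : ∀ j ≤ N, ELip (√n) (G j) ∧ ∫ z, Real.exp (G j (√(j * τ) • z)) ∂E.gv (Fin n) ≤
      Real.exp (a' + n * (j * τ) / 2)) :
    Fam τ N 0 fun j y => max (F j y - a) (G j y - a') - 1 := fun j hj => by
  obtain ⟨f1, f2⟩ := hF j hj
  obtain ⟨g1, g2⟩ := hG j hj
  have hL : ELip (√n) fun y => max (F j y - a) (G j y - a') - 1 := fun x y => by
    rw [sub_sub_sub_cancel_right]
    refine (abs_max_sub_max_le_max _ _ _ _).trans (max_le ?_ ?_)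
    · exact f1.sub_const a x y
    · exact g1.sub_const a' x y
  refine ⟨hL, ?_⟩
  have i1 := int_exp_smul f1 (√(j * τ))
  have i2 := int_exp_smul g1 (√(j * τ))
  have h2 : Real.exp (-1) ≤ 1 / 2 := by
    rw [Real.exp_neg, one_div]
    exact inv_anti₀ two_pos (by linarith [Real.add_one_le_exp (1 : ℝ)])
  calc _ ≤ ∫ z, (Real.exp (-a) / 2 * Real.exp (F j (√(j * τ) • z)) +
        Real.exp (-a') / 2 * Real.exp (G j (√(j * τ) • z))) ∂E.gv (Fin n) := by
        refine integral_mono (int_exp_smul hL _) ((i1.const_mul _).add (i2.const_mul _)) fun z => ?_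
        set u := F j (√(j * τ) • z)
        set v := G j (√(j * τ) • z)
        have e1 : Real.exp (-a) / 2 * Real.exp u = Real.exp (u - a) / 2 := by
          rw [sub_eq_add_neg, Real.exp_add]; ring
        have e2 : Real.exp (-a') / 2 * Real.exp v = Real.exp (v - a') / 2 := by
          rw [sub_eq_add_neg, Real.exp_add]; ring
        show Real.exp (max (u - a) (v - a') - 1) ≤ _ * Real.exp u + _ * Real.exp v
        rw [e1, e2, sub_eq_add_neg, Real.exp_add]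
        have h3 : Real.exp (max (u - a) (v - a')) ≤ Real.exp (u - a) + Real.exp (v - a') := by
          rcases max_choice (u - a) (v - a') with h | h <;> rw [h] <;>
            linarith [Real.exp_pos (u - a), Real.exp_pos (v - a')]
        nlinarith [Real.exp_pos (max (u - a) (v - a'))]
    _ ≤ _ := by
        rw [integral_add (i1.const_mul _) (i2.const_mul _), integral_const_mul, integral_const_mul]
        have a1 := mul_le_mul_of_nonneg_left f2 (by positivity : 0 ≤ Real.exp (-a) / 2)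
        have a2 := mul_le_mul_of_nonneg_left g2 (by positivity : 0 ≤ Real.exp (-a') / 2)
        have e1 : ∀ c : ℝ, Real.exp (-c) / 2 * Real.exp (c + n * (j * τ) / 2) =
            Real.exp (0 + n * (j * τ) / 2) / 2 := fun c => by
          rw [div_mul_eq_mul_div, ← Real.exp_add]; congr 2; ring
        rw [e1] at a1 a2
        linarith

lemma ds_eq (hn : 0 < n) (x z : Fin n → ℝ) : ds x z = n * (qq x + qq z - 2 * (z ⬝ᵥ x / n)) := by
  have : (n : ℝ) ≠ 0 := by positivity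
  rw [ds, sub_dotProduct, dotProduct_sub, dotProduct_sub, dotProduct_comm x z, qq, qq]
  field_simp; ring

lemma ds_nn (x z : Fin n → ℝ) : 0 ≤ ds x z := by rw [ds, dot_self_eq]; positivity

lemma ds_smul (c : ℝ) (x z : Fin n → ℝ) : ds (c • x) (c • z) = c ^ 2 * ds x z := by
  rw [ds, ds, ← smul_sub, smul_dotProduct, dotProduct_smul, smul_eq_mul, smul_eq_mul]; ring

/-- the increment of the state evolution -/
lemma incr_le {Γ : ℝ → ℝ} {b c0 η x ε r t u q q' : ℝ} (hc : 0 < c0) (hη : 0 ≤ η)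
    (hΓ : ∀ s s', b ≤ s → s ≤ s' → s' ≤ s + 1 → Γ s' - Γ s ≤ (1 + η) * (s' - s) - c0 / 2 * (s' - s) ^ 2)
    (ht : 0 ≤ t) (hu : 0 ≤ u) (hub : u ≤ b) (hb : b ≤ 1) (hq' : q' ≤ 1) (hε : 0 ≤ ε)
    (hq : b - ε ≤ q) (h1 : |q - Γ (max q b + t)| ≤ x) (h2 : |q' - Γ (max q' b + (t + u))| ≤ x)
    (hq2 : b - ε ≤ q') (hr : 0 ≤ r) (hrr : 2 * (η + 2 * x + u + ε) ≤ c0 * r ^ 2) :
    q' - q ≤ r + ε := by
  have m1 : max q b ≤ q + ε := max_le (by linarith) (by linarith)
  have m2 : max q' b ≤ q' + ε := max_le (by linarith) (by linarith)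
  have m3 := le_max_left q' b
  have m4 := le_max_right q b
  have m5 : max q' b ≤ 1 := max_le hq' hb
  have m6 := le_max_left q b
  by_cases h : max q' b ≤ max q b
  · linarith
  have h : max q b < max q' b := not_le.1 h
  have h3 := hΓ (max q b + t) (max q' b + (t + u)) (by linarith) (by linarith) (by linarith)
  have e : max q' b + (t + u) - (max q b + t) = max q' b - max q b + u := by ring
  rw [e] at h3
  set d := max q' b - max q b + u with hd
  have d1 : d ≤ 1 := by linarith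
  have d0 : 0 ≤ d := by linarith
  have a1 := abs_le.1 h1
  have a2 := abs_le.1 h2
  have h4 : c0 * d ^ 2 ≤ c0 * r ^ 2 := by nlinarith [mul_le_mul_of_nonneg_left d1 hη]
  have h5 : d ≤ r := by
    have := le_of_mul_le_mul_left h4 hc
    exact (pow_le_pow_iff_left₀ d0 hr two_ne_zero).1 this
  linarith

lemma sq_shr {θ : ℝ} (θ0 : 0 < θ) (θ1 : θ ≤ 1) : (1 - θ) ^ 2 ≤ 1 := by nlinarith

lemma shq {θ : ℝ} (θ0 : 0 < θ) (θ1 : θ ≤ 1) {w : Cube n → ℝ} (h : Wt w) :
    qq (mag w) - 2 * θ ≤ qq ((1 - θ) • mag w) ∧ qq ((1 - θ) • mag w) ≤ qq (mag w) := by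
  rw [qq_smul]
  have := qq_nn (mag w); have := qq_mag_le h; have := sq_shr θ0 θ1
  constructor <;> nlinarith

lemma num_end {θ u q k r0 x ε r : ℝ} (θ0 : 0 < θ) (θ1 : θ ≤ 1) (hq : 0 ≤ q) (hk : 0 ≤ k)
    (a1 : -k ≤ u - q) (a2 : 1 - r0 - x ≤ (1 - θ) ^ 2 * q) (a3 : 2 * k ≤ ε) (a4 : r0 + x + ε < r) :
    1 + (1 - θ) ^ 2 * q - 2 * ((1 - θ) * u) < r := by
  nlinarith [mul_le_mul_of_nonneg_left a1 (by linarith : 0 ≤ 1 - θ), mul_nonneg θ0.le hk,
    mul_nonneg (mul_nonneg θ0.le (by linarith : 0 ≤ 1 - θ)) hq]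

lemma num_inc {t u q q' k a D N : ℝ} (t0 : 0 ≤ t) (t1 : t ≤ 1) (hk : 0 ≤ k) (hN : 0 ≤ N)
    (a1 : -k ≤ u - q) (a2 : t * q' - t * q ≤ a) (a3 : a + 2 * k ≤ D) :
    t * (N * (q' + q - 2 * u)) ≤ D * N := by
  have : t * (q' + q - 2 * u) ≤ D := by
    nlinarith [mul_le_mul_of_nonneg_left a1 t0, mul_le_mul_of_nonneg_right t1 hk]
  nlinarith [mul_le_mul_of_nonneg_left this hN]

set_option maxHeartbeats 800000 in
/-- **the ancestors, deterministic form** -/
theorem anc_det {S : Site β C b} {A : Matrix (Fin n) (Fin n) ℝ} {B : Set (Cube n)} {Γ : ℝ → ℝ}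
    {F : ℕ → (Fin n → ℝ) → ℝ} {N M : ℕ}
    {τ CA ρ εt θ e0 lam ρ1 c e2 η c0 ηg r0 Y κ εs e x1 ε2 x r D e' Y' r' : ℝ}
    (hn : 0 < n) (hβ : 1 ≤ β) (hA : opn A ≤ CA) (hT : Tap S A ρ εt)
    (hZ : n * (S.P - e0) ≤ Real.log (∑ σ, ising A 0 σ))
    (hTree : TreeOn (ising A 0) B b M lam ρ1) (hM : 0 < M)
    (hSC : ∀ j ≤ N, SC2 S Γ A c e2 η (j * τ)) (hc : 0 < c) (hc0 : 0 < c0) (hηg : 0 ≤ ηg)
    (hΓ : ∀ s s', b ≤ s → s ≤ s' → s' ≤ s + 1 →
      Γ s' - Γ s ≤ (1 + ηg) * (s' - s) - c0 / 2 * (s' - s) ^ 2)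
    (hΓe : ∀ s ∈ Icc b 1, 1 - r0 ≤ Γ (s + N * τ / β ^ 2))
    (hSla : ∀ w L, Wt w → ovar w ≤ ρ1 → Fam τ N 0 L → Sla (n := n) w N L Y κ εs)
    (hF : Mom S.P τ e N F) (hτ : 0 ≤ τ) (hτb : τ ≤ b)
    (θ0 : 0 < θ) (θ1 : θ ≤ 1) (hκ : κ + 8 * θ ≤ ρ) (hρ1 : ρ1 ≤ κ) (hY : 0 ≤ Y) (hεs : 0 ≤ εs)
    (h2 : e0 + lam + εs + 1 / n + εt + θ * (CA + 1 + Y) ≤ x1)
    (h3 : 2 / n + 1 / M + 4 * √κ + 2 * θ ≤ ε2) (h3' : ε2 ≤ η)
    (h4 : e2 + x1 ≤ c * x ^ 2) (hx : 0 ≤ x)
    (h5 : 2 * (ηg + 2 * x + τ + ε2) ≤ c0 * r ^ 2) (hr : 0 ≤ r)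
    (h6 : r + 2 * ε2 ≤ D) (h7 : εs ^ 2 ≤ D) (h8 : e + x1 ≤ e') (he : 0 ≤ e) (h9 : Y ≤ Y')
    (h10 : r0 + x + ε2 < r') : Up.Anc S A F D e' Y' r' N B := by
  obtain ⟨q, γ, hC, hq⟩ := hTree
  have hn0 : (0 : ℝ) < n := by exact_mod_cast hn
  have hM0 : (0 : ℝ) < M := by exact_mod_cast hM
  have n1 : 0 < 1 / (n : ℝ) := by positivity
  have n2 : 2 / (n : ℝ) = 2 * (1 / n) := by ring
  have M1 : 0 < 1 / (M : ℝ) := by positivity
  have k0 := Real.sqrt_nonneg κ
  have k1 : √ρ1 ≤ √κ := Real.sqrt_le_sqrt hρ1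
  have b0 := S.b0
  have b1 := S.b1
  have hw : ∀ k, Wt (γ k) := fun k => wt_of_one (hC.nn k) (hC.one k)
  have hI : Wt (ising A 0) := Wt.of_pos fun _ => Real.exp_pos _
  have hd : ∀ k ≤ M, ∀ σ, prob (γ k) σ ≤ Real.exp (n * lam) * prob (ising A 0) σ := fun k hk σ => by
    rw [pr_self (hC.one k)]
    exact (hC.dom k hk σ).trans (mul_le_mul_of_nonneg_left
      (Set.indicator_apply_le' (fun _ => le_rfl) fun _ => pr_nn hI σ) (Real.exp_pos _).le)
  have hov : ∀ k ≤ M, ovar (γ k) ≤ ρ1 := fun k hk => (ovar_le (hw k) (q k)).trans (by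
    unfold dev; rw [pr_self (hC.one k)]; exact hC.pure k hk)
  have t2 := sq_shr θ0 θ1
  -- the potential of a tilt
  have pot : ∀ k ≤ M, ∀ y, ovar (tilt (γ k) y) ≤ κ → nrm y ≤ Y * √n →
      n * S.P + Real.log (mean (γ k) fun σ => Real.exp (y ⬝ᵥ sv σ)) + 1 + n * εs - n * x1 ≤
        V S A ((1 - θ) • mag (tilt (γ k) y)) + y ⬝ᵥ ((1 - θ) • mag (tilt (γ k) y)) := by
    intro k hk y h1 hy
    have a1 := free_tilt (hw k) (hd k hk) y
    have a2 := hT.shr hA θ0 θ1 (wt_tilt (hw k) y) (by linarith)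
    have a3 : y ⬝ᵥ mag (tilt (γ k) y) ≤ n * Y := by
      refine (dot_le _ _).trans ?_
      have a4 : nrm (mag (tilt (γ k) y)) ≤ √n := Real.sqrt_le_sqrt (mag_dot_le (wt_tilt (hw k) y))
      calc _ ≤ Y * √n * √n := mul_le_mul hy a4 (nrm_nonneg _) (by positivity)
        _ = n * Y := by rw [mul_assoc, Real.mul_self_sqrt hn0.le, mul_comm]
    have a5 := mul_le_mul_of_nonneg_left h2 hn0.le
    have a6 : (n : ℝ) * (1 / n) = 1 := by field_simp
    rw [dotProduct_smul, smul_eq_mul]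
    linarith [mul_le_mul_of_nonneg_left a3 θ0.le]
  choose! Ls hL1 hL2 hL3 using hSC
  have hFam := fam_max (F := F) (G := Ls) (τ := τ) (N := N) (a := n * (S.P + e))
    (a' := n * (S.P + e2))
    (fun j hj => ⟨(hF j hj).1, (hF j hj).2.trans (le_of_eq (by congr 1; ring))⟩)
    (fun j hj => ⟨hL1 j hj, (hL3 j hj).trans (le_of_eq (by congr 1; ring))⟩)
  obtain ⟨y, σ, y0, hσ, s1, s2, s3⟩ := hSla (γ M) _ (hw M) (hov M le_rfl) hFam
  set g : ℕ → Fin n → ℝ := fun j => mag (tilt (γ M) (y j)) with hg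
  have hwj : ∀ j, Wt (tilt (γ M) (y j)) := fun j => wt_tilt (hw M) _
  have qM : b - 1 / n - √κ ≤ qq (mag (γ M)) := by
    have a1 := abs_le.1 (hC.norm le_rfl)
    have a2 := abs_le.1 (hq M le_rfl)
    have e : (M : ℝ) * b / M = b := by field_simp
    rw [e] at a2
    unfold qq; linarith [a1.1, a2.1]
  have qlow : ∀ j ≤ N, b - ε2 ≤ qq ((1 - θ) • g j) := fun j hj => by
    have a1 := abs_le.1 (Real.abs_le_sqrt (s1 j hj).2.2.2)
    have a2 := ds_nn (g j) (mag (γ M))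
    rw [ds_eq hn] at a2
    have a3 := nonneg_of_mul_nonneg_right a2 hn0 |> fun h => h
    have a4 := (shq θ0 θ1 (hwj j)).1
    simp only [hg] at a3 a4 ⊢
    linarith [a1.1]
  have good : ∀ j ≤ N, F j (y j) ≤ V S A ((1 - θ) • g j) + y j ⬝ᵥ ((1 - θ) • g j) + n * (e + x1) ∧
      |qq ((1 - θ) • g j) - Γ (max (qq ((1 - θ) • g j)) b + j * τ / β ^ 2)| ≤ x := fun j hj => by
    obtain ⟨a1, a2, a3, -⟩ := s1 j hj
    have a4 := pot M le_rfl (y j) a2 a1
    have a5 := le_max_left (F j (y j) - n * (S.P + e)) (Ls j (y j) - n * (S.P + e2))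
    have a6 := le_max_right (F j (y j) - n * (S.P + e)) (Ls j (y j) - n * (S.P + e2))
    have a7 := hL2 j hj (y j) _ (shr_box (hwj j) θ0 θ1) (by linarith [qlow j hj])
    refine ⟨by simp only [hg]; linarith, abs_le.2 (abs_le_of_sq_le_sq' ?_ hx)⟩
    have a8 := mul_le_mul_of_nonneg_left h4 hn0.le
    have a9 : 0 ≤ c * n * max (-kap S ((1 - θ) • mag (tilt (γ M) (y j)))) 0 ^ 2 := by positivity
    refine le_of_mul_le_mul_left ?_ (mul_pos hc hn0)
    simp only [hg]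
    linarith
  have ε0 : 0 ≤ ε2 := by linarith
  have hβ2 : τ / β ^ 2 ≤ τ := div_le_self hτ (one_le_pow₀ hβ)
  have hβ0 : 0 < β ^ 2 := by positivity
  refine ⟨M, fun p => p * b / M, fun p => (1 - θ) • mag (γ p), y, fun j => (1 - θ) • g j, σ,
    by simp; linarith, ?_, fun p hp => ?_, fun p hp => ⟨shr_box (hw p) θ0 θ1, ?_, ?_⟩, ?_, ?_,
    fun k hk => ⟨?_, ?_⟩, fun k hk => ⟨shr_box (hwj k) θ0 θ1, by linarith [qlow k hk],
      (s1 k hk).1.trans (mul_le_mul_of_nonneg_right h9 (Real.sqrt_nonneg _)), ?_⟩, ?_, ?_⟩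
  · have e : (M : ℝ) * b / M = b := by field_simp
    simp only [e]; linarith
  · have e : ((p + 1 : ℕ) : ℝ) * b / M = p * b / M + b * (1 / M) := by push_cast; ring
    have a0 : b * (1 / M) ≤ 1 / M := mul_le_of_le_one_left M1.le b1
    have a00 : 0 ≤ b * (1 / M) := by positivity
    refine ⟨by simp only [e]; linarith, by simp only [e]; linarith, ?_⟩
    have a1 := (abs_le.1 (hC.incr hp)).2
    have a2 := abs_le.1 (hq p hp.le)
    have a3 := abs_le.1 (hq (p + 1) hp)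
    rw [e] at a3
    have a4 : ds (mag (γ (p + 1))) (mag (γ p)) / n ≤ D := by unfold ds; linarith [a2.1, a3.2]
    rw [div_le_iff₀ hn0] at a4
    rw [ds_smul]
    exact (mul_le_of_le_one_left (ds_nn _ _) t2).trans a4
  · have a1 := abs_le.1 (hC.norm hp)
    have a2 := abs_le.1 (hq p hp)
    have a3 := shq θ0 θ1 (hw p)
    unfold qq at a3 ⊢
    rw [abs_le]; constructor <;> linarith [a1.1, a1.2, a2.1, a2.2, a3.1, a3.2]
  · have a1 := pot p hp 0 (by rw [tilt_zero]; linarith [hov p hp])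
      (by rw [nrm_eq_zero.2 rfl]; positivity)
    simp only [tilt_zero, zero_dotProduct, Real.exp_zero, (hw p).mean_const, Real.log_one] at a1
    linarith [mul_nonneg hn0.le hεs, mul_nonneg hn0.le he, mul_le_mul_of_nonneg_left h8 hn0.le]
  · rw [y0]; simp only [ds, sub_self, dotProduct_zero]
    exact mul_nonneg (by linarith) hn0.le
  · simp only [hg, y0, tilt_zero, ds, sub_self, dotProduct_zero]
    exact mul_nonneg (by linarith) hn0.le
  · have a1 := (nrm_le_iff (by positivity)).1 (s2 k hk).1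
    rw [mul_pow, Real.sq_sqrt hn0.le] at a1
    exact a1.trans (mul_le_mul_of_nonneg_right h7 hn0.le)
  · have a1 := abs_le.1 (Real.abs_le_sqrt (s2 k hk).2)
    have a2 := incr_le hc0 hηg hΓ (t := k * τ / β ^ 2) (u := τ / β ^ 2) (by positivity)
      (by positivity) (by linarith) b1 ((shq θ0 θ1 (hwj (k + 1))).2.trans (qq_mag_le (hwj _))) ε0
      (qlow k hk.le) (good k hk.le).2
      (by have := (good (k + 1) hk).2
          rwa [show ((k + 1 : ℕ) : ℝ) * τ / β ^ 2 = k * τ / β ^ 2 + τ / β ^ 2 by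
            push_cast; ring] at this)
      (qlow (k + 1) hk) hr (by linarith)
    rw [ds_smul, ds_eq hn]
    rw [qq_smul, qq_smul] at a2
    exact num_inc (sq_nonneg _) t2 k0 hn0.le a1.1 a2 (by linarith)
  · have := (good k hk).1
    linarith [mul_le_mul_of_nonneg_left h8 hn0.le]
  · by_contra hB
    exact hσ.ne' (hC.supp le_rfl (Set.indicator_of_notMem hB _))
  · have a1 := abs_le.1 (Real.abs_le_sqrt s3)
    have a2 := abs_le.1 (good N le_rfl).2
    have a0 := (shq θ0 θ1 (hwj N)).2.trans (qq_mag_le (hwj N))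
    have a3 := hΓe (max (qq ((1 - θ) • g N)) b) ⟨le_max_right _ _, max_le a0 b1⟩
    have a4 : qq (sv σ) = 1 := by rw [qq, sv_dot_self, div_self hn0.ne']
    rw [ds_eq hn, a4, smul_dotProduct, dotProduct_comm, smul_eq_mul, mul_div_assoc, mul_comm r']
    refine mul_lt_mul_of_pos_left ?_ hn0
    have a5 := qq_nn (g N)
    have a6 : 1 - r0 - x ≤ (1 - θ) ^ 2 * qq (g N) := by rw [← qq_smul]; linarith [a2.1]
    rw [qq_smul]
    exact num_end θ0 θ1 a5 k0 a1.1 a6 (by linarith) h10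

end Crest.Agent.T157.An

end
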