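import Crest.Agent.T157.AnB_51
import Crest.Agent.T157.NrmG_84
import Crest.Agent.T157.ConcH_16

/-!
Row 157, part D (helper51): the good events used by the ancestors.
-/

set_option autoImplicit false

noncomputable section

namespace Crest.Agent.T157.An

open MeasureTheory ProbabilityTheory Matrix Set Filter Topology
open Crest.ProbabilityR.SpinGlassDynamics
open Crest.Agent.T157.E Crest.Agent.T157.Eig Crest.Agent.T157.St Crest.Agent.T157.Conc
open Crest.Agent.T157.SL Crest.Agent.T157.Sc Crest.Agent.T157.Up Crest.Agent.T157.Top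
open Crest.Agent.T157.Pf Crest.Agent.T157.Cond Crest.Agent.T157.Exp

variable {n : ℕ}

lemma good_mono {P : Par} {β c C η η' : ℝ} (h : P.Good β c C η) (hC : 0 ≤ C) (hη : η ≤ η') :
    P.Good β c C η' :=
  ⟨h.b_ge, h.b_le, fun s hs => (h.gam s hs).trans hη, fun s hs => (h.gam' s hs).trans hη,
    fun s hs => by linarith [h.top s hs], fun s hs => (h.lam s hs).trans hη, h.lam0.trans hη,
    fun s hs => by linarith [h.zlin s hs], fun l h1 h2 => by linarith [h.min l h1 h2],
    fun Q e h1 h2 h3 h4 => by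
      have he : 0 ≤ e := (abs_nonneg _).trans (h4 0)
      have := mul_le_mul_of_nonneg_left (mul_le_mul_of_nonneg_left hη he) hC
      linarith [h.pert Q e h1 h2 h3 h4]⟩

lemma whp_fst {Q : ∀ n, (Pair n → ℝ) → Prop} (h : Whp disorderLaw Q) :
    Whp Om fun n z => Q n z.1 := by
  refine tendsto_of_tendsto_of_tendsto_of_le_of_le tendsto_const_nhds h (fun _ => zero_le)
    fun n => ?_
  have := Measure.le_map_apply (μ := Om n) measurable_fst.aemeasurable {g | ¬ Q n g}
  rwa [(measurePreserving_fst (μ := disorderLaw n) (ν := E.gv (Fin n))).map_eq] at this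

lemma whp_snd {Q : ∀ n, (Fin n → ℝ) → Prop} (h : Whp (fun n => E.gv (Fin n)) Q) :
    Whp Om fun n z => Q n z.2 := by
  refine tendsto_of_tendsto_of_tendsto_of_le_of_le tendsto_const_nhds h (fun _ => zero_le)
    fun n => ?_
  have := Measure.le_map_apply (μ := Om n) measurable_snd.aemeasurable {g | ¬ Q n g}
  rwa [(measurePreserving_snd (μ := disorderLaw n) (ν := E.gv (Fin n))).map_eq] at this

lemma whp_opn : Whp Om fun n z => opn (Wmat n z.1 z.2) ≤ 3 := by
  have ha : Tendsto (fun n : ℕ => 2 * Real.exp (-((n : ℝ) * 1 ^ 2 / 4))) atTop (𝓝 0) := by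
    have := (Real.tendsto_exp_neg_atTop_nhds_zero.comp
      ((tendsto_natCast_atTop_atTop (R := ℝ)).atTop_div_const four_pos)).const_mul 2
    simpa [Function.comp_def] using this
  refine whp_of_real_le ha (.of_forall fun n => le_trans (measureReal_mono fun z hz => ?_)
    (Nrm.Wmat_opn_tail zero_le_one))
  simp only [mem_ofPred_eq, not_le] at hz ⊢
  linarith

lemma whp_goe {Q : ∀ n, Matrix (Fin n) (Fin n) ℝ → Prop} {a : ℕ → ℝ} (ha : Tendsto a atTop (𝓝 0))
    (h : ∀ᶠ n : ℕ in atTop, goe (Fin n) (1 / √n) {W | opn W ≤ 3 ∧ ¬ Q n W} ≤ ENNReal.ofReal (a n)) :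
    Whp Om fun n z => Q n (Wmat n z.1 z.2) := by
  have h1 : Whp Om fun n z => ¬ (opn (Wmat n z.1 z.2) ≤ 3 ∧ ¬ Q n (Wmat n z.1 z.2)) := by
    refine whp_iff.2 fun ε hε => ?_
    filter_upwards [h, ha.eventually (gt_mem_nhds hε)] with n hn hn'
    have := Measure.le_map_apply (μ := Om n) measurable_Wmat.aemeasurable
      {W | opn W ≤ 3 ∧ ¬ Q n W}
    rw [goe_Wmat] at this
    refine le_trans (measure_mono fun z hz => ?_)
      (this.trans (hn.trans (ENNReal.ofReal_le_ofReal hn'.le)))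
    exact not_not.1 hz
  exact (h1.and whp_opn).imp fun n z hz => not_not.1 fun hq => hz.1 ⟨hz.2, hq⟩

/-- the trace term -/
def trc (β : ℝ) (d : Fin n → ℝ) : ℝ := (fun _ => β / 2 * (√2 / √n)) ⬝ᵥ d

lemma ising_W (β : ℝ) (g : Pair n → ℝ) (d : Fin n → ℝ) :
    ising (β • Wmat n g d) 0 = fun x => gibbsWeight n β g x * Real.exp (trc β d) := by
  funext x
  rw [gibbsWeight_eq_ising, ising, ising, ← Real.exp_add, Wmat, smul_add, add_mulVec,
    dotProduct_add, zero_dotProduct, add_zero, add_zero, mul_add]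
  congr 2
  simp only [trc, dotProduct, smul_mulVec, Pi.smul_apply, mulVec_diagonal, smul_eq_mul,
    Finset.mul_sum]
  refine Finset.sum_congr rfl fun i _ => ?_
  have := spin_mul_self (x i)
  simp only [sv]
  linear_combination (β / 2 * (√2 / √n) * d i) * this

lemma prob_W (β : ℝ) (g : Pair n → ℝ) (d : Fin n → ℝ) :
    prob (ising (β • Wmat n g d) 0) = prob (gibbsWeight n β g) := by
  rw [ising_W, prob_smul _ (Real.exp_pos _).ne']

lemma logZ_W (β : ℝ) (g : Pair n → ℝ) (d : Fin n → ℝ) :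
    Real.log (∑ x, ising (β • Wmat n g d) 0 x) =
      Real.log (∑ x, gibbsWeight n β g x) + trc β d := by
  rw [ising_W, ← Finset.sum_mul, Real.log_mul (Finset.sum_pos (fun x _ => gibbsWeight_pos β g x)
    Finset.univ_nonempty).ne' (Real.exp_pos _).ne', Real.log_exp]

lemma elip_logZ (hn : 0 < n) {β : ℝ} (hβ : 0 ≤ β) :
    ELip (β * √n) fun g : Pair n → ℝ => Real.log (∑ x, gibbsWeight n β g x) := by
  have hn' : (0 : ℝ) < n := by exact_mod_cast hn
  have hL : ∀ x, ELip (√n) fun g : Pair n → ℝ => en1 g x := fun x => by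
    refine (elip_dot _).mono (Real.sqrt_le_sqrt ?_)
    have : ∀ p : Pair n, (spin (x p.1.1) * spin (x p.1.2) / √n) ^ 2 = 1 / n := fun p => by
      rw [div_pow, mul_pow, spin_sq, spin_sq, Real.sq_sqrt hn'.le, one_mul]
    simp only [this, Finset.sum_const, Finset.card_univ, nsmul_eq_mul]
    rw [mul_one_div, div_le_iff₀ hn']
    have := two_card_pair_le (n := n)
    nlinarith
  have hp : ∀ g : Pair n → ℝ, 0 < ∑ x, gibbsWeight n β g x := fun g =>
    Finset.sum_pos (fun x _ => gibbsWeight_pos β g x) Finset.univ_nonempty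
  have key : ∀ g g' : Pair n → ℝ, Real.log (∑ x, gibbsWeight n β g x) -
      Real.log (∑ x, gibbsWeight n β g' x) ≤ β * √n * en (g - g') := fun g g' => by
    rw [sub_le_iff_le_add, ← Real.log_exp (β * √n * en (g - g')),
      ← Real.log_mul (Real.exp_pos _).ne' (hp g').ne', Finset.mul_sum]
    refine Real.log_le_log (hp g) (Finset.sum_le_sum fun x _ => ?_)
    rw [gibbs_eq, gibbs_eq, ← Real.exp_add, Real.exp_le_exp]
    have := mul_le_mul_of_nonneg_left (le_of_abs_le (hL x g g')) hβ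
    linarith
  intro g g'
  rw [abs_le]
  have h1 := key g' g
  rw [en_sub_comm] at h1
  exact ⟨by linarith, key g g'⟩

lemma tendsto_exp_pow {a c : ℝ} (ha : 0 < a) (hc : 0 < c) :
    Tendsto (fun n : ℕ => Real.exp (-((n : ℝ) ^ a / c))) atTop (𝓝 0) :=
  Real.tendsto_exp_neg_atTop_nhds_zero.comp
    (((tendsto_rpow_atTop ha).comp tendsto_natCast_atTop_atTop).atTop_div_const hc)

/-- the free energy is not much below its mean -/
lemma whp_logZ {β : ℝ} (hβ : 0 < β) : Whp Om fun n z =>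
    ∫ g, Real.log (∑ x, gibbsWeight n β g x) ∂disorderLaw n - 2 * (n : ℝ) ^ (10 / 11 : ℝ) ≤
      Real.log (∑ x, ising (β • Wmat n z.1 z.2) 0 x) := by
  have h1 : Whp disorderLaw fun n g => -(n : ℝ) ^ (10 / 11 : ℝ) <
      Real.log (∑ x, gibbsWeight n β g x) -
        ∫ g, Real.log (∑ x, gibbsWeight n β g x) ∂disorderLaw n := by
    refine whp_of_real_le (tendsto_exp_pow (a := 9 / 11) (c := 2 * β ^ 2) (by norm_num)
      (by positivity)) ?_
    filter_upwards [eventually_gt_atTop 0] with n hn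
    have hn' : (0 : ℝ) < n := by exact_mod_cast hn
    have := tail_lip_lower (elip_logZ hn hβ.le) (t := (n : ℝ) ^ (10 / 11 : ℝ)) (by positivity)
    simp only [not_lt]
    refine this.trans (le_of_eq ?_)
    have e : ((n : ℝ) ^ (10 / 11 : ℝ)) ^ 2 = (n : ℝ) ^ (9 / 11 : ℝ) * n := by
      rw [← Real.rpow_natCast, ← Real.rpow_mul hn'.le, ← Real.rpow_add_one hn'.ne']; norm_num
    rw [e, mul_pow, Real.sq_sqrt hn'.le]
    congr 1; field_simp
  have h2 : Whp (fun n => E.gv (Fin n)) fun n d => -(n : ℝ) ^ (10 / 11 : ℝ) < trc β d := by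
    refine whp_of_real_le (tendsto_exp_pow (a := 20 / 11) (c := 2 * β ^ 2) (by norm_num)
      (by positivity)) ?_
    filter_upwards [eventually_gt_atTop 0] with n hn
    have hn' : (0 : ℝ) < n := by exact_mod_cast hn
    have hs := subG_lin (ι := Fin n) sg1_gauss (fun _ => β / 2 * (√2 / √n))
      (c := ⟨β ^ 2, sq_nonneg β⟩) (by
        simp only [Finset.sum_const, Finset.card_univ, Fintype.card_fin, nsmul_eq_mul, mul_pow,
          div_pow, Real.sq_sqrt hn'.le, Real.sq_sqrt zero_le_two]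
        have : (n : ℝ) * (β ^ 2 / 2 ^ 2 * (2 / n)) = β ^ 2 / 2 := by field_simp
        rw [this]; show _ ≤ β ^ 2; linarith [sq_nonneg β])
    have := hs.neg.measure_ge_le (ε := (n : ℝ) ^ (10 / 11 : ℝ)) (by positivity)
    have e : ((n : ℝ) ^ (10 / 11 : ℝ)) ^ 2 = (n : ℝ) ^ (20 / 11 : ℝ) := by
      rw [← Real.rpow_natCast, ← Real.rpow_mul hn'.le]; norm_num
    rw [e, neg_div] at this
    refine le_trans (measureReal_mono fun d hd => ?_) this
    simp only [mem_ofPred_eq, not_lt, Pi.neg_apply, trc] at hd ⊢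
    linarith
  refine ((whp_fst h1).and (whp_snd h2)).imp fun n z hz => ?_
  rw [logZ_W]
  linarith [hz.1, hz.2]

lemma Sla.mono {w : Cube n → ℝ} {N : ℕ} {L : ℕ → (Fin n → ℝ) → ℝ} {Y κ ε Y' κ' ε' : ℝ}
    (h : Sla w N L Y κ ε) (hY : Y ≤ Y') (hκ : κ ≤ κ') (hε : ε ≤ ε') : Sla w N L Y' κ' ε' := by
  obtain ⟨y, σ, h0, h1, h2, h3, h4⟩ := h
  have a1 := mul_le_mul_of_nonneg_right hY (Real.sqrt_nonneg n)
  have a2 := mul_le_mul_of_nonneg_right hε (Real.sqrt_nonneg n)
  have a3 := mul_le_mul_of_nonneg_left hε (Nat.cast_nonneg (α := ℝ) n)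
  refine ⟨y, σ, h0, h1, fun j hj => ?_, fun j hj => ?_, h4.trans hκ⟩
  · obtain ⟨b1, b2, b3, b4⟩ := h2 j hj
    exact ⟨b1.trans a1, b2.trans hκ, by linarith, b4.trans hκ⟩
  · exact ⟨(h3 j hj).1.trans a2, (h3 j hj).2.trans hκ⟩

lemma sc2_mono {β C b : ℝ} {S : Site β C b} {Γ : ℝ → ℝ} {A : Matrix (Fin n) (Fin n) ℝ}
    {c e e' η t : ℝ} (h : SC2 S Γ A c e η t) (he : e ≤ e') : SC2 S Γ A c e' η t := by
  obtain ⟨L, h1, h2, h3⟩ := h
  refine ⟨L, h1, h2, h3.trans (Real.exp_le_exp.2 ?_)⟩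
  exact mul_le_mul_of_nonneg_left (by linarith) (Nat.cast_nonneg _)

end Crest.Agent.T157.An

end
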