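import Crest.Agent.T157.AnAll_51
import Crest.Agent.T157.AnTap_46
import Crest.Agent.T157.Plb_78
import Crest.Agent.T157.Sc_68

/-!
Row 157, part D (helper51): the ancestors, unconditional.
-/

namespace Crest.Agent.T157.An

theorem ancStmt : Up.AncStmt := anc_of tapStmt Plb.plbStmt Sc.scStmt

end Crest.Agent.T157.An
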