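import Crest.Agent.T157.PfMin_62
import Crest.Agent.T157.PfSite_56

/-!
Row 157 (helper62): the Parisi data `Φ`, `Φ_x`, `E F(X_s)`, `Γ` are Lipschitz in `ζ`.
-/

set_option autoImplicit false

namespace Crest.Agent.T157.Pf

open MeasureTheory Set
open Crest.Agent.R164.GC Crest.Agent.R339 Crest.Agent.R339.B Crest.Agent.R339.Var
open Crest.ProbabilityR.InvariantGlass (gaussOp)

noncomputable section

namespace Lip62

/-- change of the reference block -/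
theorem TB_change {Φ Φ' : ℝ → ℝ} {m m' : ℝ} {F LF Fx : ℝ → ℝ → ℝ} (h : TB Φ' m' F LF Fx) :
    TB Φ m F (fun v x => LF v x + (Dk Φ m 1 v x - Dk Φ' m' 1 v x) * Fx v x) Fx := by
  obtain ⟨Fv, Fxx, a1, a2, a3, a4, a5, a6, a7, a8⟩ := h
  refine ⟨Fv, Fxx, a1, a2, a3, a4, a5, a6, a7, fun v x => ?_⟩
  beta_reduce
  rw [a8]
  ring

theorem At_deriv {Φ : ℝ → ℝ} (h : Prof Φ) (m v : ℝ) :
    At Φ m (deriv Φ) v = deriv (gaussOp m v Φ) := (h.gaussOp_deriv m v).symm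

theorem Ak_zero (Φ : ℝ → ℝ) (m : ℝ) (P : ℝ → ℝ) : Ak Φ m P 0 = At Φ m P := by
  funext v x; simp [Ak]

theorem Ak_one (Φ : ℝ → ℝ) (m : ℝ) (P : ℝ → ℝ) (v : ℝ) : Ak Φ m P 1 v = deriv (At Φ m P v) := by
  funext x; simp [Ak]

theorem tb_At' {Φ : ℝ → ℝ} (h : Prof Φ) (m : ℝ) {P : ℝ → ℝ} (hP : BD P) :
    TB Φ m (At Φ m P) (fun _ _ => 0) (fun v => deriv (At Φ m P v)) :=
  (tb_Ak h m hP 0).congr (fun v x => by rw [Ak_zero]) (fun v x => by simp [LA])
    (fun v x => by rw [← Ak_one])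

theorem drift_le {Φ Φ' : ℝ → ℝ} (h : Prof Φ) (h' : Prof Φ') {m m' e N : ℝ} (hm : 0 < m)
    (hm1 : m ≤ 1) (he : |m - m'| ≤ e) {v x : ℝ}
    (hN : |deriv (gaussOp m v Φ) x - deriv (gaussOp m' v Φ') x| ≤ N) :
    |Dk Φ m 1 v x - Dk Φ' m' 1 v x| ≤ N + e := by
  rw [D1_eq h, D1_eq h', At_deriv h, At_deriv h']
  have h1 := (h'.step m' v).b1 x
  have e1 : m * deriv (gaussOp m v Φ) x - m' * deriv (gaussOp m' v Φ') x =
      m * (deriv (gaussOp m v Φ) x - deriv (gaussOp m' v Φ') x) +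
        (m - m') * deriv (gaussOp m' v Φ') x := by ring
  rw [e1]
  refine (abs_add_le _ _).trans (add_le_add ?_ ?_)
  · rw [abs_mul, abs_of_pos hm]
    calc _ ≤ 1 * N := mul_le_mul hm1 hN (abs_nonneg _) zero_le_one
      _ = N := one_mul N
  · rw [abs_mul]
    calc _ ≤ e * 1 := mul_le_mul he h1 (abs_nonneg _) ((abs_nonneg _).trans he)
      _ = e := mul_one e

/-- gradient bound of a tilted average -/
theorem block_grad {Φ : ℝ → ℝ} (h : Prof Φ) {m d L : ℝ} (hm : 0 < m) (hm1 : m ≤ 1) (hd : 0 ≤ d)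
    (h2 : ∀ v x, |deriv (deriv (gaussOp m v Φ)) x| ≤ 1) {P : ℝ → ℝ} (hP : BD P)
    (hL : ∀ x, |deriv P x| ≤ L) (x : ℝ) : |deriv (tE m d Φ P) x| ≤ L * Real.exp (2 * d) := by
  obtain ⟨B, hB⟩ := Ak_bdd h m hP 1
  have := gronwall h hm.ne' (ι := Unit) (F := fun _ => Ak Φ m P 1) (fun _ => tb_Ak h m hP 1)
    (c := 1) (f := 0) (M := L) zero_le_one le_rfl ((abs_nonneg _).trans (hL 0)) hd
    (fun _ => hB) (fun v _ N hN hF _ y => ?_) (fun _ y => ?_) () x
  · rw [Ak_one, zero_mul, add_zero, mul_one] at this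
    exact this
  · have a1 := hF () y
    have a2 := h2 v y
    rw [← At_deriv h, ← Ak_one] at a2
    simp only [LA, Finset.range_one, Finset.sum_singleton, zero_add, Nat.choose_self, Nat.cast_one,
      one_mul, Nat.sub_zero, add_zero, abs_mul, abs_neg, abs_of_pos hm]
    calc _ ≤ 1 * (1 * N) :=
          mul_le_mul hm1 (mul_le_mul a2 a1 (abs_nonneg _) zero_le_one) (by positivity) zero_le_one
      _ = N := by ring
  · rw [Ak_one]
    have : At Φ m P 0 = P := tE_v0 m Φ P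
    rw [this]
    exact hL y

/-- comparison of two tilted averages, Gronwall form -/
theorem block_cmp {Φ Φ' : ℝ → ℝ} (h : Prof Φ) (h' : Prof Φ') {m m' d c f M : ℝ} (hm : 0 < m)
    (hc : 0 ≤ c) (hf : 0 ≤ f) (hd : 0 ≤ d) {P P' : ℝ → ℝ} (hP : BD P) (hP' : BD P')
    (hM : ∀ x, |P x - P' x| ≤ M)
    (hL : ∀ v ∈ Icc 0 d, ∀ N, 0 ≤ N → (∀ y, |At Φ m P v y - At Φ' m' P' v y| ≤ N) → ∀ x,
      |Dk Φ m 1 v x - Dk Φ' m' 1 v x| * |deriv (At Φ' m' P' v) x| ≤ c * N + f) (x : ℝ) :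
    |tE m d Φ P x - tE m' d Φ' P' x| ≤ (M + f * d) * Real.exp (2 * c * d) := by
  obtain ⟨B, hB⟩ := At_bdd h m hP
  obtain ⟨B', hB'⟩ := At_bdd h' m' hP'
  refine gronwall h hm.ne' (ι := Unit) (F := fun _ v x => At Φ m P v x - At Φ' m' P' v x)
    (fun _ => (tb_At' h m hP).sub (TB_change (tb_At' h' m' hP'))) (B := B + B')
    hc hf ((abs_nonneg _).trans (hM 0)) hd
    (fun _ v y => (abs_sub _ _).trans (add_le_add (hB v y) (hB' v y)))
    (fun v hv N hN hF _ y => ?_) (fun _ y => ?_) () x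
  · rw [zero_add, zero_sub, abs_neg, abs_mul]
    exact hL v hv N hN (hF ()) y
  · have e1 : At Φ m P 0 = P := tE_v0 m Φ P
    have e2 : At Φ' m' P' 0 = P' := tE_v0 m' Φ' P'
    simp only [e1, e2]
    exact hM y

theorem block_d1 {Φ Φ' : ℝ → ℝ} (h : Prof Φ) (h' : Prof Φ') {m m' d e M : ℝ} (hm : 0 < m)
    (hm1 : m ≤ 1) (he : |m - m'| ≤ e) (hd : 0 ≤ d)
    (h2 : ∀ v x, |deriv (deriv (gaussOp m' v Φ')) x| ≤ 1)
    (hM : ∀ x, |deriv Φ x - deriv Φ' x| ≤ M) (x : ℝ) :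
    |deriv (gaussOp m d Φ) x - deriv (gaussOp m' d Φ') x| ≤ (M + e * d) * Real.exp (2 * d) := by
  have := block_cmp h h' (m' := m') (c := 1) (f := e) hm zero_le_one ((abs_nonneg _).trans he) hd
    h.bd h'.bd hM (fun v _ N hN hF y => ?_) x
  · rw [h.gaussOp_deriv, h'.gaussOp_deriv]
    simpa using this
  · rw [At_deriv h, At_deriv h'] at hF
    rw [At_deriv h']
    calc _ ≤ (N + e) * 1 := mul_le_mul (drift_le h h' hm hm1 he (hF y)) (h2 v y) (abs_nonneg _)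
          (add_nonneg hN ((abs_nonneg _).trans he))
      _ = _ := by ring

theorem block_E {Φ Φ' : ℝ → ℝ} (h : Prof Φ) (h' : Prof Φ') {m m' d e M N L : ℝ} (hm : 0 < m)
    (hm1 : m ≤ 1) (hm' : 0 < m') (hm1' : m' ≤ 1) (he : |m - m'| ≤ e) (hd : 0 ≤ d)
    (h2 : ∀ v x, |deriv (deriv (gaussOp m' v Φ')) x| ≤ 1)
    (hN : ∀ v ∈ Icc 0 d, ∀ x, |deriv (gaussOp m v Φ) x - deriv (gaussOp m' v Φ') x| ≤ N)
    {P P' : ℝ → ℝ} (hP : BD P) (hP' : BD P') (hM : ∀ x, |P x - P' x| ≤ M)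
    (hL : ∀ x, |deriv P' x| ≤ L) (x : ℝ) :
    |tE m d Φ P x - tE m' d Φ' P' x| ≤ M + (N + e) * (L * Real.exp (2 * d)) * d := by
  have hN0 : 0 ≤ N + e :=
    add_nonneg ((abs_nonneg _).trans (hN 0 ⟨le_rfl, hd⟩ 0)) ((abs_nonneg _).trans he)
  have hL0 : 0 ≤ L := (abs_nonneg _).trans (hL 0)
  have := block_cmp h h' (m' := m') (c := 0) (f := (N + e) * (L * Real.exp (2 * d))) hm le_rfl
    (by positivity) hd hP hP' hM (fun v hv N' _ _ y => ?_) x
  · simpa using this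
  · rw [zero_mul, zero_add]
    refine mul_le_mul (drift_le h h' hm hm1 he (hN v hv y)) ?_ (abs_nonneg _) hN0
    refine (block_grad h' hm' hm1' hv.1 h2 hP' hL y).trans ?_
    exact mul_le_mul_of_nonneg_left (Real.exp_le_exp.2 (by linarith [hv.2])) hL0

/-- lists with the same lengths and close exponents -/
def Near (e : ℝ) (l l' : List (ℝ × ℝ)) : Prop :=
  List.Forall₂ (fun p p' : ℝ × ℝ => |p.1 - p'.1| ≤ e ∧ p.2 = p'.2) l l'

theorem head_le_one {p : ℝ × ℝ} {l : List (ℝ × ℝ)} (h : Adm 1 (p :: l)) : p.1 ≤ 1 := h.head_le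

theorem d2_le {p : ℝ × ℝ} {l : List (ℝ × ℝ)} (h : Adm 1 (p :: l)) (v x : ℝ) :
    |deriv (deriv (gaussOp p.1 v (PhiL 1 l))) x| ≤ 1 := by
  have hI := ((PhiL_inv one_pos h.2.2.2).mono h.2.1).step h.1 (head_le_one h) v
  exact (V4.d2_BC one_pos hI).bd x

theorem PhiL_near {e : ℝ} {l l' : List (ℝ × ℝ)} (hn : Near e l l') : Adm 1 l → Adm 1 l' →
    ∀ x, |PhiL 1 l x - PhiL 1 l' x| ≤ e * TT l / 2 := by
  induction hn with
  | nil => intro _ _ x; simp [TT]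
  | @cons p p' l l' hp _ ih =>
    intro h h' x
    have ih := ih h.2.2.2 h'.2.2.2
    have hP := PhiL_prof one_pos l
    have hP' := PhiL_prof one_pos l'
    have a1 := Min62.gaussOp_le_add hP.lip hP'.lip h.1 p.2 (c := e * TT l / 2)
      (fun y => by linarith [(abs_le.1 (ih y)).2]) x
    have a2 := Min62.gaussOp_le_add hP'.lip hP.lip h.1 p.2 (c := e * TT l / 2)
      (fun y => by linarith [(abs_le.1 (ih y)).1]) x
    have a3 : |gaussOp p.1 p.2 (PhiL 1 l') x - gaussOp p'.1 p.2 (PhiL 1 l') x| ≤ e * p.2 / 2 := by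
      have hd := h.2.2.1
      have he := abs_le.1 hp.1
      have he0 : 0 ≤ e * p.2 := mul_nonneg ((abs_nonneg _).trans hp.1) hd
      rcases le_total p.1 p'.1 with hl | hl
      · obtain ⟨b1, b2⟩ := Min62.level hP' h.1 hl hd x
        have : (p'.1 - p.1) * p.2 ≤ e * p.2 := mul_le_mul_of_nonneg_right (by linarith) hd
        rw [abs_le]; constructor <;> linarith
      · obtain ⟨b1, b2⟩ := Min62.level hP' h'.1 hl hd x
        have : (p.1 - p'.1) * p.2 ≤ e * p.2 := mul_le_mul_of_nonneg_right (by linarith) hd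
        rw [abs_le]; constructor <;> linarith
    show |gaussOp p.1 p.2 (PhiL 1 l) x - gaussOp p'.1 p'.2 (PhiL 1 l') x| ≤ _
    rw [← hp.2, TT_cons]
    rw [abs_le] at a3 ⊢
    constructor <;> linarith [a3.1, a3.2]

/-- the error function -/
def bb (e T : ℝ) : ℝ := e * T * Real.exp (2 * T)

theorem bb_mono {e T T' : ℝ} (he : 0 ≤ e) (h0 : 0 ≤ T) (h : T ≤ T') : bb e T ≤ bb e T' := by
  unfold bb
  exact mul_le_mul (mul_le_mul_of_nonneg_left h he) (Real.exp_le_exp.2 (by linarith))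
    (Real.exp_pos _).le (mul_nonneg he (h0.trans h))

theorem bb_nonneg {e T : ℝ} (he : 0 ≤ e) (h0 : 0 ≤ T) : 0 ≤ bb e T := by
  unfold bb; positivity

theorem bb_step {e T d : ℝ} (he : 0 ≤ e) (h0 : 0 ≤ T) (hd : 0 ≤ d) :
    (bb e T + e * d) * Real.exp (2 * d) ≤ bb e (d + T) := by
  unfold bb
  have h1 : 1 ≤ Real.exp (2 * T) := Real.one_le_exp (by linarith)
  have h2 : Real.exp (2 * (d + T)) = Real.exp (2 * T) * Real.exp (2 * d) := by
    rw [← Real.exp_add]; ring_nf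
  rw [h2, ← mul_assoc]
  refine mul_le_mul_of_nonneg_right ?_ (Real.exp_pos _).le
  nlinarith [mul_nonneg he hd]

theorem d1_near {e : ℝ} (he : 0 ≤ e) {l l' : List (ℝ × ℝ)} (hn : Near e l l') :
    Adm 1 l → Adm 1 l' → ∀ x, |deriv (PhiL 1 l) x - deriv (PhiL 1 l') x| ≤ bb e (TT l) := by
  induction hn with
  | nil => intro _ _ x; simp [TT, bb]
  | @cons p p' l l' hp _ ih =>
    intro h h' x
    show |deriv (gaussOp p.1 p.2 (PhiL 1 l)) x - deriv (gaussOp p'.1 p'.2 (PhiL 1 l')) x| ≤ _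
    rw [← hp.2, TT_cons]
    exact (block_d1 (PhiL_prof one_pos l) (PhiL_prof one_pos l') h.1 (head_le_one h) hp.1 h.2.2.1
      (d2_le h') (ih h.2.2.2 h'.2.2.2) x).trans (bb_step he (Min62.TT_nn h.2.2.2) h.2.2.1)

theorem PhiT_eq_rest (β : ℝ) : ∀ (l : List (ℝ × ℝ)) (t : ℝ), PhiT β l t = PhiL β (rest l t)
  | [], _ => rfl
  | p :: l, t => by
    unfold PhiT rest
    split_ifs
    · rfl
    · exact PhiT_eq_rest β l _

theorem adm_rest {β : ℝ} : ∀ {l : List (ℝ × ℝ)}, Adm β l → ∀ t : ℝ, 0 ≤ t →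
    Adm β (rest l t) ∧ TT (rest l t) ≤ TT l
  | [], _, _, _ => ⟨trivial, le_rfl⟩
  | p :: l, h, t, h0 => by
    unfold rest
    split_ifs with h1
    · refine ⟨⟨h.1, h.2.1, by simpa using h1, h.2.2.2⟩, ?_⟩
      simp only [TT_cons]; linarith
    · obtain ⟨a, b⟩ := adm_rest h.2.2.2 (t - p.2) (by linarith)
      refine ⟨a, ?_⟩
      rw [TT_cons]; linarith [h.2.2.1]

theorem Near.rest {e : ℝ} {l l' : List (ℝ × ℝ)} (hn : Near e l l') :
    ∀ t, Near e (rest l t) (rest l' t) := by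
  induction hn with
  | nil => intro t; exact List.Forall₂.nil
  | @cons p p' l l' hp hl ih =>
    intro t
    unfold Pf.rest
    rw [← hp.2]
    split_ifs
    · exact List.Forall₂.cons ⟨hp.1, rfl⟩ hl
    · exact ih _

theorem PhiT_near {e : ℝ} (he : 0 ≤ e) {l l' : List (ℝ × ℝ)} (hn : Near e l l') (h : Adm 1 l)
    (h' : Adm 1 l') {t : ℝ} (ht : 0 ≤ t) (x : ℝ) :
    |PhiT 1 l t x - PhiT 1 l' t x| ≤ e * TT l / 2 ∧
      |deriv (PhiT 1 l t) x - deriv (PhiT 1 l' t) x| ≤ bb e (TT l) := by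
  rw [PhiT_eq_rest, PhiT_eq_rest]
  obtain ⟨a, b⟩ := adm_rest h t ht
  obtain ⟨a', _⟩ := adm_rest h' t ht
  refine ⟨(PhiL_near (hn.rest t) a a' x).trans ?_,
    (d1_near he (hn.rest t) a a' x).trans (bb_mono he (Min62.TT_nn a) b)⟩
  have := mul_le_mul_of_nonneg_left b he
  linarith

theorem EX_bd {β : ℝ} (hβ : 0 < β) : ∀ (l : List (ℝ × ℝ)) (t : ℝ) {F : ℝ → ℝ}, BD F →
    BD (EX β l t F)
  | [], _, _, h => h
  | p :: l, t, F, h => by
    unfold EX
    split_ifs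
    · exact ((PhiL_prof hβ l).step _ _).tE_bd _ _ h
    · exact (PhiL_prof hβ l).tE_bd _ _ (EX_bd hβ l _ h)

theorem adm_split {β : ℝ} {p : ℝ × ℝ} {l : List (ℝ × ℝ)} (h : Adm β (p :: l)) {t v : ℝ}
    (ht : t ≤ p.2) (hv : 0 ≤ v) : Adm β ((p.1, v) :: (p.1, p.2 - t) :: l) :=
  ⟨h.1, le_rfl, hv, h.1, h.2.1, by simpa using ht, h.2.2.2⟩

/-- gradient bound for the backward test functions -/
theorem EX_grad {L : ℝ} {F : ℝ → ℝ} (hF : BD F) (hL : ∀ x, |deriv F x| ≤ L) :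
    ∀ {l : List (ℝ × ℝ)}, Adm 1 l → ∀ t, 0 ≤ t → ∀ x,
      |deriv (EX 1 l t F) x| ≤ L * Real.exp (2 * t)
  | [], _, t, ht, x => (hL x).trans (le_mul_of_one_le_right ((abs_nonneg _).trans (hL 0))
      (Real.one_le_exp (by linarith)))
  | p :: l, h, t, ht, x => by
    have hP := PhiL_prof one_pos l
    unfold EX
    split_ifs with h1
    · exact block_grad (hP.step _ _) h.1 (head_le_one h) ht (d2_le (adm_split h h1 le_rfl)) hF hL x
    · have := block_grad hP h.1 (head_le_one h) h.2.2.1 (d2_le h) (EX_bd one_pos l (t - p.2) hF)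
        (EX_grad hF hL h.2.2.2 (t - p.2) (by linarith)) x
      rwa [mul_assoc, ← Real.exp_add, show 2 * (t - p.2) + 2 * p.2 = 2 * t by ring] at this

/-- comparison of the backward test functions of two lists -/
theorem EX_near {e M L : ℝ} (he : 0 ≤ e) {F F' : ℝ → ℝ} (hF : BD F) (hF' : BD F')
    (hM : ∀ x, |F x - F' x| ≤ M) (hL : ∀ x, |deriv F' x| ≤ L) {l l' : List (ℝ × ℝ)}
    (hn : Near e l l') : Adm 1 l → Adm 1 l' → ∀ t, 0 ≤ t → ∀ x,
      |EX 1 l t F x - EX 1 l' t F' x| ≤ M + (bb e (TT l) + e) * (L * Real.exp (2 * t)) * t := by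
  have hL0 : 0 ≤ L := (abs_nonneg _).trans (hL 0)
  induction hn with
  | nil =>
    intro h _ t ht x
    have := bb_nonneg he (Min62.TT_nn h)
    exact (hM x).trans (le_add_of_nonneg_right (by positivity))
  | @cons p p' l l' hp hl ih =>
    intro h h' t ht x
    have hP := PhiL_prof one_pos l
    have hP' := PhiL_prof one_pos l'
    have hT := Min62.TT_nn h.2.2.2
    unfold EX
    rw [← hp.2]
    split_ifs with h1
    · have h1' : t ≤ p'.2 := hp.2 ▸ h1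
      have h2 := d2_le (adm_split h' h1' le_rfl)
      rw [← hp.2] at h2
      refine block_E (hP.step _ _) (hP'.step _ _) h.1 (head_le_one h) h'.1 (head_le_one h') hp.1 ht
        h2 (fun v hv y => ?_) hF hF' hM hL x
      have hn2 : Near e ((p.1, v) :: (p.1, p.2 - t) :: l) ((p'.1, v) :: (p'.1, p'.2 - t) :: l') :=
        List.Forall₂.cons ⟨hp.1, rfl⟩ (List.Forall₂.cons ⟨hp.1, by simp [hp.2]⟩ hl)
      have h3 := d1_near he hn2 (adm_split h h1 hv.1) (adm_split h' h1' hv.1) y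
      rw [← hp.2] at h3
      refine h3.trans (bb_mono he (Min62.TT_nn (adm_split h h1 hv.1)) ?_)
      simp only [TT_cons]
      linarith [hv.2]
    · have ht' : 0 ≤ t - p.2 := by linarith
      have hd := h.2.2.1
      have h3 := block_E hP hP' h.1 (head_le_one h) h'.1 (head_le_one h') hp.1 hd (d2_le h')
        (N := bb e (TT (p :: l))) (fun v hv y => ?_) (EX_bd one_pos l (t - p.2) hF)
        (EX_bd one_pos l' (t - p.2) hF') (ih h.2.2.2 h'.2.2.2 _ ht')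
        (EX_grad hF' hL h'.2.2.2 _ ht') x
      · refine h3.trans ?_
        have e1 : L * Real.exp (2 * (t - p.2)) * Real.exp (2 * p.2) = L * Real.exp (2 * t) := by
          rw [mul_assoc, ← Real.exp_add]; ring_nf
        rw [e1]
        have a1 : bb e (TT l) + e ≤ bb e (TT (p :: l)) + e := by
          have := bb_mono he hT (T' := TT (p :: l)) (by rw [TT_cons]; linarith)
          linarith
        have a2 : L * Real.exp (2 * (t - p.2)) ≤ L * Real.exp (2 * t) :=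
          mul_le_mul_of_nonneg_left (Real.exp_le_exp.2 (by linarith)) hL0
        have a0 := bb_nonneg he hT
        have a3 := mul_le_mul_of_nonneg_right
          (mul_le_mul a1 a2 (by positivity) (by linarith)) ht'
        nlinarith
      · have hA : Adm 1 ((p.1, v) :: l) := ⟨h.1, h.2.1, hv.1, h.2.2.2⟩
        have hA' : Adm 1 ((p'.1, v) :: l') := ⟨h'.1, h'.2.1, hv.1, h'.2.2.2⟩
        have hn2 : Near e ((p.1, v) :: l) ((p'.1, v) :: l') := List.Forall₂.cons ⟨hp.1, rfl⟩ hl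
        refine (d1_near he hn2 hA hA' y).trans (bb_mono he (Min62.TT_nn hA) ?_)
        simp only [TT_cons]
        linarith [hv.2]

theorem near_ofFn {e d : ℝ} : ∀ (N : ℕ) (z z' : ℕ → ℝ), (∀ k, |z k - z' k| ≤ e) →
    Near e (List.ofFn fun k : Fin N => (z k, d)) (List.ofFn fun k : Fin N => (z' k, d))
  | 0, _, _, _ => by simp [Near]
  | N + 1, z, z', h => by
    rw [List.ofFn_succ, List.ofFn_succ]
    exact List.Forall₂.cons ⟨h 0, rfl⟩
      (near_ofFn N (fun k => z (k + 1)) (fun k => z' (k + 1)) fun k => h _)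

end Lip62

namespace Par

open Lip62

variable {P Q : Par} {β e : ℝ}

theorem near_lst (hK : Q.K = P.K) (hz : ∀ k, |P.z k - Q.z k| ≤ e) (β : ℝ) (N : ℕ) :
    Near e (P.lst β N) (Q.lst β N) := by
  unfold lst
  rw [hK]
  exact near_ofFn N _ _ hz

/-- `Φ` is Lipschitz in `ζ` -/
theorem OK.Ph_zlip (h : P.OK) (h' : Q.OK) (hK : Q.K = P.K) (hz : ∀ k, |P.z k - Q.z k| ≤ e)
    (β : ℝ) {s : ℝ} (hs : 0 ≤ s) (x : ℝ) : |P.Ph β s x - Q.Ph β s x| ≤ β ^ 2 * e / 2 := by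
  have := (PhiT_near ((abs_nonneg _).trans (hz 0)) (near_lst hK hz β P.K) (h.adm β _)
    (h'.adm β _) (t := β ^ 2 * s) (by positivity) x).1
  rw [h.TT_K, mul_comm e] at this
  unfold Ph
  rw [hK]
  exact this

/-- the constant for `Φ_x` -/
def CX (β : ℝ) : ℝ := β ^ 2 * Real.exp (2 * β ^ 2)

/-- `Φ_x` is Lipschitz in `ζ` -/
theorem OK.Px_zlip (h : P.OK) (h' : Q.OK) (hK : Q.K = P.K) (hz : ∀ k, |P.z k - Q.z k| ≤ e)
    (β : ℝ) {s : ℝ} (hs : 0 ≤ s) (x : ℝ) : |P.Px β s x - Q.Px β s x| ≤ CX β * e := by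
  have := (PhiT_near ((abs_nonneg _).trans (hz 0)) (near_lst hK hz β P.K) (h.adm β _)
    (h'.adm β _) (t := β ^ 2 * s) (by positivity) x).2
  rw [h.TT_K] at this
  have e1 : Q.Ph β s = PhiT 1 (Q.lst β P.K) (β ^ 2 * s) := by rw [Ph_eq, hK]
  unfold Px
  rw [e1, Ph_eq]
  refine this.trans (le_of_eq ?_)
  unfold bb CX
  ring

/-- the constant for the expectations -/
def CE (β : ℝ) : ℝ := (2 * β ^ 2 * Real.exp (4 * β ^ 2) + 1) * Real.exp (2 * β ^ 2) * β ^ 2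

theorem CX_nonneg (β : ℝ) : 0 ≤ CX β := by unfold CX; positivity

theorem CE_nonneg (β : ℝ) : 0 ≤ CE β := by unfold CE; positivity

/-- the law of `X_s` is Lipschitz in `ζ` (against Lipschitz test functions) -/
theorem OK.E_zlip (h : P.OK) (h' : Q.OK) (hK : Q.K = P.K) (hz : ∀ k, |P.z k - Q.z k| ≤ e)
    (β : ℝ) {s : ℝ} (hs : s ∈ Icc (0 : ℝ) 1) {F F' : ℝ → ℝ} (hF : BD F) (hF' : BD F') {M L : ℝ}
    (hM : ∀ x, |F x - F' x| ≤ M) (hL : ∀ x, |deriv F' x| ≤ L) :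
    |P.E β s F - Q.E β s F'| ≤ M + CE β * L * e := by
  have he : 0 ≤ e := (abs_nonneg _).trans (hz 0)
  have hL0 : 0 ≤ L := (abs_nonneg _).trans (hL 0)
  have hs0 := hs.1
  have := EX_near he hF hF' hM hL (near_lst hK hz β (P.K + ⌈s * P.K⌉₊)) (h.adm β _)
    (h'.adm β _) (β ^ 2 * s) (by positivity) 0
  unfold E
  rw [hK]
  refine this.trans (add_le_add le_rfl ?_)
  have hT : TT (P.lst β (P.K + ⌈s * P.K⌉₊)) ≤ 2 * β ^ 2 := by
    rw [TT_lst]
    have h1 : ⌈s * P.K⌉₊ ≤ P.K := Nat.ceil_le.2 (mul_le_of_le_one_left h.Kp.le hs.2)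
    have h2 : ((P.K + ⌈s * P.K⌉₊ : ℕ) : ℝ) ≤ 2 * P.K := by
      have : P.K + ⌈s * P.K⌉₊ ≤ 2 * P.K := by omega
      exact_mod_cast this
    have h3 := h.Kp
    calc _ ≤ (2 * P.K) * (β ^ 2 / P.K) := mul_le_mul_of_nonneg_right h2 (by positivity)
      _ = _ := by field_simp
  have a1 := bb_mono he (Min62.TT_nn (h.adm β _)) hT
  have a0 := bb_nonneg he (Min62.TT_nn (h.adm β (P.K + ⌈s * P.K⌉₊)))
  have a2 : β ^ 2 * s ≤ β ^ 2 := mul_le_of_le_one_right (sq_nonneg β) hs.2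
  have a3 : L * Real.exp (2 * (β ^ 2 * s)) ≤ L * Real.exp (2 * β ^ 2) :=
    mul_le_mul_of_nonneg_left (Real.exp_le_exp.2 (by linarith)) hL0
  calc _ ≤ (bb e (2 * β ^ 2) + e) * (L * Real.exp (2 * β ^ 2)) * β ^ 2 :=
        mul_le_mul (mul_le_mul (by linarith) a3 (by positivity) (by linarith)) a2
          (by positivity) (mul_nonneg (by linarith) (by positivity))
    _ = _ := by
        unfold bb CE
        rw [show 2 * (2 * β ^ 2) = 4 * β ^ 2 by ring]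
        ring

/-- the constant for `Γ` -/
def CG (β : ℝ) : ℝ := 2 * CX β + 2 * CE β

theorem CG_nonneg (β : ℝ) : 0 ≤ CG β := by
  unfold CG
  linarith [CX_nonneg β, CE_nonneg β]

/-- `Γ` is Lipschitz in `ζ` -/
theorem OK.Gam_zlip (h : P.OK) (h' : Q.OK) (hK : Q.K = P.K) (hz : ∀ k, |P.z k - Q.z k| ≤ e)
    (β : ℝ) {s : ℝ} (hs : s ∈ Icc (0 : ℝ) 1) : |P.Gam β s - Q.Gam β s| ≤ CG β * e := by
  have := h.E_zlip h' hK hz β hs ((P.Px_bd β s).pow 2) ((Q.Px_bd β s).pow 2)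
    (M := 2 * (CX β * e)) (L := 2) (fun x => ?_) (fun x => ?_)
  · unfold Gam CG
    refine this.trans (le_of_eq ?_)
    ring
  · have a1 := h.Px_zlip h' hK hz β hs.1 x
    have a2 := (h.Px_lt β s x).le
    have a3 := (h'.Px_lt β s x).le
    rw [sq_sub_sq, abs_mul]
    refine mul_le_mul ((abs_add_le _ _).trans (by linarith)) a1 (abs_nonneg _) (by norm_num)
  · rw [((Q.d2 β s x).fun_pow 2).deriv]
    have a3 := (h'.Px_lt β s x).le
    have a4 := h'.Pxx_le_one β s x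
    have a5 := h'.Pxx_pos β s x
    simp only [Nat.cast_ofNat, Nat.add_one_sub_one, pow_one, abs_mul, abs_of_pos a5, Nat.abs_ofNat]
    nlinarith [abs_nonneg (Q.Px β s x)]

end Par

end

end Crest.Agent.T157.Pf
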