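import Crest.Agent.T157.VgB_54
import Crest.Agent.T157.SLC_23
import Crest.Agent.T157.PfLip_62
import Crest.Agent.T157.Sc2_68

/-!
Row 157, part D (helper46): the one-site bound of the many-replica Guerra estimate behind `TapStmt`.
-/

set_option autoImplicit false

noncomputable section

namespace Crest.Agent.T157.An.Tap46

open MeasureTheory ProbabilityTheory Matrix Real
open Crest.ProbabilityR.SpinGlassDynamics
open Crest.ProbabilityR.InvariantGlass (gaussOp)
open Crest.Agent.R164.GC Crest.Agent.R339.B Crest.Agent.R339.Var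
open Crest.Agent.T157.E Crest.Agent.T157.Casc Crest.Agent.T157.SL Crest.Agent.T157.Vg

/-! ### lists -/

/-- `∑ m d` -/
def II (l : List (ℝ × ℝ)) : ℝ := (l.map fun p => p.1 * p.2).sum

theorem II_cons (p : ℝ × ℝ) (l : List (ℝ × ℝ)) : II (p :: l) = p.1 * p.2 + II l := by simp [II]

theorem II_nonneg : ∀ {l : List (ℝ × ℝ)}, Adm 1 l → 0 ≤ II l
  | [], _ => le_rfl
  | p :: l, h => by
    rw [II_cons]; exact add_nonneg (mul_nonneg h.1.le h.2.2.1) (II_nonneg h.2.2.2)

theorem pen_eq : ∀ (l : List (ℝ × ℝ)) (t : ℝ),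
    R339.Guerra.pen t l = R339.Guerra.pen 0 l + 2 * t * II l
  | [], t => by simp [R339.Guerra.pen, II]
  | p :: l, t => by
    simp only [R339.Guerra.pen]
    rw [pen_eq l (t + p.2), pen_eq l (0 + p.2), II_cons]
    ring

theorem pen_split : ∀ (l : List (ℝ × ℝ)) (q t : ℝ), 0 ≤ t → t ≤ TT l →
    R339.Guerra.pen q l = R339.Guerra.pen q (Sc.cut l t) + R339.Guerra.pen (q + t) (Pf.rest l t)
  | [], _, _, _, _ => by simp [R339.Guerra.pen, Sc.cut, Pf.rest]
  | p :: l, q, t, h0, h1 => by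
    rw [Sc.TT_cons] at h1
    unfold Sc.cut Pf.rest
    split_ifs with h
    · simp only [R339.Guerra.pen]
      rw [show q + t + (p.2 - t) = q + p.2 by ring]
      ring
    · simp only [R339.Guerra.pen]
      rw [pen_split l (q + p.2) (t - p.2) (by linarith) (by linarith),
        show q + p.2 + (t - p.2) = q + t by ring]
      ring

theorem cut_all : ∀ {l : List (ℝ × ℝ)}, (∀ p ∈ l, 0 ≤ p.2) → ∀ q : ℝ,
    R339.Guerra.pen q (Pf.rest l (TT l)) = 0
  | [], _, _ => rfl
  | p :: l, h, q => by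
    have hl : ∀ r ∈ l, 0 ≤ r.2 := fun r hr => h r (List.mem_cons_of_mem _ hr)
    have h0 := TT_nonneg hl
    rw [Sc.TT_cons]
    unfold Pf.rest
    split_ifs with h1
    · have e : TT l = 0 := by linarith
      have : ∀ {l : List (ℝ × ℝ)}, (∀ p ∈ l, 0 ≤ p.2) → TT l = 0 → ∀ q,
          R339.Guerra.pen q l = 0 := by
        intro l
        induction l with
        | nil => intro _ _ _; rfl
        | cons r l ih =>
          intro h e q
          have hl : ∀ s ∈ l, 0 ≤ s.2 := fun s hs => h s (List.mem_cons_of_mem _ hs)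
          have h0 := TT_nonneg hl
          have h1 := h r List.mem_cons_self
          rw [Sc.TT_cons] at e
          have e2 : r.2 = 0 := by linarith
          simp only [R339.Guerra.pen, e2, add_zero, sub_self, mul_zero, zero_add]
          exact ih hl (by linarith) q
      simp only [R339.Guerra.pen, e, add_zero, sub_self, mul_zero, zero_add]
      exact this hl e q
    · rw [add_sub_cancel_left]; exact cut_all hl q

/-- the penalty of the blocks after the level `s` -/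
theorem pen_rest {P : Pf.Par} (h : P.OK) {β : ℝ} (hβ : 0 < β) {s : ℝ} (hs : s ∈ Set.Icc (0 : ℝ) 1) :
    R339.Guerra.pen (β ^ 2 * s) (Pf.rest (P.lst β P.K) (β ^ 2 * s)) = 4 * β ^ 2 * P.pen β s := by
  have hb : 0 < β ^ 2 := by positivity
  have hT := Sc.TT_lst h β
  have h1 := pen_split (P.lst β P.K) 0 (β ^ 2 * s) (mul_nonneg hb.le hs.1)
    (by rw [hT]; nlinarith [hs.2])
  have h2 := pen_split (P.lst β P.K) 0 (β ^ 2 * 1) (by positivity) (by rw [hT, mul_one])
  have h3 := cut_all (Sc.adm_nonneg (Sc.adm_lst h β P.K)) (0 + β ^ 2 * 1)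
  rw [hT, ← mul_one (β ^ 2)] at h3
  rw [mul_one, mul_one] at h3
  rw [Sc.pen_cut h hβ hs, zero_add] at h1
  rw [Sc.pen_cut h hβ ⟨zero_le_one, le_rfl⟩, mul_one, h3] at h2
  have h4 : P.pen β 1 = 0 := by simp [Pf.Par.pen]
  rw [h4] at h2
  linarith

/-- exponents raised to at least `θ` -/
def up (θ : ℝ) (l : List (ℝ × ℝ)) : List (ℝ × ℝ) := l.map fun p => (max p.1 θ, p.2)

theorem up_cons (θ : ℝ) (p : ℝ × ℝ) (l : List (ℝ × ℝ)) :
    up θ (p :: l) = (max p.1 θ, p.2) :: up θ l := rfl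

theorem adm_up {θ : ℝ} (h1 : θ ≤ 1) : ∀ {l : List (ℝ × ℝ)}, Adm 1 l →
    Adm 1 (up θ l) ∧ max (headLv 1 l) θ = headLv 1 (up θ l)
  | [], _ => ⟨trivial, max_eq_left h1⟩
  | p :: l, h => by
    obtain ⟨a, b⟩ := adm_up h1 h.2.2.2
    refine ⟨⟨lt_max_of_lt_left h.1, ?_, h.2.2.1, a⟩, rfl⟩
    exact (max_le_max h.2.1 le_rfl).trans b.le

theorem near_up {θ : ℝ} (h0 : 0 ≤ θ) : ∀ {l : List (ℝ × ℝ)}, Adm 1 l → Pf.Lip62.Near θ l (up θ l)
  | [], _ => List.Forall₂.nil
  | p :: l, h => by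
    refine List.Forall₂.cons ⟨?_, rfl⟩ (near_up h0 h.2.2.2)
    have := h.1
    show |p.1 - max p.1 θ| ≤ θ
    rw [abs_le]
    constructor
    · have : max p.1 θ ≤ p.1 + θ := max_le (by linarith) (by linarith)
      linarith
    · linarith [le_max_left p.1 θ]

theorem pen_up (θ : ℝ) : ∀ {l : List (ℝ × ℝ)}, Adm 1 l → ∀ q : ℝ, 0 ≤ q →
    R339.Guerra.pen q l ≤ R339.Guerra.pen q (up θ l)
  | [], _, _, _ => le_rfl
  | p :: l, h, q, hq => by
    rw [up_cons]
    simp only [R339.Guerra.pen]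
    have h1 := h.2.2.1
    exact add_le_add (mul_le_mul_of_nonneg_right (le_max_left _ _) (by nlinarith))
      (pen_up θ h.2.2.2 _ (by linarith))

theorem TT_up (θ : ℝ) : ∀ l : List (ℝ × ℝ), TT (up θ l) = TT l
  | [] => rfl
  | p :: l => by rw [up_cons, Sc.TT_cons, Sc.TT_cons, TT_up θ l]

/-! ### the product recursion with centred features -/

/-- a level with features `√d φ` -/
abbrev lev {Ω ι : Type} [Fintype ι] (φ : Ω → ι → ℝ) (p : ℝ × ℝ) : Lv Ω :=
  ⟨ι, fun x k => √p.2 * φ x k, p.1⟩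

/-- the one-replica value -/
def GG (l : List (ℝ × ℝ)) (r y : ℝ) : ℝ := PhiL 1 l (y - r * II l) - r * y + r ^ 2 * II l / 2

variable {M : ℕ}

theorem X_nil_prod (r e : ℝ) (y : Fin M → ℝ) :
    X (fun _ : Fin M → Bool => (1 : ℝ)) [] (fun a => ∑ c, y c * (spin (a c) - r) + e) =
      ∑ c, GG [] r (y c) + e := by
  simp only [X, one_mul, exp_add, exp_sum, ← Finset.sum_mul]
  rw [← Fintype.piFinset_univ, ← Finset.prod_univ_sum (fun _ => Finset.univ)
    fun c b => exp (y c * (spin b - r)), log_mul (Finset.prod_pos fun c _ => by positivity).ne'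
    (exp_pos _).ne', log_exp, log_prod fun c _ => by positivity]
  congr 1
  refine Finset.sum_congr rfl fun c _ => ?_
  have e1 : ∑ b : Bool, exp (y c * (spin b - r)) = 2 * cosh (1 * y c) * exp (-(r * y c)) := by
    rw [Fintype.sum_bool, one_mul, cosh_eq]
    simp only [spin, if_true, Bool.false_eq_true, if_false]
    rw [show y c * (1 - r) = y c + -(r * y c) by ring,
      show y c * (-1 - r) = -y c + -(r * y c) by ring, exp_add, exp_add]
    ring
  rw [e1, log_mul (by positivity) (exp_pos _).ne', log_exp]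
  simp [GG, II, PhiL, phi0, sub_eq_add_neg]

theorem X_prod_cen (r : ℝ) : ∀ {l : List (ℝ × ℝ)}, Adm 1 l → ∀ (e : ℝ) (y : Fin M → ℝ),
    X (fun _ : Fin M → Bool => (1 : ℝ)) (l.map (lev fun a c => spin (a c) - r))
      (fun a => ∑ c, y c * (spin (a c) - r) + e) = ∑ c, GG l r (y c) + e
  | [], _, e, y => X_nil_prod r e y
  | p :: l, h, e, y => by
    have hm := h.1
    have hd := h.2.2.1
    have hL := (PhiL_prof one_pos l).lip
    have e1 : ∀ g : Fin M → ℝ, X (fun _ : Fin M → Bool => (1 : ℝ))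
        (l.map (lev fun a c => spin (a c) - r))
        ((fun a => ∑ c, y c * (spin (a c) - r) + e) +
          (lev (fun (a : Fin M → Bool) c => spin (a c) - r) p).fld g) =
        ∑ c, GG l r (y c + √p.2 * g c) + e := by
      intro g
      rw [← X_prod_cen r h.2.2.2]
      congr 1
      funext a
      simp only [Pi.add_apply, Lv.fld, lev, add_mul, Finset.sum_add_distrib]
      rw [add_right_comm]
      congr 2
      exact Finset.sum_congr rfl fun c _ => by ring
    rw [List.map_cons, X, step, if_neg (show (lev _ p).m ≠ 0 from hm.ne')]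
    change p.1⁻¹ * log (∫ g : Fin M → ℝ, exp (p.1 * _) ∂gv (Fin M)) = _
    simp only [e1]
    set k : Fin M → ℝ := fun _ => -(p.1 * r * √p.2) with hk
    set c0 : ℝ := ∑ c : Fin M, (-(r * y c) + r ^ 2 * II (p :: l) / 2) + e with hc0
    have hs : √p.2 * √p.2 = p.2 := mul_self_sqrt hd
    have e2 : ∀ g : Fin M → ℝ, exp (p.1 * (∑ c, GG l r (y c + √p.2 * g c) + e)) =
        exp (p.1 * c0) * (exp (g ⬝ᵥ k - k ⬝ᵥ k / 2) *
          ∏ c, exp (p.1 * PhiL 1 l (y c - r * II l + √p.2 * g c))) := by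
      intro g
      rw [← exp_sum, ← exp_add, ← exp_add, hc0]
      congr 1
      simp only [dotProduct, hk, Finset.sum_div, mul_add, Finset.mul_sum, ← Finset.sum_sub_distrib]
      rw [add_right_comm _ (p.1 * e), ← Finset.sum_add_distrib, ← Finset.sum_add_distrib]
      congr 1
      refine Finset.sum_congr rfl fun c _ => ?_
      rw [GG, II_cons, show y c + √p.2 * g c - r * II l = y c - r * II l + √p.2 * g c by ring]
      linear_combination (p.1 ^ 2 * r ^ 2 / 2) * hs
    simp only [e2]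
    rw [integral_const_mul, ← cm k fun g => ∏ c, exp (p.1 * PhiL 1 l (y c - r * II l + √p.2 * g c))]
    have e3 : ∀ g : Fin M → ℝ, ∏ c, exp (p.1 * PhiL 1 l (y c - r * II l + √p.2 * (k + g) c)) =
        ∏ c, exp (p.1 * PhiL 1 l (y c - r * II (p :: l) + √p.2 * g c)) := by
      intro g
      refine Finset.prod_congr rfl fun c _ => ?_
      congr 3
      rw [II_cons, Pi.add_apply, hk]
      linear_combination (-(p.1 * r)) * hs
    simp only [e3]
    rw [integral_fintype_prod_eq_prod (μ := fun _ : Fin M => gaussianReal 0 1)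
      fun c g => exp (p.1 * PhiL 1 l (y c - r * II (p :: l) + √p.2 * g))]
    have hp : ∀ c, 0 < ∫ g, exp (p.1 * PhiL 1 l (y c - r * II (p :: l) + √p.2 * g))
        ∂gaussianReal 0 1 := fun c => den_pos hL p.1 (√p.2) _
    rw [log_mul (exp_pos _).ne' (Finset.prod_pos fun c _ => hp c).ne', log_exp,
      log_prod fun c _ => (hp c).ne', mul_add, inv_mul_cancel_left₀ hm.ne', hc0, Finset.mul_sum,
      add_right_comm, ← Finset.sum_add_distrib]
    congr 1
    refine Finset.sum_congr rfl fun c _ => ?_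
    rw [GG, PhiL, gaussOp, if_neg hm.ne']
    ring

/-! ### the union bound inside a cascade -/

theorem exp_mul_le_sum {K : Type} [Fintype K] {s a : ℝ} {b : K → ℝ} (h0 : 0 ≤ s) (h1 : s ≤ 1)
    (h : exp a ≤ ∑ k, exp (b k)) : exp (s * a) ≤ ∑ k, exp (s * b k) := by
  have hS : 0 < ∑ k, exp (b k) := (exp_pos _).trans_le h
  set A := log (∑ k, exp (b k)) with hA
  have h2 : a ≤ A := (le_log_iff_exp_le hS).2 h
  have h3 : ∀ k, b k ≤ A := fun k => (le_log_iff_exp_le hS).2
    (Finset.single_le_sum (f := fun k => exp (b k)) (fun _ _ => (exp_pos _).le) (Finset.mem_univ k))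
  have h4 : ∀ k, exp ((s - 1) * A) * exp (b k) ≤ exp (s * b k) := fun k => by
    rw [← exp_add]
    exact exp_le_exp.2 (by nlinarith [h3 k])
  calc exp (s * a) ≤ exp (s * A) := exp_le_exp.2 (mul_le_mul_of_nonneg_left h2 h0)
    _ = exp ((s - 1) * A) * ∑ k, exp (b k) := by
        rw [← exp_log hS, ← hA, ← exp_add]; congr 1; ring
    _ ≤ _ := by rw [Finset.mul_sum]; exact Finset.sum_le_sum fun k _ => h4 k

theorem union {Ω ι K : Type} [Fintype Ω] [Fintype ι] [Fintype K] {w : Ω → ℝ} (hw : Wt w)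
    (κ : Ω → K) (φ : Ω → ι → ℝ) (ψ : K → Ω → ι → ℝ) (hφ : ∀ x, φ x = ψ (κ x) x) :
    ∀ {l : List (ℝ × ℝ)}, Adm 1 l → ∀ m : ℝ, 0 < m → m ≤ headLv 1 l →
      ∀ (z : Ω → ℝ) (zk : K → Ω → ℝ), (∀ x, z x ≤ zk (κ x) x) →
      exp (m * X w (l.map (lev φ)) z) ≤ ∑ k, exp (m * X w (l.map (lev (ψ k))) (zk k))
  | [], _, m, h0, h1, z, zk, hz => by
    classical
    refine exp_mul_le_sum h0.le h1 ?_
    simp only [List.map_nil, X]
    rw [exp_log (wt_exp hw z).pos]
    simp only [exp_log (wt_exp hw _).pos]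
    rw [Finset.sum_comm]
    refine Finset.sum_le_sum fun x _ => le_trans ?_ (Finset.single_le_sum
      (f := fun k => w x * exp (zk k x)) (fun _ _ => mul_nonneg (hw.nn x) (exp_pos _).le)
      (Finset.mem_univ (κ x)))
    exact mul_le_mul_of_nonneg_left (exp_le_exp.2 (hz x)) (hw.nn x)
  | p :: l, h, m, h0, h1, z, zk, hz => by
    have hm := h.1
    have e : ∀ (χ : Ω → ι → ℝ) (v : Ω → ℝ), exp (p.1 * X w ((p :: l).map (lev χ)) v) =
        ∫ g, exp (p.1 * X w (l.map (lev χ)) (v + (lev χ p).fld g)) ∂gv ι := by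
      intro χ v
      rw [List.map_cons, X, step, if_neg (show (lev χ p).m ≠ 0 from hm.ne')]
      exact (congrArg exp (mul_inv_cancel_left₀ hm.ne' _)).trans
        (exp_log ((lg_X hw _).Z_pos (lev χ p) v))
    have h2 : exp (p.1 * X w ((p :: l).map (lev φ)) z) ≤
        ∑ k, exp (p.1 * X w ((p :: l).map (lev (ψ k))) (zk k)) := by
      simp only [e]
      have hi : ∀ (χ : Ω → ι → ℝ) (v : Ω → ℝ), Integrable
          (fun g => exp (p.1 * X w (l.map (lev χ)) (v + (lev χ p).fld g))) (gv ι) := fun χ v =>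
        ((lg_X hw _).exp p.1).int (lev χ p) v
      refine le_trans (integral_mono (hi φ z) (integrable_finsetSum Finset.univ fun k _ =>
        hi (ψ k) (zk k)) fun g => ?_) (integral_finsetSum _ fun k _ => hi (ψ k) (zk k)).le
      refine union hw κ φ ψ hφ h.2.2.2 p.1 hm h.2.1 _ _ fun x => ?_
      simp only [Pi.add_apply, Lv.fld, lev, hφ x]
      linarith [hz x]
    have h3 := exp_mul_le_sum (s := m / p.1) (by positivity) ((div_le_one hm).2 h1) h2
    simpa only [← mul_assoc, div_mul_cancel₀ m hm.ne'] using h3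

/-! ### the site bound -/

/-- the empirical mean of the replicas -/
def bar (a : Fin M → Bool) : ℝ := (∑ c, spin (a c)) / M

/-- centred spins -/
def tau (a : Fin M → Bool) (c : Fin M) : ℝ := spin (a c) - bar a

/-- the number of `+` spins -/
def cnt (a : Fin M → Bool) : Fin (M + 1) :=
  ⟨(Finset.univ.filter fun c => a c = true).card,
    Nat.lt_succ_of_le ((Finset.card_filter_le _ _).trans (by simp))⟩

theorem bar_eq (a : Fin M → Bool) : bar a = (2 * (cnt a : ℕ) - M) / M := by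
  have : ∀ c, spin (a c) = 2 * (if a c = true then 1 else 0) - 1 := fun c => by
    cases a c <;> norm_num [spin]
  simp only [bar, this, Finset.sum_sub_distrib, ← Finset.mul_sum, Finset.sum_boole, cnt]
  simp

theorem abs_bar_le (hM : 0 < M) (a : Fin M → Bool) : |bar a| ≤ 1 := by
  have hM' : (0 : ℝ) < M := by exact_mod_cast hM
  rw [bar, abs_div, abs_of_pos hM', div_le_one hM']
  refine (Finset.abs_sum_le_sum_abs _ _).trans ?_
  simp [abs_spin]

theorem sum_tau (hM : 0 < M) (a : Fin M → Bool) : ∑ c, (spin (a c) - bar a) = 0 := by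
  have hM' : (M : ℝ) ≠ 0 := by exact_mod_cast hM.ne'
  rw [Finset.sum_sub_distrib, Finset.sum_const, Finset.card_univ, Fintype.card_fin, nsmul_eq_mul,
    bar, mul_div_cancel₀ _ hM', sub_self]

theorem sum_tau_sq (hM : 0 < M) (a : Fin M → Bool) : ∑ c, tau a c ^ 2 ≤ 4 * M := by
  have h : ∀ c, tau a c ^ 2 ≤ 4 := fun c => by
    have h1 := abs_le.1 (abs_bar_le hM a)
    have h2 := abs_le.1 (abs_spin (a c)).le
    unfold tau
    nlinarith
  refine (Finset.sum_le_sum fun c _ => h c).trans ?_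
  simp [mul_comm]

theorem site_le (hM : 0 < M) {l : List (ℝ × ℝ)} (h : Adm 1 l) {θ : ℝ} (h0 : 0 < θ)
    (h1 : θ ≤ headLv 1 l) (x : ℝ → ℝ) :
    X (fun _ : Fin M → Bool => (1 : ℝ)) (l.map (lev tau))
      (fun a => -(M * GG l (bar a) (x (bar a)))) ≤ log (M + 1) / θ := by
  have hw : Wt fun _ : Fin M → Bool => (1 : ℝ) := Wt.of_pos fun _ => one_pos
  set rk : Fin (M + 1) → ℝ := fun k => (2 * (k : ℕ) - M) / M with hrk
  have hb : ∀ a, rk (cnt a) = bar a := fun a => (bar_eq a).symm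
  have h2 := union hw cnt tau (fun k a c => spin (a c) - rk k)
    (fun a => funext fun c => by rw [hb]; rfl) h θ h0 h1
    (fun a => -(M * GG l (bar a) (x (bar a))))
    (fun k a => ∑ c, x (rk k) * (spin (a c) - rk k) + -(M * GG l (rk k) (x (rk k))))
    (fun a => by rw [hb, ← Finset.mul_sum, sum_tau hM, mul_zero, zero_add])
  simp only [X_prod_cen _ h, Finset.sum_const, Finset.card_univ, Fintype.card_fin, nsmul_eq_mul,
    add_neg_cancel, mul_zero, exp_zero, mul_one] at h2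
  rw [le_div_iff₀ h0, mul_comm, le_log_iff_exp_le (by positivity)]
  exact_mod_cast h2

/-- near minimisers of `Φ y - r y` -/
theorem exists_chi {l : List (ℝ × ℝ)} (h : Adm 1 l) {δ : ℝ} (hδ : 0 < δ) :
    ∃ χ : ℝ → ℝ, ∀ r, |r| ≤ 1 → ∀ y, PhiL 1 l (χ r) - r * χ r ≤ PhiL 1 l y - r * y + δ := by
  have hp : ∀ p ∈ l, 0 < p.1 := fun p hp => (Sc.pos_of_adm h p hp).1
  have h0 : ∀ r, |r| ≤ 1 → ∀ y, 0 ≤ PhiL 1 l y - r * y := by
    intro r hr y
    have h1 := Pf.le_PhiL one_pos hp y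
    have h2 := Pf.le_PhiL one_pos hp (-y)
    rw [(PhiL_inv one_pos h).even] at h2
    have h3 : r * y ≤ |y| := (le_abs_self _).trans (by
      rw [abs_mul]; exact mul_le_of_le_one_left (abs_nonneg _) hr)
    have h4 : |y| ≤ PhiL 1 l y := abs_le.2 ⟨by linarith, h1⟩
    linarith
  have : ∀ r : ℝ, ∃ c : ℝ, |r| ≤ 1 → ∀ y, PhiL 1 l c - r * c ≤ PhiL 1 l y - r * y + δ := by
    intro r
    by_cases hr : |r| ≤ 1
    · have hb : BddBelow (Set.range fun y => PhiL 1 l y - r * y) :=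
        ⟨0, by rintro _ ⟨y, rfl⟩; exact h0 r hr y⟩
      obtain ⟨c, hc⟩ := exists_lt_of_ciInf_lt
        (lt_add_of_pos_right (⨅ y, (PhiL 1 l y - r * y)) hδ)
      exact ⟨c, fun _ y => by linarith [ciInf_le hb y]⟩
    · exact ⟨0, fun h => absurd h hr⟩
  choose χ hχ using this
  exact ⟨χ, hχ⟩

/-! ### the instance of the vector Guerra bound -/

/-- a diagonal level -/
abbrev vl (β : ℝ) (M : ℕ) (p : ℝ × ℝ) : VL (Fin M) (Fin M → Bool) :=
  ⟨Fin M, (√p.2 / β) • (1 : Matrix (Fin M) (Fin M) ℝ), Empty, fun _ k => k.elim, p.1⟩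

theorem vl_C {β : ℝ} {p : ℝ × ℝ} (hp : 0 ≤ p.2) :
    (vl β M p).C = (p.2 / β ^ 2) • (1 : Matrix (Fin M) (Fin M) ℝ) := by
  show ((√p.2 / β) • (1 : Matrix (Fin M) (Fin M) ℝ)) *
    ((√p.2 / β) • (1 : Matrix (Fin M) (Fin M) ℝ))ᵀ = _
  rw [transpose_smul, transpose_one, smul_mul_smul_comm, mul_one, div_mul_div_comm,
    mul_self_sqrt hp, sq]

theorem fr2_smul_one (s : ℝ) : fr2 (s • (1 : Matrix (Fin M) (Fin M) ℝ)) = M * s ^ 2 := by
  simp [fr2, Matrix.one_apply]

theorem Qtop_vl (β : ℝ) : ∀ {l : List (ℝ × ℝ)}, Adm 1 l →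
    Qtop (l.map (vl β M)) = (TT l / β ^ 2) • (1 : Matrix (Fin M) (Fin M) ℝ)
  | [], _ => by simp [Qtop_nil, TT]
  | p :: l, h => by
    rw [List.map_cons, Qtop_cons, Qtop_vl β h.2.2.2, vl_C h.2.2.1, Sc.TT_cons, add_div, add_smul]

theorem corr_vl (β : ℝ) : ∀ {l : List (ℝ × ℝ)}, Adm 1 l → ∀ t : ℝ,
    corr ((t / β ^ 2) • (1 : Matrix (Fin M) (Fin M) ℝ)) (l.map (vl β M)) =
      M / β ^ 4 * R339.Guerra.pen t l
  | [], _, _ => by simp [corr, R339.Guerra.pen]
  | p :: l, h, t => by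
    rw [List.map_cons, corr, vl_C h.2.2.1, ← add_smul, ← add_div, corr_vl β h.2.2.2, fr2_smul_one,
      fr2_smul_one, R339.Guerra.pen]
    show p.1 * _ + _ = _
    ring

theorem mono_vl (β : ℝ) : ∀ {l : List (ℝ × ℝ)}, Adm 1 l → ∀ m : ℝ, m ≤ headLv 1 l →
    Mono m ((l.map (vl β M)).map VL.fix)
  | [], _, _, h1 => h1
  | _ :: _, h, _, h1 => ⟨h1, mono_vl β h.2.2.2 _ h.2.1⟩

theorem X_site {β : ℝ} (hβ : β ≠ 0) (l : List (ℝ × ℝ)) :
    X (fun _ : Fin M → Bool => (1 : ℝ)) ((l.map (vl β M)).map (VL.site β tau)) =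
      X (fun _ => 1) (l.map (lev tau)) := by
  rw [List.map_map]
  refine X_sel (Wt.of_pos fun _ => one_pos) (VL.site β tau ∘ vl β M) (lev tau) (fun p => ?_) l
  have hi : Function.Injective (Sum.inl : Fin M → Fin M ⊕ Empty) := Sum.inl_injective
  refine ⟨_, hi, rfl, fun g => funext fun a => ?_⟩
  change ∑ k : Fin M ⊕ Empty, Sum.elim (fun k => β * ∑ c, tau a c *
    ((√p.2 / β) • (1 : Matrix (Fin M) (Fin M) ℝ)) c k) (fun k : Empty => k.elim) k * g k =
    ∑ k : Fin M, √p.2 * tau a k * g (Sum.inl k)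
  rw [Fintype.sum_sum_type]
  simp only [Finset.univ_eq_empty, Finset.sum_empty, add_zero, Sum.elim_inl, Matrix.smul_apply,
    Matrix.one_apply, smul_eq_mul, mul_ite, mul_one, mul_zero, Finset.sum_ite_eq',
    Finset.mem_univ, if_true]
  refine Finset.sum_congr rfl fun k _ => ?_
  field_simp

end Crest.Agent.T157.An.Tap46

end
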