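import Crest.Agent.T157.AnTapA_46
import Crest.Agent.T157.AnDef_51

/-!
Row 157, part D (helper46): the lower bound of the many-replica functional by a product law.
-/

set_option autoImplicit false

noncomputable section

namespace Crest.Agent.T157.An.Tap46

open MeasureTheory Matrix Real
open Crest.ProbabilityR.SpinGlassDynamics
open Crest.Agent.R339.B Crest.Agent.R339.Var
open Crest.Agent.T157.E Crest.Agent.T157.SL Crest.Agent.T157.Vg Crest.Agent.T157.Eig
open Crest.Agent.T157.St Crest.Agent.T157.Tree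

variable {M n : ℕ}

section prod
variable {Ω : Type} [Fintype Ω] {w : Ω → ℝ}

/-- the product law -/
def pw2 (M : ℕ) (w : Ω → ℝ) (σ : Fin M → Ω) : ℝ := ∏ c, prob w (σ c)

theorem sum_pw2_mul (w : Ω → ℝ) (g : Fin M → Ω → ℝ) :
    ∑ σ, pw2 M w σ * ∏ c, g c (σ c) = ∏ c, mean w (g c) := by
  classical
  simp only [pw2, ← Finset.prod_mul_distrib, mean]
  rw [← Fintype.piFinset_univ, ← Finset.prod_univ_sum (fun _ => Finset.univ)
    fun c x => prob w x * g c x]

theorem sum_pw2 (hw : Wt w) : ∑ σ, pw2 M w σ = 1 := by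
  simpa [hw.mean_const] using sum_pw2_mul (M := M) w fun _ _ => 1

theorem wt_pw2 (hw : Wt w) : Wt (pw2 M w) :=
  ⟨fun _ => Finset.prod_nonneg fun _ _ => hw.prob_nonneg _, by rw [sum_pw2 hw]; exact one_pos⟩

theorem prob_pw2 (hw : Wt w) (σ : Fin M → Ω) : prob (pw2 M w) σ = pw2 M w σ := by
  rw [prob, sum_pw2 hw, div_one]

theorem mean_prod (hw : Wt w) (g : Fin M → Ω → ℝ) :
    mean (pw2 M w) (fun σ => ∏ c, g c (σ c)) = ∏ c, mean w (g c) := by
  rw [← sum_pw2_mul, mean]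
  simp only [prob_pw2 hw]

theorem mean_one (hw : Wt w) (a : Fin M) (f : Ω → ℝ) :
    mean (pw2 M w) (fun σ => f (σ a)) = mean w f := by
  have h := mean_prod hw fun (c : Fin M) x => if c = a then f x else 1
  have e : ∀ c : Fin M, mean w (fun x => if c = a then f x else 1) =
      if c = a then mean w f else 1 := fun c => by
    split_ifs
    · rfl
    · exact hw.mean_const 1
  simpa only [e, Finset.prod_ite_eq', Finset.mem_univ, if_true] using h

theorem mean_two' (hw : Wt w) {a b : Fin M} (hab : a ≠ b) (f g : Ω → ℝ) :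
    mean (pw2 M w) (fun σ => f (σ a) * g (σ b)) = mean w f * mean w g := by
  have h := mean_prod hw fun (c : Fin M) x =>
    (if c = a then f x else 1) * if c = b then g x else 1
  have e : ∀ c : Fin M, mean w (fun x => (if c = a then f x else 1) * if c = b then g x else 1) =
      (if c = a then mean w f else 1) * if c = b then mean w g else 1 := fun c => by
    by_cases h1 : c = a
    · have h2 : c ≠ b := h1 ▸ hab
      simp only [if_pos h1, if_neg h2, mul_one]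
    · by_cases h2 : c = b
      · simp only [if_neg h1, if_pos h2, one_mul]
      · simp only [if_neg h1, if_neg h2, mul_one, hw.mean_const]
  simpa only [e, Finset.prod_mul_distrib, Finset.prod_ite_eq', Finset.mem_univ, if_true] using h

theorem bil_eq (w : Ω → ℝ) (K : Ω → Ω → ℝ) :
    bil (prob w) (prob w) K = mean w fun x => mean w fun y => K x y := by
  simp only [bil, mean, Finset.mul_sum, mul_assoc]

theorem mean_two (hw : Wt w) {a b : Fin M} (hab : a ≠ b) (K : Ω → Ω → ℝ) :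
    mean (pw2 M w) (fun σ => K (σ a) (σ b)) = bil (prob w) (prob w) K := by
  classical
  have e : (fun σ : Fin M → Ω => K (σ a) (σ b)) = fun σ => ∑ x, ∑ y, K x y *
      ((Pi.single x 1 : Ω → ℝ) (σ a) * (Pi.single y 1 : Ω → ℝ) (σ b)) := by
    funext σ
    simp [Pi.single_apply]
  rw [e]
  simp only [mean_sum, mean_const_mul, mean_two' hw hab, mean_single, bil]
  exact Finset.sum_congr rfl fun x _ => Finset.sum_congr rfl fun y _ => mul_comm _ _

/-- the Gibbs variational principle for the product law -/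
theorem gibbs (hw : Wt w) (z : (Fin M → Ω) → ℝ) :
    mean (pw2 M w) z - M * mean w (fun x => log (prob w x)) ≤ log (∑ σ, exp (z σ)) := by
  classical
  have hW := wt_pw2 (M := M) hw
  have h := Casc.X_nil_add_ge hW 0 fun σ => z σ - ∑ c, log (prob w (σ c))
  simp only [Casc.X, Casc.P, Pi.zero_apply, exp_zero, mul_one, sum_pw2 hw, log_one, zero_add] at h
  have e : ∑ σ, prob (pw2 M w) σ * (z σ - ∑ c, log (prob w (σ c))) =
      mean (pw2 M w) z - M * mean w fun x => log (prob w x) := by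
    change mean (pw2 M w) _ = _
    rw [mean_sub, mean_sum]
    simp only [mean_one hw _ fun x => log (prob w x), Finset.sum_const, Finset.card_univ,
      Fintype.card_fin, nsmul_eq_mul]
  rw [← e]
  refine h.trans (log_le_log (hW.mul_pos fun _ => exp_pos _).pos (Finset.sum_le_sum fun σ _ => ?_))
  by_cases h0 : ∀ c, 0 < prob w (σ c)
  · rw [exp_sub, exp_sum]
    simp only [exp_log (h0 _)]
    rw [pw2, mul_div_cancel₀ _ (Finset.prod_pos fun c _ => h0 c).ne']
  · push Not at h0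
    obtain ⟨c, hc⟩ := h0
    rw [pw2, Finset.prod_eq_zero (Finset.mem_univ c) (le_antisymm hc (hw.prob_nonneg _)), zero_mul]
    exact (exp_pos _).le

end prod

/-! ### centring -/

/-- double centring -/
def cen (R : Fin M → Fin M → ℝ) (a b : Fin M) : ℝ :=
  R a b - (M : ℝ)⁻¹ * ∑ d, R a d - (M : ℝ)⁻¹ * ∑ c, R c b + (M : ℝ)⁻¹ * ((M : ℝ)⁻¹ * ∑ c, ∑ d, R c d)

theorem sum_cen (hM : 0 < M) (R : Fin M → Fin M → ℝ) :
    ∑ a, cen R a a = ∑ a, R a a - (M : ℝ)⁻¹ * ∑ c, ∑ d, R c d := by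
  have hM' : (M : ℝ) ≠ 0 := by exact_mod_cast hM.ne'
  simp only [cen, Finset.sum_add_distrib, Finset.sum_sub_distrib, ← Finset.mul_sum,
    Finset.sum_const, Finset.card_univ, Fintype.card_fin, nsmul_eq_mul]
  rw [Finset.sum_comm (f := fun a c => R c a)]
  field_simp
  ring

theorem cen_sq (hM : 0 < M) (D : Fin M → Fin M → ℝ) {c : ℝ} (hc : c ^ 2 ≤ 1) :
    ∑ a, ∑ b, (cen D a b - c / M) ^ 2 ≤ 20 * ∑ a, ∑ b, D a b ^ 2 + 5 := by
  have hM' : (0 : ℝ) < M := by exact_mod_cast hM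
  have cs : ∀ f : Fin M → ℝ, ((M : ℝ)⁻¹ * ∑ d, f d) ^ 2 ≤ (M : ℝ)⁻¹ * ∑ d, f d ^ 2 := by
    intro f
    have h := sq_sum_le_card_mul_sum_sq (s := Finset.univ) (f := f)
    rw [Finset.card_univ, Fintype.card_fin] at h
    rw [mul_pow]
    calc _ ≤ (M : ℝ)⁻¹ ^ 2 * (M * ∑ d, f d ^ 2) := by gcongr
      _ = _ := by field_simp
  have h4 : ((M : ℝ)⁻¹ * ((M : ℝ)⁻¹ * ∑ c, ∑ d, D c d)) ^ 2 ≤
      (M : ℝ)⁻¹ * ((M : ℝ)⁻¹ * ∑ c, ∑ d, D c d ^ 2) := by
    rw [Finset.mul_sum, Finset.mul_sum Finset.univ fun c => ∑ d, D c d ^ 2]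
    refine (cs _).trans (mul_le_mul_of_nonneg_left (Finset.sum_le_sum fun c _ => cs _) ?_)
    positivity
  have h5 : (c / M) ^ 2 ≤ (M : ℝ)⁻¹ * (M : ℝ)⁻¹ := by
    rw [div_eq_mul_inv, mul_pow, ← sq]
    exact mul_le_of_le_one_left (by positivity) hc
  have h : ∀ a b, (cen D a b - c / M) ^ 2 ≤ 5 * (D a b ^ 2 + (M : ℝ)⁻¹ * ∑ d, D a d ^ 2 +
      (M : ℝ)⁻¹ * ∑ c, D c b ^ 2 + (M : ℝ)⁻¹ * ((M : ℝ)⁻¹ * ∑ c, ∑ d, D c d ^ 2) +
      (M : ℝ)⁻¹ * (M : ℝ)⁻¹) := by
    intro a b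
    have h2 := cs fun d => D a d
    have h3 := cs fun c => D c b
    have key : ∀ x1 x2 x3 x4 x5 : ℝ, (x1 - x2 - x3 + x4 - x5) ^ 2 ≤
        5 * (x1 ^ 2 + x2 ^ 2 + x3 ^ 2 + x4 ^ 2 + x5 ^ 2) := by
      intro x1 x2 x3 x4 x5
      nlinarith [sq_nonneg (x1 + x2), sq_nonneg (x1 + x3), sq_nonneg (x1 - x4),
        sq_nonneg (x1 + x5), sq_nonneg (x2 - x3), sq_nonneg (x2 + x4), sq_nonneg (x2 - x5),
        sq_nonneg (x3 + x4), sq_nonneg (x3 - x5), sq_nonneg (x4 + x5)]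
    refine (key _ _ _ _ _).trans ?_
    linarith
  refine (Finset.sum_le_sum fun a _ => Finset.sum_le_sum fun b _ => h a b).trans (le_of_eq ?_)
  simp only [← Finset.mul_sum, Finset.sum_add_distrib, Finset.sum_const, Finset.card_univ,
    Fintype.card_fin, nsmul_eq_mul]
  rw [Finset.sum_comm (f := fun b c => D c b ^ 2)]
  field_simp
  ring

/-- exchange of the site and replica indices -/
def sw (σ : Fin M → Cube n) : Fin n → Fin M → Bool := fun i c => σ c i

theorem fv_tau (σ : Fin M → Cube n) (c : Fin M) :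
    fv tau (sw σ) c = sv (σ c) - (M : ℝ)⁻¹ • ∑ d, sv (σ d) := by
  funext i
  simp only [fv, tau, bar, sw, sv, Pi.sub_apply, Pi.smul_apply, Finset.sum_apply, smul_eq_mul]
  ring

theorem quad_tau (A : Matrix (Fin n) (Fin n) ℝ) (σ : Fin M → Cube n) (a b : Fin M) :
    fv tau (sw σ) a ⬝ᵥ A *ᵥ fv tau (sw σ) b =
      cen (fun c d => sv (σ c) ⬝ᵥ A *ᵥ sv (σ d)) a b := by
  simp only [fv_tau, cen, sub_dotProduct, mulVec_sub, dotProduct_sub, smul_dotProduct,
    mulVec_smul, dotProduct_smul, sum_dotProduct, mulVec_sum, dotProduct_sum, smul_eq_mul,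
    Finset.sum_sub_distrib, ← Finset.mul_sum]
  rw [Finset.sum_comm (f := fun c d => sv (σ c) ⬝ᵥ A *ᵥ sv (σ d))]
  ring

variable {w : Cube n → ℝ}

theorem bil_quad (A : Matrix (Fin n) (Fin n) ℝ) (w : Cube n → ℝ) :
    bil (prob w) (prob w) (fun x y => sv x ⬝ᵥ A *ᵥ sv y) = mag w ⬝ᵥ A *ᵥ mag w := by
  rw [bil_eq]
  simp only [dotProduct_mulVec, ← meanV_dot]
  simp only [← dotProduct_mulVec, dotProduct_comm (sv _), ← meanV_dot]
  exact dotProduct_comm _ _

theorem mean_HW (hM : 0 < M) (hw : Wt w) (β : ℝ) (W : Matrix (Fin n) (Fin n) ℝ) :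
    mean (pw2 M w) (fun σ => HW β tau W (sw σ)) =
      β / 2 * ((M - 1) * (mean w (fun x => sv x ⬝ᵥ W *ᵥ sv x) - mag w ⬝ᵥ W *ᵥ mag w)) := by
  have hM' : (M : ℝ) ≠ 0 := by exact_mod_cast hM.ne'
  have e : ∀ c d : Fin M, mean (pw2 M w) (fun σ => sv (σ c) ⬝ᵥ W *ᵥ sv (σ d)) =
      mag w ⬝ᵥ W *ᵥ mag w + if c = d then
        mean w (fun x => sv x ⬝ᵥ W *ᵥ sv x) - mag w ⬝ᵥ W *ᵥ mag w else 0 := by
    intro c d
    split_ifs with h
    · subst h
      rw [mean_one hw c fun x => sv x ⬝ᵥ W *ᵥ sv x]; ring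
    · rw [mean_two hw h fun x y => sv x ⬝ᵥ W *ᵥ sv y, bil_quad, add_zero]
  simp only [HW, ← Finset.mul_sum, quad_tau, sum_cen hM, mean_const_mul, mean_sub, mean_sum, e,
    if_true, Finset.sum_add_distrib, Finset.sum_ite_eq, Finset.mem_univ, Finset.sum_const,
    Finset.card_univ, Fintype.card_fin, nsmul_eq_mul]
  field_simp
  ring

theorem dev_nonneg (hw : Wt w) (u : ℝ) : 0 ≤ dev w w u := by
  rw [dev, bil_eq]
  exact hw.mean_nonneg fun _ => hw.mean_nonneg fun _ => sq_nonneg _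

theorem dev_le (hw : Wt w) (u : ℝ) : dev w w u ≤ 2 * ovar w + 2 * (qq (mag w) - u) ^ 2 := by
  rw [ovar, dev, dev, bil_eq, bil_eq, ← mean_const_mul, ← hw.mean_const (2 * _), ← mean_add]
  refine hw.mean_mono fun x => ?_
  rw [← mean_const_mul, ← hw.mean_const (2 * _), ← mean_add]
  refine hw.mean_mono fun y => ?_
  nlinarith [sq_nonneg (ovl x y - 2 * qq (mag w) + u)]

theorem mean_pen (hM : 0 < M) (hn : 0 < n) (hw : Wt w) (β : ℝ) {u : ℝ} (h0 : 0 ≤ u) (h1 : u ≤ 1) :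
    mean (pw2 M w) (fun σ => Vg.pen β tau ((1 - u) • (1 : Matrix (Fin M) (Fin M) ℝ)) (sw σ)) ≤
      β ^ 2 * n / 4 * (20 * (M ^ 2 * dev w w u) + 5) := by
  have hM' : (M : ℝ) ≠ 0 := by exact_mod_cast hM.ne'
  have hn' : (n : ℝ) ≠ 0 := by exact_mod_cast hn.ne'
  have hW := wt_pw2 (M := M) hw
  set D : (Fin M → Cube n) → Fin M → Fin M → ℝ := fun σ a b =>
    ovl (σ a) (σ b) - u - if a = b then 1 - u else 0 with hD
  have e1 : ∀ σ : Fin M → Cube n, fr2 (ov tau (sw σ) (sw σ) - (1 - u) • 1) ≤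
      20 * ∑ a, ∑ b, D σ a b ^ 2 + 5 := by
    intro σ
    refine le_trans (le_of_eq ?_) (cen_sq hM (D σ) (c := 1 - u) (by nlinarith))
    refine Finset.sum_congr rfl fun a _ => Finset.sum_congr rfl fun b _ => ?_
    congr 1
    have h := quad_tau 1 σ a b
    simp only [one_mulVec] at h
    simp only [Matrix.sub_apply, ov, of_apply, h, Matrix.smul_apply, Matrix.one_apply, smul_eq_mul,
      mul_ite, mul_one, mul_zero, cen, hD, ovl, Finset.sum_sub_distrib, ← Finset.sum_div,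
      Finset.sum_ite_eq, Finset.sum_ite_eq', Finset.mem_univ, if_true, Finset.sum_const,
      Finset.card_univ, Fintype.card_fin, nsmul_eq_mul]
    field_simp
    ring
  have e2 : ∀ a b, mean (pw2 M w) (fun σ => D σ a b ^ 2) ≤ dev w w u := by
    intro a b
    by_cases h : a = b
    · subst h
      refine hW.mean_le fun σ => le_trans (le_of_eq ?_) (dev_nonneg hw u)
      simp [hD, ovl, sv_dot_self, hn']
    · simp only [hD, if_neg h, sub_zero]
      exact (mean_two hw h fun x y => (ovl x y - u) ^ 2).le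
  simp only [Vg.pen]
  rw [mean_const_mul]
  refine mul_le_mul_of_nonneg_left ((hW.mean_mono e1).trans ?_) (by positivity)
  rw [mean_add, hW.mean_const, mean_const_mul]
  simp only [mean_sum]
  refine add_le_add (mul_le_mul_of_nonneg_left ((Finset.sum_le_sum fun a _ =>
    Finset.sum_le_sum fun b _ => e2 a b).trans (le_of_eq ?_)) (by norm_num)) le_rfl
  simp only [Finset.sum_const, Finset.card_univ, Fintype.card_fin, nsmul_eq_mul]
  ring

theorem mean_bar (hM : 0 < M) (hw : Wt w) (i : Fin n) :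
    mean (pw2 M w) (fun σ => bar (sw σ i)) = mag w i := by
  have hM' : (M : ℝ) ≠ 0 := by exact_mod_cast hM.ne'
  simp only [bar, sw, mean_div_const, mean_sum, mean_one hw _ fun x : Cube n => spin (x i),
    Finset.sum_const, Finset.card_univ, Fintype.card_fin, nsmul_eq_mul]
  rw [mul_div_cancel_left₀ _ hM']
  rfl

/-- the site energy -/
def hs (M : ℕ) (l : List (ℝ × ℝ)) (χ : ℝ → ℝ) (a : Fin M → Bool) : ℝ :=
  -(M * GG l (bar a) (χ (bar a) + bar a * II l))

theorem mean_hs (hM : 0 < M) (hw : Wt w) {l : List (ℝ × ℝ)} (h : Adm 1 l) {χ : ℝ → ℝ} {δ : ℝ}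
    (hχ : ∀ r, |r| ≤ 1 → ∀ y, PhiL 1 l (χ r) - r * χ r ≤ PhiL 1 l y - r * y + δ) (i : Fin n)
    (y : ℝ) : M * (II l / 2 * (mag w i * mag w i) - (PhiL 1 l y - y * mag w i) - δ) ≤
      mean (pw2 M w) fun σ => hs M l χ (sw σ i) := by
  have hW := wt_pw2 (M := M) hw
  have hI := II_nonneg h
  have e : M * (II l / 2 * (mag w i * mag w i) - (PhiL 1 l y - y * mag w i) - δ) =
      mean (pw2 M w) fun σ => M * ((II l * mag w i + y) * bar (sw σ i) -
        (II l / 2 * (mag w i * mag w i) + PhiL 1 l y + δ)) := by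
    rw [mean_const_mul, mean_sub, mean_const_mul, mean_bar hM hw, hW.mean_const]
    ring
  rw [e]
  refine hW.mean_mono fun σ => ?_
  rw [hs, ← mul_neg, GG, add_sub_cancel_right]
  refine mul_le_mul_of_nonneg_left ?_ (Nat.cast_nonneg _)
  have h1 := hχ _ (abs_bar_le hM (sw σ i)) y
  nlinarith [mul_nonneg hI (sq_nonneg (bar (sw σ i) - mag w i))]

/-- the deterministic lower bound -/
theorem val_ge (hM : 0 < M) (hn : 0 < n) (hw : Wt w) {β : ℝ} (hβ : 0 < β) {l : List (ℝ × ℝ)}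
    (h : Adm 1 l) {u : ℝ} (h0 : 0 ≤ u) (h1 : u ≤ 1) (hT : TT l = β ^ 2 * (1 - u)) {χ : ℝ → ℝ}
    {δ : ℝ} (hχ : ∀ r, |r| ≤ 1 → ∀ y, PhiL 1 l (χ r) - r * χ r ≤ PhiL 1 l y - r * y + δ)
    {W : Matrix (Fin n) (Fin n) ℝ} (hW : opn W ≤ 3) (hq : mag w ⬝ᵥ mag w ≤ n) (y : Fin n → ℝ) :
    M * (free (β • W) w - 1 / 2 * (mag w ⬝ᵥ (β • W) *ᵥ mag w) + II l / 2 * (mag w ⬝ᵥ mag w) -
        ∑ i, (PhiL 1 l (y i) - y i * mag w i) - n * δ) - 3 * β * n -
        β ^ 2 * n / 4 * (20 * (M ^ 2 * dev w w u) + 5) ≤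
      val β tau (fun _ _ => 1) (fun _ => hs M l χ) (l.map (vl β M)) W := by
  have hQ : Qtop (l.map (vl β M)) = (1 - u) • (1 : Matrix (Fin M) (Fin M) ℝ) := by
    rw [Qtop_vl β h, hT, mul_div_cancel_left₀ _ (by positivity)]
  rw [val_eq_log β tau _ _ (fun k hk a j => by
    obtain ⟨p, -, rfl⟩ := List.mem_map.1 hk
    exact j.elim), hQ]
  simp only [Finset.prod_const_one, one_mul]
  rw [← Equiv.sum_comp (Equiv.piComm fun (_ : Fin M) (_ : Fin n) => Bool)]
  refine le_trans ?_ (gibbs hw fun σ => ∑ i, hs M l χ (sw σ i) + HW β tau W (sw σ) -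
    Vg.pen β tau ((1 - u) • 1) (sw σ))
  rw [mean_sub, mean_add, mean_sum, mean_HW hM hw]
  have a1 := mean_pen hM hn hw β h0 h1
  have a2 := Finset.sum_le_sum fun i (_ : i ∈ Finset.univ) => mean_hs hM hw h hχ i (y i)
  rw [← Finset.mul_sum, Finset.sum_sub_distrib, Finset.sum_sub_distrib, ← Finset.mul_sum,
    Finset.sum_const, Finset.card_univ, Fintype.card_fin, nsmul_eq_mul] at a2
  have a3 : free (β • W) w = β / 2 * mean w (fun x => sv x ⬝ᵥ W *ᵥ sv x) -
      mean w fun x => log (prob w x) := by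
    rw [free, mean_sub, ← mean_const_mul]
    congr 2
    funext x
    rw [smul_mulVec, dotProduct_smul, smul_eq_mul]
    ring
  have a4 : mean w (fun x => sv x ⬝ᵥ W *ᵥ sv x) ≤ 3 * n := hw.mean_le fun x => by
    have := (le_abs_self _).trans (abs_quad_le W (sv x))
    rw [sv_dot_self] at this
    exact this.trans (mul_le_mul_of_nonneg_right hW (Nat.cast_nonneg _))
  have a5 : -(3 * n) ≤ mag w ⬝ᵥ W *ᵥ mag w := by
    have := abs_quad_le W (mag w)
    have h2 : opn W * (mag w ⬝ᵥ mag w) ≤ 3 * n :=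
      mul_le_mul hW hq (Finset.sum_nonneg fun _ _ => mul_self_nonneg _) (by norm_num)
    linarith [neg_abs_le (mag w ⬝ᵥ W *ᵥ mag w)]
  rw [a3, smul_mulVec, dotProduct_smul, smul_eq_mul]
  change _ ≤ _ at a2
  have a6 : mag w ⬝ᵥ mag w = ∑ i, mag w i * mag w i := rfl
  rw [← a6] at a2
  nlinarith

end Crest.Agent.T157.An.Tap46

end
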