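import Crest.Agent.T157.AnC_51

/-!
Row 157, part D (helper51): the ancestors, `Up.AncStmt` from its leaves.
-/

set_option autoImplicit false

noncomputable section

namespace Crest.Agent.T157.An

open MeasureTheory Matrix Set Filter Topology
open Crest.ProbabilityR.SpinGlassDynamics
open Crest.Agent.T157.E Crest.Agent.T157.Eig Crest.Agent.T157.St Crest.Agent.T157.Conc
open Crest.Agent.T157.SL Crest.Agent.T157.Sc Crest.Agent.T157.Up Crest.Agent.T157.Top
open Crest.Agent.T157.Pf Crest.Agent.T157.Cond Crest.Agent.T157.Cut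

lemma eps_pow (n k : ℕ) : eps n ^ k = pw (k / 10000000) n := by
  rw [eps, pw, ← Real.rpow_natCast, ← Real.rpow_mul (Nat.cast_nonneg _)]
  congr 1; ring

lemma eps_pos {n : ℕ} (hn : 0 < n) : 0 < eps n := Real.rpow_pos_of_pos (by exact_mod_cast hn) _

lemma pw_le {n : ℕ} (hn : 0 < n) {a : ℝ} (k : ℕ) (h : (k : ℝ) / 10000000 ≤ a) :
    pw a n ≤ eps n ^ k := by
  rw [eps_pow]
  exact Real.rpow_le_rpow_of_exponent_le (by exact_mod_cast hn) (by linarith)

lemma pw_one (n : ℕ) : pw 1 n = 1 / n := by rw [pw, Real.rpow_neg_one, one_div]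

lemma tendsto_eps : Tendsto eps atTop (𝓝 0) :=
  (tendsto_rpow_neg_atTop (by norm_num)).comp tendsto_natCast_atTop_atTop

lemma ev_eps (K : ℝ) : ∀ᶠ n : ℕ in atTop, K * eps n ≤ 1 := by
  have := tendsto_eps.const_mul K
  rw [mul_zero] at this
  exact this.eventually (ge_mem_nhds one_pos)

lemma pow_dom {u K : ℝ} (u0 : 0 < u) (u1 : u ≤ 1) (hK : K * u ≤ 1) {c : ℝ} (hc : c ≤ K)
    {a b : ℕ} (h : b < a) : c * u ^ a ≤ u ^ b := by
  have h1 : u ^ a ≤ u ^ (b + 1) := pow_le_pow_of_le_one u0.le u1 h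
  have h2 : 0 < u ^ b := pow_pos u0 b
  have h3 : 0 < u ^ a := pow_pos u0 a
  rcases le_or_gt c 0 with h0 | h0
  · nlinarith
  rw [pow_succ] at h1
  have : c * u ≤ 1 := (mul_le_mul_of_nonneg_right hc u0.le).trans hK
  nlinarith [mul_le_mul_of_nonneg_left h1 h0.le, mul_le_mul_of_nonneg_left this h2.le]

lemma NN_tau {n : ℕ} (hn : 0 < n) (u1 : eps n ≤ 1) :
    1 ≤ NN n * tau n * eps n ∧ NN n * tau n * eps n ≤ 2 ∧ (NN n + 2) * eps n ^ 7561 ≤ 4 := by
  have u0 := eps_pos hn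
  have hp : 0 < eps n ^ 7561 := pow_pos u0 _
  have hp1 : eps n ^ 7561 ≤ 1 := pow_le_one₀ u0.le u1
  have e : (NN n : ℝ) * tau n * eps n = NN n * eps n ^ 7561 := by rw [tau, mul_assoc, ← pow_succ]
  have h1 : (eps n ^ 7561)⁻¹ ≤ NN n := Nat.le_ceil _
  have h2 : (NN n : ℝ) ≤ (eps n ^ 7561)⁻¹ + 1 := (Nat.ceil_lt_add_one (by positivity)).le
  have h3 := mul_le_mul_of_nonneg_right h1 hp.le
  have h4 := mul_le_mul_of_nonneg_right h2 hp.le
  rw [inv_mul_cancel₀ hp.ne'] at h3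
  rw [add_mul, inv_mul_cancel₀ hp.ne'] at h4
  rw [e, add_mul]
  exact ⟨h3, by linarith, by linarith⟩

lemma exp_small {u T : ℝ} (u0 : 0 < u) (hT : 1 ≤ T * u) :
    Real.exp (-T / 2) ≤ 2 ^ 16 * (Nat.factorial 16) * u ^ 16 := by
  have T0 : 0 < T := (pos_iff_pos_of_mul_pos (by linarith : 0 < T * u)).2 u0
  have h1 := Real.pow_div_factorial_le_exp (T / 2) (by positivity) 16
  have h2 : 1 ≤ (T * u) ^ 16 := one_le_pow₀ hT
  rw [neg_div, Real.exp_neg, inv_le_comm₀ (Real.exp_pos _) (by positivity)]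
  refine le_trans ?_ h1
  rw [inv_eq_one_div, div_le_div_iff₀ (by positivity) (by positivity)]
  calc 1 * (Nat.factorial 16 : ℝ) ≤ (T * u) ^ 16 * Nat.factorial 16 := by gcongr
    _ = _ := by ring

/-- the union bound for the state evolution events tends to zero -/
lemma tendsto_union {C1 : ℝ} (hC : 0 < C1) : Tendsto (fun n : ℕ => (NN n + 1) *
    (C1 / (eps n ^ 1400) ^ 5 * Real.exp (-(n * (eps n ^ 1400) ^ 4 / C1)))) atTop (𝓝 0) := by
  have h0 : Tendsto (fun n : ℕ => 4 * C1 * (((n : ℝ) ^ (1 / 2 : ℝ)) ^ (1 : ℝ) *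
      Real.exp (-C1⁻¹ * (n : ℝ) ^ (1 / 2 : ℝ)))) atTop (𝓝 0) := by
    have := ((tendsto_rpow_mul_exp_neg_mul_atTop_nhds_zero 1 C1⁻¹ (by positivity)).comp
      ((tendsto_rpow_atTop (by norm_num : (0 : ℝ) < 1 / 2)).comp
        tendsto_natCast_atTop_atTop)).const_mul (4 * C1)
    rw [mul_zero] at this
    exact this
  refine squeeze_zero' (.of_forall fun n => ?_) ?_ h0
  · have : 0 ≤ eps n := Real.rpow_nonneg (Nat.cast_nonneg _) _
    positivity
  filter_upwards [eventually_gt_atTop 0, ev_eps 1] with n hn u1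
  have hn' : (0 : ℝ) < n := by exact_mod_cast hn
  have u0 := eps_pos hn
  rw [one_mul] at u1
  obtain ⟨-, -, a1⟩ := NN_tau hn u1
  set s := (n : ℝ) ^ (1 / 2 : ℝ) with hs
  have s0 : 0 < s := by positivity
  have e1 : pw (1 / 2) n = s⁻¹ := by rw [pw, Real.rpow_neg hn'.le]
  have e2 : s * s = n := by rw [hs, ← Real.rpow_add hn']; norm_num
  have a2 := pw_le hn (a := 1 / 2) 14561 (by norm_num)
  have a3 := pw_le hn (a := 1 / 2) 5600 (by norm_num)
  rw [e1, inv_le_iff_one_le_mul₀ s0] at a2 a3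
  rw [← pow_mul, ← pow_mul, Real.rpow_one, ← mul_assoc, ← mul_assoc]
  refine mul_le_mul ?_ (Real.exp_le_exp.2 ?_) (Real.exp_pos _).le (by positivity)
  · rw [← mul_div_assoc, div_le_iff₀ (by positivity)]
    have hp : 0 < eps n ^ 7561 := pow_pos u0 _
    refine le_of_mul_le_mul_right ?_ hp
    have e : 4 * C1 * s * eps n ^ (1400 * 5) * eps n ^ 7561 = 4 * C1 * (eps n ^ 14561 * s) := by
      rw [show 14561 = 1400 * 5 + 7561 from rfl, pow_add]; ring
    rw [e]
    nlinarith [mul_le_mul_of_nonneg_left a1 hC.le, mul_le_mul_of_nonneg_left a2 hC.le,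
      mul_pos hC hp]
  · rw [neg_mul, neg_le_neg_iff, div_eq_inv_mul]
    refine mul_le_mul_of_nonneg_left ?_ (by positivity)
    rw [← e2, show 1400 * 4 = 5600 from rfl]
    nlinarith [mul_le_mul_of_nonneg_left a3 s0.le]

set_option maxHeartbeats 800000 in
/-- **the ancestors** -/
theorem up_anc (hT : TapStmt) (hTr : TreeStmt) (hS : SlaStmt) (hF : FreeStmt) (hG : GamStmt)
    (hE : GamEndStmt) (hSc : ScStmt) : Up.AncStmt := by
  intro β C c0 C0 hβ hC hc0 _ hC0 P S hD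
  have hβ0 : 0 < β := by linarith
  obtain ⟨C1, hC1, hT⟩ := hT β C hβ.le hC
  obtain ⟨Cs, hCs, hS⟩ := hS
  obtain ⟨Cf, hCf, hF⟩ := hF β hβ
  obtain ⟨c, C2, hc, -, hC2, hSc⟩ := hSc β C c0 C0 hβ.le hC hc0.le
  refine ⟨dd, fun n => ⟨le_min zero_le_one (Real.rpow_nonneg (Nat.cast_nonneg _) _),
    min_le_left _ _⟩, ?_, fun δ hδ => ?_⟩
  · filter_upwards [eventually_gt_atTop 0] with n hn
    exact (min_le_right _ _).trans (pw_le hn 8 (by norm_num))
  have hFine : Fine β c0 C0 P := by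
    filter_upwards [hD, eventually_gt_atTop 0] with n h hn
    refine ⟨h.2.1, good_mono h.2.2.1 (by linarith) ?_, ?_⟩
    · rw [← pw_one]
      exact Real.rpow_le_rpow_of_exponent_le (by exact_mod_cast hn) (by norm_num)
    · rw [h.1]; exact Nat.le_self_pow (by norm_num) n
  have hn1 : ∀ {n : ℕ}, 0 < n → ∀ k : ℕ, k ≤ 10000000 → 1 / (n : ℝ) ≤ eps n ^ k := fun hn k hk => by
    rw [← pw_one]
    refine pw_le hn k ?_
    rw [div_le_one (by norm_num)]
    exact_mod_cast hk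
  have hn2 : ∀ {n : ℕ}, 0 < n → ∀ k : ℕ, k ≤ 10000000 → 1 ≤ (n : ℝ) * eps n ^ k := fun hn k hk => by
    have := hn1 hn k hk
    rwa [div_le_iff₀ (by exact_mod_cast hn), mul_comm] at this
  have E2 : Whp Om fun n z => Tap (S n) (β • Wmat n z.1 z.2) (eps n ^ 11200)
      (C1 * √(√(eps n ^ 11200))) := by
    refine whp_goe (Q := fun n W => Tap (S n) (β • W) (eps n ^ 11200) (C1 * √(√(eps n ^ 11200))))
      (tendsto_const_div_atTop_nhds_zero_nat C1) ?_
    filter_upwards [hD, eventually_gt_atTop 0, ev_eps 1] with n h hn u1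
    exact hT (P n) h.2.1 (S n) h.2.2.2 n _ (hn2 hn _ (by norm_num))
      (pow_le_one₀ (eps_pos hn).le (by linarith))
  have E5 : Whp Om fun n z => ∀ j ≤ NN n, SC2 (S n) ((P n).Gam β) (β • Wmat n z.1 z.2) c
      (C2 * (1 + j * tau n) * (eps n ^ 1400) ^ 2) ((eps n ^ 1400) ^ 4) (j * tau n) := by
    refine whp_goe (Q := fun n W => ∀ j ≤ NN n, SC2 (S n) ((P n).Gam β) (β • W) c
      (C2 * (1 + j * tau n) * (eps n ^ 1400) ^ 2) ((eps n ^ 1400) ^ 4) (j * tau n))
      (tendsto_union (by linarith : 0 < C2)) ?_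
    filter_upwards [hD, eventually_gt_atTop 0, ev_eps 2] with n h hn u2
    have u0 := eps_pos hn
    have h1 := (hSc (P n) (eps n ^ 1400) h.2.1 (good_mono h.2.2.1 (by linarith)
      (by rw [← pow_mul]; exact hn1 hn _ (by norm_num))) (S n) h.2.2.2 (pow_pos u0 _)
      ((pow_le_of_le_one u0.le (by linarith) (by norm_num)).trans (by linarith)) n
      (by rw [← pow_mul]; exact hn2 hn _ (by norm_num))).2
    refine le_trans (measure_mono (t := ⋃ j ∈ Finset.range (NN n + 1), {W | opn W ≤ 3 ∧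
      ¬ SC2 (S n) ((P n).Gam β) (β • W) c (C2 * (1 + j * tau n) * (eps n ^ 1400) ^ 2)
        ((eps n ^ 1400) ^ 4) (j * tau n)}) fun W hW => ?_) ?_
    · obtain ⟨h2, h3⟩ := hW
      push Not at h3
      obtain ⟨j, hj, h4⟩ := h3
      exact mem_iUnion₂.2 ⟨j, Finset.mem_range.2 (by omega), h2, h4⟩
    refine (measure_biUnion_finset_le _ _).trans ((Finset.sum_le_sum fun (j : ℕ) _ => h1 (j * tau n)
      (mul_nonneg (Nat.cast_nonneg _) (pow_pos u0 _).le)).trans (le_of_eq ?_))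
    rw [Finset.sum_const, Finset.card_range, nsmul_eq_mul, ← Nat.cast_succ,
      ENNReal.ofReal_mul (Nat.cast_nonneg _), ENNReal.ofReal_natCast]
  refine ((((whp_opn.and E2).and (whp_logZ hβ0)).and
    (whp_fst (hTr β c0 C0 δ hβ hc0 hC0 hδ P hFine))).and E5).mono ?_
  set K : ℝ := 100 + 10 * Cs + C1 + Cf + 10 * β + (3 * C2 + 1) / c + 10 / c0 +
    2 ^ 16 * (Nat.factorial 16) with hKdef
  have k1 : 0 < (3 * C2 + 1) / c := by positivity
  have k2 : 0 < 10 / c0 := by positivity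
  have k3 : (0 : ℝ) < 2 ^ 16 * (Nat.factorial 16) := by positivity
  filter_upwards [hD, eventually_gt_atTop 0, ev_eps K] with n h hn hK z hz B hB F hFm
  obtain ⟨⟨⟨⟨z1, z2⟩, z3⟩, z4⟩, z5⟩ := hz
  obtain ⟨-, hOK, hGd, hR⟩ := h
  have hn' : (0 : ℝ) < n := by exact_mod_cast hn
  have u0 := eps_pos hn
  have u1 : eps n ≤ 1 := by nlinarith
  obtain ⟨t1, t2, t3⟩ := NN_tau hn u1
  have d := fun (c' : ℝ) (h : c' ≤ K) (a b : ℕ) (hab : b < a) => pow_dom u0 u1 hK h hab
  have hp := fun k : ℕ => pow_pos u0 k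
  have hl : ∀ a b : ℕ, b ≤ a → eps n ^ a ≤ eps n ^ b := fun a b h =>
    pow_le_pow_of_le_one u0.le u1 h
  have τ0 : 0 < tau n := hp _
  have T0 : 0 ≤ NN n * tau n := by positivity
  have T3 : (1 + NN n * tau n) * eps n ≤ 3 := by linarith
  have hP : (S n).P = (P n).val β := by rw [Site.P, hR.1, hR.2.2.2]; rfl
  have lg : Real.log (NN n + 2) / n ≤ 4 * eps n ^ 12439 := by
    have a1 : Real.log (NN n + 2) ≤ NN n + 2 :=
      (Real.log_le_sub_one_of_pos (by positivity)).trans (by linarith)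
    have a2 := hn1 hn 20000 (by norm_num)
    rw [show 20000 = 7561 + 12439 from rfl, pow_add] at a2
    calc _ ≤ (NN n + 2) * (1 / (n : ℝ)) := by rw [mul_one_div]; gcongr
      _ ≤ (NN n + 2) * (eps n ^ 7561 * eps n ^ 12439) := by gcongr
      _ ≤ _ := by rw [← mul_assoc]; exact mul_le_mul_of_nonneg_right t3 (hp _).le
  have hY : Cs * (1 + NN n * tau n) * eps n ^ 2 ≤ 1 := by
    have a1 := d (3 * Cs) (by linarith) 1 0 one_pos
    have a2 := mul_le_mul_of_nonneg_left T3 (by positivity : 0 ≤ Cs * eps n)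
    simp only [pow_one, pow_zero] at a1
    nlinarith
  have hρ1 := pw_le hn (a := 1 / 50) 20000 (by norm_num)
  have sq2 : ∀ k : ℕ, √(eps n ^ (k * 2)) = eps n ^ k := fun k => by
    rw [pow_mul, Real.sqrt_sq (hp k).le]
  have hτb : tau n ≤ (P n).b := by
    have a1 := d (10 / c0) (by linarith) 7560 0 (by norm_num)
    rw [pow_zero, div_mul_eq_mul_div, div_le_one hc0] at a1
    have := hGd.b_ge
    unfold tau; linarith [hp 7560]
  have hM1 : (n : ℝ) ^ (1 / 200 : ℝ) ≤ Mc n := Nat.le_ceil _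
  have hM0 : (0 : ℝ) < (n : ℝ) ^ (1 / 200 : ℝ) := by positivity
  refine anc_det (CA := 3 * β) (ρ := eps n ^ 11200) (εt := C1 * eps n ^ 2800) (θ := eps n ^ 12000)
    (e0 := eps n ^ 3000) (lam := pw (1 / 250) n) (ρ1 := pw (1 / 50) n) (M := Mc n) (c := c)
    (e2 := 3 * C2 * eps n ^ 2799) (η := eps n ^ 5600) (c0 := c0) (ηg := 1 / n)
    (r0 := eps n ^ 15) (Y := Cs * (1 + NN n * tau n)) (κ := eps n ^ 12000) (εs := eps n ^ 3000)
    (x1 := eps n ^ 2700) (ε2 := eps n ^ 5600) (x := eps n ^ 1300) (r := eps n ^ 600)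
    (Γ := (P n).Gam β) hn hβ.le ?_ ?_ ?_ ?_ (by exact_mod_cast hM0.trans_le hM1) (fun j hj => ?_)
    hc hc0 (by positivity) (fun s s' => hG β c0 C0 _ (P n) hβ hc0 hOK hGd s s') (fun s hs => ?_)
    (fun w L hw ho hL => ?_) hFm τ0.le hτb (hp _) (pow_le_one₀ u0.le u1) ?_
    (hρ1.trans (hl _ _ (by norm_num))) (by positivity) (hp _).le ?_ ?_ le_rfl ?_ (hp _).le ?_
    (hp _).le ?_ ?_ ?_ (hp _).le ?_ ?_
  · rw [opn_smul, abs_of_pos hβ0, mul_comm]; exact mul_le_mul_of_nonneg_right z1 hβ0.le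
  · rwa [show 11200 = 5600 * 2 from rfl, sq2, show 5600 = 2800 * 2 from rfl, sq2] at z2
  · have a1 := hF c0 C0 _ (P n) hOK hGd n
    have a2 := pw_le hn (a := 1 / 11) 3002 (by norm_num)
    have e : (n : ℝ) ^ (10 / 11 : ℝ) = n * pw (1 / 11) n := by
      rw [pw, mul_comm, ← Real.rpow_add_one hn'.ne']; norm_num
    have a3 := hn1 hn 3002 (by norm_num)
    have a4 := d (Cf + 3) (by linarith) 3002 3000 (by norm_num)
    rw [e] at a1 z3
    rw [hP]
    nlinarith [mul_le_mul_of_nonneg_left a2 (by positivity : 0 ≤ n * (Cf + 2)),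
      mul_le_mul_of_nonneg_left a3 hn'.le, mul_le_mul_of_nonneg_left a4 hn'.le]
  · have := z4 B hB
    unfold TreeOn at this ⊢
    rwa [prob_W]
  · have := z5 j hj
    rw [← pow_mul, ← pow_mul] at this
    refine sc2_mono this ?_
    have a1 : (j : ℝ) * tau n ≤ NN n * tau n := by gcongr
    have a2 : (1 + j * tau n) * eps n ≤ 3 := by nlinarith
    rw [show 1400 * 2 = 2799 + 1 from rfl, pow_succ]
    nlinarith [mul_le_mul_of_nonneg_left a2 (by positivity : 0 ≤ C2 * eps n ^ 2799)]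
  · have a1 := hE β (P n) hβ0 hOK s hs _ T0
    have a2 := exp_small u0 t1
    have a3 := d _ (by linarith : (2 : ℝ) ^ 16 * (Nat.factorial 16) ≤ K) 16 15 (by norm_num)
    exact le_trans (sub_le_sub_left (a2.trans a3) 1) a1
  · have a0 := d 4 (by linarith) 12439 0 (by norm_num)
    refine (hS n w (tau n) (tau n) (NN n) L hn hw τ0 le_rfl (pow_le_one₀ u0.le u1) ?_ hL).mono
      le_rfl ?_ ?_
    · rw [pow_zero] at a0
      exact (div_le_one hn').1 (lg.trans a0)
    · have a1 : 1 / √n ≤ eps n ^ 20000 := by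
        refine le_trans (le_of_eq ?_) (pw_le hn (a := 1 / 2) 20000 (by norm_num))
        rw [pw, Real.rpow_neg hn'.le, Real.sqrt_eq_rpow, one_div]
      have a2 := d (6 * Cs) (by linarith) 12439 12000 (by norm_num)
      refine le_trans ?_ a2
      calc _ ≤ Cs * (1 + NN n * tau n) / tau n * (2 * eps n ^ 20000) :=
            mul_le_mul_of_nonneg_left (by linarith) (by positivity)
        _ = (1 + NN n * tau n) * eps n * (2 * Cs * eps n ^ 12439) := by
            rw [show 20000 = 7560 + (1 + 12439) from rfl, pow_add, pow_add, pow_one, ← tau]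
            field_simp
        _ ≤ 3 * (2 * Cs * eps n ^ 12439) := mul_le_mul_of_nonneg_right T3 (by positivity)
        _ = _ := by ring
    · rw [tau, show 7560 = 3780 * 2 from rfl, sq2]
      have a1 := d (5 * Cs) (by linarith) 3780 3000 (by norm_num)
      have a2 := hl 12439 3780 (by norm_num)
      nlinarith [mul_le_mul_of_nonneg_left (lg.trans (by linarith : _ ≤ 4 * eps n ^ 3780))
        (by linarith : 0 ≤ Cs)]
  · linarith [d 9 (by linarith) 12000 11200 (by norm_num)]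
  · have a1 := pw_le hn (a := 1 / 250) 3000 (by norm_num)
    have a2 := hn1 hn 3000 (by norm_num)
    have a3 := d (3 * β + 1) (by linarith) 12000 3000 (by norm_num)
    have a4 : eps n ^ 12000 * (Cs * (1 + NN n * tau n)) ≤ eps n ^ 3000 := by
      refine le_trans ?_ (hl 11998 3000 (by norm_num))
      rw [show 12000 = 11998 + 2 from rfl, pow_add]
      nlinarith [mul_le_mul_of_nonneg_left hY (hp 11998).le]
    have a5 := hl 3000 2800 (by norm_num)
    have a6 := d (C1 + 6) (by linarith) 2800 2700 (by norm_num)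
    linarith
  · have a1 := hn1 hn 6000 (by norm_num)
    have a2 : 1 / (Mc n : ℝ) ≤ eps n ^ 6000 := by
      refine le_trans ?_ (pw_le hn (a := 1 / 200) 6000 (by norm_num))
      rw [pw, Real.rpow_neg hn'.le, one_div]
      exact inv_anti₀ hM0 hM1
    have a3 := hl 12000 6000 (by norm_num)
    have a4 := d 9 (by linarith) 6000 5600 (by norm_num)
    have a5 : 2 / (n : ℝ) = 2 * (1 / n) := by ring
    have a6 := sq2 6000
    rw [show 6000 * 2 = 12000 from rfl] at a6
    rw [a6]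
    linarith
  · have a1 := d ((3 * C2 + 1) / c) (by linarith) 2700 2600 (by norm_num)
    have a2 := hl 2799 2700 (by norm_num)
    rw [div_mul_eq_mul_div, div_le_iff₀ hc] at a1
    rw [← pow_mul, show 1300 * 2 = 2600 from rfl]
    linarith [mul_le_mul_of_nonneg_left a2 (by linarith : 0 ≤ 3 * C2)]
  · have a1 := d (10 / c0) (by linarith) 1300 1200 (by norm_num)
    rw [div_mul_eq_mul_div, div_le_iff₀ hc0] at a1
    rw [← pow_mul, tau, show 600 * 2 = 1200 from rfl]
    linarith [hn1 hn 1300 (by norm_num), hl 7560 1300 (by norm_num), hl 5600 1300 (by norm_num)]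
  · linarith [d 3 (by linarith) 600 210 (by norm_num), hl 5600 600 (by norm_num)]
  · rw [← pow_mul]; exact hl _ _ (by norm_num)
  · linarith [d 2 (by linarith) 43 42 (by norm_num), hl 2700 43 (by norm_num)]
  · rw [← one_div, le_div_iff₀ (hp 2)]; exact hY
  · linarith [d 4 (by linarith) 15 14 (by norm_num), hl 1300 15 (by norm_num),
      hl 5600 15 (by norm_num), hp 15]

end Crest.Agent.T157.An

end
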