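import Crest.Agent.T157.AtY_39
import Crest.Agent.T157.LpAll_17

/-!
# Row 157, block S3 (helper39): approximate tensorisation at typical fields, unconditionally
-/

set_option autoImplicit false

namespace Crest.Agent.T157.Atd

theorem atyG : ATyG := atyG_of Tap.ufStmt TapFrz.frzStmt LpAll.frozStmt LpAll.covStmt

theorem atyStmt : ATyStmt := aty_of atyG

end Crest.Agent.T157.Atd
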