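import Crest.Agent.T157.AtAll_39

/-!
# Row 157, block S3 (helper39): level-uniform approximate tensorisation at typical fields
-/

set_option autoImplicit false
set_option linter.unusedSectionVars false

noncomputable section

namespace Crest.Agent.T157.Atd

open MeasureTheory Set Real Matrix Filter Topology
open Crest.ProbabilityR.SpinGlassDynamics
open Crest.Agent.T157.E Crest.Agent.T157.SL Crest.Agent.T157.Tap Crest.Agent.T157.Top
open Crest.Agent.T157.Glue
open Crest.Agent.T157.Eig (nrm opn nrm_nonneg nrm_add_le nrm_smul continuous_nrm)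

variable {n : ℕ} {w : Cube n → ℝ} {J : Mx n}

def ATyGU : Prop := ∀ β ∈ Ioo (0 : ℝ) 1, ∃ K > (0 : ℝ), ∃ ρ > (0 : ℝ), ∃ κ > (0 : ℝ),
  Whp GOE fun n W => ∀ S, ATy (ising (β • W) 0) S K (ρ * √n) (exp (-(κ * n)))

def ATyU : Prop := ∀ β ∈ Ioo (0 : ℝ) 1, ∃ K > (0 : ℝ), ∃ ρ > (0 : ℝ), ∃ κ > (0 : ℝ),
  Whp disorderLaw fun n g => ∀ S, ATy (gibbsWeight n β g) S K (ρ * √n) (exp (-(κ * n)))

theorem atd_fro (hJ : Jᵀ = J) (hJ3 : opn J ≤ 3) {M : ℝ} (hM : 0 ≤ M) {h : V n}
    (hy : Fro J M (24 * √n) h) :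
    ATd (ising J h) (exp (6 * M + 2)) (exp (6 * M + 2) * (48 * n * exp (-(n / 2)))) :=
  fun F hF c B hB => by
  have hp : ∀ x, 0 < ising J h x := fun _ => exp_pos _
  have e := hs_ent hJ hJ3 hF (maj_maj hp hF) hM h (Or.inl ⟨hy, le_rfl⟩) c
  rw [mean_maj hp] at e
  refine e.trans ?_
  rw [mul_assoc (exp _), ← mul_add]
  exact mul_le_mul_of_nonneg_left (add_le_add le_rfl (mul_le_mul_of_nonneg_left
    ((wt_ising J h).mean_le hB) (by positivity))) (exp_pos _).le

theorem law_far (hw : Wt w) {s : ℝ} :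
    (law sv w s).real {y | ∀ σ : Cube n, 2 * √s * √n < nrm (y - s • sv σ)} ≤ exp (-(n / 2)) := by
  have hA : MeasurableSet {y : V n | ∀ σ : Cube n, 2 * √s * √n < nrm (y - s • sv σ)} := by
    rw [ofPred_forall]
    exact .iInter fun σ => measurableSet_lt measurable_const
      (continuous_nrm.comp (by fun_prop)).measurable
  rw [law_real hw hA]
  refine hw.mean_le fun x => (px_le hA x fun z hz => ?_).trans (nrm_tail n)
  have h4 := hz x
  rw [add_sub_cancel_left, nrm_smul, abs_of_nonneg (sqrt_nonneg _)] at h4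
  simp only [mem_ofPred_eq]
  by_contra h
  nlinarith [mul_le_mul_of_nonneg_left (not_le.1 h).le (sqrt_nonneg s)]

theorem atyGU : ATyGU := fun β hβ => by
  have hβ' : β ∈ Icc (0 : ℝ) 1 := Ioo_subset_Icc_self hβ
  obtain ⟨K₀, hU⟩ := Tap.ufStmt β hβ' (1 / 2) (by norm_num)
  obtain ⟨ε, hε, hF⟩ := TapFrz.frzStmt
  obtain ⟨η, hη, T0, M, hZ⟩ := LpAll.frozStmt ε hε K₀
  obtain ⟨T, hT0, hT2, hT3⟩ : ∃ T, T0 ≤ T ∧ 50 ≤ η * T ∧ 16 ≤ η ^ 2 * T :=
    ⟨max T0 (max (50 / η) (16 / η ^ 2)), by simp,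
      (div_le_iff₀' hη).1 (by simp), (div_le_iff₀' (pow_pos hη 2)).1 (by simp)⟩
  obtain ⟨K, hK, ρ, hρ, κ, hκ, h⟩ := atyG β hβ T
  set b := exp (6 * max M 0 + 2)
  refine ⟨max K b, by positivity, min ρ 1, by positivity, min κ (1 / 4), by positivity, ?_⟩
  refine ((((hU.and hF).and h).and whp_opn).and whp_symm).mono ?_
  filter_upwards [eventually_gt_atTop 0, ev_small (b * 48) (one_half_pos (α := ℝ))] with n hn hn' W
    ⟨⟨⟨⟨h1, h2⟩, h3⟩, h4⟩, h5⟩ S r hr
  have hw : ∀ x, 0 < ising (β • W) 0 x := fun _ => exp_pos _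
  have hW := Wt.of_pos hw
  have n0 : (0 : ℝ) ≤ n := n.cast_nonneg
  have sn := sqrt_nonneg (n : ℝ)
  have e1 : exp (-(κ * n)) ≤ exp (-(min κ (1 / 4) * n)) := exp_le_exp.2 (by
    linarith [mul_le_mul_of_nonneg_right (min_le_left κ (1 / 4)) n0])
  have e2 : exp (-(1 / 2 / 2 * n)) ≤ exp (-(min κ (1 / 4) * n)) := exp_le_exp.2 (by
    linarith [mul_le_mul_of_nonneg_right (min_le_right κ (1 / 4)) n0])
  have := isProb_law (φ := sv) (s := r) hW
  rcases le_total r T with hT | hT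
  · refine le_trans (measureReal_mono fun y hy => ?_) ((h3 r ⟨hr.1, hT⟩).trans e1)
    exact fun h => hy fun v hv => (h v (hv.trans
      (mul_le_mul_of_nonneg_right (min_le_left _ _) sn))).mono (tilt_pos hw _) (le_max_left _ _) e1
  refine le_trans (measureReal_mono fun y hy => ?_) (((law_far hW).trans
    (exp_le_exp.2 (by linarith))).trans e2)
  intro σ
  by_contra hσ
  refine hy fun v hv => ?_
  have hw' := tilt_pos hw (y + v)
  rw [tilt_ising, zero_add] at hw' ⊢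
  refine (atd_fro (J := β • W) (M := max M 0) (by rw [transpose_smul, h5]) (by
      rw [Eig.opn_smul, abs_of_pos hβ.1]; nlinarith [hβ.1, hβ.2, Eig.opn_nonneg W])
    (le_max_right M 0) fun t ht h' hh u => ?_).mono hw' (le_max_right _ _)
    (le_trans (le_of_eq ?_) (hn'.trans e2))
  · rw [smul_smul]
    refine ((hZ n W β hn h5 hβ' h4 h2 h1 r (hT0.trans hT) _ ⟨mul_nonneg (sub_nonneg.2 ht.2) hβ'.1,
      mul_le_of_le_one_left hβ'.1 (sub_le_self _ ht.1)⟩ σ h' ?_).2 u).trans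
      (mul_le_mul_of_nonneg_right (le_max_left _ _) (dot_self_nonneg u))
    have a1 := nrm_add_le (h' - (y + v)) (v + (y - r • sv σ))
    have a2 := nrm_add_le v (y - r • sv σ)
    rw [show h' - (y + v) + (v + (y - r • sv σ)) = h' - r • sv σ by abel] at a1
    have a3 := hv.trans (mul_le_mul_of_nonneg_right (min_le_right _ _) sn)
    have a4 : 4 ≤ η * √r := by
      refine le_of_sq_le_sq ?_ (by positivity)
      rw [mul_pow, sq_sqrt hr.1]; nlinarith [mul_le_mul_of_nonneg_left hT (sq_nonneg η)]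
    have a5 := mul_le_mul_of_nonneg_right a4 (sqrt_nonneg r)
    rw [mul_assoc, mul_self_sqrt hr.1] at a5
    have a6 : 25 + 2 * √r ≤ η * r := by nlinarith [mul_le_mul_of_nonneg_left hT hη.le]
    nlinarith [not_lt.1 hσ, mul_le_mul_of_nonneg_right a6 sn]
  · rw [show (1 / 2 * n : ℝ) = n / 2 by ring]; ring

theorem atyU : ATyU := fun β hβ => by
  obtain ⟨K, hK, ρ, hρ, κ, hκ, h⟩ := atyGU β hβ
  exact ⟨K, hK, ρ, hρ, κ, hκ, GoeT.transfer β
    (fun n w => ∀ S, ATy w S K (ρ * √n) (exp (-(κ * n))))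
    (fun n w hw => forall_congr' fun S => aty_prob hw _ _ _ _) h⟩

end Crest.Agent.T157.Atd

end
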