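import Crest.Agent.T157.EnDef_40
import Crest.Agent.T157.EnCnt_55

/-!
# Row 157, block B, END (helper11): the channel and the exceptional mass
-/

set_option autoImplicit false
set_option linter.unusedSectionVars false

noncomputable section

namespace Crest.Agent.T157.En

open MeasureTheory Real Matrix Finset
open Crest.Agent.T157.E Crest.Agent.T157.SL
open Crest.Agent.T157.Ta (XG LG lk lg_lk mean_pos' xg_mean)
open Crest.Agent.T157.EnS (fR)
open Crest.Agent.T157.Eig (opn)
open Crest.Agent.T157.S3 (V Mx hf)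

namespace Bd11

variable {n : ℕ} {Ω ι : Type} [Fintype Ω] [Fintype ι] [DecidableEq ι]

lemma ib_mem (a b : ℝ) : 0 ≤ ib a b ∧ ib a b ≤ 1 := by unfold ib; split_ifs <;> norm_num

lemma ib_le {a b c m m' : ℝ} (h : a ≤ b + c) : ib (m + m') a ≤ ib m b + ib m' c := by
  unfold ib; split_ifs <;> linarith

lemma na_eq (u : V n) (θ : ℝ) (x : Cube n) : na u θ x = ∑ j, if sv x j * u j < θ then 1 else 0 :=
  natCast_card_filter _ _

lemma na_le (u z : V n) (θ a b : ℝ) (x : Cube n) :
    na (u + b • sv x + z) (θ - a) x ≤ na u θ x + na z (-(a + b)) x := by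
  simp only [na_eq, ← sum_add_distrib, Pi.add_apply, Pi.smul_apply, smul_eq_mul, mul_add,
    mul_left_comm (sv x _) b, Rec.sv_mul_self]
  exact sum_le_sum fun j _ => by split_ifs <;> linarith

lemma xg_ib {u : (ι → ℝ) → V n} (hu : ∀ j, Measurable fun y => u y j) (a θ : ℝ) (x : Cube n) :
    XG fun y => ib a (na (u y) θ x) := by
  refine .of_bdd (.ite (measurableSet_lt measurable_const ?_) measurable_const measurable_const) 1
    fun y => abs_le.2 ⟨by linarith [(ib_mem a (na (u y) θ x)).1], (ib_mem _ _).2⟩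
  simp only [na_eq]
  exact Finset.measurable_sum _ fun j _ => .ite (measurableSet_lt ((hu j).const_mul _) measurable_const)
    measurable_const measurable_const

/-- the ratio of the masses is a martingale -/
lemma ratio {φ : Ω → ι → ℝ} {v w : Ω → ℝ} {t : ℝ} (hv : Wt v) (hw : Wt w) (ht : 0 ≤ t) (b : Ω → ℝ) :
    XG (fun y => (∑ x, post φ w t y x * b x) / ∑ x, post φ v t y x) ∧
      slE φ v t (fun _ y => (∑ x, post φ w t y x * b x) / ∑ x, post φ v t y x) =
        (∑ x, w x * b x) / ∑ x, v x := by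
  have e : ∀ y, (∑ x, post φ w t y x * b x) / ∑ x, post φ v t y x = ∑ x, w x * b x / (∑ x, v x) *
      exp (lk φ t x y - log (mean v fun x => exp (lk φ t x y))) := fun y => by
    have a1 : 0 < mean v fun x => exp (lk φ t x y) := mean_pos' hv fun _ => exp_pos _
    have a3 : ∑ x, post φ v t y x = (∑ x, v x) * mean v fun x => exp (lk φ t x y) := by
      rw [mean_eq_div, mul_div_cancel₀ _ hv.pos.ne']; rfl
    rw [a3, sum_div]
    refine sum_congr rfl fun x _ => ?_
    rw [exp_sub, exp_log a1]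
    change w x * exp (lk φ t x y) * b x / _ = _
    ring
  have m : XG fun y => (∑ x, post φ w t y x * b x) / ∑ x, post φ v t y x := by
    simp only [e]
    exact .sum _ fun x _ => ((lg_lk φ t x).sub (.lme hv.nn (lg_lk φ t))).exp.const_mul _
  have h2 := slE_eq_ref' (φ := φ) (v := w) ht (F := fun x _ => b x) fun _ => integrable_const _
  rw [slE_fun, mean_eq_div, div_left_inj' hw.pos.ne'] at h2
  refine ⟨m, ?_⟩
  rw [slE_eq_ref' ht (.of_mg fun _ => m.mg), h2]
  simp only [← sum_mul, mul_div_cancel₀ _ (hv.post φ t _).pos.ne']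

lemma clip_lip (a b : ℝ) : |min 1 (max 0 a) - min 1 (max 0 b)| ≤ |a - b| := by
  have h1 := le_abs_self (a - b)
  have h2 := neg_abs_le (a - b)
  simp only [min_def, max_def, abs_le]
  split_ifs <;> constructor <;> linarith

/-- **COUNT** -/
lemma tail {W1 R : Mx n} {M A m1 t : ℝ} (hd : ∀ i, W1 i i = 0) (ho : opn W1 ≤ M) (hM : 0 < M)
    (hR : Rᵀ = R) (hRR : R * R = W1 + M • (1 : Mx n)) (t0 : 0 ≤ t) (t1 : t ≤ 1) (hA : 0 < A)
    (hm : n * exp (-(2 * A)) ≤ m1) (x : Cube n) :
    ∫ g, ib (2 * m1) (na (√t • R *ᵥ g) (-(2 * A + t * M)) x) ∂Gs (Fin n) ≤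
      exp (-(1 / 4 * (m1 * A) ^ 2 / (M * n))) := by
  rcases Nat.eq_zero_or_pos n with rfl | hn
  · exact (integral_mono_of_nonneg (ae_of_all _ fun _ => (ib_mem _ _).1) (integrable_const 1)
      (ae_of_all _ fun _ => (ib_mem _ _).2)).trans (by simp)
  have n0 : (0 : ℝ) < n := Nat.cast_pos.2 hn
  have m0 : 0 ≤ m1 := le_trans (by positivity) hm
  have eR : ∀ g : V n, g ᵥ* R = R *ᵥ g := fun g => by rw [← mulVec_transpose, hR]
  set ψ : Fin n → ℝ → ℝ := fun j z => min 1 (max 0 ((-(√t * sv x j) * z - (A + t * M)) / A)) with hψ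
  have p0 : ∀ j z, 0 ≤ ψ j z := fun j z => le_min zero_le_one (le_max_left _ _)
  have hc := Cnt.lip_cnt (R := R) (c := 2 * M) (d := A) (η := m1 / n) (by positivity) hA (by positivity)
    hn (fun u => by rw [eR]; exact Glue.Q_sq_le hR hRR ho u) ψ fun j s s' => (clip_lip _ _).trans (by
      rw [← sub_div, sub_sub_sub_cancel_right, ← mul_sub, abs_div, abs_of_pos hA, abs_mul, abs_neg,
        abs_mul, (abs_eq zero_le_one).2 (mul_self_eq_one_iff.1 (Rec.sv_mul_self x j)),
        abs_of_nonneg (sqrt_nonneg t), mul_one]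
      exact div_le_div_of_nonneg_right (mul_le_of_le_one_left (abs_nonneg _) (sqrt_le_one.2 t1)) hA.le)
  have hE : ∫ g, ∑ j, ψ j ((g ᵥ* R) j) ∂Gs (Fin n) ≤ m1 := by
    have i1 := fun j => (Rec.mg_eh ((-(2 * √t * sv x j)) • fun i => R i j)).int.const_mul (exp (-(2 * A)))
    refine (integral_mono_of_nonneg (ae_of_all _ fun g => sum_nonneg fun j _ => p0 j _)
      (integrable_finsetSum univ fun j _ => i1 j) (ae_of_all _ fun g => sum_le_sum fun j _ => ?_)).trans ?_
    · have c1 : ((fun i => R i j) ⬝ᵥ fun i => R i j) = M := by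
        have : (Rᵀ * R) j j = M := by rw [hR, hRR]; simp [hd]
        exact this
      have c2 : exp (-(2 * A)) * Rec.eh ((-(2 * √t * sv x j)) • fun i => R i j) g =
          exp (2 * (-(√t * sv x j) * (g ᵥ* R) j - (A + t * M))) := by
        rw [Rec.eh, ← exp_add, smul_dotProduct, dotProduct_smul, dotProduct_smul, c1]
        congr 1
        change _ + (_ * (g ᵥ* R) j - _ * (_ * M) / 2) = _
        linear_combination (-(2 * M * sv x j * sv x j)) * mul_self_sqrt t0 +
          (-(2 * M * t)) * Rec.sv_mul_self x j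
      rw [c2]
      rcases le_total (-(√t * sv x j) * (g ᵥ* R) j - (A + t * M)) 0 with h | h
      · exact (min_le_right _ _).trans (max_le (exp_pos _).le
          ((div_nonpos_of_nonpos_of_nonneg h hA.le).trans (exp_pos _).le))
      · exact (min_le_left _ _).trans (one_le_exp (by linarith))
    · rw [integral_finsetSum _ fun j _ => i1 j]
      simpa [integral_const_mul, Rec.int_eh] using hm
  have hS : MeasurableSet {g : V n | m1 / n * n ≤ ∑ j, ψ j ((g ᵥ* R) j) -
      ∫ g, ∑ j, ψ j ((g ᵥ* R) j) ∂Gs (Fin n)} := measurableSet_le measurable_const (by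
    simp only [hψ, vecMul, dotProduct]; fun_prop)
  refine le_trans ?_ (hc.trans_eq (by congr 2; field_simp; norm_num))
  rw [← integral_indicator_one hS]
  refine integral_mono_of_nonneg (ae_of_all _ fun _ => (ib_mem _ _).1)
    ((integrable_const 1).indicator hS) (ae_of_all _ fun g => ?_)
  have c3 : na (√t • R *ᵥ g) (-(2 * A + t * M)) x ≤ ∑ j, ψ j ((g ᵥ* R) j) := by
    rw [na_eq]
    refine sum_le_sum fun j _ => ?_
    split_ifs with h
    · rw [← eR, Pi.smul_apply, smul_eq_mul] at h
      exact le_min le_rfl (le_max_of_le_right ((one_le_div hA).2 (by linarith)))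
    · exact p0 j _
  beta_reduce
  unfold ib
  split_ifs with h
  · rw [Set.indicator_of_mem, Pi.one_apply]
    rw [Set.mem_ofPred_eq, div_mul_cancel₀ _ n0.ne']
    linarith
  · exact Set.indicator_nonneg (fun _ _ => zero_le_one) _

end Bd11

open Bd11 in
theorem bdStmt : BdStmt := by
  refine ⟨1 / 4, by norm_num, fun n W W1 R h v w Λ M A θ m m1 r t xs _ hd ho hM hR hRR t0 t1 =>
    ⟨fun Θ y ⟨c, hc⟩ => ⟨c - t / 2 * (M * n), fun x => ?_⟩, fun hv hw _ hA hm => ?_⟩⟩
  · simp only [post, hc, fR, ising, ← exp_add, Glue.Q_sq hR hRR, sv_dot_self, Glue.dot_Q hR y,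
      sub_mulVec, smul_mulVec, dotProduct_sub, dotProduct_smul, add_dotProduct, smul_eq_mul]
    congr 1; ring
  obtain ⟨r1, r2⟩ := ratio (φ := fR R) hv (.of_pos hw) t0 fun x => ib r (En.hd x xs)
  have m1' : ∀ x, XG fun y => ib (m + 2 * m1) (na (hf (W - t • W1) (h + R *ᵥ y) x) (θ - 2 * A) x) +
      ib r (En.hd x xs) := fun x => (xg_ib (fun j => by
    simp only [hf, Pi.add_apply, mulVec, dotProduct]; fun_prop) _ _ x).add (.const _)
  have m2 := XG.of_mg (mg_mean (φ := fR R) hv t fun x => (m1' x).mg)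
  simp only [Bf, mul_div_assoc]
  refine ⟨m2.add (r1.const_mul Λ), ?_⟩
  rw [slE_add (.of_mg fun _ => m2.mg) (.of_mg fun _ => (r1.const_mul Λ).mg),
    slE_const_mul Λ fun _ y => _ / ∑ x, post (fR R) v t y x, r2,
    ← bayes hv t0 (.of_mg fun x => (m1' x).mg), add_right_comm, ← hv.mean_const (exp _), ← mean_add]
  refine add_le_add (hv.mean_mono fun x => ?_) le_rfl
  have m3 := (xg_ib (u := fun g : V n => √t • R *ᵥ g) (fun j => by
    simp only [Pi.smul_apply, mulVec, dotProduct, smul_eq_mul]; fun_prop) (2 * m1)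
      (-(2 * A + t * M)) x).mg.int
  refine (integral_mono (g := fun g => ib m (na (hf W h x) θ x) + ib r (En.hd x xs) +
    ib (2 * m1) (na (√t • R *ᵥ g) (-(2 * A + t * M)) x)) ((m1' x).mg.affine _ _).int
      ((integrable_const _).add m3) fun g => ?_).trans ?_
  · have e : hf (W - t • W1) (h + R *ᵥ (t • fR R x + √t • g)) x =
        hf W h x + (t * M) • sv x + √t • R *ᵥ g := by
      simp only [hf, fR, sub_mulVec, smul_mulVec, mulVec_add, mulVec_smul, mulVec_mulVec, hRR,
        add_mulVec, one_mulVec]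
      module
    beta_reduce
    rw [e]
    linarith [ib_le (m := m) (m' := 2 * m1) (na_le (hf W h x) (√t • R *ᵥ g) θ (2 * A) (t * M) x)]
  · rw [integral_add (integrable_const _) m3, integral_const, probReal_univ, one_smul, ← mul_div_assoc]
    exact add_le_add le_rfl (tail hd ho hM hR hRR t0 t1 hA hm x)

end Crest.Agent.T157.En

end
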