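import Crest.Agent.T157.EnEnd_40

/-!
# Row 157, block B, S1: the END (helper40), three stages and the untilt
-/

set_option autoImplicit false

noncomputable section

namespace Crest.Agent.T157.En

open MeasureTheory Real Matrix Finset Filter Set
open Crest.Agent.T157.E Crest.Agent.T157.SL
open Crest.Agent.T157.Ta (Pr Ar Cnt Dm)
open Crest.Agent.T157.EnS (o1 ep)
open Crest.Agent.T157.Eig (nrm opn)
open Crest.Agent.T157.S3 (V Mx)

namespace Core40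

variable {n : ℕ} {W W' : Mx n} {c c' ω ω' s s' m : ℝ}

theorem smul (h : Blk W c ω s m) {a : ℝ} (ha : |a| ≤ 1) :
    Blk (a • W) c ω s m := by
  refine ⟨by rw [transpose_smul, h.symm], fun i => by simp [h.diag], ?_, fun v hv => ?_,
    fun u v hu hv => ?_⟩
  · rw [Eig.opn_smul]
    exact (mul_le_of_le_one_left (Eig.opn_nonneg _) ha).trans h.op
  · rw [smul_mulVec, Eig.nrm_smul]
    exact (mul_le_of_le_one_left (Eig.nrm_nonneg _) ha).trans (h.col v hv)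
  · rw [smul_mulVec, dotProduct_smul, smul_eq_mul, abs_mul]
    exact (mul_le_of_le_one_left (abs_nonneg _) ha).trans (h.blk u v hu hv)

theorem add (h : Blk W c ω s m) (h' : Blk W' c' ω' s' m) :
    Blk (W + W') (c + c') (ω + ω') (s + s') m := by
  refine ⟨by rw [transpose_add, h.symm, h'.symm], fun i => by simp [h.diag, h'.diag],
    (Eig.opn_add_le _ _).trans (add_le_add h.op h'.op), fun v hv => ?_, fun u v hu hv => ?_⟩
  · rw [add_mulVec, add_mul]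
    exact (Eig.nrm_add_le _ _).trans (add_le_add (h.col v hv) (h'.col v hv))
  · rw [add_mulVec, dotProduct_add, add_mul]
    exact (abs_add_le _ _).trans (add_le_add (h.blk u v hu hv) (h'.blk u v hu hv))

theorem zero : Blk (0 : Mx n) 0 0 0 m :=
  ⟨transpose_zero, fun _ => rfl, by simp, fun v _ => by simp, fun u v _ _ => by simp⟩

theorem ib_mono {a a' b b' : ℝ} (ha : a' ≤ a) (hb : b ≤ b') : ib a b ≤ ib a' b' := by
  unfold ib; split_ifs with h1 h2 <;> norm_num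
  exact h2 (by linarith)

theorem Bf_mono {v w : Cube n → ℝ} (hv : Wt v) (Λ : ℝ) (W : Mx n) (h : V n) {θ θ' m m' : ℝ}
    (h1 : θ ≤ θ') (h2 : m' ≤ m) (xs : Cube n) (r : ℝ) :
    Bf v w Λ W h θ m xs r ≤ Bf v w Λ W h θ' m' xs r := by
  refine add_le_add (hv.mean_mono fun x => add_le_add (ib_mono h2 ?_) le_rfl) le_rfl
  refine Nat.cast_le.2 (card_le_card fun j hj => ?_)
  exact mem_filter.2 ⟨(mem_filter.1 hj).1, (mem_filter.1 hj).2.trans_le h1⟩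

theorem Bf_nonneg {v w : Cube n → ℝ} (hv : Wt v) (hw : ∀ x, 0 < w x) {Λ : ℝ}
    (hΛ : ∀ x, v x ≤ Λ * w x) (W : Mx n) (h : V n) (θ m : ℝ) (xs : Cube n) (r : ℝ) :
    0 ≤ Bf v w Λ W h θ m xs r := by
  have l0 : 0 ≤ Λ := nonneg_of_mul_nonneg_left ((hv.nn default).trans (hΛ default)) (hw default)
  exact add_nonneg (hv.mean_nonneg fun x => add_nonneg (End40.ib_nonneg _ _) (End40.ib_nonneg _ _))
    (div_nonneg (mul_nonneg l0 (sum_nonneg fun x _ => mul_nonneg (hw x).le (End40.ib_nonneg _ _)))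
      hv.pos.le)

theorem ex_le {B b c0 φ A M M' x y : ℝ} (hb : b ≤ B) (b0 : 0 ≤ b) (c00 : 0 < c0) (f0 : 0 < φ)
    (A1 : 1 ≤ A) (M0 : 0 < M) (hM : M ≤ M') (x0 : 0 < x) (hy : φ * x ≤ y)
    (h : B * x ^ 12 * exp (-(c0 * φ ^ 2 / M' * x)) ≤ 1) :
    b * x ^ 12 * exp (-(c0 * (y * A) ^ 2 / (M * x))) ≤ 1 := by
  refine le_trans (mul_le_mul (mul_le_mul_of_nonneg_right hb (by positivity))
    (exp_le_exp.2 (neg_le_neg ?_)) (exp_pos _).le (mul_nonneg (b0.trans hb) (by positivity))) h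
  have y0 : 0 < y := (mul_pos f0 x0).trans_le hy
  have h1 : (φ * x) ^ 2 ≤ (y * A) ^ 2 :=
    pow_le_pow_left₀ (by positivity) (hy.trans (le_mul_of_one_le_right y0.le A1)) 2
  calc c0 * φ ^ 2 / M' * x = c0 * (φ * x) ^ 2 / (M' * x) := by
        have := M0.trans_le hM
        field_simp
    _ ≤ _ := by gcongr

theorem st {a κ c1 M l' : ℝ} (a0 : 0 ≤ a) (a1 : a ≤ 1) (k0 : 0 < κ) (k1 : κ ≤ 1) (M0 : 0 < M)
    (c10 : 0 ≤ c1) (h1 : 16 * c1 ≤ κ * M) (h2 : a + κ / 4 ≤ l') :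
    a * (M + c1) * (1 + κ / 16) ≤ l' * M := by
  have u1 : (M + c1) * (1 + κ / 16) ≤ M + κ / 4 * M := by
    nlinarith [mul_le_mul_of_nonneg_right k1 c10, mul_pos k0 M0]
  have u2 := mul_le_mul_of_nonneg_left u1 a0
  nlinarith [mul_le_mul_of_nonneg_right h2 M0.le,
    mul_le_mul_of_nonneg_right a1 (show 0 ≤ κ / 4 * M by positivity)]

theorem geos {J Q : Mx n} {q A : ℝ} {m : ℕ} (bJ : Blk J 3 3 s (50 * m)) (bQ : Blk Q q s s (50 * m))
    (q1 : 1 ≤ q) (m1 : 1 ≤ m) (s0 : 0 ≤ s) (s1 : s ≤ 1 / 20000) (A1 : 48 ≤ A)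
    (nA : n * exp (-(2 * A)) ≤ m) (hc : (q + 7) * exp (-A) ≤ s) : Blk (-Q) q s s (50 * m) ∧
    (∀ t ∈ Icc (0 : ℝ) 1, Geo ((1 - t) • J + -Q) (3 + q) (3 + s) (s + s) A m) ∧
    (∀ t ∈ Icc (0 : ℝ) 1, Geo ((1 - t) • -Q + 0) q s s A m) ∧
    ∀ t ∈ Icc (0 : ℝ) 1, Geo ((1 - t) • (0 : Mx n) + 0) 0 0 0 A m := by
  have t1 : ∀ t ∈ Icc (0 : ℝ) 1, |1 - t| ≤ 1 := fun t ht =>
    abs_le.2 ⟨by linarith [ht.2], by linarith [ht.1]⟩
  have bN : Blk (-Q) q s s (50 * m) := by simpa using smul bQ (a := -1) (by simp)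
  have x1 := mul_le_mul_of_nonneg_right s1 (exp_pos (-A)).le
  have x0 := exp_pos (-A)
  exact ⟨bN, fun t ht => ⟨add (smul bJ (t1 t ht)) bN, m1, by linarith, by linarith, by linarith,
      by linarith, by linarith, by linarith, by linarith, nA, by linarith⟩,
    fun t ht => ⟨by rw [add_zero]; exact smul bN (t1 t ht), m1, by linarith, s0, by linarith,
      s0, by linarith, by linarith, by linarith, nA, by linarith⟩,
    fun t _ => ⟨by rw [add_zero, smul_zero]; exact zero, m1, le_rfl, le_rfl, by norm_num,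
      le_rfl, by norm_num, by linarith, by linarith, nA, by simp⟩⟩

/-- the constants -/
theorem cst {Ce Cs κ i q C1 s A β1 β2 : ℝ} (ce1 : 1 ≤ Ce) (cs1 : 1 ≤ Cs) (k0 : 0 < κ) (ki : κ * i = 1)
    (i1 : 1 ≤ i) (q1 : 1 ≤ q) (hC : C1 = 400000000 * ((Ce + Cs) * i ^ 3)) (hA : C1 ≤ A) (s0 : 0 ≤ s)
    (hs : C1 * q * s ^ 2 ≤ 1) (h1 : β1 = Cs * (48 * i) * (1 + 16 * i))
    (h2 : β2 = Cs * (16 * q * i) * (1 + 16 * i)) : s ≤ 1 / 20000 ∧ 48 ≤ A ∧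
    β1 * ((s + s) ^ 2 + (3 + s) ^ 2 / A) ≤ κ / 16 ∧ β2 * (s ^ 2 + s ^ 2 / A) ≤ κ / 16 ∧
    Ce * ((s + s) ^ 2 + (3 + s) ^ 2 / A) ≤ 1 / 2 ∧
    β2 * s ^ 2 + β1 * (s + s) ^ 2 + Ce * (s + s) ^ 2 ≤ C1 * q * s ^ 2 := by
  have i2 : i ≤ i ^ 2 := by nlinarith
  have i3 : i ^ 2 ≤ i ^ 3 := by nlinarith
  have e1 : Ce ≤ Ce * i ^ 3 := le_mul_of_one_le_right (by linarith) (by linarith)
  have e2 : Cs * i ^ 2 ≤ Cs * i ^ 3 := mul_le_mul_of_nonneg_left i3 (by linarith)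
  have e3 : Cs ≤ Cs * i ^ 2 := le_mul_of_one_le_right (by linarith) (by linarith)
  have c1 : 400000000 ≤ C1 := by rw [hC]; linarith
  have b1 : β1 ≤ 816 * (Cs * i ^ 2) := by
    rw [h1]; nlinarith [mul_le_mul_of_nonneg_left i2 (show 0 ≤ Cs by linarith)]
  have b2 : β2 ≤ 272 * (Cs * i ^ 2) * q := by
    rw [h2]; nlinarith [mul_le_mul_of_nonneg_left i2 (show 0 ≤ Cs * q by positivity)]
  have s2 := sq_nonneg s
  have ss : C1 * s ^ 2 ≤ 1 := by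
    nlinarith [mul_le_mul_of_nonneg_left q1 (show 0 ≤ C1 * s ^ 2 by positivity)]
  have s1 : s ≤ 1 / 20000 := by
    refine (pow_le_pow_iff_left₀ s0 (by norm_num) two_ne_zero).1 ?_
    nlinarith [mul_le_mul_of_nonneg_right c1 s2]
  have A0 : 0 < A := by linarith
  have x0 : 0 ≤ (s + s) ^ 2 + (3 + s) ^ 2 / A := by positivity
  have x1 : C1 * ((s + s) ^ 2 + (3 + s) ^ 2 / A) ≤ 20 := by
    have : C1 * ((3 + s) ^ 2 / A) ≤ 16 := by
      rw [← mul_div_assoc, div_le_iff₀ A0]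
      nlinarith [mul_le_mul_of_nonneg_left (show (3 + s) ^ 2 ≤ 16 by nlinarith)
        (show 0 ≤ C1 by linarith)]
    nlinarith
  have x2 : s ^ 2 / A ≤ s ^ 2 := div_le_self s2 (by linarith)
  have k1 : 400000000 * (Cs * i ^ 2) ≤ κ * C1 := by
    have : κ * (Cs * i ^ 3) = Cs * i ^ 2 := by linear_combination Cs * i ^ 2 * ki
    have := mul_nonneg k0.le (show 0 ≤ Ce * i ^ 3 by linarith)
    rw [hC]; linarith
  have k2 : 400000000 * Ce ≤ C1 := by rw [hC]; linarith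
  have k3 : 400000000 * (Cs * i ^ 2) + 400000000 * Ce ≤ C1 := by rw [hC]; linarith
  refine ⟨s1, by linarith, ?_, ?_, ?_, ?_⟩
  · linarith only [mul_le_mul_of_nonneg_right b1 x0, mul_le_mul_of_nonneg_right k1 x0,
      mul_le_mul_of_nonneg_left x1 k0.le, k0]
  · have y0 : 0 ≤ q * s ^ 2 := by positivity
    have y1 := mul_le_mul b2 (show s ^ 2 + s ^ 2 / A ≤ 2 * s ^ 2 by linarith) (by positivity)
      (by positivity)
    linarith only [mul_le_mul_of_nonneg_right k1 y0, mul_le_mul_of_nonneg_left hs k0.le, y1, k0]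
  · linarith only [mul_le_mul_of_nonneg_right k2 x0, x1]
  · have y0 : 0 ≤ q * s ^ 2 := by positivity
    have y2 : s ^ 2 ≤ q * s ^ 2 := le_mul_of_one_le_left s2 q1
    have z0 : 0 ≤ Cs * i ^ 2 := by positivity
    linarith only [mul_le_mul_of_nonneg_right k3 y0, mul_le_mul_of_nonneg_right b1 s2,
      mul_le_mul_of_nonneg_right b2 s2, mul_le_mul_of_nonneg_left y2 z0,
      mul_le_mul_of_nonneg_left y2 (show 0 ≤ Ce by linarith), mul_nonneg z0 y0,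
      mul_nonneg (show 0 ≤ Ce by linarith) y0]

/-- the last inequality -/
theorem fin {κ γ a l Ce Cs β1 β2 β3 ε gF gE X1 X2 s2 s4 u L2 x1 x2 x3 N b8 b2 Aa H En Xx Ep Xc D : ℝ}
    (k0 : 0 < κ) (k1 : κ ≤ 1) (γ0 : 0 < γ) (hl : a + κ ≤ l) (ce : 1 ≤ Ce) (cs : 1 ≤ Cs) (b1 : 0 ≤ β1)
    (b2' : 0 ≤ β2) (b3 : 0 ≤ β3) (ε0 : 0 < ε) (g0 : 0 ≤ gF) (εκ : (β1 + β2 + β3 + Ce + Cs) * ε ≤ κ / 16)
    (εγ : (β1 + β2 + β3 + Ce + Cs) * ε ≤ γ / 16) (h1 : β1 * X1 ≤ κ / 16) (h2 : β2 * X2 ≤ κ / 16)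
    (h3 : Ce * X1 ≤ 1 / 2) (s40 : 0 ≤ s4) (h4 : β2 * s2 + β1 * s4 + Ce * s4 ≤ gE) (hu : u ≤ γ / 8)
    (L0 : 0 ≤ L2) (y1 : β3 * N * x3 ≤ 1) (y2 : (β3 + β2) * N * x2 ≤ 1)
    (y3 : (β3 + β2 + β1) * N * x1 ≤ 1) (N0 : 0 ≤ N) (z0 : 0 ≤ b8) (mo : b2 ≤ b8) (z1 : 0 ≤ Aa)
    (z2 : 0 ≤ En) (z3 : 0 ≤ Xx) (d1 : D ≤ (1 + 1) * Xc + (1 + 1 / 1) * Ep) (d2 : Xc ≤ 2 * Aa)
    (E : Ep ≤ Ce * ((X1 + ε) * Aa + s4 * En + Xx + ε * L2 + 1 + N * b2))
    (F : 0 ≤ (a + κ / 4 + β3 * ε + β2 * (X2 + ε) + β1 * (X1 + ε)) * Aa - a * H +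
      (β2 * s2 + β1 * s4) * En + (gF + β3 + β2 + β1) * Xx +
      (u * (L2 + 1) + γ / 4 * L2 + β3 * (ε * L2 + 1) + β3 * N * x3 + β2 * (ε * L2 + 1) +
        (β3 + β2) * N * x2 + β1 * (ε * L2 + 1) + (β3 + β2 + β1) * N * x1) +
      (β3 + β2 + β1) * (N * b8)) :
    κ / 16 * D - (gF + (β1 + β2 + β3 + Ce + Cs) + γ + 3) ≤ l * Aa - a * H + gE * En +
      (gF + (β1 + β2 + β3 + Ce + Cs) + γ + 3) * Xx + γ * L2 +
      (gF + (β1 + β2 + β3 + Ce + Cs) + γ + 3) * N * b8 := by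
  have p1 := mul_nonneg b1 ε0.le
  have p2 := mul_nonneg b2' ε0.le
  have p3 := mul_nonneg b3 ε0.le
  have p4 := mul_nonneg (show 0 ≤ Ce by linarith) ε0.le
  have p5 := mul_nonneg (show 0 ≤ Cs by linarith) ε0.le
  have nb := mul_nonneg N0 z0
  have r0 := mul_nonneg (show 0 ≤ Ce by linarith) (mul_nonneg s40 z2)
  have r1 := mul_nonneg (show 0 ≤ Ce by linarith) z3
  have r2 := mul_nonneg p4 L0
  have r3 := mul_nonneg (show 0 ≤ Ce by linarith) nb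
  have E1 : Ep ≤ Aa + (Ce * (s4 * En) + Ce * Xx + Ce * ε * L2 + Ce + Ce * (N * b8)) := by
    have := mul_le_mul_of_nonneg_right (show Ce * (X1 + ε) ≤ 1 by linarith) z1
    have := mul_le_mul_of_nonneg_left (mul_le_mul_of_nonneg_left mo N0) (show 0 ≤ Ce by linarith)
    linarith
  have E2 : κ / 16 * D ≤ 3 * κ / 8 * Aa +
      (Ce * (s4 * En) + Ce * Xx + Ce * ε * L2 + Ce + Ce * (N * b8)) := by
    have t0 : 0 ≤ Ce * (s4 * En) + Ce * Xx + Ce * ε * L2 + Ce + Ce * (N * b8) := by linarith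
    have t1 := mul_le_mul_of_nonneg_left (show D ≤ 6 * Aa + 2 * (Ce * (s4 * En) + Ce * Xx +
      Ce * ε * L2 + Ce + Ce * (N * b8)) by linarith) (show 0 ≤ κ / 16 by linarith)
    have t2 := mul_le_mul_of_nonneg_right k1 t0
    linarith
  have u1 := mul_le_mul_of_nonneg_right (show a + κ / 4 + β3 * ε + β2 * (X2 + ε) + β1 * (X1 + ε) +
    3 * κ / 8 ≤ l by linarith) z1
  have u2 := mul_le_mul_of_nonneg_right h4 z2
  have u3 := mul_le_mul_of_nonneg_right εγ L0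
  have u4 := mul_le_mul_of_nonneg_right hu (show 0 ≤ L2 + 1 by linarith)
  have u5 := mul_nonneg (show 0 ≤ Cs + γ + 3 by linarith) z3
  have u6 := mul_nonneg (show 0 ≤ gF + Cs + γ + 3 by linarith) nb
  have u7 := mul_nonneg p5 L0
  have u8 := mul_nonneg γ0.le L0
  linarith

end Core40

open Core40

theorem coreGlue40 : CoreGlue := fun ⟨Ce, ce1, hE⟩ ⟨Cs, cs1, c0, c00, hS⟩ ⟨Cu, cu1, hU⟩ κ ⟨k0, k1⟩ => by
  obtain ⟨i, hi⟩ : ∃ i : ℝ, i = 1 / κ := ⟨_, rfl⟩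
  have ki : κ * i = 1 := by rw [hi]; field_simp
  have i1 : 1 ≤ i := by rw [hi, le_div_iff₀ k0]; linarith
  obtain ⟨C1, hC1⟩ : ∃ C1 : ℝ, C1 = 400000000 * ((Ce + Cs) * i ^ 3) := ⟨_, rfl⟩
  refine ⟨C1, ?_, fun q q1 γ γ0 => ?_⟩
  · have := one_le_mul_of_one_le_of_one_le (show 1 ≤ Ce + Cs by linarith) (one_le_pow₀ (n := 3) i1)
    linarith
  have ik : 1 + 1 / (κ / 16) = 1 + 16 * i := by rw [hi]; field_simp
  obtain ⟨gF, hgF⟩ : ∃ gF : ℝ, gF = Cu / (κ / 4) := ⟨_, rfl⟩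
  have gF0 : 0 < gF := by rw [hgF]; positivity
  obtain ⟨M3, hM3⟩ : ∃ M3 : ℝ, M3 = (8 * gF / γ) ^ 2 := ⟨_, rfl⟩
  have M30 : 0 < M3 := by rw [hM3]; positivity
  have sM : gF * (2 / √M3) = γ / 4 := by
    rw [hM3, sqrt_sq (by positivity)]; field_simp; norm_num
  obtain ⟨β1, h1⟩ : ∃ β : ℝ, β = Cs * (48 * i) * (1 + 1 / (κ / 16)) := ⟨_, rfl⟩
  obtain ⟨β2, h2⟩ : ∃ β : ℝ, β = Cs * (16 * q * i) * (1 + 1 / (κ / 16)) := ⟨_, rfl⟩
  obtain ⟨β3, h3⟩ : ∃ β : ℝ, β = Cs * M3 * (1 + 1 / (κ / 16)) := ⟨_, rfl⟩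
  have b10 : 0 ≤ β1 := by rw [h1]; positivity
  have b20 : 0 ≤ β2 := by rw [h2]; positivity
  have b30 : 0 ≤ β3 := by rw [h3]; positivity
  obtain ⟨B, hB⟩ : ∃ B : ℝ, B = β1 + β2 + β3 + Ce + Cs := ⟨_, rfl⟩
  have B0 : 0 < B := by linarith
  obtain ⟨ε, hε⟩ : ∃ ε : ℝ, ε = min κ γ / (16 * B) := ⟨_, rfl⟩
  have ε0 : 0 < ε := by rw [hε]; positivity
  have εB : B * ε = min κ γ / 16 := by rw [hε]; field_simp
  have εκ : B * ε ≤ κ / 16 := by rw [εB]; linarith [min_le_left κ γ]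
  have εγ : B * ε ≤ γ / 16 := by rw [εB]; linarith [min_le_right κ γ]
  have εe : Ce * ε ≤ 1 := by
    linarith [mul_le_mul_of_nonneg_right (show Ce ≤ B by linarith) ε0.le]
  have εs : Cs * ε ≤ 1 := by
    linarith [mul_le_mul_of_nonneg_right (show Cs ≤ B by linarith) ε0.le]
  have qi : q ≤ 16 * q * i := by nlinarith only [q1, i1]
  have kq : 16 * q ≤ κ * (16 * q * i) := le_of_eq (by linear_combination (-16 * q) * ki)
  have k3 : 16 * 3 ≤ κ * (48 * i) := le_of_eq (by linear_combination (-48) * ki)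
  have k16 : 0 < κ / 16 := by positivity
  have k4 : 0 < κ / 4 := by positivity
  have M1 : 0 < 48 * i := by linarith
  have M2 : 0 < 16 * q * i := by linarith
  have B1 : β3 ≤ B := by linarith
  have B2 : β3 + β2 ≤ B := by linarith
  have B3 : β3 + β2 + β1 ≤ B := by linarith
  refine ⟨min ((ε / (4 + q) ^ 2) ^ 2) (min (κ ^ 2 / 16) (γ * κ ^ 3 / 512) / Cu), by positivity,
    gF + B + γ + 3, by linarith, fun A hA φ f0 => ?_⟩
  filter_upwards [End40.ev_poly 1 f0, End40.ev_poly B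
    (show 0 < c0 * φ ^ 2 / (48 * i + 16 * q * i + M3) by positivity), eventually_ge_atTop 1]
    with n v1 v2 n1 J Q h v w Θ G Ω xs s e L Λ a l m1 bJ bQ s0 hcA hs hm nA hL hLn e0 he hc hv hw hΛ
      a0 hl l1
  obtain ⟨s1, A48, w1, w2, w3, w4⟩ := cst ce1 cs1 k0 ki i1 q1 hC1 hA s0 hs (ik ▸ h1) (ik ▸ h2)
  have n0 : (0 : ℝ) < n := by exact_mod_cast n1
  have A1 : 1 ≤ A := by linarith only [A48]
  have A0 : 0 < A := by linarith only [A48]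
  have m0 : (0 : ℝ) < m1 := (mul_pos f0 n0).trans_le hm
  have c7 : ((7 * m1 : ℕ) : ℝ) = 7 * m1 := by push_cast; ring
  have m7 : 1 ≤ 7 * m1 := by
    have : 0 < m1 := by exact_mod_cast m0
    omega
  have n12 : (n : ℝ) ^ 12 ≤ exp ((7 * m1 : ℕ) : ℝ) := by
    rw [one_mul, exp_neg, mul_inv_le_iff₀ (exp_pos _), one_mul] at v1
    exact v1.trans (exp_le_exp.2 (by linarith only [c7, hm, m0]))
  have r50 : (350 * m1 : ℝ) = 50 * ((7 * m1 : ℕ) : ℝ) := by rw [c7]; ring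
  rw [r50] at bJ bQ
  obtain ⟨bN, G1, G2, G3⟩ := geos bJ bQ q1 m7 s0 s1 A48 (by linarith only [c7, nA, m0]) hcA
  have se : ∀ c : ℝ, 0 ≤ c → c ≤ 3 + q → √e * (1 + c) ^ 2 ≤ ε := fun c h0 h1 => by
    have u1 : √e ≤ ε / (4 + q) ^ 2 := sqrt_le_iff.2 ⟨by positivity, he.trans (min_le_left _ _)⟩
    rw [le_div_iff₀ (by positivity)] at u1
    exact le_trans (mul_le_mul_of_nonneg_left (pow_le_pow_left₀ (by linarith only [h0])
      (by linarith only [h1]) 2) (sqrt_nonneg _)) u1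
  have ue : Cu * e ≤ min (κ ^ 2 / 16) (γ * κ ^ 3 / 512) := by
    have := he.trans (min_le_right _ _)
    rwa [le_div_iff₀ (by linarith only [cu1]), mul_comm] at this
  have ue2 : Cu * e / (κ / 4) ^ 3 ≤ γ / 8 := by
    rw [div_le_iff₀ (pow_pos k4 3)]; linarith only [ue.trans (min_le_right _ _)]
  have a1 : a ≤ 1 := by linarith only [hl, l1, k0]
  have L7 : 4 * L ^ 2 ≤ ((7 * m1 : ℕ) : ℝ) := by linarith only [c7, hL, m0]
  have N0 : (0 : ℝ) ≤ n ^ 12 := by positivity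
  have l0 : 0 ≤ a + κ / 4 := add_nonneg a0 k4.le
  have j3 : 0 ≤ β3 * (0 ^ 2 + 0 ^ 2 / A + ε) := by positivity
  have j2 : 0 ≤ β2 * (s ^ 2 + s ^ 2 / A + ε) := by positivity
  have U := hU n Θ G Ω xs e L (10 * ((7 * m1 : ℕ) : ℝ)) a (4 * A - 2 * A) (5 * m1 + 2 * m1) (κ / 4)
    (a + κ / 4) hc e0 k4 (by linarith only [k1]) (by linarith only [ue.trans (min_le_left _ _)])
    a0 a1 le_rfl
  rw [← hgF] at U
  have S3 := hS n 0 0 0 0 0 A (7 * m1) Θ G Ω xs e ε L 0 M3 (κ / 16) a (4 * A) (5 * m1) m1 β3 _ G3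
    transpose_zero (fun _ => rfl) Eig.opn_zero.le M30.le M30 k16 a0 a1
    (st a0 a1 k0 k1 M30 le_rfl (by rw [mul_zero]; exact (mul_pos k0 M30).le) le_rfl) n12 hc
    (se _ le_rfl (by linarith only [q1])) εs L7 hLn le_rfl (by linarith only [c7]) nA l0 le_rfl
    gF0.le gF0.le le_rfl h3 U
  rw [add_zero, show 4 * A = 6 * A - 2 * A by ring, show (5 * m1 : ℝ) = 3 * m1 + 2 * m1 by ring] at S3
  have S2 := hS n (-Q) 0 q s s A (7 * m1) Θ G Ω xs e ε L q (16 * q * i) (κ / 16) a (6 * A) (3 * m1) m1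
    β2 _ G2 bN.symm bN.diag bN.op qi M2 k16 a0 a1
    (st a0 a1 k0 k1 M2 (by linarith only [q1]) kq (le_add_of_nonneg_right j3)) n12 hc
    (se _ (by linarith only [q1]) (by linarith only [])) εs L7 hLn (by linarith only [A0])
    (by linarith only [c7, m0]) nA (add_nonneg l0 j3) (add_nonneg le_rfl (mul_nonneg b30 (sq_nonneg _)))
    (add_nonneg gF0.le b30) le_rfl (add_nonneg le_rfl (mul_nonneg b30 N0)) h2 S3
  rw [add_zero, show 6 * A = 8 * A - 2 * A by ring, show (3 * m1 : ℝ) = m1 + 2 * m1 by ring] at S2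
  have S1 := hS n J (-Q) (3 + q) (3 + s) (s + s) A (7 * m1) Θ G Ω xs e ε L 3 (48 * i) (κ / 16) a (8 * A)
    m1 m1 β1 _ G1 bJ.symm bJ.diag bJ.op (by linarith only [i1]) M1 k16 a0 a1
    (st a0 a1 k0 k1 M1 (by norm_num) k3
      ((le_add_of_nonneg_right j3).trans (le_add_of_nonneg_right j2))) n12 hc
    (se _ (by linarith only [q1]) le_rfl) εs L7 hLn (by linarith only [A0])
    (by linarith only [c7, m0]) nA (add_nonneg (add_nonneg l0 j3) j2)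
    (add_nonneg (add_nonneg le_rfl (mul_nonneg b30 (sq_nonneg _))) (mul_nonneg b20 (sq_nonneg _)))
    (add_nonneg (add_nonneg gF0.le b30) b20) le_rfl
    (add_nonneg (add_nonneg le_rfl (mul_nonneg b30 N0)) (mul_nonneg b20 N0)) h1 S2
  rw [← sub_eq_add_neg] at S1
  have F := S1 h v w Λ hv hw hΛ
  have G0 := G1 0 ⟨le_rfl, zero_le_one⟩
  rw [sub_zero, one_smul, ← sub_eq_add_neg] at G0
  have E := hE n _ h _ _ _ A (7 * m1) xs v w Θ G Ω e ε L Λ G0 n12 hv hw hc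
    (se _ (by linarith only [q1]) le_rfl) εe L7 hLn hΛ
  have wp : ∀ x, 0 < w x := fun x => by
    obtain ⟨c, hc⟩ := hw; rw [hc]; exact mul_pos (exp_pos _) (exp_pos _)
  have P : Pr v w := ⟨hv, .of_pos wp, fun x hx => absurd hx (wp x).ne'⟩
  have mo := Bf_mono (w := w) hv Λ (J - Q) h (show 2 * A ≤ 8 * A by linarith only [A0])
    (show (m1 : ℝ) ≤ ((7 * m1 : ℕ) : ℝ) by linarith only [c7, m0]) xs (10 * ((7 * m1 : ℕ) : ℝ))
  have r70 : 10 * ((7 * m1 : ℕ) : ℝ) = 70 * m1 := by rw [c7]; ring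
  rw [r70] at F E mo
  rw [hB] at εκ εγ ⊢
  refine fin k0 k1 γ0 hl ce1 cs1 b10 b20 b30 ε0 gF0.le εκ εγ w1 w2 w3 (sq_nonneg _) w4 ue2 (sq_nonneg L)
    (ex_le B1 b30 c00 f0 A1 M30 (by linarith only [M1, M2]) n0 hm v2)
    (ex_le B2 (add_nonneg b30 b20) c00 f0 A1 M2 (by linarith only [M1, M30]) n0 hm v2)
    (ex_le B3 (add_nonneg (add_nonneg b30 b20) b10) c00 f0 A1 M1 (by linarith only [M2, M30]) n0 hm v2)
    N0 (Bf_nonneg hv wp hΛ _ _ _ _ _ _) mo (P.Ar_nonneg fun _ _ => zero_le_one)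
    (sum_nonneg (s := univ) fun i _ => Ta.Cs_nonneg hv (fun σ => sq_nonneg _) i)
    (hv.mean_nonneg fun _ => sq_nonneg _) (EnS.Dm_sq_le hv w one_pos) (EnS.Xc_le P) E
    (F.trans_eq ?_)
  dsimp only
  linear_combination L ^ 2 * sM

end Crest.Agent.T157.En

end
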