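import Crest.Agent.T157.EnDef_40

/-!
# Row 157, block B, S1, the END: the leaf EPS (helper64)
-/

set_option autoImplicit false
set_option linter.unusedVariables false

noncomputable section

namespace Crest.Agent.T157.En

open MeasureTheory Real Matrix Finset Filter Set
open Crest.Agent.T157.E Crest.Agent.T157.SL
open Crest.Agent.T157.Ta (Pr Ar Cnt Dm cm chi kls)
open Crest.Agent.T157.EnS (fR o1 ep)
open Crest.Agent.T157.Rec (grad fl)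
open Crest.Agent.T157.Eig
open Crest.Agent.T157.S3 (V Mx hf tau Dg TS Rg)

namespace Ep64

variable {n : ℕ}

theorem ib_nn (a b : ℝ) : 0 ≤ ib a b := by unfold ib; split_ifs <;> norm_num

theorem ib_one {a b : ℝ} (h : a < b) : ib a b = 1 := if_pos h

theorem ib_mono {a b a' b' : ℝ} (h : a < b → a' < b') : ib a b ≤ ib a' b' := by
  by_cases e : a < b
  · rw [ib_one e, ib_one (h e)]
  · rw [ib, if_neg e]; exact ib_nn _ _

theorem hd_tri (x y z : Cube n) : hd x z ≤ hd x y + hd z y := by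
  unfold hd
  norm_cast
  refine le_trans (card_le_card fun j hj => ?_) (card_union_le _ _)
  simp only [Finset.mem_filter, Finset.mem_univ, true_and, Finset.mem_union] at hj ⊢
  by_contra hc
  push Not at hc
  exact hj (hc.1.trans hc.2.symm)

theorem nrm_le_of {u v : V n} (h : ∀ j, |u j| ≤ |v j|) : nrm u ≤ nrm v := by
  refine Real.sqrt_le_sqrt (Finset.sum_le_sum fun j _ => ?_)
  rw [← abs_mul_abs_self (u j), ← abs_mul_abs_self (v j)]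
  exact mul_le_mul (h j) (h j) (abs_nonneg _) (abs_nonneg _)

theorem ep_eq {w : Cube n → ℝ} (hw : Wt w) (v : Cube n → ℝ) (j : Fin n) :
    ep v w j = mean v (cm w j) - mean w (cm w j) := by
  have := Ta.mean_cm hw (Ta.OffAt.const j (1 : ℝ))
  simp only [one_mul] at this
  exact congrArg (fun t => mean v (cm w j) - t) this.symm

theorem ep_le {v w : Cube n → ℝ} (hv : Wt v) (hw : Wt w) : ep v w ⬝ᵥ ep v w ≤ 4 * n := by
  have : ∀ j, ep v w j * ep v w j ≤ 4 := fun j => by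
    have h1 := abs_le.1 (hv.abs_mean_le fun x => Ta.abs_cm_le hw.nn j x)
    have h2 := abs_le.1 (hw.abs_mean_le fun x => Ta.abs_cm_le hw.nn j x)
    rw [ep_eq hw]
    nlinarith [h1.1, h1.2, h2.1, h2.2]
  refine (Finset.sum_le_sum fun j _ => this j).trans_eq ?_
  simp [mul_comm]

theorem dot_ep {w : Cube n → ℝ} (hw : Wt w) (v : Cube n → ℝ) (a : V n) : a ⬝ᵥ ep v w =
    (mean v fun x => a ⬝ᵥ fun j => cm w j x) - mean w fun x => a ⬝ᵥ fun j => cm w j x := by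
  simp only [dotProduct, mean_sum, mean_const_mul, ep_eq hw, mul_sub, Finset.sum_sub_distrib]

theorem F1_mem (W : Mx n) (h : V n) (Ω : Cube n → V n) (x : Cube n) :
    0 ≤ F1 W h Ω x ∧ F1 W h Ω x ≤ nrm (Ω x) ^ 2 := by
  rw [nrm_sq]
  unfold F1 dotProduct
  refine ⟨Finset.sum_nonneg fun j _ => mul_nonneg ?_ (mul_self_nonneg _),
    Finset.sum_le_sum fun j _ => ?_⟩
  · exact sub_nonneg.2 (tanh_sq_lt_one _).le
  · simp only [Dg, Pi.mul_apply]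
    nlinarith [mul_nonneg (sq_nonneg (tanh (hf W h x j))) (mul_self_nonneg (Ω x j))]

/-- gradient of the truncated square -/
theorem grad_G {G : Cube n → ℝ} {e L : ℝ} (G0 : ∀ x, 0 ≤ G x) (L0 : 0 ≤ L) (e0 : 0 ≤ e)
    (ts : TS e G) (x : Cube n) : nrm (grad (fun x => min (G x) (2 * L) ^ 2) x) ≤ 2 * L * √e := by
  rw [nrm_le_iff (by positivity), mul_pow, Real.sq_sqrt e0]
  refine le_trans ?_ (mul_le_mul_of_nonneg_left (ts x) (sq_nonneg _))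
  rw [Finset.mul_sum]
  refine Finset.sum_le_sum fun j _ => ?_
  rw [Rec.grad_eq]
  set p := min (G x) (2 * L)
  set q := min (G (fl x j)) (2 * L)
  have h1 : |p - q| ≤ |G x - G (fl x j)| := 
    (abs_min_sub_min_le_max _ _ _ _).trans (max_le le_rfl (by simp))
  have h2 : (p - q) ^ 2 ≤ (G x - G (fl x j)) ^ 2 := sq_le_sq.2 h1
  have p0 : 0 ≤ p := le_min (G0 _) (by linarith)
  have q0 : 0 ≤ q := le_min (G0 _) (by linarith)
  have p1 : p ≤ 2 * L := min_le_right _ _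
  have q1 : q ≤ 2 * L := min_le_right _ _
  have h3 : (p + q) ^ 2 ≤ (4 * L) ^ 2 := pow_le_pow_left₀ (by linarith) (by linarith) 2
  have h4 := mul_le_mul h3 h2 (sq_nonneg _) (sq_nonneg _)
  have e1 : sv x j * (p ^ 2 - q ^ 2) / 2 * (sv x j * (p ^ 2 - q ^ 2) / 2) =
      sv x j * sv x j * ((p + q) ^ 2 * (p - q) ^ 2) / 4 := by ring
  rw [e1, Rec.sv_mul_self]
  nlinarith

theorem abs_of_sq {x C p Z : ℝ} (C1 : 1 ≤ C) (p0 : 0 ≤ p) (Z1 : 1 ≤ Z)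
    (h : x ^ 2 ≤ C * (p ^ 2 + Z)) : |x| ≤ C * (p + Z) := by
  refine abs_le_of_sq_le_sq (h.trans ?_) (by positivity)
  have h1 : p ^ 2 + Z ≤ (p + Z) ^ 2 := by nlinarith
  have h2 : C ≤ C ^ 2 := by nlinarith
  rw [mul_pow]
  exact mul_le_mul h2 h1 (by positivity) (by positivity)

theorem arith {E t0 t1 r1 r2 P Q X S Z vF wF vG wG s2 e ε C0 Ct Ck Cl : ℝ} (C01 : 1 ≤ C0)
    (Ct1 : 1 ≤ Ct) (Ck1 : 1 ≤ Ck) (Cl0 : 0 ≤ Cl) (P0 : 0 ≤ P) (Q0 : 0 ≤ Q) (X0 : 0 ≤ X) (S0 : 0 ≤ S)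
    (Z0 : 0 ≤ Z) (s0 : 0 ≤ s2) (s1 : s2 ≤ 1) (e0 : 0 ≤ e) (eε : e ≤ ε)
    (hE : E = (t0 + t1 + r1 - r2) ^ 2) (h0 : t0 ^ 2 ≤ C0 * (P + s2 * (vF + wF) + vG + wG + Z))
    (h1 : t1 ^ 2 ≤ Ct * (ε * S + Z)) (hr1 : r1 ^ 2 ≤ vG) (hr2 : r2 ^ 2 ≤ wG) (hX : vG ≤ X)
    (hG : wG ≤ vG + Ct * (2 * ε * S + Z)) (hF : wF ≤ vF + Ct * (ε * S + Z))
    (hK : vF ≤ Ck * (Q + X + e * S)) :
    E ≤ (4 * (C0 * (2 * Ck + 3 * Ct + 2) + 3 * Ct + 2) + Cl) * (P + s2 * Q + X + ε * S + Z) := by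
  have ε0 : 0 ≤ ε := e0.trans eε
  have u0 : 0 ≤ ε * S := mul_nonneg ε0 S0
  have q0 : 0 ≤ s2 * Q := mul_nonneg s0 Q0
  set u := ε * S
  set q := s2 * Q
  set Y := P + q + X + u + Z
  have a1 : s2 * (vF + wF) ≤ 2 * Ck * (q + X + u) + Ct * (u + Z) := by
    have b1 : vF + wF ≤ 2 * Ck * (Q + X + u) + Ct * (u + Z) := by
      have : Ck * (e * S) ≤ Ck * u := by gcongr; exact mul_le_mul_of_nonneg_right eε S0
      nlinarith
    have b2 : s2 * (2 * Ck * (X + u) + Ct * (u + Z)) ≤ 1 * (2 * Ck * (X + u) + Ct * (u + Z)) := by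
      gcongr
    have b3 := mul_le_mul_of_nonneg_left b1 s0
    have b4 : s2 * (2 * Ck * (Q + X + u) + Ct * (u + Z)) =
      2 * Ck * q + s2 * (2 * Ck * (X + u) + Ct * (u + Z)) := by simp only [q]; ring
    linarith
  have Y1 : Ck * (q + X + u) ≤ Ck * Y := by gcongr; simp only [Y]; linarith
  have Y2 : Ct * (u + Z) ≤ Ct * Y := by gcongr; simp only [Y]; linarith
  have Y3 : P + X + Z ≤ Y := by simp only [Y]; linarith
  have Y0 : 0 ≤ Y := by linarith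
  have Z2 : 0 ≤ Ct * Z := by positivity
  have a2 : vG + wG ≤ 2 * X + 2 * (Ct * (u + Z)) := by
    have : Ct * (2 * ε * S + Z) = 2 * (Ct * (u + Z)) - Ct * Z := by simp only [u]; ring
    linarith
  have a3 : P + s2 * (vF + wF) + vG + wG + Z ≤ (2 * Ck + 3 * Ct + 2) * Y := by nlinarith
  have a4 := h0.trans (mul_le_mul_of_nonneg_left a3 (by linarith))
  have a5 : E ≤ 4 * (t0 ^ 2 + t1 ^ 2 + r1 ^ 2 + r2 ^ 2) := by
    rw [hE]
    nlinarith [sq_nonneg (t0 - t1), sq_nonneg (t0 - r1), sq_nonneg (t0 + r2), sq_nonneg (t1 - r1),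
      sq_nonneg (t1 + r2), sq_nonneg (r1 + r2)]
  have a6 : 0 ≤ Cl * Y := by positivity
  nlinarith

theorem nums {Cl C c e ε : ℝ} (Cl1 : 1 ≤ Cl) (CCl : Cl ≤ C) (c0 : 0 ≤ c) (e0 : 0 ≤ e)
    (he : √e * (1 + c) ^ 2 ≤ ε) (hε : C * ε ≤ 1) :
    0 ≤ ε ∧ ε ≤ 1 ∧ e ≤ ε ∧ e ≤ ε ^ 2 ∧ Cl * e * (1 + c) ^ 2 ≤ ε := by
  have c1 : 1 ≤ (1 + c) ^ 2 := by nlinarith
  have r0 := Real.sqrt_nonneg e
  have rε : √e ≤ ε := le_trans (by nlinarith) he
  have ε0 : 0 ≤ ε := r0.trans rε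
  have Clε : Cl * ε ≤ 1 := (mul_le_mul_of_nonneg_right CCl ε0).trans hε
  have ε1 : ε ≤ 1 := by nlinarith
  have re : √e * √e = e := Real.mul_self_sqrt e0
  have h0 : √e * √e ≤ ε * ε := mul_le_mul rε rε r0 ε0
  refine ⟨ε0, ε1, by nlinarith, by nlinarith, ?_⟩
  have h1 : √e * (√e * (1 + c) ^ 2) ≤ ε * ε := mul_le_mul rε he (by positivity) ε0
  have h2 : Cl * e * (1 + c) ^ 2 = Cl * (√e * (√e * (1 + c) ^ 2)) := by
    rw [← mul_assoc (√e), re]; ring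
  have h3 := mul_le_mul_of_nonneg_left h1 (by linarith : 0 ≤ Cl)
  nlinarith

theorem bf {v w f g : Cube n → ℝ} {Λ : ℝ} (hv : Wt v) (hW : Wt w) (hΛ : ∀ x, v x ≤ Λ * w x)
    (g0 : ∀ x, 0 ≤ g x) : mean w g ≤ Λ * (∑ x, w x * g x) / ∑ x, v x := by
  have hs : ∑ x, v x ≤ Λ * ∑ x, w x := by
    rw [Finset.mul_sum]; exact Finset.sum_le_sum fun x _ => hΛ x
  have s2 : 0 ≤ ∑ x, w x * g x := Finset.sum_nonneg fun x _ => mul_nonneg (hW.nn x) (g0 x)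
  rw [mean_eq_div, div_le_div_iff₀ hW.pos hv.pos]
  nlinarith [mul_le_mul_of_nonneg_left hs s2]

theorem unit (u : V n) (hz : u ≠ 0) : ∃ a : V n, nrm a ≤ 1 ∧ u ⬝ᵥ u = (a ⬝ᵥ u) ^ 2 := by
  have np := nrm_pos hz
  refine ⟨(nrm u)⁻¹ • u, ?_, ?_⟩
  · rw [nrm_smul, abs_of_pos (inv_pos.2 np), inv_mul_cancel₀ np.ne']
  · rw [smul_dotProduct, ← nrm_sq, smul_eq_mul]; field_simp

/-- the remainder -/
def rm (W : Mx n) (h : V n) (Θ : Cube n → ℝ) (Ω : Cube n → V n) (x : Cube n) : V n :=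
  fun j => tanh (hf W h x j + grad Θ x j) - tanh (hf W h x j + Ω x j)

variable {W : Mx n} {h a : V n} {Θ G : Cube n → ℝ} {Ω : Cube n → V n} {e L : ℝ}

theorem rm_le (hc : Cls e L Θ Ω G) (ha : nrm a ≤ 1) (x : Cube n) :
    (a ⬝ᵥ rm W h Θ Ω x) ^ 2 ≤ min (G x) (2 * L) ^ 2 := by
  have h1 : nrm (rm W h Θ Ω x) ≤ nrm (grad Θ x - Ω x) := nrm_le_of fun j =>
    (Ue.abs_tanh_sub_le _ _).trans_eq (by rw [add_sub_add_left_eq_sub]; rfl)
  have h2 : nrm (rm W h Θ Ω x) ≤ min (G x) (2 * L) := le_min (h1.trans (hc.ex x))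
    (h1.trans ((nrm_sub_le _ _).trans (by linarith [hc.gr x, (hc.rg x).2.2.1])))
  have h3 := (abs_dot_le a _).trans (mul_le_mul ha h2 (nrm_nonneg _) zero_le_one)
  rw [one_mul] at h3
  exact sq_le_sq' (abs_le.1 h3).1 (abs_le.1 h3).2

theorem ct_le (hc : Cls e L Θ Ω G) (ha : nrm a ≤ 1) (hLn : L ^ 2 ≤ n) (n1 : (1 : ℝ) ≤ n)
    (x : Cube n) : |a ⬝ᵥ ct W h Ω x| ≤ n := by
  have h1 : nrm (ct W h Ω x) ≤ nrm (Ω x) := nrm_le_of fun j =>
    (Ue.abs_tanh_sub_le _ _).trans_eq (by rw [add_sub_cancel_left])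
  have h3 := (abs_dot_le a _).trans
    (mul_le_mul ha (h1.trans (hc.rg x).2.2.1) (nrm_nonneg _) zero_le_one)
  nlinarith [sq_nonneg (L - 1)]

theorem split {w : Cube n → ℝ} (hcm : ∀ i x, cm w i x = tanh (hf W h x i + grad Θ x i))
    (Ω : Cube n → V n) (a : V n) (u : Cube n → ℝ) : (mean u fun x => a ⬝ᵥ fun j => cm w j x) =
      (mean u fun x => a ⬝ᵥ fun j => tanh (hf W h x j)) + (mean u fun x => a ⬝ᵥ ct W h Ω x) +
        mean u fun x => a ⬝ᵥ rm W h Θ Ω x := by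
  rw [← mean_add, ← mean_add]
  congr 1
  funext x
  rw [← dotProduct_add, ← dotProduct_add]
  congr 1
  funext j
  simp only [hcm, Pi.add_apply, ct, rm]
  ring

/-- the three transfers -/
theorem trs {Ct Cl c ε S Z : ℝ} {v w : Cube n → ℝ} (hc : Cls e L Θ Ω G) (ha : nrm a ≤ 1)
    (Ct1 : 1 ≤ Ct) (e0 : 0 ≤ e) (ε0 : 0 ≤ ε) (ε1 : ε ≤ 1) (eε2 : e ≤ ε ^ 2)
    (lε : Cl * e * (1 + c) ^ 2 ≤ ε) (hLn : L ^ 2 ≤ n) (n1 : (1 : ℝ) ≤ n) (LS : L ^ 2 ≤ S)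
    (Z1 : 1 ≤ Z) (TR : ∀ (F : Cube n → ℝ) (l : ℝ), 0 ≤ l → l ^ 2 ≤ 100 * n →
      (∀ x, nrm (grad F x) ≤ l) → (∀ x x', F x - F x' ≤ 4 * n) →
      (mean v F - mean w F) ^ 2 ≤ Ct * (l ^ 2 * S + Z))
    (LP : ∀ x, (∀ a : V n, nrm a ≤ 1 →
      nrm (grad (fun z => a ⬝ᵥ ct W h Ω z) x) ≤ Cl * e * (1 + c) ^ 2) ∧
      nrm (grad (F1 W h Ω) x) ≤ Cl * e * L * (1 + c) ^ 2) :
    ((mean v fun x => a ⬝ᵥ ct W h Ω x) - mean w fun x => a ⬝ᵥ ct W h Ω x) ^ 2 ≤ Ct * (ε * S + Z) ∧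
    (mean w fun x => min (G x) (2 * L) ^ 2) ≤
      (mean v fun x => min (G x) (2 * L) ^ 2) + Ct * (2 * ε * S + Z) ∧
    mean w (F1 W h Ω) ≤ mean v (F1 W h Ω) + Ct * (ε * S + Z) := by
  have L0 := hc.L0
  have S0 : 0 ≤ S := (sq_nonneg _).trans LS
  have G0 : ∀ x, 0 ≤ G x := fun x => (nrm_nonneg _).trans (hc.ex x)
  have q1 : ε ^ 2 ≤ 1 := pow_le_one₀ ε0 ε1
  have q2 : ε ^ 2 * L ^ 2 ≤ 1 * L ^ 2 := by gcongr
  have q3 : e * L ^ 2 ≤ ε ^ 2 * L ^ 2 := by gcongr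
  have q4 : ε ^ 2 * L ^ 2 ≤ ε ^ 2 * S := by gcongr
  have q5 : (2 * L * √e) ^ 2 = 4 * (e * L ^ 2) := by rw [mul_pow, Real.sq_sqrt e0]; ring
  have q6 : (ε * L) ^ 2 = ε ^ 2 * L ^ 2 := mul_pow _ _ _
  refine ⟨?_, ?_, ?_⟩
  · refine (TR (fun x => a ⬝ᵥ ct W h Ω x) ε ε0 (by linarith) (fun x => ((LP x).1 a ha).trans lε)
      fun x x' => ?_).trans (mul_le_mul_of_nonneg_left ?_ (by linarith))
    · linarith [abs_le.1 (ct_le (W := W) (h := h) hc ha hLn n1 x),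
        abs_le.1 (ct_le (W := W) (h := h) hc ha hLn n1 x')]
    · have : ε ^ 2 * S ≤ ε * S := mul_le_mul_of_nonneg_right (by nlinarith only [ε0, ε1]) S0
      linarith
  · have t2 := TR (fun x => min (G x) (2 * L) ^ 2) (2 * L * √e) (by positivity)
      (by linarith) (grad_G G0 L0 e0 hc.ts) fun x x' => by
        have h1 : min (G x) (2 * L) ^ 2 ≤ (2 * L) ^ 2 :=
          pow_le_pow_left₀ (le_min (G0 x) (by linarith)) (min_le_right _ _) 2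
        rw [mul_pow] at h1
        linarith [sq_nonneg (min (G x') (2 * L))]
    have u2 := abs_of_sq (p := 2 * ε * S) Ct1 (by positivity) Z1
      (t2.trans (mul_le_mul_of_nonneg_left (by
        have h2 := mul_le_mul_of_nonneg_right (q3.trans q4) S0
        rw [q5]; nlinarith only [h2]) (by linarith)))
    linarith [abs_le.1 u2]
  · have t3 := TR (F1 W h Ω) (ε * L) (by positivity) (by linarith)
      (fun x => (LP x).2.trans (by nlinarith only [mul_le_mul_of_nonneg_right lε L0])) fun x x' => by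
        have h1 := pow_le_pow_left₀ (nrm_nonneg _) (hc.rg x).2.2.1 2
        linarith [(F1_mem W h Ω x).2, (F1_mem W h Ω x').1]
    have u3 := abs_of_sq (p := ε * S) Ct1 (by positivity) Z1
      (t3.trans (mul_le_mul_of_nonneg_left (by
        have h2 := mul_le_mul_of_nonneg_right q4 S0
        rw [q6]; nlinarith only [h2]) (by linarith)))
    linarith [abs_le.1 u3]

end Ep64

open Ep64

theorem epsGlue : EpsGlue := by
  rintro ⟨Cl, Cl1, hL⟩ ⟨-, hK2, Ck, Ck1, hK3⟩ ⟨Ct, Ct1, hT⟩ ⟨C0, C01, h0⟩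
  obtain ⟨C, hC⟩ : ∃ C, C = 4 * (C0 * (2 * Ck + 3 * Ct + 2) + 3 * Ct + 2) + Cl := ⟨_, rfl⟩
  have CC : 0 ≤ C0 * (2 * Ck + 3 * Ct + 2) := by positivity
  have C4 : 4 ≤ C := by linarith
  have CCl : Cl ≤ C := by linarith
  refine ⟨C, by linarith, ?_⟩
  intro n W h c ω s A m xs v w Θ G Ω e ε L Λ hG hn hv hw hc he hε hLm hLn hΛ
  obtain ⟨wp, hcm⟩ := hK2 n w Θ W h hG.blk.symm hG.blk.diag hw
  have hW : Wt w := ⟨fun x => (wp x).le, Finset.sum_pos (fun x _ => wp x) Finset.univ_nonempty⟩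
  have hP : Pr v w := ⟨hv, hW, fun x hx => absurd hx (wp x).ne'⟩
  have e0 : 0 ≤ e := (norm_nonneg _).trans (hc.rg xs).1
  have L0 := hc.L0
  obtain ⟨ε0, ε1, eε, eε2, lε⟩ := nums Cl1 CCl hG.c0 e0 he hε
  have A0 : 0 < A := zero_lt_one.trans_le hG.A1
  have Ar0 : 0 ≤ Ar o1 v w := hP.Ar_nonneg fun _ _ => zero_le_one
  have Eg0 : 0 ≤ Eg Θ v := by
    unfold Eg Cnt
    exact Finset.sum_nonneg fun i _ => Ta.Cs_nonneg hv (fun _ => sq_nonneg _) i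
  have Ex0 : 0 ≤ Ex G v := hv.mean_nonneg fun _ => sq_nonneg _
  have hB2 := bf (f := w) hv hW hΛ fun x => ib_nn (10 * m) (hd x xs)
  have B2 := (hW.mean_nonneg fun x => ib_nn (10 * m) (hd x xs)).trans hB2
  have Bf0 : 0 ≤ Bf v w Λ W h (2 * A) m xs (10 * m) :=
    add_nonneg (hv.mean_nonneg fun x => add_nonneg (ib_nn _ _) (ib_nn _ _)) B2
  have n12 : (0 : ℝ) ≤ n ^ 12 := by positivity
  have R0 : 0 ≤ (s ^ 2 + ω ^ 2 / A + ε) * Ar o1 v w + s ^ 2 * Eg Θ v + Ex G v + ε * L ^ 2 + 1 := by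
    positivity
  by_cases hx0 : ¬ ∃ x0, hd x0 xs ≤ 10 * m ∧ na (hf W h x0) (2 * A) x0 ≤ m
  · have h1 : 1 ≤ Bf v w Λ W h (2 * A) m xs (10 * m) := by
      refine le_add_of_le_of_nonneg (hv.le_mean fun x => ?_) B2
      by_cases h2 : hd x xs ≤ 10 * m
      · rw [ib_one (not_le.1 fun h3 => hx0 ⟨x, h2, h3⟩)]; exact le_add_of_nonneg_right (ib_nn _ _)
      · rw [ib_one (not_le.1 h2)]; exact le_add_of_nonneg_left (ib_nn _ _)
    have h2 : (n : ℝ) ≤ n ^ 12 := by exact_mod_cast Nat.le_self_pow (by norm_num) n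
    have h3 := mul_le_mul_of_nonneg_left h1 n12
    refine (ep_le hv hW).trans (le_trans ?_ (mul_le_mul_of_nonneg_right C4
      (add_nonneg R0 (mul_nonneg n12 Bf0))))
    linarith only [h2, h3, R0]
  obtain ⟨x0, hx1, hx2⟩ := not_not.1 hx0
  by_cases hz : ep v w = 0
  · rw [hz, dotProduct_zero]
    exact mul_nonneg (by linarith only [C4]) (add_nonneg R0 (mul_nonneg n12 Bf0))
  have n1 : (1 : ℝ) ≤ n := by
    rcases Nat.eq_zero_or_pos n with rfl | h1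
    · exact absurd (Subsingleton.elim _ _) hz
    · exact_mod_cast h1
  have m0 : (0 : ℝ) ≤ m := Nat.cast_nonneg m
  obtain ⟨b, hb0⟩ : ∃ b, b = (mean v fun x => ib (23 * m) (hd x x0)) +
    mean w fun x => ib (23 * m) (hd x x0) := ⟨_, rfl⟩
  have b0 : 0 ≤ b := hb0 ▸
    add_nonneg (hv.mean_nonneg fun _ => ib_nn _ _) (hW.mean_nonneg fun _ => ib_nn _ _)
  have hib : ∀ x, ib (23 * m) (hd x x0) ≤ ib (10 * m) (hd x xs) := fun x =>
    ib_mono fun h1 => by linarith only [hd_tri x xs x0, h1, hx1, m0]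
  have hb : b ≤ Bf v w Λ W h (2 * A) m xs (10 * m) := hb0 ▸
    add_le_add (hv.mean_mono fun x => (hib x).trans (le_add_of_nonneg_left (ib_nn _ _)))
      ((hW.mean_mono hib).trans hB2)
  have Z1 : 1 ≤ 1 + n ^ 12 * b := le_add_of_nonneg_right (mul_nonneg n12 b0)
  obtain ⟨a, ha, hE⟩ := unit _ hz
  have G0 : ∀ x, 0 ≤ G x := fun x => (nrm_nonneg _).trans (hc.ex x)
  obtain ⟨t1, t2, t3⟩ := trs (W := W) (h := h) (v := v) (w := w) (S := Ar o1 v w + L ^ 2) hc ha Ct1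
    e0 ε0 ε1 eε2 lε hLn n1 (le_add_of_nonneg_left Ar0) Z1
    (fun F l h1 h2 h3 h4 => by
      have := hT n W h c ω s A m x0 v w Θ F L l hG hx2 hn hv hw hc.gr h1 h2 h3 h4
      rwa [← hb0, add_assoc] at this)
    (hL n W h c e L Ω hG.blk.symm hG.blk.diag hG.blk.op L0 (eε.trans ε1) hc.rg)
  have t0 := h0 n W h c ω s A m x0 v w Θ G Ω e L a hG hx2 hn hv hw hc (eε.trans ε1) hLm ha _ _ rfl rfl
  rw [← hb0, add_assoc _ (1 : ℝ)] at t0
  have key := arith (E := ep v w ⬝ᵥ ep v w) (Cl := Cl) C01 Ct1 Ck1 (zero_le_one.trans Cl1)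
    (by positivity) Eg0 Ex0 (add_nonneg Ar0 (sq_nonneg _)) (zero_le_one.trans Z1) (sq_nonneg _)
    (pow_le_one₀ hG.s0 (hG.s1.trans (by norm_num))) e0 eε
    (by rw [hE, dot_ep hW, split hcm Ω, split hcm Ω]; congr 1; ring) t0 t1
    ((Rec.mean_sq_le hv _).trans (hv.mean_mono (rm_le (W := W) (h := h) hc ha)))
    ((Rec.mean_sq_le hW _).trans (hW.mean_mono (rm_le (W := W) (h := h) hc ha)))
    (hv.mean_mono fun x => pow_le_pow_left₀ (le_min (G0 x) (by positivity)) (min_le_left _ _) 2)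
    t2 t3 (hK3 n v w Θ G W h e L Ω hG.blk.symm hG.blk.diag hv hw hc (eε.trans ε1))
  rw [← hC] at key
  refine key.trans (mul_le_mul_of_nonneg_left ?_ (by linarith only [C4]))
  have := mul_le_mul_of_nonneg_left hb n12
  linarith only [this]

end Crest.Agent.T157.En

end
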