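import Crest.Agent.T157.EnKy_8
import Crest.Agent.T157.SpJ_25
import Crest.Agent.T157.DaGr_82

/-!
# Row 157, block B, END (helper8): good points and drift for an Ising reference
-/

set_option autoImplicit false

noncomputable section

namespace Crest.Agent.T157.EnK

open Real Finset Function Matrix
open Crest.Agent.T157.E
open Crest.Agent.T157.Rec (grad fl grad_eq)
open Crest.Agent.T157.Eig (nrm opn nrm_nonneg nrm_sq nrm_single nrm_add_le nrm_sub_le nrm_le_iff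
  nrm_mulVec_le)
open Crest.Agent.T157.Rip (Sp res sp_res nrm_res_le SpJ)

variable {n : ℕ} {W : Matrix (Fin n) (Fin n) ℝ} {h : Fin n → ℝ} {C : Finset (Fin n)}
  {m c ω σ A : ℝ}

/-- block bounds: operator norm, sparse columns, sparse blocks -/
structure Blk (W : Matrix (Fin n) (Fin n) ℝ) (m c ω σ : ℝ) : Prop where
  symm : Wᵀ = W
  diag : ∀ i, W i i = 0
  op : ∀ v, nrm (W *ᵥ v) ≤ c * nrm v
  b1 : ∀ v, Sp m v → nrm (W *ᵥ v) ≤ ω * nrm v
  b2 : ∀ v B, Sp m v → (#B : ℝ) ≤ m → nrm (res B (W *ᵥ v)) ≤ σ * nrm v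

/-- local fields -/
def uI (W : Matrix (Fin n) (Fin n) ℝ) (h : Fin n → ℝ) (x : Cube n) : Fin n → ℝ := W *ᵥ sv x + h

/-- conditional means -/
def TI (W : Matrix (Fin n) (Fin n) ℝ) (h : Fin n → ℝ) (k : Fin n) (x : Cube n) : ℝ :=
  tanh (uI W h x k)

/-- the sites that are not frozen in the direction of `s0` -/
def B0 (W : Matrix (Fin n) (Fin n) ℝ) (h : Fin n → ℝ) (C : Finset (Fin n)) (s0 : Cube n) (A : ℝ)
    (x : Cube n) : Finset (Fin n) := C.filter fun j => sv s0 j * uI W h x j < A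

theorem abs_TI (k : Fin n) (x : Cube n) : |TI W h k x| ≤ 1 := (abs_tanh_lt_one _).le

theorem sq2_res (B : Finset (Fin n)) (v : Fin n → ℝ) : sq2 B v = nrm (res B v) ^ 2 := by
  rw [nrm_sq]
  simp only [dotProduct, res, ite_mul, zero_mul]
  rw [← sum_filter, filter_mem_eq_inter, univ_inter]
  exact sum_congr rfl fun k hk => by simp [hk, sq]

theorem sq2_le_nrm (B : Finset (Fin n)) (v : Fin n → ℝ) : sq2 B v ≤ nrm v ^ 2 := by
  rw [sq2_res]; exact pow_le_pow_left₀ (nrm_nonneg _) (nrm_res_le _ _) 2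

theorem nrm_sq' (v : Fin n → ℝ) : nrm v ^ 2 = ∑ j, v j ^ 2 := by
  rw [nrm_sq]; simp only [dotProduct, sq]

theorem sp_single (hm : 1 ≤ m) (i : Fin n) : Sp m (Pi.single i (1 : ℝ)) :=
  ⟨{i}, by simpa, fun k hk => by rw [Pi.single_apply, if_neg (by simpa using hk)]⟩

theorem sq_le_of {a b : ℝ} (h0 : 0 ≤ a) (h : a ≤ b) : a ^ 2 ≤ b ^ 2 := pow_le_pow_left₀ h0 h 2

namespace Blk

theorem sy (b : Blk W m c ω σ) (i j : Fin n) : W j i = W i j := by
  rw [← transpose_apply W i j, b.symm]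

theorem col (b : Blk W m c ω σ) (j : Fin n) : ∑ k, W k j ^ 2 ≤ c ^ 2 := by
  have := sq_le_of (nrm_nonneg _) (b.op (Pi.single j 1))
  rwa [nrm_single, mul_one, mulVec_single_one, nrm_sq'] at this

theorem col1 (b : Blk W m c ω σ) (hm : 1 ≤ m) (j : Fin n) : ∑ k, W k j ^ 2 ≤ ω ^ 2 := by
  have := sq_le_of (nrm_nonneg _) (b.b1 _ (sp_single hm j))
  rwa [nrm_single, mul_one, mulVec_single_one, nrm_sq'] at this

theorem col2 (b : Blk W m c ω σ) (hm : 1 ≤ m) {B : Finset (Fin n)} (hB : (#B : ℝ) ≤ m) (j : Fin n) :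
    ∑ k ∈ B, W k j ^ 2 ≤ σ ^ 2 := by
  have := sq_le_of (nrm_nonneg _) (b.b2 _ B (sp_single hm j) hB)
  rwa [nrm_single, mul_one, mulVec_single_one, ← sq2_res] at this

theorem ent (b : Blk W m c ω σ) (hm : 1 ≤ m) (σ1 : σ ^ 2 ≤ (1 / 8) ^ 2) (k j : Fin n) :
    |W k j| ≤ 1 / 8 := by
  have := b.col2 hm (B := {k}) (by simpa) j
  rw [sum_singleton] at this
  exact abs_le.2 (abs_le_of_sq_le_sq' (this.trans σ1) (by norm_num))

end Blk

theorem uI_fl (x : Cube n) (j k : Fin n) : uI W h (fl x j) k = uI W h x k - 2 * sv x j * W k j := by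
  have e : sv (fl x j) = sv x + Pi.single j (-2 * sv x j) := by rw [← Rec.sv_fl_sub]; abel
  simp only [uI, e, mulVec_add, Pi.add_apply, mulVec_single, Pi.smul_apply, col_apply, op_smul_eq_mul]
  ring

theorem grad_TI (x : Cube n) (j k : Fin n) (hw : |W k j| ≤ 1 / 8) :
    |grad (TI W h k) x j| ≤ 2 * |W k j| * (1 - TI W h k x ^ 2) ∧
      |grad (TI W h k) x j - W k j * (1 - TI W h k x ^ 2)| ≤ 8 * W k j ^ 2 * (1 - TI W h k x ^ 2) := by
  obtain ⟨ξ, h1, h2⟩ := Da.Gr.mvt (uI W h x k) (uI W h x k - 2 * sv x j * W k j)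
  rw [sub_sub_cancel] at h1 h2
  rw [abs_mul, abs_mul, abs_s, abs_two, mul_one] at h1
  have e : grad (TI W h k) x j = W k j * (1 - tanh ξ ^ 2) := by
    rw [grad_eq, TI, TI, uI_fl, h2]
    linear_combination (W k j * (1 - tanh ξ ^ 2)) * ss x j
  have w0 := abs_nonneg (W k j)
  have D0 := Da.Gr.sech_nonneg (uI W h x k)
  have q0 := Da.Gr.sech_nonneg ξ
  have q1 := (Da.Gr.sech_le (uI W h x k) ξ).trans (mul_le_mul_of_nonneg_right
    (exp_le_exp.2 (show _ ≤ 4 * |W k j| by linarith)) D0)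
  have q2 := (Da.Gr.sech_le ξ (uI W h x k)).trans (mul_le_mul_of_nonneg_right
    (exp_le_exp.2 (show _ ≤ 4 * |W k j| by rw [abs_sub_comm]; linarith)) q0)
  have x1 := (abs_le.1 (abs_exp_sub_one_le (x := 4 * |W k j|)
    (by rw [abs_of_nonneg (by positivity)]; linarith))).2
  rw [abs_of_nonneg (show 0 ≤ 4 * |W k j| by positivity)] at x1
  have x2 : 1 - 4 * |W k j| ≤ exp (-(4 * |W k j|)) := by linarith [add_one_le_exp (-(4 * |W k j|))]
  have x3 := mul_le_mul_of_nonneg_left q2 (exp_pos (-(4 * |W k j|))).le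
  rw [← mul_assoc, ← exp_add, neg_add_cancel, exp_zero, one_mul] at x3
  rw [e, TI]
  set D := 1 - tanh (uI W h x k) ^ 2
  set q := 1 - tanh ξ ^ 2
  have a1 : q ≤ (1 + 8 * |W k j|) * D := q1.trans (mul_le_mul_of_nonneg_right (by linarith) D0)
  have a2 : (1 - 4 * |W k j|) * D ≤ q := (mul_le_mul_of_nonneg_right x2 D0).trans x3
  have a3 : |q - D| ≤ 8 * |W k j| * D := abs_le.2 ⟨by nlinarith [mul_nonneg w0 D0], by linarith⟩
  constructor
  · rw [abs_mul, abs_of_nonneg q0]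
    nlinarith [mul_le_mul_of_nonneg_left (show q ≤ 2 * D by nlinarith) w0]
  · rw [← mul_sub, abs_mul, ← sq_abs (W k j)]
    nlinarith [mul_le_mul_of_nonneg_left a3 w0]

theorem s_tanh (x : Cube n) (j : Fin n) (u : ℝ) : sv x j * tanh u = tanh (sv x j * u) := by
  rcases mul_self_eq_one_iff.1 (ss x j) with e | e <;> simp [e]

theorem one_sub_tanh (y : ℝ) : (1 - tanh y) / 2 ≤ exp (-(2 * y)) := by
  have a := exp_pos y
  have b := exp_pos (-y)
  have e : exp (-(2 * y)) * exp y = exp (-y) := by rw [← exp_add]; congr 1; ring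
  have e2 : (1 - tanh y) / 2 = exp (-y) / (exp y + exp (-y)) := by
    rw [tanh_eq_sinh_div_cosh, sinh_eq, cosh_eq]; field_simp; ring
  rw [e2, div_le_iff₀ (by positivity)]
  nlinarith [mul_pos (exp_pos (-(2 * y))) b]

theorem D_le_pk (T : Fin n → Cube n → ℝ) (k : Fin n) (x : Cube n) : 1 - T k x ^ 2 ≤ 4 * pk T k x := by
  rw [pk]; nlinarith [sq_nonneg (1 - sv x k * T k x), ss x k, sq_nonneg (T k x)]

/-- frozen sites -/
theorem froz {s0 x : Cube n} {k : Fin n} (hk : k ∈ C) (hk' : k ∉ B0 W h C s0 A x) :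
    A ≤ sv s0 k * uI W h x k ∧ A ≤ |uI W h x k| ∧ (1 - sv s0 k * TI W h k x) / 2 ≤ exp (-(2 * A)) ∧
      1 - TI W h k x ^ 2 ≤ 4 * exp (-(2 * A)) := by
  have h1 : A ≤ sv s0 k * uI W h x k := by simpa [B0, hk] using hk'
  have h2 : (1 - sv s0 k * TI W h k x) / 2 ≤ exp (-(2 * A)) := by
    rw [TI, s_tanh]; exact (one_sub_tanh _).trans (exp_le_exp.2 (by linarith))
  refine ⟨h1, ?_, h2, ?_⟩
  · have := le_abs_self (sv s0 k * uI W h x k)
    rw [abs_mul, abs_s, one_mul] at this; linarith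
  · nlinarith [sq_nonneg (1 - sv s0 k * TI W h k x), ss s0 k, sq_nonneg (TI W h k x)]

/-- the number of sites that are not frozen -/
theorem card_B0 (b : Blk W m c ω σ) (hA : 0 < A) {s0 x : Cube n} {F0 : Finset (Fin n)} {t : ℝ}
    (al : ∀ j ∈ C, j ∉ F0 → 2 * A ≤ sv s0 j * uI W h s0 j) (ht : (#Cᶜ : ℝ) ≤ t)
    (hm : dH C s0 x + t ≤ m) :
    (#(B0 W h C s0 A x) : ℝ) ≤ #F0 + 4 * ω ^ 2 * (dH C s0 x + t) / A ^ 2 := by
  set Dx := univ.filter fun j => x j ≠ s0 j with hD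
  have c1 : (#Dx : ℝ) ≤ dH C s0 x + t := by
    have : Dx ⊆ (C.filter fun j => x j ≠ s0 j) ∪ Cᶜ := fun j hj => by
      by_cases e : j ∈ C
      · exact mem_union_left _ (mem_filter.2 ⟨e, (mem_filter.1 hj).2⟩)
      · exact mem_union_right _ (mem_compl.2 e)
    have : (#Dx : ℝ) ≤ dH C s0 x + #Cᶜ := by
      exact_mod_cast (card_le_card this).trans (card_union_le _ _)
    linarith
  have z : ∀ j ∉ Dx, (sv x - sv s0) j = 0 := fun j hj => by
    have : x j = s0 j := by simpa [hD] using hj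
    simp [sv, this]
  have c2 : nrm (sv x - sv s0) ^ 2 ≤ 4 * #Dx := by
    rw [nrm_sq', ← sum_subset (subset_univ Dx) fun j _ hj => by rw [z j hj]; simp]
    refine (sum_le_sum (g := fun _ => (4 : ℝ)) fun j _ => ?_).trans (by simp [mul_comm])
    rw [Pi.sub_apply]; nlinarith [ss x j, ss s0 j, sq_nonneg (sv x j + sv s0 j)]
  have c3 := sq_le_of (nrm_nonneg _) (b.b1 _ ⟨Dx, c1.trans hm, z⟩)
  rw [mul_pow, nrm_sq'] at c3
  set Δ := W *ᵥ (sv x - sv s0) with hΔ
  set E := univ.filter fun j => A ≤ |Δ j|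
  have c4 : (#E : ℝ) * A ^ 2 ≤ ∑ j, Δ j ^ 2 := by
    rw [← nsmul_eq_mul, ← sum_const]
    refine (sum_le_sum fun j hj => ?_).trans
      (sum_le_sum_of_subset_of_nonneg (subset_univ _) fun j _ _ => sq_nonneg (Δ j))
    rw [← sq_abs (Δ j)]
    exact sq_le_of hA.le (mem_filter.1 hj).2
  have c5 : B0 W h C s0 A x ⊆ F0 ∪ E := fun j hj => by
    obtain ⟨j1, j2⟩ := mem_filter.1 hj
    by_cases e : j ∈ F0
    · exact mem_union_left _ e
    · refine mem_union_right _ (mem_filter.2 ⟨mem_univ _, ?_⟩)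
      have e1 : uI W h x j = uI W h s0 j + Δ j := by
        simp only [uI, hΔ, mulVec_sub, Pi.add_apply, Pi.sub_apply]; ring
      have e2 := neg_abs_le (sv s0 j * Δ j)
      rw [abs_mul, abs_s, one_mul] at e2
      rw [e1, mul_add] at j2
      linarith [al j j1 e]
  have c6 : (#(B0 W h C s0 A x) : ℝ) ≤ #F0 + #E := by
    exact_mod_cast (card_le_card c5).trans (card_union_le _ _)
  have c7 : (#E : ℝ) ≤ 4 * ω ^ 2 * (dH C s0 x + t) / A ^ 2 := by
    rw [le_div_iff₀ (by positivity)]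
    nlinarith [mul_le_mul_of_nonneg_left c2 (sq_nonneg ω), mul_le_mul_of_nonneg_left c1 (sq_nonneg ω)]
  linarith

/-- **good points** -/
theorem good_of (b : Blk W m c ω σ) (hm : 1 ≤ m) {x : Cube n} {B : Finset (Fin n)} {δ β : ℝ}
    (hB : B ⊆ C) (hc : (#B : ℝ) ≤ m) (δ0 : 0 ≤ δ) (hδ : ∀ k ∈ C, k ∉ B → 1 - TI W h k x ^ 2 ≤ δ)
    (hρ : 64 * (σ ^ 2 + δ * c ^ 2) ≤ 1)
    (hβ : 4 * σ ^ 2 + 4 * c ^ 2 * δ ^ 2 + 128 * ω ^ 2 * (σ ^ 2 + δ * c ^ 2) ≤ β) :
    Good C (TI W h) m (4 * ω ^ 2) β x := by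
  set D : Fin n → ℝ := fun k => 1 - TI W h k x ^ 2 with hD
  have D0 : ∀ k, 0 ≤ D k := fun k => Da.Gr.sech_nonneg _
  have D1 : ∀ k, D k ≤ 1 := fun k => sub_le_self _ (sq_nonneg _)
  have en := b.ent hm (by nlinarith [mul_nonneg δ0 (sq_nonneg c)])
  have row : ∀ j, ∑ k ∈ C, W k j ^ 2 * D k ≤ σ ^ 2 + δ * c ^ 2 := fun j => by
    rw [← sum_sdiff hB, add_comm]
    refine add_le_add ((sum_le_sum fun k _ => mul_le_of_le_one_right (sq_nonneg _) (D1 k)).trans
      (b.col2 hm hc j)) ((sum_le_sum (g := fun k => δ * W k j ^ 2) fun k hk => ?_).trans ?_)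
    · rw [mul_comm]
      exact mul_le_mul_of_nonneg_right (hδ k (mem_sdiff.1 hk).1 (mem_sdiff.1 hk).2) (sq_nonneg _)
    · rw [← mul_sum]
      exact mul_le_mul_of_nonneg_left ((sum_le_sum_of_subset_of_nonneg (subset_univ _)
        fun _ _ _ => sq_nonneg _).trans (b.col j)) δ0
  have main : ∀ (B' : Finset (Fin n)) (v : Fin n → ℝ), sq2 B' (hop C (TI W h) x v) ≤
      4 * sq2 B' (W *ᵥ res B (D * v)) +
        (4 * c ^ 2 * δ ^ 2 + 128 * ω ^ 2 * (σ ^ 2 + δ * c ^ 2)) * sq2 C v := fun B' v => by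
    set R : Fin n → ℝ := fun j => ∑ k ∈ C, (grad (TI W h k) x j - W k j * D k) * v k with hR
    have e : hop C (TI W h) x v = (W *ᵥ res B (D * v) + W *ᵥ res (C \ B) (D * v)) + R := by
      funext j
      have e1 : ∀ S : Finset (Fin n), (W *ᵥ res S (D * v)) j = ∑ k ∈ S, W k j * D k * v k := fun S => by
        simp only [mulVec, dotProduct, res, mul_ite, mul_zero]
        rw [← sum_filter, filter_mem_eq_inter, univ_inter]
        exact sum_congr rfl fun k _ => by rw [Pi.mul_apply, b.sy k j, mul_assoc]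
      rw [Pi.add_apply, Pi.add_apply, e1, e1, add_comm (∑ k ∈ B, _), sum_sdiff hB, hR, hop,
        ← sum_add_distrib]
      exact sum_congr rfl fun k _ => by ring
    have v0 := sq2_nonneg C v
    have a1 : sq2 B' (W *ᵥ res (C \ B) (D * v)) ≤ c ^ 2 * δ ^ 2 * sq2 C v := by
      refine (sq2_le_nrm _ _).trans ((sq_le_of (nrm_nonneg _) (b.op _)).trans ?_)
      rw [mul_pow, ← sq2_res, mul_assoc]
      refine mul_le_mul_of_nonneg_left ?_ (sq_nonneg c)
      refine (sum_le_sum (g := fun k => δ ^ 2 * v k ^ 2) fun k hk => ?_).trans ?_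
      · rw [Pi.mul_apply, mul_pow]
        exact mul_le_mul_of_nonneg_right (sq_le_of (D0 k)
          (hδ k (mem_sdiff.1 hk).1 (mem_sdiff.1 hk).2)) (sq_nonneg _)
      · rw [← mul_sum]
        exact mul_le_mul_of_nonneg_left (sq2_mono sdiff_subset v) (sq_nonneg δ)
    have a2 : ∀ j, R j ^ 2 ≤ 64 * (σ ^ 2 + δ * c ^ 2) * ∑ k ∈ C, W k j ^ 2 * v k ^ 2 := fun j => by
      have b1 : |R j| ≤ 8 * ∑ k ∈ C, W k j ^ 2 * D k * |v k| := by
        rw [mul_sum]
        refine (abs_sum_le_sum_abs _ _).trans (sum_le_sum fun k _ => ?_)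
        rw [abs_mul]
        exact (mul_le_mul_of_nonneg_right (grad_TI x j k (en k j)).2 (abs_nonneg _)).trans_eq (by ring)
      have b2 : (∑ k ∈ C, W k j ^ 2 * D k * |v k|) ^ 2 ≤
          (∑ k ∈ C, W k j ^ 2 * D k) * ∑ k ∈ C, W k j ^ 2 * v k ^ 2 :=
        sum_sq_le_sum_mul_sum_of_sq_le_mul C (fun k _ => mul_nonneg (sq_nonneg _) (D0 k))
          (fun k _ => by positivity) fun k _ => by
            rw [mul_pow, sq_abs, mul_pow]
            have := mul_le_of_le_one_right (D0 k) (D1 k)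
            nlinarith [mul_le_mul_of_nonneg_left this
              (mul_nonneg (sq_nonneg (W k j ^ 2)) (sq_nonneg (v k)))]
      have b3 := mul_le_mul_of_nonneg_right (row j)
        (sum_nonneg fun k (_ : k ∈ C) => mul_nonneg (sq_nonneg (W k j)) (sq_nonneg (v k)))
      have b4 := sq_le_of (abs_nonneg _) b1
      rw [sq_abs, mul_pow] at b4
      nlinarith
    have a3 : sq2 B' R ≤ 64 * (σ ^ 2 + δ * c ^ 2) * (ω ^ 2 * sq2 C v) := by
      refine (sum_le_sum_of_subset_of_nonneg (f := fun j => R j ^ 2) (subset_univ B')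
        fun _ _ _ => sq_nonneg _).trans
        ((sum_le_sum fun j _ => a2 j).trans ?_)
      rw [← mul_sum, sum_comm, sq2, mul_sum C _ (ω ^ 2)]
      have p0 : 0 ≤ 64 * (σ ^ 2 + δ * c ^ 2) := by positivity
      refine mul_le_mul_of_nonneg_left (sum_le_sum fun k _ => ?_) p0
      rw [← sum_mul]
      refine mul_le_mul_of_nonneg_right ?_ (sq_nonneg _)
      simpa only [b.sy k] using b.col1 hm k
    have a4 := sq2_add_le B' (W *ᵥ res B (D * v)) (W *ᵥ res (C \ B) (D * v))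
    rw [e]
    nlinarith [sq2_add_le B' (W *ᵥ res B (D * v) + W *ᵥ res (C \ B) (D * v)) R]
  have Dv : ∀ v, nrm (res B (D * v)) ^ 2 ≤ sq2 B v := fun v => by
    rw [← sq2_res]
    refine sum_le_sum fun k _ => ?_
    rw [Pi.mul_apply, mul_pow]
    exact mul_le_of_le_one_left (sq_nonneg _) (pow_le_one₀ (D0 k) (D1 k))
  refine ⟨fun j _ => ⟨fun k => 16 * (W k j ^ 2 * D k), fun k _ => by have := D0 k; positivity,
    fun k _ => ?_, by rw [← mul_sum]; linarith [row j]⟩, ⟨B, hB, hc, fun v => ?_⟩, fun B' _ hc' v => ?_⟩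
  · have h1 := sq_le_of (abs_nonneg _) (grad_TI (h := h) x j k (en k j)).1
    rw [sq_abs, mul_pow, mul_pow, sq_abs] at h1
    have h2 := mul_le_mul_of_nonneg_left (D_le_pk (TI W h) k x) (mul_nonneg (sq_nonneg (W k j)) (D0 k))
    simp only [hD] at h2 ⊢
    nlinarith
  · have h1 := (sq2_le_nrm C _).trans (sq_le_of (nrm_nonneg _) (b.b1 _ (sp_res hc (D * v))))
    rw [mul_pow] at h1
    nlinarith [main C v, mul_le_mul_of_nonneg_left (Dv v) (sq_nonneg ω),
      mul_le_mul_of_nonneg_right hβ (sq2_nonneg C v), mul_nonneg (sq_nonneg σ) (sq2_nonneg C v)]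
  · have h1 := sq_le_of (nrm_nonneg _) (b.b2 _ B' (sp_res hc (D * v)) hc')
    rw [mul_pow, ← sq2_res] at h1
    nlinarith [main B' v, mul_le_mul_of_nonneg_left ((Dv v).trans (sq2_mono hB v)) (sq_nonneg σ),
      mul_le_mul_of_nonneg_right hβ (sq2_nonneg C v)]

/-- **drift towards the reference point** -/
theorem drift_of (hA : 0 ≤ A) {s0 x : Cube n}
    (hd : 7 * (#(B0 W h C s0 A x) : ℝ) + 6 * n * exp (-(2 * A)) ≤ dH C s0 x) :
    3 * ∑ k ∈ C.filter (fun k => x k = s0 k), pk (TI W h) k x ≤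
      ∑ k ∈ C.filter (fun k => x k ≠ s0 k), pk (TI W h) k x := by
  set B := B0 W h C s0 A x
  have ε0 := exp_pos (-(2 * A))
  have ind : ∀ S : Finset (Fin n), ∑ k ∈ S, (if k ∈ B then (1 : ℝ) else 0) ≤ #B := fun S => by
    rw [← sum_filter, sum_const, nsmul_eq_mul, mul_one]
    exact_mod_cast card_le_card fun k hk => (mem_filter.1 hk).2
  have h1 : ∑ k ∈ C.filter (fun k => x k = s0 k), pk (TI W h) k x ≤ #B + n * exp (-(2 * A)) := by
    refine (sum_le_sum (g := fun k => (if k ∈ B then (1 : ℝ) else 0) + exp (-(2 * A)))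
      fun k hk => ?_).trans ?_
    · obtain ⟨k1, k2⟩ := mem_filter.1 hk
      split_ifs with e
      · linarith [pk_le_one (T := TI W h) abs_TI k x]
      · rw [zero_add, pk, show sv x k = sv s0 k by simp [sv, k2]]
        exact (froz k1 e).2.2.1
    · rw [sum_add_distrib, sum_const, nsmul_eq_mul]
      refine add_le_add (ind _) (mul_le_mul_of_nonneg_right ?_ ε0.le)
      exact_mod_cast (card_le_univ _).trans_eq (Fintype.card_fin n)
  have h2 : ((dH C s0 x : ℝ) - #B) / 2 ≤ ∑ k ∈ C.filter (fun k => x k ≠ s0 k), pk (TI W h) k x := by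
    refine le_trans ?_ (sum_le_sum (f := fun k => 1 / 2 - (if k ∈ B then (1 : ℝ) else 0) / 2)
      fun k hk => ?_)
    · rw [sum_sub_distrib, sum_const, nsmul_eq_mul, ← sum_div, dH]
      linarith [ind (C.filter fun k => x k ≠ s0 k)]
    · obtain ⟨k1, k2⟩ := mem_filter.1 hk
      split_ifs with e
      · linarith [pk_nonneg (T := TI W h) abs_TI k x]
      · have e1 : sv x k = -sv s0 k := by
          revert k2; unfold sv
          cases x k <;> cases s0 k <;> simp [Crest.ProbabilityR.SpinGlassDynamics.spin]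
        have e2 : 0 ≤ sv s0 k * TI W h k x := by
          rw [TI, s_tanh, tanh_eq_sinh_div_cosh]
          exact div_nonneg (sinh_nonneg_iff.2 (hA.trans (froz k1 e).1)) (cosh_pos _).le
        rw [pk, e1]; linarith
  linarith

/-- **the hypotheses of `key` on the ball around an aligned point** -/
theorem ball (b : Blk W m c ω σ) (hm : 1 ≤ m) (hA : 0 < A) {s0 : Cube n} {F0 : Finset (Fin n)}
    {t β : ℝ} {d0 d1 : ℕ} (al : ∀ j ∈ C, j ∉ F0 → 2 * A ≤ sv s0 j * uI W h s0 j) (ht : (#Cᶜ : ℝ) ≤ t)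
    (h1 : d1 + t ≤ m) (h2 : #F0 + 4 * ω ^ 2 * (d1 + t) / A ^ 2 ≤ m) (h3 : 56 * ω ^ 2 ≤ A ^ 2)
    (h4 : 14 * #F0 + t + 12 * n * exp (-(2 * A)) ≤ d0)
    (hρ : 64 * (σ ^ 2 + 4 * exp (-(2 * A)) * c ^ 2) ≤ 1)
    (hβ : 4 * σ ^ 2 + 4 * c ^ 2 * (4 * exp (-(2 * A))) ^ 2 +
      128 * ω ^ 2 * (σ ^ 2 + 4 * exp (-(2 * A)) * c ^ 2) ≤ β) (x : Cube n) (hx : dH C s0 x < d1) :
    (#(B0 W h C s0 A x) : ℝ) ≤ #F0 + 4 * ω ^ 2 * (d1 + t) / A ^ 2 ∧
      Good C (TI W h) m (4 * ω ^ 2) β x ∧ (d0 < dH C s0 x →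
        3 * ∑ k ∈ C.filter (fun k => x k = s0 k), pk (TI W h) k x ≤
          ∑ k ∈ C.filter (fun k => x k ≠ s0 k), pk (TI W h) k x) := by
  have d : (dH C s0 x : ℝ) ≤ d1 := by exact_mod_cast hx.le
  have c1 := card_B0 b hA al ht (x := x) (by linarith)
  have c2 : (#(B0 W h C s0 A x) : ℝ) ≤ #F0 + 4 * ω ^ 2 * (d1 + t) / A ^ 2 := c1.trans (by gcongr)
  refine ⟨c2, good_of b hm (filter_subset _ _) (c2.trans h2) (by positivity)
    (fun k hk hk' => (froz hk hk').2.2.2) hρ hβ, fun hd => drift_of hA.le ?_⟩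
  have d' : (d0 : ℝ) ≤ dH C s0 x := by exact_mod_cast hd.le
  have t0 : 0 ≤ (dH C s0 x : ℝ) + t := add_nonneg (Nat.cast_nonneg _) ((Nat.cast_nonneg _).trans ht)
  have : 4 * ω ^ 2 * (dH C s0 x + t) / A ^ 2 ≤ (dH C s0 x + t) / 14 := by
    rw [div_le_div_iff₀ (by positivity) (by norm_num)]
    nlinarith [mul_le_mul_of_nonneg_right h3 t0]
  linarith

/-! ### the block bounds of `offdiag (J - Q)` -/

theorem res_add (B : Finset (Fin n)) (u v : Fin n → ℝ) : res B (u + v) = res B u + res B v := by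
  funext i; simp only [res, Pi.add_apply]; split_ifs <;> simp

theorem res_sub (B : Finset (Fin n)) (u v : Fin n → ℝ) : res B (u - v) = res B u - res B v := by
  funext i; simp only [res, Pi.sub_apply]; split_ifs <;> simp

theorem blk_of {J Q : Matrix (Fin n) (Fin n) ℝ} {a σ0 cQ q : ℝ} (hm : 1 ≤ m) (hJ : Jᵀ = J) (hQ : Qᵀ = Q)
    (hJd : ∀ i, J i i = 0) (hW : ∀ i j, W i j = if i = j then 0 else J i j - Q i j)
    (j1 : ∀ v, nrm (J *ᵥ v) ≤ a * nrm v)
    (j2 : ∀ v B, Sp m v → (#B : ℝ) ≤ m → nrm (res B (J *ᵥ v)) ≤ σ0 * nrm v)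
    (q1 : ∀ v, nrm (Q *ᵥ v) ≤ cQ * nrm v) (q2 : ∀ v, Sp m v → nrm (Q *ᵥ v) ≤ q * nrm v) :
    Blk W m (a + cQ + q) (a + 2 * q) (σ0 + 2 * q) := by
  have sJ : ∀ i j, J j i = J i j := fun i j => by rw [← transpose_apply J i j, hJ]
  have sQ : ∀ i j, Q j i = Q i j := fun i j => by rw [← transpose_apply Q i j, hQ]
  have e : ∀ v, W *ᵥ v = J *ᵥ v - Q *ᵥ v + fun i => Q i i * v i := fun v => by
    funext i
    have : ∀ j, W i j * v j = (J i j - Q i j) * v j + if i = j then Q i i * v i else 0 := fun j => by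
      rw [hW]; split_ifs with h
      · subst h; rw [hJd]; ring
      · ring
    simp only [Pi.add_apply, Pi.sub_apply, mulVec, dotProduct, this, sum_add_distrib, sum_ite_eq,
      mem_univ, if_true, sub_mul, sum_sub_distrib]
  have dg : ∀ i, |Q i i| ≤ q := fun i => by
    have := (Eig.abs_apply_le_nrm _ i).trans (q2 _ (sp_single hm i))
    rwa [nrm_single, mul_one, mulVec_single_one, col_apply] at this
  have dd : ∀ v : Fin n → ℝ, nrm (fun i => Q i i * v i) ≤ q * nrm v := fun v => by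
    rcases isEmpty_or_nonempty (Fin n) with hn | ⟨⟨i⟩⟩
    · simp [nrm, dotProduct]
    have q0 : 0 ≤ q := (abs_nonneg _).trans (dg i)
    refine abs_le_of_sq_le_sq' ?_ (mul_nonneg q0 (nrm_nonneg v)) |>.2
    rw [mul_pow, nrm_sq', nrm_sq', mul_sum]
    refine sum_le_sum fun i _ => ?_
    rw [mul_pow, ← sq_abs (Q i i)]
    exact mul_le_mul_of_nonneg_right (sq_le_of (abs_nonneg _) (dg i)) (sq_nonneg _)
  refine ⟨?_, fun i => by rw [hW, if_pos rfl], fun v => ?_, fun v hv => ?_, fun v B hv hB => ?_⟩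
  · ext i j
    rw [transpose_apply, hW, hW, sJ i j, sQ i j]
    simp only [eq_comm]
  · rw [e]
    linarith [nrm_add_le (J *ᵥ v - Q *ᵥ v) fun i => Q i i * v i, nrm_sub_le (J *ᵥ v) (Q *ᵥ v), j1 v,
      q1 v, dd v]
  · rw [e]
    linarith [nrm_add_le (J *ᵥ v - Q *ᵥ v) fun i => Q i i * v i, nrm_sub_le (J *ᵥ v) (Q *ᵥ v), j1 v,
      q2 v hv, dd v]
  · rw [e, res_add, res_sub]
    linarith [nrm_add_le (res B (J *ᵥ v) - res B (Q *ᵥ v)) (res B fun i => Q i i * v i),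
      nrm_sub_le (res B (J *ᵥ v)) (res B (Q *ᵥ v)), j2 v B hv hB, q2 v hv, dd v,
      nrm_res_le B (Q *ᵥ v), nrm_res_le B fun i => Q i i * v i]

/-- the matrix `J 1_S J` -/
def QS (J : Matrix (Fin n) (Fin n) ℝ) (S : Finset (Fin n)) : Matrix (Fin n) (Fin n) ℝ :=
  of fun i j => ∑ k ∈ S, J i k * J k j

theorem QS_mulVec (J : Matrix (Fin n) (Fin n) ℝ) (S : Finset (Fin n)) (v : Fin n → ℝ) :
    QS J S *ᵥ v = J *ᵥ res S (J *ᵥ v) := by
  funext i
  simp only [QS, mulVec, dotProduct, of_apply, res, mul_ite, mul_zero, sum_mul, mul_sum]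
  rw [← sum_filter, filter_mem_eq_inter, univ_inter, sum_comm]
  exact sum_congr rfl fun k _ => sum_congr rfl fun j _ => by ring

theorem QS_symm {J : Matrix (Fin n) (Fin n) ℝ} (hJ : Jᵀ = J) (S : Finset (Fin n)) :
    (QS J S)ᵀ = QS J S := by
  have sJ : ∀ i j, J j i = J i j := fun i j => by rw [← transpose_apply J i j, hJ]
  ext i j
  simp only [transpose_apply, QS, of_apply]
  exact sum_congr rfl fun k _ => by rw [sJ k j, sJ i k, mul_comm]

/-- **block bounds of `offdiag (θ J - p J 1_S J)`** -/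
theorem blk_ising {J : Matrix (Fin n) (Fin n) ℝ} {S : Finset (Fin n)} {θ p K σ0 : ℝ} (hm : 1 ≤ m)
    (hJ : Jᵀ = J) (hJd : ∀ i, J i i = 0) (op : opn J ≤ 3) (sp : SpJ K J) (hK : 0 ≤ K)
    (hσ : K * √(√(m / n)) ≤ σ0) (hS : (#S : ℝ) ≤ m) (θ0 : 0 ≤ θ) (p0 : 0 ≤ p)
    (hW : ∀ i j, W i j = if i = j then 0 else θ * J i j - p * QS J S i j) :
    Blk W m (3 * θ + 9 * p + 3 * p * σ0) (3 * θ + 2 * (3 * p * σ0)) (θ * σ0 + 2 * (3 * p * σ0)) := by
  have j1 : ∀ v, nrm (J *ᵥ v) ≤ 3 * nrm v := fun v =>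
    (nrm_mulVec_le J v).trans (mul_le_mul_of_nonneg_right op (nrm_nonneg v))
  have j2 : ∀ v B, Sp m v → (#B : ℝ) ≤ m → nrm (res B (J *ᵥ v)) ≤ σ0 * nrm v := fun v B hv hB =>
    ((sp.fl hv).res (mul_nonneg (by positivity) (nrm_nonneg _)) hB).trans
      (mul_le_mul_of_nonneg_right hσ (nrm_nonneg v))
  refine blk_of (J := θ • J) (Q := p • QS J S) hm (by rw [transpose_smul, hJ])
    (by rw [transpose_smul, QS_symm hJ]) (fun i => by simp [hJd]) hW (fun v => ?_)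
    (fun v B hv hB => ?_) (fun v => ?_) fun v hv => ?_
  · rw [smul_mulVec, Eig.nrm_smul, abs_of_nonneg θ0]
    nlinarith [mul_le_mul_of_nonneg_left (j1 v) θ0]
  · have e : res B (θ • J *ᵥ v) = θ • res B (J *ᵥ v) := by
      funext i; simp only [res, Pi.smul_apply]; split_ifs <;> simp
    rw [smul_mulVec, e, Eig.nrm_smul, abs_of_nonneg θ0, mul_assoc]
    exact mul_le_mul_of_nonneg_left (j2 v B hv hB) θ0
  · rw [smul_mulVec, Eig.nrm_smul, abs_of_nonneg p0, QS_mulVec]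
    nlinarith [mul_le_mul_of_nonneg_left ((j1 _).trans (mul_le_mul_of_nonneg_left
      ((nrm_res_le S _).trans (j1 v)) zero_le_three)) p0]
  · rw [smul_mulVec, Eig.nrm_smul, abs_of_nonneg p0, QS_mulVec]
    nlinarith [mul_le_mul_of_nonneg_left ((j1 _).trans (mul_le_mul_of_nonneg_left
      (j2 v S hv hS) zero_le_three)) p0]

end Crest.Agent.T157.EnK

end
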