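import Crest.Agent.T157.EnDef_40
import Crest.Agent.T157.EnKi_8

/-!
# Row 157, block B, END (helper14): good points
-/

set_option autoImplicit false
set_option linter.all false

noncomputable section

namespace Crest.Agent.T157.En

open Real Matrix Finset
open Crest.Agent.T157.E
open Crest.Agent.T157.Rec (grad)
open Crest.Agent.T157.Eig (nrm opn nrm_nonneg nrm_sq nrm_add_le nrm_mulVec_le)
open Crest.Agent.T157.S3 (V Mx hf)
open Crest.Agent.T157.Rip (Sp res sp_res nrm_res_le)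
open Crest.Agent.T157.EnK (TI B0 nrm_sq' grad_TI froz card_B0 D_le_pk abs_s)

namespace Gd14

variable {n : ℕ} {W : Mx n} {c ω s A : ℝ} {m : ℕ}

/-- dictionary with the blocks of `EnK` -/
lemma blk {M : ℝ} (b : Blk W c ω s M) (hs : 0 ≤ s) : EnK.Blk W M c ω s :=
  ⟨b.symm, b.diag, fun v => (nrm_mulVec_le W v).trans
    (mul_le_mul_of_nonneg_right b.op (nrm_nonneg v)), b.col, fun v B hv hB =>
    Rip.Fl.res (fun u hu => (b.blk u v hu hv).trans_eq (by ring)) (mul_nonneg hs (nrm_nonneg v)) hB⟩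

lemma nrm_le_of {u v : V n} {a : ℝ} (ha : 0 ≤ a) (h : ∑ j, u j ^ 2 ≤ a ^ 2 * ∑ j, v j ^ 2) :
    nrm u ≤ a * nrm v :=
  le_of_sq_le_sq (by rw [mul_pow, nrm_sq', nrm_sq']; exact h) (mul_nonneg ha (nrm_nonneg v))

lemma nrm_res_mul {D v : V n} {a : ℝ} (B : Finset (Fin n)) (ha : 0 ≤ a) (h0 : ∀ j, 0 ≤ D j)
    (h : ∀ j ∈ B, D j ≤ a) : nrm (res B (D * v)) ≤ a * nrm (res B v) := by
  refine nrm_le_of ha ?_
  rw [mul_sum]
  refine sum_le_sum fun j _ => ?_
  unfold res
  split_ifs with hj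
  · rw [Pi.mul_apply, mul_pow]
    exact mul_le_mul_of_nonneg_right (pow_le_pow_left₀ (h0 j) (h j hj) 2) (sq_nonneg _)
  · simp

/-- Schur test -/
lemma schur {D v R : V n} {ρ o : ℝ} (D0 : ∀ j, 0 ≤ D j) (D1 : ∀ j, D j ≤ 1)
    (row : ∀ k, ∑ j, W j k ^ 2 * D j ≤ ρ) (col : ∀ j, ∑ k, W j k ^ 2 ≤ o)
    (hR : ∀ k, |R k| ≤ 8 * ∑ j, W j k ^ 2 * D j * |v j|) (ρ0 : 0 ≤ ρ) :
    ∑ k, R k ^ 2 ≤ 64 * ρ * o * ∑ j, v j ^ 2 := by
  have h1 : ∀ k, R k ^ 2 ≤ 64 * ρ * ∑ j, W j k ^ 2 * v j ^ 2 := fun k => by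
    have h2 : (∑ j, W j k ^ 2 * D j * |v j|) ^ 2 ≤
        (∑ j, W j k ^ 2 * D j) * ∑ j, W j k ^ 2 * v j ^ 2 := by
      refine sum_sq_le_sum_mul_sum_of_sq_le_mul _ (fun j _ => mul_nonneg (sq_nonneg _) (D0 j))
        (fun j _ => by positivity) fun j _ => ?_
      have h3 : D j ^ 2 ≤ D j := by nlinarith [D0 j, D1 j]
      rw [mul_pow, mul_pow, sq_abs]
      nlinarith [mul_le_mul_of_nonneg_left h3 (show 0 ≤ (W j k ^ 2) ^ 2 * v j ^ 2 by positivity)]
    have h4 : 0 ≤ ∑ j, W j k ^ 2 * v j ^ 2 := sum_nonneg fun j _ => by positivity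
    have h5 := pow_le_pow_left₀ (abs_nonneg _) (hR k) 2
    rw [sq_abs, mul_pow] at h5
    nlinarith [mul_le_mul_of_nonneg_right (row k) h4]
  refine (sum_le_sum fun k _ => h1 k).trans ?_
  rw [← mul_sum, sum_comm, mul_assoc (64 * ρ), mul_sum univ _ o]
  refine mul_le_mul_of_nonneg_left (sum_le_sum fun j _ => ?_) (by positivity)
  rw [← sum_mul]
  exact mul_le_mul_of_nonneg_right (col j) (sq_nonneg _)

end Gd14

open Gd14 in
/-- **GOOD** -/
theorem goodStmt : GoodStmt := by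
  intro n W h c ω s A m x0 x G h0 hx
  have b := blk G.blk G.s0
  have m1 : (1 : ℝ) ≤ m := by exact_mod_cast G.m1
  have hm : (1 : ℝ) ≤ 50 * m := by linarith
  have s0 := G.s0
  have s1 := G.s1
  have c0 := G.c0
  have o0 := G.o0
  have A0 : 0 < A := by linarith [G.A1]
  set B := B0 W h univ x0 A x with hB
  have d0 : 0 ≤ hd x x0 := Nat.cast_nonneg _
  have cB : (#B : ℝ) ≤ m + hd x x0 / 36 := by
    have h1 := card_B0 (h := h) (C := univ) b A0 (s0 := x0) (x := x)
      (F0 := univ.filter fun j => sv x0 j * hf W h x0 j < 2 * A) (t := 0)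
      (fun j _ hj => not_lt.1 fun hh => hj (mem_filter.2 ⟨mem_univ j, hh⟩)) (by simp) (by
        rw [add_zero]; exact hx.trans (by linarith))
    have h2 : 4 * ω ^ 2 * (hd x x0 + 0) / A ^ 2 ≤ hd x x0 / 36 := by
      rw [div_le_iff₀ (by positivity)]
      nlinarith [mul_le_mul_of_nonneg_left (pow_le_pow_left₀ (by positivity) G.Ao 2) d0]
    exact h1.trans (add_le_add h0 h2)
  have cB' : (#B : ℝ) ≤ 50 * m := by linarith
  set D : V n := fun j => 1 - TI W h j x ^ 2 with hD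
  have D0 : ∀ j, 0 ≤ D j := fun j => Da.Gr.sech_nonneg _
  have D1 : ∀ j, D j ≤ 1 := fun j => sub_le_self _ (sq_nonneg _)
  have e0 := exp_pos (-A)
  have e2 : exp (-(2 * A)) = exp (-A) ^ 2 := by rw [← exp_nat_mul]; congr 1; push_cast; ring
  have e1 : exp (-A) ≤ 1 / 2 := by
    rw [Real.exp_neg, ← one_div]
    exact one_div_le_one_div_of_le two_pos (by linarith [add_one_le_exp A, G.A1])
  have D2 : ∀ j ∈ Bᶜ, D j ≤ 4 * exp (-A) ^ 2 := fun j hj =>
    e2 ▸ (froz (mem_univ j) (mem_compl.1 hj)).2.2.2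
  have en := b.ent hm (by nlinarith)
  have col : ∀ k, ∑ j, W j k ^ 2 ≤ (c + ω) ^ 2 / 4 := fun k => by
    rcases le_total c ω with e | e
    · nlinarith [b.col k]
    · nlinarith [b.col1 hm k]
  have row : ∀ k, ∑ j, W j k ^ 2 * D j ≤ 2 * s ^ 2 := fun k => by
    rw [← sum_add_sum_compl B, two_mul]
    refine add_le_add ((sum_le_sum fun j _ => mul_le_of_le_one_right (sq_nonneg _) (D1 j)).trans
      (b.col2 hm cB' k)) ((sum_le_sum fun j hj =>
        mul_le_mul_of_nonneg_left (D2 j hj) (sq_nonneg _)).trans ?_)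
    rw [← sum_mul]
    have h1 := (sum_le_sum_of_subset_of_nonneg (subset_univ Bᶜ)
      fun j _ _ => sq_nonneg (W j k)).trans (col k)
    have h2 := pow_le_pow_left₀ (by positivity) G.cA 2
    nlinarith [mul_le_mul_of_nonneg_right h1 (show 0 ≤ 4 * exp (-A) ^ 2 by positivity)]
  have ga : ∀ k j, |aM W h x k j| ≤ 2 * |W j k| * D j ∧
      |aM W h x k j - W j k * D j| ≤ 8 * W j k ^ 2 * D j := fun k j => grad_TI x k j (en j k)
  have main : ∀ v : V n, ∃ R : V n, nrm R ≤ 48 * s * nrm v ∧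
      aM W h x *ᵥ v = W *ᵥ res B (D * v) + R := fun v => by
    set R : V n := fun k => ∑ j, (aM W h x k j - W j k * D j) * v j with hR
    refine ⟨W *ᵥ res Bᶜ (D * v) + R, (nrm_add_le _ _).trans ?_, ?_⟩
    · have h1 := (b.op _).trans (mul_le_mul_of_nonneg_left
        ((nrm_res_mul (v := v) Bᶜ (by positivity) D0 D2).trans
          (mul_le_mul_of_nonneg_left (nrm_res_le _ v) (by positivity))) c0)
      have h2 : nrm R ≤ 46 * s * nrm v := by
        refine nrm_le_of (by positivity) ((schur (o := 16) D0 D1 row (fun j => ?_) (fun k => ?_)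
          (by positivity)).trans (mul_le_mul_of_nonneg_right (by nlinarith)
            (sum_nonneg fun j _ => sq_nonneg _)))
        · have := b.col1 hm j
          simp only [b.sy j] at this
          nlinarith [G.o4]
        · rw [mul_sum]
          refine (abs_sum_le_sum_abs _ _).trans (sum_le_sum fun j _ => ?_)
          rw [abs_mul]
          exact (mul_le_mul_of_nonneg_right (ga k j).2 (abs_nonneg _)).trans_eq (by ring)
      have h3 : c * (4 * exp (-A) ^ 2) ≤ 2 * s := by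
        have : c * exp (-A) ≤ s := by nlinarith [G.cA]
        nlinarith [mul_nonneg c0 e0.le]
      nlinarith [mul_le_mul_of_nonneg_right h3 (nrm_nonneg v)]
    · rw [← add_assoc, ← mulVec_add]
      have e : res B (D * v) + res Bᶜ (D * v) = D * v := funext fun j => by
        by_cases hj : j ∈ B <;> simp [res, hj]
      rw [e]
      funext k
      simp only [mulVec, dotProduct, Pi.add_apply, Pi.mul_apply, hR, ← sum_add_distrib]
      exact sum_congr rfl fun j _ => by rw [b.sy k j]; ring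
  have hv : ∀ v : V n, nrm (res B (D * v)) ≤ nrm (res B v) := fun v =>
    (nrm_res_mul B zero_le_one D0 fun j _ => D1 j).trans_eq (one_mul _)
  refine ⟨B, cB, fun j hj => (froz (mem_univ j) hj).1, fun v => ?_, fun v B' hB' => ?_, fun k => ?_⟩
  · obtain ⟨R, h1, h2⟩ := main v
    rw [h2]
    refine (nrm_add_le _ _).trans (add_le_add ((b.b1 _ (sp_res cB' _)).trans
      (mul_le_mul_of_nonneg_left (hv v) o0)) (h1.trans ?_))
    nlinarith [mul_nonneg s0 (nrm_nonneg v)]
  · obtain ⟨R, h1, h2⟩ := main v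
    have e : res B' (W *ᵥ res B (D * v) + R) = res B' (W *ᵥ res B (D * v)) + res B' R :=
      funext fun j => by by_cases hj : j ∈ B' <;> simp [res, hj]
    rw [h2, e]
    have h3 := (b.b2 _ B' (sp_res cB' (D * v)) hB').trans
      (mul_le_mul_of_nonneg_left ((hv v).trans (nrm_res_le B v)) s0)
    nlinarith [nrm_add_le (res B' (W *ᵥ res B (D * v))) (res B' R), nrm_res_le B' R,
      mul_nonneg s0 (nrm_nonneg v)]
  · refine (sum_le_sum (g := fun j => 16 * (W j k ^ 2 * D j)) fun j _ => ?_).trans ?_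
    · have p0 : 0 < pf W h x j := by
        have h1 := le_abs_self (sv x j * tanh (hf W h x j))
        rw [abs_mul, abs_s, one_mul] at h1
        rw [pf]; linarith [abs_tanh_lt_one (hf W h x j)]
      have h1 : D j ≤ 4 * pf W h x j := D_le_pk (TI W h) j x
      have h2 := pow_le_pow_left₀ (abs_nonneg _) (ga k j).1 2
      rw [sq_abs, mul_pow, mul_pow, sq_abs] at h2
      rw [div_le_iff₀ p0]
      nlinarith [mul_le_mul_of_nonneg_left h1 (mul_nonneg (sq_nonneg (W j k)) (D0 j))]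
    · rw [← mul_sum]
      nlinarith [row k, sq_nonneg s]

end Crest.Agent.T157.En

end
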