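import Crest.Agent.T157.EnDef_40

/-!
# Row 157, block B, S1 END (helper43): Kearns-Saul at a site, local fields, energy under `ν`
-/

set_option autoImplicit false

noncomputable section

namespace Crest.Agent.T157.En

open Real Matrix Finset Function
open Crest.Agent.T157.E Crest.Agent.T157.SL
open Crest.Agent.T157.Ta (Pr Ar Cnt cm chi kls cg)
open Crest.Agent.T157.EnS (o1)
open Crest.Agent.T157.Rec (grad)
open Crest.Agent.T157.Eig (nrm)
open Crest.Agent.T157.S3 (V Mx hf Dg)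
open Crest.ProbabilityR.SpinGlassDynamics (spin)

namespace Ks43

variable {n : ℕ} {v w Θ : Cube n → ℝ} {x : Cube n} {W : Mx n} {h : V n}

theorem mul_chi_le (p : Pr v w) (i : Fin n) (hx : v x ≠ 0) (m : ℝ) :
    m * chi v w i x ≤ kls v w i x + cg (cm w i x) m := by
  have h1 := Ta.mean_le_kl (p.edge i hx) fun b => m * sv (update x i b) i
  rw [← Ta.kls_eq_kl, ← Ta.siteM_eq_mean v (fun z => m * sv z i),
    ← Ta.siteM_eq_mean w (fun z => exp (m * sv z i)),
    Ta.log_siteM_exp p.hw (p.pos hx).2.ne'] at h1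
  have h2 := Ta.siteM_sub_siteM p hx (fun z => m * sv z i) i
  have h3 : grad (fun z => m * sv z i) x i = m := by
    simp only [grad, incr, sv, update_self, spin]; simp
  rw [h3] at h1 h2
  linarith

theorem sech_le (u : ℝ) : (1 - tanh u ^ 2) * exp |u| * |u| ≤ 4 := by
  have h1 : exp |u| / 2 ≤ cosh u := by
    rw [← cosh_abs, cosh_eq]; linarith [exp_pos (-|u|)]
  have h2 : |u| ≤ exp |u| := by linarith [add_one_le_exp |u|]
  have h3 := exp_pos |u|
  have h4 := cosh_pos u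
  rw [← Ue.sq2_eq, Ue.sq2, mul_assoc, div_mul_eq_mul_div, one_mul, div_le_iff₀ (by positivity)]
  nlinarith [mul_le_mul h1 h1 (by positivity) h4.le, mul_le_mul_of_nonneg_left h2 h3.le]

theorem ks (p : Pr v w) (i : Fin n) (hx : v x ≠ 0) {u b : ℝ} (hu : cm w i x = tanh u) (hb : 0 < b)
    (hbu : b ≤ |u|) : chi v w i x ^ 2 ≤ 16 / b * kls v w i x := by
  have h1 := mul_chi_le p i hx (b * chi v w i x / 8)
  have h2 := Ta.cg_le' (Ta.abs_cm_le p.hw.nn i x) (b * chi v w i x / 8)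
  have h3 := Ta.abs_chi_le p i x
  have h4 : 2 * |b * chi v w i x / 8| ≤ |u| := by
    rw [abs_div, abs_mul, abs_of_pos hb, abs_of_pos (by norm_num : (0 : ℝ) < 8)]
    nlinarith [mul_le_mul_of_nonneg_left h3 hb.le]
  have h0 : 0 ≤ 1 - tanh u ^ 2 := by rw [← Ue.sq2_eq]; exact (Ue.sq2_pos u).le
  have h5 : (1 - tanh u ^ 2) * exp (2 * |b * chi v w i x / 8|) * b ≤ 4 :=
    (mul_le_mul (mul_le_mul_of_nonneg_left (exp_le_exp.2 h4) h0) hbu hb.le (by positivity)).trans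
      (sech_le u)
  rw [hu] at h1 h2
  rw [div_mul_eq_mul_div, le_div_iff₀ hb]
  generalize (1 - tanh u ^ 2) * exp (2 * |b * chi v w i x / 8|) = E at h2 h5
  nlinarith [mul_le_mul_of_nonneg_right h5 (mul_nonneg hb.le (sq_nonneg (chi v w i x)))]

theorem cm_exp (U : Cube n → ℝ) (j : Fin n) (x : Cube n) :
    cm (fun x => exp (U x)) j x = tanh (grad U x j) := by
  simp only [Ta.cm, siteM, sv, update_self, spin, grad, incr, if_true, Bool.false_eq_true, if_false]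
  generalize U (update x j true) = a
  generalize U (update x j false) = b
  have e1 : exp a = exp ((a + b) / 2) * exp ((a - b) / 2) := by rw [← exp_add]; congr 1; ring
  have e2 : exp b = exp ((a + b) / 2) * exp (-((a - b) / 2)) := by rw [← exp_add]; congr 1; ring
  rw [tanh_eq_sinh_div_cosh, sinh_eq, cosh_eq, e1, e2]
  have := exp_pos ((a - b) / 2)
  have := exp_pos (-((a - b) / 2))
  have := exp_pos ((a + b) / 2)
  field_simp
  ring

theorem grad_quad (hW : Wᵀ = W) (h0 : ∀ j, W j j = 0) (x : Cube n) (j : Fin n) :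
    grad (fun x => sv x ⬝ᵥ W *ᵥ sv x) x j = 2 * (W *ᵥ sv x) j := by
  have e : sv x ⬝ᵥ W *ᵥ Pi.single j (-2 * sv x j) = -2 * sv x j * (W *ᵥ sv x) j := by
    rw [dotProduct_mulVec, ← mulVec_transpose, hW, dotProduct_single, mul_comm]
  rw [Rec.grad_eq, eq_add_of_sub_eq (Rec.sv_fl_sub x j), mulVec_add, add_dotProduct, dotProduct_add,
    dotProduct_add, e, single_dotProduct, single_dotProduct, mulVec_single, Pi.smul_apply, col_apply,
    h0]
  simp only [smul_zero]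
  linear_combination 2 * (W *ᵥ sv x) j * Rec.sv_mul_self x j

theorem is_cm (hW : Wᵀ = W) (h0 : ∀ j, W j j = 0) (hw : Is w W h Θ) :
    (∀ x, 0 < w x) ∧ ∀ i x, cm w i x = tanh (hf W h x i + grad Θ x i) := by
  obtain ⟨c, hw⟩ := hw
  have e : w = fun x => exp (1 / 2 * (sv x ⬝ᵥ W *ᵥ sv x) + h ⬝ᵥ sv x + (Θ x + c)) :=
    funext fun x => by rw [hw, ising, ← exp_add]
  refine ⟨fun x => by rw [e]; exact exp_pos _, fun i x => ?_⟩
  rw [e, cm_exp, Rec.grad_add, Rec.grad_add, Rec.grad_add, Rec.grad_const_mul, Rec.grad_lin,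
    Rec.grad_const]
  simp only [Pi.add_apply, Pi.smul_apply, grad_quad hW h0, smul_eq_mul, hf, Pi.zero_apply]
  congr 1; ring

theorem sq_sub_le {a b : ℝ} (ha : |a| ≤ 1) (hb : |b| ≤ 1) : a ^ 2 - b ^ 2 ≤ 2 * |a - b| := by
  have h1 : |a + b| ≤ 2 := (abs_add_le a b).trans (by linarith)
  calc a ^ 2 - b ^ 2 = (a + b) * (a - b) := by ring
    _ ≤ |a + b| * |a - b| := by rw [← abs_mul]; exact le_abs_self _
    _ ≤ _ := mul_le_mul_of_nonneg_right h1 (abs_nonneg _)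

theorem site {u g o q e : ℝ} (hq : |q| ≤ 1) (ho : |o| ≤ e) (he : e ≤ 1) :
    (1 - tanh u ^ 2) * (o * o) ≤
      24 * (g ^ 2 * (1 - q ^ 2) + (g - o) * (g - o) + e * ((q - tanh (u + g)) ^ 2 / 2 + o * o)) := by
  have e0 : 0 ≤ e := (abs_nonneg o).trans ho
  have t1 : ∀ a : ℝ, |tanh a| ≤ 1 := fun a => (abs_tanh_lt_one a).le
  have h1 := Ue.sq2_le u (u + o)
  have h2 : exp (2 * |u - (u + o)|) ≤ 8 := by
    rw [sub_add_cancel_left, abs_neg]
    refine (exp_le_exp.2 (by linarith : 2 * |o| ≤ 1 + 1)).trans ?_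
    rw [exp_add]
    nlinarith [exp_one_lt_d9, exp_pos 1]
  have h3 := h1.trans (mul_le_mul_of_nonneg_right h2 (Ue.sq2_pos _).le)
  rw [Ue.sq2_eq, Ue.sq2_eq] at h3
  have h4 := sq_sub_le (t1 (u + g)) (t1 (u + o))
  have h5 := Ue.abs_tanh_sub_le (u + g) (u + o)
  rw [add_sub_add_left_eq_sub] at h5
  have h6 := sq_sub_le hq (t1 (u + g))
  have h7 : 1 - tanh u ^ 2 ≤ 8 * ((1 - q ^ 2) + 2 * |q - tanh (u + g)| + 2 * |g - o|) := by linarith
  have q0 : 0 ≤ 1 - q ^ 2 := by nlinarith [abs_le.1 hq]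
  have q1 : 1 - q ^ 2 ≤ 1 := by nlinarith [sq_nonneg q]
  rw [← sq_abs (q - tanh (u + g)), ← abs_mul_abs_self (g - o), ← abs_mul_abs_self o]
  have a1 : |o| * |o| ≤ 2 * g ^ 2 + 2 * (|g - o| * |g - o|) := by
    rw [abs_mul_abs_self, abs_mul_abs_self]; nlinarith [sq_nonneg (2 * g - o)]
  have d0 := abs_nonneg (g - o)
  have c0 := abs_nonneg (q - tanh (u + g))
  have o0 := abs_nonneg o
  generalize |g - o| = d at *
  generalize |q - tanh (u + g)| = c at *
  generalize |o| = p at *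
  generalize 1 - q ^ 2 = D at *
  have b1 : D * (p * p) ≤ 2 * (g ^ 2 * D) + 2 * (d * d) := by
    nlinarith [mul_le_mul_of_nonneg_left a1 q0, mul_le_mul_of_nonneg_right q1 (mul_self_nonneg d)]
  have b2 : 2 * c * (p * p) ≤ e * (c ^ 2 + p * p) := by
    nlinarith [mul_le_mul_of_nonneg_left ho (mul_nonneg c0 o0),
      mul_nonneg e0 (sq_nonneg (c - p))]
  have b3 : 2 * d * (p * p) ≤ d * d + e * (p * p) := by
    have : p * p ≤ e := by nlinarith
    nlinarith [sq_nonneg (d - p * p), mul_le_mul_of_nonneg_right this (mul_self_nonneg p)]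
  have b4 := mul_le_mul_of_nonneg_right h7 (mul_self_nonneg p)
  nlinarith [mul_nonneg (sq_nonneg g) q0, mul_nonneg e0 (sq_nonneg c), mul_nonneg e0 (mul_self_nonneg p)]

theorem dot_le {a : V n} {r : ℝ} (h : nrm a ≤ r) : a ⬝ᵥ a ≤ r ^ 2 :=
  (Eig.nrm_le_iff ((Eig.nrm_nonneg a).trans h)).1 h

theorem energy {G : Cube n → ℝ} {e L : ℝ} {Ω : Cube n → V n} (hW : Wᵀ = W) (h0 : ∀ j, W j j = 0)
    (hv : Wt v) (hw : Is w W h Θ) (hc : Cls e L Θ Ω G) (he : e ≤ 1) :
    mean v (F1 W h Ω) ≤ 24 * (Eg Θ v + Ex G v + e * (Ar o1 v w + L ^ 2)) := by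
  obtain ⟨w0, hm⟩ := is_cm hW h0 hw
  have p : Pr v w := ⟨hv, ⟨fun x => (w0 x).le, sum_pos (fun x _ => w0 x) univ_nonempty⟩,
    fun x e => absurd e (w0 x).ne'⟩
  have e0 : 0 ≤ e := (norm_nonneg _).trans (hc.rg fun _ => true).1
  have h1 : ∀ x, F1 W h Ω x ≤ 24 * (∑ i, grad Θ x i ^ 2 * (1 - cm v i x ^ 2) + G x ^ 2 +
      e * (1 / 2 * ∑ i, chi v w i x ^ 2 + L ^ 2)) := fun x => by
    have a1 := dot_le (hc.ex x)
    have a2 := mul_le_mul_of_nonneg_left (dot_le (hc.rg x).2.2.1) e0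
    have a3 : ∑ i, (1 - tanh (hf W h x i) ^ 2) * (Ω x i * Ω x i) ≤ ∑ i, 24 * (grad Θ x i ^ 2 * (1 - cm v i x ^ 2) +
        (grad Θ x - Ω x) i * (grad Θ x - Ω x) i + e * (chi v w i x ^ 2 / 2 + Ω x i * Ω x i)) :=
      Finset.sum_le_sum fun i _ => by
        rw [Ta.chi, hm]
        exact site (Ta.abs_cm_le hv.nn i x) ((norm_le_pi_norm (Ω x) i).trans (hc.rg x).1) he
    simp only [← mul_sum, sum_add_distrib, ← sum_div] at a3
    simp only [dotProduct] at a1 a2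
    change ∑ i, (1 - tanh (hf W h x i) ^ 2) * (Ω x i * Ω x i) ≤ _
    linarith
  refine (hv.mean_mono h1).trans ?_
  have h2 := mul_le_mul_of_nonneg_left (EnS.Xc_le p) e0
  rw [mean_const_mul, mean_add, mean_add, mean_const_mul, mean_add, mean_const_mul, mean_sum,
    mean_sum, hv.mean_const]
  simp only [EnS.Xc] at h2
  simp only [Eg, Ex, Cnt, Ta.Cs]
  linarith

end Ks43

theorem ksStmt : KsStmt :=
  ⟨fun _ _ _ i _ _ _ p hx hu hb hbu => Ks43.ks p i hx hu hb hbu,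
    fun _ _ _ _ _ hW h0 hw => Ks43.is_cm hW h0 hw,
    24, by norm_num, fun _ _ _ _ _ _ _ _ _ _ hW h0 hv hw hc he => Ks43.energy hW h0 hv hw hc he⟩

end Crest.Agent.T157.En

end
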