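import Crest.Agent.T157.EnDef_40

/-!
# Row 157, block B, END (helper63): `En.LiftStmt`
-/

set_option autoImplicit false

noncomputable section

namespace Crest.Agent.T157.En

open Real Matrix Finset Function
open Crest.ProbabilityR.SpinGlassDynamics (spin)
open Crest.Agent.T157.E Crest.Agent.T157.SL
open Crest.Agent.T157.Ta (Pr Ar As Cnt Cs Dm kls)
open Crest.Agent.T157.Ent (cnd)
open Crest.Agent.T157.Rec (grad fl)
open Crest.Agent.T157.Eig (nrm opn)
open Crest.Agent.T157.S3F (jac hsJ)
open Crest.Agent.T157.Rip (res nrm_res_le)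

namespace Li63

variable {n : ℕ} {S : Finset (Fin n)} {sS : Cube n} {i : Fin n} {v w : Cube n → ℝ}

lemma pr_in (hi : i ∈ S) (x : Cube n) (b : Bool) : pr S sS (update x i b) = pr S sS x :=
  funext fun j => by
    unfold pr; split_ifs with h
    · rfl
    · exact update_of_ne (by rintro rfl; exact h hi) _ _

lemma pr_out (hi : i ∉ S) (x : Cube n) (b : Bool) :
    pr S sS (update x i b) = update (pr S sS x) i b := funext fun j => by
  rcases eq_or_ne j i with rfl | h
  · simp [pr, hi]
  · simp [pr, update_of_ne h]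

lemma pr_at (hi : i ∉ S) (x : Cube n) : pr S sS x i = x i := if_neg hi

lemma sum_pr {g : Cube n → ℝ} (h : ∀ x, g x ≠ 0 → pr S sS x = x) :
    ∑ x, g (pr S sS x) = 2 ^ #S * ∑ x, g x := by
  rw [← sum_fiberwise univ (pr S sS), mul_sum]
  refine sum_congr rfl fun y _ => ?_
  rw [sum_congr rfl fun x hx => by rw [(mem_filter.1 hx).2], sum_const, nsmul_eq_mul]
  rcases eq_or_ne (g y) 0 with h0 | h0
  · simp [h0]
  have e : ({x | pr S sS x = y} : Finset _) =
      Fintype.piFinset fun j => if j ∈ S then univ else {y j} := by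
    ext x
    simp only [mem_filter, mem_univ, true_and, Fintype.mem_piFinset, funext_iff]
    refine forall_congr' fun j => ?_
    have := congrFun (h y h0) j
    unfold pr at this ⊢
    split_ifs at this ⊢ <;> simp [this]
  rw [e, Fintype.card_piFinset]
  simp [apply_ite card]

lemma prob_pr (h : ∀ x, v x ≠ 0 → pr S sS x = x) (x : Cube n) :
    prob (v ∘ pr S sS) x = prob v (pr S sS x) / 2 ^ #S := by
  simp only [prob, Function.comp_apply, sum_pr h]; ring

lemma mean_congr {F G : Cube n → ℝ} (h : ∀ x, v x ≠ 0 → F x = G x) : mean v F = mean v G :=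
  sum_congr rfl fun x _ => by
    rcases eq_or_ne (v x) 0 with h0 | h0
    · simp [prob, h0]
    · rw [h x h0]

lemma mean_pr (h : ∀ x, v x ≠ 0 → pr S sS x = x) (F : Cube n → ℝ) :
    mean (v ∘ pr S sS) (fun x => F (pr S sS x)) = mean v F := by
  have := sum_pr (g := fun x => prob v x * F x) fun x hx => h x fun h0 => hx (by simp [prob, h0])
  simp only [mean, prob_pr h, div_mul_eq_mul_div, ← sum_div]
  rw [this, mul_div_cancel_left₀ _ (by positivity)]

lemma mean_zero : mean v (fun _ => 0) = 0 := by simp [mean]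

lemma grad_pr (F : Cube n → ℝ) (x : Cube n) :
    grad (F ∘ pr S sS) x = res Sᶜ (grad F (pr S sS x)) := funext fun i => by
  by_cases hi : i ∈ S
  · simp [grad, incr, res, hi, pr_in hi]
  · simp [grad, incr, res, hi, pr_out hi]

lemma off (h : ∀ x, v x ≠ 0 → pr S sS x = x) (hi : i ∈ S) {x : Cube n} (hx : pr S sS x = x) :
    v (update x i (!x i)) = 0 := by
  by_contra h0
  have := congrFun ((pr_in hi x _).symm.trans (h _ h0)) i
  rw [hx] at this
  simp at this

lemma cnd_in (h : ∀ x, v x ≠ 0 → pr S sS x = x) (hi : i ∈ S) {x : Cube n} (hx : v x ≠ 0) :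
    cnd v i x = fun b => if b = x i then 1 else 0 := funext fun b => by
  have h0 := off h hi (h x hx)
  have h1 : v (update x i (x i)) = v x := by rw [update_eq_self]
  unfold cnd
  cases hb : x i <;> cases b <;> simp_all

lemma cm_in (h : ∀ x, v x ≠ 0 → pr S sS x = x) (hi : i ∈ S) {x : Cube n} (hx : v x ≠ 0) :
    Ta.cm v i x ^ 2 = 1 := by
  have h0 := off h hi (h x hx)
  have h1 : v (update x i (x i)) = v x := by rw [update_eq_self]
  unfold Ta.cm siteM
  cases hb : x i <;> simp_all [sv, spin]

lemma kl_self (q : Bool → ℝ) : Ent.kl q q = 0 := sum_eq_zero fun b _ => by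
  rcases eq_or_ne (q b) 0 with h | h <;> simp [h]

lemma mag_in (hi : i ∈ S) : mag (v ∘ pr S sS) i = 0 := by
  have := sum_flip i fun x => prob (v ∘ pr S sS) x * sv x i
  rw [mag, meanV, mean, this]
  simp [prob, pr_in hi, sv, spin]

lemma mag_pin (hv : Wt v) (h : ∀ x, v x ≠ 0 → pr S sS x = x) (hi : i ∈ S) :
    mag v i = spin (sS i) := by
  rw [mag, meanV, mean_congr (G := fun _ => spin (sS i)) fun x hx => by
    rw [← h x hx, sv, pr, if_pos hi]]
  simp only [mean, prob, ← sum_mul, ← sum_div, div_self hv.pos.ne', one_mul]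

lemma mag_out (h : ∀ x, v x ≠ 0 → pr S sS x = x) (hi : i ∉ S) : mag (v ∘ pr S sS) i = mag v i := by
  rw [mag, mag, meanV, meanV, ← mean_pr h]; simp only [sv, pr_at hi]

end Li63

open Li63

theorem liftStmt : LiftStmt := by
  refine fun n S sS => ⟨fun v hv h => ⟨⟨fun x => hv.nn _, ?_⟩, fun F => ⟨mean_pr h F,
    sum_pr (g := fun x => v x * F x) fun x hx => h x (left_ne_zero_of_mul hx),
    ?_⟩⟩, fun v w hp hw => ?_, fun e L Θ G Ω c => ⟨c.L0, fun x => ?_,
    fun x => ?_, fun x => ?_, fun x => ?_⟩⟩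
  · simp only [Function.comp_apply, sum_pr h]; have := hv.pos; positivity
  · rw [Eg, Eg, Cnt, Cnt]
    refine sum_congr rfl fun i _ => ?_
    by_cases hi : i ∈ S
    · rw [Cs, Cs, mean_congr (v := v) (G := fun _ => 0) fun x hx => by rw [cm_in h hi hx]; simp,
        mean_congr (G := fun _ => 0) fun x _ => by simp [grad_pr, res, hi], mean_zero, mean_zero]
    · rw [Cs, Cs, ← mean_pr h]
      simp [grad_pr, res, hi, Ta.cm, siteM, pr_out hi, sv]
  · have hv : ∀ x, v x ≠ 0 → pr S sS x = x := fun x hx => hw x fun h0 => hx (hp.ac x h0)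
    refine ⟨sum_congr rfl fun i _ => ?_, ?_, funext fun i => ?_⟩
    · by_cases hi : i ∈ S
      · rw [As, As, mean_congr (v := v) (G := fun _ => 0) fun x hx => by
          rw [kls, cnd_in hv hi hx, cnd_in hw hi fun h0 => hx (hp.ac x h0), kl_self, mul_zero],
          mean_congr (G := fun _ => 0) fun x hx => ?_, mean_zero, mean_zero]
        have h1 : v (pr S sS x) ≠ 0 := hx
        have h2 : w (pr S sS x) ≠ 0 := fun h0 => h1 (hp.ac _ h0)
        have : cnd (v ∘ pr S sS) i x = cnd (w ∘ pr S sS) i x := funext fun b => by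
          simp only [cnd, Function.comp_apply, pr_in hi]; field_simp
        rw [kls, this, kl_self, mul_zero]
      · rw [As, As, ← mean_pr hv]
        have : ∀ (u : Cube n → ℝ) x, cnd (u ∘ pr S sS) i x = cnd u i (pr S sS x) := fun u x =>
          funext fun b => by simp only [cnd, Function.comp_apply, pr_out hi]
        simp only [kls, this]
    · refine Eq.trans ?_ (mean_pr hv fun x => log (prob v x / prob w x))
      refine sum_congr rfl fun x _ => ?_
      rw [prob_pr hw, prob_pr hv, div_div_div_cancel_right₀ (by positivity)]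
    · by_cases hi : i ∈ S
      · simp only [Dm, Pi.sub_apply, mag_in hi, mag_pin hp.hv hv hi, mag_pin hp.hw hw hi, sub_self]
      · simp only [Dm, Pi.sub_apply, mag_out hv hi, mag_out hw hi]
  · rw [grad_pr]; exact (nrm_res_le _ _).trans (c.gr _)
  · obtain ⟨r1, r2, r3, r4⟩ := c.rg (pr S sS x)
    have ej : ∀ k j, jac (fun x => res Sᶜ (Ω (pr S sS x))) x k j =
        (if k ∈ S then 0 else 1) * jac Ω (pr S sS x) k j * if j ∈ S then 0 else 1 := fun k j => by
      by_cases hk : k ∈ S <;> by_cases hj : j ∈ S <;>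
        simp [jac, grad, incr, res, hk, hj, pr_in, pr_out]
    have d1 : opn (diagonal fun k : Fin n => if k ∈ S then (0 : ℝ) else 1) ≤ 1 :=
      Eig.opn_diagonal_le zero_le_one fun k => by split_ifs <;> simp
    refine ⟨(pi_norm_le_iff_of_nonneg ((norm_nonneg _).trans r1)).2 fun k => ?_, ?_,
      (nrm_res_le _ _).trans r3, le_trans (sum_le_sum fun k _ => sum_le_sum fun j _ => ?_) r4⟩
    · unfold res; split_ifs
      · exact (norm_le_pi_norm _ k).trans r1
      · simpa using (norm_nonneg _).trans r1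
    · have : jac (fun x => res Sᶜ (Ω (pr S sS x))) x = diagonal (fun k => if k ∈ S then 0 else 1) *
          jac Ω (pr S sS x) * diagonal fun k => if k ∈ S then 0 else 1 := by
        ext k j; rw [mul_diagonal, diagonal_mul, ej]
      rw [this]
      refine (Eig.opn_mul_le _ _).trans ((mul_le_of_le_one_right (Eig.opn_nonneg _) d1).trans
        ((Eig.opn_mul_le _ _).trans ((mul_le_of_le_one_left (Eig.opn_nonneg _) d1).trans r2)))
    · rw [ej]; split_ifs <;> simp [sq_nonneg]
  · refine le_trans (le_of_eq ?_) ((nrm_res_le Sᶜ _).trans (c.ex (pr S sS x)))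
    rw [grad_pr]; congr 1; funext k; simp only [res, Pi.sub_apply]; split_ifs <;> simp
  · refine le_trans (sum_le_sum fun j _ => ?_) (c.ts (pr S sS x))
    by_cases hj : j ∈ S
    · simp [fl, pr_in hj, sq_nonneg]
    · simp [fl, pr_out hj, pr_at hj]

end Crest.Agent.T157.En

end
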