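import Crest.Agent.T157.EnDef_40
import Crest.Agent.T157.S1F1_25

/-!
# Row 157, block B, S1, END: the two Lipschitz bounds (helper16)
-/

set_option autoImplicit false
set_option linter.unusedVariables false

noncomputable section

namespace Crest.Agent.T157.En

namespace Lip16

open Matrix Finset Real
open Crest.Agent.T157.E (Cube sv)
open Crest.Agent.T157.Rec (fl grad)
open Crest.Agent.T157.Eig
open Crest.Agent.T157.S3 (V Mx hf Dg Rg)
open Crest.Agent.T157.S3.Rg (fro dM fl_eq nrm_mono nrm_colsum fro_rows fro_le_of_sq had abs_rem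
  opn_dM_mul)
open Crest.Agent.T157.S1.F25 (gg gg_tay sq_lip tay2 abs_tanh jac_hf)

variable {n : ℕ}

lemma sech_le (t : ℝ) : |1 - tanh t ^ 2| ≤ 1 := by
  have := abs_le.1 (abs_tanh t)
  rw [abs_le]; constructor <;> nlinarith

lemma tr {P : Mx n} {v : V n} {c d : ℝ} (h1 : opn P ≤ c) (h2 : nrm v ≤ d) : nrm (Pᵀ *ᵥ v) ≤ c * d :=
  (nrm_mulVec_le _ _).trans (mul_le_mul ((opn_transpose _).trans_le h1) h2 (nrm_nonneg _)
    ((opn_nonneg _).trans h1))

/-- weighted column sums of a Hadamard product -/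
def cs (c : ℝ) (a : V n) (P Q : Mx n) : V n := fun j => ∑ k, c * (|P k j| * |a k * Q k j|)

lemma cs_le {c p q : ℝ} {a : V n} {P Q : Mx n} (hc : 0 ≤ c) (ha : nrm a ≤ 1) (h1 : opn P ≤ p)
    (h2 : opn Q ≤ q) : nrm (cs c a P Q) ≤ c * (p * q) := by
  have h3 : fro (of fun k j => a k * Q k j) ≤ q :=
    (fro_rows (v := a) (A := Q) fun k j => (abs_mul _ _).le).trans
      ((mul_le_of_le_one_left (opn_nonneg _) ha).trans h2)
  exact (nrm_colsum (R := of fun k j => c * (|P k j| * |a k * Q k j|)) (X := P)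
    (Y := of fun k j => a k * Q k j) hc fun k j =>
      (abs_of_nonneg (by rw [of_apply]; positivity)).le).trans (mul_le_mul_of_nonneg_left
        (mul_le_mul h1 h3 (S3.Rg.fro_nonneg _) ((opn_nonneg _).trans h1)) hc)

lemma abs_step (x : Cube n) (j : Fin n) (t : ℝ) : |-(2 * sv x j * t)| = 2 * |t| := by
  rw [abs_neg, abs_mul, abs_mul, S3.Rg.abs_sv, abs_two, mul_one]

/-- the response of the conditional means, tested against a unit vector -/
theorem lip_gg {u Ω : Cube n → V n} {a : V n} {c e : ℝ} {x : Cube n} (e1 : e ≤ 1) (ha : nrm a ≤ 1)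
    (hu : opn (dM u x) ≤ c) (o1 : ∀ k, |Ω x k| ≤ e) (o2 : opn (dM Ω x) ≤ e) :
    nrm (grad (fun z => ∑ k, a k * gg (u z k) (Ω z k)) x) ≤ 8 * e * (1 + c) ^ 2 := by
  have e0 : 0 ≤ e := (opn_nonneg _).trans o2
  have c0 : 0 ≤ c := (opn_nonneg _).trans hu
  set X := dM u x with hX
  set Y := dM Ω x with hY
  set v1 : V n := fun k => a k * (tanh (u x k) ^ 2 - tanh (u x k + Ω x k) ^ 2) with hv1
  set v2 : V n := fun k => a k * (1 - tanh (u x k + Ω x k) ^ 2) with hv2
  have n1 : nrm v1 ≤ 2 * e := (nrm_mono (v := a) (by positivity) fun k => by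
    have := sq_lip (u x k) (u x k + Ω x k)
    rw [sub_add_cancel_left, abs_neg] at this
    rw [hv1, abs_mul, mul_comm]
    exact mul_le_mul_of_nonneg_right (this.trans (by linarith [o1 k])) (abs_nonneg _)).trans
      (mul_le_of_le_one_right (by positivity) ha)
  have n2 : nrm v2 ≤ 1 := (nrm_mono (v := a) zero_le_one fun k => by
    rw [hv2, abs_mul, mul_comm]
    exact mul_le_mul_of_nonneg_right (sech_le _) (abs_nonneg _)).trans (by rwa [one_mul])
  set l : V n := Xᵀ *ᵥ v1 + Yᵀ *ᵥ v2 with hl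
  set r : V n := cs (8 * e) a X X + cs 4 a Y Y + cs 4 a X Y with hr
  have key : ∀ j, |(grad (fun z => ∑ k, a k * gg (u z k) (Ω z k)) x - l) j| ≤ 1 * |r j| := fun j => by
    refine le_trans ?_ ((le_abs_self _).trans_eq (one_mul _).symm)
    simp only [hl, hr, cs, Pi.add_apply, Pi.sub_apply, mulVec, dotProduct, transpose_apply,
      S3.Rg.grad_sum, ← sum_add_distrib, ← sum_sub_distrib]
    refine (abs_sum_le_sum_abs _ _).trans (sum_le_sum fun k _ => ?_)
    have d1 : u (fl x j) k = u x k + -(2 * sv x j * X k j) := fl_eq (fun y => u y k) x j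
    have d2 : Ω (fl x j) k = Ω x k + -(2 * sv x j * Y k j) := fl_eq (fun y => Ω y k) x j
    have h1 := gg_tay (u x k) (Ω x k) (-(2 * sv x j * X k j)) (-(2 * sv x j * Y k j))
    rw [← sq_abs (-(2 * sv x j * X k j)), ← sq_abs (-(2 * sv x j * Y k j)), ← d1, ← d2, abs_step,
      abs_step] at h1
    have h2 := mul_le_mul_of_nonneg_left (o1 k) (show 0 ≤ 16 * |X k j| ^ 2 by positivity)
    have h3 := mul_le_mul_of_nonneg_left (h1.trans (show _ ≤ 16 * |X k j| ^ 2 * e +
      8 * |Y k j| ^ 2 + 8 * (|X k j| * |Y k j|) by linarith)) (show 0 ≤ |a k| / 2 by positivity)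
    refine le_trans (le_of_eq ?_) (h3.trans (le_of_eq ?_))
    · rw [show |a k| / 2 = |-(sv x j * a k / 2)| by
        rw [abs_neg, abs_div, abs_mul, S3.Rg.abs_sv, abs_two, one_mul], ← abs_mul, Rec.grad_eq]
      congr 1
      simp only [hv1, hv2]
      linear_combination (a k * ((tanh (u x k) ^ 2 - tanh (u x k + Ω x k) ^ 2) * X k j +
        (1 - tanh (u x k + Ω x k) ^ 2) * Y k j)) * Rec.sv_mul_self x j
    · simp only [abs_mul]; ring
  have h1 := (nrm_mono zero_le_one key).trans_eq (one_mul _)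
  have h2 := nrm_add_le l (grad (fun z => ∑ k, a k * gg (u z k) (Ω z k)) x - l)
  have h4 : nrm l ≤ _ := (nrm_add_le _ _).trans (add_le_add (tr hu n1) (tr o2 n2))
  have h5 : nrm r ≤ _ := (nrm_add_le _ _).trans (add_le_add ((nrm_add_le _ _).trans (add_le_add
    (cs_le (by positivity) ha hu hu) (cs_le (by positivity) ha o2 (o2.trans e1))))
      (cs_le (by positivity) ha hu o2))
  rw [add_sub_cancel] at h2
  nlinarith [mul_nonneg e0 c0]

/-- the Jacobian of `1 - tanh²` -/
theorem opn_sech {u : Cube n → V n} {c : ℝ} {x : Cube n} (hu : opn (dM u x) ≤ c) :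
    opn (dM (fun z k => 1 - tanh (u z k) ^ 2) x) ≤ 8 * (1 + c) ^ 2 := by
  have c0 : 0 ≤ c := (opn_nonneg _).trans hu
  set X := dM u x with hX
  set d : V n := fun k => -2 * (tanh (u x k) * (1 - tanh (u x k) ^ 2)) with hd
  have b1 : opn (diagonal d * X) ≤ 2 * c := (opn_mul_le _ _).trans (mul_le_mul
    (opn_diagonal_le zero_le_two fun k => by
      rw [hd, abs_mul, abs_mul, abs_neg, abs_two]
      nlinarith [mul_le_mul (abs_tanh (u x k)) (sech_le (u x k)) (abs_nonneg _) zero_le_one])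
    hu (opn_nonneg _) zero_le_two)
  have b2 : opn (dM (fun z k => 1 - tanh (u z k) ^ 2) x - diagonal d * X) ≤ 8 * (opn X * opn X) :=
    had (by norm_num) fun k j => by
      have d1 : u (fl x j) k = u x k + -(2 * sv x j * X k j) := fl_eq (fun y => u y k) x j
      have h1 := tay2 (u x k) (-(2 * sv x j * X k j))
      rw [← sq_abs (-(2 * sv x j * X k j)), ← d1, abs_step] at h1
      have h3 := mul_le_mul_of_nonneg_left h1 (show (0 : ℝ) ≤ 1 / 2 by positivity)
      refine le_trans (le_of_eq ?_) (h3.trans (le_of_eq (by ring)))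
      rw [show (1 / 2 : ℝ) = |-(sv x j / 2)| by rw [abs_neg, abs_div, S3.Rg.abs_sv, abs_two],
        ← abs_mul, Matrix.sub_apply, diagonal_mul, dM, of_apply, Rec.grad_eq]
      congr 1
      simp only [hd]
      linear_combination (-2 * (tanh (u x k) * (1 - tanh (u x k) ^ 2)) * X k j) * Rec.sv_mul_self x j
  have h := opn_add_le (diagonal d * X) (dM (fun z k => 1 - tanh (u z k) ^ 2) x - diagonal d * X)
  rw [add_sub_cancel] at h
  nlinarith [mul_le_mul hu hu (opn_nonneg _) c0]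

/-- gradient of a scalar product -/
theorem nrm_grad_dot {a b : Cube n → V n} {x : Cube n} {p q e L : ℝ} (a1 : nrm (a x) ≤ p)
    (a2 : opn (dM a x) ≤ q) (b1 : nrm (b x) ≤ L) (b2 : opn (dM b x) ≤ e) (b3 : fro (dM b x) ≤ L) :
    nrm (grad (fun z => ∑ k, a z k * b z k) x) ≤ e * p + 3 * (q * L) := by
  have e : grad (fun z => ∑ k, a z k * b z k) x = (dM b x)ᵀ *ᵥ a x + (dM a x)ᵀ *ᵥ b x -
      fun j => ∑ k, (of fun k j => 2 * sv x j * (dM a x k j * dM b x k j)) k j := by
    funext j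
    simp only [S3.Rg.grad_sum, S3.Rg.grad_mul, Pi.add_apply, Pi.sub_apply, mulVec, dotProduct,
      transpose_apply, dM, of_apply, ← sum_add_distrib, ← sum_sub_distrib]
    exact sum_congr rfl fun k _ => by ring
  have h1 := (nrm_colsum zero_le_two (abs_rem a b x)).trans (mul_le_mul_of_nonneg_left
    (mul_le_mul a2 b3 (S3.Rg.fro_nonneg _) ((opn_nonneg _).trans a2)) zero_le_two)
  rw [e]
  refine (nrm_sub_le _ _).trans ((add_le_add ((nrm_add_le _ _).trans
    (add_le_add (tr b2 a1) (tr a2 b1))) h1).trans_eq (by ring))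

end Lip16

open Crest.Agent.T157.Eig Crest.Agent.T157.S3.Rg Lip16 in
/-- **LIP** -/
theorem lipStmt : LipStmt := by
  refine ⟨100, by norm_num, fun n W h c e L Ω _ _ hc L0 e1 hΩ x => ?_⟩
  have hu : opn (dM (S3.hf W h) x) ≤ c := ((congrArg opn (S1.F25.jac_hf W h x)).trans_le hc)
  have o1 : ∀ k, |Ω x k| ≤ e := fun k => (norm_le_pi_norm (Ω x) k).trans (hΩ x).1
  have o2 : opn (dM Ω x) ≤ e := (hΩ x).2.1
  have e0 : 0 ≤ e := (opn_nonneg _).trans o2
  have c0 : 0 ≤ c := (opn_nonneg _).trans hc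
  have q1 : 1 ≤ (1 + c) ^ 2 := by nlinarith
  refine ⟨fun a ha => (lip_gg e1 ha hu o1 o2).trans (by nlinarith), ?_⟩
  have a1 : nrm (S3.Dg W h x * Ω x) ≤ L := (nrm_mul_le zero_le_one fun k => sech_le _).trans
    ((one_mul _).trans_le (hΩ x).2.2.1)
  have a2 := opn_dM_mul (a := S3.Dg W h) (v := Ω) (x := x) (A := 8 * (1 + c) ^ 2) (by positivity) e0
    (fun k => (sech_le _).trans (by linarith)) (opn_sech hu) o1 o2
  have h1 := nrm_grad_dot (a := fun y => S3.Dg W h y * Ω y) a1 a2 (hΩ x).2.2.1 o2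
    (fro_le_of_sq L0 (hΩ x).2.2.2)
  have e2 : F1 W h Ω = fun z => ∑ k, (S3.Dg W h z * Ω z) k * Ω z k := funext fun z => by
    simp only [F1, dotProduct, Pi.mul_apply, mul_assoc]
  rw [e2]
  refine h1.trans ?_
  nlinarith [mul_le_mul_of_nonneg_left q1 (mul_nonneg e0 L0), mul_nonneg e0 L0]

end Crest.Agent.T157.En

end
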