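import Crest.Agent.T157.EnDef_40

/-!
# Row 157, block B, S1, the END (helper71): the lifted reference is an Ising weight
-/

set_option autoImplicit false

noncomputable section

namespace Crest.Agent.T157.En

open Real Matrix Finset
open Crest.Agent.T157.E Crest.Agent.T157.SL
open Crest.Agent.T157.Eig (nrm opn)
open Crest.Agent.T157.S3 (V Mx hf)
open Crest.Agent.T157.Rip (Sp SpJ res)

namespace Pin71

variable {n : ℕ} {J : Mx n} {S : Finset (Fin n)}

lemma sv_pr (S : Finset (Fin n)) (sS x : Cube n) :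
    sv (pr S sS x) = res Sᶜ (sv x) + res S (sv sS) := by
  ext j; by_cases h : j ∈ S <;> simp [sv, pr, res, h]

lemma res_dot (A : Finset (Fin n)) (u v : V n) : res A u ⬝ᵥ v = u ⬝ᵥ res A v :=
  sum_congr rfl fun j _ => by unfold res; split_ifs <;> simp

lemma blk_mulVec (J : Mx n) (A B : Finset (Fin n)) (u : V n) :
    (of fun i j => if i ∈ A ∧ j ∈ B then J i j else 0) *ᵥ u = res A (J *ᵥ res B u) := by
  funext i
  by_cases hi : i ∈ A
  · simp only [mulVec, dotProduct, of_apply, res, hi, true_and, if_true]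
    exact sum_congr rfl fun j _ => by split_ifs <;> simp
  · simp [mulVec, dotProduct, res, hi]

lemma gM_mulVec (J : Mx n) (S : Finset (Fin n)) (u : V n) :
    gM J S *ᵥ u = res S (J *ᵥ res Sᶜ u) := by
  rw [← blk_mulVec]; simp only [gM, mem_compl]

lemma jM_mulVec (J : Mx n) (S : Finset (Fin n)) (u : V n) :
    jM J S *ᵥ u = res Sᶜ (J *ᵥ res Sᶜ u) := by
  rw [← blk_mulVec]; simp only [jM, mem_compl]

lemma gT_res (J : Mx n) (S : Finset (Fin n)) (u : V n) : (gM J S)ᵀ *ᵥ res S u = (gM J S)ᵀ *ᵥ u := by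
  funext j
  simp only [mulVec, dotProduct, transpose_apply, gM, of_apply, res]
  exact sum_congr rfl fun k _ => by by_cases h : k ∈ S <;> simp [h]

lemma qM_mulVec (J : Mx n) (P : ℝ) (S : Finset (Fin n)) (u : V n) : qM J P S *ᵥ u =
    P • (gM J S)ᵀ *ᵥ gM J S *ᵥ u - fun j => P * ((gM J S)ᵀ * gM J S) j j * u j := by
  have e : qM J P S = P • ((gM J S)ᵀ * gM J S) -
      diagonal fun j => P * ((gM J S)ᵀ * gM J S) j j := by
    ext i j; by_cases h : i = j <;> simp [qM, h]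
  rw [e, sub_mulVec, smul_mulVec, mulVec_mulVec]
  congr 1; funext j; rw [mulVec_diagonal]

lemma res_uu (D : S1.Dat n) (s : S1.St n) (x : Cube n) : res s.S (S1.uu D s (pr s.S s.sS x)) =
    gM D.J s.S *ᵥ sv x + res s.S (D.J *ᵥ res s.S (sv s.sS) - s.x) := by
  rw [gM_mulVec]
  funext k
  have e : S1.uu D s (pr s.S s.sS x) k =
      (D.J *ᵥ res s.Sᶜ (sv x)) k + ((D.J *ᵥ res s.S (sv s.sS)) k - s.x k) := by
    rw [S1.uu, sv_pr, mulVec_add, Pi.add_apply]; ring
  generalize D.J *ᵥ res s.Sᶜ (sv x) = a at e ⊢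
  generalize D.J *ᵥ res s.S (sv s.sS) = b at e ⊢
  by_cases h : k ∈ s.S <;> simp [res, h, e]

lemma U_eq (D : S1.Dat n) (s : S1.St n) (σ : Cube n) :
    S1.U D s σ = D.P / 2 * (res s.S (S1.uu D s σ) ⬝ᵥ res s.S (S1.uu D s σ)) := by
  rw [S1.U, dotProduct, ← sum_subset (subset_univ s.S) fun k _ hk => by simp [res, hk]]
  congr 1
  exact sum_congr rfl fun k hk => by simp only [res, if_pos hk, sq]

lemma sp_res' {m : ℝ} {v : V n} (h : Sp m v) (A : Finset (Fin n)) : Sp m (res A v) := by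
  obtain ⟨T, h1, h2⟩ := h
  exact ⟨T, h1, fun i hi => by simp [res, h2 i hi]⟩

lemma nrm_blk (hJ : opn J ≤ 3) (A B : Finset (Fin n)) (u : V n) :
    nrm (res A (J *ᵥ res B u)) ≤ 3 * nrm u :=
  (Rip.nrm_res_le _ _).trans ((Eig.nrm_mulVec_le _ _).trans
    (mul_le_mul hJ (Rip.nrm_res_le _ _) (Eig.nrm_nonneg _) (by norm_num)))

lemma nrm_diag {d u : V n} {c : ℝ} (hc : 0 ≤ c) (h : ∀ j, |d j| ≤ c) :
    nrm (fun j => d j * u j) ≤ c * nrm u := by
  have := (Eig.nrm_mulVec_le (diagonal d) u).trans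
    (mul_le_mul_of_nonneg_right (Eig.opn_diagonal_le hc h) (Eig.nrm_nonneg _))
  rwa [show diagonal d *ᵥ u = fun j => d j * u j from funext (mulVec_diagonal d u)] at this

end Pin71

open Pin71 in
theorem pinStmt : PinStmt := by
  intro n D s H
  constructor
  · set τ := res s.S (sv s.sS) with hτ
    set b := res s.S (D.J *ᵥ τ - s.x) with hb
    set G := gM D.J s.S with hG
    refine ⟨res s.Sᶜ (s.y' + D.J *ᵥ τ) - D.P • Gᵀ *ᵥ b,
      ⟨1 / 2 * (τ ⬝ᵥ D.J *ᵥ τ) + s.y' ⬝ᵥ τ - D.P / 2 * (b ⬝ᵥ b) - 1 / 2 * ∑ j, D.P * (Gᵀ * G) j j,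
        fun x => ?_⟩, fun x j hj => ?_⟩
    · have e0 : ∀ k ∈ s.S, pr s.S s.sS x k = s.sS k := fun k hk => if_pos hk
      have e1 : (sv x ⬝ᵥ fun j => D.P * (Gᵀ * G) j j * sv x j) = ∑ j, D.P * (Gᵀ * G) j j :=
        sum_congr rfl fun j _ => by linear_combination D.P * (Gᵀ * G) j j * Rec.sv_mul_self x j
      have e2 : ∀ u v : V n, u ⬝ᵥ Gᵀ *ᵥ v = (G *ᵥ u) ⬝ᵥ v := fun u v => by
        rw [dotProduct_mulVec, vecMul_transpose]
      have e3 : τ ⬝ᵥ D.J *ᵥ res s.Sᶜ (sv x) = res s.Sᶜ (sv x) ⬝ᵥ D.J *ᵥ τ := by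
        rw [dotProduct_mulVec, ← mulVec_transpose, H.symm, dotProduct_comm]
      simp only [Function.comp, S1.pi, Ta.wt, S1.loc, S1.ell, if_pos e0, ising, ← exp_add, U_eq,
        res_uu, sv_pr, S1.del, ← hτ, ← hb, ← hG]
      congr 1
      rw [sub_mulVec, qM_mulVec, jM_mulVec, ← hG, dotProduct_comm (_ - _) (sv x)]
      simp only [dotProduct_sub, e1, dotProduct_smul, e2, ← res_dot, smul_eq_mul, mulVec_add,
        dotProduct_add, add_dotProduct, sub_dotProduct, e3, dotProduct_comm b (G *ᵥ sv x),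
        dotProduct_comm (res s.Sᶜ (sv x)) s.y']
      ring
    · rw [hf, sub_mulVec, qM_mulVec, jM_mulVec, ← gT_res _ _ (S1.uu D s _), res_uu, sv_pr, ← hτ, ← hb,
        ← hG, mulVec_add, mulVec_add]
      simp only [Pi.add_apply, Pi.sub_apply, Pi.smul_apply, smul_eq_mul]
      rw [res, res, if_pos (mem_compl.2 hj), if_pos (mem_compl.2 hj), Pi.add_apply]
      ring
  · intro m b hS m1 hm hb b1
    have P1 := H.P1
    have b0 : 0 ≤ b := by rw [hb]; positivity
    have Pb : 0 ≤ D.P * b := by positivity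
    have hd : ∀ j, |D.P * ((gM D.J s.S)ᵀ * gM D.J s.S) j j| ≤ D.P * b := fun j => by
      have a1 : ((gM D.J s.S)ᵀ * gM D.J s.S) j j ≤ ∑ k ∈ s.S, D.J k j ^ 2 := by
        rw [mul_apply, ← sum_subset (subset_univ s.S) fun k _ hk => by simp [gM, hk]]
        refine sum_le_sum fun k hk => ?_
        simp only [transpose_apply, gM, of_apply]
        split_ifs
        exacts [(sq _).ge, by simpa using sq_nonneg _]
      have a2 : 0 ≤ ((gM D.J s.S)ᵀ * gM D.J s.S) j j := by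
        rw [mul_apply]; exact sum_nonneg fun k _ => mul_self_nonneg (gM D.J s.S k j)
      have a3 := hS.col (by norm_num) hm m1 j
      have a4 : b ^ 2 = 30 ^ 2 * √(m / n) := by rw [hb, mul_pow, sq_sqrt (sqrt_nonneg _)]
      rw [abs_of_nonneg (by positivity)]
      exact mul_le_mul_of_nonneg_left (by nlinarith) (by linarith)
    have hG : opn (gM D.J s.S) ≤ 3 := Eig.opn_le_of_nrm (by norm_num) fun u => by
      rw [gM_mulVec]; exact nrm_blk H.op _ _ u
    have hQ : ∀ (v : V n) (c : ℝ), nrm (gM D.J s.S *ᵥ v) ≤ c * nrm v →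
        nrm (qM D.J D.P s.S *ᵥ v) ≤ (3 * D.P * c + D.P * b) * nrm v := fun v c h => by
      have a1 := (Eig.nrm_mulVec_le (gM D.J s.S)ᵀ (gM D.J s.S *ᵥ v)).trans
        (mul_le_mul ((Eig.opn_transpose _).trans_le hG) h (Eig.nrm_nonneg _) (by norm_num))
      have a2 := nrm_diag (u := v) Pb hd
      rw [qM_mulVec]
      refine (Eig.nrm_sub_le _ _).trans ?_
      rw [Eig.nrm_smul, abs_of_nonneg (by linarith)]
      nlinarith [mul_le_mul_of_nonneg_left a1 (by linarith : 0 ≤ D.P)]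
    have hc : ∀ v : V n, Sp m v → nrm (qM D.J D.P s.S *ᵥ v) ≤ 4 * D.P * b * nrm v := fun v hv => by
      refine (hQ v b ?_).trans_eq (by ring)
      rw [gM_mulVec]
      refine ((hS.fl (sp_res' hv _)).res (mul_nonneg (by positivity) (Eig.nrm_nonneg _)) hm).trans ?_
      rw [← hb]
      exact mul_le_mul_of_nonneg_left (Rip.nrm_res_le _ _) b0
    have sy : ∀ i j, D.J j i = D.J i j := fun i j => by rw [← transpose_apply D.J, H.symm]
    refine ⟨⟨?_, fun i => by simp [jM, H.diag], Eig.opn_le_of_nrm (by norm_num) fun u => ?_,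
      fun u _ => ?_, fun u v hu hv => ?_⟩, ?_, fun i => by simp [qM],
      Eig.opn_le_of_nrm (by linarith) fun u => ?_, hc, fun u v _ hv => ?_⟩
    · ext i j; simp only [jM, transpose_apply, of_apply, and_comm, sy i j]
    · rw [jM_mulVec]; exact nrm_blk H.op _ _ u
    · rw [jM_mulVec]; exact nrm_blk H.op _ _ u
    · rw [jM_mulVec, ← res_dot]
      refine (hS m _ _ (sp_res' hv _) (sp_res' hu _)).trans ?_
      rw [← hb]
      exact mul_le_mul (by nlinarith) (mul_le_mul (Rip.nrm_res_le _ _) (Rip.nrm_res_le _ _)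
        (Eig.nrm_nonneg _) (Eig.nrm_nonneg _)) (mul_nonneg (Eig.nrm_nonneg _) (Eig.nrm_nonneg _))
        (by positivity)
    · ext i j
      simp only [qM, transpose_apply, of_apply, eq_comm (a := j), mul_apply, mul_comm (gM D.J s.S _ j)]
    · refine (hQ u 3 ((Eig.nrm_mulVec_le _ _).trans
        (mul_le_mul_of_nonneg_right hG (Eig.nrm_nonneg _)))).trans
        (mul_le_mul_of_nonneg_right (by nlinarith) (Eig.nrm_nonneg _))
    · exact (Eig.abs_dot_le _ _).trans
        ((mul_le_mul_of_nonneg_left (hc v hv) (Eig.nrm_nonneg _)).trans_eq (by ring))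

end Crest.Agent.T157.En

end
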