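import Crest.Agent.T157.TaA_40

/-!
# Row 157, block B, END (helper8): resolvent of a heat bath, coupled maximum principle
-/

set_option autoImplicit false

noncomputable section

namespace Crest.Agent.T157.EnK

open Real Finset Function
open Crest.Agent.T157.E Crest.Agent.T157.SL Crest.Agent.T157.Ta
open Crest.Agent.T157.Rec (grad fl grad_eq)

variable {n : ℕ} {C : Finset (Fin n)} {T : Fin n → Cube n → ℝ}

/-- flip rate -/
def pk (T : Fin n → Cube n → ℝ) (k : Fin n) (x : Cube n) : ℝ := (1 - sv x k * T k x) / 2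

/-- heat bath on the sites of `C` with conditional means `T` -/
def Lg (C : Finset (Fin n)) (T : Fin n → Cube n → ℝ) (f : Cube n → ℝ) (x : Cube n) : ℝ :=
  ∑ k ∈ C, (T k x - sv x k) * grad f x k

theorem ss (x : Cube n) (i : Fin n) : sv x i * sv x i = 1 := spin_mul_self _

theorem abs_s (x : Cube n) (i : Fin n) : |sv x i| = 1 := by
  rcases mul_self_eq_one_iff.1 (ss x i) with h | h <;> simp [h]

theorem val_fl (f : Cube n → ℝ) (x : Cube n) (k : Fin n) :
    f (fl x k) = f x - 2 * sv x k * grad f x k := by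
  rw [grad_eq]; linear_combination (f x - f (fl x k)) * ss x k

theorem Lg_eq (f : Cube n → ℝ) (x : Cube n) :
    Lg C T f x = ∑ k ∈ C, pk T k x * (f (fl x k) - f x) :=
  sum_congr rfl fun k _ => by
    rw [val_fl f, pk]; linear_combination (-(T k x * grad f x k)) * ss x k

theorem pk_nonneg (h : ∀ k x, |T k x| ≤ 1) (k : Fin n) (x : Cube n) : 0 ≤ pk T k x := by
  have := le_abs_self (sv x k * T k x)
  rw [abs_mul, abs_s, one_mul] at this
  rw [pk]; linarith [h k x]

theorem pk_le_one (h : ∀ k x, |T k x| ≤ 1) (k : Fin n) (x : Cube n) : pk T k x ≤ 1 := by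
  have := neg_abs_le (sv x k * T k x)
  rw [abs_mul, abs_s, one_mul] at this
  rw [pk]; linarith [h k x]

theorem Lg_lin (f g : Cube n → ℝ) (a b : ℝ) (x : Cube n) :
    Lg C T (fun x => a * f x + b * g x) x = a * Lg C T f x + b * Lg C T g x := by
  simp only [Lg_eq, mul_sum, ← sum_add_distrib]
  exact sum_congr rfl fun k _ => by ring

theorem Lg_sum {ι : Type*} (S : Finset ι) (f : ι → Cube n → ℝ) (x : Cube n) :
    Lg C T (fun x => ∑ j ∈ S, f j x) x = ∑ j ∈ S, Lg C T (f j) x := by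
  simp only [Lg_eq, ← sum_sub_distrib, mul_sum]
  exact sum_comm

theorem Lg_max (h : ∀ k x, |T k x| ≤ 1) {f : Cube n → ℝ} {x : Cube n} (hx : ∀ z, f z ≤ f x) :
    Lg C T f x ≤ 0 := by
  rw [Lg_eq]
  exact sum_nonpos fun k _ => mul_nonpos_of_nonneg_of_nonpos (pk_nonneg h k x) (sub_nonpos.2 (hx _))

theorem Lg_touch (h : ∀ k x, |T k x| ≤ 1) {f N : Cube n → ℝ} {r : ℝ} {x : Cube n}
    (h1 : ∀ z, f z ≤ r * N z) (h2 : f x = r * N x) : Lg C T f x ≤ r * Lg C T N x := by
  have := Lg_max (C := C) h (f := fun z => 1 * f z + -r * N z) (x := x) fun z => by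
    linarith [h1 z]
  rw [Lg_lin] at this; linarith

theorem Lg_sq (f : Cube n → ℝ) (x : Cube n) : Lg C T (fun x => f x ^ 2) x =
    2 * f x * Lg C T f x + ∑ k ∈ C, pk T k x * (4 * grad f x k ^ 2) := by
  simp only [Lg_eq, mul_sum, ← sum_add_distrib]
  refine sum_congr rfl fun k _ => ?_
  rw [val_fl f]
  linear_combination (4 * pk T k x * grad f x k ^ 2) * ss x k

/-! ### the resolvent -/

theorem res_le (h : ∀ k x, |T k x| ≤ 1) {η M : ℝ} (hη : 0 < η) {G : Cube n → ℝ}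
    (hG : ∀ x, η * G x - Lg C T G x ≤ M) (x : Cube n) : η * G x ≤ M := by
  obtain ⟨z, -, hz⟩ := exists_max_image univ G univ_nonempty
  have := Lg_max (C := C) h fun y => hz y (mem_univ y)
  nlinarith [hG z, hz x (mem_univ x)]

theorem res_abs (h : ∀ k x, |T k x| ≤ 1) {η M : ℝ} (hη : 0 < η) {G : Cube n → ℝ}
    (hG : ∀ x, |η * G x - Lg C T G x| ≤ M) (x : Cube n) : η * |G x| ≤ M := by
  have h1 := res_le h hη (fun x => (abs_le.1 (hG x)).2) x
  have h2 := res_le (C := C) h hη (G := fun x => -1 * G x + 0 * G x) (M := M) (fun x => by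
    rw [Lg_lin]; linarith [(abs_le.1 (hG x)).1]) x
  rcases abs_cases (G x) with e | e <;> rw [e.1] <;> linarith

theorem exists_res (h : ∀ k x, |T k x| ≤ 1) {η : ℝ} (hη : 0 < η) (F : Cube n → ℝ) :
    ∃ G : Cube n → ℝ, ∀ x, η * G x - Lg C T G x = F x := by
  let Φ : (Cube n → ℝ) →ₗ[ℝ] (Cube n → ℝ) :=
    { toFun := fun G x => η * G x - Lg C T G x
      map_add' := fun f g => funext fun x => by
        have := Lg_lin (C := C) (T := T) f g 1 1 x
        simp only [one_mul] at this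
        rw [Pi.add_apply, Pi.add_apply, show f + g = fun x => f x + g x from rfl, this]; ring
      map_smul' := fun c f => funext fun x => by
        have := Lg_lin (C := C) (T := T) f f c 0 x
        simp only [zero_mul, add_zero] at this
        rw [RingHom.id_apply, Pi.smul_apply, Pi.smul_apply, show c • f = fun x => c * f x from rfl,
          this, smul_eq_mul, smul_eq_mul]; ring }
  have hi : Injective Φ := (injective_iff_map_eq_zero Φ).2 fun G hG => funext fun x => by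
    have := res_abs (C := C) h hη (G := G) (M := 0) (fun x => by
      rw [show η * G x - Lg C T G x = 0 from congrFun hG x, abs_zero]) x
    exact abs_nonpos_iff.1 (nonpos_of_mul_nonpos_right this hη |> fun e => e)
  obtain ⟨G, hG⟩ := LinearMap.injective_iff_surjective.1 hi F
  exact ⟨G, congrFun hG⟩

/-- the exact identity -/
theorem ident {v F G : Cube n → ℝ} {η : ℝ} (hv : Wt v) (hG : ∀ x, η * G x - Lg C T G x = F x) :
    mean v F = η * mean v G + ∑ k ∈ C, mean v fun x => (Ta.cm v k x - T k x) * grad G x k := by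
  have e : F = fun x => η * G x + ∑ k ∈ C, (sv x k - T k x) * grad G x k := funext fun x => by
    rw [← hG x, Lg, sub_eq_add_neg, ← sum_neg_distrib]
    exact congrArg _ (sum_congr rfl fun k _ => by ring)
  rw [e, mean_add, mean_const_mul, mean_sum]
  refine congrArg _ (sum_congr rfl fun k _ => ?_)
  have := mean_cm hv (off_grad G k)
  simp only [sub_mul, mean_sub, mul_comm (sv _ k), mul_comm (Ta.cm v k _), this]

/-! ### commutation -/

theorem grad_mul (f g : Cube n → ℝ) (x : Cube n) (j : Fin n) :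
    grad (fun x => f x * g x) x j = f x * grad g x j + grad f x j * g (fl x j) := by
  simp only [grad_eq]; ring

theorem grad_off {f : Cube n → ℝ} {j : Fin n} (h : OffAt j f) (x : Cube n) : grad f x j = 0 := by
  rw [grad_eq, fl, h, sub_self, mul_zero, zero_div]

theorem grad_comm (G : Cube n → ℝ) (x : Cube n) (j k : Fin n) :
    grad (fun x => grad G x k) x j = grad (fun x => grad G x j) x k := by
  by_cases h : j = k
  · rw [h]
  simp only [grad, incr, update_comm h]; ring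

theorem grad_sum {ι : Type*} (S : Finset ι) (f : ι → Cube n → ℝ) (x : Cube n) (j : Fin n) :
    grad (fun x => ∑ k ∈ S, f k x) x j = ∑ k ∈ S, grad (f k) x j := by
  simp only [grad_eq, ← sum_sub_distrib, mul_sum, sum_div]

theorem grad_sv (x : Cube n) (j k : Fin n) : grad (fun x => sv x k) x j = if k = j then 1 else 0 := by
  split_ifs with h
  · subst h; simp [grad, incr, sv, Crest.ProbabilityR.SpinGlassDynamics.spin]
  · rw [grad_eq, Rec.sv_fl_ne x h, sub_self, mul_zero, zero_div]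

theorem grad_Lg (G : Cube n → ℝ) (x : Cube n) {j : Fin n} (hj : j ∈ C) :
    grad (Lg C T G) x j = Lg C T (fun x => grad G x j) x - grad G x j +
      ∑ k ∈ C, grad (T k) x j * (grad G x k - 2 * sv x j * grad (fun x => grad G x j) x k) := by
  have e : ∀ k, grad (fun x => (T k x - sv x k) * grad G x k) x j =
      (T k x - sv x k) * grad (fun x => grad G x j) x k - (if k = j then grad G x j else 0) +
        grad (T k) x j * (grad G x k - 2 * sv x j * grad (fun x => grad G x j) x k) := fun k => by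
    rw [grad_mul, Rec.grad_sub, Pi.sub_apply, grad_sv, val_fl (fun x => grad G x k), grad_comm G x j k]
    split_ifs with h
    · subst h; rw [grad_off (off_grad G k)]; ring
    · ring
  rw [show Lg C T G = fun x => ∑ k ∈ C, (T k x - sv x k) * grad G x k from rfl, grad_sum]
  simp only [e, sum_add_distrib, sum_sub_distrib, sum_ite_eq', if_pos hj]
  rfl

/-- the pointwise Bochner inequality -/
theorem boch (h : ∀ k x, |T k x| ≤ 1) {η : ℝ} (hη : 0 ≤ η) {G : Cube n → ℝ}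
    {a : Fin n → ℝ} (hG : ∀ x, η * G x - Lg C T G x = ∑ k ∈ C, a k * T k x) (x : Cube n) {j : Fin n}
    (hj : j ∈ C) {ω : Fin n → ℝ} (ω0 : ∀ k ∈ C, 0 ≤ ω k)
    (hω : ∀ k ∈ C, grad (T k) x j ^ 2 ≤ ω k * pk T k x) (ω1 : ∑ k ∈ C, ω k ≤ 1 / 4) :
    3 / 2 * grad G x j ^ 2 - 4 * (∑ k ∈ C, grad (T k) x j * (a k + grad G x k)) ^ 2 ≤
      Lg C T (fun x => grad G x j ^ 2) x := by
  have e0 : grad (fun x => η * G x - Lg C T G x) x j = ∑ k ∈ C, grad (T k) x j * a k := by
    rw [funext hG, grad_sum]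
    exact sum_congr rfl fun k _ => by rw [Rec.grad_const_mul, Pi.smul_apply, smul_eq_mul, mul_comm]
  rw [Rec.grad_sub, Rec.grad_const_mul, Pi.sub_apply, Pi.smul_apply, smul_eq_mul, grad_Lg G x hj]
    at e0
  rw [Lg_sq]
  set V := grad G x j
  set H : Fin n → ℝ := fun k => grad (fun x => grad G x j) x k
  set R := ∑ k ∈ C, grad (T k) x j * (a k + grad G x k) with hR
  have e1 : Lg C T (fun x => grad G x j) x =
      (1 + η) * V - R + ∑ k ∈ C, 2 * sv x j * grad (T k) x j * H k := by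
    have : R - ∑ k ∈ C, 2 * sv x j * grad (T k) x j * H k = ∑ k ∈ C, grad (T k) x j * a k +
        ∑ k ∈ C, grad (T k) x j * (grad G x k - 2 * sv x j * H k) := by
      rw [hR, ← sum_sub_distrib, ← sum_add_distrib]
      exact sum_congr rfl fun k _ => by ring
    linarith
  have e2 : 0 ≤ ∑ k ∈ C, (2 * V * (2 * sv x j * grad (T k) x j * H k) + pk T k x * (4 * H k ^ 2) +
      ω k * V ^ 2) := sum_nonneg fun k hk => by
    have p0 := pk_nonneg h k x
    have w0 := ω0 k hk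
    have a1 : (2 * V * (2 * sv x j * grad (T k) x j * H k)) ^ 2 ≤
        (pk T k x * (4 * H k ^ 2) + ω k * V ^ 2) ^ 2 := by
      have b1 : (2 * V * (2 * sv x j * grad (T k) x j * H k)) ^ 2 =
          16 * (V * H k) ^ 2 * grad (T k) x j ^ 2 := by
        linear_combination (16 * (V * H k) ^ 2 * grad (T k) x j ^ 2) * ss x j
      rw [b1]
      nlinarith [mul_le_mul_of_nonneg_left (hω k hk) (sq_nonneg (V * H k)),
        sq_nonneg (pk T k x * (4 * H k ^ 2) - ω k * V ^ 2)]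
    linarith [(abs_le_of_sq_le_sq' a1 (by positivity)).1]
  rw [sum_add_distrib, sum_add_distrib, ← mul_sum, ← sum_mul] at e2
  rw [e1]
  nlinarith [mul_le_mul_of_nonneg_right ω1 (sq_nonneg V), sq_nonneg (V - 4 * R),
    mul_nonneg hη (sq_nonneg V)]

/-! ### the coupled maximum principle -/

/-- partial squared norm -/
def sq2 (B : Finset (Fin n)) (v : Fin n → ℝ) : ℝ := ∑ j ∈ B, v j ^ 2

/-- the hopping term -/
def hop (C : Finset (Fin n)) (T : Fin n → Cube n → ℝ) (x : Cube n) (v : Fin n → ℝ) : Fin n → ℝ :=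
  fun j => ∑ k ∈ C, grad (T k) x j * v k

/-- good points -/
structure Good (C : Finset (Fin n)) (T : Fin n → Cube n → ℝ) (m α β : ℝ) (x : Cube n) : Prop where
  noise : ∀ j ∈ C, ∃ ω : Fin n → ℝ, (∀ k ∈ C, 0 ≤ ω k) ∧
    (∀ k ∈ C, grad (T k) x j ^ 2 ≤ ω k * pk T k x) ∧ ∑ k ∈ C, ω k ≤ 1 / 4
  h1 : ∃ B ⊆ C, (B.card : ℝ) ≤ m ∧ ∀ v, sq2 C (hop C T x v) ≤ α * sq2 B v + β * sq2 C v
  h2 : ∀ B ⊆ C, (B.card : ℝ) ≤ m → ∀ v, sq2 B (hop C T x v) ≤ β * sq2 C v

theorem sq2_nonneg (B : Finset (Fin n)) (v : Fin n → ℝ) : 0 ≤ sq2 B v := sum_nonneg fun _ _ => sq_nonneg _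

theorem sq2_mono {B : Finset (Fin n)} (h : B ⊆ C) (v : Fin n → ℝ) : sq2 B v ≤ sq2 C v :=
  sum_le_sum_of_subset_of_nonneg h fun _ _ _ => sq_nonneg _

theorem sq2_add_le (B : Finset (Fin n)) (u v : Fin n → ℝ) :
    sq2 B (u + v) ≤ 2 * sq2 B u + 2 * sq2 B v := by
  simp only [sq2, mul_sum, ← sum_add_distrib, Pi.add_apply]
  exact sum_le_sum fun j _ => by nlinarith [sq_nonneg (u j - v j)]

theorem boch_sum (h : ∀ k x, |T k x| ≤ 1) {η m α β : ℝ} (hη : 0 ≤ η) {G : Cube n → ℝ}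
    {a : Fin n → ℝ} (hG : ∀ x, η * G x - Lg C T G x = ∑ k ∈ C, a k * T k x) {x : Cube n}
    (g : Good C T m α β x) {B : Finset (Fin n)} (hB : B ⊆ C) :
    3 / 2 * sq2 B (grad G x) - 4 * sq2 B (hop C T x (a + grad G x)) ≤
      Lg C T (fun x => sq2 B (grad G x)) x := by
  simp only [sq2]
  rw [Lg_sum, mul_sum, mul_sum, ← sum_sub_distrib]
  refine sum_le_sum fun j hj => ?_
  obtain ⟨ω, w0, w1, w2⟩ := g.noise j (hB hj)
  exact boch h hη hG x (hB hj) w0 w1 w2

/-- crude bound -/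
theorem crude (h : ∀ k x, |T k x| ≤ 1) {η : ℝ} (hη : 0 < η) {G : Cube n → ℝ} {a : Fin n → ℝ}
    (hG : ∀ x, η * G x - Lg C T G x = ∑ k ∈ C, a k * T k x) (x : Cube n) :
    η * |G x| ≤ √(n * sq2 C a) := by
  refine res_abs (C := C) h hη (fun x => ?_) x
  rw [hG]
  refine abs_le_sqrt ((sum_mul_sq_le_sq_mul_sq C a fun k => T k x).trans ?_)
  rw [mul_comm]
  refine mul_le_mul_of_nonneg_right ?_ (sq2_nonneg C a)
  refine (sum_le_sum (g := fun _ => (1 : ℝ)) fun k _ => (sq_le_one_iff_abs_le_one _).2 (h k x)).trans ?_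
  rw [sum_const, nsmul_eq_mul, mul_one]
  exact_mod_cast (card_le_univ C).trans_eq (Fintype.card_fin n)

theorem crude2 (h : ∀ k x, |T k x| ≤ 1) {η : ℝ} (hη : 0 < η) {G : Cube n → ℝ} {a : Fin n → ℝ}
    (hG : ∀ x, η * G x - Lg C T G x = ∑ k ∈ C, a k * T k x) (x : Cube n) :
    sq2 C (grad G x) ≤ n ^ 2 / η ^ 2 * sq2 C a := by
  have a0 := sq2_nonneg C a
  have n0 : (0 : ℝ) ≤ n := n.cast_nonneg
  have h1 : ∀ j, η ^ 2 * grad G x j ^ 2 ≤ n * sq2 C a := fun j => by
    have b1 := crude h hη hG x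
    have b2 := crude h hη hG (fl x j)
    have b3 : η * |grad G x j| ≤ √(n * sq2 C a) := by
      rw [grad_eq, abs_div, abs_mul, abs_s, one_mul, abs_two]
      nlinarith [abs_sub (G x) (G (fl x j))]
    rw [← sq_sqrt (mul_nonneg n0 a0), ← sq_abs (grad G x j), ← mul_pow]
    exact pow_le_pow_left₀ (by positivity) b3 2
  rw [div_mul_eq_mul_div, le_div_iff₀ (by positivity), sq2, sum_mul]
  refine (sum_le_sum (g := fun _ => n * sq2 C a) fun j _ => by rw [mul_comm]; exact h1 j).trans ?_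
  rw [sum_const, nsmul_eq_mul]
  have : (C.card : ℝ) ≤ n := by exact_mod_cast (card_le_univ C).trans_eq (Fintype.card_fin n)
  nlinarith [mul_le_mul_of_nonneg_right this (mul_nonneg n0 a0)]

/-- **the coupled maximum principle** -/
theorem maxp (h : ∀ k x, |T k x| ≤ 1) {η m α β : ℝ} (hη : 0 < η) (hm : 0 ≤ m)
    (α0 : 0 ≤ α) (β0 : 0 ≤ β) (β1 : 32 * β ≤ 1) (αβ : 256 * (α * β) ≤ 1) {G N : Cube n → ℝ}
    {a : Fin n → ℝ} (hG : ∀ x, η * G x - Lg C T G x = ∑ k ∈ C, a k * T k x) (N1 : ∀ x, 1 ≤ N x)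
    (hN : ∀ x, (Good C T m α β x ∧ Lg C T N x ≤ N x / 2) ∨ (n : ℝ) ^ 2 / η ^ 2 ≤ β * N x)
    (x : Cube n) : sq2 C (grad G x) ≤ 20 * (α + β) * sq2 C a * N x ∧
      ∀ B ⊆ C, (B.card : ℝ) ≤ m → sq2 B (grad G x) ≤ 8 * β * (1 + 20 * (α + β)) * sq2 C a * N x := by
  classical
  have N0 : ∀ x, 0 < N x := fun x => one_pos.trans_le (N1 x)
  have a0 := sq2_nonneg C a
  set A := sq2 C a with hA
  obtain ⟨x1, -, h1⟩ := exists_max_image univ (fun x => sq2 C (grad G x) / N x) univ_nonempty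
  obtain ⟨⟨x2, B2⟩, hB2, h2⟩ := exists_max_image
    (univ ×ˢ C.powerset.filter fun B => (B.card : ℝ) ≤ m) (fun p => sq2 p.2 (grad G p.1) / N p.1)
    ⟨(x, ∅), by simpa using hm⟩
  simp only [mem_product, mem_univ, true_and, mem_filter, mem_powerset] at hB2 h2
  set r := sq2 C (grad G x1) / N x1 with hr
  set s := sq2 B2 (grad G x2) / N x2 with hs
  have r0 : 0 ≤ r := div_nonneg (sq2_nonneg _ _) (N0 _).le
  have s0 : 0 ≤ s := div_nonneg (sq2_nonneg _ _) (N0 _).le
  have r1 : ∀ z, sq2 C (grad G z) ≤ r * N z := fun z => (div_le_iff₀ (N0 z)).1 (h1 z (mem_univ z))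
  have s1 : ∀ z, ∀ B ⊆ C, (B.card : ℝ) ≤ m → sq2 B (grad G z) ≤ s * N z := fun z B hB hc =>
    (div_le_iff₀ (N0 z)).1 (h2 (z, B) ⟨hB, hc⟩)
  have r2 : sq2 C (grad G x1) = r * N x1 := (div_mul_cancel₀ _ (N0 x1).ne').symm
  have s2 : sq2 B2 (grad G x2) = s * N x2 := (div_mul_cancel₀ _ (N0 x2).ne').symm
  have bad : ∀ z, (n : ℝ) ^ 2 / η ^ 2 ≤ β * N z → sq2 C (grad G z) ≤ β * A * N z := fun z hz =>
    (crude2 h hη hG z).trans ((mul_le_mul_of_nonneg_right hz a0).trans_eq (by ring))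
  have k1 : r ≤ 8 * α * (A + s) + 8 * β * (A + r) := by
    refine le_of_mul_le_mul_right ?_ (N0 x1)
    have n1 := N1 x1
    have aN : A ≤ A * N x1 := le_mul_of_one_le_right a0 n1
    rcases hN x1 with ⟨g, hL⟩ | hb
    · obtain ⟨B, hB, hc, hh⟩ := g.h1
      have b1 := boch_sum h hη.le hG g subset_rfl
      have b2 := Lg_touch (C := C) h r1 r2
      have b3 := hh (a + grad G x1)
      have b4 := mul_le_mul_of_nonneg_left ((sq2_add_le B a (grad G x1)).trans
        (add_le_add (mul_le_mul_of_nonneg_left ((sq2_mono hB a).trans aN) zero_le_two)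
          (mul_le_mul_of_nonneg_left (s1 x1 B hB hc) zero_le_two))) α0
      have b5 := mul_le_mul_of_nonneg_left ((sq2_add_le C a (grad G x1)).trans
        (add_le_add (mul_le_mul_of_nonneg_left aN zero_le_two) le_rfl)) β0
      have b6 := mul_le_mul_of_nonneg_left hL r0
      rw [r2] at b1 b5
      nlinarith
    · have := bad x1 hb
      rw [r2] at this
      have c1 : 0 ≤ α * (A + s) * N x1 := by have := N0 x1; positivity
      have c2 : 0 ≤ β * r * N x1 := by have := N0 x1; positivity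
      have c3 : 0 ≤ β * A * N x1 := by have := N0 x1; positivity
      nlinarith
  have k2 : s ≤ 8 * β * (A + r) := by
    refine le_of_mul_le_mul_right ?_ (N0 x2)
    have n1 := N1 x2
    have aN : A ≤ A * N x2 := le_mul_of_one_le_right a0 n1
    rcases hN x2 with ⟨g, hL⟩ | hb
    · have b1 := boch_sum h hη.le hG g hB2.1
      have b2 := Lg_touch (C := C) h (fun z => s1 z B2 hB2.1 hB2.2) s2
      have b3 := g.h2 B2 hB2.1 hB2.2 (a + grad G x2)
      have b5 := mul_le_mul_of_nonneg_left ((sq2_add_le C a (grad G x2)).trans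
        (add_le_add (mul_le_mul_of_nonneg_left aN zero_le_two)
          (mul_le_mul_of_nonneg_left (r1 x2) zero_le_two))) β0
      have b6 := mul_le_mul_of_nonneg_left hL s0
      rw [s2] at b1
      nlinarith
    · have := (sq2_mono hB2.1 _).trans (bad x2 hb)
      rw [s2] at this
      have c2 : 0 ≤ β * r * N x2 := by have := N0 x2; positivity
      have c3 : 0 ≤ β * A * N x2 := by have := N0 x2; positivity
      nlinarith
  have k3 : r ≤ 20 * (α + β) * A := by
    have b1 := mul_le_mul_of_nonneg_left k2 α0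
    have b2 := mul_le_mul_of_nonneg_right β1 r0
    have b3 := mul_le_mul_of_nonneg_right αβ r0
    have b4 := mul_le_mul_of_nonneg_right β1 (mul_nonneg α0 a0)
    nlinarith [mul_nonneg α0 a0, mul_nonneg β0 a0]
  refine ⟨(r1 x).trans (mul_le_mul_of_nonneg_right k3 (N0 x).le), fun B hB hc =>
    (s1 x B hB hc).trans (mul_le_mul_of_nonneg_right (k2.trans ?_) (N0 x).le)⟩
  nlinarith [mul_le_mul_of_nonneg_left k3 β0]

/-! ### the barrier -/

/-- Hamming distance on `C` -/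
def dH (C : Finset (Fin n)) (s0 x : Cube n) : ℕ := (C.filter fun j => x j ≠ s0 j).card

theorem fl_self (x : Cube n) (k : Fin n) : fl x k k = !x k := by simp [fl]

theorem fl_ne (x : Cube n) {j k : Fin n} (h : j ≠ k) : fl x k j = x j := by simp [fl, h]

theorem dH_agree {s0 x : Cube n} {k : Fin n} (hk : k ∈ C) (h : x k = s0 k) :
    dH C s0 (fl x k) = dH C s0 x + 1 := by
  rw [dH, dH, ← card_insert_of_notMem (a := k) (by simp [h])]
  congr 1
  ext j
  by_cases e : j = k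
  · subst e; simp [fl_self, h, hk]
  · simp [fl_ne x e, e]

theorem dH_dis {s0 x : Cube n} {k : Fin n} (hk : k ∈ C) (h : x k ≠ s0 k) :
    dH C s0 (fl x k) + 1 = dH C s0 x := by
  have e : fl (fl x k) k = x := by simp [fl]
  rw [← dH_agree hk (by rw [fl_self]; revert h; cases x k <;> cases s0 k <;> simp), e]

theorem dH_le (s0 x : Cube n) : dH C s0 x ≤ n :=
  (card_le_univ _).trans_eq (Fintype.card_fin n)

/-- the barrier -/
def bar (C : Finset (Fin n)) (s0 : Cube n) (d1 : ℕ) (K : ℝ) (x : Cube n) : ℝ :=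
  1 + K * exp (((min (dH C s0 x) d1 : ℕ) : ℝ) - d1)

theorem one_le_bar (s0 : Cube n) (d1 : ℕ) {K : ℝ} (hK : 0 ≤ K) (x : Cube n) : 1 ≤ bar C s0 d1 K x :=
  le_add_of_nonneg_right (mul_nonneg hK (exp_pos _).le)

theorem bar_far {s0 x : Cube n} {d1 : ℕ} (K : ℝ) (h : d1 ≤ dH C s0 x) : bar C s0 d1 K x = 1 + K := by
  rw [bar, min_eq_right h, sub_self, exp_zero, mul_one]

theorem bar_near {s0 x : Cube n} {d0 d1 : ℕ} {K : ℝ} (hK : 0 ≤ K) (h : dH C s0 x ≤ d0) :
    bar C s0 d1 K x ≤ 1 + K * exp ((d0 : ℝ) - d1) := by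
  have : ((min (dH C s0 x) d1 : ℕ) : ℝ) ≤ d0 := by exact_mod_cast (min_le_left _ _).trans h
  rw [bar]; gcongr

/-- the drift of the barrier -/
theorem Lg_bar (h : ∀ k x, |T k x| ≤ 1) {s0 x : Cube n} {d0 d1 : ℕ} {K : ℝ} (hK : 0 ≤ K)
    (hs : 4 * n * (K * exp ((d0 : ℝ) - d1)) ≤ 1) (hx : dH C s0 x < d1)
    (hd : d0 < dH C s0 x → 3 * ∑ k ∈ C.filter (fun k => x k = s0 k), pk T k x ≤
      ∑ k ∈ C.filter (fun k => x k ≠ s0 k), pk T k x) :
    Lg C T (bar C s0 d1 K) x ≤ bar C s0 d1 K x / 2 := by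
  set E := K * exp ((dH C s0 x : ℝ) - d1) with hE
  have E0 : 0 ≤ E := mul_nonneg hK (exp_pos _).le
  have b0 : bar C s0 d1 K x = 1 + E := by rw [bar, min_eq_left hx.le]
  have e1 : exp 1 ≤ 3 := by linarith [exp_one_lt_d9]
  have e2 : exp (-1) * exp 1 = 1 := by rw [← exp_add]; simp
  have e3 : 2 ≤ exp 1 := by linarith [exp_one_gt_d9]
  have e4 := exp_pos (-1)
  have b1 : ∀ k ∈ C.filter (fun k => x k = s0 k),
      pk T k x * (bar C s0 d1 K (fl x k) - bar C s0 d1 K x) = E * (exp 1 - 1) * pk T k x :=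
    fun k hk => by
      rw [b0, bar, dH_agree (mem_filter.1 hk).1 (mem_filter.1 hk).2, min_eq_left hx, hE]
      push_cast
      rw [show (dH C s0 x : ℝ) + 1 - d1 = dH C s0 x - d1 + 1 by ring, exp_add]; ring
  have b2 : ∀ k ∈ C.filter (fun k => ¬ x k = s0 k),
      pk T k x * (bar C s0 d1 K (fl x k) - bar C s0 d1 K x) = E * (exp (-1) - 1) * pk T k x :=
    fun k hk => by
      have d := dH_dis (mem_filter.1 hk).1 (mem_filter.1 hk).2
      rw [b0, bar, min_eq_left (by omega), hE, ← d]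
      push_cast
      rw [show (dH C s0 (fl x k) : ℝ) - d1 = dH C s0 (fl x k) + 1 - d1 + -1 by ring, exp_add]; ring
  rw [Lg_eq, ← sum_filter_add_sum_filter_not C fun k => x k = s0 k, sum_congr rfl b1,
    sum_congr rfl b2, ← mul_sum, ← mul_sum, b0]
  set P := ∑ k ∈ C.filter (fun k => x k = s0 k), pk T k x
  set Q := ∑ k ∈ C.filter (fun k => ¬ x k = s0 k), pk T k x
  have P0 : 0 ≤ P := sum_nonneg fun k _ => pk_nonneg h k x
  have Q0 : 0 ≤ Q := sum_nonneg fun k _ => pk_nonneg h k x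
  have m1 : exp (-1) - 1 ≤ 0 := by nlinarith
  rcases lt_or_ge d0 (dH C s0 x) with c | c
  · have := hd c
    have h1 : (exp 1 - 1) * P + (exp (-1) - 1) * Q ≤ 0 := by
      have k1 : (exp (-1) - 1) * Q ≤ (exp (-1) - 1) * (3 * P) := mul_le_mul_of_nonpos_left this m1
      have k2 : exp 1 - 1 + (exp (-1) - 1) * 3 ≤ 0 := by nlinarith
      nlinarith [mul_nonpos_of_nonpos_of_nonneg k2 P0]
    nlinarith [mul_nonpos_of_nonneg_of_nonpos E0 h1]
  · have P1 : P ≤ n := by
      refine (sum_le_sum (g := fun _ => (1 : ℝ)) fun k _ => pk_le_one h k x).trans ?_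
      rw [sum_const, nsmul_eq_mul, mul_one]
      exact_mod_cast (card_le_univ _).trans_eq (Fintype.card_fin n)
    have E1 : E ≤ K * exp ((d0 : ℝ) - d1) := by
      have : (dH C s0 x : ℝ) ≤ d0 := by exact_mod_cast c
      rw [hE]; gcongr
    have k1 : E * (exp (-1) - 1) * Q ≤ 0 :=
      mul_nonpos_of_nonpos_of_nonneg (mul_nonpos_of_nonneg_of_nonpos E0 m1) Q0
    have k2 : (exp 1 - 1) * P ≤ 2 * n := mul_le_mul (by linarith) P1 P0 zero_le_two
    have k3 := mul_le_mul E1 k2 (mul_nonneg (by linarith) P0) (E0.trans E1)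
    nlinarith

/-- the value along a monotone path -/
theorem tail {G : Cube n → ℝ} {s0 : Cube n} {d0 : ℕ} {b : ℝ}
    (hb : ∀ x, dH C s0 x ≤ d0 → ∀ j ∈ C, |grad G x j| ≤ b) :
    ∀ d ≤ d0, ∀ x, dH C s0 x = d → (∀ i ∉ C, x i = s0 i) → |G x - G s0| ≤ 2 * b * d := by
  intro d
  induction d with
  | zero =>
    intro _ x hx h
    have : x = s0 := funext fun i => by
      by_cases hi : i ∈ C
      · by_contra e
        have : i ∈ C.filter fun j => x j ≠ s0 j := mem_filter.2 ⟨hi, e⟩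
        rw [card_eq_zero.1 hx] at this
        exact notMem_empty i this
      · exact h i hi
    simp [this]
  | succ d ih =>
    intro hd x hx h
    obtain ⟨k, hk⟩ := card_pos.1 (show 0 < dH C s0 x by omega)
    obtain ⟨k1, k2⟩ := mem_filter.1 hk
    have e := dH_dis k1 k2
    have h1 := ih (by omega) (fl x k) (by omega) fun i hi => by
      rw [fl_ne x fun e : i = k => hi (e ▸ k1)]; exact h i hi
    have h2 := hb x (by omega) k k1
    have h3 : |G x - G (fl x k)| ≤ 2 * b := by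
      rw [val_fl G, sub_sub_cancel, abs_mul, abs_mul, abs_s, abs_two]; linarith
    have := abs_sub_le (G x) (G (fl x k)) (G s0)
    push_cast; linarith

/-- **KEY**, deterministic part: the gradient of the resolvent near the reference point -/
theorem key (h : ∀ k x, |T k x| ≤ 1) {η m α β : ℝ} (hη : 0 < η) (hm : 0 ≤ m) (α0 : 0 ≤ α)
    (β0 : 0 < β) (β1 : 32 * β ≤ 1) (αβ : 256 * (α * β) ≤ 1) {s0 : Cube n} {d0 d1 : ℕ}
    (hs : 4 * n * (n ^ 2 / η ^ 2 / β * exp ((d0 : ℝ) - d1)) ≤ 1) (hn : 0 < n)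
    (hg : ∀ x, dH C s0 x < d1 → Good C T m α β x ∧ (d0 < dH C s0 x →
      3 * ∑ k ∈ C.filter (fun k => x k = s0 k), pk T k x ≤
        ∑ k ∈ C.filter (fun k => x k ≠ s0 k), pk T k x)) (a : Fin n → ℝ) :
    ∃ G : Cube n → ℝ, (∀ x, η * G x - Lg C T G x = ∑ k ∈ C, a k * T k x) ∧
      (∀ x, η * |G x| ≤ √(n * sq2 C a)) ∧ (∀ x, sq2 C (grad G x) ≤ n ^ 2 / η ^ 2 * sq2 C a) ∧
      ∀ x, dH C s0 x ≤ d0 → sq2 C (grad G x) ≤ 40 * (α + β) * sq2 C a ∧
        (∀ B ⊆ C, (B.card : ℝ) ≤ m → sq2 B (grad G x) ≤ 16 * β * (1 + 20 * (α + β)) * sq2 C a) ∧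
        ((∀ i ∉ C, x i = s0 i) → |G x - G s0| ≤ 2 * √(40 * (α + β) * sq2 C a) * n) := by
  obtain ⟨G, hG⟩ := exists_res (C := C) h hη fun x => ∑ k ∈ C, a k * T k x
  have K0 : 0 ≤ (n : ℝ) ^ 2 / η ^ 2 / β := by positivity
  have a0 := sq2_nonneg C a
  have n1 : (1 : ℝ) ≤ n := by exact_mod_cast hn
  have mp := maxp h hη hm α0 β0.le β1 αβ hG (one_le_bar (C := C) s0 d1 K0) fun x => by
    rcases lt_or_ge (dH C s0 x) d1 with c | c
    · exact .inl ⟨(hg x c).1, Lg_bar h K0 hs c (hg x c).2⟩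
    · refine .inr ?_
      rw [bar_far _ c, mul_add, mul_div_cancel₀ _ β0.ne']; linarith
  have N2 : ∀ x, dH C s0 x ≤ d0 → bar C s0 d1 (n ^ 2 / η ^ 2 / β) x ≤ 2 := fun x hx => by
    have h1 := bar_near (d1 := d1) K0 hx
    have h2 : 0 ≤ (n : ℝ) ^ 2 / η ^ 2 / β * exp ((d0 : ℝ) - d1) := by positivity
    nlinarith
  have k1 : ∀ x, dH C s0 x ≤ d0 → sq2 C (grad G x) ≤ 40 * (α + β) * sq2 C a := fun x hx =>
    ((mp x).1.trans (mul_le_mul_of_nonneg_left (N2 x hx) (by positivity))).trans_eq (by ring)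
  refine ⟨G, hG, crude h hη hG, crude2 h hη hG, fun x hx => ⟨k1 x hx, fun B hB hc =>
    (((mp x).2 B hB hc).trans (mul_le_mul_of_nonneg_left (N2 x hx) (by positivity))).trans_eq
      (by ring), fun hx' => ?_⟩⟩
  refine (tail (b := √(40 * (α + β) * sq2 C a)) (fun z hz j hj => abs_le_sqrt
    ((single_le_sum (f := fun j => grad G z j ^ 2) (fun _ _ => sq_nonneg _) hj).trans (k1 z hz)))
    _ hx x rfl hx').trans ?_
  have : (dH C s0 x : ℝ) ≤ n := by exact_mod_cast dH_le s0 x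
  gcongr

end Crest.Agent.T157.EnK

end
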