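import Crest.Agent.T157.EnDef_40
import Crest.Agent.T157.EnKy_8

/-!
# Row 157, block B, END: `En.ResGlue` (helper17), the resolvent near the reference point
-/

set_option autoImplicit false

noncomputable section

namespace Crest.Agent.T157.En

open Real Matrix Finset
open Crest.Agent.T157.E Crest.Agent.T157.SL
open Crest.Agent.T157.Rec (grad fl grad_eq)
open Crest.Agent.T157.Eig (nrm nrm_sq nrm_nonneg)
open Crest.Agent.T157.S3 (V Mx hf tau)
open Crest.Agent.T157.Rip (res)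
open Crest.Agent.T157.EnK

namespace Res17

variable {n : ℕ} {C : Finset (Fin n)} {T : Fin n → Cube n → ℝ}

/-- the pointwise Bochner inequality, general source -/
theorem boch (h : ∀ k x, |T k x| ≤ 1) {η : ℝ} (hη : 0 ≤ η) {G F : Cube n → ℝ}
    (hG : ∀ x, η * G x - Lg C T G x = F x) (x : Cube n) {j : Fin n}
    (hj : j ∈ C) {ω : Fin n → ℝ} (ω0 : ∀ k ∈ C, 0 ≤ ω k)
    (hω : ∀ k ∈ C, grad (T k) x j ^ 2 ≤ ω k * pk T k x) (ω1 : ∑ k ∈ C, ω k ≤ 1 / 4) :
    3 / 2 * grad G x j ^ 2 - 4 * (grad F x j + ∑ k ∈ C, grad (T k) x j * grad G x k) ^ 2 ≤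
      Lg C T (fun x => grad G x j ^ 2) x := by
  have e0 : grad (fun x => η * G x - Lg C T G x) x j = grad F x j := by rw [funext hG]
  rw [Rec.grad_sub, Rec.grad_const_mul, Pi.sub_apply, Pi.smul_apply, smul_eq_mul, grad_Lg G x hj]
    at e0
  rw [Lg_sq]
  set V := grad G x j
  set H : Fin n → ℝ := fun k => grad (fun x => grad G x j) x k
  set R := grad F x j + ∑ k ∈ C, grad (T k) x j * grad G x k with hR
  have e1 : Lg C T (fun x => grad G x j) x =
      (1 + η) * V - R + ∑ k ∈ C, 2 * sv x j * grad (T k) x j * H k := by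
    have : ∑ k ∈ C, grad (T k) x j * grad G x k - ∑ k ∈ C, 2 * sv x j * grad (T k) x j * H k =
        ∑ k ∈ C, grad (T k) x j * (grad G x k - 2 * sv x j * H k) := by
      rw [← sum_sub_distrib]
      exact sum_congr rfl fun k _ => by ring
    linarith
  have e2 : 0 ≤ ∑ k ∈ C, (2 * V * (2 * sv x j * grad (T k) x j * H k) + pk T k x * (4 * H k ^ 2) +
      ω k * V ^ 2) := sum_nonneg fun k hk => by
    have p0 := pk_nonneg h k x
    have w0 := ω0 k hk
    have a1 : (2 * V * (2 * sv x j * grad (T k) x j * H k)) ^ 2 ≤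
        (pk T k x * (4 * H k ^ 2) + ω k * V ^ 2) ^ 2 := by
      have b1 : (2 * V * (2 * sv x j * grad (T k) x j * H k)) ^ 2 =
          16 * (V * H k) ^ 2 * grad (T k) x j ^ 2 := by
        linear_combination (16 * (V * H k) ^ 2 * grad (T k) x j ^ 2) * ss x j
      rw [b1]
      nlinarith [mul_le_mul_of_nonneg_left (hω k hk) (sq_nonneg (V * H k)),
        sq_nonneg (pk T k x * (4 * H k ^ 2) - ω k * V ^ 2)]
    linarith [(abs_le_of_sq_le_sq' a1 (by positivity)).1]
  rw [sum_add_distrib, sum_add_distrib, ← mul_sum, ← sum_mul] at e2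
  rw [e1]
  nlinarith [mul_le_mul_of_nonneg_right ω1 (sq_nonneg V), sq_nonneg (V - 4 * R),
    mul_nonneg hη (sq_nonneg V)]

theorem res_dot (B : Finset (Fin n)) (v : V n) : res B v ⬝ᵥ res B v = sq2 B v := by
  simp only [dotProduct, res, sq2, ite_mul, mul_ite, zero_mul, mul_zero, sq]
  simp

theorem nrm_res (B : Finset (Fin n)) (v : V n) : nrm (res B v) ^ 2 = sq2 B v := by
  rw [nrm_sq, res_dot]

theorem dot_sq2 (v : V n) : v ⬝ᵥ v = sq2 univ v := by simp only [dotProduct, sq2, sq]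

theorem nrm_univ (v : V n) : nrm v ^ 2 = sq2 univ v := by rw [nrm_sq, dot_sq2]

theorem one_sub_tanh (u : ℝ) : 1 - tanh u ≤ 2 * exp (-(2 * u)) := by
  have a := exp_pos u
  have b := exp_pos (-u)
  have c := exp_pos (-(2 * u))
  have e : exp (-(2 * u)) * exp u = exp (-u) := by rw [← exp_add]; ring_nf
  rw [tanh_eq_sinh_div_cosh, sinh_eq, cosh_eq, sub_le_comm, le_div_iff₀ (by positivity)]
  nlinarith [mul_pos c b]

theorem tanh_nn {u : ℝ} (h : 0 ≤ u) : 0 ≤ tanh u := by
  rw [tanh_eq_sinh_div_cosh]; exact div_nonneg (sinh_nonneg_iff.2 h) (cosh_pos u).le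

theorem s_tanh (x : Cube n) (j : Fin n) (u : ℝ) : sv x j * tanh u = tanh (sv x j * u) := by
  rcases mul_self_eq_one_iff.1 (ss x j) with h | h <;> simp [h]

theorem sv_ne {x y : Cube n} {j : Fin n} (h : x j ≠ y j) : sv x j = -sv y j := by
  revert h
  simp only [sv]
  cases x j <;> cases y j <;> simp [Crest.ProbabilityR.SpinGlassDynamics.spin]

/-- conditional means of the Ising weight -/
def TT (W : Mx n) (h : V n) : Fin n → Cube n → ℝ := fun k x => tanh (hf W h x k)

theorem TT_le (W : Mx n) (h : V n) (k : Fin n) (x : Cube n) : |TT W h k x| ≤ 1 :=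
  (abs_tanh_lt_one _).le

theorem pk_pos (W : Mx n) (h : V n) (k : Fin n) (x : Cube n) : 0 < pk (TT W h) k x := by
  rw [pk, TT, s_tanh]; linarith [tanh_lt_one (sv x k * hf W h x k)]

/-- the barrier -/
def br (x0 : Cube n) (m : ℕ) (x : Cube n) : ℝ :=
  exp (((min (dH univ x0 x) (46 * m) : ℕ) : ℝ) - 46 * m) + 9 * m * exp (-(23 * m))

theorem br_pos (x0 : Cube n) (m : ℕ) (x : Cube n) : 0 < br x0 m x := by unfold br; positivity

theorem br_far {x0 x : Cube n} {m : ℕ} (h : 46 * m ≤ dH univ x0 x) : 1 ≤ br x0 m x := by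
  rw [br, min_eq_right h]; push_cast; rw [sub_self, exp_zero]
  exact le_add_of_nonneg_right (by positivity)

theorem br_near {x0 x : Cube n} {m : ℕ} (h : dH univ x0 x ≤ 23 * m) : br x0 m x ≤ exp (-m) := by
  have h1 : ((min (dH univ x0 x) (46 * m) : ℕ) : ℝ) ≤ 23 * m := by
    exact_mod_cast (min_le_left _ _).trans h
  have h2 : exp (((min (dH univ x0 x) (46 * m) : ℕ) : ℝ) - 46 * m) ≤ exp (-(23 * m)) :=
    exp_le_exp.2 (by linarith)
  have h3 : exp (-(23 * (m : ℝ))) * exp (22 * m) = exp (-m) := by rw [← exp_add]; ring_nf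
  have m0 : (0 : ℝ) ≤ m := m.cast_nonneg
  rw [br, ← h3]
  nlinarith [add_one_le_exp (22 * (m : ℝ)), exp_pos (-(23 * (m : ℝ)))]

theorem br_drift {W : Mx n} {h : V n} {A : ℝ} {m : ℕ} {x0 x : Cube n} {B : Finset (Fin n)}
    (A0 : 0 ≤ A) (nA : n * exp (-(2 * A)) ≤ m) (hB : (#B : ℝ) ≤ m + dH univ x0 x / 36)
    (hA : ∀ j ∉ B, A ≤ sv x0 j * hf W h x j) (hx : dH univ x0 x < 46 * m) :
    Lg univ (TT W h) (br x0 m) x ≤ br x0 m x / 2 := by
  set E := exp ((dH univ x0 x : ℝ) - 46 * m) with hE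
  have E0 : 0 < E := exp_pos _
  have b0 : br x0 m x = E + 9 * m * exp (-(23 * m)) := by rw [br, min_eq_left hx.le]
  have e1 : exp 1 ≤ 3 := by linarith [exp_one_lt_d9]
  have e2 : exp (-1) ≤ 1 / 2 := by
    rw [exp_neg, inv_le_comm₀ (exp_pos _) (by norm_num)]; linarith [exp_one_gt_d9]
  have a0 := exp_pos (-(2 * A))
  have key : ∀ k, pk (TT W h) k x * (br x0 m (fl x k) - br x0 m x) ≤
      E * (9 / 4 * (if k ∈ B then 1 else 0) + 2 * exp (-(2 * A)) -
        1 / 4 * if x k ≠ x0 k then 1 else 0) := fun k => by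
    have p0 := pk_nonneg (TT_le W h) k x
    have p1 := pk_le_one (TT_le W h) k x
    by_cases hk : x k = x0 k
    · have d : br x0 m (fl x k) - br x0 m x = E * (exp 1 - 1) := by
        rw [b0, br, dH_agree (mem_univ k) hk, min_eq_left hx, hE]
        push_cast
        rw [show (dH univ x0 x : ℝ) + 1 - 46 * m = dH univ x0 x - 46 * m + 1 by ring, exp_add]; ring
      rw [d, if_neg (not_not.2 hk), mul_left_comm]
      refine mul_le_mul_of_nonneg_left ?_ E0.le
      split_ifs with hb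
      · nlinarith
      · have h1 := (one_sub_tanh _).trans (mul_le_mul_of_nonneg_left (exp_le_exp.2
          (neg_le_neg (mul_le_mul_of_nonneg_left (hA k hb) zero_le_two))) zero_le_two)
        have h2 : pk (TT W h) k x ≤ exp (-(2 * A)) := by
          rw [pk, TT, s_tanh, show sv x k = sv x0 k by simp only [sv, hk]]; linarith
        nlinarith
    · have d0 := dH_dis (mem_univ k) hk
      have d : br x0 m (fl x k) - br x0 m x = E * (exp (-1) - 1) := by
        rw [b0, br, min_eq_left (by omega), hE, ← d0]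
        push_cast
        rw [show (dH univ x0 (fl x k) : ℝ) - 46 * m = dH univ x0 (fl x k) + 1 - 46 * m + -1 by ring,
          exp_add]; ring
      rw [d, if_pos hk, mul_left_comm]
      refine mul_le_mul_of_nonneg_left ?_ E0.le
      split_ifs with hb
      · nlinarith
      · have h2 : 1 / 2 ≤ pk (TT W h) k x := by
          rw [pk, TT, sv_ne hk, neg_mul, s_tanh]; linarith [tanh_nn (A0.trans (hA k hb))]
        nlinarith
  rw [Lg_eq]
  refine (sum_le_sum fun k _ => key k).trans ?_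
  rw [← mul_sum, sum_sub_distrib, sum_add_distrib, ← mul_sum, ← mul_sum, ← mul_sum, sum_boole,
    sum_boole, sum_const, filter_mem_eq_inter, univ_inter, card_univ, Fintype.card_fin, nsmul_eq_mul,
    b0]
  change E * (_ - 1 / 4 * (dH univ x0 x : ℝ)) ≤ _
  have m0 : (0 : ℝ) ≤ m := m.cast_nonneg
  have d0 : (0 : ℝ) ≤ dH univ x0 x := Nat.cast_nonneg _
  have x0' := exp_pos (-(23 * (m : ℝ)))
  refine (mul_le_mul_of_nonneg_left (show _ ≤ 17 / 4 * (m : ℝ) - 3 / 16 * dH univ x0 x by linarith)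
    E0.le).trans ?_
  rcases le_total (23 * (m : ℝ)) (dH univ x0 x) with c | c
  · nlinarith [mul_nonneg m0 x0'.le]
  · have : E ≤ exp (-(23 * m)) := exp_le_exp.2 (by linarith)
    nlinarith [mul_le_mul_of_nonneg_left this m0, mul_nonneg E0.le d0, mul_nonneg m0 x0'.le]

theorem boch_sum {W : Mx n} {h : V n} {η s : ℝ} (hη : 0 ≤ η) {G F : Cube n → ℝ}
    (hG : ∀ x, η * G x - Lg univ (TT W h) G x = F x) {x : Cube n} (s1 : 80 * s ^ 2 ≤ 1 / 4)
    (g : ∀ k, ∑ j, aM W h x k j ^ 2 / pf W h x j ≤ 80 * s ^ 2) (B : Finset (Fin n)) :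
    3 / 2 * sq2 B (grad G x) - 8 * sq2 B (grad F x) - 8 * sq2 B (aM W h x *ᵥ grad G x) ≤
      Lg univ (TT W h) (fun x => sq2 B (grad G x)) x := by
  have h1 : 3 / 2 * sq2 B (grad G x) - 4 * sq2 B (grad F x + aM W h x *ᵥ grad G x) ≤
      Lg univ (TT W h) (fun x => sq2 B (grad G x)) x := by
    simp only [sq2]
    rw [Lg_sum, mul_sum, mul_sum, ← sum_sub_distrib]
    exact sum_le_sum fun j _ => boch (TT_le W h) hη hG x (mem_univ j)
      (ω := fun k => aM W h x j k ^ 2 / pf W h x k)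
      (fun k _ => div_nonneg (sq_nonneg _) (pk_pos W h k x).le)
      (fun k _ => (div_mul_cancel₀ _ (pk_pos W h k x).ne').ge) ((g j).trans s1)
  linarith [sq2_add_le B (grad F x) (aM W h x *ᵥ grad G x)]

/-- the coupled maximum principle, additive form -/
theorem maxp {W : Mx n} {h : V n} {c ω s A : ℝ} {m : ℕ} {x0 : Cube n} {G F : Cube n → ℝ}
    {α β K η : ℝ} (g : Geo W c ω s A m) (hη : 0 ≤ η)
    (hG : ∀ x, η * G x - Lg univ (TT W h) G x = F x) (hK : ∀ x, sq2 univ (grad G x) ≤ K)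
    (hg : ∀ x, dH univ x0 x < 46 * m → Good W h ω s A m x0 x ∧ sq2 univ (grad F x) ≤ α ^ 2 ∧
      ∀ B : Finset (Fin n), (#B : ℝ) ≤ 50 * m → sq2 B (grad F x) ≤ β ^ 2) (x : Cube n) :
    sq2 univ (grad G x) ≤ 16 * α ^ 2 + 256 * (ω ^ 2 * β ^ 2) + 300 * K * br x0 m x ∧
      ∀ B : Finset (Fin n), (#B : ℝ) ≤ 50 * m →
        sq2 B (grad G x) ≤ 9 * β ^ 2 + 320000 * (s ^ 2 * α ^ 2) + K * br x0 m x := by
  classical
  have m0 : (0 : ℝ) ≤ m := m.cast_nonneg
  have K0 : 0 ≤ K := (sq2_nonneg _ _).trans (hK x)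
  have s2 : s ^ 2 ≤ 1 / 10 ^ 8 := by nlinarith [g.s0, g.s1]
  have o2 : ω ^ 2 ≤ 16 := by nlinarith [g.o0, g.o4]
  have s0 := sq_nonneg s
  have o0 := sq_nonneg ω
  have α0 := sq_nonneg α
  have β0 := sq_nonneg β
  obtain ⟨x1, -, h1⟩ := exists_max_image univ
    (fun x => 1 * sq2 univ (grad G x) + -(300 * K) * br x0 m x) univ_nonempty
  obtain ⟨⟨x2, B2⟩, hB2, h2⟩ := exists_max_image
    (univ ×ˢ univ.filter fun B : Finset (Fin n) => (#B : ℝ) ≤ 50 * m)
    (fun p => 1 * sq2 p.2 (grad G p.1) + -K * br x0 m p.1) ⟨(x, ∅), by simp⟩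
  simp only [mem_product, mem_univ, true_and, mem_filter, forall_true_left] at hB2 h1 h2
  obtain ⟨r, hr, r0, r1⟩ : ∃ r, r = max (1 * sq2 univ (grad G x1) + -(300 * K) * br x0 m x1) 0 ∧
    0 ≤ r ∧ ∀ z, sq2 univ (grad G z) ≤ r + 300 * K * br x0 m z :=
    ⟨_, rfl, le_max_right _ _, fun z => by linarith [(h1 z).trans (le_max_left _ 0)]⟩
  obtain ⟨t, ht, t0, t1⟩ : ∃ t, t = max (1 * sq2 B2 (grad G x2) + -K * br x0 m x2) 0 ∧
    0 ≤ t ∧ ∀ z (B : Finset (Fin n)), (#B : ℝ) ≤ 50 * m → sq2 B (grad G z) ≤ t + K * br x0 m z :=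
    ⟨_, rfl, le_max_right _ _, fun z B hB => by linarith [(h2 (z, B) hB).trans (le_max_left _ 0)]⟩
  have k1 : r ≤ 8 * α ^ 2 + 16 * (ω ^ 2 * t) + 40000 * (s ^ 2 * r) := by
    refine hr.trans_le (max_le ?_ (by positivity))
    have N0 := mul_nonneg K0 (br_pos x0 m x1).le
    rcases lt_or_ge (dH univ x0 x1) (46 * m) with c | c
    · obtain ⟨⟨B, b1, b2, b3, -, b5⟩, a1, -⟩ := hg x1 c
      have c' : (dH univ x0 x1 : ℝ) < 46 * m := by exact_mod_cast c
      have l1 := Lg_max (C := univ) (TT_le W h) h1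
      rw [Lg_lin] at l1
      have l2 := mul_le_mul_of_nonneg_left (br_drift (by linarith [g.A1]) g.nA b1 b2 c) K0
      have l3 := boch_sum hη hG (by linarith) b5 univ
      have l4 : sq2 univ (aM W h x1 *ᵥ grad G x1) ≤
          2 * (ω ^ 2 * sq2 B (grad G x1)) + 5000 * (s ^ 2 * sq2 univ (grad G x1)) := by
        rw [← nrm_univ, ← nrm_univ, ← nrm_res]
        nlinarith [pow_le_pow_left₀ (nrm_nonneg _) (b3 (grad G x1)) 2,
          sq_nonneg (ω * nrm (res B (grad G x1)) - 50 * s * nrm (grad G x1))]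
      have l5 := mul_le_mul_of_nonneg_left (t1 x1 B (by
        change _ ≤ _ + (dH univ x0 x1 : ℝ) / 36 at b1; linarith)) o0
      have l6 := mul_le_mul_of_nonneg_left (r1 x1) s0
      have l7 := mul_le_mul_of_nonneg_right o2 N0
      have l8 := mul_le_mul_of_nonneg_right s2 N0
      have l9 := mul_nonneg o0 t0
      have l10 := mul_nonneg s0 r0
      rcases le_total 0 (sq2 univ (grad G x1) - 300 * K * br x0 m x1) with q | q <;> nlinarith
    · have := mul_le_mul_of_nonneg_left (br_far c) K0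
      have l9 := mul_nonneg o0 t0
      have l10 := mul_nonneg s0 r0
      linarith [hK x1]
  have k2 : t ≤ 8 * β ^ 2 + 20000 * (s ^ 2 * r) := by
    refine ht.trans_le (max_le ?_ (by positivity))
    have N0 := mul_nonneg K0 (br_pos x0 m x2).le
    have l10 := mul_nonneg s0 r0
    rcases lt_or_ge (dH univ x0 x2) (46 * m) with c | c
    · obtain ⟨⟨B, b1, b2, -, b4, b5⟩, -, a2⟩ := hg x2 c
      have l1 := Lg_max (C := univ) (TT_le W h)
        (f := fun z => 1 * sq2 B2 (grad G z) + -K * br x0 m z) (x := x2) fun z => h2 (z, B2) hB2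
      rw [Lg_lin] at l1
      have l2 := mul_le_mul_of_nonneg_left (br_drift (by linarith [g.A1]) g.nA b1 b2 c) K0
      have l3 := boch_sum hη hG (by linarith) b5 B2
      have l4 : sq2 B2 (aM W h x2 *ᵥ grad G x2) ≤ 2500 * (s ^ 2 * sq2 univ (grad G x2)) := by
        rw [← nrm_univ, ← nrm_res]
        nlinarith [pow_le_pow_left₀ (nrm_nonneg _) (b4 (grad G x2) B2 hB2) 2]
      have l6 := mul_le_mul_of_nonneg_left (r1 x2) s0
      have l8 := mul_le_mul_of_nonneg_right s2 N0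
      have l9 := a2 B2 hB2
      rcases le_total 0 (sq2 B2 (grad G x2) - K * br x0 m x2) with q | q <;> nlinarith
    · have := mul_le_mul_of_nonneg_left (br_far c) K0
      linarith [(sq2_mono (subset_univ B2) _).trans (hK x2)]
  have k3 : r ≤ 16 * α ^ 2 + 256 * (ω ^ 2 * β ^ 2) := by
    have b1 := mul_le_mul_of_nonneg_left k2 o0
    have b2 := mul_le_mul_of_nonneg_right s2 r0
    have b3 := mul_le_mul_of_nonneg_right o2 (mul_nonneg s0 r0)
    nlinarith
  refine ⟨by linarith [r1 x], fun B hB => ?_⟩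
  have b1 := mul_le_mul_of_nonneg_left k3 s0
  have b2 := mul_le_mul_of_nonneg_right (mul_le_mul s2 o2 o0 (by norm_num)) β0
  nlinarith [t1 x B hB]

end Res17

open Res17 in
theorem resGlue : ResGlue := fun hGood => ⟨320000, by norm_num,
    fun n W h c ω s A m x0 F α β O η g hna hη α0 β0 hO hF => by
  obtain ⟨G, hG⟩ := exists_res (C := univ) (TT_le W h) hη F
  have osc : ∀ x x', η * G x - η * G x' ≤ O := fun x x' => by
    obtain ⟨z, -, hz⟩ := exists_min_image univ F univ_nonempty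
    have h1 := res_le (C := univ) (TT_le W h) hη (G := G) (M := F z + O) (fun y => by linarith [hG y, hO y z]) x
    have h2 := res_le (C := univ) (TT_le W h) hη (G := fun x => -1 * G x + 0 * G x) (M := -F z)
      (fun y => by rw [Lg_lin]; linarith [hG y, hz y (mem_univ y)]) x'
    linarith
  have hK : ∀ x, sq2 univ (grad G x) ≤ n * O ^ 2 / η ^ 2 := fun x => by
    rw [le_div_iff₀ (by positivity), sq2, sum_mul]
    refine (sum_le_sum (g := fun _ => O ^ 2) fun j _ => ?_).trans_eq (by simp)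
    rw [← mul_pow, ← sq_abs]
    refine pow_le_pow_left₀ (abs_nonneg _) ?_ 2
    have := abs_le.2 ⟨neg_le_of_neg_le ((neg_sub _ _).trans_le (osc (fl x j) x)), osc x (fl x j)⟩
    rw [grad_eq, show sv x j * (G x - G (fl x j)) / 2 * η =
      sv x j * (η * G x - η * G (fl x j)) / 2 by ring, abs_div, abs_mul, abs_s, abs_two]
    linarith [abs_nonneg (η * G x - η * G (fl x j))]
  have mp := maxp (x0 := x0) (α := α) (β := β) g hη.le hG hK fun x hx => by
    have c : hd x x0 ≤ 46 * m := by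
      change (dH univ x0 x : ℝ) ≤ _; exact_mod_cast hx.le
    refine ⟨hGood n W h _ ω s A m x0 x g hna c, ?_, fun B hB => ?_⟩
    · rw [← nrm_univ]; exact pow_le_pow_left₀ (nrm_nonneg _) (hF x c).1 2
    · rw [← nrm_res]; exact pow_le_pow_left₀ (nrm_nonneg _) ((hF x c).2 B hB) 2
  have K0 : 0 ≤ n * O ^ 2 / η ^ 2 := by positivity
  have nr : ∀ x, dH univ x0 x ≤ 23 * m → n * O ^ 2 / η ^ 2 * br x0 m x ≤
      n * O ^ 2 / η ^ 2 * exp (-m) := fun x hx => mul_le_mul_of_nonneg_left (br_near hx) K0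
  have e0 : 0 ≤ n * O ^ 2 / η ^ 2 * exp (-m) := by positivity
  have hX : ∀ x, dH univ x0 x ≤ 23 * m → sq2 univ (grad G x) ≤
      320000 * (α ^ 2 + ω ^ 2 * β ^ 2 + n * O ^ 2 / η ^ 2 * exp (-m)) := fun x hx => by
    linarith [(mp x).1, nr x hx, sq_nonneg α, mul_nonneg (sq_nonneg ω) (sq_nonneg β)]
  have cv : ∀ x, hd x x0 ≤ 23 * m → dH univ x0 x ≤ 23 * m := fun x hx => by
    change (dH univ x0 x : ℝ) ≤ _ at hx; exact_mod_cast hx
  refine ⟨grad G, fun x => η * G x - η * G x0, η * G x0, fun x j b => Ta.off_grad G j x b,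
    fun x => ?_, fun x => ⟨(dot_sq2 _).trans_le (hK x), abs_le.2
      ⟨neg_le_of_neg_le ((neg_sub _ _).trans_le (osc x0 x)), osc x x0⟩⟩,
    fun x hx => ⟨(dot_sq2 _).trans_le (hX x (cv x hx)), ?_⟩, fun x hx B hB => ?_⟩
  · have : grad G x ⬝ᵥ tau W h x = -Lg univ (TT W h) G x := by
      rw [Lg, ← sum_neg_distrib]
      exact sum_congr rfl fun k _ => by simp only [tau, TT]; ring
    linarith [hG x]
  · have h1 := tail (C := univ) (s0 := x0) (d0 := 23 * m) (fun z hz j hj => abs_le_sqrt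
      ((single_le_sum (f := fun j => grad G z j ^ 2) (fun _ _ => sq_nonneg _) hj).trans (hX z hz)))
      _ (cv x hx) x rfl fun i hi => absurd (mem_univ i) hi
    have h2 : (dH univ x0 x : ℝ) ≤ n := by exact_mod_cast dH_le x0 x
    rw [← mul_sub, abs_mul, abs_of_pos hη]
    refine (mul_le_mul_of_nonneg_left (h1.trans (mul_le_mul_of_nonneg_left h2 (by positivity)))
      hη.le).trans_eq (by ring)
  · rw [res_dot]
    linarith [(mp x).2 B hB, nr x (cv x hx), sq_nonneg β, mul_nonneg (sq_nonneg s) (sq_nonneg α)]⟩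

end Crest.Agent.T157.En

end
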