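import Crest.Agent.T157.EnSt_95
import Crest.Agent.T157.S1Bud_6
import Crest.Agent.T157.CondA_53

/-!
# Row 157, block B, S1, END: untilting over a law with exact tensorisation (helper95)
-/

set_option autoImplicit false
set_option linter.unusedSectionVars false

noncomputable section

namespace Crest.Agent.T157.EnS

open MeasureTheory Real Matrix Function Set
open Crest.Agent.T157.E Crest.Agent.T157.SL Crest.Agent.T157.Ta
open Crest.Agent.T157.Rec (grad)
open Crest.Agent.T157.Xt (H1 Lip2)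
open Crest.Agent.T157.Eig (nrm opn)
open Crest.Agent.T157.S3.Rg (exc dM fro)

variable {n : ℕ} {v w G Φ : Cube n → ℝ} {K κ B : ℝ}

/-- the site entropy in the two languages -/
theorem As_eq_entS (hw : ∀ x, 0 < w x) (hv : Wt v) (i : Fin n) : As (fun _ => 1) v w i =
    Ent.entS w (fun x => v x / w x) i / mean w fun x => v x / w x := by
  have h := S1n.pr_of hw hv
  have e := pr_eq h
  set f : Cube n → ℝ := fun x => v x / w x with hf
  have e1 : As (fun _ => 1) v w i = mean v fun x => log (f x) - log (siteM w f i x) := by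
    rw [As_eq hv (OffAt.const i 1)]
    refine mean_congr_supp fun x hx => ?_
    have d := den_mul h.hw (hw x).ne' f i
    rw [← e] at d
    have d1 := den_pos hv i hx
    have d2 := den_pos h.hw i (hw x).ne'
    have d3 : siteM w f i x ≠ 0 := fun z => by rw [d, z, mul_zero] at d1; exact lt_irrefl _ d1
    rw [one_mul, lr_eq h hx, d, log_mul d2.ne' d3, hf, log_div hx (hw x).ne']
    ring
  have o := mean_off h.hw ((off_siteM w f i).comp log) f
  rw [e1, Ent.entS_eq hw]
  conv_lhs => rw [e]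
  rw [mean_mul_weight _ _ _ h.hw.pos.ne']
  congr 1
  simp only [mul_sub, mean_sub]
  congr 1
  simp only [mul_comm (log _)] at o
  exact o.symm

/-- approximate tensorisation in the language of `A` -/
theorem kl_le_of_at (hw : ∀ x, 0 < w x) (h : Ent.AT w K B) (hv : Wt v) :
    kl v w ≤ K * Ar o1 v w + B := by
  have p := S1n.pr_of hw hv
  have m := pr_mean_pos p
  have := h (fun x => v x / w x) fun x => div_nonneg (hv.nn x) (hw x).le
  have e := kl_mul p.hw m.ne'
  rw [← pr_eq p] at e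
  simp only [e, Ar, As_eq_entS hw hv, ← Finset.sum_div]
  rw [div_le_iff₀ m, add_mul, mul_assoc, div_mul_cancel₀ _ m.ne']
  exact this

theorem kl_le_Ar (hw : Ent.IsProd w) (hv : Wt v) : kl v w ≤ Ar o1 v w := by
  simpa using kl_le_of_at hw.pos hw.at hv

theorem h1_prod (hw : Ent.IsProd w) : H1 w 9 := by
  have := Xt.h1_of_atd (w := w) (K := 1) (κ := 1) (fun F hF c B hB => by
    have h0 : 0 ≤ B := (sq_nonneg _).trans (hB default)
    have := hw.at F hF
    have : 0 ≤ exp (-(1 * (n : ℝ))) * B := by positivity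
    linarith) hw.pos zero_le_one one_pos
  norm_num at this
  exact this

/-- the total convex gap of the tilt `l G` -/
def CG (w G : Cube n → ℝ) (l : ℝ) (x : Cube n) : ℝ := ∑ j, cg (cm w j x) (l * grad G x j)

/-- the pairing of `χ` with the gradient -/
def pc (v w G : Cube n → ℝ) : ℝ := ∑ j, mean v fun x => grad G x j * chi v w j x

theorem Ar_wt (h : Pr v w) (G : Cube n → ℝ) (l : ℝ) :
    Ar o1 v (wt w fun x => l * G x) = Ar o1 v w - l * pc v w G + mean v (CG w G l) := by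
  simp only [Ar, As_wt' h (OffAt.const _ _), one_mul, Rec.grad_const_mul, Pi.smul_apply, smul_eq_mul,
    Finset.sum_add_distrib, Finset.sum_sub_distrib, pc, Finset.mul_sum, mul_assoc, mean_const_mul]
  congr 1
  exact (mean_sum _ _ _).symm

theorem CG_nonneg (hw : Wt w) (G : Cube n → ℝ) (l : ℝ) (x : Cube n) : 0 ≤ CG w G l x :=
  Finset.sum_nonneg fun j _ => cg_nonneg (abs_cm_le hw.nn j x) _

theorem pc_le (h : Pr v w) (G : Cube n → ℝ) (l : ℝ) :
    l * pc v w G ≤ Ar o1 v w + mean v (CG w G l) := by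
  have := (h.wt fun x => l * G x).Ar_nonneg (r := o1) fun _ _ => zero_le_one
  rw [Ar_wt h] at this
  linarith

theorem Ar_self (v : Cube n → ℝ) : Ar o1 v v = 0 := by
  refine Finset.sum_eq_zero fun i _ => Finset.sum_eq_zero fun x _ => ?_
  have : kls v v i x = 0 := by
    rw [kls, Ent.kl]
    refine Finset.sum_eq_zero fun b _ => ?_
    rcases eq_or_ne (Ent.cnd v i x b) 0 with h | h
    · simp [h]
    · simp [div_self h]
  simp [this]

/-- the site entropies of a tilt -/
theorem Ar_wt_self (hw : Wt w) (G : Cube n → ℝ) (l : ℝ) :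
    Ar o1 (wt w fun x => l * G x) w ≤ mean (wt w fun x => l * G x) (CG w G (2 * l)) := by
  have p : Pr (wt w fun x => l * G x) w := by
    simpa [wt_zero] using (Pr.refl hw).wt2 (fun x => l * G x) fun _ => 0
  have h1 := Ar_wt p G l
  rw [Ar_self] at h1
  have h2 := pc_le p G (2 * l)
  have h3 := p.hv.mean_nonneg (CG_nonneg hw G l)
  linarith

/-- **weighted Herbst** -/
theorem herbst_wt (hw : ∀ x, 0 < w x) (h : Ent.AT w K 0) (hK : 0 ≤ K) {t : ℝ} (ht : 0 ≤ t)
    (hB : ∀ u, 0 < u → u < t → mean (wt w fun x => u * G x) (CG w G (2 * u)) ≤ B * u ^ 2) :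
    log (mean w fun x => exp (t * G x)) ≤ t * mean w G + K * B * t ^ 2 := by
  have W : Wt w := .of_pos hw
  refine Ent.herbst W.isP G ht fun u h0 h1 => ?_
  have m := mean_pos' W fun x => exp_pos (u * G x)
  have e := kl_mul W m.ne'
  have k := kl_le_of_at hw h (wt_wt W fun x => u * G x)
  have k2 := mul_le_mul_of_nonneg_left ((Ar_wt_self W G u).trans (hB u h0 h1)) hK
  rw [show kl (wt w fun x => u * G x) w = _ from e, div_le_iff₀ m] at k
  refine k.trans (mul_le_mul_of_nonneg_right ?_ m.le)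
  linarith

theorem CG_neg (w G : Cube n → ℝ) (l : ℝ) : CG w (fun x => -G x) l = CG w G (-l) := by
  ext x
  have := Rec.grad_const_mul (-1) G x
  simp only [neg_mul, one_mul] at this
  simp [CG, this]

/-- **UNTILT**, class-free form -/
theorem untilt0 (hw : Ent.IsProd w) (hv : Wt v) (hκ : 0 < κ) (hκ1 : κ ≤ 1 / 2)
    (hΦ : ∀ l, |l| ≤ 2 / κ → ∀ x, CG w G l x ≤ l ^ 2 * Φ x)
    (hB : ∀ u, |u| ≤ 1 / κ → mean (wt w fun x => u * G x) Φ ≤ B) :
    kl v (wt w G) ≤ (1 + 4 * κ) * Ar o1 v (wt w G) + 3 / κ * mean v Φ + 8 / κ * B := by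
  have p := S1n.pr_of hw.pos hv
  have W := p.hw
  have k1 : 1 ≤ 1 / κ := by rw [le_div_iff₀ hκ]; linarith
  have key : ∀ u, |u| ≤ 1 / κ → mean (wt w fun x => u * G x) (CG w G (2 * u)) ≤ 4 * B * u ^ 2 :=
    fun u hu => by
      have a : |2 * u| ≤ 2 / κ := by
        rw [abs_mul, abs_two, div_eq_mul_one_div]; linarith
      refine ((wt_wt W _).mean_mono (hΦ _ a)).trans ?_
      rw [mean_const_mul]
      nlinarith [mul_le_mul_of_nonneg_left (hB u hu) (sq_nonneg u)]
  have a1 := herbst_wt (G := G) (B := 4 * B) hw.pos hw.at zero_le_one zero_le_one fun u h0 h1 =>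
    key u (by rw [abs_of_pos h0]; linarith)
  have a2 := herbst_wt (G := fun x => -G x) (B := 4 * B) hw.pos hw.at zero_le_one
    (zero_le_one.trans k1) fun u h0 h1 => by
      have := key (-u) (by rw [abs_neg, abs_of_pos h0]; exact h1.le)
      simpa [CG_neg] using this
  have a3 := mean_le_kl p fun x => 1 / κ * -G x
  have a4 := kl_le_Ar hw hv
  have a5 := Ar_wt p G 1
  have a6 := pc_le p G (1 / κ)
  have a7 := hv.mean_mono (hΦ (1 / κ) (by
    rw [abs_of_pos (by positivity)]; exact div_le_div_of_nonneg_right one_le_two hκ.le))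
  have a8 := hv.mean_nonneg (CG_nonneg W G 1)
  have a9 := hv.mean_nonneg (CG_nonneg W G (1 / κ))
  have a0 := (p.wt G).Ar_nonneg (r := o1) fun _ _ => zero_le_one
  have b0 : 0 ≤ B := by
    have := ((wt_wt W fun x => 1 * G x).mean_nonneg (CG_nonneg W G _)).trans
      (key 1 (by rwa [abs_one]))
    linarith
  simp only [one_mul, mean_const_mul, mean_neg, one_pow, mul_one] at a1 a2 a3 a5 a7
  rw [kl_wt p]
  set t := 1 / κ with ht
  have e : κ * t = 1 := by rw [ht]; field_simp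
  rw [show 3 / κ = 3 * t by rw [ht]; ring, show 8 / κ = 8 * t by rw [ht]; ring]
  generalize Ar o1 v (wt w G) = A at *
  generalize Ar o1 v w = A0 at *
  generalize mean v Φ = F at *
  generalize log (mean w fun x => exp (G x)) = z1 at *
  generalize log (mean w fun x => exp (t * -G x)) = z2 at *
  have F0 : 0 ≤ t * F := by
    by_contra hc
    nlinarith [mul_pos (zero_lt_one.trans_le k1) (neg_pos.2 (not_le.1 hc))]
  -- `pc ≤ κ A0 + t F`
  have c1 : pc v w G ≤ κ * A0 + t * F := by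
    have := mul_le_mul_of_nonneg_left (a6.trans (add_le_add le_rfl a7)) hκ.le
    calc pc v w G = κ * (t * pc v w G) := by rw [← mul_assoc, e, one_mul]
      _ ≤ _ := this
      _ = κ * A0 + κ * t * (t * F) := by ring
      _ = _ := by rw [e, one_mul]
  have c2 : (1 - κ) * A0 ≤ A + t * F := by linarith
  have c3 : -mean v G ≤ κ * kl v w - mean w G + 4 * B * t := by
    have := mul_le_mul_of_nonneg_left (a3.trans (add_le_add le_rfl a2)) hκ.le
    calc -mean v G = κ * (t * -mean v G) := by rw [← mul_assoc, e, one_mul]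
      _ ≤ _ := this
      _ = κ * kl v w + κ * t * (-mean w G + 4 * B * t) := by ring
      _ = _ := by rw [e, one_mul]; ring
  have c4 : (1 + κ) * A0 ≤ (1 + 4 * κ) * (A + t * F) := by
    have : (1 - κ) * ((1 + κ) * A0) ≤ (1 - κ) * ((1 + 4 * κ) * (A + t * F)) := by
      have h1 := mul_le_mul_of_nonneg_left c2 (show 0 ≤ 1 + κ by linarith)
      have h2 : 0 ≤ κ * (1 - 2 * κ) * (A + t * F) :=
        mul_nonneg (mul_nonneg hκ.le (by linarith)) (add_nonneg a0 F0)
      nlinarith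
    exact le_of_mul_le_mul_left this (by linarith)
  nlinarith [mul_le_mul_of_nonneg_left a4 hκ.le, mul_le_mul_of_nonneg_left k1 b0,
    mul_le_mul_of_nonneg_right hκ1 F0]

theorem cg_split {q g o l e : ℝ} (hq : |q| ≤ 1) (ho : |o| ≤ e) (hl : 4 * (|l| * e) ≤ 1) :
    cg q (l * g) ≤ l ^ 2 * (3 * ((1 - q ^ 2) * o ^ 2) + 3 * (g - o) ^ 2) := by
  have d0 : 0 ≤ 1 - q ^ 2 := by nlinarith [abs_le.1 hq]
  have d1 : 1 - q ^ 2 ≤ 1 := by nlinarith [sq_nonneg q]
  rcases le_total |g| (2 * e) with h | h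
  · have e1 : exp (2 * |l * g|) ≤ 3 := by
      refine (exp_le_exp.2 (show _ ≤ 1 by
        rw [abs_mul]; nlinarith [mul_le_mul_of_nonneg_left h (abs_nonneg l)])).trans ?_
      linarith [exp_one_lt_d9]
    have e2 : (1 - q ^ 2) * g ^ 2 ≤ 2 * ((1 - q ^ 2) * o ^ 2) + 2 * (g - o) ^ 2 := by
      nlinarith [mul_nonneg d0 (sq_nonneg (g - 2 * o)), mul_le_mul_of_nonneg_right d1 (sq_nonneg (g - o))]
    refine (cg_le' hq _).trans ?_
    have e3 := mul_le_mul_of_nonneg_left e1 (mul_nonneg (sq_nonneg l) (mul_nonneg d0 (sq_nonneg g)))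
    nlinarith [mul_le_mul_of_nonneg_left e2 (sq_nonneg l)]
  · have e1 : |g| ≤ 2 * |g - o| := by linarith [abs_sub_abs_le_abs_sub g o]
    have e2 : g ^ 2 ≤ 4 * (g - o) ^ 2 := by
      have := pow_le_pow_left₀ (abs_nonneg _) e1 2
      rw [mul_pow, sq_abs, sq_abs] at this; linarith
    refine (cg_le hq _).trans ?_
    nlinarith [mul_le_mul_of_nonneg_left e2 (sq_nonneg l), mul_nonneg (sq_nonneg l) (sq_nonneg (g - o)),
      mul_nonneg (sq_nonneg l) (mul_nonneg d0 (sq_nonneg o))]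

/-- the weighted energy of a vector field -/
def wE (q : Fin n → ℝ) (O : Cube n → Fin n → ℝ) (x : Cube n) : ℝ := ∑ j, (1 - q j ^ 2) * O x j ^ 2

theorem wE_nonneg {q : Fin n → ℝ} (hq : ∀ j, |q j| ≤ 1) (O : Cube n → Fin n → ℝ) (x : Cube n) :
    0 ≤ wE q O x :=
  Finset.sum_nonneg fun j _ => mul_nonneg (by nlinarith [abs_le.1 (hq j)]) (sq_nonneg _)

/-- transfer of the weighted energy -/
theorem wE_xfer {p : Cube n → ℝ} (hw : ∀ x, 0 < w x) (h1 : H1 w K) (hK : 0 < K) (hv : Wt v) (hp : Wt p)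
    {q : Fin n → ℝ} (hq : ∀ j, |q j| ≤ 1) {O : Cube n → Fin n → ℝ} {e h ρ : ℝ} (hρ : 0 < ρ)
    (he : ∀ x, opn (dM O x) ≤ e) (hh : ∀ x, fro (dM O x) ≤ h) :
    mean p (wE q O) ≤ 4 * mean v (wE q O) + 3 * ρ ^ 2 +
      K * (4 * e + 4 * e * h / ρ) ^ 2 * (32 * kl v w + 16 * kl p w + 18) := by
  have d0 : ∀ j, 0 ≤ 1 - q j ^ 2 := fun j => by nlinarith [abs_le.1 (hq j)]
  have d1 : ∀ j, |√(1 - q j ^ 2)| ≤ 1 := fun j => by
    rw [abs_of_nonneg (sqrt_nonneg _), sqrt_le_one]; nlinarith [sq_nonneg (q j)]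
  have e1 : ∀ x, dM (fun x j => √(1 - q j ^ 2) * O x j) x =
      diagonal (fun j => √(1 - q j ^ 2)) * dM O x := fun x => by
    ext k j; simp [dM, Rec.grad_const_mul, diagonal_mul]
  have := h1.xfer_exc hw hK (u := fun x j => √(1 - q j ^ 2) * O x j) le_rfl hρ (e := e) (h := h)
    (fun x => by
      rw [e1]
      refine (Eig.opn_mul_le _ _).trans (le_trans ?_ (he x))
      exact mul_le_of_le_one_left (Eig.opn_nonneg _) (Eig.opn_diagonal_le zero_le_one d1))
    (fun x => by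
      refine le_trans (sqrt_le_sqrt (Finset.sum_le_sum fun p _ => ?_)) (hh x)
      simp only [e1, diagonal_mul, ← sq, mul_pow]
      refine mul_le_of_le_one_left (sq_nonneg _) ?_
      rw [sq_sqrt (d0 _)]; nlinarith [sq_nonneg (q p.1)]) hv.isP hp.isP
  have e2 : ∀ x, exc 0 (fun j => √(1 - q j ^ 2) * O x j) = wE q O x := fun x =>
    Finset.sum_congr rfl fun j _ => by
      rw [sub_zero, max_eq_left (abs_nonneg _), sq_abs, mul_pow, sq_sqrt (d0 j)]
  simp only [e2] at this
  exact this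

/-- **UNTILT** over a product law: `d G = O + exc`, `O` flat and `e`-Lipschitz, `|exc| ≤ Gh` -/
theorem untilt (hw : Ent.IsProd w) (hv : Wt v) (hκ : 0 < κ) (hκ1 : κ ≤ 1 / 2) {q : Fin n → ℝ}
    (hq : ∀ j x, cm w j x = q j) {O : Cube n → Fin n → ℝ} {Gh : Cube n → ℝ} {e h ρ a L d : ℝ}
    (hκe : 8 * e ≤ κ) (hO : ∀ x j, |O x j| ≤ e) (hρ : 0 < ρ) (he : ∀ x, opn (dM O x) ≤ e)
    (hh : ∀ x, fro (dM O x) ≤ h) (hG : Lip2 L G)
    (hx : ∀ x, ∑ j, (grad G x j - O x j) ^ 2 ≤ Gh x ^ 2) (hGh : Lip2 a Gh)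
    (hd : (4 * e + 4 * e * h / ρ) ^ 2 + a ^ 2 ≤ d) :
    kl v (wt w G) ≤ (1 + 4 * κ) * Ar o1 v (wt w G) +
      105 / κ * (mean v (wE q O) + mean v fun x => Gh x ^ 2) + 72 / κ * ρ ^ 2 +
      186624 / κ * d * (kl v (wt w G) + L ^ 2 / κ ^ 2 + 1) := by
  have W : Wt w := .of_pos hw.pos
  have q1 : ∀ j, |q j| ≤ 1 := fun j => hq j default ▸ abs_cm_le W.nn j default
  have H := h1_prod hw
  have e0 : 0 ≤ e := (Eig.opn_nonneg _).trans (he default)
  have k0 := ((S1n.pr_of hw.pos hv).wt G).kl_nonneg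
  set Y := kl v (wt w G) + L ^ 2 / κ ^ 2 + 1 with hY
  have l0 : 0 ≤ L ^ 2 / κ ^ 2 := by positivity
  have l1 : 4 * L ^ 2 ≤ L ^ 2 / κ ^ 2 := by
    rw [le_div_iff₀ (by positivity)]
    nlinarith [mul_le_mul_of_nonneg_left (show κ ^ 2 ≤ 1 / 4 by nlinarith) (sq_nonneg L)]
  have := untilt0 (G := G) (Φ := fun x => 3 * wE q O x + 3 * Gh x ^ 2)
    (B := 12 * (mean v (wE q O) + mean v fun x => Gh x ^ 2) + 9 * ρ ^ 2 + 23328 * d * Y) hw hv hκ hκ1
    (fun l hl x => by
      have a : 4 * (|l| * e) ≤ 1 := by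
        rw [le_div_iff₀ hκ] at hl
        nlinarith [mul_le_mul_of_nonneg_left hκe (abs_nonneg l)]
      refine (Finset.sum_le_sum fun j _ => cg_split (abs_cm_le W.nn j x) (hO x j) a).trans ?_
      simp only [hq, ← Finset.mul_sum, Finset.sum_add_distrib]
      exact mul_le_mul_of_nonneg_left (by linarith [hx x, show wE q O x = ∑ j, (1 - q j ^ 2) * O x j ^ 2 from rfl]) (sq_nonneg l))
    fun u hu => by
      have p := wt_wt W fun x => u * G x
      have b1 := S1n.kl_wt_self hw.pos H (hG.const_mul u)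
      have b2 := S1n.kl_le_wt hw.pos H hG hv
      have b3 : (|u| * L) ^ 2 ≤ L ^ 2 / κ ^ 2 := by
        rw [mul_pow, mul_comm, div_eq_mul_one_div, ← _root_.one_div_pow]
        exact mul_le_mul_of_nonneg_left (pow_le_pow_left₀ (abs_nonneg _) hu 2) (sq_nonneg _)
      have b4 : 32 * kl v w + 16 * kl (wt w fun x => u * G x) w + 18 ≤ 864 * Y := by linarith
      have b5 : 0 ≤ 32 * kl v w + 16 * kl (wt w fun x => u * G x) w + 18 := by
        linarith [(S1n.pr_of hw.pos hv).kl_nonneg, (S1n.pr_of hw.pos p).kl_nonneg]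
      have c1 := wE_xfer hw.pos H (by norm_num) hv p q1 hρ he hh
      have c2 : mean (wt w fun x => u * G x) (fun x => Gh x ^ 2) ≤ 4 * mean v (fun x => Gh x ^ 2) +
          9 * a ^ 2 * (32 * kl v w + 16 * kl (wt w fun x => u * G x) w + 18) :=
        H.xfer hw.pos (by norm_num) hGh hv.isP p.isP
      have c3 := mul_le_mul hd b4 b5 (le_trans (by positivity) hd)
      rw [mean_add, mean_const_mul, mean_const_mul]
      nlinarith
  rw [mean_add, mean_const_mul, mean_const_mul] at this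
  refine this.trans_eq ?_
  ring

/-! ### the Gaussian mean of `sech²` -/

theorem map_dot {ι : Type*} [Fintype ι] (a : ι → ℝ) :
    (Gs ι).map (fun x => a ⬝ᵥ x) = ProbabilityTheory.gaussianReal 0 (a ⬝ᵥ a).toNNReal := by
  have hv : 0 ≤ a ⬝ᵥ a := dot_self_nonneg a
  have : IsProbabilityMeasure ((Gs ι).map fun x => a ⬝ᵥ x) :=
    Measure.isProbabilityMeasure_map (by fun_prop)
  refine Measure.ext_of_charFun (funext fun t => ?_)
  have h := Cond.CF_gv (t • a)
  rw [ProbabilityTheory.charFun_gaussianReal, charFun_apply_real,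
    integral_map (by fun_prop) (by fun_prop)]
  simp only [Cond.CF, smul_dotProduct, dotProduct_smul, smul_eq_mul] at h
  rw [Real.coe_toNNReal _ hv]
  push_cast at h ⊢
  rw [h]
  congr 1; ring

theorem sech_le (x : ℝ) : 1 - tanh x ^ 2 ≤ (1 + x ^ 2)⁻¹ := by
  have h : x ^ 2 ≤ sinh x ^ 2 := by
    rw [← sq_abs x, ← sq_abs (sinh x), abs_sinh]
    exact pow_le_pow_left₀ (abs_nonneg _) (self_le_sinh_iff.2 (abs_nonneg _)) 2
  have c := cosh_pos x
  have e : 1 - tanh x ^ 2 = (1 + sinh x ^ 2)⁻¹ := by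
    rw [tanh_eq_sinh_div_cosh, add_comm, ← cosh_sq x]
    field_simp
    linarith [cosh_sq x]
  rw [e]
  exact inv_anti₀ (by positivity) (by linarith)

theorem int_sech {ι : Type*} [Fintype ι] (a : ι → ℝ) (c : ℝ) {m : ℝ} (hm : 0 < m) (h : m ≤ a ⬝ᵥ a) :
    ∫ z, (1 - tanh (c + a ⬝ᵥ z) ^ 2) ∂Gs ι ≤ 2 / √m := by
  have hc : Continuous fun x : ℝ => 1 - tanh (c + x) ^ 2 := by
    simp only [tanh_eq_sinh_div_cosh]
    exact continuous_const.sub (((by fun_prop : Continuous fun x => sinh (c + x)).div (by fun_prop)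
      fun x => (cosh_pos _).ne').pow 2)
  have hv : (a ⬝ᵥ a).toNNReal ≠ 0 := by rw [Ne, Real.toNNReal_eq_zero, not_le]; linarith
  rw [← integral_map (f := fun x => 1 - tanh (c + x) ^ 2) (by fun_prop) hc.aestronglyMeasurable,
    map_dot, ProbabilityTheory.integral_gaussianReal_eq_integral_smul hv]
  have i1 : Integrable fun x : ℝ => (√(2 * π * m))⁻¹ * (1 + (c + x) ^ 2)⁻¹ :=
    (integrable_inv_one_add_sq.comp_add_left c).const_mul _
  refine (integral_mono_of_nonneg (.of_forall fun x => ?_) i1 (.of_forall fun x => ?_)).trans ?_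
  · exact mul_nonneg (ProbabilityTheory.gaussianPDFReal_nonneg _ _ _)
      (by nlinarith [abs_le.1 (abs_tanh_lt_one (c + x)).le])
  · refine mul_le_mul ?_ (sech_le _) (by nlinarith [abs_le.1 (abs_tanh_lt_one (c + x)).le])
      (by positivity)
    rw [ProbabilityTheory.gaussianPDFReal, Real.coe_toNNReal _ (hm.le.trans h)]
    refine (mul_le_of_le_one_right (by positivity) (exp_le_one_iff.2 ?_)).trans
      (inv_anti₀ (by positivity) (sqrt_le_sqrt (by gcongr)))
    exact div_nonpos_of_nonpos_of_nonneg (neg_nonpos.2 (sq_nonneg _)) (by linarith)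
  · rw [integral_const_mul, integral_add_left_eq_self (fun x : ℝ => (1 + x ^ 2)⁻¹) c,
      integral_univ_inv_one_add_sq, sqrt_mul (by positivity), inv_mul_eq_div,
      div_le_div_iff₀ (by positivity) (by positivity)]
    have : π ≤ 2 * √(2 * π) := by
      have : π / 2 ≤ √(2 * π) := le_sqrt_of_sq_le (by nlinarith [pi_lt_four, pi_pos])
      linarith
    nlinarith [sqrt_nonneg m]

end Crest.Agent.T157.EnS
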