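import Crest.Agent.T157.EnDef_40
import Crest.Agent.T157.EnUt_95
import Crest.Agent.T157.GlueB_34

/-!
# Row 157, block B, S1, END: one stage (helper95)
-/

set_option autoImplicit false
set_option linter.unusedSectionVars false

noncomputable section

namespace Crest.Agent.T157.En

open MeasureTheory Real Matrix Finset Set
open Crest.Agent.T157.E Crest.Agent.T157.SL
open Crest.Agent.T157.Ta (Pr Ar Cnt)
open Crest.Agent.T157.EnS (fR o1 ep)
open Crest.Agent.T157.Rec (grad)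
open Crest.Agent.T157.Eig (nrm opn)
open Crest.Agent.T157.S3 (V Mx hf Dg)

namespace Sp95

variable {n : ℕ} {v w Θ : Cube n → ℝ} {W R : Mx n} {h : V n}

theorem is_pos (H : Is w W h Θ) (x : Cube n) : 0 < w x := by
  obtain ⟨c, hc⟩ := H
  rw [hc]; exact mul_pos (exp_pos _) (exp_pos _)

theorem ib_mono {a a' b b' : ℝ} (ha : a' ≤ a) (hb : b ≤ b') : ib a b ≤ ib a' b' := by
  unfold ib
  split_ifs with h1 h2 h2
  exacts [le_rfl, absurd (ha.trans_lt (h1.trans_le hb)) h2, zero_le_one, le_rfl]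

theorem ib_nonneg (a b : ℝ) : 0 ≤ ib a b := by unfold ib; split_ifs <;> norm_num

theorem Bf_mono (hv : Wt v) (Λ : ℝ) {θ θ' m m' : ℝ} (hθ : θ ≤ θ') (hm : m' ≤ m) (xs : Cube n)
    (r : ℝ) : Bf v w Λ W h θ m xs r ≤ Bf v w Λ W h θ' m' xs r :=
  add_le_add (hv.mean_mono fun x => add_le_add (ib_mono hm (Nat.cast_le.2 (card_le_card fun j hj =>
    mem_filter.2 ⟨Finset.mem_univ _, (mem_filter.1 hj).2.trans_le hθ⟩))) le_rfl) le_rfl

theorem Bf_nonneg (hv : Wt v) (hw : ∀ x, 0 < w x) {Λ : ℝ} (hΛ : 0 ≤ Λ) (θ m : ℝ) (xs : Cube n)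
    (r : ℝ) : 0 ≤ Bf v w Λ W h θ m xs r :=
  add_nonneg (hv.mean_nonneg fun _ => add_nonneg (ib_nonneg _ _) (ib_nonneg _ _))
    (div_nonneg (mul_nonneg hΛ (sum_nonneg fun x _ => mul_nonneg (hw x).le (ib_nonneg _ _))) hv.pos.le)

theorem Eg_nonneg (hv : Wt v) (Θ : Cube n → ℝ) : 0 ≤ Eg Θ v := by
  unfold Eg Cnt Ta.Cs
  refine sum_nonneg fun i _ => hv.mean_nonneg fun x => mul_nonneg (sq_nonneg _) ?_
  nlinarith [abs_le.1 (Ta.abs_cm_le hv.nn i x)]

theorem mg_Eg (hv : Wt v) (Θ : Cube n → ℝ) (t : ℝ) : MG fun y => Eg Θ (post (fR R) v t y) := by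
  unfold Eg Cnt
  exact .sum _ fun i _ => (Ta.xg_Cs hv (fun x => (Ta.lg_lk (fR R) t x).meas) _ i).mg

theorem slE_Eg (hv : Wt v) (Θ : Cube n → ℝ) {t : ℝ} (ht : 0 ≤ t) :
    slE (fR R) v t (fun _ y => Eg Θ (post (fR R) v t y)) ≤ Eg Θ v :=
  Ta.Cnt_chan_le hv ht (fun i => (Ta.off_grad Θ i).comp fun a => a ^ 2) fun _ _ => sq_nonneg _

theorem mg_F1 (W R : Mx n) (h : V n) (Ω : Cube n → V n) (x : Cube n) :
    MG fun y => F1 W (h + R *ᵥ y) Ω x := by
  unfold F1 dotProduct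
  refine .sum _ fun j _ => MG.mul (MG.of_bdd ?_ 1 fun y => ?_) (.const _)
  · simp only [Dg, hf, tanh_eq_sinh_div_cosh, Pi.add_apply, mulVec, dotProduct]; fun_prop
  · have := abs_le.1 (abs_tanh_lt_one (hf W (h + R *ᵥ y) x j)).le
    rw [Dg, abs_le]; constructor <;> nlinarith

theorem slE_F1 (hv : Wt v) {M L : ℝ} (hM : 0 < M) (hR : ∀ j, R j ⬝ᵥ R j = M) {Ω : Cube n → V n}
    (hO : ∀ x, nrm (Ω x) ≤ L) : slE (fR R) v 1
      (fun _ y => mean (post (fR R) v 1 y) (F1 W (h + R *ᵥ y) Ω)) ≤ 2 / √M * L ^ 2 := by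
  rw [← bayes hv zero_le_one (.of_mg (mg_F1 W R h Ω)), slE_eq_mean]
  refine hv.mean_le fun x => ?_
  have e : ∀ z : V n, F1 W (h + R *ᵥ ((1 : ℝ) • fR R x + √1 • z)) Ω x =
      ∑ j, (1 - tanh (hf W (h + R *ᵥ fR R x) x j + R j ⬝ᵥ z) ^ 2) * Ω x j ^ 2 := fun z => by
    simp only [F1, Dg, hf, sqrt_one, one_smul, mulVec_add, dotProduct, Pi.add_apply, Pi.mul_apply, sq,
      add_assoc]
    rfl
  have m : ∀ j, MG fun z : V n => 1 - tanh (hf W (h + R *ᵥ fR R x) x j + R j ⬝ᵥ z) ^ 2 := fun j =>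
    .of_bdd (by simp only [tanh_eq_sinh_div_cosh, dotProduct]; fun_prop) 1 fun z => by
      have := abs_le.1 (abs_tanh_lt_one (hf W (h + R *ᵥ fR R x) x j + R j ⬝ᵥ z)).le
      rw [abs_le]; constructor <;> nlinarith
  simp only [e]
  rw [integral_finsetSum _ fun j _ => ((m j).mul (.const (Ω x j ^ 2))).int]
  refine (sum_le_sum fun j _ => ?_ : _ ≤ ∑ j, 2 / √M * Ω x j ^ 2).trans ?_
  · rw [integral_mul_const]
    exact mul_le_mul_of_nonneg_right (EnS.int_sech _ _ hM (hR j).ge) (sq_nonneg _)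
  · rw [← mul_sum, ← S3.Rg.nrm_sq']
    exact mul_le_mul_of_nonneg_left (pow_le_pow_left₀ (Eig.nrm_nonneg _) (hO x) 2) (by positivity)

/-- linear combinations -/
theorem slE_comb {ι : Type*} [Fintype ι] [DecidableEq ι] {φ : Cube n → ι → ℝ} (hv : Wt v) (t : ℝ)
    {F1 F2 F3 F4 F5 : (ι → ℝ) → ℝ} (h1 : MG F1) (h2 : MG F2) (h3 : MG F3) (h4 : MG F4) (h5 : MG F5)
    (a1 a2 a3 a4 a5 a0 : ℝ) :
    slE φ v t (fun _ y => a1 * F1 y + a2 * F2 y + a3 * F3 y + a4 * F4 y + a0 + a5 * F5 y) =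
      a1 * slE φ v t (fun _ => F1) + a2 * slE φ v t (fun _ => F2) + a3 * slE φ v t (fun _ => F3) +
        a4 * slE φ v t (fun _ => F4) + a0 + a5 * slE φ v t fun _ => F5 := by
  have m2 := (h1.const_mul a1).add (h2.const_mul a2)
  have m3 := m2.add (h3.const_mul a3)
  have m4 := m3.add (h4.const_mul a4)
  rw [slE_add (.of_mg fun _ => m4.add (.const a0)) (.of_mg fun _ => h5.const_mul a5),
    slE_add (.of_mg fun _ => m4) (.of_mg fun _ => .const a0),
    slE_add (.of_mg fun _ => m3) (.of_mg fun _ => h4.const_mul a4),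
    slE_add (.of_mg fun _ => m2) (.of_mg fun _ => h3.const_mul a3),
    slE_add (.of_mg fun _ => h1.const_mul a1) (.of_mg fun _ => h2.const_mul a2), slE_fun,
    hv.mean_const]
  simp only [slE_const_mul]

end Sp95

set_option maxHeartbeats 1600000 in
open Sp95 in
theorem stepGlue : StepGlue := by
  rintro ⟨C, hC, hE⟩ ⟨c0, hc0, hB⟩
  refine ⟨C, hC, c0, hc0, ?_⟩
  intro n W1 W2 c ω s A m0 Θ G Ω xs e ε L c1 M κ a θ m m1 β k hG hs hd hop hc1 hM hκ a0 a1 hk hn hcl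
    hε hCε hL hLn hθ hm hm1 l0 gE gX gF gB hβ hT h v w Λ hv hw hΛ
  have wp := is_pos hw
  have p : Pr v w := S1n.pr_of wp hv
  have Λ0 : 0 ≤ Λ := by
    obtain ⟨x, hx⟩ := hv.exists_pos
    by_contra! hh
    nlinarith [hΛ x, wp x]
  have g0 := hG 0 ⟨le_rfl, zero_le_one⟩
  have A0 : 0 < A := zero_lt_one.trans_le g0.A1
  have c10 : 0 ≤ c1 := (Eig.opn_nonneg _).trans hop
  have ε0 : 0 ≤ ε := le_trans (by positivity) hε
  obtain ⟨R, hR, hRR⟩ := Glue.exists_root hs (hop.trans hc1)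
  have hrow : ∀ j, R j ⬝ᵥ R j = M := fun j => by
    have := congrFun (congrFun hRR j) j
    simp only [mul_apply, Matrix.add_apply, hd, Matrix.smul_apply, one_apply_eq, smul_eq_mul, mul_one,
      zero_add] at this
    rw [← this]
    exact sum_congr rfl fun i _ => by rw [← transpose_apply R i j, hR]
  have B := fun t h0 h1 => hB n (W1 + W2) W1 R h v w Λ M A θ m m1 (10 * m0) t xs hs hd (hop.trans hc1)
    hM hR hRR h0 h1
  have eW : ∀ t : ℝ, W1 + W2 - t • W1 = (1 - t) • W1 + W2 := fun t => by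
    rw [sub_smul, one_smul]; abel
  have lam : ∀ t y x, post (fR R) v t y x ≤ Λ * post (fR R) w t y x := fun t y x => by
    rw [post, post, ← mul_assoc]; exact mul_le_mul_of_nonneg_right (hΛ x) (exp_pos _).le
  have mA : ∀ t, MG fun y => Ar o1 (post (fR R) v t y) (post (fR R) w t y) := fun t =>
    (EnS.eg_Ar (Metric.isBounded_Icc t t) p EnS.off_o1).mg (left_mem_Icc.2 le_rfl)
  have mX : ∀ t, MG fun y => Ex G (post (fR R) v t y) := fun t => mg_mean hv t fun _ => .const _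
  have sX : ∀ t, 0 ≤ t → slE (fR R) v t (fun _ y => Ex G (post (fR R) v t y)) = Ex G v :=
    fun t ht => slE_mean hv ht _
  set τ := exp (-(c0 * (m1 * A) ^ 2 / (M * n))) with hτ
  set b := Bf v w Λ (W1 + W2) h θ m xs (10 * m0) with hb
  set σ := s ^ 2 + ω ^ 2 / A + ε with hσ
  have σ0 : 0 ≤ σ := by positivity
  have st := EnS.stage_const (R := R) (m := M) (m' := M + c1) (k := κ) (lam := k.l) (T := 1)
    (B := C * (σ * Ar o1 v w + s ^ 2 * Eg Θ v + Ex G v + ε * L ^ 2 + 1 + n ^ 12 * (b + τ))) p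
    (fun i => by
      rw [← hrow i]
      exact le_of_eq (sum_congr rfl fun j _ => by rw [sq, ← transpose_apply R j i, hR]))
    (fun u => by
      rw [Glue.Q_sq hR hRR]
      nlinarith [(abs_le.1 (Eig.abs_quad_le W1 u)).2,
        mul_le_mul_of_nonneg_right hop (dot_self_nonneg u)])
    (by positivity) l0 a0 hκ hk zero_le_one fun t ht => by
      obtain ⟨b1, b2⟩ := B t ht.1 ht.2
      obtain ⟨b2, b3⟩ := b2 hv wp Λ0 A0 hm1
      have e1 := slE_comb (φ := fR R) hv t (mA t) (mg_Eg (R := R) hv Θ t) (mX t) (.const 0) b2.mg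
        (C * σ) (C * s ^ 2) C 0 (C * n ^ 12) (C * (ε * L ^ 2 + 1))
      refine (slE_mono hv (.of_mg fun _ => (EnS.eg_ep2 (I := univ) hv p.hw).mg (mem_univ t))
        (.of_mg fun _ => ((((((mA t).const_mul _).add ((mg_Eg hv Θ t).const_mul _)).add
          ((mX t).const_mul _)).add ((MG.const 0).const_mul 0)).add (.const _)).add
          (b2.mg.const_mul _)) fun _ y => ?_).trans (e1.trans_le ?_)
      · have q := hE n _ _ c ω s A m0 xs _ _ Θ G Ω e ε L Λ (eW t ▸ hG t ht) hn (hv.post _ t y)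
          (b1 Θ y hw) hcl hε hCε hL hLn (lam t y)
        have q2 := mul_le_mul_of_nonneg_left (Bf_mono (w := post (fR R) w t y) (W := W1 + W2 - t • W1)
          (h := h + R *ᵥ y) (hv.post (fR R) t y) Λ (show 2 * A ≤ θ - 2 * A by linarith) hm xs
          (10 * m0)) (show 0 ≤ C * n ^ 12 by positivity)
        simp only [pw]
        linarith
      · have q1 := mul_le_mul_of_nonneg_left (Ta.Ar_chan_le (φ := fR R) p ht.1 EnS.off_o1
          fun _ _ => zero_le_one) (show 0 ≤ C * σ by positivity)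
        have q2 := mul_le_mul_of_nonneg_left (slE_Eg (R := R) hv Θ ht.1)
          (show 0 ≤ C * s ^ 2 by positivity)
        have q3 := mul_le_mul_of_nonneg_left b3 (show 0 ≤ C * n ^ 12 by positivity)
        rw [sX t ht.1]
        linarith
  obtain ⟨b1, b2⟩ := B 1 zero_le_one le_rfl
  obtain ⟨b2, b3⟩ := b2 hv wp Λ0 A0 hm1
  have e2 : W1 + W2 - (1 : ℝ) • W1 = W2 := by rw [one_smul]; abel
  rw [e2] at b1 b2 b3
  have mP := ((mA 1).const_mul k.l).sub (((EnS.eg_kl (φ := fR R) (Metric.isBounded_Icc 1 1) p).mg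
    (left_mem_Icc.2 le_rfl)).const_mul a)
  have e1 := slE_comb (φ := fR R) hv 1 mP (mg_Eg (R := R) hv Θ 1) (mX 1)
    (mg_mean (φ := fR R) hv 1 (mg_F1 W2 R h Ω)) b2.mg 1 k.gE k.gX k.gF k.gB k.g0
  have t0 := (slE_nonneg (φ := fR R) (s := 1) hv fun _ y => by
    simpa only [one_mul] using hT _ _ _ Λ (hv.post (fR R) 1 y) (b1 Θ y hw) (lam 1 y)).trans_eq
      (by simpa only [one_mul] using e1)
  have q1 := mul_le_mul_of_nonneg_left (slE_Eg (R := R) hv Θ zero_le_one) gE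
  have q2 := mul_le_mul_of_nonneg_left
    (slE_F1 (W := W2) (h := h) hv hM hrow fun x => (hcl.rg x).2.2.1) gF
  have q3 := mul_le_mul_of_nonneg_left b3 gB
  rw [sX 1 zero_le_one] at t0
  have z : 0 ≤ σ * Ar o1 v w + s ^ 2 * Eg Θ v + Ex G v + ε * L ^ 2 + 1 + n ^ 12 * (b + τ) := by
    have := p.Ar_nonneg (r := o1) fun _ _ => zero_le_one
    have := Eg_nonneg hv Θ
    have : 0 ≤ Ex G v := hv.mean_nonneg fun _ => sq_nonneg _
    have : 0 ≤ b := Bf_nonneg hv wp Λ0 _ _ _ _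
    positivity
  have q4 : a * (M + c1) / 2 * (1 + 1 / κ) * C ≤ β := by
    rw [hβ, mul_comm _ C, mul_assoc C]
    refine mul_le_mul_of_nonneg_left (mul_le_mul_of_nonneg_right ?_ (by positivity)) (by linarith)
    nlinarith [mul_le_mul_of_nonneg_right a1 (show 0 ≤ M + c1 by positivity)]
  have q5 := mul_le_mul_of_nonneg_right q4 z
  simp only [pw] at t0
  simp only
  linarith [t0, st, q1, q2, q3, q5]

end Crest.Agent.T157.En
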