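import Crest.Agent.T157.EnDef_40

/-!
# Row 157, block B, S1, END: the transfer of the conditional means of the Ising part (helper48)
-/

set_option autoImplicit false
set_option linter.unusedVariables false

noncomputable section

namespace Crest.Agent.T157.En

open MeasureTheory Real Matrix Finset Filter Set
open Crest.Agent.T157.E Crest.Agent.T157.SL
open Crest.Agent.T157.Ta (Pr Ar Cnt Dm cm chi kls)
open Crest.Agent.T157.EnS (fR o1 ep)
open Crest.Agent.T157.Rec (grad)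
open Crest.Agent.T157.Eig (nrm opn)
open Crest.Agent.T157.S3 (V Mx hf tau Dg TS Rg)
open Crest.Agent.T157.S3F (Free)
open Crest.Agent.T157.Rip (Sp SpJ res)

namespace T048

variable {n : ℕ}

theorem sech_eq (u : ℝ) : 1 - tanh u ^ 2 = 1 / cosh u ^ 2 := by
  have c0 := cosh_pos u
  rw [tanh_eq_sinh_div_cosh]; field_simp; linarith [cosh_sq_sub_sinh_sq u]

theorem sech_nn (u : ℝ) : 0 ≤ 1 - tanh u ^ 2 := by rw [sech_eq]; positivity

theorem sech_le (u : ℝ) : 1 - tanh u ^ 2 ≤ 4 * exp (-|u|) ^ 2 := by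
  have c0 := cosh_pos u
  have e1 : exp (-|u|) * exp |u| = 1 := by rw [← exp_add]; simp
  have e2 : exp |u| ≤ 2 * cosh u := by
    rw [← cosh_abs, cosh_eq]; linarith [exp_pos (-|u|)]
  have e3 : 1 ≤ 2 * exp (-|u|) * cosh u := by nlinarith [exp_pos (-|u|)]
  rw [sech_eq, div_le_iff₀ (by positivity)]
  nlinarith

theorem th_sub (u o : ℝ) : tanh (u + o) - tanh u = sinh o / (cosh (u + o) * cosh u) := by
  have c0 := cosh_pos u
  have c1 := cosh_pos (u + o)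
  have e : sinh o = sinh (u + o) * cosh u - cosh (u + o) * sinh u := by
    rw [← sinh_sub]; ring_nf
  rw [e, tanh_eq_sinh_div_cosh, tanh_eq_sinh_div_cosh]; field_simp

theorem sinh_sq {o : ℝ} (ho : |o| ≤ 1) : sinh o ^ 2 ≤ 4 * (o * o) := by
  have h1 := abs_le.1 (abs_exp_sub_one_le ho)
  have h2 := abs_le.1 (abs_exp_sub_one_le (x := -o) (by rwa [abs_neg]))
  rw [abs_neg] at h2
  have h3 : |sinh o| ≤ 2 * |o| := by
    rw [sinh_eq, abs_le]; constructor <;> linarith [h1.1, h1.2, h2.1, h2.2]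
  calc sinh o ^ 2 = |sinh o| ^ 2 := (sq_abs _).symm
    _ ≤ (2 * |o|) ^ 2 := pow_le_pow_left₀ (abs_nonneg _) h3 2
    _ = 4 * (o * o) := by rw [mul_pow, sq_abs]; ring

theorem ct_sq (u : ℝ) {o : ℝ} (ho : |o| ≤ 1) : (tanh (u + o) - tanh u) ^ 2 ≤
    4 * (1 - tanh (u + o) ^ 2) * ((1 - tanh u ^ 2) * (o * o)) := by
  have c0 := cosh_pos u
  have c1 := cosh_pos (u + o)
  rw [th_sub, sech_eq, sech_eq, div_pow]
  calc sinh o ^ 2 / (cosh (u + o) * cosh u) ^ 2 ≤ 4 * (o * o) / (cosh (u + o) * cosh u) ^ 2 := by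
        gcongr; exact sinh_sq ho
    _ = _ := by field_simp

theorem ct_sq1 (u : ℝ) {o : ℝ} (ho : |o| ≤ 1) :
    (tanh (u + o) - tanh u) ^ 2 ≤ 4 * ((1 - tanh u ^ 2) * (o * o)) := by
  refine (ct_sq u ho).trans ?_
  have := mul_nonneg (sech_nn u) (mul_self_nonneg o)
  nlinarith [sq_nonneg (tanh (u + o))]

theorem ct_sq2 {u o A : ℝ} (ho : |o| ≤ 1) (hu : A ≤ |u|) :
    (tanh (u + o) - tanh u) ^ 2 ≤ 128 * exp (-A) ^ 2 * ((1 - tanh u ^ 2) * (o * o)) := by
  refine (ct_sq u ho).trans (mul_le_mul_of_nonneg_right ?_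
    (mul_nonneg (sech_nn u) (mul_self_nonneg o)))
  have h1 : |u| ≤ |u + o| + |o| := by simpa using abs_sub (u + o) o
  have h2 : exp (-|u + o|) ≤ exp 1 * exp (-A) := by rw [← exp_add]; exact exp_le_exp.2 (by linarith)
  have h3 : exp (-|u + o|) ≤ 2.8 * exp (-A) :=
    h2.trans (mul_le_mul_of_nonneg_right (by linarith [exp_one_lt_d9]) (exp_pos _).le)
  have h4 := pow_le_pow_left₀ (exp_pos _).le h3 2
  nlinarith [sech_le (u + o), sq_nonneg (exp (-A))]

theorem abs_s (x : Cube n) (j : Fin n) : |sv x j| = 1 := by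
  unfold sv Crest.ProbabilityR.SpinGlassDynamics.spin; split_ifs <;> simp

theorem vec (U z d : V n) (r : ℝ) {X Y : ℝ} (B : Finset (Fin n)) (hX : U ⬝ᵥ U ≤ X)
    (hY : res B U ⬝ᵥ res B U ≤ Y) : (U ⬝ᵥ (z + d) + r) ^ 2 ≤
      4 * (Y * (z ⬝ᵥ z) + X * (res Bᶜ z ⬝ᵥ res Bᶜ z) + X * (d ⬝ᵥ d) + r ^ 2) := by
  have e : U ⬝ᵥ (z + d) = res B U ⬝ᵥ z + U ⬝ᵥ res Bᶜ z + U ⬝ᵥ d := by
    rw [dotProduct_add]
    congr 1
    simp only [dotProduct, ← Finset.sum_add_distrib, res, Finset.mem_compl]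
    exact Finset.sum_congr rfl fun j _ => by by_cases h : j ∈ B <;> simp [h]
  have h1 := (Eig.dot_sq_le (res B U) z).trans
    (mul_le_mul_of_nonneg_right hY (Eig.dot_self_nonneg z))
  have h2 := (Eig.dot_sq_le U (res Bᶜ z)).trans
    (mul_le_mul_of_nonneg_right hX (Eig.dot_self_nonneg _))
  have h3 := (Eig.dot_sq_le U d).trans (mul_le_mul_of_nonneg_right hX (Eig.dot_self_nonneg _))
  rw [e]
  generalize res B U ⬝ᵥ z = a at *
  generalize U ⬝ᵥ res Bᶜ z = b at *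
  generalize U ⬝ᵥ d = c at *
  nlinarith [sq_nonneg (a - b), sq_nonneg (a - c), sq_nonneg (a - r), sq_nonneg (b - c),
    sq_nonneg (b - r), sq_nonneg (c - r)]

set_option maxHeartbeats 1000000 in
theorem num {C s ω A E KL F g Z Z' D r X Y δ N : ℝ} (hC : 1 ≤ C) (s0 : 0 ≤ s) (s1 : s ≤ 1 / 10000)
    (o0 : 0 ≤ ω) (o4 : ω ≤ 4) (A1 : 1 ≤ A) (E0 : 0 ≤ E) (E1 : E ≤ 1) (oE : ω * E ≤ s) (k0 : 0 ≤ KL)
    (F0 : 0 ≤ F) (g0 : 0 ≤ g) (Z0 : 0 ≤ Z) (Z1 : Z ≤ 4 * KL + 8 * F) (Z2 : Z ≤ 16 * N) (Z0' : 0 ≤ Z')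
    (Z1' : Z' ≤ 64 / A * KL + 256 * E ^ 2 * F) (Z2' : Z' ≤ 16 * N) (D0 : 0 ≤ D) (D1 : D ≤ g)
    (d0 : 0 ≤ δ) (N1 : 1 ≤ N) (d1 : δ * N ≤ 4 * C) (X0 : 0 ≤ X)
    (hX : X ≤ C * (2 * ω ^ 2 + 45000 * s ^ 2) + δ) (hY : Y ≤ C * (2600 * s ^ 2) + δ)
    (hr : r ^ 2 ≤ 4 * X) :
    4 * (Y * Z + X * Z' + X * D + r ^ 2) ≤
      10 ^ 8 * C * ((s ^ 2 + ω ^ 2 / A) * KL + s ^ 2 * F + g + 1) := by
  have C0 : 0 ≤ C := by linarith
  have A0 : 0 < A := by linarith
  have d2 : δ ≤ 4 * C := by nlinarith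
  have s2 : s ^ 2 ≤ 1 / 10 ^ 8 := by nlinarith
  have o2 : ω ^ 2 ≤ 16 := by nlinarith
  have X1 : X ≤ 37 * C := by nlinarith
  have a0 : 0 ≤ C * (s ^ 2 * KL) := by positivity
  have b0 : 0 ≤ C * (ω ^ 2 / A * KL) := by positivity
  have c0 : 0 ≤ C * (s ^ 2 * F) := by positivity
  have e0 : 0 ≤ C * g := by positivity
  have t1 : Y * Z ≤ 10400 * (C * (s ^ 2 * KL)) + 20800 * (C * (s ^ 2 * F)) + 64 * C := by
    have u1 := mul_le_mul_of_nonneg_right hY Z0
    have u2 := mul_le_mul_of_nonneg_left Z1 (by positivity : 0 ≤ C * (2600 * s ^ 2))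
    have u3 := mul_le_mul_of_nonneg_left Z2 d0
    linarith
  have t2 : X * Z' ≤ 128 * (C * (ω ^ 2 / A * KL)) + 2880000 * (C * (s ^ 2 * KL)) +
      12000000 * (C * (s ^ 2 * F)) + 64 * C := by
    have u1 := mul_le_mul_of_nonneg_right hX Z0'
    have u2 := mul_le_mul_of_nonneg_left Z1' (by positivity : 0 ≤ C * (2 * ω ^ 2 + 45000 * s ^ 2))
    have u3 := mul_le_mul_of_nonneg_left Z2' d0
    have u4 : s ^ 2 / A * KL ≤ s ^ 2 * KL :=
      mul_le_mul_of_nonneg_right (div_le_self (sq_nonneg s) A1) k0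
    have u5 : (ω * E) ^ 2 * F ≤ s ^ 2 * F :=
      mul_le_mul_of_nonneg_right (pow_le_pow_left₀ (by positivity) oE 2) F0
    have u6 : (s * E) ^ 2 * F ≤ s ^ 2 * F :=
      mul_le_mul_of_nonneg_right (pow_le_pow_left₀ (by positivity) (by nlinarith) 2) F0
    have u7 := mul_le_mul_of_nonneg_left u4 C0
    have u8 := mul_le_mul_of_nonneg_left u5 C0
    have u9 := mul_le_mul_of_nonneg_left u6 C0
    have e : C * (2 * ω ^ 2 + 45000 * s ^ 2) * (64 / A * KL + 256 * E ^ 2 * F) =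
        128 * (C * (ω ^ 2 / A * KL)) + 2880000 * (C * (s ^ 2 / A * KL)) +
          512 * (C * ((ω * E) ^ 2 * F)) + 11520000 * (C * ((s * E) ^ 2 * F)) := by ring
    rw [e] at u2
    rw [add_mul] at u1
    linarith
  have t3 : X * D ≤ 37 * (C * g) := by
    have := mul_le_mul X1 D1 D0 (by positivity)
    linarith
  have e : 10 ^ 8 * C * ((s ^ 2 + ω ^ 2 / A) * KL + s ^ 2 * F + g + 1) =
      10 ^ 8 * (C * (s ^ 2 * KL) + C * (ω ^ 2 / A * KL) + C * (s ^ 2 * F) + C * g + C) := by ring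
  rw [e]
  linarith

theorem dot_le_card {z : V n} {b : ℝ} (h : ∀ j, |z j| ≤ b) : z ⬝ᵥ z ≤ b ^ 2 * n := by
  have : z ⬝ᵥ z ≤ ∑ _j : Fin n, b ^ 2 := Finset.sum_le_sum fun j _ => by
    rw [← sq, ← sq_abs]; exact pow_le_pow_left₀ (abs_nonneg _) (h j) 2
  simpa [mul_comm] using this

theorem ar_eq (u w : Cube n → ℝ) : Ar o1 u w = mean u fun x => ∑ k, kls u w k x := by
  simp only [Ar, Ta.As, one_mul, mean_sum]

theorem ar_self (v : Cube n → ℝ) : Ar o1 v v = 0 := by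
  refine Finset.sum_eq_zero fun i _ => Finset.sum_eq_zero fun x _ => ?_
  have : kls v v i x = 0 := by
    rw [kls, Ent.kl]
    refine Finset.sum_eq_zero fun b _ => ?_
    rcases eq_or_ne (Ent.cnd v i x b) 0 with h | h
    · simp [h]
    · simp [div_self h]
  simp [this]

theorem ib_nn (a b : ℝ) : 0 ≤ ib a b := by unfold ib; split_ifs <;> norm_num

theorem F1_nn (W : Mx n) (h : V n) (Ω : Cube n → V n) (x : Cube n) : 0 ≤ F1 W h Ω x := by
  rw [show F1 W h Ω x = ∑ j, (1 - tanh (hf W h x j) ^ 2) * (Ω x j * Ω x j) from rfl]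
  exact Finset.sum_nonneg fun j _ => mul_nonneg (sech_nn _) (mul_self_nonneg _)

/-- the mean of a solved function -/
theorem mean_sol {W : Mx n} {h : V n} {F r u : Cube n → ℝ} {U : Cube n → V n} {f0 : ℝ} (hu : Wt u)
    (fr : Free U) (eq : ∀ x, F x = f0 + U x ⬝ᵥ tau W h x + r x) :
    mean u F - f0 = mean u fun x => U x ⬝ᵥ (fun j => cm u j x - tanh (hf W h x j)) + r x := by
  rw [show F = _ from funext eq, mean_add, mean_add, mean_add, hu.mean_const]
  have : mean u (fun x => U x ⬝ᵥ tau W h x) =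
      mean u fun x => U x ⬝ᵥ fun j => cm u j x - tanh (hf W h x j) := by
    simp only [dotProduct, mean_sum, tau, mul_sub, mean_sub]
    refine Finset.sum_congr rfl fun j _ => ?_
    rw [Ta.mean_cm hu (u := fun x => U x j) fun x b => fr x j b]
  rw [this]; ring

theorem sq_mean_le {u : Cube n → ℝ} (hu : Wt u) (f : Cube n → ℝ) :
    mean u f ^ 2 ≤ mean u fun x => f x ^ 2 := by
  have := hu.var_nonneg f
  rw [var_eq_cov, hu.cov_eq] at this
  simp only [sq]; linarith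

set_option maxHeartbeats 1600000 in
/-- the pointwise bound -/
theorem pt (ks : KsStmt) {W : Mx n} {h : V n} {c ω s A : ℝ} {m : ℕ} {x0 : Cube n}
    {u w Θ G F r : Cube n → ℝ} {Ω U : Cube n → V n} {e L C X Y K O η f0 δ : ℝ}
    (g : Geo W c ω s A m) (hg : ∀ x, hd x x0 ≤ 46 * m → Good W h ω s A m x0 x) (hu : Wt u)
    (hw : Is w W h Θ) (cl : Cls e L Θ Ω G) (e1 : e ≤ 1) (hL : 4 * L ^ 2 ≤ m)
    (so : Sol W h m x0 F X Y K O η U r f0) (hC : 1 ≤ C) (n1 : (1 : ℝ) ≤ n) (d0 : 0 ≤ δ)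
    (d1 : δ * n ≤ 4 * C) (hX : X ≤ C * (2 * ω ^ 2 + 45000 * s ^ 2) + δ)
    (hY : Y ≤ C * (2600 * s ^ 2) + δ) (hK : K ≤ 4 * n ^ 9) (hO : O ≤ 2 * n) (hη : n * η ≤ 1)
    (x : Cube n) (hx : u x ≠ 0) :
    (U x ⬝ᵥ (fun j => cm u j x - tanh (hf W h x j)) + r x) ^ 2 ≤
      10 ^ 8 * C * ((s ^ 2 + ω ^ 2 / A) * ∑ k, kls u w k x + s ^ 2 * F1 W h Ω x +
        min (G x) (2 * L) ^ 2 + 1 + n ^ 12 * ib (23 * m) (hd x x0)) := by
  obtain ⟨wp, wc⟩ := ks.2.1 n w Θ W h g.blk.symm g.blk.diag hw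
  have p : Pr u w := ⟨hu, .of_pos wp, fun x e => absurd e (wp x).ne'⟩
  have k0 : ∀ k, 0 ≤ kls u w k x := fun k => p.kls_nonneg k hx
  have K0 : 0 ≤ ∑ k, kls u w k x := Finset.sum_nonneg fun k _ => k0 k
  have F0 := F1_nn W h Ω x
  have A0 : 0 < A := by linarith [g.A1]
  have m0 : (0 : ℝ) ≤ m := m.cast_nonneg
  by_cases hn : (23 * m : ℝ) < hd x x0
  · rw [ib, if_pos hn, mul_one]
    have h1 : (fun j => cm u j x - tanh (hf W h x j)) ⬝ᵥ (fun j => cm u j x - tanh (hf W h x j)) ≤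
        2 ^ 2 * n := dot_le_card fun j => by
      have := abs_sub (cm u j x) (tanh (hf W h x j))
      linarith [Ta.abs_cm_le hu.nn j x, abs_tanh_lt_one (hf W h x j)]
    have h2 := (Eig.dot_sq_le (U x) _).trans
      (mul_le_mul ((so.all x).1.trans hK) h1 (Eig.dot_self_nonneg _) (by positivity))
    have h3 : r x ^ 2 ≤ (2 * n) ^ 2 := by
      rw [← sq_abs]; exact pow_le_pow_left₀ (abs_nonneg _) ((so.all x).2.trans hO) 2
    have h4 : (n : ℝ) ^ 10 ≤ n ^ 12 := pow_le_pow_right₀ n1 (by norm_num)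
    have h5 : (n : ℝ) ^ 2 ≤ n ^ 12 := pow_le_pow_right₀ n1 (by norm_num)
    have h6 : 0 ≤ (s ^ 2 + ω ^ 2 / A) * ∑ k, kls u w k x + s ^ 2 * F1 W h Ω x +
        min (G x) (2 * L) ^ 2 + 1 := by positivity
    have h7 : (0 : ℝ) ≤ n ^ 12 := by positivity
    generalize U x ⬝ᵥ (fun j => cm u j x - tanh (hf W h x j)) = a at *
    have h8 : (a + r x) ^ 2 ≤ 40 * n ^ 12 := by nlinarith [sq_nonneg (a - r x)]
    have h9 := mul_le_mul hC (le_add_of_nonneg_left h6 : (n : ℝ) ^ 12 ≤ _) h7 (by linarith)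
    nlinarith
  rw [ib, if_neg hn, mul_zero, add_zero]
  have hn := not_lt.1 hn
  obtain ⟨B, cB, hB, -⟩ := hg x (by linarith)
  set B2 : Finset (Fin n) := Finset.univ.filter fun j => 1 / 2 < |grad Θ x j| with hB2
  have c2 : (#B2 : ℝ) ≤ m := by
    have h1 : ∑ _j ∈ B2, (1 / 4 : ℝ) ≤ ∑ j, grad Θ x j * grad Θ x j :=
      (Finset.sum_le_sum fun j hj => by
        have := (Finset.mem_filter.1 hj).2
        rw [← abs_mul_abs_self]; nlinarith).trans
      (Finset.sum_le_sum_of_subset_of_nonneg (f := fun j => grad Θ x j * grad Θ x j)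
        (Finset.subset_univ _) fun j _ _ => mul_self_nonneg _)
    have h2 := (Eig.nrm_le_iff cl.L0).1 (cl.gr x)
    rw [Finset.sum_const, nsmul_eq_mul] at h1
    have h3 : grad Θ x ⬝ᵥ grad Θ x = ∑ j, grad Θ x j * grad Θ x j := rfl
    linarith
  have c3 : (#(B ∪ B2) : ℝ) ≤ 50 * m := by
    have : (#(B ∪ B2) : ℝ) ≤ #B + #B2 := by exact_mod_cast Finset.card_union_le B B2
    linarith
  have ho : ∀ j, |Ω x j| ≤ 1 := fun j =>
    ((norm_le_pi_norm (Ω x) j).trans (cl.rg x).1).trans e1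
  set z : V n := fun j => chi u w j x + ct W h Ω x j with hz
  set d : V n := fun j => tanh (hf W h x j + grad Θ x j) - tanh (hf W h x j + Ω x j) with hd'
  have e : (fun j => cm u j x - tanh (hf W h x j)) = z + d := by
    ext j; simp only [hz, hd', chi, ct, wc, Pi.add_apply]; ring
  have zb : ∀ j, |z j| ≤ 4 := fun j => by
    have h1 := abs_add_le (chi u w j x) (ct W h Ω x j)
    have h2 := abs_sub (tanh (hf W h x j + Ω x j)) (tanh (hf W h x j))
    have h3 : |ct W h Ω x j| = |tanh (hf W h x j + Ω x j) - tanh (hf W h x j)| := rfl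
    linarith [Ta.abs_chi_le p j x, abs_tanh_lt_one (hf W h x j), abs_tanh_lt_one (hf W h x j + Ω x j)]
  have z2 : ∀ j, z j * z j ≤ 2 * chi u w j x ^ 2 + 2 * ct W h Ω x j ^ 2 := fun j => by
    simp only [hz]; nlinarith [sq_nonneg (chi u w j x - ct W h Ω x j)]
  have Fe : F1 W h Ω x = ∑ j, (1 - tanh (hf W h x j) ^ 2) * (Ω x j * Ω x j) := rfl
  have f0' : ∀ j, 0 ≤ (1 - tanh (hf W h x j) ^ 2) * (Ω x j * Ω x j) := fun j =>
    mul_nonneg (sech_nn _) (mul_self_nonneg _)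
  have Z1 : z ⬝ᵥ z ≤ 4 * ∑ k, kls u w k x + 8 * F1 W h Ω x := by
    rw [Fe, Finset.mul_sum, Finset.mul_sum, ← Finset.sum_add_distrib]
    refine Finset.sum_le_sum fun j _ => (z2 j).trans ?_
    have h1 : ct W h Ω x j ^ 2 ≤ _ := ct_sq1 (hf W h x j) (ho j)
    linarith [Ta.chi_sq_le p j hx]
  have Z1' : res (B ∪ B2)ᶜ z ⬝ᵥ res (B ∪ B2)ᶜ z ≤
      64 / A * ∑ k, kls u w k x + 256 * exp (-A) ^ 2 * F1 W h Ω x := by
    rw [Fe, Finset.mul_sum, Finset.mul_sum, ← Finset.sum_add_distrib]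
    refine Finset.sum_le_sum fun j _ => ?_
    have := k0 j
    have := f0' j
    by_cases hj : j ∈ (B ∪ B2)ᶜ
    · simp only [res, if_pos hj]
      rw [Finset.mem_compl, Finset.mem_union, not_or] at hj
      have h1 : A ≤ |hf W h x j| := by
        have := (hB j hj.1).trans (le_abs_self _)
        rwa [abs_mul, abs_s, one_mul] at this
      have h2 : |grad Θ x j| ≤ 1 / 2 := not_lt.1 fun e => hj.2 (Finset.mem_filter.2 ⟨mem_univ _, e⟩)
      have h3 : |hf W h x j| ≤ |hf W h x j + grad Θ x j| + |grad Θ x j| := by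
        simpa using abs_sub (hf W h x j + grad Θ x j) (grad Θ x j)
      have h4 := ks.1 n u w j x _ (A / 2) p hx (wc j x) (by positivity) (by linarith [g.A1])
      have h5 : ct W h Ω x j ^ 2 ≤ _ := ct_sq2 (ho j) h1
      have h6 : 16 / (A / 2) * kls u w j x = 32 / A * kls u w j x := by field_simp; ring
      have h7 : 64 / A * kls u w j x = 2 * (32 / A * kls u w j x) := by ring
      linarith [z2 j]
    · simp only [res, if_neg hj, mul_zero]; positivity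
  have Z2 : z ⬝ᵥ z ≤ 16 * n := by have := dot_le_card zb; linarith
  have Z2' : res (B ∪ B2)ᶜ z ⬝ᵥ res (B ∪ B2)ᶜ z ≤ 16 * n := by
    have := dot_le_card (z := res (B ∪ B2)ᶜ z) (b := 4) fun j => by
      unfold res; split_ifs
      · exact zb j
      · norm_num
    linarith
  have D1 : d ⬝ᵥ d ≤ min (G x) (2 * L) ^ 2 := by
    have h1 : d ⬝ᵥ d ≤ (grad Θ x - Ω x) ⬝ᵥ (grad Θ x - Ω x) := Finset.sum_le_sum fun j _ => by
      have := sq_le_sq.2 (Ue.abs_tanh_sub_le (hf W h x j + grad Θ x j) (hf W h x j + Ω x j))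
      simp only [hd', Pi.sub_apply, ← sq]
      rwa [add_sub_add_left_eq_sub] at this
    have h2 : nrm (grad Θ x - Ω x) ≤ min (G x) (2 * L) :=
      le_min (cl.ex x) (by linarith [Eig.nrm_sub_le (grad Θ x) (Ω x), cl.gr x, (cl.rg x).2.2.1])
    rw [← Eig.nrm_sq (grad Θ x - Ω x)] at h1
    exact h1.trans (pow_le_pow_left₀ (Eig.nrm_nonneg _) h2 2)
  obtain ⟨u1, u2⟩ := so.hx x hn
  have X0 : 0 ≤ X := (Eig.dot_self_nonneg _).trans u1
  have hr : r x ^ 2 ≤ 4 * X := by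
    have h1 : |r x| ≤ 2 * √X := u2.trans (by nlinarith [sqrt_nonneg X])
    have h2 := pow_le_pow_left₀ (abs_nonneg _) h1 2
    rw [sq_abs, mul_pow, sq_sqrt X0] at h2
    linarith
  rw [e]
  refine (vec (U x) z d (r x) (B ∪ B2) u1 (so.hy x hn _ c3)).trans ?_
  have E0 := exp_pos (-A)
  exact num hC g.s0 g.s1 g.o0 g.o4 g.A1 E0.le (exp_le_one_iff.2 (by linarith))
    (by nlinarith [g.cA, g.c0]) K0 F0 (sq_nonneg _) (Eig.dot_self_nonneg _) Z1 Z2
    (Eig.dot_self_nonneg _) Z1' Z2' (Eig.dot_self_nonneg _) D1 d0 n1 d1 X0 hX hY hr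

theorem grad_F (W : Mx n) (h a : V n) (x : Cube n) :
    grad (fun x => a ⬝ᵥ fun j => tanh (hf W h x j)) x = aM W h x *ᵥ a := by
  ext k
  simp only [aM, mulVec, dotProduct, of_apply, Rec.grad_eq, ← Finset.sum_sub_distrib,
    Finset.mul_sum, Finset.sum_div]
  exact Finset.sum_congr rfl fun j _ => by ring

end T048

set_option maxHeartbeats 1600000 in
open T048 in
theorem t0Glue : T0Glue := by
  intro gd rs ks
  obtain ⟨C, hC, rs⟩ := rs
  refine ⟨4 * (10 ^ 8 * C), by linarith, ?_⟩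
  intro n W h c ω s A m x0 v w Θ G Ω e L a g hna hnm hv hw cl e1 hL ha F G' hF hG'
  obtain ⟨wp, -⟩ := ks.2.1 n w Θ W h g.blk.symm g.blk.diag hw
  have ww : Wt w := .of_pos wp
  have p : Pr v w := ⟨hv, ww, fun x e => absurd e (wp x).ne'⟩
  have A0 : 0 < A := by linarith [g.A1]
  have r1 := p.Ar_nonneg (r := o1) fun _ _ => zero_le_one
  have r2 := hv.mean_nonneg (F1_nn W h Ω)
  have r3 := ww.mean_nonneg (F1_nn W h Ω)
  have G0 : ∀ x, 0 ≤ G' x := fun x => by rw [hG']; positivity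
  have r4 := hv.mean_nonneg G0
  have r5 := ww.mean_nonneg G0
  have r6 := hv.mean_nonneg fun x => ib_nn (23 * m) (hd x x0)
  have r7 := ww.mean_nonneg fun x => ib_nn (23 * m) (hd x x0)
  rcases Nat.eq_zero_or_pos n with rfl | hn
  · have : F = fun _ => 0 := by rw [hF]; ext x; simp [dotProduct]
    rw [this, hv.mean_const, ww.mean_const, sub_self, zero_pow two_ne_zero]
    positivity
  have n1 : (1 : ℝ) ≤ n := by exact_mod_cast hn
  have n0 : (0 : ℝ) < n := by linarith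
  have s0 := g.s0
  have s1 := g.s1
  have o0 := g.o0
  have o4 := g.o4
  have hg : ∀ x, hd x x0 ≤ 46 * m → Good W h ω s A m x0 x := fun x hx =>
    gd n W h c ω s A m x0 x g hna hx
  have Fb : ∀ x, |F x| ≤ n := fun x => by
    rw [hF]
    have h1 := Eig.abs_dot_le a fun j => tanh (hf W h x j)
    have h2 : nrm (fun j => tanh (hf W h x j)) ≤ n := (Eig.nrm_le_iff n0.le).2 (by
      have := dot_le_card (z := fun j => tanh (hf W h x j)) fun j => (abs_tanh_lt_one _).le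
      nlinarith)
    exact h1.trans (by nlinarith [Eig.nrm_nonneg a, Eig.nrm_nonneg fun j => tanh (hf W h x j)])
  obtain ⟨U, r, f0, so⟩ := rs n W h c ω s A m x0 F (ω + 50 * s) (50 * s) (2 * n) (1 / n ^ 3) g hna
    (by positivity) (by positivity) (by positivity)
    (fun x x' => by linarith [abs_le.1 (Fb x), abs_le.1 (Fb x')]) fun x hx => by
      obtain ⟨B, -, -, h1, h2, -⟩ := hg x hx
      rw [hF, grad_F]
      refine ⟨(h1 a).trans ?_, fun B' hB' => (h2 a B' hB').trans ?_⟩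
      · have := (Rip.nrm_res_le B a).trans ha
        nlinarith
      · nlinarith
  have eK : n * (2 * n : ℝ) ^ 2 / (1 / n ^ 3) ^ 2 = 4 * n ^ 9 := by field_simp; ring
  rw [eK] at so
  have hδ : C * (4 * n ^ 9 * exp (-m)) * n ≤ 4 * C := by
    have h1 : (n : ℝ) ^ 10 ≤ exp m := (pow_le_pow_right₀ n1 (by norm_num)).trans hnm
    have h2 : exp (m : ℝ) * exp (-m) = 1 := by rw [← exp_add]; simp
    have h3 : (n : ℝ) ^ 10 * exp (-m) ≤ 1 := by nlinarith [exp_pos (-(m : ℝ))]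
    have h4 : C * (4 * n ^ 9 * exp (-m)) * n = 4 * C * (n ^ 10 * exp (-m)) := by ring
    rw [h4]; nlinarith
  have C0 : 0 ≤ C := by linarith
  have key : ∀ u, Wt u → (mean u F - f0) ^ 2 ≤ 10 ^ 8 * C * ((s ^ 2 + ω ^ 2 / A) * Ar o1 u w +
      s ^ 2 * mean u (F1 W h Ω) + mean u G' + 1 + n ^ 12 * mean u fun x => ib (23 * m) (hd x x0)) :=
    fun u hu => by
      rw [mean_sol hu so.fr so.eq]
      refine (sq_mean_le hu _).trans ((Ta.mean_mono_supp hu (pt ks g hg hu hw cl e1 hL so hC n1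
        (by positivity) hδ ?_ ?_ le_rfl le_rfl ?_)).trans (le_of_eq ?_))
      · rw [← mul_add]
        refine mul_le_mul_of_nonneg_left ?_ C0
        have : ω ^ 2 * s ^ 2 ≤ 16 * s ^ 2 := mul_le_mul_of_nonneg_right (by nlinarith) (sq_nonneg s)
        nlinarith [sq_nonneg (ω - 50 * s)]
      · rw [← mul_add]
        refine mul_le_mul_of_nonneg_left ?_ C0
        have : s ^ 2 * (ω + 50 * s) ^ 2 ≤ s ^ 2 * 25 :=
          mul_le_mul_of_nonneg_left (by nlinarith) (sq_nonneg s)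
        nlinarith
      · rw [mul_one_div, div_le_one (by positivity)]
        exact le_self_pow₀ n1 (by norm_num)
      · rw [ar_eq, hG']
        simp only [mean_const_mul, mean_add, hu.mean_const]
  have k1 := key v hv
  have k2 := key w ww
  rw [ar_self] at k2
  have q1 : 0 ≤ (s ^ 2 + ω ^ 2 / A) * Ar o1 v w := by positivity
  have q2 : 0 ≤ s ^ 2 * (mean v (F1 W h Ω) + mean w (F1 W h Ω)) := by positivity
  have q3 : 0 ≤ (n : ℝ) ^ 12 * ((mean v fun x => ib (23 * m) (hd x x0)) +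
      mean w fun x => ib (23 * m) (hd x x0)) := by positivity
  have q4 : 0 ≤ 10 ^ 8 * C * ((s ^ 2 + ω ^ 2 / A) * Ar o1 v w +
      s ^ 2 * (mean v (F1 W h Ω) + mean w (F1 W h Ω)) + mean v G' + mean w G' +
      n ^ 12 * ((mean v fun x => ib (23 * m) (hd x x0)) + mean w fun x => ib (23 * m) (hd x x0))) := by
    positivity
  have q5 : (mean v F - mean w F) ^ 2 ≤ 2 * (mean v F - f0) ^ 2 + 2 * (mean w F - f0) ^ 2 := by
    nlinarith [sq_nonneg (mean v F + mean w F - 2 * f0)]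
  linarith

end Crest.Agent.T157.En

end
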