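import Crest.Agent.T157.EnDef_40

/-!
# Row 157, block B, S1, the END: transfer of Lipschitz functions (`En.trGlue`, helper15)
-/

set_option autoImplicit false
set_option linter.unusedVariables false

noncomputable section

namespace Crest.Agent.T157.En

open MeasureTheory Real Matrix Finset Filter Set
open Crest.Agent.T157.E Crest.Agent.T157.SL
open Crest.Agent.T157.Ta (Pr Ar Cnt Dm cm chi kls)
open Crest.Agent.T157.EnS (fR o1 ep Xc)
open Crest.Agent.T157.Rec (grad)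
open Crest.Agent.T157.Eig (nrm opn)
open Crest.Agent.T157.S3 (V Mx hf tau Dg TS Rg)
open Crest.Agent.T157.S3F (Free)
open Crest.Agent.T157.Rip (Sp SpJ res)

namespace Tr15

variable {n : ℕ}

theorem th_lip (x y : ℝ) : |tanh (x + y) - tanh x| ≤ |y| := by
  have hd : ∀ z : ℝ, HasDerivAt tanh (1 - tanh z ^ 2) z := fun z => by
    have hc := (cosh_pos z).ne'
    have h := (hasDerivAt_sinh z).div (hasDerivAt_cosh z) hc
    have e : tanh = sinh / cosh := funext fun t => tanh_eq_sinh_div_cosh t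
    have e2 : 1 - tanh z ^ 2 = (cosh z * cosh z - sinh z * sinh z) / cosh z ^ 2 := by
      rw [tanh_eq_sinh_div_cosh]; field_simp
    rw [e2, e]
    exact h
  have := (convex_univ (𝕜 := ℝ) (E := ℝ)).norm_image_sub_le_of_norm_hasDerivWithin_le (C := 1)
    (f := tanh) (f' := fun z => 1 - tanh z ^ 2) (x := x) (y := x + y)
    (fun z _ => (hd z).hasDerivWithinAt)
    (fun z _ => by
      rw [Real.norm_eq_abs, abs_le]
      have := tanh_sq_lt_one z
      constructor <;> nlinarith [sq_nonneg (tanh z)]) (mem_univ _) (mem_univ _)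
  simpa using this

/-- Cauchy-Schwarz for the mean -/
theorem cs_mean {u : Cube n → ℝ} (hu : Wt u) (U g : Cube n → V n) :
    (mean u fun x => U x ⬝ᵥ g x) ^ 2 ≤
      (mean u fun x => U x ⬝ᵥ U x) * mean u fun x => g x ⬝ᵥ g x := by
  have h := discrim_le_zero (a := mean u fun x => U x ⬝ᵥ U x) (b := 2 * mean u fun x => U x ⬝ᵥ g x)
    (c := mean u fun x => g x ⬝ᵥ g x) fun t => by
      have h0 := hu.mean_nonneg (f := fun x => (t • U x + g x) ⬝ᵥ (t • U x + g x))
        fun x => Eig.dot_self_nonneg _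
      have e : (fun x => (t • U x + g x) ⬝ᵥ (t • U x + g x)) =
          fun x => (t * t) * (U x ⬝ᵥ U x) + (2 * t) * (U x ⬝ᵥ g x) + g x ⬝ᵥ g x := by
        funext x
        simp only [add_dotProduct, dotProduct_add, smul_dotProduct, dotProduct_smul, smul_eq_mul,
          dotProduct_comm (g x) (U x)]
        ring
      rw [e, mean_add, mean_add, mean_const_mul, mean_const_mul] at h0
      linarith
  rw [discrim] at h
  nlinarith

theorem nrm_res (B : Finset (Fin n)) (v : V n) : nrm (res B v) ≤ nrm v := by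
  refine Real.sqrt_le_sqrt (Finset.sum_le_sum fun i _ => ?_)
  simp only [res]
  split_ifs
  · exact le_rfl
  · simpa using mul_self_nonneg (v i)

/-- the divergence of a free flow under `u` -/
theorem flow_le {W : Mx n} {h : V n} {u w Θ : Cube n → ℝ} {U : Cube n → V n} {L a P Q : ℝ}
    (hu : Wt u) (fr : Free U) (hc : ∀ i x, cm w i x = tanh (hf W h x i + grad Θ x i))
    (hL : ∀ x, nrm (grad Θ x) ≤ L) (ha : Xc u w ≤ a) (hP : 0 ≤ P) (hQ : 0 ≤ Q)
    (hU : (mean u fun x => U x ⬝ᵥ U x) ≤ P + Q) :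
    (mean u fun x => U x ⬝ᵥ tau W h x) ^ 2 ≤ P * (2 * a + 2 * L ^ 2) + Q * (4 * n) := by
  set g : Cube n → V n := fun x j => cm u j x - tanh (hf W h x j) with hg
  have e : (mean u fun x => U x ⬝ᵥ tau W h x) = mean u fun x => U x ⬝ᵥ g x := by
    simp only [dotProduct, mean_sum]
    refine Finset.sum_congr rfl fun j _ => ?_
    have h1 := Ta.mean_cm (i := j) (u := fun x => U x j) hu fun x b => fr x j b
    simp only [tau, hg, mul_sub, mean_sub, h1]
  have M0 : 0 ≤ mean u fun x => g x ⬝ᵥ g x := hu.mean_nonneg fun x => Eig.dot_self_nonneg _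
  have M1 : (mean u fun x => g x ⬝ᵥ g x) ≤ 4 * n := hu.mean_le fun x => by
    have : ∀ j, g x j * g x j ≤ 4 := fun j => by
      have h1 := abs_le.1 (Ta.abs_cm_le hu.nn j x)
      have h2 := neg_one_lt_tanh (hf W h x j)
      have h3 := tanh_lt_one (hf W h x j)
      simp only [hg]
      nlinarith
    calc g x ⬝ᵥ g x ≤ ∑ j : Fin n, (4 : ℝ) := Finset.sum_le_sum fun j _ => this j
      _ = 4 * n := by simp [mul_comm]
  have M2 : (mean u fun x => g x ⬝ᵥ g x) ≤ 2 * a + 2 * L ^ 2 := by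
    have hp : ∀ x, g x ⬝ᵥ g x ≤ 2 * (∑ j, chi u w j x ^ 2) + 2 * L ^ 2 := fun x => by
      have h1 : grad Θ x ⬝ᵥ grad Θ x ≤ L ^ 2 := by
        rw [← Eig.nrm_sq]
        exact pow_le_pow_left₀ (Eig.nrm_nonneg _) (hL x) 2
      have h2 : ∀ j, g x j * g x j ≤ 2 * chi u w j x ^ 2 + 2 * (grad Θ x j * grad Θ x j) := fun j => by
        have h3 := sq_le_sq.2 (th_lip (hf W h x j) (grad Θ x j))
        rw [← hc] at h3
        have h4 : g x j = chi u w j x + (cm w j x - tanh (hf W h x j)) := by simp only [hg, chi]; ring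
        rw [h4]
        nlinarith [sq_nonneg (chi u w j x - (cm w j x - tanh (hf W h x j)))]
      calc g x ⬝ᵥ g x ≤ ∑ j, (2 * chi u w j x ^ 2 + 2 * (grad Θ x j * grad Θ x j)) :=
            Finset.sum_le_sum fun j _ => h2 j
        _ = 2 * (∑ j, chi u w j x ^ 2) + 2 * (grad Θ x ⬝ᵥ grad Θ x) := by
            rw [Finset.sum_add_distrib, ← Finset.mul_sum, ← Finset.mul_sum]; rfl
        _ ≤ _ := by linarith
    have h5 := hu.mean_mono hp
    rw [mean_add, mean_const_mul, hu.mean_const, mean_sum] at h5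
    have : Xc u w = ∑ j, mean u fun x => chi u w j x ^ 2 := rfl
    linarith
  rw [e]
  refine (cs_mean hu U g).trans ((mul_le_mul_of_nonneg_right hU M0).trans ?_)
  rw [add_mul]
  exact add_le_add (mul_le_mul_of_nonneg_left M2 hP) (mul_le_mul_of_nonneg_left M1 hQ)

theorem num {C l A L N b X a r : ℝ} (hC : 1 ≤ C) (hN : 1 ≤ N) (hA : 0 ≤ A) (hb0 : 0 ≤ b)
    (hb1 : b ≤ 1) (hl : l ^ 2 ≤ 100 * N) (hX0 : 0 ≤ X) (hX : X ≤ 17 * C * l ^ 2 + 16 * C / N ^ 3)
    (ha : a ^ 2 ≤ 17 * C * l ^ 2 * (2 * (2 * A) + 2 * L ^ 2) + (16 * C / N ^ 3 + 16 * N ^ 9 * b) * (4 * N))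
    (hr : |r| ≤ 2 * N * (1 / N ^ 3) * √X + 4 * N * b) :
    (a + r) ^ 2 ≤ 30000 * C * (l ^ 2 * (A + L ^ 2) + 1 + N ^ 12 * b) := by
  have N0 : 0 < N := by linarith
  have p1 : ∀ k : ℕ, 1 ≤ N ^ k := fun k => one_le_pow₀ hN
  have q : ∀ k j : ℕ, k ≤ j → N ^ k ≤ N ^ j := fun k j hk => pow_le_pow_right₀ hN hk
  have t1 : 16 * C / N ^ 3 * (4 * N) ≤ 64 * C := by
    rw [div_mul_eq_mul_div, div_le_iff₀ (by positivity)]
    have := q 1 3 (by norm_num)
    rw [pow_one] at this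
    nlinarith
  have t2 : 16 * N ^ 9 * b * (4 * N) ≤ 64 * (N ^ 12 * b) := by
    have := mul_le_mul_of_nonneg_right (q 10 12 (by norm_num)) hb0
    nlinarith
  have t3 : 16 * C / N ^ 3 ≤ 16 * C := div_le_self (by positivity) (p1 3)
  have t4 : X ≤ 1716 * C * N := by nlinarith
  have t5 : (2 * N * (1 / N ^ 3) * √X) ^ 2 ≤ 6864 * C := by
    have e : (2 * N * (1 / N ^ 3) * √X) ^ 2 = 4 * X / N ^ 4 := by
      rw [mul_pow, Real.sq_sqrt hX0]; field_simp; ring
    rw [e, div_le_iff₀ (by positivity)]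
    have := q 1 4 (by norm_num)
    rw [pow_one] at this
    nlinarith
  have t6 : (4 * N * b) ^ 2 ≤ 16 * (N ^ 12 * b) := by
    have h1 : N ^ 2 * b ≤ N ^ 12 * b := mul_le_mul_of_nonneg_right (q 2 12 (by norm_num)) hb0
    have h2 : N ^ 2 * b * b ≤ N ^ 2 * b := mul_le_of_le_one_right (by positivity) hb1
    nlinarith
  have t7 : r ^ 2 ≤ 13728 * C + 32 * (N ^ 12 * b) := by
    have h1 : r ^ 2 ≤ (2 * N * (1 / N ^ 3) * √X + 4 * N * b) ^ 2 := by
      rw [← sq_abs r]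
      exact pow_le_pow_left₀ (abs_nonneg _) hr 2
    nlinarith [sq_nonneg (2 * N * (1 / N ^ 3) * √X - 4 * N * b)]
  have t8 : a ^ 2 ≤ 68 * (C * (l ^ 2 * (A + L ^ 2))) + 64 * C + 64 * (N ^ 12 * b) := by
    have h1 : 0 ≤ C * (l ^ 2 * L ^ 2) := by positivity
    nlinarith
  have u0 : 0 ≤ N ^ 12 * b := by positivity
  have u1 : N ^ 12 * b ≤ C * (N ^ 12 * b) := le_mul_of_one_le_left u0 hC
  have u2 : 0 ≤ C * (l ^ 2 * (A + L ^ 2)) := by positivity
  nlinarith [sq_nonneg (a - r)]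

theorem ib_nn (a b : ℝ) : 0 ≤ ib a b := by unfold ib; split_ifs <;> norm_num

theorem ib_le (a b : ℝ) : ib a b ≤ 1 := by unfold ib; split_ifs <;> norm_num

theorem one {W : Mx n} {h : V n} {m : ℕ} {x0 : Cube n} {F u w Θ r : Cube n → ℝ}
    {U : Cube n → V n} {C l A L X Y f0 : ℝ} (hC : 1 ≤ C) (hN : (1 : ℝ) ≤ n) (hA : 0 ≤ A)
    (hl : l ^ 2 ≤ 100 * n) (hX0 : 0 ≤ X) (hX : X ≤ 17 * C * l ^ 2 + 16 * C / n ^ 3)
    (hS : Sol W h m x0 F X Y (16 * n ^ 9) (4 * n) (1 / n ^ 3) U r f0) (hu : Wt u)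
    (hc : ∀ i x, cm w i x = tanh (hf W h x i + grad Θ x i)) (hL : ∀ x, nrm (grad Θ x) ≤ L)
    (ha : Xc u w ≤ 2 * A) :
    (mean u F - f0) ^ 2 ≤
      30000 * C * (l ^ 2 * (A + L ^ 2) + 1 + n ^ 12 * mean u fun x => ib (23 * m) (hd x x0)) := by
  have hb0 : 0 ≤ mean u fun x => ib (23 * m) (hd x x0) := hu.mean_nonneg fun x => ib_nn _ _
  have hb1 : (mean u fun x => ib (23 * m) (hd x x0)) ≤ 1 := hu.mean_le fun x => ib_le _ _
  have e : mean u F - f0 = (mean u fun x => U x ⬝ᵥ tau W h x) + mean u r := by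
    have : F = fun x => (f0 + U x ⬝ᵥ tau W h x) + r x := funext hS.eq
    rw [this, mean_add, mean_add, hu.mean_const]
    ring
  have hs : 0 ≤ 2 * (n : ℝ) * (1 / n ^ 3) * √X := by positivity
  have hU : (mean u fun x => U x ⬝ᵥ U x) ≤
      X + 16 * n ^ 9 * mean u fun x => ib (23 * m) (hd x x0) := by
    have h1 := hu.mean_mono (f := fun x => U x ⬝ᵥ U x)
      (g := fun x => X + 16 * n ^ 9 * ib (23 * m) (hd x x0)) fun x => by
        unfold ib
        split_ifs with hx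
        · linarith [(hS.all x).1]
        · linarith [(hS.hx x (not_lt.1 hx)).1]
    rwa [mean_add, mean_const_mul, hu.mean_const] at h1
  have hp : ∀ x, |r x| ≤ 2 * (n : ℝ) * (1 / n ^ 3) * √X + 4 * n * ib (23 * m) (hd x x0) := fun x => by
    unfold ib
    split_ifs with hx
    · linarith [(hS.all x).2]
    · linarith [(hS.hx x (not_lt.1 hx)).2]
  have hr : |mean u r| ≤ 2 * (n : ℝ) * (1 / n ^ 3) * √X +
      4 * n * mean u fun x => ib (23 * m) (hd x x0) := by
    have h1 := hu.mean_mono fun x => (abs_le.1 (hp x)).2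
    have h2 := hu.mean_mono fun x => (abs_le.1 (hp x)).1
    rw [mean_add, hu.mean_const, mean_const_mul] at h1
    rw [mean_neg, mean_add, hu.mean_const, mean_const_mul] at h2
    exact abs_le.2 ⟨h2, h1⟩
  rw [e]
  refine num hC hN hA hb0 hb1 hl hX0 hX ?_ hr
  exact flow_le hu hS.fr hc hL ha (by positivity) (by positivity) (by linarith)

end Tr15

open Tr15 in
theorem trGlue : TrGlue := by
  rintro ⟨C, hC, hR⟩ ⟨-, hK, -⟩
  refine ⟨120000 * C, by linarith, fun n W h c ω s A m x0 v w Θ F L l hG hna hm hv hI hL l0 hl hF hO => ?_⟩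
  obtain ⟨hw, hc⟩ := hK n w Θ W h hG.blk.symm hG.blk.diag hI
  have hW : Wt w := Wt.of_pos hw
  have hP : Pr v w := ⟨hv, hW, fun x e => absurd e (hw x).ne'⟩
  have hX := EnS.Xc_le hP
  have hA : 0 ≤ Ar o1 v w := by
    have : 0 ≤ Xc v w := Finset.sum_nonneg fun i _ => hv.mean_nonneg fun x => sq_nonneg _
    linarith
  have hX' : Xc w w ≤ 2 * Ar o1 v w := by
    have : Xc w w = 0 := by simp [Xc, chi, hW.mean_const]
    linarith
  have b1 : 0 ≤ mean v fun x => ib (23 * m) (hd x x0) := hv.mean_nonneg fun x => ib_nn _ _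
  have b2 : 0 ≤ mean w fun x => ib (23 * m) (hd x x0) := hW.mean_nonneg fun x => ib_nn _ _
  rcases Nat.eq_zero_or_pos n with rfl | hn
  · have e : F = fun _ => F x0 := funext fun x => by rw [Subsingleton.elim x x0]
    have e1 : mean v F = F x0 := by rw [e, hv.mean_const]
    have e2 : mean w F = F x0 := by rw [e, hW.mean_const]
    rw [e1, e2, sub_self]
    have : (0 : ℝ) ^ 2 = 0 := by norm_num
    rw [this]
    positivity
  have hN : (1 : ℝ) ≤ n := by exact_mod_cast hn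
  have N0 : (0 : ℝ) < n := by linarith
  obtain ⟨U, r, f0, hS⟩ := hR n W h c ω s A m x0 F l l (4 * n) (1 / n ^ 3) hG hna (by positivity) l0 l0
    hO fun x _ => ⟨hF x, fun B _ => (nrm_res B _).trans (hF x)⟩
  have eK : (n : ℝ) * (4 * n) ^ 2 / (1 / n ^ 3) ^ 2 = 16 * n ^ 9 := by field_simp; norm_num
  rw [eK] at hS
  have hE : 16 * (n : ℝ) ^ 9 * exp (-m) ≤ 16 / n ^ 3 := by
    rw [exp_neg, ← div_eq_mul_inv, div_le_div_iff₀ (exp_pos _) (by positivity)]
    nlinarith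
  have hXle : C * (l ^ 2 + ω ^ 2 * l ^ 2 + 16 * (n : ℝ) ^ 9 * exp (-m)) ≤
      17 * C * l ^ 2 + 16 * C / n ^ 3 := by
    have h1 : ω ^ 2 ≤ 16 := by nlinarith [hG.o0, hG.o4]
    have h2 : ω ^ 2 * l ^ 2 ≤ 16 * l ^ 2 := mul_le_mul_of_nonneg_right h1 (sq_nonneg _)
    calc _ ≤ C * (17 * l ^ 2 + 16 / n ^ 3) := mul_le_mul_of_nonneg_left (by linarith) (by linarith)
      _ = _ := by ring
  have o1' := one hC hN hA hl (by positivity) hXle hS hv hc hL hX
  have o2' := one hC hN hA hl (by positivity) hXle hS hW hc hL hX'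
  have u1 : 0 ≤ C * ((n : ℝ) ^ 12 * mean v fun x => ib (23 * m) (hd x x0)) := by positivity
  have u2 : 0 ≤ C * ((n : ℝ) ^ 12 * mean w fun x => ib (23 * m) (hd x x0)) := by positivity
  have u3 : (mean v F - mean w F) ^ 2 ≤ 2 * (mean v F - f0) ^ 2 + 2 * (mean w F - f0) ^ 2 := by
    nlinarith [sq_nonneg (mean v F - f0 + (mean w F - f0))]
  nlinarith

end Crest.Agent.T157.En

end
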