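import Crest.Agent.T157.EnDef_40
import Crest.Agent.T157.EnCnt_55
import Crest.Agent.T157.Xtr_25

/-!
# Row 157, block B, END (helper26): typical pairs, `En.TypStmt` and `En.FeStmt`
-/

set_option autoImplicit false
set_option linter.unusedVariables false

noncomputable section

namespace Crest.Agent.T157.En

open MeasureTheory Real Matrix Finset Filter
open Crest.Agent.T157.E Crest.Agent.T157.SL Crest.Agent.T157.Cnt
open Crest.Agent.T157.Ta (XG)
open Crest.Agent.T157.Eig (nrm opn)
open Crest.Agent.T157.S3 (V Mx)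
open Crest.Agent.T157.S1 (XF Ew)

variable {n : ℕ}

namespace Ty26

theorem ib_nn (a b : ℝ) : 0 ≤ ib a b := by unfold ib; split_ifs <;> norm_num
theorem ib_le (a b : ℝ) : ib a b ≤ 1 := by unfold ib; split_ifs <;> norm_num

theorem meas_na (θ : ℝ) (x : Cube n) : Measurable fun y : V n => na y θ x := by
  simp only [na, card_filter, Nat.cast_sum, Nat.cast_ite, Nat.cast_one, Nat.cast_zero]
  exact Finset.measurable_sum _ fun j _ => Measurable.ite
    (measurableSet_lt (by fun_prop) measurable_const) measurable_const measurable_const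

theorem xg_ib (a θ : ℝ) (x : Cube n) : XG fun y : V n => ib a (na y θ x) :=
  .of_bdd (Measurable.ite (measurableSet_lt measurable_const (meas_na θ x)) measurable_const
    measurable_const) 1 fun _ => (abs_of_nonneg (ib_nn _ _)).trans_le (ib_le _ _)

theorem xg_bad (J : Mx n) (S φ : ℝ) (x : Cube n) : XG (bad J S φ x) := (xg_ib _ _ x).add (.const _)

theorem bad_nn (J : Mx n) (S φ : ℝ) (x : Cube n) (y : V n) : 0 ≤ bad J S φ x y :=
  add_nonneg (ib_nn _ _) (ib_nn _ _)

theorem wt_is (J : Mx n) (y : V n) : Wt (ising J y) := Wt.of_pos fun _ => exp_pos _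

theorem xg_post (J : Mx n) {K : Cube n → V n → ℝ} (hK : ∀ x, XG (K x)) :
    XG fun y => mean (ising J y) fun x => K x y := by
  have := Ta.xg_mean (wt_is J 0) (L := fun x (y : V n) => y ⬝ᵥ sv x)
    (fun x => by unfold dotProduct; fun_prop) hK
  refine (congrArg XG (funext fun y => ?_)).mp this
  rw [← zero_add y, ← tilt_ising, zero_add]
  rfl

/-- the local fields are sub-Gaussian under (H1) and symmetry -/
theorem sg_h1 {J : Mx n} {K : ℝ} (hK : 0 < K) (hs : Jᵀ = J) (hJ : opn J ≤ 3)
    (h : Xt.H1 (ising J 0) K) : SG (mass (ising J 0)) (fun x => J *ᵥ sv x) (72 * K) :=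
  fun a v u ha hv hu => by
  have e : (fun x => a ⬝ᵥ J *ᵥ sv x) = fun x => (J *ᵥ a) ⬝ᵥ sv x := by
    funext x; rw [dotProduct_mulVec, ← mulVec_transpose, hs]
  have m0 : mean (ising J 0) (fun x => (J *ᵥ a) ⬝ᵥ sv x) = 0 := by
    have : (J *ᵥ a) ⬝ᵥ mag (ising J 0) = 0 := by rw [mag_ising_zero, dotProduct_zero]
    rw [← this]
    simp only [dotProduct, mean_sum, mean_const_mul]
    rfl
  have hL : Xt.Lip2 (2 * (3 * √v)) fun x => (J *ᵥ a) ⬝ᵥ sv x := Xt.lip2_of_grad fun x => by
    rw [Rec.grad_lin]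
    exact (Eig.nrm_mulVec_le J a).trans
      (mul_le_mul hJ (sqrt_le_sqrt ha) (Eig.nrm_nonneg _) (by norm_num))
  have := mass_tail (F := fun x => a ⬝ᵥ J *ᵥ sv x) (wt_is J 0) (b := 72 * K * v) (by positivity) hu
    fun τ _ => by
      have h1 := h.mgf (fun _ => exp_pos _) hL.nn hL.vp hL.neg.vp τ
      rw [show Chain22.mean (prob (ising J 0)) (fun x => (J *ᵥ a) ⬝ᵥ sv x) = 0 from m0] at h1
      simp only [sub_zero, mul_pow, sq_sqrt hv.le] at h1
      simp only [congrFun e]
      exact le_trans (le_of_eq rfl) (h1.trans_eq (by congr 1; ring))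
  exact this.trans_eq (by congr 1; ring)

theorem gauss_part {S φ : ℝ} (hS : 48 ≤ S) (hφ : φ = exp (-(1 / 16 * S))) (x : Cube n) :
    ∫ g, ib (φ * n) (na (S • sv x + √S • g) (S / 2) x) ∂Gs (Fin n) ≤ exp (-(1 * (φ * n))) := by
  have S0 : 0 < √S := sqrt_pos.2 (by linarith)
  have S2 : √S * √S = S := mul_self_sqrt (by linarith)
  have hm : MeasurableSet {g : V n | φ * n < na (S • sv x + √S • g) (S / 2) x} :=
    measurableSet_lt measurable_const ((meas_na _ x).comp (by fun_prop))
  have e : (fun g : V n => ib (φ * n) (na (S • sv x + √S • g) (S / 2) x)) =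
      {g : V n | φ * n < na (S • sv x + √S • g) (S / 2) x}.indicator 1 := by
    funext g; simp [ib, Set.indicator_apply]
  rw [e, integral_indicator_one hm]
  refine ((sub_real _).mono _ _ fun g hg => ?_).trans (sg_id.cnt_phi (sub_real _) one_pos
    (x := √S / 2) (by positivity) (hφ ▸ exp_pos _) zero_le_one ?_)
  · refine le_trans (le_of_lt (show φ * n < (#{j | _} : ℝ) from hg)) (Nat.cast_le.2 (card_le_card fun j hj => mem_filter.2
      ⟨mem_univ _, ?_⟩))
    have h1 := (mem_filter.1 hj).2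
    have h2 := Rec.sv_mul_self x j
    have h3 : |sv x j * g j| = |g j| := by
      rw [abs_mul, (abs_eq_iff_mul_self_eq (b := 1)).2 (by rw [h2, one_mul]), abs_one, one_mul]
    simp only [Pi.add_apply, Pi.smul_apply, smul_eq_mul] at h1
    rw [← h3]
    refine le_of_mul_le_mul_left ?_ S0
    nlinarith [mul_le_mul_of_nonneg_left (neg_le_abs (sv x j * g j)) S0.le]
  · rw [hφ, one_div (exp _), ← Real.exp_neg, log_exp, div_pow, sq_sqrt (by linarith)]
    linarith

end Ty26

open Ty26

theorem typStmt : TypStmt := fun K0 κ0 hκ => by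
  have K1 : 0 < max K0 0 + 8 / κ0 := by positivity
  set K := max K0 0 + 8 / κ0 with hK
  refine ⟨1 / 16, by norm_num, le_rfl, 48 + 40000 * K, fun S hS => ?_⟩
  have φ0 := exp_pos (-(1 / 16 * S))
  set φ := exp (-(1 / 16 * S)) with hφ
  refine ⟨φ / 6, by positivity, ?_⟩
  filter_upwards [(tendsto_natCast_atTop_atTop (R := ℝ)).eventually_ge_atTop (2 / φ)]
    with n hn J hs hJ hB
  have S0 : 48 ≤ S := by nlinarith
  have hw := wt_is J 0
  have h1 := (sg_h1 K1 hs hJ (Xt.h1_of_atd (hB.mono (fun _ => exp_pos _) (le_max_left _ _) le_rfl)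
    (fun _ => exp_pos _) (le_max_right _ _) hκ)).cnt_phi (sub_mass hw) (by positivity) (x := S / 16)
    (by positivity) φ0 zero_le_one (by
      rw [hφ, one_div (exp _), ← Real.exp_neg, log_exp, le_div_iff₀ (by positivity)]
      nlinarith)
  have h2 : slE sv (ising J 0) S (bad J S φ) ≤ mean (ising J 0) fun x => exp (-(1 * (φ * n))) +
      {x : Cube n | φ * n ≤ #{j | S / 16 ≤ |(J *ᵥ sv x) j|}}.indicator (fun _ => 1) x := by
    refine hw.mean_mono fun x => ?_
    unfold bad
    rw [integral_add (((xg_ib _ _ x).mg.affine _ _).int) (integrable_const _), integral_const,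
      probReal_univ, one_smul]
    refine add_le_add (gauss_part S0 hφ x) ?_
    unfold ib
    split_ifs with h
    · rw [Set.indicator_of_mem]
      exact le_trans h.le (Nat.cast_le.2 (card_le_card fun j hj => mem_filter.2
        ⟨mem_univ _, (mem_filter.1 hj).2.le⟩))
    · exact Set.indicator_nonneg (fun _ _ => zero_le_one) _
  rw [mean_add, hw.mean_const, ← mass_ind] at h2
  rw [div_le_iff₀ φ0] at hn
  have e : exp (-(3 * (φ / 6) * n)) = exp (φ * n / 2) * exp (-(1 * (φ * n))) := by
    rw [← exp_add]; congr 1; ring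
  rw [e]
  nlinarith [add_one_le_exp (φ * n / 2), exp_pos (-(1 * (φ * n)))]

theorem feStmt26 : FeStmt := fun n J S φ κ1 => by
  have hw := wt_is J 0
  have hx := xg_post J (xg_bad J S φ)
  have h0 : ∀ y, 0 ≤ mean (ising J y) fun x => bad J S φ x y := fun y =>
    (wt_is J y).mean_nonneg fun x => bad_nn _ _ _ _ _
  refine ⟨⟨fun _ => hx.const_mul _, fun _ y => mul_nonneg (by positivity) (h0 y)⟩,
    fun f T0 hS hf => ?_⟩
  have e : slE sv (ising J 0) S (bad J S φ) = mean (ising J 0) fun x =>
      ∫ g, mean (ising J (S • sv x + √S • g)) (fun z => bad J S φ z (S • sv x + √S • g)) ∂Gs (Fin n) := by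
    rw [bayes hw hS (.of_mg fun x => (xg_bad J S φ x).mg), slE_eq_mean]
    simp only [mean, prob_post_sv, tilt_ising, zero_add]
  rw [e, ← mean_const_mul]
  refine hw.mean_mono fun x => ?_
  simp only [Ew, fe, zero_add, integral_const_mul]
  rw [exp_add, mul_left_comm _ (exp T0), mul_assoc (exp T0)]
  exact mul_le_mul_of_nonneg_right (hf x).2
    (mul_nonneg (by positivity) (integral_nonneg fun _ => h0 _))

end Crest.Agent.T157.En

end
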