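import Crest.Agent.T157.EnTh_95

/-!
# Row 157, block B, S1, END: the last stage and the untilting over a pinned product law (helper95)
-/

set_option autoImplicit false
set_option linter.unusedSectionVars false

noncomputable section

namespace Crest.Agent.T157.EnS

open MeasureTheory Real Matrix Function Set
open Crest.Agent.T157.E Crest.Agent.T157.SL Crest.Agent.T157.Ta
open Crest.Agent.T157.Rec (grad fl)
open Crest.Agent.T157.Xt (H1 Lip2)
open Crest.Agent.T157.Eig (nrm opn)
open Crest.Agent.T157.S3.Rg (exc dM fro VF Bd)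

variable {n : ℕ} {v w p μ G Φ : Cube n → ℝ} {K κ B : ℝ} {S : Finset (Fin n)} {sS x : Cube n}
  {j : Fin n}

/-- indicator of the pins -/
def pin (S : Finset (Fin n)) (sS x : Cube n) : ℝ := if ∀ k ∈ S, x k = sS k then 1 else 0

/-- exact tensorisation -/
def AT1 (w : Cube n → ℝ) : Prop := ∀ v, Pr v w → kl v w ≤ Ar o1 v w

theorem pin_of (h : ∀ k ∈ S, x k = sS k) : pin S sS x = 1 := if_pos h

theorem of_pin (h : pin S sS x ≠ 0) : ∀ k ∈ S, x k = sS k := by
  by_contra hc; exact h (if_neg hc)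

theorem pin_nonneg : 0 ≤ pin S sS x := by unfold pin; split_ifs <;> norm_num

theorem pin_exp (x : Cube n) (h : pin S sS x ≠ 0) : pin S sS x = exp (-(0 : ℝ)) := by
  rw [pin_of (of_pin h), neg_zero, exp_zero]

theorem off_pin (hj : j ∉ S) (sS : Cube n) : OffAt j (pin S sS) := fun x b =>
  if_congr (forall₂_congr fun k hk => by rw [update_of_ne (ne_of_mem_of_not_mem hk hj)]) rfl rfl

theorem wt_pin (hw : ∀ x, 0 < w x) (S : Finset (Fin n)) (sS : Cube n) :
    Wt fun x => w x * pin S sS x :=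
  ⟨fun x => mul_nonneg (hw x).le pin_nonneg, Finset.sum_pos'
    (fun x _ => mul_nonneg (hw x).le pin_nonneg)
    ⟨sS, Finset.mem_univ _, by rw [pin_of fun _ _ => rfl, mul_one]; exact hw _⟩⟩

theorem cnd_pin (hj : j ∉ S) (h : ∀ k ∈ S, x k = sS k) (w : Cube n → ℝ) :
    Ent.cnd (fun x => w x * pin S sS x) j x = Ent.cnd w j x := by
  ext b; simp only [Ent.cnd, off_pin hj sS x, pin_of h, mul_one]

theorem cm_pin (hj : j ∉ S) (h : ∀ k ∈ S, x k = sS k) (w : Cube n → ℝ) :
    cm (fun x => w x * pin S sS x) j x = cm w j x := by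
  simp only [Ta.cm, siteM, off_pin hj sS x, pin_of h, mul_one]

theorem cm_exp (H : Cube n → ℝ) (j : Fin n) (x : Cube n) :
    cm (fun x => exp (H x)) j x = tanh (grad H x j) := by
  have e1 : exp (H (update x j true)) = exp ((H (update x j true) + H (update x j false)) / 2) *
      exp (grad H x j) := by rw [← exp_add, grad, incr]; congr 1; ring
  have e2 : exp (H (update x j false)) = exp ((H (update x j true) + H (update x j false)) / 2) *
      exp (-grad H x j) := by rw [← exp_add, grad, incr]; congr 1; ring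
  simp only [Ta.cm, siteM, sv, update_self, Crest.ProbabilityR.SpinGlassDynamics.spin]
  rw [e1, e2, tanh_eq_sinh_div_cosh, sinh_eq, cosh_eq]
  have := exp_pos (grad H x j)
  have := exp_pos (-grad H x j)
  simp
  field_simp
  ring

/-- a pinned site -/
theorem cm_pinned (hj : j ∈ S) (hw : ∀ x, w x ≠ 0 → ∀ k ∈ S, x k = sS k) (hx : w x ≠ 0) :
    cm w j x = sv sS j ∧ Ent.cnd w j x (x j) = 1 := by
  have h1 := hw x hx j hj
  have h2 : w (update x j (!x j)) = 0 := by
    by_contra hc
    have := hw _ hc j hj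
    rw [update_self, ← h1] at this
    simp at this
  have h3 : w (update x j (x j)) ≠ 0 := by rwa [update_eq_self]
  simp only [Ta.cm, siteM, sv, update_self, Ent.cnd, ← h1]
  revert h2 h3
  cases x j <;> intro h2 h3 <;> simp only [Bool.not_true, Bool.not_false] at h2 <;>
    simp [h2, h3]

theorem ep_pinned (h : Pr v w) (hj : j ∈ S) (hw : ∀ x, w x ≠ 0 → ∀ k ∈ S, x k = sS k) :
    ep v w j = 0 := by
  have e1 : mean v (cm w j) = sv sS j :=
    (mean_congr_supp fun x hx => (cm_pinned hj hw (h.pos hx).2.ne').1).trans (h.hv.mean_const _)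
  have e2 : mag w j = sv sS j :=
    (mean_congr_supp fun x hx => by simp only [sv, hw x hx j hj]).trans (h.hw.mean_const _)
  rw [ep, e1, e2, sub_self]

theorem ep_eq (hw : Wt w) (v : Cube n → ℝ) (j : Fin n) :
    ep v w j = mean v (cm w j) - mean w (cm w j) := by
  have := mean_cm hw (OffAt.const j (1 : ℝ))
  simp only [one_mul] at this
  rw [ep, show mean w (cm w j) = _ from this]; rfl

/-- the error of a pinned pair, free sites -/
theorem ep_free (h : Pr v fun x => exp (G x) * pin S sS x) (hj : j ∉ S) :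
    ep v (fun x => exp (G x) * pin S sS x) j = mean v (fun x => tanh (grad G x j)) -
      mean (fun x => exp (G x) * pin S sS x) fun x => tanh (grad G x j) := by
  have e : ∀ x, exp (G x) * pin S sS x ≠ 0 →
      cm (fun x => exp (G x) * pin S sS x) j x = tanh (grad G x j) := fun x hx => by
    rw [cm_pin hj (of_pin (right_ne_zero_of_mul hx)), cm_exp]
  rw [ep_eq h.hw, mean_congr_supp fun x hx => e x (h.pos hx).2.ne', mean_congr_supp e]

/-- pinned products tensorise exactly -/
theorem at1_pin (hw : Ent.IsProd w) (S : Finset (Fin n)) (sS : Cube n) :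
    AT1 fun x => w x * pin S sS x := fun v h => by
  obtain ⟨q, q1, q2, q3⟩ := hw.exists_ppi
  have W : Wt w := .of_pos hw.pos
  have sp : ∀ x, v x ≠ 0 → ∀ k ∈ S, x k = sS k := fun x hx =>
    of_pin (right_ne_zero_of_mul (h.pos hx).2.ne')
  have qp : ∀ i b, 0 < q i b := fun i b => by
    rw [← q3 i default]
    exact div_pos (hw.pos _) (add_pos (hw.pos _) (hw.pos _))
  have e1 := S1n.kl_pin (g := fun _ => 0) (U := fun _ => 0) (l := pin S sS) hw.pos h (fun x => by simp) pin_exp
  have e2 : log (∑ x, w x * pin S sS x) - log (∑ x, w x) = ∑ i ∈ S, log (q i (sS i)) := by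
    rw [← log_div h.hw.pos.ne' W.pos.ne', ← mean_eq_div, ← log_prod fun i _ => (qp i _).ne']
    congr 1
    have e : ∀ x : Cube n, prob w x * pin S sS x =
        ∏ i, (q i (x i) * if i ∈ S then (if x i = sS i then 1 else 0) else 1) := fun x => by
      rw [q2, Finset.prod_mul_distrib, Finset.prod_ite_mem, Finset.univ_inter, Finset.prod_boole]
      simp [Ent.ppi, pin]
    rw [mean, Finset.sum_congr rfl fun x _ => e x, ← Fintype.piFinset_univ,
      ← Finset.prod_univ_sum (fun _ => Finset.univ) fun i b =>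
        q i b * if i ∈ S then (if b = sS i then 1 else 0) else 1,
      ← Finset.univ_inter S, ← Finset.prod_ite_mem]
    refine Finset.prod_congr rfl fun i _ => ?_
    by_cases hi : i ∈ S
    · simp [hi]
    · simpa [hi] using (q1 i).2
  have e3 : Ar o1 v w + ∑ i ∈ S, log (q i (sS i)) ≤ Ar o1 v fun x => w x * pin S sS x := by
    rw [show ∑ i ∈ S, log (q i (sS i)) = ∑ i, if i ∈ S then log (q i (sS i)) else 0 by
      rw [Finset.sum_ite_mem, Finset.univ_inter], Ar, Ar, ← Finset.sum_add_distrib]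
    refine Finset.sum_le_sum fun i _ => ?_
    split_ifs with hi
    · refine le_trans (le_of_eq ?_) (h.As_nonneg (fun _ => zero_le_one) i)
      rw [As_eq h.hv (off_o1 i), mean_congr_supp (g := fun _ => -log (q i (sS i))) fun x hx => by
        rw [one_mul, lr, (cm_pinned hi sp hx).2, q3, sp x hx i hi, one_div, log_inv],
        h.hv.mean_const, neg_add_cancel]
    · rw [add_zero]
      exact le_of_eq (mean_congr_supp fun x hx => by rw [kls, kls, cnd_pin hi (sp x hx)])
  simp only [h.hv.mean_const] at e1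
  linarith [kl_le_Ar hw h.hv]

theorem herbst1 (W : Wt w) (h : AT1 w) {t : ℝ} (ht : 0 ≤ t)
    (hB : ∀ u, 0 < u → u < t → mean (wt w fun x => u * G x) (CG w G (2 * u)) ≤ B * u ^ 2) :
    log (mean w fun x => exp (t * G x)) ≤ t * mean w G + 1 * B * t ^ 2 := by
  refine Ent.herbst W.isP G ht fun u h0 h1 => ?_
  have m := mean_pos' W fun x => exp_pos (u * G x)
  have e := kl_mul W m.ne'
  have k := h (wt w fun x => u * G x)
    (by simpa [wt_zero] using (Pr.refl W).wt2 (fun x => u * G x) fun _ => 0)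
  have k2 := (Ar_wt_self W G u).trans (hB u h0 h1)
  rw [show kl (wt w fun x => u * G x) w = _ from e, div_le_iff₀ m] at k
  refine k.trans (mul_le_mul_of_nonneg_right ?_ m.le)
  linarith

/-- **UNTILT**, class-free form, pins allowed -/
theorem untilt1 (hw : AT1 w) (p : Pr v w) (hκ : 0 < κ) (hκ1 : κ ≤ 1 / 2)
    (hΦ : ∀ l, |l| ≤ 2 / κ → ∀ x, w x ≠ 0 → CG w G l x ≤ l ^ 2 * Φ x)
    (hB : ∀ u, |u| ≤ 1 / κ → mean (wt w fun x => u * G x) Φ ≤ B) :
    kl v (wt w G) ≤ (1 + 4 * κ) * Ar o1 v (wt w G) + 3 / κ * mean v Φ + 8 / κ * B := by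
  have hv := p.hv
  have W := p.hw
  have k1 : 1 ≤ 1 / κ := by rw [le_div_iff₀ hκ]; linarith
  have key : ∀ u, |u| ≤ 1 / κ → mean (wt w fun x => u * G x) (CG w G (2 * u)) ≤ 4 * B * u ^ 2 :=
    fun u hu => by
      have a : |2 * u| ≤ 2 / κ := by
        rw [abs_mul, abs_two, div_eq_mul_one_div]; linarith
      refine (mean_mono_supp (wt_wt W _) fun x hx => hΦ _ a x (left_ne_zero_of_mul hx)).trans ?_
      rw [mean_const_mul]
      nlinarith [mul_le_mul_of_nonneg_left (hB u hu) (sq_nonneg u)]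
  have a1 := herbst1 (G := G) (B := 4 * B) W hw zero_le_one fun u h0 h1 =>
    key u (by rw [abs_of_pos h0]; linarith)
  have a2 := herbst1 (G := fun x => -G x) (B := 4 * B) W hw
    (zero_le_one.trans k1) fun u h0 h1 => by
      have := key (-u) (by rw [abs_neg, abs_of_pos h0]; exact h1.le)
      simpa [CG_neg] using this
  have a3 := mean_le_kl p fun x => 1 / κ * -G x
  have a4 := hw v p
  have a5 := Ar_wt p G 1
  have a6 := pc_le p G (1 / κ)
  have a7 := mean_mono_supp hv fun x hx => hΦ (1 / κ) (by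
    rw [abs_of_pos (by positivity)]; exact div_le_div_of_nonneg_right one_le_two hκ.le) x
      (p.pos hx).2.ne'
  have a8 := hv.mean_nonneg (CG_nonneg W G 1)
  have a9 := hv.mean_nonneg (CG_nonneg W G (1 / κ))
  have a0 := (p.wt G).Ar_nonneg (r := o1) fun _ _ => zero_le_one
  have b0 : 0 ≤ B := by
    have := ((wt_wt W fun x => 1 * G x).mean_nonneg (CG_nonneg W G _)).trans
      (key 1 (by rwa [abs_one]))
    linarith
  simp only [one_mul, mean_const_mul, mean_neg, one_pow, mul_one] at a1 a2 a3 a5 a7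
  rw [kl_wt p]
  set t := 1 / κ with ht
  have e : κ * t = 1 := by rw [ht]; field_simp
  rw [show 3 / κ = 3 * t by rw [ht]; ring, show 8 / κ = 8 * t by rw [ht]; ring]
  generalize Ar o1 v (wt w G) = A at *
  generalize Ar o1 v w = A0 at *
  generalize mean v Φ = F at *
  generalize log (mean w fun x => exp (G x)) = z1 at *
  generalize log (mean w fun x => exp (t * -G x)) = z2 at *
  have F0 : 0 ≤ t * F := by
    by_contra hc
    nlinarith [mul_pos (zero_lt_one.trans_le k1) (neg_pos.2 (not_le.1 hc))]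
  -- `pc ≤ κ A0 + t F`
  have c1 : pc v w G ≤ κ * A0 + t * F := by
    have := mul_le_mul_of_nonneg_left (a6.trans (add_le_add le_rfl a7)) hκ.le
    calc pc v w G = κ * (t * pc v w G) := by rw [← mul_assoc, e, one_mul]
      _ ≤ _ := this
      _ = κ * A0 + κ * t * (t * F) := by ring
      _ = _ := by rw [e, one_mul]
  have c2 : (1 - κ) * A0 ≤ A + t * F := by linarith
  have c3 : -mean v G ≤ κ * kl v w - mean w G + 4 * B * t := by
    have := mul_le_mul_of_nonneg_left (a3.trans (add_le_add le_rfl a2)) hκ.le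
    calc -mean v G = κ * (t * -mean v G) := by rw [← mul_assoc, e, one_mul]
      _ ≤ _ := this
      _ = κ * kl v w + κ * t * (-mean w G + 4 * B * t) := by ring
      _ = _ := by rw [e, one_mul]; ring
  have c4 : (1 + κ) * A0 ≤ (1 + 4 * κ) * (A + t * F) := by
    have : (1 - κ) * ((1 + κ) * A0) ≤ (1 - κ) * ((1 + 4 * κ) * (A + t * F)) := by
      have h1 := mul_le_mul_of_nonneg_left c2 (show 0 ≤ 1 + κ by linarith)
      have h2 : 0 ≤ κ * (1 - 2 * κ) * (A + t * F) :=
        mul_nonneg (mul_nonneg hκ.le (by linarith)) (add_nonneg a0 F0)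
      nlinarith
    exact le_of_mul_le_mul_left this (by linarith)
  nlinarith [mul_le_mul_of_nonneg_left a4 hκ.le, mul_le_mul_of_nonneg_left k1 b0,
    mul_le_mul_of_nonneg_right hκ1 F0]

/-- product weight with the field `h` -/
def pb (h : Fin n → ℝ) (x : Cube n) : ℝ := exp (h ⬝ᵥ sv x)

/-- pinned and tilted product weight -/
def pP (S : Finset (Fin n)) (sS : Cube n) (h : Fin n → ℝ) (G : Cube n → ℝ) (x : Cube n) : ℝ :=
  exp (h ⬝ᵥ sv x + G x) * pin S sS x

/-- the certificate of a tilt -/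
structure Ct (e L : ℝ) (G : Cube n → ℝ) (O : VF n) (Gh : Cube n → ℝ) : Prop where
  gr : ∀ x, nrm (grad G x) ≤ L
  sup : ∀ x j, |O x j| ≤ e
  op : ∀ x, opn (dM O x) ≤ e
  nr : ∀ x, nrm (O x) ≤ L
  hs : ∀ x, fro (dM O x) ≤ L
  ex : ∀ x, ∑ j, (grad G x j - O x j) ^ 2 ≤ Gh x ^ 2
  ts : Lip2 √e Gh

variable {h : Fin n → ℝ} {O : VF n} {Gh : Cube n → ℝ} {e L : ℝ}

theorem Ct.add (c : Ct e L G O Gh) (a : ℝ) : Ct e L (fun x => G x + a) O Gh := by
  have : grad (fun x => G x + a) = grad G := by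
    ext x j; simp [grad, incr]
  exact ⟨this ▸ c.gr, c.sup, c.op, c.nr, c.hs, this ▸ c.ex, c.ts⟩

theorem Ct.e0 (c : Ct e L G O Gh) : 0 ≤ e := (Eig.opn_nonneg _).trans (c.op default)
theorem Ct.L0 (c : Ct e L G O Gh) : 0 ≤ L := (Eig.nrm_nonneg _).trans (c.gr default)

theorem prod_pb (h : Fin n → ℝ) : Ent.IsProd (pb h) := by
  have := Ent.isProd_one.tilt h
  unfold tilt at this
  simp only [one_mul] at this
  exact this

theorem pP_eq : pP S sS h G = wt (fun x => pb h x * pin S sS x) G := by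
  ext x; simp only [pP, wt, pb, exp_add]; ring

theorem kl_pP (c : Ct e L G O Gh) (u : ℝ) (p : Pr v (pP S sS h G)) :
    kl (wt (fun x => pb h x * pin S sS x) fun x => u * G x) (pb h) ≤
      4 * kl v (pb h) + 216 * (|u| * L) ^ 2 := by
  have := S1n.b1_kl (U := fun _ => 0) (l := pin S sS) (v := v)
    (p := wt (fun x => pb h x * pin S sS x) fun x => u * G x) (prod_pb h).pos (h1_prod (prod_pb h))
    ((Xt.lip2_of_grad c.gr).const_mul u)
    ⟨p.hv, wt_wt (wt_pin (prod_pb h).pos S sS) _, fun x hx => p.ac x (by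
      simp only [wt, pb, pP, mul_eq_zero, exp_ne_zero, false_or, or_false] at hx ⊢; exact hx)⟩
    (fun x => by simp only [wt]; ring) pin_exp fun _ => le_rfl
  rw [p.hv.mean_const] at this
  linarith

/-- the error of the stage over a pinned product law -/
theorem ep_prod (c : Ct e L G O Gh) (e1 : e ≤ 1) (p : Pr v (pP S sS h G)) :
    ep v (pP S sS h G) ⬝ᵥ ep v (pP S sS h G) ≤ 20 * mean v (fun x => Gh x ^ 2) +
      10 ^ 14 * e * (kl v (pb h) + L ^ 2 + 1) := by
  have t := th_part (u := fun _ => h) (g := grad G) (Λ := 1) (prod_pb h).pos (h1_prod (prod_pb h))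
    (by norm_num) p.hv p.hw le_rfl e1 (fun x => by rw [S3.Rg.dM_const]; simp) c.sup c.op c.ex c.ts rfl
  have k := kl_pP c 1 p
  simp only [one_mul, ← pP_eq, abs_one] at k
  have k0 := (S1n.pr_of (prod_pb h).pos p.hv).kl_nonneg
  have k1 := (S1n.pr_of (prod_pb h).pos p.hw).kl_nonneg
  have e0 := c.e0
  refine (Finset.sum_le_sum fun j _ => ?_).trans (t.trans ?_)
  · by_cases hj : j ∈ S
    · rw [ep_pinned p hj fun x hx => of_pin (right_ne_zero_of_mul hx), zero_mul]
      exact mul_self_nonneg _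
    · have := ep_free (G := fun x => h ⬝ᵥ sv x + G x) p hj
      simp only [Rec.grad_add, Rec.grad_lin, Pi.add_apply] at this
      refine le_of_eq (congrArg (fun t => t * t) ?_)
      simp only [Pi.sub_apply, meanV, mean_sub, p.hv.mean_const, p.hw.mean_const]
      exact this.trans (sub_sub_sub_cancel_right _ _ _).symm
  · rw [sq_sqrt e0, one_pow, mul_one]
    have a1 : 10 ^ 10 * e ^ 2 + 128 * e ≤ 2 * 10 ^ 10 * e := by nlinarith
    have a2 : kl v (pb h) + kl (pP S sS h G) (pb h) + 1 ≤ 216 * (kl v (pb h) + L ^ 2 + 1) := by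
      linarith
    nlinarith [mul_le_mul a1 a2 (by linarith) (by positivity), mul_nonneg e0 (sq_nonneg L),
      mul_nonneg e0 k0]

/-- **UNTILT** over a pinned product law -/
theorem untilt2 (c : Ct e L G O Gh) (e0 : 0 < e) (hκe : 8 * e ≤ κ) (hκ1 : κ ≤ 1 / 2)
    (p : Pr v (pP S sS h G)) : kl v (pP S sS h G) ≤ (1 + 4 * κ) * Ar o1 v (pP S sS h G) +
      105 / κ * (mean v (wE (fun j => tanh (h j)) O) + mean v fun x => Gh x ^ 2) +
      10 ^ 8 * e / κ ^ 3 * (kl v (pb h) + L ^ 2 + 1) := by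
  have hκ : 0 < κ := by linarith
  have P := prod_pb h
  have W := wt_pin P.pos S sS
  have H := h1_prod P
  have q1 : ∀ j, |tanh (h j)| ≤ 1 := fun j => (abs_tanh_lt_one _).le
  have k0 := (S1n.pr_of P.pos p.hv).kl_nonneg
  have L0 := c.L0
  have s0 := sqrt_pos.2 e0
  have k2 : 4 ≤ 1 / κ ^ 2 := by rw [le_div_iff₀ (by positivity)]; nlinarith
  set Y := kl v (pb h) + L ^ 2 + 1 with hY
  have hd : (4 * e + 4 * e * L / (√e * (L + 1))) ^ 2 ≤ 64 * e := by
    have a1 : e ≤ √e := le_sqrt_of_sq_le (by nlinarith)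
    have a2 : 4 * e * L / (√e * (L + 1)) ≤ 4 * √e := by
      rw [div_le_iff₀ (by positivity)]
      nlinarith [mul_self_sqrt e0.le]
    have a3 : 0 ≤ 4 * e * L / (√e * (L + 1)) := by positivity
    nlinarith [mul_self_sqrt e0.le, pow_le_pow_left₀ (by positivity)
      (show 4 * e + 4 * e * L / (√e * (L + 1)) ≤ 8 * √e by linarith) 2]
  have := untilt1 (G := G) (Φ := fun x => 3 * wE (fun j => tanh (h j)) O x + 3 * Gh x ^ 2) (v := v)
    (B := 12 * (mean v (wE (fun j => tanh (h j)) O) + mean v fun x => Gh x ^ 2) +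
      10 ^ 7 * e * (1 / κ ^ 2 * Y)) (at1_pin P S sS)
    ⟨p.hv, W, fun x hx => p.ac x (by rw [pP_eq, wt, hx, zero_mul])⟩ hκ hκ1
    (fun l hl x hx => by
      have a : 4 * (|l| * e) ≤ 1 := by
        rw [le_div_iff₀ hκ] at hl
        nlinarith [mul_le_mul_of_nonneg_left hκe (abs_nonneg l)]
      refine (Finset.sum_le_sum fun j _ => cg_split (abs_cm_le W.nn j x) (c.sup x j) a).trans ?_
      simp only [← Finset.mul_sum, Finset.sum_add_distrib]
      refine mul_le_mul_of_nonneg_left (add_le_add (mul_le_mul_of_nonneg_left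
        (Finset.sum_le_sum fun j _ => mul_le_mul_of_nonneg_right ?_ (sq_nonneg _)) (by norm_num))
        (by linarith [c.ex x])) (sq_nonneg l)
      by_cases hj : j ∈ S
      · rw [(cm_pinned hj (fun x hx => of_pin (right_ne_zero_of_mul hx)) hx).1, ← sq_abs (sv sS j),
          abs_sv]
        nlinarith [abs_le.1 (q1 j)]
      · rw [cm_pin hj (of_pin (right_ne_zero_of_mul hx)), show pb h = fun x => exp (h ⬝ᵥ sv x) from rfl,
          cm_exp, Rec.grad_lin])
    fun u hu => by
      have pu := wt_wt W fun x => u * G x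
      have b1 := kl_pP c u p
      have b3 : (|u| * L) ^ 2 ≤ 1 / κ ^ 2 * L ^ 2 := by
        rw [mul_pow, ← _root_.one_div_pow]
        exact mul_le_mul_of_nonneg_right (pow_le_pow_left₀ (abs_nonneg _) hu 2) (sq_nonneg _)
      have b5 := (S1n.pr_of P.pos pu).kl_nonneg
      have c1 := wE_xfer P.pos H (by norm_num) p.hv pu q1 (ρ := √e * (L + 1)) (by positivity) c.op c.hs
      have c2 : mean (wt (fun x => pb h x * pin S sS x) fun x => u * G x) (fun x => Gh x ^ 2) ≤
          4 * mean v (fun x => Gh x ^ 2) + 9 * √e ^ 2 * (32 * kl v (pb h) +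
            16 * kl (wt (fun x => pb h x * pin S sS x) fun x => u * G x) (pb h) + 18) :=
        H.xfer P.pos (by norm_num) c.ts p.hv.isP pu.isP
      rw [mul_pow, sq_sqrt e0.le] at c1
      rw [sq_sqrt e0.le] at c2
      generalize kl (wt (fun x => pb h x * pin S sS x) fun x => u * G x) (pb h) = z at *
      have b4 : 32 * kl v (pb h) + 16 * z + 18 ≤ 3456 * (1 / κ ^ 2 * Y) := by
        nlinarith [mul_le_mul_of_nonneg_right k2 k0]
      have b6 : (L + 1) ^ 2 ≤ 1 / κ ^ 2 * Y := by
        nlinarith [mul_le_mul_of_nonneg_right k2 (show 0 ≤ Y by positivity), sq_nonneg (L - 1)]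
      have c3 := mul_le_mul hd b4 (by positivity) (by positivity)
      have c4 := mul_le_mul_of_nonneg_left b4 e0.le
      have c5 := mul_le_mul_of_nonneg_left b6 e0.le
      have c6 : 0 ≤ e * (1 / κ ^ 2 * Y) := by positivity
      rw [mean_add, mean_const_mul, mean_const_mul]
      nlinarith
  rw [mean_add, mean_const_mul, mean_const_mul, ← pP_eq] at this
  refine this.trans ?_
  have : 0 ≤ e / κ ^ 3 * Y := by positivity
  have e1 : 8 / κ * (10 ^ 7 * e * (1 / κ ^ 2 * Y)) = 8 * 10 ^ 7 * (e / κ ^ 3 * Y) := by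
    field_simp
  have e2 : 10 ^ 8 * e / κ ^ 3 * Y = 10 ^ 8 * (e / κ ^ 3 * Y) := by ring
  rw [mul_add (8 / κ), e1, e2]
  ring_nf
  ring_nf at this
  linarith

theorem fR_one : fR (1 : Matrix (Fin n) (Fin n) ℝ) = sv := by ext x; rw [fR, one_mulVec]

theorem post_pP (t : ℝ) (y : Fin n → ℝ) :
    post sv (pP S sS h G) t y = pP S sS (h + y) fun x => G x + -(t / 2 * n) := by
  ext x
  simp only [post_sv, tilt, pP, add_dotProduct, exp_add]; ring

theorem kl_pb (v : Cube n → ℝ) (t : ℝ) (h y : Fin n → ℝ) :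
    kl v (pb (h + y)) = kl v (post sv (pb h) t y) := by
  have : pb (h + y) = tilt (pb h) y := by ext x; simp only [pb, tilt, add_dotProduct, exp_add]
  simp only [kl, prob_post_sv, this]

theorem mg_sech (a : ℝ) (j : Fin n) : MG fun y : Fin n → ℝ => 1 - tanh (a + y j) ^ 2 :=
  .of_bdd (by
    simp only [tanh_eq_sinh_div_cosh]; fun_prop) 1 fun y => by
    have := abs_le.1 (abs_tanh_lt_one (a + y j)).le
    rw [abs_le]; constructor <;> nlinarith

theorem slE_wE (hv : Wt v) {T : ℝ} (hT : 0 < T) (hO : ∀ x, nrm (O x) ≤ L) :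
    slE sv v T (fun _ y => mean (post sv v T y) (wE (fun j => tanh ((h + y) j)) O)) ≤
      2 / √T * L ^ 2 := by
  have m : ∀ x, MG fun y : Fin n → ℝ => wE (fun j => tanh ((h + y) j)) O x := fun x =>
    .sum _ fun j _ => (mg_sech (h j) j).mul (.const _)
  rw [← bayes hv hT.le (.of_mg m), slE_eq_mean]
  refine hv.mean_le fun x => ?_
  simp only [wE, Pi.add_apply, Pi.smul_apply, smul_eq_mul]
  rw [integral_finsetSum _ fun j _ => by
    simpa using (((mg_sech (h j) j).affine (T • sv x) √T).mul (.const (O x j ^ 2))).int]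
  refine (Finset.sum_le_sum fun j _ => ?_ : _ ≤ ∑ j, 2 / √T * O x j ^ 2).trans ?_
  · rw [integral_mul_const]
    refine mul_le_mul_of_nonneg_right ?_ (sq_nonneg _)
    have := int_sech (Pi.single j √T) (h j + T * sv x j) hT (by simp [mul_self_sqrt hT.le])
    simpa only [single_dotProduct, add_assoc] using this
  · rw [← Finset.mul_sum, ← S3.Rg.nrm_sq']
    exact mul_le_mul_of_nonneg_left (pow_le_pow_left₀ (Eig.nrm_nonneg _) (hO x) 2) (by positivity)

/-- **FIN**: the identity stage of length `T` and the untilting -/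
theorem fin2 (c : Ct e L G O Gh) (e0 : 0 < e) (hκe : 8 * e ≤ κ) (hκ1 : κ ≤ 1 / 2) {lam a T : ℝ}
    (a0 : 0 ≤ a) (a1 : a ≤ 1) (ha : a * (1 + 4 * κ) ≤ lam) (hT : 1 ≤ T) (p : Pr v (pP S sS h G)) :
    0 ≤ lam * Ar o1 v (pP S sS h G) - a * kl v (pP S sS h G) + 210 / (κ * √T) * L ^ 2 +
      125 * T / κ * mean v (fun x => Gh x ^ 2) +
      2 * 10 ^ 14 * e * T / κ ^ 3 * (kl v (pb h) + L ^ 2 + 1) := by
  have hκ : 0 < κ := by linarith
  have T0 : 0 < T := by linarith
  have hv := p.hv
  have pb' := S1n.pr_of (prod_pb h).pos hv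
  have k0 := pb'.kl_nonneg
  have g0 := hv.mean_nonneg fun x => sq_nonneg (Gh x)
  have m1 : ∀ t, MG fun y => mean (post sv v t y) fun x => Gh x ^ 2 := fun t =>
    mg_mean hv t fun _ => .const _
  have m2 : ∀ t, MG fun y => kl (post sv v t y) (post sv (pb h) t y) := fun t =>
    (xg_kl pb' (lg_lk sv t) (lg_lk sv t)).mg
  have key : ∀ t, 0 ≤ t → ∀ c1 c2 : ℝ, 0 ≤ c2 → slE sv v t (fun _ y =>
      c1 * mean (post sv v t y) (fun x => Gh x ^ 2) +
        c2 * (kl (post sv v t y) (post sv (pb h) t y) + L ^ 2 + 1)) ≤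
      c1 * mean v (fun x => Gh x ^ 2) + c2 * (kl v (pb h) + L ^ 2 + 1) := fun t ht c1 c2 h2 => by
    rw [slE_add (.of_mg fun _ => (m1 t).const_mul _)
      (.of_mg fun _ => (((m2 t).add (.const _)).add (.const _)).const_mul _), slE_const_mul,
      slE_const_mul, slE_mean hv ht, slE_add (.of_mg fun _ => (m2 t).add (.const _))
      (.of_mg fun _ => .const _), slE_add (.of_mg fun _ => m2 t) (.of_mg fun _ => .const _),
      slE_fun, slE_fun, hv.mean_const, hv.mean_const]
    have := kl_chan_le (φ := sv) pb' ht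
    gcongr
  have pt : ∀ t y, Pr (post sv v t y) (pP S sS (h + y) fun x => G x + -(t / 2 * n)) := fun t y =>
    post_pP (G := G) t y ▸ p.post sv t t y y
  have st := stage_const (R := (1 : Matrix (Fin n) (Fin n) ℝ)) (m := 1) (m' := 1) (k := κ) (lam := lam)
    (B := 20 * mean v (fun x => Gh x ^ 2) + 10 ^ 14 * e * (kl v (pb h) + L ^ 2 + 1)) p
    (fun i => by simp [one_apply]) (fun u => by simp) zero_le_one (by nlinarith) a0 hκ (by nlinarith)
    T0.le fun t ht => by
      rw [fR_one]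
      refine le_trans (slE_mono hv (.of_mg fun _ => (eg_ep2 (I := univ) hv p.hw).mg (mem_univ t))
        (.of_mg fun _ => ((m1 t).const_mul _).add ((((m2 t).add (.const _)).add (.const _)).const_mul _))
        fun _ y => ?_) (key t ht.1 20 (10 ^ 14 * e) (by positivity))
      rw [post_pP, ← kl_pb]
      exact ep_prod (c.add _) (by linarith) (pt t y)
  rw [fR_one] at st
  have mw : MG fun y => mean (post sv v T y) (wE (fun j => tanh ((h + y) j)) O) :=
    mg_mean hv T fun x => .sum _ fun j _ => (mg_sech (h j) j).mul (.const _)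
  have mr := ((m1 T).const_mul (105 / κ)).add
    ((((m2 T).add (.const (L ^ 2))).add (.const 1)).const_mul (10 ^ 8 * e / κ ^ 3))
  have lo := slE_mono (φ := sv) (s := T) hv (.of_mg fun _ => ((mw.const_mul (105 / κ)).add mr).neg)
    (.of_mg fun _ => ((((eg_Ar (φ := sv) (Metric.isBounded_Icc T T) p off_o1).const_mul lam).sub
      ((eg_kl (Metric.isBounded_Icc T T) p).const_mul a)).mg (left_mem_Icc.2 le_rfl))) fun _ y => by
      have u := untilt2 (c.add _) e0 hκe hκ1 (pt T y)
      have z1 := (pt T y).Ar_nonneg (r := o1) fun _ _ => zero_le_one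
      have z2 := (pt T y).kl_nonneg
      have z3 := (pt T y).hv.mean_nonneg
        (wE_nonneg (q := fun j => tanh ((h + y) j)) (fun _ => (abs_tanh_lt_one _).le) O)
      have z4 := (pt T y).hv.mean_nonneg fun x => sq_nonneg (Gh x)
      have z5 := (S1n.pr_of (prod_pb (h + y)).pos (pt T y).hv).kl_nonneg
      simp only [pw]
      rw [post_pP, ← kl_pb]
      have z6 : 0 ≤ 105 / κ * (mean (post sv v T y) (wE (fun j => tanh ((h + y) j)) O) +
          mean (post sv v T y) fun x => Gh x ^ 2) +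
          10 ^ 8 * e / κ ^ 3 * (kl (post sv v T y) (pb (h + y)) + L ^ 2 + 1) := by positivity
      nlinarith [mul_le_mul_of_nonneg_left u a0, mul_le_mul_of_nonneg_right ha z1,
        mul_le_mul_of_nonneg_right a1 z6]
  rw [slE_neg, slE_add (.of_mg fun _ => mw.const_mul _) (.of_mg fun _ => mr), slE_const_mul] at lo
  have w1 := slE_wE (h := h) hv T0 c.nr
  have w2 := key T T0.le (105 / κ) (10 ^ 8 * e / κ ^ 3) (by positivity)
  have w3 := mul_le_mul_of_nonneg_left w1 (show 0 ≤ 105 / κ by positivity)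
  simp only [pw] at lo
  set Y := kl v (pb h) + L ^ 2 + 1
  set X := mean v fun x => Gh x ^ 2
  have Y0 : 0 ≤ e * Y := by positivity
  set t := 1 / κ with ht
  have t2 : 2 ≤ t := by rw [ht, le_div_iff₀ hκ]; linarith
  have f1 : a * 1 / 2 * (1 + t) ≤ t := by nlinarith
  have f2 := mul_le_mul_of_nonneg_right f1 (show 0 ≤ T * (20 * X + 10 ^ 14 * e * Y) by positivity)
  have f3 : t * (T * (e * Y)) ≤ t ^ 3 * (T * (e * Y)) :=
    mul_le_mul_of_nonneg_right (le_self_pow₀ (by linarith) three_ne_zero) (by positivity)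
  have f4 : t ^ 3 * (e * Y) ≤ t ^ 3 * (T * (e * Y)) :=
    mul_le_mul_of_nonneg_left (le_mul_of_one_le_left Y0 hT) (by positivity)
  have f5 : t * X ≤ t * (T * X) := mul_le_mul_of_nonneg_left (le_mul_of_one_le_left g0 hT) (by positivity)
  have f6 : 0 ≤ t ^ 3 * (T * (e * Y)) := by positivity
  have e1 : 210 / (κ * √T) * L ^ 2 = 105 / κ * (2 / √T * L ^ 2) := by ring
  have e2 : 125 * T / κ * X = 125 * (t * (T * X)) := by rw [ht]; ring
  have e3 : 2 * 10 ^ 14 * e * T / κ ^ 3 * Y = 2 * 10 ^ 14 * (t ^ 3 * (T * (e * Y))) := by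
    rw [ht]; ring
  have e4 : 105 / κ * X = 105 * (t * X) := by rw [ht]; ring
  have e5 : 10 ^ 8 * e / κ ^ 3 * Y = 10 ^ 8 * (t ^ 3 * (e * Y)) := by rw [ht]; ring
  rw [e4, e5] at w2
  rw [e1, e2, e3]
  nlinarith

end Crest.Agent.T157.EnS
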