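import Crest.Agent.T157.EnDef_40
import Crest.Agent.T157.EnFi_95

/-!
# Row 157, block B, S1, END: the leaf UT (helper38)
-/

set_option autoImplicit false

noncomputable section

namespace Crest.Agent.T157.En

open Real Matrix
open Crest.Agent.T157.E Crest.Agent.T157.SL Crest.Agent.T157.Ta
open Crest.Agent.T157.EnS (o1 pb wE prod_pb cm_exp untilt wE_nonneg)
open Crest.Agent.T157.Rec (grad)
open Crest.Agent.T157.Eig (nrm opn)
open Crest.Agent.T157.S3 (V Mx hf Dg)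

namespace Ut38

theorem arith {K A X Y e L κ a l : ℝ} (hK : 0 ≤ K) (hA : 0 ≤ A) (hX : 0 ≤ X) (he : 0 < e)
    (hκ : 0 < κ) (hκ1 : κ ≤ 1 / 2) (hC : 10 ^ 11 * e ≤ κ ^ 2) (a0 : 0 ≤ a) (a1 : a ≤ 1)
    (hl : a + κ ≤ l) (hY : Y = (√e * (L + 1)) ^ 2)
    (h : K ≤ (1 + 4 * (κ / 8)) * A + 105 / (κ / 8) * X + 72 / (κ / 8) * Y +
      186624 / (κ / 8) * (65 * e) * (K + (2 * L) ^ 2 / (κ / 8) ^ 2 + 1)) :
    a * K ≤ l * A + 10 ^ 11 / κ * X + 10 ^ 11 * e / κ ^ 3 * (L ^ 2 + 1) := by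
  obtain ⟨t, ht⟩ : ∃ t, t = 1 / κ := ⟨_, rfl⟩
  have t2 : 2 ≤ t := by rw [ht, le_div_iff₀ hκ]; linarith
  have e1 : κ * t = 1 := by rw [ht]; field_simp
  rw [mul_pow, sq_sqrt he.le] at hY
  have r1 : 105 / (κ / 8) * X = 840 * (t * X) := by rw [ht]; field_simp; ring
  have r2 : 72 / (κ / 8) * Y = 576 * (t * e * (L + 1) ^ 2) := by rw [ht, hY]; field_simp; ring
  have r3 : 186624 / (κ / 8) * (65 * e) * (K + (2 * L) ^ 2 / (κ / 8) ^ 2 + 1) =
      97044480 * (t * e * K) + 97044480 * (256 * (t ^ 3 * e * L ^ 2) + t * e) := by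
    rw [ht]; field_simp; ring
  have r4 : 10 ^ 11 / κ * X = 10 ^ 11 * (t * X) := by rw [ht]; ring
  have r5 : 10 ^ 11 * e / κ ^ 3 * (L ^ 2 + 1) = 10 ^ 11 * (t ^ 3 * e * L ^ 2 + t ^ 3 * e) := by
    rw [ht]; ring
  rw [r1, r2, r3] at h
  rw [r4, r5]
  have t3 : t ≤ t ^ 3 := le_self_pow₀ (by linarith) three_ne_zero
  have s1 : 10 ^ 11 * (t * e) ≤ κ := by
    have := mul_le_mul_of_nonneg_left hC (show 0 ≤ t by linarith)
    calc 10 ^ 11 * (t * e) = t * (10 ^ 11 * e) := by ring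
      _ ≤ t * κ ^ 2 := this
      _ = κ * t * κ := by ring
      _ = κ := by rw [e1, one_mul]
  have s2 : 10 ^ 11 * (t * e * K) ≤ κ * K := by
    have := mul_le_mul_of_nonneg_right s1 hK
    linarith
  have s3 : t * e ≤ t ^ 3 * e := mul_le_mul_of_nonneg_right t3 he.le
  have s4 : t * e * (L + 1) ^ 2 ≤ 2 * (t ^ 3 * e * L ^ 2 + t ^ 3 * e) := by
    have : t * e * (L + 1) ^ 2 ≤ t ^ 3 * e * (2 * (L ^ 2 + 1)) :=
      mul_le_mul s3 (by nlinarith [sq_nonneg (L - 1)]) (sq_nonneg _) (by positivity)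
    linarith
  have p1 : 0 ≤ t * X := by positivity
  have p2 : 0 ≤ t ^ 3 * e * L ^ 2 := by positivity
  have p3 : 0 ≤ t ^ 3 * e := by positivity
  have p4 : 0 ≤ κ * K := by positivity
  have p5 : 0 ≤ κ * A := by positivity
  obtain ⟨R, hR⟩ : ∃ R, R = 10 ^ 11 * (t * X) + 10 ^ 11 * (t ^ 3 * e * L ^ 2 + t ^ 3 * e) := ⟨_, rfl⟩
  have R0 : 0 ≤ R := by rw [hR]; positivity
  have c1 : (1 - κ / 8) * K ≤ (1 + κ / 2) * A + R / 2 := by linarith
  have c2 : K ≤ (1 + κ) * A + R := by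
    refine le_of_mul_le_mul_left (c1.trans ?_) (show 0 < 1 - κ / 8 by linarith)
    have q1 := mul_le_mul_of_nonneg_right hκ1 p5
    have q2 := mul_le_mul_of_nonneg_right hκ1 R0
    linarith
  have c3 := mul_le_mul_of_nonneg_left c2 a0
  have c4 := mul_le_mul_of_nonneg_right a1 R0
  have c5 := mul_le_mul_of_nonneg_right a1 p5
  have c6 := mul_le_mul_of_nonneg_right hl hA
  linarith

end Ut38

/-- **UT** -/
theorem utStmt : UtStmt := by
  refine ⟨10 ^ 11, by norm_num, fun n Θ G Ω xs e L r a θ m κ l c he hκ hκ1 hC a0 a1 hl h v w Λ hv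
    ⟨b, hw⟩ _ => ?_⟩
  have L0 := c.L0
  have s0 := sqrt_pos.2 he
  have e1 : e ≤ 1 := by nlinarith
  have ew : w = wt (pb h) fun x => Θ x + b := by
    ext x; simp [hw x, wt, pb, ising]
  have eg : grad (fun x => Θ x + b) = grad Θ := by
    ext x j; simp [grad, incr]
  have hd : (4 * e + 4 * e * L / (√e * (L + 1))) ^ 2 + √e ^ 2 ≤ 65 * e := by
    have a1 : e ≤ √e := le_sqrt_of_sq_le (by nlinarith)
    have a2 : 4 * e * L / (√e * (L + 1)) ≤ 4 * √e := by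
      rw [div_le_iff₀ (by positivity)]
      nlinarith [mul_self_sqrt he.le]
    have a3 : 0 ≤ 4 * e * L / (√e * (L + 1)) := by positivity
    nlinarith [mul_self_sqrt he.le, pow_le_pow_left₀ (by positivity)
      (show 4 * e + 4 * e * L / (√e * (L + 1)) ≤ 8 * √e by linarith) 2]
  have u := untilt (G := fun x => Θ x + b) (κ := κ / 8) (prod_pb h) hv (by positivity) (by linarith)
    (q := fun j => tanh (h j)) (fun j x => by
      rw [show pb h = fun x => exp (h ⬝ᵥ sv x) from rfl, cm_exp, Rec.grad_lin])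
    (O := Ω) (Gh := G) (e := e) (h := L) (ρ := √e * (L + 1)) (a := √e) (L := 2 * L) (d := 65 * e)
    (by nlinarith) (fun x j => (norm_le_pi_norm (Ω x) j).trans (c.rg x).1) (by positivity)
    (fun x => (c.rg x).2.1) (fun x => S3.Rg.fro_le_of_sq L0 (c.rg x).2.2.2)
    (Xt.lip2_of_grad (eg ▸ c.gr)) (fun x => by
      have := pow_le_pow_left₀ (Eig.nrm_nonneg _) (c.ex x) 2
      rwa [S3.Rg.nrm_sq', ← eg] at this)
    (fun x => le_sqrt_of_sq_le (by rw [S3.Rg.nrm_sq']; exact c.ts x)) hd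
  rw [← ew] at u
  have p : Pr v w := ew ▸ (S1n.pr_of (prod_pb h).pos hv).wt _
  have ef : F1 0 h Ω = wE (fun j => tanh (h j)) Ω := by
    ext x; simp [F1, wE, Dg, hf, dotProduct, sq]
  have z := Ut38.arith p.kl_nonneg (p.Ar_nonneg (r := o1) fun _ _ => zero_le_one)
    (add_nonneg (hv.mean_nonneg (wE_nonneg (fun _ => (abs_tanh_lt_one _).le) Ω))
      (hv.mean_nonneg fun x => sq_nonneg (G x))) he hκ hκ1 hC a0 a1 hl rfl u
  simp only [ef, Ex, zero_mul, add_zero]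
  linarith

end Crest.Agent.T157.En

end
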