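import Crest.Agent.T157.TaS_40

/-!
# Row 157, block B, S1, END: the common-observation stage (helper95)

Exact Itô drift of the site entropies `A` and of `H` along a common channel; the stage inequality.
-/

set_option autoImplicit false
set_option linter.unusedSectionVars false

noncomputable section

namespace Crest.Agent.T157.EnS

open MeasureTheory Real Matrix Function Set
open Crest.Agent.T157.E Crest.Agent.T157.SL Crest.Agent.T157.Ta
open Crest.Agent.T157.Rec (grad)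

section gen
variable {Ω ι : Type*} [Fintype Ω] [Fintype ι] [DecidableEq ι] {φ : Ω → ι → ℝ} {v w : Ω → ℝ}
  {I : Set ℝ}

theorem pr_eq (h : Pr v w) : v = fun x => w x * (v x / w x) := by
  ext x
  by_cases hx : w x = 0
  · rw [hx, h.ac x hx, zero_mul]
  · field_simp

theorem pr_mean_pos (h : Pr v w) : 0 < mean w fun x => v x / w x := by
  rw [mean_eq_div]
  refine div_pos ?_ h.hw.pos
  have := h.hv.pos
  rwa [pr_eq h] at this

/-- the drift of `H` -/
theorem ito_kl' (hI : Bornology.IsBounded I) (h : Pr v w) : ∃ b, Ito (md φ v) I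
    (fun p => kl (pw φ v p) (pw φ w p)) (fun p => -(∑ k, (md φ v k p - md φ w k p) ^ 2) / 2) b :=
  ⟨_, ito_kl hI h.hw (fun x => div_nonneg (h.hv.nn x) (h.hw.nn x)) (pr_mean_pos h) (pr_eq h)⟩

end gen

variable {ι : Type*} [Fintype ι] [DecidableEq ι] {n : ℕ} {φ : Cube n → ι → ℝ}
  {u v w : Cube n → ℝ} {i : Fin n} {I : Set ℝ}

/-- squared length of the increment of the features at the site `i` -/
def gq (φ : Cube n → ι → ℝ) (i : Fin n) (x : Cube n) : ℝ := ∑ k, grad (fun x => φ x k) x i ^ 2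

theorem pw_ne {x : Cube n} (hx : v x ≠ 0) (p : Pt ι) : pw φ v p x ≠ 0 := mul_ne_zero hx (exp_pos _).ne'

theorem md_edge (v : Cube n → ℝ) (i : Fin n) (x : Cube n) (k : ι) (p : Pt ι) :
    md (fun b => φ (update x i b)) (fun b => v (update x i b)) k p =
      siteM (pw φ v p) (fun x => φ x k) i x := by
  rw [siteM_eq_mean]; rfl

/-- the drift of the site term -/
theorem ito_As (hI : Bornology.IsBounded I) (h : Pr v w) (hu : OffAt i u) : ∃ b, Ito (md φ v) I
    (fun p => As u (pw φ v p) (pw φ w p) i)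
    (fun p => -mean (pw φ v p) (fun x => u x * gq φ i x * chi (pw φ v p) (pw φ w p) i x ^ 2) / 2)
    b := by
  classical
  have he : ∀ x, v x ≠ 0 → _ := fun x hx =>
    ito_kl (φ := fun b => φ (update x i b)) hI (h.edge i hx).hw
      (fun b => div_nonneg ((h.edge i hx).hv.nn b) ((h.edge i hx).hw.nn b))
      (pr_mean_pos (h.edge i hx)) (pr_eq (h.edge i hx))
  set B : Cube n → ι → Pt ι → ℝ := fun x k p =>
    covV (pw (fun b => φ (update x i b)) (fun b => v (update x i b)) p)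
      (fun b => log (v (update x i b) / w (update x i b))) (fun b => φ (update x i b)) k -
      (md (fun b => φ (update x i b)) (fun b => v (update x i b)) k p -
        md (fun b => φ (update x i b)) (fun b => w (update x i b)) k p) with hB
  have h1 : ∀ x, Ito (fun k _ => φ x k) I
      (fun p => if v x = 0 then 0 else u x * kls (pw φ v p) (pw φ w p) i x)
      (fun p => if v x = 0 then 0 else u x * (-(gq φ i x * chi (pw φ v p) (pw φ w p) i x ^ 2) / 2 +
        ∑ k, (φ x k - siteM (pw φ v p) (fun x => φ x k) i x) * B x k p))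
      fun k p => if v x = 0 then 0 else u x * B x k p := fun x => by
    by_cases hx : v x = 0
    · simp only [hx, if_true]; exact .const 0
    simp only [hx, if_false, kls_eq_kl]
    refine (((he x hx).drift fun k _ => φ x k).const_mul (u x)).congr (fun p _ => ?_) fun _ _ _ => rfl
    have e := fun k => siteM_sub_siteM (h.post φ p.1 p.1 p.2 p.2) (pw_ne hx p) (fun x => φ x k) i
    simp only [md_edge, hB, gq, Finset.sum_mul, ← mul_pow]
    congr 4
    exact Finset.sum_congr rfl fun k _ => by rw [← e k]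
  have hp := fun p : Pt ι => h.hv.post φ p.1 p.2
  have z : ∀ (p : Pt ι) (F : Cube n → ℝ), mean (pw φ v p) (fun x => if v x = 0 then 0 else F x) =
      mean (pw φ v p) F := fun p F => mean_congr_supp fun x hx => if_neg fun e => hx (by
    simp [pw, post, e])
  have h2 := ito_mean' (φ := φ) h.hv h1
  simp only [z] at h2
  refine ⟨_, h2.congr (fun p _ => ?_) fun _ _ _ => rfl⟩
  have o : ∀ k, OffAt i fun x => u x * B x k p := fun k => hu.mul fun x b => by
    simp only [hB, update_idem]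
  have e : ∀ x, u x * (-(gq φ i x * chi (pw φ v p) (pw φ w p) i x ^ 2) / 2 +
      ∑ k, (φ x k - siteM (pw φ v p) (fun x => φ x k) i x) * B x k p) =
      -(u x * gq φ i x * chi (pw φ v p) (pw φ w p) i x ^ 2) / 2 +
      ∑ k, (u x * B x k p * φ x k - u x * B x k p * siteM (pw φ v p) (fun x => φ x k) i x) :=
    fun x => by
      rw [mul_add, Finset.mul_sum]
      congr 1
      · ring
      · exact Finset.sum_congr rfl fun k _ => by ring
  simp only [e, mean_add, mean_sum, mean_sub, mean_off (hp p) (o _), sub_self, Finset.sum_const_zero,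
    add_zero, mean_div_const, mean_neg]

theorem ito_Ar {r : Fin n → Cube n → ℝ} (hI : Bornology.IsBounded I) (h : Pr v w) (hr : Off r) :
    ∃ b, Ito (md φ v) I (fun p => Ar r (pw φ v p) (pw φ w p))
    (fun p => -(∑ i, mean (pw φ v p) fun x =>
      r i x * gq φ i x * chi (pw φ v p) (pw φ w p) i x ^ 2) / 2) b := by
  choose b hb using fun i => ito_As (φ := φ) hI h (hr i)
  refine ⟨_, (Ito.sum Finset.univ fun i _ => hb i).congr (fun p _ => ?_) fun _ _ _ => rfl⟩
  simp only [neg_div, Finset.sum_neg_distrib, Finset.sum_div]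

/-- features `R s` -/
def fR (R : Matrix ι (Fin n) ℝ) (x : Cube n) : ι → ℝ := R *ᵥ sv x

/-- unit weights -/
abbrev o1 : Fin n → Cube n → ℝ := fun _ _ => 1

/-- `(v - w) T^w`, `T^w` the conditional means of `w` -/
def ep (v w : Cube n → ℝ) : Fin n → ℝ := fun i => mean v (cm w i) - mag w i

/-- the mean of `χ` -/
def mc (v w : Cube n → ℝ) : Fin n → ℝ := fun i => mean v (chi v w i)

/-- the total square of `χ` -/
def Xc (v w : Cube n → ℝ) : ℝ := ∑ i, mean v fun x => chi v w i x ^ 2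

theorem off_o1 : Off (o1 (n := n)) := fun i => OffAt.const i 1

theorem gq_fR (R : Matrix ι (Fin n) ℝ) (i : Fin n) (x : Cube n) :
    gq (fR R) i x = ∑ k, R k i ^ 2 :=
  Finset.sum_congr rfl fun k _ => by
    rw [show (fun x => fR R x k) = fun x => R k ⬝ᵥ sv x from rfl, Rec.grad_lin]

theorem meanV_fR (R : Matrix ι (Fin n) ℝ) (v : Cube n → ℝ) : meanV v (fR R) = R *ᵥ mag v := by
  ext k
  exact (meanV_dot v sv (R k)).symm

theorem Dm_eq (hv : Wt v) (w : Cube n → ℝ) : Dm v w = mc v w + ep v w := by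
  ext i
  have := mean_chi hv (OffAt.const i (1 : ℝ)) w
  simp only [one_mul] at this
  simp only [Dm, mc, ep, Pi.add_apply, Pi.sub_apply]
  rw [show mean v (chi v w i) = _ from this]
  simp only [mag, meanV]; ring

theorem mc_sq_le (hv : Wt v) (w : Cube n → ℝ) : mc v w ⬝ᵥ mc v w ≤ Xc v w :=
  Finset.sum_le_sum fun i _ => by
    have := hv.var_nonneg (chi v w i)
    rw [var_eq_cov, hv.cov_eq] at this
    simp only [mc, sq]; linarith

theorem Xc_nonneg (hv : Wt v) (w : Cube n → ℝ) : 0 ≤ Xc v w :=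
  Finset.sum_nonneg fun _ _ => hv.mean_nonneg fun _ => sq_nonneg _

/-- Pinsker -/
theorem Xc_le (h : Pr v w) : Xc v w ≤ 2 * Ar o1 v w := by
  rw [Ar, Finset.mul_sum]
  refine Finset.sum_le_sum fun i _ => ?_
  rw [As, ← mean_const_mul]
  exact mean_mono_supp h.hv fun x hx => by linarith [chi_sq_le h i hx]

theorem add_sq_le {k : ℝ} (hk : 0 < k) (a b : Fin n → ℝ) :
    (a + b) ⬝ᵥ (a + b) ≤ (1 + k) * (a ⬝ᵥ a) + (1 + 1 / k) * (b ⬝ᵥ b) := by
  simp only [dotProduct, Finset.mul_sum, ← Finset.sum_add_distrib, Pi.add_apply]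
  refine Finset.sum_le_sum fun i _ => ?_
  have : 0 ≤ (k * a i - b i) ^ 2 / k := by positivity
  have e : (k * a i - b i) ^ 2 / k = k * (a i * a i) - 2 * (a i * b i) + 1 / k * (b i * b i) := by
    field_simp; ring
  nlinarith

/-- `|Δ|² ≤ (1+k) X + (1+1/k) |ε|²` -/
theorem Dm_sq_le (hv : Wt v) (w : Cube n → ℝ) {k : ℝ} (hk : 0 < k) :
    Dm v w ⬝ᵥ Dm v w ≤ (1 + k) * Xc v w + (1 + 1 / k) * (ep v w ⬝ᵥ ep v w) := by
  rw [Dm_eq hv]
  refine (add_sq_le hk _ _).trans ?_
  gcongr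
  exact mc_sq_le hv w

theorem eg_cm (hw : Wt w) (i : Fin n) (x : Cube n) : EG I fun p => cm (pw φ w p) i x := by
  by_cases h : w (update x i true) + w (update x i false) = 0
  · have h1 : w (update x i true) = 0 := by linarith [hw.nn (update x i true), hw.nn (update x i false)]
    have h2 : w (update x i false) = 0 := by linarith
    simp only [Ta.cm, siteM, pw, post, h1, h2, zero_mul, add_zero, div_zero]
    exact .const 0
  · have : Wt fun b => w (update x i b) := ⟨fun _ => hw.nn _, by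
      rw [Fintype.sum_bool]
      exact (add_nonneg (hw.nn _) (hw.nn _)).lt_of_ne' h⟩
    simp only [Ta.cm, siteM_eq_mean]
    exact eg_mean (φ := fun b => φ (update x i b)) this _

theorem eg_ep (hv : Wt v) (hw : Wt w) (i : Fin n) : EG I fun p => ep (pw φ v p) (pw φ w p) i :=
  (eg_mean' hv fun x => eg_cm hw i x).sub (eg_mean hw _)

theorem eg_ep2 (hv : Wt v) (hw : Wt w) :
    EG I fun p => ep (pw φ v p) (pw φ w p) ⬝ᵥ ep (pw φ v p) (pw φ w p) :=
  eg_dot (eg_ep hv hw) (eg_ep hv hw)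

theorem eg_Xc (hv : Wt v) (hw : Wt w) : EG I fun p => Xc (pw φ v p) (pw φ w p) :=
  .sum _ fun i _ => eg_mean' hv fun x => ((eg_cm hv i x).sub (eg_cm hw i x)).pow 2

theorem eg_Ar {r : Fin n → Cube n → ℝ} (hI : Bornology.IsBounded I) (h : Pr v w) (hr : Off r) :
    EG I fun p => Ar r (pw φ v p) (pw φ w p) := (ito_Ar hI h hr).choose_spec.eg

theorem eg_kl (hI : Bornology.IsBounded I) (h : Pr v w) : EG I fun p => kl (pw φ v p) (pw φ w p) :=
  (ito_kl' hI h).choose_spec.eg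

/-- the exact drift of `lam A - a H` along the channel `R s` -/
theorem ito_pot (hI : Bornology.IsBounded I) (h : Pr v w) (R : Matrix ι (Fin n) ℝ) (lam a : ℝ) :
    ∃ b, Ito (md (fR R) v) I
      (fun p => lam * Ar o1 (pw (fR R) v p) (pw (fR R) w p) - a * kl (pw (fR R) v p) (pw (fR R) w p))
      (fun p => a / 2 * ((R *ᵥ Dm (pw (fR R) v p) (pw (fR R) w p)) ⬝ᵥ
          (R *ᵥ Dm (pw (fR R) v p) (pw (fR R) w p))) - lam / 2 * ∑ i, (∑ k, R k i ^ 2) *
        mean (pw (fR R) v p) fun x => chi (pw (fR R) v p) (pw (fR R) w p) i x ^ 2) b := by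
  obtain ⟨b, hb⟩ := ito_Ar (φ := fR R) hI h off_o1
  obtain ⟨b', hb'⟩ := ito_kl' (φ := fR R) hI h
  refine ⟨_, ((hb.const_mul lam).sub (hb'.const_mul a)).congr (fun p _ => ?_) fun _ _ _ => rfl⟩
  simp only [gq_fR, one_mul, mean_const_mul, md, meanV_fR, Dm, mulVec_sub, dotProduct, Pi.sub_apply,
    ← sq]
  ring

/-- the pointwise drift bound -/
theorem drift_le (h : Pr v w) {R : Matrix ι (Fin n) ℝ} {m m' lam a k : ℝ}
    (hm : ∀ i, m ≤ ∑ k, R k i ^ 2) (hm' : ∀ u, (R *ᵥ u) ⬝ᵥ (R *ᵥ u) ≤ m' * (u ⬝ᵥ u)) (m0 : 0 ≤ m')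
    (hl : 0 ≤ lam) (ha : 0 ≤ a) (hk : 0 < k) (hc : a * m' * (1 + k) ≤ lam * m) :
    a / 2 * ((R *ᵥ Dm v w) ⬝ᵥ (R *ᵥ Dm v w)) - lam / 2 * ∑ i, (∑ k, R k i ^ 2) *
      mean v (fun x => chi v w i x ^ 2) ≤ a * m' / 2 * (1 + 1 / k) * (ep v w ⬝ᵥ ep v w) := by
  have h1 : m * Xc v w ≤ ∑ i, (∑ k, R k i ^ 2) * mean v (fun x => chi v w i x ^ 2) := by
    rw [Xc, Finset.mul_sum]
    exact Finset.sum_le_sum fun i _ =>
      mul_le_mul_of_nonneg_right (hm i) (h.hv.mean_nonneg fun _ => sq_nonneg _)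
  have h2 := (hm' (Dm v w)).trans (mul_le_mul_of_nonneg_left (Dm_sq_le h.hv w hk) m0)
  have h3 := mul_le_mul_of_nonneg_left h2 ha
  have h4 := mul_le_mul_of_nonneg_left h1 hl
  have h5 := mul_le_mul_of_nonneg_right hc (Xc_nonneg h.hv w)
  nlinarith

/-- **STAGE**, integral form -/
theorem stage (h : Pr v w) {R : Matrix ι (Fin n) ℝ} {m m' lam a k T : ℝ}
    (hm : ∀ i, m ≤ ∑ k, R k i ^ 2) (hm' : ∀ u, (R *ᵥ u) ⬝ᵥ (R *ᵥ u) ≤ m' * (u ⬝ᵥ u)) (m0 : 0 ≤ m')
    (hl : 0 ≤ lam) (ha : 0 ≤ a) (hk : 0 < k) (hc : a * m' * (1 + k) ≤ lam * m) (hT : 0 ≤ T) :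
    ex (fR R) v (fun p => lam * Ar o1 (pw (fR R) v p) (pw (fR R) w p) -
        a * kl (pw (fR R) v p) (pw (fR R) w p)) T ≤
      lam * Ar o1 v w - a * kl v w + a * m' / 2 * (1 + 1 / k) * ∫ t in 0..T, ex (fR R) v
        (fun p => ep (pw (fR R) v p) (pw (fR R) w p) ⬝ᵥ ep (pw (fR R) v p) (pw (fR R) w p)) t := by
  obtain ⟨b, hb⟩ := ito_pot (Metric.isBounded_Icc 0 T) h R lam a
  have e := hb.ex_sub' h.hv le_rfl hT
  have ea := hb.eg_a fun i => eg_md h.hv i
  have ee := (eg_ep2 (φ := fR R) (I := Icc 0 T) h.hv h.hw).const_mul (a * m' / 2 * (1 + 1 / k))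
  rw [ex_zero h.hv, sub_eq_iff_eq_add'] at e
  simp only [pw, post_zero] at e
  rw [e, ← intervalIntegral.integral_const_mul]
  simp only [← ex_const_mul]
  refine add_le_add le_rfl <| intervalIntegral.integral_mono_on hT
    (ea.continuousOn_ex.intervalIntegrable_of_Icc hT) (ee.continuousOn_ex.intervalIntegrable_of_Icc hT)
    fun t ht => ex_mono h.hv (ea.mg ht) (ee.mg ht) fun y =>
      drift_le (h.post _ _ _ _ _) hm hm' m0 hl ha hk hc

/-- **STAGE** with a bound `B` of the mean error -/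
theorem stage_le (h : Pr v w) {R : Matrix ι (Fin n) ℝ} {m m' lam a k T : ℝ} {B : ℝ → ℝ}
    (hm : ∀ i, m ≤ ∑ k, R k i ^ 2) (hm' : ∀ u, (R *ᵥ u) ⬝ᵥ (R *ᵥ u) ≤ m' * (u ⬝ᵥ u)) (m0 : 0 ≤ m')
    (hl : 0 ≤ lam) (ha : 0 ≤ a) (hk : 0 < k) (hc : a * m' * (1 + k) ≤ lam * m) (hT : 0 ≤ T)
    (hB : IntervalIntegrable B volume 0 T) (hb : ∀ t ∈ Icc 0 T, slE (fR R) v t (fun _ y =>
      ep (post (fR R) v t y) (post (fR R) w t y) ⬝ᵥ ep (post (fR R) v t y) (post (fR R) w t y)) ≤ B t) :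
    slE (fR R) v T (fun _ y => lam * Ar o1 (post (fR R) v T y) (post (fR R) w T y) -
        a * kl (post (fR R) v T y) (post (fR R) w T y)) ≤
      lam * Ar o1 v w - a * kl v w + a * m' / 2 * (1 + 1 / k) * ∫ t in 0..T, B t := by
  refine (stage h hm hm' m0 hl ha hk hc hT).trans ?_
  exact add_le_add le_rfl <| mul_le_mul_of_nonneg_left (intervalIntegral.integral_mono_on hT
    ((eg_ep2 (φ := fR R) (I := Icc 0 T) h.hv h.hw).continuousOn_ex.intervalIntegrable_of_Icc hT)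
    hB hb) (by positivity)

/-- **STAGE** with a constant bound -/
theorem stage_const (h : Pr v w) {R : Matrix ι (Fin n) ℝ} {m m' lam a k T B : ℝ}
    (hm : ∀ i, m ≤ ∑ k, R k i ^ 2) (hm' : ∀ u, (R *ᵥ u) ⬝ᵥ (R *ᵥ u) ≤ m' * (u ⬝ᵥ u)) (m0 : 0 ≤ m')
    (hl : 0 ≤ lam) (ha : 0 ≤ a) (hk : 0 < k) (hc : a * m' * (1 + k) ≤ lam * m) (hT : 0 ≤ T)
    (hb : ∀ t ∈ Icc 0 T, slE (fR R) v t (fun _ y =>
      ep (post (fR R) v t y) (post (fR R) w t y) ⬝ᵥ ep (post (fR R) v t y) (post (fR R) w t y)) ≤ B) :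
    slE (fR R) v T (fun _ y => lam * Ar o1 (post (fR R) v T y) (post (fR R) w T y) -
        a * kl (post (fR R) v T y) (post (fR R) w T y)) ≤
      lam * Ar o1 v w - a * kl v w + a * m' / 2 * (1 + 1 / k) * (T * B) := by
  simpa using stage_le h hm hm' m0 hl ha hk hc hT (B := fun _ => B) intervalIntegrable_const hb

end Crest.Agent.T157.EnS
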