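import Crest.Agent.T157.S1Def_97
import Crest.Agent.T157.EnSt_95
import Crest.Agent.T157.SpJ_25

/-!
# Row 157, block B, S1: the END (helper40), words and leaves

Text: `docs/T157_B_S1e.md`.
-/

set_option autoImplicit false
set_option linter.unusedVariables false

noncomputable section

namespace Crest.Agent.T157.En

open MeasureTheory Real Matrix Finset Filter Set
open Crest.Agent.T157.E Crest.Agent.T157.SL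
open Crest.Agent.T157.Ta (Pr Ar Cnt Dm cm chi kls)
open Crest.Agent.T157.EnS (fR o1 ep)
open Crest.Agent.T157.Rec (grad)
open Crest.Agent.T157.Eig (nrm opn)
open Crest.Agent.T157.S3 (V Mx hf tau Dg TS Rg)
open Crest.Agent.T157.S3F (Free)
open Crest.Agent.T157.Rip (Sp SpJ res)
open Crest.Agent.T157.S1 (Fy XF Ew Bas EndOK)
open Crest.Agent.T157.Rv (Warm)

variable {n : ℕ}

/-! ### words -/

/-- Hamming distance -/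
def hd (x x' : Cube n) : ℝ := #{j | x j ≠ x' j}
/-- number of the sites with `σ_j u_j < θ` -/
def na (u : V n) (θ : ℝ) (x : Cube n) : ℝ := #{j | sv x j * u j < θ}
/-- indicator of `a < b` -/
def ib (a b : ℝ) : ℝ := if a < b then 1 else 0

/-- norms of a coupling: `c` on all vectors, `ω` on sparse vectors, `s` on sparse blocks -/
structure Blk (W : Mx n) (c ω s m : ℝ) : Prop where
  symm : Wᵀ = W
  diag : ∀ i, W i i = 0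
  op : opn W ≤ c
  col : ∀ v : V n, Sp m v → nrm (W *ᵥ v) ≤ ω * nrm v
  blk : ∀ u v : V n, Sp m u → Sp m v → |u ⬝ᵥ W *ᵥ v| ≤ s * (nrm u * nrm v)

/-- the frozen geometry: threshold `A`, scale `m` -/
structure Geo (W : Mx n) (c ω s A : ℝ) (m : ℕ) : Prop where
  blk : Blk W c ω s (50 * m)
  m1 : 1 ≤ m
  c0 : 0 ≤ c
  o0 : 0 ≤ ω
  o4 : ω ≤ 4
  s0 : 0 ≤ s
  s1 : s ≤ 1 / 10000
  A1 : 1 ≤ A
  Ao : 12 * ω ≤ A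
  nA : n * exp (-(2 * A)) ≤ m
  cA : (c + ω) * exp (-A) ≤ s

/-- `a_{kj} = d_k tanh u_j` -/
def aM (W : Mx n) (h : V n) (x : Cube n) : Mx n :=
  Matrix.of fun k j => grad (fun z => tanh (hf W h z j)) x k
/-- probability of a flip -/
def pf (W : Mx n) (h : V n) (x : Cube n) (j : Fin n) : ℝ := (1 - sv x j * tanh (hf W h x j)) / 2

/-- a good point, seen from the reference `x0` -/
def Good (W : Mx n) (h : V n) (ω s A : ℝ) (m : ℕ) (x0 x : Cube n) : Prop :=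
  ∃ B : Finset (Fin n), (#B : ℝ) ≤ m + hd x x0 / 36 ∧ (∀ j ∉ B, A ≤ sv x0 j * hf W h x j) ∧
    (∀ v : V n, nrm (aM W h x *ᵥ v) ≤ ω * nrm (res B v) + 50 * s * nrm v) ∧
    (∀ (v : V n) (B' : Finset (Fin n)), (#B' : ℝ) ≤ 50 * m →
      nrm (res B' (aM W h x *ᵥ v)) ≤ 50 * s * nrm v) ∧
    ∀ k, ∑ j, aM W h x k j ^ 2 / pf W h x j ≤ 80 * s ^ 2

/-- the class of the tilts -/
structure Cls (e L : ℝ) (Θ : Cube n → ℝ) (Ω : Cube n → V n) (G : Cube n → ℝ) : Prop where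
  L0 : 0 ≤ L
  gr : ∀ x, nrm (grad Θ x) ≤ L
  rg : Rg e L Ω
  ex : ∀ x, nrm (grad Θ x - Ω x) ≤ G x
  ts : TS e G

/-- `w` is proportional to the Ising weight tilted by `Θ` -/
def Is (w : Cube n → ℝ) (W : Mx n) (h : V n) (Θ : Cube n → ℝ) : Prop :=
  ∃ c : ℝ, ∀ x, w x = ising W h x * exp (Θ x + c)

def Eg (Θ v : Cube n → ℝ) : ℝ := Cnt (fun i x => grad Θ x i ^ 2) v
def Ex (G v : Cube n → ℝ) : ℝ := mean v fun x => G x ^ 2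
/-- the regular part of the change of the conditional means -/
def ct (W : Mx n) (h : V n) (Ω : Cube n → V n) (x : Cube n) : V n :=
  fun j => tanh (hf W h x j + Ω x j) - tanh (hf W h x j)
/-- weighted energy of `Ω` -/
def F1 (W : Mx n) (h : V n) (Ω : Cube n → V n) (x : Cube n) : ℝ := Dg W h x ⬝ᵥ (Ω x * Ω x)
/-- the exceptional mass -/
def Bf (v w : Cube n → ℝ) (Λ : ℝ) (W : Mx n) (h : V n) (θ m : ℝ) (xs : Cube n) (r : ℝ) : ℝ :=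
  (mean v fun x => ib m (na (hf W h x) θ x) + ib r (hd x xs)) +
    Λ * (∑ x, w x * ib r (hd x xs)) / ∑ x, v x

/-! ### the resolvent -/

/-- **GOOD** -/
def GoodStmt : Prop := ∀ (n : ℕ) (W : Mx n) (h : V n) (c ω s A : ℝ) (m : ℕ) (x0 x : Cube n),
  Geo W c ω s A m → na (hf W h x0) (2 * A) x0 ≤ m → hd x x0 ≤ 46 * m → Good W h ω s A m x0 x

/-- a solution of the Poisson equation near `x0` -/
structure Sol (W : Mx n) (h : V n) (m : ℕ) (x0 : Cube n) (F : Cube n → ℝ) (X Y K O η : ℝ)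
    (U : Cube n → V n) (r : Cube n → ℝ) (f0 : ℝ) : Prop where
  fr : Free U
  eq : ∀ x, F x = f0 + U x ⬝ᵥ tau W h x + r x
  all : ∀ x, U x ⬝ᵥ U x ≤ K ∧ |r x| ≤ O
  hx : ∀ x, hd x x0 ≤ 23 * m → U x ⬝ᵥ U x ≤ X ∧ |r x| ≤ 2 * n * η * √X
  hy : ∀ x, hd x x0 ≤ 23 * m → ∀ B : Finset (Fin n), (#B : ℝ) ≤ 50 * m →
    res B (U x) ⬝ᵥ res B (U x) ≤ Y

/-- **RES** -/
def ResStmt : Prop := ∃ C ≥ (1 : ℝ), ∀ (n : ℕ) (W : Mx n) (h : V n) (c ω s A : ℝ) (m : ℕ)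
  (x0 : Cube n) (F : Cube n → ℝ) (α β O η : ℝ), Geo W c ω s A m → na (hf W h x0) (2 * A) x0 ≤ m →
  0 < η → 0 ≤ α → 0 ≤ β → (∀ x x', F x - F x' ≤ O) →
  (∀ x, hd x x0 ≤ 46 * m → nrm (grad F x) ≤ α ∧
    ∀ B : Finset (Fin n), (#B : ℝ) ≤ 50 * m → nrm (res B (grad F x)) ≤ β) →
  ∃ U r f0, Sol W h m x0 F (C * (α ^ 2 + ω ^ 2 * β ^ 2 + n * O ^ 2 / η ^ 2 * exp (-m)))
    (C * (β ^ 2 + s ^ 2 * α ^ 2 + n * O ^ 2 / η ^ 2 * exp (-m))) (n * O ^ 2 / η ^ 2) O η U r f0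

def ResGlue : Prop := GoodStmt → ResStmt

/-- **LIP** -/
def LipStmt : Prop := ∃ C ≥ (1 : ℝ), ∀ (n : ℕ) (W : Mx n) (h : V n) (c e L : ℝ) (Ω : Cube n → V n),
  Wᵀ = W → (∀ i, W i i = 0) → opn W ≤ c → 0 ≤ L → e ≤ 1 → Rg e L Ω → ∀ x,
  (∀ a : V n, nrm a ≤ 1 → nrm (grad (fun z => a ⬝ᵥ ct W h Ω z) x) ≤ C * e * (1 + c) ^ 2) ∧
    nrm (grad (F1 W h Ω) x) ≤ C * e * L * (1 + c) ^ 2

/-- **KS** and the energy under `ν` -/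
def KsStmt : Prop :=
  (∀ (n : ℕ) (v w : Cube n → ℝ) (i : Fin n) (x : Cube n) (u b : ℝ), Pr v w → v x ≠ 0 →
    cm w i x = tanh u → 0 < b → b ≤ |u| → chi v w i x ^ 2 ≤ 16 / b * kls v w i x) ∧
  (∀ (n : ℕ) (w Θ : Cube n → ℝ) (W : Mx n) (h : V n), Wᵀ = W → (∀ i, W i i = 0) → Is w W h Θ →
    (∀ x, 0 < w x) ∧ ∀ i x, cm w i x = tanh (hf W h x i + grad Θ x i)) ∧
  ∃ C ≥ (1 : ℝ), ∀ (n : ℕ) (v w Θ G : Cube n → ℝ) (W : Mx n) (h : V n) (e L : ℝ) (Ω : Cube n → V n),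
    Wᵀ = W → (∀ i, W i i = 0) → Wt v → Is w W h Θ → Cls e L Θ Ω G → e ≤ 1 →
    mean v (F1 W h Ω) ≤ C * (Eg Θ v + Ex G v + e * (Ar o1 v w + L ^ 2))

/-- **TR** : transfer of Lipschitz functions, no base measure -/
def TrStmt : Prop := ∃ C ≥ (1 : ℝ), ∀ (n : ℕ) (W : Mx n) (h : V n) (c ω s A : ℝ) (m : ℕ)
  (x0 : Cube n) (v w Θ F : Cube n → ℝ) (L l : ℝ), Geo W c ω s A m → na (hf W h x0) (2 * A) x0 ≤ m →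
  (n : ℝ) ^ 12 ≤ exp m → Wt v → Is w W h Θ → (∀ x, nrm (grad Θ x) ≤ L) → 0 ≤ l → l ^ 2 ≤ 100 * n →
  (∀ x, nrm (grad F x) ≤ l) → (∀ x x', F x - F x' ≤ 4 * n) →
  (mean v F - mean w F) ^ 2 ≤ C * (l ^ 2 * (Ar o1 v w + L ^ 2) + 1 +
    n ^ 12 * ((mean v fun x => ib (23 * m) (hd x x0)) + mean w fun x => ib (23 * m) (hd x x0)))

def TrGlue : Prop := ResStmt → KsStmt → TrStmt

/-- **T0** : the conditional means of the Ising part -/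
def T0Stmt : Prop := ∃ C ≥ (1 : ℝ), ∀ (n : ℕ) (W : Mx n) (h : V n) (c ω s A : ℝ) (m : ℕ)
  (x0 : Cube n) (v w Θ G : Cube n → ℝ) (Ω : Cube n → V n) (e L : ℝ) (a : V n), Geo W c ω s A m →
  na (hf W h x0) (2 * A) x0 ≤ m → (n : ℝ) ^ 12 ≤ exp m → Wt v → Is w W h Θ → Cls e L Θ Ω G → e ≤ 1 →
  4 * L ^ 2 ≤ m → nrm a ≤ 1 → ∀ F G' : Cube n → ℝ, (F = fun x => a ⬝ᵥ fun j => tanh (hf W h x j)) →
  (G' = fun x => min (G x) (2 * L) ^ 2) →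
  (mean v F - mean w F) ^ 2 ≤ C * ((s ^ 2 + ω ^ 2 / A) * Ar o1 v w +
    s ^ 2 * (mean v (F1 W h Ω) + mean w (F1 W h Ω)) + mean v G' + mean w G' + 1 +
    n ^ 12 * ((mean v fun x => ib (23 * m) (hd x x0)) + mean w fun x => ib (23 * m) (hd x x0)))

def T0Glue : Prop := GoodStmt → ResStmt → KsStmt → T0Stmt

/-- **EPS** -/
def EpsStmt : Prop := ∃ C ≥ (1 : ℝ), ∀ (n : ℕ) (W : Mx n) (h : V n) (c ω s A : ℝ) (m : ℕ)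
  (xs : Cube n) (v w Θ G : Cube n → ℝ) (Ω : Cube n → V n) (e ε L Λ : ℝ), Geo W c ω s A m →
  (n : ℝ) ^ 12 ≤ exp m → Wt v → Is w W h Θ → Cls e L Θ Ω G → √e * (1 + c) ^ 2 ≤ ε → C * ε ≤ 1 →
  4 * L ^ 2 ≤ m → L ^ 2 ≤ n → (∀ x, v x ≤ Λ * w x) →
  ep v w ⬝ᵥ ep v w ≤ C * ((s ^ 2 + ω ^ 2 / A + ε) * Ar o1 v w + s ^ 2 * Eg Θ v + Ex G v +
    ε * L ^ 2 + 1 + n ^ 12 * Bf v w Λ W h (2 * A) m xs (10 * m))

def EpsGlue : Prop := LipStmt → KsStmt → TrStmt → T0Stmt → EpsStmt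

/-! ### the stages -/

/-- **BD** : the channel and the exceptional mass -/
def BdStmt : Prop := ∃ c0 > (0 : ℝ), ∀ (n : ℕ) (W W1 R : Mx n) (h : V n) (v w : Cube n → ℝ)
  (Λ M A θ m m1 r t : ℝ) (xs : Cube n), W1ᵀ = W1 → (∀ i, W1 i i = 0) → opn W1 ≤ M → 0 < M → Rᵀ = R →
  R * R = W1 + M • (1 : Mx n) → 0 ≤ t → t ≤ 1 →
  (∀ Θ y, Is w W h Θ → Is (post (fR R) w t y) (W - t • W1) (h + R *ᵥ y) Θ) ∧
  (Wt v → (∀ x, 0 < w x) → 0 ≤ Λ → 0 < A → n * exp (-(2 * A)) ≤ m1 →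
    Ta.XG (fun y => Bf (post (fR R) v t y) (post (fR R) w t y) Λ (W - t • W1) (h + R *ᵥ y)
      (θ - 2 * A) (m + 2 * m1) xs r) ∧
    slE (fR R) v t (fun _ y => Bf (post (fR R) v t y) (post (fR R) w t y) Λ (W - t • W1) (h + R *ᵥ y)
      (θ - 2 * A) (m + 2 * m1) xs r) ≤
      Bf v w Λ W h θ m xs r + exp (-(c0 * (m1 * A) ^ 2 / (M * n))))

/-- coefficients of a claim -/
structure Co where
  l : ℝ
  gE : ℝ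
  gX : ℝ
  gF : ℝ
  g0 : ℝ
  gB : ℝ

/-- the claim for the coupling `W` -/
def Cm (W : Mx n) (Θ : Cube n → ℝ) (Ω : Cube n → V n) (G : Cube n → ℝ) (xs : Cube n)
    (r a θ m : ℝ) (k : Co) : Prop :=
  ∀ (h : V n) (v w : Cube n → ℝ) (Λ : ℝ), Wt v → Is w W h Θ → (∀ x, v x ≤ Λ * w x) →
    0 ≤ k.l * Ar o1 v w - a * kl v w + k.gE * Eg Θ v + k.gX * Ex G v + k.gF * mean v (F1 W h Ω) +
      k.g0 + k.gB * Bf v w Λ W h θ m xs r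

/-- **STEP** -/
def StepStmt : Prop := ∃ C ≥ (1 : ℝ), ∃ c0 > (0 : ℝ), ∀ (n : ℕ) (W1 W2 : Mx n) (c ω s A : ℝ) (m0 : ℕ)
  (Θ G : Cube n → ℝ) (Ω : Cube n → V n) (xs : Cube n) (e ε L c1 M κ a θ m m1 β : ℝ) (k : Co),
  (∀ t ∈ Icc (0 : ℝ) 1, Geo ((1 - t) • W1 + W2) c ω s A m0) → W1ᵀ = W1 → (∀ i, W1 i i = 0) →
  opn W1 ≤ c1 → c1 ≤ M → 0 < M → 0 < κ → 0 ≤ a → a ≤ 1 → a * (M + c1) * (1 + κ) ≤ k.l * M →
  (n : ℝ) ^ 12 ≤ exp m0 → Cls e L Θ Ω G → √e * (1 + c) ^ 2 ≤ ε → C * ε ≤ 1 → 4 * L ^ 2 ≤ m0 →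
  L ^ 2 ≤ n → 4 * A ≤ θ → m + 2 * m1 ≤ m0 → n * exp (-(2 * A)) ≤ m1 →
  0 ≤ k.l → 0 ≤ k.gE → 0 ≤ k.gX → 0 ≤ k.gF → 0 ≤ k.gB → β = C * M * (1 + 1 / κ) →
  Cm W2 Θ Ω G xs (10 * m0) a (θ - 2 * A) (m + 2 * m1) k →
  Cm (W1 + W2) Θ Ω G xs (10 * m0) a θ m
    ⟨k.l + β * (s ^ 2 + ω ^ 2 / A + ε), k.gE + β * s ^ 2, k.gX + β, 0,
      k.g0 + k.gF * (2 / √M * L ^ 2) + β * (ε * L ^ 2 + 1) +
        (k.gB + β * n ^ 12) * exp (-(c0 * (m1 * A) ^ 2 / (M * n))), k.gB + β * n ^ 12⟩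

def StepGlue : Prop := EpsStmt → BdStmt → StepStmt

/-- **UT** : untilt over a product -/
def UtStmt : Prop := ∃ C ≥ (1 : ℝ), ∀ (n : ℕ) (Θ G : Cube n → ℝ) (Ω : Cube n → V n) (xs : Cube n)
  (e L r a θ m κ l : ℝ), Cls e L Θ Ω G → 0 < e → 0 < κ → κ ≤ 1 / 2 → C * e ≤ κ ^ 2 → 0 ≤ a → a ≤ 1 →
  a + κ ≤ l → Cm 0 Θ Ω G xs r a θ m ⟨l, 0, C / κ, C / κ, C * e / κ ^ 3 * (L ^ 2 + 1), 0⟩

/-- **CORE** : no pins -/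
def CoreStmt : Prop := ∀ κ ∈ Ioc (0 : ℝ) 1, ∃ C1 ≥ (1 : ℝ), ∀ q ≥ (1 : ℝ), ∀ γ > (0 : ℝ),
  ∃ e0 > (0 : ℝ), ∃ g2 ≥ (1 : ℝ), ∀ A ≥ C1, ∀ φ > (0 : ℝ), ∀ᶠ n : ℕ in atTop,
  ∀ (J Q : Mx n) (h : V n) (v w Θ G : Cube n → ℝ) (Ω : Cube n → V n) (xs : Cube n) (s e L Λ a l : ℝ)
    (m1 : ℕ), Blk J 3 3 s (350 * m1) → Blk Q q s s (350 * m1) → 0 ≤ s → (q + 7) * exp (-A) ≤ s →
    C1 * q * s ^ 2 ≤ 1 → φ * n ≤ m1 → n * exp (-(2 * A)) ≤ m1 → 4 * L ^ 2 ≤ m1 → L ^ 2 ≤ n →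
    0 < e → e ≤ e0 → Cls e L Θ Ω G → Wt v → Is w (J - Q) h Θ → (∀ x, v x ≤ Λ * w x) → 0 ≤ a →
    a + κ ≤ l → l ≤ 1 →
    κ / 16 * (Dm v w ⬝ᵥ Dm v w) - g2 ≤ l * Ar o1 v w - a * kl v w + C1 * q * s ^ 2 * Eg Θ v +
      g2 * Ex G v + γ * L ^ 2 + g2 * n ^ 12 * Bf v w Λ (J - Q) h (8 * A) m1 xs (70 * m1)

def CoreGlue : Prop := EpsStmt → StepStmt → UtStmt → CoreStmt

/-! ### pins, typical events, the end -/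

/-- overwrite the spins of `S` -/
def pr (S : Finset (Fin n)) (sS x : Cube n) : Cube n := fun j => if j ∈ S then sS j else x j

/-- **LIFT** -/
def LiftStmt : Prop := ∀ (n : ℕ) (S : Finset (Fin n)) (sS : Cube n),
  (∀ v : Cube n → ℝ, Wt v → (∀ x, v x ≠ 0 → pr S sS x = x) → Wt (v ∘ pr S sS) ∧
    ∀ F : Cube n → ℝ, mean (v ∘ pr S sS) (F ∘ pr S sS) = mean v F ∧
      ∑ x, v (pr S sS x) * F (pr S sS x) = 2 ^ #S * ∑ x, v x * F x ∧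
      Eg (F ∘ pr S sS) (v ∘ pr S sS) = Eg F v) ∧
  (∀ v w : Cube n → ℝ, Pr v w → (∀ x, w x ≠ 0 → pr S sS x = x) →
    Ar o1 (v ∘ pr S sS) (w ∘ pr S sS) = Ar o1 v w ∧ kl (v ∘ pr S sS) (w ∘ pr S sS) = kl v w ∧
    Dm (v ∘ pr S sS) (w ∘ pr S sS) = Dm v w) ∧
  ∀ (e L : ℝ) (Θ G : Cube n → ℝ) (Ω : Cube n → V n), Cls e L Θ Ω G →
    Cls e L (Θ ∘ pr S sS) (fun x => res Sᶜ (Ω (pr S sS x))) (G ∘ pr S sS)

/-- the rows `S`, columns `Sᶜ` of `J` -/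
def gM (J : Mx n) (S : Finset (Fin n)) : Mx n := Matrix.of fun k j => if k ∈ S ∧ j ∉ S then J k j else 0
/-- the block `Sᶜ × Sᶜ` of `J` -/
def jM (J : Mx n) (S : Finset (Fin n)) : Mx n := Matrix.of fun i j => if i ∉ S ∧ j ∉ S then J i j else 0
/-- the coupling of the bursts -/
def qM (J : Mx n) (P : ℝ) (S : Finset (Fin n)) : Mx n :=
  Matrix.of fun i j => if i = j then 0 else P * ((gM J S)ᵀ * gM J S) i j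

/-- **PIN** : the lifted reference is an Ising weight -/
def PinStmt : Prop := ∀ (n : ℕ) (D : S1.Dat n) (s : S1.St n), D.Ok →
  (∃ h : V n, Is (S1.pi D s ∘ pr s.S s.sS) (jM D.J s.S - qM D.J D.P s.S) h (s.Th ∘ pr s.S s.sS) ∧
    ∀ x, ∀ j ∉ s.S, hf (jM D.J s.S - qM D.J D.P s.S) h x j = s.y' j + (D.J *ᵥ sv (pr s.S s.sS x)) j -
      D.P * ((gM D.J s.S)ᵀ *ᵥ S1.uu D s (pr s.S s.sS x)) j +
      D.P * ((gM D.J s.S)ᵀ * gM D.J s.S) j j * sv x j) ∧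
  ∀ m b : ℝ, SpJ 30 D.J → 1 ≤ m → (#s.S : ℝ) ≤ m → b = 30 * √(√(m / n)) → b ≤ 1 →
    Blk (jM D.J s.S) 3 3 (4 * D.P * b) m ∧
    Blk (qM D.J D.P s.S) (18 * D.P) (4 * D.P * b) (4 * D.P * b) m

/-- atypical pairs at the level `S` -/
def bad (J : Mx n) (S φ : ℝ) (x : Cube n) (y : V n) : ℝ :=
  ib (φ * n) (na y (S / 2) x) + ib (φ * n) #{j | S / 16 < |(J *ᵥ sv x) j|}
/-- the martingale term of the end -/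
def fe (J : Mx n) (S φ κ1 : ℝ) : Fy n :=
  fun _ y => n ^ 3 * exp (κ1 * n) * mean (ising J y) fun x => bad J S φ x y

/-- **TYP** -/
def TypStmt : Prop := ∀ K0 κ0 : ℝ, 0 < κ0 → ∃ c > (0 : ℝ), c ≤ 1 / 16 ∧ ∃ S0 : ℝ, ∀ S ≥ S0,
  ∃ κ1 > (0 : ℝ), ∀ᶠ n : ℕ in atTop, ∀ J : Mx n, Jᵀ = J → opn J ≤ 3 → Bas J K0 κ0 0 →
  slE sv (ising J 0) S (bad J S (exp (-(c * S)))) ≤ exp (-(3 * κ1 * n))

/-- **FE** -/
def FeStmt : Prop := ∀ (n : ℕ) (J : Mx n) (S φ κ1 : ℝ), XF (fe J S φ κ1) ∧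
  ∀ (f : Cube n → ℝ) (T0 : ℝ), 0 ≤ S → (∀ x, 0 ≤ f x ∧ f x ≤ exp T0) →
    (mean (ising J 0) fun x => f x * Ew S (fe J S φ κ1) x 0) ≤
      n ^ 3 * exp (T0 + κ1 * n) * slE sv (ising J 0) S (bad J S φ)

/-- **MASS** : the exceptional mass of a lifted state -/
def MassStmt : Prop := ∀ P ≥ (1 : ℝ), ∀ S ≥ (1 : ℝ), ∀ φ > (0 : ℝ), ∀ κ1 > (0 : ℝ), ∃ δ > (0 : ℝ),
  ∃ κ2 > (0 : ℝ), ∀ᶠ n : ℕ in atTop, ∀ (D : S1.Dat n) (s : S1.St n) (e A' t m1 : ℝ) (h : V n),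
  D.Ok → D.P = P → SpJ 30 D.J → S1.Cl e A' s → S1.Sz D s t → t ≤ δ * n → 5 * φ * n ≤ m1 →
  (mean (ising D.J s.y) fun x => bad D.J S φ x s.y) ≤ exp (-(κ1 * n)) →
  (∀ x, ∀ j ∉ s.S, hf (jM D.J s.S - qM D.J D.P s.S) h x j = s.y' j + (D.J *ᵥ sv (pr s.S s.sS x)) j -
      D.P * ((gM D.J s.S)ᵀ *ᵥ S1.uu D s (pr s.S s.sS x)) j +
      D.P * ((gM D.J s.S)ᵀ * gM D.J s.S) j j * sv x j) →
  ∃ (Λ : ℝ) (xs : Cube n), (∀ x, S1.nu D s x ≤ Λ * S1.pi D s x) ∧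
    Bf (S1.nu D s ∘ pr s.S s.sS) (S1.pi D s ∘ pr s.S s.sS) Λ (jM D.J s.S - qM D.J D.P s.S) h (S / 4)
      m1 xs (70 * m1) ≤ exp (-(κ2 * n))

def MassGlue : Prop := S1.CrudeStmt → LiftStmt → MassStmt

/-- **END** -/
def EndStmt : Prop := ∀ κ ∈ Ioc (0 : ℝ) (1 / 4), ∃ C ≥ (1 : ℝ), ∀ P S φ g1 : ℝ, 1 ≤ P → C ≤ S →
  exp (-(S / 16)) ≤ φ → C * P ^ 3 * √φ ≤ g1 → g1 ≤ 1 → ∀ η0 ω κ1 : ℝ, 0 < η0 → 0 < ω → 0 < κ1 →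
  ∃ ec > (0 : ℝ), ∃ ME ≥ (1 : ℝ), ∃ δ > (0 : ℝ), ∀ᶠ n : ℕ in atTop, ∀ (J : Mx n) (a a' t : ℝ),
  SpJ 30 J → 0 ≤ a → a + 2 * κ ≤ a' → a' + κ ≤ 1 → a + κ + 2 * η0 ≤ a' → t ≤ δ * n →
  EndOK J P η0 (Ue.th a') (fe J S φ κ1) a (κ / 16) g1 (16 / κ) ME ω ec t ME

def EndGlue : Prop := S1.CrudeStmt → CoreStmt → LiftStmt → PinStmt → MassStmt → EndStmt

end Crest.Agent.T157.En

end
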