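import Crest.Agent.T157.S1Par_97
import Crest.Agent.T157.EnDef_40

/-!
# Row 157, block B, S1 (helper81): the end of the scheme in the words of `S1Par`
-/

set_option autoImplicit false

noncomputable section

namespace Crest.Agent.T157.S1

open MeasureTheory Real Matrix Finset Filter Topology
open Crest.ProbabilityR.SpinGlassDynamics
open Crest.Agent.T157.E Crest.Agent.T157.SL
open Crest.Agent.T157.Eig (nrm opn)
open Crest.Agent.T157.S3 (V Mx)
open Crest.Agent.T157.Top (Whp)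

namespace Eb81

lemma endOK_mono {n : ℕ} {J : Mx n} {P η0 θ a cE g1 CE ME ME' ω ec ec' t K K' : ℝ} {fe : Fy n}
    (h : EndOK J P η0 θ fe a cE g1 CE ME ω ec t K) (h1 : ec' ≤ ec) (h2 : ME ≤ ME') (h3 : K ≤ K') :
    EndOK J P η0 θ fe a cE g1 CE ME' ω ec' t K' := fun D s d e1 e2 e3 e4 c z => by
  have := h D s d e1 e2 e3 e4 ⟨c.L0, c.gr, fun x => ⟨(c.rg x).1.trans h1, (c.rg x).2.1.trans h1,
    (c.rg x).2.2⟩, c.ex, fun x => (c.ts x).trans h1⟩ z
  have n0 : ∀ x, 0 ≤ nu D s x := fun x => mul_nonneg (mul_nonneg (exp_pos _).le (by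
    unfold ell; split_ifs; exacts [(exp_pos _).le, le_rfl])) (d.fpos x).le
  have x0 : 0 ≤ Ex D s := sum_nonneg fun x _ =>
    mul_nonneg (div_nonneg (n0 x) (sum_nonneg fun y _ => n0 y)) (sq_nonneg _)
  linarith [mul_le_mul_of_nonneg_right h2 x0]

lemma whp_opn : Whp disorderLaw fun n g => opn (Jmat n g) ≤ 3 := by
  have h : Tendsto (fun n : ℕ => 2 * exp (-(n * 1 ^ 2 / 4))) atTop (𝓝 0) := by
    simpa using (tendsto_exp_neg_atTop_nhds_zero.comp ((tendsto_natCast_atTop_atTop (R := ℝ)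
      ).atTop_div_const (r := 4) four_pos)).const_mul 2
  refine Top.whp_of_real_le h (.of_forall fun n => ?_)
  refine (measureReal_mono fun g hg => ?_).trans (Nrm.Jmat_opn_tail zero_le_one)
  have : 3 < opn (Jmat n g) := not_le.1 hg
  exact le_trans (by norm_num) this.le

lemma ev_S {c C : ℝ} (hc : 0 < c) (hC : 0 < C) :
    ∀ᶠ S : ℝ in atTop, C * (S ^ 20) ^ 3 * √(exp (-(c * S))) ≤ (S ^ 3)⁻¹ := by
  have h := (tendsto_pow_mul_exp_neg_atTop_nhds_zero 63).comp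
    (tendsto_id.const_mul_atTop (half_pos hc))
  filter_upwards [h.eventually (ge_mem_nhds (show 0 < (c / 2) ^ 63 / C by positivity)),
    eventually_gt_atTop 0] with S h1 h2
  simp only [Function.comp, id, mul_pow] at h1
  rw [le_div_iff₀ hC, mul_assoc, mul_assoc] at h1
  have h3 := le_of_mul_le_mul_left (h1.trans_eq (mul_one _).symm) (by positivity)
  rw [← exp_half, show -(c * S) / 2 = -(c / 2 * S) by ring, ← one_div, le_div_iff₀ (by positivity)]
  refine le_of_eq_of_le ?_ h3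
  ring

lemma ev_n {δ κ : ℝ} (hδ : 0 < δ) (hκ : 0 < κ) :
    ∀ᶠ n : ℕ in atTop, (n : ℝ) ^ (1 - δ) ≤ κ * n := by
  filter_upwards [((tendsto_rpow_atTop hδ).comp tendsto_natCast_atTop_atTop).eventually_ge_atTop κ⁻¹,
    eventually_gt_atTop 0] with n h hn
  have n0 : (0 : ℝ) < n := by exact_mod_cast hn
  rw [rpow_sub n0, rpow_one, div_le_iff₀ (by positivity), mul_right_comm]
  exact le_mul_of_one_le_left n0.le ((inv_le_iff_one_le_mul₀' hκ).1 h)

lemma ev_3 {κ : ℝ} (hκ : 0 < κ) : ∀ᶠ n : ℕ in atTop, (n : ℝ) ^ 3 * exp (-(κ * n)) ≤ 1 := by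
  have h := (tendsto_pow_mul_exp_neg_atTop_nhds_zero 3).comp
    ((tendsto_natCast_atTop_atTop (R := ℝ)).const_mul_atTop hκ)
  filter_upwards [h.eventually (ge_mem_nhds (pow_pos hκ 3))] with n h1
  simp only [Function.comp, mul_pow] at h1
  rw [mul_assoc] at h1
  exact le_of_mul_le_mul_left (h1.trans_eq (mul_one _).symm) (by positivity)

end Eb81

open Eb81

theorem endBr (hA : Rv.At0) (hE : En.EndStmt) (hT : En.TypStmt) (hF : En.FeStmt) {β : ℝ}
    (h0 : 0 < β) (h1 : β < 1) : EndStmt β := by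
  intro ab a' a0 a1 a2
  obtain ⟨κ, k0, k1, k2, k3⟩ : ∃ κ : ℝ, 0 < κ ∧ κ ≤ 1 / 4 ∧ κ ≤ (a' - ab) / 4 ∧ κ ≤ 1 - a' :=
    ⟨min (1 / 4) (min ((a' - ab) / 4) (1 - a')), lt_min (by norm_num) (lt_min (by linarith)
      (by linarith)), min_le_left _ _, (min_le_right _ _).trans (min_le_left _ _),
      (min_le_right _ _).trans (min_le_right _ _)⟩
  obtain ⟨C, C1, hE⟩ := hE κ ⟨k0, k1⟩
  obtain ⟨K0, -, hA⟩ := hA β h0.le h1
  obtain ⟨c, c0, c1, S1, hT⟩ := hT K0 1 one_pos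
  obtain ⟨S2, hS⟩ := eventually_atTop.1 (ev_S c0 (by linarith : 0 < C))
  refine ⟨κ / 16, by positivity, 16 / κ, (one_le_div k0).2 (by linarith), max C (max S1 S2),
    fun S P η0 s0 p1 p2 e0 e1 ω ω0 => ?_⟩
  simp only [max_le_iff] at s0
  obtain ⟨s1, s2, s3⟩ := s0
  have s4 : 1 ≤ S := C1.trans s1
  obtain ⟨κ1, q0, hT⟩ := hT S s2
  obtain ⟨ec0, r0, ME, M1, δ0, d0, hE⟩ := hE P S (exp (-(c * S))) (S ^ 3)⁻¹ p1 s1
    (exp_le_exp.2 (by nlinarith)) (le_trans (by gcongr) (hS S s3))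
    (inv_le_one_of_one_le₀ (one_le_pow₀ s4)) η0 ω κ1 e0 ω0 q0
  have e2 : 16 * η0 ≤ κ := by rwa [div_mul_eq_mul_div, div_le_one k0] at e1
  refine ⟨max ME ec0⁻¹, fun ec δ e r1 r2 δ0' _ e' => ?_⟩
  have r3 : ec ≤ ec0 := by
    have := (mul_le_mul_of_nonneg_right (le_max_right ME ec0⁻¹) r1).trans r2
    rwa [inv_mul_le_iff₀ r0, mul_one] at this
  refine ((hA.and Rip.whp_spJ').and whp_opn).mono ?_
  filter_upwards [hE, hT, ev_n δ0' d0, ev_n δ0' q0, ev_3 q0,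
    ((tendsto_rpow_atTop e').comp tendsto_natCast_atTop_atTop).eventually_ge_atTop ME]
    with n b1 b2 b3 b4 b5 b6 g ⟨⟨g1, g2⟩, g3⟩
  have hb : |β| ≤ 1 := by rw [abs_of_pos h0]; exact h1.le
  refine ⟨En.fe (β • Jmat n g) S (exp (-(c * S))) κ1, (hF n _ _ _ _).1, endOK_mono
    (b1 _ ab a' _ (g2.smul (by norm_num) hb) a0.le (by linarith) (by linarith) (by linarith) b3)
    r3 (le_max_left _ _) b6, fun f hf => ?_⟩
  have b7 := b2 (β • Jmat n g) (by rw [transpose_smul, Jmat_transpose])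
    (by rw [Eig.opn_smul]; nlinarith [Eig.opn_nonneg (Jmat n g), abs_nonneg β])
    (by rw [Bas, ← gibbsWeight_eq_ising]; exact Atd.atd_of_at g1 (exp_pos _).le)
  refine ((hF n _ _ _ _).2 f _ (by linarith) fun x => ⟨(hf.1 x).le, hf.2.2 x⟩).trans
    (le_trans ?_ b5)
  refine (mul_le_mul_of_nonneg_left b7 (by positivity)).trans ?_
  rw [mul_assoc, ← exp_add]
  exact mul_le_mul_of_nonneg_left (exp_le_exp.2 (by linarith)) (by positivity)

end Crest.Agent.T157.S1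

end
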