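import Crest.Agent.T157.EnEnd_40
import Crest.Agent.T157.EnGood_14
import Crest.Agent.T157.EnRes_17
import Crest.Agent.T157.EnLip_16
import Crest.Agent.T157.EnKs_43
import Crest.Agent.T157.EnTr_15
import Crest.Agent.T157.EnT0_48
import Crest.Agent.T157.EnEps_64
import Crest.Agent.T157.EnBd_11
import Crest.Agent.T157.EnSp_95
import Crest.Agent.T157.EnUtS_38
import Crest.Agent.T157.EnCore_40
import Crest.Agent.T157.EnLift_63
import Crest.Agent.T157.EnPin_71
import Crest.Agent.T157.EnTyp_26
import Crest.Agent.T157.EnMass_62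
import Crest.Agent.T157.S1EndBr_81

/-!
# Row 157, block B, S1: the END is closed (helper40)
-/

namespace Crest.Agent.T157.En

theorem resStmt : ResStmt := resGlue goodStmt
theorem trStmt : TrStmt := trGlue resStmt ksStmt
theorem t0Stmt : T0Stmt := t0Glue goodStmt resStmt ksStmt
theorem epsStmt : EpsStmt := epsGlue lipStmt ksStmt trStmt t0Stmt
theorem stepStmt : StepStmt := stepGlue epsStmt bdStmt
theorem coreStmt : CoreStmt := coreGlue40 epsStmt stepStmt utStmt
theorem massStmt : MassStmt := massGlue S1.crudeStmt liftStmt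
theorem endStmt : EndStmt := endGlue S1.crudeStmt coreStmt liftStmt pinStmt massStmt

/-- the END of the scheme in the words of `S1Par_97` -/
theorem endS1 (hA : Rv.At0) {β : ℝ} (h0 : 0 < β) (h1 : β < 1) : S1.EndStmt β :=
  S1.endBr hA endStmt typStmt feStmt26 h0 h1

end Crest.Agent.T157.En
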