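import Crest.Agent.T157.BTop_95

/-!
# Row 157, part B (helper95): the form of `Stat` delivered by the scheme, and the assembly
-/

set_option autoImplicit false

noncomputable section

namespace Crest.Agent.T157.B

open Matrix Real Filter Finset
open Crest.ProbabilityR.SpinGlassDynamics
open Crest.Agent.T157.E Crest.Agent.T157.Top Crest.Agent.T157.Rv
open Crest.Agent.T157.Chain22 (sg)

/-- **(Stat0)** `Stat` without a Lyapunov deficit -/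
def Stat0 (β lam : ℝ) (𝒬 : Set Ob) : Prop := ∀ a > (0 : ℝ), a < lam → ∀ c > (0 : ℝ), ∀ e > (0 : ℝ),
  ∃ (m : ℕ) (Q : Fin m → Ob) (C θ : ℝ), (∀ k, Q k ∈ 𝒬) ∧ 0 ≤ C ∧ 0 ≤ θ ∧ θ ≤ 1 ∧
    (0 < θ → 1 / 2 < lam) ∧
    Pay β a c e fun n g f => θ * DfF β n g f + C * ∑ k, Mom β (Q k) n g f

/-- **(Stat1)** the same for every smaller rate at once -/
def Stat1 (β lam : ℝ) (𝒬 : Set Ob) : Prop := ∀ l, l ≤ lam → Stat0 β l 𝒬

/-- the observables of the class are nonnegative -/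
def Nn (𝒬 : Set Ob) : Prop := ∀ Q ∈ 𝒬, ∀ n g x, 0 ≤ Q n g x

/-- equilibrium values are negligible -/
def Eq0 (β : ℝ) (𝒬 : Set Ob) : Prop :=
  ∀ Q ∈ 𝒬, ∀ e > (0 : ℝ), Whp disorderLaw fun n g => mean (gibbsWeight n β g) (Q n g) ≤ (n : ℝ) ^ e

variable {β lam a c : ℝ} {𝒬 : Set Ob} {D : Fn}

theorem Stat0.stat (h : Stat0 β lam 𝒬) : Stat β lam 𝒬 := fun a h0 h1 c hc e he => by
  obtain ⟨m, Q, C, θ, q, c0, t0, -, t2, hP⟩ := h a h0 h1 c hc e he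
  exact ⟨m, Q, C, θ, fun _ _ _ => 0, q, c0, t0, t2, negL_zero, by simpa only [add_zero] using hP⟩

/-- the form with `θ = (2 a' - 1)₊` -/
theorem stat1_of (h : ∀ a > (0 : ℝ), ∀ a' > a, a' < lam → ∀ c > (0 : ℝ), ∀ e > (0 : ℝ),
    ∃ (m : ℕ) (Q : Fin m → Ob) (C : ℝ), (∀ k, Q k ∈ 𝒬) ∧ 0 ≤ C ∧ Pay β a c e fun n g f =>
      max (2 * a' - 1) 0 * DfF β n g f + C * ∑ k, Mom β (Q k) n g f) (h1 : lam ≤ 1) :
    Stat1 β lam 𝒬 := fun l hl a h0 ha c hc e he => by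
  obtain ⟨m, Q, C, q, c0, hP⟩ := h a h0 ((a + l) / 2) (by linarith) (by linarith) c hc e he
  refine ⟨m, Q, C, _, q, c0, le_max_right _ _, max_le (by linarith) zero_le_one, fun t => ?_, hP⟩
  rcases lt_max_iff.1 t with t | t
  · linarith
  · exact absurd t (lt_irrefl _)

theorem warm_one {n : ℕ} {w : Cube n → ℝ} (hw : ∀ x, 0 < w x) {m : ℝ} (hm : 0 ≤ m) :
    Warm w m fun _ => 1 :=
  ⟨fun _ => one_pos, (Chain22.isP_prob' hw).mean_const 1, fun _ => one_le_exp hm⟩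

/-- a negligible deficit is small at equilibrium -/
theorem Neg.one (ha : 0 < a) (h : Neg β a c D) {e : ℝ} (he : 0 < e) :
    Whp disorderLaw fun n g => D n g (fun _ => 1) ≤ (n : ℝ) ^ e := by
  obtain ⟨δ, d0, h⟩ := h
  refine (h _ (half_pos he) 1 one_pos).mono ?_
  filter_upwards [eventually_gt_atTop 0, ev_log (1 / δ), ev_mul (exp (2 * a)) (half_lt_self he)]
    with n hn l1 l2 g h1
  have hw := gibbsWeight_pos β g
  have hf := warm_one hw (rpow_nonneg (Nat.cast_nonneg n) (1 - c))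
  obtain ⟨Λ, Λ', z, h2⟩ := h1 _ hf
  rw [div_le_iff₀ d0] at l1
  have e1 : ∀ s, 0 ≤ s → sg (gibbsWeight n β g) s (fun _ => 1) = fun _ => 1 := fun s s0 =>
    funext (sg_const hn hw s0 1)
  have e2 : ent (gibbsWeight n β g) (fun _ => 1) + II (gibbsWeight n β g) (fun _ => 1) = 0 := by
    simp [ent, II, dir2, siteM, hf.2.1]
  obtain ⟨u, hu, e3⟩ := exists_hasDerivAt_eq_slope Λ Λ' (zero_lt_one (α := ℝ))
    (fun s hs => (h2 s hs.1 (by linarith [hs.2])).1.continuousAt.continuousWithinAt)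
    (fun s hs => (h2 s hs.1.le (by linarith [hs.2])).1)
  have b1 := (h2 u hu.1.le (by linarith [hu.2])).2.1
  have b2 := (h2 1 zero_le_one (by linarith)).2.2
  rw [e1 u hu.1.le, e2, mul_zero, sub_zero, e3, z] at b1
  rw [e2, zero_add, mul_one] at b2
  simp only [sub_zero, div_one] at b1
  rcases le_total (D n g fun _ => 1) 0 with h3 | h3
  · exact h3.trans (by positivity)
  · have := le_mul_of_one_le_left h3 (one_le_exp (by nlinarith [hu.1] : 0 ≤ 2 * a * u))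
    linarith

theorem Dec.eq0 (hl : 0 < lam) (h : Dec β lam 𝒬) : Eq0 β 𝒬 := fun Q hQ e he => by
  simpa only [Mom, one_mul] using
    (h Q hQ _ (half_pos hl) (half_lt_self hl) 1 one_pos).one (half_pos hl) he

/-- **the assembly**: `l β` is the linear rate, `ls β` the true rate -/
structure Parts (l ls : ℝ → ℝ) (𝒬 : ℝ → Set Ob) : Prop where
  le : ∀ β, 0 < β → β < 1 → l β ≤ (1 - β) ^ 2
  pos : ∀ β, 0 < β → β < 1 → 0 < ls β ∧ ls β ≤ l β
  lb : ∀ β, 0 < β → β < 1 → Low.LB β (l β) ∨ Low.LBS β (l β)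
  lbc : ∀ β, 0 < β → β < 1 → ls β < l β → Low.LBC β (ls β)
  nn : ∀ β, Nn (𝒬 β)
  stat : ∀ β, 0 < β → β < 1 → Stat1 β (l β) (𝒬 β)
  dec : ∀ β, 0 < β → β < 1 → Dec β (ls β) (𝒬 β)
  loc : ∀ β, 0 < β → β < 1 → Nn (𝒬 β) → Eq0 β (𝒬 β) → Stat0 β (ls β) (𝒬 β) → Loc β (ls β)

theorem Parts.two {l ls : ℝ → ℝ} {𝒬 : ℝ → Set Ob} (h : Parts l ls 𝒬) : BTwo ls 𝒬 := fun β h0 h1 => by
  obtain ⟨p0, p1⟩ := h.pos β h0 h1
  refine ⟨p0, p1.trans (h.le β h0 h1), (h.stat β h0 h1 _ p1).stat, h.dec β h0 h1,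
    h.loc β h0 h1 (h.nn β) ((h.dec β h0 h1).eq0 p0) (h.stat β h0 h1 _ p1), ?_⟩
  rcases p1.eq_or_lt with e | e
  · rw [e]
    exact (h.lb β h0 h1).elim Or.inl fun x => Or.inr (Or.inl x)
  · exact Or.inr (Or.inr (Or.inl (h.lbc β h0 h1 e)))

theorem Parts.cutoff {l ls : ℝ → ℝ} {𝒬 : ℝ → Set Ob} (hA : At0) (hS : TopL.SubGHi) (hC : ClGlue)
    (h : Parts l ls 𝒬) : CutoffStmt := cutoff_of_top hA hS hC h.two.top

end Crest.Agent.T157.B

end
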