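import Crest.Agent.T157.LowB_85
import Crest.Agent.T157.Glue_34

/-!
# Row 157, part B (helper85): lower bound from a static family of slow Lipschitz observables

`cutLowS : AtTight → UE → LBS → CutLow`; statistic `∑ φ_i(X_0) φ_i(X_t)`.
-/

set_option autoImplicit false
set_option linter.unusedSectionVars false

noncomputable section

namespace Crest.Agent.T157.Low

open MeasureTheory ProbabilityTheory Matrix Real Finset Filter Topology
open Crest.ProbabilityR.SpinGlassDynamics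
open Crest.Agent.T157.E Crest.Agent.T157.Lag Crest.Agent.T157.Top
open Crest.Agent.T157.Chain22 (sg hbRC ip sg_eq sg_add sg_zero isP_hbCt isP_prob' IsP ip_sg_symm)
open Crest.Agent.T157.Rec (sg_sum sg_const_mul sg_const sg_mono sg_add_fun sg_sub_fun GR grad fl
  sg_nonneg)
open Crest.Agent.T157.Eig (dot_self_nonneg)

variable {n : ℕ} {κ : Type*} [Fintype κ] {w : Cube n → ℝ} {φ : Cube n → κ → ℝ} {t A K : ℝ}

/-- a Lipschitz feature map of size `√n` -/
structure Feat (φ : Cube n → κ → ℝ) (A : ℝ) : Prop where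
  lip : ∀ (u : κ → ℝ) (x : Cube n),
    grad (fun y => u ⬝ᵥ φ y) x ⬝ᵥ grad (fun y => u ⬝ᵥ φ y) x ≤ A * (u ⬝ᵥ u)
  bd : ∀ x, φ x ⬝ᵥ φ x ≤ A * n

/-- **(LS)** a static family of slow observables -/
def LBS (β lam : ℝ) : Prop := ∀ e > (0 : ℝ), Whp disorderLaw fun n g =>
  ∃ φ : Cube n → Fin n → ℝ, Feat φ ((n : ℝ) ^ e) ∧
    (n : ℝ) ^ (1 - e) ≤ ∑ i, var (gibbsWeight n β g) (fun x => φ x i) ∧
    ∑ i, dir (gibbsWeight n β g) (fun x => φ x i) ≤
      (lam + e) * ∑ i, var (gibbsWeight n β g) (fun x => φ x i)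

/-- what part B has to prove, static form -/
def BStmtS : Prop := ∀ β : ℝ, 0 < β → β < 1 →
  ∃ lam : ℝ, 0 < lam ∧ lam ≤ (1 - β) ^ 2 ∧ UX β lam ∧ LBS β lam

/-! ### Herbst for Lipschitz observables -/

theorem gam_le (hn : 0 < n) (hw : ∀ x, 0 < w x) (F : Cube n → ℝ) (x : Cube n) :
    Ent.gam (hbRC hn hw) F x ≤ 1 / n * (4 * (grad F x ⬝ᵥ grad F x)) := by
  have e := congrFun (Chain22.hbRC_mulVec hn hw fun y => max (F x - F y) 0 ^ 2) x
  refine (le_of_eq e).trans ?_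
  rw [Pi.smul_apply, Finset.sum_apply, smul_eq_mul, dotProduct, mul_sum univ _ (4 : ℝ)]
  refine mul_le_mul_of_nonneg_left (sum_le_sum fun i _ => ?_) (by positivity)
  have m : ∀ a : ℝ, max a 0 ^ 2 ≤ a ^ 2 := fun a => by
    rcases le_total a 0 with h | h
    · rw [max_eq_right h]; simpa using sq_nonneg a
    · rw [max_eq_left h]
  have k : ∀ b, max (F x - F (Function.update x i b)) 0 ^ 2 ≤ 4 * (grad F x i * grad F x i) :=
    fun b => by
      refine (m _).trans ?_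
      have e : F x = F (Function.update x i (x i)) := by rw [Function.update_eq_self]
      rw [grad, SL.incr, e]
      cases x i <;> cases b <;>
        nlinarith [sq_nonneg (F (Function.update x i true) - F (Function.update x i false))]
  rw [siteM, div_le_iff₀ (Chain22.den_pos hw i x), mul_add]
  exact add_le_add (by rw [mul_comm]; exact mul_le_mul_of_nonneg_right (k true) (hw _).le)
    (by rw [mul_comm]; exact mul_le_mul_of_nonneg_right (k false) (hw _).le)

/-- **Herbst**: Lipschitz observables are sub-Gaussian under tight approximate tensorisation -/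
theorem herbst_grad (hn : 0 < n) (hw : ∀ x, 0 < w x) (hK : 0 ≤ K) (h : Ent.AT w K 0)
    {F : Cube n → ℝ} {γ : ℝ} (hγ : ∀ x, grad F x ⬝ᵥ grad F x ≤ γ) (τ : ℝ) :
    mean w (fun x => exp (τ * F x)) ≤ exp (τ * mean w F + 4 * K * γ * τ ^ 2) := by
  have n0 : (0 : ℝ) < n := by exact_mod_cast hn
  have hM := (Ent.mlsi_iff hn hw K 0).2 fun f hf => h.mlsi hw hK hf
  have key : ∀ {F : Cube n → ℝ}, (∀ x, grad F x ⬝ᵥ grad F x ≤ γ) → ∀ τ, 0 ≤ τ →
      mean w (fun x => exp (τ * F x)) ≤ exp (τ * mean w F + 4 * K * γ * τ ^ 2) := by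
    intro F hγ τ hτ
    have := hM.lmgf_le (by positivity) (F := F) (γ := 1 / n * (4 * γ)) (fun x => (gam_le hn hw F x).trans
      (mul_le_mul_of_nonneg_left (by linarith [hγ x]) (by positivity))) hτ
    rw [show K * n * (1 / n * (4 * γ)) = 4 * K * γ by field_simp, Ent.lmgf,
      log_le_iff_le_exp (Ent.mean_exp_pos (hbRC hn hw).isP _)] at this
    exact this
  rcases le_total 0 τ with hτ | hτ
  · exact key hγ τ hτ
  · have := key (F := fun x => -1 * F x) (fun x => by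
      rw [Rec.grad_const_mul]; simpa using hγ x) (-τ) (by linarith)
    simpa [SL.mean_neg] using this

/-- second moment of a centred Lipschitz observable under any law -/
theorem sq_le_kl (hn : 0 < n) (hw : ∀ x, 0 < w x) (hK : 0 < K) (h : Ent.AT w K 0)
    {F : Cube n → ℝ} {γ : ℝ} (γ0 : 0 < γ) (hγ : ∀ x, grad F x ⬝ᵥ grad F x ≤ γ) (h0 : mean w F = 0)
    {ν : Cube n → ℝ} (hν : IsP ν) :
    Chain22.mean ν (fun x => F x ^ 2) ≤ 32 * K * γ * (Ent.kl ν (prob w) + 1) := by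
  have := mean_sq_le_kl (X := F) (isP_prob' hw) hν (Ent.AC.of_pos _ (Chain22.prob_pos' hw))
    (c := 8 * K * γ) (by positivity) fun τ => (herbst_grad hn hw hK.le h hγ τ).trans_eq (by
      rw [h0]; congr 1; ring)
  linarith

/-! ### feature maps -/

variable [DecidableEq κ]

theorem Feat.centre (h : Feat φ A) (hw : ∀ x, 0 < w x) (hA : 0 ≤ A) :
    Feat (fun x => φ x - meanV w φ) (4 * A) where
  lip u x := by
    simp only [dotProduct_sub, Rec.grad_sub, Rec.grad_const, sub_zero]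
    nlinarith [h.lip u x, mul_nonneg hA (dot_self_nonneg u)]
  bd x := by
    have h1 := (Rec.meanV_sq_le (SL.Wt.of_pos hw) φ).trans ((SL.Wt.of_pos hw).mean_le h.bd)
    have h2 := dot_self_nonneg (φ x + meanV w φ)
    simp only [dotProduct_sub, sub_dotProduct, dotProduct_add, add_dotProduct] at h2 ⊢
    linarith [h.bd x]

theorem Feat.Af_le (h : Feat φ A) (hn : 0 < n) (hw : ∀ x, 0 < w x) (hK : 0 < K) (hA : 0 < A)
    (hT : Ent.AT w K 0) (hm : meanV w φ = 0) (ht : 0 ≤ t) :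
    Af φ w t ≤ 32 * K * (A * (A * n)) * (mean w (Hx w t) + 1) := by
  have hp := isP_prob' hw
  have n0 : (0 : ℝ) < n := by exact_mod_cast hn
  have h2 := hp.mean_mono fun x => sq_le_kl hn hw hK hT (F := fun y => φ x ⬝ᵥ φ y)
    (γ := A * (A * n)) (by positivity)
    (fun y => (h.lip _ y).trans (mul_le_mul_of_nonneg_left (h.bd x) hA.le))
    (by rw [← SL.meanV_dot, hm, dotProduct_zero]) (isP_hbCt hn hw ht x)
  rwa [Ent.mean_const_mul, Ent.mean_add', hp.mean_const] at h2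

theorem sq_grad (f : Cube n → ℝ) (x : Cube n) (i : Fin n) :
    (f x - f (fl x i)) ^ 2 = 4 * (grad f x i * grad f x i) := by
  rw [Rec.grad_eq]
  linear_combination (-(f x - f (fl x i)) ^ 2) * Rec.sv_mul_self x i

theorem grad_sq_le (f : Cube n → ℝ) (x : Cube n) (i : Fin n) :
    grad f x i * grad f x i ≤ grad f x ⬝ᵥ grad f x :=
  single_le_sum (f := fun i => grad f x i * grad f x i) (fun _ _ => mul_self_nonneg _) (mem_univ i)

theorem Feat.col (h : Feat φ A) (hA : 0 ≤ A) (x : Cube n) (i : Fin n) :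
    (φ x - φ (fl x i)) ⬝ᵥ (φ x - φ (fl x i)) ≤ 4 * A := by
  set d := φ x - φ (fl x i) with hd
  have h1 := sq_grad (fun y => d ⬝ᵥ φ y) x i
  have h2 := (grad_sq_le _ x i).trans (h.lip d x)
  rw [← dotProduct_sub, ← hd] at h1
  rcases (dot_self_nonneg d).eq_or_lt with h0 | h0
  · rw [← h0]; positivity
  · exact le_of_mul_le_mul_right (by nlinarith) h0

theorem Feat.var_le {C : ℝ} (h : Feat φ A) (hG : GR w C) (hP : Poin w K) (hn : 0 < n)
    (hw : ∀ x, 0 < w x) (hC : 0 ≤ C) (hK : 0 ≤ K) (hA : 0 ≤ A) (ht : 0 ≤ t) :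
    Af φ w t - Bf φ w t ^ 2 ≤ (4 + 18 * K) * (A * (A * n)) * exp ((C + 1) * t) := by
  have hp := isP_prob' hw
  have n0 : (0 : ℝ) ≤ n := n.cast_nonneg
  set G : Cube n → ℝ := fun x => sg w t (fun y => φ x ⬝ᵥ φ y) x with hGd
  have g1 : ∀ (u : κ → ℝ) x, sg w t (fun z => grad (fun y => u ⬝ᵥ φ y) z ⬝ᵥ
      grad (fun y => u ⬝ᵥ φ y) z) x ≤ A * (u ⬝ᵥ u) := fun u x =>
    (sg_mono hn hw ht (h.lip u) x).trans_eq (sg_const hn hw _ _ _)
  have g2 : ∀ (u : κ → ℝ) x, grad (sg w t fun y => u ⬝ᵥ φ y) x ⬝ᵥ grad (sg w t fun y => u ⬝ᵥ φ y) x ≤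
      exp (C * t) * (A * (u ⬝ᵥ u)) := fun u x =>
    (hG t ht _ x).trans (mul_le_mul_of_nonneg_left (g1 u x) (exp_pos _).le)
  have h1 : ∀ x, sg w t (fun y => (φ x ⬝ᵥ φ y) ^ 2) x ≤
      G x * G x + 4 * t * exp (C * t) * (A * (A * n)) := fun x => by
    have a := lvar_le hG hn hw hC ht (fun y => φ x ⬝ᵥ φ y) x
    have b := mul_le_mul_of_nonneg_left ((g1 (φ x) x).trans
      (mul_le_mul_of_nonneg_left (h.bd x) hA)) (show 0 ≤ 4 * t * exp (C * t) by positivity)
    simp only [hGd]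
    linarith
  have h2 : ∀ x, grad G x ⬝ᵥ grad G x ≤
      15 * (exp (C * t) * (A * (A * n))) + 3 * (A * (A * n)) := fun x => by
    set m : κ → ℝ := fun k => sg w t (fun y => φ y k) x with hm
    have m1 : ∀ u : κ → ℝ, sg w t (fun y => u ⬝ᵥ φ y) x = u ⬝ᵥ m := fun u => by
      simp only [dotProduct, sg_sum, sg_const_mul, hm]
    have m2 : m ⬝ᵥ m ≤ A * n := by
      refine le_trans ?_ ((sg_mono hn hw ht h.bd x).trans_eq (sg_const hn hw _ _ _))
      simp only [dotProduct, sg_sum, ← sq]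
      exact sum_le_sum fun k _ => sg_sq_le hn hw ht _ x
    have b : ∀ i, grad G x i * grad G x i ≤
        3 * (grad (sg w t fun y => φ x ⬝ᵥ φ y) x i * grad (sg w t fun y => φ x ⬝ᵥ φ y) x i) +
        3 * (grad (fun y => m ⬝ᵥ φ y) x i * grad (fun y => m ⬝ᵥ φ y) x i) +
        3 * (exp (C * t) * (A * (4 * A))) := fun i => by
      set d := φ x - φ (fl x i) with hd
      have c1 := sq_grad G x i
      have c2 := sq_grad (sg w t fun y => φ x ⬝ᵥ φ y) x i
      have c3 := sq_grad (fun y => m ⬝ᵥ φ y) x i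
      have c4 := sq_grad (sg w t fun y => d ⬝ᵥ φ y) x i
      have c5 := ((grad_sq_le _ x i).trans (g2 d x)).trans (mul_le_mul_of_nonneg_left
        (mul_le_mul_of_nonneg_left (h.col hA x i) hA) (exp_pos _).le)
      have c6 : sg w t (fun y => φ (fl x i) ⬝ᵥ φ y) (fl x i) =
          sg w t (fun y => φ x ⬝ᵥ φ y) (fl x i) - sg w t (fun y => d ⬝ᵥ φ y) (fl x i) := by
        rw [← sg_sub_fun]; congr 1; funext y; rw [hd, sub_dotProduct]; ring
      rw [← dotProduct_sub, ← hd, dotProduct_comm] at c3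
      rw [m1 d] at c4
      simp only [hGd, c6] at c1
      generalize sg w t (fun y => φ x ⬝ᵥ φ y) x = p at *
      generalize sg w t (fun y => φ x ⬝ᵥ φ y) (fl x i) = q at *
      generalize sg w t (fun y => d ⬝ᵥ φ y) (fl x i) = r at *
      generalize d ⬝ᵥ m = s at *
      nlinarith [sq_nonneg (p - q - s), sq_nonneg (p - q + (s - r)), sq_nonneg (s + (s - r))]
    refine (sum_le_sum fun i _ => b i).trans ?_
    rw [sum_add_distrib, sum_add_distrib, ← mul_sum, ← mul_sum, sum_const, card_univ,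
      Fintype.card_fin, nsmul_eq_mul]
    have a1 := (g2 (φ x) x).trans (mul_le_mul_of_nonneg_left
      (mul_le_mul_of_nonneg_left (h.bd x) hA) (exp_pos _).le)
    have a2 := (h.lip m x).trans (mul_le_mul_of_nonneg_left m2 hA)
    exact (add_le_add (add_le_add (mul_le_mul_of_nonneg_left a1 zero_le_three)
      (mul_le_mul_of_nonneg_left a2 zero_le_three)) le_rfl).trans (le_of_eq (by ring))
  have h3 := hp.mean_mono h1
  rw [Ent.mean_add', hp.mean_const] at h3
  have h4 := (hP G).trans (mul_le_mul_of_nonneg_left ((Rec.dir_le_grad hw G).trans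
    ((hp.mean_mono h2).trans_eq (hp.mean_const _))) hK)
  rw [Chain22.evar_eq, hp.var_eq] at h4
  change Af φ w t ≤ ip (prob w) G G + _ at h3
  change _ - Bf φ w t ^ 2 ≤ _ at h4
  have e1 := add_one_le_exp t
  have e2 := one_le_exp (mul_nonneg hC ht)
  have D0 : 0 ≤ A * (A * n) := by positivity
  generalize A * (A * n) = D at *
  rw [add_mul C, one_mul, exp_add]
  have e3 : t * (exp (C * t) * D) ≤ exp t * (exp (C * t) * D) :=
    mul_le_mul_of_nonneg_right (by linarith) (by positivity)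
  have e4 : exp (C * t) * D ≤ exp t * (exp (C * t) * D) :=
    le_mul_of_one_le_left (by positivity) (by linarith)
  have e5 : D ≤ exp (C * t) * D := le_mul_of_one_le_left D0 e2
  nlinarith [mul_le_mul_of_nonneg_left e4 hK, mul_le_mul_of_nonneg_left e5 hK]

/-- tangent line bound: the static Rayleigh quotient bounds the decay -/
theorem ip_sg_ge (hn : 0 < n) (hw : ∀ x, 0 < w x) (f : Cube n → ℝ) (ρ t : ℝ) :
    exp (-(ρ * t)) * ((1 + t * ρ) * ip (prob w) f f - t * dir w f) ≤ ip (prob w) f (sg w t f) := by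
  set c := hbRC hn hw
  have e1 : ip (prob w) f f = _ := c.parseval f f
  have e2 : ip (prob w) f (sg w t f) = _ :=
    (congrArg (ip (prob w) f) (sg_eq hn hw t f)).trans (c.ip_H_spec (n * t) f f)
  rw [e1, e2, Chain22.dir_eq_D hn hw, c.D_spec, mul_sum, mul_sum, mul_sum, ← sum_sub_distrib, mul_sum]
  refine sum_le_sum fun j _ => ?_
  have h1 := add_one_le_exp (ρ * t - n * t * (1 - c.ev j))
  have h2 : exp (-(n * t * (1 - c.ev j))) = exp (-(ρ * t)) * exp (ρ * t - n * t * (1 - c.ev j)) := by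
    rw [← exp_add]; congr 1; ring
  have h3 := mul_le_mul_of_nonneg_right (mul_le_mul_of_nonneg_left h1 (exp_pos (-(ρ * t))).le)
    (mul_self_nonneg (ip c.π f (c.φ j)))
  rw [h2]
  refine le_trans (le_of_eq ?_) h3
  ring

theorem Bf_ge (hn : 0 < n) (hw : ∀ x, 0 < w x) {ρ : ℝ} (ht : 0 ≤ t)
    (h : ∑ i, dir w (fun x => φ x i) ≤ ρ * ∑ i, var w (fun x => φ x i)) :
    (∑ i, var w fun x => φ x i) * exp (-(ρ * t)) ≤ Bf (fun x => φ x - meanV w φ) w t := by
  rw [Bf_eq]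
  refine le_trans ?_ (sum_le_sum fun i _ => ip_sg_ge hn hw _ ρ t)
  have e1 : ∀ i, ip (prob w) (fun x => (φ x - meanV w φ) i) (fun x => (φ x - meanV w φ) i) =
      var w fun x => φ x i := fun i => by simp only [ip, var, meanV, Pi.sub_apply, sq]
  have e2 : ∀ i, dir w (fun x => (φ x - meanV w φ) i) = dir w fun x => φ x i := fun i => by
    rw [Chain22.dir_eq_D hn hw, Chain22.dir_eq_D hn hw,
      ← (hbRC hn hw).D_add_const (fun x => φ x i) (-meanV w φ i)]
    rfl
  simp only [e1, e2]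
  rw [← mul_sum, sum_sub_distrib, ← mul_sum, ← mul_sum, mul_comm]
  exact mul_le_mul_of_nonneg_left (by nlinarith [mul_le_mul_of_nonneg_left h ht]) (exp_pos _).le

/-! ### the lower bound -/

/-- parameters of the propagation argument -/
theorem exists_par {lam ε C : ℝ} (hl : 0 < lam) (hε : 0 < ε) (hC : 0 ≤ C) :
    ∃ δ > (0 : ℝ), ∃ ρ > (0 : ℝ), ∃ N : ℕ, ∃ e > (0 : ℝ), (C + 2 * lam) * δ = 1 / 2 ∧ 10 * ρ ≤ δ ∧
      10 * ρ ≤ ε / (2 * lam) ∧ 1 / (2 * lam) ≤ N * ρ ∧ 5 * e ≤ 1 / 4 / 10 ^ N ∧ 5 * e ≤ ε := by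
  obtain ⟨δ, δ0, hδ⟩ : ∃ δ > (0 : ℝ), (C + 2 * lam) * δ = 1 / 2 :=
    ⟨1 / (2 * (C + 2 * lam)), by positivity, by field_simp⟩
  obtain ⟨ρ, ρ0, ρ1, ρ2⟩ : ∃ ρ > (0 : ℝ), 10 * ρ ≤ δ ∧ 10 * ρ ≤ ε / (2 * lam) := by
    refine ⟨min δ (ε / (2 * lam)) / 10, by positivity, ?_, ?_⟩
    · linarith [min_le_left δ (ε / (2 * lam))]
    · linarith [min_le_right δ (ε / (2 * lam))]
  obtain ⟨N, hN⟩ := exists_nat_ge (1 / (2 * lam) / ρ)
  rw [div_le_iff₀ ρ0] at hN
  refine ⟨δ, δ0, ρ, ρ0, N, min (1 / 4 / 10 ^ N) ε / 5, by positivity, hδ, ρ1, ρ2, hN, ?_, ?_⟩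
  · linarith [min_le_left (1 / 4 / 10 ^ N : ℝ) ε]
  · linarith [min_le_right (1 / 4 / 10 ^ N : ℝ) ε]

/-- the argument at fixed `n`, `L = log n` -/
theorem low_fix (hn : 0 < n) (hw : ∀ x, 0 < w x) {lam ε η C δ ρ e L : ℝ} {N : ℕ} (hl : 0 < lam)
    (hε : 0 < ε) (hε1 : ε < 1) (hη : 0 < η) (hC : 0 ≤ C) (δ0 : 0 < δ) (ρ0 : 0 < ρ) (e0 : 0 < e)
    (hδ : (C + 2 * lam) * δ = 1 / 2) (ρ1 : 10 * ρ ≤ δ) (ρ2 : 10 * ρ ≤ ε / (2 * lam))
    (hN : 1 / (2 * lam) ≤ N * ρ) (e1 : 5 * e ≤ 1 / 4 / 10 ^ N) (e2 : 5 * e ≤ ε) (L0 : 0 ≤ L)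
    (a1 : 80 * 10 ^ N ≤ 1 / 4 * L) (a4 : 12 / η + 1 ≤ exp (e * L))
    (hU : ∀ t, 0 ≤ t → t ≤ L / (2 * lam) → Af φ w t ≤ exp ((2 + e) * L) * exp (-(2 * lam * t)))
    (hR : ∀ t, 0 ≤ t → Af φ w t - Bf φ w t ^ 2 ≤ exp (5 / 4 * L) * exp (C * t))
    (hB : exp ((1 - e) * L) * exp (-((lam + lam * e) * ((1 - ε) * (L / (2 * lam))))) ≤
      Bf φ w ((1 - ε) * (L / (2 * lam)))) :
    ∃ x, 1 - η < tv (hbCt w ((1 - ε) * (L / (2 * lam))) x) (prob w) := by
  by_contra hc
  simp only [not_exists, not_lt] at hc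
  have h1ε : 0 < 1 - ε := by linarith
  set t1 := (1 - ε) * (L / (2 * lam)) with ht1
  have t0 : 0 ≤ t1 := by positivity
  have q1 : 2 * lam * t1 = (1 - ε) * L := by rw [ht1]; field_simp
  have q2 : 2 * lam * (L / (2 * lam)) = L := by field_simp
  have b1 := tv_low (φ := φ) hn hw t0 hc
  have b2 := var_prop (φ := φ) hn hw (lam := lam) (T := L / (2 * lam)) (b := δ * L) (r := ρ * L)
    (x := 1 / 4 * L) (M := exp ((2 + e) * L)) (t := t1) N (by positivity) (by nlinarith) a1 hU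
    (fun t h h' => by
      refine (mul_le_mul_of_nonneg_left (hR t h) (exp_pos _).le).trans ?_
      rw [← exp_add, ← exp_add, mul_left_comm, ← exp_add]
      refine le_trans (exp_le_exp.2 ?_) (le_mul_of_one_le_left (exp_pos _).le one_le_two)
      have c2 := mul_le_mul_of_nonneg_left h' (show 0 ≤ C + 2 * lam by positivity)
      rw [← mul_assoc, hδ] at c2
      nlinarith [mul_nonneg e0.le L0])
    t0 (by
      have c1 := mul_le_mul_of_nonneg_right hN L0
      have c2 : t1 ≤ 1 / (2 * lam) * L := by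
        rw [ht1, one_div_mul_eq_div]
        exact mul_le_of_le_one_left (by positivity) (by linarith)
      nlinarith [mul_nonneg δ0.le L0])
    (by
      have c1 := mul_le_mul_of_nonneg_right ρ2 L0
      have c2 : t1 = L / (2 * lam) - ε / (2 * lam) * L := by rw [ht1]; ring
      linarith)
  have b3 := (Vf_le_Af (φ := φ) hn hw (L / (2 * lam))).trans (hU _ (by positivity) le_rfl)
  have b5 : exp ((2 - 3 * e) * L) ≤ exp (2 * lam * t1) * Bf φ w t1 ^ 2 := by
    refine le_trans ?_ (mul_le_mul_of_nonneg_left (pow_le_pow_left₀ (by positivity) hB 2)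
      (exp_pos _).le)
    rw [← exp_add, ← exp_nat_mul, ← exp_add]
    refine exp_le_exp.2 ?_
    have : 2 * ((lam + lam * e) * t1) = (1 + e) * (2 * lam * t1) := by ring
    push_cast
    nlinarith [mul_nonneg (mul_nonneg e0.le hε.le) L0]
  have b6 : exp (-(1 / 4 * L / 10 ^ N)) * (2 * exp ((2 + e) * L)) ≤ 2 * exp ((2 - 4 * e) * L) := by
    rw [mul_left_comm, ← exp_add]
    refine mul_le_mul_of_nonneg_left (exp_le_exp.2 ?_) zero_le_two
    have := mul_le_mul_of_nonneg_right e1 L0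
    rw [show 1 / 4 * L / 10 ^ N = 1 / 4 / 10 ^ N * L by ring]
    linarith
  have b7 : exp (2 * lam * t1) * Vf φ w ≤ exp ((2 - 4 * e) * L) := by
    refine (mul_le_mul_of_nonneg_left b3 (exp_pos _).le).trans ?_
    rw [q1, q2, ← exp_add, ← exp_add]
    refine exp_le_exp.2 ?_
    nlinarith [mul_le_mul_of_nonneg_right e2 L0]
  have b8 := mul_le_mul_of_nonneg_left b1 (exp_pos (2 * lam * t1)).le
  have b9 : η * exp ((2 - 3 * e) * L) ≤ 12 * exp ((2 - 4 * e) * L) := by
    nlinarith [mul_le_mul_of_nonneg_left b5 hη.le]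
  rw [show (2 - 3 * e) * L = e * L + (2 - 4 * e) * L by ring, exp_add, ← mul_assoc,
    mul_le_mul_iff_left₀ (exp_pos _)] at b9
  have := mul_le_mul_of_nonneg_left a4 hη.le
  rw [mul_add, mul_div_cancel₀ _ hη.ne'] at this
  linarith

theorem cutLowS (hT : Glue.AtTight) {β lam : ℝ} (h0 : 0 ≤ β) (h1 : β < 1) (hl : 0 < lam)
    (hU : UE β lam) (hL : LBS β lam) : CutLow β lam := by
  intro ε hε hε1 η hη
  obtain ⟨K, K0, hK⟩ := hT β h0 h1
  obtain ⟨C, hC, hG⟩ := whp_gr β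
  obtain ⟨δ, δ0, ρ, ρ0, N, e, e0, hδ, ρ1, ρ2, hN, e1, e2⟩ := exists_par (C := C + 1) hl hε
    (by positivity)
  obtain ⟨d, d0, d1, d2, d3⟩ : ∃ d > (0 : ℝ), 4 * d ≤ e ∧ d ≤ lam * e ∧ 16 * d ≤ 1 := by
    refine ⟨min (min (e / 4) (lam * e)) (1 / 16), by positivity, ?_, ?_, ?_⟩
    · linarith [min_le_left (min (e / 4) (lam * e)) (1 / 16), min_le_left (e / 4) (lam * e)]
    · exact (min_le_left _ _).trans (min_le_right _ _)
    · linarith [min_le_right (min (e / 4) (lam * e)) (1 / 16)]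
  refine ((((hU d d0).and (hL d d0)).and hK).and hG).mono ?_
  filter_upwards [eventually_gt_atTop 0, ev_log (80 * 10 ^ N) (c := 1 / 4) (by norm_num),
    ev_exp (1024 * K) d0, ev_exp ((4 + 18 * K) * 16) (c := 1 / 8) (by norm_num),
    ev_exp (12 / η + 1) e0] with n hn a1 a2 a3 a4 g ⟨⟨⟨hU, φ, hφ, v1, v2⟩, hK⟩, hG⟩
  have hw := gibbsWeight_pos β g
  simp only [stateTV_eq]
  set w := gibbsWeight n β g
  have hnL : (n : ℝ) = exp (log n) := (exp_log (by exact_mod_cast hn)).symm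
  have L0 : 0 ≤ log n := log_natCast_nonneg n
  have hc := hφ.centre hw (by positivity)
  have D : 4 * (n : ℝ) ^ d * (4 * (n : ℝ) ^ d * n) = 16 * exp ((1 + 2 * d) * log n) := by
    rw [rpow_eq hn, show (1 + 2 * d) * log n = d * log n + d * log n + log n by ring, exp_add,
      exp_add, ← hnL]; ring
  refine low_fix (φ := fun x => φ x - meanV w φ) hn hw hl hε hε1 hη (by positivity) δ0 ρ0 e0 hδ ρ1
    ρ2 hN e1 e2 L0 a1 a4 (fun t t0 t1 => ?_) (fun t t0 => ?_) ?_
  · have b1 := hc.Af_le hn hw K0 (by positivity) hK (by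
      funext i
      simp only [meanV, Pi.sub_apply, SL.mean_sub, (SL.Wt.of_pos hw).mean_const, sub_self,
        Pi.zero_apply]) t0
    have b2 := hU t t0 t1
    have b3 := one_le_decay hl hn t1 (a := 1 + d) (by linarith)
    rw [D] at b1
    rw [rpow_eq hn] at b2 b3
    calc _ ≤ 32 * K * (16 * exp ((1 + 2 * d) * log n)) *
          (exp ((1 + d) * log n) * exp (-(2 * lam * t)) + exp ((1 + d) * log n) * exp (-(2 * lam * t))) :=
          b1.trans (mul_le_mul_of_nonneg_left (add_le_add b2 b3) (by positivity))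
      _ = 1024 * K * (exp ((1 + 2 * d) * log n) * exp ((1 + d) * log n)) * exp (-(2 * lam * t)) := by
          ring
      _ ≤ exp (d * log n) * (exp ((1 + 2 * d) * log n) * exp ((1 + d) * log n)) *
          exp (-(2 * lam * t)) := by gcongr
      _ ≤ _ := by
          rw [← exp_add, ← exp_add]
          exact mul_le_mul_of_nonneg_right (exp_le_exp.2 (by nlinarith)) (exp_pos _).le
  · refine (hc.var_le hG (fun f => hK.poinc hw K0.le f) hn hw hC K0.le (by positivity) t0).trans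
      (mul_le_mul_of_nonneg_right ?_ (exp_pos _).le)
    rw [D, ← mul_assoc]
    refine (mul_le_mul_of_nonneg_right a3 (exp_pos _).le).trans ?_
    rw [← exp_add]
    exact exp_le_exp.2 (by nlinarith)
  · have h1ε : 0 < 1 - ε := by linarith
    have t0 : 0 ≤ (1 - ε) * (log n / (2 * lam)) := by positivity
    refine le_trans ?_ (Bf_ge hn hw t0 v2)
    rw [rpow_eq hn] at v1
    exact mul_le_mul (le_trans (exp_le_exp.2 (by nlinarith)) v1)
      (exp_le_exp.2 (neg_le_neg (mul_le_mul_of_nonneg_right (by linarith) t0))) (exp_pos _).le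
      ((exp_pos _).le.trans v1)

end Crest.Agent.T157.Low

end
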