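import Crest.Agent.T157.WsTop_32
import Crest.Agent.T157.ClDef_85
import Crest.Agent.T157.LowC_85

/-!
# Row 157, part B (helper95): common words and the top of the chain

A *deficit* is a functional `D` of a density.  `Pay` : the sharp entropy inequality holds up to `D`;
`Neg` : along the flow from a warm start `D` costs only a factor `n ^ e` over a time `δ log n`.
-/

set_option autoImplicit false

noncomputable section

namespace Crest.Agent.T157.B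

open Matrix Real Filter Finset
open Crest.ProbabilityR.SpinGlassDynamics
open Crest.Agent.T157.E Crest.Agent.T157.Top Crest.Agent.T157.Rv
open Crest.Agent.T157.Chain22 (sg)
open Crest.Agent.T157.Ent (cnd)

variable {n : ℕ}

/-! ### site words: `v` is the weight of `ν`, `w` the weight of the reference `π` -/

/-- `kl (ν_i | π_i)`, conditional laws given the spins off `i` -/
def kS (v w : Cube n → ℝ) (i : Fin n) (x : Cube n) : ℝ := Ent.kl (cnd v i x) (cnd w i x)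

/-- `A^r = ∑ E_ν [r_i kl (ν_i | π_i)]` -/
def Ar (r : Fin n → Cube n → ℝ) (v w : Cube n → ℝ) : ℝ :=
  ∑ i, mean v fun x => r i x * kS v w i x

/-- `A = ∑ E_ν kl (ν_i | π_i)` -/
def Ak (v w : Cube n → ℝ) : ℝ := ∑ i, mean v (kS v w i)

/-- `∑ E_ν kl (π_i | ν_i)` -/
def Rk (v w : Cube n → ℝ) : ℝ := ∑ i, mean v (kS w v i)

/-- `Ê = ∑ E_ν [(1 + θ) kl + (1 - θ) rev]` -/
def Eh (θ : ℝ) (v w : Cube n → ℝ) : ℝ := (1 + θ) * Ak v w + (1 - θ) * Rk v w

/-- `Def = ∑ E_ν (kl - rev)₊` -/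
def Df (v w : Cube n → ℝ) : ℝ := ∑ i, mean v fun x => max (kS v w i x - kS w v i x) 0

/-- `E^r = ∑ E_ν [r_i (kl + rev)]` -/
def El (r : Fin n → Cube n → ℝ) (v w : Cube n → ℝ) : ℝ :=
  ∑ i, mean v fun x => r i x * (kS v w i x + kS w v i x)

/-- the weight with density `f` -/
def dn (w f : Cube n → ℝ) (x : Cube n) : ℝ := w x * f x

/-! ### deficits -/

/-- functionals of the disorder and of a density -/
abbrev Fn : Type := ∀ n : ℕ, (Pair n → ℝ) → (Cube n → ℝ) → ℝ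

/-- observables -/
abbrev Ob : Type := ∀ n : ℕ, (Pair n → ℝ) → Cube n → ℝ

/-- `E_ν Q` -/
def Mom (β : ℝ) (Q : Ob) : Fn := fun n g f => mean (gibbsWeight n β g) fun x => f x * Q n g x

/-- `Def` at level zero -/
def DfF (β : ℝ) : Fn := fun n g f => Df (dn (gibbsWeight n β g) f) (gibbsWeight n β g)

/-- `∫₀ˢ e^{2au} (D - η (H + I)) (f_u) du ≤ N (H f + I f + e^{2as})` for `s ≤ T`, with a potential -/
def Paid (w : Cube n → ℝ) (D : (Cube n → ℝ) → ℝ) (a η N T : ℝ) (f : Cube n → ℝ) : Prop :=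
  ∃ Λ Λ' : ℝ → ℝ, Λ 0 = 0 ∧ ∀ s, 0 ≤ s → s ≤ T → HasDerivAt Λ (Λ' s) s ∧
    exp (2 * a * s) * (D (sg w s f) - η * (ent w (sg w s f) + II w (sg w s f))) ≤ Λ' s ∧
    Λ s ≤ N * (ent w f + II w f + exp (2 * a * s))

/-- **the deficit `D` is negligible at rate `a`** -/
def Neg (β a c : ℝ) (D : Fn) : Prop := ∃ δ > (0 : ℝ), ∀ e > (0 : ℝ), ∀ η > (0 : ℝ),
  Whp disorderLaw fun n g => ∀ f, Warm (gibbsWeight n β g) ((n : ℝ) ^ (1 - c)) f →
    Paid (gibbsWeight n β g) (D n g) a η ((n : ℝ) ^ e) (δ * log n) f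

/-- pointwise form (sufficient: `NegP.neg`) -/
def NegP (β a c : ℝ) (D : Fn) : Prop := ∃ δ > (0 : ℝ), ∀ e > (0 : ℝ), ∀ η > (0 : ℝ),
  Whp disorderLaw fun n g => ∀ f, Warm (gibbsWeight n β g) ((n : ℝ) ^ (1 - c)) f →
    ∀ s, 0 ≤ s → s ≤ δ * log n → D n g (sg (gibbsWeight n β g) s f) ≤
      η * (ent (gibbsWeight n β g) (sg (gibbsWeight n β g) s f) +
        II (gibbsWeight n β g) (sg (gibbsWeight n β g) s f)) +
      (n : ℝ) ^ e * (exp (-(2 * a * s)) * (ent (gibbsWeight n β g) f + II (gibbsWeight n β g) f +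
        II (gibbsWeight n β g) (sg (gibbsWeight n β g) s f)) + 1)

/-- static form (sufficient: `NegS.neg`) -/
def NegS (β c : ℝ) (D : Fn) : Prop := ∀ e > (0 : ℝ), ∀ η > (0 : ℝ),
  Whp disorderLaw fun n g => ∀ f, Warm (gibbsWeight n β g) ((n : ℝ) ^ (1 - c)) f →
    D n g f ≤ η * (ent (gibbsWeight n β g) f + II (gibbsWeight n β g) f) + (n : ℝ) ^ e

/-- Lyapunov form (sufficient: `NegL.neg`): `D ≤ γ G`, `d/ds E (f_s) ≤ - G + C I`, `0 ≤ E ≤ C I` -/
def NegL (β c : ℝ) (D : Fn) : Prop := ∃ C > (0 : ℝ), ∀ γ > (0 : ℝ),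
  Whp disorderLaw fun n g => ∃ E E' : (Cube n → ℝ) → ℝ,
    ∀ f, Warm (gibbsWeight n β g) ((n : ℝ) ^ (1 - c)) f →
      0 ≤ E f ∧ E f ≤ C * II (gibbsWeight n β g) f ∧
      D n g f ≤ γ * (C * II (gibbsWeight n β g) f - E' f) ∧
      ∀ s, 0 ≤ s → HasDerivAt (fun u => E (sg (gibbsWeight n β g) u f))
        (E' (sg (gibbsWeight n β g) s f)) s

/-- delayed form (sufficient: `NegD.neg`) -/
def NegD (β a c : ℝ) (D : Fn) : Prop := ∀ e > (0 : ℝ), ∀ η > (0 : ℝ), ∃ τ : ℕ → ℝ,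
  (∀ᶠ n : ℕ in atTop, 0 ≤ τ n ∧ τ n ≤ e * log n) ∧
  Whp disorderLaw fun n g => ∀ f, Warm (gibbsWeight n β g) ((n : ℝ) ^ (1 - c)) f →
    D n g f ≤ (n : ℝ) ^ e * (ent (gibbsWeight n β g) f + II (gibbsWeight n β g) f + 1) ∧
    D n g (sg (gibbsWeight n β g) (τ n) f) ≤
      η * (ent (gibbsWeight n β g) (sg (gibbsWeight n β g) (τ n) f) +
        II (gibbsWeight n β g) (sg (gibbsWeight n β g) (τ n) f) +
        exp (-(2 * a * τ n)) * (ent (gibbsWeight n β g) f + II (gibbsWeight n β g) f)) +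
      (n : ℝ) ^ e

/-- the sharp inequality up to the deficit `D` -/
def Pay (β a c e : ℝ) (D : Fn) : Prop :=
  Whp disorderLaw fun n g => ∀ f, Warm (gibbsWeight n β g) ((n : ℝ) ^ (1 - c)) f →
    2 * a * ent (gibbsWeight n β g) f ≤ II (gibbsWeight n β g) f + D n g f + (n : ℝ) ^ e

/-- **the upper half** -/
def Up (β lam : ℝ) : Prop := ∀ a > (0 : ℝ), a < lam → ∀ c > (0 : ℝ), ∀ e > (0 : ℝ),
  ∃ a1 > a, ∃ D, Neg β a c D ∧ Pay β a1 c e D

/-- **the lower half**, in any of the three forms of helper85, or directly -/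
def Lo (β lam : ℝ) : Prop :=
  Low.LB β lam ∨ Low.LBS β lam ∨ Low.LBC β lam ∨ (Up β lam → CutLow β lam)

/-- the collective lower bound (helper85) -/
def ClGlue : Prop := ∀ β lam : ℝ, 0 < β → β < 1 → 0 < lam → UB β lam → Low.LBC β lam → CutLow β lam

/-- **block B** -/
def BTop : Prop := BOf Up Lo

/-! ### the second layer -/

/-- **(Stat)** the localisation scheme; `𝒬` is the class of squared collective observables,
`G` a deficit of Lyapunov type (`0` if not needed), `θ` the weight of the site deficit -/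
def Stat (β lam : ℝ) (𝒬 : Set Ob) : Prop := ∀ a > (0 : ℝ), a < lam → ∀ c > (0 : ℝ), ∀ e > (0 : ℝ),
  ∃ (m : ℕ) (Q : Fin m → Ob) (C θ : ℝ) (G : Fn), (∀ k, Q k ∈ 𝒬) ∧ 0 ≤ C ∧ 0 ≤ θ ∧
    (0 < θ → 1 / 2 < lam) ∧ NegL β c G ∧
    Pay β a c e fun n g f => θ * DfF β n g f + C * ∑ k, Mom β (Q k) n g f + G n g f

/-- **(Dec)** collective observables decay -/
def Dec (β lam : ℝ) (𝒬 : Set Ob) : Prop :=
  ∀ Q ∈ 𝒬, ∀ a > (0 : ℝ), a < lam → ∀ c > (0 : ℝ), Neg β a c (Mom β Q)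

/-- **(Loc)** the site deficit is negligible (needed only if `lam > 1 / 2`) -/
def Loc (β lam : ℝ) : Prop :=
  1 / 2 < lam → ∀ a > (0 : ℝ), a < lam → ∀ c > (0 : ℝ), Neg β a c (DfF β)

/-- **block B, second layer**; `lam β` is the rate, `𝒬 β` the collective class -/
def BTwo (lam : ℝ → ℝ) (𝒬 : ℝ → Set Ob) : Prop := ∀ β : ℝ, 0 < β → β < 1 →
  0 < lam β ∧ lam β ≤ (1 - β) ^ 2 ∧ Stat β (lam β) (𝒬 β) ∧ Dec β (lam β) (𝒬 β) ∧ Loc β (lam β) ∧
    Lo β (lam β)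

end Crest.Agent.T157.B

end
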