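import Crest.Agent.T157.ClD_85
import Crest.Agent.T157.BDef_95

/-!
# Row 157, part B (helper85): the collective lower bound

`cutLowC : At0 → UWs → LBC → CutLow`, `uws_of_ub`, `clGlue : At0 → B.ClGlue`.
-/

set_option autoImplicit false

noncomputable section

namespace Crest.Agent.T157.Low

open Real Filter
open Crest.ProbabilityR.SpinGlassDynamics
open Crest.Agent.T157.E Crest.Agent.T157.Lag Crest.Agent.T157.Top
open Crest.Agent.T157.Chain22 (sg sg_add)
open Crest.Agent.T157.Rv (Warm At0 UB)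

variable {β lam : ℝ}

theorem cutLowC (hA : At0) (h0 : 0 ≤ β) (h1 : β < 1) (hl : 0 < lam) (hU : UWs β lam)
    (hL : LBC β lam) : CutLow β lam := by
  intro ε hε hε1 η hη
  obtain ⟨K, K0, hK⟩ := hA β h0 h1
  obtain ⟨C, hC, hG⟩ := whp_gr β
  obtain ⟨δ, δ0, c', c0, hL⟩ := hL (ε / 6) (by positivity)
  have ε1 : 0 < 1 - ε := by linarith
  obtain ⟨θ, θ0, hθ⟩ : ∃ θ > (0 : ℝ), lam * θ = (1 - ε) / 2 :=
    ⟨(1 - ε) / (2 * lam), by positivity, by field_simp⟩
  obtain ⟨κ, κ0, κ1, κ2⟩ : ∃ κ > (0 : ℝ), κ ≤ c' ∧ κ ≤ ε / 12 :=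
    ⟨_, lt_min c0 (by positivity), min_le_left _ _, min_le_right _ _⟩
  obtain ⟨d, d0, d1, d2, d3⟩ : ∃ d > (0 : ℝ), d ≤ δ ∧ d ≤ θ ∧ d * (lam + C + 1) ≤ κ / 8 :=
    ⟨min (min δ θ) (κ / 8 / (lam + C + 1)), by positivity, (min_le_left _ _).trans (min_le_left _ _),
      (min_le_left _ _).trans (min_le_right _ _), (le_div_iff₀ (by positivity)).1 (min_le_right _ _)⟩
  obtain ⟨q, q1, q2⟩ : ∃ q : ℕ, 1 ≤ q ∧ 8 * θ ≤ q * d := by
    obtain ⟨q, hq⟩ := exists_nat_ge (8 * θ / d)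
    exact ⟨q + 1, by omega, by push_cast; linarith [(div_le_iff₀ d0).1 hq]⟩
  obtain ⟨N, hN⟩ : ∃ N : ℕ, (N : ℝ) = q + 2 * Bq q := ⟨q + 2 * Bq q, by push_cast; rfl⟩
  have q3 : (1 : ℝ) ≤ q := by exact_mod_cast q1
  have B0 : (0 : ℝ) ≤ Bq q := Nat.cast_nonneg _
  have Λ : (1 : ℝ) ≤ (1 + 10 * q) ^ N := one_le_pow₀ (by linarith)
  obtain ⟨γ, γ0, hγ⟩ : ∃ γ > (0 : ℝ), 12 * γ * (1 + 10 * q) ^ N = κ / 8 :=
    ⟨κ / 8 / (12 * (1 + 10 * q) ^ N), by positivity, by field_simp⟩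
  have γ1 : 12 * γ ≤ κ / 8 := (le_mul_of_one_le_right (by positivity) Λ).trans_eq hγ
  obtain ⟨e, e0, e1, e2⟩ : ∃ e > (0 : ℝ), e ≤ γ ∧ e * (4 * θ) ≤ γ :=
    ⟨min γ (γ / (4 * θ)), by positivity, min_le_left _ _,
      (le_div_iff₀ (by positivity)).1 (min_le_right _ _)⟩
  refine ((((hU (ε / 6) (by positivity) e e0).and (hL e e0)).and hK).and hG).mono ?_
  filter_upwards [eventually_gt_atTop 0, ev_log 1 (c := 12 * γ) (by positivity), ev_log 4 d0,
    ev_exp (128 + (K + 3) + exp lam + exp C + (N + 1) + 1 / η) γ0,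
    ev_exp ((K + 1) * ((lam + 2 * e) / e)) (half_pos γ0), ev_exp 256 (half_pos κ0)]
    with n hn a1 a2 a3 a4 a5 g ⟨⟨⟨hU, Φ, hΦ⟩, hK⟩, hG⟩
  have hw := gibbsWeight_pos β g
  simp only [stateTV_eq]
  have sn : √(n : ℝ) = exp (1 / 2 * log n) := by rw [sqrt_eq_rpow, rpow_eq hn]
  simp only [rpow_eq hn, tn] at hU hΦ
  have L0 : 0 ≤ log (n : ℝ) := log_natCast_nonneg n
  generalize log (n : ℝ) = L at *
  have et : (1 - ε) * (L / (2 * lam)) = θ * L := by
    rw [show 1 - ε = 2 * (lam * θ) by linarith]; field_simp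
  have tT : θ * L ≤ L / (2 * lam) := by
    rw [← et]; exact mul_le_of_le_one_left (by positivity) (by linarith)
  rw [et]
  have m : ∀ {a b : ℝ}, a ≤ b → a * L ≤ b * L := fun h => mul_le_mul_of_nonneg_right h L0
  have x : ∀ {a b : ℝ}, a ≤ b → exp (a * L) ≤ exp (b * L) := fun h => exp_le_exp.2 (m h)
  have N1 : (1 : ℝ) ≤ N := by linarith
  have den : 0 < (Bq q : ℝ) + N * q := by positivity
  obtain ⟨r, r0, hr⟩ : ∃ r ≥ (0 : ℝ), (Bq q + N * q) * r = θ * L - 1 :=
    ⟨(θ * L - 1) / (Bq q + N * q), div_nonneg (by linarith [m d2]) den.le, mul_div_cancel₀ _ den.ne'⟩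
  have p1 := exp_pos lam
  have p2 := exp_pos C
  have p3 : 0 < 1 / η := by positivity
  refine col_fix (N := N) hn hw K0 hK hG hC (hΦ.mono (m d1)) hl.le e0 (exp_pos _) (exp_pos _).le q1 r0 a1 rfl
    rfl (by linarith) ?_ (m d2) (exp_pos ((1 - ε / 2) / 2 * L)) ?_
    (fun f hf u u0 u1 => hU f hf u u0 (u1.trans tT)) (one_le_exp (by positivity)) (ω := exp (γ * L))
    (by linarith) (by linarith) (x e1) (x e1) (by linarith) (by linarith) (by linarith) ?_ ?_
    (s := exp (-κ * L)) (x (by linarith)) ?_ ?_ rfl rfl ?_ ?_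
  · have b1 : q * (N * r) ≤ q * (d * L / 8) := by
      linarith [m q2, mul_nonneg B0 r0]
    have b2 := le_of_mul_le_mul_left b1 (by linarith)
    have b3 : (N : ℝ) * r = q * r + 2 * (Bq q * r) := by rw [hN]; ring
    linarith
  · rw [sn, ← exp_add, ← exp_add, ← add_mul, ← add_mul]
    exact x (by linarith)
  · have := mul_le_mul_of_nonneg_left (show 1 / η ≤ exp (γ * L) by linarith) hη.le
    rwa [mul_one_div_cancel hη.ne'] at this
  · have b1 : exp (γ / 2 * L) ≤ exp (-(2 * e * (θ * L))) * exp (γ * L) := by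
      rw [← exp_add]; exact exp_le_exp.2 (by linarith [m e2])
    have b2 := mul_le_mul_of_nonneg_left (a4.trans b1)
      (show 0 ≤ 1 / (K + 1) * (e / (lam + 2 * e)) by positivity)
    rw [show 1 / (K + 1) * (e / (lam + 2 * e)) * ((K + 1) * ((lam + 2 * e) / e)) = 1 by
      field_simp] at b2
    linarith
  · rw [← exp_add, ← add_mul]
    exact x (by linarith)
  · rw [← exp_add, ← add_mul, ← mul_assoc]
    exact x (by linarith)
  · have b1 : 8 * (4 * exp (12 * γ * L * (1 + 10 * q) ^ N) * exp (lam * (d * L))) *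
        (8 * (exp ((C + 1) * (d * L)) * exp (e * L))) * exp (-κ * L) =
        256 * exp ((κ / 8 + d * (lam + C + 1) + e - κ) * L) := by
      rw [show (κ / 8 + d * (lam + C + 1) + e - κ) * L = 12 * γ * L * (1 + 10 * q) ^ N +
        lam * (d * L) + (C + 1) * (d * L) + e * L + -κ * L by rw [← hγ]; ring]
      simp only [exp_add]; ring
    rw [b1]
    refine (mul_le_mul_of_nonneg_right a5 (exp_pos _).le).trans ?_
    rw [← exp_add, ← add_mul, ← neg_mul]
    exact x (by linarith)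
  · rw [← exp_nat_mul, ← exp_add]
    exact exp_le_one_iff.2 (le_of_eq (by push_cast; ring))

theorem uws_of_ub (hl : 0 < lam) (h : UB β lam) : UWs β lam := by
  intro c hc e he
  obtain ⟨e', p0, p1, p2, p3, p4⟩ : ∃ e' > (0 : ℝ), e' ≤ lam ∧ e' ≤ e / 2 ∧ e' ≤ e * lam / 2 ∧
      e' * (8 * lam) ≤ e :=
    ⟨min (min lam (e / 2)) (min (e * lam / 2) (e / (8 * lam))), by positivity,
      (min_le_left _ _).trans (min_le_left _ _), (min_le_left _ _).trans (min_le_right _ _),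
      (min_le_right _ _).trans (min_le_left _ _),
      (le_div_iff₀ (by positivity)).1 ((min_le_right _ _).trans (min_le_right _ _))⟩
  obtain ⟨δ, d0, d1, h⟩ := h c hc e' p0
  refine h.mono ?_
  filter_upwards [eventually_gt_atTop 0, ev_exp 2 (by positivity : 0 < lam * δ),
    ev_exp 2 (half_pos he), Rv.ev_log 1] with n hn a1 a2 a3 g hg f hf t t0 t1
  have hw := gibbsWeight_pos β g
  have l1 := Rv.le_log hl t1
  simp only [rpow_eq hn] at hg hf ⊢
  generalize log (n : ℝ) = L at *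
  have T0 : 0 < δ * L := by positivity
  set k := ⌊t / (δ * L)⌋₊
  have k1 : k * (δ * L) ≤ t := (le_div_iff₀ T0).1 (Nat.floor_le (by positivity))
  have k2 : t ≤ (k + 1) * (δ * L) := ((div_lt_iff₀ T0).1 (Nat.lt_floor_add_one _)).le
  have r2 : exp (e' * δ * L) * exp (-(2 * lam * (δ * L))) ≤ 1 / 2 := by
    rw [← exp_add, le_div_iff₀ two_pos]
    refine (mul_le_mul_of_nonneg_left a1 (exp_pos _).le).trans ?_
    rw [← exp_add]
    exact exp_le_one_iff.2 (by linarith [mul_le_mul_of_nonneg_right p1 T0.le])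
  have b1 := Rv.ent_block hn hw T0.le (by positivity) r2 (exp_pos _).le hg hf k
  have b2 := Rv.ent_sg_self hn hw (t := t - k * (δ * L)) (by linarith)
    (Rv.sg_nn hn hw (t := k * (δ * L)) (by positivity) fun x => (hf.1 x).le)
  rw [← sg_add hn hw, sub_add_cancel] at b2
  have b4 : (exp (e' * δ * L) * exp (-(2 * lam * (δ * L)))) ^ k ≤
      exp (e * L) * exp (-(2 * lam * t)) := by
    rw [← exp_add, ← exp_nat_mul, ← exp_add, exp_le_exp]
    have q1 : e' * (k * (δ * L)) ≤ e * lam / 2 * t := by gcongr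
    have q2 : 2 * lam * δ * L ≤ e / 4 * L :=
      mul_le_mul_of_nonneg_right (by nlinarith) (by linarith)
    nlinarith [mul_le_mul_of_nonneg_left k2 (by positivity : 0 ≤ 2 * lam),
      mul_le_mul_of_nonneg_left l1 he.le]
  have b5 : 2 * exp (e' * L) ≤ exp (e * L) := by
    refine (mul_le_mul_of_nonneg_right a2 (exp_pos _).le).trans ?_
    rw [← exp_add]
    exact exp_le_exp.2 (by linarith [mul_le_mul_of_nonneg_right p2 (show 0 ≤ L by linarith)])
  linarith [mul_le_mul_of_nonneg_right b4 (Rv.ent_nn hw fun x => (hf.1 x).le)]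

/-- **the collective lower bound** -/
theorem clGlue (hA : At0) : B.ClGlue := fun _ _ h0 h1 hl hU hL =>
  cutLowC hA h0.le h1 hl (uws_of_ub hl hU) hL

end Crest.Agent.T157.Low

end
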