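import Crest.Agent.T157.ClB_85

/-!
# Row 157, part B (helper85): spectral multipliers and the backward chain of observables
-/

set_option autoImplicit false

noncomputable section

namespace Crest.Agent.T157.Low

open Matrix Real Finset Filter Topology
open Crest.Agent.T157.E Crest.Agent.T157.Lag Crest.Agent.T157.Top
open Crest.Agent.T157.Chain22 (sg hbRC ip sg_eq sg_add sg_zero isP_hbCt isP_prob' IsP ip_sg_symm)
open Crest.Agent.T157.Rec (sg_sum sg_const_mul sg_const sg_mono sg_add_fun sg_sub_fun GR grad fl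
  sg_nonneg)
open Crest.Agent.T157.Rv (Warm)

variable {n : ℕ} {w f F G Φ Ψ ψ ψ' : Cube n → ℝ} {t K a lo hi A A' W : ℝ} {m m' : ℝ → ℝ}

/-! ### spectral coordinates -/

section spec
variable (hn : 0 < n) (hw : ∀ x, 0 < w x)

/-- coordinate in the eigenbasis -/
def co (f : Cube n → ℝ) (j : Cube n) : ℝ := ip (prob w) f ((hbRC hn hw).φ j)

/-- rate of the eigenfunction -/
def rt (j : Cube n) : ℝ := n * (1 - (hbRC hn hw).ev j)

theorem rt_nn (j : Cube n) : 0 ≤ rt hn hw j :=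
  mul_nonneg n.cast_nonneg (sub_nonneg.2 ((hbRC hn hw).ev_le_one j))

theorem co_sg (u : ℝ) (f : Cube n → ℝ) (j : Cube n) :
    co hn hw (sg w u f) j = exp (-(u * rt hn hw j)) * co hn hw f j := by
  rw [co, sg_eq hn hw]
  refine ((hbRC hn hw).ip_H_φ (n * u) f j).trans ?_
  rw [rt, mul_left_comm u, ← mul_assoc (n : ℝ)]; rfl

theorem ip_co (f g : Cube n → ℝ) : ip (prob w) f g = ∑ j, co hn hw f j * co hn hw g j :=
  (hbRC hn hw).parseval f g

theorem dir_co (f : Cube n → ℝ) : dir w f = ∑ j, rt hn hw j * (co hn hw f j * co hn hw f j) := by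
  rw [Chain22.dir_eq_D hn hw, Chain22.RC.D_spec, mul_sum]
  exact sum_congr rfl fun j _ => (mul_assoc _ _ _).symm

theorem co_sum {ι : Type} [Fintype ι] {c : ι → ℝ} {g : ι → Cube n → ℝ}
    (h : ∀ x, G x = ∑ i, c i * g i x) (j : Cube n) : co hn hw G j = ∑ i, c i * co hn hw (g i) j := by
  simp only [co, ip, h, sum_mul, mul_sum]
  rw [sum_comm]
  exact sum_congr rfl fun i _ => sum_congr rfl fun x _ => by ring

theorem co_diff (hΨ : ∀ x, Ψ x = Φ x - sg w 1 Φ x) (j : Cube n) :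
    co hn hw Ψ j = (1 - exp (-rt hn hw j)) * co hn hw Φ j := by
  have := co_sg hn hw 1 Φ j
  rw [one_mul] at this
  rw [sub_mul, one_mul, ← this, funext hΨ]
  exact Chain22.ip_sub_left (prob w) Φ (sg w 1 Φ) _

theorem var_eq_ip (hw : ∀ x, 0 < w x) (h0 : mean w Φ = 0) : var w Φ = ip (prob w) Φ Φ := by
  rw [Chain22.evar_eq, (isP_prob' hw).var_eq, show Chain22.mean (prob w) Φ = 0 from h0]; ring

/-- spectral gap -/
theorem co_gap (hP : Poin w K) (h0 : mean w Φ = 0) {j : Cube n} (hj : K * rt hn hw j < 1) :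
    co hn hw Φ j = 0 := by
  have hp := isP_prob' hw
  set c := hbRC hn hw
  have h1 : var w (c.φ j) ≤ K * rt hn hw j := by
    refine (hP _).trans_eq ?_
    rw [Chain22.dir_eq_D hn hw, c.D_φ_φ]; rfl
  by_cases he : c.ev j = 1
  · have h2 := hp.ip_sq_le Φ fun x => c.φ j x - mean w (c.φ j)
    have e1 : ip (prob w) (fun x => c.φ j x - mean w (c.φ j)) (fun x => c.φ j x - mean w (c.φ j)) =
        var w (c.φ j) := by simp only [ip, var, sq]
    have e2 : ip (prob w) Φ (fun x => c.φ j x - mean w (c.φ j)) = co hn hw Φ j := by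
      have : ip (prob w) Φ (fun x => c.φ j x - mean w (c.φ j)) =
          mean w fun x => Φ x * c.φ j x - Φ x * mean w (c.φ j) :=
        Ent.mean_congr fun x => mul_sub _ _ _
      rw [this, SL.mean_sub, SL.mean_mul_const, h0, zero_mul, sub_zero]; rfl
    rw [rt, he, sub_self, mul_zero, mul_zero] at h1
    rw [e1, e2] at h2
    exact pow_eq_zero_iff two_ne_zero |>.1 (le_antisymm (h2.trans
      (mul_nonpos_of_nonneg_of_nonpos (hp.ip_self_nonneg _) h1)) (sq_nonneg _))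
  · rw [var_eq_ip hw (c.mean_φ he)] at h1
    have : ip (prob w) (c.φ j) (c.φ j) = 1 := (c.ip_φ_φ j j).trans (if_pos rfl)
    linarith

end spec

/-! ### normalised combinations and their multipliers -/

/-- `ψ = ∑ c_i e^{a u_i} P_{u_i} Ψ`, with multiplier `m` in the variable `rate - a` -/
def Rep (w Ψ : Cube n → ℝ) (a lo hi A : ℝ) (m : ℝ → ℝ) (ψ : Cube n → ℝ) : Prop :=
  ∃ (ι : Type) (_ : Fintype ι) (c u : ι → ℝ), (∀ i, lo ≤ u i ∧ u i ≤ hi) ∧ ∑ i, |c i| ≤ A ∧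
    (∀ y, m y = ∑ i, c i * exp (-(u i * y))) ∧ ∀ x, ψ x = ∑ i, c i * exp (a * u i) * sg w (u i) Ψ x

theorem rep_one (w Ψ : Cube n → ℝ) (a u : ℝ) :
    Rep w Ψ a u u 1 (fun y => exp (-(u * y))) fun x => exp (a * u) * sg w u Ψ x :=
  ⟨Unit, inferInstance, fun _ => 1, fun _ => u, fun _ => ⟨le_rfl, le_rfl⟩, by simp, by simp, by simp⟩

theorem Rep.mono (h : Rep w Ψ a lo hi A m ψ) {lo' hi' : ℝ} (h1 : lo' ≤ lo) (h2 : hi ≤ hi')
    (h3 : A ≤ A') : Rep w Ψ a lo' hi' A' m ψ := by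
  obtain ⟨ι, _, c, u, hu, hc, e⟩ := h
  exact ⟨ι, _, c, u, fun i => ⟨h1.trans (hu i).1, (hu i).2.trans h2⟩, hc.trans h3, e⟩

theorem Rep.coef (h : Rep w Ψ a lo hi A m ψ) (hn : 0 < n) (hw : ∀ x, 0 < w x) (j : Cube n) :
    co hn hw ψ j = m (rt hn hw j - a) * co hn hw Ψ j := by
  obtain ⟨ι, _, c, u, -, -, e1, e2⟩ := h
  rw [co_sum hn hw e2, e1, sum_mul]
  refine sum_congr rfl fun i _ => ?_
  rw [co_sg, show -(u i * (rt hn hw j - a)) = a * u i + -(u i * rt hn hw j) by ring, exp_add]; ring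

theorem Rep.shift (h : Rep w Ψ a lo hi A m ψ) (hn : 0 < n) (hw : ∀ x, 0 < w x) (v : ℝ) :
    Rep w Ψ a (lo + v) (hi + v) A (fun y => m y * exp (-(v * y)))
      fun x => exp (a * v) * sg w v ψ x := by
  obtain ⟨ι, _, c, u, hu, hc, e1, e2⟩ := h
  refine ⟨ι, _, c, fun i => u i + v, fun i => ⟨by linarith [(hu i).1], by linarith [(hu i).2]⟩, hc,
    fun y => ?_, fun x => ?_⟩
  · beta_reduce
    rw [e1, sum_mul]
    exact sum_congr rfl fun i _ => by rw [add_mul, neg_add, exp_add]; ring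
  · beta_reduce
    rw [funext e2, sg_sum, mul_sum]
    refine sum_congr rfl fun i _ => ?_
    rw [sg_const_mul, add_comm (u i), sg_add hn hw, mul_add, exp_add]; ring

theorem Rep.sub (h : Rep w Ψ a lo hi A m ψ) (h' : Rep w Ψ a lo hi A' m' ψ') :
    Rep w Ψ a lo hi (A + A') (fun y => m y - m' y) fun x => ψ x - ψ' x := by
  obtain ⟨ι, _, c, u, hu, hc, e1, e2⟩ := h
  obtain ⟨κ, _, c', u', hu', hc', e1', e2'⟩ := h'
  refine ⟨ι ⊕ κ, inferInstance, Sum.elim c fun k => -c' k, Sum.elim u u', ?_, ?_, fun y => ?_,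
    fun x => ?_⟩
  · rintro (i | i)
    exacts [hu i, hu' i]
  · simpa [Fintype.sum_sum_type] using add_le_add hc hc'
  · simp [e1, e1', Fintype.sum_sum_type, sub_eq_add_neg]
  · simp [e2, e2', Fintype.sum_sum_type, sub_eq_add_neg]

theorem Rep.step (h : Rep w Ψ a lo hi A m ψ) {q d : ℕ} (hq : 1 ≤ q) (hd : 0 < d) {r : ℝ}
    (hr : 0 ≤ r) : ∃ ψ', Rep w Ψ a lo (hi + r) (A * 3 ^ (q * d)) (fun y => m y * pm q d r y) ψ' := by
  obtain ⟨ι, _, c, u, hu, hc, e1, -⟩ := h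
  have d0 : (0 : ℝ) < d := by exact_mod_cast hd
  refine ⟨_, ι × Fin d, inferInstance, fun p => c p.1 * aq q d p.2, fun p => u p.1 + p.2 * (r / d),
    fun p => ?_, ?_, fun y => ?_, fun _ => rfl⟩
  · have j1 : ((p.2 : ℕ) : ℝ) ≤ d := by exact_mod_cast p.2.2.le
    have j2 := mul_le_mul_of_nonneg_right j1 (show 0 ≤ r / d by positivity)
    rw [mul_div_cancel₀ _ d0.ne'] at j2
    have j3 : 0 ≤ ((p.2 : ℕ) : ℝ) * (r / d) := by positivity
    exact ⟨by linarith [(hu p.1).1], by linarith [(hu p.1).2]⟩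
  · simp only [abs_mul, Fintype.sum_prod_type, ← mul_sum, ← sum_mul]
    rw [Fin.sum_univ_eq_sum_range (fun j => |aq q d j|)]
    exact mul_le_mul hc (sum_abs_aq hq d) (sum_nonneg fun _ _ => abs_nonneg _)
      ((sum_nonneg fun _ _ => abs_nonneg _).trans hc)
  · beta_reduce
    rw [e1, pm, ← Fin.sum_univ_eq_sum_range fun j => aq q d j * exp (-(j * (r / d) * y)),
      sum_mul_sum, Fintype.sum_prod_type]
    refine sum_congr rfl fun i _ => sum_congr rfl fun j _ => ?_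
    rw [add_mul, neg_add, exp_add]; ring

theorem Rep.err (h : Rep w Ψ a lo hi A m ψ) {q d : ℕ} (hq : 1 ≤ q) (hd : 0 < d) {r τ0 τ1 : ℝ}
    (hr : 0 ≤ r) (h1 : τ0 + Bq q * r ≤ lo) (h2 : hi + (q + Bq q) * r ≤ τ1) (y : ℝ) :
    |m y * exp (-(q * r * y)) - m y * pm q d r y| ≤
      A * (2 * (1 / 2) ^ d * (exp (-(τ0 * y)) + exp (-(τ1 * y)))) := by
  obtain ⟨ι, _, c, u, hu, hc, e1, -⟩ := h
  rw [← mul_sub, e1, sum_mul]
  refine (abs_sum_le_sum_abs _ _).trans (le_trans ?_ (mul_le_mul_of_nonneg_right hc (by positivity)))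
  rw [sum_mul]
  refine sum_le_sum fun i _ => ?_
  rw [mul_assoc, abs_mul, abs_mul, abs_of_pos (exp_pos _)]
  exact mul_le_mul_of_nonneg_left (pm_err hq hd hr (h1.trans (hu i).1) (by linarith [(hu i).2]) y)
    (abs_nonneg _)

theorem Rep.cl (h : Rep w Ψ a lo hi A m ψ) (hn : 0 < n) (hw : ∀ x, 0 < w x)
    (hΨ : ∀ x, Ψ x = Φ x - sg w 1 Φ x) (ha : 0 ≤ a) (h0 : 0 ≤ lo) (h1 : hi + 1 ≤ W) :
    Cl w Φ 0 W (2 * A * exp (a * W)) ψ := by
  obtain ⟨ι, _, c, u, hu, hc, -, e2⟩ := h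
  refine ⟨ι ⊕ ι, inferInstance, Sum.elim (fun i => c i * exp (a * u i)) fun i => -(c i * exp (a * u i)),
    Sum.elim u fun i => u i + 1, ?_, ?_, fun x => ?_⟩
  · rintro (i | i)
    · exact ⟨h0.trans (hu i).1, by have := (hu i).2; simp only [Sum.elim_inl]; linarith⟩
    · have := hu i
      simp only [Sum.elim_inr]
      exact ⟨by linarith [this.1], by linarith [this.2]⟩
  · have : ∑ i, |c i * exp (a * u i)| ≤ A * exp (a * W) := by
      refine le_trans (sum_le_sum fun i _ => ?_) ((sum_mul _ _ _).symm.trans_le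
        (mul_le_mul_of_nonneg_right hc (exp_pos _).le))
      rw [abs_mul, abs_of_pos (exp_pos _)]
      exact mul_le_mul_of_nonneg_left (exp_le_exp.2 (mul_le_mul_of_nonneg_left
        (by linarith [(hu i).2]) ha)) (abs_nonneg _)
    simp only [Fintype.sum_sum_type, Sum.elim_inl, Sum.elim_inr, abs_neg]
    linarith
  · simp only [e2, Fintype.sum_sum_type, Sum.elim_inl, Sum.elim_inr, funext hΨ, sg_sub_fun,
      sg_add hn hw, ← sum_add_distrib]
    exact sum_congr rfl fun i _ => by ring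

theorem Rep.dev (h : Rep w Ψ a lo hi A m ψ) (hw : ∀ x, 0 < w x) (hf : ∀ x, 0 ≤ f x) (ha : 0 ≤ a)
    {x ζ : ℝ} (hζ : 0 ≤ ζ) (hd : ∀ u, lo ≤ u → u ≤ hi →
      Dv w f (sg w u Ψ) (x * ip (prob w) Φ (sg w u Ψ)) ≤ ζ) :
    Dv w f ψ (x * ip (prob w) Φ ψ) ≤ A * (exp (a * hi) * ζ) := by
  obtain ⟨ι, _, c, u, hu, hc, -, e2⟩ := h
  have e : ip (prob w) Φ ψ = ∑ i, c i * exp (a * u i) * ip (prob w) Φ (sg w (u i) Ψ) := by
    simp only [ip, e2, mul_sum]
    rw [sum_comm]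
    exact sum_congr rfl fun i _ => sum_congr rfl fun x _ => by ring
  have k : ∀ y, f y * |ψ y - x * ip (prob w) Φ ψ| ≤ ∑ i, |c i| * exp (a * u i) *
      (f y * |sg w (u i) Ψ y - x * ip (prob w) Φ (sg w (u i) Ψ)|) := fun y => by
    rw [e, e2, mul_sum, ← sum_sub_distrib]
    refine (mul_le_mul_of_nonneg_left (abs_sum_le_sum_abs _ _) (hf y)).trans_eq ?_
    rw [mul_sum]
    refine sum_congr rfl fun i _ => ?_
    rw [mul_left_comm x, ← mul_sub, abs_mul, abs_mul, abs_of_pos (exp_pos _)]; ring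
  refine ((isP_prob' hw).mean_mono k).trans ?_
  rw [Ent.mean_sum']
  refine le_trans (sum_le_sum fun i _ => ?_) ((sum_mul _ _ _).symm.trans_le
    (mul_le_mul_of_nonneg_right hc (by positivity)))
  rw [Ent.mean_const_mul, mul_assoc]
  exact mul_le_mul_of_nonneg_left (mul_le_mul (exp_le_exp.2 (mul_le_mul_of_nonneg_left (hu i).2 ha))
    (hd _ (hu i).1 (hu i).2) ((isP_prob' hw).mean_nonneg fun y => mul_nonneg (hf y) (abs_nonneg _))
    (exp_pos _).le) (abs_nonneg _)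

theorem ip_diff (hn : 0 < n) (hw : ∀ x, 0 < w x) (hΨ : ∀ x, Ψ x = Φ x - sg w 1 Φ x) (u : ℝ) :
    ip (prob w) Φ (sg w u Ψ) = ∑ j, exp (-(u * rt hn hw j)) * (1 - exp (-rt hn hw j)) *
      (co hn hw Φ j * co hn hw Φ j) := by
  rw [ip_co hn hw]
  exact sum_congr rfl fun j _ => by rw [co_sg, co_diff hn hw hΨ]; ring

/-- `H¹` norm from a bound on the multiplier -/
theorem Rep.h1 (h : Rep w Ψ a lo hi A m ψ) (hn : 0 < n) (hw : ∀ x, 0 < w x)
    (hΨ : ∀ x, Ψ x = Φ x - sg w 1 Φ x) {ε τ : ℝ}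
    (hm : ∀ y, |m y| ≤ ε * (exp (-(1 * y)) + exp (-(τ * y)))) :
    ip (prob w) ψ ψ + dir w ψ ≤ 2 * ε ^ 2 * (exp (2 * a) * ip (prob w) Φ (sg w 1 Ψ) +
      exp (2 * τ * a) * ip (prob w) Φ (sg w (2 * τ - 1) Ψ)) := by
  rw [ip_co hn hw ψ, dir_co hn hw, ip_diff hn hw hΨ, ip_diff hn hw hΨ, mul_sum, mul_sum,
    ← sum_add_distrib, ← sum_add_distrib, mul_sum]
  refine sum_le_sum fun j _ => ?_
  rw [h.coef hn hw, co_diff hn hw hΨ]
  have s0 := rt_nn hn hw j
  have h1 := pow_le_pow_left₀ (abs_nonneg _) (hm (rt hn hw j - a)) 2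
  generalize rt hn hw j = s at *
  have h2 := add_one_le_exp s
  have h3 : 0 ≤ 1 - exp (-s) := sub_nonneg.2 (exp_le_one_iff.2 (by linarith))
  have h4 := exp_pos (-s)
  have e1 : exp (2 * a) * exp (-(1 * s)) = exp s * exp (-(1 * (s - a))) ^ 2 := by
    rw [← exp_nat_mul, ← exp_add, ← exp_add]; congr 1; push_cast; ring
  have e2 : exp (2 * τ * a) * exp (-((2 * τ - 1) * s)) = exp s * exp (-(τ * (s - a))) ^ 2 := by
    rw [← exp_nat_mul, ← exp_add, ← exp_add]; congr 1; push_cast; ring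
  rw [sq_abs] at h1
  have h5 : m (s - a) ^ 2 ≤ 2 * ε ^ 2 * (exp (-(1 * (s - a))) ^ 2 + exp (-(τ * (s - a))) ^ 2) := by
    nlinarith [mul_nonneg (sq_nonneg ε) (sq_nonneg (exp (-(1 * (s - a))) - exp (-(τ * (s - a)))))]
  have h6 : (1 + s) * (1 - exp (-s)) ≤ exp s := by nlinarith [mul_nonneg s0 h4.le]
  have h7 := mul_le_mul h6 h5 (sq_nonneg _) (exp_pos _).le
  have h8 := mul_le_mul_of_nonneg_right h7 (mul_nonneg h3 (mul_self_nonneg (co hn hw Φ j)))
  calc _ = (1 + s) * (1 - exp (-s)) * m (s - a) ^ 2 *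
        ((1 - exp (-s)) * (co hn hw Φ j * co hn hw Φ j)) := by ring
    _ ≤ _ := h8
    _ = 2 * ε ^ 2 * ((exp s * exp (-(1 * (s - a))) ^ 2 + exp s * exp (-(τ * (s - a))) ^ 2) *
        ((1 - exp (-s)) * (co hn hw Φ j * co hn hw Φ j))) := by ring
    _ = _ := by rw [← e1, ← e2]; ring

/-- lower bound of the linear response -/
theorem Rep.resp (h : Rep w Ψ a lo hi A m ψ) (hn : 0 < n) (hw : ∀ x, 0 < w x)
    (hΨ : ∀ x, Ψ x = Φ x - sg w 1 Φ x) (hK : 0 < K) (hP : Poin w K) (h0 : mean w Φ = 0) {e δ : ℝ}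
    (ha : 0 ≤ a) (he : 0 < e) (hδ : 0 ≤ δ) (ht : 0 ≤ t) (hR : dir w Φ ≤ (a + e) * var w Φ)
    (m1 : ∀ y, y ≤ 0 → 1 ≤ m y) (m2 : ∀ y, 0 ≤ y → exp (-(t * y)) - δ ≤ m y) :
    (1 / (K + 1) * exp (-(2 * e * t)) * (e / (a + 2 * e)) - δ) * var w Φ ≤ ip (prob w) Φ ψ := by
  have key : ∀ j, (1 / (K + 1) * exp (-(2 * e * t)) * (1 - rt hn hw j / (a + 2 * e)) - δ) *
      (co hn hw Φ j * co hn hw Φ j) ≤ co hn hw Φ j * co hn hw ψ j := fun j => by
    rw [h.coef hn hw, co_diff hn hw hΨ]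
    rcases lt_or_ge (K * rt hn hw j) 1 with hj | hj
    · simp [co_gap hn hw hP h0 hj]
    have s0 := rt_nn hn hw j
    generalize rt hn hw j = s at *
    have g1 : exp (-s) * (s + 1) ≤ 1 := by
      have := mul_le_mul_of_nonneg_left (add_one_le_exp s) (exp_pos (-s)).le
      rwa [← exp_add, neg_add_cancel, exp_zero] at this
    have g0 := exp_pos (-s)
    have g2 : 1 / (K + 1) ≤ 1 - exp (-s) := by
      rw [div_le_iff₀ (by positivity)]
      nlinarith [mul_le_mul_of_nonneg_left g1 hK.le, mul_le_mul_of_nonneg_left hj g0.le]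
    have g3 : exp (-(2 * e * t)) * max (1 - s / (a + 2 * e)) 0 - δ ≤ m (s - a) := by
      have g4 : max (1 - s / (a + 2 * e)) 0 ≤ 1 :=
        max_le (sub_le_self _ (by positivity)) zero_le_one
      rcases le_total (s - a) 0 with hy | hy
      · have := mul_le_one₀ (exp_le_one_iff.2 (neg_nonpos.2 (show 0 ≤ 2 * e * t by positivity)))
          (le_max_right _ _) g4
        linarith [m1 _ hy]
      refine le_trans (sub_le_sub_right ?_ _) (m2 _ hy)
      rcases le_total s (a + 2 * e) with hs | hs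
      · exact (mul_le_of_le_one_right (exp_pos _).le g4).trans (exp_le_exp.2 (by nlinarith))
      · rw [max_eq_right (sub_nonpos.2 ((one_le_div (by positivity)).2 hs)), mul_zero]
        exact (exp_pos _).le
    have g5 : 0 ≤ exp (-(2 * e * t)) * max (1 - s / (a + 2 * e)) 0 :=
      mul_nonneg (exp_pos _).le (le_max_right _ _)
    have g6 : 1 / (K + 1) * exp (-(2 * e * t)) * (1 - s / (a + 2 * e)) ≤
        1 / (K + 1) * (exp (-(2 * e * t)) * max (1 - s / (a + 2 * e)) 0) := by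
      rw [mul_assoc]; gcongr; exact le_max_left _ _
    have g7 : 1 / (K + 1) * exp (-(2 * e * t)) * (1 - s / (a + 2 * e)) - δ ≤
        m (s - a) * (1 - exp (-s)) := by
      have g8 : 0 ≤ 1 - exp (-s) := le_trans (by positivity) g2
      nlinarith [mul_le_mul_of_nonneg_right g3 g8, mul_le_mul_of_nonneg_right g2 g5,
        mul_nonneg hδ g0.le]
    refine (mul_le_mul_of_nonneg_right g7 (mul_self_nonneg _)).trans_eq ?_
    ring
  rw [ip_co hn hw Φ ψ]
  refine le_trans ?_ (sum_le_sum fun j _ => key j)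
  have e1 : ∑ j, (1 / (K + 1) * exp (-(2 * e * t)) * (1 - rt hn hw j / (a + 2 * e)) - δ) *
      (co hn hw Φ j * co hn hw Φ j) = 1 / (K + 1) * exp (-(2 * e * t)) *
        (var w Φ - dir w Φ / (a + 2 * e)) - δ * var w Φ := by
    rw [var_eq_ip hw h0, ip_co hn hw, dir_co hn hw, sum_div, ← sum_sub_distrib, mul_sum, mul_sum,
      ← sum_sub_distrib]
    exact sum_congr rfl fun j _ => by ring
  have e2 : e / (a + 2 * e) * var w Φ ≤ var w Φ - dir w Φ / (a + 2 * e) := by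
    rw [le_sub_iff_add_le, div_mul_eq_mul_div, ← add_div, div_le_iff₀ (by positivity)]
    linarith
  rw [e1, sub_mul, mul_assoc _ _ (var w Φ)]
  exact sub_le_sub_right (mul_le_mul_of_nonneg_left e2 (by positivity)) _

theorem Cl.lip {C Lp : ℝ} (h : Cl w Φ 0 W A G) (hn : 0 < n) (hw : ∀ x, 0 < w x) (hG : GR w C)
    (hC : 0 ≤ C) (hL : ∀ x, grad Φ x ⬝ᵥ grad Φ x ≤ Lp) (x : Cube n) :
    grad G x ⬝ᵥ grad G x ≤ A ^ 2 * (exp (C * W) * Lp) := by
  obtain ⟨ι, _, c, u, hu, hc, e⟩ := h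
  have L0 : 0 ≤ Lp := (Eig.dot_self_nonneg _).trans (hL x)
  have g : ∀ k, grad G x k = ∑ i, c i * grad (sg w (u i) Φ) x k := fun k => by
    simp only [grad, SL.incr, e, ← sum_sub_distrib, sum_div]
    exact sum_congr rfl fun i _ => by ring
  have b : ∀ i, grad (sg w (u i) Φ) x ⬝ᵥ grad (sg w (u i) Φ) x ≤ exp (C * W) * Lp := fun i =>
    (hG _ (hu i).1 Φ x).trans (mul_le_mul (exp_le_exp.2 (mul_le_mul_of_nonneg_left (hu i).2 hC))
      ((sg_mono hn hw (hu i).1 hL x).trans_eq (sg_const hn hw _ _ _))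
      (sg_nonneg hn hw (hu i).1 (fun _ => Eig.dot_self_nonneg _) x) (exp_pos _).le)
  have c0 : 0 ≤ ∑ i, |c i| := sum_nonneg fun _ _ => abs_nonneg _
  have k : ∀ k, grad G x k * grad G x k ≤ (∑ i, |c i|) *
      ∑ i, |c i| * (grad (sg w (u i) Φ) x k * grad (sg w (u i) Φ) x k) := fun k => by
    rw [← sq, g]
    refine sum_sq_le_sum_mul_sum_of_sq_le_mul _ (fun i _ => abs_nonneg _)
      (fun i _ => mul_nonneg (abs_nonneg _) (mul_self_nonneg _)) fun i _ => le_of_eq ?_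
    rw [mul_pow, ← sq_abs (c i)]; ring
  refine (sum_le_sum fun j _ => k j).trans ?_
  rw [← mul_sum, sum_comm, sq, mul_assoc]
  refine mul_le_mul hc (le_trans (sum_le_sum fun i _ => ?_) ((sum_mul _ _ _).symm.trans_le
    (mul_le_mul_of_nonneg_right hc (by positivity)))) (sum_nonneg fun i _ => sum_nonneg fun k _ =>
      mul_nonneg (abs_nonneg _) (mul_self_nonneg _)) (c0.trans hc)
  rw [← mul_sum]
  exact mul_le_mul_of_nonneg_left (b i) (abs_nonneg _)

/-! ### the chain -/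

theorem chain (hn : 0 < n) (hw : ∀ x, 0 < w x) (hΨ : ∀ x, Ψ x = Φ x - sg w 1 Φ x)
    (hf : ∀ x, 0 ≤ f x) (h1 : mean w f = 1) {q N : ℕ} (hq : 1 ≤ q) {r b ν Q R u0 τ : ℝ}
    (ha : 0 ≤ a) (hr : 0 ≤ r) (hb : 1 ≤ b) (hν : 0 ≤ ν) (hu : u0 = 1 + Bq q * r)
    (hτ : τ = u0 + (N + q + Bq q) * r) (hW : τ + 1 ≤ W) (ht : t = u0 + N * (q * r))
    (hA : A = 4 * exp (b * (1 + 10 * q) ^ N) * exp (a * W))
    (hR : exp (2 * a) * ip (prob w) Φ (sg w 1 Ψ) +
      exp (2 * τ * a) * ip (prob w) Φ (sg w (2 * τ - 1) Ψ) ≤ R)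
    (hmart : ∀ G, Cl w Φ 0 W A G → ∀ v, 0 ≤ v → v ≤ W → ∀ x,
      sg w v (fun y => G y ^ 2) x - sg w v G x ^ 2 ≤ ν ^ 2)
    (hQ : ∀ G, Cl w Φ 0 W A G → ip (prob w) G G + dir w G ≤ 8 * exp (-b) ^ 2 * R →
      ∀ s, 0 ≤ s → s ≤ t → exp (a * s) * mean w (fun x => sg w s f x * |G x|) ≤ Q) :
    ∀ j ≤ N, ∃ m ψ, Rep w Ψ a u0 (u0 + j * r) (exp (b * (1 + 10 * q) ^ j)) m ψ ∧
      (∀ y, y ≤ 0 → 1 ≤ m y) ∧
      (∀ y, 0 ≤ y → exp (-((u0 + j * (q * r)) * y)) - j * (4 * exp (-b)) ≤ m y) ∧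
      ∀ c, Dv w (sg w t f) (fun x => exp (a * t) * Ψ x) c ≤
        Dv w (sg w (t - u0 - j * (q * r)) f) (fun x => exp (a * (t - u0 - j * (q * r))) * ψ x) c +
          (j + 1) * (exp (a * t) * ν) + j * Q := by
  have B0 : 0 ≤ (Bq q : ℝ) * r := by positivity
  have q0 : 0 ≤ (q : ℝ) * r := by positivity
  have N0 : 0 ≤ (N : ℝ) * r := by positivity
  have q1 : r ≤ q * r := le_mul_of_one_le_left hr (by exact_mod_cast hq)
  have Λ : (1 : ℝ) ≤ 1 + 10 * q := le_add_of_nonneg_right (by positivity)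
  have hτ' : τ = u0 + N * r + q * r + Bq q * r := by rw [hτ]; ring
  have bj : ∀ {i j : ℕ}, i ≤ j → b * (1 + 10 * q) ^ i ≤ b * (1 + 10 * q) ^ j := fun h =>
    mul_le_mul_of_nonneg_left (pow_le_pow_right₀ Λ h) (by linarith)
  have cl : ∀ {m ψ}, Rep w Ψ a 0 τ (2 * exp (b * (1 + 10 * q) ^ N)) m ψ → Cl w Φ 0 W A ψ :=
    fun h => by
      have := h.cl hn hw hΨ ha le_rfl hW
      rwa [hA, show (4 : ℝ) = 2 * 2 by norm_num, mul_assoc 2 2]
  have sh : ∀ {G}, Cl w Φ 0 W A G → ∀ v s, 0 ≤ v → v ≤ W → 0 ≤ s → v + s ≤ t → ∀ c,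
      Dv w (sg w (v + s) f) (fun x => exp (a * (v + s)) * G x) c ≤
        Dv w (sg w s f) (fun x => exp (a * s) * (exp (a * v) * sg w v G x)) c + exp (a * t) * ν :=
    fun {G} hG v s v0 v1 s0 s1 c => by
      have := Dv_shift hn hw (f := sg w s f) (G := fun x => exp (a * (v + s)) * G x)
        (sg_nonneg hn hw s0 hf) ((Rec.mean_sg' hn hw s f).trans h1) v0
        (ν := exp (a * (v + s)) * ν) (by positivity) (fun x => by
          simp only [mul_pow, sg_const_mul, ← mul_sub]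
          exact mul_le_mul_of_nonneg_left (hmart G hG v v0 v1 x) (sq_nonneg _)) c
      rw [← sg_add hn hw] at this
      refine this.trans (add_le_add (le_of_eq ?_) (mul_le_mul_of_nonneg_right
        (exp_le_exp.2 (mul_le_mul_of_nonneg_left s1 ha)) hν))
      congr 1; funext x
      rw [sg_const_mul, mul_add, exp_add]; ring
  intro j
  induction j with
  | zero =>
    intro _
    have e1 : (1 : ℝ) ≤ exp (b * (1 + 10 * q) ^ N) := one_le_exp (by positivity)
    refine ⟨_, _, (rep_one w Ψ a u0).mono le_rfl (by simp) (one_le_exp (by positivity)),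
      fun y hy => one_le_exp (by nlinarith), fun y _ => by simp, fun c => ?_⟩
    have := sh (cl ((rep_one w Ψ a 0).mono le_rfl (by linarith) (by linarith))) u0 (t - u0)
      (by linarith) (by linarith) (by rw [ht, add_sub_cancel_left]; positivity) (by linarith) c
    simpa [sg_zero hn hw] using this
  | succ j ih =>
    intro hj
    obtain ⟨m, ψ, hψ, m1, m2, hD⟩ := ih (by omega)
    have j0 : (0 : ℝ) ≤ j := j.cast_nonneg
    have jN : (j : ℝ) + 1 ≤ N := by exact_mod_cast hj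
    have jr := mul_le_mul_of_nonneg_right jN hr
    have jq := mul_le_mul_of_nonneg_right jN q0
    have jr0 : 0 ≤ (j : ℝ) * r := by positivity
    have jq0 : 0 ≤ (j : ℝ) * (q * r) := by positivity
    have b0 : b ≤ b * (1 + 10 * q) ^ j := by simpa using bj (Nat.zero_le j)
    obtain ⟨d, hd, d1, d2⟩ := exists_deg q (hb.trans b0)
    obtain ⟨ψ', hψ'⟩ := hψ.step hq hd hr
    rw [mul_assoc, ← pow_succ] at d2
    have er : ∀ y, |m y * exp (-(q * r * y)) - m y * pm q d r y| ≤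
        2 * exp (-b) * (exp (-(1 * y)) + exp (-(τ * y))) := fun y => by
      refine (hψ.err hq hd hr hu.ge (τ1 := τ) (by linarith) y).trans ?_
      rw [← mul_assoc, mul_left_comm]
      exact mul_le_mul_of_nonneg_right (mul_le_mul_of_nonneg_left
        (d1.trans (exp_le_exp.2 (by linarith))) zero_le_two) (by positivity)
    have eN : ∀ {i}, i ≤ N → exp (b * (1 + 10 * q) ^ i) ≤ exp (b * (1 + 10 * q) ^ N) :=
      fun h => exp_le_exp.2 (bj h)
    have hρ := ((hψ.shift hn hw (q * r)).mono (lo' := 0) (hi' := τ) (by linarith) (by linarith)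
      (eN (by omega))).sub (hψ'.mono (by linarith) (by linarith) (d2.trans (eN hj)))
    rw [← two_mul] at hρ
    refine ⟨_, ψ', hψ'.mono le_rfl (by push_cast; linarith) d2, fun y hy =>
      one_le_mul_of_one_le_of_one_le (m1 y hy) (one_le_pm q hd hr hy), fun y hy => ?_, fun c => ?_⟩
    · have a1 := (abs_le.1 (er y)).2
      have a2 : exp (-(1 * y)) ≤ 1 := exp_le_one_iff.2 (by linarith)
      have a3 : exp (-(τ * y)) ≤ 1 := exp_le_one_iff.2 (neg_nonpos.2 (mul_nonneg (by linarith) hy))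
      have a4 : exp (-(q * r * y)) ≤ 1 := exp_le_one_iff.2 (neg_nonpos.2 (mul_nonneg q0 hy))
      have a5 := mul_le_mul_of_nonneg_right (m2 y hy) (exp_pos (-(q * r * y))).le
      have a6 := mul_le_mul_of_nonneg_left a4 (show 0 ≤ j * (4 * exp (-b)) by positivity)
      have a7 := mul_le_mul_of_nonneg_left (add_le_add a2 a3) (show 0 ≤ 2 * exp (-b) by positivity)
      push_cast
      rw [show -((u0 + (j + 1) * (q * r)) * y) = -((u0 + j * (q * r)) * y) + -(q * r * y) by ring,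
        exp_add]
      linarith
    · set s := t - u0 - ((j + 1 : ℕ) : ℝ) * (q * r) with hs
      have s0 : 0 ≤ s := by rw [hs, ht]; push_cast; linarith
      have e : t - u0 - j * (q * r) = q * r + s := by rw [hs]; push_cast; ring
      have a1 := hD c
      rw [e] at a1
      have a2 := sh (cl (hψ.mono (by linarith) (by linarith) ((eN (by omega)).trans
        (le_mul_of_one_le_left (exp_pos _).le one_le_two)))) (q * r) s q0 (by linarith) s0
        (by linarith) c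
      have a3 := hQ _ (cl hρ) ((hρ.h1 hn hw hΨ er).trans
        ((mul_le_mul_of_nonneg_left hR (by positivity)).trans_eq (by ring))) s s0 (by linarith)
      have a4 : Dv w (sg w s f) (fun x => exp (a * s) * (exp (a * (q * r)) * sg w (q * r) ψ x)) c ≤
          Dv w (sg w s f) (fun x => exp (a * s) * ψ' x) c + exp (a * s) *
            mean w fun x => sg w s f x * |exp (a * (q * r)) * sg w (q * r) ψ x - ψ' x| := by
        rw [Dv, Dv, ← SL.mean_const_mul, ← SL.mean_add]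
        refine (isP_prob' hw).mean_mono fun x => ?_
        rw [mul_left_comm (exp (a * s)) (sg w s f x), ← mul_add]
        refine mul_le_mul_of_nonneg_left ?_ (sg_nonneg hn hw s0 hf x)
        rw [← abs_of_pos (exp_pos (a * s)), ← abs_mul, abs_of_pos (exp_pos (a * s))]
        exact le_trans (le_of_eq (by congr 1; ring)) (abs_add_le _ _)
      push_cast
      linarith

end Crest.Agent.T157.Low

end
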