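import Crest.Agent.T157.RegCol_13
import Crest.Agent.T157.ClC_85

/-!
# Row 157, part B, REG (helper70): the bridge `ColGlue` for a field of size `n ^ (c / 16 - 1 / 2)`
-/

set_option autoImplicit false

noncomputable section

namespace Crest.Agent.T157.Reg

open Matrix Real Filter Topology Finset
open Crest.ProbabilityR.SpinGlassDynamics (disorderLaw gibbsWeight)
open Crest.Agent.T157.E hiding mean
open Crest.Agent.T157.Tap (V Mx)
open Crest.Agent.T157.Rec (grad fl)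
open Crest.Agent.T157.Chain22 (sg IsP mean)

/-- a slow collective observable with a regular field of size `n ^ (c / 16 - 1 / 2)` -/
def LBG (β lam : ℝ) : Prop := ∀ c > (0 : ℝ), c ≤ 1 → ∃ c' > (0 : ℝ), ∀ e > (0 : ℝ),
  Top.Whp disorderLaw fun n g => ∃ (Φ : Cube n → ℝ) (ω : VF n),
    E.mean (gibbsWeight n β g) Φ = 0 ∧ (∀ x, grad Φ x ⬝ᵥ grad Φ x ≤ (n : ℝ) ^ e) ∧
    (∀ x, |Φ x| ≤ √n * (n : ℝ) ^ e) ∧ ((n : ℝ) ^ e)⁻¹ ≤ var (gibbsWeight n β g) Φ ∧
    dir (gibbsWeight n β g) Φ ≤ (lam + e) * var (gibbsWeight n β g) Φ ∧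
    Fld (gibbsWeight n β g) Φ ω ((n : ℝ) ^ (c / 16 - 1 / 2)) ((n : ℝ) ^ (-c')) ((n : ℝ) ^ (1 - c))

namespace ColG

variable {n : ℕ}

lemma wm_mono {w v : Cube n → ℝ} (hw : ∀ x, 0 < w x) {H H' : ℝ} (h : Wm w H v) (hH : H ≤ H') :
    Wm w H' v :=
  ⟨h.1, fun x => (h.2 x).trans
    (mul_le_mul_of_nonneg_right (exp_le_exp.2 hH) ((Chain22.isP_prob' hw).nn x))⟩

lemma sq2_two {p : Cube n → ℝ} (hp : IsP p) (ξ ω : VF n) {a b : ℝ} (h1 : ∀ x, sq2 ξ x ≤ a)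
    (h2 : mean p (sq2 (ξ - ω)) ≤ b) : mean p (sq2 ω) ≤ 2 * a + 2 * b := by
  have key : ∀ x, sq2 ω x ≤ 2 * a + 2 * sq2 (ξ - ω) x := fun x => by
    have : sq2 ω x ≤ 2 * sq2 ξ x + 2 * sq2 (ξ - ω) x := by
      simp only [sq2, dotProduct, mul_sum, ← sum_add_distrib, Pi.sub_apply]
      exact sum_le_sum fun k _ => by nlinarith [sq_nonneg (2 * ξ x k - ω x k)]
    linarith [h1 x]
  refine (hp.mean_mono key).trans ?_
  rw [Ent.mean_add', hp.mean_const, Ent.mean_const_mul]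
  linarith

lemma rho_le {C1 P A a b c : ℝ} (c1 : 1 ≤ C1) (P0 : 0 < P) (b1 : a ≤ 1 / P ^ 8)
    (b2 : b ≤ 1 / P ^ 8) (b3 : c ≤ 1 / P ^ 8) :
    C1 * P * A ^ 2 * (a + b + c) + A ^ 2 / P ^ 7 ≤ 4 * C1 * (A ^ 2 / P ^ 7) := by
  have h1 : C1 * P * A ^ 2 * (a + b + c) ≤ C1 * P * A ^ 2 * (3 * (1 / P ^ 8)) :=
    mul_le_mul_of_nonneg_left (by linarith) (by positivity)
  have h2 : C1 * P * A ^ 2 * (3 * (1 / P ^ 8)) = 3 * C1 * (A ^ 2 / P ^ 7) := by field_simp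
  have h3 : A ^ 2 / P ^ 7 ≤ C1 * (A ^ 2 / P ^ 7) := le_mul_of_one_le_left (by positivity) c1
  linarith

lemma num {C1 C2 P A L e0 ρ H S : ℝ} (c1 : 1 ≤ C1) (c2 : 1 ≤ C2) (hP : 11 * C2 * C1 ^ 2 ≤ P)
    (H0 : 0 ≤ H) (b4 : ρ ≤ 4 * C1 * (A ^ 2 / P ^ 7)) (b3 : L ^ 2 * e0 ^ 2 * H ≤ 1 / P ^ 8)
    (hs : P ^ 4 * (L ^ 2 * e0 ^ 2 * S) ≤ 2) :
    C2 * (ρ + √(ρ * (4 * C1 * A ^ 2 * P ^ 3 + (C1 * L * P * A * e0) ^ 2 * H)) +
      (C1 * L * P * A * e0) ^ 2 * S) ≤ A ^ 2 * P⁻¹ := by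
  have c3 : 1 ≤ C1 ^ 2 := one_le_pow₀ c1
  have c4 : C1 ≤ C1 ^ 2 := by nlinarith
  have P1 : 1 ≤ P := by linarith [one_le_mul_of_one_le_of_one_le c2 c3]
  have P0 : 0 < P := by linarith
  have b5 : 4 * C1 * A ^ 2 * P ^ 3 + (C1 * L * P * A * e0) ^ 2 * H ≤
      5 * C1 ^ 2 * (A ^ 2 * P ^ 3) := by
    have h1 : (C1 * L * P * A * e0) ^ 2 * H =
        C1 ^ 2 * A ^ 2 * P ^ 2 * (L ^ 2 * e0 ^ 2 * H) := by ring
    have h2 : 1 / P ^ 8 ≤ P := (div_le_one (by positivity)).2 (one_le_pow₀ P1) |>.trans P1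
    have h3 := mul_le_mul_of_nonneg_left (b3.trans h2)
      (show 0 ≤ C1 ^ 2 * A ^ 2 * P ^ 2 by positivity)
    have h4 := mul_le_mul_of_nonneg_right c4 (show 0 ≤ A ^ 2 * P ^ 3 by positivity)
    rw [h1]
    nlinarith
  have b6 : √(ρ * (4 * C1 * A ^ 2 * P ^ 3 + (C1 * L * P * A * e0) ^ 2 * H)) ≤
      5 * C1 ^ 2 * (A ^ 2 / P ^ 2) := by
    refine sqrt_le_iff.2 ⟨by positivity, ?_⟩
    refine (mul_le_mul b4 b5 (by positivity) (by positivity)).trans ?_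
    have e : 4 * C1 * (A ^ 2 / P ^ 7) * (5 * C1 ^ 2 * (A ^ 2 * P ^ 3)) =
        20 * C1 * C1 ^ 2 * (A ^ 2 / P ^ 2) ^ 2 := by field_simp; ring
    rw [e, mul_pow]
    refine mul_le_mul_of_nonneg_right ?_ (sq_nonneg _)
    nlinarith [mul_le_mul_of_nonneg_right c4 (show 0 ≤ C1 ^ 2 by positivity)]
  have b7 : (C1 * L * P * A * e0) ^ 2 * S ≤ 2 * C1 ^ 2 * (A ^ 2 / P ^ 2) := by
    have e : (C1 * L * P * A * e0) ^ 2 * S =
        C1 ^ 2 * (A ^ 2 / P ^ 2) * (P ^ 4 * (L ^ 2 * e0 ^ 2 * S)) := by field_simp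
    rw [e]
    have := mul_le_mul_of_nonneg_left hs (show 0 ≤ C1 ^ 2 * (A ^ 2 / P ^ 2) by positivity)
    linarith
  have b8 : ρ ≤ 4 * C1 ^ 2 * (A ^ 2 / P ^ 2) := by
    refine b4.trans (mul_le_mul (by linarith) ?_ (by positivity) (by positivity))
    exact div_le_div_of_nonneg_left (sq_nonneg _) (by positivity)
      (pow_le_pow_right₀ P1 (by norm_num))
  calc _ ≤ C2 * (11 * C1 ^ 2 * (A ^ 2 / P ^ 2)) :=
        mul_le_mul_of_nonneg_left (by linarith) (by linarith)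
    _ = 11 * C2 * C1 ^ 2 * (A ^ 2 / P ^ 2) := by ring
    _ ≤ P * (A ^ 2 / P ^ 2) := mul_le_mul_of_nonneg_right hP (by positivity)
    _ = _ := by field_simp

lemma nb {C1 P A : ℝ} (c1 : 1 ≤ C1) (P11 : 11 ≤ P) :
    2 * (A ^ 2 * (P * P)) + 2 * (4 * C1 * (A ^ 2 / P ^ 7)) ≤ 4 * C1 * A ^ 2 * P ^ 3 := by
  have h1 : A ^ 2 / P ^ 7 ≤ A ^ 2 := div_le_self (sq_nonneg _) (one_le_pow₀ (by linarith))
  have h0 : P * P ≤ P ^ 3 := by nlinarith
  have h2 : 4 ≤ P ^ 3 := by nlinarith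
  have h3 : P * P ≤ C1 * P ^ 3 := h0.trans (le_mul_of_one_le_left (by linarith) c1)
  have h4 := mul_le_mul_of_nonneg_left h1 (show 0 ≤ C1 by linarith)
  have h5 := mul_le_mul_of_nonneg_left h2 (show 0 ≤ C1 * A ^ 2 by positivity)
  have h6 := mul_le_mul_of_nonneg_left h3 (sq_nonneg A)
  linarith

end ColG

open Col13 hiding num
open ColG

/-- **the collective lower bound from `LBG`** -/
theorem colGlueG (rs : RegS) (rg : RgStmt) (hN : NiceStmt) (at0 : Rv.At0) {β lam : ℝ} (β0 : 0 ≤ β)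
    (β1 : β < 1) (lbg : LBG β lam) : Low.LBC β lam := by
  intro c hc
  obtain ⟨K1, K1p, hN⟩ := hN
  obtain ⟨K2, K2p, hA⟩ := at0 β β0 β1
  obtain ⟨C1, c1, R1⟩ := rs (max K1 K2) (lt_max_of_lt_left K1p)
  obtain ⟨C2, c2, R2⟩ := rg (max K1 K2) (lt_max_of_lt_left K1p)
  obtain ⟨C3, c30, R3⟩ := Da.grStmt (max K1 K2)
  set c0 : ℝ := min c 1 with hc0
  have a0 : 0 < c0 := lt_min hc one_pos
  have a1 : c0 ≤ c := min_le_left _ _
  have a2 : c0 ≤ 1 := min_le_right _ _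
  obtain ⟨c', hc', hF⟩ := lbg c0 a0 a2
  set m : ℝ := min c0 c' with hm
  have m0 : 0 < m := lt_min a0 hc'
  have m1 : m ≤ c0 := min_le_left _ _
  have m2 : m ≤ c' := min_le_right _ _
  have C0 : 0 < C1 := by linarith
  refine ⟨m / 64 / (C1 + C3), by positivity, m / 128, by positivity, fun e he => ?_⟩
  set e1 : ℝ := min e (m / 64) with he1
  have e10 : 0 < e1 := lt_min he (by positivity)
  have e11 : e1 ≤ e := min_le_left _ _
  have e12 : e1 ≤ m / 64 := min_le_right _ _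
  refine ((hF e1 e10).and (hN.and hA)).mono ?_
  filter_upwards [eventually_gt_atTop 0, ((tendsto_rpow_atTop (show 0 < m / 64 by positivity)).comp
    tendsto_natCast_atTop_atTop).eventually_ge_atTop (11 * C2 * C1 ^ 2)] with n hn hP g hg
  obtain ⟨⟨Φ, ω0, f1, f2, f3, f4, f5, f6⟩, g1, g2⟩ := hg
  have n1 : (1 : ℝ) ≤ n := by exact_mod_cast hn
  have n0 : (0 : ℝ) < n := by linarith
  have hw := gibbsWeight_pos β g
  have nice : Nice (β • Jmat n g) (max K1 K2) := nice_mono (g1 β β0 β1.le) K1p.le (le_max_left _ _)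
  have at1 := g2.mono hw (le_max_right K1 K2) le_rfl
  have ew : gibbsWeight n β g = mu (β • Jmat n g) := gibbsWeight_eq_ising β g
  rw [ew] at f1 f4 f5 f6 at1 hw ⊢
  set W := β • Jmat n g
  have pe : (n : ℝ) ^ e1 ≤ (n : ℝ) ^ e := rpow_le_rpow_of_exponent_le n1 e11
  have pH : (n : ℝ) ^ (1 - c) ≤ (n : ℝ) ^ (1 - c0) := rpow_le_rpow_of_exponent_le n1 (by linarith)
  have x0 : 0 ≤ log n := log_natCast_nonneg n
  have rp : ∀ a : ℝ, (n : ℝ) ^ a = exp (a * log n) := fun a => by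
    rw [rpow_def_of_pos n0, mul_comm]
  change 11 * C2 * C1 ^ 2 ≤ (n : ℝ) ^ (m / 64) at hP
  have pP : (n : ℝ) ^ e1 ≤ (n : ℝ) ^ (m / 64) := rpow_le_rpow_of_exponent_le n1 e12
  set P : ℝ := (n : ℝ) ^ (m / 64) with hPd
  have c3 : 1 ≤ C1 ^ 2 := one_le_pow₀ c1
  have P11 : 11 ≤ P := by linarith [one_le_mul_of_one_le_of_one_le c2 c3]
  have P0 : 0 < P := by linarith
  have Pk : ∀ k : ℕ, P ^ k = exp (k * (m / 64) * log n) := fun k => by
    rw [hPd, rp, ← exp_nat_mul, mul_assoc]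
  have P8 : 1 / P ^ 8 = exp (-(m / 8 * log n)) := by
    rw [Pk, exp_neg, one_div]; congr 2; push_cast; ring
  have mx := mul_nonneg m0.le x0
  have k2 : ((n : ℝ) ^ (-(m / 128))) ^ 2 = P⁻¹ := by
    rw [hPd, rp, rp, ← exp_nat_mul, ← exp_neg]; congr 1; push_cast; ring
  have cx := mul_le_mul_of_nonneg_right m1 x0
  have cx' := mul_le_mul_of_nonneg_right a1 x0
  have b1 : (n : ℝ) ^ (-c') ≤ 1 / P ^ 8 := by
    rw [P8, rp, exp_le_exp]
    linarith [mul_le_mul_of_nonneg_right m2 x0]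
  have s2 : ((n : ℝ) ^ (c0 / 16 - 1 / 2)) ^ 2 = exp ((c0 / 8 - 1) * log n) := by
    rw [rp, ← exp_nat_mul]; congr 1; push_cast; ring
  have l2 : ((n : ℝ) ^ (c0 / 8)) ^ 2 = exp (c0 / 4 * log n) := by
    rw [rp, ← exp_nat_mul]; congr 1; push_cast; ring
  have e0p : 0 < (n : ℝ) ^ (c0 / 16 - 1 / 2) := by positivity
  have b2 : n * ((n : ℝ) ^ (c0 / 16 - 1 / 2)) ^ 2 / ((n : ℝ) ^ (c0 / 8)) ^ 2 ≤ 1 / P ^ 8 := by
    rw [s2, l2, P8]
    nth_rewrite 1 [← exp_log n0]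
    rw [← exp_add, ← exp_sub, exp_le_exp]
    linarith
  have b3 : ((n : ℝ) ^ (c0 / 8)) ^ 2 * ((n : ℝ) ^ (c0 / 16 - 1 / 2)) ^ 2 * (n : ℝ) ^ (1 - c0) ≤
      1 / P ^ 8 := by
    rw [s2, l2, P8, rp, ← exp_add, ← exp_add, exp_le_exp]
    linarith
  refine ⟨Φ, f1, fun x => (f2 x).trans pe, fun x => (f3 x).trans
    (mul_le_mul_of_nonneg_left pe (sqrt_nonneg _)),
    (inv_anti₀ (by positivity) pe).trans f4, f5.trans (mul_le_mul_of_nonneg_right (by linarith)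
      (le_trans (by positivity) f4)), fun f hf => ?_, fun f hf A G hG => ?_⟩
  · rw [mean_of, k2]
    refine ((R2 n W hn nice at1 Φ ω0 _ _ _ f6 _ (wm_mono hw (wm_of hw hf) pH)).2 _ ?_).trans ?_
    · have h1 : (n : ℝ) ^ (c - 1 / 2) =
          exp ((c - c0 / 16) * log n) * (n : ℝ) ^ (c0 / 16 - 1 / 2) := by
        rw [rp, rp, ← exp_add]; congr 1; ring
      rw [h1]
      refine mul_le_mul_of_nonneg_right (le_trans (by linarith : (4 : ℝ) ≤ P) ?_) e0p.le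
      rw [hPd, rp, exp_le_exp]
      linarith
    · rw [inv_eq_one_div, le_div_iff₀ P0]
      rw [le_div_iff₀ (by positivity)] at b1
      refine le_trans ?_ b1
      have h1 : 8 * P ≤ P ^ 8 := by
        calc 8 * P ≤ P ^ 2 := by rw [sq]; exact mul_le_mul_of_nonneg_right (by linarith) P0.le
          _ ≤ P ^ 8 := pow_le_pow_right₀ (by linarith) (by norm_num)
      have := mul_le_mul_of_nonneg_right h1 (show 0 ≤ (n : ℝ) ^ (-c') by positivity)
      linarith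
  · have lip := hG.lip hn hw (R3 n W 0 hn nice.1 nice.2.1) c30 f2
    obtain ⟨ι, _, α, u, hu, hα, hG⟩ := hG
    have A0 : 0 ≤ A := (sum_nonneg fun i _ => abs_nonneg _).trans hα
    rcases A0.eq_or_lt with A0 | A0
    · have : G = fun _ => 0 := funext fun x => by
        rw [hG]
        refine sum_eq_zero fun i _ => ?_
        have := (single_le_sum (f := fun i => |α i|) (fun _ _ => abs_nonneg _)
          (mem_univ i)).trans hα
        rw [abs_nonpos_iff.1 (this.trans A0.ge), zero_mul]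
      rw [this, ← A0]
      simp [Low.Gm, dir, siteM, E.mean]
    let q := (Fintype.equivFin ι).symm
    have eG : G = fun x => ∑ j, α (q j) * sg (mu W) (u (q j)) Φ x := funext fun x => by
      rw [hG]; exact (Equiv.sum_comp q fun i => α i * sg (mu W) (u i) Φ x).symm
    have eP : exp (C1 * (m / 64 / C1 * log n)) = P := by
      rw [hPd, rp]; congr 1; field_simp
    have uU : m / 64 / (C1 + C3) * log n ≤ m / 64 / C1 * log n := by gcongr; linarith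
    have eQ : exp (C3 * (m / 64 / (C1 + C3) * log n)) ≤ P := by
      rw [hPd, rp, exp_le_exp, ← mul_assoc]
      refine mul_le_mul_of_nonneg_right ?_ x0
      rw [← mul_div_assoc, div_le_iff₀ (by positivity), mul_comm]
      exact mul_le_mul_of_nonneg_left (by linarith) (by positivity)
    obtain ⟨ω, ω', r1, -, -⟩ := R1 n W hn nice at1 Φ ω0 _ _ _ (m / 64 / C1 * log n)
      ((n : ℝ) ^ (c0 / 8)) e0p (by positivity) (one_le_rpow n1 (by positivity)) f6 _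
      (fun j => u (q j)) (fun j => α (q j)) A (fun j => ⟨(hu _).1, (hu _).2.trans uU⟩)
      ((Equiv.sum_comp q fun i => |α i|).trans_le hα) (A ^ 2 / P ^ 7) (by positivity)
    rw [eP, ← eG] at r1
    have b4 := rho_le (A := A) c1 P0 b1 b2 b3
    rw [mean_of, k2]
    refine ((R2 n W hn nice at1 G ω _ _ _ r1 _ (wm_mono hw (wm_of hw hf) pH)).1
      (4 * C1 * A ^ 2 * P ^ 3) ?_).trans (num c1 c2 hP (by positivity) b4 b3 ?_)
    · have hp := Chain22.isP_prob' hw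
      refine (sq2_two hp (grad G) ω (a := A ^ 2 * (P * P)) (fun x => (lip x).trans (by gcongr))
        ((r1.cl _ ⟨hp, fun x => le_mul_of_one_le_left (hp.nn x)
          (one_le_exp (by positivity))⟩).trans b4)).trans ?_
      exact nb c1 P11
    · have h1 : √(n * ((n : ℝ) ^ (1 - c0) + 1)) ≤ 2 * exp ((1 - c0 / 2) * log n) := by
        refine sqrt_le_iff.2 ⟨by positivity, ?_⟩
        have h3 : 1 ≤ exp ((1 - c0) * log n) := one_le_exp (mul_nonneg (by linarith) x0)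
        have h4 : (2 * exp ((1 - c0 / 2) * log n)) ^ 2 = 4 * (n * exp ((1 - c0) * log n)) := by
          nth_rewrite 2 [← exp_log n0]
          rw [mul_pow, ← exp_nat_mul, ← exp_add]
          congr 1
          · norm_num
          · congr 1; push_cast; ring
        rw [h4, rp]
        linarith [mul_le_mul_of_nonneg_left h3 n0.le, mul_pos n0 (exp_pos ((1 - c0) * log n))]
      have h5 : P ^ 4 * (((n : ℝ) ^ (c0 / 8)) ^ 2 * ((n : ℝ) ^ (c0 / 16 - 1 / 2)) ^ 2 *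
          exp ((1 - c0 / 2) * log n)) ≤ 1 := by
        rw [s2, l2, Pk, ← exp_add, ← exp_add, ← exp_add, exp_le_one_iff]
        push_cast
        linarith
      have h6 := mul_le_mul_of_nonneg_left h1 (show 0 ≤ P ^ 4 * (((n : ℝ) ^ (c0 / 8)) ^ 2 *
        ((n : ℝ) ^ (c0 / 16 - 1 / 2)) ^ 2) by positivity)
      linarith

end Crest.Agent.T157.Reg

end
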