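import Crest.Agent.T157.WsTop_32
import Crest.Agent.T157.LpAll_17

/-!
# Row 157, part B (helper32): the unconditional top of part B
-/

set_option autoImplicit false

namespace Crest.Agent.T157.Rv

open Crest.Agent.T157.Top Crest.Agent.T157.Tap Crest.Agent.T157.Lp Crest.Agent.T157.TapFrz

theorem at0 : At0 := Glue.atTight LpAll.lpStmt ufStmt frzStmt LpAll.frozStmt LpAll.covStmt

theorem poinHi : PoinHi := Glue.AtTight.poinHi at0

theorem subGHi : TopL.SubGHi := TopL.subGHi LpAll.covStmt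

theorem r30_of_B (h : Low.BStmt) : R30 := r30_of_cutoff (cutoff_ux_lb at0 subGHi h)

theorem r30_uw_lb (h : BOf UW Low.LB) : R30 := r30_of_B (h.ux_of_uw at0)

theorem r30_uw_cut (h : BOf UW CutLow) : R30 := r30_of_cutoff (cutoff_ux_cut at0 (h.ux_of_uw at0))

theorem r30_di_lb (h : BOf DI Low.LB) : R30 := r30_uw_lb h.uw_of_di

theorem r30_di_cut (h : BOf DI CutLow) : R30 := r30_uw_cut h.uw_of_di

theorem r30_dw_lb (h : BOf DW Low.LB) : R30 := r30_uw_lb h.uw_of_dw

theorem r30_dw_cut (h : BOf DW CutLow) : R30 := r30_uw_cut h.uw_of_dw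

end Crest.Agent.T157.Rv
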