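import Crest.Agent.T157.RegAll_45
import Crest.Agent.T157.RegColG_70
import Crest.Agent.T157.ClE_85
import Crest.Agent.T157.WsAll_32
import Crest.Agent.T157.BDefB_95

/-!
# Row 157, part B (helper62): the collective lower bound and the top of part B, unconditional
-/

set_option autoImplicit false

namespace Crest.Agent.T157.Lbc

open Crest.Agent.T157.Reg

/-- a slow collective observable with a regular field gives the collective lower bound -/
theorem lbc {β lam : ℝ} (h0 : 0 ≤ β) (h1 : β < 1) (h : LBF β lam) : Low.LBC β lam :=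
  All.lbc_of_lbf Rv.at0 β lam h0 h1 h

/-- the same from the wider class `LBG` -/
theorem lbcG {β lam : ℝ} (h0 : 0 ≤ β) (h1 : β < 1) (h : LBG β lam) : Low.LBC β lam :=
  colGlueG All.regS All.rgStmt niceStmt Rv.at0 h0 h1 h

theorem clGlue : B.ClGlue := Low.clGlue Rv.at0

theorem cutLow {β lam : ℝ} (h0 : 0 < β) (h1 : β < 1) (hl : 0 < lam) (hU : Rv.UB β lam)
    (h : LBG β lam) : Top.CutLow β lam := clGlue β lam h0 h1 hl hU (lbcG h0.le h1 h)

theorem cutoff_top (h : B.BTop) : Top.CutoffStmt := B.cutoff_of_top Rv.at0 Rv.subGHi clGlue h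

theorem cutoff {l ls : ℝ → ℝ} {𝒬 : ℝ → Set B.Ob} (h : B.Parts l ls 𝒬) : Top.CutoffStmt :=
  h.cutoff Rv.at0 Rv.subGHi clGlue

theorem r30 {l ls : ℝ → ℝ} {𝒬 : ℝ → Set B.Ob} (h : B.Parts l ls 𝒬) : Top.R30 :=
  Rv.r30_of_cutoff (cutoff h)

theorem r30_top (h : B.BTop) : Top.R30 := Rv.r30_of_cutoff (cutoff_top h)

end Crest.Agent.T157.Lbc
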