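import Mathlib

/-!
# Row 157, part B (helper85): extrapolation over a distance `A w` from nodes of spread `w`
-/

set_option autoImplicit false

noncomputable section

namespace Crest.Agent.T157.Lag

open Finset Real

/-- coefficients of `∑_{k<d} C(A d,k) (q-1)^k` -/
def aq (A d j : ℕ) : ℝ :=
  ∑ k ∈ range d, ((A * d).choose k : ℝ) * ((k.choose j : ℝ) * (-1) ^ (k - j))

variable {A d : ℕ}

theorem sum_aq (A d : ℕ) (q : ℝ) :
    ∑ j ∈ range d, aq A d j * q ^ j = ∑ k ∈ range d, ((A * d).choose k : ℝ) * (q - 1) ^ k := by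
  simp only [aq, sum_mul]
  rw [sum_comm]
  refine sum_congr rfl fun k hk => ?_
  rw [sub_eq_add_neg, add_pow, mul_sum]
  symm
  refine (sum_subset (range_subset_range.2 (mem_range.1 hk)) fun j _ hj => ?_).trans
    (sum_congr rfl fun j _ => by ring)
  rw [Nat.choose_eq_zero_of_lt (n := k) (k := j) (by simpa using hj)]; simp

theorem le_mul_succ (hA : 1 ≤ A) (d : ℕ) : d ≤ A * d + 1 := by nlinarith

theorem sum_abs_aq (hA : 1 ≤ A) (d : ℕ) : ∑ j ∈ range d, |aq A d j| ≤ 3 ^ (A * d) := by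
  have h1 : ∀ j, |aq A d j| ≤ ∑ k ∈ range d, ((A * d).choose k : ℝ) * (k.choose j : ℝ) := fun j =>
    (abs_sum_le_sum_abs _ _).trans (le_of_eq (sum_congr rfl fun k _ => by
      simp [abs_mul, abs_pow]))
  refine (sum_le_sum fun j _ => h1 j).trans ?_
  rw [sum_comm]
  have h2 : ∀ k ∈ range d, ∑ j ∈ range d, ((A * d).choose k : ℝ) * (k.choose j : ℝ) =
      2 ^ k * 1 ^ (A * d - k) * ((A * d).choose k : ℝ) := fun k hk => by
    rw [← mul_sum, ← sum_subset (range_subset_range.2 (mem_range.1 hk)) fun j _ hj => by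
      rw [Nat.choose_eq_zero_of_lt (by simpa using hj)]; simp]
    have := Nat.sum_range_choose k
    rw [one_pow, mul_one, mul_comm]
    congr 1
    exact_mod_cast this
  rw [sum_congr rfl h2, show (3 : ℝ) = 2 + 1 by norm_num, add_pow]
  exact sum_le_sum_of_subset_of_nonneg (range_subset_range.2 (le_mul_succ hA d))
    fun _ _ _ => by positivity

theorem rem_aq (hA : 1 ≤ A) (d : ℕ) {q m : ℝ} (hm : 1 ≤ m) (hq : |q - 1| ≤ m) :
    |q ^ (A * d) - ∑ j ∈ range d, aq A d j * q ^ j| ≤ (2 ^ A * (|q - 1| * m ^ A)) ^ d := by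
  have e : q ^ (A * d) = ∑ k ∈ range (A * d + 1), ((A * d).choose k : ℝ) * (q - 1) ^ k := by
    conv_lhs => rw [show q = (q - 1) + 1 by ring, add_pow]
    exact sum_congr rfl fun k _ => by ring
  rw [sum_aq, e, ← sum_Ico_eq_sub _ (le_mul_succ hA d)]
  refine (abs_sum_le_sum_abs _ _).trans ?_
  have h1 : ∀ k ∈ Ico d (A * d + 1), |((A * d).choose k : ℝ) * (q - 1) ^ k| ≤
      ((A * d).choose k : ℝ) * (|q - 1| * m ^ A) ^ d := fun k hk => by
    obtain ⟨h1, h2⟩ := mem_Ico.1 hk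
    rw [abs_mul, abs_pow, Nat.abs_cast, mul_pow, ← pow_mul]
    refine mul_le_mul_of_nonneg_left ?_ (by positivity)
    rw [show k = d + (k - d) by omega, pow_add]
    refine mul_le_mul_of_nonneg_left ((pow_le_pow_left₀ (abs_nonneg _) hq _).trans
      (pow_le_pow_right₀ hm (by omega))) (by positivity)
  refine (sum_le_sum h1).trans ?_
  rw [← sum_mul, mul_pow (2 ^ A), ← pow_mul]
  refine mul_le_mul_of_nonneg_right ?_ (by positivity)
  have h2 : ∑ k ∈ range (A * d + 1), ((A * d).choose k : ℝ) = 2 ^ (A * d) := by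
    exact_mod_cast Nat.sum_range_choose (A * d)
  rw [← h2]
  exact sum_le_sum_of_subset_of_nonneg (fun k hk => mem_range.2 (mem_Ico.1 hk).2)
    fun _ _ _ => by positivity

theorem one_le_aq (A : ℕ) (hd : 0 < d) {q : ℝ} (hq : 1 ≤ q) :
    1 ≤ ∑ j ∈ range d, aq A d j * q ^ j := by
  rw [sum_aq]
  simpa using single_le_sum (f := fun k => ((A * d).choose k : ℝ) * (q - 1) ^ k)
    (fun k _ => by have := sub_nonneg.2 hq; positivity) (mem_range.2 hd)

/-- damping exponent -/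
def Bq (A : ℕ) : ℕ := 2 ^ (A + 1)

theorem lagA (hA : 1 ≤ A) (d : ℕ) {q : ℝ} (hq : 0 ≤ q) :
    q ^ (Bq A * d) * |q ^ (A * d) - ∑ j ∈ range d, aq A d j * q ^ j| ≤
      (1 / 2) ^ d * (1 + q ^ ((A + 2 * Bq A) * d)) := by
  have hB : ((Bq A : ℕ) : ℝ) = 2 * 2 ^ A := by rw [Bq]; push_cast; ring
  rcases le_total q 1 with h | h
  · have h0 : |q - 1| = 1 - q := by rw [abs_sub_comm, abs_of_nonneg (by linarith)]
    refine (mul_le_mul_of_nonneg_left (rem_aq hA d le_rfl (by rw [h0]; linarith))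
      (by positivity)).trans ?_
    rw [pow_mul, ← mul_pow, h0]
    have h1 : q ^ Bq A * (2 ^ A * ((1 - q) * 1 ^ A)) ≤ 1 / 2 := by
      have s : ∑ _i ∈ range (Bq A), q ^ Bq A ≤ ∑ i ∈ range (Bq A), q ^ i :=
        sum_le_sum fun i hi => pow_le_pow_of_le_one hq h (mem_range.1 hi).le
      have t := mul_le_mul_of_nonneg_right s (sub_nonneg.2 h)
      rw [geom_sum_mul_neg, sum_const, card_range, nsmul_eq_mul, hB] at t
      have v : 0 ≤ q ^ Bq A := by positivity
      rw [one_pow]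
      linarith
    refine (pow_le_pow_left₀ (by have := sub_nonneg.2 h; positivity) h1 d).trans ?_
    exact le_mul_of_one_le_right (by positivity) (le_add_of_nonneg_right (by positivity))
  · have h0 : |q - 1| = q - 1 := abs_of_nonneg (by linarith)
    refine (mul_le_mul_of_nonneg_left (rem_aq hA d h (by rw [h0]; linarith)) (by positivity)).trans ?_
    rw [pow_mul, ← mul_pow, h0]
    have h1 : q ^ Bq A * (2 ^ A * ((q - 1) * q ^ A)) ≤ 1 / 2 * q ^ (A + 2 * Bq A) := by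
      have b := one_add_mul_le_pow (a := q - 1) (by linarith) (Bq A)
      rw [add_sub_cancel, hB] at b
      have := mul_le_mul_of_nonneg_left (show 2 * 2 ^ A * (q - 1) ≤ q ^ Bq A by linarith)
        (show 0 ≤ q ^ Bq A * q ^ A by positivity)
      calc _ = 1 / 2 * (q ^ Bq A * q ^ A * (2 * 2 ^ A * (q - 1))) := by ring
        _ ≤ 1 / 2 * (q ^ Bq A * q ^ A * q ^ Bq A) := by linarith
        _ = _ := by ring
    refine (pow_le_pow_left₀ (by have := sub_nonneg.2 h; positivity) h1 d).trans ?_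
    rw [mul_pow, ← pow_mul]
    exact mul_le_mul_of_nonneg_left (le_add_of_nonneg_left zero_le_one) (by positivity)

/-- the multiplier of one extrapolation step with node spread `w` -/
def pm (A d : ℕ) (w y : ℝ) : ℝ := ∑ j ∈ range d, aq A d j * exp (-(j * (w / d) * y))

theorem pm_eq (A d : ℕ) (w y : ℝ) :
    pm A d w y = ∑ j ∈ range d, aq A d j * exp (-(w / d * y)) ^ j :=
  sum_congr rfl fun j _ => by rw [← exp_nat_mul]; congr 2; ring

theorem one_le_pm (A : ℕ) (hd : 0 < d) {w y : ℝ} (hw : 0 ≤ w) (hy : y ≤ 0) : 1 ≤ pm A d w y := by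
  rw [pm_eq]
  exact one_le_aq A hd (one_le_exp (by
    have : 0 ≤ w / d := by positivity
    nlinarith))

theorem exp_le_ends {a b u : ℝ} (h1 : a ≤ u) (h2 : u ≤ b) (y : ℝ) :
    exp (-(u * y)) ≤ exp (-(a * y)) + exp (-(b * y)) := by
  rcases le_total 0 y with h | h
  · exact (exp_le_exp.2 (by nlinarith)).trans (le_add_of_nonneg_right (exp_pos _).le)
  · exact (exp_le_exp.2 (by nlinarith)).trans (le_add_of_nonneg_left (exp_pos _).le)

/-- **(LAG A)**, every real rate `y` -/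
theorem pm_err (hA : 1 ≤ A) (hd : 0 < d) {w u a b : ℝ} (hw : 0 ≤ w) (h1 : a + Bq A * w ≤ u)
    (h2 : u + (A + Bq A) * w ≤ b) (y : ℝ) :
    exp (-(u * y)) * |exp (-(A * w * y)) - pm A d w y| ≤
      2 * (1 / 2) ^ d * (exp (-(a * y)) + exp (-(b * y))) := by
  have d0 : (d : ℝ) ≠ 0 := by positivity
  have e : ∀ k : ℕ, exp (-(w / d * y)) ^ (k * d) = exp (-(k * w * y)) := fun k => by
    rw [← exp_nat_mul]; congr 1; push_cast; field_simp
  have h := mul_le_mul_of_nonneg_left (lagA hA d (exp_pos (-(w / d * y))).le)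
    (exp_pos (-((u - Bq A * w) * y))).le
  rw [e, e, e, ← pm_eq, ← mul_assoc, ← exp_add, mul_left_comm, mul_add, mul_one, ← exp_add] at h
  have p1 : 0 ≤ (Bq A : ℝ) * w := by positivity
  have p2 : 0 ≤ (A : ℝ) * w := by positivity
  have a1 := exp_le_ends (a := a) (b := b) (u := u - Bq A * w) (by linarith) (by linarith) y
  have a2 := exp_le_ends (a := a) (b := b) (u := u + (A + Bq A) * w) (by linarith) h2 y
  rw [show -((u - Bq A * w) * y) + -(Bq A * w * y) = -(u * y) by ring,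
    show -((u - Bq A * w) * y) + -(((A + 2 * Bq A : ℕ) : ℝ) * w * y) =
      -((u + (A + Bq A) * w) * y) by push_cast; ring] at h
  refine h.trans ?_
  rw [mul_comm 2, mul_assoc]
  exact mul_le_mul_of_nonneg_left (by linarith) (by positivity)

/-- choice of the degree -/
theorem exists_deg (A : ℕ) {b : ℝ} (hb : 1 ≤ b) : ∃ d : ℕ, 0 < d ∧
    exp b * (1 / 2) ^ d ≤ exp (-b) ∧ exp b * 3 ^ (A * d) ≤ exp (b * (1 + 10 * A)) := by
  have h1 : 4 * b ≤ (⌈4 * b⌉₊ : ℝ) := Nat.le_ceil _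
  have h2 : (⌈4 * b⌉₊ : ℝ) < 4 * b + 1 := Nat.ceil_lt_add_one (by linarith)
  refine ⟨⌈4 * b⌉₊, Nat.ceil_pos.2 (by linarith), ?_, ?_⟩
  · have e4 : (1 / 2 : ℝ) ≤ exp (-(1 / 2)) := by
      have := add_one_le_exp (-(1 / 2) : ℝ); linarith
    refine (mul_le_mul_of_nonneg_left (pow_le_pow_left₀ (by norm_num) e4 _) (exp_pos _).le).trans ?_
    rw [← exp_nat_mul, ← exp_add]
    exact exp_le_exp.2 (by linarith)
  · have e3 : (3 : ℝ) ≤ exp 2 := by have := add_one_le_exp (2 : ℝ); linarith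
    refine (mul_le_mul_of_nonneg_left (pow_le_pow_left₀ (by norm_num) e3 _) (exp_pos _).le).trans ?_
    rw [← exp_nat_mul, ← exp_add]
    refine exp_le_exp.2 ?_
    push_cast
    nlinarith [mul_le_mul_of_nonneg_left (show (⌈4 * b⌉₊ : ℝ) ≤ 5 * b by linarith)
      (A.cast_nonneg (α := ℝ))]

/-- the edge inequality for an exponential tilt -/
theorem tilt_edge (y : ℝ) : 0 ≤ exp (-y) - 1 + y ∧ exp (-y) - 1 + y ≤ y ^ 2 * (1 + exp (-y)) ∧
    exp (-y) - 1 + y ≤ |y| * (1 + exp (-y)) := by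
  have h1 := add_one_le_exp (-y)
  have h2 := add_one_le_exp y
  have h3 : exp y * exp (-y) = 1 := by rw [← exp_add, add_neg_cancel, exp_zero]
  have h4 := exp_pos (-y)
  have h5 : (y + 1) * exp (-y) ≤ 1 := (mul_le_mul_of_nonneg_right h2 h4.le).trans_eq h3
  refine ⟨by linarith, ?_, ?_⟩
  · rcases le_total 0 y with h | h
    · nlinarith [mul_nonneg h (sub_nonneg.2 h1), mul_nonneg (sq_nonneg y) h4.le]
    · nlinarith [mul_nonneg (sub_nonneg.2 h5) (show 0 ≤ 1 - y by linarith), sq_nonneg y]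
  · rcases abs_cases y with ⟨e, h⟩ | ⟨e, h⟩ <;> rw [e] <;> nlinarith

end Crest.Agent.T157.Lag

end
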