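import Crest.Agent.T157.RegAll_45
import Crest.Agent.T157.ClB_85
import Crest.Agent.T157.BDefB_95

/-!
# Row 157, part B (helper74): (Dec) from a regular field and spectral decay
-/

set_option autoImplicit false

noncomputable section

namespace Crest.Agent.T157.Dc

open Matrix Real Filter Topology Finset
open Crest.ProbabilityR.SpinGlassDynamics (Pair disorderLaw gibbsWeight)
open Crest.Agent.T157.E hiding mean
open Crest.Agent.T157.Tap (V Mx)
open Crest.Agent.T157.Rec (grad fl GR)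
open Crest.Agent.T157.Chain22 (sg IsP mean ip isP_prob')
open Crest.Agent.T157.Rv (Warm II At0)
open Crest.Agent.T157.Top (Whp)
open Crest.Agent.T157.Low (Gm)
open Crest.Agent.T157.Reg

variable {n : ℕ}

/-! ### words -/

/-- regular collective observable, general form -/
def ColW (β : ℝ) (Φ : B.Ob) : Prop := ∀ c > (0 : ℝ), ∀ e > (0 : ℝ), Whp disorderLaw fun n g =>
  ∃ (N ρ : ℝ) (ω : VF n), 1 ≤ N ∧ N ≤ (n : ℝ) ^ e ∧ ρ * N ≤ e ∧
    |E.mean (gibbsWeight n β g) (Φ n g)| ≤ (n : ℝ) ^ e ∧ (∀ x, |Φ n g x| ≤ √n * (n : ℝ) ^ e) ∧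
    (∀ v, Wm (gibbsWeight n β g) ((n : ℝ) ^ (1 - c)) v → mean v (sq2 (grad (Φ n g))) ≤ N) ∧
    Fld (gibbsWeight n β g) (Φ n g) ω ((n : ℝ) ^ (e - 1 / 2)) ρ ((n : ℝ) ^ (1 - c))

/-- regular collective observable, qualitative form -/
def Col (β : ℝ) (Φ : B.Ob) : Prop := ∀ c > (0 : ℝ), ∀ ε > (0 : ℝ), ∃ C : ℝ,
  Whp disorderLaw fun n g => |E.mean (gibbsWeight n β g) (Φ n g)| ≤ C ∧
    (∀ x, |Φ n g x| ≤ C * √n) ∧
    ∃ ω, Fld (gibbsWeight n β g) (Φ n g) ω (C / √n) ε ((n : ℝ) ^ (1 - c))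

/-- regular collective observable, polynomial form (the words of `Reg.LBF`) -/
def ColP (β : ℝ) (Φ : B.Ob) : Prop := ∀ c > (0 : ℝ), ∃ c' > (0 : ℝ), ∀ e > (0 : ℝ),
  Whp disorderLaw fun n g => |E.mean (gibbsWeight n β g) (Φ n g)| ≤ (n : ℝ) ^ e ∧
    (∀ x, |Φ n g x| ≤ √n * (n : ℝ) ^ e) ∧ ∃ ω, Fld (gibbsWeight n β g) (Φ n g) ω
      ((n : ℝ) ^ (e - 1 / 2)) ((n : ℝ) ^ (-c')) ((n : ℝ) ^ (1 - c))

/-- spectral decay, Dirichlet form -/
def Spc (β lam : ℝ) (Φ : B.Ob) : Prop := ∀ a > (0 : ℝ), a < lam → ∀ η > (0 : ℝ), ∃ τ ≥ (0 : ℝ),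
  Whp disorderLaw fun n g =>
    dir (gibbsWeight n β g) (sg (gibbsWeight n β g) τ (Φ n g)) ≤ η * exp (-(2 * a * τ))

/-- spectral decay, autocorrelation -/
def SpI (β lam : ℝ) (Φ : B.Ob) : Prop := ∀ a > (0 : ℝ), a < lam → ∃ C : ℝ, ∀ T : ℝ, ∃ t ≥ T,
  Whp disorderLaw fun n g => ip (prob (gibbsWeight n β g)) (Φ n g)
    (sg (gibbsWeight n β g) t (Φ n g)) - E.mean (gibbsWeight n β g) (Φ n g) ^ 2 ≤ C * exp (-(a * t))

/-! ### deterministic part -/

section det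

variable {w f G X Φ : Cube n → ℝ} {K B σ H H1 : ℝ}

theorem mgf_le (hn : 0 < n) (hw : ∀ x, 0 < w x) (hK : 0 < K) (hT : Ent.AT w K 0)
    (h0 : E.mean w X = 0) (hB : ∀ x, |X x| ≤ B)
    (h : ∀ g, Warm w H g → E.mean w (fun x => g x * Gm w X X x) ≤ σ) {t : ℝ} (ht : |t| * B ≤ H) :
    mean (prob w) (fun x => exp (t * X x)) ≤ exp (K * σ * t ^ 2) := by
  have hp := isP_prob' hw
  set Z := mean (prob w) fun x => exp (t * X x) with hZ
  have m0 : E.mean w (fun x => t * X x) = 0 := by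
    have : E.mean w (fun x => t * X x) = t * E.mean w X := by
      simp only [E.mean, mul_sum]; exact sum_congr rfl fun x _ => by ring
    rw [this, h0, mul_zero]
  have Z1 : 1 ≤ Z := by
    have e : mean (prob w) (fun x => t * X x + 1) = 1 := by
      have : mean (prob w) (fun x => t * X x + 1) = E.mean w (fun x => t * X x) + ∑ x, prob w x := by
        simp only [E.mean, Chain22.mean, mul_add, sum_add_distrib, mul_one]
      rw [this, m0, hp.sum1, zero_add]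
    exact e.symm.trans_le (hp.mean_mono fun x => add_one_le_exp _)
  have Z0 : 0 < Z := by linarith
  have g1 : E.mean w (fun x => exp (t * X x) / Z) = 1 := by
    have : E.mean w (fun x => exp (t * X x) / Z) = Z / Z := by
      rw [hZ]; simp only [E.mean, Chain22.mean, sum_div, mul_div_assoc]
    rw [this, div_self Z0.ne']
  have hg : Warm w H fun x => exp (t * X x) / Z := ⟨fun x => by positivity, g1, fun x =>
    (div_le_self (exp_pos _).le Z1).trans (exp_le_exp.2 ((le_abs_self _).trans (by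
      rw [abs_mul]; exact (mul_le_mul_of_nonneg_left (hB x) (abs_nonneg t)).trans ht)))⟩
  have k := Low.t1 (F := fun x => t * X x) (σ := t ^ 2 * σ) (θ := 1 / 2) hn hw hK hT hg
    (by norm_num) fun g hg' => by
      have e : E.mean w (fun x => g x * Gm w (fun x => t * X x) (fun x => t * X x) x) =
          t ^ 2 * E.mean w fun x => g x * Gm w X X x := by
        simp only [E.mean, Gm, mul_sum]
        exact sum_congr rfl fun x _ => sum_congr rfl fun y _ => by ring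
      rw [e]
      exact mul_le_mul_of_nonneg_left (h g hg') (sq_nonneg t)
  have e2 : ent w (fun x => exp (t * X x) / Z) =
      E.mean w (fun x => exp (t * X x) / Z * (t * X x)) - log Z := by
    have e3 : E.mean w (fun x => exp (t * X x) / Z * log (exp (t * X x) / Z)) =
        E.mean w (fun x => exp (t * X x) / Z * (t * X x)) -
          E.mean w (fun x => exp (t * X x) / Z) * log Z := by
      simp only [E.mean, sum_mul, ← sum_sub_distrib]
      refine sum_congr rfl fun x _ => ?_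
      rw [log_div (exp_pos _).ne' Z0.ne', log_exp]; ring
    change E.mean w (fun x => exp (t * X x) / Z * log (exp (t * X x) / Z)) - _ = _
    rw [e3, g1]; simp
  rw [e2, m0] at k
  rw [← log_le_iff_le_exp Z0]
  linarith

theorem sq_le (hn : 0 < n) (hw : ∀ x, 0 < w x) (hK : 0 < K) (hT : Ent.AT w K 0) (B0 : 0 < B)
    (σ0 : 0 < σ) (H0 : 0 ≤ H) (hB : ∀ x, |G x| ≤ B)
    (h : ∀ g, Warm w H g → E.mean w (fun x => g x * Gm w G G x) ≤ σ) (hf : Warm w H1 f) :
    E.mean w (fun x => f x * G x ^ 2) ≤ 16 * K * σ * (ent w f + 1) +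
      16 * B ^ 2 * exp (H1 - K * σ * (H / (2 * B)) ^ 2) + 2 * E.mean w G ^ 2 := by
  have hp := isP_prob' hw
  set m := E.mean w G with hm
  have mB : |m| ≤ B := abs_le.2 ⟨(hp.mean_const (-B)).symm.trans_le
    (hp.mean_mono fun x => (abs_le.1 (hB x)).1),
    (hp.mean_mono fun x => (abs_le.1 (hB x)).2).trans_eq (hp.mean_const B)⟩
  have b2 : ∀ x, |G x - m| ≤ 2 * B := fun x =>
    (abs_sub _ _).trans (by linarith [hB x])
  have h0 : E.mean w (fun x => G x - m) = 0 := by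
    have : E.mean w (fun x => G x - m) = m - (∑ x, prob w x) * m := by
      simp only [hm, E.mean, mul_sub, sum_sub_distrib, sum_mul]
    rw [this, hp.sum1]; ring
  have hv := Col13.wm_of hw hf
  have k := Sb51.sq_le_of_mgf (X := fun x => G x - m) (c := 2 * K * σ) (t0 := H / (2 * B)) hp hv.1
    (by positivity) (by positivity) b2 hv.2 fun t ht => by
      refine (mgf_le (σ := σ) (H := H) hn hw hK hT h0 b2 (fun g hg => ?_) ?_).trans_eq
        (by congr 1; ring)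
      · simpa only [Gm, sub_sub_sub_cancel_right] using h g hg
      · rwa [le_div_iff₀ (by positivity)] at ht
  rw [← Ent.ent_eq_kl hf.2.1, ← Chain22.eent_eq] at k
  rw [Col13.mean_of]
  have k2 : mean (fun x => prob w x * f x) (fun x => G x ^ 2) ≤
      mean (fun x => prob w x * f x) fun x => 2 * (G x - m) ^ 2 + 2 * m ^ 2 :=
    hv.1.mean_mono fun x => by nlinarith [sq_nonneg (G x - 2 * m)]
  have k3 : (mean (fun x => prob w x * f x) fun x => 2 * (G x - m) ^ 2 + 2 * m ^ 2) =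
      2 * mean (fun x => prob w x * f x) (fun x => (G x - m) ^ 2) +
        (∑ x, prob w x * f x) * (2 * m ^ 2) := by
    simp only [Chain22.mean, mul_sum, sum_mul, ← sum_add_distrib]
    exact sum_congr rfl fun x _ => by ring
  rw [k3, hv.1.sum1] at k2
  rw [show 2 * K * σ / 2 = K * σ by ring] at k
  linarith

theorem sq2_mean {p : Cube n → ℝ} (hp : IsP p) (ξ ω : VF n) :
    mean p (sq2 ω) ≤ 2 * mean p (sq2 (ξ - ω)) + 2 * mean p (sq2 ξ) ∧
      mean p (sq2 ξ) ≤ 2 * mean p (sq2 (ξ - ω)) + 2 * mean p (sq2 ω) := by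
  have e : ∀ a b : VF n, 2 * mean p (sq2 a) + 2 * mean p (sq2 b) =
      mean p fun x => ∑ i, (2 * (a x i * a x i) + 2 * (b x i * b x i)) := fun a b => by
    simp only [Chain22.mean, sq2, dotProduct, mul_sum, ← sum_add_distrib]
    exact sum_congr rfl fun x _ => sum_congr rfl fun i _ => by ring
  rw [e, e]
  constructor <;> refine hp.mean_mono fun x => ?_ <;> simp only [sq2, dotProduct] <;>
    refine sum_le_sum fun i _ => ?_ <;> simp only [Pi.sub_apply]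
  · nlinarith [sq_nonneg (2 * ξ x i - ω x i)]
  · nlinarith [sq_nonneg (ξ x i - 2 * ω x i)]

theorem sq2_nn (ω : VF n) (x : Cube n) : 0 ≤ sq2 ω x := by
  unfold sq2 dotProduct; exact sum_nonneg fun _ _ => mul_self_nonneg _

theorem wm_self (hw : ∀ x, 0 < w x) (H0 : 0 ≤ H) : Wm w H (prob w) :=
  ⟨isP_prob' hw, fun x => le_mul_of_one_le_left ((isP_prob' hw).nn x) (one_le_exp H0)⟩

theorem wm_mono {v : Cube n → ℝ} (hw : ∀ x, 0 < w x) (h : Wm w H1 v) (hH : H1 ≤ H) : Wm w H v :=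
  ⟨h.1, fun x => (h.2 x).trans
    (mul_le_mul_of_nonneg_right (exp_le_exp.2 hH) ((isP_prob' hw).nn x))⟩

theorem fld_mono {ω : VF n} {e e' ρ ρ' : ℝ} (hw : ∀ x, 0 < w x) (h : Fld w Φ ω e ρ H) (h1 : e ≤ e')
    (h2 : ρ ≤ ρ') (h3 : H1 ≤ H) : Fld w Φ ω e' ρ' H1 :=
  ⟨h.odd, fun x i => (h.sup x i).trans h1, fun x => (h.op x).trans h1,
    fun v hv => (h.cl v (wm_mono hw hv h3)).trans h2⟩

theorem fld_grad {ω : VF n} {e ρ : ℝ} (h : Fld w Φ ω e ρ H) {v : Cube n → ℝ} (hv : Wm w H v) :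
    mean v (sq2 (grad Φ)) ≤ 2 * ρ + 2 * (n * e ^ 2) := by
  have k : mean v (sq2 ω) ≤ n * e ^ 2 := by
    refine (hv.1.mean_mono (g := fun _ => n * e ^ 2) fun x => ?_).trans_eq (hv.1.mean_const _)
    calc sq2 ω x = ∑ i, ω x i * ω x i := rfl
      _ ≤ ∑ _i : Fin n, e ^ 2 := sum_le_sum fun i _ => by
          rw [← sq, ← sq_abs]; exact pow_le_pow_left₀ (abs_nonneg _) (h.sup x i) 2
      _ = _ := by simp
  linarith [(sq2_mean hv.1 (grad Φ) ω).2, h.cl v hv]

/-- the numerics of the weighted gradient bound -/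
theorem num {C2 X Y N r ρ a b c S d : ℝ} (c2 : 1 ≤ C2) (X1 : 1 ≤ X) (Y1 : 1 ≤ Y) (N1 : 1 ≤ N)
    (r0 : 0 < r) (r1 : r ≤ 1) (ρ0 : 0 ≤ ρ) (a0 : 0 ≤ a) (b0 : 0 ≤ b) (h1 : ρ * N ≤ r ^ 2)
    (h2 : a * N ≤ r ^ 2) (h3 : b * N ≤ r ^ 2) (h4 : S ≤ r ^ 2) (hc : c = X * (ρ + a + b) + r ^ 2 / N)
    (hd : d = 2 * c + 2 * (Y * N)) :
    C2 * (c + √(c * (d + X ^ 2 * b)) + X ^ 2 * S) ≤ 12 * C2 * X ^ 2 * Y * r := by
  have N0 : 0 < N := by linarith
  have c0 : 0 ≤ c := by rw [hc]; positivity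
  have r2 : r ^ 2 ≤ r := by nlinarith
  have X2 : X ≤ X ^ 2 := by nlinarith
  have k1 : c * N ≤ 4 * X * r ^ 2 := by
    have : c * N = X * (ρ * N + a * N + b * N) + r ^ 2 := by rw [hc]; field_simp
    rw [this]
    nlinarith [mul_le_mul_of_nonneg_left (add_le_add (add_le_add h1 h2) h3) (by linarith : 0 ≤ X),
      sq_nonneg r]
  have k2 : c ≤ 4 * X * r ^ 2 := (le_mul_of_one_le_right c0 N1).trans k1
  have k3 : b ≤ 1 := by nlinarith [le_mul_of_one_le_right b0 N1]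
  have XY : X ^ 2 ≤ X ^ 2 * Y := le_mul_of_one_le_right (by positivity) Y1
  have YX : Y ≤ X ^ 2 * Y := le_mul_of_one_le_left (by linarith) (by linarith)
  have k4 : d + X ^ 2 * b ≤ 11 * (X ^ 2 * Y) * N := by
    have q1 : c ≤ 4 * X ^ 2 := by nlinarith
    have q2 : X ^ 2 * b ≤ X ^ 2 := mul_le_of_le_one_right (by positivity) k3
    have q3 : X ^ 2 * Y ≤ X ^ 2 * Y * N := le_mul_of_one_le_right (by positivity) N1
    have q4 := mul_le_mul_of_nonneg_right YX N0.le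
    rw [hd]; linarith
  have k5 : √(c * (d + X ^ 2 * b)) ≤ 7 * (X ^ 2 * Y) * r := by
    refine sqrt_le_iff.2 ⟨by positivity, (mul_le_mul_of_nonneg_left k4 c0).trans ?_⟩
    have q1 := mul_le_mul_of_nonneg_right k1 (show 0 ≤ 11 * (X ^ 2 * Y) by positivity)
    have q2 := mul_le_mul_of_nonneg_right (X2.trans XY)
      (show 0 ≤ X ^ 2 * Y * r ^ 2 by positivity)
    have q3 : 0 ≤ X ^ 2 * Y * (X ^ 2 * Y * r ^ 2) := by positivity
    nlinarith
  have k6 : c ≤ 4 * (X ^ 2 * Y) * r := k2.trans (mul_le_mul (by linarith) r2 (by positivity)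
    (by positivity))
  have k7 : X ^ 2 * S ≤ X ^ 2 * Y * r := (mul_le_mul_of_nonneg_left (h4.trans r2) (by positivity)).trans
    (mul_le_mul_of_nonneg_right XY r0.le)
  calc _ ≤ C2 * (12 * (X ^ 2 * Y) * r) := mul_le_mul_of_nonneg_left (by linarith) (by linarith)
    _ = _ := by ring

/-- **weighted gradient of `P_τ Φ` at warm laws** -/
theorem core (hK : 0 < K) {C3 τ : ℝ} (c3 : 0 ≤ C3) (τ0 : 0 ≤ τ) : ∃ Z > (0 : ℝ), ∀ (n : ℕ) (W : Mx n),
    0 < n → Nice W K → Ent.AT (mu W) K 0 → GR (mu W) C3 → (∀ x, 0 < mu W x) →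
    ∀ (Φ : Cube n → ℝ) (ω : VF n) (e ρ H L N r : ℝ), 0 < e → 0 ≤ H → 1 ≤ L → 1 ≤ N → 0 < r → r ≤ 1 →
    Fld (mu W) Φ ω e ρ H → mean (prob (mu W)) (sq2 (grad Φ)) ≤ N → ρ * N ≤ r ^ 2 →
    n * e ^ 2 / L ^ 2 * N ≤ r ^ 2 → L ^ 2 * e ^ 2 * H * N ≤ r ^ 2 →
    L ^ 2 * e ^ 2 * √(n * (H + 1)) ≤ r ^ 2 → ∀ g, Warm (mu W) H g →
    E.mean (mu W) (fun x => g x * Gm (mu W) (sg (mu W) τ Φ) (sg (mu W) τ Φ) x) ≤
      dir (mu W) (sg (mu W) τ Φ) + Z * r := by
  obtain ⟨C1, c1, R1⟩ := All.regS K hK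
  obtain ⟨C2, c2, R2⟩ := All.rgStmt K hK
  set X := C1 * exp (C1 * τ) with hX
  have X1 : 1 ≤ X := one_le_mul_of_one_le_of_one_le c1 (one_le_exp (by positivity))
  have Y1 : 1 ≤ exp (C3 * τ) := one_le_exp (by positivity)
  refine ⟨12 * C2 * X ^ 2 * exp (C3 * τ), by positivity,
    fun n W hn nice hT gr hw Φ ω0 e ρ H L N r e0 H0 L1 N1 r0 r1 hF hN h1 h2 h3 h4 g hg => ?_⟩
  have hp := isP_prob' hw
  have ρ0 : 0 ≤ ρ := le_trans (hp.mean_nonneg (sq2_nn _)) (hF.cl _ (wm_self hw H0))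
  obtain ⟨ω, -, f1, -⟩ := R1 n W hn nice hT Φ ω0 e ρ H τ L e0 τ0 L1 hF 1 (fun _ => τ) (fun _ => 1) 1
    (fun _ => ⟨τ0, le_rfl⟩) (by simp) (r ^ 2 / N) (by positivity)
  simp only [Fin.sum_univ_one, one_mul, mul_one, one_pow] at f1
  have hv := Col13.wm_of hw hg
  have g1 : mean (prob (mu W)) (sq2 (grad (sg (mu W) τ Φ))) ≤ exp (C3 * τ) * N := by
    refine (hp.mean_mono (g := fun x => exp (C3 * τ) * sg (mu W) τ (sq2 (grad Φ)) x)
      fun x => gr τ τ0 Φ x).trans ?_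
    have : (mean (prob (mu W)) fun x => exp (C3 * τ) * sg (mu W) τ (sq2 (grad Φ)) x) =
        exp (C3 * τ) * mean (prob (mu W)) (sg (mu W) τ (sq2 (grad Φ))) := by
      simp only [Chain22.mean, mul_sum]; exact sum_congr rfl fun x _ => by ring
    rw [this, Chain22.mean_sg hn hw]
    exact mul_le_mul_of_nonneg_left hN (by positivity)
  have k := (R2 n W hn nice hT _ ω _ _ _ f1 _ hv).1 _ ((sq2_mean hp (grad (sg (mu W) τ Φ)) ω).1.trans
    (add_le_add (mul_le_mul_of_nonneg_left (f1.cl _ (wm_self hw H0)) zero_le_two)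
      (mul_le_mul_of_nonneg_left g1 zero_le_two)))
  have k2 := num (S := L ^ 2 * e ^ 2 * √(n * (H + 1))) c2 X1 Y1 N1 r0 r1 ρ0 (by positivity)
    (by positivity) h1 h2 h3 h4 rfl rfl
  have e1 : (C1 * L * exp (C1 * τ) * e) ^ 2 * H = X ^ 2 * (L ^ 2 * e ^ 2 * H) := by rw [hX]; ring
  have e2 : (C1 * L * exp (C1 * τ) * e) ^ 2 * √(n * (H + 1)) =
      X ^ 2 * (L ^ 2 * e ^ 2 * √(n * (H + 1))) := by rw [hX]; ring
  rw [e1, e2] at k
  rw [Col13.mean_of]
  refine le_trans ?_ (add_le_add le_rfl (k.trans k2))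
  have e3 : ∀ (v A : Cube n → ℝ) (d : ℝ), (mean v fun x => d + A x) = (∑ x, v x) * d + mean v A :=
    fun v A d => by simp only [Chain22.mean, mul_add, sum_add_distrib, sum_mul]
  refine (hv.1.mean_mono (g := fun x => dir (mu W) (sg (mu W) τ Φ) +
    |Gm (mu W) (sg (mu W) τ Φ) (sg (mu W) τ Φ) x - dir (mu W) (sg (mu W) τ Φ)|)
    fun x => by linarith [le_abs_self (Gm (mu W) (sg (mu W) τ Φ) (sg (mu W) τ Φ) x -
      dir (mu W) (sg (mu W) τ Φ))]).trans_eq ?_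
  rw [e3, hv.1.sum1, one_mul]

/-- the second moment along the flow -/
theorem flow_le {C τ N : ℝ} (hn : 0 < n) (hw : ∀ x, 0 < w x) (gr : GR w C) (c0 : 0 ≤ C) (τ0 : 0 ≤ τ)
    (hf : Warm w H f) (hN : ∀ v, Wm w H v → mean v (sq2 (grad Φ)) ≤ N) :
    E.mean w (fun x => sg w τ f x * Φ x ^ 2) ≤
      E.mean w (fun x => f x * sg w τ Φ x ^ 2) + 4 * τ * exp (C * τ) * N := by
  have k := hN _ (Col13.wm_of hw (hf.sg hn hw τ0))
  rw [← Col13.mean_of, Low.mean_sg_symm hn hw] at k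
  rw [Low.mean_sg_symm hn hw]
  refine ((isP_prob' hw).mean_mono (g := fun x => f x * sg w τ Φ x ^ 2 +
    4 * τ * exp (C * τ) * (f x * sg w τ (sq2 (grad Φ)) x)) fun x => ?_).trans ?_
  · have := mul_le_mul_of_nonneg_left (Low.lvar_le gr hn hw c0 τ0 Φ x) (hf.1 x).le
    change f x * _ ≤ f x * (_ * sg w τ (sq2 (grad Φ)) x) at this
    linarith
  · have e : (mean (prob w) fun x => f x * sg w τ Φ x ^ 2 +
        4 * τ * exp (C * τ) * (f x * sg w τ (sq2 (grad Φ)) x)) =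
        E.mean w (fun x => f x * sg w τ Φ x ^ 2) +
          4 * τ * exp (C * τ) * E.mean w fun x => f x * sg w τ (sq2 (grad Φ)) x := by
      simp only [E.mean, Chain22.mean, mul_sum, ← sum_add_distrib]
      exact sum_congr rfl fun x _ => by ring
    rw [e]
    exact add_le_add le_rfl (mul_le_mul_of_nonneg_left k (by positivity))

theorem gm_le {N : ℝ} (hn : 0 < n) (hw : ∀ x, 0 < w x)
    (hN : ∀ v, Wm w H v → mean v (sq2 (grad Φ)) ≤ N) (g : Cube n → ℝ) (hg : Warm w H g) :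
    E.mean w (fun x => g x * Gm w Φ Φ x) ≤ 2 * N := by
  have hv := Col13.wm_of hw hg
  rw [Col13.mean_of]
  refine (hv.1.mean_mono (g := fun x => 2 * sq2 (grad Φ) x) fun x => Low.Gm_le_grad hn hw Φ x).trans ?_
  have e : (mean (fun x => prob w x * g x) fun x => 2 * sq2 (grad Φ) x) =
      2 * mean (fun x => prob w x * g x) (sq2 (grad Φ)) := by
    simp only [Chain22.mean, mul_sum]; exact sum_congr rfl fun x _ => by ring
  rw [e]
  linarith [hN _ hv]

theorem abs_sg (hn : 0 < n) (hw : ∀ x, 0 < w x) {τ : ℝ} (τ0 : 0 ≤ τ) (hB : ∀ x, |Φ x| ≤ B)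
    (x : Cube n) : |sg w τ Φ x| ≤ B :=
  abs_le.2 ⟨(Rec.sg_const hn hw τ (-B) x).symm.trans_le
    (Rec.sg_mono hn hw τ0 (fun z => (abs_le.1 (hB z)).1) x),
    (Rec.sg_mono hn hw τ0 (fun z => (abs_le.1 (hB z)).2) x).trans_eq (Rec.sg_const hn hw τ B x)⟩

end det

/-! ### the probabilistic part -/

variable {β lam a c : ℝ} {Φ : B.Ob}

theorem ev_tail {κ m : ℝ} (hκ : 0 < κ) (m0 : 0 < m) (m1 : m ≤ 1) : ∀ᶠ n : ℕ in atTop,
    ∀ B H1 κ' t : ℝ, κ ≤ κ' → B ^ 2 ≤ (n : ℝ) ^ 2 → H1 ≤ (n : ℝ) ^ (1 - m) →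
      (n : ℝ) ^ (1 - m / 2) / 4 ≤ t → 16 * B ^ 2 * exp (H1 - κ' * t) ≤ 1 := by
  filter_upwards [eventually_gt_atTop 0, B.ev_mul (12 / κ) (show 1 - m < 1 - m / 2 by linarith),
    B.ev_log_le (24 / κ) (show 0 < 1 - m / 2 by linarith),
    B.ev_mul (36 / κ) (show 0 < 1 - m / 2 by linarith)] with n hn l1 l2 l3 B H1 κ' t h1 h2 h3 h4
  have n0 : (0 : ℝ) < n := by exact_mod_cast hn
  rw [rpow_zero, mul_one] at l3
  rw [div_mul_eq_mul_div, div_le_iff₀ hκ] at l1 l2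
  rw [div_le_iff₀ hκ] at l3
  have p0 : 0 ≤ (n : ℝ) ^ (1 - m / 2) / 4 := by positivity
  have k1 := mul_le_mul h1 h4 p0 (hκ.le.trans h1)
  have k2 : 16 * B ^ 2 ≤ exp (3 + 2 * log n) := by
    rw [exp_add, show 2 * log (n : ℝ) = (2 : ℕ) * log n by norm_num, exp_nat_mul, exp_log n0]
    refine mul_le_mul ?_ h2 (sq_nonneg _) (exp_pos _).le
    have := exp_one_gt_d9
    rw [show (3 : ℝ) = (3 : ℕ) * 1 by norm_num, exp_nat_mul]
    exact le_trans (by norm_num) (pow_le_pow_left₀ (by norm_num) this.le 3)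
  refine (mul_le_mul_of_nonneg_right k2 (exp_pos _).le).trans ?_
  rw [← exp_add, exp_le_one_iff]
  linarith

/-- the two clauses of `NegD` at the delay `τ` -/
def Two (β a c e η : ℝ) (D : B.Fn) (τ : ℝ) (n : ℕ) (g : Pair n → ℝ) : Prop :=
  ∀ f, Warm (gibbsWeight n β g) ((n : ℝ) ^ (1 - c)) f →
    D n g f ≤ (n : ℝ) ^ e * (ent (gibbsWeight n β g) f + II (gibbsWeight n β g) f + 1) ∧
    D n g (sg (gibbsWeight n β g) τ f) ≤
      η * (ent (gibbsWeight n β g) (sg (gibbsWeight n β g) τ f) +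
        II (gibbsWeight n β g) (sg (gibbsWeight n β g) τ f) +
        exp (-(2 * a * τ)) * (ent (gibbsWeight n β g) f + II (gibbsWeight n β g) f)) + (n : ℝ) ^ e

theorem step (hA : At0) (β0 : 0 ≤ β) (β1 : β < 1) (hC : ColW β Φ) (a0 : 0 < a) (hc : 0 < c) :
    ∃ K > (0 : ℝ), ∀ e > (0 : ℝ), ∀ η > (0 : ℝ), ∀ τ ≥ (0 : ℝ), Whp disorderLaw fun n g =>
      dir (gibbsWeight n β g) (sg (gibbsWeight n β g) τ (Φ n g)) ≤
        η / (32 * K) * exp (-(2 * a * τ)) →
      Two β a c e η (B.Mom β fun n g x => Φ n g x ^ 2) τ n g := by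
  obtain ⟨K1, K1p, hN⟩ := niceStmt
  obtain ⟨K2, K2p, hT⟩ := hA β β0 β1
  obtain ⟨C3, c3, hG⟩ := Low.whp_gr β
  set K := max K1 K2 with hK
  have K0 : 0 < K := lt_max_of_lt_left K1p
  refine ⟨K, K0, fun e he η hη τ τ0 => ?_⟩
  obtain ⟨Z, Z0, hZ⟩ := core K0 c3 τ0
  set d := η / (32 * K) * exp (-(2 * a * τ)) with hd
  have d0 : 0 < d := by positivity
  set r := min 1 (d / Z) with hr
  have r0 : 0 < r := lt_min one_pos (by positivity)
  have r1 : r ≤ 1 := min_le_left _ _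
  have r2 : Z * r ≤ d := by rw [← le_div_iff₀' Z0]; exact min_le_right _ _
  set m := min c 1 with hm
  have m0 : 0 < m := lt_min hc one_pos
  have m1 : m ≤ 1 := min_le_right _ _
  have m2 : m ≤ c := min_le_left _ _
  set e1 := min (min (e / 4) (m / 128)) (r ^ 2) with he1
  have e10 : 0 < e1 := lt_min (lt_min (by positivity) (by positivity)) (by positivity)
  have e11 : e1 ≤ e / 4 := (min_le_left _ _).trans (min_le_left _ _)
  have e12 : e1 ≤ m / 128 := (min_le_left _ _).trans (min_le_right _ _)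
  have e13 : e1 ≤ r ^ 2 := min_le_right _ _
  refine ((hC (m / 8) (by positivity) e1 e10).and (hN.and (hT.and hG))).mono ?_
  filter_upwards [eventually_gt_atTop 0, ev_tail (κ := K * min (2 * d) 2) (by positivity) m0 m1,
    B.ev_mul (2 / r ^ 2) e10, B.ev_mul (32 * K + 3) (show 2 * e1 < e by linarith),
    B.ev_mul (η + 3 + 4 * τ * exp (C3 * τ)) (show 2 * e1 < e by linarith)]
    with n hn t1 t2 t3 t4 g hg hs f hf
  obtain ⟨⟨N, ρ, ω, N1, N2, f1, f2, f3, f4, f5⟩, g1, g2, g3⟩ := hg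
  have n1 : (1 : ℝ) ≤ n := by exact_mod_cast hn
  have n0 : (0 : ℝ) < n := by linarith
  have hw := gibbsWeight_pos β g
  have nice : Nice (β • Jmat n g) K := Col13.nice_mono (g1 β β0 β1.le) K1p.le (le_max_left _ _)
  have at1 := g2.mono hw (le_max_right K1 K2) le_rfl
  have ew : gibbsWeight n β g = mu (β • Jmat n g) := gibbsWeight_eq_ising β g
  simp only [B.Mom]
  rw [ew] at f2 f4 f5 hs g3 at1 hw hf ⊢
  set W := β • Jmat n g
  set φ := Φ n g
  have x0 : 0 ≤ log n := log_natCast_nonneg n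
  have rp : ∀ a : ℝ, (n : ℝ) ^ a = exp (a * log n) := Low.rpow_eq hn
  have sn : √(n : ℝ) = exp (1 / 2 * log n) := by rw [sqrt_eq_rpow, rp]
  have en : (n : ℝ) = exp (log n) := (exp_log n0).symm
  have ex := mul_le_mul_of_nonneg_right e12 x0
  have mx := mul_le_mul_of_nonneg_right m1 x0
  have cx := mul_le_mul_of_nonneg_right m2 x0
  have e1x := mul_nonneg e10.le x0
  have m0x := mul_nonneg m0.le x0
  rw [rpow_zero, mul_one, div_le_iff₀ (by positivity), rp] at t2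
  have sm : ∀ y u : ℝ, y ≤ 2 * exp u → u ≤ -(e1 * log n) → y ≤ r ^ 2 := fun y u h1 h2 => by
    refine h1.trans ((mul_le_mul_of_nonneg_left (exp_le_exp.2 h2) zero_le_two).trans ?_)
    rw [exp_neg, ← div_eq_mul_inv, div_le_iff₀' (exp_pos _)]
    exact t2
  have P1 : 1 ≤ exp (e1 * log n) := one_le_exp e1x
  have P2 : (n : ℝ) ^ (2 * e1) = exp (e1 * log n) ^ 2 := by
    rw [rp, ← exp_nat_mul]; congr 1; push_cast; ring
  have H0 : 0 ≤ (n : ℝ) ^ (1 - m / 8) := by positivity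
  have HH : (n : ℝ) ^ (1 - c) ≤ (n : ℝ) ^ (1 - m / 8) :=
    rpow_le_rpow_of_exponent_le n1 (by linarith)
  have B0 : 0 < √n * (n : ℝ) ^ e1 := by positivity
  have tl : ∀ σ, min (2 * d) 2 ≤ σ → 16 * (√n * (n : ℝ) ^ e1) ^ 2 * exp ((n : ℝ) ^ (1 - c) -
      K * σ * ((n : ℝ) ^ (1 - m / 8) / (2 * (√n * (n : ℝ) ^ e1))) ^ 2) ≤ 1 := fun σ h => by
    refine t1 _ _ _ _ (mul_le_mul_of_nonneg_left h K0.le) (pow_le_pow_left₀ B0.le ?_ 2)
      (rpow_le_rpow_of_exponent_le n1 (by linarith)) ?_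
    · rw [sn, rp, ← exp_add]
      exact (exp_le_exp.2 (by linarith)).trans_eq en.symm
    · rw [div_pow, mul_pow, mul_comm ((2 : ℝ) ^ 2), ← div_div, sn, rp, rp, rp, ← exp_add,
        ← exp_nat_mul, ← exp_nat_mul, ← exp_sub, show (2 : ℝ) ^ 2 = 4 by norm_num]
      refine div_le_div_of_nonneg_right (exp_le_exp.2 ?_) (by norm_num)
      push_cast
      linarith
  have m2' : E.mean (mu W) φ ^ 2 ≤ exp (e1 * log n) ^ 2 := by
    rw [← sq_abs, ← rp]; exact pow_le_pow_left₀ (abs_nonneg _) f2 2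
  have en0 := Rv.ent_nn hw fun y => (hf.1 y).le
  have i0 : 0 ≤ II (mu W) f := by
    have := B.II_eq hw hf.1 hf.2.1
    linarith [B.Df_nn (v := B.dn (mu W) f) (w := mu W) (B.dn_pos hw hf.1), B.Df_le hw hf.1 hf.2.1]
  rw [rp] at N2
  rw [P2] at t3 t4
  have PP : exp (e1 * log n) ≤ exp (e1 * log n) ^ 2 := by nlinarith
  constructor
  · have k := sq_le (σ := 2 * N) hn hw K0 at1 B0 (by linarith) H0 f3 (gm_le hn hw f4) hf
    have k2 := tl (2 * N) ((min_le_right _ _).trans (by linarith))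
    refine k.trans (le_trans ?_ (mul_le_mul_of_nonneg_right t3 (by linarith)))
    have q1 := mul_le_mul (mul_le_mul_of_nonneg_left (N2.trans PP) (show 0 ≤ 32 * K by positivity))
      (show ent (mu W) f + 1 ≤ ent (mu W) f + II (mu W) f + 1 by linarith) (by linarith)
      (by positivity)
    have q2 : exp (e1 * log n) ^ 2 ≤ exp (e1 * log n) ^ 2 * (ent (mu W) f + II (mu W) f + 1) :=
      le_mul_of_one_le_right (by positivity) (by linarith)
    linarith
  · have s2 : ((n : ℝ) ^ (e1 - 1 / 2)) ^ 2 = exp ((2 * e1 - 1) * log n) := by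
      rw [rp, ← exp_nat_mul]; congr 1; push_cast; ring
    have L2 : exp (2 * e1 * log n) ^ 2 = exp (4 * e1 * log n) := by
      rw [← exp_nat_mul]; congr 1; push_cast; ring
    have two : ∀ y u : ℝ, 0 ≤ y → y * exp (e1 * log n) = exp u → y * N ≤ 2 * exp u :=
      fun y u h1 h2 => by linarith [mul_le_mul_of_nonneg_left N2 h1, exp_pos u]
    have k0 := hZ n W hn nice at1 g3 hw φ ω _ ρ _ (exp (2 * e1 * log n)) N r (by positivity) H0
      (one_le_exp (by linarith)) N1 r0 r1 f5 (f4 _ (wm_self hw H0)) (f1.trans e13)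
      (sm _ (-(e1 * log n)) (two _ _ (by positivity) (by
        rw [s2, L2]
        nth_rewrite 1 [en]
        rw [← exp_add, ← exp_sub, ← exp_add]; congr 1; ring)) le_rfl)
      (sm _ ((7 * e1 - m / 8) * log n) (two _ _ (by positivity) (by
        rw [s2, L2, rp, ← exp_add, ← exp_add, ← exp_add]; congr 1; ring)) (by linarith))
      (sm _ ((6 * e1 - m / 16) * log n) (by
        have h1 : √(n * ((n : ℝ) ^ (1 - m / 8) + 1)) ≤ 2 * exp ((1 - m / 16) * log n) := by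
          refine sqrt_le_iff.2 ⟨by positivity, ?_⟩
          have h3 : 1 ≤ exp ((1 - m / 8) * log n) := one_le_exp (by linarith)
          have h4 : (2 * exp ((1 - m / 16) * log n)) ^ 2 = 4 * (n * exp ((1 - m / 8) * log n)) := by
            nth_rewrite 2 [en]
            rw [mul_pow, ← exp_nat_mul, ← exp_add]
            congr 1
            · norm_num
            · congr 1; push_cast; ring
          rw [h4, rp]
          linarith [mul_le_mul_of_nonneg_left h3 n0.le, mul_pos n0 (exp_pos ((1 - m / 8) * log n))]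
        refine (mul_le_mul_of_nonneg_left h1 (by positivity)).trans_eq ?_
        rw [s2, L2, mul_left_comm, ← exp_add, ← exp_add]; congr 2; ring) (by linarith))
    have k := sq_le (σ := 2 * d) hn hw K0 at1 B0 (by linarith) H0 (abs_sg hn hw τ0 f3)
      (fun g hg => (k0 g hg).trans (by linarith)) hf
    have k2 := tl (2 * d) (min_le_left _ _)
    have k3 := flow_le hn hw g3 c3 τ0 (hf.mono HH) f4
    rw [Rec.mean_sg' hn hw] at k
    have q0 : 16 * K * (2 * d) = η * exp (-(2 * a * τ)) := by rw [hd]; field_simp; ring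
    have q1 : exp (-(2 * a * τ)) ≤ 1 := exp_le_one_iff.2 (by nlinarith)
    have q2 := B.HI_nn hn hw (hf.sg hn hw τ0).1
    have q3 := mul_le_mul_of_nonneg_left (N2.trans PP) (show 0 ≤ 4 * τ * exp (C3 * τ) by positivity)
    have q4 : η * exp (-(2 * a * τ)) ≤ η * exp (e1 * log n) ^ 2 :=
      mul_le_mul_of_nonneg_left (by linarith) hη.le
    have q5 := mul_nonneg hη.le q2
    have q6 : 0 ≤ η * (exp (-(2 * a * τ)) * II (mu W) f) := by positivity
    rw [q0] at k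
    linarith

/-- **(Dec)**, delayed form -/
theorem negD (hA : At0) (β0 : 0 ≤ β) (β1 : β < 1) (hC : ColW β Φ) (hS : Spc β lam Φ) (a0 : 0 < a)
    (a1 : a < lam) (hc : 0 < c) : B.NegD β a c (B.Mom β fun n g x => Φ n g x ^ 2) := by
  intro e he η hη
  obtain ⟨K, K0, h⟩ := step hA β0 β1 hC a0 hc
  obtain ⟨τ, τ0, hS⟩ := hS a a0 a1 (η / (32 * K)) (by positivity)
  exact ⟨fun _ => τ, (Low.ev_log τ he).mono fun n h => ⟨τ0, h⟩,
    ((h e he η hη τ τ0).and hS).imp fun n g h => h.1 h.2⟩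

theorem whp_diag {X : ℕ → Type*} [∀ n, MeasurableSpace (X n)] {μ : ∀ n, MeasureTheory.Measure (X n)}
    {P : ℝ → ∀ n, X n → Prop} {A : ℝ → ℕ → Prop} (h : ∀ ε > (0 : ℝ), ∃ τ,
      ∀ᶠ n in atTop, A τ n ∧ μ n {g | ¬ P τ n g} ≤ ENNReal.ofReal ε) :
    ∃ τ : ℕ → ℝ, (∀ᶠ n in atTop, A (τ n) n) ∧ Whp μ fun n g => P (τ n) n g := by
  classical
  choose τ hτ using fun k : ℕ => h (1 / ((k : ℝ) + 1)) (by positivity)
  set p : ℕ → ℕ → Prop := fun n k =>
    A (τ k) n ∧ μ n {g | ¬ P (τ k) n g} ≤ ENNReal.ofReal (1 / ((k : ℝ) + 1))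
  have key : ∀ k : ℕ, ∀ᶠ n in atTop,
      k ≤ Nat.findGreatest (p n) n ∧ p n (Nat.findGreatest (p n) n) := fun k => by
    filter_upwards [hτ k, eventually_ge_atTop k] with n h1 h2
    exact ⟨Nat.le_findGreatest h2 h1, Nat.findGreatest_spec h2 h1⟩
  refine ⟨fun n => τ (Nat.findGreatest (p n) n), (key 0).mono fun n h => h.2.1,
    Top.whp_iff.2 fun ε hε => ?_⟩
  obtain ⟨k, hk⟩ := exists_nat_one_div_lt hε
  filter_upwards [key k] with n hn
  refine hn.2.2.trans (ENNReal.ofReal_le_ofReal (le_trans ?_ hk.le))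
  exact one_div_le_one_div_of_le (by positivity) (by exact_mod_cast Nat.succ_le_succ hn.1)

/-- **(Dec)** when the delay depends on the probability level -/
theorem dec_prob (hA : At0) (β0 : 0 ≤ β) (β1 : β < 1) (hC : ColW β Φ) (a0 : 0 < a) (hc : 0 < c)
    (hS : ∀ δ > (0 : ℝ), ∀ ε > (0 : ℝ), ∃ τ ≥ (0 : ℝ), ∀ᶠ n in atTop,
      disorderLaw n {g | δ * exp (-(2 * a * τ)) <
        dir (gibbsWeight n β g) (sg (gibbsWeight n β g) τ (Φ n g))} ≤ ENNReal.ofReal ε) :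
    B.Neg β a c (B.Mom β fun n g x => Φ n g x ^ 2) := by
  refine B.NegD.neg a0 fun e he η hη => ?_
  obtain ⟨K, K0, h⟩ := step hA β0 β1 hC a0 hc
  refine whp_diag (A := fun τ n => 0 ≤ τ ∧ τ ≤ e * log n)
    (P := Two β a c e η (B.Mom β fun n g x => Φ n g x ^ 2)) fun ε hε => ?_
  obtain ⟨τ, τ0, hS⟩ := hS (η / (32 * K)) (by positivity) (ε / 2) (by positivity)
  refine ⟨τ, ?_⟩
  filter_upwards [hS, Top.whp_iff.1 (h e he η hη τ τ0) (ε / 2) (by positivity), Low.ev_log τ he]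
    with n h1 h2 h3
  refine ⟨⟨τ0, h3⟩, le_trans (MeasureTheory.measure_mono fun g hg => ?_)
    ((MeasureTheory.measure_union_le _ _).trans ((add_le_add h1 h2).trans_eq ?_))⟩
  · by_contra hh
    simp only [Set.mem_union, Set.mem_ofPred_eq, not_or, not_lt, not_not] at hh
    exact hg (hh.2 hh.1)
  · rw [← ENNReal.ofReal_add (by positivity) (by positivity), add_halves]

/-- **(Dec)** for the square of one observable -/
theorem dec_of (hA : At0) (β0 : 0 ≤ β) (β1 : β < 1) (hC : ColW β Φ) (hS : Spc β lam Φ) (a0 : 0 < a)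
    (a1 : a < lam) (hc : 0 < c) : B.Neg β a c (B.Mom β fun n g x => Φ n g x ^ 2) :=
  (negD hA β0 β1 hC hS a0 a1 hc).neg a0

theorem Col.colW (h : Col β Φ) : ColW β Φ := fun c hc e he => by
  obtain ⟨C1, h1⟩ := h c hc 1 one_pos
  obtain ⟨C, h2⟩ := h c hc (e / (2 + 2 * C1 ^ 2)) (by positivity)
  refine (h1.and h2).mono ?_
  filter_upwards [eventually_gt_atTop 0, B.ev_mul (2 + 2 * C1 ^ 2) he, B.ev_mul C he]
    with n hn l1 l2 g ⟨⟨_, _, ω1, f1⟩, f2, f3, ω, f4⟩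
  have n0 : (0 : ℝ) < n := by exact_mod_cast hn
  rw [rpow_zero, mul_one] at l1 l2
  refine ⟨2 + 2 * C1 ^ 2, _, ω, by nlinarith, l1, (div_mul_cancel₀ _ (by positivity)).le, f2.trans l2,
    fun x => (f3 x).trans ((mul_le_mul_of_nonneg_right l2 (sqrt_nonneg _)).trans_eq (mul_comm _ _)),
    fun v hv => (fld_grad f1 hv).trans_eq ?_, fld_mono (gibbsWeight_pos β g) f4 ?_ le_rfl le_rfl⟩
  · rw [div_pow, sq_sqrt n0.le]; field_simp
  · rw [rpow_sub n0, ← sqrt_eq_rpow]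
    exact div_le_div_of_nonneg_right l2 (sqrt_nonneg _)

theorem ColP.colW (h : ColP β Φ) : ColW β Φ := fun c hc e he => by
  obtain ⟨c', c0, h⟩ := h c hc
  set e1 := min (e / 3) (c' / 4) with he1
  have e0 : 0 < e1 := lt_min (by positivity) (by positivity)
  have e11 : e1 ≤ e / 3 := min_le_left _ _
  have e12 : e1 ≤ c' / 4 := min_le_right _ _
  refine (h e1 e0).mono ?_
  filter_upwards [eventually_gt_atTop 0, B.ev_mul 4 (show 2 * e1 < e by linarith),
    B.ev_mul (4 / e) (show 2 * e1 - c' < 0 by linarith)] with n hn l1 l2 g ⟨f2, f3, ω, f4⟩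
  have n1 : (1 : ℝ) ≤ n := by exact_mod_cast hn
  have n0 : (0 : ℝ) < n := by linarith
  have pe : (n : ℝ) ^ e1 ≤ (n : ℝ) ^ e := rpow_le_rpow_of_exponent_le n1 (by linarith)
  have p1 : 1 ≤ (n : ℝ) ^ (2 * e1) := one_le_rpow n1 (by linarith)
  have p2 : (n : ℝ) ^ (-c') ≤ 1 := rpow_le_one_of_one_le_of_nonpos n1 (by linarith)
  rw [rpow_zero, div_mul_eq_mul_div, div_le_one he] at l2
  refine ⟨4 * (n : ℝ) ^ (2 * e1), _, ω, by linarith, l1, le_trans (le_of_eq ?_) l2, f2.trans pe,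
    fun x => (f3 x).trans (mul_le_mul_of_nonneg_left pe (sqrt_nonneg _)),
    fun v hv => (fld_grad f4 hv).trans ?_, fld_mono (gibbsWeight_pos β g) f4
      (rpow_le_rpow_of_exponent_le n1 (by linarith)) le_rfl le_rfl⟩
  · rw [sub_eq_add_neg, rpow_add n0]; ring
  · have : n * ((n : ℝ) ^ (e1 - 1 / 2)) ^ 2 = (n : ℝ) ^ (2 * e1) := by
      rw [← rpow_natCast, ← rpow_mul n0.le, mul_comm, ← rpow_add_one n0.ne']
      congr 1; push_cast; ring
    linarith

theorem dir_le_ip {w f : Cube n → ℝ} (hn : 0 < n) (hw : ∀ x, 0 < w x) (s : ℝ) :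
    dir w (sg w (s + 1) f) ≤ (ip (prob w) f (sg w (2 * s) f) - E.mean w f ^ 2) / 2 := by
  have hp := isP_prob' hw
  set m := E.mean w f with hm
  have e1 : sg w (s + 1) f = fun x => sg w 1 (fun y => sg w s f y - m) x + m := funext fun x => by
    rw [Rec.sg_sub_fun, Rec.sg_const hn hw, add_comm s, Chain22.sg_add hn hw]; ring
  have e2 : ∀ F : Cube n → ℝ, dir w (fun x => F x + m) = dir w F := fun F => by
    simp only [Chain22.dir_eq_dir2', Low.dir2_EE hn hw, add_sub_add_right_eq_sub]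
  rw [e1, e2]
  refine (Rec.dir_sg_le_sq hn hw one_pos _).trans_eq ?_
  have e3 : ip (prob w) f (sg w (2 * s) f) = E.mean w fun x => sg w s f x * sg w s f x := by
    rw [two_mul, Chain22.sg_add hn hw, Low.mean_sg_symm hn hw]; rfl
  have e4 : E.mean w (fun x => (sg w s f x - m) ^ 2) = E.mean w (fun x => sg w s f x * sg w s f x) -
      2 * m * E.mean w (sg w s f) + (∑ x, prob w x) * m ^ 2 := by
    simp only [E.mean, mul_sum, sum_mul, ← sum_add_distrib, ← sum_sub_distrib]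
    exact sum_congr rfl fun x _ => by ring
  rw [e3, e4, hp.sum1, Rec.mean_sg' hn hw, ← hm]; ring

theorem SpI.spc (h : SpI β lam Φ) : Spc β lam Φ := fun a a0 a1 η hη => by
  obtain ⟨C, h⟩ := h ((a + lam) / 2) (by linarith) (by linarith)
  have l0 : 0 < (lam - a) / 2 := by linarith
  obtain ⟨t, ht, h⟩ := h (max 0 (|C| * exp (2 * a) / η / ((lam - a) / 2)))
  have t0 : 0 ≤ t := (le_max_left _ _).trans ht
  have t1 := (le_max_right _ _).trans ht
  rw [div_le_iff₀ l0, div_le_iff₀ hη] at t1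
  refine ⟨t / 2 + 1, by linarith, h.mono ?_⟩
  filter_upwards [eventually_gt_atTop 0] with n hn g hg
  refine (dir_le_ip hn (gibbsWeight_pos β g) _).trans ?_
  rw [show 2 * (t / 2) = t by ring]
  have e1 : exp (-(2 * a * (t / 2 + 1))) =
      exp (t * ((lam - a) / 2)) * exp (-((a + lam) / 2 * t)) / exp (2 * a) := by
    rw [← exp_add, ← exp_sub]; congr 1; ring
  have k1 : |C| * exp (2 * a) ≤ exp (t * ((lam - a) / 2)) * η := t1.trans
    (mul_le_mul_of_nonneg_right (by linarith [add_one_le_exp (t * ((lam - a) / 2))]) hη.le)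
  have k2 := mul_le_mul_of_nonneg_right k1 (exp_pos (-((a + lam) / 2 * t))).le
  have k3 := mul_le_mul_of_nonneg_right (le_abs_self C) (exp_pos (-((a + lam) / 2 * t))).le
  have k4 : 0 ≤ |C| * exp (-((a + lam) / 2 * t)) := by positivity
  rw [e1, ← mul_div_assoc, le_div_iff₀ (exp_pos _)]
  have k5 := mul_le_mul_of_nonneg_right (show (ip (prob (gibbsWeight n β g)) (Φ n g)
    (sg (gibbsWeight n β g) t (Φ n g)) - E.mean (gibbsWeight n β g) (Φ n g) ^ 2) / 2 ≤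
      |C| * exp (-((a + lam) / 2 * t)) by linarith) (exp_pos (2 * a)).le
  linarith

/-- observables dominated by a square -/
def Dom (Q Φ : B.Ob) : Prop := ∃ C ≥ (0 : ℝ), ∀ e > (0 : ℝ),
  Whp disorderLaw fun n g => ∀ x, Q n g x ≤ C * Φ n g x ^ 2 + (n : ℝ) ^ e

theorem Neg.le {D D' : B.Fn} (a0 : 0 < a) (h : B.Neg β a c D) (hD : ∀ e > (0 : ℝ),
    Whp disorderLaw fun n g => ∀ f, Warm (gibbsWeight n β g) ((n : ℝ) ^ (1 - c)) f →
      D' n g f ≤ D n g f + (n : ℝ) ^ e) : B.Neg β a c D' := by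
  have k : B.NegS β c fun n g f => D' n g f - D n g f := fun e he η hη => by
    refine (hD e he).mono ?_
    filter_upwards [eventually_gt_atTop 0] with n hn g h1 f hf
    linarith [h1 f hf, mul_nonneg hη.le (B.HI_nn hn (gibbsWeight_pos β g) hf.1)]
  simpa only [add_sub_cancel] using h.add (k.neg a0)

theorem dec_le {Q : B.Ob} (hA : At0) (β0 : 0 ≤ β) (β1 : β < 1) (hC : ColW β Φ) (hS : Spc β lam Φ)
    (hQ : Dom Q Φ) (a0 : 0 < a) (a1 : a < lam) (hc : 0 < c) : B.Neg β a c (B.Mom β Q) := by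
  obtain ⟨C, C0, hQ⟩ := hQ
  refine Neg.le a0 ((dec_of hA β0 β1 hC hS a0 a1 hc).smul C0) fun e he =>
    (hQ e he).mono (Eventually.of_forall fun n g h f hf => ?_)
  have hv := Col13.wm_of (gibbsWeight_pos β g) hf
  simp only [B.Mom]
  rw [Col13.mean_of, Col13.mean_of]
  refine (hv.1.mean_mono h).trans_eq ?_
  nth_rewrite 2 [← hv.1.mean_const ((n : ℝ) ^ e)]
  simp only [Chain22.mean, mul_sum, ← sum_add_distrib]
  exact sum_congr rfl fun x _ => by ring

/-- the largest class: nonnegative observables dominated by the square of a regular decaying one -/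
def Cls (β lam : ℝ) : Set B.Ob :=
  {Q | (∀ n g x, 0 ≤ Q n g x) ∧ ∃ Φ, ColW β Φ ∧ Spc β lam Φ ∧ Dom Q Φ}

theorem dom_sq (Φ : B.Ob) : Dom (fun n g x => Φ n g x ^ 2) Φ := ⟨1, zero_le_one, fun e _ =>
  Top.whp_of_eventually (Eventually.of_forall fun n g x => by
    rw [one_mul]; exact le_add_of_nonneg_right (by positivity))⟩

theorem sq_mem (hC : ColW β Φ) (hS : Spc β lam Φ) : (fun n g x => Φ n g x ^ 2) ∈ Cls β lam :=
  ⟨fun _ _ _ => sq_nonneg _, Φ, hC, hS, dom_sq Φ⟩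

theorem nn_cls : B.Nn (Cls β lam) := fun _ h => h.1

/-- **(Dec)** -/
theorem dec_cls (hA : At0) (β0 : 0 ≤ β) (β1 : β < 1) : B.Dec β lam (Cls β lam) :=
  fun _ ⟨_, _, hC, hS, hQ⟩ _ a0 a1 _ hc => dec_le hA β0 β1 hC hS hQ a0 a1 hc

theorem dec_sub {𝒬 : Set B.Ob} (hA : At0) (β0 : 0 ≤ β) (β1 : β < 1) (h : 𝒬 ⊆ Cls β lam) :
    B.Dec β lam 𝒬 := fun Q hQ => dec_cls hA β0 β1 Q (h hQ)

end Crest.Agent.T157.Dc

end
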