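import Crest.Agent.T157.LmDef_76
import Crest.Agent.T157.DecG_74
import Crest.Agent.T157.WsAll_32

/-!
# Row 157, block B/S5 (helper74): decay implies negligibility
-/

set_option autoImplicit false

noncomputable section

namespace Crest.Agent.T157.Lm

open Real Filter Topology
open Crest.ProbabilityR.SpinGlassDynamics (disorderLaw gibbsWeight)
open Crest.Agent.T157.E (Cube mean dir prob gibbsWeight_pos)
open Crest.Agent.T157.Chain22 (sg isP_prob')

namespace Dec74

theorem grad_sub {n : ℕ} (f : Cube n → ℝ) (m : ℝ) : Rec.grad (fun x => f x - m) = Rec.grad f := by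
  funext x i; simp only [Rec.grad, SL.incr, sub_sub_sub_cancel_right]

theorem dir_sg_sub {n : ℕ} {w : Cube n → ℝ} (hn : 0 < n) (hw : ∀ x, 0 < w x) (t : ℝ)
    (f : Cube n → ℝ) (m : ℝ) : dir w (sg w t fun x => f x - m) = dir w (sg w t f) := by
  have e : (sg w t fun x => f x - m) = fun x => sg w t f x - m := funext fun x => by
    rw [Rec.sg_sub_fun, Rec.sg_const hn hw]
  rw [e]
  simp only [Chain22.dir_eq_dir2', Low.dir2_EE hn hw, sub_sub_sub_cancel_right]

/-- the centred observable is regular -/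
theorem colW {β : ℝ} {Φ : B.Ob} (h : ∀ c > (0 : ℝ), ∃ c' > (0 : ℝ), Rg β c c' Φ) :
    T157.Dc.ColW β fun n g x => Φ n g x - mean (gibbsWeight n β g) (Φ n g) := fun c hc e he => by
  obtain ⟨c', c0, B, h⟩ := h (min c (64 * e)) (lt_min hc (by positivity))
  refine h.mono ?_
  filter_upwards [eventually_gt_atTop 0, T157.B.ev_mul (max 1 B) he,
    T157.B.ev_mul (max 1 B / e) (show -c' < 0 by linarith)] with n hn l1 l2 g ⟨f1, f2, ω, f3⟩
  have n1 : (1 : ℝ) ≤ n := by exact_mod_cast hn
  have hw := gibbsWeight_pos β g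
  have hp := isP_prob' hw
  rw [rpow_zero, mul_one] at l1
  rw [rpow_zero, div_mul_eq_mul_div, div_le_one he] at l2
  have m0 : mean (gibbsWeight n β g) (fun x => Φ n g x - mean (gibbsWeight n β g) (Φ n g)) = 0 := by
    have : ∀ (F : Cube n → ℝ) (m : ℝ), mean (gibbsWeight n β g) (fun x => F x - m) =
        mean (gibbsWeight n β g) F - (∑ x, prob (gibbsWeight n β g) x) * m := fun F m => by
      simp only [mean, mul_sub, Finset.sum_sub_distrib, Finset.sum_mul]
    rw [this, hp.sum1]; ring
  have f4 := T157.Dc.fld_mono hw f3 (rpow_le_rpow_of_exponent_le n1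
    (show _ ≤ e - 1 / 2 by linarith [min_le_right c (64 * e)])) le_rfl
    (rpow_le_rpow_of_exponent_le n1 (show 1 - c ≤ _ by linarith [min_le_left c (64 * e)]))
  refine ⟨max 1 B, _, ω, le_max_left _ _, l1, (mul_comm _ _).trans_le l2, by rw [m0]; simp; positivity,
    fun x => ?_, fun v hv => ?_, f4.odd, f4.sup, f4.op, by rw [grad_sub]; exact f4.cl⟩
  · have k : B * √n ≤ √n * (n : ℝ) ^ e := (mul_le_mul_of_nonneg_right
      ((le_max_right _ _).trans l1) (sqrt_nonneg _)).trans_eq (mul_comm _ _)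
    refine le_trans (abs_sub_le_iff.2 ⟨?_, ?_⟩) k
    · have := (hp.mean_const (Φ n g x - B * √n)).symm.trans_le (hp.mean_mono (g := Φ n g) fun y => by
        linarith [(abs_le.1 (f2 x y)).2])
      change _ ≤ mean (gibbsWeight n β g) (Φ n g) at this
      linarith
    · have := (hp.mean_mono (f := Φ n g) fun y => by
        linarith [(abs_le.1 (f2 x y)).1]).trans_eq (hp.mean_const (Φ n g x + B * √n))
      change mean (gibbsWeight n β g) (Φ n g) ≤ _ at this
      linarith
  · rw [grad_sub]
    exact ((hv.1.mean_mono f1).trans_eq (hv.1.mean_const B)).trans (le_max_right _ _)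

end Dec74

theorem decStmt : DecStmt := fun β β0 β1 Φ hR a a0 hD c hc => by
  refine T157.Dc.dec_prob Rv.at0 β0 β1 (Dec74.colW hR) a0 hc fun δ hδ ε hε => ?_
  obtain ⟨τ, τ1, h⟩ := hD δ hδ ε hε
  refine ⟨τ, by linarith, ?_⟩
  filter_upwards [h, eventually_gt_atTop 0] with n h1 hn
  simpa only [Dec74.dir_sg_sub hn (gibbsWeight_pos β _)] using h1

end Crest.Agent.T157.Lm

end
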