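import Crest.Agent.T157.LmDef_76

/-!
# Row 157, block B/S5: the dichotomy decay / slow mode and the output (helper23)
-/

set_option autoImplicit false

noncomputable section

namespace Crest.Agent.T157.Lm

open MeasureTheory Real Filter Topology Finset Matrix
open Crest.ProbabilityR.SpinGlassDynamics (Pair disorderLaw gibbsWeight)
open Crest.Agent.T157.E (Cube sv mean gen dir dir2 var prob siteM)
open Crest.Agent.T157.Chain22 (sg hbRC ip sg_eq)
open Crest.Agent.T157.Pl (LR)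
open Crest.Agent.T157.Top (Whp Poin)

namespace Di23

variable {n : ℕ} {w f : Cube n → ℝ}

/-- `‖L g‖²` -/
def k2 (w g : Cube n → ℝ) : ℝ := mean w fun x => gen w g x ^ 2

lemma shift (hn : 0 < n) (hw : ∀ x, 0 < w x) (t c : ℝ) (f : Cube n → ℝ) :
    dir w (sg w t fun x => f x + c) = dir w (sg w t f) ∧
      var w (sg w t fun x => f x + c) = var w (sg w t f) ∧
      k2 w (sg w t fun x => f x + c) = k2 w (sg w t f) := by
  have e : (sg w t fun x => f x + c) = fun x => sg w t f x + c := funext fun x => by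
    rw [Rec.sg_add_fun, Rec.sg_const hn hw]
  have e2 : ∀ i x, siteM w (fun x => sg w t f x + c) i x = siteM w (sg w t f) i x + c := fun i x => by
    have := hw (Function.update x i true)
    have := hw (Function.update x i false)
    simp only [siteM]; field_simp; ring
  rw [e]
  refine ⟨?_, ?_, ?_⟩
  · simp only [dir, e2, add_sub_add_right_eq_sub]
  · simp only [var, SL.mean_add, (SL.Wt.of_pos hw).mean_const, add_sub_add_right_eq_sub]
  · simp only [k2, gen, e2, add_sub_add_right_eq_sub]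

/-- spectral representation -/
lemma spec (hn : 0 < n) (hw : ∀ x, 0 < w x) (f : Cube n → ℝ) : ∃ s m : Cube n → ℝ,
    (∀ j, 0 ≤ s j) ∧ (∀ j, 0 ≤ m j) ∧ ∀ t,
      dir w (sg w t f) = ∑ j, s j * (exp (-(2 * t * s j)) * m j) ∧
      var w (sg w t f) = ∑ j, exp (-(2 * t * s j)) * m j ∧
      k2 w (sg w t f) = ∑ j, s j ^ 2 * (exp (-(2 * t * s j)) * m j) := by
  set c := hbRC hn hw
  set f0 : Cube n → ℝ := fun x => f x + -mean w f with hf0
  refine ⟨fun j => n * (1 - c.ev j), fun j => ip c.π f0 (c.φ j) * ip c.π f0 (c.φ j),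
    fun j => mul_nonneg (Nat.cast_nonneg n) (sub_nonneg.2 (c.ev_le_one j)),
    fun j => mul_self_nonneg _, fun t => ?_⟩
  obtain ⟨h1, h2, h3⟩ := shift hn hw t (-mean w f) f
  rw [← h1, ← h2, ← h3, ← hf0]
  have ee : ∀ j, exp (-((n * t + n * t) * (1 - c.ev j))) = exp (-(2 * t * (n * (1 - c.ev j)))) :=
    fun j => by congr 1; ring
  refine ⟨?_, ?_, ?_⟩
  · rw [Chain22.dir_eq_D hn hw, sg_eq hn hw, c.D_H_spec, mul_sum]
    exact sum_congr rfl fun j _ => by rw [ee]; ring
  · have m0 : mean w (sg w t f0) = 0 := by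
      rw [Rec.mean_sg' hn hw, hf0, SL.mean_add, (SL.Wt.of_pos hw).mean_const, add_neg_cancel]
    have : var w (sg w t f0) = ip c.π (sg w t f0) (sg w t f0) := by
      simp only [var, m0, sub_zero, _root_.sq]; rfl
    rw [this, sg_eq hn hw, Rec.ip_H_H]
    exact sum_congr rfl fun j _ => by rw [ee]
  · have e : gen w (sg w t f0) = (n : ℝ) • (c.P *ᵥ (c.H (n * t) *ᵥ f0) - c.H (n * t) *ᵥ f0) :=
      funext fun x => by rw [Chain22.gen_eq hn hw, sg_eq hn hw]; rfl
    rw [k2, Rec.mean_sq_eq_ip, e]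
    refine (c.parseval _ _).trans (sum_congr rfl fun j _ => ?_)
    rw [Chain22.ip_smul_left, Chain22.ip_sub_left, c.ip_P_φ, c.ip_H_φ, ← ee, add_mul, neg_add,
      exp_add]
    ring

lemma sexp {s : ℝ} (t : ℝ) : s * exp (-(2 * t * s)) ≤ exp (-(2 * (t - 1) * s)) := by
  rw [show -(2 * (t - 1) * s) = 2 * s + -(2 * t * s) by ring, exp_add]
  rcases le_total s 0 with h | h
  · exact (mul_nonpos_of_nonpos_of_nonneg h (exp_pos _).le).trans (by positivity)
  · exact mul_le_mul_of_nonneg_right (by linarith [add_one_le_exp (2 * s)]) (exp_pos _).le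

/-- the deterministic inequalities -/
lemma ineq (hn : 0 < n) (hw : ∀ x, 0 < w x) (f : Cube n → ℝ) {t σ : ℝ} (ht : 1 ≤ t) (hσ : 0 ≤ σ) :
    k2 w (sg w t f) ≤ σ ^ 2 * var w (sg w t f) + exp (-(2 * (t - 1) * σ)) * dir w f ∧
      dir w (sg w t f) ≤ σ * var w (sg w t f) + exp (-(2 * t * σ)) * dir w f ∧
      dir w (sg w t f) ≤ var w (sg w (t - 1) f) ∧
      ∀ C > (0 : ℝ), 2 * C * dir w (sg w t f) ≤ var w (sg w t f) + C ^ 2 * k2 w (sg w t f) := by
  obtain ⟨s, m, s0, m0, h⟩ := spec hn hw f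
  have h0 := (h 0).1
  rw [Chain22.sg_zero hn hw] at h0
  rw [h0, (h t).1, (h t).2.1, (h t).2.2, (h (t - 1)).2.1]
  simp only [mul_sum, ← sum_add_distrib, mul_zero, zero_mul, neg_zero, exp_zero, one_mul]
  refine ⟨sum_le_sum fun j _ => ?_, sum_le_sum fun j _ => ?_, sum_le_sum fun j _ => ?_,
    fun C hC => sum_le_sum fun j _ => ?_⟩
  all_goals
    have a0 := s0 j
    have a1 := m0 j
    have a2 : 0 ≤ exp (-(2 * t * s j)) * m j := by positivity
  · rcases le_total (s j) σ with h | h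
    · exact le_add_of_le_of_nonneg (by gcongr) (by positivity)
    · have t1 := (sexp (s := s j) t).trans (exp_le_exp.2 (neg_le_neg
        (mul_le_mul_of_nonneg_left h (show 0 ≤ 2 * (t - 1) by linarith))))
      refine le_add_of_nonneg_of_le (by positivity) ?_
      nlinarith [mul_le_mul_of_nonneg_right t1 (mul_nonneg a0 a1)]
  · rcases le_total (s j) σ with h | h
    · exact le_add_of_le_of_nonneg (by gcongr) (by positivity)
    · have t1 := exp_le_exp.2 (neg_le_neg
        (mul_le_mul_of_nonneg_left h (show 0 ≤ 2 * t by linarith)))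
      refine le_add_of_nonneg_of_le (by positivity) ?_
      nlinarith [mul_le_mul_of_nonneg_right t1 (mul_nonneg a0 a1)]
  · nlinarith [mul_le_mul_of_nonneg_right (sexp (s := s j) t) a1]
  · nlinarith [mul_nonneg a2 (sq_nonneg (1 - C * s j))]

lemma var_nn (hw : ∀ x, 0 < w x) (f : Cube n → ℝ) : 0 ≤ var w f :=
  sum_nonneg fun x _ => mul_nonneg ((SL.Wt.of_pos hw).prob_nonneg x) (sq_nonneg _)

lemma dir_nn (hw : ∀ x, 0 < w x) (f : Cube n → ℝ) : 0 ≤ dir w f :=
  sum_nonneg fun _ _ => sum_nonneg fun x _ =>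
    mul_nonneg ((SL.Wt.of_pos hw).prob_nonneg x) (sq_nonneg _)

lemma k2_nn (hw : ∀ x, 0 < w x) (f : Cube n → ℝ) : 0 ≤ k2 w f :=
  (SL.Wt.of_pos hw).mean_nonneg fun _ => sq_nonneg _

lemma meas_kk (β t : ℝ) {Ψ : B.Ob} (h : ∀ x, Measurable fun g => Ψ n g x) :
    Measurable (kk β Ψ t n) := by
  have hw : ∀ x, Measurable fun g => gibbsWeight n β g x := fun x => by
    unfold gibbsWeight; fun_prop
  have h1 : ∀ x, Measurable fun g => sg (gibbsWeight n β g) t (Ψ n g) x := fun x =>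
    Finset.measurable_sum _ fun y _ => (Rec.measurable_hbCt hw t x y).mul (h y)
  refine Finset.measurable_sum _ fun x _ => ((hw x).div (Finset.measurable_sum _ fun y _ =>
    hw y)).mul (Measurable.pow_const (Finset.measurable_sum _ fun i _ => Measurable.sub ?_ (h1 x)) 2)
  exact (((hw _).mul (h1 _)).add ((hw _).mul (h1 _))).div ((hw _).add (hw _))

lemma meas_LR (β : ℝ) : Measurable (LR false n β) := by
  unfold LR E.Zw gibbsWeight; fun_prop

lemma ev_exp (A : ℝ) {d e : ℝ} (hd : 0 < d) (he : 0 < e) :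
    ∀ᶠ τ : ℝ in atTop, 1 ≤ τ ∧ A * exp (-(e * τ)) ≤ d := by
  have := (tendsto_exp_neg_atTop_nhds_zero.comp (tendsto_id.const_mul_atTop he)).const_mul A
  rw [mul_zero] at this
  filter_upwards [eventually_ge_atTop 1, this.eventually (gt_mem_nhds hd)] with τ h1 h2
  exact ⟨h1, h2.le⟩

lemma Dc.anti {β : ℝ} {Φ : B.Ob} {a a' : ℝ} (h : Dc β Φ a') (ha : a ≤ a') : Dc β Φ a := by
  intro δ hδ η hη
  obtain ⟨τ, h1, h2⟩ := h δ hδ η hη
  refine ⟨τ, h1, h2.mono fun n hn => le_trans (measure_mono fun g hg => ?_) hn⟩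
  have : 0 ≤ τ := by linarith
  rw [Set.mem_ofPred_eq] at hg ⊢
  exact lt_of_le_of_lt (by gcongr) hg

lemma Slow.mono {β : ℝ} {Φ : B.Ob} {a a' : ℝ} (h : Slow β Φ a) (ha : a ≤ a') : Slow β Φ a' := by
  intro e he
  obtain ⟨τ, h1, c, hc, h2⟩ := h e he
  exact ⟨τ, h1, c, hc, h2.mono fun n hn => hn.trans (measure_mono fun g hg => ⟨hg.1, hg.2.trans
    (mul_le_mul_of_nonneg_right (by linarith) (hc.le.trans hg.1))⟩)⟩

instance : IsProbabilityMeasure (disorderLaw n) :=
  inferInstanceAs (IsProbabilityMeasure (Crest.ProbabilityR.SpinGlassDynamics.couplingLaw false n))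

lemma whp_real {P : ∀ n, (Pair n → ℝ) → Prop} (h : Whp disorderLaw P) {ε : ℝ} (hε : 0 < ε) :
    ∀ᶠ n in atTop, (disorderLaw n).real {g | ¬ P n g} ≤ ε :=
  (h.real.eventually (gt_mem_nhds hε)).mono fun _ hn => hn.le

lemma ofReal_le {S : Set (Pair n → ℝ)} {η : ℝ} (h : (disorderLaw n).real S ≤ η) :
    disorderLaw n S ≤ ENNReal.ofReal η :=
  (ofReal_measureReal (measure_ne_top _ _)).symm.trans_le (ENNReal.ofReal_le_ofReal h)

lemma poin {β : ℝ} (hP : Top.PoinHi) (h0 : 0 ≤ β) (h1 : β < 1) : ∃ C > (0 : ℝ),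
    Whp disorderLaw fun n g => Poin (gibbsWeight n β g) C := by
  obtain ⟨C, h⟩ := hP β h0 h1
  exact ⟨max C 1, by positivity, h.imp fun n g hg f => (hg f).trans (mul_le_mul_of_nonneg_right
    (le_max_left _ _) (dir_nn (E.gibbsWeight_pos β g) f))⟩

lemma pos (hP : Top.PoinHi) : PosStmt := by
  intro β h0 h1
  obtain ⟨C, C0, hC⟩ := poin hP h0 h1
  refine ⟨1 / (2 * C), by positivity, fun Φ ⟨Ψ, B, w1, w2, _⟩ δ hδ η hη => ?_⟩
  obtain ⟨τ, t1, t2⟩ := (ev_exp (exp (2 / C) * (C * B)) hδ (show 0 < 1 / C by positivity)).exists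
  refine ⟨τ, t1, ?_⟩
  filter_upwards [whp_real (w1.and hC) hη, w2, eventually_gt_atTop 0] with n hn h2 n0
  refine ofReal_le (le_trans (measureReal_mono fun g hg => ?_) hn)
  rintro ⟨⟨c, hc⟩, hp⟩
  have hw := E.gibbsWeight_pos β g
  rw [Set.mem_ofPred_eq, funext hc, (shift n0 hw τ c _).1] at hg
  have a1 := (ineq n0 hw (Ψ n g) t1 le_rfl).2.2.1.trans
    (Chain22.var_sg_le n0 hw C0 hp (Ψ n g) (sub_nonneg.2 t1))
  have a2 := (hp (Ψ n g)).trans (mul_le_mul_of_nonneg_left (h2.2 g) C0.le)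
  have a3 := mul_le_mul_of_nonneg_right t2 (exp_pos (-(1 / C * τ))).le
  have e : exp (-(2 / C * (τ - 1))) = exp (2 / C) * exp (-(1 / C * τ)) * exp (-(1 / C * τ)) := by
    rw [← exp_add, ← exp_add]; congr 1; ring
  rw [show 2 * (1 / (2 * C)) * τ = 1 / C * τ by field_simp] at hg
  have a4 := mul_le_mul_of_nonneg_left a2 (exp_pos (-(2 / C * (τ - 1)))).le
  rw [e] at a1 a4
  linarith

lemma di (hL : Lr2Stmt) (hP : Top.PoinHi) : DiStmt := by
  rintro β h0 h1 Φ ⟨Ψ, B0, w1, w2, hk⟩ a ha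
  obtain ⟨C, C0, hC⟩ := poin hP h0 h1
  choose! k hk using hk
  set B := max B0 1 with hB
  have B0' : 0 < B := by positivity
  have bd : ∀ τ ≥ (1 : ℝ), ∀ᶠ n in atTop, Measurable (kk β Ψ τ n) ∧
      (∀ g, 0 ≤ kk β Ψ τ n g ∧ kk β Ψ τ n g ≤ B) ∧
      Integrable (fun g => LR false n β g * kk β Ψ τ n g) (disorderLaw n) := fun τ hτ => by
    filter_upwards [w2, eventually_gt_atTop 0] with n h n0
    have h3 : ∀ g, 0 ≤ kk β Ψ τ n g ∧ kk β Ψ τ n g ≤ B := fun g =>
      ⟨k2_nn (E.gibbsWeight_pos β g) _, by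
        have := (ineq n0 (E.gibbsWeight_pos β g) (Ψ n g) hτ le_rfl).1
        simp only [ne_eq, OfNat.ofNat_ne_zero, not_false_eq_true, zero_pow, zero_mul, mul_zero,
          neg_zero, exp_zero, one_mul, zero_add] at this
        exact this.trans ((h.2 g).trans (le_max_left B0 1))⟩
    exact ⟨meas_kk β τ h.1, h3, (Pl.integrable_LR false β).mul_bdd
      (meas_kk β τ h.1).aestronglyMeasurable (c := B) (ae_of_all _ fun g => by
        rw [Real.norm_of_nonneg (h3 g).1]; exact (h3 g).2)⟩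
  by_cases hA : ∀ δ > (0 : ℝ), ∃ τ ≥ (1 : ℝ), k τ ≤ δ * exp (-(2 * a * τ))
  · refine Or.inl fun δ hδ η hη => ?_
    obtain ⟨η', η0, hη'⟩ := Pl.tight_LR false h0 h1 (show 0 < η / 3 by positivity)
    obtain ⟨τ, t1, t2⟩ := hA (η' * δ / C * (η / 6)) (by positivity)
    refine ⟨τ, t1, ?_⟩
    set u := η' * δ / C * exp (-(2 * a * τ)) with hu
    have u0 : 0 < u := by positivity
    filter_upwards [whp_real (w1.and hC) (show 0 < η / 3 by positivity), bd τ t1,
      (hk τ (by linarith)).eventually (gt_mem_nhds (show k τ < u * (η / 3) by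
        have : 0 < u * (η / 6) := by positivity
        rw [hu] at this ⊢; linarith)), eventually_gt_atTop 0] with n a1 ⟨_, a2, a3⟩ a4 n0
    have a5 := (mul_meas_ge_le_integral_of_nonneg (ae_of_all _ fun g =>
      mul_nonneg (Pl.LR_pos false β g).le (a2 g).1) a3 u).trans a4.le
    have a6 := le_of_mul_le_mul_left a5 u0
    refine ofReal_le (le_trans (measureReal_mono (s₂ := ({g | ¬ ((∃ c, ∀ x, Φ n g x = Ψ n g x + c) ∧
      Poin (gibbsWeight n β g) C)} ∪ {g | LR false n β g < η'}) ∪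
        {g | u ≤ LR false n β g * kk β Ψ τ n g}) fun g hg => ?_) ((measureReal_union_le _ _).trans
          ((add_le_add (measureReal_union_le _ _) le_rfl).trans ?_)))
    · by_contra hc
      simp only [Set.mem_union, Set.mem_ofPred_eq, not_or, not_not, not_lt, not_le] at hc
      obtain ⟨⟨⟨⟨c, hc⟩, hp⟩, b1⟩, b2⟩ := hc
      have hw := E.gibbsWeight_pos β g
      rw [Set.mem_ofPred_eq, funext hc, (shift n0 hw τ c _).1] at hg
      have b3 := (ineq n0 hw (Ψ n g) t1 le_rfl).2.2.2 C C0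
      have b4 := hp (sg (gibbsWeight n β g) τ (Ψ n g))
      have b5 : dir (gibbsWeight n β g) (sg (gibbsWeight n β g) τ (Ψ n g)) ≤ C * kk β Ψ τ n g :=
        le_of_mul_le_mul_left (by unfold kk; unfold k2 at b3; linarith) C0
      have b6 := (mul_le_mul_of_nonneg_right b1 (a2 g).1).trans_lt b2
      rw [hu, div_mul_eq_mul_div, lt_div_iff₀ C0] at b6
      nlinarith [mul_lt_mul_of_pos_left (hg.trans_le b5) η0]
    · have := hη' n
      change (disorderLaw n).real _ ≤ _ at this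
      linarith
  refine Or.inr fun e he => ?_
  push Not at hA
  obtain ⟨δ, hδ, hA⟩ := hA
  obtain ⟨C2, hC2⟩ := hL β h0 h1
  set σ := a + e / 2 with hσ
  have σ0 : 0 < σ := by positivity
  obtain ⟨τ, ⟨t1, t2⟩, -, t3⟩ := ((ev_exp (exp (2 * σ) * B) (show 0 < δ / 4 by positivity) he).and
    (ev_exp B (show 0 < e / 2 * (δ / 4 / σ ^ 2) by positivity) he)).exists
  set u := δ / 2 * exp (-(2 * a * τ)) with hu
  have u0 : 0 < u := by positivity
  set C3 := max C2 1 with hC3
  have C30 : 0 < C3 := by positivity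
  set θ := u / (2 * B * C3) with hθ
  have θ0 : 0 < θ := by positivity
  set c := min (u * θ / B) (u / 2 / σ ^ 2) with hc
  have c0 : 0 < c := by positivity
  refine ⟨τ, t1, c, c0, ?_⟩
  filter_upwards [whp_real w1 c0, bd τ t1, (hk τ (by linarith)).eventually (lt_mem_nhds (hA τ t1)),
    w2, eventually_gt_atTop 0] with n a1 ⟨a0, a2, a3⟩ a4 a5 n0
  have hm : MeasurableSet {g | u < kk β Ψ τ n g} := measurableSet_lt measurable_const a0
  have i1 : Integrable (LR false n β) (disorderLaw n) := Pl.integrable_LR false β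
  have i2 : Integrable ({g | u < kk β Ψ τ n g}.indicator fun _ => (1 : ℝ)) (disorderLaw n) :=
    (integrable_const _).indicator hm
  have b1 := integral_mono a3 (((i1.const_mul u).add ((hC2 n).1.const_mul (B * θ))).add
    (i2.const_mul (B / (4 * θ)))) fun g => by
      have := (Pl.LR_pos (n := n) false β g).le
      simp only [Pi.add_apply]
      by_cases hg : u < kk β Ψ τ n g
      · rw [Set.indicator_of_mem (show g ∈ {g | u < kk β Ψ τ n g} from hg)]
        have q1 : LR false n β g ≤ θ * LR false n β g ^ 2 + 1 / (4 * θ) := by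
          rw [← sub_nonneg, show θ * LR false n β g ^ 2 + 1 / (4 * θ) - LR false n β g =
            (2 * θ * LR false n β g - 1) ^ 2 / (4 * θ) by field_simp; ring]
          positivity
        have q2 := mul_le_mul_of_nonneg_left q1 B0'.le
        have q3 := mul_le_mul_of_nonneg_left (a2 g).2 this
        have q4 := mul_nonneg u0.le this
        rw [mul_add, mul_one_div] at q2
        linarith
      · rw [Set.indicator_of_notMem (show g ∉ {g | u < kk β Ψ τ n g} from hg)]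
        have q3 := mul_le_mul_of_nonneg_left (not_lt.1 hg) this
        have q4 : 0 ≤ B * θ * LR false n β g ^ 2 := by positivity
        linarith
  have e1 : ∫ g, LR false n β g ∂disorderLaw n = 1 := Pl.integral_LR false β
  rw [integral_add' ((i1.const_mul u).add ((hC2 n).1.const_mul _)) (i2.const_mul _),
    integral_add' (i1.const_mul u) ((hC2 n).1.const_mul _), integral_const_mul,
    integral_const_mul, integral_const_mul, e1, integral_indicator_const _ hm, smul_eq_mul, mul_one,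
    mul_one] at b1
  have b2 : B * θ * ∫ g, LR false n β g ^ 2 ∂disorderLaw n ≤ u / 2 :=
    (mul_le_mul_of_nonneg_left ((hC2 n).2.trans (le_max_left _ 1)) (by positivity)).trans_eq (by
      rw [hθ, ← hC3]; field_simp)
  have b3 : 2 * c ≤ (disorderLaw n).real {g | u < kk β Ψ τ n g} := by
    have q : u / 2 ≤ B / (4 * θ) * (disorderLaw n).real {g | u < kk β Ψ τ n g} := by
      rw [hu] at b1 b2 ⊢; linarith
    rw [div_mul_eq_mul_div, le_div_iff₀ (by positivity)] at q
    have q2 := min_le_left (u * θ / B) (u / 2 / σ ^ 2)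
    rw [← hc, le_div_iff₀ B0'] at q2
    exact le_of_mul_le_mul_left (by linarith) B0'
  rw [← ofReal_measureReal (measure_ne_top _ _)]
  refine ENNReal.ofReal_le_ofReal (le_of_add_le_add_right (a := c) ((two_mul c).ge.trans
    (b3.trans ((measureReal_mono fun g hg => ?_).trans ((measureReal_union_le _ _).trans
      (add_le_add le_rfl a1))))))
  refine or_iff_not_imp_right.2 fun hc' => ?_
  obtain ⟨c', hc'⟩ := not_not.1 hc'
  have hw := E.gibbsWeight_pos β g
  rw [Set.mem_ofPred_eq, funext hc', (shift n0 hw τ c' _).1, (shift n0 hw τ c' _).2.1]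
  obtain ⟨d1, d2, -⟩ := ineq n0 hw (Ψ n g) t1 σ0.le
  have d3 := (a5.2 g).trans (le_max_left B0 1)
  have e2 : exp (-(2 * τ * σ)) = exp (-(e * τ)) * exp (-(2 * a * τ)) := by
    rw [← exp_add, hσ]; congr 1; ring
  have e3 : exp (-(2 * (τ - 1) * σ)) = exp (2 * σ) * exp (-(e * τ)) * exp (-(2 * a * τ)) := by
    rw [← exp_add, ← exp_add, hσ]; congr 1; ring
  have x0 := exp_pos (-(2 * a * τ))
  have d4 := mul_le_mul_of_nonneg_left d3 (exp_pos (-(2 * (τ - 1) * σ))).le
  have d5 := mul_le_mul_of_nonneg_left d3 (exp_pos (-(2 * τ * σ))).le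
  have d6 := mul_le_mul_of_nonneg_right t2 x0.le
  have d7 := mul_le_mul_of_nonneg_right t3 x0.le
  rw [e3] at d1 d4
  rw [e2] at d2 d5
  have d8 : u / 2 / σ ^ 2 ≤ var (gibbsWeight n β g) (sg (gibbsWeight n β g) τ (Ψ n g)) := by
    rw [div_le_iff₀ (by positivity)]
    have : u < k2 (gibbsWeight n β g) (sg (gibbsWeight n β g) τ (Ψ n g)) := hg
    rw [hu] at this ⊢; linarith
  refine ⟨(min_le_right _ _).trans d8, ?_⟩
  have d9 := mul_le_mul_of_nonneg_left d8 (half_pos he).le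
  rw [show e / 2 * (u / 2 / σ ^ 2) = e / 2 * (δ / 4 / σ ^ 2) * exp (-(2 * a * τ)) by
    rw [hu]; ring] at d9
  rw [show a + e = σ + e / 2 by rw [hσ]; ring]
  linarith

end Di23

theorem diGlue : DiGlue := fun hL hP => ⟨Di23.di hL hP, Di23.pos hP⟩

open Di23 in
theorem outGlue : OutGlue := by
  intro hD hP hU hE hL β h0 h1 𝓕 l hl hF hR
  obtain ⟨a0, a00, ha0⟩ := hP β h0 h1
  set S : Set ℝ := {a | a ≤ l ∧ ∀ Φ ∈ 𝓕, Dc β Φ a} with hS
  have m0 : min a0 l ∈ S := ⟨min_le_right _ _, fun Φ hΦ =>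
    Dc.anti (ha0 Φ (hF Φ hΦ)) (min_le_left _ _)⟩
  have bd : BddAbove S := ⟨l, fun a ha => ha.1⟩
  have s0 : 0 < sSup S := (lt_min a00 hl).trans_le (le_csSup bd m0)
  refine ⟨sSup S, s0, csSup_le ⟨_, m0⟩ fun a ha => ha.1, ?_, fun hlt => hL β _ h0 h1
    (hU β h0 h1 𝓕 _ s0.le hR fun e he => ?_)⟩
  · rintro _ ⟨Φ, hΦ, rfl⟩ a ha hlt
    obtain ⟨a', h2, h3⟩ := exists_lt_of_lt_csSup ⟨_, m0⟩ hlt
    exact hE β h0 h1 Φ (fun c hc => (hR c hc).imp fun c' h => ⟨h.1, h.2 Φ hΦ⟩) a ha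
      (Dc.anti (h2.2 Φ hΦ) h3.le)
  · have h2 : sSup S < min (sSup S + e) l := lt_min (by linarith) hlt
    have h3 : ¬ ∀ Φ ∈ 𝓕, Dc β Φ (min (sSup S + e) l) := fun h =>
      h2.not_ge (le_csSup bd ⟨min_le_right _ _, h⟩)
    push Not at h3
    obtain ⟨Φ, hΦ, h4⟩ := h3
    exact ⟨Φ, hΦ, Slow.mono ((hD β h0 h1 Φ (hF Φ hΦ) _ (s0.trans h2).le).resolve_left h4)
      (min_le_left _ _)⟩

end Crest.Agent.T157.Lm

end
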