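import Crest.Agent.T157.RnDef_60
import Crest.Agent.T157.ChainMix_22

/-!
# Row 157, block B/S4 (helper10): the realisation under the law of the disorder

`Rn.outGlue : OutGlue`: gauge transformation to the planted model and contiguity.
-/

set_option autoImplicit false

noncomputable section

namespace Crest.Agent.T157.Rn

open MeasureTheory ProbabilityTheory Real Matrix Filter Topology
open Crest.ProbabilityR.SpinGlassDynamics
open Crest.Agent.R238.Gap Crest.Agent.R238.GapPc Crest.Agent.R253.Meh74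
open Crest.Agent.T157.E (Cube gv mean gen dir2 Jmat sv siteM prob)
open Crest.Agent.T157.Tw
open Crest.Agent.T157.Pl (one cmul tau)
open scoped NNReal ENNReal

namespace O10

variable {n m : ℕ}

/-! ### couplings and environments -/

/-- the environment of a coupling vector -/
def emb (g : Pair n → ℝ) : Env n :=
  Sym2.lift ⟨fun i l => √n * Jmat n g i l, fun i l => congrArg _ (E.Jmat_symm g i l)⟩

lemma emb_mk (g : Pair n → ℝ) (i l : Fin n) : emb g s(i, l) = √n * Jmat n g i l := rfl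

/-- equal off the diagonal -/
def Off (ω ω' : Env n) : Prop := ∀ a b, a ≠ b → ω s(a, b) = ω' s(a, b)

lemma sqrt_ne (a : Fin n) : (√n : ℝ) ≠ 0 := (sqrt_pos.2 (by exact_mod_cast a.pos)).ne'

lemma off_emb (ω : Env n) : Off (emb fun p => ω s(p.1.1, p.1.2)) ω := fun a b h => by
  rcases lt_or_gt_of_ne h with h | h
  · rw [emb_mk, E.Jmat_apply_lt _ h, mul_div_cancel₀ _ (sqrt_ne a)]
  · rw [emb_mk, E.Jmat_apply_gt _ h, mul_div_cancel₀ _ (sqrt_ne a), Sym2.eq_swap]

lemma gz_mk (z : Cube n) (ω : Env n) (i l : Fin n) :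
    gz z ω s(i, l) = (if i = l then sg (z i) else sg (z i) * sg (z l)) * ω s(i, l) := rfl

lemma gz_emb (z : Cube n) (g : Pair n → ℝ) : gz z (emb g) = emb (tau z * g) := by
  funext e
  induction e using Sym2.ind with
  | _ i l =>
    rw [gz_mk, emb_mk, emb_mk, Pl.Jmat_gauge, mul_diagonal, diagonal_mul]
    split_ifs with h
    · subst h; simp [E.Jmat_diag]
    · change sg _ * sg _ * _ = _ * (sg _ * _ * sg _); ring

lemma measurable_emb : Measurable (emb : (Pair n → ℝ) → Env n) :=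
  measurable_pi_lambda _ fun e => by
    induction e using Sym2.ind with
    | _ i l => simp only [emb_mk, Jmat]; split_ifs <;> fun_prop

/-! ### gauge covariance, locality -/

lemma sg_sq (s : Bool) : sg s * sg s = 1 := by cases s <;> simp [sg]
lemma abs_sg (s : Bool) : |sg s| = 1 := by cases s <;> simp [sg]
lemma sg_cmul (z σ : Cube n) (i : Fin n) : sg (cmul z σ i) = sg (z i) * sg (σ i) :=
  Pl.spin_cmul z σ i

lemma fl_cmul (z σ : Cube n) (k : Fin n) : fl (cmul z σ) k = cmul z (fl σ k) := by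
  rw [fl, fl, Pl.cmul_update]
  congr 1
  unfold cmul; cases z k <;> cases σ k <;> rfl

lemma hf_gauge (β ρ : ℝ) (I : Finset (Fin n)) (k : Fin n) (z σ : Cube n) (ω : Env n) :
    hf β ρ I k (cmul z σ) (gz z ω) = sg (z k) * hf β ρ I k σ ω := by
  simp only [hf, J, gz_mk, if_true, mul_add, Finset.mul_sum]
  congr 1
  · ring
  · refine Finset.sum_congr rfl fun l hl => ?_
    rw [if_neg (Finset.ne_of_mem_erase hl).symm, sg_cmul]
    linear_combination (β * sg (z k) * (ω s(k, l) / √n) * sg (σ l)) * sg_sq (z l)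

lemma pk_gauge (β ρ : ℝ) (I : Finset (Fin n)) (k : Fin n) (z σ : Cube n) (ω : Env n) :
    pk β ρ I k (cmul z σ) (gz z ω) = pk β ρ I k σ ω := by
  rw [pk, pk, hf_gauge]
  unfold cmul; cases z k <;> cases σ k <;> simp [Tw.hb, sg]

lemma pk_off (β : ℝ) (I : Finset (Fin n)) (k : Fin n) (σ : Cube n) {ω ω' : Env n} (h : Off ω ω') :
    pk β 0 I k σ ω = pk β 0 I k σ ω' := by
  simp only [pk, hf, J, zero_mul]
  rw [Finset.sum_congr rfl fun l hl => by rw [h k l (Finset.ne_of_mem_erase hl).symm]]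

lemma nL_gauge (β ρ : ℝ) (I : Finset (Fin n)) {z : Cube n} {c : ℝ} {F F' : Cube n → ℝ}
    (h : ∀ σ, F' (cmul z σ) = c * F σ) (σ : Cube n) (ω : Env n) :
    nL β ρ I F' (cmul z σ) (gz z ω) = c * nL β ρ I F σ ω := by
  simp only [nL, pk_gauge, fl_cmul, h, Finset.mul_sum]
  exact Finset.sum_congr rfl fun k _ => by ring

lemma Gm_gauge (β ρ : ℝ) (I : Finset (Fin n)) {z : Cube n} {s : Bool} {F F' G G' : Cube n → ℝ}
    (h : ∀ σ, F' (cmul z σ) = sg s * F σ) (h' : ∀ σ, G' (cmul z σ) = sg s * G σ) (σ : Cube n)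
    (ω : Env n) : Gm β ρ I F' G' (cmul z σ) (gz z ω) = Gm β ρ I F G σ ω := by
  simp only [Gm, pk_gauge, fl_cmul, h, h']
  refine Finset.sum_congr rfl fun k _ => ?_
  linear_combination (pk β ρ I k σ ω * ((F σ - F (fl σ k)) * (G σ - G (fl σ k)))) * sg_sq s

lemma odd_gauge {F : CV m} (hF : F ∈ Od m) (z s : Bool) (X : E m) :
    F.1 (z == s) (sg z • X) = sg z * F.1 s X := by
  cases z
  · simpa [sg] using hF s X
  · simp [sg]

/-! ### the heat-bath dynamics of the Gibbs weight -/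

lemma fl_fl (σ : Cube n) (k : Fin n) : fl (fl σ k) k = σ := by simp [fl]

lemma hf_fl (β ρ : ℝ) (I : Finset (Fin n)) (k : Fin n) (σ : Cube n) (ω : Env n) :
    hf β ρ I k (fl σ k) ω = hf β ρ I k σ ω := by
  simp only [hf]
  rw [Finset.sum_congr rfl fun l hl => by
    rw [fl, Function.update_of_ne (Finset.ne_of_mem_erase hl)]]

lemma w_update (β : ℝ) (g : Pair n → ℝ) (k : Fin n) (σ : Cube n) : ∃ c > (0 : ℝ), ∀ s,
    gibbsWeight n β g (Function.update σ k s) = c * exp (sg s * hf β 0 .univ k σ (emb g)) := by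
  have e : ((β • Jmat n g) *ᵥ sv σ) k = hf β 0 .univ k σ (emb g) := by
    simp only [hf, J, emb_mk, mul_div_cancel_left₀ _ (sqrt_ne k), zero_mul, zero_add, smul_mulVec,
      Pi.smul_apply, smul_eq_mul]
    rw [Finset.sum_erase _ (by simp [E.Jmat_diag])]
    rfl
  refine ⟨gibbsWeight n β g σ * exp (-(sg (σ k) * hf β 0 .univ k σ (emb g))),
    mul_pos (E.gibbsWeight_pos _ _ _) (exp_pos _), fun s => ?_⟩
  rw [E.gibbsWeight_eq_ising, Chain22.ising_update (by rw [transpose_smul, E.Jmat_transpose])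
    (fun i => by simp [E.Jmat_diag]), e, mul_assoc, ← exp_add]
  congr 2
  change (sg _ - sg _) * (_ + 0) = _
  ring

lemma sub_siteM (β : ℝ) (g : Pair n → ℝ) (f : Cube n → ℝ) (k : Fin n) (σ : Cube n) :
    f σ - siteM (gibbsWeight n β g) f k σ = pk β 0 .univ k σ (emb g) * (f σ - f (fl σ k)) := by
  obtain ⟨c, hc, h⟩ := w_update β g k σ
  have e := Function.update_eq_self k σ
  rw [siteM, h, h, pk, fl, Tw.hb, cosh_eq]
  set x := hf β 0 .univ k σ (emb g)
  have := exp_pos x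
  have := exp_pos (-x)
  cases hs : σ k <;> rw [hs] at e <;> simp only [e, sg, Bool.not_true, Bool.not_false, if_true,
    Bool.false_eq_true, if_false, one_mul, neg_mul] <;> field_simp <;> ring

lemma gen_eq (β : ℝ) (g : Pair n → ℝ) (f : Cube n → ℝ) (σ : Cube n) :
    gen (gibbsWeight n β g) f σ = -nL β 0 .univ f σ (emb g) := by
  simp only [gen, nL, ← sub_siteM, ← Finset.sum_neg_distrib, neg_sub]

lemma pk_fl (β : ℝ) (k : Fin n) (σ : Cube n) (ω : Env n) :
    pk β 0 .univ k (fl σ k) ω = 1 - pk β 0 .univ k σ ω := by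
  rw [pk, pk, hf_fl, fl, Function.update_self, ← hb_sum (hf β 0 .univ k σ ω)]
  cases σ k <;> simp

lemma rev (β : ℝ) (g : Pair n → ℝ) (k : Fin n) (σ : Cube n) :
    prob (gibbsWeight n β g) (fl σ k) * pk β 0 .univ k (fl σ k) (emb g) =
      prob (gibbsWeight n β g) σ * pk β 0 .univ k σ (emb g) := by
  obtain ⟨c, -, h⟩ := w_update β g k σ
  have e := h (σ k)
  rw [Function.update_eq_self] at e
  rw [pk, pk, hf_fl, prob, prob, fl, h, e, Function.update_self, Bool.not_not, Tw.hb, Tw.hb]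
  ring

lemma dir2_eq (β : ℝ) (g : Pair n → ℝ) (F G : Cube n → ℝ) :
    2 * dir2 (gibbsWeight n β g) F G =
      mean (gibbsWeight n β g) fun σ => Gm β 0 .univ F G σ (emb g) := by
  simp only [dir2, sub_siteM, Gm, SL.mean_sum, Finset.mul_sum (s := (.univ : Finset (Fin n)))]
  refine Finset.sum_congr rfl fun k _ => ?_
  rw [two_mul, mean]
  nth_rewrite 1 [← Equiv.sum_comp (Function.Involutive.toPerm (fl · k) (fl_fl · k))]
  rw [← Finset.sum_add_distrib]
  refine Finset.sum_congr rfl fun σ _ => ?_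
  change prob _ (fl σ k) * (pk β 0 .univ k (fl σ k) _ * (F (fl σ k) - F (fl (fl σ k) k)) *
    (pk β 0 .univ k (fl σ k) _ * (G (fl σ k) - G (fl (fl σ k) k)))) + _ = _
  rw [fl_fl]
  linear_combination (pk β 0 .univ k (fl σ k) (emb g) * ((F σ - F (fl σ k)) * (G σ - G (fl σ k)))) *
    rev β g k σ + (prob (gibbsWeight n β g) σ * pk β 0 .univ k σ (emb g) *
      ((F σ - F (fl σ k)) * (G σ - G (fl σ k)))) * pk_fl β k σ (emb g)

/-! ### transfer -/

lemma int_pow {Ω : Type} [MeasurableSpace Ω] {P : Measure Ω} {f : Ω → ℝ} (hf : Measurable f) {q : ℕ}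
    (hq : q ≠ 0) {C : ℝ≥0} {a : ℝ} (h : eLpNorm f q P ≤ C * ‖a‖ₑ) :
    Integrable (fun ω => |f ω| ^ q) P ∧ ∫ ω, |f ω| ^ q ∂P ≤ (C * |a|) ^ q := by
  have hm : MemLp f q P := ⟨hf.aestronglyMeasurable, h.trans_lt (by finiteness)⟩
  refine ⟨hm.integrable_norm_pow hq, ?_⟩
  rw [hm.eLpNorm_eq_integral_rpow_norm (by simpa) (by simp), ← ofReal_norm,
    ← ENNReal.ofReal_coe_nnreal, ← ENNReal.ofReal_mul C.coe_nonneg,
    ENNReal.ofReal_le_ofReal_iff (by positivity), ENNReal.toReal_natCast,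
    rpow_inv_le_iff_of_pos (integral_nonneg fun _ => by positivity) (by positivity)
      (by positivity)] at h
  simpa using h

/-- the index of site `i` -/
def tt (i : Fin n) : Ix n := ⟨.univ, one n, i, i, i⟩

lemma big_tt (i : Fin n) : Big 0 (tt i).I := by simp [Big, tt]

theorem transfer (hM : MpStmt) {β : ℝ} (h0 : 0 ≤ β) (h1 : β < 1)
    {A : ∀ n, Fin n → Cube n → Env n → ℝ} {q : ℕ} (hq : q ≠ 0)
    (hg : ∀ n i z σ ω, |A n i (cmul z σ) (gz z ω)| = |A n i σ ω|)
    (hl : ∀ n i σ ω ω', Off ω ω' → A n i σ ω = A n i σ ω')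
    {P : ∀ n, Ix n → Prop} {Z : ∀ n, Ix n → Env n → ℝ} (ho : Oo (PP β 0) P Z)
    (hP : ∀ n i, P n (tt i)) (hZ : ∀ n i ω, Z n (tt i) ω = A n i (one n) ω) {ε : ℝ} (hε : 0 < ε) :
    Top.Whp disorderLaw fun n g =>
      mean (gibbsWeight n β g) (fun σ => (∑ i, |A n i σ (emb g)| ^ q) / n) ≤ ε := by
  obtain ⟨d, hd, hm, hq'⟩ := ho
  obtain ⟨C, hC⟩ := hq' q
  have hd' : Tendsto (fun n => (C * |d n|) ^ q) atTop (𝓝 0) := by
    simpa [hq] using (hd.abs.const_mul (C : ℝ)).pow q
  refine Top.whp_iff.2 fun δ hδ => ?_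
  obtain ⟨η, hη, hL⟩ := Pl.tight_LR false h0 h1 (half_pos hδ)
  filter_upwards [hC, (tendsto_order.1 hd').2 (δ / 2 * (ε * η)) (by positivity),
    eventually_gt_atTop 0] with n hn hs hn0
  have hA : ∀ i, Measurable (A n i (one n)) := fun i => funext (hZ n i) ▸ hm n (tt i)
  have hI := fun i => int_pow (hA i) hq (funext (hZ n i) ▸ hn _ (hP n i))
  set G : (Pair n → ℝ) → ℝ := fun ξ => (∑ i, |A n i (one n) (emb ξ)| ^ q) / n with hG
  have mG : Measurable G := (Finset.measurable_sum _ fun i _ =>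
    ((hA i).comp measurable_emb).abs.pow_const q).div_const _
  have eG : ∀ ω : Env n, G (fun p => ω s(p.1.1, p.1.2)) = (∑ i, |A n i (one n) ω| ^ q) / n :=
    fun ω => by simp only [hG, hl n _ _ _ _ (off_emb ω)]
  have mp := (hM β 0 n).2
  have iG : Integrable G (Pl.pl false n β) := by
    rw [← mp.integrable_comp mG.aestronglyMeasurable]
    simp only [Function.comp_def, eG]
    exact (integrable_finsetSum _ fun i _ => (hI i).1).div_const _
  have bG : ∫ ξ, G ξ ∂Pl.pl false n β ≤ δ / 2 * (ε * η) := by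
    rw [← mp.map_eq, integral_map mp.measurable.aemeasurable mG.aestronglyMeasurable]
    simp only [eG]
    rw [integral_div, integral_finsetSum _ fun i _ => (hI i).1, div_le_iff₀ (by positivity)]
    refine (Finset.sum_le_sum fun i _ => (hI i).2.trans hs.le).trans_eq ?_
    simp [mul_comm]
  have key := Pl.transfer_mean_inv false β
    (F := fun σ g => (∑ i, |A n i σ (emb g)| ^ q) / n) (G := G) (fun _ _ => by positivity)
    (fun x ξ => by
      simp only [hG, ← gz_emb, ← hg n _ x (one n), Pl.cmul_one]) iG hε hη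
  rw [← ENNReal.ofReal_toReal (measure_ne_top _ _)]
  refine ENNReal.ofReal_le_ofReal ((measureReal_mono fun g hg => (not_le.1 hg).le).trans
    (key.trans ?_))
  linarith [hL n, (div_le_iff₀ (mul_pos hε hη)).2 bG]

section net
variable {β : ℝ} {X : Fm m} (hX : Net β 0 X)
include hX

lemma X_off (n : ℕ) (i : Fin n) (σ : Cube n) {ω ω' : Env n} (h : Off ω ω') :
    X n .univ i σ ω = X n .univ i σ ω' :=
  hX.loc n _ i σ σ ω ω' (Finset.mem_univ _) (fun _ _ => rfl) fun a _ b _ hab =>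
    h a b (hab.resolve_right (by simp))

lemma ph_gauge {F : CV m} (hF : F ∈ Od m) (n : ℕ) (i : Fin n) (z σ : Cube n) (ω : Env n) :
    F.1 (cmul z σ i) (X n .univ i (cmul z σ) (gz z ω)) = sg (z i) * F.1 (σ i) (X n .univ i σ ω) := by
  rw [hX.gau]; exact odd_gauge hF _ _ _

lemma sX_gauge (n : ℕ) (i : Fin n) (z σ : Cube n) (ω : Env n) :
    sg (cmul z σ i) • X n .univ i (cmul z σ) (gz z ω) = sg (σ i) • X n .univ i σ ω := by
  rw [hX.gau, smul_smul, sg_cmul, mul_right_comm, sg_sq, one_mul]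

end net

lemma abs_mean_le {w f : Cube n → ℝ} (hw : SL.Wt w) : |mean w f| ≤ mean w fun σ => |f σ| :=
  abs_le.2 ⟨by rw [← SL.mean_neg]; exact hw.mean_mono fun _ => neg_abs_le _,
    hw.mean_mono fun _ => le_abs_self _⟩

theorem lln (hM : MpStmt) {β : ℝ} (h0 : 0 ≤ β) (h1 : β < 1) {b : Bath} {X : Fm b.m}
    (hX : Net β 0 X) (hL : Lln β 0 b X) {φ : E b.m → ℝ} (hφ : Tm 1 φ) {ε : ℝ} (hε : 0 < ε) :
    Top.Whp disorderLaw fun n g => |(∑ i, mean (gibbsWeight n β g) fun σ =>
      φ (sg (σ i) • X n .univ i σ (emb g))) / n - ∫ z, φ (z + b.v) ∂gam b.m| ≤ ε := by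
  refine (transfer hM h0 h1 (A := fun n _ σ ω => (∑ l, φ (sg (σ l) • X n .univ l σ ω)) / n -
    ∫ z, φ (z + b.v) ∂gam b.m) one_ne_zero (fun n i z σ ω => by simp only [sX_gauge hX])
    (fun n i σ ω ω' h => by simp only [X_off hX n _ _ h]) (hL φ hφ 0) (fun _ => big_tt)
    (fun n i ω => by simp [tt, Pl.one, sg]) hε).mono ?_
  filter_upwards [eventually_gt_atTop 0] with n hn g hg
  have hw := Pl.wt_gibbs β g
  rw [← SL.mean_sum, ← SL.mean_div_const, ← hw.mean_const (∫ z, _ ∂_), ← SL.mean_sub]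
  refine (abs_mean_le hw).trans (le_of_eq_of_le ?_ hg)
  have : (n : ℝ) ≠ 0 := by positivity
  simp [this]

end O10

open O10

theorem outGlue : OutGlue := by
  intro hM hS hMo hR β h0 h1 b U hT
  obtain ⟨X, hX⟩ := hR β 0 b U hT
  have hN := hX.x0.net
  refine ⟨fun n g i σ => X n .univ i σ (emb g), fun n g i σ => ?_,
    fun F hF G hG sF sG ε hε => ?_, fun F hF G hG sF sG ε hε => ?_,
    fun F hF G hG sF uF hA ε hε => ?_⟩
  · have := hN.gau n .univ i σ (fun _ => false) (emb g)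
    rw [gz_emb, show tau (fun _ : Fin n => false) = 1 by funext p; simp [tau, spin], one_mul,
      show cmul (fun _ => false) σ = fun k => !σ k by funext k; simp [cmul]] at this
    simpa [sg] using this
  · rw [((hMo b F hF).2.2 G hG).1]
    refine (lln hM h0 h1 hN hX.lln (hS.mul _ 1 _ _ (sF true 1) (sG true 1)) hε).imp fun n g hg => ?_
    refine le_of_eq_of_le ?_ hg
    congr 3
    refine Finset.sum_congr rfl fun i _ => congrArg _ (funext fun σ => ?_)
    have a := odd_gauge hF (σ i) (σ i) (X n .univ i σ (emb g))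
    have a' := odd_gauge hG (σ i) (σ i) (X n .univ i σ (emb g))
    rw [beq_self_eq_true] at a a'
    rw [a, a', mul_mul_mul_comm, sg_sq, one_mul]
  · have l1 := lln hM h0 h1 hN hX.lln (hS.gm b 1 F.1 G.1 (sF · 2) (sG · 2)) hε
    have l2 := transfer hM h0 h1 (A := fun n i σ ω =>
      Gm β 0 .univ (fun σ => F.1 (σ i) (X n .univ i σ ω)) (fun σ => G.1 (σ i) (X n .univ i σ ω)) σ ω -
        gm b F.1 G.1 (sg (σ i) • X n .univ i σ ω)) one_ne_zero
      (fun n i z σ ω => by
        simp only [sX_gauge hN]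
        rw [Gm_gauge β 0 _ (ph_gauge hN hF n i z · ω) (ph_gauge hN hG n i z · ω)])
      (fun n i σ ω ω' h => by simp only [Gm, X_off hN n _ _ h, pk_off β _ _ _ h])
      (hX.gam F.1 G.1 (sF · 2) (sG · 2) 0).1 (fun _ i => ⟨big_tt i, Finset.mem_univ _⟩)
      (fun n i ω => by simp [tt, Pl.one, sg]) hε
    refine (l1.and l2).imp fun n g ⟨a1, a2⟩ => ?_
    have hw := Pl.wt_gibbs β g
    rw [← ((hMo b F hF).2.2 G hG).2] at a1
    simp only [pow_one, SL.mean_div_const, SL.mean_sum] at a2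
    have a3 := (div_le_div_of_nonneg_right ((Finset.abs_sum_le_sum_abs _ _).trans
      (Finset.sum_le_sum fun i _ => abs_mean_le hw)) (Nat.cast_nonneg n)).trans a2
    simp only [SL.mean_sub, ← dir2_eq, Finset.sum_sub_distrib, ← Finset.mul_sum] at a3
    rw [← Nat.abs_cast n, ← abs_div, sub_div, mul_div_assoc, abs_le] at a3
    rw [abs_le] at a1 ⊢
    constructor <;> linarith [a1.1, a1.2, a3.1, a3.2]
  · refine (transfer hM h0 h1 (A := fun n i σ ω =>
      nL β 0 .univ (fun σ => F.1 (σ i) (X n .univ i σ ω)) σ ω - G.1 (σ i) (X n .univ i σ ω))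
      two_ne_zero
      (fun n i z σ ω => by
        rw [nL_gauge β 0 _ (ph_gauge hN hF n i z · ω), ph_gauge hN hG, ← mul_sub, abs_mul, abs_sg,
          one_mul])
      (fun n i σ ω ω' h => by simp only [nL, X_off hN n _ _ h, pk_off β _ _ _ h])
      (hX.gen F.1 (sF · 3) uF 0) (fun _ i => ⟨big_tt i, Finset.mem_univ _⟩)
      (fun n i ω => by rw [hA]; rfl) hε).imp fun n g hg => ?_
    simp only [sq_abs, SL.mean_div_const, SL.mean_sum] at hg
    convert hg using 5 with i _ σ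
    rw [gen_eq]; ring

end Crest.Agent.T157.Rn

end
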