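import Crest.Agent.T157.HmB_3
import Crest.Agent.T157.RnOut_10
import Crest.Agent.T157.RegColG_70
import Crest.Agent.T157.BDef_95

/-!
# Row 157, block B/S5 (helper76): limits of collective correlation functions

Planted gauge.  See `docs/T157_B_S5L.md`.
-/

set_option autoImplicit false

noncomputable section

namespace Crest.Agent.T157.Lm

open MeasureTheory Real Filter Topology Finset
open Crest.ProbabilityR.SpinGlassDynamics (Pair disorderLaw gibbsWeight)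
open Crest.Agent.R238.Gap (E pd)
open Crest.Agent.R253.Meh74 (gam C1)
open Crest.Agent.T157.E (Cube sv mean gen dir dir2 var prob)
open Crest.Agent.T157.Chain22 (sg hbRC)
open Crest.Agent.T157.Hm (Pl en)
open Crest.Agent.T157.Rn (Tm fl)
open Crest.Agent.T157.Pl (one LR)
open Crest.Agent.T157.Top (Whp)

/-! ### abstract gauge systems -/

/-- `inc k e`: the site `k` belongs to the variable `e`; `α e`: planted mean of the variable `e` -/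
structure GS (m n : ℕ) where
  inc : Fin n → Fin m → Bool
  α : Fin m → ℝ

namespace GS
variable {m n : ℕ} (S : GS m n)

structure Ok (B : ℝ) : Prop where
  pos : 0 < n
  two : ∀ e, (univ.filter fun k => S.inc k e = true).card ≤ 2
  row : ∀ k, ∑ e, (if S.inc k e = true then S.α e ^ 2 else 0) ≤ B

/-- the character of the variable `e` -/
def chi (σ : Cube n) (e : Fin m) : ℝ := ∏ k, if S.inc k e = true then sv σ k else 1
/-- gauge transformation, centred coordinates -/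
def gz (σ : Cube n) (z : E m) : E m := WithLp.toLp 2 fun e => S.chi σ e * (z e + S.α e) - S.α e
/-- Gibbs weight -/
def w (z : E m) (σ : Cube n) : ℝ := exp (∑ e, S.α e * (S.chi σ e * (z e + S.α e)))
/-- a function read along the gauge orbit -/
def orb (F : E m → ℝ) (z : E m) (σ : Cube n) : ℝ := F (S.gz σ z)
/-- flip of row `k` -/
def R (k : Fin n) (z : E m) : E m := S.gz (fl (one n) k) z
/-- local field -/
def h (k : Fin n) (z : E m) : ℝ := ∑ e, if S.inc k e = true then S.α e * (z e + S.α e) else 0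
/-- flip rate -/
def c (k : Fin n) (z : E m) : ℝ := (1 - tanh (S.h k z)) / 2
def D (k : Fin n) (F : E m → ℝ) (z : E m) : ℝ := F (S.R k z) - F z
/-- generator -/
def L (F : E m → ℝ) (z : E m) : ℝ := ∑ k, S.c k z * S.D k F z
/-- one step -/
def P (F : E m → ℝ) (z : E m) : ℝ := F z + S.L F z / n
/-- Dirichlet form -/
def En (F G : E m → ℝ) : ℝ := (∑ k, ∫ z, S.c k z * (S.D k F z * S.D k G z) ∂gam m) / 2
/-- truncated resolvent -/
def Rz (ζ : ℝ) (F : E m → ℝ) (z : E m) : ℝ :=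
  ∑ j ∈ range (n ^ 2), (n / (ζ + n)) ^ j / (ζ + n) * S.P^[j] F z
/-- semigroup -/
def T (t : ℝ) (F : E m → ℝ) (z : E m) : ℝ := sg (S.w z) t (S.orb F z) (one n)
theorem w_pos (z : E m) (σ : Cube n) : 0 < S.w z σ := exp_pos _
/-- `G = ψ (-L) F` along every orbit -/
def Mul (ψ : ℝ → ℝ) (F G : E m → ℝ) : Prop := ∀ (hn : 0 < n) (z : E m) (j : Cube n),
  Chain22.ip (prob (S.w z)) (S.orb G z) ((hbRC hn (S.w_pos z)).φ j) =
    ψ (n * (1 - (hbRC hn (S.w_pos z)).ev j)) *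
      Chain22.ip (prob (S.w z)) (S.orb F z) ((hbRC hn (S.w_pos z)).φ j)
end GS

/-- measurable and square integrable -/
def M2 {m : ℕ} (F : E m → ℝ) : Prop := Measurable F ∧ MemLp F 2 (gam m)
/-- squared norm -/
def sq {m : ℕ} (F : E m → ℝ) : ℝ := ∫ z, F z ^ 2 ∂gam m
/-- second-order energy -/
def en2 {m : ℕ} (F : E m → ℝ) : ℝ := ∑ j, en (pd j F)

/-- reversibility, orbits, contraction -/
structure BasStmt : Prop where
  R_apply : ∀ m n (S : GS m n) k z e, S.R k z e =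
    if S.inc k e = true then -z e - 2 * S.α e else z e
  rev : ∀ m n (S : GS m n) k (F : E m → ℝ), Measurable F → Integrable F (gam m) →
    Integrable (fun z => S.c k z * F (S.R k z)) (gam m) ∧
      ∫ z, S.c k z * F (S.R k z) ∂gam m = ∫ z, S.c k z * F z ∂gam m
  orb : ∀ m n (S : GS m n) (F : E m → ℝ), Measurable F → Integrable F (gam m) →
    Integrable (fun z => mean (S.w z) (S.orb F z)) (gam m) ∧
      ∫ z, mean (S.w z) (S.orb F z) ∂gam m = ∫ z, F z ∂gam m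
  orb_L : ∀ m n (S : GS m n) F z, S.orb (S.L F) z = gen (S.w z) (S.orb F z)
  orb_T : ∀ m n (S : GS m n) t F z, 0 < n → S.orb (S.T t F) z = sg (S.w z) t (S.orb F z)
  m2_L : ∀ m n (S : GS m n) F, M2 F → M2 (S.L F)
  m2_P : ∀ m n (S : GS m n) F, 0 < n → M2 F → M2 (S.P F) ∧ sq (S.P F) ≤ sq F
  m2_Rz : ∀ m n (S : GS m n) ζ F, 0 < n → 0 < ζ → M2 F →
    M2 (S.Rz ζ F) ∧ sq (S.Rz ζ F) ≤ sq F / ζ ^ 2
  m2_T : ∀ m n (S : GS m n) t F, 0 < n → 0 ≤ t → M2 F → M2 (S.T t F) ∧ sq (S.T t F) ≤ sq F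
  int_En : ∀ m n (S : GS m n) k F G, M2 F → M2 G →
    Integrable (fun z => S.c k z * (S.D k F z * S.D k G z)) (gam m)
  en_eq : ∀ m n (S : GS m n) F G, M2 F → M2 G → S.En F G = -∫ z, F z * S.L G z ∂gam m
  en_le : ∀ m n (S : GS m n) F, M2 F → 0 ≤ S.En F F ∧ S.En F F ≤ 2 * n * sq F
  en_cs : ∀ m n (S : GS m n) F G, M2 F → M2 G → S.En F G ^ 2 ≤ S.En F F * S.En G G
  sym_P : ∀ m n (S : GS m n) F G, M2 F → M2 G →
    ∫ z, S.P F z * G z ∂gam m = ∫ z, F z * S.P G z ∂gam m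
  sym_Rz : ∀ m n (S : GS m n) ζ F G, 0 < n → M2 F → M2 G →
    ∫ z, S.Rz ζ F z * G z ∂gam m = ∫ z, F z * S.Rz ζ G z ∂gam m
  res : ∀ m n (S : GS m n) ζ F z, 0 < n → 0 < ζ → ζ * S.Rz ζ F z - S.L (S.Rz ζ F) z =
    F z - (n / (ζ + n)) ^ n ^ 2 * S.P^[n ^ 2] F z

/-- commutator estimates -/
def ComStmt : Prop := ∀ B : ℝ, ∃ C > (0 : ℝ), ∀ m n (S : GS m n), S.Ok B →
  (∀ F, C1 F → S.En F F ≤ 4 * en F) ∧ ∀ ζ, C ≤ ζ → ∀ F, Tm 2 F →
    Tm 2 (S.Rz ζ F) ∧ en (S.Rz ζ F) ≤ en F ∧ en2 (S.Rz ζ F) ≤ en F + en2 F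

/-- polynomials: hypercontractivity, Bernstein inequalities, flips -/
structure HypStmt : Prop where
  four : ∀ D, ∃ C > (0 : ℝ), ∀ m, ∀ f ∈ Pl m D, ∫ z, f z ^ 4 ∂gam m ≤ C * sq f ^ 2
  bern : ∀ D m, ∀ f ∈ Pl m D, Tm 2 f ∧ en f ≤ D * sq f ∧ en2 f ≤ D ^ 2 * sq f
  flip : ∀ D m n (S : GS m n) k, ∀ f ∈ Pl m D, S.D k f ∈ Pl m D
  low : ∀ D (B : ℝ), ∃ C > (0 : ℝ), ∀ m n (S : GS m n), S.Ok B → ∀ k, ∀ f ∈ Pl m D,
    sq f ≤ C * ∫ z, S.c k z * f z ^ 2 ∂gam m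
  lip : ∀ m (F : E m → ℝ) (B : ℝ), (∀ z z', |F z - F z'| ≤ B * ‖z - z'‖) → ∀ D : ℕ,
    D * sq (fun z => F z - Hm.pr D F z) ≤ B ^ 2

/-! ### germs -/

/-- convergent sequences -/
def Cv (a : ℕ → ℝ) : Prop := ∃ l, Tendsto a atTop (𝓝 l)
/-- generalised polynomials in `n` -/
def GP (a : ℕ → ℝ) : Prop :=
  ∃ (S : Finset ℝ) (c : ℝ → ℝ), ∀ᶠ n : ℕ in atTop, a n = ∑ s ∈ S, c s * (n : ℝ) ^ s
/-- their quotients -/
def Rt (a : ℕ → ℝ) : Prop :=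
  ∃ p q, GP p ∧ GP q ∧ ∀ᶠ n : ℕ in atTop, q n ≠ 0 ∧ a n = p n / q n

structure RtStmt : Prop where
  const : ∀ c : ℝ, Rt fun _ => c
  rpow : ∀ s : ℝ, Rt fun n => (n : ℝ) ^ s
  sqrt : Rt fun n => √(n : ℝ)
  poly : ∀ p q : Polynomial ℝ, Rt fun n => p.eval (n : ℝ) * q.eval (√(n : ℝ))⁻¹
  add : ∀ a b, Rt a → Rt b → Rt fun n => a n + b n
  mul : ∀ a b, Rt a → Rt b → Rt fun n => a n * b n
  inv : ∀ a, Rt a → Rt fun n => (a n)⁻¹
  sum : ∀ (ι : Type) (S : Finset ι) (a : ι → ℕ → ℝ), (∀ i ∈ S, Rt (a i)) →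
    Rt fun n => ∑ i ∈ S, a i n
  congr : ∀ a b, Rt a → (∀ᶠ n in atTop, a n = b n) → Rt b
  dich : ∀ a, Rt a → (∀ᶠ n in atTop, a n = 0) ∨
    ∃ s κ : ℝ, κ ≠ 0 ∧ Tendsto (fun n : ℕ => a n / (n : ℝ) ^ s) atTop (𝓝 κ)
  cv : ∀ a (B : ℝ), Rt a → (∀ᶠ n in atTop, |a n| ≤ B) → Cv a

/-! ### the SK system with `L` layers of site variables -/

/-- variables -/
abbrev Ix (L n : ℕ) : Type := Sym2 (Fin n) ⊕ Fin L × Fin n
/-- their number -/
abbrev Nv (L n : ℕ) : ℕ := Fintype.card (Ix L n)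
/-- their enumeration -/
def ix (L n : ℕ) : Ix L n ≃ Fin (Nv L n) := Fintype.equivFin _
/-- coordinates -/
def co {L n : ℕ} (z : E (Nv L n)) (e : Ix L n) : ℝ := z (ix L n e)
/-- a point with given coordinates -/
def pt {L n : ℕ} (f : Ix L n → ℝ) : E (Nv L n) := WithLp.toLp 2 fun j => f ((ix L n).symm j)
/-- the system at level `ρ` (`ρ l` = planted mean of the layer `l`) -/
def sk {L : ℕ} (β : ℝ) (ρ : Fin L → ℝ) (n : ℕ) : GS (Nv L n) n where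
  inc k j := match (ix L n).symm j with
    | .inl e => decide (k ∈ e)
    | .inr p => decide (p.2 = k)
  α j := match (ix L n).symm j with
    | .inl e => if e.IsDiag then 0 else β / √n
    | .inr p => ρ p.1
/-- relabelling of the sites -/
def act {L n : ℕ} (p : Equiv.Perm (Fin n)) (z : E (Nv L n)) : E (Nv L n) :=
  pt fun e => co z (Sum.map (Sym2.map p.symm) (Prod.map id p.symm) e)
/-- couplings from `z`, site variables from `z'` -/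
def mix {L n : ℕ} (z z' : E (Nv L n)) : E (Nv L n) :=
  pt fun e => Sum.elim (fun _ => co z e) (fun _ => co z' e) e
/-- the coupling matrix `β J` in the planted gauge -/
def Jm {L : ℕ} (β : ℝ) {n : ℕ} (z : E (Nv L n)) : Matrix (Fin n) (Fin n) ℝ :=
  .of fun i j => if i = j then 0 else β / √n * (co z (.inl s(i, j)) + β / √n)
/-- the truncated coupling matrix -/
def Jt {L : ℕ} (β K : ℝ) {n : ℕ} (z : E (Nv L n)) : Matrix (Fin n) (Fin n) ℝ :=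
  (max 1 (Eig.opn (Jm β z) / K))⁻¹ • Jm β z
/-- the point attached to the couplings `g` -/
def zof (L : ℕ) (β : ℝ) {n : ℕ} (g : Pair n → ℝ) : E (Nv L n) :=
  pt (Sum.elim (fun e => if e.IsDiag then 0 else Rn.O10.emb g e - β / √n) fun _ => 0)

/-- families of functions with roots indexed by `C` -/
abbrev Fam (L : ℕ) (C : Type) : Type := ∀ n, (C → Fin n) → E (Nv L n) → ℝ

variable {L : ℕ}

/-- rational polynomial families -/
inductive RP : (C : Type) → Fam L C → Prop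
  | edge {C : Type} (a b : C) : RP C fun _ x z => co z (.inl s(x a, x b))
  | site {C : Type} (l : Fin L) (a : C) : RP C fun _ x z => co z (.inr (l, x a))
  | eq {C : Type} (a b : C) : RP C fun _ x _ => if x a = x b then 1 else 0
  | const {C : Type} {ρ : ℕ → ℝ} : Rt ρ → RP C fun n _ _ => ρ n
  | add {C : Type} {F G : Fam L C} : RP C F → RP C G → RP C fun n x z => F n x z + G n x z
  | mul {C : Type} {F G : Fam L C} : RP C F → RP C G → RP C fun n x z => F n x z * G n x z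
  | sum {C : Type} {F : Fam L (Option C)} : RP (Option C) F →
      RP C fun n x z => ∑ i, F n (fun o => o.elim i x) z
  | congr {C : Type} {F G : Fam L C} : RP C F → (∀ᶠ n in atTop, F n = G n) → RP C G

section cls
variable {C : Type} [Fintype C] [DecidableEq C]

/-- equivariance -/
def Eqv {n : ℕ} (F : (C → Fin n) → E (Nv L n) → ℝ) : Prop :=
  ∀ (p : Equiv.Perm (Fin n)) x z, F (p ∘ x) (act p z) = F x z
/-- average over the roots -/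
def av {n : ℕ} (a : (C → Fin n) → ℝ) : ℝ := (∑ x, a x) / n ^ Fintype.card C
/-- scalar product -/
def ipx (F G : Fam L C) (n : ℕ) : ℝ := av fun x => ∫ z, F n x z * G n x z ∂gam _
/-- squared norm -/
def n2 (F : Fam L C) (n : ℕ) : ℝ := av fun x => sq (F n x)
/-- admissible -/
def Adm (F : Fam L C) : Prop := ∀ᶠ n in atTop, (∀ x, M2 (F n x)) ∧ Eqv (F n)
/-- bounded -/
def Bd (F : Fam L C) : Prop := ∃ B, ∀ᶠ n in atTop, n2 F n ≤ B
/-- **the limit class** -/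
def Cl (F : Fam L C) : Prop :=
  Adm F ∧ ∀ ε > (0 : ℝ), ∃ q, RP C q ∧ Bd q ∧ ∀ᶠ n in atTop, n2 (F - q) n ≤ ε
/-- the weak class -/
def Wk (F : Fam L C) : Prop := Adm F ∧ Bd F ∧ ∀ q, RP C q → Bd q → Cv (ipx F q)
/-- tight in the degree -/
def Ti (F : Fam L C) : Prop := ∀ ε > (0 : ℝ), ∃ D, ∀ᶠ n in atTop,
  ∃ w : (C → Fin n) → E (Nv L n) → ℝ, (∀ x, w x ∈ Pl _ D) ∧ Eqv w ∧
    av (fun x => sq fun z => F n x z - w x z) ≤ ε
/-- average over the site variables -/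
def EW (F : Fam L C) : Fam L C := fun n x z => ∫ z', F n x (mix z z') ∂gam _
end cls

/-- scalar families -/
abbrev F0 (L : ℕ) : Type := Fam L Empty
/-- rooted families -/
abbrev F1 (L : ℕ) : Type := Fam L Unit
/-- the empty root -/
def x0 (n : ℕ) : Empty → Fin n := Empty.elim
/-- apply an operator of the system -/
def op (β : ℝ) (ρ : Fin L → ℝ) (A : ∀ {m n : ℕ}, GS m n → (E m → ℝ) → E m → ℝ) (F : F0 L) : F0 L :=
  fun n x => A (sk β ρ n) (F n x)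
/-- normalised flip gradient -/
def dF (β : ℝ) (ρ : Fin L → ℝ) (F : F0 L) : F1 L :=
  fun n x z => √n * (sk β ρ n).D (x ()) (F n (x0 n)) z
/-- energy -/
def enx (β : ℝ) (ρ : Fin L → ℝ) (F G : F0 L) (n : ℕ) : ℝ := (sk β ρ n).En (F n (x0 n)) (G n (x0 n))
/-- `F° = F - ζ R_ζ F` -/
def cen (β : ℝ) (ρ : Fin L → ℝ) (ζ : ℝ) (F : F0 L) : F0 L :=
  fun n x z => F n x z - ζ * (sk β ρ n).Rz ζ (F n x) z
/-- truncated couplings applied to a rooted family -/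
def Jv (β K : ℝ) (v : F1 L) : F1 L := fun n x z => ∑ j, Jt β K z (x ()) j * v n (fun _ => j) z

/-- the concrete system -/
structure SkStmt : Prop where
  ok : ∀ L β (ρ : Fin L → ℝ) n, 0 < n → (sk β ρ n).Ok (β ^ 2 + ∑ l, ρ l ^ 2)
  co_pt : ∀ L n (f : Ix L n → ℝ) e, co (pt f) e = f e
  mp : ∀ L n p, MeasurePreserving (act p : E (Nv L n) → _) (gam _) (gam _)
  mp_mix : ∀ L n, MeasurePreserving (fun p : E (Nv L n) × E (Nv L n) => mix p.1 p.2)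
    ((gam _).prod (gam _)) (gam _)
  pl_act : ∀ L n p D, ∀ f ∈ Pl (Nv L n) D, (fun z => f (act p z)) ∈ Pl (Nv L n) D
  R_act : ∀ L β (ρ : Fin L → ℝ) n p k z,
    (sk β ρ n).R (p k) (act p z) = act p ((sk β ρ n).R k z)
  h_eq : ∀ L β (ρ : Fin L → ℝ) n k z, (sk β ρ n).h k z =
    ∑ j, Jm β z k j + ∑ l, ρ l * (co z (.inr (l, k)) + ρ l)
  eqv_P : ∀ L β (ρ : Fin L → ℝ) n (F : (Empty → Fin n) → E (Nv L n) → ℝ), Eqv F →
    Eqv (fun x => (sk β ρ n).L (F x)) ∧ (∀ ζ, Eqv fun x => (sk β ρ n).Rz ζ (F x)) ∧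
      (∀ t, Eqv fun x => (sk β ρ n).T t (F x)) ∧
      Eqv fun (x : Unit → Fin n) z => √n * (sk β ρ n).D (x ()) (F (x0 n)) z
  eqv_pr : ∀ L n (C : Type) [Fintype C] [DecidableEq C] (F : (C → Fin n) → E (Nv L n) → ℝ) D,
    Eqv F → (∀ x, Hm.C0 (F x)) → Eqv fun x => Hm.pr D (F x)
  Jm_act : ∀ L β n p (z : E (Nv L n)) i j, Jm β (act p z) (p i) (p j) = Jm β z i j
  Jm_gz : ∀ L β (ρ : Fin L → ℝ) n σ (z : E (Nv L n)) i j,
    Jm β ((sk β ρ n).gz σ z) i j = sv σ i * sv σ j * Jm β z i j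
  Jt_act : ∀ L β K n p (z : E (Nv L n)) i j, Jt β K (act p z) (p i) (p j) = Jt β K z i j
  Jt_gz : ∀ L β (ρ : Fin L → ℝ) K n σ (z : E (Nv L n)) i j,
    Jt β K ((sk β ρ n).gz σ z) i j = sv σ i * sv σ j * Jt β K z i j
  Jt_lip : ∀ L β K n (z z' : E (Nv L n)), 0 < K → Eig.opn (Jt β K z) ≤ K ∧
    Eig.opn (Jt β K z - Jt β K z') ≤ 4 * |β| / √n * ‖z - z'‖
  Jt_meas : ∀ L β K n i j, Continuous fun z : E (Nv L n) => Jt β K z i j
  tail : ∀ β : ℝ, ∃ K > (0 : ℝ), ∀ L, ∀ p : ℕ, Tendsto (fun n : ℕ => (n : ℝ) ^ p *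
    (gam (Nv L n)).real {z | K < Eig.opn (Jm β z)}) atTop (𝓝 0)

/-- structural facts on rational polynomial families -/
structure RpStmt : Prop where
  reindex : ∀ L (C C' : Type) (σ : C → C') (F : Fam L C), RP C F →
    RP C' fun n x z => F n (x ∘ σ) z
  fsum : ∀ L (C ι : Type) (S : Finset ι) (F : ι → Fam L C), (∀ i ∈ S, RP C (F i)) →
    RP C fun n x z => ∑ i ∈ S, F i n x z
  fprod : ∀ L (C ι : Type) (S : Finset ι) (F : ι → Fam L C), (∀ i ∈ S, RP C (F i)) →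
    RP C fun n x z => ∏ i ∈ S, F i n x z
  smul : ∀ L (C : Type) (ρ : ℕ → ℝ) (F : Fam L C), Rt ρ → RP C F → RP C fun n x z => ρ n * F n x z
  sub : ∀ L (C : Type) (F G : Fam L C), RP C F → RP C G → RP C (F - G)
  sumV : ∀ L (C : Type) (v : ℕ) (F : Fam L (C ⊕ Fin v)), RP (C ⊕ Fin v) F →
    RP C fun n x z => ∑ φ : Fin v → Fin n, F n (Sum.elim x φ) z
  deg : ∀ L (C : Type) (F : Fam L C), RP C F → ∃ D, ∀ᶠ n in atTop, ∀ x, F n x ∈ Pl _ D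
  eqv : ∀ L (C : Type) [Fintype C] [DecidableEq C] (F : Fam L C), RP C F → Adm F
  refl : ∀ L β (ρ : Fin L → ℝ) (C : Type) (a : C) (F : Fam L C), RP C F →
    RP C fun n x z => F n x ((sk β ρ n).R (x a) z)
  dF : ∀ L β (ρ : Fin L → ℝ) (F : F0 L), RP Empty F → RP Unit (dF β ρ F)
  Jm : ∀ L β (C : Type) (a b : C), RP (L := L) C fun _ x z => Jm β z (x a) (x b)
  h : ∀ L β (ρ : Fin L → ℝ), RP Unit fun n x z => (sk β ρ n).h (x ()) z

/-- **rationality** -/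
structure RatStmt : Prop where
  int : ∀ L (C : Type) [Fintype C] [DecidableEq C] (F : Fam L C), RP C F →
    Rt fun n => av fun x => ∫ z, F n x z ∂gam _
  ew : ∀ L (C : Type) [Fintype C] [DecidableEq C] (F : Fam L C), RP C F → RP C (EW F)

/-- equivariant polynomials of bounded degree are spanned by finitely many families -/
def SpanStmt : Prop := ∀ L (C : Type) [Fintype C] [DecidableEq C] (D : ℕ),
  ∃ (ι : Type) (_ : Fintype ι) (e : ι → Fam L C), (∀ j, RP C (e j)) ∧ ∀ n, 0 < n →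
    ∀ w : (C → Fin n) → E (Nv L n) → ℝ, (∀ x, w x ∈ Pl _ D) → Eqv w →
      ∃ a : ι → ℝ, ∀ x z, w x z = ∑ j, a j * e j n x z

/-- an asymptotically orthonormal spanning family -/
def OnStmt : Prop := ∀ L (C : Type) [Fintype C] [DecidableEq C] (D : ℕ),
  ∃ (M : ℕ) (e : Fin M → Fam L C), (∀ j, RP C (e j)) ∧
    (∀ j, Tendsto (n2 (e j)) atTop (𝓝 1)) ∧
    ∀ᶠ n in atTop, (∀ i j, i ≠ j → ipx (e i) (e j) n = 0) ∧
      ∀ w : (C → Fin n) → E (Nv L n) → ℝ, (∀ x, w x ∈ Pl _ D) → Eqv w →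
        ∃ a : Fin M → ℝ, ∀ x z, w x z = ∑ j, a j * e j n x z

/-- linear calculus of the classes -/
structure LinStmt : Prop where
  rp : ∀ L (C : Type) [Fintype C] [DecidableEq C] (q : Fam L C), RP C q → Bd q → Cl q
  wk : ∀ L (C : Type) [Fintype C] [DecidableEq C] (F : Fam L C), Cl F → Wk F ∧ Ti F
  ws : ∀ L (C : Type) [Fintype C] [DecidableEq C] (F : Fam L C), Wk F → Ti F → Cl F
  cv : ∀ L (C : Type) [Fintype C] [DecidableEq C] (F G : Fam L C), Wk F → Cl G → Cv (ipx F G)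
  add : ∀ L (C : Type) [Fintype C] [DecidableEq C] (F G : Fam L C), Cl F → Cl G → Cl (F + G)
  smul : ∀ L (C : Type) [Fintype C] [DecidableEq C] (a : ℕ → ℝ) (F : Fam L C), Cv a → Cl F →
    Cl fun n x z => a n * F n x z
  closed : ∀ L (C : Type) [Fintype C] [DecidableEq C] (F : Fam L C), Adm F →
    (∀ ε > (0 : ℝ), ∃ G, Cl G ∧ ∀ᶠ n in atTop, n2 (F - G) n ≤ ε) → Cl F
  wclosed : ∀ L (C : Type) [Fintype C] [DecidableEq C] (F : Fam L C), Adm F →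
    (∀ ε > (0 : ℝ), ∃ G, Wk G ∧ ∀ᶠ n in atTop, n2 (F - G) n ≤ ε) → Wk F
  tclosed : ∀ L (C : Type) [Fintype C] [DecidableEq C] (F : Fam L C), Adm F →
    (∀ ε > (0 : ℝ), ∃ G, Adm G ∧ Ti G ∧ ∀ᶠ n in atTop, n2 (F - G) n ≤ ε) → Ti F
  ti_c1 : ∀ L (C : Type) [Fintype C] [DecidableEq C] (F : Fam L C) (B : ℝ),
    (∀ᶠ n in atTop, Eqv (F n) ∧ (∀ x, C1 (F n x)) ∧ av (fun x => en (F n x)) ≤ B) → Ti F
  ti_lip : ∀ L (C : Type) [Fintype C] [DecidableEq C] (F : Fam L C) (B : ℝ),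
    (∀ᶠ n in atTop, Eqv (F n) ∧ ∀ x z z', |F n x z - F n x z'| ≤ B * ‖z - z'‖) → Ti F
  ew : ∀ L (C : Type) [Fintype C] [DecidableEq C] (F : Fam L C), Cl F → Cl (EW F)

/-- exponential moments -/
def SubE (X : F1 L) : Prop := ∃ B > (0 : ℝ), ∀ᶠ n in atTop, ∀ x,
  Integrable (fun z => cosh (X n x z / B)) (gam _) ∧ ∫ z, cosh (X n x z / B) ∂gam _ ≤ B

/-- nonlinear calculus -/
structure NlStmt : Prop where
  mul : ∀ L (a v : F1 L) (M : ℝ), Cl a → Cl v → (∀ᶠ n in atTop, ∀ x z, |a n x z| ≤ M) → Cl (a * v)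
  sub_of_lip : ∀ L (X : F1 L) (B : ℝ), Adm X → Bd X →
    (∀ᶠ n in atTop, ∀ x z z', |X n x z - X n x z'| ≤ B * ‖z - z'‖) → SubE X
  sin : ∀ L (X : F1 L), Cl X → SubE X → ∀ᶠ θ : ℝ in 𝓝 0, Cl fun n x z => Real.sin (θ * X n x z)
  comp : ∀ L (d : ℕ) (X : Fin d → F1 L) (M : ℝ) (ψ : (Fin d → ℝ) → ℝ), (∀ l, Cl (X l)) →
    (∀ l, SubE (X l)) → Continuous ψ → (∀ u, |ψ u| ≤ M * (1 + ‖u‖)) →
    Cl fun n x z => ψ fun l => X l n x z
  Jv : ∀ β : ℝ, ∃ K0 > (0 : ℝ), ∀ K ≥ K0, ∀ L (v : F1 L), Cl v → Cl (Jv β K v)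
  avg : ∀ L (a b v : F1 L) (M : ℝ), Cl a → Cl b → Cl v → (∀ᶠ n in atTop, ∀ x z, |v n x z| ≤ M) →
    (∀ᶠ n in atTop, M2 fun z => av fun y => a n y z * b n y z) →
    Tendsto (fun n => sq fun z => (av fun y => a n y z * b n y z) - ipx a b n) atTop (𝓝 0) →
    Cl fun n x z => (av fun y => a n y z * b n y z) * v n x z

/-- energies converge -/
def EnStmt : Prop := ∀ L β (ρ : Fin L → ℝ) (q : F0 L), RP Empty q → Bd q →
  Bd (dF β ρ q) ∧ ∀ F : F0 L, Adm F → Wk (dF β ρ F) → Cv (enx β ρ F q)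

/-- **resolvents** -/
def ResStmt : Prop := ∀ L β (ρ : Fin L → ℝ), ∃ ζ0 > (0 : ℝ), ∀ ζ ≥ ζ0,
  (∀ q : F0 L, RP Empty q → Bd q → ∀ ε > (0 : ℝ), ∃ q', RP Empty q' ∧ Bd q' ∧ ∀ᶠ n in atTop,
    n2 (op β ρ (fun S => S.Rz ζ) q - q') n ≤ ε ∧
    enx β ρ (op β ρ (fun S => S.Rz ζ) q - q') (op β ρ (fun S => S.Rz ζ) q - q') n ≤ ε) ∧
  (∀ F : F0 L, Cl F → Cl (op β ρ (fun S => S.Rz ζ) F)) ∧
  ∀ F : F0 L, Adm F → Bd F → Ti F → Wk (dF β ρ F) → Cl (cen β ρ ζ F)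

/-- functional calculus -/
def FcStmt : Prop := ∀ L β (ρ : Fin L → ℝ) ζ, 0 < ζ →
  (∀ F : F0 L, Cl F → Cl (op β ρ (fun S => S.Rz ζ) F)) →
  ∀ (F G : F0 L) (φ : ℝ → ℝ), ContinuousOn φ (Set.Icc 0 ζ⁻¹) → Adm F → Bd F → Adm G →
    (∀ᶠ n in atTop, (sk β ρ n).Mul (fun s => φ (s + ζ)⁻¹ * (s / (s + ζ))) (F n (x0 n)) (G n (x0 n))) →
    Cl (cen β ρ ζ F) → Cl G

/-- **semigroups**: the output of the annealed theory -/
def SgStmt : Prop := ∀ L β (ρ : Fin L → ℝ) (F : F0 L), Adm F → Bd F →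
  (Cl F ∨ Ti F ∧ Wk (dF β ρ F)) → ∀ t > (0 : ℝ),
    Cl (F - op β ρ (fun S => S.T t) F) ∧ Cl (op β ρ (fun S f => S.L (S.T t f)) F)

/-! ### quenched statements -/

/-- depends on the couplings only -/
def Ind (F : F0 L) : Prop := ∀ n x z z', (∀ i j : Fin n, i ≠ j →
  co z (.inl s(i, j)) = co z' (.inl s(i, j))) → F n x z = F n x z'
/-- the observable attached to a scalar family -/
def obs (β : ℝ) (F : F0 L) : B.Ob := fun n g => (sk β 0 n).orb (F n (x0 n)) (zof L β g)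
/-- `‖L P_t Ψ‖²` -/
def kk (β : ℝ) (Ψ : B.Ob) (t : ℝ) (n : ℕ) (g : Pair n → ℝ) : ℝ :=
  mean (gibbsWeight n β g) fun x => gen (gibbsWeight n β g) (sg (gibbsWeight n β g) t (Ψ n g)) x ^ 2
/-- **the planted averages of `‖L P_t Φ‖²` converge** -/
def Lim (β : ℝ) (Φ : B.Ob) : Prop := ∃ (Ψ : B.Ob) (B : ℝ),
  (Whp disorderLaw fun n g => ∃ c, ∀ x, Φ n g x = Ψ n g x + c) ∧
  (∀ᶠ n in atTop, (∀ x, Measurable fun g => Ψ n g x) ∧ ∀ g, dir (gibbsWeight n β g) (Ψ n g) ≤ B) ∧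
  ∀ t > (0 : ℝ), Cv fun n => ∫ g, LR false n β g * kk β Ψ t n g ∂disorderLaw n
def LimStmt : Prop := ∀ L β (F : F0 L) (B : ℝ), Ind F → Adm F → Bd F →
  (Cl F ∨ Ti F ∧ Wk (dF β 0 F)) → (∀ᶠ n in atTop, ∀ z, ∑ k, (sk β 0 n).D k (F n (x0 n)) z ^ 2 ≤ B) →
  Lim β (obs β F)

/-- decay at rate `a` -/
def Dc (β : ℝ) (Φ : B.Ob) (a : ℝ) : Prop := ∀ δ > (0 : ℝ), ∀ η > (0 : ℝ), ∃ τ ≥ (1 : ℝ),
  ∀ᶠ n in atTop, disorderLaw n {g | δ * exp (-(2 * a * τ)) <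
    dir (gibbsWeight n β g) (sg (gibbsWeight n β g) τ (Φ n g))} ≤ ENNReal.ofReal η
/-- a slow mode with positive probability -/
def Slow (β : ℝ) (Φ : B.Ob) (a : ℝ) : Prop := ∀ e > (0 : ℝ), ∃ τ ≥ (1 : ℝ), ∃ c > (0 : ℝ),
  ∀ᶠ n in atTop, ENNReal.ofReal c ≤ disorderLaw n {g |
    c ≤ var (gibbsWeight n β g) (sg (gibbsWeight n β g) τ (Φ n g)) ∧
    dir (gibbsWeight n β g) (sg (gibbsWeight n β g) τ (Φ n g)) ≤
      (a + e) * var (gibbsWeight n β g) (sg (gibbsWeight n β g) τ (Φ n g))}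
/-- regular observables: size, gradient, field with polynomially small error -/
def Rg (β c c' : ℝ) (Φ : B.Ob) : Prop := ∃ B : ℝ, Whp disorderLaw fun n g =>
  (∀ x, Rec.grad (Φ n g) x ⬝ᵥ Rec.grad (Φ n g) x ≤ B) ∧ (∀ x y, |Φ n g x - Φ n g y| ≤ B * √n) ∧
  ∃ ω, Reg.Fld (gibbsWeight n β g) (Φ n g) ω ((n : ℝ) ^ (c / 64 - 1 / 2)) ((n : ℝ) ^ (-c'))
    ((n : ℝ) ^ (1 - c))
/-- the centred square -/
def Qo (β : ℝ) (Φ : B.Ob) : B.Ob := fun n g x => (Φ n g x - mean (gibbsWeight n β g) (Φ n g)) ^ 2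

/-- second moment of the likelihood ratio -/
def Lr2Stmt : Prop := ∀ β : ℝ, 0 ≤ β → β < 1 → ∃ C : ℝ, ∀ n,
  Integrable (fun g => LR false n β g ^ 2) (disorderLaw n) ∧
    ∫ g, LR false n β g ^ 2 ∂disorderLaw n ≤ C
/-- the dichotomy -/
def DiStmt : Prop := ∀ β : ℝ, 0 ≤ β → β < 1 → ∀ Φ, Lim β Φ → ∀ a ≥ (0 : ℝ), Dc β Φ a ∨ Slow β Φ a
/-- a uniform rate -/
def PosStmt : Prop := ∀ β : ℝ, 0 ≤ β → β < 1 → ∃ a > (0 : ℝ), ∀ Φ, Lim β Φ → Dc β Φ a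
/-- from positive to high probability -/
def UpStmt : Prop := ∀ β : ℝ, 0 ≤ β → β < 1 → ∀ (𝓕 : Set B.Ob) (lam : ℝ), 0 ≤ lam →
  (∀ c > (0 : ℝ), ∃ c' > (0 : ℝ), ∀ Φ ∈ 𝓕, Rg β c c' Φ) →
  (∀ e > (0 : ℝ), ∃ Φ ∈ 𝓕, Slow β Φ (lam + e)) → Reg.LBG β lam
/-- decay implies negligibility -/
def DecStmt : Prop := ∀ β : ℝ, 0 ≤ β → β < 1 → ∀ Φ, (∀ c > (0 : ℝ), ∃ c' > (0 : ℝ), Rg β c c' Φ) →
  ∀ a > (0 : ℝ), Dc β Φ a → ∀ c > (0 : ℝ), B.Neg β a c (B.Mom β (Qo β Φ))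

/-- **output of S5**: for any family of regular observables with limits -/
def OutStmt : Prop := ∀ β : ℝ, 0 ≤ β → β < 1 → ∀ (𝓕 : Set B.Ob) (l : ℝ), 0 < l →
  (∀ Φ ∈ 𝓕, Lim β Φ) → (∀ c > (0 : ℝ), ∃ c' > (0 : ℝ), ∀ Φ ∈ 𝓕, Rg β c c' Φ) →
  ∃ ls, 0 < ls ∧ ls ≤ l ∧ B.Dec β ls (Qo β '' 𝓕) ∧ (ls < l → Low.LBC β ls)

/-! ### leaves -/

def ComGlue : Prop := BasStmt → Rn.SmStmt → ComStmt
def HypGlue : Prop := BasStmt → Rn.SmStmt → HypStmt
def SkGlue : Prop := BasStmt → SkStmt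
def RpGlue : Prop := BasStmt → RtStmt → SkStmt → RpStmt
def RatGlue : Prop := RtStmt → SkStmt → RpStmt → RatStmt
def SpanGlue : Prop := RtStmt → SkStmt → RpStmt → SpanStmt
def OnGlue : Prop := RtStmt → RpStmt → RatStmt → SpanStmt → OnStmt
def LinGlue : Prop := HypStmt → RtStmt → SkStmt → RpStmt → RatStmt → OnStmt → LinStmt
def NlGlue : Prop := HypStmt → RtStmt → SkStmt → RpStmt → LinStmt → NlStmt
def EnGlue : Prop := BasStmt → ComStmt → HypStmt → SkStmt → RpStmt → LinStmt → NlStmt → EnStmt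
def ResGlue : Prop := BasStmt → ComStmt → HypStmt → RtStmt → SkStmt → RpStmt → OnStmt → LinStmt →
  EnStmt → ResStmt
def FcGlue : Prop := BasStmt → SkStmt → LinStmt → FcStmt
def SgGlue : Prop := BasStmt → SkStmt → LinStmt → ResStmt → FcStmt → SgStmt
def LimGlue : Prop := BasStmt → SkStmt → LinStmt → SgStmt → LimStmt
def DiGlue : Prop := Lr2Stmt → Top.PoinHi → DiStmt ∧ PosStmt
def OutGlue : Prop := DiStmt → PosStmt → UpStmt → DecStmt →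
  (∀ β lam : ℝ, 0 ≤ β → β < 1 → Reg.LBG β lam → Low.LBC β lam) → OutStmt

end Crest.Agent.T157.Lm

end
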