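import Crest.Agent.T157.LmUpA_53
import Crest.Agent.T157.LmDef_76
import Crest.Agent.T157.WsAll_32
import Crest.Agent.T157.ConcM_16

/-!
# Row 157, block B/S5 (helper53): `Lm.UpStmt`, from positive to high probability
-/

set_option autoImplicit false

noncomputable section

namespace Crest.Agent.T157.Up53

open MeasureTheory Matrix Real Filter Topology Finset
open Crest.ProbabilityR.SpinGlassDynamics (Pair disorderLaw gibbsWeight)
open Crest.Agent.T157.E hiding mean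
open Crest.Agent.T157.Tap (V Mx)
open Crest.Agent.T157.Rec (grad sg_mono sg_const)
open Crest.Agent.T157.Chain22 (sg IsP mean isP_prob')
open Crest.Agent.T157.Reg
open Crest.Agent.T157.Reg.Rg10
open Crest.Agent.T157.Top (Whp whp_iff)

/-- blow-up of a set of positive measure -/
lemma blow {P G : ∀ n, (Pair n → ℝ) → Prop} {S : ∀ n, Set (Pair n → ℝ)} {c : ℝ} (hc : 0 < c)
    (hS : ∀ᶠ n in atTop, ENNReal.ofReal c ≤ disorderLaw n (S n)) (hG : Whp disorderLaw G)
    (h : ∀ r ≥ (0 : ℝ), ∀ᶠ n in atTop, ∀ g ∈ S n, G n g → ∀ g', G n g' → Conc.en (g' - g) ≤ r →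
      P n g') : Whp disorderLaw P := by
  have ex : ∀ a > (0 : ℝ), ∃ s ≥ (0 : ℝ), exp (-s ^ 2 / 2) < a := fun a ha =>
    ⟨2 + |log a|, by positivity, by
      rw [← lt_log_iff_exp_lt ha]; nlinarith [neg_abs_le (log a), abs_nonneg (log a)]⟩
  refine whp_iff.2 fun ε hε => ?_
  obtain ⟨s, s0, hs⟩ := ex (c / 2) (by positivity)
  obtain ⟨t, t0, ht⟩ := ex (ε / 2) (by positivity)
  filter_upwards [hS, h (s + t) (by positivity), hG.real.eventually_le_const
    (show 0 < min (c / 2) (ε / 2) by positivity)] with n h1 h2 h3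
  have h4 : c ≤ (disorderLaw n).real (S n) := (ENNReal.ofReal_le_iff_le_toReal (by finiteness)).1 h1
  have h5 : (disorderLaw n).real (S n) ≤ (disorderLaw n).real {g | g ∈ S n ∧ G n g} +
      (disorderLaw n).real {g | ¬G n g} :=
    (measureReal_mono (fun g hg => by by_cases hh : G n g <;> simp [hg, hh])).trans
      (measureReal_union_le _ _)
  have h6 := Conc.enlarge {g | g ∈ S n ∧ G n g} s0 t0 (hs.trans_le (by
    change _ ≤ (disorderLaw n).real _
    linarith [min_le_left (c / 2) (ε / 2)]))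
  have h7 : (disorderLaw n).real {g | ¬P n g} ≤ (disorderLaw n).real
      {x | ∀ a ∈ {g | g ∈ S n ∧ G n g}, s + t ≤ Conc.en (x - a)} +
      (disorderLaw n).real {g | ¬G n g} :=
    (measureReal_mono (fun g hg => by
      by_cases hh : G n g
      · exact Or.inl fun a ha => (not_le.1 fun hl => hg (h2 a ha.1 ha.2 g hh hl)).le
      · exact Or.inr hh)).trans (measureReal_union_le _ _)
  change (disorderLaw n).real _ ≤ _ at h6
  refine (ENNReal.le_ofReal_iff_toReal_le (by finiteness) hε.le).2 (h7.trans ?_)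
  linarith [min_le_right (c / 2) (ε / 2)]

variable {n : ℕ}

lemma near {β r : ℝ} (β0 : 0 ≤ β) (β1 : β ≤ 1) (hn : 0 < n) {g g' : Pair n → ℝ} (r0 : 0 ≤ r)
    (h : Conc.en (g' - g) ≤ r) : Near (β • Jmat n g) (β • Jmat n g') (2 * r) := by
  refine ⟨by rw [transpose_smul, Jmat_transpose], by rw [transpose_smul, Jmat_transpose],
    fun i => by simp [Jmat_diag], fun i => by simp [Jmat_diag], by positivity, ?_⟩
  have n0 : (0 : ℝ) < n := by exact_mod_cast hn
  rw [sum_sum_eq_two_mul_pair (fun i j => ((β • Jmat n g) i j - (β • Jmat n g') i j) ^ 2)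
    (fun i j => by simp only [Matrix.smul_apply, Jmat_symm g i j, Jmat_symm g' i j])
    fun i => by simp [Jmat_diag]]
  have h1 : ∑ p, (g' - g) p ^ 2 ≤ r ^ 2 := (sqrt_le_iff.1 h).2
  have h2 : ∑ p : Pair n, ((β • Jmat n g) p.1.1 p.1.2 - (β • Jmat n g') p.1.1 p.1.2) ^ 2 =
      β ^ 2 * (∑ p, (g' - g) p ^ 2) / n := by
    rw [mul_sum, sum_div]
    refine sum_congr rfl fun p _ => ?_
    simp only [Matrix.smul_apply, Jmat_apply_lt _ p.2, smul_eq_mul, Pi.sub_apply]
    rw [← mul_sub, ← sub_div, mul_pow, div_pow, sq_sqrt n0.le]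
    change β ^ 2 * ((g p - g' p) ^ 2 / n) = _
    ring
  rw [h2, mul_left_comm, mul_div_cancel₀ _ n0.ne']
  nlinarith [mul_le_mul (pow_le_one₀ (n := 2) β0 β1) h1 (sum_nonneg fun _ _ => sq_nonneg _)
    zero_le_one, sq_nonneg r]

lemma grad_shift (G : Cube n → ℝ) (c : ℝ) : grad (fun x => G x - c) = grad G := funext fun x => by
  rw [Rec.grad_sub, Rec.grad_const, sub_zero]

lemma osc {w Φ : Cube n → ℝ} (hn : 0 < n) (hw : ∀ x, 0 < w x) {t M : ℝ} (ht : 0 ≤ t)
    (h : ∀ x y, |Φ x - Φ y| ≤ M) (x y : Cube n) : sg w t Φ x - sg w t Φ y ≤ M := by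
  have h1 : ∀ v, sg w t Φ x - M ≤ Φ v := fun v => by
    linarith [(sg_mono hn hw ht (f := Φ) (g := fun _ => Φ v + M) (fun u => by
      linarith [(abs_le.1 (h u v)).2]) x).trans_eq (sg_const hn hw _ _ _)]
  linarith [(sg_const hn hw _ _ _).symm.trans_le (sg_mono hn hw ht h1 y)]

theorem up : Lm.UpStmt := by
  intro β β0 β1 𝓕 lam lam0 hR hS c hc c1
  obtain ⟨K1, K1p, hN⟩ := niceStmt
  obtain ⟨K2, K2p, hA⟩ := Rv.at0 β β0 β1
  obtain ⟨K, hK⟩ : ∃ K, K = max K1 K2 := ⟨_, rfl⟩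
  have k1 : K1 ≤ K := hK ▸ le_max_left _ _
  have k2 : K2 ≤ K := hK ▸ le_max_right _ _
  have K0 : 0 < K := K1p.trans_le k1
  obtain ⟨c', hc', hR⟩ := hR (c / 4) (by positivity)
  obtain ⟨m, hm⟩ : ∃ m, m = min (c' / 2) (c / 256) := ⟨_, rfl⟩
  have m0 : 0 < m := hm ▸ by positivity
  have m1 : m ≤ c' / 2 := hm ▸ min_le_left _ _
  have m2 : m ≤ c / 256 := hm ▸ min_le_right _ _
  refine ⟨m, m0, fun e he => ?_⟩
  obtain ⟨Φ, hΦ, hS⟩ := hS (e / 4) (by positivity)
  obtain ⟨τ, τ1, a, a0, hS⟩ := hS (e / 4) (by positivity)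
  obtain ⟨B, hB⟩ := hR Φ hΦ
  obtain ⟨κ, hκ⟩ : ∃ κ, κ = e / (2 * (1 + 2 * (lam + e))) := ⟨_, rfl⟩
  have κ0 : 0 < κ := hκ ▸ by positivity
  have κ1 : κ * (2 * (1 + 2 * (lam + e))) = e := hκ ▸ div_mul_cancel₀ _ (by positivity)
  have κ2 : κ ≤ 1 / 4 := by rw [hκ, div_le_iff₀ (by positivity)]; linarith
  obtain ⟨s, s0, hs⟩ : ∃ s ≥ (0 : ℝ), exp (-(2 / K * s)) ≤ κ := ⟨K / 2 * |log κ|, by positivity, by
    rw [← le_log_iff_exp_le κ0, ← mul_assoc, show 2 / K * (K / 2) = 1 by field_simp, one_mul]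
    exact neg_abs_le _⟩
  refine blow a0 hS (hB.and (hN.and hA)) fun r r0 => ?_
  obtain ⟨C, C1, hC⟩ := core K0 (abs_nonneg B) (T := s + τ) (by linarith) (2 * r)
  have ev : ∀ b > (0 : ℝ), ∀ M : ℝ, ∀ᶠ n : ℕ in atTop, M ≤ (n : ℝ) ^ b := fun b hb M =>
    ((tendsto_rpow_atTop hb).comp tendsto_natCast_atTop_atTop).eventually_ge_atTop M
  filter_upwards [eventually_gt_atTop 0, ev m m0 (2 + 4 * r + C + C * (4 * s + 1) / (κ * a)),
    ev e he (|B| + C + 2 / a)] with n hn hP hE g hg gg g' gg' hd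
  obtain ⟨⟨f1, f2, ω0, f3⟩, g1, g2⟩ := gg
  obtain ⟨v1, v2⟩ := hg
  have g3 := gg'.2.2
  have n1 : (1 : ℝ) ≤ n := by exact_mod_cast hn
  have n0 : (0 : ℝ) < n := by linarith
  have nr := near β0 β1.le hn r0 hd
  have nice := Col13.nice_mono (g1 β β0 β1.le) K1p.le k1
  have ew : ∀ g, gibbsWeight n β g = mu (β • Jmat n g) := gibbsWeight_eq_ising β
  rw [ew] at f3 g2 g3 v1 v2 ⊢
  generalize β • Jmat n g = W at *
  generalize β • Jmat n g' = W' at *
  have hw := mu_pos W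
  have hw' := mu_pos W'
  have a1 := g2.mono hw k2 le_rfl
  have a2 := g3.mono hw' k2 le_rfl
  have x0 : 0 ≤ log n := log_natCast_nonneg n
  have rp : ∀ a : ℝ, (n : ℝ) ^ a = exp (a * log n) := fun a => by
    rw [rpow_def_of_pos n0, mul_comm]
  have sn : √n = exp (1 / 2 * log n) := by rw [sqrt_eq_rpow, rp]
  have cx := mul_le_mul_of_nonneg_right m2 x0
  have cx' := mul_le_mul_of_nonneg_right m1 x0
  have cy := mul_le_mul_of_nonneg_right c1 x0
  have mx := mul_nonneg m0.le x0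
  have q0 : 0 ≤ C * (4 * s + 1) / (κ * a) := by positivity
  have η1 : (n : ℝ) ^ m * (n : ℝ) ^ (-m) = 1 := by rw [← rpow_add n0, add_neg_cancel, rpow_zero]
  have η0 : 0 < (n : ℝ) ^ (-m) := by positivity
  have hH : (n : ℝ) ^ (1 - c) + 2 * r * √n ≤ (n : ℝ) ^ (1 - c / 4) := by
    have h1 : (n : ℝ) ^ m * (n : ℝ) ^ (1 - c) ≤ (n : ℝ) ^ (1 - c / 4) := by
      rw [rp, rp, rp, ← exp_add, exp_le_exp]; linarith
    have h2 : (n : ℝ) ^ m * √n ≤ (n : ℝ) ^ (1 - c / 4) := by
      rw [sn, rp, rp, ← exp_add, exp_le_exp]; linarith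
    linarith [mul_le_mul_of_nonneg_right (show 2 ≤ (n : ℝ) ^ m by linarith)
      (show 0 ≤ (n : ℝ) ^ (1 - c) by positivity),
      mul_le_mul_of_nonneg_right (show 4 * r ≤ (n : ℝ) ^ m by linarith) (sqrt_nonneg n)]
  have D := hC n W W' (Φ n g) ω0 _ _ _ ((n : ℝ) ^ (c / 128)) ((n : ℝ) ^ (-m)) hn nr nice a1 a2 f3
    (fun x => (f1 x).trans (le_abs_self B))
    (le_trans (le_add_of_nonneg_left (by positivity)) hH) (one_le_rpow n1 (by linarith))
    (by positivity) (one_le_rpow n1 (by positivity)) η0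
    (rpow_le_one_of_one_le_of_nonpos n1 (by linarith))
    (by rw [rp, rp, ← exp_nat_mul, exp_le_exp]; push_cast; linarith)
    (by
      rw [rp, rp, rp]
      nth_rewrite 1 [← exp_log n0]
      simp only [← exp_nat_mul, ← exp_add, ← exp_sub, exp_le_exp]
      push_cast; linarith)
    (by
      simp only [rp, ← exp_nat_mul, ← exp_add, exp_le_exp]
      push_cast; linarith)
    (by
      rw [rp, rp, rp, rp]
      nth_rewrite 3 [← exp_log n0]
      simp only [← exp_nat_mul, ← exp_add, exp_le_exp]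
      push_cast; linarith)
  have τ0 : 0 ≤ τ := by linarith
  obtain ⟨⟨ω, d1⟩, d2, d3, -⟩ := D τ τ0 (by linarith)
  have d4 := var_ge hn hw hw' (Φ n g) (τ := τ) (T := s + τ) (by linarith) fun t t1 t2 =>
    (D t (τ0.trans t1) t2).2.2
  have d5 := Chain22.var_sg_le hn hw K0 (a1.poinc hw K0.le) (sg (mu W) τ (Φ n g)) s0
  rw [← Chain22.sg_add hn hw] at d5
  have o := osc hn hw τ0 f2
  generalize sg (mu W) τ (Φ n g) = G at *
  generalize hη : (n : ℝ) ^ (-m) = η at *
  have Cη : C * η ≤ 1 := (mul_le_mul_of_nonneg_right (by linarith) η0.le).trans_eq η1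
  have Cη' : C * (4 * s + 1) * η ≤ κ * a := by
    have := (mul_le_mul_of_nonneg_right (show C * (4 * s + 1) / (κ * a) ≤ _ by linarith)
      η0.le).trans_eq η1
    rwa [div_mul_eq_mul_div, div_le_one (by positivity)] at this
  have V0 : 0 ≤ var (mu W) G := a0.le.trans v1
  have κV := mul_le_mul_of_nonneg_left v1 κ0.le
  have Cs : 0 ≤ C * η * s := by positivity
  have Cη0 : 0 ≤ C * η := by positivity
  have d6 : (1 - 2 * κ) * var (mu W) G ≤ var (mu W') G := by
    linarith [mul_le_mul_of_nonneg_right hs V0]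
  have ev : var (mu W') (fun x => G x - E.mean (mu W') G) = var (mu W') G :=
    (isP_prob' hw').var_add_const G (-E.mean (mu W') G)
  have a2' : 0 < 2 / a := by positivity
  have eb : C * ((n : ℝ) ^ (c / 128) * (n : ℝ) ^ (c / 4 / 64 - 1 / 2)) ≤ (n : ℝ) ^ (c / 16 - 1 / 2) := by
    refine (mul_le_mul_of_nonneg_right (show C ≤ (n : ℝ) ^ m by linarith) (by positivity)).trans ?_
    simp only [rp, ← exp_add, exp_le_exp]
    linarith
  refine ⟨fun x => G x - E.mean (mu W') G, ω, ?_, fun x => ?_, fun x => ?_, ?_, ?_, d1.odd,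
    fun x i => (d1.sup x i).trans eb, fun x => (d1.op x).trans eb, fun v hv => ?_⟩
  · rw [SL.mean_sub, (SL.Wt.of_pos hw').mean_const, sub_self]
  · rw [grad_shift]; linarith [d2 x, abs_nonneg B]
  · have h1 := (SL.Wt.of_pos hw').mean_le (f := G) (c := G x + B * √n) fun y => by
      linarith [o y x]
    have h2 := (isP_prob' hw').mean_mono (f := fun _ => G x - B * √n) (g := G) fun y => by
      linarith [o x y]
    rw [(isP_prob' hw').mean_const] at h2
    have h3 := mul_le_mul_of_nonneg_left (show B ≤ (n : ℝ) ^ e by linarith [le_abs_self B])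
      (sqrt_nonneg n)
    change _ ≤ E.mean (mu W') G at h2
    rw [abs_le]
    constructor <;> linarith
  · rw [ev]
    refine (inv_anti₀ a2' (by linarith [abs_nonneg B])).trans ?_
    rw [inv_div]
    nlinarith
  · rw [ev, basStmt.dir_eq n W' nr.s', grad_shift, ← basStmt.dir_eq n W' nr.s']
    refine le_trans ?_ (mul_le_mul_of_nonneg_left d6 (by linarith))
    have := congrArg (· * var (mu W) G) κ1
    linarith [(abs_le.1 d3).2]
  · rw [grad_shift]
    refine (d1.cl v (nr.wm hv hH)).trans ?_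
    rw [sq, ← mul_assoc]
    exact mul_le_of_le_one_left η0.le Cη

end Crest.Agent.T157.Up53

theorem Crest.Agent.T157.Lm.upStmt : Crest.Agent.T157.Lm.UpStmt := Crest.Agent.T157.Up53.up

end
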