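import Crest.Agent.T157.LmLim_32
import Crest.Agent.T157.LmDec_74
import Crest.Agent.T157.LmDi_23
import Crest.Agent.T157.LmUp_53
import Crest.Agent.T157.BLbc_62

/-!
# Row 157, block B/S5 (helper32): the output of the limit theory
-/

namespace Crest.Agent.T157.Lm

theorem diStmt : DiStmt := (diGlue lr2Stmt Rv.poinHi).1
theorem posStmt : PosStmt := (diGlue lr2Stmt Rv.poinHi).2
/-- **output of S5** -/
theorem outStmt : OutStmt := outGlue diStmt posStmt upStmt decStmt fun _ _ => Lbc.lbcG

end Crest.Agent.T157.Lm
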