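import Crest.Agent.T157.ZDefF_73
import Crest.Agent.T157.KDef_36

/-!
# Row 157, part B, kernel route (helper32): the observables `K.phi` are in the family `Zf.FF`
-/

set_option autoImplicit false

noncomputable section

namespace Crest.Agent.T157.Zf

open MeasureTheory Matrix Set
open Crest.ProbabilityR.SpinGlassDynamics
open Crest.Agent.T157.E Crest.Agent.T157.Eig Crest.Agent.T157.Tap Crest.Agent.T157.Z

namespace Br32

variable {n m : ℕ}

lemma tJ_tJ (J : Mx n) : tJ (tJ J) = tJ J := (lipStmt.tJ_le n _).2 (lipStmt.tJ_le n J).1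

/-- networks see only the truncated couplings -/
lemma net_tJ {ι : Type} {sm : Prop} {X : Nt ι} (h : Nw sm X) (n : ℕ) (J : Mx n) (a : ι → V n) :
    X n (tJ J) a = X n J a := by
  induction h with
  | inp j => rfl
  | map φ X _ _ _ ih => simp only [ih]
  | mul X _ _ ih => simp only [ih, tJ_tJ]
  | sc X Y Z _ _ _ _ _ _ h1 h2 h3 => simp only [h1, h2, h3]

lemma tJ_symm {J : Mx n} (h : Jᵀ = J) : (tJ J)ᵀ = tJ J := by rw [tJ, transpose_smul, h]

lemma g1 {J : Mx n} (h : Jᵀ = J) : Sq.G1 (AA J) :=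
  Sq.g1_shift (herm_iff.2 (tJ_symm h)) (lipStmt.tJ_le n J).1 (by norm_num)

lemma xr_eq {J : Mx n} (h : Jᵀ = J) (s : Cube n) (y z : V n) :
    xr J s y z = y + QQ J *ᵥ (QQ J *ᵥ sv s + z) := by
  rw [xr, mulVec_add, mulVec_mulVec, QQ, (g1 h).mul, add_assoc]

/-- the change of rows `(x, y) ↦ (x - y, y)` -/
def T (m : ℕ) : Matrix (Bool ⊕ Fin m) (Fin 2 ⊕ Fin m) ℝ :=
  fromBlocks (of fun b => if b then ![1, -1] else ![0, 1]) 0 0 1

lemma lc_T (x y : V n) (w : Fin m × Fin n → ℝ) :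
    lc (T m) (lab2 x y w) = K.lab2 (x - y) y w := by
  funext l i
  rcases l with (_ | _) | l <;>
    simp [lc, T, lab2, K.lab2, Fintype.sum_sum_type, one_apply, sub_eq_add_neg]

/-- the network in the rows `(x, y)` -/
def XE (E : Nt (Bool ⊕ Fin m)) : Nt (Fin 2 ⊕ Fin m) := fun n J a => E n J (lc (T m) a)

lemma Eb2_XE {E : Nt (Bool ⊕ Fin m)} (h : Nw True E) (J : Mx n) (x y : V n) :
    Eb2 (XE E) n J (y + x) y = K.Eh E n (tJ J) x y := by
  funext i
  simp only [Eb2, XE, K.Eh, lc_T, net_tJ h, add_sub_cancel_left]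

lemma mean_cm (w f : Cube n → ℝ) (c : ℝ) : mean w (fun x => c * f x) = c * mean w f := by
  simp only [mean, Finset.mul_sum, mul_left_comm]

lemma Ky_iter {J : Mx n} (h : Jᵀ = J) (f : Sf) (g : K.F2 n) (c : ℝ)
    (e : ∀ s y, f n J s y = c * g s y) (l : ℕ) (s : Cube n) (y : V n) :
    Ky^[l] f n J s y = c * (K.Ky (QQ J) y)^[l] (fun t => g t y) s := by
  induction l generalizing s with
  | zero => exact e s y
  | succ l ih =>
    simp only [Function.iterate_succ_apply', Ky, ih, mean_cm, integral_const_mul, xr_eq h]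
    rfl

end Br32

open Br32

/-- **the bridge** -/
theorem phi_eq {m : ℕ} {E : Nt (Bool ⊕ Fin m)} (hE : Nw True E) (k : ℕ) (r : ℝ) {n : ℕ} {J : Mx n}
    (h : Jᵀ = J) : K.phi (QQ J) (K.Eh E n (tJ J)) k r = Ph r k (XE E) n J := by
  funext s
  have e : ∀ s y, Ps0 (XE E) n J s y = (√(n : ℝ))⁻¹ * K.psi0 (QQ J) (K.Eh E n (tJ J)) s y :=
    fun s y => by
      simp only [Ps0, xr_eq h, Eb2_XE hE, div_eq_inv_mul]
      rfl
  simp only [K.phi, Ph, Ew, Psk, Ky_iter h _ _ _ e, ← Finset.mul_sum, integral_const_mul,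
    div_eq_inv_mul, K.psi, K.Ks, Finset.sum_apply]

theorem XE_mem {m : ℕ} {E : Nt (Bool ⊕ Fin m)} (hE : Nw True E) (hB : Bd E) (k : ℕ) {r : ℝ}
    (hr : 0 ≤ r) : Ph r k (XE E) ∈ FF :=
  ⟨r, hr, k, m, XE E, lipStmt.comp _ _ _ E (fun j _ _ a => lc (T m) a j) hE
    fun j => lipStmt.lin _ _ _ (T m) j, hB.imp fun _ hM n J _ i => hM n J _ i, rfl⟩

/-- the observables of the kernel have limits -/
theorem limK (h : FOut) {β : ℝ} (h0 : 0 ≤ β) (h1 : β < 1) {m : ℕ} {E : Nt (Bool ⊕ Fin m)}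
    (hE : Nw True E) (hB : Bd E) (k : ℕ) {r : ℝ} (hr : 0 ≤ r) : Lm.Lim β (Lm.Of.ob β fun n J =>
      K.phi (Sq.rt (tJ J + (4 : ℝ) • (1 : Mx n))) (K.Eh E n (tJ J)) k r) := by
  convert h β h0 h1 _ (XE_mem hE hB k hr) using 1
  funext n g
  exact phi_eq hE k r (by rw [transpose_smul, Jmat_transpose])

end Crest.Agent.T157.Zf

end
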