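import Crest.Agent.T157.BFin_88
import Crest.Agent.T157.KDefB_19
import Crest.Agent.T157.ZBrK_32
import Crest.Agent.T157.LmOut_32
import Crest.Agent.T157.EnAll_40

/-!
# Row 157: the top of part B, with the closed blocks plugged in (helper88)
-/

set_option autoImplicit false

namespace Crest.Agent.T157.TopZ

theorem endF : EndF := fun _ => En.endS1 Rv.at0

theorem limF_KF (h : Zf.FOut) : LimF KF := by
  rintro β h0 h1 _ ⟨r, hr, k, m, E, hE, hB, rfl⟩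
  exact Zf.limK h h0.le h1 hE hB k hr

theorem has_KF (β : ℝ) : Kz.Has β (QF β KF) := fun r hr k m E hE hB =>
  ⟨_, ⟨_, ⟨r, hr, k, m, E, hE, hB, rfl⟩, rfl⟩, rfl⟩

/-- the local supply at the rate of the towers -/
def LocF : Prop := ∀ 𝒞 : Tw.Cls, (∀ m, 𝒞.C m = Tw.PV m) → ∀ β, 0 < β → β < 1 →
  Kz.LocSup β (Tw.lam 𝒞 β)

/-- **S0230** from the open statements -/
theorem r30_B (hS : S1.S1Out) (hP : K.PhiStmt) (hF : Zf.FOut) (hZ : Kz.ZSup) (hL : LocF) :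
    Top.R30 :=
  r30_KF Lm.outStmt hS endF hP (limF_KF hF) fun 𝒞 h𝒞 β h0 h1 =>
    hZ β ⟨h0, h1⟩ _ _ (has_KF β) (hL 𝒞 h𝒞 β h0 h1)

end Crest.Agent.T157.TopZ
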