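import Crest.Agent.T157.BrDefB_50
import Crest.Agent.T157.BrSm_54

/-!
# Row 157, block B, S1: the glue of the act B (helper50)
-/

set_option autoImplicit false
set_option linter.unusedVariables false
set_option linter.unusedSectionVars false

noncomputable section

namespace Crest.Agent.T157.Br.Act50

open Real Matrix Function
open Crest.Agent.T157.E Crest.Agent.T157.SL Crest.Agent.T157.Ta
open Crest.Agent.T157.Rec (grad)
open Crest.Agent.T157.Br.Sm54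

variable {n : ℕ} {κ : Type} [Fintype κ] [DecidableEq κ]

lemma sq_nn (u : κ → ℝ) : 0 ≤ sq u := Finset.sum_nonneg fun _ _ => mul_self_nonneg _

lemma sq_zero : sq (0 : κ → ℝ) = 0 := by simp [sq]

lemma sq_smul (c : ℝ) (u : κ → ℝ) : sq (c • u) = c ^ 2 * sq u := by
  simp only [sq, dotProduct_smul, smul_dotProduct, smul_eq_mul]; ring

lemma sq_add_le (u v : κ → ℝ) {θ : ℝ} (h : 0 < θ) :
    sq (u + v) ≤ (1 + 1 / θ) * sq u + (1 + θ) * sq v := by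
  simp only [sq, dotProduct, Finset.mul_sum, ← Finset.sum_add_distrib, Pi.add_apply]
  refine Finset.sum_le_sum fun i _ => ?_
  have : 0 ≤ (u i - θ * v i) ^ 2 / θ := by positivity
  have e : (u i - θ * v i) ^ 2 / θ = 1 / θ * (u i * u i) - 2 * (u i * v i) + θ * (v i * v i) := by
    field_simp; ring
  nlinarith

lemma sq_add2 (u v : κ → ℝ) : sq (u + v) ≤ 2 * sq u + 2 * sq v := by
  have := sq_add_le u v one_pos
  norm_num at this
  exact this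

variable {D : Dat n κ}

lemma W_W (c0 m0 : κ → ℝ) (p : ℝ) (z cb m : κ → ℝ) :
    wS D.h D.φ D.s (D.W 0 0 c0 m0) p z cb m = D.W p z (c0 + cb) (m0 + m) := by
  ext x
  simp only [Dat.W, wS, wt, post, zero_dotProduct, zero_div, zero_mul, sub_zero, exp_zero, mul_one,
    add_dotProduct, exp_add]
  ring

lemma W_zero (p : ℝ) (z : κ → ℝ) : D.W p z 0 0 = post D.h D.pw p z := by
  ext x; simp [Dat.W, wS, wt]

lemma Wp_one (p : ℝ) (z c m mh : κ → ℝ) : D.Wp p z c m 1 mh = D.W p z c m := by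
  ext x; simp [Dat.Wp, wt]

lemma post00 (w : Cube n → ℝ) : post D.h w 0 0 = w := by ext x; simp [post]

/-- the instantiated leaves -/
structure Cx (D : Dat n κ) (mg C0 CV K1 KC Mk Mt Mh M4 t k : ℝ) : Prop where
  ok : D.Ok mg C0 CV K1
  KC0 : 0 ≤ KC
  Mk1 : 1 ≤ Mk
  Mt1 : 1 ≤ Mt
  Mh0 : 0 ≤ Mh
  M40 : 0 ≤ M4
  t0 : 0 ≤ t
  t1 : t ≤ 1
  e0 : 0 ≤ D.e
  pr : ∀ p z c m, Pr (D.vp p z) (D.W p z c m)
  el : ∀ p z, 0 ≤ Ue.El D.lw (D.vp p z) (D.lp p z)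
  ar : ∀ p z c m, 0 ≤ Ar D.r (D.vp p z) (D.W p z c m)
  kb : ∀ p z c m, 0 ≤ p → p ≤ D.P → sq c ≤ D.R → kl (D.vp p z) (D.W p z c m) +
    sq (dM (D.vp p z) (D.W p z c m) D.h) + sq (dM (D.vp p z) (D.W p z c m) D.s) ≤
      Mk * (D.bud p z + sq c + sq m)
  bd : ∀ p z, 0 ≤ p → p ≤ D.P → D.bud p z ≤ cE D.h D.ν D.P D.Fn p z
  mx : ∀ p z c, 0 ≤ p → p ≤ D.P → max (cE D.h D.ν D.P D.Fn p z - c) 0 ≤
    cE D.h D.ν D.P (fun x y => max (D.Fn x y - c) 0) p z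
  hd : ∀ p z c m c' m' ρ v w, 0 ≤ p → p ≤ D.P → D.Rad ρ →
    sq c ≤ ρ ^ 2 → sq c' ≤ ρ ^ 2 → v = D.vp p z → w = D.W p z c m →
    dr D.r D.a v w (fun x => c' ⬝ᵥ D.φ x) ≤ -((1 + p * D.xa) * (c' ⬝ᵥ dM v w D.h)) +
        D.xa * (c' ⬝ᵥ dM v w D.s) + t * D.AC v w (D.lp p z) + Mh * D.e * (ρ ^ 2 + D.bud p z + sq m) ∧
      Ar D.r v (D.W p z (c + c') (m + m')) - D.a * kl v (D.W p z (c + c') (m + m')) ≤
        Ar D.r v w - D.a * kl v w + dr D.r D.a v w (fun x => c' ⬝ᵥ D.φ x) + D.a * (m' ⬝ᵥ dM v w D.s) +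
          KC * D.xa * sq c' + Mh * D.e * (ρ ^ 2 + D.bud p z + sq m) ∧
      Ar D.r v (D.W p z (c + c') (m + m')) ≤
        2 * Ar D.r v w + KC * D.xa * sq c' + Mh * D.e * (ρ ^ 2 + D.bud p z + sq m) ∧
      Cnt (D.ug c') v ≤ KC * D.xa * sq c' +
        Mh * D.e * (D.AC v w (D.lp p z) + ρ ^ 2 + D.bud p z + sq m)
  h4 : ∀ z c m ρ v w β, D.Rad ρ →
    D.bud D.P z + sq c + sq m ≤ ρ ^ 2 → v = D.vp D.P z → w = D.W D.P z c m →
    β = (1 - D.a') * (1 - mg) →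
    D.a * Ent.kl (push v D.bT) (push w D.bT) ≤ D.AT β v (post D.h D.pw D.P z) +
      D.a * (1 + D.a / (β * (1 - mg / 4))) / 2 * sq m + k / 2 * D.AC v w (D.lp D.P z) + M4 * D.e * ρ ^ 2

/-- coefficient of `E^loc` -/
def cl (D : Dat n κ) : ℝ := (1 - Ue.th D.a') / (2 * (1 - 2 * D.η))
def G1 (Mk : ℝ) : ℝ := 1 + 2 * Mk ^ 2
def N1 (mg P : ℝ) : ℝ := 2 * P + 4 / mg ^ 2
def Lg (Mk mg P : ℝ) : ℝ := Mk * (G1 Mk + N1 mg P)
def T1 (Mk mg P : ℝ) : ℝ := Lg Mk mg P * exp (Lg Mk mg P * P)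

variable {mg C0 CV K1 KC Mk Mt Mh M4 t k : ℝ}

section ok
variable (h : D.Ok mg C0 CV K1)
include h

lemma r1 : 1 / 2 ≤ 1 - 2 * D.η ∧ 1 - 2 * D.η ≤ 1 := by
  constructor <;> linarith [h.η1, h.mg1, h.η0]

lemma a_le : D.a ≤ 1 := by
  have := h.aU; have := h.a1; have := h.η1; have := h.mg1; have := h.a0; have := h.mg0
  nlinarith

lemma a_pos : 0 < D.a := h.mg0.trans_le h.a0

lemma be_ge : mg / 2 ≤ (1 - D.a') * (1 - mg) := by
  have := h.a1; have := h.mg1; have := h.mg0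
  nlinarith

lemma xa_le : D.xa ≤ 1 := by
  have h1 := h.xa1
  have : 0 ≤ D.a / ((1 - D.a') * (1 - mg)) :=
    div_nonneg (a_pos h).le (by linarith [be_ge h, h.mg0])
  nlinarith [h.xa0, h.mg0]

lemma cl_nn : 0 ≤ cl D :=
  div_nonneg (by linarith [Ue.th_le_one (a := D.a') (by linarith [h.a1, h.mg0])])
    (by linarith [(r1 h).1])

lemma mu_pos (x : Cube n) : 0 < D.μ x := exp_pos _

lemma U_nn (x : Cube n) : 0 ≤ D.U x :=
  mul_nonneg (by linarith [h.P1]) (Finset.sum_nonneg fun _ _ => sq_nonneg _)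

lemma B0_le {v : Cube n → ℝ} (hv : Wt v) (p : ℝ) (z : κ → ℝ) : D.B0 + kl v D.μ ≤ D.bv p z v := by
  have := hv.mean_nonneg (f := fun x => D.U x + sq (D.h x - D.xb))
    fun x => add_nonneg (U_nn h x) (sq_nn _)
  unfold Dat.bv
  linarith [sq_nn (z - p • D.xb)]

end ok

lemma N1_nn (hP : 0 ≤ D.P) : 0 ≤ N1 mg D.P := by unfold N1; positivity

section cx
variable (H : Cx D mg C0 CV K1 KC Mk Mt Mh M4 t k)
include H

lemma B0_bud (p : ℝ) (z : κ → ℝ) : D.B0 + kl (D.vp p z) D.μ ≤ D.bud p z ∧ D.B0 ≤ D.bud p z := by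
  have h1 := B0_le H.ok (H.pr p z 0 0).hv p z
  have h2 := (Sm54.pr (H.pr p z 0 0).hv (mu_pos H.ok)).kl_nonneg
  exact ⟨h1, by unfold Dat.bud; linarith⟩

lemma Fn_nn (x : Cube n) (u : κ → ℝ) : 0 ≤ D.Fn x u := by
  have h2 := (Sm54.pr (H.pr D.P u 0 0).hv (mu_pos H.ok)).kl_nonneg
  have := H.ok.b1
  have := U_nn H.ok x
  have := sq_nn (u - D.P • D.xb)
  have := sq_nn (D.h x - D.xb)
  unfold Dat.Fn
  positivity

/-- sizes at a state of the burst -/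
lemma st {c0 m0 cb m z : κ → ℝ} {p I Λ X : ℝ} (hI : Inv D.a D.xa (Lg Mk mg D.P) Λ p cb m I)
    (p0 : 0 ≤ p) (p1 : p ≤ D.P) (h0 : sq c0 + sq m0 ≤ Mk ^ 2 * D.B0) (hΛ : D.B0 ≤ Λ)
    (hR : T1 Mk mg D.P * Λ ≤ D.R) (hX : X = G1 Mk * D.bud p z + N1 mg D.P * I) :
    D.bud p z + sq (c0 + cb) + sq (m0 + m) ≤ X ∧ D.bud p z + sq c0 + sq m0 + sq cb ≤ X ∧
      sq (c0 + cb) ≤ D.R ∧ X ≤ Mk * X ∧
      (D.bud p z ≤ Λ → Mk * X ≤ Lg Mk mg D.P * (Λ * exp (Lg Mk mg D.P * p)) ∧ D.Rad √(Mk * X)) ∧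
      (Λ ≤ D.bud p z → Mk * X ≤ T1 Mk mg D.P * D.bud p z) := by
  have P1 := H.ok.P1
  have hb := (B0_bud H p z).2
  have b1 := H.ok.b1
  have M1 := H.Mk1
  have I0 := hI.I0
  have N0 : 0 ≤ N1 mg D.P := N1_nn (by linarith)
  have G0 : 1 ≤ G1 Mk := by unfold G1; nlinarith
  have L0 : 0 ≤ Lg Mk mg D.P := by unfold Lg; positivity
  have c1 : sq cb ≤ D.P * I := hI.c1.trans (mul_le_mul_of_nonneg_right p1 I0)
  have m1 : sq m ≤ 2 / mg ^ 2 * I := by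
    have a := hI.m1
    have b : mg ^ 2 ≤ D.a ^ 2 := pow_le_pow_left₀ H.ok.mg0.le H.ok.a0 2
    have c := mul_le_mul_of_nonneg_right b (sq_nn m)
    rw [div_mul_eq_mul_div, le_div_iff₀ (pow_pos H.ok.mg0 2)]
    unfold sq at c ⊢
    linarith
  have hB : Mk ^ 2 * D.B0 ≤ Mk ^ 2 * D.bud p z := mul_le_mul_of_nonneg_left hb (sq_nonneg _)
  have eN : N1 mg D.P * I = 2 * (D.P * I) + 2 * (2 / mg ^ 2 * I) := by unfold N1; ring
  have eG : G1 Mk * D.bud p z = D.bud p z + 2 * (Mk ^ 2 * D.bud p z) := by unfold G1; ring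
  have s1 := sq_add2 c0 cb
  have s2 := sq_add2 m0 m
  have x1 : 1 ≤ exp (Lg Mk mg D.P * p) := one_le_exp (by positivity)
  have x2 : exp (Lg Mk mg D.P * p) ≤ exp (Lg Mk mg D.P * D.P) :=
    exp_le_exp.2 (mul_le_mul_of_nonneg_left p1 L0)
  have Λ0 : 0 ≤ Λ := by linarith
  have i1 := hI.I1
  have key : ∀ b, 0 ≤ b → Λ ≤ b → Mk * (G1 Mk * b + N1 mg D.P * I) ≤
      Lg Mk mg D.P * (b * exp (Lg Mk mg D.P * p)) := fun b b0 hb => by
    have u1 : b ≤ b * exp (Lg Mk mg D.P * p) := le_mul_of_one_le_right b0 x1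
    have u2 : I ≤ b * exp (Lg Mk mg D.P * p) := i1.trans (mul_le_mul_of_nonneg_right hb (exp_pos _).le)
    rw [Lg, mul_assoc, add_mul]
    exact mul_le_mul_of_nonneg_left (add_le_add (mul_le_mul_of_nonneg_left u1 (by linarith))
      (mul_le_mul_of_nonneg_left u2 N0)) (by linarith)
  have key2 : ∀ b, 0 ≤ b → Lg Mk mg D.P * (b * exp (Lg Mk mg D.P * p)) ≤ T1 Mk mg D.P * b :=
    fun b b0 => by
      rw [T1, mul_assoc, mul_comm (exp _) b]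
      exact mul_le_mul_of_nonneg_left (mul_le_mul_of_nonneg_left x2 b0) L0
  have X0 : D.B0 ≤ X := by
    rw [hX, eG]; nlinarith [mul_nonneg N0 I0, mul_nonneg (sq_nonneg Mk) (by linarith : 0 ≤ D.bud p z)]
  have XM : X ≤ Mk * X := le_mul_of_one_le_left (by linarith) M1
  refine ⟨by rw [hX, eG, eN]; linarith, ?_, ?_, XM, fun hb' => ?_, fun hb' => ?_⟩
  · rw [hX, eG, eN]
    nlinarith [sq_nn m, mul_nonneg (sq_nonneg Mk) (by linarith : 0 ≤ D.bud p z),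
      mul_nonneg (by linarith : 0 ≤ D.P) I0]
  · have u := (key Λ Λ0 le_rfl).trans ((key2 Λ Λ0).trans hR)
    have v : Mk ^ 2 * D.B0 ≤ Mk ^ 2 * Λ := mul_le_mul_of_nonneg_left hΛ (sq_nonneg _)
    have w : G1 Mk * Λ + N1 mg D.P * I ≤ Mk * (G1 Mk * Λ + N1 mg D.P * I) :=
      le_mul_of_one_le_left (by positivity) M1
    have eG' : G1 Mk * Λ = Λ + 2 * (Mk ^ 2 * Λ) := by unfold G1; ring
    nlinarith [sq_nn m0, sq_nn m]
  · have u : Mk * X ≤ Lg Mk mg D.P * (Λ * exp (Lg Mk mg D.P * p)) := by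
      refine le_trans ?_ (key Λ Λ0 le_rfl)
      rw [hX]
      exact mul_le_mul_of_nonneg_left (add_le_add (mul_le_mul_of_nonneg_left hb' (by linarith)) le_rfl)
        (by linarith)
    have e : √(Mk * X) ^ 2 = Mk * X := sq_sqrt (by linarith)
    exact ⟨u, sqrt_nonneg _, by rw [e]; linarith, by rw [e]; exact u.trans ((key2 Λ Λ0).trans hR)⟩
  · rw [hX]; exact (key _ (by linarith) hb').trans (key2 _ (by linarith))

/-- the tail variable dominates a large budget -/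
lemma tl {p Λ : ℝ} {z : κ → ℝ} (p0 : 0 ≤ p) (p1 : p ≤ D.P) (hb : Λ ≤ D.bud p z) :
    D.bud p z ≤ 2 * cE D.h D.ν D.P (fun x y => max (D.Fn x y - Λ / 2) 0) p z := by
  have h1 := H.mx p z (Λ / 2) p0 p1
  have h2 := H.bd p z p0 p1
  linarith [le_max_left (cE D.h D.ν D.P D.Fn p z - Λ / 2) 0]

lemma cE_nn {F : Cube n → (κ → ℝ) → ℝ} (hF : ∀ x y, 0 ≤ F x y) (p : ℝ) (z : κ → ℝ) :
    0 ≤ cE D.h D.ν D.P F p z := slE_nonneg (H.pr p z 0 0).hv fun _ _ => hF _ _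

/-- the error process of the dichotomy -/
def Zf (D : Dat n κ) (mg Mk Mh t Λ : ℝ) (c0 m0 : κ → ℝ) (p : ℝ) (z : κ → ℝ) : ℝ :=
  2 * t * Ar D.r (D.vp p z) (D.W p z c0 m0) + t * cl D * Ue.El D.lw (D.vp p z) (D.lp p z) +
    4 * Mh * Mk * D.e * G1 Mk * cE D.h D.ν D.P D.Fn p z +
    2 * T1 Mk mg D.P * cE D.h D.ν D.P (fun x y => max (D.Fn x y - Λ / 2) 0) p z

lemma T1_nn : 0 ≤ T1 Mk mg D.P := by
  have := N1_nn (mg := mg) (D := D) (by linarith [H.ok.P1])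
  have := H.Mk1
  unfold T1 Lg G1; positivity

lemma Zf_nn (Λ : ℝ) (c0 m0 : κ → ℝ) (p : ℝ) (z : κ → ℝ) : 0 ≤ Zf D mg Mk Mh t Λ c0 m0 p z := by
  have := H.ar p z c0 m0
  have := H.el p z
  have := cE_nn H (Fn_nn H) p z
  have := cE_nn H (F := fun x y => max (D.Fn x y - Λ / 2) 0) (fun _ _ => le_max_right _ _) p z
  have := T1_nn H
  have := cl_nn H.ok
  have := H.t0
  have := H.Mh0
  have := H.Mk1
  have := H.e0
  unfold Zf G1; positivity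

/-- the dichotomy -/
lemma dich {c0 m0 cb m z d : κ → ℝ} {p I Λ : ℝ} (hI : Inv D.a D.xa (Lg Mk mg D.P) Λ p cb m I)
    (p0 : 0 ≤ p) (p1 : p ≤ D.P) (h0 : sq c0 + sq m0 ≤ Mk ^ 2 * D.B0) (hΛ : D.B0 ≤ Λ)
    (hR : T1 Mk mg D.P * Λ ≤ D.R) (hd : d = dM (D.vp p z) (D.W p z (c0 + cb) (m0 + m)) D.h) :
    (D.a ^ 2 * (d ⬝ᵥ d) ≤ Lg Mk mg D.P * (Λ * exp (Lg Mk mg D.P * p)) ∧
      dr D.r D.a (D.vp p z) (D.W p z (c0 + cb) (m0 + m)) (fun x => (D.a • d) ⬝ᵥ D.φ x) ≤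
        -((1 + p * D.xa) * ((D.a • d) ⬝ᵥ d)) +
          D.xa * ((D.a • d) ⬝ᵥ dM (D.vp p z) (D.W p z (c0 + cb) (m0 + m)) D.s) +
          Zf D mg Mk Mh t Λ c0 m0 p z + (2 * t * KC + 4 * Mh * Mk * D.e * N1 mg D.P) * I) ∨
      d ⬝ᵥ d ≤ Zf D mg Mk Mh t Λ c0 m0 p z := by
  obtain ⟨s1, s2, s3, s4, s5, s6⟩ := st H (z := z) hI p0 p1 h0 hΛ hR rfl
  set X := G1 Mk * D.bud p z + N1 mg D.P * I with hX
  have k1 := H.kb p z (c0 + cb) (m0 + m) p0 p1 s3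
  have k2 := (H.pr p z (c0 + cb) (m0 + m)).kl_nonneg
  have M1 := H.Mk1
  have k3 : sq d ≤ Mk * X := by
    have := mul_le_mul_of_nonneg_left s1 (by linarith : 0 ≤ Mk)
    rw [hd]; linarith [sq_nn (dM (D.vp p z) (D.W p z (c0 + cb) (m0 + m)) D.s)]
  have a1 : D.a ^ 2 * sq d ≤ sq d :=
    mul_le_of_le_one_left (sq_nn d) (pow_le_one₀ (a_pos H.ok).le (a_le H.ok))
  have n1 := H.ar p z c0 m0
  have n2 := mul_nonneg (mul_nonneg H.t0 (cl_nn H.ok)) (H.el p z)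
  have n3 := cE_nn H (Fn_nn H) p z
  have n4 := cE_nn H (F := fun x y => max (D.Fn x y - Λ / 2) 0) (fun _ _ => le_max_right _ _) p z
  have hb := (B0_bud H p z).2
  have b1 := H.ok.b1
  have E0 : 0 ≤ Mh * D.e := mul_nonneg H.Mh0 H.e0
  have G0 : 0 ≤ G1 Mk := by unfold G1; positivity
  rcases le_total (D.bud p z) Λ with hb' | hb'
  · obtain ⟨u1, u2⟩ := s5 hb'
    have e : √(Mk * X) ^ 2 = Mk * X := sq_sqrt (by linarith [sq_nn d])
    refine Or.inl ⟨a1.trans (k3.trans u1), ?_⟩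
    have q1 := (H.hd p z (c0 + cb) (m0 + m) (D.a • d) 0 _ _ _ p0 p1 u2
      (by rw [e]; linarith [sq_nn (m0 + m)]) (by rw [e, sq_smul]; linarith) rfl rfl).1
    have q2 := (H.hd p z c0 m0 cb m _ _ _ p0 p1 u2
      (by rw [e]; linarith [sq_nn m0, sq_nn cb]) (by rw [e]; linarith [sq_nn m0, sq_nn c0]) rfl rfl).2.2.1
    rw [e] at q1 q2
    rw [← hd] at q1
    have w1 : Mh * D.e * (Mk * X + D.bud p z + sq (m0 + m)) ≤ Mh * D.e * (2 * (Mk * X)) :=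
      mul_le_mul_of_nonneg_left (by linarith [sq_nn (c0 + cb)]) E0
    have w2 : Mh * D.e * (Mk * X + D.bud p z + sq m0) ≤ Mh * D.e * (2 * (Mk * X)) :=
      mul_le_mul_of_nonneg_left (by linarith [sq_nn c0, sq_nn cb]) E0
    have w3 : KC * D.xa * sq cb ≤ KC * (2 * I) := by
      rw [mul_assoc]; exact mul_le_mul_of_nonneg_left hI.c2 H.KC0
    have w4 := mul_le_mul_of_nonneg_left (q2.trans (add_le_add (add_le_add le_rfl w3) w2)) H.t0
    have w5 : t * (Mh * D.e * (2 * (Mk * X))) ≤ Mh * D.e * (2 * (Mk * X)) :=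
      mul_le_of_le_one_left (mul_nonneg E0 (by linarith [sq_nn d])) H.t1
    have w6 : 4 * Mh * Mk * D.e * G1 Mk * D.bud p z ≤
        4 * Mh * Mk * D.e * G1 Mk * cE D.h D.ν D.P D.Fn p z :=
      mul_le_mul_of_nonneg_left (H.bd p z p0 p1) (by have := H.Mh0; have := H.e0; positivity)
    have w7 := mul_nonneg (T1_nn H) n4
    have eX : Mh * D.e * (2 * (Mk * X)) * 2 = 4 * Mh * Mk * D.e * G1 Mk * D.bud p z +
        4 * Mh * Mk * D.e * N1 mg D.P * I := by rw [hX]; ring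
    have eA : t * D.AC (D.vp p z) (D.W p z (c0 + cb) (m0 + m)) (D.lp p z) =
        t * Ar D.r (D.vp p z) (D.W p z (c0 + cb) (m0 + m)) +
          t * cl D * Ue.El D.lw (D.vp p z) (D.lp p z) := by unfold Dat.AC cl; ring
    unfold Zf
    linarith
  · refine Or.inr ?_
    have u1 := mul_le_mul_of_nonneg_left (tl H p0 p1 hb') (T1_nn H)
    have u2 := s6 hb'
    have u3 : 0 ≤ 4 * Mh * Mk * D.e * G1 Mk * cE D.h D.ν D.P D.Fn p z := by
      have := H.Mh0; have := H.e0; positivity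
    have u4 := mul_nonneg H.t0 n1
    change sq d ≤ _
    unfold Zf
    linarith

/-- the rate of the reveal -/
def rR (D : Dat n κ) (mg : ℝ) : ℝ := 1 + D.a / ((1 - D.a') * (1 - mg) * (1 - mg / 4))

lemma rR_bd : 0 ≤ rR D mg ∧ D.a * rR D mg / 2 * (1 + 1 / (mg / 4)) ≤ 10 / mg ^ 2 ∧
    (1 + mg / 4) * rR D mg * D.xa ≤ 1 - mg / 2 := by
  have m0 := H.ok.mg0
  have m1 := H.ok.mg1
  have b := be_ge H.ok
  have a0 := a_pos H.ok
  have a1 := a_le H.ok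
  set β := (1 - D.a') * (1 - mg) with hβ
  have β0 : 0 < β := by linarith
  have q0 : 0 < 1 - mg / 4 := by linarith
  have r0 : 0 ≤ rR D mg := by unfold rR; positivity
  have r1 : rR D mg ≤ 4 / mg := by
    have : D.a / (β * (1 - mg / 4)) ≤ 3 / mg := by
      rw [div_le_div_iff₀ (by positivity) m0]; nlinarith
    have e : 4 / mg = 1 / mg + 3 / mg := by ring
    have : 1 ≤ 1 / mg := by rw [le_div_iff₀ m0]; linarith
    unfold rR; linarith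
  refine ⟨r0, ?_, ?_⟩
  · have u : 1 + 1 / (mg / 4) ≤ 5 / mg := by
      have : 1 ≤ 1 / mg := by rw [le_div_iff₀ m0]; linarith
      have e : 1 / (mg / 4) = 4 * (1 / mg) := by field_simp
      have e' : 5 / mg = 5 * (1 / mg) := by ring
      linarith
    have v : D.a * rR D mg / 2 ≤ 2 / mg := by
      have := mul_le_of_le_one_left r0 a1
      have e : 4 / mg = 2 * (2 / mg) := by ring
      linarith
    refine (mul_le_mul v u (by positivity) (by positivity)).trans_eq ?_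
    field_simp; ring
  · have x := H.ok.xa1
    have u : (1 - mg / 4) * rR D mg ≤ 1 + D.a / β := by
      have e : (1 - mg / 4) * rR D mg = (1 - mg / 4) + D.a / β := by
        have q1 : 4 - mg ≠ 0 := by linarith
        unfold rR; rw [← hβ]; field_simp
      linarith
    have v := mul_le_mul_of_nonneg_right u H.ok.xa0
    have w : (1 - mg / 4) * (rR D mg * D.xa) ≤ 1 - mg := by linarith
    have z0 := mul_nonneg r0 H.ok.xa0
    refine le_of_mul_le_mul_left ?_ q0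
    nlinarith

/-- the potential carried to the end of the burst -/
def Xf (D : Dat n κ) (mg Mk M4 cc Λ : ℝ) (c0 m0 : κ → ℝ) (ξ : (κ → Bool) → (κ → ℝ) → ℝ)
    (p : ℝ) (z : κ → ℝ) : ℝ :=
  10 / mg ^ 2 * sq m0 + 8 * cc * sq c0 + cl D * Ue.El D.lw (D.vp p z) (D.lp p z) +
    D.AT ((1 - D.a') * (1 - mg)) (D.vp p z) (post D.h D.pw p z) +
    M4 * Mk * D.e * G1 Mk * cE D.h D.ν D.P D.Fn p z +
    2 * T1 Mk mg D.P * cE D.h D.ν D.P (fun x y => max (D.Fn x y - Λ / 2) 0) p z +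
    1 / (1 - 2 * D.η) * cE D.h D.ν D.P (fun x u => ξ (D.bT x) u) p z

lemma AT_nn (p : ℝ) (z : κ → ℝ) : 0 ≤ D.AT ((1 - D.a') * (1 - mg)) (D.vp p z) (post D.h D.pw p z) := by
  have h := H.pr p z 0 0
  rw [W_zero] at h
  have b : 0 ≤ (1 - D.a') * (1 - mg) := by linarith [be_ge H.ok, H.ok.mg0]
  exact Finset.sum_nonneg fun j _ => add_nonneg
    (mul_nonneg (a_pos H.ok).le (h.As_nonneg (fun _ => zero_le_one) _))
    (mul_nonneg (by positivity) (h.hv.mean_nonneg fun _ => sq_nonneg _))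

/-- the average over the revealed spins -/
lemma avg {c m z : κ → ℝ} {s q : ℝ} {ξ : (κ → Bool) → (κ → ℝ) → ℝ}
    (v1 : ∀ σ, kl (cut (D.vp D.P z) D.bT σ) (cut (D.W D.P z c 0) D.bT σ) =
      kl (cut (D.vp D.P z) D.bT σ) (cut (D.W D.P z c m) D.bT σ))
    (v2 : ∑ σ, push (D.vp D.P z) D.bT σ * D.AA (cut (D.vp D.P z) D.bT σ) (cut (D.W D.P z c 0) D.bT σ)
        (cut (D.lp D.P z) D.bT σ) = (1 - 2 * D.η) * D.AC (D.vp D.P z) (D.W D.P z c m) (D.lp D.P z))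
    (q0 : 0 ≤ q)
    (hS : ∀ σ, -s ≤ (1 - k) * D.AA (cut (D.vp D.P z) D.bT σ) (cut (D.W D.P z c 0) D.bT σ)
      (cut (D.lp D.P z) D.bT σ) - D.a * (1 - 2 * D.η) * kl (cut (D.vp D.P z) D.bT σ)
        (cut (D.W D.P z c 0) D.bT σ) + q + ξ σ z) :
    -(s / (1 - 2 * D.η)) ≤ (1 - k) * D.AC (D.vp D.P z) (D.W D.P z c m) (D.lp D.P z) -
      D.a * kl (D.vp D.P z) (D.W D.P z c m) +
      D.a * Ent.kl (push (D.vp D.P z) D.bT) (push (D.W D.P z c m) D.bT) + 2 * q +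
      1 / (1 - 2 * D.η) * cE D.h D.ν D.P (fun x u => ξ (D.bT x) u) D.P z := by
  have eξ : cE D.h D.ν D.P (fun x u => ξ (D.bT x) u) D.P z =
      mean (D.vp D.P z) fun x => ξ (D.bT x) z := by simp [cE, slE_zero, Dat.vp]
  have pr := H.pr D.P z c m
  have cut1 := kl_cut pr D.bT
  obtain ⟨r0, r1⟩ := r1 H.ok
  rw [eξ]
  generalize D.vp D.P z = V at *
  generalize D.W D.P z c m = W at *
  generalize 1 - 2 * D.η = r at *
  have u := Finset.sum_le_sum fun σ (_ : σ ∈ Finset.univ) =>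
    mul_le_mul_of_nonneg_left (hS σ) (push_nonneg pr.hv D.bT σ)
  have e2 : ∑ σ, push V D.bT σ * ξ σ z = mean V fun x => ξ (D.bT x) z := by
    rw [← sum_push_mean pr.hv D.bT fun σ _ => ξ σ z]
    refine Finset.sum_congr rfl fun σ _ => ?_
    by_cases ha : push V D.bT σ = 0
    · simp [ha]
    · rw [(wt_cut pr.hv ha).mean_const]
  have e3 : ∑ σ, push V D.bT σ * kl (cut V D.bT σ) (cut W D.bT σ) =
      kl V W - Ent.kl (push V D.bT) (push W D.bT) := by linarith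
  rw [← Finset.sum_mul, sum_push pr.hv, one_mul] at u
  have e4 : ∑ σ, push V D.bT σ * q = q := by rw [← Finset.sum_mul, sum_push pr.hv, one_mul]
  simp only [v1, mul_add, mul_sub, Finset.sum_add_distrib, Finset.sum_sub_distrib, e4, e2,
    mul_left_comm (push V D.bT _) (1 - k), mul_left_comm (push V D.bT _) (D.a * r),
    ← Finset.mul_sum, v2, e3] at u
  rw [← neg_div, div_le_iff₀ (by linarith)]
  have e : 1 / r * (mean V fun x => ξ (D.bT x) z) * r = mean V fun x => ξ (D.bT x) z := by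
    field_simp
  have z1 := mul_le_mul_of_nonneg_left r0 q0
  linarith

/-- the end of the burst -/
lemma term {c0 m0 cb m z : κ → ℝ} {I Λ s γ1 γ2 cc : ℝ} {ξ : (κ → Bool) → (κ → ℝ) → ℝ}
    (hI : Inv D.a D.xa (Lg Mk mg D.P) Λ D.P cb m I)
    (h0 : sq c0 + sq m0 ≤ Mk ^ 2 * D.B0) (hΛ : D.B0 ≤ Λ) (hR : T1 Mk mg D.P * Λ ≤ D.R)
    (k0 : 0 ≤ k) (g0 : 0 ≤ γ1) (g1 : D.P * γ1 ≤ cc) (g2 : 0 ≤ γ2) (g3 : γ2 ≤ cc)
    (cv : ∀ c m, (∀ σ, kl (cut (D.vp D.P z) D.bT σ) (cut (D.W D.P z c 0) D.bT σ) =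
      kl (cut (D.vp D.P z) D.bT σ) (cut (D.W D.P z c m) D.bT σ)) ∧
      ∑ σ, push (D.vp D.P z) D.bT σ * D.AA (cut (D.vp D.P z) D.bT σ) (cut (D.W D.P z c 0) D.bT σ)
        (cut (D.lp D.P z) D.bT σ) = (1 - 2 * D.η) * D.AC (D.vp D.P z) (D.W D.P z c m) (D.lp D.P z))
    (hS : ∀ c σ v w, sq c ≤ D.R → v = cut (D.vp D.P z) D.bT σ → w = cut (D.W D.P z c 0) D.bT σ →
      -s ≤ (1 - k) * D.AA v w (cut (D.lp D.P z) D.bT σ) - D.a * (1 - 2 * D.η) * kl v w + γ1 * sq c +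
        γ2 * (D.xa * sq c) + ξ σ z) :
    -(s / (1 - 2 * D.η)) ≤ Ar D.r (D.vp D.P z) (D.W D.P z (c0 + cb) (m0 + m)) -
      D.a * kl (D.vp D.P z) (D.W D.P z (c0 + cb) (m0 + m)) +
      D.a * ((1 + mg / 4) * rR D mg) / 2 * (m ⬝ᵥ m) + (12 * cc + M4 * Mk * D.e * N1 mg D.P) * I +
      Xf D mg Mk M4 cc Λ c0 m0 ξ D.P z := by
  have P1 := H.ok.P1
  have p0 : 0 ≤ D.P := by linarith
  obtain ⟨s1, s2, s3, s4, s5, s6⟩ := st H (z := z) hI p0 le_rfl h0 hΛ hR rfl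
  obtain ⟨v1, v2⟩ := cv (c0 + cb) (m0 + m)
  have I0 := hI.I0
  have cc0 : 0 ≤ cc := g2.trans g3
  have sc := sq_add2 c0 cb
  have y1 : γ1 * sq (c0 + cb) + γ2 * (D.xa * sq (c0 + cb)) ≤ 4 * cc * sq c0 + 6 * cc * I := by
    have u1 : γ1 * sq cb ≤ cc * I :=
      (mul_le_mul_of_nonneg_left hI.c1 g0).trans (by
        rw [← mul_assoc, mul_comm γ1]; exact mul_le_mul_of_nonneg_right g1 I0)
    have u2 : γ1 * sq c0 ≤ cc * sq c0 :=
      mul_le_mul_of_nonneg_right ((le_mul_of_one_le_left g0 P1).trans g1) (sq_nn _)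
    have u3 : D.xa * sq c0 ≤ sq c0 := mul_le_of_le_one_left (sq_nn _) (xa_le H.ok)
    have u4 : D.xa * sq cb ≤ 2 * I := hI.c2
    have u5 := mul_le_mul_of_nonneg_left sc H.ok.xa0
    have u6 := mul_le_mul g3 (show D.xa * sq (c0 + cb) ≤ 2 * sq c0 + 4 * I by linarith)
      (mul_nonneg H.ok.xa0 (sq_nn _)) cc0
    linarith [mul_le_mul_of_nonneg_left sc g0]
  have f := avg H (s := s) (ξ := ξ) v1 v2 (q := 4 * cc * sq c0 + 6 * cc * I)
    (by have := sq_nn c0; positivity) fun σ => by linarith [hS (c0 + cb) σ _ _ s3 rfl rfl]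
  have pr := H.pr D.P z (c0 + cb) (m0 + m)
  have cut1 := kl_cut pr D.bT
  have n1 := H.ar D.P z (c0 + cb) (m0 + m)
  have n2 := mul_nonneg (cl_nn H.ok) (H.el D.P z)
  have eA : D.AC (D.vp D.P z) (D.W D.P z (c0 + cb) (m0 + m)) (D.lp D.P z) =
    Ar D.r (D.vp D.P z) (D.W D.P z (c0 + cb) (m0 + m)) + cl D * Ue.El D.lw (D.vp D.P z) (D.lp D.P z) := rfl
  have n3 := cE_nn H (Fn_nn H) D.P z
  have n4 := cE_nn H (F := fun x y => max (D.Fn x y - Λ / 2) 0) (fun _ _ => le_max_right _ _) D.P z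
  have hb := (B0_bud H D.P z).2
  have b1 := H.ok.b1
  have M1 := H.Mk1
  have e0 := H.e0
  have M40 := H.M40
  have G0 : 0 ≤ G1 Mk := by unfold G1; positivity
  have N0 : 0 ≤ N1 mg D.P := N1_nn p0
  obtain ⟨ρ0, ρ1, -⟩ := rR_bd H
  have a0 := a_pos H.ok
  have n5 : 0 ≤ D.a * ((1 + mg / 4) * rR D mg) / 2 * sq m := by
    have := H.ok.mg0; have := sq_nn m; positivity
  have n6 : 0 ≤ 10 / mg ^ 2 * sq m0 := by have := sq_nn m0; positivity
  have n7 := mul_nonneg (T1_nn H) n4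
  have n8 := AT_nn H D.P z
  have n9 := mul_nonneg k0 (add_nonneg n1 n2)
  change _ ≤ _ + D.a * ((1 + mg / 4) * rR D mg) / 2 * sq m + _ + _
  unfold Xf
  rcases le_total (D.bud D.P z) Λ with hb' | hb'
  · obtain ⟨-, u2⟩ := s5 hb'
    have e := sq_sqrt (show 0 ≤ Mk * (G1 Mk * D.bud D.P z + N1 mg D.P * I) by
      linarith [sq_nn (c0 + cb), sq_nn (m0 + m)])
    have q1 := H.h4 z (c0 + cb) (m0 + m) _ _ _ _ u2 (by rw [e]; linarith) rfl rfl rfl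
    rw [e] at q1
    have w2 := mul_le_mul_of_nonneg_left (H.bd D.P z p0 le_rfl)
      (by positivity : 0 ≤ M4 * Mk * D.e * G1 Mk)
    have w3 : D.a * rR D mg / 2 * sq (m0 + m) ≤
        10 / mg ^ 2 * sq m0 + D.a * ((1 + mg / 4) * rR D mg) / 2 * sq m := by
      have u := mul_le_mul_of_nonneg_left (sq_add_le m0 m (θ := mg / 4) (by linarith [H.ok.mg0]))
        (by positivity : 0 ≤ D.a * rR D mg / 2)
      have u1 := mul_le_mul_of_nonneg_right ρ1 (sq_nn m0)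
      linarith
    change _ ≤ _ + D.a * rR D mg / 2 * sq (m0 + m) + _ + _ at q1
    rw [eA] at f q1
    linarith
  · have u1 := mul_le_mul_of_nonneg_left (tl H p0 le_rfl hb') (T1_nn H)
    have u2 := s6 hb'
    have i1 : 0 ≤ ∑ σ, push (D.vp D.P z) D.bT σ * kl (cut (D.vp D.P z) D.bT σ)
        (cut (D.W D.P z (c0 + cb) (m0 + m)) D.bT σ) := Finset.sum_nonneg fun σ _ => by
      by_cases ha : push (D.vp D.P z) D.bT σ = 0
      · simp [ha]
      · exact mul_nonneg (push_nonneg pr.hv _ _) (pr.cut ha).kl_nonneg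
    have i2 := H.kb D.P z (c0 + cb) (m0 + m) p0 le_rfl s3
    have i3 := mul_le_mul_of_nonneg_left s1 (by linarith : 0 ≤ Mk)
    have i4 := mul_le_of_le_one_left pr.kl_nonneg (a_le H.ok)
    have i5 := mul_le_mul_of_nonneg_left (show Ent.kl (push (D.vp D.P z) D.bT)
      (push (D.W D.P z (c0 + cb) (m0 + m)) D.bT) ≤ kl _ _ by linarith) a0.le
    have u7 : 0 ≤ M4 * Mk * D.e * G1 Mk * cE D.h D.ν D.P D.Fn D.P z := by positivity
    have u8 : 0 ≤ M4 * Mk * D.e * N1 mg D.P * I := by positivity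
    rw [eA] at f
    linarith [sq_nn (dM (D.vp D.P z) (D.W D.P z (c0 + cb) (m0 + m)) D.h),
      sq_nn (dM (D.vp D.P z) (D.W D.P z (c0 + cb) (m0 + m)) D.s)]

end cx

end Crest.Agent.T157.Br.Act50
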