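import Crest.Agent.T157.BrActA_50

/-!
# Row 157, block B, S1: the glue of the act B, initial tilt and assembly (helper50)
-/

set_option autoImplicit false
set_option linter.unusedVariables false
set_option linter.unusedSectionVars false

noncomputable section

namespace Crest.Agent.T157.Br.Act50

open Real Matrix Function
open Crest.Agent.T157.E Crest.Agent.T157.SL Crest.Agent.T157.Ta
open Crest.Agent.T157.Rec (grad)
open Crest.Agent.T157.Br.Sm54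

variable {n : ℕ} {κ : Type} [Fintype κ] [DecidableEq κ] {D : Dat n κ}
  {mg C0 CV K1 KC Mk Mt Mh M4 t k : ℝ}

lemma vp00 : D.vp 0 0 = D.ν := post00 _
lemma lp00 : D.lp 0 0 = D.l := post00 _
lemma W00 : D.W 0 0 0 0 = D.pw := (W_zero 0 0).trans (post00 _)

lemma xg_max {F : (κ → ℝ) → ℝ} (h : XG F) (c : ℝ) : XG fun y => max (F y - c) 0 :=
  .of_mg ((h.mg.sub (.const c)).of_le ((h.mg.sub (.const c)).meas.max measurable_const) fun g => by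
    rcases le_total (F g - c) 0 with h | h <;> simp [h])

variable (H : Cx D mg C0 CV K1 KC Mk Mt Mh M4 t k)
include H

/-- the initial tilt -/
lemma init {k0 : ℝ} {d δ c0 m0 : κ → ℝ} (hd : d = dM D.ν D.pw D.h) (hδ : δ = dM D.ν D.pw D.s)
    (hc : c0 = k0 • d) (hm : m0 = (-(D.xa * k0 / D.a)) • d + (-k0) • δ) (k1 : 0 ≤ k0)
    (k2 : 2 * k0 ≤ mg) (b0 : D.bud 0 0 ≤ Mk * D.B0) (hR : Mk ^ 2 * D.B0 ≤ D.R) :
    sq c0 + sq m0 ≤ Mk ^ 2 * D.B0 ∧ sq c0 ≤ k0 ^ 2 * (sq d + sq δ) ∧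
      sq m0 ≤ 2 * k0 ^ 2 / mg ^ 2 * (sq d + sq δ) ∧
      Ar D.r D.ν (D.W 0 0 c0 m0) - D.a * kl D.ν (D.W 0 0 c0 m0) ≤
        Ar D.r D.ν D.pw - D.a * kl D.ν D.pw - mg * k0 * (sq d + sq δ) + KC * k0 ^ 2 * (sq d + sq δ) +
          t * D.AC D.ν D.pw D.l + 4 * Mh * Mk ^ 2 * D.e * D.B0 ∧
      Ar D.r D.ν (D.W 0 0 c0 m0) ≤
        2 * Ar D.r D.ν D.pw + KC * k0 ^ 2 * (sq d + sq δ) + 2 * Mh * Mk ^ 2 * D.e * D.B0 := by
  have m0' := H.ok.mg0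
  have m1 := H.ok.mg1
  have a0 := a_pos H.ok
  have b1 := H.ok.b1
  have M1 := H.Mk1
  have d0 := sq_nn d
  have δ0 := sq_nn δ
  have P0 : 0 ≤ D.P := by linarith [H.ok.P1]
  have B1 : D.B0 ≤ Mk * D.B0 := le_mul_of_one_le_left (by linarith) M1
  have B2 : Mk * D.B0 ≤ Mk ^ 2 * D.B0 := by
    rw [pow_two, mul_assoc]; exact le_mul_of_one_le_left (by linarith) M1
  have kb := H.kb 0 0 0 0 le_rfl P0 (by rw [sq_zero]; linarith)
  have kn := (H.pr 0 0 0 0).kl_nonneg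
  rw [vp00, W00] at kb kn
  rw [sq_zero, add_zero, add_zero, ← hd, ← hδ] at kb
  have X1 : sq d + sq δ ≤ Mk ^ 2 * D.B0 := by
    have := mul_le_mul_of_nonneg_left b0 (by linarith : 0 ≤ Mk)
    linarith
  have s1 : sq c0 = k0 ^ 2 * sq d := by rw [hc, sq_smul]
  have q1 : k0 ^ 2 ≤ k0 ^ 2 / mg ^ 2 := by
    rw [le_div_iff₀ (by positivity)]
    exact mul_le_of_le_one_right (sq_nonneg _) (pow_le_one₀ m0'.le (by linarith))
  have q2 : k0 ^ 2 / mg ^ 2 ≤ 1 / 4 := by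
    rw [div_le_iff₀ (by positivity)]; nlinarith
  have s2 : sq m0 ≤ 2 * k0 ^ 2 / mg ^ 2 * (sq d + sq δ) := by
    have u := sq_add2 ((-(D.xa * k0 / D.a)) • d) ((-k0) • δ)
    rw [← hm, sq_smul, sq_smul, neg_sq, neg_sq] at u
    have u1 : (D.xa * k0 / D.a) ^ 2 ≤ k0 ^ 2 / mg ^ 2 := by
      rw [← div_pow]
      refine pow_le_pow_left₀ (by have := H.ok.xa0; positivity) ?_ 2
      exact div_le_div₀ k1 (mul_le_of_le_one_left k1 (xa_le H.ok)) m0' H.ok.a0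
    have u2 := mul_le_mul_of_nonneg_right u1 d0
    have u3 := mul_le_mul_of_nonneg_right q1 δ0
    rw [mul_div_assoc]
    linarith
  have s3 : sq c0 ≤ k0 ^ 2 * (sq d + sq δ) := by rw [s1]; nlinarith [sq_nonneg k0]
  have s4 : sq c0 + sq m0 ≤ Mk ^ 2 * D.B0 := by
    have u1 := mul_le_mul_of_nonneg_right (q1.trans q2) (add_nonneg d0 δ0)
    have u2 := mul_le_mul_of_nonneg_right q2 (add_nonneg d0 δ0)
    rw [mul_div_assoc] at s2
    linarith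
  have e : √(Mk ^ 2 * D.B0) ^ 2 = Mk ^ 2 * D.B0 := sq_sqrt (by linarith)
  obtain ⟨h1, h2, h3, -⟩ := H.hd 0 0 0 0 c0 m0 √(Mk ^ 2 * D.B0) _ _ le_rfl P0
    ⟨sqrt_nonneg _, by rw [e]; linarith, by rw [e]; exact hR⟩ (by rw [e, sq_zero]; linarith)
    (by rw [e]; linarith [sq_nn m0]) vp00.symm W00.symm
  rw [e, sq_zero, zero_add, zero_add] at h2 h3
  rw [e, sq_zero, lp00, ← hd, ← hδ] at h1
  rw [← hδ] at h2
  have E0 : 0 ≤ Mh * D.e := mul_nonneg H.Mh0 H.e0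
  have w1 : Mh * D.e * (Mk ^ 2 * D.B0 + D.bud 0 0 + 0) ≤ Mh * D.e * (2 * (Mk ^ 2 * D.B0)) :=
    mul_le_mul_of_nonneg_left (by linarith) E0
  have w2 : KC * D.xa * sq c0 ≤ KC * k0 ^ 2 * (sq d + sq δ) := by
    rw [mul_assoc, mul_assoc]
    exact mul_le_mul_of_nonneg_left ((mul_le_of_le_one_left (sq_nn _) (xa_le H.ok)).trans s3) H.KC0
  have e1 : c0 ⬝ᵥ d = k0 * sq d := by rw [hc, smul_dotProduct, smul_eq_mul, sq]
  have e2 : D.a * (m0 ⬝ᵥ δ) = -(D.xa * (c0 ⬝ᵥ δ)) - D.a * k0 * sq δ := by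
    rw [hc, hm, add_dotProduct, smul_dotProduct, smul_dotProduct, smul_dotProduct, sq]
    simp only [smul_eq_mul]
    field_simp
    ring
  have w3 : mg * k0 * sq d ≤ k0 * sq d := by
    rw [mul_assoc]; exact mul_le_of_le_one_left (by positivity) (by linarith)
  have w4 : mg * k0 * sq δ ≤ D.a * k0 * sq δ := by
    rw [mul_assoc, mul_assoc]; exact mul_le_mul_of_nonneg_right H.ok.a0 (by positivity)
  rw [e1] at h1
  rw [e2] at h2
  exact ⟨s4, s3, s2, by linarith, by linarith⟩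

/-- the act in normalised units -/
lemma core (hB : BurstStmt) {s γ1 γ2 cc k0 τ : ℝ} {ξ : (κ → Bool) → (κ → ℝ) → ℝ}
    (k1 : 0 ≤ k0) (k2 : 2 * k0 ≤ mg) (k3 : k0 * (20 / mg ^ 4 + 2 * KC + 8) ≤ mg / 2)
    (hk : 0 ≤ k) (hτ : D.P * t = τ) (τ1 : 16 * τ ≤ k) (τ2 : 64 * τ * KC ≤ mg) (τ3 : 4 * τ ≤ 1)
    (c1 : cc ≤ 1) (c2 : 384 * cc ≤ mg)
    (e1 : 32 * (M4 * Mk * D.e * N1 mg D.P) ≤ mg) (e2 : 32 * (D.P * (4 * Mh * Mk * D.e * N1 mg D.P)) ≤ mg)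
    (b0 : D.bud 0 0 ≤ Mk * D.B0) (hR : T1 Mk mg D.P * (2 * Mt * D.Dh) ≤ D.R)
    (hF : ∀ x, XG (D.Fn x)) (t1 : slE D.h D.ν D.P D.Fn ≤ Mt * D.B0)
    (t2 : slE D.h D.ν D.P (fun x u => max (D.Fn x u - Mt * D.Dh) 0) ≤ Mt * exp (-D.Dh))
    (cv : ∀ z c m, (∀ σ, kl (cut (D.vp D.P z) D.bT σ) (cut (D.W D.P z c 0) D.bT σ) =
      kl (cut (D.vp D.P z) D.bT σ) (cut (D.W D.P z c m) D.bT σ)) ∧
      ∑ σ, push (D.vp D.P z) D.bT σ * D.AA (cut (D.vp D.P z) D.bT σ) (cut (D.W D.P z c 0) D.bT σ)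
        (cut (D.lp D.P z) D.bT σ) = (1 - 2 * D.η) * D.AC (D.vp D.P z) (D.W D.P z c m) (D.lp D.P z))
    (sA : ∀ c m, SM D.h D.ν D.P fun p z => Ar D.r (D.vp p z) (D.W p z c m))
    (sE : SM D.h D.ν D.P fun p z => Ue.El D.lw (D.vp p z) (D.lp p z))
    (sT : ∀ β, SM D.h D.ν D.P fun p z => D.AT β (D.vp p z) (post D.h D.pw p z))
    (r0 : Off D.r) (r2 : ∀ j x, 0 ≤ D.r j x ∧ D.r j x ≤ 1)
    (r3 : ∀ j x k, D.r j x * grad (fun y => D.s y k) x j = 0)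
    (g0 : 0 ≤ γ1) (g1 : D.P * γ1 ≤ cc) (g2 : 0 ≤ γ2) (g3 : γ2 ≤ cc) (hξ : ∀ σ, XG (ξ σ))
    (hS : ∀ z c σ v w, sq c ≤ D.R → v = cut (D.vp D.P z) D.bT σ → w = cut (D.W D.P z c 0) D.bT σ →
      -s ≤ (1 - k) * D.AA v w (cut (D.lp D.P z) D.bT σ) - D.a * (1 - 2 * D.η) * kl v w + γ1 * sq c +
        γ2 * (D.xa * sq c) + ξ σ z) :
    -(s / (1 - 2 * D.η)) ≤ (1 + k) * D.AC D.ν D.pw D.l + D.AT ((1 - D.a') * (1 - mg)) D.ν D.pw -
      D.a * kl D.ν D.pw - mg * k0 / 2 * (sq (dM D.ν D.pw D.h) + sq (dM D.ν D.pw D.s)) +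
      (6 * Mh * Mk ^ 2 + (M4 + 8 * D.P * Mh) * Mk * G1 Mk * Mt) * D.e * D.B0 +
      (2 + 4 * D.P) * T1 Mk mg D.P * Mt * exp (-D.Dh) +
      1 / (1 - 2 * D.η) * slE D.h D.ν D.P fun x u => ξ (D.bT x) u := by
  have m0' := H.ok.mg0
  have a0 := a_pos H.ok
  have a1 := a_le H.ok
  have b1 := H.ok.b1
  have bD := H.ok.bD
  have M1 := H.Mk1
  have Mt1 := H.Mt1
  have Mh0 := H.Mh0
  have M40 := H.M40
  have KC0 := H.KC0
  have e0 := H.e0
  have t0 := H.t0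
  have P1 := H.ok.P1
  have P0 : 0 ≤ D.P := by linarith
  have N0 : 0 ≤ N1 mg D.P := N1_nn P0
  have G0 : 0 ≤ G1 Mk := by unfold G1; positivity
  have L0 : 0 ≤ Lg Mk mg D.P := by unfold Lg; positivity
  have T0 := T1_nn H
  have cc0 : 0 ≤ cc := g2.trans g3
  have τ0 : 0 ≤ τ := by rw [← hτ]; positivity
  have hΛ : D.B0 ≤ 2 * Mt * D.Dh := by nlinarith
  have hR' : Mk ^ 2 * D.B0 ≤ D.R := by
    refine le_trans ?_ hR
    refine mul_le_mul ?_ hΛ (by linarith) T0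
    have u1 : Mk ^ 2 ≤ Lg Mk mg D.P := by
      have : Mk ^ 2 ≤ G1 Mk + N1 mg D.P := by unfold G1; nlinarith
      exact this.trans (le_mul_of_one_le_left (by linarith) M1)
    exact u1.trans (le_mul_of_one_le_right L0 (one_le_exp (by positivity)))
  obtain ⟨i0, i1, i2, i3, i4⟩ := init H rfl rfl rfl rfl k1 k2 b0 hR'
  set d := dM D.ν D.pw D.h
  set δ := dM D.ν D.pw D.s
  set c0 := k0 • d
  set m0 := (-(D.xa * k0 / D.a)) • d + (-k0) • δ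
  obtain ⟨ρ0, -, ρ2⟩ := rR_bd H
  have pr := H.pr 0 0 c0 m0
  rw [vp00] at pr
  have hv := pr.hv
  have r1' := (r1 H.ok).1
  have hT : ∀ x, XG fun y => max (D.Fn x y - 2 * Mt * D.Dh / 2) 0 := fun x => xg_max (hF x) _
  have B := hB n κ D.r D.ν (D.W 0 0 c0 m0) D.h D.φ D.s D.a D.xa ((1 + mg / 4) * rR D mg) D.P
    (12 * cc + M4 * Mk * D.e * N1 mg D.P) (2 * t * KC + 4 * Mh * Mk * D.e * N1 mg D.P)
    (Lg Mk mg D.P) (2 * Mt * D.Dh) (s / (1 - 2 * D.η))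
    (Xf D mg Mk M4 cc (2 * Mt * D.Dh) c0 m0 ξ) (Zf D mg Mk Mh t (2 * Mt * D.Dh) c0 m0)
    pr r0 r2 r3 a0 H.ok.xa0 (xa_le H.ok) (by positivity) P0 (by positivity) (by positivity) L0
    (by linarith) (by
      have u : 12 * cc + M4 * Mk * D.e * N1 mg D.P +
          D.P * (2 * t * KC + 4 * Mh * Mk * D.e * N1 mg D.P) ≤ mg / 8 := by
        have : D.P * (2 * t * KC) = 2 * τ * KC := by rw [← hτ]; ring
        linarith
      have := mul_le_mul a1 u (by positivity) zero_le_one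
      linarith)
    (sm_add (sm_add (sm_add (sm_add' (sm_add (sm_const hv _) sE (cl_nn H.ok)) (sT _))
      (sm_cE hv hF) (by positivity)) (sm_cE hv hT) (by positivity))
      (sm_cE hv fun x => hξ (D.bT x)) (by positivity))
    (sm_add (sm_add (sm_add (sm_smul hv (sA c0 m0) (by positivity)) sE
      (mul_nonneg t0 (cl_nn H.ok))) (sm_cE hv hF) (by positivity)) (sm_cE hv hT) (by positivity))
    (Zf_nn H _ c0 m0)
    (fun p z cb m I p0 p1 hI V W d' hV hW hd => by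
      rw [W_W] at hW
      subst hV hW
      exact dich H hI p0 p1 i0 hΛ hR hd)
    (fun z cb m I hI => by
      rw [W_W]
      exact term H hI i0 hΛ hR hk g0 g1 g2 g3 (cv z) (hS z))
  have c00 : ∀ F : Cube n → (κ → ℝ) → ℝ, cE D.h D.ν D.P F 0 0 = slE D.h D.ν D.P F := fun F => by
    simp [cE, post00]
  have eΛ : 2 * Mt * D.Dh / 2 = Mt * D.Dh := by ring
  simp only [Xf, Zf, c00, vp00, lp00, post00, eΛ] at B
  have nA := H.ar 0 0 0 0
  have nE := mul_nonneg (cl_nn H.ok) (H.el 0 0)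
  have nW := H.ar 0 0 c0 m0
  rw [vp00, W00] at nA
  rw [vp00, lp00] at nE
  rw [vp00] at nW
  have eA : D.AC D.ν D.pw D.l = Ar D.r D.ν D.pw + cl D * Ue.El D.lw D.ν D.l := rfl
  have nF : 0 ≤ slE D.h D.ν D.P D.Fn := slE_nonneg hv (Fn_nn H)
  have nT : 0 ≤ slE D.h D.ν D.P fun x u => max (D.Fn x u - Mt * D.Dh) 0 :=
    slE_nonneg hv fun _ _ => le_max_right _ _
  have X0 : 0 ≤ sq d + sq δ := add_nonneg (sq_nn d) (sq_nn δ)
  have tτ : t ≤ τ := by rw [← hτ]; exact le_mul_of_one_le_left t0 P1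
  rw [eA] at i3 ⊢
  generalize Ar D.r D.ν (D.W 0 0 c0 m0) = A1 at *
  generalize Ar D.r D.ν D.pw = A0 at *
  generalize Ue.El D.lw D.ν D.l = E0 at *
  generalize slE D.h D.ν D.P D.Fn = F0 at *
  generalize (slE D.h D.ν D.P fun x u => max (D.Fn x u - Mt * D.Dh) 0) = F1 at *
  generalize sq d + sq δ = X at *
  have z1 : (1 + D.a) * D.P * (2 * t * A1 + t * cl D * E0 + 4 * Mh * Mk * D.e * G1 Mk * F0 +
      2 * T1 Mk mg D.P * F1) ≤ 2 * D.P * (2 * t * A1 + t * cl D * E0 +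
        4 * Mh * Mk * D.e * G1 Mk * F0 + 2 * T1 Mk mg D.P * F1) := by
    refine mul_le_mul_of_nonneg_right (mul_le_mul_of_nonneg_right (by linarith) P0) ?_
    have := mul_nonneg t0 nE
    have : 0 ≤ 2 * t * A1 := by positivity
    have : 0 ≤ 4 * Mh * Mk * D.e * G1 Mk * F0 := by positivity
    have : 0 ≤ 2 * T1 Mk mg D.P * F1 := by positivity
    linarith
  have z2 : 2 * D.P * (2 * t * A1 + t * cl D * E0) = 4 * τ * A1 + 2 * τ * (cl D * E0) := by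
    rw [← hτ]; ring
  have z3 := mul_le_mul_of_nonneg_left i4 (by positivity : 0 ≤ 4 * τ)
  have z4 := mul_le_of_le_one_left (by positivity : 0 ≤ KC * k0 ^ 2 * X + 2 * Mh * Mk ^ 2 * D.e * D.B0) τ3
  have z5 := mul_le_mul_of_nonneg_right τ1 nA
  have z6 := mul_le_mul_of_nonneg_right τ1 nE
  have z7 := mul_le_mul_of_nonneg_right tτ (add_nonneg nA nE)
  have z8 := mul_nonneg τ0 nA
  have z9 := mul_nonneg τ0 nE
  have y1 := mul_le_mul_of_nonneg_left t1 (by positivity : 0 ≤ (M4 + 8 * D.P * Mh) * Mk * G1 Mk * D.e)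
  have y2 := mul_le_mul_of_nonneg_left t2 (by positivity : 0 ≤ (2 + 4 * D.P) * T1 Mk mg D.P)
  have y3 : 10 / mg ^ 2 * sq m0 ≤ 20 / mg ^ 4 * k0 ^ 2 * X :=
    (mul_le_mul_of_nonneg_left i2 (by positivity)).trans_eq (by field_simp; ring)
  have y4 : 8 * cc * sq c0 ≤ 8 * (k0 ^ 2 * X) := by
    have := mul_le_of_le_one_left (sq_nn c0) c1
    linarith
  have y5 := mul_le_mul_of_nonneg_right k3 (mul_nonneg k1 X0)
  linarith

end Crest.Agent.T157.Br.Act50
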