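import Crest.Agent.T157.TaB_40

/-!
# Row 157, block B, S1 (helper71): the drop of `kl` along a short channel is at most
`s |d|² / 2 + O(s²)`, uniformly in the pair of weights
-/

set_option autoImplicit false
set_option linter.unusedSectionVars false

noncomputable section

namespace Crest.Agent.T157.Br.K71

open Real Matrix MeasureTheory
open Crest.Agent.T157.E Crest.Agent.T157.SL Crest.Agent.T157.Ta

variable {Ω ι : Type*} [Fintype Ω] [Fintype ι] [DecidableEq ι] {φ : Ω → ι → ℝ} {u v w : Ω → ℝ}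
  {s b : ℝ}

/-- coordinatewise bound -/
def Bc (b : ℝ) (y : ι → ℝ) : Prop := ∀ k, |y k| ≤ b

lemma Bc.dot {b' : ℝ} {y y' : ι → ℝ} (h : Bc b y) (h' : Bc b' y') :
    |y ⬝ᵥ y'| ≤ Fintype.card ι * (b * b') :=
  (Finset.abs_sum_le_sum_abs _ _).trans ((Finset.sum_le_card_nsmul _ _ (b * b') fun k _ => by
    rw [abs_mul]
    exact mul_le_mul (h k) (h' k) (abs_nonneg _) ((abs_nonneg _).trans (h k))).trans_eq (by simp))

lemma Bc.sub {b' : ℝ} {y y' : ι → ℝ} (h : Bc b y) (h' : Bc b' y') : Bc (b + b') (y - y') := fun k =>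
  (abs_sub _ _).trans (add_le_add (h k) (h' k))

lemma Bc.smul {y : ι → ℝ} (h : Bc b y) {c : ℝ} (hc : 0 ≤ c) : Bc (c * b) (c • y) := fun k => by
  rw [Pi.smul_apply, smul_eq_mul, abs_mul, abs_of_nonneg hc]
  exact mul_le_mul_of_nonneg_left (h k) hc

lemma bc_meanV (hu : Wt u) (hb : ∀ x, Bc b (φ x)) : Bc b (meanV u φ) := fun k =>
  hu.abs_mean_le fun x => hb x k

lemma int_exp (hs : 0 ≤ s) (a y : ι → ℝ) (c : ℝ) :
    ∫ g, exp (a ⬝ᵥ (y + √s • g) - c) ∂Gs ι = exp (a ⬝ᵥ y + s / 2 * (a ⬝ᵥ a) - c) := by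
  have e : ∀ g, exp (a ⬝ᵥ (y + √s • g) - c) =
      exp (a ⬝ᵥ y + s / 2 * (a ⬝ᵥ a) - c) * Rec.eh (√s • a) g := fun g => by
    rw [Rec.eh, ← exp_add]
    congr 1
    simp only [smul_dotProduct, dotProduct_smul, smul_eq_mul, dotProduct_add, dotProduct_comm g a]
    have := mul_self_sqrt hs
    linear_combination (a ⬝ᵥ a) / 2 * this
  simp only [e, integral_const_mul, Rec.int_eh, mul_one]

lemma xg_exp (a : ι → ℝ) (c : ℝ) : XG fun y : ι → ℝ => exp (a ⬝ᵥ y - c) :=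
  ((LG.dot a).sub (.const c)).exp

/-- likelihood ratio of the observation with respect to the Gaussian centred at the mean -/
def lr0 (φ : Ω → ι → ℝ) (u : Ω → ℝ) (s : ℝ) (y : ι → ℝ) : ℝ :=
  mean u fun x => exp ((φ x - meanV u φ) ⬝ᵥ y - s / 2 * (φ x ⬝ᵥ φ x - meanV u φ ⬝ᵥ meanV u φ))

lemma xg_lr0 : XG (lr0 φ u s) := xg_mean0 u fun _ => xg_exp _ _

lemma lr0_pos (hu : Wt u) (y : ι → ℝ) : 0 < lr0 φ u s y := mean_pos' hu fun _ => exp_pos _

lemma log_Z (hu : Wt u) (y : ι → ℝ) : log (mean u fun x => exp (lk φ s x y)) =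
    log (lr0 φ u s y) + (meanV u φ ⬝ᵥ y - s / 2 * (meanV u φ ⬝ᵥ meanV u φ)) := by
  rw [← log_exp (meanV u φ ⬝ᵥ y - _), ← log_mul (lr0_pos hu y).ne' (exp_pos _).ne', lr0,
    ← mean_mul_const]
  congr 2; ext x
  rw [← exp_add, lk, sub_dotProduct, dotProduct_comm y]
  congr 1; ring

lemma mean_ctr (hu : Wt u) (c : ι → ℝ) : mean u (fun x => (φ x - meanV u φ) ⬝ᵥ c) = 0 := by
  simp only [dotProduct_comm _ c, dotProduct_sub, mean_sub, hu.mean_const, ← meanV_dot, sub_self]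

lemma slE_lr0 (hs : 0 ≤ s) : slE φ v s (fun _ => lr0 φ u s) =
    mean v fun x => mean u fun x' => exp (s * ((φ x' - meanV u φ) ⬝ᵥ (φ x - meanV u φ))) := by
  rw [slE_eq_mean]
  congr 1; ext x
  simp only [lr0]
  rw [int_mean _ fun x' => (xg_exp _ _).mg.affine _ _]
  congr 1; ext x'
  rw [int_exp hs]
  congr 1
  simp only [sub_dotProduct, dotProduct_sub, dotProduct_smul, smul_eq_mul,
    dotProduct_comm (meanV u φ) (φ x')]
  ring

lemma slE_lr0_sq (hs : 0 ≤ s) : slE φ v s (fun _ y => lr0 φ u s y ^ 2) =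
    mean v fun x => mean u fun x' => mean u fun x'' =>
      exp (s * ((φ x' - meanV u φ) ⬝ᵥ (φ x - meanV u φ) + (φ x'' - meanV u φ) ⬝ᵥ (φ x - meanV u φ) +
        (φ x'' - meanV u φ) ⬝ᵥ (φ x' - meanV u φ))) := by
  have e : ∀ y, lr0 φ u s y ^ 2 = mean u fun x' => mean u fun x'' =>
      exp (((φ x' - meanV u φ) + (φ x'' - meanV u φ)) ⬝ᵥ y -
        (s / 2 * (φ x' ⬝ᵥ φ x' - meanV u φ ⬝ᵥ meanV u φ) +
          s / 2 * (φ x'' ⬝ᵥ φ x'' - meanV u φ ⬝ᵥ meanV u φ))) := fun y => by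
    rw [sq, lr0, ← mean_mul_const]
    congr 1; ext x'
    rw [← mean_const_mul]
    congr 1; ext x''
    rw [← exp_add, add_dotProduct]
    congr 1; ring
  rw [slE_eq_mean]
  congr 1; ext x
  simp only [e]
  rw [int_mean _ fun x' => (xg_mean0 u fun x'' => xg_exp _ _).mg.affine _ _]
  congr 1; ext x'
  rw [int_mean _ fun x'' => (xg_exp _ _).mg.affine _ _]
  congr 1; ext x''
  rw [int_exp hs]
  congr 1
  simp only [sub_dotProduct, dotProduct_sub, add_dotProduct, dotProduct_add, dotProduct_smul,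
    smul_eq_mul, dotProduct_comm (meanV u φ) (φ x'), dotProduct_comm (meanV u φ) (φ x''),
    dotProduct_comm (φ x') (φ x'')]
  ring

lemma exp_le_sq {t B : ℝ} (h : |t| ≤ B) (hB : B ≤ 1) : exp t ≤ 1 + t + B ^ 2 := by
  have h1 := abs_le.1 (abs_exp_sub_one_sub_id_le (h.trans hB))
  have h2 := sq_le_sq' (abs_le.1 h).1 (abs_le.1 h).2
  linarith [h1.2]

/-- **the drop of `H` along a short channel, upper bound** -/
theorem kl_chan_ge (h : Pr v w) (hs : 0 ≤ s) (hb : ∀ x, Bc b (φ x)) {D : ℝ}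
    (hD : Fintype.card ι * (4 * b ^ 2) ≤ D) (h1 : 3 * (s * D) ≤ 1) :
    kl v w - s / 2 * ((meanV v φ - meanV w φ) ⬝ᵥ (meanV v φ - meanV w φ)) - 19 * (s * D) ^ 2 ≤
      slE φ v s fun _ y => kl (post φ v s y) (post φ w s y) := by
  have D0 : 0 ≤ s * D := mul_nonneg hs (le_trans (by positivity) hD)
  have bd : ∀ {u : Ω → ℝ}, Wt u → ∀ x x', |s * ((φ x' - meanV u φ) ⬝ᵥ (φ x - meanV u φ))| ≤ s * D :=
    fun hu x x' => by
      rw [abs_mul, abs_of_nonneg hs]
      refine mul_le_mul_of_nonneg_left ((((hb x').sub (bc_meanV hu hb)).dot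
        ((hb x).sub (bc_meanV hu hb))).trans (le_trans (le_of_eq (by ring)) hD)) hs
  set Z : (Ω → ℝ) → (ι → ℝ) → ℝ := fun u y => log (mean u fun x => exp (lk φ s x y)) with hZ
  have lv : LG (Z v) := .lme h.hv.nn (lg_lk φ s)
  have lw : LG (Z w) := .lme h.hw.nn (lg_lk φ s)
  have e1 : slE φ v s (fun _ y => kl (post φ v s y) (post φ w s y)) =
      slE φ v s fun x y => log (prob v x / prob w x) - Z v y + Z w y := by
    rw [bayes h.hv hs (.of_mg fun x => (((LG.const _).sub lv).add lw).xg.mg)]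
    simp only [post_eq, kl_wt2 h, add_sub_cancel_right, hZ]
  set d := meanV v φ - meanV w φ with hd
  set c := s / 2 * (meanV v φ ⬝ᵥ meanV v φ) - s / 2 * (meanV w φ ⬝ᵥ meanV w φ) with hc
  have la : LG fun y => 1 * (d ⬝ᵥ y - c) := ((LG.dot d).sub (.const c)).const_mul 1
  have m1 : MG (lr0 φ v s) := xg_lr0.mg
  have m2 : MG (lr0 φ w s) := xg_lr0.mg
  have m3 : MG fun y => lr0 φ w s y ^ 2 := xg_lr0.sq.mg
  have a1 : slE φ v s (fun _ => lr0 φ v s) ≤ 1 + (s * D) ^ 2 := by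
    rw [slE_lr0 hs]
    refine h.hv.mean_le fun x => (h.hv.mean_mono fun x' =>
      exp_le_sq (bd h.hv x x') (by linarith)).trans_eq ?_
    simp only [mean_add, h.hv.mean_const, mean_const_mul, mean_ctr h.hv, mul_zero, add_zero]
  have a2 : 1 ≤ slE φ v s (fun _ => lr0 φ w s) := by
    rw [slE_lr0 hs]
    refine h.hv.le_mean fun x => le_trans (le_of_eq ?_) (h.hw.mean_mono fun x' => add_one_le_exp _)
    simp only [mean_add, h.hw.mean_const, mean_const_mul, mean_ctr h.hw, mul_zero, zero_add]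
  have a3 : slE φ v s (fun _ y => lr0 φ w s y ^ 2) ≤ 1 + (3 * (s * D)) ^ 2 := by
    rw [slE_lr0_sq hs]
    refine h.hv.mean_le fun x => (h.hw.mean_mono fun x' => h.hw.mean_mono fun x'' =>
      exp_le_sq (B := 3 * (s * D)) ?_ h1).trans_eq ?_
    · rw [mul_add, mul_add]
      have := abs_le.1 (bd h.hw x x')
      have := abs_le.1 (bd h.hw x x'')
      have := abs_le.1 (bd h.hw x' x'')
      rw [abs_le]; constructor <;> linarith
    · simp only [mean_add, h.hw.mean_const, mean_const_mul, mean_ctr h.hw, mul_zero, add_zero]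
  have a4 : ∀ y, 1 / 2 ≤ lr0 φ w s y := fun y => by
    have b1 := mean_le_log h.hw fun x =>
      (φ x - meanV w φ) ⬝ᵥ y - s / 2 * (φ x ⬝ᵥ φ x - meanV w φ ⬝ᵥ meanV w φ)
    have b2 : ∀ x, φ x ⬝ᵥ φ x - meanV w φ ⬝ᵥ meanV w φ =
        (φ x - meanV w φ) ⬝ᵥ (φ x - meanV w φ) + 2 * ((φ x - meanV w φ) ⬝ᵥ meanV w φ) := fun x => by
      simp only [sub_dotProduct, dotProduct_sub, dotProduct_comm (meanV w φ) (φ x)]; ring
    have b3 : mean w (fun x => s * ((φ x - meanV w φ) ⬝ᵥ (φ x - meanV w φ))) ≤ s * D :=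
      h.hw.mean_le fun x => (abs_le.1 (bd h.hw x x)).2
    rw [mean_sub, mean_ctr h.hw] at b1
    simp only [b2, mean_const_mul, mean_add, mean_ctr h.hw] at b1 b3
    have b4 := add_one_le_exp (log (lr0 φ w s y))
    rw [exp_log (lr0_pos h.hw y)] at b4
    simp only [lr0, b2] at b4 ⊢
    linarith
  rw [e1]
  have l1 : ∀ x, MG fun y => log (prob v x / prob w x) - 2 - 1 * (d ⬝ᵥ y - c) := fun x =>
    ((LG.const _).sub la).xg.mg
  refine le_trans ?_ (slE_mono (F := fun x y => log (prob v x / prob w x) - 2 - 1 * (d ⬝ᵥ y - c) -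
    lr0 φ v s y + 5 * lr0 φ w s y - 2 * lr0 φ w s y ^ 2) h.hv
    (.of_mg fun x => (((l1 x).sub m1).add (m2.const_mul 5)).sub (m3.const_mul 2))
    (.of_mg fun x => (((LG.const _).sub lv).add lw).xg.mg) fun x y => ?_)
  · rw [slE_sub (.of_mg fun x => ((l1 x).sub m1).add (m2.const_mul 5)) (.of_mg fun _ => m3.const_mul 2),
      slE_add (.of_mg fun x => (l1 x).sub m1) (.of_mg fun _ => m2.const_mul 5),
      slE_sub (.of_mg l1) (.of_mg fun _ => m1),
      slE_sub (.of_mg fun x => .const _) (.of_mg fun x => la.xg.mg), slE_fun,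
      slE_lin (fun _ => 1) (fun _ => d) (fun _ => c), slE_const_mul, slE_const_mul]
    simp only [one_mul, mean_sub, h.hv.mean_const, mean_const_mul, ← meanV_dot]
    have e2 : s * (d ⬝ᵥ meanV v φ) - c = s / 2 * (d ⬝ᵥ d) := by
      simp only [hd, hc, sub_dotProduct, dotProduct_sub, dotProduct_comm (meanV w φ) (meanV v φ)]
      ring
    change _ ≤ kl v w - 2 - _ - _ + _ - _
    rw [e2]
    nlinarith
  · simp only [hZ, log_Z h.hv, log_Z h.hw, hd, hc, sub_dotProduct]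
    have p1 := log_le_sub_one_of_pos (lr0_pos (φ := φ) (s := s) h.hv y)
    have p2 := one_sub_inv_le_log_of_pos (lr0_pos (φ := φ) (s := s) h.hw y)
    have p3 := a4 y
    generalize lr0 φ w s y = R at p2 p3 ⊢
    have p4 : R⁻¹ ≤ 4 - 5 * R + 2 * R ^ 2 := by
      rw [inv_le_iff_one_le_mul₀ (by linarith)]
      nlinarith [mul_nonneg (sq_nonneg (1 - R)) (show 0 ≤ 2 * R - 1 by linarith)]
    linarith

end Crest.Agent.T157.Br.K71

end
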