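import Crest.Agent.T157.BrDef_50
import Crest.Agent.T157.BrKl_71

/-!
# Row 157, block B, S1 (helper71): the burst (`Br.BurstStmt`)
-/

set_option autoImplicit false
set_option linter.unusedSectionVars false

noncomputable section

namespace Crest.Agent.T157.Br

open Real Matrix Function Filter Topology
open Crest.Agent.T157.E Crest.Agent.T157.SL Crest.Agent.T157.Ta
open Crest.Agent.T157.Rec (grad)

namespace K71

variable {n : ℕ} {κ : Type} [Fintype κ] [DecidableEq κ] {r : Fin n → Cube n → ℝ}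
  {V W G : Cube n → ℝ} {hT φ sT : Cube n → κ → ℝ} {a b h β D : ℝ}

lemma abs_grad_le (hG : ∀ x, |G x| ≤ β) (x : Cube n) (j : Fin n) : |grad G x j| ≤ β := by
  have h1 := abs_le.1 (hG (update x j true))
  have h2 := abs_le.1 (hG (update x j false))
  simp only [grad, incr, abs_le]
  constructor <;> linarith [h1.1, h1.2, h2.1, h2.2]

/-- the tilt of the reference -/
lemma tilt_step (p : Pr V W) (hr : Off r) (hr0 : ∀ j x, 0 ≤ r j x ∧ r j x ≤ 1) (ha : 0 ≤ a)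
    (hG : ∀ x, |G x| ≤ β) :
    Ar r V (wt W G) - a * kl V (wt W G) ≤ Ar r V W - a * kl V W + dr r a V W G + n * (β ^ 2 / 2) := by
  have h1 : Ar r V (wt W G) ≤ ∑ j, (As (r j) V W j -
      mean V (fun x => r j x * (grad G x j * chi V W j x)) + β ^ 2 / 2) :=
    Finset.sum_le_sum fun j _ => (As_wt_le p (hr j) (fun x => (hr0 j x).1) G).trans
      (add_le_add le_rfl (p.hv.mean_le fun x => by
        have := abs_le.1 (abs_grad_le hG x j)
        nlinarith [hr0 j x, sq_le_sq' this.1 this.2, sq_nonneg (grad G x j)]))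
  have h2 := mul_le_mul_of_nonneg_left (kl_wt_ge p G) ha
  simp only [Finset.sum_add_distrib, Finset.sum_sub_distrib, Finset.sum_const, Finset.card_univ,
    Fintype.card_fin, nsmul_eq_mul] at h1
  rw [dr]
  change _ ≤ Ar r V W - _ + _ at h1
  linarith

lemma mg_F (p : Pr V W) (hr : Off r) (hT : Cube n → κ → ℝ) (a h : ℝ) : MG fun g =>
    Ar r (post hT V h g) (post hT W h g) - a * kl (post hT V h g) (post hT W h g) :=
  ((xg_Ar p hr (lg_lk hT h) (lg_lk hT h)).sub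
    ((xg_kl p (lg_lk hT h) (lg_lk hT h)).const_mul a)).mg

/-- tilt, then channel -/
lemma step (p : Pr V W) (hr : Off r) (hr0 : ∀ j x, 0 ≤ r j x ∧ r j x ≤ 1) (ha : 0 ≤ a) (h0 : 0 ≤ h)
    (hb : ∀ x, Bc b (hT x)) (hD : Fintype.card κ * (4 * b ^ 2) ≤ D) (h1 : 3 * (h * D) ≤ 1)
    (hG : ∀ x, |G x| ≤ β) :
    slE hT V h (fun _ g => Ar r (post hT V h g) (post hT (wt W G) h g) -
        a * kl (post hT V h g) (post hT (wt W G) h g)) ≤
      Ar r V W - a * kl V W + dr r a V W G + a * (h / 2) * (dM V W hT ⬝ᵥ dM V W hT) +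
        (n * (β ^ 2 / 2) + a * (h / 2) * (D * β) + a * (19 * (h * D) ^ 2)) := by
  have q := p.wt G
  have m1 : MG fun g => Ar r (post hT V h g) (post hT (wt W G) h g) :=
    (xg_Ar q hr (lg_lk hT h) (lg_lk hT h)).mg
  have m2 : MG fun g => a * kl (post hT V h g) (post hT (wt W G) h g) :=
    ((xg_kl q (lg_lk hT h) (lg_lk hT h)).const_mul a).mg
  rw [slE_sub (.of_mg fun _ => m1) (.of_mg fun _ => m2), slE_const_mul]
  have a1 := Ar_chan_le (φ := hT) q h0 hr fun j x => (hr0 j x).1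
  have a2 := mul_le_mul_of_nonneg_left (kl_chan_ge q h0 hb hD h1) ha
  have a3 := tilt_step p hr hr0 ha hG
  obtain ⟨x0, -⟩ := p.hv.exists_pos
  have β0 : 0 ≤ β := (abs_nonneg _).trans (hG x0)
  have a4 : (meanV V hT - meanV (wt W G) hT) ⬝ᵥ (meanV V hT - meanV (wt W G) hT) ≤
      dM V W hT ⬝ᵥ dM V W hT + D * β := by
    have c1 : Bc (b * β) (meanV W hT - meanV (wt W G) hT) := fun k => by
      rw [Pi.sub_apply, abs_sub_comm]
      exact abs_mean_wt_sub p.hw (fun x => hb x k) hG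
    have c2 : Bc (b + b + (b + b)) (meanV V hT - meanV (wt W G) hT - (meanV W hT - meanV V hT)) :=
      ((bc_meanV p.hv hb).sub (bc_meanV q.hw hb)).sub ((bc_meanV p.hw hb).sub (bc_meanV p.hv hb))
    have c3 := (abs_le.1 (c1.dot c2)).2
    have c4 := mul_le_mul_of_nonneg_right hD β0
    simp only [dM, sub_dotProduct, dotProduct_sub, dotProduct_comm (meanV W hT) (meanV V hT),
      dotProduct_comm (meanV (wt W G) hT) (meanV V hT),
      dotProduct_comm (meanV (wt W G) hT) (meanV W hT)] at c3 ⊢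
    nlinarith
  have a5 := mul_le_mul_of_nonneg_left a4 (mul_nonneg ha (by positivity : 0 ≤ h / 2))
  linarith

/-- the first order term is linear in the tilt -/
lemma dr_lin (hs : ∀ j x k, r j x * grad (fun y => sT y k) x j = 0) (c : κ → ℝ) (τ e : ℝ) :
    dr r a V W (fun x => (τ • c) ⬝ᵥ φ x + (e • c) ⬝ᵥ sT x) =
      τ * dr r a V W (fun x => c ⬝ᵥ φ x) + a * e * (c ⬝ᵥ dM V W sT) := by
  have e1 : ∀ j x, r j x * (grad (fun x => (τ • c) ⬝ᵥ φ x + (e • c) ⬝ᵥ sT x) x j * chi V W j x) =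
      τ * (r j x * (grad (fun x => c ⬝ᵥ φ x) x j * chi V W j x)) := fun j x => by
    have e2 : r j x * grad (fun x => c ⬝ᵥ sT x) x j = ∑ k, c k * (r j x * grad (fun y => sT y k) x j) := by
      simp only [grad, incr, dotProduct, ← Finset.sum_sub_distrib, Finset.sum_div, Finset.mul_sum]
      exact Finset.sum_congr rfl fun k _ => by ring
    simp only [hs, mul_zero, Finset.sum_const_zero] at e2
    simp only [smul_dotProduct, smul_eq_mul, Rec.grad_add, Rec.grad_const_mul, Pi.add_apply,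
      Pi.smul_apply]
    linear_combination e * chi V W j x * e2
  simp only [dr, e1, mean_const_mul, ← Finset.mul_sum]
  simp only [smul_dotProduct, smul_eq_mul, mean_add, mean_const_mul, dM, dotProduct_sub, meanV_dot]
  ring

lemma wS_next (w : Cube n → ℝ) (p h : ℝ) (z g cb m c c' : κ → ℝ) :
    wS hT φ sT w (p + h) (z + g) (cb + c) (m + c') =
      post hT (wt (wS hT φ sT w p z cb m) fun x => c ⬝ᵥ φ x + c' ⬝ᵥ sT x) h g := by
  ext x
  simp only [wS, wt, post, mul_assoc, ← exp_add, add_dotProduct]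
  congr 2; ring

lemma inv_step {cb c : κ → ℝ} {U I t : ℝ} (h0 : 0 ≤ h) (hU : 0 ≤ U) (hI : 0 ≤ I)
    (H : cb ⬝ᵥ cb ≤ U * I) :
    (cb + (h * t) • c) ⬝ᵥ (cb + (h * t) • c) ≤ (U + h * t ^ 2) * (I + h * (c ⬝ᵥ c)) := by
  have c0 : 0 ≤ c ⬝ᵥ c := Finset.sum_nonneg fun i _ => mul_self_nonneg _
  have cs : (cb ⬝ᵥ c) ^ 2 ≤ (cb ⬝ᵥ cb) * (c ⬝ᵥ c) := by
    simpa only [dotProduct, sq] using Finset.sum_mul_sq_le_sq_mul_sq Finset.univ cb c
  have k : 2 * t * (cb ⬝ᵥ c) ≤ U * (c ⬝ᵥ c) + t ^ 2 * I := by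
    refine (abs_le_of_sq_le_sq' ?_ (by positivity)).2
    have := mul_le_mul_of_nonneg_left (cs.trans (mul_le_mul_of_nonneg_right H c0))
      (by positivity : 0 ≤ 4 * t ^ 2)
    nlinarith [sq_nonneg (U * (c ⬝ᵥ c) - t ^ 2 * I)]
  simp only [add_dotProduct, dotProduct_add, smul_dotProduct, dotProduct_smul, smul_eq_mul,
    dotProduct_comm c cb]
  nlinarith [mul_le_mul_of_nonneg_left k h0]

/-- the majorant of the Riemann sums of `(1 + p x₀)⁻²` -/
def UU (x0 h p : ℝ) : ℝ := (1 + h * x0) * p * (1 + p * x0)⁻¹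

lemma UU_step {x0 p : ℝ} (hx : 0 ≤ x0) (h0 : 0 ≤ h) (hp : 0 ≤ p) :
    UU x0 h p + h * ((1 + p * x0)⁻¹) ^ 2 ≤ UU x0 h (p + h) := by
  have h1 : 0 < 1 + p * x0 := by positivity
  have h2 : 0 < 1 + (p + h) * x0 := by positivity
  rw [UU, UU, ← sub_nonneg]
  have : (1 + h * x0) * (p + h) * (1 + (p + h) * x0)⁻¹ -
      ((1 + h * x0) * p * (1 + p * x0)⁻¹ + h * (1 + p * x0)⁻¹ ^ 2) =
      h * (h * x0 * (p * x0)) * ((1 + p * x0)⁻¹ ^ 2 * (1 + (p + h) * x0)⁻¹) := by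
    field_simp; ring
  rw [this]; positivity

lemma UU_le {x0 p : ℝ} (hx : 0 ≤ x0) (h0 : 0 ≤ h) (hp : 0 ≤ p) : x0 * UU x0 h p ≤ 1 + h * x0 := by
  have h1 : 0 < 1 + p * x0 := by positivity
  rw [UU, ← mul_assoc, mul_inv_le_iff₀ h1]
  nlinarith [mul_nonneg h0 hx]

lemma UU_le' {x0 : ℝ} (hx : 0 ≤ x0) (h0 : 0 ≤ h) (i : ℕ) : UU x0 h (i * h) ≤ i * h := by
  have h1 : 0 < 1 + i * h * x0 := by positivity
  rw [UU, mul_inv_le_iff₀ h1]
  rcases i with _ | i
  · simp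
  · push_cast
    have : 0 ≤ (i : ℝ) * ((i + 1) * h) * (h * x0) := by positivity
    nlinarith

lemma mk_inv {x0 L Λ I : ℝ} {cb : κ → ℝ} (ha : 0 < a) (hx : 0 ≤ x0) (hx1 : x0 ≤ 1) (h0 : 0 ≤ h)
    (h1 : h ≤ 1) (i : ℕ) (hI : 0 ≤ I) (hI' : I ≤ Λ * exp (L * (i * h)))
    (H : cb ⬝ᵥ cb ≤ UU x0 h (i * h) * I) :
    Inv a x0 L Λ (i * h) cb ((-(x0 / a)) • cb) I ∧
      a ^ 2 * (((-(x0 / a)) • cb) ⬝ᵥ ((-(x0 / a)) • cb)) ≤ x0 * (1 + h) * I := by
  have e : a ^ 2 * (((-(x0 / a)) • cb) ⬝ᵥ ((-(x0 / a)) • cb)) = x0 * (x0 * (cb ⬝ᵥ cb)) := by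
    simp only [smul_dotProduct, dotProduct_smul, smul_eq_mul]; field_simp
  have u := UU_le (p := i * h) hx h0 (by positivity)
  have c2 : x0 * (cb ⬝ᵥ cb) ≤ (1 + h) * I := by
    have a1 := mul_le_mul_of_nonneg_left H hx
    have a2 := mul_le_mul_of_nonneg_right u hI
    have a3 := mul_le_mul_of_nonneg_right (mul_le_mul_of_nonneg_left hx1 h0) hI
    nlinarith
  have c3 := mul_le_mul_of_nonneg_left c2 hx
  have c4 : (1 + h) * I ≤ 2 * I := mul_le_mul_of_nonneg_right (by linarith) hI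
  have c5 : x0 * ((1 + h) * I) ≤ 1 * ((1 + h) * I) :=
    mul_le_mul_of_nonneg_right hx1 (by positivity)
  refine ⟨⟨hI, hI', H.trans (mul_le_mul_of_nonneg_right (UU_le' hx h0 i) hI), by linarith, ?_⟩, ?_⟩ <;>
    rw [e] <;> linarith

lemma exists_bc (f : Cube n → κ → ℝ) : ∃ b, 0 ≤ b ∧ ∀ x, Bc b (f x) :=
  ⟨‖f‖, norm_nonneg _, fun x k => (norm_le_pi_norm (f x) k).trans (norm_le_pi_norm f x)⟩

lemma tilt_bd {x0 t θ b2 b3 : ℝ} {d y y' : κ → ℝ} (ha : 0 < a) (hx : 0 ≤ x0) (hx1 : x0 ≤ 1) (h0 : 0 ≤ h)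
    (t0 : 0 ≤ t) (t1 : t ≤ 1) (θ0 : 0 ≤ θ) (θ1 : θ ≤ a) (bd : Bc b d) (h2 : Bc b2 y) (h3 : Bc b3 y') :
    |((h * t) • θ • d) ⬝ᵥ y + ((-(x0 / a) * (h * t)) • θ • d) ⬝ᵥ y'| ≤
      h * (Fintype.card κ * (a * b * b2) + Fintype.card κ * (b * b3)) := by
  have c1 := bd.dot h2
  have c2 := bd.dot h3
  have ht1 : h * t ≤ h := mul_le_of_le_one_right h0 t1
  have c3 : x0 / a * θ ≤ 1 := by
    rw [div_mul_eq_mul_div, div_le_one ha]; exact (mul_le_of_le_one_left θ0 hx1).trans θ1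
  have c4 : 0 ≤ x0 / a * θ := by positivity
  refine (abs_add_le _ _).trans ?_
  simp only [smul_dotProduct, smul_eq_mul]
  rw [show -(x0 / a) * (h * t) * (θ * d ⬝ᵥ y') = -(h * t * (x0 / a * θ * d ⬝ᵥ y')) by ring,
    abs_neg, abs_mul (h * t), abs_mul (h * t), abs_mul θ, abs_mul (_ * θ),
    abs_of_nonneg (mul_nonneg h0 t0), abs_of_nonneg θ0, abs_of_nonneg c4, mul_add]
  refine add_le_add (mul_le_mul ht1 ?_ (by positivity) h0) (mul_le_mul ht1 ?_ (by positivity) h0)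
  · exact (mul_le_mul θ1 c1 (abs_nonneg _) ha.le).trans_eq (by ring)
  · exact (mul_le_mul c3 c2 (abs_nonneg _) zero_le_one).trans_eq (by ring)

/-- the potential -/
def Pot (r : Fin n → Cube n → ℝ) (v w : Cube n → ℝ) (hT φ sT : Cube n → κ → ℝ) (a x0 p : ℝ)
    (z cb : κ → ℝ) : ℝ :=
  Ar r (post hT v p z) (wS hT φ sT w p z cb ((-(x0 / a)) • cb)) -
    a * kl (post hT v p z) (wS hT φ sT w p z cb ((-(x0 / a)) • cb))

/-- one step with the control `c` -/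
lemma one {v w : Cube n → ℝ} {x0 q t P s A B M : ℝ} {z cb c : κ → ℝ} {Ξ Z : ℝ → (κ → ℝ) → ℝ}
    (p : Pr v w) (hr : Off r) (hr0 : ∀ j x, 0 ≤ r j x ∧ r j x ≤ 1)
    (hs : ∀ j x k, r j x * grad (fun y => sT y k) x j = 0) (ha : 0 < a) (h0 : 0 ≤ h) (q0 : 0 ≤ q)
    (hP : q + h ≤ P) (hb : ∀ x, Bc b (hT x)) (hD : Fintype.card κ * (4 * b ^ 2) ≤ D)
    (h3 : 3 * (h * D) ≤ 1) (hΞ : SM hT v P Ξ) (hZ : SM hT v P Z) (hB : 0 ≤ B)
    (hG : ∀ x, |((h * t) • c) ⬝ᵥ φ x + ((-(x0 / a) * (h * t)) • c) ⬝ᵥ sT x| ≤ h * M)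
    (ih : ∀ g, -s ≤ Pot r v w hT φ sT a x0 (q + h) (z + g) (cb + (h * t) • c) + A +
      Ξ (q + h) (z + g) + B * Z (q + h) (z + g))
    (hV : V = post hT v q z) (hW : W = wS hT φ sT w q z cb ((-(x0 / a)) • cb)) :
    -s ≤ Pot r v w hT φ sT a x0 q z cb + h * t * (dr r a V W (fun x => c ⬝ᵥ φ x) -
      x0 * (c ⬝ᵥ dM V W sT)) + a * (h / 2) * (dM V W hT ⬝ᵥ dM V W hT) +
      h ^ 2 * (n * (M ^ 2 / 2) + a / 2 * (D * M) + a * (19 * D ^ 2)) + A + Ξ q z + B * Z q z := by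
  have pV : Pr V W := by rw [hV, hW]; exact (p.post hT q q z z).wt _
  have s1 := step pV hr hr0 ha.le h0 hb hD h3 hG
  rw [dr_lin hs] at s1
  have s2 := hΞ.2 q h z q0 h0 hP
  have s3 := mul_le_mul_of_nonneg_left (hZ.2 q h z q0 h0 hP) hB
  rw [← hV] at s2 s3
  have mY : ∀ {Y : ℝ → (κ → ℝ) → ℝ}, SM hT v P Y → MG fun g => Y (q + h) (z + g) := fun hY => by
    simpa using (hY.1 (q + h)).mg.affine z 1
  have mF := mg_F (pV.wt fun x => ((h * t) • c) ⬝ᵥ φ x + ((-(x0 / a) * (h * t)) • c) ⬝ᵥ sT x) hr hT a h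
  have s4 := slE_mono (φ := hT) (s := h) pV.hv (.of_mg fun _ => MG.const (-s))
    (.of_mg fun _ => ((mF.add (.const A)).add (mY hΞ)).add ((mY hZ).const_mul B)) fun _ g => by
      have := ih g
      rw [Pot, smul_add, smul_smul (-(x0 / a)) (h * t), wS_next, ← post_post, ← hV, ← hW] at this
      exact this
  rw [slE_add (.of_mg fun _ => (mF.add (.const _)).add (mY hΞ)) (.of_mg fun _ => (mY hZ).const_mul _),
    slE_add (.of_mg fun _ => mF.add (.const _)) (.of_mg fun _ => mY hΞ),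
    slE_add (.of_mg fun _ => mF) (.of_mg fun _ => .const _), slE_const_mul] at s4
  simp only [slE_fun, pV.hv.mean_const] at s4
  have e1 : a * (-(x0 / a) * (h * t)) = -(h * t * x0) := by field_simp
  rw [e1] at s1
  rw [Pot, ← hV, ← hW]
  linarith

lemma fin1 {s F h t R δ a d E K e I X j Z u : ℝ} (h0 : 0 ≤ h) (t0 : 0 ≤ t) (t1 : t ≤ 1) (ha : 0 ≤ a)
    (d0 : 0 ≤ d) (Z0 : 0 ≤ Z) (he : 0 ≤ e * I) (tq : t * u = 1) (K1 : K * a ≤ 1 / 2)
    (c2 : R ≤ -(u * (a * d)) + δ + Z + e * I)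
    (a1 : -s ≤ F + h * t * (R - δ) + a * (h / 2) * d + h ^ 2 * E +
      (K * (I + h * (a ^ 2 * d)) + j * (h ^ 2 * E)) + X + (1 + a) * (j * h) * Z) :
    -s ≤ F + (K + h * e) * I + X + (1 + a) * ((j + 1) * h) * Z + (j + 1) * (h ^ 2 * E) := by
  have a2 := mul_le_mul_of_nonneg_left c2 (mul_nonneg h0 t0)
  have a3 : h * t * (u * (a * d)) = h * (a * d) := by linear_combination h * (a * d) * tq
  have a4 : h * t * (Z + e * I) ≤ h * (Z + e * I) :=
    mul_le_mul_of_nonneg_right (mul_le_of_le_one_right h0 t1) (by positivity)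
  have a5 := mul_le_mul_of_nonneg_right K1 (by positivity : 0 ≤ h * (a * d))
  have a6 : 0 ≤ a * (h * Z) := by positivity
  linarith

lemma fin2 {s F h a d E K e I X j Z : ℝ} (h0 : 0 ≤ h) (ha : 0 ≤ a) (Z0 : 0 ≤ Z) (he : 0 ≤ e * I)
    (c1 : d ≤ Z) (a1 : -s ≤ F + a * (h / 2) * d + h ^ 2 * E +
      (K * I + j * (h ^ 2 * E)) + X + (1 + a) * (j * h) * Z) :
    -s ≤ F + (K + h * e) * I + X + (1 + a) * ((j + 1) * h) * Z + (j + 1) * (h ^ 2 * E) := by
  have a2 := mul_le_mul_of_nonneg_left c1 (by positivity : 0 ≤ a * (h / 2))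
  have a6 : 0 ≤ a * (h * Z) := by positivity
  have a7 : 0 ≤ h * Z := by positivity
  have a8 : 0 ≤ h * (e * I) := by positivity
  linarith

lemma grow {I Λ L q h y : ℝ} (h0 : 0 ≤ h) (hΛ : 0 ≤ Λ) (hI : I ≤ Λ * exp (L * q))
    (hy : y ≤ L * (Λ * exp (L * q))) : I + h * y ≤ Λ * exp (L * (q + h)) := by
  have c1 := mul_le_mul_of_nonneg_left hy h0
  have c2 := mul_le_mul_of_nonneg_left (add_one_le_exp (L * h)) (by positivity : 0 ≤ Λ * exp (L * q))
  rw [mul_add L, exp_add]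
  linarith

end K71

open K71 in
theorem burstStmt : BurstStmt := by
  intro n κ _ _ r v w hT φ sT a x0 ρ P γ e1 L Λ s Ξ Z p hr hr0 hs ha hx hx1 hρ hP hγ he hL hΛ hm
    hΞ hZ hZ0 HD HT
  obtain ⟨b1, b10, hb1⟩ := exists_bc hT
  obtain ⟨b2, b20, hb2⟩ := exists_bc φ
  obtain ⟨b3, b30, hb3⟩ := exists_bc sT
  obtain ⟨D, hD⟩ : ∃ D : ℝ, Fintype.card κ * (4 * b1 ^ 2) ≤ D := ⟨_, le_rfl⟩
  obtain ⟨M, hM⟩ : ∃ M : ℝ, M =
    Fintype.card κ * (a * (b1 + b1) * b2) + Fintype.card κ * ((b1 + b1) * b3) := ⟨_, rfl⟩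
  obtain ⟨E, hE⟩ : ∃ E : ℝ, E = n * (M ^ 2 / 2) + a / 2 * (D * M) + a * (19 * D ^ 2) := ⟨_, rfl⟩
  have key : ∀ (N : ℕ) (h : ℝ), N * h = P → 0 ≤ h → h ≤ 1 → 3 * (h * D) ≤ 1 →
      ρ * x0 * (1 + h) + 2 * a * (γ + P * e1) ≤ 1 → ∀ j i : ℕ, i + j = N → ∀ z cb I, 0 ≤ I →
      I ≤ Λ * exp (L * (i * h)) → cb ⬝ᵥ cb ≤ UU x0 h (i * h) * I →
      -s ≤ Pot r v w hT φ sT a x0 (i * h) z cb +
        (ρ * x0 * (1 + h) / (2 * a) + γ + j * h * e1) * I + Ξ (i * h) z +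
        (1 + a) * (j * h) * Z (i * h) z + j * (h ^ 2 * E) := by
    intro N h hN h0 h1 h3 hK j
    induction j with
    | zero =>
      intro i hi z cb I hI hI' H
      obtain ⟨i1, i2⟩ := mk_inv ha hx hx1 h0 h1 i hI hI' H
      have hp : i * h = P := by rw [← hN, ← hi, add_zero]
      rw [hp] at i1 ⊢
      have a1 := HT z cb _ I i1
      have a2 : a * ρ / 2 * (((-(x0 / a)) • cb) ⬝ᵥ ((-(x0 / a)) • cb)) ≤
          ρ * x0 * (1 + h) / (2 * a) * I := by
        have := mul_le_mul_of_nonneg_left i2 (by positivity : 0 ≤ ρ / (2 * a))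
        refine le_trans (le_of_eq ?_) (this.trans_eq ?_) <;> field_simp
      simp only [Nat.cast_zero, zero_mul, mul_zero, add_zero, Pot]
      linarith
    | succ j ih =>
      intro i hi z cb I hI hI' H
      obtain ⟨i1, -⟩ := mk_inv ha hx hx1 h0 h1 i hI hI' H
      have p0 : 0 ≤ (i : ℝ) * h := by positivity
      have j0 : 0 ≤ (j : ℝ) * h := by positivity
      have hp : i * h + h + j * h = P := by rw [← hN, ← hi]; push_cast; ring
      have ih' := ih (i + 1) (by omega)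
      rw [Nat.cast_succ, add_mul, one_mul] at ih'
      generalize (i : ℝ) * h = q at p0 hp ih' i1 hI' H ⊢
      obtain ⟨V, hV⟩ : ∃ V, V = post hT v q z := ⟨_, rfl⟩
      obtain ⟨W, hW⟩ : ∃ W, W = wS hT φ sT w q z cb ((-(x0 / a)) • cb) := ⟨_, rfl⟩
      have pV : Pr V W := by rw [hV, hW]; exact (p.post hT q q z z).wt _
      have q1 : 1 ≤ 1 + q * x0 := le_add_of_nonneg_right (mul_nonneg p0 hx)
      have t0 : 0 ≤ (1 + q * x0)⁻¹ := by positivity
      have t1 : (1 + q * x0)⁻¹ ≤ 1 := inv_le_one_of_one_le₀ q1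
      have bd : Bc (b1 + b1) (dM V W hT) := (bc_meanV pV.hv hb1).sub (bc_meanV pV.hw hb1)
      have d0 : 0 ≤ dM V W hT ⬝ᵥ dM V W hT := Finset.sum_nonneg fun i _ => mul_self_nonneg _
      obtain ⟨K, hK'⟩ : ∃ K, K = ρ * x0 * (1 + h) / (2 * a) + γ + j * h * e1 := ⟨_, rfl⟩
      have K1 : K * a ≤ 1 / 2 := by
        have e : K * a = (ρ * x0 * (1 + h) + 2 * a * (γ + j * h * e1)) / 2 := by
          rw [hK']; field_simp; ring
        have : a * (j * h * e1) ≤ a * (P * e1) := by gcongr; linarith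
        rw [e]; linarith
      rw [← hK'] at ih'
      rw [show ρ * x0 * (1 + h) / (2 * a) + γ + (j + 1 : ℕ) * h * e1 = K + h * e1 by
        rw [hK']; push_cast; ring, Nat.cast_succ]
      have onn := fun (θ : ℝ) (θ0 : 0 ≤ θ) (θ1 : θ ≤ a)
          (hθ : θ ^ 2 * (dM V W hT ⬝ᵥ dM V W hT) ≤ L * (Λ * exp (L * q))) =>
        one (s := s) (M := M) (A := K * (I + h * (θ ^ 2 * (dM V W hT ⬝ᵥ dM V W hT))) + j * (h ^ 2 * E))
          (B := (1 + a) * (j * h)) (c := θ • dM V W hT) (t := (1 + q * x0)⁻¹) p hr hr0 hs ha h0 p0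
          (by linarith) hb1 hD h3 hΞ hZ (by positivity)
          (fun x => hM ▸ tilt_bd ha hx hx1 h0 t0 t1 θ0 θ1 bd (hb2 x) (hb3 x)) (fun g => by
            have ec : (θ • dM V W hT) ⬝ᵥ (θ • dM V W hT) = θ ^ 2 * (dM V W hT ⬝ᵥ dM V W hT) := by
              simp only [smul_dotProduct, dotProduct_smul, smul_eq_mul]; ring
            have I2 := inv_step (c := θ • dM V W hT) (t := (1 + q * x0)⁻¹) h0
              (by unfold UU; positivity) hI H
            rw [ec] at I2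
            have I0 : 0 ≤ I + h * (θ ^ 2 * (dM V W hT ⬝ᵥ dM V W hT)) := by positivity
            have := ih' (z + g) _ _ I0 (grow h0 hΛ hI' hθ)
              (I2.trans (mul_le_mul_of_nonneg_right (UU_step hx h0 p0) I0))
            linarith) hV hW
      rw [← hE] at onn
      rcases HD q z cb _ I p0 (by linarith) i1 V W _ hV hW rfl with ⟨c1, c2⟩ | c1
      · have a1 := onn a ha.le le_rfl c1
        rw [smul_dotProduct, smul_eq_mul] at c2
        exact fin1 h0 t0 t1 ha.le d0 (hZ0 q z) (mul_nonneg he hI)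
          (inv_mul_cancel₀ (one_pos.trans_le q1).ne') K1 c2 a1
      · have a1 := onn 0 le_rfl ha.le (by simpa using by positivity)
        have e0 : dr r a V W (fun x => ((0 : ℝ) • dM V W hT) ⬝ᵥ φ x) = 0 := by
          simp [dr, Rec.grad_const, pV.hv.mean_const, pV.hw.mean_const]
        rw [e0] at a1
        refine fin2 h0 ha.le (hZ0 q z) (mul_nonneg he hI) c1 (a1.trans_eq ?_)
        simp
  have T := tendsto_const_div_atTop_nhds_zero_nat P
  have T1 : Tendsto (fun N : ℕ => Ar r v w - a * kl v w + Ξ 0 0 + (1 + a) * P * Z 0 0 + P / N * (P * E))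
      atTop (𝓝 (Ar r v w - a * kl v w + Ξ 0 0 + (1 + a) * P * Z 0 0)) := by
    simpa using (T.mul_const (P * E)).const_add (Ar r v w - a * kl v w + Ξ 0 0 + (1 + a) * P * Z 0 0)
  refine ge_of_tendsto T1 ?_
  have T2 := T.eventually (eventually_le_nhds one_pos)
  have T3 := ((T.mul_const D).const_mul 3).eventually (eventually_le_nhds (b := 1) (by simp))
  have T4 := (((T.const_add 1).const_mul (ρ * x0)).add_const (2 * a * (γ + P * e1))).eventually
    (eventually_le_nhds (b := 1) (by simpa using hm))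
  filter_upwards [T2, T3, T4, eventually_gt_atTop 0] with N h1 h3 h4 hN
  have N0 : (0 : ℝ) < N := by exact_mod_cast hN
  have e : N * (P / N) = P := mul_div_cancel₀ _ N0.ne'
  have := key N (P / N) e (by positivity) h1 h3 h4 N 0 (zero_add N) 0 0 0 le_rfl (by positivity) (by simp)
  simp only [Pot, Nat.cast_zero, zero_mul, post_zero, smul_zero, wS, zero_dotProduct, add_zero, wt_zero,
    mul_zero, e] at this
  have e2 : N * ((P / N) ^ 2 * E) = P / N * (P * E) := by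
    linear_combination P / N * E * e
  linarith

end Crest.Agent.T157.Br

end
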