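import Crest.Agent.T157.BrDefB_50
import Crest.Agent.T157.BrSm_54
import Crest.Agent.T157.UeE_83

/-!
# Row 157, block B, S1, act B: static conversion, pinned sites, supermartingales (helper11)
-/

set_option autoImplicit false
set_option linter.unusedSectionVars false

noncomputable section

namespace Crest.Agent.T157.Br

open Real Matrix Function
open Crest.Agent.T157.E Crest.Agent.T157.SL Crest.Agent.T157.Ta
open Crest.Agent.T157.Rec (grad)
open Crest.Agent.T157.Eig (nrm nrm_sq nrm_nonneg)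
open Crest.Agent.T157.Ent (cnd)
open Crest.ProbabilityR.SpinGlassDynamics (spin)

namespace Cv11

variable {n : ℕ} {κ : Type} [Fintype κ] [DecidableEq κ] {D : Dat n κ} {mg C0 CV K1 : ℝ}
  {u v w : Cube n → ℝ} {x : Cube n} {i j : Fin n}

lemma xs_le {c ε : ℝ} (h : 4 * ε ≤ c) (d t : ℝ) :
    Ue.xs c (d + t) ≤ 4 * d ^ 2 + 4 * max (|t| - ε) 0 ^ 2 := by
  rcases lt_or_ge c |d + t| with hc | hc
  · rw [Ue.xs_of_lt hc, ← sq_abs (d + t), ← sq_abs d]
    have h1 := abs_add_le d t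
    have h2 := le_max_left (|t| - ε) 0
    generalize max (|t| - ε) 0 = e at *
    have h4 : 3 / 4 * |d + t| ≤ |d| + e := by linarith
    have h5 := pow_le_pow_left₀ (by positivity) h4 2
    nlinarith [sq_nonneg (|d| - e), sq_nonneg |d|, sq_nonneg e]
  · rw [Ue.xs_of_le hc]; positivity

lemma wt_l (D : Dat n κ) : Wt D.l := by
  have p : ∀ x, 0 < D.μ x * exp (D.dl ⬝ᵥ sv x - D.U x) := fun x => mul_pos (exp_pos _) (exp_pos _)
  have h : ∀ x, 0 ≤ D.l x := fun x => by unfold Dat.l; split_ifs; exacts [(p x).le, le_rfl]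
  exact ⟨h, Finset.sum_pos' (fun x _ => h x)
    ⟨D.x0, Finset.mem_univ _, by rw [Dat.l, if_pos fun _ _ => rfl]; exact p _⟩⟩

lemma l_pin (hx : D.l x ≠ 0) (hi : i ∈ D.S) : x i = D.x0 i := by
  unfold Dat.l at hx
  split_ifs at hx with h
  exacts [h i hi, absurd rfl hx]

lemma ne_of (hG : D.Geo) (hj : j ∈ D.C) (k : κ) : D.ι k ≠ j := fun e => hG.off k (e ▸ hj)

lemma off_bT (hG : D.Geo) (hj : j ∈ D.C) : OffAt j D.bT :=
  fun _ _ => funext fun k => update_of_ne (ne_of hG hj k) _ _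

lemma off_h (hg : D.Geo) (k : κ) : OffAt (D.ι k) D.h := fun x b => funext fun k' => by
  simp only [Dat.h, hG, dotProduct]
  refine Finset.sum_congr rfl fun j _ => ?_
  by_cases hj : j ∈ D.C
  · simp only [sv, update_of_ne (ne_of hg hj k).symm]
  · simp only [rw, if_neg hj, zero_mul]

lemma pin (hw : ∀ x, w x ≠ 0 → D.l x ≠ 0) (hj : j ∉ D.C) (σ : κ → Bool) :
    ∃ b, ∀ x, cut w D.bT σ x ≠ 0 → x j = b := by
  have e : ∀ x, cut w D.bT σ x ≠ 0 → D.bT x = σ ∧ w x ≠ 0 := fun x hx => by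
    unfold cut at hx
    split_ifs at hx with h
    exacts [⟨h, hx⟩, absurd rfl hx]
  by_cases h : ∃ k, D.ι k = j
  · obtain ⟨k, rfl⟩ := h
    exact ⟨σ k, fun x hx => congrFun (e x hx).1 k⟩
  · exact ⟨D.x0 j, fun x hx => l_pin (hw x (e x hx).2)
      (Finset.mem_filter.2 ⟨Finset.mem_univ _, hj, not_exists.1 h⟩)⟩

lemma As_rev (hG : D.Geo) (h : Pr v w) (hw : ∀ x, w x ≠ 0 → D.l x ≠ 0) (u : Cube n → ℝ) (j : Fin n) :
    ∑ σ, push v D.bT σ * As u (cut v D.bT σ) (cut w D.bT σ) j = if j ∈ D.C then As u v w j else 0 := by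
  split_ifs with hj
  · exact As_cut h.hv (off_bT hG hj) (fun _ => u) w
  · refine Finset.sum_eq_zero fun σ _ => mul_eq_zero.2 (or_iff_not_imp_left.2 fun ha => ?_)
    obtain ⟨b, hb⟩ := pin hw hj σ
    exact As_pinned (h.cut ha) hb u

lemma Es_rev (hG : D.Geo) (h : Pr v w) (h' : Pr w v) (hw : ∀ x, w x ≠ 0 → D.l x ≠ 0)
    (u : Cube n → ℝ) (j : Fin n) : ∑ σ, push v D.bT σ * Ue.Es u (cut v D.bT σ) (cut w D.bT σ) j =
      if j ∈ D.C then Ue.Es u v w j else 0 := by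
  split_ifs with hj
  · exact Ue.Es_cut h.hv (off_bT hG hj) (fun _ => u) w
  · refine Finset.sum_eq_zero fun σ _ => mul_eq_zero.2 (or_iff_not_imp_left.2 fun ha => ?_)
    obtain ⟨b, hb⟩ := pin hw hj σ
    exact Ue.Es_pinned (h.cut ha) (h'.cut fun e => ha (h.push_ac _ σ e)) hb u

lemma cut_W (D : Dat n κ) (p : ℝ) (z c m : κ → ℝ) (σ : κ → Bool) : cut (D.W p z c m) D.bT σ =
    fun x => cut (D.W p z c 0) D.bT σ x * exp (m ⬝ᵥ fun k => spin (σ k)) := by
  ext x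
  simp only [cut]
  split_ifs with h
  · subst h
    simp only [Dat.W, wS, wt, zero_dotProduct, add_zero, exp_add, mul_assoc]
    rfl
  · rw [zero_mul]

lemma cnd_smul (w : Cube n → ℝ) {c : ℝ} (hc : c ≠ 0) : cnd (fun x => w x * c) = cnd w := by
  ext i x b
  simp only [cnd, ← add_mul]
  exact mul_div_mul_right _ _ hc

lemma siteM_post {φ : Cube n → κ → ℝ} (hφ : OffAt i φ) (w F : Cube n → ℝ) (s : ℝ) (y : κ → ℝ)
    (x : Cube n) : siteM (post φ w s y) F i x = siteM w F i x := by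
  simp only [siteM, post, hφ x, mul_right_comm _ (exp _), ← add_mul]
  exact mul_div_mul_right _ _ (exp_pos _).ne'

lemma AC_eq (h : 1 - 2 * D.η ≠ 0) (v w lc : Cube n → ℝ) : (1 - 2 * D.η) * D.AC v w lc =
    (∑ j, if j ∈ D.C then As (Ue.rw D.η (Ue.th D.a') D.f j) v w j else 0) +
      (1 - Ue.th D.a') / 2 * ∑ j, if j ∈ D.C then Ue.Es (Ue.Lw D.η D.f j) v lc j else 0 := by
  have e1 : ∀ j, (1 - 2 * D.η) * As (D.r j) v w j =
      if j ∈ D.C then As (Ue.rw D.η (Ue.th D.a') D.f j) v w j else 0 := fun j => by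
    unfold As Dat.r
    split_ifs
    · rw [← mean_const_mul]; congr 1; ext x; field_simp
    · simp [mean]
  have e2 : ∀ j, Ue.Es (D.lw j) v lc j = if j ∈ D.C then Ue.Es (Ue.Lw D.η D.f j) v lc j else 0 :=
    fun j => by
      unfold Ue.Es Dat.lw
      split_ifs
      · rfl
      · simp [mean]
  rw [Dat.AC, mul_add, Ar, Finset.mul_sum, Ue.El]
  simp only [e1, e2]
  congr 1
  field_simp

lemma split_le (hG : D.Geo) {g : Fin n → ℝ} (hg : ∀ j, 0 ≤ g j) :
    (∑ j, if j ∈ D.C then g j else 0) + ∑ j ∈ Finset.univ.map ⟨D.ι, hG.inj⟩, g j ≤ ∑ j, g j := by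
  rw [Finset.sum_ite_mem, Finset.univ_inter, ← Finset.sum_union (Finset.disjoint_left.2 fun j hj h => by
    obtain ⟨k, -, e⟩ := Finset.mem_map.1 h
    exact ne_of hG hj k e)]
  exact Finset.sum_le_sum_of_subset_of_nonneg (Finset.subset_univ _) fun j _ _ => hg j

lemma pr_l (h : D.Ok mg C0 CV K1) : Pr D.ν D.l ∧ Pr D.l D.ν := Ue.pr_mul (wt_l D) h.fp rfl

lemma pr_pw (h : D.Ok mg C0 CV K1) : Pr D.ν D.pw := (pr_l h).1.wt _

lemma off_r (D : Dat n κ) : Off D.r := fun j x b => by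
  simp only [Dat.r, Ue.off_rw _ _ _ j x b]

lemma off_lw (D : Dat n κ) : Off D.lw := fun j x b => by
  simp only [Dat.lw, Ue.off_Lw _ _ j x b]

lemma lw0 (D : Dat n κ) (j : Fin n) (x : Cube n) : 0 ≤ D.lw j x := by
  unfold Dat.lw; split_ifs; exacts [(Ue.Lw_mem _ _ _ _).1, le_rfl]

lemma r_mem (h : D.Ok mg C0 CV K1) (j : Fin n) (x : Cube n) : 0 ≤ D.r j x ∧ D.r j x ≤ 1 := by
  have h1 := h.η0; have h2 := h.η1; have h3 := h.mg1; have h4 := h.a1
  have h5 : 0 < 1 - 2 * D.η := by linarith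
  have h6 := Ue.th_nonneg D.a'
  have h7 : Ue.th D.a' ≤ 1 - 2 * D.η := max_le (by linarith) h5.le
  unfold Dat.r Ue.rw
  split_ifs
  exacts [⟨by positivity, (div_le_one h5).2 h7⟩, ⟨by positivity, (div_le_one h5).2 le_rfl⟩,
    ⟨le_rfl, zero_le_one⟩]

lemma W_eq (D : Dat n κ) (p : ℝ) (z c m : κ → ℝ) :
    D.W p z c m = post D.h (wt D.pw fun x => c ⬝ᵥ D.φ x + m ⬝ᵥ D.s x) p z := by
  ext x; simp only [Dat.W, wS, wt, post]; ring

lemma pr_W (h : D.Ok mg C0 CV K1) (p : ℝ) (z c m : κ → ℝ) : Pr (D.vp p z) (D.W p z c m) :=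
  ((pr_pw h).post _ _ _ _ _).wt _

/-- the static conversion -/
lemma conv (h : D.Ok mg C0 CV K1) (he : 256 * D.ε ≤ mg * D.η) {k : ℝ} (hk : 0 ≤ k) :
    (1 - 2 * D.η) * ((1 + k) * D.AC D.ν D.pw D.l + D.AT ((1 - D.a') * (1 - mg)) D.ν D.pw) ≤
      (1 + k) * D.AA D.ν D.pw D.l + 8 / mg * sq D.del + 32 / mg * D.ε * D.B0 := by
  have h1 := h.η0; have h2 := h.η1; have h3 := h.mg1; have h4 := h.a1; have h0 := h.mg0
  have h8 := h.a0; have h9 := h.e0; have hB := h.b1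
  have h5 : 0 < 1 - 2 * D.η := by linarith
  have hθ := Ue.th_le_one (show D.a' ≤ 1 by linarith)
  have hv := (pr_pw h).hv
  have hU := Ue.U_set (wt_l D) h.fp (v := D.ν) rfl (fun x => D.del ⬝ᵥ sv x + D.Θ x)
    (a := D.a * (1 - 2 * D.η)) (a' := D.a') (κ := mg) (η := D.η) (mul_nonneg (by linarith) h5.le) h0 h.aU
    h4 h1 (by linarith) (by linarith [h.aU]) (Finset.univ.map ⟨D.ι, h.inj⟩)
  have a0 : ∀ j, 0 ≤ As (Ue.rw D.η (Ue.th D.a') D.f j) D.ν D.pw j := fun j => (pr_pw h).As_nonneg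
    (fun x => (Ue.rw_mem h1.le (by linarith) (Ue.th_nonneg _) hθ _ _ _).1) j
  have e0 : ∀ j, 0 ≤ Ue.Es (Ue.Lw D.η D.f j) D.ν D.l j := fun j =>
    Ue.Es_nonneg (pr_l h).1 (pr_l h).2 (fun x => (Ue.Lw_mem _ _ _ _).1) j
  have s1 := split_le h.toGeo a0
  have c0 : 0 ≤ (1 - Ue.th D.a') / 2 := by linarith
  have s2 := mul_le_mul_of_nonneg_left (split_le h.toGeo e0) c0
  have t1 := Finset.sum_nonneg (s := Finset.univ.map ⟨D.ι, h.inj⟩) fun j _ => a0 j
  have t2 := mul_nonneg c0 (Finset.sum_nonneg (s := Finset.univ.map ⟨D.ι, h.inj⟩) fun j _ => e0 j)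
  have u1 : (1 - 2 * D.η) * D.AT ((1 - D.a') * (1 - mg)) D.ν D.pw ≤
      ∑ i ∈ Finset.univ.map ⟨D.ι, h.inj⟩, mean D.ν fun x => D.a * (1 - 2 * D.η) * kls D.ν D.pw i x +
        (1 - D.a') * (1 - mg) / 2 * chi D.ν D.pw i x ^ 2 := by
    rw [Finset.sum_map, Dat.AT, Finset.mul_sum]
    refine Finset.sum_le_sum fun k _ => ?_
    have b1 := hv.mean_nonneg fun x => sq_nonneg (chi D.ν D.pw (D.ι k) x)
    have b2 : 0 ≤ D.η * ((1 - D.a') * (1 - mg)) :=
      mul_nonneg h1.le (mul_nonneg (by linarith) (by linarith))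
    simp only [As, one_mul, mean_add, mean_const_mul, Embedding.coeFn_mk]
    nlinarith [mul_nonneg b2 b1]
  have u2 : ∑ i ∈ Finset.univ.map ⟨D.ι, h.inj⟩, mean D.ν (fun x => Ue.xs (mg / 64 * D.η)
      (grad (fun x => D.del ⬝ᵥ sv x + D.Θ x) x i)) ≤ 4 * sq D.del + 16 * (D.ε * D.B0) := by
    refine (Finset.sum_le_sum_of_subset_of_nonneg (Finset.subset_univ _) fun j _ _ =>
      hv.mean_nonneg fun x => Ue.xs_nonneg _ _).trans ?_
    rw [← mean_sum]
    refine (hv.mean_mono (g := fun x => 4 * sq D.del + 4 * exc D.ε (grad D.Θ x)) fun x => ?_).trans ?_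
    · simp only [Rec.grad_add, Rec.grad_lin]
      simp only [Pi.add_apply, sq, exc, dotProduct, Finset.mul_sum, ← Finset.sum_add_distrib, ← pow_two]
      exact Finset.sum_le_sum fun j _ => xs_le (by linarith) _ _
    · rw [mean_add, hv.mean_const, mean_const_mul]
      have b1 := h.excΘ _ hv
      have b2 := mul_le_mul_of_nonneg_left h.bk (sq_nonneg D.ε)
      have b3 : D.ε ≤ 1 := by nlinarith
      have b4 : D.ε * (D.ε * D.B0) ≤ 1 * (D.ε * D.B0) := mul_le_mul_of_nonneg_right b3 (by positivity)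
      have b5 : 0 ≤ D.ε * D.B0 := by positivity
      nlinarith
  have u3 := mul_le_mul_of_nonneg_left u2 (by positivity : 0 ≤ 2 / mg)
  have e : 2 / mg * (4 * sq D.del + 16 * (D.ε * D.B0)) = 8 / mg * sq D.del + 32 / mg * D.ε * D.B0 := by
    ring
  have s3 := mul_le_mul_of_nonneg_left (add_le_add s1 s2) (by linarith : 0 ≤ 1 + k)
  have t3 := mul_nonneg hk (add_nonneg t1 t2)
  rw [mul_add, mul_left_comm, AC_eq h5.ne', Dat.AA, Ar, Ue.El]
  change _ - _ ≤ (∑ i ∈ _, As _ D.ν D.pw i) + _ at hU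
  change (∑ i ∈ _, mean D.ν fun x => _ * kls D.ν D.pw i x + _ * chi D.ν D.pw i x ^ 2) - _ ≤ _ at hU
  linarith

end Cv11

open Cv11 in
theorem cvStmt : CvStmt := by
  intro n κ _ _ D mg C0 CV K1 h he
  have hG := h.toGeo
  have h5 : 1 - 2 * D.η ≠ 0 := by linarith [h.η1, h.mg1]
  have hv := (pr_pw h).hv
  have pl := fun p z => (pr_l h).1.post D.h p p z z
  have pl' := fun p z => (pr_l h).2.post D.h p p z z
  refine ⟨fun k hk => conv h he hk, fun z c m => ⟨fun σ => ?_, ?_, ?_⟩, fun c m => ?_, ?_, fun β => ?_,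
    fun p z c m => ⟨pr_W h p z c m, (pr_W h p z c m).Ar_nonneg fun j x => (r_mem h j x).1,
      Ue.El_nonneg (pl p z) (pl' p z) (lw0 D), ?_⟩, off_r D, r_mem h, fun j x k => ?_⟩
  · rw [cut_W D _ z c m]; simp only [kl, prob_smul _ (exp_pos _).ne']
  · have e : ∀ u σ j, As u (cut (D.vp D.P z) D.bT σ) (cut (D.W D.P z c 0) D.bT σ) j =
        As u (cut (D.vp D.P z) D.bT σ) (cut (D.W D.P z c m) D.bT σ) j := fun u σ j => by
      rw [cut_W D _ z c m]; simp only [As, kls, cnd_smul _ (exp_pos _).ne']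
    simp only [Dat.AA, Ar, Ue.El, e, mul_add, Finset.sum_add_distrib, mul_left_comm (push _ _ _),
      ← Finset.mul_sum]
    simp only [Finset.mul_sum _ _ (push _ _ _)]
    rw [AC_eq h5, Finset.sum_comm, Finset.sum_comm (f := fun σ j => push _ _ σ * Ue.Es _ _ _ j)]
    refine congrArg₂ _ (Finset.sum_congr rfl fun j _ => ?_)
      (congrArg _ (Finset.sum_congr rfl fun j _ => ?_))
    · exact As_rev hG (pr_W h _ z c m) (fun x hx => left_ne_zero_of_mul
        (left_ne_zero_of_mul (left_ne_zero_of_mul hx))) _ j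
    · exact Es_rev hG (pl _ z) (pl' _ z) (fun x hx => left_ne_zero_of_mul hx) _ j
  · simp only [Cnt, Finset.mul_sum]
    rw [Finset.sum_comm]
    refine Finset.sum_congr rfl fun j _ => ?_
    by_cases hj : j ∈ D.C
    · exact Cs_cut (hv.post _ _ _) (off_bT hG hj) fun _ => D.ug c j
    · simp [Cs, Dat.ug, hj, mean]
  · simpa only [W_eq, Dat.vp] using Sm54.sm_Ar ((pr_pw h).wt _) (off_r D) fun j x => (r_mem h j x).1
  · exact ⟨fun p => .of_mg (Ue.mg_El (pr_l h).1 (pr_l h).2 (off_lw D) _ p), fun p s z _ hs _ => by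
      simpa only [post_post, Dat.vp, Dat.lp] using
        Ue.El_post_le (φ := D.h) (pl p z) (pl' p z) hs (off_lw D) (lw0 D)⟩
  · convert Sm54.sm_mean (φ := D.h) (P := D.P) hv fun x => ∑ k, (D.a * (1 * kls D.ν D.pw (D.ι k) x) +
      β / 2 * chi D.ν D.pw (D.ι k) x ^ 2) using 3 with p z
    rw [mean_sum]
    refine Finset.sum_congr rfl fun k _ => ?_
    rw [mean_add, mean_const_mul, mean_const_mul _ _ (β / 2)]
    simp only [As, kls, chi, Ta.cm, Dat.vp, cnd_post (off_h hG k), siteM_post (off_h hG k)]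
  · have hw := (pr_W h p z c m).hv
    simp only [Cnt, Cs, ← mean_sum]
    refine hw.mean_le fun x => ?_
    have a1 := pow_le_pow_left₀ (nrm_nonneg _) (h.lipφ c x) 2
    rw [mul_pow, nrm_sq, nrm_sq] at a1
    refine (Finset.sum_le_sum fun j _ => ?_).trans a1
    have a2 := sq_nonneg (cm (D.vp p z) j x * grad (fun y => c ⬝ᵥ D.φ y) x j)
    have a3 := sq_nonneg (grad (fun y => c ⬝ᵥ D.φ y) x j)
    unfold Dat.ug
    split_ifs <;> nlinarith
  · unfold Dat.r
    split_ifs with hj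
    · simp only [grad, incr, Dat.s, sT, sv, update_of_ne (ne_of hG hj k), sub_self, zero_div, mul_zero]
    · exact zero_mul _

end Crest.Agent.T157.Br

end
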