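import Crest.Agent.T157.BrDefB_50
import Crest.Agent.T157.DaGr_82

/-!
# Row 157, block B, S1 (helper16): the local fields of a reference weight (`FldStmt`)
-/

set_option autoImplicit false
set_option linter.unusedSectionVars false

noncomputable section

namespace Crest.Agent.T157.Br.Fd16

open Real Matrix Function Finset
open Crest.Agent.T157.E Crest.Agent.T157.SL Crest.Agent.T157.Ta
open Crest.Agent.T157.Rec (grad fl grad_eq grad_add grad_sub grad_lin grad_const grad_const_mul)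
open Crest.Agent.T157.Eig (nrm opn)
open Crest.Agent.T157.S3 (hf)
open Crest.ProbabilityR.SpinGlassDynamics (spin)

variable {n : ℕ} {κ : Type} [Fintype κ] [DecidableEq κ]

lemma g_off {F : Cube n → ℝ} {j : Fin n} (h : OffAt j F) (x : Cube n) : grad F x j = 0 := by
  rw [grad_eq, fl, h, sub_self, mul_zero, zero_div]

lemma g_pin {κ : Type} [Fintype κ] (gk : κ → Fin n → ℝ) (p : ℝ) (z : κ → ℝ) (x : Cube n) (j : Fin n) :
    grad (fun x => lk (hG gk) p x z) x j =
      ∑ k, (z k - p * hG gk x k) * gk k j + p * sv x j * ∑ k, gk k j ^ 2 := by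
  have e : ∀ k, grad (fun x => hG gk x k) x j = gk k j := fun k => congrFun (grad_lin (gk k) x) j
  simp only [lk, dotProduct, mul_sum, ← sum_sub_distrib, ← sum_add_distrib]
  rw [Da.Gr.grad_sum]
  refine sum_congr rfl fun k _ => ?_
  rw [grad_sub, grad_const_mul, grad_const_mul, Pi.sub_apply, Pi.smul_apply, Pi.smul_apply,
    Da.Gr.grad_mul, e]
  simp only [smul_eq_mul]
  ring

lemma cm_exp {w H l : Cube n → ℝ} {j : Fin n} (hw : ∀ x, w x = exp (H x) * l x) (hl : OffAt j l)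
    {x : Cube n} (hx : l x ≠ 0) : cm w j x = tanh (grad H x j) := by
  have a := exp_pos (H (update x j true) / 2)
  have b := exp_pos (H (update x j false) / 2)
  have e : ∀ t : ℝ, exp t = exp (t / 2) ^ 2 := fun t => by rw [pow_two, ← exp_add, add_halves]
  simp only [Ta.cm, siteM, sv, update_self, spin, hw, hl x, grad, incr, tanh_eq, sub_div, neg_sub,
    exp_sub, if_true, Bool.false_eq_true, if_false]
  rw [e (H (update x j true)), e (H (update x j false))]
  field_simp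
  ring

lemma g_quad {J : Matrix (Fin n) (Fin n) ℝ} (hJ : Jᵀ = J) (h0 : ∀ j, J j j = 0) (y : Fin n → ℝ)
    (x : Cube n) (j : Fin n) : grad (fun x => log (ising J y x)) x j = hf J y x j := by
  rw [grad_eq, Da.Gr.ising_fl hJ, log_mul (Da.Gr.ising_pos J y x).ne' (exp_pos _).ne', log_exp,
    Da.Gr.loc, h0, hf, Pi.add_apply]
  linear_combination ((J *ᵥ sv x) j + y j) * Rec.sv_mul_self x j

variable {D : Dat n κ}

lemma nS_C {j : Fin n} (h : j ∈ D.C) : j ∉ D.S := fun e => (mem_filter.1 e).2.1 h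
lemma nS_T (k : κ) : D.ι k ∉ D.S := fun e => (mem_filter.1 e).2.2 k rfl

lemma ne_T (hD : D.Geo) {j : Fin n} (h : j ∈ D.C) (k : κ) : D.ι k ≠ j := fun e =>
  hD.off k (by rw [e]; exact h)

lemma ζ_T (hD : D.Geo) (p : ℝ) (z : κ → ℝ) (t : ℝ) (x : Cube n) (k : κ) :
    D.ζ p z t x (D.ι k) = z k - p * D.h x k - (1 - t) * D.s x k := by
  simp only [Dat.ζ, if_neg (nS_T k), hD.inj.eq_iff, sum_ite_eq', mem_univ, if_true]

lemma ζ_C (hD : D.Geo) (p : ℝ) (z : κ → ℝ) (t : ℝ) (x : Cube n) {j : Fin n} (h : j ∈ D.C) :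
    D.ζ p z t x j = 0 := by
  rw [Dat.ζ, if_neg (nS_C h)]
  exact sum_eq_zero fun k _ => if_neg (ne_T hD h k)

/-- sums off `C` split into `S` and `T` -/
lemma split (hD : D.Geo) (F : Fin n → ℝ) : ∑ i ∈ D.Cᶜ, F i = ∑ i ∈ D.S, F i + ∑ k, F (D.ι k) := by
  rw [← sum_image (s := univ) (g := D.ι) (f := F) fun a _ b _ h => hD.inj h, ← sum_union]
  · refine sum_congr (Finset.ext fun i => ?_) fun _ _ => rfl
    simp only [mem_compl, mem_union, Dat.S, mem_filter, mem_univ, true_and, mem_image]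
    constructor
    · intro h; by_cases e : ∃ k, D.ι k = i
      · exact Or.inr e
      · exact Or.inl ⟨h, fun k hk => e ⟨k, hk⟩⟩
    · rintro (h | ⟨k, rfl⟩); exacts [h.1, hD.off k]
  · exact disjoint_left.2 fun i hi e => by
      obtain ⟨k, -, rfl⟩ := mem_image.1 e; exact nS_T k hi

/-- the self-interaction field -/
def ψ' (D : Dat n κ) (p : ℝ) (x : Cube n) (j : Fin n) : ℝ :=
  if j ∈ D.C then sv x j * (D.P * ∑ i ∈ D.S, D.J i j ^ 2 + p * ∑ k, D.J (D.ι k) j ^ 2) else 0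

lemma ψ'_le (hD : D.Geo) {p : ℝ} (p0 : 0 ≤ p) (p1 : p ≤ D.P) (x : Cube n) :
    nrm (ψ' D p x) ≤ 3 * D.P * D.ς * √(D.Cᶜ.card) := by
  have P0 : 0 ≤ D.P := p0.trans p1
  have s0 := hD.s0
  rw [Eig.nrm_le_iff (by positivity), mul_pow, sq_sqrt (Nat.cast_nonneg _)]
  have a : ∀ j, ψ' D p x j * ψ' D p x j ≤ D.P ^ 2 * D.ς ^ 2 * ∑ i ∈ D.Cᶜ, D.J i j ^ 2 := fun j => by
    have c := hD.col j
    have s := split hD fun i => D.J i j ^ 2
    have b1 : 0 ≤ ∑ i ∈ D.S, D.J i j ^ 2 := by positivity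
    have b2 : 0 ≤ ∑ k, D.J (D.ι k) j ^ 2 := by positivity
    unfold ψ'
    split_ifs
    · rw [mul_mul_mul_comm, Rec.sv_mul_self, one_mul]
      set A := ∑ i ∈ D.Cᶜ, D.J i j ^ 2
      have h1 : D.P * ∑ i ∈ D.S, D.J i j ^ 2 + p * ∑ k, D.J (D.ι k) j ^ 2 ≤ D.P * A := by
        rw [s]; nlinarith
      have h2 := mul_self_le_mul_self (by positivity) h1
      have h3 : D.P ^ 2 * A * A ≤ D.P ^ 2 * A * D.ς ^ 2 :=
        mul_le_mul_of_nonneg_left c (by rw [s]; positivity)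
      nlinarith
    · rw [mul_zero]; positivity
  refine (sum_le_sum fun j _ => a j).trans ?_
  rw [← mul_sum, sum_comm]
  have b : ∑ i ∈ D.Cᶜ, ∑ j, D.J i j ^ 2 ≤ D.Cᶜ.card * 9 := by
    rw [← nsmul_eq_mul]
    refine sum_le_card_nsmul _ _ _ fun i _ => ?_
    have h1 := Da.Gr.row_sq_le D.Jᵀ i
    rw [Eig.opn_transpose] at h1
    exact le_trans h1 (by nlinarith [hD.op, Eig.opn_nonneg D.J])
  nlinarith [mul_le_mul_of_nonneg_left b (show 0 ≤ D.P ^ 2 * D.ς ^ 2 by positivity)]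

/-- the exponent of the path -/
def Hx (D : Dat n κ) (p : ℝ) (z c m : κ → ℝ) (t : ℝ) (mh : κ → ℝ) (x : Cube n) : ℝ :=
  log (ising D.J D.y x) + ((D.dl + D.del) ⬝ᵥ sv x + D.Θ x + c ⬝ᵥ D.φ x) - D.U x + lk D.h p x z +
    m ⬝ᵥ D.s x + (t - 1) * (D.s x ⬝ᵥ (D.h x - mh))

/-- the indicator of the old pins -/
def i0 (D : Dat n κ) (x : Cube n) : ℝ := if ∀ i ∈ D.S, x i = D.x0 i then 1 else 0

lemma Wp_eq (p : ℝ) (z c m : κ → ℝ) (t : ℝ) (mh : κ → ℝ) (x : Cube n) :
    D.Wp p z c m t mh x = exp (Hx D p z c m t mh x) * i0 D x := by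
  simp only [Dat.Wp, Dat.W, wS, Dat.pw, post_eq, wt, Dat.l, i0, Hx, Dat.μ]
  split_ifs
  · rw [← exp_log (Da.Gr.ising_pos D.J D.y x), log_exp]
    simp only [← exp_add, mul_one, add_dotProduct]
    congr 1; ring
  · simp

lemma g_U (x : Cube n) (j : Fin n) : grad D.U x j = -(∑ i ∈ D.S, -(D.P * ((D.J *ᵥ sv x) i - D.xS i)) *
    D.J i j + D.P * sv x j * ∑ i ∈ D.S, D.J i j ^ 2) := by
  have e : D.U = fun x => D.P / 2 * ∑ i ∈ D.S, D.xS i ^ 2 -
      lk (hG fun i : D.S => D.J i) D.P x fun i => D.P * D.xS i := funext fun x => by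
    simp only [Dat.U, lk, dotProduct, mul_sum, ← sum_sub_distrib]
    rw [← sum_coe_sort D.S, ← sum_coe_sort D.S, ← sum_sub_distrib]
    refine sum_congr rfl fun i _ => ?_
    simp only [hG, mulVec]; ring
  rw [e, grad_sub, grad_const, Pi.sub_apply, g_pin, Pi.zero_apply, zero_sub,
    sum_coe_sort D.S fun i => D.J i j ^ 2, ← sum_coe_sort D.S fun i =>
      -(D.P * ((D.J *ᵥ sv x) i - D.xS i)) * D.J i j]
  congr 2
  exact sum_congr rfl fun i _ => by simp only [hG, mulVec]; ring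

lemma off_s (hD : D.Geo) {j : Fin n} (hj : j ∈ D.C) : OffAt j D.s := fun x b => funext fun k => by
  simp only [Dat.s, sT, sv]
  rw [update_of_ne (ne_T hD hj k)]

lemma g_H (hD : D.Geo) (p : ℝ) (z c m : κ → ℝ) (t : ℝ) (mh : κ → ℝ) (x : Cube n) {j : Fin n}
    (hj : j ∈ D.C) : grad (Hx D p z c m t mh) x j =
      hf D.J D.y x j + (D.ψ c x + D.J *ᵥ D.ζ p z t x + ψ' D p x) j := by
  have os := off_s hD hj
  have r : ∀ k, rw D.J D.C D.ι k j = D.J (D.ι k) j := fun k => if_pos hj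
  have g1 : grad (fun y => m ⬝ᵥ D.s y) x j = 0 := g_off (fun y b => by rw [os]) x
  have g2 : grad (fun y => D.s y ⬝ᵥ (D.h y - mh)) x j = ∑ k, D.s x k * D.J (D.ι k) j := by
    simp only [dotProduct]
    rw [Da.Gr.grad_sum]
    refine sum_congr rfl fun k _ => ?_
    have a : grad (fun y => D.s y k) x j = 0 := g_off (fun y b => by rw [os]) x
    have b : grad (fun y => (D.h y - mh) k) x j = D.J (D.ι k) j := by
      simp only [Pi.sub_apply]
      rw [grad_sub, grad_const, sub_zero, ← r]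
      exact congrFun (grad_lin _ x) j
    rw [Da.Gr.grad_mul, a, b]; ring
  have g3 : (D.J *ᵥ D.ζ p z t x) j = ∑ i ∈ D.S, -(D.P * ((D.J *ᵥ sv x) i - D.xS i)) * D.J i j +
      ∑ k, (z k - p * D.h x k - (1 - t) * D.s x k) * D.J (D.ι k) j := by
    have e : ∀ i, D.J j i = D.J i j := fun i => by rw [← hD.symm, transpose_apply, hD.symm]
    rw [mulVec, dotProduct, ← sum_add_sum_compl D.C, sum_eq_zero fun i hi => by
      rw [ζ_C hD p z t x hi, mul_zero], zero_add, split hD]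
    congr 1
    · exact sum_congr rfl fun i hi => by rw [Dat.ζ, if_pos hi, e, mul_comm]
    · exact sum_congr rfl fun k _ => by rw [ζ_T hD, e, mul_comm]
  have g4 := g_pin (rw D.J D.C D.ι) p z x j
  simp only [r] at g4
  unfold Hx
  rw [grad_add, grad_add, grad_add, grad_sub, grad_add, grad_const_mul]
  simp only [Pi.add_apply, Pi.sub_apply, Pi.smul_apply, smul_eq_mul]
  rw [g_quad hD.symm hD.diag, g1, g2, g3, g_U, ψ', if_pos hj]
  have g5 : ∑ k, (z k - p * D.h x k - (1 - t) * D.s x k) * D.J (D.ι k) j =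
      ∑ k, (z k - p * D.h x k) * D.J (D.ι k) j + (t - 1) * ∑ k, D.s x k * D.J (D.ι k) j := by
    rw [mul_sum, ← sum_add_distrib]; exact sum_congr rfl fun k _ => by ring
  rw [g5]
  change _ + D.ψ c x j - _ + grad (fun x => lk (hG (rw D.J D.C D.ι)) p x z) x j + _ + _ = _
  rw [g4]
  simp only [Dat.h]
  ring

lemma off_i0 {j : Fin n} (hj : j ∈ D.C) : OffAt j (i0 D) := fun x b => by
  have e : (∀ i ∈ D.S, update x j b i = D.x0 i) ↔ ∀ i ∈ D.S, x i = D.x0 i :=
    forall₂_congr fun i hi => by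
      rw [update_of_ne (show i ≠ j from fun e => nS_C hj (by rw [← e]; exact hi))]
  simp only [i0, e]

/-- a reference weight is `e^H` times an indicator -/
lemma ref_eq (hD : D.Geo) {p : ℝ} {z c m : κ → ℝ} {t : ℝ} {mh : κ → ℝ} {w : Cube n → ℝ}
    (h : D.Ref p z c m t mh w) : ∃ l : Cube n → ℝ, (∀ x, w x = exp (Hx D p z c m t mh x) * l x) ∧
      (∀ j ∈ D.C, OffAt j l) ∧ (∀ x, 0 ≤ l x) ∧ ∃ x, 0 < l x := by
  have i1 : ∀ x, 0 ≤ i0 D x := fun x => by unfold i0; split_ifs <;> norm_num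
  rcases h with rfl | ⟨σ, rfl⟩
  · exact ⟨i0 D, Wp_eq p z c m t mh, fun j hj => off_i0 hj, i1, D.x0, by simp [i0]⟩
  · refine ⟨fun x => if D.bT x = σ then i0 D x else 0, fun x => ?_, fun j hj x b => ?_,
      fun x => ?_, extend D.ι σ D.x0, ?_⟩
    · by_cases h : D.bT x = σ <;> simp [cut, Wp_eq, h]
    · have e : D.bT (update x j b) = D.bT x := funext fun k =>
        update_of_ne (ne_T hD hj k) _ _
      simp only [e, off_i0 hj x b]
    · dsimp only; split_ifs; exacts [i1 x, le_rfl]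
    · have e : D.bT (extend D.ι σ D.x0) = σ := funext fun k => hD.inj.extend_apply _ _ k
      have e2 : ∀ i ∈ D.S, extend D.ι σ D.x0 i = D.x0 i := fun i hi =>
        extend_apply' _ _ _ fun ⟨k, hk⟩ => (mem_filter.1 hi).2.2 k hk
      simp only [if_pos e, i0, if_pos e2, one_pos]

end Crest.Agent.T157.Br.Fd16

namespace Crest.Agent.T157.Br

open Real Matrix Finset Fd16

theorem fldStmt : FldStmt := fun n κ _ _ D hD p z t p0 p1 => by
  refine ⟨fun x j hj => ζ_C hD p z t x hj, fun x b f => ?_, ψ' D p, ψ'_le hD p0 p1,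
    fun c m mh w v hw hv => ?_⟩
  · simp only [dotProduct, mulVec, XM, mul_sum]
    rw [sum_comm]
    refine sum_congr rfl fun k _ => ?_
    simp only [ite_mul, zero_mul, mul_ite, mul_zero, sum_ite_eq, mem_univ, if_true, ζ_T hD,
      Pi.sub_apply, Pi.smul_apply, smul_eq_mul]
    ring
  · obtain ⟨l, e, o, l0, x0, hx0⟩ := ref_eq hD hw
    have w0 : ∀ x, 0 ≤ w x := fun x => by rw [e]; exact mul_nonneg (exp_pos _).le (l0 x)
    refine ⟨⟨w0, sum_pos' (fun x _ => w0 x) ⟨x0, mem_univ _, by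
      rw [e]; exact mul_pos (exp_pos _) hx0⟩⟩, fun x hx j hj => ?_⟩
    rw [cm_exp e (o j hj) fun h => hx (hv x (by rw [e, h, mul_zero])), g_H hD p z c m t mh x hj]

end Crest.Agent.T157.Br
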