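import Crest.Agent.T157.BrH4A_51

/-!
# Row 157, part B, S1 (helper51): HS4
-/

set_option autoImplicit false

noncomputable section

namespace Crest.Agent.T157.Br

open Real Matrix Function Finset
open Crest.Agent.T157.E Crest.Agent.T157.SL Crest.Agent.T157.Ta Crest.Agent.T157.S2t
open Crest.Agent.T157.Rec (grad grad_add grad_lin)
open Crest.Agent.T157.Eig (nrm opn nrm_nonneg nrm_sq)

namespace H4

/-- the centre of the features -/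
def mh {n : ℕ} {κ : Type} (D : Dat n κ) (gb z : κ → ℝ) : κ → ℝ :=
  (1 + D.P * D.b0)⁻¹ • (D.k0 + gb + D.b0 • z)
/-- the variance of the features -/
def vr {n : ℕ} {κ : Type} (D : Dat n κ) : ℝ := D.b0 / (1 + D.P * D.b0)

lemma pr_mu {n : ℕ} {κ : Type} (D : Dat n κ) {v : Cube n → ℝ} (hv : Wt v) : Pr v D.μ :=
  ⟨hv, Wt.of_pos fun _ => exp_pos _, fun _ h0 => absurd h0 (exp_pos _).ne'⟩

theorem stein_ref (hST : STStmt) (hTf : TfStmt) (hFl : FldStmt) : ∃ K : ℝ, 0 ≤ K ∧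
    ∀ (n : ℕ) (κ : Type) [Fintype κ] [DecidableEq κ] (D : Dat n κ) (mg C0 CV K1 ρ : ℝ)
      (c gb z m a : κ → ℝ) (t E c1 c2 : ℝ) (v w : Cube n → ℝ), D.Ok mg C0 CV K1 → D.ε ≤ 1 →
    D.Rad ρ → Cen D.J D.y D.V0 (D.ψ c) gb D.ε ρ D.B0 → D.Ref D.P z c m t a w → Pr v w → 0 ≤ c1 →
    0 ≤ c2 → ChiH D.J D.y D.C v w D.ε E c1 c2 →
    SteinM v D.C D.ι D.h (mh D gb z) (t * vr D) (vr D) (E + D.e * (ρ ^ 2 + kl v D.μ) +
      D.ε * (10 * c1 + 10 * D.ε * c2) * (ρ ^ 2 + kl v D.μ) + K * D.ε * (ρ ^ 2 + D.B0 + kl v D.μ +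
        mean v (fun x => sq (D.ψ c x)) + mean v fun x => sq (D.ζ D.P z t x)))
      (2 * c1 * (C0 * D.b0) / (1 + D.P * D.b0) ^ 2) ρ := by
  obtain ⟨K, K0, hK⟩ := steinM_of hST hTf
  refine ⟨K, K0, fun n κ _ _ D mg C0 CV K1 ρ c gb z m a t E c1 c2 v w hD e1 hρ cen hR hp h1 h2 hc => ?_⟩
  have P0 : 0 ≤ D.P := by linarith [hD.P1]
  obtain ⟨f1, f2, ψ', f3, f4⟩ := hFl n κ D hD.toGeo D.P z t P0 le_rfl
  have cρ := hD.bU.trans hρ.2.1
  have D1 : 1 ≤ 1 + D.P * D.b0 := le_add_of_nonneg_right (mul_nonneg P0 hD.b00)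
  have D0 : 1 + D.P * D.b0 ≠ 0 := by linarith
  have D0' : 1 + D.b0 * D.P ≠ 0 := by rwa [mul_comm]
  refine hK n κ D.J D.y D.C _ D.V0 _ (fun x => D.h x - D.b0 • D.s x - D.k0) _ _ gb _ _ CV D.ε ρ D.ς
    D.B0 _ _ _ E _ c1 c2 v w _ _ ψ' D.ι (hD.sf0 ρ hρ) cen
    (sps hD.toGeo hD.e0 e1 hD.cv hD.sm cρ hρ.1) hp (f4 c m a w v hR hp.ac).2 f1 (fun x => ?_)
    (by linarith [hD.b1]) D1 (fun _ => by rw [vr]; field_simp) (fun f hf => hD.eq0 ρ hρ f hf v hp.hv)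
    (fun x f => ?_) h1 h2 hc
  · have s : √(#D.Cᶜ) ≤ ρ := sqrt_le_iff.2 ⟨hρ.1, cρ⟩
    have := mul_le_mul hD.sm s (sqrt_nonneg _) hD.e0.le
    linarith [mul_le_mul_of_nonneg_left (f3 x) (show 0 ≤ CV by linarith [hD.cv])]
  · rw [f2, mh, vr, dotProduct_comm _ f]
    simp only [dotProduct_sub, dotProduct_add, dotProduct_smul, smul_eq_mul, Dat.h, Dat.s]
    field_simp; ring

variable {n : ℕ} {κ : Type} [Fintype κ] {D : Dat n κ}

lemma AC_ge {mg C0 CV K1 : ℝ} (hD : D.Ok mg C0 CV K1) {v w l : Cube n → ℝ} (h : Pr v w) (h1 : Pr v l)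
    (h2 : Pr l v) : ∑ i ∈ D.C, As (Ue.rw D.η (Ue.th D.a') D.f i) v w i ≤ Ar D.r v w ∧
      Ar D.r v w + mg * ∑ i ∈ D.C, Ue.Es (Ue.Lw D.η D.f i) v l i ≤ D.AC v w l ∧
      0 ≤ Ar D.r v w ∧ 0 ≤ ∑ i ∈ D.C, Ue.Es (Ue.Lw D.η D.f i) v l i := by
  have η0 := hD.η0
  have η1 : 0 < 1 - 2 * D.η := by linarith [hD.η1, hD.mg1]
  have r0 := fun i x => (Ue.rw_mem (f := D.f) η0.le (by linarith) (Ue.th_nonneg D.a')
    (Ue.th_le_one (by linarith [hD.a1, hD.mg0])) i x).1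
  have r1 : ∀ i x, 0 ≤ D.r i x := fun i x => by
    rw [Dat.r]; split_ifs; exacts [div_nonneg (r0 i x) η1.le, le_rfl]
  have E0 : 0 ≤ ∑ i ∈ D.C, Ue.Es (Ue.Lw D.η D.f i) v l i :=
    sum_nonneg fun i _ => Ue.Es_nonneg h1 h2 (fun x => (Ue.Lw_mem _ _ i x).1) i
  refine ⟨le_trans (sum_le_sum fun i hi => h.As_mono (fun x => ?_) i)
    (sum_le_sum_of_subset_of_nonneg (subset_univ _) fun i _ _ => h.As_nonneg (r1 i) i), ?_,
    h.Ar_nonneg r1, E0⟩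
  · rw [Dat.r, if_pos hi, le_div_iff₀ η1]; nlinarith [r0 i x]
  · have e : Ue.El D.lw v l = ∑ i ∈ D.C, Ue.Es (Ue.Lw D.η D.f i) v l i := by
      rw [Ue.El, ← sum_subset (subset_univ D.C) fun i _ hi => by simp [Ue.Es, Dat.lw, hi, mean]]
      exact sum_congr rfl fun i hi => by simp only [Ue.Es, Dat.lw, if_pos hi]
    rw [Dat.AC, e]
    refine add_le_add_right (mul_le_mul_of_nonneg_right ?_ E0) _
    have : Ue.th D.a' ≤ 1 - 2 * mg := max_le (by linarith [hD.a1]) (by linarith [hD.mg1])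
    rw [le_div_iff₀ (by linarith)]
    nlinarith [mul_nonneg hD.mg0.le η0.le]

lemma grad_C (hG : D.Geo) (c m : κ → ℝ) (x : Cube n) {j : Fin n} (hj : j ∈ D.C) :
    grad (fun x => D.del ⬝ᵥ sv x + D.Θ x + (c ⬝ᵥ D.φ x + m ⬝ᵥ D.s x)) x j = D.ψ c x j - D.dl j := by
  have o : OffAt j fun x => m ⬝ᵥ D.s x := fun x b => congrArg (m ⬝ᵥ ·) (funext fun k => by
    simp only [Dat.s, sT, sv, update_of_ne (ne_of_mem_of_not_mem hj (hG.off k)).symm])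
  simp only [Dat.ψ, grad_add, grad_lin, Pi.add_apply, grad_off o]
  ring

lemma chi_err (hG : D.Geo) (c m : κ → ℝ) {e : Fin n → ℝ} {a b : ℝ} (ha : 0 ≤ a) (hb : 0 ≤ b)
    (x : Cube n) : ∑ i ∈ D.C, (a * e i ^ 2 + b * grad (fun x => D.del ⬝ᵥ sv x + D.Θ x +
      (c ⬝ᵥ D.φ x + m ⬝ᵥ D.s x)) x i ^ 2) ≤ a * sq e + 2 * b * (sq (D.ψ c x) + sq D.dl) := by
  rw [sum_congr rfl fun i hi => by rw [grad_C hG c m x hi]]
  simp only [sq, dotProduct, mul_sum, ← sum_add_distrib]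
  refine le_trans (sum_le_sum fun i hi => ?_) (sum_le_sum_of_subset_of_nonneg (subset_univ D.C)
    fun i _ _ => add_nonneg (mul_nonneg ha (mul_self_nonneg _)) (mul_nonneg (by positivity)
      (add_nonneg (mul_self_nonneg _) (mul_self_nonneg _))))
  nlinarith [mul_nonneg hb (sq_nonneg (D.ψ c x i + D.dl i))]

lemma num {mg C0 k P b a β : ℝ} (hm : 0 < mg) (hk : 0 < k) (hC : 0 ≤ C0) (hb : 0 ≤ b)
    (hP : (48 * Ctp / mg ^ 2 + exp 16) * (1 + 56 * C0 / k) ≤ P) (h1 : 1 ≤ P) (hs : a + β ≤ 3)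
    (hβ : mg / 2 ≤ β) : 2 * (28 / k) * (C0 * b) / (1 + P * b) ^ 2 * exp 16 ≤ 1 ∧
      β * (1 - mg / 4) / 2 + 0 + Ctp * (a + β) * (b / (1 + P * b) +
        2 * (28 / k) * (C0 * b) / (1 + P * b) ^ 2) ≤ β / 2 := by
  have P0 : 0 < P := by linarith
  have d : 1 ≤ 1 + P * b := le_add_of_nonneg_right (by positivity)
  have v1 : b / (1 + P * b) ≤ 1 / P := by rw [div_le_div_iff₀ (by linarith) P0]; linarith
  have v2 : 2 * (28 / k) * (C0 * b) / (1 + P * b) ^ 2 ≤ 56 * C0 / k * (1 / P) := by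
    have : b / (1 + P * b) ^ 2 ≤ b / (1 + P * b) :=
      div_le_div_of_nonneg_left hb (by linarith) (by nlinarith)
    rw [show 2 * (28 / k) * (C0 * b) / (1 + P * b) ^ 2 = 56 * C0 / k * (b / (1 + P * b) ^ 2) by ring]
    exact mul_le_mul_of_nonneg_left (this.trans v1) (by positivity)
  have g0 : 0 ≤ 2 * (28 / k) * (C0 * b) / (1 + P * b) ^ 2 := by positivity
  have v0 : 0 ≤ b / (1 + P * b) := by positivity
  have c0 := Ctp_pos
  have q0 : 0 ≤ 56 * C0 / k := by positivity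
  have q1 : 0 ≤ 48 * Ctp / mg ^ 2 := by positivity
  generalize 2 * (28 / k) * (C0 * b) / (1 + P * b) ^ 2 = γ at *
  generalize b / (1 + P * b) = V at *
  generalize 56 * C0 / k = q at *
  have s : (V + γ) * P ≤ 1 + q := by
    have := mul_le_mul_of_nonneg_right (add_le_add v1 v2) P0.le
    rwa [show (1 / P + q * (1 / P)) * P = 1 + q by field_simp] at this
  have s2 : (V + γ) * (48 * Ctp / mg ^ 2 + exp 16) ≤ 1 := by
    refine le_of_mul_le_mul_right ?_ (show 0 < 1 + q by positivity)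
    nlinarith [mul_le_mul_of_nonneg_left hP (add_nonneg v0 g0)]
  have x := exp_pos 16
  refine ⟨by nlinarith [mul_nonneg (add_nonneg v0 g0) q1, mul_nonneg v0 x.le], ?_⟩
  have s3 : (V + γ) * (48 * Ctp / mg ^ 2) ≤ 1 := by nlinarith [mul_nonneg (add_nonneg v0 g0) x.le]
  rw [← mul_div_assoc, div_le_one (by positivity)] at s3
  nlinarith [mul_le_mul_of_nonneg_left hs (mul_nonneg c0.le (add_nonneg v0 g0)),
    mul_le_mul_of_nonneg_left hβ hm.le]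

/-- the context of HS4 -/
structure Cx [DecidableEq κ] (D : Dat n κ) (mg C0 CV K1 K Mk ρ : ℝ) (z c m gb : κ → ℝ)
    (v w : Cube n → ℝ) : Prop where
  ok : D.Ok mg C0 CV K1
  K0 : 0 ≤ K
  Mk1 : 1 ≤ Mk
  rad : D.Rad ρ
  hv : v = D.vp D.P z
  hw : w = D.W D.P z c m
  hb : D.bv D.P z v + sq c + sq m ≤ ρ ^ 2
  εe : D.ε ≤ D.e
  eN : 2 * D.e * (1 + Mk) ≤ 1
  Ke : K * D.ε * (3 + 6 * CV ^ 2 + Mk) ≤ D.e
  hK : ∀ (a : κ → ℝ) (t E c1 c2 : ℝ) (v w : Cube n → ℝ), D.Ref D.P z c m t a w → Pr v w → 0 ≤ c1 →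
    0 ≤ c2 → ChiH D.J D.y D.C v w D.ε E c1 c2 →
    SteinM v D.C D.ι D.h (mh D gb z) (t * vr D) (vr D) (E + D.e * (ρ ^ 2 + kl v D.μ) +
      D.ε * (10 * c1 + 10 * D.ε * c2) * (ρ ^ 2 + kl v D.μ) + K * D.ε * (ρ ^ 2 + D.B0 + kl v D.μ +
        mean v (fun x => sq (D.ψ c x)) + mean v fun x => sq (D.ζ D.P z t x)))
      (2 * c1 * (C0 * D.b0) / (1 + D.P * D.b0) ^ 2) ρ
  kb : ∀ (a : κ → ℝ) (s : ℝ) (w' v' : Cube n → ℝ), s ∈ Set.Icc (0 : ℝ) 1 → D.Ref D.P z c m s a w' →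
    Pr v' w' → kl w' D.μ + mean w' (fun x => sq (D.ζ D.P z s x)) +
      mean w' (fun x => sq (D.h x - D.xb)) + mean v' (fun x => sq (D.ζ D.P z s x)) ≤
      Mk * (D.bv D.P z v' + sq c + sq m + (1 - s) * sq (a - D.xb))
  ψb : ∀ x, sq (D.ψ c x) ≤ 6 * CV ^ 2 * (D.B0 + sq c)

namespace Cx
variable [DecidableEq κ] {mg C0 CV K1 K Mk ρ : ℝ} {z c m gb : κ → ℝ} {v w : Cube n → ℝ}
  (X : Cx D mg C0 CV K1 K Mk ρ z c m gb v w)
include X

lemma P0 : 0 ≤ D.P := by linarith [X.ok.P1]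
lemma e0 : 0 < D.e := X.ok.e0.trans_le X.εe
lemma e1 : D.e ≤ 1 := by nlinarith only [X.eN, X.Mk1, X.e0]
lemma ε1 : D.ε ≤ 1 := X.εe.trans X.e1
lemma sm : 3 * (D.P * D.ς) ≤ D.ε := by
  linarith [X.ok.sm, mul_le_mul_of_nonneg_right X.ok.cv (mul_nonneg X.P0 X.ok.s0)]
lemma pw0 : Pr v (post D.h D.pw D.P z) := X.hv ▸ pr_w0 X.ok.fp _ _
lemma pw : Pr v w := X.hw ▸ X.pw0.wt _
lemma H0 : 0 ≤ kl v D.μ := (pr_mu D X.pw.hv).kl_nonneg
lemma U0 : 0 ≤ mean v D.U := X.pw.hv.mean_nonneg (U_nn X.ok.toGeo)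
lemma b0 : D.B0 + kl v D.μ + mean v D.U + sq c ≤ ρ ^ 2 := by
  have := X.pw.hv.mean_nonneg fun x => sq_nn (D.h x - D.xb)
  have hb := X.hb
  rw [Dat.bv, mean_add] at hb
  linarith [sq_nn (z - D.P • D.xb), sq_nn m]
lemma r1 : 1 ≤ ρ ^ 2 := X.ok.b1.trans X.rad.2.1
lemma ρ0 : 0 < ρ := X.rad.1.lt_of_ne' fun h => by have := X.r1; rw [h] at this; norm_num at this
lemma cR : sq c ≤ D.R := by linarith [X.rad.2.2, X.b0, X.H0, X.U0, X.ok.b1]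
lemma cρ : (Fintype.card κ : ℝ) ≤ ρ ^ 2 := ((card_le X.ok.toGeo).trans X.ok.bU).trans X.rad.2.1
lemma V0 : 0 ≤ vr D := div_nonneg X.ok.b00 (by have := X.ok.b00; have := X.P0; positivity)
lemma V1 : vr D ≤ 1 :=
  (div_le_self X.ok.b00 (le_add_of_nonneg_right (mul_nonneg X.P0 X.ok.b00))).trans X.ok.b01
lemma R1 (a : κ → ℝ) : D.Ref D.P z c m 1 a w := .inl (X.hw ▸ wP_one _ _ : D.Wp D.P z c m 1 a = w).symm
lemma ψρ (x : Cube n) : sq (D.ψ c x) ≤ 6 * CV ^ 2 * ρ ^ 2 :=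
  (X.ψb x).trans (mul_le_mul_of_nonneg_left (by linarith [X.b0, X.H0, X.U0]) (by positivity))
lemma pt (a : κ → ℝ) (s : ℝ) : Pr v (D.Wp D.P z c m s a) := by rw [Dat.Wp, ← X.hw]; exact X.pw.wt _

lemma slf {a : κ → ℝ} {s Y : ℝ} {w' : Cube n → ℝ} (hR : D.Ref D.P z c m s a w') (ww : Wt w')
    (hY : kl w' D.μ + mean w' (fun x => sq (D.ζ D.P z s x)) ≤ Y) :
    SteinM w' D.C D.ι D.h (mh D gb z) (s * vr D) (vr D) (2 * D.e * (ρ ^ 2 + Y)) 0 ρ := by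
  have := X.hK a s 0 0 0 w' w' hR (.refl ww) le_rfl le_rfl (chiH_self _ _ _ _ _)
  simp only [mul_zero, zero_mul, zero_div, add_zero, zero_add] at this
  refine this.mono ?_
  have y1 := (pr_mu D ww).kl_nonneg
  have y2 := ww.mean_nonneg fun x => sq_nn (D.ζ D.P z s x)
  have y3 := ww.mean_le X.ψρ
  have y0 : 0 ≤ Y := by linarith
  have r := X.r1
  have y5 : K * D.ε * (ρ ^ 2 + D.B0 + kl w' D.μ + mean w' (fun x => sq (D.ψ c x)) +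
      mean w' fun x => sq (D.ζ D.P z s x)) ≤ K * D.ε * ((3 + 6 * CV ^ 2 + Mk) * (ρ ^ 2 + Y)) := by
    refine mul_le_mul_of_nonneg_left ?_ (mul_nonneg X.K0 X.ok.e0.le)
    linarith [mul_nonneg (sq_nonneg CV) y0, X.rad.2.1,
      mul_nonneg (zero_le_one.trans X.Mk1) (show 0 ≤ ρ ^ 2 + Y by linarith)]
  linarith [mul_le_mul_of_nonneg_right X.Ke (show 0 ≤ ρ ^ 2 + Y by linarith),
    mul_le_mul_of_nonneg_left (show kl w' D.μ ≤ Y by linarith) X.e0.le]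

lemma k1 : kl w D.μ + mean w (fun x => sq (D.ζ D.P z 1 x)) + mean w (fun x => sq (D.h x - D.xb)) +
    mean v (fun x => sq (D.ζ D.P z 1 x)) ≤ Mk * ρ ^ 2 :=
  (X.kb 0 1 w v ⟨zero_le_one, le_rfl⟩ (X.R1 0) X.pw).trans
    (mul_le_mul_of_nonneg_left (by linarith [X.hb]) (zero_le_one.trans X.Mk1))

lemma k2 : mean v (fun x => sq (D.ζ D.P z 1 x)) ≤ Mk * ρ ^ 2 := by
  linarith [X.k1, (pr_mu D X.pw.hw).kl_nonneg, X.pw.hw.mean_nonneg fun x => sq_nn (D.ζ D.P z 1 x),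
    X.pw.hw.mean_nonneg fun x => sq_nn (D.h x - D.xb)]

lemma ab : sq (mh D gb z - D.xb) ≤ 3 * (Mk + 2) * ρ ^ 2 := by
  have pw := X.pw
  have k1 := X.k1
  have z1 := (pr_mu D pw.hw).kl_nonneg
  have z2 := pw.hw.mean_nonneg fun x => sq_nn (D.ζ D.P z 1 x)
  have z3 := pw.hw.mean_nonneg fun x => sq_nn (D.h x - D.xb)
  have z4 := pw.hv.mean_nonneg fun x => sq_nn (D.ζ D.P z 1 x)
  have q1 := ((X.slf (Y := Mk * ρ ^ 2) (X.R1 0) pw.hw (by linarith)).mono (E' := ρ ^ 2)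
    (by linarith [mul_le_mul_of_nonneg_right X.eN (sq_nonneg ρ)])).const X.ρ0 pw.hw
  have q2 := sq_meanV pw.hw D.h D.xb
  generalize mh D gb z = a at *
  have q3 : sq ((1 * vr D) • meanV w (sT D.ι)) ≤ ρ ^ 2 := by
    have := sq_meanV pw.hw (sT D.ι) 0
    simp only [sub_zero] at this
    have q := this.trans (pw.hw.mean_le (c := Fintype.card κ) fun x => by
      simp [sq, dotProduct, sT, Rec.sv_mul_self])
    have := sq_nn (meanV w (sT D.ι))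
    simp only [sq, smul_dotProduct, dotProduct_smul, smul_eq_mul, one_mul] at this q ⊢
    linarith [mul_le_mul_of_nonneg_right X.V1 this,
      mul_le_mul_of_nonneg_right X.V1 (mul_nonneg X.V0 this), X.cρ]
  have q4 := sq_three (meanV w D.h - D.xb) (-(meanV w D.h - a - (1 * vr D) • meanV w (sT D.ι)))
    (-((1 * vr D) • meanV w (sT D.ι)))
  rw [show meanV w D.h - D.xb + -(meanV w D.h - a - (1 * vr D) • meanV w (sT D.ι)) +
    -((1 * vr D) • meanV w (sT D.ι)) = a - D.xb by abel] at q4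
  simp only [sq, neg_dotProduct_neg] at q1 q2 q3 q4 k1 z2 z3 z4 ⊢
  linarith

lemma kb' {s : ℝ} {w' v' : Cube n → ℝ} (hs : s ∈ Set.Icc (0 : ℝ) 1)
    (hR : D.Ref D.P z c m s (mh D gb z) w') (hp : Pr v' w') :
    kl w' D.μ + mean w' (fun x => sq (D.ζ D.P z s x)) ≤
      Mk * (D.bv D.P z v' + sq c + sq m + 3 * (Mk + 2) * ρ ^ 2) := by
  have y1 := hp.hw.mean_nonneg fun x => sq_nn (D.h x - D.xb)
  have y2 := hp.hv.mean_nonneg fun x => sq_nn (D.ζ D.P z s x)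
  have y3 : (1 - s) * sq (mh D gb z - D.xb) ≤ 3 * (Mk + 2) * ρ ^ 2 :=
    (mul_le_of_le_one_left (sq_nn _) (by linarith [hs.1])).trans X.ab
  linarith [X.kb _ s w' v' hs hR hp, mul_le_mul_of_nonneg_left y3 (zero_le_one.trans X.Mk1)]

lemma kp {s : ℝ} (hs : s ∈ Set.Icc (0 : ℝ) 1) : kl (D.Wp D.P z c m s (mh D gb z)) D.μ +
    mean (D.Wp D.P z c m s (mh D gb z)) (fun x => sq (D.ζ D.P z s x)) ≤ Mk * (3 * Mk + 8) * ρ ^ 2 := by
  have M0 := zero_le_one.trans X.Mk1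
  linarith [X.kb' hs (.inl rfl) (X.pt _ s), mul_le_mul_of_nonneg_left X.hb M0,
    mul_nonneg M0 (sq_nonneg ρ)]

lemma p2 : mean v (fun x => D.bv D.P z (cut v D.bT (D.bT x))) ≤ D.bv D.P z v + ρ ^ 2 := by
  have wv := X.pw.hv
  have := sum_kl_cut (pr_mu D wv) D.bT
  rw [Fintype.card_fun, Fintype.card_bool, Nat.cast_pow, log_pow] at this
  simp only [Dat.bv]
  rw [mean_add, mean_add, mean_add, mean_cut wv, wv.mean_const, wv.mean_const]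
  have l : log ((2 : ℕ) : ℝ) ≤ 1 := (log_le_sub_one_of_pos (by norm_num)).trans (by norm_num)
  linarith [mul_le_mul_of_nonneg_left l (Nat.cast_nonneg (α := ℝ) (Fintype.card κ)), X.cρ]

lemma p4 : mean v (fun x => LK D.ι (bb D + mh D gb z + m) x - log (push w (rv D.ι) (rv D.ι x))) ≤
    9 * D.e * ((1 + Mk * (3 * Mk + 8)) * ρ ^ 2) := by
  have hG := X.ok.toGeo
  have wv := X.pw.hv
  have M0 := zero_le_one.trans X.Mk1
  obtain ⟨g, g1, g2⟩ := X.ok.osc c X.cR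
  have p1 := revPiK (v := v) (W := D.W D.P z c m) hG.inj (X.hw ▸ X.pw) ((fib_w0 _ _).wt _)
    (bb D + mh D gb z + m) (fun x => D.s x ⬝ᵥ (D.h x - mh D gb z)) (a := vr D * Fintype.card κ)
    (E := 2 * D.e * (ρ ^ 2 + Mk * (3 * Mk + 8) * ρ ^ 2))
    (Es := fun x => 2 * D.e * (ρ ^ 2 + Mk * (D.bv D.P z (cut v D.bT (D.bT x)) + sq c + sq m +
      3 * (Mk + 2) * ρ ^ 2))) (O := fun x => g x + D.ε * D.U x + 3 * D.ε * D.B0)
    (fun s hs => by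
      have := (abs_le.1 (((X.slf (.inl rfl) (X.pt _ s).hw (X.kp hs)).steinG X.cρ).path hG.off
        (X.pt _ s).hw)).2
      change mean (D.Wp D.P z c m s _) (fun x => sT D.ι x ⬝ᵥ (D.h x - mh D gb z)) ≤ _
      linarith)
    (fun x hx s hs => by
      have pc := (X.pt (mh D gb z) s).cut (ρ := D.bT) (push_pos wv hx).ne'
      have := (abs_le.1 (((X.slf (.inr ⟨_, rfl⟩) pc.hw (X.kb' hs (.inr ⟨_, rfl⟩)
        pc)).steinG X.cρ).path hG.off pc.hw)).1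
      rw [← cut_wP]
      change _ ≤ mean (cut (D.Wp D.P z c m s _) D.bT (D.bT x)) fun x => sT D.ι x ⬝ᵥ (D.h x - mh D gb z)
      linarith)
    fun x hx s => (osc_le hG X.ok.e0 X.ε1 X.sm X.ok.bU _ z c m _ hx (piece_off _ s x)).trans (by
      linarith [g2 x ((Ti D.ι).piecewise s x) fun i hi => (piece_off _ s x i (not_Ti.2 hi)).symm])
  have p3 : mean (D.Wp D.P z c m 0 (mh D gb z)) (fun x => g x + D.ε * D.U x + 3 * D.ε * D.B0) ≤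
      5 * D.e * ((1 + Mk * (3 * Mk + 8)) * ρ ^ 2) := by
    have pt := X.pt (mh D gb z) 0
    have y1 := X.kp ⟨le_rfl, zero_le_one⟩
    have y2 := pt.hw.mean_mono (U_le hG D.P z 0)
    have y3 := g1 _ pt.hw
    have y4 := (pr_mu D pt.hw).kl_nonneg
    have y5 := pt.hw.mean_nonneg (U_nn hG)
    rw [mean_add, mean_add, mean_const_mul, pt.hw.mean_const]
    have y6 : 0 ≤ Mk * (3 * Mk + 8) * ρ ^ 2 := by positivity
    have y7 := mul_le_mul_of_nonneg_left (show D.B0 + sq c + kl (D.Wp D.P z c m 0 (mh D gb z)) D.μ +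
      mean (D.Wp D.P z c m 0 (mh D gb z)) D.U + 3 * D.B0 ≤ 5 * ((1 + Mk * (3 * Mk + 8)) * ρ ^ 2) by
        linarith [X.b0, X.H0, X.U0, X.rad.2.1, sq_nonneg ρ]) X.e0.le
    linarith [mul_le_mul_of_nonneg_right X.εe y5,
      mul_le_mul_of_nonneg_right X.εe (zero_le_one.trans X.ok.b1)]
  rw [X.hw]
  refine p1.trans ?_
  rw [mean_const_mul, mean_add, mean_const_mul, mean_add, mean_add, mean_add, wv.mean_const,
    wv.mean_const, wv.mean_const, wv.mean_const]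
  change _ + mean (D.Wp D.P z c m 0 _) _ ≤ _
  have : ρ ^ 2 + Mk * (mean v (fun x => D.bv D.P z (cut v D.bT (D.bT x))) + sq c + sq m +
      3 * (Mk + 2) * ρ ^ 2) ≤ (1 + Mk * (3 * Mk + 8)) * ρ ^ 2 := by
    linarith [mul_le_mul_of_nonneg_left (add_le_add X.p2 X.hb) M0]
  linarith [mul_le_mul_of_nonneg_left this X.e0.le]

lemma ce {k : ℝ} (k0 : 0 < k) {ψ' : Cube n → Fin n → ℝ}
    (f3 : ∀ x, nrm (ψ' x) ≤ 3 * D.P * D.ς * √(#D.Cᶜ)) :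
    mean v (fun x => ∑ i ∈ D.C, (4 * D.ε ^ 2 / k *
      (D.ψ c x + D.J *ᵥ D.ζ D.P z 1 x + ψ' x) i ^ 2 + 2 * D.ε * grad (fun x => D.del ⬝ᵥ sv x + D.Θ x +
        (c ⬝ᵥ D.φ x + m ⬝ᵥ D.s x)) x i ^ 2)) ≤
      D.ε * (4 / k * (18 * CV ^ 2 + 27 * Mk + 3) + (24 * CV ^ 2 + 4)) * ρ ^ 2 := by
  have hG := X.ok.toGeo
  have wv := X.pw.hv
  have ε0 := X.ok.e0
  have y1 : ∀ x, sq (D.ψ c x + D.J *ᵥ D.ζ D.P z 1 x + ψ' x) ≤
      (18 * CV ^ 2 + 3) * ρ ^ 2 + 27 * sq (D.ζ D.P z 1 x) := fun x => by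
    have u1 := sq_three (D.ψ c x) (D.J *ᵥ D.ζ D.P z 1 x) (ψ' x)
    have u2 := (Eig.mulVec_dot_le D.J (D.ζ D.P z 1 x)).trans (mul_le_mul_of_nonneg_right
      (pow_le_pow_left₀ (Eig.opn_nonneg _) hG.op 2) (sq_nn _))
    have s : √(#D.Cᶜ) ≤ ρ := sqrt_le_iff.2 ⟨X.rad.1, X.ok.bU.trans X.rad.2.1⟩
    have u3 := dot_le_of_nrm ((f3 x).trans (mul_le_mul
      (show 3 * D.P * D.ς ≤ 1 by linarith [X.sm, X.ε1]) s (sqrt_nonneg _) zero_le_one))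
    have := X.ψρ x
    simp only [sq] at u1 u2 u3 this ⊢
    linarith
  have y2 : sq D.dl ≤ ρ ^ 2 := by linarith [X.ok.bd, sq_nn D.del, sq_nonneg D.L, X.rad.2.1]
  have y3 : 4 * D.ε ^ 2 / k ≤ D.ε * (4 / k) := by
    rw [show 4 * D.ε ^ 2 / k = D.ε * (4 / k) * D.ε by ring]
    exact mul_le_of_le_one_right (by positivity) X.ε1
  refine (wv.mean_mono (g := fun x => D.ε * (4 / k) * ((18 * CV ^ 2 + 3) * ρ ^ 2 +
    27 * sq (D.ζ D.P z 1 x)) + 4 * D.ε * (6 * CV ^ 2 * ρ ^ 2 + ρ ^ 2)) fun x =>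
      (chi_err hG c m (by positivity) (by positivity) x).trans ?_).trans ?_
  · exact add_le_add (mul_le_mul y3 (y1 x) (sq_nn _) (by positivity))
      (by linarith [mul_le_mul_of_nonneg_left (add_le_add (X.ψρ x) y2) ε0.le])
  · rw [mean_add, mean_const_mul, mean_add, wv.mean_const, mean_const_mul, wv.mean_const]
    linarith [mul_le_mul_of_nonneg_left X.k2 (show 0 ≤ D.ε * (4 / k) * 27 by positivity)]

lemma s1 (hFl : FldStmt) {k : ℝ} (k0 : 0 < k) (εk : D.ε ≤ k)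
    (h1 : (4 / k * (18 * CV ^ 2 + 27 * Mk + 3) + (24 * CV ^ 2 + 4) + (560 / k + 20) +
      K * (3 + 6 * CV ^ 2 + Mk)) * D.ε ≤ D.e) :
    SteinG v D.C D.ι D.h (mh D gb z) (1 * vr D) (vr D) (4 * k * Ar D.r v w + 62 * D.ε / D.η ^ 2 *
      ∑ i ∈ D.C, Ue.Es (Ue.Lw D.η D.f i) v (D.lp D.P z) i + 3 * D.e * ρ ^ 2)
      (2 * (28 / k) * (C0 * D.b0) / (1 + D.P * D.b0) ^ 2) := by
  have hD := X.ok
  have ε0 := hD.e0
  have pw := X.pw
  obtain ⟨-, -, ψ', f3, f4⟩ := hFl n κ D hD.toGeo D.P z 1 X.P0 le_rfl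
  have wl : Wt (D.lp D.P z) := wt_wt wt_l _
  have vl := X.hv.trans (vp_eq D.P z)
  have ch := chiH_of (θ := Ue.th D.a') wl hD.fp vl hD.η0 (by linarith [hD.η1, hD.mg1])
    (Ue.th_nonneg _) (Ue.th_le_one (by linarith [hD.a1, hD.mg0])) ε0 εk
    (W_wt D.P z c m ▸ X.hw ▸ (f4 c m 0 w v (X.R1 0) pw.ac).2)
  have ce := X.ce k0 f3
  rw [← W_wt, ← X.hw] at ch
  have A1 := (AC_ge hD pw (Ue.pr_mul wl hD.fp vl).1 (Ue.pr_mul wl hD.fp vl).2).1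
  refine ((X.hK 0 1 _ _ _ v w (X.R1 0) pw (by positivity) (by positivity) ch).mono ?_).steinG X.cρ
  have y1 := pw.hv.mean_le X.ψρ
  have H1 : D.B0 + kl v D.μ ≤ ρ ^ 2 := by linarith [X.b0, X.U0, sq_nn c]
  have H2 : kl v D.μ ≤ ρ ^ 2 := by linarith [hD.b1]
  have y2 : K * D.ε * (ρ ^ 2 + D.B0 + kl v D.μ + mean v (fun x => sq (D.ψ c x)) +
      mean v fun x => sq (D.ζ D.P z 1 x)) ≤ K * D.ε * ((3 + 6 * CV ^ 2 + Mk) * ρ ^ 2) :=
    mul_le_mul_of_nonneg_left (by linarith [X.k2, sq_nonneg ρ]) (mul_nonneg X.K0 ε0.le)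
  have y3 : D.ε * (10 * (28 / k) + 10 * D.ε * (1 / D.ε)) * (ρ ^ 2 + kl v D.μ) ≤
      D.ε * (560 / k + 20) * ρ ^ 2 := by
    rw [show 10 * D.ε * (1 / D.ε) = 10 by field_simp, show D.ε * (560 / k + 20) * ρ ^ 2 =
      D.ε * (10 * (28 / k) + 10) * (2 * ρ ^ 2) by ring]
    exact mul_le_mul_of_nonneg_left (by linarith) (by positivity)
  have y4 := mul_le_mul_of_nonneg_right h1 (sq_nonneg ρ)
  have y5 := mul_le_mul_of_nonneg_left H2 X.e0.le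
  have y6 := mul_le_mul_of_nonneg_left A1 k0.le
  linarith only [ce, y2, y3, y4, y5, y6]

lemma uf1 : ∑ k, mean v (fun x => |uf (post D.h D.pw D.P z) (D.ι k) x - (bb D k + D.h x k)|) ≤
    6 * D.e * ρ ^ 2 := by
  have hD := X.ok
  have ε0 := hD.e0
  have wv := X.pw.hv
  rw [← mean_sum]
  refine (mean_mono_supp wv fun x hx => uf_le hD.toGeo ε0 X.ε1 X.sm hD.bU D.P z fun h0 =>
    (X.pw0.pos hx).2.ne' (by rw [w0_eq, h0, mul_zero])).trans ?_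
  rw [mean_add, mean_add, mean_const_mul v D.U, mean_div_const, wv.mean_const]
  have H1 : D.B0 + kl v D.μ ≤ ρ ^ 2 := by linarith [X.b0, X.U0, sq_nn c]
  have y1 : mean v (fun x => exc D.ε (grad D.Θ x)) / (2 * D.ε) ≤ D.ε * ρ ^ 2 := by
    rw [div_le_iff₀ (by positivity)]
    linarith [hD.excΘ v wv, mul_le_mul_of_nonneg_left H1 (sq_nonneg D.ε),
      mul_nonneg (sq_nonneg D.ε) (sq_nonneg ρ)]
  have y2 := mul_le_mul_of_nonneg_left X.rad.2.1 ε0.le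
  have y3 := mul_le_mul_of_nonneg_left (show mean v D.U ≤ ρ ^ 2 by
    linarith [X.b0, X.H0, sq_nn c, hD.b1]) ε0.le
  linarith [mul_le_mul_of_nonneg_right X.εe (sq_nonneg ρ), mul_nonneg ε0.le (sq_nonneg ρ)]

lemma fin (hFl : FldStmt) {k β : ℝ} (k0 : 0 < k) (εk : D.ε ≤ k)
    (h1 : (4 / k * (18 * CV ^ 2 + 27 * Mk + 3) + (24 * CV ^ 2 + 4) + (560 / k + 20) +
      K * (3 + 6 * CV ^ 2 + Mk)) * D.ε ≤ D.e) (εη : 10008 * (62 * D.ε / D.η ^ 2) ≤ 50000 * k * mg)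
    (hP : (48 * Ctp / mg ^ 2 + exp 16) * (1 + 56 * C0 / k) ≤ D.P) (hβ : β = (1 - D.a') * (1 - mg)) :
    D.a * Ent.kl (push v D.bT) (push w D.bT) ≤ D.AT β v (post D.h D.pw D.P z) +
      D.a * (1 + D.a / (β * (1 - mg / 4))) / 2 * sq m + 50000 * k * D.AC v w (D.lp D.P z) +
      40000 * (1 + Mk * (3 * Mk + 8)) * D.e * ρ ^ 2 := by
  have hD := X.ok
  have hG := hD.toGeo
  have hmg := hD.mg0
  have ε0 := hD.e0
  have e0 := X.e0
  have wl : Wt (D.lp D.P z) := wt_wt wt_l _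
  have vl := X.hv.trans (vp_eq D.P z)
  obtain ⟨-, A2, A3, A4⟩ := AC_ge hD X.pw (Ue.pr_mul wl hD.fp vl).1 (Ue.pr_mul wl hD.fp vl).2
  have S1 := X.s1 hFl k0 εk h1
  rw [one_mul] at S1
  have a0 : 0 ≤ D.a := by linarith [hD.a0]
  have a'0 : 0 ≤ D.a' := by
    linarith [hD.aU, mul_nonneg a0 (show 0 ≤ 1 - 2 * D.η by linarith [hD.η1, hD.mg1])]
  have β0 : mg / 2 ≤ β := by rw [hβ]; nlinarith only [hD.a1, hD.mg1, hmg]
  have β1 : β ≤ 1 := by rw [hβ]; nlinarith only [hD.a1, hD.mg1, hmg, a'0]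
  have a2 : D.a ≤ 2 := by nlinarith only [hD.aU, a0, hD.η1, hD.mg1, hD.a1, hmg]
  obtain ⟨n1, n2⟩ := num (a := D.a) hmg k0 hD.c0 hD.b00 hP hD.P1 (by linarith) β0
  have R := revK hG.inj hG.off X.pw0 (FibPos.edge X.pw0 (fib_w0 _ _)) X.pw S1 X.V0 X.V1
    (by have := hD.c0; have := hD.b00; have := X.P0; positivity) n1 (bb D) m a0 (by linarith)
    (by nlinarith only [hD.mg1, β0, hmg]) le_rfl n2 X.p4
  rw [zero_mul, add_zero, show 2 * (β * (1 - mg / 4) / 2) = β * (1 - mg / 4) by ring] at R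
  change D.a * Ent.kl (push v (rv D.ι)) (push w (rv D.ι)) ≤ _
  have s3 : D.a + β ≤ 3 := by linarith
  have eρ : 0 ≤ D.e * ρ ^ 2 := by positivity
  have M0 := zero_le_one.trans X.Mk1
  have t1 := mul_le_mul s3 X.uf1 (sum_nonneg fun _ _ => X.pw.hv.mean_nonneg fun _ => abs_nonneg _)
    (by norm_num)
  have t2 := mul_le_mul_of_nonneg_right s3 (show 0 ≤ 4 * k * Ar D.r v w + 62 * D.ε / D.η ^ 2 *
    ∑ i ∈ D.C, Ue.Es (Ue.Lw D.η D.f i) v (D.lp D.P z) i + 3 * D.e * ρ ^ 2 by positivity)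
  have t3 := mul_le_mul_of_nonneg_right εη A4
  have t4 := mul_le_mul_of_nonneg_left A2 k0.le
  have t5 := mul_nonneg k0.le A3
  have t6 := mul_le_mul_of_nonneg_right a2
    (show 0 ≤ 9 * D.e * ((1 + Mk * (3 * Mk + 8)) * ρ ^ 2) by positivity)
  have t7 := mul_nonneg (show 0 ≤ Mk * (3 * Mk + 8) by positivity) eρ
  rw [Dat.AT, sq]
  linarith only [R, t1, t2, t3, t4, t5, t6, t7, eρ]

end Cx

end H4

/-- **HS4** with a threshold for `P` linear in `1 / t` -/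
def Hs4Stmt2 : Prop := ∀ mg C0 : ℝ, 0 < mg → ∃ Cu ≥ (1 : ℝ), ∀ t : ℝ, 0 < t → t ≤ 1 →
  ∀ P K1 η : ℝ, Cu / t ≤ P →
  0 < η → ∃ Ms ≥ (1 : ℝ), ∀ CV : ℝ, ∃ M ≥ (1 : ℝ), ∀ (n : ℕ) (κ : Type) [Fintype κ] [DecidableEq κ]
    (D : Dat n κ), D.Ok mg C0 CV K1 → D.P = P → D.η = η → Ms * D.e ≤ 1 → M * D.ε ≤ D.e →
    ∀ z c m ρ v w β, D.Rad ρ →
    D.bud P z + sq c + sq m ≤ ρ ^ 2 → v = D.vp P z → w = D.W P z c m → β = (1 - D.a') * (1 - mg) →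
    D.a * Ent.kl (push v D.bT) (push w D.bT) ≤ D.AT β v (post D.h D.pw P z) +
      D.a * (1 + D.a / (β * (1 - mg / 4))) / 2 * sq m + t * D.AC v w (D.lp P z) + Ms * D.e * ρ ^ 2

theorem Hs4Stmt2.hs4 (h : Hs4Stmt2) : Hs4Stmt := fun mg C0 t hm h0 h1 =>
  let ⟨Cu, _, H⟩ := h mg C0 hm; ⟨Cu / t, H t h0 h1⟩

open H4 in
/-- **HS4** -/
theorem hs4Glue2 (hST : STStmt) (hTf : TfStmt) (hFl : FldStmt) (hKb : KbStmt) : Hs4Stmt2 := by
  intro mg C0 hmg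
  obtain ⟨K, K0, hK⟩ := stein_ref hST hTf hFl
  have c1 : 1 ≤ 48 * Ctp / mg ^ 2 + exp 16 := by
    have := Ctp_pos
    have : 0 ≤ 48 * Ctp / mg ^ 2 := by positivity
    linarith [add_one_le_exp 16]
  refine ⟨(48 * Ctp / mg ^ 2 + exp 16) * (1 + 2800000 * |C0|), one_le_mul_of_one_le_of_one_le c1
    (by linarith [abs_nonneg C0]), fun t ht0 ht1 P K1 η hP' hη => ?_⟩
  obtain ⟨k, rfl, k0⟩ : ∃ k, t = 50000 * k ∧ 0 < k := ⟨t / 50000, by ring, by positivity⟩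
  have hP : (48 * Ctp / mg ^ 2 + exp 16) * (1 + 56 * C0 / k) ≤ P := by
    refine le_trans ?_ hP'
    rw [mul_div_assoc (_ + _)]
    refine mul_le_mul_of_nonneg_left ?_ (zero_le_one.trans c1)
    rw [le_div_iff₀ ht0, show (1 + 56 * C0 / k) * (50000 * k) = 50000 * k + 2800000 * C0 by
      field_simp; ring]
    linarith [le_abs_self C0]
  obtain ⟨Mk, Mk1, hMk⟩ := hKb P K1
  have N1 : 1 + Mk ≤ 1 + Mk * (3 * Mk + 8) := by nlinarith only [Mk1]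
  refine ⟨40000 * (1 + Mk * (3 * Mk + 8)), by linarith, fun CV => ?_⟩
  obtain ⟨M1, hM1⟩ : ∃ M1, M1 = 4 / k * (18 * CV ^ 2 + 27 * Mk + 3) + (24 * CV ^ 2 + 4) +
    (560 / k + 20) + K * (3 + 6 * CV ^ 2 + Mk) := ⟨_, rfl⟩
  have M10 : K * (3 + 6 * CV ^ 2 + Mk) + 1 ≤ M1 := by
    have : 0 ≤ 4 / k * (18 * CV ^ 2 + 27 * Mk + 3) := by positivity
    have : 0 ≤ 560 / k := by positivity
    linarith [sq_nonneg CV]
  have KM : 0 ≤ K * (3 + 6 * CV ^ 2 + Mk) := by positivity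
  have x1 : 0 ≤ 1 / k := by positivity
  have x2 : 0 ≤ 700000 / (η ^ 2 * (50000 * k * mg)) := by positivity
  refine ⟨M1 + 1 / k + 700000 / (η ^ 2 * (50000 * k * mg)), by linarith,
    fun n κ _ _ D hD hDP hDη hs hh z c m ρ v w β hρ hb hv hw hβ => ?_⟩
  subst hDP hDη
  have ε0 := hD.e0
  have P0 : 0 ≤ D.P := by linarith [hD.P1]
  have y1 := mul_nonneg x1 ε0.le
  have y2 := mul_nonneg x2 ε0.le
  have y3 := mul_le_mul_of_nonneg_right M10 ε0.le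
  have y4 := mul_nonneg KM ε0.le
  have h1 : M1 * D.ε ≤ D.e := by linarith
  have εe : D.ε ≤ D.e := by linarith
  have y5 := mul_le_mul_of_nonneg_left N1 (show 0 ≤ D.e by linarith)
  have y6 := mul_nonneg (show 0 ≤ D.e by linarith) (show 0 ≤ Mk by linarith)
  have e1 : D.e ≤ 1 := by linarith
  have εk : D.ε ≤ k := by
    have : 1 / k * D.ε ≤ 1 := by linarith
    rwa [one_div, inv_mul_le_iff₀ k0, mul_one] at this
  have εη : 10008 * (62 * D.ε / D.η ^ 2) ≤ 50000 * k * mg := by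
    have : 700000 / (D.η ^ 2 * (50000 * k * mg)) * D.ε ≤ 1 := by linarith
    rw [div_mul_eq_mul_div, div_le_one (by positivity)] at this
    rw [← mul_div_assoc, div_le_iff₀ (by positivity)]
    linarith only [this, ε0]
  have hb' : D.bv D.P z v + sq c + sq m ≤ ρ ^ 2 := hv ▸ hb
  have pw : Pr v w := hw ▸ (hv ▸ pr_w0 hD.fp _ _ : Pr v (post D.h D.pw D.P z)).wt _
  have cρ : sq c ≤ ρ ^ 2 := by
    have := pw.hv.mean_nonneg fun x => add_nonneg (U_nn hD.toGeo x) (sq_nn (D.h x - D.xb))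
    rw [Dat.bv] at hb'
    linarith only [hb', this, sq_nn (z - D.P • D.xb), sq_nn m, (pr_mu D pw.hv).kl_nonneg, hD.b1]
  have cR := cρ.trans hρ.2.2
  obtain ⟨gb, cen⟩ := (hD.cen ρ hρ c cρ).2
  refine Cx.fin (K := K) (gb := gb) ⟨hD, K0, Mk1, hρ, hv, hw, hb', εe, by linarith, by linarith,
    fun a t E c1 c2 v w => hK n κ D mg C0 CV K1 ρ c gb z m a t E c1 c2 v w hD (εe.trans e1) hρ cen,
    fun a s w' v' hs' hR hp => ?_, (hMk n κ D mg C0 CV hD rfl D.P z c m 1 0 w v P0 le_rfl zero_le_one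
      le_rfl (.inr rfl) cR (.inl (hw ▸ wP_one _ _ : D.Wp D.P z c m 1 0 = w).symm) pw).2.1⟩ hFl k0 εk
    (hM1 ▸ h1) εη hP hβ
  have := (hMk n κ D mg C0 CV hD rfl D.P z c m s a w' v' P0 le_rfl hs'.1 hs'.2 (.inr rfl) cR hR hp).1
  rw [mean_add] at this
  linarith only [this, hp.kl_nonneg, sq_nn (dM v' w' D.h), sq_nn (dM v' w' D.s)]

theorem hs4Glue : Hs4Glue := fun hST hTf _ hFl hKb => (hs4Glue2 hST hTf hFl hKb).hs4

end Crest.Agent.T157.Br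

end
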