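import Crest.Agent.T157.BrDefB_50
import Crest.Agent.T157.S1Bud_6

/-!
# Row 157, block B, S1 (helper61): HC, concentration of linear features
-/

set_option autoImplicit false
set_option linter.unusedVariables false

noncomputable section

namespace Crest.Agent.T157.Br

open Real Matrix MeasureTheory ProbabilityTheory
open Crest.Agent.T157.E Crest.Agent.T157.SL Crest.Agent.T157.Ta
open Crest.Agent.T157.Eig (nrm opn nrm_sq nrm_nonneg nrm_smul)
open Crest.Agent.T157.Xt (H1 Lip2)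

namespace Hc61

variable {n : ℕ} {κ : Type} [Fintype κ]

lemma int_dot (u : κ → ℝ) : Integrable (fun g => exp (u ⬝ᵥ g)) (gv κ) ∧
    ∫ g, exp (u ⬝ᵥ g) ∂gv κ = exp (u ⬝ᵥ u / 2) := by
  refine ⟨by simpa only [one_mul, dotProduct] using (Conc.elip_dot u).integrable_exp 1, ?_⟩
  simp only [dotProduct, Finset.sum_div, exp_sum]
  rw [integral_fintype_prod_eq_prod (fun i x => exp (u i * x))]
  simp only [Conc.int_exp_gauss, pow_two]

lemma dot_hG (gk : κ → Fin n → ℝ) (c : κ → ℝ) (x : Cube n) :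
    c ⬝ᵥ hG gk x = (∑ k, c k • gk k) ⬝ᵥ sv x := by
  rw [sum_dotProduct]
  simp only [smul_dotProduct, smul_eq_mul]
  rfl

lemma lip_hG {gk : κ → Fin n → ℝ} (hg : ∀ c : κ → ℝ, nrm (∑ k, c k • gk k) ≤ 3 * nrm c) (c : κ → ℝ) :
    Lip2 (6 * nrm c) fun x => c ⬝ᵥ hG gk x := by
  simp only [dot_hG]
  exact (S1n.lip2_lin _).mono (by linarith [hg c])

/-- a sub-Gaussian vector has a square exponential moment -/
theorem exp_sq_le {Ω : Type} [Fintype Ω] {w : Ω → ℝ} (hw : Wt w) {X : Ω → κ → ℝ} {c : ℝ} (hc : 0 < c)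
    (h : ∀ u : κ → ℝ, mean w (fun x => exp (u ⬝ᵥ X x)) ≤ exp (c * (u ⬝ᵥ u))) :
    mean w (fun x => exp (X x ⬝ᵥ X x / (8 * c))) ≤ exp (Fintype.card κ) := by
  set a := √(1 / (4 * c)) with ha
  have a2 : a * a = 1 / (4 * c) := Real.mul_self_sqrt (by positivity)
  have i1 : ∀ x, Integrable (fun g => prob w x * exp ((a • X x) ⬝ᵥ g)) (gv κ) :=
    fun x => (int_dot _).1.const_mul _
  have e : mean w (fun x => exp (X x ⬝ᵥ X x / (8 * c))) =
      ∫ g, ∑ x, prob w x * exp ((a • X x) ⬝ᵥ g) ∂gv κ := by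
    rw [integral_finsetSum _ fun x _ => i1 x]
    refine Finset.sum_congr rfl fun x _ => ?_
    rw [integral_const_mul, (int_dot _).2, smul_dotProduct, dotProduct_smul, smul_eq_mul, smul_eq_mul,
      ← mul_assoc, a2]
    rw [show 1 / (4 * c) * (X x ⬝ᵥ X x) / 2 = X x ⬝ᵥ X x / (8 * c) by field_simp; ring]
  rw [e, ← ENNReal.ofReal_le_ofReal_iff (exp_pos _).le, ofReal_integral_eq_lintegral_ofReal
    (integrable_finsetSum _ fun x _ => i1 x) (ae_of_all _ fun z => Finset.sum_nonneg fun x _ =>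
      mul_nonneg (hw.prob_nonneg x) (exp_pos _).le)]
  have h2 := Conc.lint_ex_sum (ν := fun _ : κ => gaussianReal 0 1) (u := fun _ x => 1 / 4 * x ^ 2)
    (fun i => by fun_prop) fun i => Conc.lint_sq_gauss (s := 1 / 4) (by norm_num [abs_of_pos])
  refine le_trans (le_trans (lintegral_mono fun g => ENNReal.ofReal_le_ofReal ?_) h2)
    (ENNReal.ofReal_le_ofReal (exp_le_exp.2 ?_))
  · have h3 := h (a • g)
    rw [smul_dotProduct, dotProduct_smul, smul_eq_mul, smul_eq_mul, ← mul_assoc a, a2,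
      show c * (1 / (4 * c) * (g ⬝ᵥ g)) = ∑ i, 1 / 4 * g i ^ 2 by
        rw [← Finset.mul_sum, dotProduct]; simp only [pow_two]; field_simp] at h3
    refine le_trans (le_of_eq ?_) h3
    exact Finset.sum_congr rfl fun x _ => by
      simp only [smul_dotProduct, dotProduct_comm g]
  · rw [Finset.sum_const, Finset.card_univ, nsmul_eq_mul]
    have : (0 : ℝ) ≤ Fintype.card κ := Nat.cast_nonneg _
    linarith

end Hc61

open Hc61 in
theorem hcStmt : HcStmt := by
  intro n κ _ w K gk hw h hK hg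
  classical
  have hW : Wt w := .of_pos hw
  have h1 : mean w (fun x => exp (sq (hG gk x - meanV w (hG gk)) / (288 * K))) ≤
      exp (Fintype.card κ) := by
    rw [show 288 * K = 8 * (36 * K) by ring]
    refine exp_sq_le hW (by positivity) fun u => ?_
    have l := lip_hG hg u
    have := h.mgf hw l.nn l.vp l.neg.vp 1
    rw [mul_pow, nrm_sq, show K * (6 ^ 2 * (u ⬝ᵥ u)) * 1 ^ 2 = 36 * K * (u ⬝ᵥ u) by ring] at this
    refine le_trans (le_of_eq ?_) this
    refine Finset.sum_congr rfl fun x _ => ?_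
    simp only [dotProduct_sub, meanV_dot, one_mul]
    rfl
  refine ⟨h1, fun v hv => ?_⟩
  have h2 := mean_le_kl (S1n.pr_of hw hv) fun x => sq (hG gk x - meanV w (hG gk)) / (288 * K)
  have h3 := (log_le_iff_le_exp (mean_pos' hW fun x => exp_pos _)).2 h1
  rw [mean_div_const, div_le_iff₀ (by positivity)] at h2
  nlinarith

end Crest.Agent.T157.Br
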