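import Crest.Agent.T157.BrHdA_71

/-!
# Row 157, block B, S1 (helper71): first and second order of a tilt at a state of the burst
-/

set_option autoImplicit false
set_option linter.unusedSectionVars false

noncomputable section

namespace Crest.Agent.T157.Br

open Real Matrix Function
open Crest.Agent.T157.E Crest.Agent.T157.SL Crest.Agent.T157.Ta
open Crest.Agent.T157.Rec (grad)
open Crest.Agent.T157.Eig (nrm opn)
open Crest.Agent.T157.S3 (Dg)

namespace Hd71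

variable {n : ℕ} {κ : Type} [Fintype κ] [DecidableEq κ] {D : Dat n κ} {mg C0 CV K1 : ℝ}

/-- the gradient of the tilt on `C` -/
def gC (D : Dat n κ) (c : κ → ℝ) (x : Cube n) (j : Fin n) : ℝ :=
  if j ∈ D.C then grad (fun y => c ⬝ᵥ D.φ y) x j else 0

lemma r_mul {F : ℝ → ℝ} (G : D.Geo) (c m : κ → ℝ) (j : Fin n) (x : Cube n) :
    D.r j x * F (grad (fun x => c ⬝ᵥ D.φ x + m ⬝ᵥ D.s x) x j) = D.r j x * F (gC D c x j) := by
  by_cases hj : j ∈ D.C
  · rw [Rec.grad_add, Pi.add_apply, grad_s G m x hj, add_zero, gC, if_pos hj]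
  · rw [r_zero D j x hj, zero_mul, zero_mul]

/-- the exact expansion of `A^r` under the tilt -/
lemma Ar_add (H : D.Ok mg C0 CV K1) (p : ℝ) (z c m c' m' : κ → ℝ) {v w : Cube n → ℝ}
    (hv : v = D.vp p z) (hw : w = D.W p z c m) : Ar D.r v (D.W p z (c + c') (m + m')) =
      Ar D.r v w - mean v (fun x => ∑ j, D.r j x * (gC D c' x j * chi v w j x)) +
        mean v fun x => ∑ j, D.r j x * cg (cm w j x) (gC D c' x j) := by
  have pr : Pr v w := by rw [hv, hw]; exact pr_W H.fp p z c m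
  have e := fun j x => r_mul (F := fun g => g * chi v w j x) H.toGeo c' m' j x
  rw [W_add, ← hw]
  simp only [Ar, As_wt' pr (off_r D _), Finset.sum_add_distrib, Finset.sum_sub_distrib, mean_sum,
    e, r_mul (F := cg (cm w _ _)) H.toGeo]

lemma dr_eq (D : Dat n κ) (c' : κ → ℝ) (v w : Cube n → ℝ) :
    dr D.r D.a v w (fun x => c' ⬝ᵥ D.φ x) =
      -mean v (fun x => ∑ j, D.r j x * (gC D c' x j * chi v w j x)) +
        D.a * (mean v (fun x => c' ⬝ᵥ D.φ x) - mean w fun x => c' ⬝ᵥ D.φ x) := by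
  rw [dr, mean_sum]
  congr 3; ext j; congr 1; ext x
  by_cases hj : j ∈ D.C
  · rw [gC, if_pos hj]
  · rw [r_zero D j x hj, zero_mul, zero_mul]

lemma gC_sub {V : κ → Cube n → Fin n → ℝ} (hV : ∀ k x j, j ∉ D.C → V k x j = 0) (c : κ → ℝ)
    (x : Cube n) : sq (gC D c x - Vf V c x) =
      ∑ j ∈ D.C, (grad (fun y => c ⬝ᵥ D.φ y) x j - Vf V c x j) ^ 2 := by
  rw [sq, dotProduct, ← Finset.sum_subset (Finset.subset_univ D.C) fun j _ hj => by
    simp [gC, hj, Vf, hV _ x j hj]]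
  exact Finset.sum_congr rfl fun j hj => by simp only [gC, Pi.sub_apply, if_pos hj]; ring

/-- the loud edges -/
lemma loud (H : D.Ok mg C0 CV K1) {K t B : ℝ} (p : ℝ) (z c m : κ → ℝ) {v w : Cube n → ℝ}
    (hv : v = D.vp p z) (g : Cube n → Fin n → ℝ)
    (h : mean v (fun x => ∑ j, (if j ∈ D.C then 1 else 0) * Ue.Lw D.η D.f j x *
        (|chi v w j x| * |g x j|)) ≤
      (t / 4 + K * D.ε / D.η ^ 2) *
        Ue.El (fun j x => (if j ∈ D.C then 1 else 0) * Ue.Lw D.η D.f j x) v (D.lp p z) +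
      mean v fun x => 2 * D.ε * (∑ j ∈ D.C,
        grad (fun x => D.del ⬝ᵥ sv x + D.Θ x + c ⬝ᵥ D.φ x + m ⬝ᵥ D.s x) x j ^ 2) +
        1 / D.ε * exc D.ε (g x))
    (ht : 0 < t) (hK : K * D.ε / D.η ^ 2 ≤ t / 4) (hψ : ∀ x, sq (D.ψ c x) ≤ 12 * CV ^ 2 * B)
    (hB : D.B0 ≤ B) :
    mean v (fun x => ∑ j ∈ D.C, (1 - D.r j x) * (|chi v w j x| * |g x j|)) ≤
      t * ((1 - Ue.th D.a') / (2 * (1 - 2 * D.η)) * Ue.El D.lw v (D.lp p z)) +
        52 * CV ^ 2 * D.ε * B + 1 / D.ε * mean v fun x => exc D.ε (g x) := by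
  obtain ⟨t0, t1, t2⟩ := th_mem H
  have e0 := H.e0
  have η0 := H.η0
  have pr := hv ▸ pr_lp H.fp p z
  have e : (fun j x => (if j ∈ D.C then 1 else 0) * Ue.Lw D.η D.f j x) = D.lw := by
    ext j x; unfold Dat.lw; split_ifs <;> simp
  rw [e] at h
  have E0 : 0 ≤ Ue.El D.lw v (D.lp p z) := Ue.El_nonneg pr.1 pr.2 (lw_nn D)
  have cv : 1 ≤ CV ^ 2 := one_le_pow₀ H.cv
  have B0 : 0 ≤ B := zero_le_one.trans (H.b1.trans hB)
  have a1 : mean v (fun x => 2 * D.ε * (∑ j ∈ D.C,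
      grad (fun x => D.del ⬝ᵥ sv x + D.Θ x + c ⬝ᵥ D.φ x + m ⬝ᵥ D.s x) x j ^ 2) +
        1 / D.ε * exc D.ε (g x)) ≤ 52 * CV ^ 2 * D.ε * B + 1 / D.ε * mean v fun x => exc D.ε (g x) := by
    rw [mean_add, mean_const_mul _ _ (1 / D.ε)]
    refine add_le_add (pr.1.hv.mean_le fun x => ?_) le_rfl
    have b1 : ∑ j ∈ D.C, grad (fun x => D.del ⬝ᵥ sv x + D.Θ x + c ⬝ᵥ D.φ x + m ⬝ᵥ D.s x) x j ^ 2 ≤
        sq (D.ψ c x + -D.dl) := by
      rw [Finset.sum_congr rfl fun j hj => by rw [grad_G H.toGeo c m x hj, pow_two]]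
      exact Finset.sum_le_sum_of_subset_of_nonneg (Finset.subset_univ _)
        fun _ _ _ => mul_self_nonneg _
    have b2 := sq_add (D.ψ c x) (-D.dl)
    rw [sq_neg] at b2
    have b3 : sq D.dl ≤ CV ^ 2 * B := by
      have := mul_le_mul_of_nonneg_right cv B0
      linarith [H.bd, sq_nn D.del, sq_nonneg D.L]
    have b4 := mul_le_mul_of_nonneg_left (b1.trans b2) (by positivity : 0 ≤ 2 * D.ε)
    have b5 := mul_le_mul_of_nonneg_left (hψ x) e0.le
    have b6 := mul_le_mul_of_nonneg_left b3 e0.le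
    linarith
  have a2 : mean v (fun x => ∑ j ∈ D.C, (1 - D.r j x) * (|chi v w j x| * |g x j|)) ≤
      (1 - Ue.th D.a') * mean v fun x => ∑ j, (if j ∈ D.C then 1 else 0) * Ue.Lw D.η D.f j x *
        (|chi v w j x| * |g x j|) := by
    rw [← mean_const_mul]
    refine pr.1.hv.mean_mono fun x => ?_
    rw [Finset.mul_sum, ← Finset.sum_subset (Finset.subset_univ D.C) fun j _ hj => by simp [hj]]
    refine Finset.sum_le_sum fun j hj => ?_
    rw [if_pos hj, one_mul, ← mul_assoc (1 - Ue.th D.a')]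
    exact mul_le_mul_of_nonneg_right (one_sub_r H hj x) (by positivity)
  have X0 : 0 ≤ 52 * CV ^ 2 * D.ε * B + 1 / D.ε * mean v fun x => exc D.ε (g x) :=
    add_nonneg (by positivity) (mul_nonneg (by positivity) (pr.1.hv.mean_nonneg fun x => exc_nn _ _))
  have θ1 : 0 ≤ 1 - Ue.th D.a' := by linarith
  have a3 := mul_le_mul_of_nonneg_left (h.trans (add_le_add
    (mul_le_mul_of_nonneg_right (add_le_add le_rfl hK) E0) a1)) θ1
  have a4 := mul_le_mul_of_nonneg_right (show 1 - Ue.th D.a' ≤ 1 by linarith) X0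
  have a5 : (1 - Ue.th D.a') / 2 ≤ (1 - Ue.th D.a') / (2 * (1 - 2 * D.η)) :=
    div_le_div_of_nonneg_left θ1 (by linarith) (by linarith)
  have a6 := mul_le_mul_of_nonneg_left (mul_le_mul_of_nonneg_right a5 E0) ht.le
  linarith

/-- the count -/
lemma cnt (H : D.Ok mg C0 CV K1) (c' : κ → ℝ) {v w : Cube n → ℝ} (pr : Pr v w)
    {E : Cube n → Fin n → ℝ} (hF : Fld D.J D.y D.C v w E) : Cnt (D.ug c') v ≤
      8 * mean v (fun x => gC D c' x ⬝ᵥ (Dg D.J D.y x * gC D c' x) + D.ε ^ 2 * (E x ⬝ᵥ E x) +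
        exc D.ε (gC D c' x)) +
      4 * D.ε * (mean v (fun x => ∑ j, D.r j x * (|chi v w j x| * |gC D c' x j|)) +
        mean v fun x => ∑ j ∈ D.C, (1 - D.r j x) * (|chi v w j x| * |gC D c' x j|)) := by
  simp only [Cnt, Cs, ← mean_sum, ← mean_add, ← mean_const_mul]
  refine mean_mono_supp pr.hv fun x hx => ?_
  rw [Chi58.sum_mj, Finset.sum_subset (s₁ := D.C) (Finset.subset_univ D.C) fun j _ hj => by
    simp [gC, hj], ← Finset.sum_add_distrib, Finset.mul_sum, Finset.mul_sum, ← Finset.sum_add_distrib]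
  refine Finset.sum_le_sum fun j _ => ?_
  by_cases hj : j ∈ D.C
  · have := sc4 (gC D c' x j) (abs_cm_le pr.hw.nn j x) (abs_cm_le pr.hv.nn j x) H.e0
      (Dg_mem D.J D.y x j).1 (Chi58.shift (hF x hx j hj))
    rw [Dat.ug, if_pos hj, chi]
    rw [gC, if_pos hj] at this ⊢
    linarith
  · have := Chi58.mj_nonneg (Dg_mem D.J D.y x j).1 D.ε (E x j) (gC D c' x j)
    rw [Dat.ug, if_neg hj]
    rw [gC, if_neg hj] at this ⊢
    simp only [abs_zero, mul_zero, zero_mul, add_zero]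
    linarith

lemma feat (D : Dat n κ) (p : ℝ) (z c' : κ → ℝ) {u : Cube n → ℝ} (hu : Wt u)
    {ζ : Cube n → Fin n → ℝ} (hζ : ∀ x, ζ x ⬝ᵥ XM D.ι D.xa *ᵥ c' =
      D.xa * ((z - p • D.h x - (1 - 1 : ℝ) • D.s x) ⬝ᵥ c')) :
    mean u (fun x => c' ⬝ᵥ (dv D.J D.y D.V x - D.a • D.φ x) - ζ x ⬝ᵥ XM D.ι D.xa *ᵥ c') =
      mean u (fun x => c' ⬝ᵥ (dv D.J D.y D.V x - (D.a • D.φ x + (D.h x - D.xa • D.s x - D.ka)))) +
        (1 + p * D.xa) * (c' ⬝ᵥ meanV u D.h) - D.xa * (c' ⬝ᵥ meanV u D.s) -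
        (c' ⬝ᵥ D.ka + D.xa * (c' ⬝ᵥ z)) := by
  rw [meanV_dot, meanV_dot, ← mean_const_mul, ← mean_const_mul, ← hu.mean_const (c' ⬝ᵥ D.ka + _),
    ← mean_add, ← mean_sub, ← mean_sub]
  congr 1; ext x
  simp only [hζ, sub_self, zero_smul, sub_zero, dotProduct_comm _ c', dotProduct_sub, dotProduct_add,
    dotProduct_smul, smul_eq_mul]
  ring

end Hd71

set_option maxHeartbeats 1000000 in
open Hd71 in
theorem hdGlue : HdGlue := by
  rintro ⟨KH, KH0, hH⟩ ⟨KC, KC1, hC⟩ hF hK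
  refine ⟨4 * KC + 26, by linarith, fun P K1 η t η0 t0 t1 => ?_⟩
  obtain ⟨Mb, Mb1, hb⟩ := hK P K1
  have KC0 : 0 ≤ KC := by linarith
  have Mb0 : 0 ≤ Mb := by linarith
  have ti : 0 < 1 / t := by positivity
  refine ⟨18 * KC + Mb + 2 * (1 / t) + 130, by linarith, fun CV => ?_⟩
  have m1 : 0 ≤ 8 / t := by positivity
  have m2 : 0 ≤ 4 * KC / (t * η ^ 2) := by positivity
  have m3 : 0 ≤ KH * (2 + Mb + 24 * CV ^ 2) := by positivity
  have m4 : 0 ≤ CV ^ 2 := by positivity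
  refine ⟨8 / t + 4 * KC / (t * η ^ 2) + KH * (2 + Mb + 24 * CV ^ 2) + 208 * CV ^ 2 + 27 * Mb +
    4 * KC + 10, by linarith, ?_⟩
  intro n κ _ _ D mg C0 H hP hη hs hM p z c m c' m' ρ v w p0 pP hρ hc hc' hv hw
  subst hP hη
  have e0 := H.e0
  have le : ∀ q : ℝ, q ≤ 8 / t + 4 * KC / (t * D.η ^ 2) + KH * (2 + Mb + 24 * CV ^ 2) +
      208 * CV ^ 2 + 27 * Mb + 4 * KC + 10 → q * D.ε ≤ D.e := fun q hq =>
    (mul_le_mul_of_nonneg_right hq e0.le).trans hM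
  have ee : D.ε ≤ D.e := by simpa using le 1 (by linarith)
  have e00 : 0 < D.e := e0.trans_le ee
  have e1 : D.e ≤ 1 := le_trans (le_mul_of_one_le_left e00.le (by linarith)) hs
  have ε1 : D.ε ≤ 1 := ee.trans e1
  have q1 : 2 * D.ε ≤ t / 4 := by
    have := (le (8 / t) (by linarith)).trans e1
    rw [div_mul_eq_mul_div, div_le_one t0] at this
    linarith
  have q2 : KC * D.ε / D.η ^ 2 ≤ t / 4 := by
    have := (le (4 * KC / (t * D.η ^ 2)) (by linarith)).trans e1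
    rw [div_mul_eq_mul_div, div_le_one (by positivity)] at this
    rw [div_le_iff₀ (by positivity)]
    linarith
  have pr : Pr v w := by rw [hv, hw]; exact pr_W H.fp p z c m
  obtain ⟨B, hB⟩ : ∃ B, B = ρ ^ 2 + D.bud p z + sq m := ⟨_, rfl⟩
  rw [← hB]
  have hbud : D.bud p z = D.bv p z v := by rw [hv]; rfl
  have kv0 := (pr_mu D pr.hv).kl_nonneg
  have kw0 := (pr_mu D pr.hw).kl_nonneg
  have b1 := H.b1
  have b2 := hρ.2.1
  have kb := kl_le_bv H.toGeo p z pr.hv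
  have sm := sq_nn m
  have kv : ρ ^ 2 + kl v D.μ ≤ B := by linarith
  have B0 : 0 ≤ B := by linarith
  obtain ⟨f1, f2, ψ', f3, f4⟩ := hF n κ D H.toGeo p z 1 p0 pP
  obtain ⟨k1, k2, -⟩ := hb n κ D mg C0 CV H rfl p z c m 1 0 w v p0 pP zero_le_one le_rfl (.inl rfl)
    (hc.trans hρ.2.2) (hw ▸ ref_W D p z c m 0) pr
  have k3 : kl w D.μ + mean w (fun x => sq (D.ζ p z 1 x)) + mean v (fun x => sq (D.ζ p z 1 x)) ≤
      Mb * B := by
    have a1 := pr.kl_nonneg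
    have a2 := pr.hw.mean_nonneg fun x => sq_nn (D.h x - D.xb)
    have a3 := sq_nn (dM v w D.h)
    have a4 := sq_nn (dM v w D.s)
    have a5 : D.bv p z v + sq c + sq m + (1 - 1) * sq (0 - D.xb) ≤ B := by linarith
    have a6 := mul_le_mul_of_nonneg_left a5 Mb0
    rw [mean_add] at k1
    linarith
  have z1 := pr.hw.mean_nonneg fun x => sq_nn (D.ζ p z 1 x)
  have z2 := pr.hv.mean_nonneg fun x => sq_nn (D.ζ p z 1 x)
  have k4 : ∀ x, sq (D.ψ c x) ≤ 12 * CV ^ 2 * B := fun x => by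
    have := mul_le_mul_of_nonneg_left (show D.B0 + sq c ≤ 2 * B by linarith) m4
    linarith [k2 x]
  have k5 : ∀ x, CV * nrm (ψ' x) ≤ D.ε * ρ := fun x => psi'_le H hρ (f3 x)
  have Fv := (f4 c m 0 w v (hw ▸ ref_W D p z c m 0) pr.ac).2
  have Fw := (f4 c m 0 w w (hw ▸ ref_W D p z c m 0) fun _ h => h).2
  obtain ⟨E, hE⟩ : ∃ E : Cube n → Fin n → ℝ, E = fun x => D.ψ c x + D.J *ᵥ D.ζ p z 1 x + ψ' x :=
    ⟨_, rfl⟩
  have k6 : mean v (fun x => E x ⬝ᵥ E x) ≤ (36 * CV ^ 2 + 27 * Mb + 3) * B := by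
    have : mean v (fun x => E x ⬝ᵥ E x) ≤
        mean v fun x => (36 * CV ^ 2 * B + 3 * B) + 27 * sq (D.ζ p z 1 x) := pr.hv.mean_mono fun x => by
      have a1 := sq_add3 (D.ψ c x) (D.J *ᵥ D.ζ p z 1 x) (ψ' x)
      have a2 := sq_of_nrm ((Eig.nrm_mulVec_le D.J (D.ζ p z 1 x)).trans
        (mul_le_mul_of_nonneg_right H.op (Eig.nrm_nonneg _)))
      rw [mul_pow, Eig.nrm_sq] at a2
      have a3 := sq_of_nrm ((le_mul_of_one_le_left (Eig.nrm_nonneg (ψ' x)) H.cv).trans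
        ((k5 x).trans (mul_le_of_le_one_left hρ.1 ε1)))
      have a4 := k4 x
      rw [hE]
      simp only [sq] at a1 a2 a3 a4 ⊢
      linarith
    rw [mean_add, pr.hv.mean_const, mean_const_mul] at this
    linarith
  have S := H.sfa ρ hρ
  have bd : Bd ρ fun _ : Cube n => c' := fun _ => hc'
  have g1 := H.gf c' (hc'.trans hρ.2.2) v pr.hv
  have g2 : mean v (fun x => ∑ j ∈ D.C, (grad (fun y => c' ⬝ᵥ D.φ y) x j - Vf D.V c' x j) ^ 2) ≤
      2 * (D.e * B) := by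
    have := mul_le_mul_of_nonneg_left (show D.B0 + sq c' + kl v D.μ ≤ 2 * B by linarith) e00.le
    linarith
  have εB : D.ε * (ρ ^ 2 + kl v D.μ) ≤ D.ε * B := mul_le_mul_of_nonneg_left kv e0.le
  have g3 : mean v (fun x => exc D.ε (Vf D.V c' x)) ≤ D.ε * (D.ε * B) :=
    (S.f4 v _ pr.hv bd).trans (by
      rw [pow_two, mul_assoc]; exact mul_le_mul_of_nonneg_left εB e0.le)
  have g4 : mean v (fun x => Vf D.V c' x ⬝ᵥ (Dg D.J D.y x * Vf D.V c' x)) ≤
      C0 * D.xa * sq c' + D.ε * B := by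
    have := S.f6 v _ pr.hv bd
    rw [pr.hv.mean_const] at this
    exact this.trans (add_le_add le_rfl εB)
  have εB0 : 0 ≤ D.ε * B := by positivity
  have εε : ∀ X, 0 ≤ X → D.ε * X ≤ X := fun X hX => mul_le_of_le_one_left hX ε1
  have leB : ∀ q : ℝ, q ≤ 8 / t + 4 * KC / (t * D.η ^ 2) + KH * (2 + Mb + 24 * CV ^ 2) +
      208 * CV ^ 2 + 27 * Mb + 4 * KC + 10 → q * (D.ε * B) ≤ D.e * B := fun q hq => by
    rw [← mul_assoc]; exact mul_le_mul_of_nonneg_right (le q hq) B0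
  obtain ⟨Gm, hGm⟩ : ∃ Gm, Gm = mean v fun x => gC D c' x ⬝ᵥ (Dg D.J D.y x * gC D c' x) +
    D.ε ^ 2 * (E x ⬝ᵥ E x) + exc D.ε (gC D c' x) := ⟨_, rfl⟩
  have G1 : Gm ≤ 2 * (C0 * D.xa * sq c') + 9 * (D.e * B) := by
    have a1 : Gm ≤ mean v fun x => 2 * (Vf D.V c' x ⬝ᵥ (Dg D.J D.y x * Vf D.V c' x)) +
        D.ε ^ 2 * (E x ⬝ᵥ E x) + 2 * exc D.ε (Vf D.V c' x) +
        4 * ∑ j ∈ D.C, (grad (fun y => c' ⬝ᵥ D.φ y) x j - Vf D.V c' x j) ^ 2 := by
      rw [hGm]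
      refine pr.hv.mean_mono fun x => ?_
      have c1 := dq_le _ (gC D c' x) (Vf D.V c' x) (Dg_mem D.J D.y x)
      have c2 := exc_le D.ε (gC D c' x) (Vf D.V c' x)
      rw [gC_sub S.supp] at c1 c2
      linarith
    simp only [mean_add, mean_const_mul] at a1
    have a2 := mul_le_mul_of_nonneg_left k6 (sq_nonneg D.ε)
    have a3 := εε ((36 * CV ^ 2 + 27 * Mb + 3) * (D.ε * B)) (by positivity)
    have a4 := εε _ εB0
    have a5 := leB (36 * CV ^ 2 + 27 * Mb + 7) (by linarith)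
    linarith
  have G2 : mean v (fun x => exc D.ε (gC D c' x)) ≤ Gm := by
    rw [hGm]
    exact pr.hv.mean_mono fun x => le_add_of_nonneg_left (add_nonneg (dq_nn _ _ _ _)
      (mul_nonneg (sq_nonneg _) (sq_nn (E x))))
  have G0 : 0 ≤ Gm := (pr.hv.mean_nonneg fun x => exc_nn _ _).trans G2
  have X0 : 0 ≤ C0 * D.xa * sq c' := mul_nonneg (mul_nonneg H.c0 H.xa0) (sq_nn c')
  have eB0 : 0 ≤ D.e * B := by positivity
  have G3 := mul_le_mul_of_nonneg_left G1 KC0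
  have G4 := mul_nonneg KC0 X0
  have G5 := mul_nonneg KC0 eB0
  have G6 := mul_nonneg Mb0 eB0
  have G7 := mul_nonneg ti.le eB0
  rw [← hE] at Fv
  have L := fun g => loud H (K := KC) (w := w) p z c m hv g
    ((hC n D.J D.y D.C (fun j _ => if j ∈ D.C then 1 else 0) v w E g D.ε (t / 4) pr
      (fun j _ => by split_ifs <;> norm_num) (fun j _ hj => if_neg hj) Fv e0 q1 (by linarith)).2.2
      _ D.f _ D.η (wt_lp D p z) H.fp (hv.trans (vp_eq D p z)) (hw.trans (W_eq D p z c m)) η0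
      (by linarith [H.η1, H.mg1])) t0 q2 k4 (by linarith)
  obtain ⟨c1, c2, -⟩ := hC n D.J D.y D.C D.r v w E (gC D c') D.ε 1 pr (r_mem H) (r_zero D) Fv e0
    (by linarith) le_rfl
  rw [← hGm] at c1 c2
  have A0 : 0 ≤ Ar D.r v w := pr.Ar_nonneg fun j x => (r_mem H j x).1
  obtain ⟨El, hEl⟩ : ∃ El, El = (1 - Ue.th D.a') / (2 * (1 - 2 * D.η)) * Ue.El D.lw v (D.lp p z) :=
    ⟨_, rfl⟩
  have El0 : 0 ≤ El := by
    obtain ⟨t0, t1, t2⟩ := th_mem H
    have := hv ▸ pr_lp H.fp p z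
    rw [hEl]
    exact mul_nonneg (div_nonneg (by linarith [H.η0]) (by linarith))
      (Ue.El_nonneg this.1 this.2 (lw_nn D))
  have hAC : D.AC v w (D.lp p z) = Ar D.r v w + El := by rw [hEl]; rfl
  rw [← hEl] at L
  have hA := Ar_add H p z c m c' m' hv hw
  refine ⟨?_, ?_, ?_, ?_⟩
  · obtain ⟨gb, hgb⟩ := (H.cen ρ hρ c hc).1
    have a1 := hH n κ D.J D.y D.C (rw D.J D.C D.ι) D.V D.φ (fun x => dv D.J D.y D.V x - D.a • D.φ x)
      (XM D.ι D.xa) (fun _ => D.xa) gb c' D.a (C0 * D.xa) CV D.ε ρ D.ς D.B0 t D.r v w (D.ψ c)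
      (D.ζ p z 1) ψ' (by simpa only [add_sub_cancel] using S) hgb (sps H hρ ε1) pr (r_mem H)
      (r_zero D) Fw f1 k5 (by linarith) hc' t0
    rw [feat D p z c' pr.hv fun x => f2 x _ _, feat D p z c' pr.hw fun x => f2 x _ _] at a1
    have a2 := H.eqa (-c') (by rw [sq_neg]; exact hc'.trans hρ.2.2) v pr.hv
    have a3 := H.eqa c' (hc'.trans hρ.2.2) w pr.hw
    simp only [neg_dotProduct, mean_neg, sq_neg] at a2
    have a4 := mul_le_mul_of_nonneg_left (show D.B0 + sq c' + kl v D.μ ≤ 2 * B by linarith) e00.le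
    have a5 := mul_le_mul_of_nonneg_left
      (show D.B0 + sq c' + kl w D.μ ≤ 2 * B + Mb * B by linarith) e00.le
    have a6 := L fun x => Vf D.V c' x
    have a7 : 1 / D.ε * mean v (fun x => exc D.ε (Vf D.V c' x)) ≤ D.ε * B := by
      rw [one_div, inv_mul_le_iff₀ e0]; exact g3
    have a8 := leB (52 * CV ^ 2 + 1) (by linarith)
    have a9 := mul_le_mul_of_nonneg_left g2 ti.le
    have s1 : mean v (fun x => D.ψ c x ⬝ᵥ D.ψ c x) ≤ 12 * CV ^ 2 * B := pr.hv.mean_le k4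
    have s2 : mean w (fun x => D.ψ c x ⬝ᵥ D.ψ c x) ≤ 12 * CV ^ 2 * B := pr.hw.mean_le k4
    have a10 : ρ ^ 2 + D.B0 + kl v (ising D.J D.y) + kl w (ising D.J D.y) +
        mean v (fun x => D.ψ c x ⬝ᵥ D.ψ c x + D.ζ p z 1 x ⬝ᵥ D.ζ p z 1 x) +
        mean w (fun x => D.ψ c x ⬝ᵥ D.ψ c x + D.ζ p z 1 x ⬝ᵥ D.ζ p z 1 x) ≤
        (2 + Mb + 24 * CV ^ 2) * B := by
      rw [mean_add, mean_add]
      simp only [sq, Dat.μ] at k3 kv kv0
      linarith
    have a11 := mul_le_mul_of_nonneg_left a10 (mul_nonneg KH0 e0.le)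
    have a12 := leB (KH * (2 + Mb + 24 * CV ^ 2)) (by linarith)
    rw [hAC]
    simp only [dM, dotProduct_sub]
    linarith
  · have a1 := mul_le_mul_of_nonneg_left (kl_wt_ge pr fun x => c' ⬝ᵥ D.φ x + m' ⬝ᵥ D.s x)
      (H.mg0.le.trans H.a0)
    rw [hA, W_add, ← hw, dr_eq]
    simp only [mean_add, ← meanV_dot _ D.s] at a1
    simp only [dM, dotProduct_sub]
    linarith
  · have a1 : -mean v (fun x => ∑ j, D.r j x * (gC D c' x j * chi v w j x)) ≤
        mean v fun x => ∑ j, D.r j x * (|chi v w j x| * |gC D c' x j|) := by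
      rw [← mean_neg]
      refine pr.hv.mean_mono fun x => ?_
      rw [← Finset.sum_neg_distrib]
      refine Finset.sum_le_sum fun j _ => ?_
      rw [← mul_neg, ← abs_mul, mul_comm (chi v w j x)]
      exact mul_le_mul_of_nonneg_left (neg_le_abs _) (r_mem H j x).1
    rw [hA]
    rw [div_one] at c1
    linarith
  · have a1 := cnt H c' pr Fv
    rw [← hGm] at a1
    rw [div_one] at c1
    have a2 := mul_le_mul_of_nonneg_left (add_le_add c1 (L (gC D c'))) (by positivity : 0 ≤ 4 * D.ε)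
    have a3 : D.ε * (1 / D.ε * mean v fun x => exc D.ε (gC D c' x)) =
        mean v fun x => exc D.ε (gC D c' x) := by field_simp
    have a4 := mul_le_mul_of_nonneg_right ((le (4 * KC) (by linarith)).trans e1) G0
    have a5 := mul_le_mul_of_nonneg_right (le 4 (by linarith)) A0
    have a6 := mul_le_mul_of_nonneg_right (le 4 (by linarith)) El0
    have a7 := mul_le_mul_of_nonneg_left (mul_le_of_le_one_left El0 t1) e0.le
    have a8 := εε (208 * CV ^ 2 * (D.ε * B)) (by positivity)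
    have a9 := leB (208 * CV ^ 2) (by linarith)
    have a10 : 1 * (D.e * (Ar D.r v w + El)) ≤
        (18 * KC + Mb + 2 * (1 / t) + 130) * (D.e * (Ar D.r v w + El)) :=
      mul_le_mul_of_nonneg_right (by linarith) (by positivity)
    have e : (18 * KC + Mb + 2 * (1 / t) + 130) * D.e *
        (D.AC v w (D.lp p z) + ρ ^ 2 + D.bud p z + sq m) =
        (18 * KC + Mb + 2 * (1 / t) + 130) * (D.e * (Ar D.r v w + El)) +
          (18 * KC + Mb + 2 * (1 / t) + 130) * (D.e * B) := by rw [hAC, hB]; ring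
    rw [e]
    linarith

end Crest.Agent.T157.Br

end
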