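import Crest.Agent.T157.BrHs_75

/-!
# Row 157, block B, S1 (helper91): the Stein identity `STStmt`
-/

set_option autoImplicit false

noncomputable section

namespace Crest.Agent.T157.Br

open Real Matrix Function
open Crest.Agent.T157.E Crest.Agent.T157.SL Crest.Agent.T157.Ta
open Crest.Agent.T157.Rec (grad)
open Crest.Agent.T157.Eig
open Crest.Agent.T157.S3 (hf tau Dg)

namespace St91

variable {n : ℕ} {κ : Type} [Fintype κ]

lemma hd_tanh (x : ℝ) : HasDerivAt tanh (1 - tanh x ^ 2) x := by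
  have h := (hasDerivAt_sinh x).div (hasDerivAt_cosh x) (cosh_pos x).ne'
  have e : sinh / cosh = tanh := funext fun y => (tanh_eq_sinh_div_cosh y).symm
  rw [e] at h
  refine h.congr_deriv ?_
  rw [tanh_eq_sinh_div_cosh]
  field_simp

lemma tanh_tay (h e : ℝ) : |tanh (h + e) - tanh h - (1 - tanh h ^ 2) * e| ≤ 2 * e ^ 2 ∧
    |tanh (h + e) - tanh h - (1 - tanh h ^ 2) * e| ≤ 2 * |e| := by
  refine ⟨?_, ?_⟩
  · have := Hs75.tay (M := 2) (by norm_num) hd_tanh (fun a b => by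
      rw [show 1 - tanh a ^ 2 - (1 - tanh b ^ 2) = (tanh a - tanh b) * -(tanh a + tanh b) by ring,
        abs_mul, abs_neg, mul_comm]
      exact mul_le_mul ((abs_add_le _ _).trans
        (by linarith [abs_tanh_lt_one a, abs_tanh_lt_one b])) (Ue.abs_tanh_sub_le a b)
        (abs_nonneg _) (by norm_num)) h (-e)
    rw [sub_neg_eq_add, neg_sq, ← abs_neg] at this
    convert this using 2
    ring
  · have h1 := Ue.abs_tanh_sub_le (h + e) h
    rw [add_sub_cancel_left] at h1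
    have h2 : |(1 - tanh h ^ 2) * e| ≤ |e| := by
      rw [abs_mul, abs_of_nonneg (by linarith [tanh_sq_lt_one h])]
      exact mul_le_of_le_one_left (abs_nonneg _) (by nlinarith [sq_nonneg (tanh h)])
    linarith [abs_sub (tanh (h + e) - tanh h) ((1 - tanh h ^ 2) * e)]

/-- the remainder against a field with a small excess -/
lemma rem_le {r e F ε : ℝ} (hε : 0 < ε) (h1 : |r| ≤ 2 * e ^ 2) (h2 : |r| ≤ 2 * |e|) :
    |r * F| ≤ 3 * ε * (e * e) + 1 / ε * max (|F| - ε) 0 ^ 2 := by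
  obtain ⟨m, hm⟩ : ∃ m, m = max (|F| - ε) 0 := ⟨_, rfl⟩
  have m0 : 0 ≤ m := hm ▸ le_max_right _ _
  have m1 : |F| ≤ ε + m := by rw [hm]; linarith [le_max_left (|F| - ε) 0]
  have k : 2 * |e| * m ≤ ε * (e * e) + 1 / ε * m ^ 2 := by
    have e1 : ε * (e * e) + 1 / ε * m ^ 2 - 2 * |e| * m = (ε * |e| - m) ^ 2 / ε := by
      rw [← abs_mul_abs_self e]; field_simp; ring
    have : 0 ≤ (ε * |e| - m) ^ 2 / ε := by positivity
    linarith
  rw [← hm, abs_mul]
  nlinarith [mul_le_mul_of_nonneg_left m1 (abs_nonneg r), mul_le_mul_of_nonneg_right h1 hε.le,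
    mul_le_mul_of_nonneg_right h2 m0]

lemma Vf_neg (V : κ → Cube n → Fin n → ℝ) (f : κ → ℝ) (x : Cube n) : Vf V (-f) x = -Vf V f x := by
  simp [Vf]

lemma Vf_ap (V : κ → Cube n → Fin n → ℝ) (f : κ → ℝ) (x : Cube n) (j : Fin n) :
    Vf V f x j = ∑ k, f k * V k x j := by
  simp [Vf, Finset.sum_apply]

lemma Bd.neg {ρ : ℝ} {f : Cube n → κ → ℝ} (h : Bd ρ f) : Bd ρ fun x => -f x := fun x => by
  simpa using h x

lemma bd_of {ρ : ℝ} {f : Cube n → κ → ℝ} {M : κ → ℝ} (h : ∀ x k, |f x k| ≤ M k)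
    (hM : M ⬝ᵥ M ≤ ρ ^ 2) : Bd ρ f := fun x =>
  (Finset.sum_le_sum fun k _ => by
    rw [← abs_mul_abs_self]; exact mul_self_le_mul_self (abs_nonneg _) (h x k)).trans hM

lemma abs_mean {v F : Cube n → ℝ} {G : Cube n → ℝ} {c : ℝ} (h1 : mean v F ≤ c) (h2 : mean v G ≤ c)
    (e : ∀ x, G x = -F x) : |mean v F| ≤ c := by
  rw [show G = fun x => -F x from funext e, mean_neg] at h2
  exact abs_le.2 ⟨by linarith, h1⟩

lemma abs_mean_le {v F G : Cube n → ℝ} (hv : Wt v) (h : ∀ x, |F x| ≤ G x) :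
    |mean v F| ≤ mean v G :=
  abs_mean (hv.mean_mono fun x => (le_abs_self _).trans (h x))
    (hv.mean_mono fun x => (neg_le_abs _).trans (h x)) fun _ => rfl

/-- the gradient part -/
def uu (V : κ → Cube n → Fin n → ℝ) (f : Cube n → κ → ℝ) (x : Cube n) : Fin n → ℝ :=
  fun j => ∑ k, grad (fun z => f z k) x j * V k x j

lemma off_hf {J : Matrix (Fin n) (Fin n) ℝ} (hJ : ∀ j, J j j = 0) (y : Fin n → ℝ) (j : Fin n) :
    OffAt j fun x => hf J y x j := fun x b => by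
  simp only [hf, Pi.add_apply, mulVec, dotProduct]
  congr 1
  refine Finset.sum_congr rfl fun i _ => ?_
  by_cases h : i = j
  · rw [h, hJ, zero_mul, zero_mul]
  · simp only [sv, update_of_ne h]

lemma off_gt {J : Matrix (Fin n) (Fin n) ℝ} (hJ : ∀ j, J j j = 0) (y : Fin n → ℝ)
    {V : κ → Cube n → Fin n → ℝ} (hV : ∀ k, S3F.Free (V k)) (f : Cube n → κ → ℝ) (j : Fin n) :
    OffAt j fun x => gt J y V f x j := by
  have e : ∀ x, gt J y V f x j = ∑ k, (f (update x j true) k + f (update x j false) k) / 2 *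
      V k x j - tanh (hf J y x j) * ∑ k, grad (fun z => f z k) x j * V k x j := fun x => by
    rw [gt, Vf_ap, add_mul, ← sub_sub, Finset.mul_sum, ← Finset.sum_sub_distrib]
    congr 1
    refine Finset.sum_congr rfl fun k _ => ?_
    have e : f x k = f (update x j (x j)) k := by rw [update_eq_self]
    rw [e, grad, incr, sv]
    cases x j <;> simp [Crest.ProbabilityR.SpinGlassDynamics.spin] <;> ring
  intro x b
  simp only [e, update_idem, hV _ x j b, Rec.grad_update, off_hf hJ y j x b]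

variable {J : Matrix (Fin n) (Fin n) ℝ} {y : Fin n → ℝ} {C : Finset (Fin n)} {gk : κ → Fin n → ℝ}
  {V : κ → Cube n → Fin n → ℝ} {A f f' : Cube n → κ → ℝ} {X : Matrix (Fin n) κ ℝ}
  {xk M : κ → ℝ} {Cq CV ε ρ ς : ℝ}

lemma nrm_V (hS : SF J y C gk V A X xk Cq CV ε ρ) (k : κ) (x : Cube n) : nrm (V k x) ≤ CV := by
  classical
  have := hS.bd (Pi.single k 1) x
  rw [nrm_single, mul_one] at this
  convert this using 2
  funext j
  simp [Vf_ap, Pi.single_apply]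

lemma nrm_uu (hS : SF J y C gk V A X xk Cq CV ε ρ) (hP : Sps J gk CV ε ρ ς)
    (hT : Tf C gk f f' M ρ) (x : Cube n) : nrm (uu V f x) ≤ ε * ρ := by
  have h1 : ∀ j, uu V f x j * uu V f x j ≤ ς ^ 2 * ∑ k, (M k * V k x j) ^ 2 := fun j => by
    by_cases hj : j ∈ C
    · have a1 : |uu V f x j| ≤ ∑ k, |gk k j| * |M k * V k x j| :=
        (Finset.abs_sum_le_sum_abs _ _).trans (Finset.sum_le_sum fun k _ => by
          rw [abs_mul, abs_mul, abs_of_nonneg ((abs_nonneg _).trans (hT.b0 x k)), ← mul_assoc,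
            mul_comm _ (M k)]
          exact mul_le_mul_of_nonneg_right (hT.g1 x k j hj) (abs_nonneg _))
      have a2 := Finset.sum_mul_sq_le_sq_mul_sq Finset.univ (fun k => |gk k j|)
        fun k => |M k * V k x j|
      simp only [sq_abs] at a2
      rw [← abs_mul_abs_self, ← sq]
      exact ((pow_le_pow_left₀ (abs_nonneg _) a1 2).trans a2).trans
        (mul_le_mul_of_nonneg_right (hP.col j) (Finset.sum_nonneg fun _ _ => sq_nonneg _))
    · simp [uu, hS.supp _ x j hj]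
  have h2 : ∑ j, ∑ k, (M k * V k x j) ^ 2 ≤ CV ^ 2 * ρ ^ 2 := by
    rw [Finset.sum_comm]
    refine le_trans (Finset.sum_le_sum fun k _ => ?_) (show ∑ k, CV ^ 2 * (M k * M k) ≤ _ by
      rw [← Finset.mul_sum]; exact mul_le_mul_of_nonneg_left hT.sm (sq_nonneg _))
    have := (nrm_le_iff (by linarith [hP.cv])).1 (nrm_V hS k x)
    simp only [mul_pow, ← Finset.mul_sum]
    simp only [dotProduct, ← sq] at this
    nlinarith [mul_le_mul_of_nonneg_left this (sq_nonneg (M k))]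
  rw [nrm_le_iff (mul_nonneg hP.e0.le hP.r0)]
  refine (Finset.sum_le_sum fun j _ => h1 j).trans ?_
  rw [← Finset.mul_sum]
  have h3 : (CV * ς) ^ 2 ≤ ε ^ 2 :=
    pow_le_pow_left₀ (mul_nonneg (by linarith [hP.cv]) hP.s0) hP.sm 2
  nlinarith [mul_le_mul_of_nonneg_left h2 (sq_nonneg ς),
    mul_le_mul_of_nonneg_right h3 (sq_nonneg ρ)]

lemma nrm_gt (hS : SF J y C gk V A X xk Cq CV ε ρ) (hP : Sps J gk CV ε ρ ς)
    (hT : Tf C gk f f' M ρ) (x : Cube n) :
    nrm (gt J y V f x - Vf V (f x) x) ≤ 2 * ε * ρ := by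
  have h0 := mul_nonneg hP.e0.le hP.r0
  have h := (nrm_le_iff h0).1 (nrm_uu hS hP hT x)
  rw [nrm_le_iff (by linarith)]
  refine le_trans (Finset.sum_le_sum fun j _ => ?_) (show ∑ j, 4 * (uu V f x j * uu V f x j) ≤ _ by
    rw [← Finset.mul_sum]; unfold dotProduct at h; linarith)
  have e : (gt J y V f x - Vf V (f x) x) j = -(sv x j + tanh (hf J y x j)) * uu V f x j := by
    simp only [gt, uu, Pi.sub_apply]; ring
  have a1 := abs_le.1 (Hs75.abs_sv x j).le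
  have a2 := abs_lt.1 (abs_tanh_lt_one (hf J y x j))
  have a3 : (sv x j + tanh (hf J y x j)) ^ 2 ≤ 4 := by nlinarith
  rw [e]
  nlinarith [mul_le_mul_of_nonneg_right a3 (sq_nonneg (uu V f x j))]

lemma Du_le (hS : SF J y C gk V A X xk Cq CV ε ρ) (hP : Sps J gk CV ε ρ ς)
    (hT : Tf C gk f f' M ρ) (x : Cube n) :
    |Dg J y x ⬝ᵥ uu V f x - ∑ k, f' x k * (gk k ⬝ᵥ (Dg J y x * V k x))| ≤ 6 * ε * ρ ^ 2 := by
  have e : Dg J y x ⬝ᵥ uu V f x - ∑ k, f' x k * (gk k ⬝ᵥ (Dg J y x * V k x)) =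
      ∑ k, ∑ j, Dg J y x j * ((grad (fun z => f z k) x j - f' x k * gk k j) * V k x j) := by
    simp only [dotProduct, uu, Finset.mul_sum, Pi.mul_apply]
    rw [Finset.sum_comm, ← Finset.sum_sub_distrib]
    refine Finset.sum_congr rfl fun k _ => ?_
    rw [← Finset.sum_sub_distrib]
    exact Finset.sum_congr rfl fun j _ => by ring
  have M0 : ∀ k, 0 ≤ M k := fun k => (abs_nonneg _).trans (hT.b0 x k)
  have h1 : ∀ k, |∑ j, Dg J y x j * ((grad (fun z => f z k) x j - f' x k * gk k j) * V k x j)| ≤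
      3 * ε * (1 + M k * M k) := fun k => by
    have a1 : ∀ j, |Dg J y x j * ((grad (fun z => f z k) x j - f' x k * gk k j) * V k x j)| ≤
        2 * M k * ς * (|gk k j| * |V k x j|) := fun j => by
      have := M0 k
      have := hP.s0
      by_cases hj : j ∈ C
      · have b1 : |Dg J y x j| ≤ 1 := by
          have := tanh_sq_lt_one (hf J y x j)
          rw [Dg, abs_of_nonneg (by linarith)]; nlinarith [sq_nonneg (tanh (hf J y x j))]
        have b2 : |gk k j| ≤ ς := abs_le_of_sq_le_sq' ((Finset.single_le_sum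
          (f := fun k => gk k j ^ 2) (fun _ _ => sq_nonneg _) (Finset.mem_univ k)).trans
            (hP.col j)) hP.s0 |> abs_le.2
        have b3 : 2 * M k * gk k j ^ 2 ≤ 2 * M k * ς * |gk k j| := by
          rw [← sq_abs, sq, ← mul_assoc]; gcongr
        rw [abs_mul, abs_mul, ← mul_assoc (2 * M k * ς)]
        refine (mul_le_of_le_one_left (by positivity) b1).trans ?_
        exact mul_le_mul_of_nonneg_right ((hT.g2 x k j hj).trans b3) (abs_nonneg _)
      · simp [hS.supp _ x j hj]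
    have a2 : ∑ j, |gk k j| * |V k x j| ≤ 3 * CV := by
      refine (dot_le (fun j => |gk k j|) fun j => |V k x j|).trans ?_
      have e1 : ∀ g : Fin n → ℝ, nrm (fun j => |g j|) = nrm g := fun g => by
        simp [nrm, dotProduct]
      rw [e1, e1]
      exact mul_le_mul (hP.row k) (nrm_V hS k x) (nrm_nonneg _) (by norm_num)
    refine (Finset.abs_sum_le_sum_abs _ _).trans ((Finset.sum_le_sum fun j _ => a1 j).trans ?_)
    rw [← Finset.mul_sum]
    have a3 := mul_le_mul_of_nonneg_left a2 (mul_nonneg (mul_nonneg zero_le_two (M0 k)) hP.s0)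
    nlinarith [mul_le_mul_of_nonneg_left hP.sm (M0 k), mul_nonneg hP.e0.le (sq_nonneg (M k - 1))]
  rw [e]
  refine (Finset.abs_sum_le_sum_abs _ _).trans ((Finset.sum_le_sum fun k _ => h1 k).trans ?_)
  rw [← Finset.mul_sum, Finset.sum_add_distrib, Finset.sum_const, Finset.card_univ, nsmul_eq_mul]
  have h2 := hT.sm
  unfold dotProduct at h2
  nlinarith [hP.card, hP.e0]

/-- the pointwise errors of the response -/
lemma resp_le (hS : SF J y C gk V A X xk Cq CV ε ρ) (hP : Sps J gk CV ε ρ ς)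
    (hT : Tf C gk f f' M ρ) (x : Cube n) (ψ ζ ψ' : Fin n → ℝ) (hψ : CV * nrm ψ' ≤ ε * ρ) :
    |(fun j => tanh (hf J y x j + (ψ + J *ᵥ ζ + ψ') j) - tanh (hf J y x j)) ⬝ᵥ gt J y V f x -
      ψ ⬝ᵥ (Dg J y x * Vf V (f x) x) - ζ ⬝ᵥ J *ᵥ (Dg J y x * Vf V (f x) x)| ≤
      ε * (14 * ρ ^ 2 + 12 * (ψ ⬝ᵥ ψ) + 108 * (ζ ⬝ᵥ ζ)) + 1 / ε * exc ε (Vf V (f x) x) := by
  classical
  obtain ⟨e, he⟩ : ∃ e, e = ψ + J *ᵥ ζ + ψ' := ⟨_, rfl⟩
  obtain ⟨F, hF⟩ : ∃ F, F = Vf V (f x) x := ⟨_, rfl⟩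
  obtain ⟨c, hc⟩ : ∃ c : Fin n → ℝ, c = fun j => tanh (hf J y x j + e j) - tanh (hf J y x j) :=
    ⟨_, rfl⟩
  have e0 := hP.e0
  have r0 := hP.r0
  have k0 : nrm F ≤ CV * ρ := hF ▸ (hS.bd _ x).trans (mul_le_mul_of_nonneg_left
    ((nrm_le_iff r0).2 (bd_of hT.b0 hT.sm x)) (by linarith [hP.cv]))
  have k1 : |c ⬝ᵥ (gt J y V f x - F)| ≤ ε * (e ⬝ᵥ e + ρ ^ 2) := by
    have a1 : nrm c ≤ nrm e := Real.sqrt_le_sqrt (Finset.sum_le_sum fun j _ => by
      have := Ue.abs_tanh_sub_le (hf J y x j + e j) (hf J y x j)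
      rw [add_sub_cancel_left] at this
      rw [← abs_mul_abs_self, ← abs_mul_abs_self (e j), hc]
      exact mul_self_le_mul_self (abs_nonneg _) this)
    have a2 := mul_le_mul a1 (hF ▸ nrm_gt hS hP hT x) (nrm_nonneg _) (nrm_nonneg _)
    rw [← nrm_sq]
    nlinarith [abs_dot_le c (gt J y V f x - F), mul_nonneg e0.le (sq_nonneg (nrm e - ρ))]
  have k2 : |(c - Dg J y x * e) ⬝ᵥ F| ≤ 3 * ε * (e ⬝ᵥ e) + 1 / ε * exc ε F := by
    refine (Finset.abs_sum_le_sum_abs _ _).trans ?_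
    rw [dotProduct, exc, Finset.mul_sum, Finset.mul_sum, ← Finset.sum_add_distrib]
    exact Finset.sum_le_sum fun j _ => rem_le e0 (hc ▸ (tanh_tay _ _).1) (hc ▸ (tanh_tay _ _).2)
  have k3 : |ψ' ⬝ᵥ (Dg J y x * F)| ≤ ε * ρ ^ 2 := by
    have a1 : nrm (Dg J y x * F) ≤ nrm F := Real.sqrt_le_sqrt (Finset.sum_le_sum fun j _ => by
      have := tanh_sq_lt_one (hf J y x j)
      have b : Dg J y x j ^ 2 ≤ 1 := by
        rw [Dg]; nlinarith [sq_nonneg (tanh (hf J y x j))]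
      rw [Pi.mul_apply]
      nlinarith [mul_le_mul_of_nonneg_right b (sq_nonneg (F j))])
    nlinarith [abs_dot_le ψ' (Dg J y x * F), mul_le_mul_of_nonneg_left (a1.trans k0) (nrm_nonneg ψ'),
      mul_le_mul_of_nonneg_right hψ r0]
  have k4 : e ⬝ᵥ e ≤ 3 * (ψ ⬝ᵥ ψ) + 27 * (ζ ⬝ᵥ ζ) + 3 * ρ ^ 2 := by
    have a1 : nrm (J *ᵥ ζ) ≤ 3 * nrm ζ :=
      (nrm_mulVec_le J ζ).trans (mul_le_mul_of_nonneg_right hP.op (nrm_nonneg _))
    have a2 : nrm ψ' ≤ ρ := by
      nlinarith [mul_le_mul_of_nonneg_right hP.cv (nrm_nonneg ψ'),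
        mul_le_mul_of_nonneg_right hP.e1 r0]
    have a3 : nrm e ≤ nrm ψ + 3 * nrm ζ + ρ := by
      rw [he]; linarith [nrm_add_le (ψ + J *ᵥ ζ) ψ', nrm_add_le ψ (J *ᵥ ζ)]
    rw [← nrm_sq, ← nrm_sq, ← nrm_sq]
    nlinarith [pow_le_pow_left₀ (nrm_nonneg _) a3 2, sq_nonneg (nrm ψ - 3 * nrm ζ),
      sq_nonneg (nrm ψ - ρ), sq_nonneg (3 * nrm ζ - ρ)]
  have k5 : c ⬝ᵥ gt J y V f x - ψ ⬝ᵥ (Dg J y x * F) - ζ ⬝ᵥ J *ᵥ (Dg J y x * F) =
      c ⬝ᵥ (gt J y V f x - F) + (c - Dg J y x * e) ⬝ᵥ F + ψ' ⬝ᵥ (Dg J y x * F) := by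
    have a1 : (Dg J y x * e) ⬝ᵥ F = e ⬝ᵥ (Dg J y x * F) :=
      Finset.sum_congr rfl fun j _ => by simp only [Pi.mul_apply]; ring
    rw [dotProduct_sub, sub_dotProduct, a1, he, add_dotProduct, add_dotProduct,
      dotProduct_mulVec ζ, ← mulVec_transpose, hP.symm]
    ring
  rw [← he, ← hF, ← hc, k5]
  refine (abs_add_three _ _ _).trans ?_
  nlinarith [mul_le_mul_of_nonneg_left k4 e0.le]

/-- the exact identity -/
lemma ident (hS : SF J y C gk V A X xk Cq CV ε ρ) (hJ : ∀ j, J j j = 0) {v w : Cube n → ℝ}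
    (hv : Wt v) {e : Cube n → Fin n → ℝ} (hF : Fld J y C v w e) (f : Cube n → κ → ℝ) :
    mean v (fun x => ∑ j, chi v w j x * gt J y V f x j) =
      mean v fun x => Vf V (f x) x ⬝ᵥ tau J y x - Dg J y x ⬝ᵥ uu V f x -
        (fun j => tanh (hf J y x j + e x j) - tanh (hf J y x j)) ⬝ᵥ gt J y V f x := by
  simp only [dotProduct, ← Finset.sum_sub_distrib, mean_sum]
  refine Finset.sum_congr rfl fun j _ => ?_
  have h1 := mean_cm hv (off_gt hJ y hS.free f j)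
  have h2 : mean v (fun x => chi v w j x * gt J y V f x j) = mean v (fun x => gt J y V f x j *
      cm v j x) - mean v fun x => gt J y V f x j * cm w j x := by
    rw [← mean_sub]; congr 1; funext x; rw [chi]; ring
  rw [h2, h1, ← mean_sub]
  refine mean_congr_supp fun x hx => ?_
  by_cases hj : j ∈ C
  · rw [hF x hx j hj]
    simp only [gt, tau, Dg, uu]
    linear_combination (-∑ k, grad (fun z => f z k) x j * V k x j) * Rec.sv_mul_self x j
  · simp [gt, uu, Vf_ap, hS.supp _ x j hj]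

end St91

open St91 in
theorem stStmt : STStmt := by
  refine ⟨200, by norm_num, ?_⟩
  intro n κ _ J y C gk V A f f' X xk gb M Cq CV ε ρ ς B v w ψ ζ ψ' hS hC hP hT h hF hζ hψ hB
  refine ⟨fun x j hj => by simp [gt, Vf_ap, hS.supp _ x j hj], nrm_gt hS hP hT, ?_⟩
  have hv := h.hv
  have b := bd_of hT.b0 hT.sm
  have b' := bd_of hT.b1 hT.sm
  have H0 : 0 ≤ kl v (ising J y) :=
    Pr.kl_nonneg ⟨hv, .of_pos fun _ => exp_pos _, fun _ e => absurd e (exp_pos _).ne'⟩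
  have P0 : 0 ≤ mean v fun x => ψ x ⬝ᵥ ψ x := hv.mean_nonneg fun x => Eig.dot_self_nonneg _
  have Z0 : 0 ≤ mean v fun x => ζ x ⬝ᵥ ζ x := hv.mean_nonneg fun x => Eig.dot_self_nonneg _
  have e0 := hP.e0
  have t1 := abs_mean (hS.f1 v f hv b) (hS.f1 v _ hv (Bd.neg b)) fun x => by
    rw [Vf_neg, neg_dotProduct, neg_dotProduct]; ring
  have t2 := abs_mean (hS.f2 v f ζ hv b hζ) (hS.f2 v _ ζ hv (Bd.neg b) hζ) fun x => by
    rw [Vf_neg, mul_neg, mulVec_neg, mulVec_neg, dotProduct_neg, dotProduct_neg]; ring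
  have t3 := abs_mean (hS.f3 v f' hv b') (hS.f3 v _ hv (Bd.neg b')) fun x => by
    simp only [Pi.neg_apply, neg_mul, Finset.sum_neg_distrib]
  have t4 := abs_mean (hC v f hv b) (hC v _ hv (Bd.neg b)) fun x => by
    rw [Vf_neg, mul_neg, dotProduct_neg, neg_dotProduct]; ring
  have t5 := abs_mean_le hv (Du_le hS hP hT)
  have t6 := abs_mean_le hv fun x => resp_le hS hP hT x (ψ x) (ζ x) (ψ' x) (hψ x)
  have t7 : 1 / ε * mean v (fun x => exc ε (Vf V (f x) x)) ≤ ε * (ρ ^ 2 + kl v (ising J y)) := by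
    rw [one_div, inv_mul_le_iff₀ e0]
    linarith [hS.f4 v f hv b]
  rw [hv.mean_const] at t5
  simp only [mean_add, mean_const_mul, hv.mean_const] at t6
  have e3 : ∀ x, ∑ k, f' x k * (gk k ⬝ᵥ (Dg J y x * V k x) - xk k) =
      ∑ k, f' x k * (gk k ⬝ᵥ (Dg J y x * V k x)) - xk ⬝ᵥ f' x := fun x => by
    simp only [mul_sub, Finset.sum_sub_distrib, dotProduct, mul_comm (xk _)]
  rw [ident hS hP.diag hv hF f]
  simp only [e3, dotProduct_sub, mean_sub] at t1 t2 t3 t4 t5 t6 ⊢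
  have a1 := abs_le.1 t1
  have a2 := abs_le.1 t2
  have a3 := abs_le.1 t3
  have a4 := abs_le.1 t4
  have a5 := abs_le.1 t5
  have a6 := abs_le.1 t6
  have p1 := mul_nonneg e0.le H0
  have p2 := mul_nonneg e0.le P0
  have p3 := mul_nonneg e0.le Z0
  have p4 := mul_nonneg e0.le hB
  have p5 := mul_nonneg e0.le (sq_nonneg ρ)
  exact abs_le.2 ⟨by linarith [a1.2, a2.1, a3.1, a4.1, a5.1, a6.1],
    by linarith [a1.1, a2.2, a3.2, a4.2, a5.2, a6.2]⟩

end Crest.Agent.T157.Br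

end
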