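import Crest.Agent.T157.BrDefB_50
import Crest.Agent.T157.BrSm_54

/-!
# Row 157, block B, S1 (helper44): the final majorant of the budget of the burst
-/

set_option autoImplicit false
set_option linter.unusedVariables false
set_option linter.unusedSectionVars false

noncomputable section

namespace Crest.Agent.T157.Br

open Real Matrix Function MeasureTheory ProbabilityTheory
open Crest.Agent.T157.E Crest.Agent.T157.SL Crest.Agent.T157.Ta
open Crest.Agent.T157.Eig (nrm opn emb)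

namespace Tail44

variable {n : ℕ} {κ : Type} [Fintype κ] [DecidableEq κ]

lemma gauss : Integrable (fun g : κ → ℝ => exp (1 / 4 * sq g)) (gv κ) ∧
    ∫ g, exp (1 / 4 * sq g) ∂gv κ ≤ exp (Fintype.card κ) := by
  have h := Conc.lint_sq_gauss (s := 1 / 4) (by rw [abs_of_pos] <;> norm_num)
  have i1 : Integrable (fun x : ℝ => exp (1 / 4 * x ^ 2)) (gaussianReal 0 1) :=
    ⟨Continuous.aestronglyMeasurable (by fun_prop), (hasFiniteIntegral_iff_ofReal
      (ae_of_all _ fun _ => (exp_pos _).le)).2 (h.trans_lt (Conc.ex_ne_top _).lt_top)⟩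
  rw [Conc.lintegral_ex i1] at h
  have i2 := (ENNReal.ofReal_le_ofReal_iff (exp_pos _).le).1 h
  have e : ∀ g : κ → ℝ, exp (1 / 4 * sq g) = ∏ i, exp (1 / 4 * g i ^ 2) := fun g => by
    simp only [sq, dotProduct, Finset.mul_sum, exp_sum, pow_two]
  simp only [e]
  refine ⟨Integrable.fintype_prod fun _ => i1, ?_⟩
  rw [integral_fintype_prod_eq_pow fun x : ℝ => exp (1 / 4 * x ^ 2), ← exp_one_pow]
  exact pow_le_pow_left₀ (integral_nonneg fun _ => (exp_pos _).le)
    (i2.trans (exp_le_exp.2 (by norm_num))) _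

lemma rows {J : Matrix (Fin n) (Fin n) ℝ} (hJ : opn J ≤ 3) (C : Finset (Fin n)) {ι : κ → Fin n}
    (hι : Injective ι) (c : κ → ℝ) : nrm (∑ k, c k • rw J C ι k) ≤ 3 * nrm c := by
  have h1 := Eig.nrm_mulVec_le Jᵀ (emb ι *ᵥ c)
  rw [Eig.opn_transpose, show nrm (emb ι *ᵥ c) = nrm c from
    congrArg sqrt (Eig.dot_isom (Eig.emb_isom hι) c c)] at h1
  refine le_trans (sqrt_le_sqrt (Finset.sum_le_sum fun j _ => ?_))
    (h1.trans (mul_le_mul_of_nonneg_right hJ (Eig.nrm_nonneg c)))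
  have e : (Jᵀ *ᵥ emb ι *ᵥ c) j = ∑ k, c k * J (ι k) j := by
    rw [mulVec_mulVec]; simp [mulVec, dotProduct, mul_apply, emb, mul_comm]
  by_cases hj : j ∈ C
  · simp [e, rw, hj, Finset.sum_apply]
  · simpa [rw, hj, Finset.sum_apply] using mul_self_nonneg _

lemma sq_nn (a : κ → ℝ) : 0 ≤ sq a := Finset.sum_nonneg fun _ _ => mul_self_nonneg _

lemma sq_add (a b : κ → ℝ) : sq (a + b) ≤ 2 * sq a + 2 * sq b := by
  have := sq_nn (a - b)
  simp only [sq, add_dotProduct, dotProduct_add, sub_dotProduct, dotProduct_sub] at *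
  linarith

lemma sq_smul (t : ℝ) (a : κ → ℝ) : sq (t • a) = t ^ 2 * sq a := by
  simp only [sq, smul_dotProduct, dotProduct_smul, smul_eq_mul]; ring

/-- the entropy of the posterior -/
lemma klb {Ω : Type} [Fintype Ω] {φ : Ω → κ → ℝ} {v μ : Ω → ℝ} {H P : ℝ} (hv : Wt v)
    (hμ : ∀ x, 0 < μ x) (hH : 0 ≤ H) (sz : ∀ x, prob v x ≤ exp H * prob μ x) (hP : 1 ≤ P)
    (a u : κ → ℝ) : kl (post φ v P u) μ ≤ H + sq (u - P • a) + P * mean v fun x => sq (φ x - a) := by
  have hp := Sm54.pr hv hμ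
  have e : ∀ x, |lk φ P x u - (u ⬝ᵥ a - P / 2 * sq a) + P / 2 * sq (φ x - a)| ≤
      (sq (u - P • a) + sq (φ x - a)) / 2 := fun x => by
    have h1 := sq_nn (u - P • a - (φ x - a))
    have h2 := sq_nn (u - P • a + (φ x - a))
    simp only [lk, sq, add_dotProduct, dotProduct_add, sub_dotProduct, dotProduct_sub,
      smul_dotProduct, dotProduct_smul, smul_eq_mul, dotProduct_comm a u, dotProduct_comm (φ x) u,
      dotProduct_comm (φ x) a] at *
    exact abs_le.2 ⟨by linarith, by linarith⟩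
  have h0 := fun x => mul_le_mul_of_nonneg_right hP (sq_nn (φ x - a))
  have h1 : u ⬝ᵥ a - P / 2 * sq a - sq (u - P • a) / 2 - P * mean v (fun x => sq (φ x - a)) ≤
      mean v fun x => lk φ P x u := by
    rw [← mean_const_mul, ← hv.mean_const (u ⬝ᵥ a - P / 2 * sq a - sq (u - P • a) / 2), ← mean_sub]
    exact hv.mean_mono fun x => by linarith [(abs_le.1 (e x)).1, h0 x]
  have h2 := mean_le_log hv fun x => lk φ P x u
  rw [Sm54.kl_post hp]
  refine (hv.post φ P u).mean_le fun x => ?_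
  have h3 : log (prob v x / prob μ x) ≤ H := by
    have m0 : 0 < prob μ x := div_pos (hμ x) hp.hw.pos
    rcases (div_nonneg (div_nonneg (hv.nn x) hv.pos.le) m0.le).eq_or_lt with h | h
    · rw [show prob v x / prob μ x = 0 from h.symm, log_zero]; exact hH
    · exact (log_le_iff_le_exp h).2 ((div_le_iff₀ m0).2 (sz x))
  linarith [(abs_le.1 (e x)).2, h0 x]

lemma wt_nu (D : Dat n κ) (hf : ∀ x, 0 < D.f x) : Wt D.ν := by
  have h : ∀ x, 0 ≤ D.ν x := fun x => mul_nonneg (by
    unfold Dat.l; split_ifs; exacts [(mul_pos (exp_pos _) (exp_pos _)).le, le_rfl]) (hf x).le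
  refine ⟨h, Finset.sum_pos' (fun x _ => h x) ⟨D.x0, Finset.mem_univ _, mul_pos ?_ (hf _)⟩⟩
  rw [Dat.l, if_pos fun _ _ => rfl]
  exact mul_pos (exp_pos _) (exp_pos _)

lemma card_le (D : Dat n κ) (h : D.Geo) : Fintype.card κ ≤ D.Cᶜ.card ∧ Fintype.card D.S ≤ D.Cᶜ.card :=
  ⟨Finset.card_le_card_of_injOn D.ι (fun k _ => by simpa using h.off k) h.inj.injOn,
    (Fintype.card_coe D.S).trans_le (Finset.card_le_card fun i hi => by
      simpa using (Finset.mem_filter.1 hi).2.1)⟩

lemma U_eq (D : Dat n κ) (x : Cube n) :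
    D.U x = D.P / 2 * sq (hG (rw D.J Finset.univ (Subtype.val : D.S → Fin n)) x - fun k : D.S => D.xS k) := by
  rw [Dat.U, ← Finset.sum_coe_sort]
  simp [sq, hG, rw, mulVec, dotProduct, pow_two]

end Tail44

open Tail44 Sm54 in
theorem tailGlue : TailGlue := fun hS hC P K1 => by
  obtain ⟨N, hN⟩ : ∃ N, N = 24 * P + 576 * K1 * (8 * P ^ 2 + 1) := ⟨_, rfl⟩
  refine ⟨max 1 (6 + 5 * N), le_max_left _ _, fun n κ _ _ D mg C0 CV h hP => ?_⟩
  subst hP
  have P1 := h.P1
  have K0 := h.K0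
  have B1 := h.b1
  have BD := h.bD
  have hν := wt_nu D h.fp
  have hμ : ∀ x, 0 < D.μ x := fun _ => exp_pos _
  have P2 : D.P ≤ D.P ^ 2 := le_self_pow₀ P1 two_ne_zero
  have kP := mul_le_mul_of_nonneg_left P2 K0.le
  have kP1 := mul_le_mul_of_nonneg_left P1 K0.le
  have N0 : 0 < N := by rw [hN]; positivity
  have M1 : 6 + 5 * N ≤ max 1 (6 + 5 * N) := le_max_right _ _
  have c1 : (Fintype.card κ : ℝ) ≤ D.B0 := le_trans (by exact_mod_cast (card_le D h.toGeo).1) h.bU
  have c2 : (Fintype.card D.S : ℝ) ≤ D.B0 := le_trans (by exact_mod_cast (card_le D h.toGeo).2) h.bU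
  obtain ⟨e1, q1⟩ := hC n κ D.μ K1 _ hμ h.h1 K0 (rows h.op D.C h.inj)
  obtain ⟨e2, q2⟩ := hC n D.S D.μ K1 _ hμ h.h1 K0 (rows h.op Finset.univ Subtype.val_injective)
  replace q1 : mean D.ν (fun x => sq (D.h x - D.xb)) ≤ 576 * K1 * D.B0 :=
    (q1 _ hν).trans (by nlinarith [h.bk])
  replace q2 := (q2 _ hν).trans (show _ ≤ 576 * K1 * D.B0 by nlinarith [h.bk])
  have hU := U_eq D
  change mean D.μ (fun x => exp (sq (D.h x - D.xb) / (288 * K1))) ≤ _ at e1
  generalize hG (rw D.J Finset.univ (Subtype.val : D.S → Fin n)) = g at e2 q2 hU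
  generalize meanV D.μ g = m at e2 q2
  obtain ⟨-, -, -, S⟩ := hS _ κ D.h D.ν D.P hν
  replace S := S D.μ D.xb hμ
  have x1 := (S D.P 0 (by linarith) le_rfl).2.2.2.1
  have x2 := (xg_sq (D.P • D.xb)).const_mul 2
  have eF : D.Fn = fun x u => kl (post D.h D.ν D.P u) D.μ + 2 * ((u - D.P • D.xb) ⬝ᵥ (u - D.P • D.xb)) +
      (D.B0 + ((2 * D.P ^ 2 + 1) * sq (D.h x - D.xb) + D.U x)) := by
    funext x u; simp only [Dat.Fn, Dat.vp, sq]; ring
  refine ⟨fun x => eF ▸ (x1.add x2).add (.const _), fun p z p0 p1 => ?_, ?_, fun Λ hΛ => ?_⟩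
  · obtain ⟨s1, s2, -⟩ := S p z p0 p1
    simp only [cE] at s1 s2
    rw [slE_add (.of_mg fun _ => mg_shift x2 z) (.of_mg fun _ => .const _), slE_fun,
      mean_const_mul] at s2
    simp only [eF, cE]
    rw [slE_add (.of_mg fun _ => mg_shift (x1.add x2) z) (.of_mg fun _ => .const _),
      slE_add (.of_mg fun _ => mg_shift x1 z) (.of_mg fun _ => mg_shift x2 z), slE_fun]
    simp only [Dat.bud, Dat.bv, Dat.vp, sq, mean_add, mean_const_mul, (hν.post D.h p z).mean_const]
    linarith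
  · obtain ⟨-, -, -, -, s1, s2⟩ := S D.P 0 (by linarith) le_rfl
    rw [eF, slE_add (.of_mg fun _ => (x1.add x2).mg) (.of_mg fun _ => .const _),
      slE_add (.of_mg fun _ => x1.mg) (.of_mg fun _ => x2.mg), slE_fun,
      slE_const_mul 2 fun _ u => (u - D.P • D.xb) ⬝ᵥ (u - D.P • D.xb), s2]
    simp only [sq, mean_add, mean_const_mul, hν.mean_const] at q1 ⊢
    refine le_trans ?_ (mul_le_mul_of_nonneg_right M1 (by linarith))
    have a1 := mul_le_mul_of_nonneg_left q1 (by positivity : 0 ≤ D.P / 2 + 4 * D.P ^ 2 + 1)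
    have a2 := mul_le_mul_of_nonneg_left c1 (by linarith : 0 ≤ D.P)
    have a3 := mul_le_mul_of_nonneg_right kP (by linarith : 0 ≤ D.B0)
    have a4 : 0 ≤ D.P * D.B0 := by positivity
    have a5 : 0 ≤ K1 * D.P * D.B0 := by positivity
    have a6 : 0 ≤ K1 * D.B0 := by positivity
    rw [hN]
    linarith [h.bk, h.bu]
  have u1 : D.P * sq (m - fun k : D.S => D.xS k) ≤ 2 * D.P * (576 * K1 * D.B0) + 4 * D.B0 := by
    refine (hν.le_mean (f := fun x => 2 * D.P * sq (g x - m) + 4 * D.U x) fun x => ?_).trans ?_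
    · have := sq_add ((-1 : ℝ) • (g x - m)) (g x - fun k : D.S => D.xS k)
      rw [sq_smul, show (-1 : ℝ) • (g x - m) + (g x - fun k : D.S => D.xS k) =
        m - fun k : D.S => D.xS k by module] at this
      rw [hU]; nlinarith
    · rw [mean_add, mean_const_mul, mean_const_mul]
      nlinarith [h.bu]
  have key : ∀ x (y : κ → ℝ), max (D.Fn x (D.P • D.h x + √D.P • y) - Λ) 0 ≤ N * exp (-(4 * D.Dh)) *
      (exp (sq (D.h x - D.xb) / (288 * K1)) + exp (sq (g x - m) / (288 * K1))) *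
        exp (1 / 4 * sq y) := fun x y => by
    have a1 := klb hν hμ (by linarith) h.sz P1 D.xb (D.P • D.h x + √D.P • y) (φ := D.h)
    have a2 := sq_add (D.P • (D.h x - D.xb)) (√D.P • y)
    rw [sq_smul, sq_smul, sq_sqrt (by linarith), show D.P • (D.h x - D.xb) + √D.P • y =
      D.P • D.h x + √D.P • y - D.P • D.xb by module] at a2
    have a3 := sq_add (g x - m) (m - fun k : D.S => D.xS k)
    rw [sub_add_sub_cancel] at a3
    replace a3 := mul_le_mul_of_nonneg_left a3 (by linarith : 0 ≤ D.P / 2)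
    rw [← hU] at a3
    have a4 := mul_le_mul_of_nonneg_left q1 (by linarith : 0 ≤ D.P)
    have y0 := mul_nonneg (by positivity : 0 ≤ K1 * (8 * D.P ^ 2 + 1)) (sq_nn y)
    obtain ⟨a, ha, a0⟩ : ∃ a, sq (D.h x - D.xb) = 288 * K1 * a ∧ 0 ≤ a :=
      ⟨_, (mul_div_cancel₀ _ (by positivity)).symm, div_nonneg (sq_nn _) (by positivity)⟩
    obtain ⟨b, hb, b0⟩ : ∃ b, sq (g x - m) = 288 * K1 * b ∧ 0 ≤ b :=
      ⟨_, (mul_div_cancel₀ _ (by positivity)).symm, div_nonneg (sq_nn _) (by positivity)⟩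
    simp only [Dat.Fn, Dat.vp]
    rw [ha] at a2 ⊢
    rw [hb] at a3 ⊢
    rw [mul_div_cancel_left₀ a (by positivity), mul_div_cancel_left₀ b (by positivity)]
    refine max_le ?_ (by positivity)
    have b1 : exp ((a + b) / 2) ≤ exp a + exp b := by
      rcases le_total a b with t | t
      · exact (exp_le_exp.2 (by linarith)).trans (le_add_of_nonneg_left (exp_pos _).le)
      · exact (exp_le_exp.2 (by linarith)).trans (le_add_of_nonneg_right (exp_pos _).le)
    refine le_trans ?_ (show N * exp (-(4 * D.Dh)) * exp ((a + b) / 2) * exp (1 / 4 * sq y) ≤ _ by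
      gcongr)
    rw [mul_assoc N, ← exp_add, mul_assoc N, ← exp_add]
    refine le_trans ?_ (mul_le_mul_of_nonneg_left ((le_add_of_nonneg_right zero_le_one).trans
      (add_one_le_exp _)) N0.le)
    have b2 := (mul_le_mul_of_nonneg_right M1 (by linarith : 0 ≤ D.Dh)).trans hΛ
    have b3 := mul_le_mul kP BD (by linarith) (by positivity)
    have b4 := mul_le_mul_of_nonneg_right kP b0
    have b5 : 0 ≤ D.P * a := by positivity
    have b6 : 0 ≤ D.P * b := by positivity
    have b7 : 0 ≤ K1 * b := by positivity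
    have b8 : 0 ≤ K1 * D.P * b := by positivity
    have b9 : 0 ≤ D.P * D.Dh := mul_nonneg (by linarith) (by linarith)
    have b10 : 0 ≤ K1 * D.Dh := mul_nonneg K0.le (by linarith)
    have b11 : 0 ≤ K1 * D.P ^ 2 * D.Dh := mul_nonneg (by positivity) (by linarith)
    rw [hN] at b2 ⊢
    linarith
  have E : ∀ t ≤ D.B0, exp t ≤ exp D.Dh := fun t ht => exp_le_exp.2 (ht.trans BD)
  calc _ ≤ mean D.ν fun x => N * exp (-(4 * D.Dh)) * exp D.Dh *
        (exp (sq (D.h x - D.xb) / (288 * K1)) + exp (sq (g x - m) / (288 * K1))) :=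
        hν.mean_mono fun x => (integral_mono_of_nonneg (ae_of_all _ fun _ => le_max_right _ _)
          (gauss.1.const_mul _) (ae_of_all _ (key x))).trans (by
            rw [integral_const_mul, mul_right_comm _ (exp D.Dh)]
            exact mul_le_mul_of_nonneg_left (gauss.2.trans (E _ c1)) (by positivity))
    _ ≤ N * exp (-(4 * D.Dh)) * exp D.Dh * (exp D.Dh * (exp D.Dh + exp D.Dh)) := by
        rw [mean_const_mul]
        refine mul_le_mul_of_nonneg_left (le_trans ?_ (mul_le_mul_of_nonneg_left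
          (add_le_add (e1.trans (E _ c1)) (e2.trans (E _ c2))) (exp_pos _).le)) (by positivity)
        rw [← mean_add, mean, mean, Finset.mul_sum]
        exact Finset.sum_le_sum fun x _ => by
          rw [← mul_assoc]; exact mul_le_mul_of_nonneg_right (h.sz x) (by positivity)
    _ = 2 * N * exp (-D.Dh) := by
        rw [show -D.Dh = -(4 * D.Dh) + D.Dh + D.Dh + D.Dh by ring]; simp only [exp_add]; ring
    _ ≤ _ := mul_le_mul_of_nonneg_right (by linarith) (exp_pos _).le

end Crest.Agent.T157.Br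

end
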