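import Crest.Agent.T157.S1Def_97
import Crest.Agent.T157.BrDefB_50

/-!
# Row 157, block S1 (helper83): the seam between the act B and `BurstOK`; words
-/

set_option autoImplicit false

noncomputable section

namespace Crest.Agent.T157.S1

open Real Matrix Finset
open Crest.Agent.T157.E Crest.Agent.T157.SL Crest.Agent.T157.Ta
open Crest.Agent.T157.Rec (grad)
open Crest.Agent.T157.Eig (nrm opn)
open Crest.Agent.T157.S3 (V Mx)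

variable {n : ℕ}

/-- the part of the data of an act which is not read from the state -/
structure BX (n : ℕ) (κ : Type) where
  V : κ → Cube n → Fin n → ℝ
  V0 : κ → Cube n → Fin n → ℝ
  φ : Cube n → κ → ℝ
  ka : κ → ℝ
  k0 : κ → ℝ
  xa : ℝ
  b0 : ℝ
  ς : ℝ
  B0 : ℝ
  Dh : ℝ
  R : ℝ

/-- the data of the act on `B` at the state `s` -/
def mkB (D : Dat n) (s : St n) (y0 : V n) (B : Finset (Fin n)) (a a' e ε : ℝ) (X : BX n B) :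
    Br.Dat n B where
  J := D.J
  y := y0
  C := (s.S ∪ B)ᶜ
  ι := Subtype.val
  x0 := s.sS
  xS := s.x
  dl := s.y - y0
  del := del s
  f := D.f
  Θ := s.Th
  V := X.V
  V0 := X.V0
  φ := X.φ
  ka := X.ka
  k0 := X.k0
  a := a
  a' := a'
  η := D.η0
  P := D.P
  xa := X.xa
  b0 := X.b0
  e := e
  ε := ε
  ς := X.ς
  L := 2 * s.L
  B0 := X.B0
  Dh := X.Dh
  R := X.R

/-- **the supply of the act B at the base point `y0`** -/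
def BSup (J : Mx n) (P η0 : ℝ) (y0 p : V n) (Ad : V n → ℝ → Prop) (φ : V n → Cube n → ℝ)
    (a a' mg C0 CV K1 e ε M CB CE CW C2 δ ec t K : ℝ) : Prop :=
  ∀ (D : Dat n) (s : St n) (B : Finset (Fin n)), D.Ok → D.J = J → D.P = P → D.η0 = η0 →
    Cl ec ec s → Sz D s t → nrm (s.y - y0) ^ 2 ≤ t → Disjoint B s.S → (#B : ℝ) ≤ t →
    ∃ X : BX n B, (mkB D s y0 B a a' e ε X).Ok mg C0 CV K1 ∧ M * X.Dh ≤ X.R ∧
      X.B0 ≤ CB * (Bb D s y0 + #B + K) + CE * Ex D s ∧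
      ∀ c : B → ℝ, Br.sq c ≤ X.R → ∃ w, Ad w (CW * nrm c) ∧
        p ⬝ᵥ (w * w) ≤ (C2 * X.xa + δ) * Br.sq c ∧
        ∀ x, nrm (grad (fun y => φ w y - c ⬝ᵥ X.φ y) x) ≤ δ * nrm c

/-- the act B at fixed constants -/
def ActAt (mg C0 c0 k P K1 η Ms CV M : ℝ) : Prop :=
  ∀ (n : ℕ) (κ : Type) [Fintype κ] [DecidableEq κ] (D : Br.Dat n κ), D.Ok mg C0 CV K1 → D.P = P →
    D.η = η → Ms * D.e ≤ 1 → M * D.ε ≤ D.e → M * D.Dh ≤ D.R →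
  ∀ (s γ1 γ2 : ℝ) (ξ : (κ → Bool) → (κ → ℝ) → ℝ),
    0 ≤ γ1 → P * γ1 ≤ c0 → 0 ≤ γ2 → γ2 ≤ c0 → (∀ σ, XG (ξ σ)) →
    (∀ z c σ v w, Br.sq c ≤ D.R → v = cut (D.vp P z) D.bT σ → w = cut (D.W P z c 0) D.bT σ →
      -s ≤ (1 - k) * D.AA v w (cut (D.lp P z) D.bT σ) - D.a * (1 - 2 * η) * kl v w +
        γ1 * Br.sq c + γ2 * (D.xa * Br.sq c) + ξ σ z) →
    -s ≤ (1 + k) * D.AA D.ν D.pw D.l - D.a * (1 - 2 * η) * kl D.ν D.pw -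
      c0 * (Br.sq (Br.dM D.ν D.pw D.h) + Br.sq (Br.dM D.ν D.pw D.s)) + Br.sq D.del / c0 +
      Ms * D.e * D.B0 + M * exp (-D.Dh) + slE D.h D.ν P fun x u => ξ (D.bT x) u

/-- **the seam**; `lm` is the scale of the functional -/
def BuStmt : Prop := ∀ P K1 : ℝ, ∃ Mk ≥ (1 : ℝ), ∀ (mg C0 c0 k η Ms CV M : ℝ),
  ActAt mg C0 c0 k P K1 η Ms CV M → ∀ (n : ℕ) (J : Mx n) (y0 p : V n) (Ad : V n → ℝ → Prop)
    (φ : V n → Cube n → ℝ) (a0 a' e ε CB CE CW C2 δ ec t K' lm l a lb ab gW gP CP CN ω K : ℝ),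
  BSup J P η y0 p Ad φ a0 a' mg C0 CV K1 e ε M CB CE CW C2 δ ec t K' →
  0 < c0 → 0 < k → k ≤ 1 → 0 ≤ Ms → 0 ≤ M → 0 ≤ e → Ms * e ≤ 1 → M * ε ≤ e → 0 < lm → lm ≤ 1 →
  lm * (1 + k) ≤ l → 0 ≤ lb → lb * (1 + k) ≤ lm * (1 - k) → a ≤ lm * (a0 * (1 - 2 * η)) →
  lm * (a0 * (1 - 2 * η)) ≤ ab → ab ≤ 1 → 0 ≤ CB → 0 ≤ CE → 0 ≤ CW → 0 ≤ C2 → 0 ≤ δ → δ ≤ k →
  0 ≤ K' → 0 ≤ gW → 0 ≤ gP → P * (gW * CW ^ 2 + (gP + Mk) * δ) ≤ lm * c0 → gP * C2 ≤ lm * c0 →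
  (Ms * e + Mk * δ) * CB ≤ ω → Mk * (CB + 1) ≤ CP → (Ms * e + Mk * δ + Mk) * CE ≤ CN →
  (ω + CP) * K' + M ≤ K →
  BurstOK J P η (Ue.th a') y0 p Ad φ l a lb ab (lm * c0 / 19) gW gP (1 / c0) CP CN ω ec t K

def BuGlue : Prop := CrudeStmt → Br.SMStmt → Br.KbStmt → BuStmt

end Crest.Agent.T157.S1

end
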