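import Crest.Agent.T157.BrActB_50
import Crest.Agent.T157.S1BuDef_83
import Crest.Agent.T157.BrH4_51
import Crest.Agent.T157.BrHd_71
import Crest.Agent.T157.BrKb_61
import Crest.Agent.T157.BrHc_61
import Crest.Agent.T157.BrTail_44
import Crest.Agent.T157.BrCv_11
import Crest.Agent.T157.BrFd_16
import Crest.Agent.T157.BrSt_91
import Crest.Agent.T157.BrChi_58
import Crest.Agent.T157.BrBu_71

/-!
# Row 157, block B, S1: the act B (helper50)
-/

set_option autoImplicit false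
set_option linter.unusedVariables false

noncomputable section

namespace Crest.Agent.T157.Br

open Real Matrix Function
open Crest.Agent.T157.E Crest.Agent.T157.SL Crest.Agent.T157.Ta
open Act50

set_option maxHeartbeats 2000000 in
theorem actP_of (hB : BurstStmt) (hS : SMStmt) (hK : KbStmt) (hT : TailStmt) (hH : HdStmt)
    (h4 : Hs4Stmt2) (hC : CvStmt) : ∀ mg C0 : ℝ, 0 < mg → 0 ≤ C0 → ∃ c0 > (0 : ℝ), ∃ Cu ≥ (1 : ℝ),
    ∀ k P K1 η : ℝ, 0 < k → k ≤ 1 → (Cu / k) ^ 8 ≤ P → 0 < η → ∃ Ms ≥ (1 : ℝ), ∀ CV : ℝ,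
      ∃ M ≥ (1 : ℝ), S1.ActAt mg C0 c0 k P K1 η Ms CV M := by
  intro mg C0 m0 C00
  by_cases m1 : mg ≤ 1 / 2
  swap
  · exact ⟨1, one_pos, 1, le_rfl, fun k P K1 η _ _ _ _ => ⟨1, le_rfl, fun CV => ⟨1, le_rfl,
      fun n κ _ _ D h => absurd h.mg1 m1⟩⟩⟩
  obtain ⟨K, K1', hH⟩ := hH
  obtain ⟨Cu, Cu1, h4⟩ := h4 mg C0 m0
  obtain ⟨KC, hKC⟩ : ∃ KC, KC = K * C0 := ⟨_, rfl⟩
  have KC0 : 0 ≤ KC := by rw [hKC]; positivity
  obtain ⟨Q, hQ⟩ : ∃ Q, Q = 20 / mg ^ 4 + 2 * KC + 8 := ⟨_, rfl⟩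
  have Q1 : 320 ≤ Q := by
    have : 320 ≤ 20 / mg ^ 4 := by
      rw [le_div_iff₀ (by positivity)]
      linarith [pow_le_pow_left₀ m0.le m1 4]
    linarith
  obtain ⟨k0, hk0⟩ : ∃ k0, k0 = mg / (2 * Q) := ⟨_, rfl⟩
  have k00 : 0 < k0 := by rw [hk0]; exact div_pos m0 (by linarith)
  have k0Q : k0 * Q = mg / 2 := by rw [hk0]; field_simp
  have k01 : 640 * k0 ≤ mg := by linarith [mul_le_mul_of_nonneg_left Q1 k00.le]
  refine ⟨mg * k0 / 4, by positivity, 2 * Cu, by linarith, fun k P K1 η k0' k1 hP η0 => ?_⟩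
  have u1 : 1 ≤ 2 * Cu / k := by rw [le_div_iff₀ k0']; linarith
  have u2 : 2 * Cu / k ≤ P := (le_self_pow₀ u1 (by norm_num)).trans hP
  have P1 : 1 ≤ P := u1.trans u2
  obtain ⟨τ, hτ⟩ : ∃ τ, τ = k * mg / (64 * (KC + 1)) := ⟨_, rfl⟩
  have τ0 : 0 < τ := by rw [hτ]; positivity
  have τe : 64 * τ * KC + 64 * τ = k * mg := by rw [hτ]; field_simp
  have τ1 : 0 ≤ τ * KC := by positivity
  have km : k * mg ≤ mg := mul_le_of_le_one_left m0.le k1
  have km' : k * mg ≤ k * (1 / 2) := mul_le_mul_of_nonneg_left m1 k0'.le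
  have t1 : τ / P ≤ 1 := by rw [div_le_one (by linarith)]; linarith
  obtain ⟨Mk, Mk1, hK⟩ := hK P K1
  obtain ⟨Mt, Mt1, hT⟩ := hT P K1
  obtain ⟨Mh, Mh1, hH⟩ := hH P K1 η (τ / P) η0 (by positivity) t1
  obtain ⟨M4, M41, h4⟩ := h4 (k / 2) (by positivity) (by linarith) P K1 η
    (by rw [div_div_eq_mul_div, mul_comm]; exact u2) η0
  have N0 : 0 ≤ N1 mg P := by unfold N1; positivity
  have G0 : 0 ≤ G1 Mk := by unfold G1; positivity
  have T0 : 0 ≤ T1 Mk mg P := by unfold T1 Lg; positivity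
  have x1 : 0 ≤ 32 * (M4 * Mk * N1 mg P) / mg := by positivity
  have x2 : 0 ≤ 32 * (P * (4 * Mh * Mk * N1 mg P)) / mg := by positivity
  have x3 : 0 ≤ 256 / (mg * η) := by positivity
  have x4 : 0 ≤ 6 * Mh * Mk ^ 2 + (M4 + 8 * P * Mh) * Mk * G1 Mk * Mt := by positivity
  have x5 : 0 ≤ 32 / mg := by positivity
  refine ⟨Mh + M4 + 32 * (M4 * Mk * N1 mg P) / mg + 32 * (P * (4 * Mh * Mk * N1 mg P)) / mg +
    256 / (mg * η) + (6 * Mh * Mk ^ 2 + (M4 + 8 * P * Mh) * Mk * G1 Mk * Mt) + 32 / mg,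
    by linarith, fun CV => ?_⟩
  obtain ⟨Mh', Mh1', hH⟩ := hH CV
  obtain ⟨M4', M41', h4⟩ := h4 CV
  have x6 : 0 ≤ T1 Mk mg P * (2 * Mt) := by positivity
  have x7 : 0 ≤ (2 + 4 * P) * T1 Mk mg P * Mt := by positivity
  refine ⟨Mh' + M4' + T1 Mk mg P * (2 * Mt) + (2 + 4 * P) * T1 Mk mg P * Mt, by linarith, ?_⟩
  intro n κ _ _ D h eP eη hs hε hR s γ1 γ2 ξ g0 g1 g2 g3 hξ hSu
  subst eP eη
  have ε0 := h.e0
  have y1 := mul_nonneg x6 ε0.le
  have y2 := mul_nonneg x7 ε0.le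
  have y3 : D.ε ≤ Mh' * D.ε := le_mul_of_one_le_left ε0.le Mh1'
  have y4 : D.ε ≤ M4' * D.ε := le_mul_of_one_le_left ε0.le M41'
  have εe : D.ε ≤ D.e := by linarith
  have e0 : 0 ≤ D.e := by linarith
  have z1 := mul_nonneg x1 e0
  have z2 := mul_nonneg x2 e0
  have z3 := mul_nonneg x3 e0
  have z4 := mul_nonneg x4 e0
  have z5 := mul_nonneg x5 e0
  have z6 : 0 ≤ Mh * D.e := by positivity
  have z7 : 0 ≤ M4 * D.e := by positivity
  have D0 : 0 ≤ D.Dh := by linarith [h.b1, h.bD]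
  have w0 : 256 * D.ε ≤ mg * D.η := by
    have : 256 / (mg * D.η) * D.e ≤ 1 := by linarith
    rw [div_mul_eq_mul_div, div_le_one (by positivity)] at this
    linarith
  obtain ⟨c1, c2, c3, c4, c5, c6, c7, c8, c9⟩ := hC n κ D mg C0 CV K1 h w0
  obtain ⟨t1', t2, t3, t4⟩ := hT n κ D mg C0 CV h rfl
  have hK' := fun p z c m p0 p1 hc => hK n κ D mg C0 CV h rfl p z c m 1 0 (D.W p z c m) (D.vp p z)
    p0 p1 zero_le_one le_rfl (Or.inl rfl) hc (Or.inl (Wp_one p z c m 0).symm) (c6 p z c m).1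
  have hv : Wt D.ν := by have := (c6 0 0 0 0).1.hv; rwa [vp00] at this
  have R0 : T1 Mk mg D.P * (2 * Mt * D.Dh) ≤ D.R := by
    have := mul_nonneg x7 D0
    have := mul_nonneg (by linarith : 0 ≤ Mh' + M4') D0
    linarith
  have H : Cx D mg C0 CV K1 KC Mk Mt Mh M4 (τ / D.P) k :=
    { ok := h, KC0 := KC0, Mk1 := Mk1, Mt1 := Mt1, Mh0 := by linarith, M40 := by linarith
      t0 := by positivity, t1 := t1, e0 := e0
      pr := fun p z c m => (c6 p z c m).1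
      el := fun p z => (c6 p z 0 0).2.2.1
      ar := fun p z c m => (c6 p z c m).2.1
      kb := fun p z c m p0 p1 hc => by
        have a := (hK' p z c m p0 p1 hc).1
        have pr := (c6 p z c m).1
        have a1 := (Sm54.pr pr.hw (mu_pos h)).kl_nonneg
        have a2 := pr.hw.mean_nonneg (f := fun x => sq (D.ζ p z 1 x) + sq (D.h x - D.xb))
          fun x => add_nonneg (sq_nn _) (sq_nn _)
        have a3 := pr.hv.mean_nonneg (f := fun x => sq (D.ζ p z 1 x)) fun x => sq_nn _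
        rw [sub_self, zero_mul, add_zero] at a
        unfold Dat.bud
        linarith
      bd := t2
      mx := fun p z c p0 p1 =>
        ((hS _ κ D.h D.ν D.P hv).2.2.2 D.μ D.xb (mu_pos h) p z p0 p1).2.2.1 _ c t1'
      hd := by
        rw [hKC]
        exact hH n κ D mg C0 h rfl rfl (by linarith) (by linarith)
      h4 := h4 n κ D h rfl rfl (by linarith) (by linarith) }
  have R1 : (0 : ℝ) ≤ D.R := le_trans (by positivity) R0
  have f := core H hB (s := s) (ξ := ξ) (τ := τ) (cc := mg * k0 / 4) k00.le (by linarith)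
    (by rw [← hQ, k0Q]) k0'.le (by field_simp) (by linarith) (by linarith) (by linarith)
    (by linarith [mul_le_mul m1 (show k0 ≤ 1 by linarith) k00.le (by norm_num)])
    (by linarith [mul_le_mul_of_nonneg_left (show 96 * k0 ≤ 1 by linarith) m0.le])
    (by
      have : 32 * (M4 * Mk * N1 mg D.P) / mg * D.e ≤ 1 := by linarith
      rw [div_mul_eq_mul_div, div_le_one m0] at this
      linarith)
    (by
      have : 32 * (D.P * (4 * Mh * Mk * N1 mg D.P)) / mg * D.e ≤ 1 := by linarith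
      rw [div_mul_eq_mul_div, div_le_one m0] at this
      linarith)
    (hK' 0 0 0 0 le_rfl (by linarith) (by rw [sq_zero]; exact R1)).2.2 R0 t1' t3 (t4 _ le_rfl)
    (fun z c m => ⟨(c2 z c m).1, (c2 z c m).2.1⟩) c3 c4 c5 c7 c8 c9 g0 g1 g2 g3 hξ hSu
  have cv := c1 k k0'.le
  obtain ⟨r0, r1⟩ := r1 h
  have B0 : 0 ≤ D.B0 := by linarith [h.b1]
  have X0 := add_nonneg (sq_nn (dM D.ν D.pw D.h)) (sq_nn (dM D.ν D.pw D.s))
  generalize sq (dM D.ν D.pw D.h) + sq (dM D.ν D.pw D.s) = X at *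
  generalize 1 - 2 * D.η = r at *
  rw [← neg_div, div_le_iff₀ (by linarith)] at f
  have e1 : 1 / r * (slE D.h D.ν D.P fun x u => ξ (D.bT x) u) * r =
      slE D.h D.ν D.P fun x u => ξ (D.bT x) u := by field_simp
  have v1 := mul_le_mul_of_nonneg_left r0 (by positivity : 0 ≤ mg * k0 / 2 * X)
  have v2 := mul_le_of_le_one_right (mul_nonneg z4 B0) r1
  have v3 := mul_le_of_le_one_right (mul_nonneg x7 (exp_pos (-D.Dh)).le) r1
  have v4 : 8 / mg * sq D.del ≤ sq D.del / (mg * k0 / 4) := by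
    rw [div_eq_mul_one_div (sq D.del), mul_comm]
    refine mul_le_mul_of_nonneg_left ?_ (sq_nn _)
    rw [div_le_div_iff₀ m0 (by positivity)]
    linarith [mul_le_mul_of_nonneg_left (show 2 * k0 ≤ 1 by linarith) m0.le]
  have v5 := mul_le_mul_of_nonneg_right (mul_le_mul_of_nonneg_left εe x5) B0
  have v6 := mul_nonneg (add_nonneg (add_nonneg (add_nonneg (add_nonneg z6 z7) z1) z2) z3) B0
  have v7 := mul_nonneg (by linarith : 0 ≤ Mh' + M4' + T1 Mk mg D.P * (2 * Mt)) (exp_pos (-D.Dh)).le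
  linarith

/-- **ACT B**, unconditional -/
theorem actP : ∀ mg C0 : ℝ, 0 < mg → 0 ≤ C0 → ∃ c0 > (0 : ℝ), ∃ Cu ≥ (1 : ℝ),
    ∀ k P K1 η : ℝ, 0 < k → k ≤ 1 → (Cu / k) ^ 8 ≤ P → 0 < η → ∃ Ms ≥ (1 : ℝ), ∀ CV : ℝ,
      ∃ M ≥ (1 : ℝ), S1.ActAt mg C0 c0 k P K1 η Ms CV M :=
  actP_of burstStmt smStmt (kbGlue hcStmt) (tailGlue smStmt hcStmt)
    (hdGlue (hs1Glue stStmt) chiStmt fldStmt (kbGlue hcStmt))
    (hs4Glue2 stStmt tfStmt fldStmt (kbGlue hcStmt)) cvStmt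

end Crest.Agent.T157.Br
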