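import Crest.Agent.T157.TaK_40
import Crest.Agent.T157.S3Def_69
import Crest.Agent.T157.UeD_83

/-!
# Row 157, block B, S1: words and leaves of the burst (helper50)

Text: `docs/T157_B_S1b.md`.  `κ` indexes the burst set `T` (sites `ι k`), `C` is the set of the remaining free sites.
-/

set_option autoImplicit false
set_option linter.unusedVariables false

noncomputable section

namespace Crest.Agent.T157.Br

open Real Matrix Function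
open Crest.Agent.T157.E Crest.Agent.T157.SL Crest.Agent.T157.Ta
open Crest.Agent.T157.Rec (grad)
open Crest.Agent.T157.Eig (nrm opn)
open Crest.Agent.T157.S3 (hf tau Dg)
open Crest.Agent.T157.S3F (Free)

/-! ### layer 1: the burst -/

section burst
variable {n : ℕ} {κ : Type} [Fintype κ] [DecidableEq κ]

/-- supermartingale along the channel `φ` on `[0, P]` -/
def SM {Ω : Type} [Fintype Ω] (φ : Ω → κ → ℝ) (v : Ω → ℝ) (P : ℝ) (Y : ℝ → (κ → ℝ) → ℝ) : Prop :=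
  (∀ p, XG (Y p)) ∧ ∀ p h z, 0 ≤ p → 0 ≤ h → p + h ≤ P →
    slE φ (post φ v p z) h (fun _ g => Y (p + h) (z + g)) ≤ Y p z

/-- the reference weight during the burst -/
def wS (hT φ sT : Cube n → κ → ℝ) (w : Cube n → ℝ) (p : ℝ) (z cb m : κ → ℝ) : Cube n → ℝ :=
  wt (post hT w p z) fun x => cb ⬝ᵥ φ x + m ⬝ᵥ sT x

/-- invariants of the accumulated tilts -/
structure Inv (a x0 L Λ p : ℝ) (cb m : κ → ℝ) (I : ℝ) : Prop where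
  I0 : 0 ≤ I
  I1 : I ≤ Λ * exp (L * p)
  c1 : cb ⬝ᵥ cb ≤ p * I
  c2 : x0 * (cb ⬝ᵥ cb) ≤ 2 * I
  m1 : a ^ 2 * (m ⬝ᵥ m) ≤ 2 * I

/-- first order change of `A^r - a H` under the tilt `G` of the reference -/
def dr (r : Fin n → Cube n → ℝ) (a : ℝ) (v w G : Cube n → ℝ) : ℝ :=
  -(∑ j, mean v fun x => r j x * (grad G x j * chi v w j x)) + a * (mean v G - mean w G)

/-- difference of the means of a feature -/
def dM (v w : Cube n → ℝ) (φ : Cube n → κ → ℝ) : κ → ℝ := meanV v φ - meanV w φ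

/-- **BURST** -/
def BurstStmt : Prop := ∀ (n : ℕ) (κ : Type) [Fintype κ] [DecidableEq κ] (r : Fin n → Cube n → ℝ)
    (v w : Cube n → ℝ) (hT φ sT : Cube n → κ → ℝ) (a x0 ρ P γ e1 L Λ s : ℝ) (Ξ Z : ℝ → (κ → ℝ) → ℝ),
  Pr v w → Off r → (∀ j x, 0 ≤ r j x ∧ r j x ≤ 1) →
  (∀ j x k, r j x * grad (fun y => sT y k) x j = 0) →
  0 < a → 0 ≤ x0 → x0 ≤ 1 → 0 ≤ ρ → 0 ≤ P → 0 ≤ γ → 0 ≤ e1 → 0 ≤ L → 0 ≤ Λ →
  ρ * x0 + 2 * a * (γ + P * e1) < 1 → SM hT v P Ξ → SM hT v P Z → (∀ p z, 0 ≤ Z p z) →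
  (∀ p z cb m I, 0 ≤ p → p ≤ P → Inv a x0 L Λ p cb m I → ∀ V W d, V = post hT v p z →
    W = wS hT φ sT w p z cb m → d = dM V W hT →
    (a ^ 2 * (d ⬝ᵥ d) ≤ L * (Λ * exp (L * p)) ∧ dr r a V W (fun x => (a • d) ⬝ᵥ φ x) ≤
      -((1 + p * x0) * ((a • d) ⬝ᵥ d)) + x0 * ((a • d) ⬝ᵥ dM V W sT) + Z p z + e1 * I) ∨
    d ⬝ᵥ d ≤ Z p z) →
  (∀ z cb m I, Inv a x0 L Λ P cb m I →
    -s ≤ Ar r (post hT v P z) (wS hT φ sT w P z cb m) -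
      a * kl (post hT v P z) (wS hT φ sT w P z cb m) + a * ρ / 2 * (m ⬝ᵥ m) + γ * I + Ξ P z) →
  -s ≤ Ar r v w - a * kl v w + Ξ 0 0 + (1 + a) * P * Z 0 0

/-- conditional expectation of a final variable -/
def cE {Ω : Type} [Fintype Ω] (φ : Ω → κ → ℝ) (v : Ω → ℝ) (P : ℝ) (F : Ω → (κ → ℝ) → ℝ) (p : ℝ)
    (z : κ → ℝ) : ℝ := slE φ (post φ v p z) (P - p) fun x g => F x (z + g)

/-- **martingales and supermartingales of the burst** -/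
def SMStmt : Prop := ∀ (Ω κ : Type) [Fintype Ω] [Fintype κ] [DecidableEq κ] (φ : Ω → κ → ℝ)
    (v : Ω → ℝ) (P : ℝ), Wt v →
  (∀ F : Ω → (κ → ℝ) → ℝ, (∀ x, XG (F x)) → SM φ v P (cE φ v P F) ∧ cE φ v P F 0 0 = slE φ v P F ∧
    ∀ z, cE φ v P F P z = mean (post φ v P z) fun x => F x z) ∧
  (∀ Y Y' c, SM φ v P Y → SM φ v P Y' → 0 ≤ c → SM φ v P fun p z => Y p z + c * Y' p z) ∧
  (∀ f : Ω → ℝ, SM φ v P fun p z => mean (post φ v p z) f) ∧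
  -- the entropy with respect to a fixed reference and the centred observation have final majorants
  ∀ (μ : Ω → ℝ) (xb : κ → ℝ), (∀ x, 0 < μ x) → ∀ p z, 0 ≤ p → p ≤ P →
    kl (post φ v p z) μ ≤ cE φ v P (fun _ y => kl (post φ v P y) μ) p z ∧
    (z - p • xb) ⬝ᵥ (z - p • xb) ≤ cE φ v P (fun x y => 2 * ((y - P • xb) ⬝ᵥ (y - P • xb)) +
      2 * P ^ 2 * ((φ x - xb) ⬝ᵥ (φ x - xb))) p z ∧
    (∀ (F : Ω → (κ → ℝ) → ℝ) (c : ℝ), (∀ x, XG (F x)) →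
      max (cE φ v P F p z - c) 0 ≤ cE φ v P (fun x y => max (F x y - c) 0) p z) ∧
    XG (fun y => kl (post φ v p y) μ) ∧
    slE φ v p (fun _ y => kl (post φ v p y) μ) ≤
      kl v μ + p / 2 * mean v (fun x => (φ x - xb) ⬝ᵥ (φ x - xb)) ∧
    slE φ v p (fun _ y => (y - p • xb) ⬝ᵥ (y - p • xb)) =
      p ^ 2 * mean v (fun x => (φ x - xb) ⬝ᵥ (φ x - xb)) + p * Fintype.card κ

end burst

/-! ### Stein families -/

section stein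
variable {n : ℕ} {κ : Type} [Fintype κ]

/-- the field `∑ f_k V^k` -/
def Vf (V : κ → Cube n → Fin n → ℝ) (f : κ → ℝ) (x : Cube n) : Fin n → ℝ := ∑ k, f k • V k x
/-- random weights of norm at most `ρ` -/
def Bd (ρ : ℝ) (f : Cube n → κ → ℝ) : Prop := ∀ x, f x ⬝ᵥ f x ≤ ρ ^ 2
/-- squared excess over the level `ε` -/
def exc (ε : ℝ) (g : Fin n → ℝ) : ℝ := ∑ j, max (|g j| - ε) 0 ^ 2

/-- a Stein family over the base `ising J y`: feature rows `gk`, targets `A`, responses `X`, `xk` -/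
structure SF (J : Matrix (Fin n) (Fin n) ℝ) (y : Fin n → ℝ) (C : Finset (Fin n)) (gk : κ → Fin n → ℝ)
    (V : κ → Cube n → Fin n → ℝ) (A : Cube n → κ → ℝ) (X : Matrix (Fin n) κ ℝ) (xk : κ → ℝ)
    (Cq CV ε ρ : ℝ) : Prop where
  free : ∀ k, Free (V k)
  supp : ∀ k x j, j ∉ C → V k x j = 0
  bd : ∀ f x, nrm (Vf V f x) ≤ CV * nrm f
  f1 : ∀ v f, Wt v → Bd ρ f → mean v (fun x => Vf V (f x) x ⬝ᵥ tau J y x - f x ⬝ᵥ A x) ≤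
    ε * (ρ ^ 2 + kl v (ising J y))
  f2 : ∀ v f (ζ : Cube n → Fin n → ℝ), Wt v → Bd ρ f → (∀ x, ∀ j ∈ C, ζ x j = 0) →
    mean v (fun x => ζ x ⬝ᵥ J *ᵥ (Dg J y x * Vf V (f x) x) - ζ x ⬝ᵥ X *ᵥ f x) ≤
      ε * (ρ ^ 2 + kl v (ising J y) + mean v fun x => ζ x ⬝ᵥ ζ x)
  f3 : ∀ v f, Wt v → Bd ρ f →
    mean v (fun x => ∑ k, f x k * (gk k ⬝ᵥ (Dg J y x * V k x) - xk k)) ≤
      ε * (ρ ^ 2 + kl v (ising J y))
  f4 : ∀ v f, Wt v → Bd ρ f → mean v (fun x => exc ε (Vf V (f x) x)) ≤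
    ε ^ 2 * (ρ ^ 2 + kl v (ising J y))
  f6 : ∀ v f, Wt v → Bd ρ f → mean v (fun x => Vf V (f x) x ⬝ᵥ (Dg J y x * Vf V (f x) x)) ≤
    Cq * mean v (fun x => f x ⬝ᵥ f x) + ε * (ρ ^ 2 + kl v (ising J y))

/-- the response to the field `ψ` has the deterministic centre `gb` -/
def Cen (J : Matrix (Fin n) (Fin n) ℝ) (y : Fin n → ℝ) (V : κ → Cube n → Fin n → ℝ)
    (ψ : Cube n → Fin n → ℝ) (gb : κ → ℝ) (ε ρ B : ℝ) : Prop :=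
  ∀ v f, Wt v → Bd ρ f → mean v (fun x => ψ x ⬝ᵥ (Dg J y x * Vf V (f x) x) - f x ⬝ᵥ gb) ≤
    ε * (ρ ^ 2 + B + kl v (ising J y))

/-- couplings and feature rows -/
structure Sps (J : Matrix (Fin n) (Fin n) ℝ) (gk : κ → Fin n → ℝ) (CV ε ρ ς : ℝ) : Prop where
  symm : Jᵀ = J
  diag : ∀ j, J j j = 0
  op : opn J ≤ 3
  row : ∀ k, nrm (gk k) ≤ 3
  col : ∀ j, ∑ k, gk k j ^ 2 ≤ ς ^ 2
  s0 : 0 ≤ ς
  e0 : 0 < ε
  e1 : ε ≤ 1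
  cv : 1 ≤ CV
  sm : CV * ς ≤ ε
  card : (Fintype.card κ : ℝ) ≤ ρ ^ 2
  r0 : 0 ≤ ρ

/-- test functions of the features -/
structure Tf (C : Finset (Fin n)) (gk : κ → Fin n → ℝ) (f f' : Cube n → κ → ℝ) (M : κ → ℝ) (ρ : ℝ) :
    Prop where
  b0 : ∀ x k, |f x k| ≤ M k
  b1 : ∀ x k, |f' x k| ≤ M k
  g1 : ∀ x k, ∀ j ∈ C, |grad (fun y => f y k) x j| ≤ M k * |gk k j|
  g2 : ∀ x k, ∀ j ∈ C, |grad (fun y => f y k) x j - f' x k * gk k j| ≤ 2 * M k * gk k j ^ 2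
  sm : M ⬝ᵥ M ≤ ρ ^ 2

/-- the conditional means of `w` on the support of `v`, at the sites of `C` -/
def Fld (J : Matrix (Fin n) (Fin n) ℝ) (y : Fin n → ℝ) (C : Finset (Fin n)) (v w : Cube n → ℝ)
    (e : Cube n → Fin n → ℝ) : Prop :=
  ∀ x, v x ≠ 0 → ∀ j ∈ C, cm w j x = tanh (hf J y x j + e x j)

/-- the free field attached to the random weights `f` -/
def gt (J : Matrix (Fin n) (Fin n) ℝ) (y : Fin n → ℝ) (V : κ → Cube n → Fin n → ℝ) (f : Cube n → κ → ℝ)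
    (x : Cube n) (j : Fin n) : ℝ :=
  Vf V (f x) x j - (sv x j + tanh (hf J y x j)) * ∑ k, grad (fun z => f z k) x j * V k x j

/-- **ST** -/
def STStmt : Prop := ∃ K : ℝ, 0 ≤ K ∧ ∀ (n : ℕ) (κ : Type) [Fintype κ] (J : Matrix (Fin n) (Fin n) ℝ)
    (y : Fin n → ℝ) (C : Finset (Fin n)) (gk : κ → Fin n → ℝ) (V : κ → Cube n → Fin n → ℝ)
    (A f f' : Cube n → κ → ℝ) (X : Matrix (Fin n) κ ℝ) (xk gb M : κ → ℝ) (Cq CV ε ρ ς B : ℝ)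
    (v w : Cube n → ℝ) (ψ ζ ψ' : Cube n → Fin n → ℝ),
  SF J y C gk V A X xk Cq CV ε ρ → Cen J y V ψ gb ε ρ B → Sps J gk CV ε ρ ς → Tf C gk f f' M ρ →
  Pr v w → Fld J y C v w (fun x => ψ x + J *ᵥ ζ x + ψ' x) → (∀ x, ∀ j ∈ C, ζ x j = 0) →
  (∀ x, CV * nrm (ψ' x) ≤ ε * ρ) → 0 ≤ B →
  (∀ x j, j ∉ C → gt J y V f x j = 0) ∧ (∀ x, nrm (gt J y V f x - Vf V (f x) x) ≤ 2 * ε * ρ) ∧
    |mean v (fun x => f x ⬝ᵥ (A x - gb) - ζ x ⬝ᵥ X *ᵥ f x - xk ⬝ᵥ f' x) -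
        mean v (fun x => ∑ j, chi v w j x * gt J y V f x j)| ≤
      K * ε * (ρ ^ 2 + B + kl v (ising J y) + mean v (fun x => ψ x ⬝ᵥ ψ x) + mean v fun x => ζ x ⬝ᵥ ζ x)

/-- the features `g_k · s` -/
def hG (gk : κ → Fin n → ℝ) (x : Cube n) : κ → ℝ := fun k => gk k ⬝ᵥ sv x
/-- the rows of `T`, restricted to `C` -/
def rw (J : Matrix (Fin n) (Fin n) ℝ) (C : Finset (Fin n)) (ι : κ → Fin n) : κ → Fin n → ℝ :=
  fun k j => if j ∈ C then J (ι k) j else 0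
/-- the spins of `T` -/
def sT (ι : κ → Fin n) (x : Cube n) : κ → ℝ := fun k => sv x (ι k)

/-- smooth functions of the features and of the spins off `C` are test functions -/
def TfStmt : Prop := ∀ (n : ℕ) (κ : Type) [Fintype κ] (C : Finset (Fin n)) (gk : κ → Fin n → ℝ)
    (F F' : κ → Cube n → ℝ → ℝ) (M : κ → ℝ) (ρ : ℝ),
  (∀ k, ∀ j ∈ C, OffAt j (F k)) → (∀ k x t, HasDerivAt (F k x) (F' k x t) t) →
  (∀ k x t, |F k x t| ≤ M k ∧ |F' k x t| ≤ M k) →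
  (∀ k x t t', |F' k x t - F' k x t'| ≤ M k * |t - t'|) → M ⬝ᵥ M ≤ ρ ^ 2 →
  Tf C gk (fun x k => F k x (hG gk x k)) (fun x k => F' k x (hG gk x k)) M ρ

end stein

/-- **NET**: a bound for all laws survives a random choice of the index (nets: `NrmS_84`) -/
def NetStmt : Prop := ∀ (Ω A : Type) [Fintype Ω] (μ : Ω → ℝ) (N : Finset A) (X : A → Ω → ℝ) (e b : ℝ),
  (∀ x, 0 < μ x) → 0 < e → (∀ a ∈ N, ∀ v, Wt v → mean v (X a) ≤ e * kl v μ + b) →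
  ∀ (v : Ω → ℝ) (a : Ω → A), Wt v → (∀ x, a x ∈ N) →
    mean v (fun x => X (a x) x) ≤ e * (kl v μ + log N.card) + b

/-! ### edge inequalities -/

/-- **CHI**: the cube forms.  `v = l f`, `w = l e^G`, `r` any site weights on `C`. -/
def ChiStmt : Prop := ∃ K : ℝ, 1 ≤ K ∧ ∀ (n : ℕ) (J : Matrix (Fin n) (Fin n) ℝ) (y : Fin n → ℝ)
    (C : Finset (Fin n)) (r : Fin n → Cube n → ℝ) (v w : Cube n → ℝ) (e g : Cube n → Fin n → ℝ)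
    (ε t : ℝ), Pr v w → (∀ j x, 0 ≤ r j x ∧ r j x ≤ 1) →
  (∀ j x, j ∉ C → r j x = 0) → Fld J y C v w e → 0 < ε → 2 * ε ≤ t → t ≤ 1 →
  (mean v (fun x => ∑ j, r j x * (|chi v w j x| * |g x j|)) ≤ t * Ar r v w + K / t *
    mean v fun x => g x ⬝ᵥ (Dg J y x * g x) + ε ^ 2 * (e x ⬝ᵥ e x) + exc ε (g x)) ∧
  (mean v (fun x => ∑ j, r j x * cg (cm w j x) (g x j)) ≤
    K * mean v fun x => g x ⬝ᵥ (Dg J y x * g x) + ε ^ 2 * (e x ⬝ᵥ e x) + exc ε (g x)) ∧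
  ∀ (l f G : Cube n → ℝ) (η : ℝ), Wt l → (∀ x, 0 < f x) → v = (fun x => l x * f x) → w = wt l G →
    0 < η → η ≤ 1 →
    mean v (fun x => ∑ j, r j x * Ue.Lw η f j x * (|chi v w j x| * |g x j|)) ≤
      (t + K * ε / η ^ 2) * Ue.El (fun j x => r j x * Ue.Lw η f j x) v l +
        mean v fun x => 2 * ε * (∑ j ∈ C, grad G x j ^ 2) + 1 / ε * exc ε (g x)

/-- **HS1**: the first order identity for a deterministic direction `c` (burst and tilt) -/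
def Hs1Stmt : Prop := ∃ K : ℝ, 0 ≤ K ∧ ∀ (n : ℕ) (κ : Type) [Fintype κ] (J : Matrix (Fin n) (Fin n) ℝ)
    (y : Fin n → ℝ) (C : Finset (Fin n)) (gk : κ → Fin n → ℝ) (V : κ → Cube n → Fin n → ℝ)
    (φ A : Cube n → κ → ℝ) (X : Matrix (Fin n) κ ℝ) (xk gb c : κ → ℝ) (a Cq CV ε ρ ς B t : ℝ)
    (r : Fin n → Cube n → ℝ) (v w : Cube n → ℝ) (ψ ζ ψ' : Cube n → Fin n → ℝ),
  SF J y C gk V (fun x => a • φ x + A x) X xk Cq CV ε ρ →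
  Cen J y V ψ gb ε ρ B → Sps J gk CV ε ρ ς → Pr v w → (∀ j x, 0 ≤ r j x ∧ r j x ≤ 1) →
  (∀ j x, j ∉ C → r j x = 0) → Fld J y C w w (fun x => ψ x + J *ᵥ ζ x + ψ' x) →
  (∀ x, ∀ j ∈ C, ζ x j = 0) → (∀ x, CV * nrm (ψ' x) ≤ ε * ρ) → 0 ≤ B → c ⬝ᵥ c ≤ ρ ^ 2 → 0 < t →
  dr r a v w (fun x => c ⬝ᵥ φ x) ≤
    -(mean v (fun x => c ⬝ᵥ A x - ζ x ⬝ᵥ X *ᵥ c) - mean w fun x => c ⬝ᵥ A x - ζ x ⬝ᵥ X *ᵥ c) +
      mean v (fun x => ∑ j ∈ C, (1 - r j x) * (|chi v w j x| * |Vf V c x j|)) + t * Ar r v w +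
      1 / t * mean v (fun x => ∑ j ∈ C, (grad (fun y => c ⬝ᵥ φ y) x j - Vf V c x j) ^ 2) +
      K * ε * (ρ ^ 2 + B + kl v (ising J y) + kl w (ising J y) +
        mean v (fun x => ψ x ⬝ᵥ ψ x + ζ x ⬝ᵥ ζ x) + mean w fun x => ψ x ⬝ᵥ ψ x + ζ x ⬝ᵥ ζ x)

def Hs1Glue : Prop := STStmt → Hs1Stmt

end Crest.Agent.T157.Br
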