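import Crest.Agent.T157.BrRv_51
import Crest.Agent.T157.Xtr_25
import Crest.Agent.T157.DaGr_82

/-!
# Row 157, part B, S1 (helper51): local fields of pinned weights; oscillation on a subcube
-/

set_option autoImplicit false

noncomputable section

namespace Crest.Agent.T157.Br

open Real Matrix Function Finset
open Crest.Agent.T157.E Crest.Agent.T157.SL Crest.Agent.T157.Ta Crest.Agent.T157.S2t
open Crest.Agent.T157.Rec (grad fl grad_eq grad_add grad_sub grad_lin grad_const grad_const_mul)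
open Crest.Agent.T157.Eig (nrm opn)
open Crest.Agent.T157.S3 (hf tau Dg)
open Crest.Agent.T157.Xt (Lip2)

variable {n : ℕ} {κ : Type} [Fintype κ]

/-! ### oscillation on a subcube -/

theorem osc_aux {T : Finset (Fin n)} {F : Cube n → ℝ} {r : Cube n → Fin n → ℝ} {e B : ℝ}
    (hB : 0 ≤ B) (x' : Cube n) (h : ∀ x, (∀ i, i ∉ T → x i = x' i) →
      (∀ j ∈ T, F x - F (fl x j) ≤ e + |r x j|) ∧ ∑ j ∈ T, r x j ^ 2 ≤ B ^ 2) :
    ∀ (d : ℕ) (x : Cube n), (∀ i, i ∉ T → x i = x' i) → #{j | x j ≠ x' j} = d →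
      F x - F x' ≤ e * d + 2 * B * √d := by
  intro d
  induction d with
  | zero =>
    intro x _ hx
    have : x = x' := funext fun j => by
      by_contra hj
      exact (card_eq_zero.1 hx ▸ notMem_empty j) (mem_filter.2 ⟨mem_univ j, hj⟩)
    simp [this]
  | succ d ih =>
    intro x hT hx
    set S : Finset (Fin n) := {j | x j ≠ x' j} with hS
    have hne : S.Nonempty := card_pos.1 (by omega)
    have sub : S ⊆ T := fun j hj => by_contra fun h => (mem_filter.1 hj).2 (hT j h)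
    obtain ⟨j, hj, hmin⟩ := exists_min_image S (fun j => r x j ^ 2) hne
    have h1 : ((d : ℝ) + 1) * |r x j| ^ 2 ≤ B ^ 2 := by
      have := card_nsmul_le_sum S _ _ hmin
      rw [hx, nsmul_eq_mul, Nat.cast_succ] at this
      rw [sq_abs]
      exact this.trans ((sum_le_sum_of_subset_of_nonneg sub fun _ _ _ => sq_nonneg _).trans
        (h x hT).2)
    have h2 := ih (fl x j) (fun i hi => by
      rw [fl, update_of_ne (ne_of_mem_of_not_mem (sub hj) hi).symm, hT i hi]) (by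
      have : (univ.filter fun k => fl x j k ≠ x' k) = S.erase j := by
        ext k
        rw [mem_filter, mem_erase, hS, mem_filter, fl]
        by_cases hk : k = j
        · subst hk
          have := (mem_filter.1 hj).2
          rw [update_self]
          revert this; cases x k <;> cases x' k <;> simp
        · rw [update_of_ne hk]; simp [hk]
      rw [this, card_erase_of_mem hj, hx]; rfl)
    have m1 := (h x hT).1 j (sub hj)
    have m0 := abs_nonneg (r x j)
    set m := |r x j|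
    have d0 : (0 : ℝ) ≤ d := d.cast_nonneg
    rw [Nat.cast_succ]
    have a0 := sqrt_nonneg (d : ℝ)
    have a1 := sq_sqrt d0
    have b0 : 0 < √((d : ℝ) + 1) := sqrt_pos.2 (by linarith)
    have b1 := sq_sqrt (by linarith : (0 : ℝ) ≤ d + 1)
    set a := √(d : ℝ)
    set b := √((d : ℝ) + 1)
    have h3 : b * m ≤ B := le_of_sq_le_sq (by rw [mul_pow, b1]; exact h1) hB
    have h4 : 1 ≤ 2 * b * (b - a) := by nlinarith [sq_nonneg (b - a)]
    have h5 : m ≤ 2 * B * (b - a) := by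
      refine le_of_mul_le_mul_left (h3.trans ?_) b0
      nlinarith [mul_le_mul_of_nonneg_left h4 hB]
    linarith

theorem osc_sub {T : Finset (Fin n)} {F : Cube n → ℝ} {r : Cube n → Fin n → ℝ} {e B : ℝ}
    (he : 0 ≤ e) (hB : 0 ≤ B) {x x' : Cube n} (hx : ∀ i, i ∉ T → x i = x' i)
    (h : ∀ x, (∀ i, i ∉ T → x i = x' i) →
      (∀ j ∈ T, F x - F (fl x j) ≤ e + |r x j|) ∧ ∑ j ∈ T, r x j ^ 2 ≤ B ^ 2) :
    F x - F x' ≤ e * #T + 2 * B * √(#T) := by
  have c0 : #{j | x j ≠ x' j} ≤ #T :=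
    card_le_card fun j hj => by_contra fun h => (mem_filter.1 hj).2 (hx j h)
  have c : (#{j | x j ≠ x' j} : ℝ) ≤ #T := by exact_mod_cast c0
  refine (osc_aux hB x' h _ x hx rfl).trans ?_
  gcongr

/-- a two-sided Lipschitz function on a subcube -/
theorem lip2_sub {T : Finset (Fin n)} {G : Cube n → ℝ} {A : ℝ} (hG : Lip2 A G) {x x' : Cube n}
    (hx : ∀ i, i ∉ T → x i = x' i) : G x - G x' ≤ 2 * A * √(#T) := by
  have := osc_sub (F := G) (r := fun x j => G x - G (fl x j)) le_rfl hG.nn hx fun y _ =>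
    ⟨fun j _ => by rw [zero_add]; exact le_abs_self _, (sum_le_sum_of_subset_of_nonneg
      (subset_univ _) fun _ _ _ => sq_nonneg _).trans ((Xt.lip2_iff hG.nn).1 hG y)⟩
  linarith

/-- **OSC**: `|dΘ - Ω| ≤ G` on `T`, `|Ω|_∞ ≤ e`, `G` two-sided Lipschitz -/
theorem osc_cl {T : Finset (Fin n)} {Θ G : Cube n → ℝ} {Ω : Cube n → Fin n → ℝ} {e A δ : ℝ}
    (he : 0 ≤ e) (hδ : 0 < δ) (hΩ : ∀ x, ∀ j ∈ T, |Ω x j| ≤ e)
    (hG : ∀ x, nrm (grad Θ x - Ω x) ≤ G x) (hA : Lip2 A G) {x x' : Cube n}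
    (hx : ∀ i, i ∉ T → x i = x' i) : |Θ x - Θ x'| ≤ (2 * e + 8 * A + 4 * δ) * #T + G x ^ 2 / δ := by
  have G0 : ∀ x, 0 ≤ G x := fun x => (Eig.nrm_nonneg _).trans (hG x)
  have A0 := hA.nn
  have k : ∀ y : Cube n, (∀ i, i ∉ T → y i = x i) → (∀ j ∈ T, |Θ y - Θ (fl y j)| ≤
      2 * e + |2 * (grad Θ y - Ω y) j|) ∧
      ∑ j ∈ T, (2 * (grad Θ y - Ω y) j) ^ 2 ≤ (2 * (G x + 2 * A * √(#T))) ^ 2 := fun y hy => by
    constructor
    · intro j hj
      have e1 : |Θ y - Θ (fl y j)| = |2 * grad Θ y j| := by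
        rw [Da.Gr.val_fl Θ, sub_sub_cancel, mul_assoc, mul_left_comm, abs_mul, abs_sv, one_mul]
      have := abs_add_le (2 * Ω y j) (2 * (grad Θ y - Ω y) j)
      rw [show 2 * Ω y j + 2 * (grad Θ y - Ω y) j = 2 * grad Θ y j by simp only [Pi.sub_apply]; ring,
        abs_mul 2 (Ω y j), abs_two] at this
      linarith [hΩ y j hj]
    · have h1 := dot_le_of_nrm ((hG y).trans (sub_le_iff_le_add'.1 (lip2_sub hA hy)))
      simp only [mul_pow (2 : ℝ), ← mul_sum]
      refine mul_le_mul_of_nonneg_left (le_trans ?_ h1) (by positivity)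
      simp only [dotProduct, ← sq]
      exact sum_le_sum_of_subset_of_nonneg (subset_univ _) fun _ _ _ => sq_nonneg _
  have b0 : 0 ≤ 2 * (G x + 2 * A * √(#T)) := by have := G0 x; positivity
  have o1 := osc_sub (F := Θ) (by positivity : 0 ≤ 2 * e) b0 hx fun y hy =>
    have := k y fun i hi => (hy i hi).trans (hx i hi).symm
    ⟨fun j hj => (le_abs_self _).trans (this.1 j hj), this.2⟩
  have o2 := osc_sub (F := Θ) (by positivity : 0 ≤ 2 * e) b0 (fun i hi => (hx i hi).symm) fun y hy =>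
    ⟨fun j hj => (le_abs_self _).trans ((k y hy).1 j hj), (k y hy).2⟩
  have s := sq_sqrt (Nat.cast_nonneg (α := ℝ) #T)
  have q : 4 * G x * √(#T) ≤ 4 * δ * #T + G x ^ 2 / δ := by
    have : 0 ≤ (G x - 2 * δ * √(#T)) ^ 2 / δ := by positivity
    rw [show (G x - 2 * δ * √(#T)) ^ 2 / δ = G x ^ 2 / δ - 4 * G x * √(#T) + 4 * δ * √(#T) ^ 2 by
      field_simp; ring, s] at this
    linarith
  have q2 : A * √(#T) * √(#T) = A * #T := by rw [mul_assoc, ← sq, s]
  exact abs_le.2 ⟨by linarith, by linarith⟩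

lemma piece_off (T : Finset (Fin n)) (s x : Cube n) : ∀ i, i ∉ T → x i = T.piecewise s x i :=
  fun _ hi => (piecewise_eq_of_notMem _ _ _ hi).symm

/-! ### local fields -/

lemma grad_off {F : Cube n → ℝ} {j : Fin n} (h : OffAt j F) (x : Cube n) : grad F x j = 0 := by
  rw [grad_eq, fl, h, sub_self, mul_zero, zero_div]

lemma grad_congr {F G : Cube n → ℝ} {x : Cube n} {j : Fin n}
    (h : ∀ b, F (update x j b) = G (update x j b)) : grad F x j = grad G x j := by
  simp only [grad, incr, h]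

lemma grad_hG (gk : κ → Fin n → ℝ) (a : κ → ℝ) (x : Cube n) :
    grad (fun x => a ⬝ᵥ hG gk x) x = a ᵥ* of gk := by
  rw [← grad_lin (a ᵥ* of gk) x]
  congr 1; funext y
  rw [← dotProduct_mulVec]; rfl

/-- the gradient of a Gaussian pin -/
lemma grad_pin (gk : κ → Fin n → ℝ) (p : ℝ) (z : κ → ℝ) (x : Cube n) (j : Fin n) :
    grad (fun x => lk (hG gk) p x z) x j =
      ((z - p • hG gk x) ᵥ* of gk) j + p * sv x j * ∑ k, gk k j ^ 2 := by
  have e : ∀ k, grad (fun x => hG gk x k) x j = gk k j := fun k => congrFun (grad_lin (gk k) x) j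
  simp only [lk, dotProduct, mul_sum, ← sum_sub_distrib, vecMul, ← sum_add_distrib]
  rw [Da.Gr.grad_sum]
  refine sum_congr rfl fun k _ => ?_
  rw [grad_sub, grad_const_mul, grad_const_mul, Pi.sub_apply, Pi.smul_apply, Pi.smul_apply,
    Da.Gr.grad_mul, e]
  simp only [smul_eq_mul, Pi.sub_apply, Pi.smul_apply, of_apply]
  ring

variable {J : Matrix (Fin n) (Fin n) ℝ} {y : Fin n → ℝ}

lemma grad_ising (hJ : Jᵀ = J) (h0 : ∀ j, J j j = 0) (x : Cube n) (j : Fin n) :
    grad (fun x => log (ising J y x)) x j = hf J y x j := by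
  rw [grad_eq, Da.Gr.ising_fl hJ, log_mul (Da.Gr.ising_pos J y x).ne' (exp_pos _).ne', log_exp,
    Da.Gr.loc, h0, hf, Pi.add_apply]
  linear_combination ((J *ᵥ sv x) j + y j) * Rec.sv_mul_self x j

/-- the local field of `μ e^G l` at a site which `l` does not see -/
theorem uf_eq (hJ : Jᵀ = J) (h0 : ∀ j, J j j = 0) {W G l : Cube n → ℝ} {j : Fin n}
    (hW : ∀ x, W x = ising J y x * exp (G x) * l x) (hl : OffAt j l) {x : Cube n} (hx : 0 < l x) :
    (∀ b, 0 < W (update x j b)) ∧ uf W j x = hf J y x j + grad G x j := by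
  refine ⟨fun b => by
    rw [hW, hl]; exact mul_pos (mul_pos (Da.Gr.ising_pos _ _ _) (exp_pos _)) hx, ?_⟩
  rw [uf, grad_congr (G := fun z => log (ising J y z) + G z + log (l x)) fun b => by
    rw [hW, hl, log_mul (mul_pos (Da.Gr.ising_pos _ _ _) (exp_pos _)).ne' hx.ne',
      log_mul (Da.Gr.ising_pos _ _ _).ne' (exp_pos _).ne', log_exp],
    grad_add, grad_add, grad_const, add_zero, Pi.add_apply, grad_ising hJ h0]

theorem fld_of (hJ : Jᵀ = J) (h0 : ∀ j, J j j = 0) {C : Finset (Fin n)} {v W G l : Cube n → ℝ}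
    {e : Cube n → Fin n → ℝ} (hW : ∀ x, W x = ising J y x * exp (G x) * l x)
    (hl : ∀ j ∈ C, OffAt j l) (hv : ∀ x, v x ≠ 0 → 0 < l x)
    (he : ∀ x, v x ≠ 0 → ∀ j ∈ C, grad G x j = e x j) : Fld J y C v W e := fun x hx j hj => by
  obtain ⟨a, b⟩ := uf_eq hJ h0 hW (hl j hj) (hv x hx)
  rw [cm_eq a, b, he x hx j hj]

theorem fibPos_of {T : Finset (Fin n)} {W G l : Cube n → ℝ}
    (hW : ∀ x, W x = ising J y x * exp (G x) * l x) (l0 : ∀ x, 0 ≤ l x)
    (hl : ∀ s x, l (T.piecewise s x) = l x) : FibPos T W := fun x hx s => by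
  rw [hW] at hx ⊢
  rw [hl]
  exact mul_pos (mul_pos (Da.Gr.ising_pos _ _ _) (exp_pos _))
    ((l0 x).lt_of_ne' (right_ne_zero_of_mul hx))

end Crest.Agent.T157.Br

end
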