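import Crest.Agent.T157.BrFl_51
import Crest.Agent.T157.BrDefB_50

/-!
# Row 157, part B, S1 (helper51): tools for HS4
-/

set_option autoImplicit false

noncomputable section

namespace Crest.Agent.T157.Br.H4

open Real Matrix Function Finset
open Crest.Agent.T157.E Crest.Agent.T157.SL Crest.Agent.T157.Ta Crest.Agent.T157.S2t
open Crest.Agent.T157.Rec (grad fl grad_add grad_sub grad_lin grad_const grad_const_mul)
open Crest.Agent.T157.Eig (nrm opn nrm_nonneg nrm_sq dot_self_nonneg)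
open Crest.Agent.T157.S3 (hf tau Dg)

variable {n : ℕ} {κ : Type} [Fintype κ]

/-- the Stein property for test functions with square summable bounds -/
def SteinM (v : Cube n → ℝ) (C : Finset (Fin n)) (ι : κ → Fin n) (h : Cube n → κ → ℝ) (c : κ → ℝ)
    (V1 V E γ ρ : ℝ) : Prop :=
  ∀ (M : κ → ℝ) (F F1 : κ → Cube n → ℝ → ℝ), M ⬝ᵥ M ≤ ρ ^ 2 → (∀ k x, Tst (M k) (F k x) (F1 k x)) →
    (∀ k, ∀ j ∈ C, OffAt j (F k)) →
    |mean v fun x => ∑ k, ((h x k - c k - V1 * sT ι x k) * F k x (h x k) - V * F1 k x (h x k))| ≤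
      E + γ * mean v fun x => ∑ k, F k x (h x k) ^ 2

section
variable {v : Cube n → ℝ} {C : Finset (Fin n)} {ι : κ → Fin n} {h : Cube n → κ → ℝ} {c : κ → ℝ}
  {V1 V E E' γ ρ : ℝ}

lemma SteinM.mono (hS : SteinM v C ι h c V1 V E γ ρ) (hE : E ≤ E') : SteinM v C ι h c V1 V E' γ ρ :=
  fun M F F1 a b d => (hS M F F1 a b d).trans (by linarith)

lemma SteinM.steinG (hS : SteinM v C ι h c V1 V E γ ρ) (hc : (Fintype.card κ : ℝ) ≤ ρ ^ 2) :
    SteinG v C ι h c V1 V E γ := fun F F1 a b =>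
  hS (fun _ => 1) F F1 (by simpa [dotProduct] using hc) a b

lemma SteinM.const (hS : SteinM v C ι h c V1 V (ρ ^ 2) 0 ρ) (hρ : 0 < ρ) (hv : Wt v) :
    sq (meanV v h - c - V1 • meanV v (sT ι)) ≤ ρ ^ 2 := by
  classical
  set u := meanV v h - c - V1 • meanV v (sT ι) with hu
  rcases (nrm_nonneg u).eq_or_lt with h0 | h0
  · rw [sq, ← nrm_sq, ← h0]; nlinarith
  have := hS (fun k => |ρ / nrm u * u k|) (fun k _ _ => ρ / nrm u * u k) (fun _ _ _ => 0) (by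
      simp only [dotProduct, abs_mul_abs_self, mul_mul_mul_comm _ (u _), ← mul_sum]
      rw [← dotProduct, ← nrm_sq]; field_simp; rfl)
    (fun k x => ⟨fun _ => 0, fun t => hasDerivAt_const t _, fun t => hasDerivAt_const t _,
      fun _ => ⟨le_rfl, abs_zero.trans_le (abs_nonneg _), abs_zero.trans_le (abs_nonneg _)⟩⟩)
    fun k j _ => OffAt.const j _
  have e : mean v (fun x => ∑ k, ((h x k - c k - V1 * sT ι x k) * (ρ / nrm u * u k) - V * 0)) =
      ρ * nrm u := by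
    rw [mean_sum, show ρ * nrm u = ρ / nrm u * (u ⬝ᵥ u) by rw [← nrm_sq]; field_simp, dotProduct,
      mul_sum]
    refine sum_congr rfl fun k _ => ?_
    rw [mean_sub, mean_mul_const, mean_sub, mean_sub, mean_const_mul, hv.mean_const, hv.mean_const]
    change u k * _ - _ = _
    ring
  rw [e, zero_mul, add_zero, abs_of_nonneg (by positivity), pow_two] at this
  rw [sq, ← nrm_sq]
  exact pow_le_pow_left₀ h0.le (le_of_mul_le_mul_left this hρ) 2

end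

theorem steinM_of (hST : STStmt) (hTf : TfStmt) : ∃ K : ℝ, 0 ≤ K ∧ ∀ (n : ℕ) (κ : Type) [Fintype κ]
    (J : Matrix (Fin n) (Fin n) ℝ) (y : Fin n → ℝ) (C : Finset (Fin n)) (gk : κ → Fin n → ℝ)
    (V : κ → Cube n → Fin n → ℝ) (A A' : Cube n → κ → ℝ) (X : Matrix (Fin n) κ ℝ) (xk gb c : κ → ℝ)
    (Cq CV ε ρ ς B D V1 V2 E E' c1 c2 : ℝ) (v w : Cube n → ℝ) (ψ ζ ψ' : Cube n → Fin n → ℝ)
    (ι : κ → Fin n),
    SF J y C gk V A X xk Cq CV ε ρ → Cen J y V ψ gb ε ρ B → Sps J gk CV ε ρ ς → Pr v w →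
    Fld J y C v w (fun x => ψ x + J *ᵥ ζ x + ψ' x) → (∀ x, ∀ j ∈ C, ζ x j = 0) →
    (∀ x, CV * nrm (ψ' x) ≤ ε * ρ) → 0 ≤ B → 1 ≤ D → (∀ k, xk k = D * V2) →
    (∀ f, Bd ρ f → mean v (fun x => f x ⬝ᵥ (A x - A' x)) ≤ E') →
    (∀ x (f : κ → ℝ), f ⬝ᵥ (A' x - gb) - ζ x ⬝ᵥ X *ᵥ f = D * (f ⬝ᵥ (hG gk x - c - V1 • sT ι x))) →
    0 ≤ c1 → 0 ≤ c2 → ChiH J y C v w ε E c1 c2 →
    SteinM v C ι (hG gk) c V1 V2 (E + E' + ε * (10 * c1 + 10 * ε * c2) * (ρ ^ 2 + kl v (ising J y)) +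
      K * ε * (ρ ^ 2 + B + kl v (ising J y) + mean v (fun x => ψ x ⬝ᵥ ψ x) +
        mean v fun x => ζ x ⬝ᵥ ζ x)) (2 * c1 * Cq / D ^ 2) ρ := by
  obtain ⟨K, K0, hK⟩ := hST
  refine ⟨K, K0, fun n κ _ J y C gk V A A' X xk gb c Cq CV ε ρ ς B D V1 V2 E E' c1 c2 v w ψ ζ ψ' ι
    sf cen sp hp fl hζ hψ hB hD hx hE hA h1 h2 hc M F F1 c0 hF hO => ?_⟩
  have D0 : 0 < D := by linarith
  have Di : |D⁻¹| ≤ 1 := by
    rw [abs_of_pos (inv_pos.2 D0)]; exact inv_le_one_of_one_le₀ hD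
  have t : ∀ k x, Tst (M k) (fun t => D⁻¹ * F k x t) fun t => D⁻¹ * F1 k x t := fun k x =>
    ((hF k x).smul D⁻¹).mono (mul_le_of_le_one_left
      ((abs_nonneg _).trans ((hF k x).choose_spec.2.2 0).1) Di)
  have tf := hTf n κ C gk (fun k x t => D⁻¹ * F k x t) (fun k x t => D⁻¹ * F1 k x t) M ρ
    (fun k j hj => (hO k j hj).comp fun f t => D⁻¹ * f t)
    (fun k x => (t k x).choose_spec.1) (fun k x u => ⟨((t k x).choose_spec.2.2 u).1,
      ((t k x).choose_spec.2.2 u).2.1⟩) (fun k x => (t k x).lip) c0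
  set f : Cube n → κ → ℝ := fun x k => D⁻¹ * F k x (hG gk x k) with hf0
  obtain ⟨s1, s2, s3⟩ := hK n κ J y C gk V A f _ X xk gb _ Cq CV ε ρ ς B v w ψ ζ ψ' sf cen sp tf hp
    fl hζ hψ hB
  have bd : Bd ρ f := fun x => le_trans (sum_le_sum fun k _ => by
    rw [← abs_mul_abs_self]; exact mul_self_le_mul_self (abs_nonneg _) (tf.b0 x k)) c0
  have q := hc _ s1
  have r : ∀ x, (gt J y V f x - Vf V (f x) x) ⬝ᵥ (gt J y V f x - Vf V (f x) x) ≤ 4 * ε ^ 2 * ρ ^ 2 :=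
    fun x => (dot_le_of_nrm (s2 x)).trans_eq (by ring)
  have q1 : mean v (fun x => gt J y V f x ⬝ᵥ (Dg J y x * gt J y V f x)) ≤ mean v fun x =>
      2 * (Vf V (f x) x ⬝ᵥ (Dg J y x * Vf V (f x) x)) + 8 * ε ^ 2 * ρ ^ 2 :=
    hp.hv.mean_mono fun x => by linarith [dq_le _ (gt J y V f x) (Vf V (f x) x) (Dg_mem J y x), r x]
  have q2 : mean v (fun x => exc ε (gt J y V f x)) ≤ mean v fun x =>
      2 * exc ε (Vf V (f x) x) + 8 * ε ^ 2 * ρ ^ 2 :=
    hp.hv.mean_mono fun x => by linarith [exc_le ε (gt J y V f x) (Vf V (f x) x), r x]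
  rw [mean_add, mean_const_mul, hp.hv.mean_const] at q1 q2
  have f4 := sf.f4 v f hp.hv bd
  have f6 := sf.f6 v f hp.hv bd
  have e1 : mean v (fun x => f x ⬝ᵥ f x) = (D ^ 2)⁻¹ * mean v fun x => ∑ k, F k x (hG gk x k) ^ 2 := by
    rw [← mean_const_mul]
    refine congrArg _ (funext fun x => ?_)
    rw [mul_sum]
    exact sum_congr rfl fun k _ => by simp only [hf0]; field_simp
  have e2 : mean v (fun x => f x ⬝ᵥ (A x - gb) - ζ x ⬝ᵥ X *ᵥ f x -
      xk ⬝ᵥ fun k => D⁻¹ * F1 k x (hG gk x k)) = mean v (fun x => ∑ k, ((hG gk x k - c k -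
        V1 * sT ι x k) * F k x (hG gk x k) - V2 * F1 k x (hG gk x k))) +
        mean v fun x => f x ⬝ᵥ (A x - A' x) := by
    rw [← mean_add]
    refine congrArg _ (funext fun x => ?_)
    have := hA x (f x)
    rw [dotProduct_sub] at this
    rw [dotProduct_sub, dotProduct_sub, sum_sub_distrib, show ∑ k, (hG gk x k - c k - V1 * sT ι x k) *
      F k x (hG gk x k) = D * (f x ⬝ᵥ (hG gk x - c - V1 • sT ι x)) by
        rw [dotProduct, mul_sum]
        exact sum_congr rfl fun k _ => by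
          simp only [hf0, Pi.sub_apply, Pi.smul_apply, smul_eq_mul]; field_simp,
      show (xk ⬝ᵥ fun k => D⁻¹ * F1 k x (hG gk x k)) = ∑ k, V2 * F1 k x (hG gk x k) from
        sum_congr rfl fun k _ => by rw [hx]; field_simp]
    linarith
  have g1 := hE f bd
  have g2 := hE (fun x => -f x) fun x => by simpa using bd x
  simp only [neg_dotProduct, mean_neg] at g2
  have H0 : 0 ≤ kl v (ising J y) :=
    (Pr.mk hp.hv (Wt.of_pos fun x => exp_pos _) fun x h0 => absurd h0 (exp_pos _).ne').kl_nonneg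
  rw [e2] at s3
  rw [e1] at f6
  have a1 := mul_le_mul_of_nonneg_left q1 h1
  have a2 := mul_le_mul_of_nonneg_left q2 h2
  have a3 := mul_le_mul_of_nonneg_left f6 h1
  have a4 := mul_le_mul_of_nonneg_left f4 h2
  have a5 := mul_le_mul_of_nonneg_left sp.e1 (show 0 ≤ c1 * ε * ρ ^ 2 by have := sp.e0; positivity)
  have a6 : 0 ≤ c1 * ε * kl v (ising J y) := by have := sp.e0; positivity
  have a7 : 0 ≤ c2 * ε ^ 2 * kl v (ising J y) := by positivity
  rw [div_eq_mul_inv]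
  rw [abs_le] at q s3 ⊢
  constructor <;> linarith [q.1, q.2, s3.1, s3.2]

/-! ### entropy of slices -/

lemma sum_kl_cut {Ω A : Type*} [Fintype Ω] [Fintype A] [DecidableEq A] {v μ : Ω → ℝ} (h : Pr v μ)
    (ρ : Ω → A) : mean v (fun x => kl (cut v ρ (ρ x)) μ) ≤ kl v μ + log (Fintype.card A) := by
  have hv := h.hv
  obtain ⟨x0, -⟩ : ∃ x, x ∈ (univ : Finset Ω) := nonempty_of_sum_ne_zero hv.pos.ne'
  have N : (0 : ℝ) < Fintype.card A := by exact_mod_cast Fintype.card_pos_iff.2 ⟨ρ x0⟩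
  have e1 : mean v (fun x => kl (cut v ρ (ρ x)) μ) =
      mean v fun x => log (prob v x / prob μ x) - log (push v ρ (ρ x)) := by
    rw [← sum_push_mean hv ρ fun a _ => kl (cut v ρ a) μ,
      ← sum_push_mean hv ρ fun a x => log (prob v x / prob μ x) - log (push v ρ a)]
    refine sum_congr rfl fun a _ => ?_
    by_cases ha : push v ρ a = 0
    · rw [ha, zero_mul, zero_mul]
    rw [(wt_cut hv ha).mean_const]
    congr 1
    refine mean_congr_supp (f := fun x => log (prob (cut v ρ a) x / prob μ x)) fun x hx => ?_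
    have hx' : ρ x = a ∧ v x ≠ 0 := by
      by_cases h1 : ρ x = a
      · exact ⟨h1, by simpa [cut, h1] using hx⟩
      · simp [cut, h1] at hx
    obtain ⟨rfl, hx2⟩ := hx'
    have p1 : prob v x ≠ 0 := (div_pos (h.pos hx2).1 hv.pos).ne'
    have p2 : prob μ x ≠ 0 := (div_pos (h.pos hx2).2 h.hw.pos).ne'
    rw [prob_cut hv, div_right_comm, log_div (div_ne_zero p1 p2) ha]
  have e2 : mean v (fun x => (Fintype.card A * push v ρ (ρ x))⁻¹) ≤ 1 := by
    rw [← mean_push hv ρ fun a => (Fintype.card A * push v ρ a)⁻¹, mean_eq_div, sum_push hv, div_one]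
    refine (sum_le_card_nsmul _ _ (Fintype.card A : ℝ)⁻¹ fun a _ => ?_).trans_eq (by
      rw [card_univ, nsmul_eq_mul, mul_inv_cancel₀ N.ne'])
    by_cases ha : push v ρ a = 0
    · rw [ha, zero_mul]; positivity
    · exact le_of_eq (by field_simp)
  have e3 : mean v (fun x => log (prob v x / prob μ x) - log (push v ρ (ρ x))) ≤ mean v fun x =>
      log (prob v x / prob μ x) + log (Fintype.card A) + ((Fintype.card A * push v ρ (ρ x))⁻¹ - 1) :=
    mean_mono_supp hv fun x hx => by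
      have p := push_pos (ρ := ρ) hv hx
      have := log_le_sub_one_of_pos (inv_pos.2 (mul_pos N p))
      rw [log_inv, log_mul N.ne' p.ne'] at this
      linarith
  rw [mean_add, mean_add, mean_sub v _ fun _ => 1, hv.mean_const, hv.mean_const] at e3
  rw [e1]
  change _ ≤ mean v (fun x => log (prob v x / prob μ x)) + _
  linarith

lemma mean_cut {Ω A : Type*} [Fintype Ω] [Fintype A] [DecidableEq A] {v : Ω → ℝ} (hv : Wt v)
    (ρ : Ω → A) (F : Ω → ℝ) : mean v (fun x => mean (cut v ρ (ρ x)) F) = mean v F := by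
  rw [← sum_push_mean hv ρ fun a _ => mean (cut v ρ a) F, ← sum_push_mean hv ρ fun _ => F]
  refine sum_congr rfl fun a _ => ?_
  by_cases ha : push v ρ a = 0
  · rw [ha, zero_mul, zero_mul]
  · rw [(wt_cut hv ha).mean_const]

lemma sq_nn (u : κ → ℝ) : 0 ≤ sq u := sum_nonneg fun _ _ => mul_self_nonneg _

lemma sq_meanV {Ω : Type*} [Fintype Ω] {v : Ω → ℝ} (hv : Wt v) (h : Ω → κ → ℝ) (a : κ → ℝ) :
    sq (meanV v h - a) ≤ mean v fun x => sq (h x - a) := by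
  simp only [sq, dotProduct, mean_sum]
  refine sum_le_sum fun k _ => ?_
  have e : (meanV v h - a) k = mean v fun x => (h x - a) k := by
    simp only [Pi.sub_apply, mean_sub, hv.mean_const, meanV]
  rw [e, ← pow_two]
  exact hv.isP.mean_sq_le _

lemma sq_three (a b c : κ → ℝ) : sq (a + b + c) ≤ 3 * (sq a + sq b + sq c) := by
  simp only [sq, dotProduct, ← sum_add_distrib, mul_sum, Pi.add_apply]
  exact sum_le_sum fun k _ => by
    nlinarith [sq_nonneg (a k - b k), sq_nonneg (a k - c k), sq_nonneg (b k - c k)]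

lemma grad_sq_lin (g : Fin n → ℝ) (a : ℝ) (x : Cube n) (j : Fin n) :
    grad (fun x => (g ⬝ᵥ sv x - a) ^ 2) x j = 2 * g j * (g ⬝ᵥ sv x - a) - 2 * sv x j * g j ^ 2 := by
  have e : grad (fun x => g ⬝ᵥ sv x - a) x j = g j := by
    rw [grad_sub, grad_lin, grad_const, sub_zero]
  simp only [pow_two]
  rw [Da.Gr.grad_mul, e]; ring

/-- Cauchy–Schwarz against a bounded number of terms -/
lemma sum_abs_le (u : κ → ℝ) {δ : ℝ} (hδ : 0 < δ) :
    ∑ k, |u k| ≤ δ / 2 * Fintype.card κ + (∑ k, u k ^ 2) / (2 * δ) := by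
  rw [← card_univ, card_eq_sum_ones, Nat.cast_sum, mul_sum, sum_div, ← sum_add_distrib]
  refine sum_le_sum fun k _ => ?_
  have : 0 ≤ (|u k| - δ) ^ 2 / (2 * δ) := by positivity
  rw [show (|u k| - δ) ^ 2 / (2 * δ) = δ / 2 + |u k| ^ 2 / (2 * δ) - |u k| by field_simp; ring,
    sq_abs] at this
  push_cast; linarith

/-! ### geometry of the data -/

variable {D : Dat n κ}

/-- indicator of the slice -/
def ind (D : Dat n κ) (x : Cube n) : ℝ := if ∀ i ∈ D.S, x i = D.x0 i then 1 else 0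
/-- exponent of the frozen reference -/
def G0 (D : Dat n κ) (p : ℝ) (z : κ → ℝ) (x : Cube n) : ℝ :=
  (D.dl + D.del) ⬝ᵥ sv x - D.U x + D.Θ x + lk D.h p x z
/-- the spins off `C` -/
def sU (D : Dat n κ) (x : Cube n) : Fin n → ℝ := fun j => if j ∈ D.C then 0 else sv x j
/-- the field on `T` -/
def bb (D : Dat n κ) : κ → ℝ := fun k => (D.y + (D.dl + D.del)) (D.ι k)

lemma w0_eq (p : ℝ) (z : κ → ℝ) (x : Cube n) :
    post D.h D.pw p z x = ising D.J D.y x * exp (G0 D p z x) * ind D x := by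
  simp only [post, Dat.pw, wt, Dat.l, ind, G0, lk, Dat.μ, add_dotProduct]
  split_ifs
  · simp only [mul_assoc, ← exp_add, mul_one]; congr 2; ring
  · simp

lemma W_eq (p : ℝ) (z c m : κ → ℝ) (x : Cube n) : D.W p z c m x =
    ising D.J D.y x * exp (G0 D p z x + (c ⬝ᵥ D.φ x + m ⬝ᵥ D.s x)) * ind D x := by
  rw [Dat.W, wS, wt, w0_eq, exp_add (G0 D p z x)]; ring

lemma W_wt (p : ℝ) (z c m : κ → ℝ) : D.W p z c m =
    wt (D.lp p z) fun x => D.del ⬝ᵥ sv x + D.Θ x + (c ⬝ᵥ D.φ x + m ⬝ᵥ D.s x) := by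
  funext x; simp only [Dat.W, wS, wt, post, Dat.pw, Dat.lp, exp_add]; ring

lemma vp_eq (p : ℝ) (z : κ → ℝ) : D.vp p z = fun x => D.lp p z x * D.f x := by
  funext x; simp only [Dat.vp, Dat.lp, post, Dat.ν]; ring

lemma wt_l : Wt D.l := by
  have h0 : ∀ x, 0 ≤ D.l x := fun x => by
    rw [Dat.l]; split_ifs
    exacts [(mul_pos (Da.Gr.ising_pos _ _ _) (exp_pos _)).le, le_rfl]
  refine ⟨h0, sum_pos' (fun x _ => h0 x) ⟨D.x0, mem_univ _, ?_⟩⟩
  rw [Dat.l, if_pos fun _ _ => rfl]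
  exact mul_pos (Da.Gr.ising_pos _ _ _) (exp_pos _)

lemma pr_w0 (hf0 : ∀ x, 0 < D.f x) (p : ℝ) (z : κ → ℝ) : Pr (D.vp p z) (post D.h D.pw p z) :=
  ((Pr.refl wt_l).mul hf0 fun _ => exp_pos _).post _ _ _ _ _

lemma mem_S {i : Fin n} : i ∈ D.S ↔ i ∉ D.C ∧ ∀ k, D.ι k ≠ i := by simp [Dat.S]

lemma not_Ti {i : Fin n} : i ∉ Ti D.ι ↔ ∀ k, D.ι k ≠ i := by simp [Ti]

lemma ind_congr {x x' : Cube n} (h : ∀ i, i ∉ Ti D.ι → x i = x' i) : ind D x = ind D x' := by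
  simp only [ind]
  exact if_congr (forall₂_congr fun i hi => by rw [h i (not_Ti.2 (mem_S.1 hi).2)]) rfl rfl

lemma ind_nn (x : Cube n) : 0 ≤ ind D x := by rw [ind]; split_ifs <;> norm_num

lemma ind_one {x : Cube n} (h : ind D x ≠ 0) : ind D x = 1 := by
  rw [ind] at h ⊢; split_ifs at h ⊢ <;> simp_all

lemma fib_w0 (p : ℝ) (z : κ → ℝ) : FibPos (Ti D.ι) (post D.h D.pw p z) :=
  fibPos_of (w0_eq p z) ind_nn fun s x => (ind_congr (piece_off _ s x)).symm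

omit [Fintype κ] in
lemma h_congr {x x' : Cube n} (h : ∀ i ∈ D.C, x i = x' i) : D.h x = D.h x' := by
  funext k
  simp only [Dat.h, hG, dotProduct]
  refine sum_congr rfl fun j _ => ?_
  by_cases hj : j ∈ D.C
  · rw [sv, sv, h j hj]
  · simp [rw, hj]

lemma U_nn (hG : D.Geo) (x : Cube n) : 0 ≤ D.U x := by
  have := hG.P1; rw [Dat.U]; positivity

lemma sum_T_le (hG : D.Geo) {F : Fin n → ℝ} (hF : ∀ i, 0 ≤ F i) :
    ∑ k, F (D.ι k) ≤ ∑ i ∈ D.Cᶜ, F i := by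
  rw [← sum_Ti hG.inj]
  refine sum_le_sum_of_subset_of_nonneg (fun i hi => ?_) fun i _ _ => hF i
  obtain ⟨k, -, rfl⟩ := mem_image.1 hi
  exact mem_compl.2 (hG.off k)

lemma sum_S_le {F : Fin n → ℝ} (hF : ∀ i, 0 ≤ F i) : ∑ i ∈ D.S, F i ≤ ∑ i ∈ D.Cᶜ, F i :=
  sum_le_sum_of_subset_of_nonneg (fun _ hi => mem_compl.2 (mem_S.1 hi).1) fun i _ _ => hF i

lemma card_le (hG : D.Geo) : (Fintype.card κ : ℝ) ≤ #D.Cᶜ := by
  simpa using sum_T_le hG (F := fun _ => 1) fun _ => zero_le_one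

lemma dot_T (hG : D.Geo) {d : Fin n → ℝ} (hd : ∀ i, i ∉ Ti D.ι → d i = 0) (u : Fin n → ℝ) :
    d ⬝ᵥ u = ∑ k, d (D.ι k) * u (D.ι k) := by
  rw [← sum_Ti hG.inj fun i => d i * u i]
  exact (sum_subset (subset_univ _) fun i _ hi => by rw [hd i hi, zero_mul]).symm

omit [Fintype κ] in
lemma J_split (x : Cube n) (k : κ) :
    (D.J *ᵥ sv x) (D.ι k) = D.h x k + (D.J *ᵥ sU D x) (D.ι k) := by
  simp only [mulVec, dotProduct, Dat.h, hG, rw, sU, ← sum_add_distrib]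
  exact sum_congr rfl fun j _ => by split_ifs <;> simp

lemma sps (hG : D.Geo) {CV ρ : ℝ} (e0 : 0 < D.ε) (e1 : D.ε ≤ 1) (cv : 1 ≤ CV)
    (sm : 3 * CV * D.P * D.ς ≤ D.ε) (hc : (#D.Cᶜ : ℝ) ≤ ρ ^ 2) (r0 : 0 ≤ ρ) :
    Sps D.J (rw D.J D.C D.ι) CV D.ε ρ D.ς where
  symm := hG.symm
  diag := hG.diag
  op := hG.op
  row k := by
    have := Eig.nrm_mulVec_le D.Jᵀ (Pi.single (D.ι k) 1)
    rw [Eig.nrm_single, mul_one, Eig.opn_transpose, mulVec_single_one] at this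
    refine le_trans (sqrt_le_sqrt (sum_le_sum fun j _ => ?_)) (this.trans hG.op)
    simp only [rw, col_apply, transpose_apply]
    split_ifs
    exacts [le_rfl, by simpa using mul_self_nonneg _]
  col j := le_trans (le_trans (sum_le_sum fun k _ => by
    simp only [rw]; split_ifs; exacts [le_rfl, by simpa using sq_nonneg _])
    (sum_T_le hG (F := fun i => D.J i j ^ 2) fun _ => sq_nonneg _)) (hG.col j)
  s0 := hG.s0
  e0 := e0
  e1 := e1
  cv := cv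
  sm := by
    have := mul_le_mul_of_nonneg_left hG.P1 (mul_nonneg (by linarith : 0 ≤ CV) hG.s0)
    nlinarith [mul_nonneg (by linarith : 0 ≤ CV) hG.s0]
  card := (card_le hG).trans hc
  r0 := r0

lemma sU_le (hG : D.Geo) {B : ℝ} (e0 : 0 < D.ε) (sm : 3 * (D.P * D.ς) ≤ D.ε) (hB : (#D.Cᶜ : ℝ) ≤ B)
    (x : Cube n) : ∑ k, |(D.J *ᵥ sU D x) (D.ι k)| ≤ D.ε * B := by
  have a := (sum_T_le hG (F := fun i => (D.J *ᵥ sU D x) i ^ 2) fun _ => sq_nonneg _).trans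
    (hG.blk (sU D x) fun j hj => if_pos hj)
  have b : sq (sU D x) = #D.Cᶜ := by
    rw [sq, dotProduct, ← sum_add_sum_compl D.C, sum_eq_zero fun j hj => by simp [sU, hj], zero_add,
      card_eq_sum_ones, Nat.cast_sum]
    exact sum_congr rfl fun j hj => by simp [sU, mem_compl.1 hj, Rec.sv_mul_self]
  have s1 : D.ς ≤ D.ε := by nlinarith [hG.P1, hG.s0]
  have s2 := pow_le_pow_left₀ hG.s0 s1 2
  have c : (∑ k, (D.J *ᵥ sU D x) (D.ι k) ^ 2) / (2 * D.ε) ≤ D.ε / 2 * B := by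
    rw [div_le_iff₀ (by positivity)]
    rw [b] at a
    nlinarith [mul_le_mul s2 hB (Nat.cast_nonneg _) (sq_nonneg _)]
  have d := mul_le_mul_of_nonneg_left ((card_le hG).trans hB) (show 0 ≤ D.ε / 2 by positivity)
  linarith [sum_abs_le (fun k => (D.J *ᵥ sU D x) (D.ι k)) e0]

/-- the local field of the frozen reference on `T` -/
lemma uf_le (hG : D.Geo) {B : ℝ} (e0 : 0 < D.ε) (e1 : D.ε ≤ 1) (sm : 3 * (D.P * D.ς) ≤ D.ε)
    (hB : (#D.Cᶜ : ℝ) ≤ B) (p : ℝ) (z : κ → ℝ) {x : Cube n} (hx : ind D x ≠ 0) :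
    ∑ k, |uf (post D.h D.pw p z) (D.ι k) x - (bb D k + D.h x k)| ≤
      4 * D.ε * B + D.ε * D.U x + exc D.ε (grad D.Θ x) / (2 * D.ε) := by
  set u : Fin n → ℝ := fun i => if i ∈ D.S then (D.J *ᵥ sv x) i - D.xS i else 0 with hu
  have P0 : 0 < D.P := by linarith [hG.P1]
  have cB := (card_le hG).trans hB
  have e : ∀ k, uf (post D.h D.pw p z) (D.ι k) x - (bb D k + D.h x k) = (D.J *ᵥ sU D x) (D.ι k) -
      D.P * (D.J *ᵥ u) (D.ι k) + D.P * sv x (D.ι k) * ∑ i ∈ D.S, D.J i (D.ι k) ^ 2 +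
      grad D.Θ x (D.ι k) := fun k => by
    have o : OffAt (D.ι k) fun x => lk D.h p x z := fun x b => by
      simp only [lk, h_congr (x := update x (D.ι k) b) (x' := x) fun i hi =>
        update_of_ne (ne_of_mem_of_not_mem hi (hG.off k)) _ _]
    have gU : grad D.U x (D.ι k) = D.P * (D.J *ᵥ u) (D.ι k) -
        D.P * sv x (D.ι k) * ∑ i ∈ D.S, D.J i (D.ι k) ^ 2 := by
      have : (D.J *ᵥ u) (D.ι k) = ∑ i ∈ D.S, D.J i (D.ι k) * (D.J i ⬝ᵥ sv x - D.xS i) := by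
        simp only [mulVec, dotProduct, hu, mul_ite, mul_zero, sum_ite_mem, univ_inter]
        exact sum_congr rfl fun i _ => by rw [← congrFun (congrFun hG.symm i) (D.ι k)]; rfl
      change grad (fun x => D.P / 2 * ∑ i ∈ D.S, (D.J i ⬝ᵥ sv x - D.xS i) ^ 2) x _ = _
      rw [grad_const_mul, Pi.smul_apply, Da.Gr.grad_sum, this, smul_eq_mul, mul_sum, mul_sum, mul_sum,
        ← sum_sub_distrib]
      exact sum_congr rfl fun i _ => by rw [grad_sq_lin]; ring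
    rw [(uf_eq hG.symm hG.diag (w0_eq p z) (fun x b => ind_congr fun i hi => update_of_ne
      (ne_of_mem_of_not_mem (mem_Ti k) hi).symm _ _) ((ind_nn x).lt_of_ne' hx)).2]
    change _ + grad (fun x => (D.dl + D.del) ⬝ᵥ sv x - D.U x + D.Θ x + lk D.h p x z) x _ - _ = _
    rw [grad_add, grad_add, grad_sub, grad_lin, Pi.add_apply, Pi.add_apply, Pi.sub_apply, grad_off o,
      gU, hf, Pi.add_apply, J_split, bb]
    simp only [Pi.add_apply]
    ring
  have a1 := sU_le hG e0 sm hB x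
  have s2 : (D.P * D.ς) ^ 2 ≤ (D.ε / 3) ^ 2 :=
    pow_le_pow_left₀ (mul_nonneg P0.le hG.s0) (by linarith) 2
  have a2 : ∑ k, |D.P * (D.J *ᵥ u) (D.ι k)| ≤ D.ε / 2 * B + D.ε * D.U x := by
    have a := (sum_T_le hG (F := fun i => (D.J *ᵥ u) i ^ 2) fun _ => sq_nonneg _).trans
      (hG.blk u fun j hj => if_neg fun h => (mem_S.1 h).1 hj)
    have b : D.P / 2 * sq u = D.U x := by
      simp only [Dat.U, sq, dotProduct, hu, mul_ite, mul_zero, sum_ite_mem, univ_inter, pow_two]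
      congr 1
      exact sum_congr rfl fun i hi => by rw [if_pos hi]
    have q := sq_nn u
    have c : (∑ k, (D.P * (D.J *ᵥ u) (D.ι k)) ^ 2) / (2 * D.ε) ≤ D.ε * D.U x := by
      simp only [mul_pow, ← mul_sum]
      rw [div_le_iff₀ (by positivity), ← b]
      have := mul_le_mul_of_nonneg_left a (sq_nonneg D.P)
      nlinarith [mul_le_mul_of_nonneg_right s2 q, mul_le_mul_of_nonneg_right hG.P1
        (mul_nonneg (sq_nonneg D.ε) q)]
    have d := mul_le_mul_of_nonneg_left cB (show 0 ≤ D.ε / 2 by positivity)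
    linarith [sum_abs_le (fun k => D.P * (D.J *ᵥ u) (D.ι k)) e0]
  have a3 : ∑ k, |D.P * sv x (D.ι k) * ∑ i ∈ D.S, D.J i (D.ι k) ^ 2| ≤ D.ε * B := by
    refine (sum_le_card_nsmul _ _ D.ε fun k _ => ?_).trans ?_
    · have := (sum_S_le (F := fun i => D.J i (D.ι k) ^ 2) fun _ => sq_nonneg _).trans (hG.col _)
      rw [abs_mul, abs_mul, abs_sv, mul_one, abs_of_pos P0, abs_of_nonneg (by positivity)]
      nlinarith [mul_le_mul_of_nonneg_left this P0.le, mul_le_mul_of_nonneg_right hG.P1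
        (mul_nonneg P0.le (sq_nonneg D.ς))]
    · rw [card_univ, nsmul_eq_mul, mul_comm]; exact mul_le_mul_of_nonneg_left cB e0.le
  have a4 : ∑ k, |grad D.Θ x (D.ι k)| ≤ 3 / 2 * D.ε * B + exc D.ε (grad D.Θ x) / (2 * D.ε) := by
    have b1 : ∑ k, |grad D.Θ x (D.ι k)| ≤ ∑ k, (D.ε + |max (|grad D.Θ x (D.ι k)| - D.ε) 0|) :=
      sum_le_sum fun k _ => by
        linarith [le_max_left (|grad D.Θ x (D.ι k)| - D.ε) 0,
          le_abs_self (max (|grad D.Θ x (D.ι k)| - D.ε) 0)]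
    rw [sum_add_distrib, sum_const, card_univ, nsmul_eq_mul] at b1
    have b2 := sum_abs_le (fun k => max (|grad D.Θ x (D.ι k)| - D.ε) 0) e0
    have b3 : (∑ k, max (|grad D.Θ x (D.ι k)| - D.ε) 0 ^ 2) / (2 * D.ε) ≤
        exc D.ε (grad D.Θ x) / (2 * D.ε) := div_le_div_of_nonneg_right ((sum_T_le hG
      (F := fun i => max (|grad D.Θ x i| - D.ε) 0 ^ 2) fun _ => sq_nonneg _).trans
        (sum_le_sum_of_subset_of_nonneg (subset_univ _) fun _ _ _ => sq_nonneg _)) (by positivity)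
    nlinarith [mul_le_mul_of_nonneg_left cB e0.le]
  simp only [e]
  refine (sum_le_sum fun k _ => (abs_add_le _ _).trans (add_le_add_left ((abs_add_le _ _).trans
    (add_le_add_left (abs_sub _ _) _)) _)).trans ?_
  simp only [sum_add_distrib]
  linarith

/-- the oscillation of the decoupled reference on the subcube of `T` -/
lemma osc_le (hG : D.Geo) {B : ℝ} (e0 : 0 < D.ε) (e1 : D.ε ≤ 1) (sm : 3 * (D.P * D.ς) ≤ D.ε)
    (hB : (#D.Cᶜ : ℝ) ≤ B) (p : ℝ) (z c m mh : κ → ℝ) {x x' : Cube n} (hx : D.W p z c m x ≠ 0)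
    (h : ∀ i, i ∉ Ti D.ι → x i = x' i) :
    (log (D.W p z c m x) - D.s x ⬝ᵥ (D.h x - mh) - (bb D + mh + m) ⬝ᵥ sT D.ι x) -
      (log (D.W p z c m x') - D.s x' ⬝ᵥ (D.h x' - mh) - (bb D + mh + m) ⬝ᵥ sT D.ι x') ≤
      D.Θ x + c ⬝ᵥ D.φ x - (D.Θ x' + c ⬝ᵥ D.φ x') + D.ε * D.U x + 3 * D.ε * B := by
  have P0 : 0 < D.P := by linarith [hG.P1]
  have cB := (card_le hG).trans hB
  have i1 : ind D x = 1 := ind_one (by rw [W_eq] at hx; exact right_ne_zero_of_mul hx)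
  have hC : ∀ i ∈ D.C, x i = x' i := fun i hi => h i (not_Ti.2 fun k e => hG.off k (e ▸ hi))
  set d := sv x - sv x' with hd
  have d0 : ∀ i, i ∉ Ti D.ι → d i = 0 := fun i hi => by simp [hd, sv, h i hi]
  have d2 : ∀ i, |d i| ≤ 2 := fun i => (abs_sub _ _).trans (by rw [abs_sv, abs_sv]; norm_num)
  have e1' : sv x ⬝ᵥ D.J *ᵥ sv x - sv x' ⬝ᵥ D.J *ᵥ sv x' = d ⬝ᵥ D.J *ᵥ sv x + d ⬝ᵥ D.J *ᵥ sv x' := by
    have : sv x' ⬝ᵥ D.J *ᵥ sv x = sv x ⬝ᵥ D.J *ᵥ sv x' := by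
      rw [dotProduct_mulVec, ← mulVec_transpose, hG.symm, dotProduct_comm]
    rw [hd, sub_dotProduct, sub_dotProduct, this]; ring
  have e2 : ∀ x'' : Cube n, D.h x'' = D.h x → d ⬝ᵥ D.J *ᵥ sv x'' ≤
      (D.s x ⬝ᵥ D.h x - D.s x' ⬝ᵥ D.h x) + 2 * (D.ε * B) := fun x'' e => by
    rw [dot_T hG d0, ← sub_dotProduct]
    simp only [J_split, e, mul_add, sum_add_distrib]
    refine add_le_add le_rfl (le_trans ?_ (mul_le_mul_of_nonneg_left (sU_le hG e0 sm hB x'')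
      zero_le_two))
    rw [mul_sum]
    exact sum_le_sum fun k _ => (le_abs_self _).trans ((abs_mul _ _).trans_le
      (mul_le_mul_of_nonneg_right (d2 _) (abs_nonneg _)))
  have e3 : (D.y + (D.dl + D.del)) ⬝ᵥ sv x - (D.y + (D.dl + D.del)) ⬝ᵥ sv x' =
      bb D ⬝ᵥ sT D.ι x - bb D ⬝ᵥ sT D.ι x' := by
    rw [← dotProduct_sub, ← dotProduct_sub, dotProduct_comm, dot_T hG d0, dotProduct_comm]; rfl
  have e4 : D.U x' ≤ D.U x + D.ε * D.U x + D.ε * B := by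
    have a := (sum_S_le (F := fun i => (D.J *ᵥ d) i ^ 2) fun _ => sq_nonneg _).trans
      (hG.blk d fun j hj => by simp [hd, sv, hC j hj])
    have b : sq d ≤ 4 * B := by
      rw [sq, dot_T hG d0]
      refine (sum_le_card_nsmul _ _ 4 fun k _ => ?_).trans (by rw [card_univ, nsmul_eq_mul]; linarith)
      nlinarith [abs_le.1 (d2 (D.ι k))]
    have s2 : (D.P * D.ς) ^ 2 ≤ (D.ε / 3) ^ 2 :=
      pow_le_pow_left₀ (mul_nonneg P0.le hG.s0) (by linarith) 2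
    have c1 : D.ε * ∑ i ∈ D.S, ((D.J *ᵥ sv x') i - D.xS i) ^ 2 ≤ ∑ i ∈ D.S, (D.ε * (1 + D.ε) *
        ((D.J *ᵥ sv x) i - D.xS i) ^ 2 + 2 * (D.J *ᵥ d) i ^ 2) := by
      rw [mul_sum]
      refine sum_le_sum fun i _ => ?_
      rw [show (D.J *ᵥ sv x') i = (D.J *ᵥ sv x) i - (D.J *ᵥ d) i by rw [hd, mulVec_sub]; simp]
      nlinarith [sq_nonneg (D.ε * ((D.J *ᵥ sv x) i - D.xS i) + (D.J *ᵥ d) i),
        mul_nonneg (sub_nonneg.2 e1) (sq_nonneg ((D.J *ᵥ d) i))]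
    rw [sum_add_distrib, ← mul_sum, ← mul_sum] at c1
    have B0 : 0 ≤ B := (Nat.cast_nonneg _).trans hB
    have c2 : D.P * (D.ς ^ 2 * sq d) ≤ D.ε ^ 2 * B := by
      have := mul_le_mul_of_nonneg_left b (mul_nonneg P0.le (sq_nonneg D.ς))
      nlinarith [mul_le_mul_of_nonneg_right s2 B0, mul_le_mul_of_nonneg_right hG.P1
        (mul_nonneg (mul_nonneg P0.le (sq_nonneg D.ς)) B0), mul_nonneg (sq_nonneg D.ε) B0]
    refine le_of_mul_le_mul_left ?_ e0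
    simp only [Dat.U]
    nlinarith [mul_le_mul_of_nonneg_left c1 P0.le, mul_le_mul_of_nonneg_left a P0.le]
  have a1 := e2 x rfl
  have a2 := e2 x' (h_congr hC).symm
  rw [W_eq, W_eq, ← ind_congr h, i1, mul_one, mul_one, ising, ising, ← exp_add, ← exp_add, log_exp,
    log_exp, G0, G0, lk, lk, ← h_congr hC]
  simp only [add_dotProduct, dotProduct_sub, dotProduct_comm _ mh, Dat.s] at a1 a2 e3 ⊢
  linarith

lemma U_le (hG : D.Geo) (p : ℝ) (z : κ → ℝ) (t : ℝ) (x : Cube n) : D.U x ≤ sq (D.ζ p z t x) := by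
  have a : ∑ i ∈ D.S, D.P ^ 2 * ((D.J *ᵥ sv x) i - D.xS i) ^ 2 ≤ sq (D.ζ p z t x) :=
    le_trans (sum_le_sum fun i hi => by rw [Dat.ζ, if_pos hi]; exact le_of_eq (by ring))
      (sum_le_sum_of_subset_of_nonneg (subset_univ D.S) fun _ _ _ => mul_self_nonneg _)
  rw [← mul_sum] at a
  have b : 0 ≤ ∑ i ∈ D.S, ((D.J *ᵥ sv x) i - D.xS i) ^ 2 := sum_nonneg fun _ _ => sq_nonneg _
  rw [Dat.U]
  nlinarith [mul_le_mul_of_nonneg_right hG.P1 (mul_nonneg (by linarith [hG.P1] : 0 ≤ D.P) b), hG.P1]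

end Crest.Agent.T157.Br.H4

end
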