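import Crest.Agent.T157.BrDefB_50
import Crest.Agent.T157.BrChi_58

/-!
# Row 157, block B, S1 (helper71): dictionary for the states of the burst
-/

set_option autoImplicit false
set_option linter.unusedSectionVars false

noncomputable section

namespace Crest.Agent.T157.Br.Hd71

open Real Matrix Function
open Crest.Agent.T157.E Crest.Agent.T157.SL Crest.Agent.T157.Ta
open Crest.Agent.T157.Rec (grad)
open Crest.Agent.T157.Eig (nrm opn)
open Crest.Agent.T157.S3 (Dg)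

variable {n : ℕ} {κ : Type} [Fintype κ] [DecidableEq κ] {D : Dat n κ} {mg C0 CV K1 : ℝ}

lemma sq_nn (u : κ → ℝ) : 0 ≤ sq u := Finset.sum_nonneg fun _ _ => mul_self_nonneg _

lemma sq_neg (u : κ → ℝ) : sq (-u) = sq u := by simp [sq]

lemma sq_add (u u' : κ → ℝ) : sq (u + u') ≤ 2 * sq u + 2 * sq u' := by
  have := sq_nn (u - u')
  simp only [sq, add_dotProduct, dotProduct_add, sub_dotProduct, dotProduct_sub,
    dotProduct_comm u' u] at this ⊢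
  linarith

lemma sq_add3 (a b c : κ → ℝ) : sq (a + b + c) ≤ 3 * (sq a + sq b + sq c) := by
  have h1 := sq_nn (a - b)
  have h2 := sq_nn (a - c)
  have h3 := sq_nn (b - c)
  simp only [sq, add_dotProduct, dotProduct_add, sub_dotProduct, dotProduct_sub,
    dotProduct_comm b a, dotProduct_comm c a, dotProduct_comm c b] at h1 h2 h3 ⊢
  linarith

lemma sq_of_nrm {u : κ → ℝ} {r : ℝ} (h : nrm u ≤ r) : sq u ≤ r ^ 2 := by
  have := pow_le_pow_left₀ (Eig.nrm_nonneg _) h 2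
  rwa [Eig.nrm_sq] at this

lemma dq_le (d a b : Fin n → ℝ) (hd : ∀ j, 0 ≤ d j ∧ d j ≤ 1) :
    a ⬝ᵥ (d * a) ≤ 2 * (b ⬝ᵥ (d * b)) + 2 * sq (a - b) := by
  simp only [sq, dotProduct, Finset.mul_sum, ← Finset.sum_add_distrib, Pi.mul_apply, Pi.sub_apply]
  refine Finset.sum_le_sum fun j _ => ?_
  have h1 := mul_nonneg (hd j).1 (sq_nonneg (a j - 2 * b j))
  have h2 := mul_nonneg (sub_nonneg.2 (hd j).2) (sq_nonneg (a j - b j))
  nlinarith

lemma exc_le (ε : ℝ) (a b : Fin n → ℝ) : exc ε a ≤ 2 * exc ε b + 2 * sq (a - b) := by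
  simp only [sq, exc, dotProduct, Finset.mul_sum, ← Finset.sum_add_distrib, Pi.sub_apply]
  refine Finset.sum_le_sum fun j _ => ?_
  have h1 : max (|a j| - ε) 0 ≤ max (|b j| - ε) 0 + |a j - b j| := max_le
    (by linarith [le_max_left (|b j| - ε) 0, abs_sub_abs_le_abs_sub (a j) (b j)]) (by positivity)
  have h2 := pow_le_pow_left₀ (le_max_right _ _) h1 2
  nlinarith [sq_nonneg (max (|b j| - ε) 0 - |a j - b j|), sq_abs (a j - b j)]

lemma exc_nn (ε : ℝ) (a : Fin n → ℝ) : 0 ≤ exc ε a := Finset.sum_nonneg fun _ _ => sq_nonneg _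

lemma Dg_mem (J : Matrix (Fin n) (Fin n) ℝ) (y : Fin n → ℝ) (x : Cube n) (j : Fin n) :
    0 ≤ Dg J y x j ∧ Dg J y x j ≤ 1 := ⟨Chi58.Dg_nonneg J y x j, sub_le_self _ (sq_nonneg _)⟩

lemma dq_nn (J : Matrix (Fin n) (Fin n) ℝ) (y : Fin n → ℝ) (x : Cube n) (a : Fin n → ℝ) :
    0 ≤ a ⬝ᵥ (Dg J y x * a) := Finset.sum_nonneg fun j _ => by
  have := mul_nonneg (Dg_mem J y x j).1 (mul_self_nonneg (a j))
  simp only [Pi.mul_apply]; linarith

lemma sc4 {q q' d e ε : ℝ} (g : ℝ) (hq : |q| ≤ 1) (hq' : |q'| ≤ 1) (hε : 0 < ε) (hd : 0 ≤ d)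
    (hs : 1 - q ^ 2 ≤ 7.4 * d + e ^ 2) :
    g ^ 2 * (1 - q' ^ 2) ≤ 8 * Chi58.mj ε d e g + 4 * ε * (|q' - q| * |g|) := by
  have c1 : 0 ≤ d * g ^ 2 := by positivity
  have c2 : 0 ≤ ε ^ 2 * e ^ 2 := by positivity
  have c3 : 0 ≤ Ue.exc ε g ^ 2 := by positivity
  have c0 : 0 ≤ ε * (|q' - q| * |g|) := by positivity
  unfold Chi58.mj
  rcases le_total |g| (2 * ε) with h | h
  · have b : g ^ 2 ≤ (2 * ε) ^ 2 := by rw [← sq_abs g]; exact pow_le_pow_left₀ (abs_nonneg _) h 2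
    have a : 1 - q' ^ 2 ≤ 1 - q ^ 2 + 2 * |q' - q| := by
      have a1 : |q' + q| ≤ 2 := (abs_add_le _ _).trans (by linarith)
      have a2 := mul_le_mul_of_nonneg_right a1 (abs_nonneg (q' - q))
      rw [← abs_mul] at a2
      nlinarith [neg_abs_le ((q' + q) * (q' - q))]
    have c4 := mul_le_mul_of_nonneg_left (a.trans (add_le_add hs le_rfl)) (sq_nonneg g)
    have c5 := mul_le_mul_of_nonneg_left b (sq_nonneg e)
    have c6 := mul_le_mul_of_nonneg_left h (mul_nonneg (abs_nonneg (q' - q)) (abs_nonneg g))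
    rw [mul_assoc, abs_mul_abs_self, ← pow_two] at c6
    nlinarith
  · have b : |g| / 2 ≤ Ue.exc ε g := le_trans (by linarith) (le_max_left _ _)
    have c4 := pow_le_pow_left₀ (by positivity) b 2
    rw [div_pow, sq_abs] at c4
    nlinarith [mul_nonneg (sq_nonneg g) (sq_nonneg q')]

lemma mu_pos (D : Dat n κ) (x : Cube n) : 0 < D.μ x := exp_pos _

lemma pr_mu (D : Dat n κ) {v : Cube n → ℝ} (hv : Wt v) : Pr v D.μ :=
  ⟨hv, .of_pos (mu_pos D), fun x e => absurd e (mu_pos D x).ne'⟩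

lemma wt_l (D : Dat n κ) : Wt D.l := by
  have h : ∀ x, 0 ≤ D.l x := fun x => by
    unfold Dat.l; split_ifs
    exacts [(mul_pos (mu_pos D x) (exp_pos _)).le, le_rfl]
  refine ⟨h, Finset.sum_pos' (fun x _ => h x) ⟨D.x0, Finset.mem_univ _, ?_⟩⟩
  rw [Dat.l, if_pos fun _ _ => rfl]
  exact mul_pos (mu_pos D _) (exp_pos _)

lemma wt_lp (D : Dat n κ) (p : ℝ) (z : κ → ℝ) : Wt (D.lp p z) := (wt_l D).post _ _ _

lemma vp_eq (D : Dat n κ) (p : ℝ) (z : κ → ℝ) : D.vp p z = fun x => D.lp p z x * D.f x :=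
  post_mul _ _ _ _ _

lemma W_eq (D : Dat n κ) (p : ℝ) (z c m : κ → ℝ) : D.W p z c m =
    wt (D.lp p z) fun x => D.del ⬝ᵥ sv x + D.Θ x + c ⬝ᵥ D.φ x + m ⬝ᵥ D.s x := by
  ext x
  simp only [Dat.W, wS, Dat.pw, Dat.lp, wt, post, mul_assoc, ← exp_add]
  congr 2; ring

lemma W_add (D : Dat n κ) (p : ℝ) (z c m c' m' : κ → ℝ) : D.W p z (c + c') (m + m') =
    wt (D.W p z c m) fun x => c' ⬝ᵥ D.φ x + m' ⬝ᵥ D.s x := by
  simp only [W_eq, wt_add, add_dotProduct]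
  congr 1; ext x; ring

lemma ref_W (D : Dat n κ) (p : ℝ) (z c m mh : κ → ℝ) : D.Ref p z c m 1 mh (D.W p z c m) :=
  Or.inl (by simp [Dat.Wp, wt_zero])

lemma pr_lp (hf : ∀ x, 0 < D.f x) (p : ℝ) (z : κ → ℝ) :
    Pr (D.vp p z) (D.lp p z) ∧ Pr (D.lp p z) (D.vp p z) := Ue.pr_mul (wt_lp D p z) hf (vp_eq D p z)

lemma pr_W (hf : ∀ x, 0 < D.f x) (p : ℝ) (z c m : κ → ℝ) : Pr (D.vp p z) (D.W p z c m) := by
  rw [W_eq]; exact (pr_lp hf p z).1.wt _

lemma grad_s (G : D.Geo) (m : κ → ℝ) (x : Cube n) {j : Fin n} (hj : j ∈ D.C) :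
    grad (fun x => m ⬝ᵥ D.s x) x j = 0 := by
  have : ∀ b, D.s (update x j b) = D.s x := fun b => funext fun k => by
    simp only [Dat.s, sT, sv]
    rw [update_of_ne fun e : D.ι k = j => G.off k (by rwa [e])]
  simp only [grad, incr, this, sub_self, zero_div]

lemma grad_G (G : D.Geo) (c m : κ → ℝ) (x : Cube n) {j : Fin n} (hj : j ∈ D.C) :
    grad (fun x => D.del ⬝ᵥ sv x + D.Θ x + c ⬝ᵥ D.φ x + m ⬝ᵥ D.s x) x j = (D.ψ c x + -D.dl) j := by
  simp only [Dat.ψ, Rec.grad_add, Rec.grad_lin, Pi.add_apply, grad_s G m x hj, Pi.neg_apply]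
  ring

lemma off_r (D : Dat n κ) : Off D.r := fun j x b => by
  simp only [Dat.r, Ue.off_rw D.η _ D.f j x b]

lemma r_zero (D : Dat n κ) (j : Fin n) (x : Cube n) (hj : j ∉ D.C) : D.r j x = 0 := if_neg hj

lemma th_mem (H : D.Ok mg C0 CV K1) :
    0 ≤ Ue.th D.a' ∧ Ue.th D.a' ≤ 1 - 2 * D.η ∧ 1 / 2 ≤ 1 - 2 * D.η :=
  ⟨Ue.th_nonneg _, max_le (by linarith [H.a1, H.η1, H.mg0]) (by linarith [H.η1, H.mg1]),
    by linarith [H.η1, H.mg1]⟩

lemma r_mem (H : D.Ok mg C0 CV K1) (j : Fin n) (x : Cube n) : 0 ≤ D.r j x ∧ D.r j x ≤ 1 := by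
  obtain ⟨h1, h2, h3⟩ := th_mem H
  have h4 : 0 < 1 - 2 * D.η := by linarith
  unfold Dat.r Ue.rw
  split_ifs
  exacts [⟨by positivity, (div_le_one h4).2 h2⟩, ⟨by positivity, (div_le_one h4).2 le_rfl⟩,
    ⟨le_rfl, zero_le_one⟩]

lemma one_sub_r (H : D.Ok mg C0 CV K1) {j : Fin n} (hj : j ∈ D.C) (x : Cube n) :
    1 - D.r j x ≤ (1 - Ue.th D.a') * Ue.Lw D.η D.f j x := by
  obtain ⟨h1, h2, h3⟩ := th_mem H
  have h4 : 0 < 1 - 2 * D.η := by linarith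
  rw [Dat.r, if_pos hj]
  unfold Ue.rw Ue.Lw
  split_ifs
  · rw [mul_one, sub_le_sub_iff_left, le_div_iff₀ h4]
    nlinarith [H.η0]
  · rw [div_self h4.ne', sub_self, mul_zero]

lemma lw_nn (D : Dat n κ) (j : Fin n) (x : Cube n) : 0 ≤ D.lw j x := by
  unfold Dat.lw; split_ifs
  exacts [(Ue.Lw_mem _ _ _ _).1, le_rfl]

lemma card_le (G : D.Geo) : (Fintype.card κ : ℝ) ≤ D.Cᶜ.card := by
  exact_mod_cast Finset.card_le_card_of_injOn D.ι
    (fun k _ => Finset.mem_coe.2 (Finset.mem_compl.2 (G.off k))) G.inj.injOn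

lemma sps (H : D.Ok mg C0 CV K1) {ρ : ℝ} (hρ : D.Rad ρ) (he : D.ε ≤ 1) :
    Sps D.J (rw D.J D.C D.ι) CV D.ε ρ D.ς := by
  have s0 := H.s0
  have c0 : 0 ≤ CV * D.ς := mul_nonneg (zero_le_one.trans H.cv) s0
  refine ⟨H.symm, H.diag, H.op, fun k => ?_, fun j => ?_, s0, H.e0, he, H.cv,
    by nlinarith [H.sm, H.P1], ((card_le H.toGeo).trans H.bU).trans hρ.2.1, hρ.1⟩
  · have h1 := Eig.nrm_mulVec_le D.J (Pi.single (D.ι k) 1)
    rw [Eig.nrm_single, mul_one] at h1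
    refine (Eig.nrm_le_iff (by norm_num)).2 (le_trans ?_ (sq_of_nrm (h1.trans H.op)))
    refine Finset.sum_le_sum fun j _ => ?_
    have e : D.J j (D.ι k) = D.J (D.ι k) j := by rw [← transpose_apply D.J, H.symm]
    simp only [rw, mulVec_single_one, col_apply, e]
    split_ifs
    exacts [le_rfl, by simpa using mul_self_nonneg _]
  · refine le_trans ?_ (H.col j)
    calc ∑ k, rw D.J D.C D.ι k j ^ 2 ≤ ∑ k, D.J (D.ι k) j ^ 2 := Finset.sum_le_sum fun k _ => by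
          unfold rw; split_ifs
          exacts [le_rfl, by simpa using sq_nonneg _]
      _ = ∑ i ∈ Finset.univ.image D.ι, D.J i j ^ 2 := by rw [Finset.sum_image H.inj.injOn]
      _ ≤ _ := Finset.sum_le_sum_of_subset_of_nonneg (fun i hi => by
          obtain ⟨k, -, rfl⟩ := Finset.mem_image.1 hi
          exact Finset.mem_compl.2 (H.off k)) fun _ _ _ => sq_nonneg _

lemma U_nn (G : D.Geo) (x : Cube n) : 0 ≤ D.U x :=
  mul_nonneg (by linarith [G.P1]) (Finset.sum_nonneg fun _ _ => sq_nonneg _)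

lemma kl_le_bv (G : D.Geo) (p : ℝ) (z : κ → ℝ) {v : Cube n → ℝ} (hv : Wt v) :
    D.B0 + kl v D.μ ≤ D.bv p z v := by
  have h1 := sq_nn (z - p • D.xb)
  have h2 := hv.mean_nonneg fun x => add_nonneg (U_nn G x) (sq_nn (D.h x - D.xb))
  unfold Dat.bv; linarith

lemma psi'_le (H : D.Ok mg C0 CV K1) {ρ r : ℝ} (hρ : D.Rad ρ)
    (h : r ≤ 3 * D.P * D.ς * √(D.Cᶜ.card)) : CV * r ≤ D.ε * ρ := by
  have h1 : √(D.Cᶜ.card : ℝ) ≤ ρ := (sqrt_le_iff.2 ⟨hρ.1, H.bU.trans hρ.2.1⟩)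
  have h2 := mul_le_mul H.sm h1 (sqrt_nonneg _) H.e0.le
  have h3 := mul_le_mul_of_nonneg_left h (zero_le_one.trans H.cv)
  linarith

end Crest.Agent.T157.Br.Hd71

end
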