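import Crest.Agent.T157.BrDef_50

/-!
# Row 157, block B, S1: `Hs1Glue` and `TfStmt` (helper75)
-/

set_option autoImplicit false
set_option linter.unusedVariables false

noncomputable section

namespace Crest.Agent.T157.Br

open Real Matrix Function
open Crest.Agent.T157.E Crest.Agent.T157.SL Crest.Agent.T157.Ta
open Crest.Agent.T157.Rec (grad)
open Crest.Agent.T157.Eig (nrm opn)
open Crest.Agent.T157.S3 (hf tau Dg)
open Crest.Agent.T157.S3F (Free)

namespace Hs75

variable {n : ℕ} {κ : Type} [Fintype κ]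

theorem abs_sv (x : Cube n) (j : Fin n) : |sv x j| = 1 := by
  have h := Rec.sv_mul_self x j
  have h2 : |sv x j| * |sv x j| = 1 := by rw [abs_mul_abs_self, h]
  nlinarith [abs_nonneg (sv x j)]

omit [Fintype κ] in
theorem hG_fl (gk : κ → Fin n → ℝ) (x : Cube n) (j : Fin n) (k : κ) :
    hG gk (Rec.fl x j) k = hG gk x k - 2 * sv x j * gk k j := by
  have e : sv (Rec.fl x j) = sv x + Pi.single j (-2 * sv x j) := by
    rw [← Rec.sv_fl_sub]; abel
  simp only [hG, e, dotProduct_add, dotProduct_single]; ring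

/-- Lipschitz bound from the derivative -/
theorem lip {F F' : ℝ → ℝ} {M : ℝ} (hF : ∀ t, HasDerivAt F (F' t) t) (hM : ∀ t, |F' t| ≤ M)
    (a b : ℝ) : |F a - F b| ≤ M * |a - b| := by
  have := convex_univ.norm_image_sub_le_of_norm_hasDerivWithin_le (f := F) (f' := F') (C := M)
    (fun t _ => (hF t).hasDerivWithinAt) (fun t _ => hM t) (Set.mem_univ b) (Set.mem_univ a)
  simpa only [Real.norm_eq_abs] using this

/-- first order Taylor bound from a Lipschitz derivative -/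
theorem tay {F F' : ℝ → ℝ} {M : ℝ} (hM0 : 0 ≤ M) (hF : ∀ t, HasDerivAt F (F' t) t)
    (hM : ∀ t t', |F' t - F' t'| ≤ M * |t - t'|) (h d : ℝ) :
    |F h - F (h - d) - F' h * d| ≤ M * d ^ 2 := by
  have := (convex_closedBall h |d|).norm_image_sub_le_of_norm_hasDerivWithin_le
    (f := fun u => F u - F' h * u) (f' := fun u => F' u - F' h) (C := M * |d|)
    (x := h - d) (y := h)
    (fun t _ => by simpa using ((hF t).fun_sub ((hasDerivAt_id t).const_mul (F' h))).hasDerivWithinAt)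
    (fun t ht => by
      rw [Metric.mem_closedBall, Real.dist_eq] at ht
      exact (hM t h).trans (mul_le_mul_of_nonneg_left ht hM0))
    (by simp) (Metric.mem_closedBall_self (abs_nonneg d))
  simp only [Real.norm_eq_abs, sub_sub_cancel] at this
  calc _ = |F h - F' h * h - (F (h - d) - F' h * (h - d))| := by congr 1; ring
    _ ≤ M * |d| * |d| := this
    _ = M * d ^ 2 := by rw [mul_assoc, abs_mul_abs_self, sq]

theorem tf_const (C : Finset (Fin n)) (gk : κ → Fin n → ℝ) (c : κ → ℝ) {ρ : ℝ} (hc : c ⬝ᵥ c ≤ ρ ^ 2) :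
    Tf C gk (fun _ => c) (fun _ => 0) (fun k => |c k|) ρ where
  b0 _ _ := le_rfl
  b1 _ k := by simp
  g1 x k j _ := by rw [Rec.grad_const]; simp; positivity
  g2 x k j _ := by rw [Rec.grad_const]; simp; positivity
  sm := by simpa only [dotProduct, abs_mul_abs_self] using hc

theorem gt_const (J : Matrix (Fin n) (Fin n) ℝ) (y : Fin n → ℝ) (V : κ → Cube n → Fin n → ℝ)
    (c : κ → ℝ) (x : Cube n) (j : Fin n) : gt J y V (fun _ => c) x j = Vf V c x j := by
  simp [gt, Rec.grad_const]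

theorem young {χ g u r t k : ℝ} (hr0 : 0 ≤ r) (hr1 : r ≤ 1) (ht : 0 < t) (hk : χ ^ 2 / 2 ≤ k) :
    χ * u - r * (g * χ) ≤ (1 - r) * (|χ| * |u|) + t * (r * k) + 1 / t * (g - u) ^ 2 := by
  have h1 : χ * u ≤ |χ| * |u| := by rw [← abs_mul]; exact le_abs_self _
  have h2 : χ * (u - g) ≤ t * (χ ^ 2 / 2) + 1 / t * (g - u) ^ 2 := by
    have e : t * (χ ^ 2 / 2) + 1 / t * (g - u) ^ 2 - χ * (u - g) =
        (1 / t) * ((t * χ - (u - g)) ^ 2 / 2 + (g - u) ^ 2 / 2) := by field_simp; ring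
    have : 0 ≤ (1 / t) * ((t * χ - (u - g)) ^ 2 / 2 + (g - u) ^ 2 / 2) := by positivity
    linarith
  have h3 : 0 ≤ 1 / t * (g - u) ^ 2 := by positivity
  have h4 : t * (χ ^ 2 / 2) ≤ t * k := mul_le_mul_of_nonneg_left hk ht.le
  have h5 := mul_le_mul_of_nonneg_left h1 (sub_nonneg.2 hr1)
  have h6 := mul_le_mul_of_nonneg_left (h2.trans (add_le_add_left h4 _)) hr0
  have h7 := mul_le_mul_of_nonneg_right hr1 h3
  nlinarith

end Hs75

open Hs75

theorem tfStmt : TfStmt := by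
  intro n κ _ C gk F F' M ρ hoff hd hb hl hM
  have hM0 : ∀ k x, 0 ≤ M k := fun k x => (abs_nonneg _).trans (hb k x 0).1
  have e : ∀ x k, ∀ j ∈ C, grad (fun y => F k y (hG gk y k)) x j =
      sv x j * (F k x (hG gk x k) - F k x (hG gk x k - 2 * sv x j * gk k j)) / 2 := by
    intro x k j hj
    rw [Rec.grad_eq, hG_fl, show F k (Rec.fl x j) = F k x from hoff k j hj x _]
  refine ⟨fun x k => (hb k x _).1, fun x k => (hb k x _).2, fun x k j hj => ?_,
    fun x k j hj => ?_, hM⟩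
  · have h := lip (hd k x) (fun t => (hb k x t).2) (hG gk x k) (hG gk x k - 2 * sv x j * gk k j)
    rw [sub_sub_cancel, abs_mul, abs_mul, abs_sv, abs_two] at h
    rw [e x k j hj, abs_div, abs_mul, abs_sv, abs_two]
    linarith
  · have h := tay (hM0 k x) (hd k x) (hl k x) (hG gk x k) (2 * sv x j * gk k j)
    have hs := Rec.sv_mul_self x j
    have e2 : grad (fun y => F k y (hG gk y k)) x j - F' k x (hG gk x k) * gk k j =
        sv x j * (F k x (hG gk x k) - F k x (hG gk x k - 2 * sv x j * gk k j) -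
          F' k x (hG gk x k) * (2 * sv x j * gk k j)) / 2 := by
      rw [e x k j hj]
      linear_combination (F' k x (hG gk x k) * gk k j) * hs
    have e3 : (2 * sv x j * gk k j) ^ 2 = 4 * gk k j ^ 2 := by
      linear_combination (4 * gk k j ^ 2) * hs
    rw [e3] at h
    rw [e2, abs_div, abs_mul, abs_sv, abs_two]
    linarith

theorem hs1Glue : Hs1Glue := by
  rintro ⟨K, hK, ST⟩
  refine ⟨2 * K, by positivity, ?_⟩
  intro n κ _ J y C gk V φ A X xk gb c a Cq CV ε ρ ς B t r v w ψ ζ ψ' hS hC hP h hr hr0 hF hζ hψ hB hc ht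
  have hF' : Fld J y C v w (fun x => ψ x + J *ᵥ ζ x + ψ' x) := fun x hx j hj =>
    hF x (h.pos hx).2.ne' j hj
  have h1 := (ST n κ J y C gk V _ _ _ X xk gb _ Cq CV ε ρ ς B v w ψ ζ ψ' hS hC hP
    (tf_const C gk c hc) h hF' hζ hψ hB).2.2
  have h2 := (ST n κ J y C gk V _ _ _ X xk gb _ Cq CV ε ρ ς B w w ψ ζ ψ' hS hC hP
    (tf_const C gk c hc) (Pr.refl h.hw) hF hζ hψ hB).2.2
  have em : ∀ u : Cube n → ℝ, Wt u →
      mean u (fun x => c ⬝ᵥ (a • φ x + A x - gb) - ζ x ⬝ᵥ X *ᵥ c - xk ⬝ᵥ (0 : κ → ℝ)) =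
        a * mean u (fun x => c ⬝ᵥ φ x) + mean u (fun x => c ⬝ᵥ A x - ζ x ⬝ᵥ X *ᵥ c) - c ⬝ᵥ gb := by
    intro u hu
    rw [← hu.mean_const (c ⬝ᵥ gb), ← mean_const_mul, ← mean_add, ← mean_sub]
    congr 1; ext x
    simp only [dotProduct_sub, dotProduct_add, dotProduct_smul, smul_eq_mul, dotProduct_zero]; ring
  simp only [gt_const] at h1 h2
  rw [em v h.hv] at h1
  rw [em w h.hw] at h2
  have e0 : mean w (fun x => ∑ j, chi w w j x * Vf V c x j) = 0 := by
    simp only [chi, sub_self, zero_mul, Finset.sum_const_zero]; exact h.hw.mean_const 0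
  rw [e0, sub_zero] at h2
  have hI : Wt (ising J y) := .of_pos fun _ => exp_pos _
  have kv : 0 ≤ kl v (ising J y) :=
    Pr.kl_nonneg ⟨h.hv, hI, fun x e => absurd e (exp_pos _).ne'⟩
  have kw : 0 ≤ kl w (ising J y) :=
    Pr.kl_nonneg ⟨h.hw, hI, fun x e => absurd e (exp_pos _).ne'⟩
  have dn : ∀ z : Fin n → ℝ, 0 ≤ z ⬝ᵥ z := fun z => Finset.sum_nonneg fun i _ => mul_self_nonneg _
  have m1 := h.hv.mean_nonneg fun x => dn (ψ x)
  have m2 := h.hv.mean_nonneg fun x => dn (ζ x)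
  have m3 := h.hw.mean_nonneg fun x => dn (ψ x)
  have m4 := h.hw.mean_nonneg fun x => dn (ζ x)
  have hV : ∀ x j, j ∉ C → Vf V c x j = 0 := fun x j hj => by
    simp [Vf, Finset.sum_apply, hS.supp _ x j hj]
  have key : mean v (fun x => ∑ j, chi v w j x * Vf V c x j) -
      ∑ j, mean v (fun x => r j x * (grad (fun x => c ⬝ᵥ φ x) x j * chi v w j x)) ≤
      mean v (fun x => ∑ j ∈ C, (1 - r j x) * (|chi v w j x| * |Vf V c x j|)) + t * Ar r v w +
      1 / t * mean v (fun x => ∑ j ∈ C, (grad (fun y => c ⬝ᵥ φ y) x j - Vf V c x j) ^ 2) := by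
    simp only [Ar, As]
    rw [← mean_sum, ← mean_sum, ← mean_sub, ← mean_const_mul, ← mean_const_mul, ← mean_add,
      ← mean_add]
    refine mean_mono_supp h.hv fun x hx => ?_
    rw [← Finset.sum_sub_distrib, ← Finset.sum_subset (Finset.subset_univ C),
      ← Finset.sum_subset (Finset.subset_univ C) (f := fun j => r j x * kls v w j x),
      Finset.mul_sum, Finset.mul_sum, ← Finset.sum_add_distrib, ← Finset.sum_add_distrib]
    · exact Finset.sum_le_sum fun j _ => young (hr j x).1 (hr j x).2 ht (chi_sq_le h j hx)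
    · intro j _ hj; simp [hr0 j x hj]
    · intro j _ hj; simp [hr0 j x hj, hV x j hj]
  have hε := hP.e0
  have hKe : 0 ≤ K * ε := by positivity
  have hρ : 0 ≤ ρ ^ 2 := sq_nonneg ρ
  rw [mean_add, mean_add, dr]
  have h3 := (abs_le.1 h1).2
  have h4 := (abs_le.1 h2).1
  have h5 := mul_nonneg hKe (add_nonneg (add_nonneg (add_nonneg kv kw) (add_nonneg m1 m2))
    (add_nonneg m3 m4))
  nlinarith

end Crest.Agent.T157.Br
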