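import Crest.Agent.T157.S2Pi_51
import Crest.Agent.T157.BrDef_50
import Crest.Agent.T157.UeE_83

/-!
# Row 157, part B, S1 (helper51): the reveal in the words of `BrDef_50`
-/

set_option autoImplicit false

noncomputable section

namespace Crest.Agent.T157.Br

open Real Matrix Function Finset
open Crest.Agent.T157.E Crest.Agent.T157.SL Crest.Agent.T157.Ta Crest.Agent.T157.S2t
open Crest.Agent.T157.Eig (nrm opn)
open Crest.Agent.T157.S3 (hf tau Dg)

variable {n : ℕ} {κ : Type} [Fintype κ]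

/-- the features are `N (c + V₁ s, V)` given the spins off `C`, in the sense of Stein -/
def SteinG (v : Cube n → ℝ) (C : Finset (Fin n)) (ι : κ → Fin n) (h : Cube n → κ → ℝ) (c : κ → ℝ)
    (V1 V E γ : ℝ) : Prop :=
  ∀ F F1 : κ → Cube n → ℝ → ℝ, (∀ k x, Tst 1 (F k x) (F1 k x)) → (∀ k, ∀ j ∈ C, OffAt j (F k)) →
    |mean v fun x => ∑ k, ((h x k - c k - V1 * sT ι x k) * F k x (h x k) - V * F1 k x (h x k))| ≤
      E + γ * mean v fun x => ∑ k, F k x (h x k) ^ 2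

/-- what the edge inequalities give for fields supported in `C` -/
def ChiH (J : Matrix (Fin n) (Fin n) ℝ) (y : Fin n → ℝ) (C : Finset (Fin n)) (v w : Cube n → ℝ)
    (ε E c1 c2 : ℝ) : Prop :=
  ∀ g : Cube n → Fin n → ℝ, (∀ x j, j ∉ C → g x j = 0) →
    |mean v fun x => ∑ j, chi v w j x * g x j| ≤
      E + c1 * mean v (fun x => g x ⬝ᵥ (Dg J y x * g x)) + c2 * mean v fun x => exc ε (g x)

lemma chiH_self (J : Matrix (Fin n) (Fin n) ℝ) (y : Fin n → ℝ) (C : Finset (Fin n))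
    (w : Cube n → ℝ) (ε : ℝ) : ChiH J y C w w ε 0 0 0 := fun g _ => by
  simp [chi, mean]

/-- the edge inequalities of `UeE_83` -/
theorem chiH_of {J : Matrix (Fin n) (Fin n) ℝ} {y : Fin n → ℝ} {C : Finset (Fin n)}
    {l f v G : Cube n → ℝ} {e : Cube n → Fin n → ℝ} {η θ ε k : ℝ} (hl : Wt l) (hf0 : ∀ x, 0 < f x)
    (hv : v = fun x => l x * f x) (h0 : 0 < η) (h1 : η ≤ 1 / 4) (hθ : 0 ≤ θ) (hθ1 : θ ≤ 1)
    (hε : 0 < ε) (hk : ε ≤ k) (fl : Fld J y C v (wt l G) e) :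
    ChiH J y C v (wt l G) ε (4 * k * ∑ i ∈ C, As (Ue.rw η θ f i) v (wt l G) i +
      62 * ε / η ^ 2 * ∑ i ∈ C, Ue.Es (Ue.Lw η f i) v l i + mean v fun x => ∑ i ∈ C,
        (4 * ε ^ 2 / k * e x i ^ 2 + 2 * ε * Rec.grad G x i ^ 2)) (28 / k) (1 / ε) := fun g hg => by
  have a := (Ue.chi_sum hl hf0 hv G h0 h1 hθ hθ1 hε hk C (fun i x => g x i) (fun i x => hf J y x i)
    (fun i x => e x i) fl).1
  have wv : Wt v := hv ▸ hl.mul_pos hf0
  have z : ∀ F : Cube n → Fin n → ℝ, (∀ x j, j ∉ C → F x j = 0) →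
      ∑ i ∈ C, mean v (fun x => F x i) = mean v fun x => ∑ j, F x j := fun F hF => by
    rw [← mean_sum]
    exact congrArg _ (funext fun x => sum_subset (subset_univ _) fun j _ hj => hF x j hj)
  rw [z (fun x i => chi v (wt l G) i x * g x i) fun x j hj => by rw [hg x j hj, mul_zero],
    z (fun x i => (1 - tanh (hf J y x i) ^ 2) * g x i ^ 2) fun x j hj => by simp [hg x j hj],
    ← mean_sum v C fun i x => Ue.cerr k ε (e x i) (Rec.grad G x i) (g x i)] at a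
  have b : mean v (fun x => ∑ i ∈ C, Ue.cerr k ε (e x i) (Rec.grad G x i) (g x i)) ≤
      mean v fun x => ∑ i ∈ C, (4 * ε ^ 2 / k * e x i ^ 2 + 2 * ε * Rec.grad G x i ^ 2) +
        1 / ε * exc ε (g x) := wv.mean_mono fun x => by
    have c : 1 / (2 * k) + 1 / (2 * ε) ≤ 1 / ε := by
      have : 1 / (2 * k) ≤ 1 / (2 * ε) := one_div_le_one_div_of_le (by positivity) (by linarith)
      have e : 1 / ε = 1 / (2 * ε) + 1 / (2 * ε) := by field_simp; norm_num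
      linarith
    simp only [Ue.cerr]
    rw [sum_add_distrib, ← mul_sum]
    refine add_le_add_right (mul_le_mul c (sum_le_sum_of_subset_of_nonneg (subset_univ _)
      fun _ _ _ => sq_nonneg _) (sum_nonneg fun _ _ => sq_nonneg _) (by positivity)) _
  rw [mean_add, mean_const_mul] at b
  have e : mean v (fun x => g x ⬝ᵥ (Dg J y x * g x)) =
      mean v fun x => ∑ j, (1 - tanh (hf J y x j) ^ 2) * g x j ^ 2 :=
    congrArg _ (funext fun x => sum_congr rfl fun j _ => by simp only [Pi.mul_apply, Dg]; ring)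
  rw [e]
  linarith

lemma Dg_mem (J : Matrix (Fin n) (Fin n) ℝ) (y : Fin n → ℝ) (x : Cube n) (j : Fin n) :
    0 ≤ Dg J y x j ∧ Dg J y x j ≤ 1 :=
  ⟨sub_nonneg.2 (tanh_sq_le _), sub_le_self _ (sq_nonneg _)⟩

lemma dq_le (d a b : Fin n → ℝ) (hd : ∀ j, 0 ≤ d j ∧ d j ≤ 1) :
    a ⬝ᵥ (d * a) ≤ 2 * (b ⬝ᵥ (d * b)) + 2 * ((a - b) ⬝ᵥ (a - b)) := by
  simp only [dotProduct, mul_sum, ← sum_add_distrib, Pi.mul_apply, Pi.sub_apply]
  refine sum_le_sum fun j _ => ?_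
  have h1 := mul_nonneg (hd j).1 (sq_nonneg (a j - 2 * b j))
  have h2 := mul_nonneg (sub_nonneg.2 (hd j).2) (sq_nonneg (a j - b j))
  nlinarith

lemma exc_le (ε : ℝ) (a b : Fin n → ℝ) :
    exc ε a ≤ 2 * exc ε b + 2 * ((a - b) ⬝ᵥ (a - b)) := by
  simp only [exc, dotProduct, mul_sum, ← sum_add_distrib, Pi.sub_apply]
  refine sum_le_sum fun j _ => ?_
  have h1 : max (|a j| - ε) 0 ≤ max (|b j| - ε) 0 + |a j - b j| := max_le
    (by linarith [le_max_left (|b j| - ε) 0, abs_sub_abs_le_abs_sub (a j) (b j)]) (by positivity)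
  have h2 := pow_le_pow_left₀ (le_max_right _ _) h1 2
  nlinarith [sq_nonneg (max (|b j| - ε) 0 - |a j - b j|), sq_abs (a j - b j)]

lemma dot_le_of_nrm {u : Fin n → ℝ} {r : ℝ} (h : nrm u ≤ r) : u ⬝ᵥ u ≤ r ^ 2 := by
  have := pow_le_pow_left₀ (Eig.nrm_nonneg _) h 2
  rwa [Eig.nrm_sq] at this

/-- **Stein hypothesis of the reveal** from ST, the edge inequalities and `f4`, `f6` -/
theorem steinG_of (hST : STStmt) (hTf : TfStmt) : ∃ K : ℝ, 0 ≤ K ∧ ∀ (n : ℕ) (κ : Type) [Fintype κ]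
    (J : Matrix (Fin n) (Fin n) ℝ) (y : Fin n → ℝ) (C : Finset (Fin n)) (gk : κ → Fin n → ℝ)
    (V : κ → Cube n → Fin n → ℝ) (A : Cube n → κ → ℝ) (X : Matrix (Fin n) κ ℝ) (xk gb c : κ → ℝ)
    (Cq CV ε ρ ς B D V1 V2 E c1 c2 : ℝ) (v w : Cube n → ℝ) (ψ ζ ψ' : Cube n → Fin n → ℝ)
    (ι : κ → Fin n),
    SF J y C gk V A X xk Cq CV ε ρ → Cen J y V ψ gb ε ρ B → Sps J gk CV ε ρ ς → Pr v w →
    Fld J y C v w (fun x => ψ x + J *ᵥ ζ x + ψ' x) → (∀ x, ∀ j ∈ C, ζ x j = 0) →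
    (∀ x, CV * nrm (ψ' x) ≤ ε * ρ) → 0 ≤ B → 1 ≤ D → (∀ k, xk k = D * V2) →
    (∀ x, v x ≠ 0 → ∀ k, A x k - gb k - (ζ x ᵥ* X) k = D * (hG gk x k - c k - V1 * sT ι x k)) →
    0 ≤ c1 → 0 ≤ c2 → ChiH J y C v w ε E c1 c2 →
    SteinG v C ι (hG gk) c V1 V2 (E + ε * (10 * c1 + 10 * ε * c2) * (ρ ^ 2 + kl v (ising J y)) +
      K * ε * (ρ ^ 2 + B + kl v (ising J y) + mean v (fun x => ψ x ⬝ᵥ ψ x) +
        mean v fun x => ζ x ⬝ᵥ ζ x)) (2 * c1 * Cq / D ^ 2) := by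
  obtain ⟨K, K0, hK⟩ := hST
  refine ⟨K, K0, fun n κ _ J y C gk V A X xk gb c Cq CV ε ρ ς B D V1 V2 E c1 c2 v w ψ ζ ψ' ι
    sf cen sp hp fl hζ hψ hB hD hx hA h1 h2 hc F F1 hF hO => ?_⟩
  have D0 : 0 < D := by linarith
  have Di : |D⁻¹| * 1 ≤ 1 := by
    rw [mul_one, abs_of_pos (inv_pos.2 D0)]; exact inv_le_one_of_one_le₀ hD
  have t : ∀ k x, Tst 1 (fun t => D⁻¹ * F k x t) fun t => D⁻¹ * F1 k x t := fun k x =>
    ((hF k x).smul D⁻¹).mono Di
  have c0 : (fun _ : κ => (1 : ℝ)) ⬝ᵥ (fun _ => 1) ≤ ρ ^ 2 := by simpa [dotProduct] using sp.card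
  have tf := hTf n κ C gk (fun k x t => D⁻¹ * F k x t) (fun k x t => D⁻¹ * F1 k x t) (fun _ => 1) ρ
    (fun k j hj => (hO k j hj).comp fun f t => D⁻¹ * f t)
    (fun k x => (t k x).choose_spec.1) (fun k x u => ⟨((t k x).choose_spec.2.2 u).1,
      ((t k x).choose_spec.2.2 u).2.1⟩) (fun k x => (t k x).lip) c0
  set f : Cube n → κ → ℝ := fun x k => D⁻¹ * F k x (hG gk x k) with hf0
  obtain ⟨s1, s2, s3⟩ := hK n κ J y C gk V A f _ X xk gb _ Cq CV ε ρ ς B v w ψ ζ ψ' sf cen sp tf hp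
    fl hζ hψ hB
  have bd : Bd ρ f := fun x => le_trans (sum_le_sum fun k _ => by
    have := tf.b0 x k
    exact abs_le_one_iff_mul_self_le_one.1 this) (by simpa [dotProduct] using sp.card)
  have q := hc _ s1
  have r : ∀ x, (gt J y V f x - Vf V (f x) x) ⬝ᵥ (gt J y V f x - Vf V (f x) x) ≤ 4 * ε ^ 2 * ρ ^ 2 :=
    fun x => (dot_le_of_nrm (s2 x)).trans_eq (by ring)
  have q1 : mean v (fun x => gt J y V f x ⬝ᵥ (Dg J y x * gt J y V f x)) ≤ mean v fun x =>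
      2 * (Vf V (f x) x ⬝ᵥ (Dg J y x * Vf V (f x) x)) + 8 * ε ^ 2 * ρ ^ 2 :=
    hp.hv.mean_mono fun x => by linarith [dq_le _ (gt J y V f x) (Vf V (f x) x) (Dg_mem J y x), r x]
  have q2 : mean v (fun x => exc ε (gt J y V f x)) ≤ mean v fun x =>
      2 * exc ε (Vf V (f x) x) + 8 * ε ^ 2 * ρ ^ 2 :=
    hp.hv.mean_mono fun x => by linarith [exc_le ε (gt J y V f x) (Vf V (f x) x), r x]
  rw [mean_add, mean_const_mul, hp.hv.mean_const] at q1 q2
  have f4 := sf.f4 v f hp.hv bd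
  have f6 := sf.f6 v f hp.hv bd
  have e1 : mean v (fun x => f x ⬝ᵥ f x) = (D ^ 2)⁻¹ * mean v fun x => ∑ k, F k x (hG gk x k) ^ 2 := by
    rw [← mean_const_mul]
    refine congrArg _ (funext fun x => ?_)
    rw [mul_sum]
    exact sum_congr rfl fun k _ => by simp only [hf0]; field_simp
  have e2 : mean v (fun x => f x ⬝ᵥ (A x - gb) - ζ x ⬝ᵥ X *ᵥ f x -
      xk ⬝ᵥ fun k => D⁻¹ * F1 k x (hG gk x k)) = mean v fun x => ∑ k, ((hG gk x k - c k -
        V1 * sT ι x k) * F k x (hG gk x k) - V2 * F1 k x (hG gk x k)) :=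
    mean_congr_supp fun x hx0 => by
      rw [dotProduct_mulVec, dotProduct, dotProduct, dotProduct, ← sum_sub_distrib,
        ← sum_sub_distrib]
      refine sum_congr rfl fun k _ => ?_
      rw [hx, Pi.sub_apply, show (ζ x ᵥ* X) k = A x k - gb k - D * (hG gk x k - c k - V1 * sT ι x k)
        by rw [← hA x hx0 k]; ring]
      simp only [hf0]; field_simp; ring
  have H0 : 0 ≤ kl v (ising J y) :=
    (Pr.mk hp.hv (Wt.of_pos fun x => exp_pos _) fun x h0 => absurd h0 (exp_pos _).ne').kl_nonneg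
  rw [e2] at s3
  rw [e1] at f6
  have a1 := mul_le_mul_of_nonneg_left q1 h1
  have a2 := mul_le_mul_of_nonneg_left q2 h2
  have a3 := mul_le_mul_of_nonneg_left f6 h1
  have a4 := mul_le_mul_of_nonneg_left f4 h2
  have a5 := mul_le_mul_of_nonneg_left sp.e1 (show 0 ≤ c1 * ε * ρ ^ 2 by have := sp.e0; positivity)
  have a6 : 0 ≤ c1 * ε * kl v (ising J y) := by have := sp.e0; positivity
  have a7 : 0 ≤ c2 * ε ^ 2 * kl v (ising J y) := by positivity
  have := abs_sub_abs_le_abs_sub (mean v fun x => ∑ k, ((hG gk x k - c k -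
    V1 * sT ι x k) * F k x (hG gk x k) - V2 * F1 k x (hG gk x k)))
    (mean v fun x => ∑ j, chi v w j x * gt J y V f x j)
  rw [div_eq_mul_inv]
  linarith

/-! ### the reveal indexed by `κ` -/

/-- the revealed spins -/
def rv (ι : κ → Fin n) (x : Cube n) : κ → Bool := fun k => x (ι k)
/-- the revealed sites -/
def Ti (ι : κ → Fin n) : Finset (Fin n) := univ.image ι
/-- logarithm of the product law with half log-odds `U` on the revealed spins -/
def LK (ι : κ → Fin n) (U : κ → ℝ) (x : Cube n) : ℝ := ∑ k, lb (U k) (x (ι k))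

variable {ι : κ → Fin n} {v w W : Cube n → ℝ} {C : Finset (Fin n)} {h : Cube n → κ → ℝ}
  {c : κ → ℝ} {V V1 E γ : ℝ}

lemma mem_Ti (k : κ) : ι k ∈ Ti ι := mem_image_of_mem _ (mem_univ k)

lemma rv_iff {x y : Cube n} : rv ι y = rv ι x ↔ rT (Ti ι) y = rT (Ti ι) x := by
  simp only [rT_eq_iff, Ti, forall_mem_image, mem_univ, true_imp_iff]
  exact funext_iff

lemma sum_Ti (hι : Injective ι) (f : Fin n → ℝ) : ∑ j ∈ Ti ι, f j = ∑ k, f (ι k) :=
  sum_image fun _ _ _ _ h => hι h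

lemma push_rv (v : Cube n → ℝ) (x : Cube n) : push v (rv ι) (rv ι x) = mT (Ti ι) v x := by
  simp only [mT, push, rv_iff]

lemma cut_rv (v : Cube n → ℝ) (x : Cube n) :
    cut v (rv ι) (rv ι x) = cut v (rT (Ti ι)) (rT (Ti ι) x) := by
  funext y; simp only [cut, rv_iff]

lemma LB_ext (hι : Injective ι) (U : κ → ℝ) (x : Cube n) :
    LB (Ti ι) (extend ι U 0) x = LK ι U x := by
  rw [LB, sum_Ti hι]; simp only [hι.extend_apply, LK]

lemma SteinG.steinH (hι : Injective ι) (hC : ∀ k, ι k ∉ C) (hS : SteinG v C ι h c V V E γ) :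
    SteinH v (Ti ι) (extend ι (fun k x => h x k) 0) (extend ι c 0) V E γ := fun F F1 hF => by
  have := hS (fun k x => F (ι k) (rT (Ti ι) x)) (fun k x => F1 (ι k) (rT (Ti ι) x))
    (fun k x => hF _ _) fun k j hj => (off_rT (T := Ti ι) fun h => by
      obtain ⟨k', -, rfl⟩ := mem_image.1 h
      exact hC k' hj).comp _
  simpa only [sum_Ti hι, hι.extend_apply, sT] using this

/-- the derivative along the interpolation of the reference law -/
lemma SteinG.path (hC : ∀ k, ι k ∉ C) (hw : Wt w) (hS : SteinG w C ι h c V1 V E 0) :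
    |mean w (fun x => sT ι x ⬝ᵥ (h x - c)) - V1 * Fintype.card κ| ≤ E := by
  have := hS (fun k x _ => sT ι x k) (fun _ _ _ => 0) (fun k x => ⟨fun _ => 0,
    fun t => hasDerivAt_const t _, fun t => hasDerivAt_const t _, fun _ =>
      ⟨(abs_sv x _).le, by simp, by simp⟩⟩) fun k j hj x b => by
    funext t
    simp only [sT, sv, update_of_ne (ne_of_mem_of_not_mem hj (hC k)).symm]
  rw [zero_mul, add_zero] at this
  rw [← hw.mean_const (V1 * Fintype.card κ), ← mean_sub]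
  refine le_of_eq_of_le (congrArg _ (congrArg _ (funext fun x => ?_))) this
  rw [dotProduct, ← card_univ, card_eq_sum_ones, Nat.cast_sum, mul_sum, ← sum_sub_distrib]
  refine sum_congr rfl fun k _ => ?_
  rcases sv_pm x (ι k) with e | e <;> simp only [sT, e, Pi.sub_apply] <;> push_cast <;> ring

/-- **the reveal, side of `π`** -/
theorem revPiK (hι : Injective ι) (hp : Pr v W) (hf : FibPos (Ti ι) W) (U : κ → ℝ) (S : Cube n → ℝ)
    {a E : ℝ} {Es O : Cube n → ℝ} (h1 : ∀ t ∈ Set.Icc (0 : ℝ) 1, mean (wP W S t) S ≤ t * a + E)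
    (h2 : ∀ x, v x ≠ 0 → ∀ t ∈ Set.Icc (0 : ℝ) 1,
      t * a - Es x ≤ mean (wP (cut W (rv ι) (rv ι x)) S t) S)
    (h3 : ∀ x, W x ≠ 0 → ∀ s, (log (W x) - S x - U ⬝ᵥ sT ι x) - (log (W ((Ti ι).piecewise s x)) -
      S ((Ti ι).piecewise s x) - U ⬝ᵥ sT ι ((Ti ι).piecewise s x)) ≤ O x) :
    mean v (fun x => LK ι U x - log (push W (rv ι) (rv ι x))) ≤
      E + mean v Es + mean (wP W S 0) O := by
  have := revPi hp hf (extend ι U 0) S h1 (fun x hx => by rw [← cut_rv]; exact h2 x hx)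
    (O := O) fun x hx s => by
      have := h3 x hx s
      simp only [LB_ext hι, LK, lb, sum_sub_distrib]
      simp only [dotProduct, sT, sv] at this
      linarith
  simpa only [LB_ext hι, push_rv] using this

/-- **the reveal** (HS4) -/
theorem revK [DecidableEq κ] (hι : Injective ι) (hC : ∀ k, ι k ∉ C) (hp : Pr v w) (he : EdgePos (Ti ι) v w)
    (hW : Pr v W) (hS : SteinG v C ι h c V V E γ) (hV0 : 0 ≤ V) (hV1 : V ≤ 1) (hγ : 0 ≤ γ)
    (hK : γ * exp 16 ≤ 1) (b m : κ → ℝ) {α β c1 c2 E' : ℝ} (hα : 0 ≤ α) (hβ : 0 ≤ β) (h1 : 0 < c1)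
    (h2 : 0 ≤ c2) (hc : c1 + c2 + Ctp * (α + β) * (V + γ) ≤ β / 2)
    (hE : mean v (fun x => LK ι (b + c + m) x - log (push W (rv ι) (rv ι x))) ≤ E') :
    α * Ent.kl (push v (rv ι)) (push W (rv ι)) +
      c2 * ∑ k, (mag v (ι k) - tanh (b k + c k)) ^ 2 ≤
      ∑ k, (α * As (fun _ => 1) v w (ι k) + β / 2 * mean v fun x => chi v w (ι k) x ^ 2) +
      α / 2 * (1 + α / (2 * c1)) * (m ⬝ᵥ m) +
      2 * (α + β) * ∑ k, mean v (fun x => |uf w (ι k) x - (b k + h x k)|) +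
      3336 * (α + β) * E + α * E' := by
  have a1 := revNu hp he (hS.steinH hι hC) hV0 hV1 hγ hK (extend ι b 0) (extend ι m 0) hα hβ h1 h2 hc
  have e : ∀ x, LB (Ti ι) (extend ι b 0 + extend ι c 0 + extend ι m 0) x = LK ι (b + c + m) x :=
    fun x => by rw [LB, sum_Ti hι]; simp only [Pi.add_apply, hι.extend_apply, LK]
  simp only [sum_Ti hι, hι.extend_apply, e, ← push_rv] at a1
  have a2 := mul_le_mul_of_nonneg_left hE hα
  rw [kl_push hW, dotProduct]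
  rw [mean_sub] at a1 a2 ⊢
  simp only [← sq]
  linarith

end Crest.Agent.T157.Br

end
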