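import Crest.Agent.T157.ChainSp_22

/-!
Row 157, part E (helper22): Poincaré and log-Sobolev inequalities of a finite reversible chain,
decay of variance and entropy, upper and lower bounds for the mixing time.
-/

set_option autoImplicit false

namespace Crest.Agent.T157.Chain22

open Finset Matrix

variable {Ω : Type*} [Fintype Ω]

theorem four_sq_le_log (a b : ℝ) (ha : 0 < a) (hb : 0 < b) :
    4 * ((Real.sqrt a - Real.sqrt b) * (Real.sqrt a - Real.sqrt b)) ≤
      (Real.log a - Real.log b) * (a - b) := by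
  wlog hab : b ≤ a generalizing a b
  · have := this b a hb ha (le_of_not_ge hab)
    linarith
  set s := Real.sqrt a with hs
  set t := Real.sqrt b with ht
  have hs0 : 0 < s := Real.sqrt_pos.2 ha
  have ht0 : 0 < t := Real.sqrt_pos.2 hb
  have hst : t ≤ s := Real.sqrt_le_sqrt hab
  have hss : s * s = a := Real.mul_self_sqrt ha.le
  have htt : t * t = b := Real.mul_self_sqrt hb.le
  have h1 := Real.le_log_one_add_of_nonneg (x := (s - t) / t) (div_nonneg (by linarith) ht0.le)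
  have e1 : 1 + (s - t) / t = s / t := by field_simp; ring
  have e2 : 2 * ((s - t) / t) / ((s - t) / t + 2) = 2 * (s - t) / (s + t) := by
    have : (s - t) / t + 2 = (s + t) / t := by field_simp; ring
    rw [this]; field_simp
  rw [e1, e2, Real.log_div hs0.ne' ht0.ne', div_le_iff₀ (by positivity)] at h1
  have e3 : Real.log a = 2 * Real.log s := by
    rw [← hss, Real.log_mul hs0.ne' hs0.ne']; ring
  have e4 : Real.log b = 2 * Real.log t := by
    rw [← htt, Real.log_mul ht0.ne' ht0.ne']; ring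
  rw [e3, e4, ← hss, ← htt]
  nlinarith [mul_le_mul_of_nonneg_right h1 (sub_nonneg.2 hst)]

namespace RC

variable (c : RC Ω)

/-- Poincaré inequality with constant `C` -/
def Poinc (C : ℝ) : Prop := ∀ f : Ω → ℝ, var c.π f ≤ C * c.D f f

/-- logarithmic Sobolev inequality with constant `C` -/
def LSI (C : ℝ) : Prop := ∀ f : Ω → ℝ, ent c.π (fun x => f x ^ 2) ≤ C * c.D f f

theorem exists_shift (f : Ω → ℝ) : ∃ a : ℝ, ∀ x, 0 ≤ f x + a :=
  ⟨∑ y, |f y|, fun x => by
    have := single_le_sum (f := fun y => |f y|) (fun y _ => abs_nonneg _) (mem_univ x)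
    linarith [neg_abs_le (f x)]⟩

variable {c} in
theorem LSI.poinc {C : ℝ} (h : c.LSI C) : c.Poinc C := fun f => by
  obtain ⟨a, ha⟩ := exists_shift f
  have h1 := h fun x => f x + a
  rw [D_add_const] at h1
  rw [← c.isP.var_add_const f a]
  exact (c.isP.var_le_ent_sq ha).trans h1

/-- a test function for the Poincaré constant is one for the log-Sobolev constant -/
theorem exists_ent_test {K : ℝ} {f : Ω → ℝ} (h0 : 0 < var c.π f) (h : K * c.D f f ≤ var c.π f) :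
    ∃ g : Ω → ℝ, 0 < ent c.π (fun x => g x ^ 2) ∧ K * c.D g g ≤ ent c.π (fun x => g x ^ 2) := by
  obtain ⟨a, ha⟩ := exists_shift f
  have h1 := c.isP.var_le_ent_sq ha
  rw [c.isP.var_add_const] at h1
  exact ⟨fun x => f x + a, h0.trans_le h1, by rw [D_add_const]; exact h.trans h1⟩

variable {c} in
theorem LSI.mono {C C' : ℝ} (h : c.LSI C) (hC : C ≤ C') : c.LSI C' := fun f =>
  (h f).trans (mul_le_mul_of_nonneg_right hC (c.D_nonneg f))

variable {c} in
theorem Poinc.mono {C C' : ℝ} (h : c.Poinc C) (hC : C ≤ C') : c.Poinc C' := fun f =>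
  (h f).trans (mul_le_mul_of_nonneg_right hC (c.D_nonneg f))

variable {c} in
theorem LSI.ent_le {C : ℝ} (h : c.LSI C) {f : Ω → ℝ} (hf : ∀ x, 0 ≤ f x) :
    ent c.π f ≤ C * c.D (fun x => Real.sqrt (f x)) (fun x => Real.sqrt (f x)) := by
  have := h fun x => Real.sqrt (f x)
  simpa only [Real.sq_sqrt (hf _)] using this

/-- `4 D(√u, √u) ≤ D(log u, u)` -/
theorem four_D_sqrt_le {u : Ω → ℝ} (hu : ∀ x, 0 < u x) :
    4 * c.D (fun x => Real.sqrt (u x)) (fun x => Real.sqrt (u x)) ≤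
      c.D (fun x => Real.log (u x)) u := by
  rw [D_eq, D_eq, mul_left_comm, mul_sum (a := 4)]
  refine mul_le_mul_of_nonneg_left (sum_le_sum fun x _ => ?_) (by norm_num)
  rw [mul_sum]
  refine sum_le_sum fun y _ => ?_
  rw [mul_left_comm]
  exact mul_le_mul_of_nonneg_left (four_sq_le_log _ _ (hu x) (hu y))
    (mul_nonneg (c.pos x).le (c.nn x y))

variable {c} in
/-- LSI implies the modified LSI -/
theorem LSI.mlsi {C : ℝ} (h : c.LSI C) (hC : 0 ≤ C) {u : Ω → ℝ} (hu : ∀ x, 0 < u x) :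
    4 * ent c.π u ≤ C * c.D (fun x => Real.log (u x)) u := by
  have h1 := h.ent_le fun x => (hu x).le
  have h2 := mul_le_mul_of_nonneg_left (c.four_D_sqrt_le hu) hC
  linarith

variable {c} in
theorem LSI.ent_P_le {C : ℝ} (h : c.LSI C) (hp : c.PSD) (hC : 0 < C) {f : Ω → ℝ}
    (hf : ∀ x, 0 ≤ f x) : ent c.π (c.P *ᵥ f) ≤ Real.exp (-(1 / C)) * ent c.π f := by
  have h1 := h.ent_le hf
  have h2 := hp.D_sqrt_le hf
  have h3 : ent c.π f / C ≤ ent c.π f - ent c.π (c.P *ᵥ f) := by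
    rw [div_le_iff₀ hC]
    nlinarith [mul_le_mul_of_nonneg_left h2 hC.le]
  have h4 := Real.add_one_le_exp (-(1 / C))
  have h5 := mul_le_mul_of_nonneg_right h4 (c.isP.ent_nonneg hf)
  have e : (-(1 / C) + 1) * ent c.π f = ent c.π f - ent c.π f / C := by ring
  linarith

variable [DecidableEq Ω]

variable {c} in
/-- discrete-time entropy decay -/
theorem LSI.ent_pow_le {C : ℝ} (h : c.LSI C) (hp : c.PSD) (hC : 0 < C) {f : Ω → ℝ}
    (hf : ∀ x, 0 ≤ f x) (k : ℕ) :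
    ent c.π ((c.P ^ k) *ᵥ f) ≤ Real.exp (-(k / C)) * ent c.π f := by
  induction k with
  | zero => simp
  | succ k ih =>
    rw [pow_succ', ← mulVec_mulVec]
    refine (h.ent_P_le hp hC ((c.pow k).P_nonneg hf)).trans ?_
    refine (mul_le_mul_of_nonneg_left ih (Real.exp_pos _).le).trans (le_of_eq ?_)
    rw [← mul_assoc, ← Real.exp_add]
    congr 2
    push_cast; ring

theorem H_pos {t : ℝ} (ht : 0 ≤ t) {f : Ω → ℝ} (hf : ∀ x, 0 < f x) (x : Ω) :
    0 < (c.H t *ᵥ f) x := by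
  have := c.nonempty
  obtain ⟨y, hy⟩ := Finite.exists_min f
  exact (hf y).trans_le ((c.heat t ht).P_ge hy x)

theorem H_nonneg {t : ℝ} (ht : 0 ≤ t) {f : Ω → ℝ} (hf : ∀ x, 0 ≤ f x) (x : Ω) :
    0 ≤ (c.H t *ᵥ f) x := (c.heat t ht).P_nonneg hf x

/-- de Bruijn identity -/
theorem hasDerivAt_ent_H {f : Ω → ℝ} {t : ℝ} (hf : ∀ x, 0 < (c.H t *ᵥ f) x) :
    HasDerivAt (fun s => ent c.π (c.H s *ᵥ f))
      (-c.D (fun x => Real.log ((c.H t *ᵥ f) x)) (c.H t *ᵥ f)) t := by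
  have h := (HasDerivAt.fun_sum (u := univ) fun x _ =>
    (((Real.hasDerivAt_mul_log (hf x).ne').comp t
      (c.hasDerivAt_H_mulVec f x t)).const_mul (c.π x))).sub_const
      (mean c.π f * Real.log (mean c.π f))
  have e0 : (fun s => ent c.π (c.H s *ᵥ f)) = fun s =>
      ∑ x, c.π x * ((fun u => u * Real.log u) ∘ fun s => (c.H s *ᵥ f) x) s -
        mean c.π f * Real.log (mean c.π f) := by
    funext s; simp only [ent, mean_H, Function.comp]
  rw [e0]
  refine h.congr_deriv ?_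
  have e1 : ∑ x, c.π x * ((c.P *ᵥ (c.H t *ᵥ f)) x - (c.H t *ᵥ f) x) = 0 := by
    have := c.mean_P (c.H t *ᵥ f)
    simp only [mul_sub, sum_sub_distrib]
    simp only [mean] at this
    linarith
  rw [D, ip, ← sum_neg_distrib, ← add_zero (∑ x, - _), ← e1, ← sum_add_distrib]
  exact sum_congr rfl fun x _ => by simp only [Pi.sub_apply]; ring

variable {c} in
/-- continuous-time entropy decay from a modified log-Sobolev inequality -/
theorem ent_H_le_of_mlsi {ρ : ℝ}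
    (h : ∀ u : Ω → ℝ, (∀ x, 0 < u x) → ρ * ent c.π u ≤ c.D (fun x => Real.log (u x)) u)
    {f : Ω → ℝ} (hf : ∀ x, 0 ≤ f x) {t : ℝ} (ht : 0 ≤ t) :
    ent c.π (c.H t *ᵥ f) ≤ Real.exp (-(ρ * t)) * ent c.π f := by
  have pos : ∀ f : Ω → ℝ, (∀ x, 0 < f x) →
      ent c.π (c.H t *ᵥ f) ≤ Real.exp (-(ρ * t)) * ent c.π f := by
    intro f hf
    have hd : ∀ s, 0 ≤ s → HasDerivAt (fun s => Real.exp (ρ * s) * ent c.π (c.H s *ᵥ f))
        (Real.exp (ρ * s) * ρ * ent c.π (c.H s *ᵥ f) + Real.exp (ρ * s) *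
          (-c.D (fun x => Real.log ((c.H s *ᵥ f) x)) (c.H s *ᵥ f))) s := fun s hs => by
      have h1 : HasDerivAt (fun s => Real.exp (ρ * s)) (Real.exp (ρ * s) * ρ) s := by
        simpa using ((hasDerivAt_id s).const_mul ρ).exp
      exact h1.mul (c.hasDerivAt_ent_H (c.H_pos hs hf))
    have anti : AntitoneOn (fun s => Real.exp (ρ * s) * ent c.π (c.H s *ᵥ f)) (Set.Ici 0) := by
      refine antitoneOn_of_deriv_nonpos (convex_Ici 0)
        (fun s hs => (hd s hs).continuousAt.continuousWithinAt)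
        (fun s hs => (hd s (interior_subset hs)).differentiableAt.differentiableWithinAt)
        fun s hs => ?_
      have hs0 : 0 ≤ s := interior_subset hs
      rw [(hd s hs0).deriv]
      have := h _ (c.H_pos hs0 hf)
      nlinarith [mul_le_mul_of_nonneg_left this (Real.exp_pos (ρ * s)).le]
    have h2 := anti (Set.mem_Ici.2 le_rfl) (Set.mem_Ici.2 ht) ht
    simp only [mul_zero, Real.exp_zero, one_mul, H_zero, one_mulVec] at h2
    have h3 := mul_le_mul_of_nonneg_left h2 (Real.exp_pos (-(ρ * t))).le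
    rwa [← mul_assoc, ← Real.exp_add, neg_add_cancel, Real.exp_zero, one_mul] at h3
  have c1 : Continuous fun ε : ℝ => ent c.π (c.H t *ᵥ fun x => f x + ε) :=
    continuous_ent_comp _ fun x => by
      simp only [mulVec, dotProduct]; fun_prop
  have c2 : Continuous fun ε : ℝ => Real.exp (-(ρ * t)) * ent c.π fun x => f x + ε :=
    continuous_const.mul (continuous_ent_comp _ fun x => by fun_prop)
  have l1 := (c1.tendsto 0).mono_left (nhdsWithin_le_nhds (s := Set.Ioi 0))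
  have l2 := (c2.tendsto 0).mono_left (nhdsWithin_le_nhds (s := Set.Ioi 0))
  simp only [add_zero] at l1 l2
  refine le_of_tendsto_of_tendsto l1 l2 ?_
  filter_upwards [self_mem_nhdsWithin] with ε hε
  exact pos _ fun x => add_pos_of_nonneg_of_pos (hf x) hε

variable {c} in
/-- continuous-time entropy decay -/
theorem LSI.ent_H_le {C : ℝ} (h : c.LSI C) (hC : 0 < C) {f : Ω → ℝ} (hf : ∀ x, 0 ≤ f x) {t : ℝ}
    (ht : 0 ≤ t) : ent c.π (c.H t *ᵥ f) ≤ Real.exp (-(4 / C * t)) * ent c.π f :=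
  ent_H_le_of_mlsi (fun u hu => by
    have := h.mlsi hC.le hu
    rw [div_mul_eq_mul_div, div_le_iff₀ hC]; linarith) hf ht

theorem ent_H_le_self {f : Ω → ℝ} (hf : ∀ x, 0 ≤ f x) {t : ℝ} (ht : 0 ≤ t) :
    ent c.π (c.H t *ᵥ f) ≤ ent c.π f := (c.heat t ht).ent_P_le hf

/-- smoothing: `D(H_t f, H_t f) ≤ |f|² / (2 t)` -/
theorem D_H_le (f : Ω → ℝ) {t : ℝ} (ht : 0 < t) :
    c.D (c.H t *ᵥ f) (c.H t *ᵥ f) ≤ ip c.π f f / (2 * t) := by
  rw [D_H_spec, c.parseval f f, sum_div]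
  refine sum_le_sum fun j _ => ?_
  rw [div_eq_inv_mul]
  refine mul_le_mul_of_nonneg_right ?_ (mul_self_nonneg _)
  have h1 := Real.add_one_le_exp ((t + t) * (1 - c.ev j))
  have h2 : 0 ≤ 1 - c.ev j := by linarith [c.ev_le_one j]
  rw [Real.exp_neg, ← div_eq_mul_inv, inv_eq_one_div, div_le_div_iff₀ (Real.exp_pos _) (by positivity)]
  nlinarith

variable {c} in
/-- variance decay -/
theorem Poinc.var_H_le {C : ℝ} (h : c.Poinc C) (hC : 0 < C) (f : Ω → ℝ) {t : ℝ} (ht : 0 ≤ t) :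
    var c.π (c.H t *ᵥ f) ≤ Real.exp (-(2 / C * t)) * var c.π f := by
  have hv : ∀ s, HasDerivAt (fun s => var c.π (c.H s *ᵥ f))
      (-(2 * c.D (c.H s *ᵥ f) (c.H s *ᵥ f))) s := fun s => by
    have e0 : (fun s => var c.π (c.H s *ᵥ f)) =
        fun s => ip c.π f (c.H (2 * s) *ᵥ f) - mean c.π f ^ 2 := by
      funext s
      rw [c.isP.var_eq, mean_H, two_mul, H_add, ← mulVec_mulVec, c.ip_H_symm s f]
    rw [e0]
    have h1 := ((c.hasDerivAt_ip_H f f (2 * s)).comp s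
      ((hasDerivAt_id s).const_mul 2)).sub_const (mean c.π f ^ 2)
    refine HasDerivAt.congr_deriv h1 ?_
    have e1 := c.D_H_spec 0 (2 * s) f f
    rw [H_zero, one_mulVec, zero_add] at e1
    rw [e1, D_H_spec, two_mul s]; ring
  have hd : ∀ s, HasDerivAt (fun s => Real.exp (2 / C * s) * var c.π (c.H s *ᵥ f))
      (Real.exp (2 / C * s) * (2 / C) * var c.π (c.H s *ᵥ f) + Real.exp (2 / C * s) *
        (-(2 * c.D (c.H s *ᵥ f) (c.H s *ᵥ f)))) s := fun s => by
    have h1 : HasDerivAt (fun s => Real.exp (2 / C * s)) (Real.exp (2 / C * s) * (2 / C)) s := by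
      simpa using ((hasDerivAt_id s).const_mul (2 / C)).exp
    exact h1.mul (hv s)
  have anti : Antitone (fun s => Real.exp (2 / C * s) * var c.π (c.H s *ᵥ f)) := by
    refine antitone_of_deriv_nonpos (fun s => (hd s).differentiableAt) fun s => ?_
    rw [(hd s).deriv]
    have h1 := h (c.H s *ᵥ f)
    have h2 : 2 / C * var c.π (c.H s *ᵥ f) ≤ 2 * c.D (c.H s *ᵥ f) (c.H s *ᵥ f) := by
      rw [div_mul_eq_mul_div, div_le_iff₀ hC]; linarith
    nlinarith [mul_le_mul_of_nonneg_left h2 (Real.exp_pos (2 / C * s)).le]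
  have h2 := anti ht
  simp only [mul_zero, Real.exp_zero, one_mul, H_zero, one_mulVec] at h2
  have h3 := mul_le_mul_of_nonneg_left h2 (Real.exp_pos (-(2 / C * t))).le
  rwa [← mul_assoc, ← Real.exp_add, neg_add_cancel, Real.exp_zero, one_mul] at h3

/-! ### Mixing: upper bounds -/

variable {c} in
theorem LSI.tv_H_sq_le {C : ℝ} (h : c.LSI C) (hC : 0 < C) (x : Ω) {t : ℝ} (ht : 0 ≤ t) :
    tv (c.H t x) c.π ^ 2 ≤ Real.exp (-(4 / C * t)) * Real.log (1 / c.π x) := by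
  have h1 := (c.heat t ht).tv_row_sq_le_ent x
  have h2 := h.ent_H_le hC (c.del_nonneg x) ht
  rw [ent_del] at h2
  exact h1.trans h2

variable {c} in
theorem LSI.tv_pow_sq_le {C : ℝ} (h : c.LSI C) (hp : c.PSD) (hC : 0 < C) (x : Ω) (k : ℕ) :
    tv ((c.P ^ k) x) c.π ^ 2 ≤ Real.exp (-(k / C)) * Real.log (1 / c.π x) := by
  have h1 := (c.pow k).tv_row_sq_le_ent x
  have h2 := h.ent_pow_le hp hC (c.del_nonneg x) k
  rw [ent_del] at h2
  exact h1.trans h2

variable {c} in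
theorem Poinc.tv_H_sq_le {C : ℝ} (h : c.Poinc C) (hC : 0 < C) (x : Ω) {t : ℝ} (ht : 0 ≤ t) :
    (2 * tv (c.H t x) c.π) ^ 2 ≤ Real.exp (-(2 / C * t)) * (1 / c.π x - 1) := by
  have h1 := (c.heat t ht).tv_row_sq_le_var x
  have h2 := h.var_H_le hC (c.del x) ht
  rw [var_del] at h2
  exact h1.trans h2

/-! ### Mixing: lower bounds -/

omit [DecidableEq Ω] in
/-- a centred eigenfunction gives a lower bound for the worst-start distance -/
theorem exists_tv_ge_of_eigen {ψ : Ω → ℝ} {a : ℝ} (h0 : ψ ≠ 0) (hm : mean c.π ψ = 0)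
    (h : c.P *ᵥ ψ = a • ψ) : ∃ x, |a| / 2 ≤ tv (c.P x) c.π := by
  have := c.nonempty
  obtain ⟨x, hx⟩ := Finite.exists_max fun y => |ψ y|
  have hM : 0 < |ψ x| := by
    by_contra hn
    apply h0
    funext y
    have := hx y
    exact abs_eq_zero.1 (le_antisymm (this.trans (not_lt.1 hn)) (abs_nonneg _))
  refine ⟨x, ?_⟩
  have h1 := abs_mean_sub_le_tv (c.P x) c.π hx
  rw [hm, sub_zero, ← mulVec_eq, h, Pi.smul_apply, smul_eq_mul, abs_mul] at h1
  rw [div_le_iff₀ (by norm_num : (0 : ℝ) < 2)]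
  nlinarith

/-- a test function with small Rayleigh quotient gives a centred eigenfunction with a small gap -/
theorem exists_eigen_of_test {K : ℝ} {f : Ω → ℝ} (h0 : 0 < var c.π f)
    (h : K * c.D f f ≤ var c.π f) :
    ∃ (j : Ω) (ψ : Ω → ℝ), ψ ≠ 0 ∧ mean c.π ψ = 0 ∧ K * (1 - c.ev j) ≤ 1 ∧
      ∀ (Q : Matrix Ω Ω ℝ) (a : ℝ → ℝ), (∀ i, Q *ᵥ c.φ i = a (c.ev i) • c.φ i) →
        Q *ᵥ (fun _ => 1) = a 1 • (fun _ => (1 : ℝ)) → Q *ᵥ ψ = a (c.ev j) • ψ := by
  set g : Ω → ℝ := f - fun _ => mean c.π f with hg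
  have hv : var c.π f = ∑ j, ip c.π g (c.φ j) * ip c.π g (c.φ j) := by
    rw [var_eq_ip, ← hg, c.parseval g g]
  have hD : c.D f f = ∑ j, (1 - c.ev j) * (ip c.π g (c.φ j) * ip c.π g (c.φ j)) := by
    rw [← D_spec, ← c.D_add_const f (-mean c.π f)]
    rfl
  have hex : ∃ j, ip c.π g (c.φ j) ≠ 0 ∧ K * (1 - c.ev j) ≤ 1 := by
    by_contra hn
    push Not at hn
    obtain ⟨j0, hj0⟩ : ∃ j, ip c.π g (c.φ j) ≠ 0 := by
      by_contra hn'
      push Not at hn'
      simp [hv, hn'] at h0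
    have : ∑ j, ip c.π g (c.φ j) * ip c.π g (c.φ j) <
        ∑ j, K * ((1 - c.ev j) * (ip c.π g (c.φ j) * ip c.π g (c.φ j))) := by
      refine sum_lt_sum (fun j _ => ?_) ⟨j0, mem_univ _, ?_⟩
      · by_cases hj : ip c.π g (c.φ j) = 0
        · simp [hj]
        · nlinarith [hn j hj, mul_self_nonneg (ip c.π g (c.φ j))]
      · nlinarith [hn j0 hj0, mul_self_pos.2 hj0]
    rw [← mul_sum, ← hD, ← hv] at this
    linarith
  obtain ⟨j, hj, hj'⟩ := hex
  have hgm : mean c.π g = 0 := by rw [hg, mean_sub, c.isP.mean_const, sub_self]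
  refine ⟨j, c.φ j - (mean c.π (c.φ j)) • fun _ => (1 : ℝ), ?_, ?_, hj', ?_⟩
  · intro hz
    apply hj
    have : c.φ j = (mean c.π (c.φ j)) • fun _ => (1 : ℝ) := sub_eq_zero.1 hz
    rw [this, ip_smul_right, ip_one, hgm, mul_zero]
  · rw [mean_sub, mean_smul, c.isP.mean_const, mul_one, sub_self]
  · intro Q a hQ hQ1
    by_cases h1 : c.ev j = 1
    · rw [mulVec_sub, mulVec_smul, hQ, hQ1, h1, smul_sub, smul_comm]
    · rw [c.mean_φ h1, zero_smul, sub_zero, hQ]

/-- continuous time: `d(t) ≥ exp (-t / K) / 2` if the relaxation time is at least `K` -/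
theorem exists_tv_H_ge {K : ℝ} (hK : 0 < K) {f : Ω → ℝ} (h0 : 0 < var c.π f)
    (h : K * c.D f f ≤ var c.π f) {t : ℝ} (ht : 0 ≤ t) :
    ∃ x, Real.exp (-(t / K)) / 2 ≤ tv (c.H t x) c.π := by
  obtain ⟨j, ψ, h1, h2, h3, h4⟩ := c.exists_eigen_of_test h0 h
  have h5 := h4 (c.H t) (fun a => Real.exp (-(t * (1 - a)))) (c.H_φ t) (by rw [H_const]; simp)
  obtain ⟨x, hx⟩ := (c.heat t ht).exists_tv_ge_of_eigen h1 h2 h5
  refine ⟨x, le_trans ?_ hx⟩
  rw [abs_of_pos (Real.exp_pos _)]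
  gcongr
  rw [le_div_iff₀ hK]
  nlinarith [mul_le_mul_of_nonneg_left h3 ht]

/-- discrete time: `d(k) ≥ (1 - k / K) / 2` if the relaxation time is at least `K ≥ 1` -/
theorem exists_tv_pow_ge {K : ℝ} (hK : 1 ≤ K) {f : Ω → ℝ} (h0 : 0 < var c.π f)
    (h : K * c.D f f ≤ var c.π f) (k : ℕ) :
    ∃ x, (1 - k / K) / 2 ≤ tv ((c.P ^ k) x) c.π := by
  have hK0 : 0 < K := by linarith
  obtain ⟨j, ψ, h1, h2, h3, h4⟩ := c.exists_eigen_of_test h0 h
  have h5 := h4 (c.P ^ k) (fun a => a ^ k) (c.pow_φ k) (by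
    have := (c.pow k).P_const 1
    rw [pow_P] at this
    rw [this]; simp)
  obtain ⟨x, hx⟩ := (c.pow k).exists_tv_ge_of_eigen h1 h2 h5
  refine ⟨x, le_trans ?_ hx⟩
  have h6 : 1 - c.ev j ≤ 1 / K := by rw [le_div_iff₀ hK0]; linarith
  have h7 : 1 / K ≤ 1 := by rw [div_le_one hK0]; exact hK
  have h8 := one_add_mul_le_pow (a := c.ev j - 1) (by linarith) k
  rw [add_sub_cancel] at h8
  have h9 : (k : ℝ) * (1 - c.ev j) ≤ k / K := by
    rw [div_eq_mul_one_div]; exact mul_le_mul_of_nonneg_left h6 (Nat.cast_nonneg k)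
  have h10 := le_abs_self (c.ev j ^ k)
  linarith

end RC

end Crest.Agent.T157.Chain22
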