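import Crest.Agent.T157.Chain_22

/-!
Row 157, part E (helper22): spectral decomposition of a finite reversible chain and its heat
semigroup `c.H t = ∑ₖ e^{-t} tᵏ/k! Pᵏ`.
-/

set_option autoImplicit false

namespace Crest.Agent.T157.Chain22

open Finset Matrix

variable {Ω : Type*} [Fintype Ω] [DecidableEq Ω]

namespace RC

variable (c : RC Ω)

/-- symmetrised kernel -/
noncomputable def S : Matrix Ω Ω ℝ :=
  fun x y => Real.sqrt (c.π x) * c.P x y / Real.sqrt (c.π y)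

omit [DecidableEq Ω] in
theorem sqrt_pos (x : Ω) : 0 < Real.sqrt (c.π x) := Real.sqrt_pos.2 (c.pos x)

omit [DecidableEq Ω] in
theorem sqrt_sq' (x : Ω) : Real.sqrt (c.π x) * Real.sqrt (c.π x) = c.π x :=
  Real.mul_self_sqrt (c.pos x).le

omit [DecidableEq Ω] in
theorem S_herm : c.S.IsHermitian := by
  ext x y
  simp only [conjTranspose_apply, star_trivial, S]
  have h1 := c.sqrt_pos x
  have h2 := c.sqrt_pos y
  rw [div_eq_div_iff h1.ne' h2.ne']
  calc _ = (Real.sqrt (c.π y) * Real.sqrt (c.π y)) * c.P y x := by ring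
    _ = (Real.sqrt (c.π x) * Real.sqrt (c.π x)) * c.P x y := by
        rw [sqrt_sq', sqrt_sq', c.rev]
    _ = _ := by ring

/-- eigenvalues of `P` -/
noncomputable def ev : Ω → ℝ := c.S_herm.eigenvalues

/-- eigenfunctions of `P`, an orthonormal basis of `L²(π)` -/
noncomputable def φ (j : Ω) : Ω → ℝ :=
  fun x => c.S_herm.eigenvectorBasis j x / Real.sqrt (c.π x)

theorem P_φ (j : Ω) : c.P *ᵥ c.φ j = c.ev j • c.φ j := by
  funext x
  have h := congrFun (c.S_herm.mulVec_eigenvectorBasis j) x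
  simp only [mulVec, dotProduct, S, Pi.smul_apply, smul_eq_mul] at h
  simp only [mulVec, dotProduct, φ, Pi.smul_apply, smul_eq_mul, ev]
  have hx := c.sqrt_pos x
  rw [← mul_div_assoc, ← h, sum_div]
  refine sum_congr rfl fun y _ => ?_
  have hy := c.sqrt_pos y
  field_simp

theorem ip_φ_φ (j k : Ω) : ip c.π (c.φ j) (c.φ k) = if j = k then 1 else 0 := by
  have h := orthonormal_iff_ite.1 c.S_herm.eigenvectorBasis.orthonormal j k
  rw [← h, PiLp.inner_apply]
  refine sum_congr rfl fun x _ => ?_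
  simp only [φ, RCLike.inner_apply, conj_trivial]
  have hx := c.sqrt_pos x
  have h2 := c.sqrt_sq' x
  field_simp
  rw [sq, h2]; ring

theorem sum_φ_φ (x y : Ω) : ∑ j, c.φ j x * c.φ j y * c.π y = if x = y then 1 else 0 := by
  have hU := c.S_herm.eigenvectorUnitary.2.2
  have h := congrFun (congrFun hU x) y
  rw [mul_apply, one_apply] at h
  simp only [star_apply, star_trivial, IsHermitian.eigenvectorUnitary_apply] at h
  have hx := c.sqrt_pos x
  have hy := c.sqrt_pos y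
  have e : ∑ j, c.φ j x * c.φ j y * c.π y =
      (∑ j, c.S_herm.eigenvectorBasis j x * c.S_herm.eigenvectorBasis j y) *
        (Real.sqrt (c.π y) / Real.sqrt (c.π x)) := by
    rw [sum_mul]
    refine sum_congr rfl fun j _ => ?_
    simp only [φ]
    have h2 := c.sqrt_sq' y
    field_simp
    rw [sq, h2]
  rw [e, h]
  split_ifs with hxy
  · subst hxy; field_simp
  · simp

/-- expansion in the eigenbasis -/
theorem expand (f : Ω → ℝ) : f = ∑ j, ip c.π f (c.φ j) • c.φ j := by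
  funext x
  simp only [Finset.sum_apply, Pi.smul_apply, smul_eq_mul, ip, sum_mul]
  rw [sum_comm]
  have : ∀ y, ∑ j, c.π y * (f y * c.φ j y) * c.φ j x = f y * if x = y then 1 else 0 := fun y => by
    rw [← c.sum_φ_φ x y, mul_sum]
    exact sum_congr rfl fun j _ => by ring
  simp only [this, mul_ite, mul_one, mul_zero, sum_ite_eq, mem_univ, if_true]

/-- Parseval -/
theorem parseval (f g : Ω → ℝ) : ip c.π f g = ∑ j, ip c.π f (c.φ j) * ip c.π g (c.φ j) := by
  conv_lhs => rw [c.expand g, ip_sum_right]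
  exact sum_congr rfl fun j _ => by rw [ip_smul_right, mul_comm]

theorem ip_P_φ (f : Ω → ℝ) (j : Ω) : ip c.π (c.P *ᵥ f) (c.φ j) = c.ev j * ip c.π f (c.φ j) := by
  rw [← ip_P_symm, P_φ, ip_smul_right]

theorem D_φ_φ (j : Ω) : c.D (c.φ j) (c.φ j) = 1 - c.ev j := by
  rw [D, ip_sub_right, P_φ, ip_smul_right, ip_φ_φ]; simp

theorem ev_le_one (j : Ω) : c.ev j ≤ 1 := by
  have := c.D_nonneg (c.φ j)
  rw [D_φ_φ] at this; linarith

theorem neg_one_le_ev (j : Ω) : -1 ≤ c.ev j := by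
  have := c.D_le_two (c.φ j)
  rw [D_φ_φ, ip_φ_φ] at this
  simp at this; linarith

variable {c} in
theorem PSD.ev_nonneg (h : c.PSD) (j : Ω) : 0 ≤ c.ev j := by
  have := h (c.φ j)
  rw [P_φ, ip_smul_right, ip_φ_φ] at this
  simpa using this

theorem D_spec (f g : Ω → ℝ) :
    c.D f g = ∑ j, (1 - c.ev j) * (ip c.π f (c.φ j) * ip c.π g (c.φ j)) := by
  rw [D, parseval]
  refine sum_congr rfl fun j _ => ?_
  rw [ip_sub_left, ip_P_φ]; ring

theorem mean_φ {j : Ω} (h : c.ev j ≠ 1) : mean c.π (c.φ j) = 0 := by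
  have h1 := c.mean_P (c.φ j)
  rw [P_φ, mean_smul] at h1
  have : (c.ev j - 1) * mean c.π (c.φ j) = 0 := by linarith
  exact (mul_eq_zero.1 this).resolve_left (sub_ne_zero.2 h)

theorem pow_φ (k : ℕ) (j : Ω) : (c.P ^ k) *ᵥ c.φ j = c.ev j ^ k • c.φ j := by
  induction k with
  | zero => simp
  | succ k ih => rw [pow_succ, ← mulVec_mulVec, P_φ, mulVec_smul, ih, smul_smul, pow_succ']

/-- a kernel is determined by its action on the eigenbasis -/
theorem kernel_spec {K : Matrix Ω Ω ℝ} {a : Ω → ℝ} (h : ∀ j, K *ᵥ c.φ j = a j • c.φ j) (x y : Ω) :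
    K x y = ∑ j, a j * (c.φ j x * c.φ j y * c.π y) := by
  have : K x y = ∑ z, K x z * if z = y then 1 else 0 := by simp
  rw [this]
  simp only [← c.sum_φ_φ, mul_sum]
  rw [sum_comm]
  refine sum_congr rfl fun j _ => ?_
  have h1 := congrFun (h j) x
  simp only [mulVec, dotProduct, Pi.smul_apply, smul_eq_mul] at h1
  calc ∑ z, K x z * (c.φ j z * c.φ j y * c.π y) = (∑ z, K x z * c.φ j z) * (c.φ j y * c.π y) := by
        rw [sum_mul]; exact sum_congr rfl fun z _ => by ring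
    _ = _ := by rw [h1]; ring

theorem mulVec_φ_of_spec {K : Matrix Ω Ω ℝ} {a : Ω → ℝ}
    (h : ∀ x y, K x y = ∑ j, a j * (c.φ j x * c.φ j y * c.π y)) (k : Ω) :
    K *ᵥ c.φ k = a k • c.φ k := by
  funext x
  simp only [mulVec, dotProduct, h, sum_mul, Pi.smul_apply, smul_eq_mul]
  rw [sum_comm]
  have : ∀ j, ∑ y, a j * (c.φ j x * c.φ j y * c.π y) * c.φ k y =
      a j * c.φ j x * ip c.π (c.φ j) (c.φ k) := fun j => by
    rw [ip, mul_sum]; exact sum_congr rfl fun y _ => by ring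
  simp only [this, ip_φ_φ, mul_ite, mul_one, mul_zero, sum_ite_eq', mem_univ, if_true]

theorem pow_spec (k : ℕ) (x y : Ω) :
    (c.P ^ k) x y = ∑ j, c.ev j ^ k * (c.φ j x * c.φ j y * c.π y) :=
  c.kernel_spec (c.pow_φ k) x y

/-- spectral form of `⟨f, K g⟩` -/
theorem ip_mulVec_spec {K : Matrix Ω Ω ℝ} {a : Ω → ℝ} (h : ∀ j, K *ᵥ c.φ j = a j • c.φ j)
    (f g : Ω → ℝ) : ip c.π f (K *ᵥ g) = ∑ j, a j * (ip c.π f (c.φ j) * ip c.π g (c.φ j)) := by
  conv_lhs => rw [c.expand g, mulVec_sum, ip_sum_right]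
  refine sum_congr rfl fun j _ => ?_
  rw [mulVec_smul, h, ip_smul_right, ip_smul_right]; ring

theorem ip_pow_spec (k : ℕ) (f g : Ω → ℝ) :
    ip c.π f ((c.P ^ k) *ᵥ g) = ∑ j, c.ev j ^ k * (ip c.π f (c.φ j) * ip c.π g (c.φ j)) :=
  c.ip_mulVec_spec (c.pow_φ k) f g

variable {c} in
theorem PSD.pow (h : c.PSD) (k : ℕ) : (c.pow k).PSD := fun f => by
  rw [pow_π, pow_P, ip_pow_spec]
  exact sum_nonneg fun j _ => mul_nonneg (pow_nonneg (h.ev_nonneg j) k) (mul_self_nonneg _)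

/-! ### The heat semigroup -/

/-- Poisson weights -/
noncomputable def _root_.Crest.Agent.T157.Chain22.poi (t : ℝ) (k : ℕ) : ℝ :=
  Real.exp (-t) * t ^ k / (Nat.factorial k : ℝ)

theorem _root_.Crest.Agent.T157.Chain22.hasSum_poi_pow (t a : ℝ) :
    HasSum (fun k => poi t k * a ^ k) (Real.exp (-(t * (1 - a)))) := by
  have h := (NormedSpace.expSeries_div_hasSum_exp (t * a)).mul_left (Real.exp (-t))
  rw [← Real.exp_eq_exp_ℝ, ← Real.exp_add] at h
  have e1 : (fun k => poi t k * a ^ k) = fun i => Real.exp (-t) * ((t * a) ^ i / ↑i.factorial) := by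
    funext k; rw [poi, mul_pow]; ring
  have e2 : -(t * (1 - a)) = -t + t * a := by ring
  rw [e1, e2]; exact h

theorem _root_.Crest.Agent.T157.Chain22.hasSum_poi (t : ℝ) : HasSum (poi t) 1 := by
  simpa using hasSum_poi_pow t 1

theorem _root_.Crest.Agent.T157.Chain22.poi_nonneg {t : ℝ} (ht : 0 ≤ t) (k : ℕ) : 0 ≤ poi t k := by
  unfold poi; positivity

/-- the continuous-time kernel (total jump rate one) -/
noncomputable def H (t : ℝ) : Matrix Ω Ω ℝ := fun x y => ∑' k : ℕ, poi t k * (c.P ^ k) x y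

theorem hasSum_H_spec (t : ℝ) (x y : Ω) :
    HasSum (fun k => poi t k * (c.P ^ k) x y)
      (∑ j, Real.exp (-(t * (1 - c.ev j))) * (c.φ j x * c.φ j y * c.π y)) := by
  have h := hasSum_sum (s := univ) fun j _ =>
    (hasSum_poi_pow t (c.ev j)).mul_right (c.φ j x * c.φ j y * c.π y)
  have e : (fun k => poi t k * (c.P ^ k) x y) =
      fun b => ∑ i, poi t b * c.ev i ^ b * (c.φ i x * c.φ i y * c.π y) := by
    funext k
    rw [pow_spec, mul_sum]
    exact sum_congr rfl fun j _ => by ring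
  rw [e]; exact h

theorem H_spec (t : ℝ) (x y : Ω) :
    c.H t x y = ∑ j, Real.exp (-(t * (1 - c.ev j))) * (c.φ j x * c.φ j y * c.π y) :=
  (c.hasSum_H_spec t x y).tsum_eq

theorem hasSum_H (t : ℝ) (x y : Ω) : HasSum (fun k => poi t k * (c.P ^ k) x y) (c.H t x y) :=
  (c.hasSum_H_spec t x y).summable.hasSum

theorem hasSum_H_mulVec (t : ℝ) (f : Ω → ℝ) (x : Ω) :
    HasSum (fun k => poi t k * ((c.P ^ k) *ᵥ f) x) ((c.H t *ᵥ f) x) := by
  have h := hasSum_sum (s := univ) fun y _ => (c.hasSum_H t x y).mul_right (f y)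
  have e : (fun k => poi t k * ((c.P ^ k) *ᵥ f) x) =
      fun b => ∑ i, poi t b * (c.P ^ b) x i * f i := by
    funext k
    simp only [mulVec, dotProduct, mul_sum]
    exact sum_congr rfl fun y _ => by ring
  rw [e]; exact h

theorem H_φ (t : ℝ) (j : Ω) : c.H t *ᵥ c.φ j = Real.exp (-(t * (1 - c.ev j))) • c.φ j :=
  c.mulVec_φ_of_spec (c.H_spec t) j

theorem ip_H_spec (t : ℝ) (f g : Ω → ℝ) :
    ip c.π f (c.H t *ᵥ g) =
      ∑ j, Real.exp (-(t * (1 - c.ev j))) * (ip c.π f (c.φ j) * ip c.π g (c.φ j)) :=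
  c.ip_mulVec_spec (c.H_φ t) f g

theorem H_mulVec_spec (t : ℝ) (f : Ω → ℝ) (x : Ω) :
    (c.H t *ᵥ f) x = ∑ j, Real.exp (-(t * (1 - c.ev j))) * (ip c.π f (c.φ j) * c.φ j x) := by
  conv_lhs => rw [c.expand f, mulVec_sum]
  simp only [Finset.sum_apply, mulVec_smul, H_φ, Pi.smul_apply, smul_eq_mul]
  exact sum_congr rfl fun j _ => by ring

theorem H_zero : c.H 0 = 1 := by
  ext x y
  rw [H_spec, one_apply, ← c.sum_φ_φ]
  simp

theorem H_add (s t : ℝ) : c.H (s + t) = c.H s * c.H t := by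
  ext x y
  rw [H_spec, c.kernel_spec (K := c.H s * c.H t)
    (a := fun j => Real.exp (-((s + t) * (1 - c.ev j)))) ?_ x y]
  intro j
  rw [← mulVec_mulVec, H_φ, mulVec_smul, H_φ, smul_smul, ← Real.exp_add]
  congr 2; ring

theorem H_nn {t : ℝ} (ht : 0 ≤ t) (x y : Ω) : 0 ≤ c.H t x y :=
  tsum_nonneg fun k => mul_nonneg (poi_nonneg ht k) (c.pow_nn k x y)

theorem H_row (t : ℝ) (x : Ω) : ∑ y, c.H t x y = 1 := by
  have h := hasSum_sum (s := univ) fun y _ => c.hasSum_H t x y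
  simp only [← mul_sum, pow_row, mul_one] at h
  exact h.unique (hasSum_poi t)

theorem H_rev (t : ℝ) (x y : Ω) : c.π x * c.H t x y = c.π y * c.H t y x := by
  rw [H_spec, H_spec, mul_sum, mul_sum]
  exact sum_congr rfl fun j _ => by ring

/-- the chain with kernel `H t` -/
noncomputable def heat (t : ℝ) (ht : 0 ≤ t) : RC Ω where
  π := c.π
  P := c.H t
  pos := c.pos
  sum1 := c.sum1
  nn := c.H_nn ht
  row := c.H_row t
  rev := c.H_rev t

@[simp] theorem heat_π (t : ℝ) (ht : 0 ≤ t) : (c.heat t ht).π = c.π := rfl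
@[simp] theorem heat_P (t : ℝ) (ht : 0 ≤ t) : (c.heat t ht).P = c.H t := rfl

theorem heat_psd (t : ℝ) (ht : 0 ≤ t) : (c.heat t ht).PSD := fun f => by
  rw [heat_π, heat_P, ip_H_spec]
  exact sum_nonneg fun j _ => mul_nonneg (Real.exp_pos _).le (mul_self_nonneg _)

theorem H_const (t a : ℝ) : c.H t *ᵥ (fun _ => a) = fun _ => a := by
  funext x
  simp only [mulVec, dotProduct, ← sum_mul, H_row, one_mul]

theorem ip_H_symm (t : ℝ) (f g : Ω → ℝ) : ip c.π f (c.H t *ᵥ g) = ip c.π (c.H t *ᵥ f) g := by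
  rw [ip_comm c.π (c.H t *ᵥ f), ip_H_spec, ip_H_spec]
  exact sum_congr rfl fun j _ => by ring

theorem mean_H (t : ℝ) (f : Ω → ℝ) : mean c.π (c.H t *ᵥ f) = mean c.π f := by
  rw [← ip_one, ← ip_H_symm, H_const, ip_one]

theorem ip_H_φ (t : ℝ) (f : Ω → ℝ) (j : Ω) :
    ip c.π (c.H t *ᵥ f) (c.φ j) = Real.exp (-(t * (1 - c.ev j))) * ip c.π f (c.φ j) := by
  rw [← ip_H_symm, H_φ, ip_smul_right]

theorem P_H_comm (t : ℝ) : c.P * c.H t = c.H t * c.P := by
  ext x y
  rw [c.kernel_spec (K := c.P * c.H t) (a := fun j => Real.exp (-(t * (1 - c.ev j))) * c.ev j) ?_,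
    c.kernel_spec (K := c.H t * c.P) (a := fun j => Real.exp (-(t * (1 - c.ev j))) * c.ev j) ?_]
  · intro j; rw [← mulVec_mulVec, P_φ, mulVec_smul, H_φ, smul_smul, mul_comm]
  · intro j; rw [← mulVec_mulVec, H_φ, mulVec_smul, P_φ, smul_smul]

theorem hasDerivAt_exp_ev (j : Ω) (t : ℝ) :
    HasDerivAt (fun s => Real.exp (-(s * (1 - c.ev j))))
      (-(1 - c.ev j) * Real.exp (-(t * (1 - c.ev j)))) t := by
  have := ((hasDerivAt_id t).mul_const (1 - c.ev j)).neg.exp
  simpa [mul_comm] using this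

/-- backward/forward equation: `∂ₜ H_t f = (P - 1) H_t f` -/
theorem hasDerivAt_H_mulVec (f : Ω → ℝ) (x : Ω) (t : ℝ) :
    HasDerivAt (fun s => (c.H s *ᵥ f) x) ((c.P *ᵥ (c.H t *ᵥ f)) x - (c.H t *ᵥ f) x) t := by
  have h := HasDerivAt.fun_sum (u := univ) fun j _ =>
    (c.hasDerivAt_exp_ev j t).mul_const (ip c.π f (c.φ j) * c.φ j x)
  have e0 : (fun s => (c.H s *ᵥ f) x) =
      fun s => ∑ j, Real.exp (-(s * (1 - c.ev j))) * (ip c.π f (c.φ j) * c.φ j x) :=
    funext fun s => c.H_mulVec_spec s f x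
  rw [e0]
  refine h.congr_deriv (Eq.symm ?_)
  have e : c.H t *ᵥ f = ∑ j, (Real.exp (-(t * (1 - c.ev j))) * ip c.π f (c.φ j)) • c.φ j := by
    funext y
    rw [H_mulVec_spec]
    simp only [Finset.sum_apply, Pi.smul_apply, smul_eq_mul]
    exact sum_congr rfl fun j _ => by ring
  rw [e, mulVec_sum]
  simp only [Finset.sum_apply, mulVec_smul, P_φ, Pi.smul_apply, smul_eq_mul, ← sum_sub_distrib]
  exact sum_congr rfl fun j _ => by ring

theorem continuous_H_mulVec (f : Ω → ℝ) (x : Ω) : Continuous fun s => (c.H s *ᵥ f) x :=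
  continuous_iff_continuousAt.2 fun t => (c.hasDerivAt_H_mulVec f x t).continuousAt

theorem hasDerivAt_H (x y : Ω) (t : ℝ) :
    HasDerivAt (fun s => c.H s x y) ((c.P * c.H t) x y - c.H t x y) t := by
  have h := c.hasDerivAt_H_mulVec (Pi.single y 1) x t
  rw [mulVec_mulVec] at h
  simpa using h

theorem continuous_H (x y : Ω) : Continuous fun s => c.H s x y :=
  continuous_iff_continuousAt.2 fun t => (c.hasDerivAt_H x y t).continuousAt

theorem hasDerivAt_ip_H (f g : Ω → ℝ) (t : ℝ) :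
    HasDerivAt (fun s => ip c.π f (c.H s *ᵥ g)) (-c.D f (c.H t *ᵥ g)) t := by
  have h := HasDerivAt.fun_sum (u := univ) fun x _ =>
    ((c.hasDerivAt_H_mulVec g x t).const_mul (f x)).const_mul (c.π x)
  refine HasDerivAt.congr_deriv h (Eq.symm ?_)
  rw [D, ip, ← sum_neg_distrib]
  exact sum_congr rfl fun x _ => by simp only [Pi.sub_apply]; ring

theorem D_H_spec (s t : ℝ) (f g : Ω → ℝ) :
    c.D (c.H s *ᵥ f) (c.H t *ᵥ g) = ∑ j, (1 - c.ev j) * Real.exp (-((s + t) * (1 - c.ev j))) *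
      (ip c.π f (c.φ j) * ip c.π g (c.φ j)) := by
  rw [D_spec]
  refine sum_congr rfl fun j _ => ?_
  rw [ip_H_φ, ip_H_φ, add_mul, neg_add, Real.exp_add]; ring

/-- `t ↦ ⟨f, H_t f⟩` is nonnegative -/
theorem ip_H_self_nonneg (t : ℝ) (f : Ω → ℝ) : 0 ≤ ip c.π f (c.H t *ᵥ f) := by
  rw [ip_H_spec]
  exact sum_nonneg fun j _ => mul_nonneg (Real.exp_pos _).le (mul_self_nonneg _)

/-- `t ↦ ⟨f, H_t f⟩` is nonincreasing -/
theorem ip_H_self_anti (f : Ω → ℝ) : Antitone fun t => ip c.π f (c.H t *ᵥ f) := by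
  intro s t hst
  simp only [ip_H_spec]
  refine sum_le_sum fun j _ => mul_le_mul_of_nonneg_right (Real.exp_le_exp.2 ?_) (mul_self_nonneg _)
  have := c.ev_le_one j
  nlinarith

/-- log-convexity lower bound (Jensen): `⟨f, H_t f⟩ ≥ |f|² exp (-t D(f,f)/|f|²)` -/
theorem ip_H_self_ge (f : Ω → ℝ) (t : ℝ) :
    ip c.π f f * Real.exp (-(t * (c.D f f / ip c.π f f))) ≤ ip c.π f (c.H t *ᵥ f) := by
  rcases eq_or_lt_of_le (c.isP.ip_self_nonneg f) with h0 | h0
  · rw [← h0, zero_mul]; exact c.ip_H_self_nonneg t f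
  set m := c.D f f / ip c.π f f with hm
  have key : ∀ j, Real.exp (-(t * m)) * (1 + (t * m - t * (1 - c.ev j))) ≤
      Real.exp (-(t * (1 - c.ev j))) := fun j => by
    have h1 := Real.add_one_le_exp (t * m - t * (1 - c.ev j))
    have h2 : Real.exp (-(t * (1 - c.ev j))) =
        Real.exp (-(t * m)) * Real.exp (t * m - t * (1 - c.ev j)) := by
      rw [← Real.exp_add]; congr 1; ring
    rw [h2]
    exact mul_le_mul_of_nonneg_left (by linarith) (Real.exp_pos _).le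
  rw [ip_H_spec]
  refine le_trans (le_of_eq ?_) (sum_le_sum fun j _ =>
    mul_le_mul_of_nonneg_right (key j) (mul_self_nonneg _))
  have e1 := c.parseval f f
  have e2 := c.D_spec f f
  have e3 : ∑ j, Real.exp (-(t * m)) * (1 + (t * m - t * (1 - c.ev j))) *
      (ip c.π f (c.φ j) * ip c.π f (c.φ j)) = Real.exp (-(t * m)) *
        ((1 + t * m) * ∑ j, ip c.π f (c.φ j) * ip c.π f (c.φ j) -
          t * ∑ j, (1 - c.ev j) * (ip c.π f (c.φ j) * ip c.π f (c.φ j))) := by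
    simp only [mul_sum, ← sum_sub_distrib]
    exact sum_congr rfl fun j _ => by ring
  rw [e3, ← e1, ← e2]
  have : c.D f f = m * ip c.π f f := by rw [hm]; field_simp
  rw [this]; ring

theorem tv_H_anti (x : Ω) {s t : ℝ} (hst : s ≤ t) :
    tv (c.H t x) c.π ≤ tv (c.H s x) c.π := by
  have h := (c.heat (t - s) (by linarith)).tv_vecMul_le (c.H s x) c.π
  have h2 := (c.heat (t - s) (by linarith)).vecMul_π
  rw [heat_P, heat_π] at h2
  rw [heat_P, h2] at h
  have : c.H t x = c.H s x ᵥ* c.H (t - s) := by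
    funext y
    have : t = s + (t - s) := by ring
    conv_lhs => rw [this, H_add, mul_apply]
    rfl
  rw [this]; exact h

end RC

end Crest.Agent.T157.Chain22
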