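import Mathlib

/-!
Row 157, part E (helper22): finite reversible Markov chains, core definitions.

`mean`, `ip`, `var`, `ent`, `tv` are the usual functionals of a weight vector `π` on a finite set.
`RC Ω` is a reversible chain with a fully supported reversible probability vector; `c.D` is its
Dirichlet form `⟨f, (1 - P) g⟩_π`, `c.pow k` the `k`-step chain.
-/

set_option autoImplicit false

namespace Crest.Agent.T157.Chain22

open Finset Matrix

variable {Ω : Type*} [Fintype Ω]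

/-- expectation -/
def mean (π f : Ω → ℝ) : ℝ := ∑ x, π x * f x

/-- inner product of `L²(π)` -/
def ip (π f g : Ω → ℝ) : ℝ := ∑ x, π x * (f x * g x)

/-- variance -/
def var (π f : Ω → ℝ) : ℝ := ∑ x, π x * (f x - mean π f) ^ 2

/-- entropy -/
noncomputable def ent (π f : Ω → ℝ) : ℝ :=
  (∑ x, π x * (f x * Real.log (f x))) - mean π f * Real.log (mean π f)

/-- total variation distance -/
noncomputable def tv (μ ν : Ω → ℝ) : ℝ := (1 / 2) * ∑ y, |μ y - ν y|

/-- probability vector -/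
structure IsP (π : Ω → ℝ) : Prop where
  nn : ∀ x, 0 ≤ π x
  sum1 : ∑ x, π x = 1

section basic

variable (π : Ω → ℝ)

theorem mean_add (f g : Ω → ℝ) : mean π (f + g) = mean π f + mean π g := by
  simp [mean, mul_add, sum_add_distrib]

theorem mean_sub (f g : Ω → ℝ) : mean π (f - g) = mean π f - mean π g := by
  simp [mean, mul_sub, sum_sub_distrib]

theorem mean_smul (a : ℝ) (f : Ω → ℝ) : mean π (a • f) = a * mean π f := by
  simp only [mean, Pi.smul_apply, smul_eq_mul, mul_sum]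
  exact sum_congr rfl fun x _ => by ring

theorem mean_sum {ι : Type*} (s : Finset ι) (f : ι → Ω → ℝ) :
    mean π (∑ i ∈ s, f i) = ∑ i ∈ s, mean π (f i) := by
  simp only [mean, Finset.sum_apply, mul_sum]
  exact sum_comm

theorem ip_comm (f g : Ω → ℝ) : ip π f g = ip π g f := by
  simp only [ip]; exact sum_congr rfl fun x _ => by ring

theorem ip_eq_mean (f g : Ω → ℝ) : ip π f g = mean π (fun x => f x * g x) := rfl

theorem ip_one (f : Ω → ℝ) : ip π f (fun _ => 1) = mean π f := by simp [ip, mean]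

theorem ip_add_right (f g h : Ω → ℝ) : ip π f (g + h) = ip π f g + ip π f h := by
  simp [ip, mul_add, sum_add_distrib]

theorem ip_sub_right (f g h : Ω → ℝ) : ip π f (g - h) = ip π f g - ip π f h := by
  simp [ip, mul_sub, sum_sub_distrib]

theorem ip_smul_right (a : ℝ) (f g : Ω → ℝ) : ip π f (a • g) = a * ip π f g := by
  simp only [ip, Pi.smul_apply, smul_eq_mul, mul_sum]
  exact sum_congr rfl fun x _ => by ring

theorem ip_add_left (f g h : Ω → ℝ) : ip π (f + g) h = ip π f h + ip π g h := by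
  rw [ip_comm, ip_add_right, ip_comm π h, ip_comm π h]

theorem ip_sub_left (f g h : Ω → ℝ) : ip π (f - g) h = ip π f h - ip π g h := by
  rw [ip_comm, ip_sub_right, ip_comm π h, ip_comm π h]

theorem ip_smul_left (a : ℝ) (f g : Ω → ℝ) : ip π (a • f) g = a * ip π f g := by
  rw [ip_comm, ip_smul_right, ip_comm]

theorem ip_sum_right {ι : Type*} (s : Finset ι) (f : Ω → ℝ) (g : ι → Ω → ℝ) :
    ip π f (∑ i ∈ s, g i) = ∑ i ∈ s, ip π f (g i) := by
  simp only [ip, Finset.sum_apply, mul_sum]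
  exact sum_comm

theorem ip_sum_left {ι : Type*} (s : Finset ι) (f : ι → Ω → ℝ) (g : Ω → ℝ) :
    ip π (∑ i ∈ s, f i) g = ∑ i ∈ s, ip π (f i) g := by
  rw [ip_comm, ip_sum_right]; exact sum_congr rfl fun i _ => ip_comm _ _ _

variable {π}

theorem IsP.mean_const (h : IsP π) (a : ℝ) : mean π (fun _ => a) = a := by
  simp only [mean]; rw [← sum_mul, h.sum1, one_mul]

theorem IsP.mean_mono (h : IsP π) {f g : Ω → ℝ} (hfg : ∀ x, f x ≤ g x) : mean π f ≤ mean π g :=
  sum_le_sum fun x _ => mul_le_mul_of_nonneg_left (hfg x) (h.nn x)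

theorem IsP.mean_nonneg (h : IsP π) {f : Ω → ℝ} (hf : ∀ x, 0 ≤ f x) : 0 ≤ mean π f :=
  sum_nonneg fun x _ => mul_nonneg (h.nn x) (hf x)

theorem IsP.ip_self_nonneg (h : IsP π) (f : Ω → ℝ) : 0 ≤ ip π f f :=
  sum_nonneg fun x _ => mul_nonneg (h.nn x) (mul_self_nonneg _)

theorem IsP.var_nonneg (h : IsP π) (f : Ω → ℝ) : 0 ≤ var π f :=
  sum_nonneg fun x _ => mul_nonneg (h.nn x) (sq_nonneg _)

theorem var_eq_ip (f : Ω → ℝ) :
    var π f = ip π (f - fun _ => mean π f) (f - fun _ => mean π f) := by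
  simp only [var, ip, Pi.sub_apply, sq]

theorem IsP.var_eq (h : IsP π) (f : Ω → ℝ) : var π f = ip π f f - mean π f ^ 2 := by
  have : ∀ x, π x * (f x - mean π f) ^ 2 =
      π x * (f x * f x) - 2 * mean π f * (π x * f x) + mean π f ^ 2 * π x := fun x => by ring
  simp only [var, this, sum_add_distrib, sum_sub_distrib, ← mul_sum, h.sum1]
  simp only [ip, mean]; ring

theorem IsP.var_le_sq (h : IsP π) (f : Ω → ℝ) (a : ℝ) :
    var π f ≤ ∑ x, π x * (f x - a) ^ 2 := by
  have : ∀ x, π x * (f x - a) ^ 2 =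
      π x * (f x * f x) - 2 * a * (π x * f x) + a ^ 2 * π x := fun x => by ring
  rw [h.var_eq]
  simp only [this, sum_add_distrib, sum_sub_distrib, ← mul_sum, h.sum1]
  simp only [ip, mean]
  nlinarith [sq_nonneg (∑ x, π x * f x - a)]

theorem IsP.var_add_const (h : IsP π) (f : Ω → ℝ) (a : ℝ) :
    var π (fun x => f x + a) = var π f := by
  have : mean π (fun x => f x + a) = mean π f + a := by
    have := mean_add π f (fun _ => a)
    rw [h.mean_const] at this
    exact this
  simp only [var, this]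
  exact sum_congr rfl fun x _ => by ring

theorem var_smul (a : ℝ) (f : Ω → ℝ) : var π (a • f) = a ^ 2 * var π f := by
  simp only [var, mean_smul, Pi.smul_apply, smul_eq_mul, mul_sum]
  exact sum_congr rfl fun x _ => by ring

/-- Cauchy–Schwarz in `L²(π)`. -/
theorem IsP.ip_sq_le (h : IsP π) (f g : Ω → ℝ) : ip π f g ^ 2 ≤ ip π f f * ip π g g := by
  have := Finset.sum_mul_sq_le_sq_mul_sq univ (fun x => Real.sqrt (π x) * f x)
    (fun x => Real.sqrt (π x) * g x)
  have e : ∀ u v : Ω → ℝ, ∑ x, Real.sqrt (π x) * u x * (Real.sqrt (π x) * v x) = ip π u v :=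
    fun u v => sum_congr rfl fun x _ => by
      have := Real.mul_self_sqrt (h.nn x)
      calc _ = (Real.sqrt (π x) * Real.sqrt (π x)) * (u x * v x) := by ring
        _ = _ := by rw [this]
  simp only [sq] at this ⊢
  rw [e, e, e] at this
  exact this

theorem IsP.mean_sq_le (h : IsP π) (f : Ω → ℝ) : mean π f ^ 2 ≤ ip π f f := by
  have := h.var_nonneg f
  rw [h.var_eq] at this
  linarith

theorem IsP.abs_mean_le (h : IsP π) {f : Ω → ℝ} {M : ℝ} (hf : ∀ x, |f x| ≤ M) :
    |mean π f| ≤ M := by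
  refine (abs_sum_le_sum_abs _ _).trans ?_
  calc ∑ x, |π x * f x| ≤ ∑ x, π x * M := sum_le_sum fun x _ => by
        rw [abs_mul, abs_of_nonneg (h.nn x)]
        exact mul_le_mul_of_nonneg_left (hf x) (h.nn x)
    _ = M := by rw [← sum_mul, h.sum1, one_mul]

theorem IsP.le_one (h : IsP π) (x : Ω) : π x ≤ 1 := by
  rw [← h.sum1]
  exact single_le_sum (fun y _ => h.nn y) (mem_univ x)

end basic

/-! ### Entropy -/

section entropy

variable {π : Ω → ℝ}

theorem mul_log_ge (a b : ℝ) (ha : 0 ≤ a) (hb : 0 < b) :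
    2 * a - 2 * (Real.sqrt a * Real.sqrt b) ≤ a * Real.log a - a * Real.log b := by
  rcases eq_or_lt_of_le ha with h | h
  · simp [← h]
  have hs : 0 < Real.sqrt a := Real.sqrt_pos.2 h
  have ht : 0 < Real.sqrt b := Real.sqrt_pos.2 hb
  have h1 : Real.log (Real.sqrt b / Real.sqrt a) ≤ Real.sqrt b / Real.sqrt a - 1 :=
    Real.log_le_sub_one_of_pos (by positivity)
  rw [Real.log_div ht.ne' hs.ne', Real.log_sqrt hb.le, Real.log_sqrt ha] at h1
  have h2 : a * (Real.sqrt b / Real.sqrt a) = Real.sqrt a * Real.sqrt b := by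
    have := Real.mul_self_sqrt ha
    field_simp
    nlinarith
  nlinarith [mul_le_mul_of_nonneg_left h1 ha]

theorem IsP.eq_zero_of_mean (h : IsP π) {f : Ω → ℝ} (hf : ∀ x, 0 ≤ f x) (h0 : mean π f = 0)
    (x : Ω) : π x * f x = 0 :=
  (sum_eq_zero_iff_of_nonneg fun y _ => mul_nonneg (h.nn y) (hf y)).1 h0 x (mem_univ x)

/-- `Var √f ≤ Ent f`. -/
theorem IsP.var_sqrt_le_ent (h : IsP π) {f : Ω → ℝ} (hf : ∀ x, 0 ≤ f x) :
    var π (fun x => Real.sqrt (f x)) ≤ ent π f := by
  have hip : ip π (fun x => Real.sqrt (f x)) (fun x => Real.sqrt (f x)) = mean π f :=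
    sum_congr rfl fun x _ => by rw [Real.mul_self_sqrt (hf x)]
  rw [h.var_eq, hip]
  rcases eq_or_lt_of_le (h.mean_nonneg hf) with h0 | h0
  · have hz := h.eq_zero_of_mean hf h0.symm
    have : ∑ x, π x * (f x * Real.log (f x)) = 0 :=
      sum_eq_zero fun x _ => by rw [← mul_assoc, hz x, zero_mul]
    simp only [ent, this, ← h0]
    nlinarith [sq_nonneg (mean π fun x => Real.sqrt (f x))]
  · set m := mean π f with hm
    have key : ∑ x, π x * (2 * f x - 2 * (Real.sqrt (f x) * Real.sqrt m)) ≤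
        ∑ x, π x * (f x * Real.log (f x) - f x * Real.log m) :=
      sum_le_sum fun x _ => mul_le_mul_of_nonneg_left (mul_log_ge _ _ (hf x) h0) (h.nn x)
    have e1 : ∑ x, π x * (2 * f x - 2 * (Real.sqrt (f x) * Real.sqrt m)) =
        2 * m - 2 * (mean π (fun x => Real.sqrt (f x)) * Real.sqrt m) := by
      simp only [hm, mean, mul_sum, sum_mul, ← sum_sub_distrib]
      exact sum_congr rfl fun x _ => by ring
    have e2 : ∑ x, π x * (f x * Real.log (f x) - f x * Real.log m) = ent π f := by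
      simp only [ent, ← hm, mul_sub, sum_sub_distrib]
      congr 1
      rw [hm, mean, sum_mul]
      exact sum_congr rfl fun x _ => by ring
    rw [e1, e2] at key
    have h3 := Real.mul_self_sqrt h0.le
    nlinarith [sq_nonneg (mean π (fun x => Real.sqrt (f x)) - Real.sqrt m)]

theorem IsP.ent_nonneg (h : IsP π) {f : Ω → ℝ} (hf : ∀ x, 0 ≤ f x) : 0 ≤ ent π f :=
  (h.var_nonneg _).trans (h.var_sqrt_le_ent hf)

/-- `Var f ≤ Ent f²` for `f ≥ 0`. -/
theorem IsP.var_le_ent_sq (h : IsP π) {f : Ω → ℝ} (hf : ∀ x, 0 ≤ f x) :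
    var π f ≤ ent π (fun x => f x ^ 2) := by
  have := h.var_sqrt_le_ent (f := fun x => f x ^ 2) fun x => sq_nonneg _
  simpa only [Real.sqrt_sq (hf _)] using this

theorem ent_smul (a : ℝ) (f : Ω → ℝ) : ent π (a • f) = a * ent π f := by
  rcases eq_or_ne a 0 with rfl | ha
  · simp [ent, mean]
  have e : ∀ u : ℝ, a * u * Real.log (a * u) = a * (u * Real.log u) + a * Real.log a * u := by
    intro u
    rcases eq_or_ne u 0 with rfl | hu
    · simp
    · rw [Real.log_mul ha hu]; ring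
  simp only [ent, mean_smul, Pi.smul_apply, smul_eq_mul, e, mul_add, sum_add_distrib, mul_sub,
    mul_sum]
  have e1 : ∑ x, π x * (a * Real.log a * f x) = a * Real.log a * mean π f := by
    rw [mean, mul_sum]; exact sum_congr rfl fun x _ => by ring
  have e2 : ∑ x, π x * (a * (f x * Real.log (f x))) = ∑ x, a * (π x * (f x * Real.log (f x))) :=
    sum_congr rfl fun x _ => by ring
  rw [e1, e2]; ring

/-- The entropy inequality (Gibbs variational principle): `E[f g] ≤ Ent f + E f · log E e^g`. -/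
theorem IsP.mean_mul_le_ent (h : IsP π) {f : Ω → ℝ} (hf : ∀ x, 0 ≤ f x) (g : Ω → ℝ) :
    ip π f g ≤ ent π f + mean π f * Real.log (mean π fun x => Real.exp (g x)) := by
  rcases eq_or_lt_of_le (h.mean_nonneg hf) with h0 | h0
  · have hz := h.eq_zero_of_mean hf h0.symm
    have e1 : ∑ x, π x * (f x * Real.log (f x)) = 0 :=
      sum_eq_zero fun x _ => by rw [← mul_assoc, hz x, zero_mul]
    have e2 : ip π f g = 0 := sum_eq_zero fun x _ => by rw [← mul_assoc, hz x, zero_mul]
    simp [ent, e1, e2, ← h0]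
  set m := mean π f with hm
  set Z := mean π fun x => Real.exp (g x) with hZ
  have hZ0 : 0 < Z := by
    by_contra hn
    have hZ1 : Z = 0 := le_antisymm (not_lt.1 hn) (h.mean_nonneg fun x => (Real.exp_pos _).le)
    have hz := h.eq_zero_of_mean (fun x => (Real.exp_pos (g x)).le) hZ1
    have : ∀ x, π x = 0 := fun x => (mul_eq_zero.1 (hz x)).resolve_right (Real.exp_pos _).ne'
    have h1 := h.sum1
    simp [this] at h1
  have pt : ∀ x, f x * g x ≤ f x * Real.log (f x) - f x * Real.log m + f x * Real.log Z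
      + (m / Z * Real.exp (g x) - f x) := by
    intro x
    rcases eq_or_lt_of_le (hf x) with hx | hx
    · rw [← hx]
      have : 0 ≤ m / Z * Real.exp (g x) := by positivity
      simpa using this
    have h1 : Real.log (m / Z * Real.exp (g x) / f x) ≤ m / Z * Real.exp (g x) / f x - 1 :=
      Real.log_le_sub_one_of_pos (by positivity)
    rw [Real.log_div (by positivity) hx.ne', Real.log_mul (by positivity) (Real.exp_pos _).ne',
      Real.log_div h0.ne' hZ0.ne', Real.log_exp] at h1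
    have h2 := mul_le_mul_of_nonneg_left h1 hx.le
    have h3 : f x * (m / Z * Real.exp (g x) / f x - 1) = m / Z * Real.exp (g x) - f x := by
      field_simp
    rw [h3] at h2
    nlinarith
  have key := sum_le_sum fun x (_ : x ∈ univ) => mul_le_mul_of_nonneg_left (pt x) (h.nn x)
  have e : ∑ x, π x * (f x * Real.log (f x) - f x * Real.log m + f x * Real.log Z
      + (m / Z * Real.exp (g x) - f x)) =
      ∑ x, π x * (f x * Real.log (f x)) - m * Real.log m + m * Real.log Z + (m / Z * Z - m) := by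
    simp only [mul_add, mul_sub, sum_add_distrib, sum_sub_distrib]
    have a1 : ∀ u : ℝ, ∑ x, π x * (f x * u) = m * u := fun u => by
      rw [hm, mean, sum_mul]; exact sum_congr rfl fun x _ => by ring
    have a2 : ∑ x, π x * (m / Z * Real.exp (g x)) = m / Z * Z := by
      rw [hZ, mean, mul_sum]; exact sum_congr rfl fun x _ => by ring
    rw [a1, a1, a2]
    rfl
  rw [e, div_mul_cancel₀ _ hZ0.ne'] at key
  simp only [ent, ← hm]
  simp only [ip]
  linarith

/-- Pinsker's inequality (constant `1` instead of `1/2`): for a density `f`,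
`tv (f π) π ^ 2 ≤ Ent f`. -/
theorem IsP.pinsker (h : IsP π) {f : Ω → ℝ} (hf : ∀ x, 0 ≤ f x) (h1 : mean π f = 1) :
    tv (fun x => π x * f x) π ^ 2 ≤ ent π f := by
  set s : Ω → ℝ := fun x => Real.sqrt (f x) with hs
  have hss : ∀ x, s x * s x = f x := fun x => Real.mul_self_sqrt (hf x)
  have hs0 : ∀ x, 0 ≤ s x := fun x => Real.sqrt_nonneg _
  have hip : ip π s s = 1 := by
    rw [← h1]; exact sum_congr rfl fun x _ => by rw [hss]
  have e1 : ∑ y, |π y * f y - π y| = ip π (fun x => |s x - 1|) (fun x => s x + 1) := by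
    refine sum_congr rfl fun x _ => ?_
    have : π x * f x - π x = π x * ((s x - 1) * (s x + 1)) := by rw [← hss]; ring
    rw [this, abs_mul, abs_mul, abs_of_nonneg (h.nn x), abs_of_nonneg (by linarith [hs0 x] : 0 ≤ s x + 1)]
  have e2 := h.ip_sq_le (fun x => |s x - 1|) (fun x => s x + 1)
  have e3 : ip π (fun x => |s x - 1|) (fun x => |s x - 1|) = 2 - 2 * mean π s := by
    have : ∀ x, π x * (|s x - 1| * |s x - 1|) = π x * (s x * s x) - 2 * (π x * s x) + π x :=
      fun x => by rw [abs_mul_abs_self]; ring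
    simp only [ip, this, sum_add_distrib, sum_sub_distrib, ← mul_sum, h.sum1]
    simp only [ip] at hip
    rw [hip, mean]; ring
  have e4 : ip π (fun x => s x + 1) (fun x => s x + 1) = 2 + 2 * mean π s := by
    have : ∀ x, π x * ((s x + 1) * (s x + 1)) = π x * (s x * s x) + 2 * (π x * s x) + π x :=
      fun x => by ring
    simp only [ip, this, sum_add_distrib, ← mul_sum, h.sum1]
    simp only [ip] at hip
    rw [hip, mean]; ring
  have e5 := h.var_sqrt_le_ent hf
  rw [← hs, h.var_eq, hip] at e5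
  rw [tv, e1]
  rw [e3, e4] at e2
  nlinarith

theorem continuous_ent_comp {X : Type*} [TopologicalSpace X] (π : Ω → ℝ) {F : X → Ω → ℝ}
    (hF : ∀ x, Continuous fun t => F t x) : Continuous fun t => ent π (F t) := by
  unfold ent mean
  refine Continuous.sub (continuous_finsetSum _ fun x _ => continuous_const.mul
    (Real.continuous_mul_log.comp (hF x))) ?_
  exact Real.continuous_mul_log.comp
    (continuous_finsetSum _ fun x _ => continuous_const.mul (hF x))

end entropy

/-! ### Total variation -/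

section tvsec

theorem tv_nonneg (μ ν : Ω → ℝ) : 0 ≤ tv μ ν := by unfold tv; positivity

theorem tv_comm (μ ν : Ω → ℝ) : tv μ ν = tv ν μ := by
  unfold tv; simp only [abs_sub_comm (μ _)]

theorem tv_triangle (μ ν ρ : Ω → ℝ) : tv μ ρ ≤ tv μ ν + tv ν ρ := by
  unfold tv
  rw [← mul_add, ← sum_add_distrib]
  gcongr with y
  exact abs_sub_le _ _ _

theorem tv_le_one {μ ν : Ω → ℝ} (hμ : IsP μ) (hν : IsP ν) : tv μ ν ≤ 1 := by
  have : ∑ y, |μ y - ν y| ≤ ∑ y, (μ y + ν y) := sum_le_sum fun y _ => by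
    rw [abs_le]; constructor <;> linarith [hμ.nn y, hν.nn y]
  rw [sum_add_distrib, hμ.sum1, hν.sum1] at this
  unfold tv; linarith

/-- `|E_μ f - E_ν f| ≤ 2 M tv`. -/
theorem abs_mean_sub_le_tv (μ ν : Ω → ℝ) {f : Ω → ℝ} {M : ℝ} (hf : ∀ x, |f x| ≤ M) :
    |mean μ f - mean ν f| ≤ 2 * M * tv μ ν := by
  rw [mean, mean, ← sum_sub_distrib]
  refine (abs_sum_le_sum_abs _ _).trans ?_
  calc ∑ x, |μ x * f x - ν x * f x| ≤ ∑ x, M * |μ x - ν x| := sum_le_sum fun x _ => by
        rw [← sub_mul, abs_mul, mul_comm]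
        exact mul_le_mul_of_nonneg_right (hf x) (abs_nonneg _)
    _ = 2 * M * tv μ ν := by rw [tv, ← mul_sum]; ring

/-- For probability vectors and `0 ≤ f ≤ 1`: `E_μ f - E_ν f ≤ tv`. -/
theorem mean_sub_le_tv {μ ν : Ω → ℝ} (hμ : IsP μ) (hν : IsP ν) {f : Ω → ℝ} (h0 : ∀ x, 0 ≤ f x)
    (h1 : ∀ x, f x ≤ 1) : mean μ f - mean ν f ≤ tv μ ν := by
  have := abs_mean_sub_le_tv μ ν (f := f - fun _ => 1 / 2) (M := 1 / 2) fun x => by
    rw [Pi.sub_apply, abs_le]; constructor <;> linarith [h0 x, h1 x]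
  rw [mean_sub, mean_sub, hμ.mean_const, hν.mean_const] at this
  have h2 := le_abs_self (mean μ f - 1 / 2 - (mean ν f - 1 / 2))
  linarith

/-- `(2 tv (f π) π)² ≤ Var f` for a density `f`. -/
theorem IsP.tv_sq_le_var {π : Ω → ℝ} (h : IsP π) {f : Ω → ℝ} (h1 : mean π f = 1) :
    (2 * tv (fun x => π x * f x) π) ^ 2 ≤ var π f := by
  have e1 : 2 * tv (fun x => π x * f x) π = mean π (fun x => |f x - 1|) := by
    rw [tv, ← mul_assoc]
    norm_num
    refine sum_congr rfl fun x _ => ?_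
    rw [← mul_sub_one, abs_mul, abs_of_nonneg (h.nn x)]
  rw [e1]
  refine (h.mean_sq_le _).trans (le_of_eq ?_)
  simp only [ip, var, h1, abs_mul_abs_self, sq]

end tvsec

/-! ### Reversible chains -/

/-- A reversible Markov chain on a finite set with a fully supported reversible law. -/
structure RC (Ω : Type*) [Fintype Ω] where
  π : Ω → ℝ
  P : Matrix Ω Ω ℝ
  pos : ∀ x, 0 < π x
  sum1 : ∑ x, π x = 1
  nn : ∀ x y, 0 ≤ P x y
  row : ∀ x, ∑ y, P x y = 1
  rev : ∀ x y, π x * P x y = π y * P y x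

namespace RC

variable (c : RC Ω)

theorem isP : IsP c.π := ⟨fun x => (c.pos x).le, c.sum1⟩

theorem isP_row (x : Ω) : IsP (c.P x) := ⟨c.nn x, c.row x⟩

theorem nonempty (c : RC Ω) : Nonempty Ω := by
  by_contra h
  rw [not_nonempty_iff] at h
  have := c.sum1
  simp at this

theorem mulVec_eq (f : Ω → ℝ) (x : Ω) : (c.P *ᵥ f) x = mean (c.P x) f := rfl

/-- the Dirichlet form `⟨f, (1 - P) g⟩` -/
def D (f g : Ω → ℝ) : ℝ := ip c.π f (g - c.P *ᵥ g)

theorem stat (y : Ω) : ∑ x, c.π x * c.P x y = c.π y := by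
  simp only [c.rev _ y, ← mul_sum, c.row, mul_one]

theorem ip_P (f g : Ω → ℝ) :
    ip c.π f (c.P *ᵥ g) = ∑ x, ∑ y, c.π x * c.P x y * (f x * g y) := by
  simp only [ip, mulVec, dotProduct, mul_sum]
  exact sum_congr rfl fun x _ => sum_congr rfl fun y _ => by ring

theorem ip_P_symm (f g : Ω → ℝ) : ip c.π f (c.P *ᵥ g) = ip c.π (c.P *ᵥ f) g := by
  rw [ip_comm c.π (c.P *ᵥ f), ip_P, ip_P, sum_comm]
  exact sum_congr rfl fun x _ => sum_congr rfl fun y _ => by rw [c.rev y x]; ring

theorem P_const (a : ℝ) : c.P *ᵥ (fun _ => a) = fun _ => a :=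
  funext fun x => (c.isP_row x).mean_const a

theorem mean_P (f : Ω → ℝ) : mean c.π (c.P *ᵥ f) = mean c.π f := by
  rw [← ip_one, ← ip_P_symm, P_const, ip_one]

theorem P_nonneg {f : Ω → ℝ} (hf : ∀ x, 0 ≤ f x) (x : Ω) : 0 ≤ (c.P *ᵥ f) x :=
  (c.isP_row x).mean_nonneg hf

theorem P_ge {f : Ω → ℝ} {a : ℝ} (hf : ∀ x, a ≤ f x) (x : Ω) : a ≤ (c.P *ᵥ f) x := by
  have := (c.isP_row x).mean_mono (f := fun _ => a) hf
  rwa [(c.isP_row x).mean_const] at this

theorem P_le {f : Ω → ℝ} {a : ℝ} (hf : ∀ x, f x ≤ a) (x : Ω) : (c.P *ᵥ f) x ≤ a := by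
  have := (c.isP_row x).mean_mono (g := fun _ => a) hf
  rwa [(c.isP_row x).mean_const] at this

theorem D_eq (f g : Ω → ℝ) :
    c.D f g = (1 / 2) * ∑ x, ∑ y, c.π x * c.P x y * ((f x - f y) * (g x - g y)) := by
  have e1 : ip c.π f g = ∑ x, ∑ y, c.π x * c.P x y * (f x * g x) := by
    refine sum_congr rfl fun x _ => ?_
    rw [← sum_mul, ← mul_sum, c.row, mul_one]
  have e2 : ip c.π f g = ∑ x, ∑ y, c.π x * c.P x y * (f y * g y) := by
    rw [sum_comm]
    refine sum_congr rfl fun y _ => ?_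
    rw [← sum_mul, c.stat]
  have e3 := c.ip_P f g
  have e4 : ip c.π f (c.P *ᵥ g) = ∑ x, ∑ y, c.π x * c.P x y * (f y * g x) := by
    rw [ip_P_symm, ip_comm, ip_P]
    exact sum_congr rfl fun x _ => sum_congr rfl fun y _ => by ring
  have e5 : ∑ x, ∑ y, c.π x * c.P x y * ((f x - f y) * (g x - g y)) =
      ∑ x, ∑ y, c.π x * c.P x y * (f x * g x) + ∑ x, ∑ y, c.π x * c.P x y * (f y * g y) -
      ∑ x, ∑ y, c.π x * c.P x y * (f x * g y) - ∑ x, ∑ y, c.π x * c.P x y * (f y * g x) := by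
    simp only [← sum_add_distrib, ← sum_sub_distrib]
    exact sum_congr rfl fun x _ => sum_congr rfl fun y _ => by ring
  rw [e5, ← e1, ← e2, ← e3, ← e4, D, ip_sub_right]
  ring

theorem D_comm (f g : Ω → ℝ) : c.D f g = c.D g f := by
  rw [D_eq, D_eq]
  congr 1
  exact sum_congr rfl fun x _ => sum_congr rfl fun y _ => by ring

theorem D_nonneg (f : Ω → ℝ) : 0 ≤ c.D f f := by
  rw [D_eq]
  refine mul_nonneg (by norm_num) (sum_nonneg fun x _ => sum_nonneg fun y _ => ?_)
  exact mul_nonneg (mul_nonneg (c.pos x).le (c.nn x y)) (mul_self_nonneg _)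

theorem D_add_const (f : Ω → ℝ) (a : ℝ) : c.D (fun x => f x + a) (fun x => f x + a) = c.D f f := by
  rw [D_eq, D_eq]
  congr 1
  exact sum_congr rfl fun x _ => sum_congr rfl fun y _ => by ring

theorem D_smul (a : ℝ) (f : Ω → ℝ) : c.D (a • f) (a • f) = a ^ 2 * c.D f f := by
  rw [D_eq, D_eq, mul_left_comm, mul_sum (a := a ^ 2)]
  congr 1
  refine sum_congr rfl fun x _ => ?_
  rw [mul_sum]
  exact sum_congr rfl fun y _ => by simp only [Pi.smul_apply, smul_eq_mul]; ring

/-- contraction property of the Dirichlet form -/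
theorem D_le_of_abs {f g : Ω → ℝ} (h : ∀ x y, |f x - f y| ≤ |g x - g y|) : c.D f f ≤ c.D g g := by
  rw [D_eq, D_eq]
  refine mul_le_mul_of_nonneg_left (sum_le_sum fun x _ => sum_le_sum fun y _ => ?_) (by norm_num)
  refine mul_le_mul_of_nonneg_left ?_ (mul_nonneg (c.pos x).le (c.nn x y))
  rw [← sq, ← sq]
  exact sq_le_sq.2 (h x y)

theorem D_abs_le (f : Ω → ℝ) : c.D (fun x => |f x|) (fun x => |f x|) ≤ c.D f f :=
  c.D_le_of_abs fun _ _ => abs_abs_sub_abs_le_abs_sub _ _

theorem ip_P_P_le (f : Ω → ℝ) : ip c.π (c.P *ᵥ f) (c.P *ᵥ f) ≤ ip c.π f f := by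
  calc ip c.π (c.P *ᵥ f) (c.P *ᵥ f) ≤ mean c.π (c.P *ᵥ fun x => f x * f x) :=
        c.isP.mean_mono (f := fun x => (c.P *ᵥ f) x * (c.P *ᵥ f) x) fun x => by
          rw [← sq]; exact (c.isP_row x).mean_sq_le f
    _ = ip c.π f f := c.mean_P _

theorem D_le_two (f : Ω → ℝ) : c.D f f ≤ 2 * ip c.π f f := by
  have h1 := c.isP.ip_sq_le f (c.P *ᵥ f)
  have h2 := c.ip_P_P_le f
  have h3 := c.isP.ip_self_nonneg f
  have h4 : ip c.π f (c.P *ᵥ f) ^ 2 ≤ ip c.π f f ^ 2 := by nlinarith
  have h5 := abs_le_of_sq_le_sq' h4 h3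
  rw [D, ip_sub_right]
  linarith [h5.1]

/-- Miclo's one-step entropy dissipation. -/
theorem ent_sub_ent_P {f : Ω → ℝ} (hf : ∀ x, 0 ≤ f x) :
    ip c.π (fun x => Real.sqrt (f x)) (fun x => Real.sqrt (f x)) -
      ip c.π (c.P *ᵥ fun x => Real.sqrt (f x)) (c.P *ᵥ fun x => Real.sqrt (f x)) ≤
      ent c.π f - ent c.π (c.P *ᵥ f) := by
  have e1 : ent c.π f - ent c.π (c.P *ᵥ f) = mean c.π fun x => ent (c.P x) f := by
    have a1 : ∑ x, c.π x * (f x * Real.log (f x)) =
        mean c.π (c.P *ᵥ fun x => f x * Real.log (f x)) := (c.mean_P _).symm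
    simp only [ent, c.mean_P]
    rw [a1]
    simp only [mean, mul_sub, sum_sub_distrib, mulVec, dotProduct]
    ring
  have e2 : ip c.π (fun x => Real.sqrt (f x)) (fun x => Real.sqrt (f x)) -
      ip c.π (c.P *ᵥ fun x => Real.sqrt (f x)) (c.P *ᵥ fun x => Real.sqrt (f x)) =
      mean c.π fun x => var (c.P x) fun x => Real.sqrt (f x) := by
    simp only [(c.isP_row _).var_eq]
    have a1 : ip c.π (fun x => Real.sqrt (f x)) (fun x => Real.sqrt (f x)) =
        mean c.π (c.P *ᵥ fun x => Real.sqrt (f x) * Real.sqrt (f x)) := (c.mean_P _).symm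
    rw [a1]
    simp only [mean, ip, mul_sub, sum_sub_distrib, mulVec, dotProduct, sq]
  rw [e1, e2]
  exact c.isP.mean_mono fun x => (c.isP_row x).var_sqrt_le_ent hf

theorem ent_P_le {f : Ω → ℝ} (hf : ∀ x, 0 ≤ f x) : ent c.π (c.P *ᵥ f) ≤ ent c.π f := by
  have h1 := c.ent_sub_ent_P hf
  have h2 := c.ip_P_P_le fun x => Real.sqrt (f x)
  linarith

theorem var_P_le (f : Ω → ℝ) : var c.π (c.P *ᵥ f) ≤ var c.π f := by
  rw [c.isP.var_eq, c.isP.var_eq, mean_P]
  linarith [c.ip_P_P_le f]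

/-- positive semidefinite chains -/
def PSD : Prop := ∀ f : Ω → ℝ, 0 ≤ ip c.π f (c.P *ᵥ f)

variable {c} in
theorem PSD.ip_P_P_le (h : c.PSD) (f : Ω → ℝ) :
    ip c.π (c.P *ᵥ f) (c.P *ᵥ f) ≤ ip c.π f (c.P *ᵥ f) := by
  have h1 := h (f - c.P *ᵥ f)
  have h2 := c.D_nonneg (c.P *ᵥ f)
  rw [mulVec_sub, ip_sub_left, ip_sub_right, ip_sub_right, c.ip_P_symm f (c.P *ᵥ f)] at h1
  rw [D, ip_sub_right] at h2
  linarith

variable {c} in
theorem PSD.D_le_one (h : c.PSD) (f : Ω → ℝ) : c.D f f ≤ ip c.π f f := by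
  rw [D, ip_sub_right]; linarith [h f]

variable {c} in
/-- one-step entropy dissipation of a positive semidefinite chain -/
theorem PSD.D_sqrt_le (h : c.PSD) {f : Ω → ℝ} (hf : ∀ x, 0 ≤ f x) :
    c.D (fun x => Real.sqrt (f x)) (fun x => Real.sqrt (f x)) ≤
      ent c.π f - ent c.π (c.P *ᵥ f) := by
  have h1 := c.ent_sub_ent_P hf
  have h2 := h.ip_P_P_le fun x => Real.sqrt (f x)
  rw [D, ip_sub_right]
  linarith

/-- The law `μ P` of a start with density `f` has density `P f`. -/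
theorem vecMul_dens (f : Ω → ℝ) :
    (fun x => c.π x * f x) ᵥ* c.P = fun y => c.π y * (c.P *ᵥ f) y := by
  funext y
  simp only [vecMul, mulVec, dotProduct, mul_sum]
  refine sum_congr rfl fun x _ => ?_
  calc c.π x * f x * c.P x y = (c.π x * c.P x y) * f x := by ring
    _ = _ := by rw [c.rev x y]; ring

theorem tv_vecMul_le (μ ν : Ω → ℝ) : tv (μ ᵥ* c.P) (ν ᵥ* c.P) ≤ tv μ ν := by
  unfold tv
  refine mul_le_mul_of_nonneg_left ?_ (by norm_num)
  calc ∑ y, |(μ ᵥ* c.P) y - (ν ᵥ* c.P) y| ≤ ∑ y, ∑ x, |μ x - ν x| * c.P x y := by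
        refine sum_le_sum fun y _ => ?_
        simp only [vecMul, dotProduct]
        rw [← sum_sub_distrib]
        refine (abs_sum_le_sum_abs _ _).trans (le_of_eq (sum_congr rfl fun x _ => ?_))
        rw [← sub_mul, abs_mul, abs_of_nonneg (c.nn x y)]
    _ = ∑ x, |μ x - ν x| := by
        rw [sum_comm]
        exact sum_congr rfl fun x _ => by rw [← mul_sum, c.row, mul_one]

theorem vecMul_π : c.π ᵥ* c.P = c.π := funext fun y => c.stat y

/-- a mixture of starts is no further from equilibrium than the worst start -/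
theorem tv_vecMul_le_mean {μ : Ω → ℝ} (hμ : IsP μ) (ν : Ω → ℝ) :
    tv (μ ᵥ* c.P) ν ≤ mean μ fun x => tv (c.P x) ν := by
  simp only [tv, mean, mul_sum]
  rw [sum_comm]
  refine sum_le_sum fun y _ => ?_
  have : (μ ᵥ* c.P) y - ν y = ∑ x, μ x * (c.P x y - ν y) := by
    simp only [vecMul, dotProduct, mul_sub, sum_sub_distrib, ← sum_mul, hμ.sum1, one_mul]
  rw [this]
  calc 1 / 2 * |∑ x, μ x * (c.P x y - ν y)| ≤ 1 / 2 * ∑ x, |μ x * (c.P x y - ν y)| := by
        gcongr; exact abs_sum_le_sum_abs _ _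
    _ = _ := by
        rw [mul_sum]
        refine sum_congr rfl fun x _ => ?_
        rw [abs_mul, abs_of_nonneg (hμ.nn x)]; ring

section pow

variable [DecidableEq Ω]

theorem pow_nn (k : ℕ) (x y : Ω) : 0 ≤ (c.P ^ k) x y := by
  induction k generalizing y with
  | zero => rw [pow_zero, one_apply]; split_ifs <;> norm_num
  | succ k ih => rw [pow_succ, mul_apply]; exact sum_nonneg fun z _ => mul_nonneg (ih z) (c.nn z y)

theorem pow_row (k : ℕ) (x : Ω) : ∑ y, (c.P ^ k) x y = 1 := by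
  induction k with
  | zero => simp [one_apply]
  | succ k ih =>
    simp only [pow_succ, mul_apply]
    rw [sum_comm]
    simp only [← mul_sum, c.row, mul_one, ih]

theorem pow_rev (k : ℕ) (x y : Ω) : c.π x * (c.P ^ k) x y = c.π y * (c.P ^ k) y x := by
  induction k generalizing x y with
  | zero =>
    simp only [pow_zero, one_apply]
    by_cases h : x = y
    · subst h; rfl
    · rw [if_neg h, if_neg (Ne.symm h)]; simp
  | succ k ih =>
    conv_lhs => rw [pow_succ]
    conv_rhs => rw [pow_succ']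
    simp only [mul_apply, mul_sum]
    refine sum_congr rfl fun z _ => ?_
    calc c.π x * ((c.P ^ k) x z * c.P z y) = (c.π x * (c.P ^ k) x z) * c.P z y := by ring
      _ = (c.π z * c.P z y) * (c.P ^ k) z x := by rw [ih]; ring
      _ = _ := by rw [c.rev z y]; ring

/-- the `k`-step chain -/
def pow (k : ℕ) : RC Ω where
  π := c.π
  P := c.P ^ k
  pos := c.pos
  sum1 := c.sum1
  nn := c.pow_nn k
  row := c.pow_row k
  rev := c.pow_rev k

@[simp] theorem pow_π (k : ℕ) : (c.pow k).π = c.π := rfl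
@[simp] theorem pow_P (k : ℕ) : (c.pow k).P = c.P ^ k := rfl

theorem pow_le_one (k : ℕ) (x y : Ω) : (c.P ^ k) x y ≤ 1 := ((c.pow k).isP_row x).le_one y

/-- the density of the point mass at `x` -/
noncomputable def del (x : Ω) : Ω → ℝ := fun y => if y = x then 1 / c.π x else 0

theorem del_nonneg (x y : Ω) : 0 ≤ c.del x y := by
  unfold del; split_ifs
  · exact (one_div_pos.2 (c.pos x)).le
  · exact le_rfl

theorem ip_del (f : Ω → ℝ) (x : Ω) : ip c.π f (c.del x) = f x := by
  simp only [ip, del, mul_ite, mul_zero, sum_ite_eq', mem_univ, if_true]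
  field_simp [(c.pos x).ne']

theorem mean_del (x : Ω) : mean c.π (c.del x) = 1 := by
  rw [← ip_one, ip_comm, ip_del]

theorem ent_del (x : Ω) : ent c.π (c.del x) = Real.log (1 / c.π x) := by
  have : ∑ y, c.π y * (c.del x y * Real.log (c.del x y)) =
      ip c.π (fun y => Real.log (c.del x y)) (c.del x) := sum_congr rfl fun y _ => by ring
  rw [ent, this, ip_del, mean_del]
  simp [del]

theorem var_del (x : Ω) : var c.π (c.del x) = 1 / c.π x - 1 := by
  rw [c.isP.var_eq, ip_del, mean_del]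
  simp [del]

/-- the row `P x ·` has density `P (del x)` -/
theorem row_eq (x : Ω) : c.P x = fun y => c.π y * (c.P *ᵥ c.del x) y := by
  funext y
  simp only [mulVec, dotProduct, del, mul_ite, mul_zero, sum_ite_eq', mem_univ, if_true]
  rw [← mul_assoc, ← c.rev x y]
  field_simp [(c.pos x).ne']

theorem tv_row_sq_le_ent (x : Ω) : tv (c.P x) c.π ^ 2 ≤ ent c.π (c.P *ᵥ c.del x) := by
  conv_lhs => rw [c.row_eq x]
  exact c.isP.pinsker (c.P_nonneg (c.del_nonneg x)) (by rw [mean_P, mean_del])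

theorem tv_row_sq_le_var (x : Ω) : (2 * tv (c.P x) c.π) ^ 2 ≤ var c.π (c.P *ᵥ c.del x) := by
  conv_lhs => rw [c.row_eq x]
  exact c.isP.tv_sq_le_var (by rw [mean_P, mean_del])

/-- the distance to equilibrium from a fixed start decreases -/
theorem tv_pow_anti (x : Ω) : Antitone fun k : ℕ => tv ((c.P ^ k) x) c.π := by
  refine antitone_nat_of_succ_le fun k => ?_
  have h := c.tv_vecMul_le ((c.P ^ k) x) c.π
  rw [vecMul_π] at h
  have : (c.P ^ (k + 1)) x = (c.P ^ k) x ᵥ* c.P := by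
    funext y; rw [pow_succ, mul_apply]; rfl
  rw [this]; exact h

end pow

end RC

end Crest.Agent.T157.Chain22
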