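import Crest.Agent.T157.ClC_85

/-!
# Row 157, part B (helper85): the collective lower bound at fixed `n`
-/

set_option autoImplicit false

noncomputable section

namespace Crest.Agent.T157.Low

open Matrix Real Finset Filter Topology
open Crest.Agent.T157.E Crest.Agent.T157.Lag Crest.Agent.T157.Top
open Crest.Agent.T157.Chain22 (sg hbRC ip sg_eq sg_add sg_zero isP_hbCt isP_prob' IsP ip_sg_symm)
open Crest.Agent.T157.Rec (sg_sum sg_const_mul sg_const sg_mono sg_add_fun sg_sub_fun GR grad fl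
  sg_nonneg)
open Crest.Agent.T157.Rv (Warm)

variable {n : ℕ} {w f G Φ Ψ : Cube n → ℝ} {t K C a lo hi A W ρ Lp m k η x z D : ℝ}

theorem Col.mono (h : Col w Φ ρ Lp W m k η) {W' : ℝ} (hW : W' ≤ W) : Col w Φ ρ Lp W' m k η :=
  ⟨h.mean0, h.lip, h.sup, h.var_ge, h.ray, h.ex, fun f hf A G ⟨ι, i, c, u, hu, e⟩ =>
    h.rg f hf A G ⟨ι, i, c, u, fun j => ⟨(hu j).1, (hu j).2.trans hW⟩, e⟩⟩

theorem cl_two {u v c d : ℝ} (u0 : lo ≤ u) (u1 : u ≤ hi) (v0 : lo ≤ v) (v1 : v ≤ hi)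
    (h : |c| + |d| ≤ A) (hG : ∀ y, G y = c * sg w u Φ y + d * sg w v Φ y) : Cl w Φ lo hi A G :=
  ⟨Bool, inferInstance, fun i => cond i c d, fun i => cond i u v,
    fun i => by cases i <;> simp [*], by simpa using h, fun y => by simpa using hG y⟩

theorem exists_tilt (hn : 0 < n) (hw : ∀ x, 0 < w x) (hK : 0 ≤ K) (hT : Ent.AT w K 0)
    (h0 : mean w Φ = 0) (hL : ∀ y, grad Φ y ⬝ᵥ grad Φ y ≤ Lp) (hx : 0 ≤ x)
    (hm : ∀ y, x * Φ y ≤ m) : ∃ z > (0 : ℝ), Warm w m (fun y => z * exp (x * Φ y)) ∧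
      ent w (fun y => z * exp (x * Φ y)) ≤ 4 * K * Lp * x ^ 2 := by
  have hp := isP_prob' hw
  have n0 : (0 : ℝ) < n := by exact_mod_cast hn
  have z0 := Ent.mean_exp_pos hp fun y => x * Φ y
  have z1 := Ent.mean_le_log_mean_exp hp fun y => x * Φ y
  rw [Ent.mean_const_mul, show Chain22.mean (prob w) (fun y => Φ y) = 0 from h0, mul_zero,
    log_nonneg_iff z0] at z1
  have hM := ((Ent.mlsi_iff hn hw K 0).2 fun f hf => hT.mlsi hw hK hf).ent_exp_le (by positivity)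
    (F := Φ) (γ := 1 / n * (4 * Lp)) (fun y => (gam_le hn hw Φ y).trans
      (mul_le_mul_of_nonneg_left (by linarith [hL y]) (by positivity))) hx
  rw [show K * n * (1 / n * (4 * Lp)) = 4 * K * Lp by field_simp, add_zero] at hM
  refine ⟨_, inv_pos.2 z0, ⟨fun y => by positivity, (Ent.mean_const_mul _ _).trans
    (inv_mul_cancel₀ z0.ne'), fun y => (mul_le_of_le_one_left (exp_pos _).le
      (inv_le_one_of_one_le₀ z1)).trans (exp_le_exp.2 (hm y))⟩, ?_⟩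
  refine (Chain22.ent_smul _ fun y => exp (x * Φ y)).trans_le ?_
  rw [inv_mul_le_iff₀ z0, mul_comm]
  exact hM

theorem Col.dev (h : Col w Φ ρ Lp W m k η) (hn : 0 < n) (hw : ∀ x, 0 < w x) (hG : GR w C)
    (hC : 0 ≤ C) (hΨ : ∀ x, Ψ x = Φ x - sg w 1 Φ x) (hx : 0 ≤ x) (hz : 0 < z) (hη : 0 ≤ η)
    (hk : 0 < k) (hf : ∀ y, f y = z * exp (x * Φ y)) (hW : Warm w m f)
    (hD : 8 * (exp (C * W) * Lp) ≤ D) {u : ℝ} (u0 : 0 ≤ u) (u1 : u + 1 ≤ W) :
    Dv w f (sg w u Ψ) (x * ip (prob w) Φ (sg w u Ψ)) ≤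
      1 + (D + 2 * x * k ^ 2 + 2 * x ^ 2 * η * D + x * k * (1 + D)) := by
  have gm : ∀ {G}, Cl w Φ 0 W 2 G → ∀ y, Gm w G G y ≤ D := fun {G} hc y => by
    linarith [Gm_le_grad hn hw G y, hc.lip hn hw hG hC h.lip y]
  have e : ∀ y, sg w u Ψ y = sg w u Φ y - sg w (u + 1) Φ y := fun y => by
    rw [funext hΨ, sg_sub_fun, sg_add hn hw]
  have W0 : 0 ≤ W := by linarith
  refine tilt_dev hn hw hx hz hη hk hf hW.2.1 e
    (gm (cl_two (c := 1) (d := -1) u0 (by linarith) (by linarith) u1 (by norm_num) fun y => by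
      rw [e]; ring))
    (fun r r0 r1 => gm (cl_two (c := 1) (d := 0) (u := r) (by linarith) (by linarith) le_rfl W0
      (by norm_num) fun y => by ring))
    (gm (cl_two (c := 1) (d := 0) le_rfl W0 le_rfl W0 (by norm_num) fun y => by
      rw [sg_zero hn hw]; ring)) (h.ex f hW) fun r r0 r1 => ?_
  have a1 := h.rg f hW 2 (fun y => Φ y + sg w r Φ y) (cl_two (c := 1) (d := 1) (v := r) le_rfl W0
    (by linarith) (by linarith) (by norm_num) fun y => by rw [sg_zero hn hw]; ring)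
  have a2 := h.rg f hW 2 (fun y => Φ y - sg w r Φ y) (cl_two (c := 1) (d := -1) (v := r) le_rfl W0
    (by linarith) (by linarith) (by norm_num) fun y => by rw [sg_zero hn hw]; ring)
  refine le_of_mul_le_mul_left (le_trans ?_ ((add_le_add a1 a2).trans_eq (by ring))) four_pos
  rw [← SL.mean_const_mul, ← SL.mean_add]
  refine (isP_prob' hw).mean_mono fun y => ?_
  rw [mul_left_comm, ← mul_add]
  refine mul_le_mul_of_nonneg_left ?_ (hW.1 y).le
  rw [← abs_of_pos (four_pos (α := ℝ)), ← abs_mul, mul_sub, Gm_polar, dir2_polar]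
  exact le_trans (le_of_eq (by congr 1; ring)) (abs_sub _ _)

theorem tv_dev (hn : 0 < n) (hw : ∀ x, 0 < w x) (hf : ∀ x, 0 ≤ f x) (h1 : mean w f = 1)
    (ht : 0 ≤ t) {Y : ℝ} (hY : 0 ≤ Y) (h : ∀ x, tv (hbCt w t x) (prob w) ≤ 1 - η)
    (G : Cube n → ℝ) : η * Y ≤ 2 * Dv w (sg w t f) G Y + 2 * mean w fun x => |G x| := by
  have hP := isP_prob' hw
  set p : Cube n → Prop := fun y => Y / 2 < G y
  have a1 : mean w (fun y => sg w t f y * Ent.ind p y) ≤ mean w (Ent.ind p) + (1 - η) := by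
    rw [mean_sg_symm hn hw]
    exact mean_mul_le hw hf h1 fun x => sub_le_iff_le_add'.1 ((Chain22.mean_sub_le_tv
      (isP_hbCt hn hw ht x) hP (Ent.ind_nonneg p) (Ent.ind_le_one p)).trans (h x))
  have a2 : mean w (fun y => Y * sg w t f y) ≤
      mean w fun y => Y * (sg w t f y * Ent.ind p y) + 2 * (sg w t f y * |G y - Y|) :=
    hP.mean_mono fun y => by
      have s0 := sg_nonneg hn hw ht hf y
      have s1 := mul_nonneg s0 (abs_nonneg (G y - Y))
      by_cases hy : p y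
      · rw [Ent.ind_pos hy]; linarith
      · rw [Ent.ind_neg hy]
        have : G y ≤ Y / 2 := not_lt.1 hy
        nlinarith [mul_le_mul_of_nonneg_left (neg_le_abs (G y - Y)) s0]
  have a3 : mean w (fun y => Y * Ent.ind p y) ≤ mean w fun y => 2 * |G y| := hP.mean_mono fun y => by
    by_cases hy : p y
    · rw [Ent.ind_pos hy]
      have : Y / 2 < G y := hy
      linarith [le_abs_self (G y)]
    · rw [Ent.ind_neg hy]; simp
  rw [SL.mean_add, SL.mean_const_mul, SL.mean_const_mul, SL.mean_const_mul,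
    show mean w (fun y => sg w t f y) = 1 from (Rec.mean_sg' hn hw t f).trans h1] at a2
  rw [SL.mean_const_mul, SL.mean_const_mul] at a3
  have a4 := mul_le_mul_of_nonneg_left a1 hY
  have e : mean w (fun y => Ent.ind p y) = mean w (Ent.ind p) := rfl
  rw [e] at a3
  rw [Dv]
  linarith

/-- the `L¹` norm under a warm law of a function with small `H¹` norm -/
theorem Col.l1 (h : Col w Φ ρ Lp W m k η) (hn : 0 < n) (hw : ∀ x, 0 < w x) (hK : 0 < K)
    (hT : Ent.AT w K 0) (hf : Warm w m f) (hc : Cl w Φ 0 W A G) {ζ X : ℝ} (hζ : 0 < ζ) (hX : 0 < X)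
    (h1 : ip (prob w) G G + dir w G + A ^ 2 * k ^ 2 ≤ ζ ^ 2) (h2 : ent w f + 1 ≤ X ^ 2) :
    mean w (fun y => f y * |G y|) ≤ (K + 3) * ζ * X := by
  have hp := isP_prob' hw
  have i0 := hp.ip_self_nonneg G
  have d0 := Ent.dir_nonneg hw G
  have e0 := Rv.ent_nn hw fun y => (hf.1 y).le
  have a1 := t1 hn hw hK hT (F := fun y => |G y|) (σ := ζ ^ 2) (θ := ζ / X) hf (by positivity)
    fun g hg => by
      have b1 := h.rg g hg A G hc
      have b2 : mean w (fun y => g y * Gm w (fun y => |G y|) (fun y => |G y|) y) ≤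
          mean w fun y => g y * |Gm w G G y - dir w G| + g y * dir w G := hp.mean_mono fun y => by
        rw [← mul_add]
        exact mul_le_mul_of_nonneg_left ((Gm_mono hn hw (fun x y => abs_abs_sub_abs_le _ _) y).trans
          (sub_le_iff_le_add.1 (le_abs_self _))) (hg.1 y).le
      rw [SL.mean_add, SL.mean_mul_const, show mean w (fun y => g y) = 1 from hg.2.1] at b2
      linarith
  have a2 : mean w (fun y => |G y|) ≤ ζ := by
    have := hp.mean_sq_le fun y => |G y|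
    simp only [ip, abs_mul_abs_self] at this
    exact (abs_le_of_sq_le_sq' (this.trans (show ip (prob w) G G ≤ _ by nlinarith)) hζ.le).2
  have a3 : 1 ≤ X := by nlinarith
  have a4 := mul_le_mul_of_nonneg_left (show ent w f ≤ X ^ 2 by linarith)
    (show 0 ≤ 2 * (ζ / X) by positivity)
  rw [show 2 * (ζ / X) * X ^ 2 = 2 * ζ * X by field_simp] at a4
  rw [show K * ζ ^ 2 / (2 * (ζ / X)) = K * ζ * X / 2 by field_simp] at a1
  nlinarith [mul_le_mul_of_nonneg_left a3 hζ.le, mul_pos (mul_pos hK hζ) hX]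

/-! ### arithmetic -/

theorem ar_dev {s : ℝ} (x1 : 1 ≤ s * x) (hk : 0 < k) (s1 : k ≤ s) (s6 : s ≤ 1) (s2 : x * η ≤ s)
    (D0 : 1 ≤ D) (hx : 0 < x) :
    1 + (D + 2 * x * k ^ 2 + 2 * x ^ 2 * η * D + x * k * (1 + D)) ≤ 8 * D * s * x := by
  have c1 := mul_le_mul_of_nonneg_right x1 (show 0 ≤ 1 + D by linarith)
  have c2 : k ^ 2 ≤ s := by nlinarith
  have c3 := mul_le_mul_of_nonneg_left c2 hx.le
  have c4 := mul_le_mul_of_nonneg_left s2 (show 0 ≤ x * D by positivity)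
  have c5 := mul_le_mul_of_nonneg_left s1 (show 0 ≤ x * (1 + D) by positivity)
  have c6 := mul_le_mul_of_nonneg_left D0 (show 0 ≤ s * x by linarith)
  linarith

theorem ar_ent {H X ω : ℝ} (o0 : 128 ≤ ω) (hX : 1 ≤ X) (h : H ≤ ω * (4 * ω ^ 2 * X + 1)) :
    H + 1 ≤ (ω ^ 2) ^ 2 * X := by
  have ω1 : 1 ≤ ω := by linarith
  have c5 : 1 ≤ ω ^ 3 := one_le_pow₀ ω1
  have c6 : ω ≤ ω ^ 3 := le_self_pow₀ ω1 (by norm_num)
  have c7 := mul_le_mul_of_nonneg_left hX (show 0 ≤ ω ^ 3 by positivity)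
  have c8 := mul_le_mul_of_nonneg_right o0 (show 0 ≤ ω ^ 3 * X by positivity)
  linarith

theorem ar_l1 {σ ω p : ℝ} (o0 : 128 ≤ ω) (h : p ≤ 8 * σ ^ 2 * (3 * ω ^ 5)) (h0 : 0 ≤ A * k)
    (h1 : A * k ≤ σ) : p + A ^ 2 * k ^ 2 ≤ (σ * ω ^ 3) ^ 2 := by
  have c3 := pow_le_pow_left₀ h0 h1 2
  have c4 := mul_le_mul_of_nonneg_right o0 (show 0 ≤ σ ^ 2 * ω ^ 5 by positivity)
  have c5 := mul_le_mul_of_nonneg_left (one_le_pow₀ (n := 5) (show 1 ≤ ω by linarith)) (sq_nonneg σ)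
  have c6 : 0 ≤ σ ^ 2 * ω ^ 5 := by positivity
  linarith

theorem ar_resp {σ ω c v i N : ℝ} (o0 : 128 ≤ ω) (σ0 : 0 < σ) (s5 : σ * ω ^ 12 ≤ 1)
    (o6 : N + 1 ≤ ω) (o8 : 1 ≤ c * ω) (v0 : 1 ≤ ω * v) (h : (c - N * (4 * σ)) * v ≤ i) :
    1 ≤ 2 * ω ^ 2 * i := by
  have ω1 : 1 ≤ ω := by linarith
  have p1 := mul_le_mul_of_nonneg_left (pow_le_pow_right₀ ω1 (show 3 ≤ 12 by norm_num)) σ0.le
  have p2 := mul_le_mul_of_nonneg_right o0 (show 0 ≤ σ * ω ^ 2 by positivity)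
  have p3 := mul_le_mul_of_nonneg_left o6 (show 0 ≤ σ * ω by positivity)
  have p4 : 0 ≤ σ * ω := by positivity
  have p5 : 0 ≤ σ * ω ^ 2 := by positivity
  have c1 : 1 ≤ 2 * ω * (c - N * (4 * σ)) := by linarith
  have c2 := mul_le_mul c1 v0 zero_le_one (by linarith)
  have c3 := mul_le_mul_of_nonneg_left h (show 0 ≤ 2 * ω ^ 2 by positivity)
  linarith

theorem ar_fin {σ ω i N d0 d1 M ν : ℝ} (o0 : 128 ≤ ω) (σ0 : 0 < σ) (hx : 0 < x)
    (s5 : σ * ω ^ 12 ≤ 1) (o6 : N + 1 ≤ ω) (o7 : 1 ≤ η * ω) (r2 : 1 ≤ 2 * ω ^ 2 * i)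
    (r3 : η * (x * i) ≤ 2 * d1 + 2 * M) (r4 : d1 ≤ d0 + (N + 1) * ν + N * (σ * ω ^ 6 * x))
    (r6 : d0 ≤ σ * x) (ν0 : 0 ≤ ν) (r7 : ν ≤ σ * x) (r8 : M ≤ σ * x * ω ^ 2) : False := by
  have ω1 : 1 ≤ ω := by linarith
  have r9 := mul_le_mul o6 r7 ν0 (by linarith)
  have r10 := mul_le_mul_of_nonneg_right (show N ≤ ω by linarith)
    (show 0 ≤ σ * ω ^ 6 * x by positivity)
  have p7 : ∀ j ≤ 7, σ * x * ω ^ j ≤ σ * x * ω ^ 7 := fun j hj =>
    mul_le_mul_of_nonneg_left (pow_le_pow_right₀ ω1 hj) (by positivity)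
  have r11 : η * (x * i) ≤ 8 * (σ * x * ω ^ 7) := by
    linarith [p7 0 (by norm_num), p7 1 (by norm_num), p7 2 (by norm_num)]
  have r12 := mul_le_mul_of_nonneg_right (mul_le_mul o7 r2 zero_le_one (by linarith)) hx.le
  have r13 := mul_le_mul_of_nonneg_left r11 (show 0 ≤ 2 * ω ^ 3 by positivity)
  have r14 := mul_le_mul_of_nonneg_left s5 hx.le
  have r15 : 0 < σ * x * ω ^ 10 * (ω ^ 2 - 16) := by
    have : 0 < ω ^ 2 - 16 := by nlinarith
    positivity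
  linarith

theorem ip_le_lip (hw : ∀ x, 0 < w x) (hK : 0 ≤ K) (hP : Poin w K) {γ : ℝ} (h0 : mean w G = 0)
    (hγ : ∀ y, grad G y ⬝ᵥ grad G y ≤ γ) : ip (prob w) G G ≤ K * γ := by
  have hp := isP_prob' hw
  rw [← var_eq_ip hw h0]
  exact (hP _).trans (mul_le_mul_of_nonneg_left ((Rec.dir_le_grad hw _).trans
    ((hp.mean_mono hγ).trans_eq (hp.mean_const _))) hK)

/-- the spectral weight at the two ends of the window -/
theorem col_R (hn : 0 < n) (hw : ∀ x, 0 < w x) (hK : 0 < K) (hT : Ent.AT w K 0) {ω τ ζ : ℝ}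
    (hΨ : ∀ x, Ψ x = Φ x - sg w 1 Φ x) (hf : Warm w m f) (hx : 0 < x) (o0 : 128 ≤ ω) (o1 : K ≤ ω)
    (o4 : exp a ≤ ω) (τ1 : 1 ≤ τ) (hΦ : ip (prob w) Φ Φ ≤ ω ^ 2) (mΨ : mean w Ψ = 0)
    (lΨ : ∀ y, grad Ψ y ⬝ᵥ grad Ψ y ≤ 4 * ω ^ 2) (hζ : exp (2 * τ * a) * ζ ≤ 1)
    (c3 : Dv w f (sg w (2 * τ - 1) Ψ) (x * ip (prob w) Φ (sg w (2 * τ - 1) Ψ)) ≤ ζ * x)
    (hH : ent w (sg w (2 * τ - 1) f) + 1 ≤ (ω ^ 2 * x * exp (-(a * (2 * τ - 1)))) ^ 2) :
    exp (2 * a) * ip (prob w) Φ (sg w 1 Ψ) +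
      exp (2 * τ * a) * ip (prob w) Φ (sg w (2 * τ - 1) Ψ) ≤ 3 * ω ^ 5 := by
  have hp := isP_prob' hw
  have ω1 : 1 ≤ ω := by linarith
  have c1 : ip (prob w) Φ (sg w 1 Ψ) ≤ ω ^ 2 := by
    refine le_trans ?_ hΦ
    rw [ip_diff hn hw hΨ, ip_co hn hw]
    exact sum_le_sum fun j _ => mul_le_of_le_one_left (mul_self_nonneg _) (mul_le_one₀
      (exp_le_one_iff.2 (by linarith [rt_nn hn hw j]))
      (sub_nonneg.2 (exp_le_one_iff.2 (by linarith [rt_nn hn hw j]))) (sub_le_self _ (exp_pos _).le))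
  have c2 : exp (2 * a) ≤ ω ^ 2 := by
    rw [two_mul, Real.exp_add, sq]; exact mul_le_mul o4 o4 (exp_pos _).le (by linarith)
  have c8 : exp (2 * τ * a) * exp (-(a * (2 * τ - 1))) = exp a := by
    rw [← Real.exp_add]; congr 1; ring
  have u0 : 0 ≤ 2 * τ - 1 := by linarith
  generalize 2 * τ - 1 = u at *
  have hg := hf.sg hn hw u0
  have hν := Ent.isP_dens hp (fun y => (hg.1 y).le) hg.2.1
  have c4 := (hν.mean_sq_le Ψ).trans ((le_of_eq (by simp only [ip, Chain22.mean, sq])).trans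
    (sq_le_kl hn hw hK hT (by positivity) lΨ mΨ hν))
  rw [← Ent.ent_eq_kl hg.2.1, Ent.mean_dens] at c4
  have c5 : mean w (fun y => f y * sg w u Ψ y) ≤ ω ^ 2 * (ω ^ 2 * x * exp (-(a * u))) := by
    rw [← mean_sg_symm hn hw]
    refine (abs_le_of_sq_le_sq' (c4.trans ?_) (by positivity)).2
    rw [mul_pow]
    refine mul_le_mul ?_ hH
      (add_nonneg (Rv.ent_nn hw fun y => (hg.1 y).le) zero_le_one) (by positivity)
    linarith [mul_le_mul_of_nonneg_right (mul_le_mul o0 o1 hK.le (by linarith)) (sq_nonneg ω)]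
  have c6 : x * ip (prob w) Φ (sg w u Ψ) ≤ mean w (fun y => f y * sg w u Ψ y) + ζ * x := by
    have e : mean w (fun y => f y * (x * ip (prob w) Φ (sg w u Ψ))) = x * ip (prob w) Φ (sg w u Ψ) := by
      rw [SL.mean_mul_const, show mean w (fun y => f y) = 1 from hf.2.1, one_mul]
    refine e.symm.trans_le (le_trans ?_ (add_le_add le_rfl c3))
    rw [Dv, ← SL.mean_add]
    refine hp.mean_mono fun y => ?_
    rw [← mul_add]
    exact mul_le_mul_of_nonneg_left (by linarith [neg_le_abs (sg w u Ψ y -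
      x * ip (prob w) Φ (sg w u Ψ))]) (hf.1 y).le
  have c7 : ip (prob w) Φ (sg w u Ψ) ≤ ω ^ 4 * exp (-(a * u)) + ζ :=
    le_of_mul_le_mul_left (by linarith) hx
  have d1 := mul_le_mul_of_nonneg_left c7 (exp_pos (2 * τ * a)).le
  have d3 := mul_le_mul_of_nonneg_left c1 (exp_pos (2 * a)).le
  have d4 := mul_le_mul_of_nonneg_right c2 (sq_nonneg ω)
  have d5 := mul_le_mul_of_nonneg_left o4 (show 0 ≤ ω ^ 4 by positivity)
  have d6 : ω ^ 4 ≤ ω ^ 5 := pow_le_pow_right₀ ω1 (by norm_num)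
  have d7 : 1 ≤ ω ^ 5 := one_le_pow₀ ω1
  rw [mul_add, mul_left_comm, c8] at d1
  linarith

/-- **the collective lower bound at fixed `n`** -/
theorem col_fix (hn : 0 < n) (hw : ∀ x, 0 < w x) (hK : 0 < K) (hT : Ent.AT w K 0) (hG : GR w C)
    (hC : 0 ≤ C) {e η' ω s b r u0 τ E : ℝ} {q N : ℕ} (h : Col w Φ (a + e) Lp W m k η')
    (ha : 0 ≤ a) (he : 0 < e) (hk : 0 < k) (hη' : 0 ≤ η') (hq : 1 ≤ q) (hr : 0 ≤ r) (hb : 1 ≤ b)
    (hu : u0 = 1 + Bq q * r) (hτ : τ = u0 + (N + q + Bq q) * r) (ht : t = u0 + N * (q * r))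
    (hW : 2 * τ ≤ W) (hWt : W ≤ t) (hx : 0 < x) (hm : x * (√n * Lp) ≤ m)
    (hH : ∀ f, Warm w m f → ∀ u, 0 ≤ u → u ≤ t →
      ent w (sg w u f) ≤ E * (ent w f * exp (-(2 * a * u)) + 1))
    (L1 : 1 ≤ Lp) (o0 : 128 ≤ ω) (o1 : K + 3 ≤ ω) (o2 : Lp ≤ ω) (o3 : E ≤ ω) (o4 : exp a ≤ ω)
    (o5 : exp C ≤ ω) (o6 : (N : ℝ) + 1 ≤ ω) (o7 : 1 ≤ η * ω)
    (o8 : 1 ≤ 1 / (K + 1) * exp (-(2 * e * t)) * (e / (a + 2 * e)) * ω)
    (s1 : k ≤ s) (s2 : x * η' ≤ s) (s3 : exp (a * t) ≤ s * x)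
    (hA : A = 4 * exp (b * (1 + 10 * q) ^ N) * exp (a * W)) (hD : D = 8 * (exp ((C + 1) * W) * Lp))
    (s4 : 8 * A * D * s ≤ exp (-b)) (s5 : exp (-b) * ω ^ 12 ≤ 1) :
    ∃ y, 1 - η < tv (hbCt w t y) (prob w) := by
  by_contra hc
  simp only [not_exists, not_lt] at hc
  have hp := isP_prob' hw
  have hP : Poin w K := fun g => hT.poinc hw hK.le g
  have σ0 : 0 < exp (-b) := exp_pos _
  have ω1 : 1 ≤ ω := by linarith
  have ω0 : 0 < ω := by linarith
  have L0 : 0 < Lp := by linarith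
  have oK : K ≤ ω := by linarith
  have B0 : 0 ≤ (Bq q : ℝ) * r := by positivity
  have N0 : 0 ≤ (N : ℝ) * r := by positivity
  have q0 : 0 ≤ (q : ℝ) * r := by positivity
  rw [add_mul, add_mul] at hτ
  have τ1 : 1 ≤ τ := by linarith
  have t0 : 0 ≤ t := by linarith
  have W0 : 0 ≤ W := by linarith
  have s0 : 0 < s := hk.trans_le s1
  have σ1 : exp (-b) ≤ 1 := exp_le_one_iff.2 (by linarith)
  have eW : 1 ≤ exp (a * W) := one_le_exp (by positivity)
  have eN : 1 ≤ exp (b * (1 + 10 * q) ^ N) := one_le_exp (by positivity)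
  have A1 : exp (b * (1 + 10 * q) ^ N) * exp (a * W) ≤ A := by
    rw [hA, mul_assoc]; exact le_mul_of_one_le_left (by positivity) (by norm_num)
  have A2 : exp (a * W) ≤ A := (le_mul_of_one_le_left (by positivity) eN).trans A1
  have eC : exp (C * W) * (1 + W) ≤ exp ((C + 1) * W) := by
    rw [add_mul C, one_mul, Real.exp_add, add_comm]
    exact mul_le_mul_of_nonneg_left (add_one_le_exp W) (exp_pos _).le
  have D1 : 8 * (exp (C * W) * Lp) * (1 + W) ≤ D := by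
    rw [hD]; linarith [mul_le_mul_of_nonneg_right eC L0.le]
  have D3 : 1 ≤ exp (C * W) * Lp := one_le_mul_of_one_le_of_one_le (one_le_exp (by positivity)) L1
  have D2 : 8 * (exp (C * W) * Lp) ≤ D :=
    (le_mul_of_one_le_right (by positivity) (by linarith)).trans D1
  have D0 : 1 ≤ D := by linarith
  have A0 : 1 ≤ A := eW.trans A2
  have AD : 1 ≤ A * D := one_le_mul_of_one_le_of_one_le A0 D0
  have x1 : 1 ≤ s * x := (one_le_exp (mul_nonneg ha t0)).trans s3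
  have s6 : s ≤ 1 := by linarith [mul_le_mul_of_nonneg_right AD s0.le]
  have s7 := mul_le_mul_of_nonneg_right s4 hx.le
  obtain ⟨z, hz, hf, hE⟩ := exists_tilt hn hw hK.le hT h.mean0 h.lip hx.le (m := m) fun y =>
    (mul_le_mul_of_nonneg_left ((le_abs_self _).trans (h.sup y)) hx.le).trans hm
  obtain ⟨f, hfd⟩ : ∃ f : Cube n → ℝ, ∀ y, f y = z * exp (x * Φ y) := ⟨_, fun _ => rfl⟩
  obtain ⟨Ψ, hΨ⟩ : ∃ Ψ : Cube n → ℝ, ∀ y, Ψ y = Φ y - sg w 1 Φ y := ⟨_, fun _ => rfl⟩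
  rw [← funext hfd] at hf hE
  have f0 : ∀ y, 0 ≤ f y := fun y => (hf.1 y).le
  have dev : ∀ u, 0 ≤ u → u + 1 ≤ W → Dv w f (sg w u Ψ) (x * ip (prob w) Φ (sg w u Ψ)) ≤
      8 * D * s * x := fun u u0 u1 =>
    (h.dev hn hw hG hC hΨ hx.le hz hη' hk hfd hf D2 u0 u1).trans (ar_dev x1 hk s1 s6 s2 D0 hx)
  have ent1 : ∀ u, 0 ≤ u → u ≤ t → ent w (sg w u f) + 1 ≤ (ω ^ 2 * x * exp (-(a * u))) ^ 2 :=
    fun u u0 u1 => by
      have c1 : 1 ≤ x * exp (-(a * u)) := by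
        rw [Real.exp_neg, ← div_eq_mul_inv, one_le_div (exp_pos _)]
        exact (exp_le_exp.2 (mul_le_mul_of_nonneg_left u1 ha)).trans (s3.trans
          (mul_le_of_le_one_left hx.le s6))
      have c2 : ent w f * exp (-(2 * a * u)) ≤ 4 * ω ^ 2 * (x * exp (-(a * u))) ^ 2 := by
        rw [mul_pow, ← exp_nat_mul, ← mul_assoc]
        refine mul_le_mul (hE.trans (mul_le_mul_of_nonneg_right ?_ (sq_nonneg _)))
          (le_of_eq (by congr 1; push_cast; ring)) (exp_pos _).le (by positivity)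
        linarith [mul_le_mul oK o2 L0.le ω0.le]
      rw [mul_assoc, mul_pow]
      exact ar_ent o0 (one_le_pow₀ c1) ((hH f hf u u0 u1).trans (mul_le_mul o3 (add_le_add c2 le_rfl)
        (add_nonneg (mul_nonneg (Rv.ent_nn hw f0) (exp_pos _).le) zero_le_one) ω0.le))
  have lΨ : ∀ y, grad Ψ y ⬝ᵥ grad Ψ y ≤ 4 * ω ^ 2 := fun y => by
    have := (cl_two (w := w) (Φ := Φ) (G := Ψ) (c := 1) (d := -1) (A := 2) le_rfl zero_le_one
      zero_le_one le_rfl (by norm_num) fun y => by rw [hΨ, sg_zero hn hw]; ring).lip hn hw hG hC h.lip y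
    rw [mul_one] at this
    linarith [mul_le_mul o5 o2 L0.le ω0.le]
  have mΨ : mean w Ψ = 0 := by
    rw [funext hΨ, SL.mean_sub, show mean w (fun y => sg w 1 Φ y) = _ from Rec.mean_sg' hn hw 1 Φ]
    exact sub_self _
  have hR := col_R hn hw hK hT hΨ hf hx o0 oK o4 τ1 ((ip_le_lip hw hK.le hP h.mean0 h.lip).trans
    ((mul_le_mul oK o2 L0.le ω0.le).trans_eq (sq ω).symm)) mΨ lΨ (ζ := 8 * D * s) (by
      linarith [mul_le_mul_of_nonneg_right ((exp_le_exp.2 ((mul_le_mul_of_nonneg_right hW ha).trans_eq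
        (mul_comm _ _))).trans A2) (show 0 ≤ 8 * D * s by positivity)])
    (dev _ (by linarith) (by linarith)) (ent1 _ (by linarith) (by linarith))
  obtain ⟨mm, ψ, hψ, m1, m2, hD'⟩ := chain hn hw hΨ f0 hf.2.1 hq ha hr hb (ν := A * D)
    (Q := exp (-b) * ω ^ 6 * x) (by positivity) hu (by rw [hτ]; ring) (by linarith) ht hA hR
    (fun G hc v v0 v1 y => by
      have c1 := (sg_mono hn hw v0 (hc.lip hn hw hG hC h.lip) y).trans_eq (sg_const hn hw _ _ _)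
      have c2 : exp (C * v) ≤ exp (C * W) * Lp := (exp_le_exp.2 (mul_le_mul_of_nonneg_left v1 hC)).trans
        (le_mul_of_one_le_right (exp_pos _).le L1)
      refine (lvar_le hG hn hw hC v0 G y).trans ((mul_le_mul (mul_le_mul
        (mul_le_mul_of_nonneg_left v1 zero_le_four) c2 (exp_pos _).le (by linarith)) c1
        (sg_nonneg hn hw v0 (fun _ => Eig.dot_self_nonneg _) y) (by positivity)).trans ?_)
      rw [mul_left_comm, mul_pow]
      refine mul_le_mul_of_nonneg_left ?_ (sq_nonneg A)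
      linarith [mul_le_mul D1 D2 (by positivity) (by linarith), mul_self_nonneg (exp (C * W) * Lp),
        mul_nonneg W0 (mul_self_nonneg (exp (C * W) * Lp))])
    (fun G hc h1 u u0 u1 => by
      have c1 := h.l1 hn hw hK hT (hf.sg hn hw u0) hc (ζ := exp (-b) * ω ^ 3) (by positivity)
        (by positivity) (ar_l1 o0 h1 (by positivity) (by
          linarith [mul_le_mul_of_nonneg_left s1 (show 0 ≤ A by linarith), mul_pos (show 0 < A by
            linarith) s0, mul_le_mul_of_nonneg_left D0 (show 0 ≤ A * s by positivity)])) (ent1 u u0 u1)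
      refine (mul_le_mul_of_nonneg_left (c1.trans (mul_le_mul_of_nonneg_right
        (mul_le_mul_of_nonneg_right o1 (by positivity)) (by positivity))) (exp_pos _).le).trans_eq ?_
      rw [Real.exp_neg (a * u)]; field_simp) N le_rfl
  rw [← ht] at m2
  have r2 := ar_resp o0 σ0 s5 o6 o8 ((inv_le_iff_one_le_mul₀' ω0).1 ((inv_anti₀ L0 o2).trans h.var_ge))
    (hψ.resp hn hw hΨ hK hP h.mean0 ha he (by positivity) t0 h.ray m1 m2)
  have i0 : 0 < ip (prob w) Φ ψ := lt_of_mul_lt_mul_left (a := 2 * ω ^ 2) (by linarith) (by positivity)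
  have r4 := hD' (x * ip (prob w) Φ ψ)
  rw [show t - u0 - N * (q * r) = 0 by rw [ht]; ring] at r4
  simp only [mul_zero, Real.exp_zero, one_mul, sg_zero hn hw] at r4
  have r7 : exp (a * t) * (A * D) ≤ exp (-b) * x := by
    linarith [mul_le_mul_of_nonneg_right s3 (show 0 ≤ A * D by positivity),
      mul_pos (mul_pos s0 hx) (show 0 < A * D by positivity)]
  refine ar_fin o0 σ0 hx s5 o6 o7 r2 (tv_dev hn hw f0 hf.2.1 t0 (mul_pos hx i0).le hc _) r4
    ((hψ.dev hw f0 ha (ζ := 8 * D * s * x) (by positivity) fun u u0 u1 =>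
      dev u (by linarith) (by linarith)).trans ?_) (by positivity) r7 ?_
  · rw [← mul_assoc]
    exact (mul_le_mul_of_nonneg_right ((mul_le_mul_of_nonneg_left (exp_le_exp.2
      (mul_le_mul_of_nonneg_left (show _ ≤ W by linarith) ha)) (exp_pos _).le).trans A1)
      (by positivity)).trans (by linarith)
  · simp only [abs_mul, abs_of_pos (exp_pos _), SL.mean_const_mul]
    have := hp.mean_sq_le fun y => |Ψ y|
    simp only [ip, abs_mul_abs_self] at this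
    refine mul_le_mul ((le_mul_of_one_le_right (exp_pos _).le AD).trans r7) (abs_le_of_sq_le_sq'
      (this.trans ((ip_le_lip hw hK.le hP mΨ lΨ).trans ?_)) (sq_nonneg ω)).2
      (hp.mean_nonneg fun _ => abs_nonneg _) (by positivity)
    linarith [mul_le_mul_of_nonneg_right (mul_le_mul o0 oK hK.le ω0.le) (sq_nonneg ω),
      mul_nonneg hK.le (sq_nonneg ω)]

end Crest.Agent.T157.Low

end
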