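import Crest.Agent.T157.CnDef_63

/-!
# Row 157, coins (helper64): the Bochner criterion for the spectral gap
-/

set_option autoImplicit false

noncomputable section

namespace Crest.Agent.T157.Cn.Boch64

open Matrix Real Finset Function
open Crest.ProbabilityR.SpinGlassDynamics
open Crest.Agent.T157.E Crest.Agent.T157.Top Crest.Agent.T157.Tap

/-! ### two spins -/

/-- normalised product of the two jump rates -/
def gg (A B θ s t : ℝ) : ℝ := (1 - s * t * θ) / ((1 + t * A * θ) * (1 + s * B * θ))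

/-- normalised product of the two variances -/
def hh (A B θ s t : ℝ) : ℝ :=
  (1 - θ ^ 2) * (1 + s * t * θ) / ((1 + t * A * θ) ^ 2 * (1 + s * B * θ) ^ 2) *
    ((1 + s * A) * (1 + t * B))

theorem g_err {x y z e : ℝ} (hx : |x| ≤ e) (hy : |y| ≤ e) (hz : |z| ≤ e) (he : e ≤ 1 / 100) :
    |(1 - z) / ((1 + x) * (1 + y)) - (1 - x - y - z)| ≤ 9 * e ^ 2 := by
  have e0 : 0 ≤ e := (abs_nonneg x).trans hx
  have hx' := abs_le.1 hx
  have hy' := abs_le.1 hy
  have hd : 98 / 100 ≤ (1 + x) * (1 + y) := by nlinarith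
  have hd0 : 0 < (1 + x) * (1 + y) := by linarith
  have h1 : (1 - z) / ((1 + x) * (1 + y)) - (1 - x - y - z) =
      (z * x + z * y + z * (x * y) - x * y + (x * x + 2 * (x * y) + y * y) + (x + y) * (x * y)) /
        ((1 + x) * (1 + y)) := by
    rw [eq_div_iff hd0.ne', sub_mul, div_mul_cancel₀ _ hd0.ne']; ring
  have m : ∀ {a b : ℝ}, |a| ≤ e → |b| ≤ e → |a * b| ≤ e ^ 2 := fun ha hb => by
    rw [abs_mul, sq]; exact mul_le_mul ha hb (abs_nonneg _) e0
  have m' : ∀ {a b : ℝ}, |a| ≤ 1 / 10 → |b| ≤ e ^ 2 → |a * b| ≤ e ^ 2 / 10 := fun ha hb => by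
    rw [abs_mul]
    exact (mul_le_mul ha hb (abs_nonneg _) (by norm_num)).trans (by linarith)
  have a1 := abs_le.1 (m hz hx)
  have a2 := abs_le.1 (m hz hy)
  have a3 := abs_le.1 (m hx hy)
  have a4 := abs_le.1 (m hx hx)
  have a5 := abs_le.1 (m hy hy)
  have a6 := abs_le.1 (m' (hz.trans (by linarith)) (m hx hy))
  have a7 := abs_le.1 (m' (a := x + y) (abs_le.2 ⟨by linarith, by linarith⟩) (m hx hy))
  rw [h1, abs_div, abs_of_pos hd0, div_le_iff₀ hd0]
  refine le_trans (b := 8 * e ^ 2) (abs_le.2 ⟨by linarith, by linarith⟩) ?_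
  nlinarith [sq_nonneg e]

theorem h_err {x y z θ e : ℝ} (hx : |x| ≤ e) (hy : |y| ≤ e) (hz : |z| ≤ e) (hθ : |θ| ≤ e)
    (he : e ≤ 1 / 100) :
    |(1 - θ ^ 2) * (1 + z) / ((1 + x) ^ 2 * (1 + y) ^ 2) - 1| ≤ 7 * e := by
  have e0 : 0 ≤ e := (abs_nonneg x).trans hx
  have hx' := abs_le.1 hx
  have hy' := abs_le.1 hy
  have hz' := abs_le.1 hz
  have ht : θ ^ 2 ≤ e / 100 := by
    rw [← sq_abs]; nlinarith [abs_nonneg θ]
  have x1 : 1 - 2 * e ≤ (1 + x) ^ 2 := by nlinarith [sq_nonneg x]
  have x2 : (1 + x) ^ 2 ≤ 1 + 21 / 10 * e := by nlinarith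
  have y1 : 1 - 2 * e ≤ (1 + y) ^ 2 := by nlinarith [sq_nonneg y]
  have y2 : (1 + y) ^ 2 ≤ 1 + 21 / 10 * e := by nlinarith
  have d1 : 1 - 4 * e ≤ (1 + x) ^ 2 * (1 + y) ^ 2 :=
    le_trans (by nlinarith [sq_nonneg e]) (mul_le_mul x1 y1 (by linarith) (sq_nonneg _))
  have d2 : (1 + x) ^ 2 * (1 + y) ^ 2 ≤ 1 + 43 / 10 * e :=
    le_trans (mul_le_mul x2 y2 (sq_nonneg _) (by linarith)) (by nlinarith)
  have n1 : 1 - 11 / 10 * e ≤ (1 - θ ^ 2) * (1 + z) := by nlinarith [sq_nonneg θ]
  have n2 : (1 - θ ^ 2) * (1 + z) ≤ 1 + e := by nlinarith [sq_nonneg θ]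
  have hd0 : 0 < (1 + x) ^ 2 * (1 + y) ^ 2 := by linarith
  rw [abs_le, le_sub_iff_add_le, le_div_iff₀ hd0, sub_le_iff_le_add, div_le_iff₀ hd0]
  constructor <;> nlinarith

variable {A B θ J e : ℝ} (hA : |A| ≤ 1) (hB : |B| ≤ 1) (hθ : |θ| ≤ e) (hJ : |J| ≤ e)
  (hJθ : |J - θ| ≤ e ^ 2) (he : e ≤ 1 / 100)

include hA hB hθ hJ hJθ he

theorem err {s t : ℝ} (hs : s = 1 ∨ s = -1) (ht : t = 1 ∨ t = -1) :
    |s * t * gg A B θ s t + J * hh A B θ s t - s * t * (1 + θ * A * B)| ≤ 41 * e ^ 2 ∧
      (1 + s * A) * (1 + t * B) / 2 ≤ hh A B θ s t := by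
  have e0 : 0 ≤ e := (abs_nonneg _).trans hθ
  have s1 : |s| = 1 := by rcases hs with rfl | rfl <;> simp
  have t1 : |t| = 1 := by rcases ht with rfl | rfl <;> simp
  have s2 : s * s = 1 := by rcases hs with rfl | rfl <;> simp
  have t2 : t * t = 1 := by rcases ht with rfl | rfl <;> simp
  have hx : |t * A * θ| ≤ e := by
    rw [abs_mul, abs_mul, t1, one_mul]; nlinarith [abs_nonneg A, abs_nonneg θ]
  have hy : |s * B * θ| ≤ e := by
    rw [abs_mul, abs_mul, s1, one_mul]; nlinarith [abs_nonneg B, abs_nonneg θ]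
  have hz : |s * t * θ| ≤ e := by rw [abs_mul, abs_mul, s1, t1]; linarith
  have g1 := g_err hx hy hz he
  have h1 := h_err hx hy hz hθ he
  have a1 : |s * A| ≤ 1 := by rw [abs_mul, s1]; linarith
  have b1 : |t * B| ≤ 1 := by rw [abs_mul, t1]; linarith
  have a2 := abs_le.1 a1
  have b2 := abs_le.1 b1
  have p0 : 0 ≤ (1 + s * A) * (1 + t * B) := mul_nonneg (by linarith) (by linarith)
  have p4 : (1 + s * A) * (1 + t * B) ≤ 4 := by nlinarith
  unfold gg hh
  set g := (1 - s * t * θ) / ((1 + t * A * θ) * (1 + s * B * θ))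
  set φ := (1 - θ ^ 2) * (1 + s * t * θ) / ((1 + t * A * θ) ^ 2 * (1 + s * B * θ) ^ 2)
  set p := (1 + s * A) * (1 + t * B) with hp
  refine ⟨?_, by nlinarith [abs_le.1 h1]⟩
  have key : s * t * g + J * (φ * p) - s * t * (1 + θ * A * B) =
      s * t * (g - (1 - t * A * θ - s * B * θ - s * t * θ)) + (J * (φ - 1) + (J - θ)) * p := by
    rw [hp]
    linear_combination (-(s * A * θ) - s * s * θ) * t2 - (t * B * θ + θ) * s2
  have k1 : |J * (φ - 1) + (J - θ)| ≤ 8 * e ^ 2 := by
    refine (abs_add_le _ _).trans ?_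
    rw [abs_mul]
    nlinarith [mul_le_mul hJ h1 (abs_nonneg _) e0]
  rw [key]
  refine (abs_add_le _ _).trans ?_
  rw [abs_mul, abs_mul, s1, t1, abs_mul, abs_of_nonneg p0]
  nlinarith [mul_le_mul k1 p4 p0 (by positivity)]

/-- the summand of the pair inequality -/
def tm (A B θ J e α β γ s t : ℝ) : ℝ :=
  s * t * gg A B θ s t * ((α + γ * t) * (β + γ * s)) +
    J * hh A B θ s t * ((α + γ * t) * (β + γ * s)) +
    82 * e ^ 2 * hh A B θ s t * ((α + γ * t) ^ 2 + (β + γ * s) ^ 2)

theorem tm_ge (α β γ : ℝ) {s t : ℝ} (hs : s = 1 ∨ s = -1) (ht : t = 1 ∨ t = -1) :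
    s * t * (1 + θ * A * B) * ((α + γ * t) * (β + γ * s)) +
      41 * e ^ 2 * ((1 + s * A) * (1 + t * B) - 1 / 2) * ((α + γ * t) ^ 2 + (β + γ * s) ^ 2) ≤
      tm A B θ J e α β γ s t := by
  obtain ⟨h1, h2⟩ := err hA hB hθ hJ hJθ he hs ht
  unfold tm
  set u := α + γ * t
  set v := β + γ * s
  have k1 : |u * v| ≤ (u ^ 2 + v ^ 2) / 2 := abs_le.2 ⟨by nlinarith [sq_nonneg (u + v)],
    by nlinarith [sq_nonneg (u - v)]⟩
  have k2 := mul_le_mul h1 k1 (abs_nonneg _) (by positivity)
  rw [← abs_mul] at k2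
  have k3 := mul_le_mul_of_nonneg_left h2
    (show 0 ≤ 82 * e ^ 2 * (u ^ 2 + v ^ 2) by positivity)
  nlinarith [(abs_le.1 k2).1]

theorem core (α β γ : ℝ) : 0 ≤ tm A B θ J e α β γ 1 1 + tm A B θ J e α β γ 1 (-1) +
    (tm A B θ J e α β γ (-1) 1 + tm A B θ J e α β γ (-1) (-1)) := by
  have h1 := tm_ge hA hB hθ hJ hJθ he α β γ (Or.inl rfl) (Or.inl rfl)
  have h2 := tm_ge hA hB hθ hJ hJθ he α β γ (Or.inl rfl) (Or.inr rfl)
  have h3 := tm_ge hA hB hθ hJ hJθ he α β γ (Or.inr rfl) (Or.inl rfl)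
  have h4 := tm_ge hA hB hθ hJ hJθ he α β γ (Or.inr rfl) (Or.inr rfl)
  refine le_trans ?_ (add_le_add (add_le_add h1 h2) (add_le_add h3 h4))
  have e0 : 0 ≤ e := (abs_nonneg _).trans hθ
  have a1 : |θ * A * B| ≤ e := by
    rw [abs_mul, abs_mul]
    have : |θ| * |A| ≤ e := by nlinarith [abs_nonneg θ, abs_nonneg A]
    nlinarith [abs_nonneg B, mul_nonneg (abs_nonneg θ) (abs_nonneg A)]
  have q : ∀ {C a : ℝ}, |C| ≤ 1 → 0 ≤ a ^ 2 / 2 + 2 * γ ^ 2 + 2 * C * a * γ := fun {C a} hC => by
    have := abs_le.1 hC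
    nlinarith [mul_nonneg (sub_nonneg.2 this.2) (sq_nonneg (a - 2 * γ)),
      mul_nonneg (show 0 ≤ 1 + C by linarith [this.1]) (sq_nonneg (a + 2 * γ))]
  have e2 : e ^ 2 ≤ 1 / 10000 := by nlinarith
  have k1 := mul_nonneg (sq_nonneg e) (q (a := α) hB)
  have k2 := mul_nonneg (sq_nonneg e) (q (a := β) hA)
  have k3 := mul_le_mul_of_nonneg_right e2 (sq_nonneg γ)
  have k4 := mul_le_mul_of_nonneg_right (abs_le.1 a1).1 (sq_nonneg γ)
  have k5 := mul_le_mul_of_nonneg_right he (sq_nonneg γ)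
  nlinarith [sq_nonneg γ]

omit hA hB hθ hJ hJθ he

theorem link {s t : ℝ} (hs : s * s = 1) (ht : t * t = 1) (d1 : 1 + t * A * θ ≠ 0)
    (d2 : 1 + s * B * θ ≠ 0) :
    (1 + s * A) * (1 + t * B) * (1 + s * t * θ) * ((s - (A + t * θ) / (1 + t * A * θ)) *
      (t - (B + s * θ) / (1 + s * B * θ))) =
      (1 - A ^ 2) * (1 - B ^ 2) * (1 - θ ^ 2) * (s * t * gg A B θ s t) ∧
    (1 + s * A) * (1 + t * B) * (1 + s * t * θ) * ((1 - ((A + t * θ) / (1 + t * A * θ)) ^ 2) *
      (1 - ((B + s * θ) / (1 + s * B * θ)) ^ 2)) =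
      (1 - A ^ 2) * (1 - B ^ 2) * (1 - θ ^ 2) * hh A B θ s t := by
  have a1 : s - (A + t * θ) / (1 + t * A * θ) =
      s * (1 - s * A) * (1 - s * t * θ) / (1 + t * A * θ) := by
    rw [eq_div_iff d1, sub_mul, div_mul_cancel₀ _ d1]
    linear_combination (A + t * θ - s * t * A * θ) * hs
  have a2 : t - (B + s * θ) / (1 + s * B * θ) =
      t * (1 - t * B) * (1 - s * t * θ) / (1 + s * B * θ) := by
    rw [eq_div_iff d2, sub_mul, div_mul_cancel₀ _ d2]
    linear_combination (B + s * θ - s * t * B * θ) * ht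
  have a3 : 1 - ((A + t * θ) / (1 + t * A * θ)) ^ 2 =
      (1 - A ^ 2) * (1 - θ ^ 2) / (1 + t * A * θ) ^ 2 := by
    rw [eq_div_iff (pow_ne_zero 2 d1), sub_mul, div_pow, div_mul_cancel₀ _ (pow_ne_zero 2 d1)]
    linear_combination (A ^ 2 * θ ^ 2 - θ ^ 2) * ht
  have a4 : 1 - ((B + s * θ) / (1 + s * B * θ)) ^ 2 =
      (1 - B ^ 2) * (1 - θ ^ 2) / (1 + s * B * θ) ^ 2 := by
    rw [eq_div_iff (pow_ne_zero 2 d2), sub_mul, div_pow, div_mul_cancel₀ _ (pow_ne_zero 2 d2)]
    linear_combination (B ^ 2 * θ ^ 2 - θ ^ 2) * hs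
  have b1 : 1 - A ^ 2 = (1 + s * A) * (1 - s * A) := by linear_combination A ^ 2 * hs
  have b2 : 1 - B ^ 2 = (1 + t * B) * (1 - t * B) := by linear_combination B ^ 2 * ht
  have b3 : 1 - θ ^ 2 = (1 + s * t * θ) * (1 - s * t * θ) := by
    linear_combination θ ^ 2 * t * t * hs + θ ^ 2 * ht
  refine ⟨?_, by rw [a3, a4, hh, div_mul_div_comm]; ring⟩
  rw [a1, a2, gg, b1, b2, b3, div_mul_div_comm]; ring

/-! ### hyperbolic functions -/

theorem tanh_near {J : ℝ} (h : |J| ≤ 1 / 200) :
    |tanh J| ≤ 2 * |J| ∧ |J - tanh J| ≤ (2 * |J|) ^ 2 := by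
  have h1 := abs_le.1 (abs_exp_sub_one_sub_id_le (x := J) (by linarith))
  have h2 := abs_le.1 (abs_exp_sub_one_sub_id_le (x := -J) (by rw [abs_neg]; linarith))
  have c1 := one_le_cosh J
  have c2 : cosh J - 1 ≤ J ^ 2 := by rw [cosh_eq]; nlinarith
  have s1 : |J - sinh J| ≤ J ^ 2 := by rw [sinh_eq, abs_le]; constructor <;> nlinarith
  have k : |J - tanh J| ≤ 2 * J ^ 2 := by
    have : J - tanh J = (J - sinh J + J * (cosh J - 1)) / cosh J := by
      rw [tanh_eq_sinh_div_cosh]; field_simp; ring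
    rw [this, abs_div, abs_of_pos (cosh_pos J), div_le_iff₀ (cosh_pos J)]
    refine (abs_add_le _ _).trans ?_
    rw [abs_mul, abs_of_nonneg (sub_nonneg.2 c1)]
    nlinarith [mul_le_mul h c2 (sub_nonneg.2 c1) (by norm_num), sq_nonneg J]
  have q : J ^ 2 = |J| ^ 2 := (sq_abs J).symm
  refine ⟨?_, by nlinarith [sq_nonneg J]⟩
  have := abs_sub_abs_le_abs_sub (tanh J) J
  rw [abs_sub_comm] at this
  nlinarith [abs_nonneg J]

theorem exp_spin (a : ℝ) (b : Bool) : exp (spin b * a) = cosh a * (1 + spin b * tanh a) := by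
  have := (cosh_pos a).ne'
  rw [tanh_eq_sinh_div_cosh]
  cases b <;> simp only [spin, Bool.false_eq_true, if_false, if_true] <;> field_simp
  · rw [← cosh_sub_sinh]; ring
  · rw [cosh_add_sinh]

theorem exp_spin2 (a : ℝ) (b c : Bool) :
    exp (spin b * spin c * a) = cosh a * (1 + spin b * spin c * tanh a) := by
  have : spin b * spin c = spin (b == c) := by cases b <;> cases c <;> simp [spin]
  rw [this, exp_spin]

theorem den_pos' (a J : ℝ) (c : Bool) : 0 < 1 + spin c * tanh a * tanh J := by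
  have h1 := abs_tanh_lt_one a
  have h2 := abs_tanh_lt_one J
  have : |spin c * tanh a * tanh J| < 1 := by
    rw [abs_mul, abs_mul, abs_spin, one_mul]
    exact mul_lt_one_of_nonneg_of_lt_one_left (abs_nonneg _) h1 h2.le
  linarith [(abs_lt.1 this).1]

theorem tanh_add_spin (a J : ℝ) (c : Bool) :
    tanh (a + spin c * J) = (tanh a + spin c * tanh J) / (1 + spin c * tanh a * tanh J) := by
  have h1 := (cosh_pos a).ne'
  have h2 := (cosh_pos J).ne'
  have h3 := (cosh_pos (a + spin c * J)).ne'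
  rw [eq_div_iff (den_pos' a J c).ne', tanh_eq_sinh_div_cosh, tanh_eq_sinh_div_cosh,
    tanh_eq_sinh_div_cosh]
  field_simp
  rw [sinh_add, cosh_add]
  cases c <;> simp [spin] <;> ring

/-! ### the cube -/

variable {n : ℕ} {W : Mx n} (y : V n) (hW : Wᵀ = W) (hd : ∀ i, W i i = 0)

/-- energy -/
def en (W : Mx n) (y z : V n) : ℝ := 1 / 2 * (z ⬝ᵥ W *ᵥ z) + y ⬝ᵥ z

/-- mean spin given the others -/
def tu (W : Mx n) (y : V n) (x : Cube n) (i : Fin n) : ℝ := tanh ((W *ᵥ sv x + y) i)

/-- half increment -/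
def dl (f : Cube n → ℝ) (x : Cube n) (i : Fin n) : ℝ :=
  (f (update x i true) - f (update x i false)) / 2

theorem sv_upd (x : Cube n) (i : Fin n) (b : Bool) :
    sv (update x i b) = update (sv x) i 0 + Pi.single i (spin b) := by
  funext k
  by_cases h : k = i
  · subst h; simp [sv]
  · simp [sv, h]

theorem sv_upd2 (x : Cube n) {i j : Fin n} (h : i ≠ j) (b c : Bool) :
    sv (update (update x i b) j c) =
      update (update (sv x) i 0) j 0 + Pi.single i (spin b) + Pi.single j (spin c) := by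
  funext k
  by_cases hj : k = j
  · subst hj; simp [sv, h.symm]
  · by_cases hi : k = i
    · subst hi; simp [sv, hj]
    · simp [sv, hi, hj]

theorem fld_add (u : V n) (j k : Fin n) (s : ℝ) :
    (W *ᵥ (u + Pi.single j s) + y) k = (W *ᵥ u + y) k + s * W k j := by
  simp only [mulVec_add, Pi.add_apply, mulVec_single, Pi.smul_apply, col_apply, op_smul_eq_mul]
  ring

include hW hd

theorem en_add (u : V n) (i : Fin n) (s : ℝ) :
    en W y (u + Pi.single i s) = en W y u + s * (W *ᵥ u + y) i := by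
  have h1 : u ⬝ᵥ W *ᵥ Pi.single i s = s * (W *ᵥ u) i := by
    rw [dotProduct_mulVec, ← mulVec_transpose, hW, dotProduct_single, mul_comm]
  have h2 : (W *ᵥ Pi.single i s) i = 0 := by simp [hd]
  simp only [en, mulVec_add, add_dotProduct, dotProduct_add, h1, single_dotProduct, h2,
    dotProduct_single, Pi.add_apply]
  ring

omit hW in
theorem tu_upd (x : Cube n) (i : Fin n) (b : Bool) :
    tu W y (update x i b) i = tanh ((W *ᵥ update (sv x) i 0 + y) i) := by
  rw [tu, sv_upd, fld_add, hd, mul_zero, add_zero]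

theorem w_upd (x : Cube n) (i : Fin n) : ∃ K : ℝ, 0 < K ∧
    ∀ b, ising W y (update x i b) = K * (1 + spin b * tu W y x i) := by
  refine ⟨exp (en W y (update (sv x) i 0)) * cosh ((W *ᵥ update (sv x) i 0 + y) i),
    mul_pos (exp_pos _) (cosh_pos _), fun b => ?_⟩
  have : tu W y x i = tanh ((W *ᵥ update (sv x) i 0 + y) i) := by
    rw [← tu_upd y hd x i (x i), update_eq_self]
  rw [this, mul_assoc, ← exp_spin, ← exp_add, ← en_add y hW hd, ← sv_upd]
  rfl

theorem sub_siteM (f : Cube n → ℝ) (x : Cube n) (i : Fin n) :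
    f x - siteM (ising W y) f i x = (sv x i - tu W y x i) * dl f x i := by
  obtain ⟨K, hK, h⟩ := w_upd y hW hd x i
  have hx : f x = f (update x i (x i)) := by rw [update_eq_self]
  rw [siteM, h, h, hx, dl, sv]
  cases x i <;> simp only [spin, Bool.false_eq_true, if_false, if_true] <;> field_simp <;> ring

theorem dir_eq (f : Cube n → ℝ) :
    dir (ising W y) f = ∑ x, prob (ising W y) x * ∑ i, vS W y x i * dl f x i ^ 2 := by
  simp only [mul_sum]
  rw [sum_comm, dir]
  refine sum_congr rfl fun i _ => ?_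
  rw [SL.sum_flip i, SL.sum_flip i fun x => prob (ising W y) x * (vS W y x i * dl f x i ^ 2)]
  refine congrArg (· / 2) (sum_congr rfl fun x _ => ?_)
  obtain ⟨K, -, h⟩ := w_upd y hW hd x i
  have e : ∀ b, tu W y (update x i b) i = tu W y x i := fun b => by
    rw [tu_upd y hd, ← tu_upd y hd x i (x i), update_eq_self]
  have e' : ∀ b, vS W y (update x i b) i = 1 - tu W y x i ^ 2 := fun b => by rw [← e b]; rfl
  simp only [sub_siteM y hW hd, prob, h, e, e', dl, update_idem, sv, update_self, spin,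
    Bool.false_eq_true, if_false, if_true]
  ring

/-- the summand of the pair inequality on the cube -/
def G (W : Mx n) (y : V n) (f : Cube n → ℝ) (i j : Fin n) (x : Cube n) : ℝ :=
  ising W y x * ((sv x i - tu W y x i) * dl f x i * ((sv x j - tu W y x j) * dl f x j) +
    W i j * (vS W y x i * dl f x i * (vS W y x j * dl f x j)) +
    328 * W i j ^ 2 * (vS W y x i * vS W y x j * (dl f x i ^ 2 + dl f x j ^ 2)))

theorem pair (f : Cube n → ℝ) {i j : Fin n} (hij : i ≠ j) (h : |W i j| ≤ 1 / 200) :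
    0 ≤ ∑ x, G W y f i j x := by
  rw [SL.sum_flip j, SL.sum_flip i]
  refine div_nonneg (div_nonneg (sum_nonneg fun x _ => ?_) zero_le_two) zero_le_two
  have hji : W j i = W i j := by rw [← transpose_apply W, hW]
  set u : V n := update (update (sv x) i 0) j 0 with hu
  set a := (W *ᵥ u + y) i with ha
  set b := (W *ᵥ u + y) j with hb
  set F : Bool → Bool → ℝ := fun s t => f (update (update x i s) j t) with hF
  obtain ⟨t1, t2⟩ := tanh_near h
  have key : ∀ s t : Bool, G W y f i j (update (update x i s) j t) =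
      exp (en W y u) * cosh a * cosh b * cosh (W i j) *
        ((1 - tanh a ^ 2) * (1 - tanh b ^ 2) * (1 - tanh (W i j) ^ 2)) *
      tm (tanh a) (tanh b) (tanh (W i j)) (W i j) (2 * |W i j|)
        ((F true true + F true false - F false true - F false false) / 4)
        ((F true true - F true false + F false true - F false false) / 4)
        ((F true true - F true false - F false true + F false false) / 4) (spin s) (spin t) := by
    intro s t
    have e1 : ising W y (update (update x i s) j t) = exp (en W y u) * (cosh a * (1 + spin s * tanh a)) *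
        (cosh b * (1 + spin t * tanh b)) *
        (cosh (W i j) * (1 + spin s * spin t * tanh (W i j))) := by
      rw [← exp_spin, ← exp_spin, ← exp_spin2, ← exp_add, ← exp_add, ← exp_add]
      show exp (en W y _) = _
      rw [sv_upd2 x hij, en_add y hW hd, en_add y hW hd, fld_add, hji]
      congr 1; ring
    have e2 : tu W y (update (update x i s) j t) i = tanh (a + spin t * W i j) := by
      rw [tu, sv_upd2 x hij, fld_add, fld_add, hd, mul_zero, add_zero]
    have e3 : tu W y (update (update x i s) j t) j = tanh (b + spin s * W i j) := by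
      rw [tu, sv_upd2 x hij, fld_add, fld_add, hd, mul_zero, add_zero, hji]
    have e4 : dl f (update (update x i s) j t) i = (F true t - F false t) / 2 := by
      have : ∀ c, update (update (update x i s) j t) i c = update (update x i c) j t := fun c => by
        rw [update_comm hij.symm, update_idem]
      rw [dl, this, this]
    have e5 : dl f (update (update x i s) j t) j = (F s true - F s false) / 2 := by
      simp only [dl, hF, update_idem]
    have e6 : sv (update (update x i s) j t) i = spin s := by simp [sv, hij]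
    have e7 : sv (update (update x i s) j t) j = spin t := by simp [sv]
    have v : ∀ z k, vS W y z k = 1 - tu W y z k ^ 2 := fun _ _ => rfl
    have d1 := (den_pos' a (W i j) t).ne'
    have d2 := (den_pos' b (W i j) s).ne'
    obtain ⟨l1, l2⟩ := link (spin_mul_self s) (spin_mul_self t) d1 d2
    have f1 : (F true t - F false t) / 2 =
        (F true true + F true false - F false true - F false false) / 4 +
        (F true true - F true false - F false true + F false false) / 4 * spin t := by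
      cases t <;> simp only [spin, Bool.false_eq_true, if_false, if_true] <;> ring
    have f2 : (F s true - F s false) / 2 =
        (F true true - F true false + F false true - F false false) / 4 +
        (F true true - F true false - F false true + F false false) / 4 * spin s := by
      cases s <;> simp only [spin, Bool.false_eq_true, if_false, if_true] <;> ring
    rw [G, v, v, e1, e2, e3, e4, e5, e6, e7, tanh_add_spin, tanh_add_spin, tm, mul_pow 2, sq_abs,
      ← f1, ← f2]
    linear_combination exp (en W y u) * cosh a * cosh b * cosh (W i j) *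
      ((F true t - F false t) / 2 * ((F s true - F s false) / 2) * l1 +
        (W i j * ((F true t - F false t) / 2 * ((F s true - F s false) / 2)) + 328 * W i j ^ 2 *
          (((F true t - F false t) / 2) ^ 2 + ((F s true - F s false) / 2) ^ 2)) * l2)
  rw [key, key, key, key, ← mul_add, ← mul_add, ← mul_add]
  refine mul_nonneg ?_ (core (abs_tanh_lt_one a).le (abs_tanh_lt_one b).le t1
    (by linarith [abs_nonneg (W i j)]) t2 (by linarith) _ _ _)
  have p : ∀ r, 0 ≤ 1 - tanh r ^ 2 := fun r => sub_nonneg.2 (tanh_sq_lt_one r).le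
  have := p a
  have := p b
  have := p (W i j)
  have := cosh_pos a
  have := cosh_pos b
  have := cosh_pos (W i j)
  positivity

/-- the Bochner inequality -/
theorem bochner (f : Cube n → ℝ) (hn : 40000 ≤ n) (h1 : ∀ i j, W i j ^ 2 ≤ 1 / n)
    (h2 : ∀ σ, avg (vS W y σ) ≤ 1 / 2000 ∧ ∀ u : V n, (fun i => √(vS W y σ i) * u i) ⬝ᵥ W *ᵥ
      (fun i => √(vS W y σ i) * u i) ≤ 1 / 8 * (u ⬝ᵥ u)) :
    dir (ising W y) f ≤ 2 * ∑ x, prob (ising W y) x * gen (ising W y) f x ^ 2 := by
  have n0 : (40000 : ℝ) ≤ n := by exact_mod_cast hn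
  have n1 : (0 : ℝ) < n := by linarith
  have hw : ∀ x, 0 < ising W y x := fun x => exp_pos _
  have hp : ∀ x, 0 < prob (ising W y) x := Chain22.prob_pos' hw
  have hv : ∀ x i, 0 ≤ vS W y x i := fun x i => sub_nonneg.2 (tanh_sq_lt_one _).le
  set D : Cube n → Fin n → ℝ := fun x i => (sv x i - tu W y x i) * dl f x i with hD
  set U : Cube n → Fin n → ℝ := fun x i => vS W y x i * dl f x i with hU
  set Q : Cube n → ℝ := fun x => ∑ i, vS W y x i * dl f x i ^ 2 with hQ
  have hQ0 : ∀ x, 0 ≤ Q x := fun x => sum_nonneg fun i _ => mul_nonneg (hv x i) (sq_nonneg _)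
  set T : Fin n → Fin n → Cube n → ℝ := fun i j x => D x i * D x j + W i j * (U x i * U x j) +
    328 * W i j ^ 2 * (vS W y x i * vS W y x j * (dl f x i ^ 2 + dl f x j ^ 2)) with hT
  have a1 : ∀ i j, (if i = j then ∑ x, prob (ising W y) x * D x i ^ 2 else 0) ≤
      ∑ x, prob (ising W y) x * T i j x := fun i j => by
    split_ifs with h
    · subst h
      refine le_of_eq (sum_congr rfl fun x _ => ?_)
      simp only [hT, hd]; ring
    · have h3 : |W i j| ≤ 1 / 200 := abs_le_of_sq_le_sq' ((h1 i j).trans (by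
        rw [div_le_iff₀ n1]; linarith)) (by norm_num) |> abs_le.2
      have := div_nonneg (pair y hW hd f h h3) (Chain22.sum_w_pos hw).le
      rw [sum_div] at this
      refine this.trans_eq (sum_congr rfl fun x _ => ?_)
      simp only [G, prob, hT, hD, hU]; ring
  have a2 := sum_le_sum fun i (_ : i ∈ univ) => sum_le_sum fun j (_ : j ∈ univ) => a1 i j
  simp only [sum_ite_eq, mem_univ, if_true] at a2
  have a3 : ∑ i, ∑ x, prob (ising W y) x * D x i ^ 2 = dir (ising W y) f := by
    simp only [dir, sub_siteM y hW hd, hD]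
  have a4 : ∀ x, ∑ i, ∑ j, T i j x ≤ gen (ising W y) f x ^ 2 + 1 / 2 * Q x := fun x => by
    have b1 : ∑ i, ∑ j, D x i * D x j = gen (ising W y) f x ^ 2 := by
      have : gen (ising W y) f x = -∑ i, D x i := by
        rw [gen, ← sum_neg_distrib]
        exact sum_congr rfl fun i _ => by rw [hD]; simp only [← sub_siteM y hW hd]; ring
      rw [this, neg_sq, sq, sum_mul_sum]
    have b2 : ∑ i, ∑ j, W i j * (U x i * U x j) ≤ 1 / 8 * Q x := by
      have := (h2 x).2 fun i => √(vS W y x i) * dl f x i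
      simp only [← mul_assoc, mul_self_sqrt (hv x _)] at this
      refine le_of_eq_of_le ?_ (this.trans_eq ?_)
      · simp only [dotProduct, mulVec, mul_sum, hU]
        exact sum_congr rfl fun i _ => sum_congr rfl fun j _ => by ring
      · simp only [dotProduct, hQ]
        refine congrArg _ (sum_congr rfl fun i _ => ?_)
        rw [mul_mul_mul_comm, mul_self_sqrt (hv x _), sq]
    have b3 : ∑ i, ∑ j, 328 * W i j ^ 2 * (vS W y x i * vS W y x j *
        (dl f x i ^ 2 + dl f x j ^ 2)) ≤ 656 * avg (vS W y x) * Q x := by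
      refine le_trans (sum_le_sum fun i _ => sum_le_sum fun j _ => mul_le_mul_of_nonneg_right
        (mul_le_mul_of_nonneg_left (h1 i j) (by norm_num))
        (mul_nonneg (mul_nonneg (hv x i) (hv x j)) (by positivity))) (le_of_eq ?_)
      have c1 : ∑ i, ∑ j, vS W y x i * vS W y x j * (dl f x i ^ 2 + dl f x j ^ 2) =
          Q x * ∑ j, vS W y x j + (∑ j, vS W y x j) * Q x := by
        rw [hQ, sum_mul_sum, sum_mul_sum, ← sum_add_distrib]
        refine sum_congr rfl fun i _ => ?_
        rw [← sum_add_distrib]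
        exact sum_congr rfl fun j _ => by ring
      simp only [← mul_sum]
      rw [c1, avg]; ring
    simp only [hT, sum_add_distrib]
    nlinarith [mul_le_mul_of_nonneg_right (h2 x).1 (hQ0 x), hQ0 x]
  have a5 : ∑ i, ∑ j, ∑ x, prob (ising W y) x * T i j x ≤
      ∑ x, prob (ising W y) x * gen (ising W y) f x ^ 2 + 1 / 2 * dir (ising W y) f := by
    rw [dir_eq y hW hd, mul_sum, ← sum_add_distrib, sum_congr rfl fun i _ => sum_comm, sum_comm]
    refine sum_le_sum fun x _ => ?_
    simp only [← mul_sum]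
    nlinarith [mul_le_mul_of_nonneg_left (a4 x) (hp x).le]
  linarith

omit hW hd

/-- a function without energy is constant -/
theorem const_of_dir {w g : Cube n → ℝ} (hw : ∀ x, 0 < w x) (h : dir w g = 0) (x z : Cube n) :
    g x = g z := by
  have hp : ∀ x, 0 < prob w x := Chain22.prob_pos' hw
  have h1 : ∀ i x, g x = siteM w g i x := fun i x => by
    have t : ∀ i x, 0 ≤ prob w x * (g x - siteM w g i x) ^ 2 := fun i x =>
      mul_nonneg (hp x).le (sq_nonneg _)
    have := (sum_eq_zero_iff_of_nonneg fun x _ => t i x).1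
      ((sum_eq_zero_iff_of_nonneg fun i _ => sum_nonneg fun x _ => t i x).1 h i (mem_univ i)) x
      (mem_univ x)
    exact sub_eq_zero.1 (pow_eq_zero_iff two_ne_zero |>.1
      ((mul_eq_zero.1 this).resolve_left (hp x).ne'))
  have h2 : ∀ s : Finset (Fin n), g (s.piecewise x z) = g z := fun s => by
    induction s using Finset.induction_on with
    | empty => rw [piecewise_empty]
    | insert a s _ ih => rw [piecewise_insert, h1 a, Chain22.siteM_update, ← h1, ih]
  rw [← h2 univ, piecewise_univ]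

/-- Bochner implies Poincare -/
theorem poin_of {w : Cube n → ℝ} (hn : 0 < n) (hw : ∀ x, 0 < w x)
    (h : ∀ f, dir w f ≤ 2 * ∑ x, prob w x * gen w f x ^ 2) : Poin w 2 := fun f => by
  set c := Chain22.hbRC hn hw with hc
  set g : Cube n → ℝ := f - fun _ => Chain22.mean (prob w) f with hg
  have n0 : (0 : ℝ) < n := by exact_mod_cast hn
  have g0 : Chain22.mean (prob w) g = 0 := by
    rw [hg, Chain22.mean_sub, (Chain22.isP_prob' hw).mean_const, sub_self]
  have e1 : dir w f = n * c.D g g := by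
    rw [Chain22.dir_eq_D hn hw, ← c.D_add_const f (-Chain22.mean (prob w) f)]; rfl
  rw [Chain22.evar_eq, Chain22.var_eq_ip, e1, c.D_spec, mul_sum, mul_sum]
  refine (c.parseval g g).trans_le (sum_le_sum fun j _ => ?_)
  have d1 : dir w (c.φ j) = n * (1 - c.ev j) := by rw [Chain22.dir_eq_D hn hw, c.D_φ_φ]
  have d2 : ∑ x, prob w x * gen w (c.φ j) x ^ 2 = (n * (1 - c.ev j)) ^ 2 := by
    have := c.ip_φ_φ j j
    rw [if_pos rfl] at this
    refine Eq.trans ?_ ((congrArg ((n * (1 - c.ev j)) ^ 2 * ·) this).trans (mul_one _))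
    simp only [Chain22.ip, mul_sum]
    refine sum_congr rfl fun x _ => ?_
    rw [Chain22.gen_eq hn hw, ← hc, c.P_φ]
    show prob w x * _ = _ * (prob w x * _)
    simp only [Pi.smul_apply, smul_eq_mul]; ring
  have d3 := h (c.φ j)
  rw [d1, d2] at d3
  have d4 : 0 ≤ n * (1 - c.ev j) := mul_nonneg n0.le (sub_nonneg.2 (c.ev_le_one j))
  rcases d4.eq_or_lt with d5 | d5
  · obtain ⟨z⟩ := c.nonempty
    have : Chain22.ip c.π g (c.φ j) = 0 := by
      rw [show c.φ j = c.φ j z • fun _ => (1 : ℝ) from funext fun x => by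
        simpa using const_of_dir hw (d1.trans d5.symm) x z, Chain22.ip_smul_right, Chain22.ip_one]
      exact mul_eq_zero_of_right _ g0
    rw [this]; simp
  · have : 1 ≤ 2 * (n * (1 - c.ev j)) := by nlinarith
    nlinarith [mul_le_mul_of_nonneg_right this (mul_self_nonneg (Chain22.ip c.π g (c.φ j)))]

end Crest.Agent.T157.Cn.Boch64

namespace Crest.Agent.T157.Cn

/-- **Bochner criterion** -/
theorem bochStmt : BochStmt := ⟨1 / 2000, by norm_num, 40000, fun _ hn _ y hW hd h1 h2 =>
  Boch64.poin_of (by omega) (fun _ => Real.exp_pos _) fun f => Boch64.bochner y hW hd f hn h1 h2⟩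

end Crest.Agent.T157.Cn

end
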