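import Crest.Agent.T157.CrC_63
import Crest.Agent.T157.CnDef_63

/-!
# Row 157, part C (helper90): large local fields for coin couplings
-/

set_option autoImplicit false

noncomputable section

namespace Crest.Agent.T157.Cn

open MeasureTheory Filter Topology Set Real Matrix
open Crest.ProbabilityR.SpinGlassDynamics
open Crest.Agent.T157.SL Crest.Agent.T157.E Crest.Agent.T157.Pl Crest.Agent.T157.Q1

variable {n : ℕ}

namespace Fld90

theorem sinh_le_mul {x : ℝ} (hx : 0 ≤ x) : sinh x ≤ x * cosh x := by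
  have h0 : exp (-x) * exp x = 1 := by rw [← exp_add]; simp
  have h1 : (1 - x) * exp (2 * x) ≤ 1 + x := by
    rcases lt_or_ge x 1 with h | h
    · have := exp_le_two_add_div_two_sub (x := 2 * x) (by linarith) (by linarith)
      rw [le_div_iff₀ (by linarith)] at this
      linarith
    · nlinarith [exp_pos (2 * x)]
  have h2 : exp (2 * x) = exp x * exp x := by rw [← exp_add]; ring_nf
  rw [sinh_eq, cosh_eq]
  rw [h2] at h1
  have h3 := mul_le_mul_of_nonneg_left h1 (exp_pos (-x)).le
  have h4 : exp (-x) * ((1 - x) * (exp x * exp x)) = (1 - x) * exp x := by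
    calc _ = (1 - x) * exp x * (exp (-x) * exp x) := by ring
      _ = _ := by rw [h0, mul_one]
  rw [h4] at h3
  nlinarith

theorem abs_sinh_le (x : ℝ) : |sinh x| ≤ |x| * cosh x := by
  rw [abs_sinh, ← cosh_abs]; exact sinh_le_mul (abs_nonneg x)

theorem cosh_add_le (a v : ℝ) : cosh (a + v) ≤ cosh a * exp (v ^ 2 / 2 + |a| * |v|) := by
  have h1 : sinh a * sinh v ≤ (|a| * cosh a) * (|v| * cosh v) :=
    (le_abs_self _).trans (by
      rw [abs_mul]
      exact mul_le_mul (abs_sinh_le a) (abs_sinh_le v) (abs_nonneg _)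
        (mul_nonneg (abs_nonneg _) (cosh_pos _).le))
  have h2 : cosh v * (|a| * |v| + 1) ≤ exp (v ^ 2 / 2) * exp (|a| * |v|) :=
    mul_le_mul (cosh_le_exp_half_sq v) (add_one_le_exp _) (by positivity) (exp_pos _).le
  rw [cosh_add, exp_add]
  nlinarith [mul_le_mul_of_nonneg_left h2 (cosh_pos a).le]

theorem int_tilt {ι : Type*} [Fintype ι] (a v : ι → ℝ) :
    Integrable (fun g => exp (g ⬝ᵥ v)) (tilted true a) ∧
      ∫ g, exp (g ⬝ᵥ v) ∂tilted true a ≤ exp (v ⬝ᵥ v / 2 + ∑ p, |a p| * |v p|) := by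
  have e : (fun g : ι → ℝ => exp (g ⬝ᵥ a) * exp (g ⬝ᵥ v)) = fun g => exp (g ⬝ᵥ (a + v)) := by
    funext g; rw [← exp_add, dotProduct_add]
  refine ⟨(integrable_exp_mul true a _).1 (by rw [e]; exact integrable_exp_dot true _), ?_⟩
  have h := integral_exp_mul true a fun g => exp (g ⬝ᵥ v)
  rw [e, integral_exp_dot] at h
  refine le_of_mul_le_mul_left ?_ (MM_pos true a)
  rw [← h, dotProduct, Finset.sum_div, ← Finset.sum_add_distrib, exp_sum, MM, MM,
    ← Finset.prod_mul_distrib]
  refine Finset.prod_le_prod (fun _ _ => (M_pos _ _).le) fun i _ => ?_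
  rw [M_true, M_true, ← sq]
  exact cosh_add_le _ _

theorem int_PP {q a : ℝ} (hn : 0 < n) (hq : 0 ≤ q) (ha : 0 ≤ a) (x : Cube n) :
    Integrable (fun g => PP q a (Jmat n g *ᵥ sv x)) (tilted true (th n 1 • tau x)) ∧
      ∫ g, PP q a (Jmat n g *ᵥ sv x) ∂tilted true (th n 1 • tau x) ≤
        exp (n * (2 * q * exp (a + a ^ 2))) := by
  have n0 : (0 : ℝ) < n := by exact_mod_cast hn
  have s0 : 0 < √(n : ℝ) := sqrt_pos.2 n0
  set e : (Fin n → Option Bool) → Fin n → ℝ := fun s i => (s i).elim 0 spin with he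
  set v : (Fin n → Option Bool) → Pair n → ℝ := fun s p =>
    a * ((e s p.1.1 * sv x p.1.2 + e s p.1.2 * sv x p.1.1) / √n) with hv
  have e1 : ∀ g, PP q a (Jmat n g *ᵥ sv x) = ∑ s : Fin n → Option Bool,
      (∏ i, (s i).elim 1 fun _ => q) * exp (g ⬝ᵥ v s) := fun g => by
    have := prod_exp q (fun i t => t * (a * (Jmat n g *ᵥ sv x) i)) fun _ => zero_mul _
    simp only [one_mul, neg_mul] at this
    rw [PP, this]
    refine Finset.sum_congr rfl fun s _ => ?_
    congr 2
    have : g ⬝ᵥ v s = a * (e s ⬝ᵥ Jmat n g *ᵥ sv x) := by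
      rw [Nrm.bil_Jmat, Finset.mul_sum]
      exact Finset.sum_congr rfl fun p _ => by simp only [hv]; ring
    rw [this, dotProduct, Finset.mul_sum]
    exact Finset.sum_congr rfl fun i _ => by simp only [he]; ring
  have i1 : ∀ s : Fin n → Option Bool, Integrable (fun g => (∏ i, (s i).elim 1 fun _ => q) *
      exp (g ⬝ᵥ v s)) (tilted true (th n 1 • tau x)) := fun s =>
    (int_tilt _ (v s)).1.const_mul _
  simp only [e1]
  refine ⟨integrable_finsetSum _ fun s _ => i1 s, ?_⟩
  rw [integral_finsetSum _ fun s _ => i1 s]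
  have e2 := prod_exp (n := n) q (fun _ t => (a + a ^ 2) * (t * t)) fun _ => by simp
  simp only [mul_one, mul_neg, neg_neg, Finset.prod_const, Finset.card_univ,
    Fintype.card_fin] at e2
  refine le_trans (Finset.sum_le_sum fun s _ => ?_) (e2.ge.trans ?_)
  · rw [integral_const_mul]
    refine mul_le_mul_of_nonneg_left ?_ (Finset.prod_nonneg fun i _ => by
      cases s i <;> simp [hq])
    refine (int_tilt _ (v s)).2.trans ?_
    rw [← Finset.mul_sum]
    refine exp_le_exp.2 ?_
    have ee : ∀ i, |e s i| = e s i * e s i := fun i => by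
      simp only [he]
      rcases s i with _ | _ | _ <;> simp [spin]
    have b1 : ∑ p, |(th n 1 • tau x) p| * |v s p| ≤ a * (e s ⬝ᵥ e s) := by
      have h1 : ∀ p : Pair n, |(th n 1 • tau x) p| * |v s p| ≤
          a / n * (|e s p.1.1| + |e s p.1.2|) := fun p => by
        have t1 : |(th n 1 • tau x) p| = 1 / √n := by
          rw [Pi.smul_apply, smul_eq_mul, abs_mul, tau, abs_mul, abs_spin, abs_spin, th,
            abs_of_nonneg (by positivity)]
          ring
        have t2 : |e s p.1.1 * sv x p.1.2 + e s p.1.2 * sv x p.1.1| ≤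
            |e s p.1.1| + |e s p.1.2| := (abs_add_le _ _).trans (by
          simp only [abs_mul, sv, abs_spin, mul_one, le_refl])
        have t3 : |v s p| ≤ a * ((|e s p.1.1| + |e s p.1.2|) / √n) := by
          simp only [hv]
          rw [abs_mul, abs_of_nonneg ha, abs_div, abs_of_pos s0]
          exact mul_le_mul_of_nonneg_left (div_le_div_of_nonneg_right t2 s0.le) ha
        rw [t1]
        refine (mul_le_mul_of_nonneg_left t3 (by positivity)).trans_eq ?_
        have := mul_self_sqrt n0.le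
        field_simp
        rw [sq, this]; ring
      refine (Finset.sum_le_sum fun p _ => h1 p).trans ?_
      have h2 := Nrm.sum_pair_le (fun i j => |e s i| + |e s j|) (fun i j => add_comm _ _)
        (fun i => by positivity)
      simp only [Finset.sum_add_distrib, Finset.sum_const, Finset.card_univ, Fintype.card_fin,
        nsmul_eq_mul, ← Finset.mul_sum] at h2
      rw [← Finset.mul_sum, Finset.sum_add_distrib, div_mul_eq_mul_div, mul_div_assoc]
      refine mul_le_mul_of_nonneg_left ((div_le_iff₀ n0).2 ?_) ha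
      have h3 : e s ⬝ᵥ e s = ∑ i, |e s i| := Finset.sum_congr rfl fun i _ => (ee i).symm
      rw [h3]; linarith
    have b2 : v s ⬝ᵥ v s ≤ 2 * a ^ 2 * (e s ⬝ᵥ e s) := by
      have := Nrm.sum_pair_sq_le (e s) (sv x)
      rw [sv_dot_self] at this
      simp only [hv, dotProduct, ← sq, mul_pow, div_pow, sq_sqrt n0.le, ← Finset.mul_sum,
        ← Finset.sum_div] at this ⊢
      rw [mul_comm 2, mul_assoc]
      exact mul_le_mul_of_nonneg_left ((div_le_iff₀ n0).2 (by linarith)) (sq_nonneg a)
    change _ ≤ _ * (e s ⬝ᵥ e s)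
    linarith
  · rw [exp_nat_mul]
    exact pow_le_pow_left₀ (by positivity) (by linarith [add_one_le_exp (2 * q * exp (a + a ^ 2))]) n

end Fld90

/-- **large local fields**, coins -/
theorem fldC : FldC := by
  intro γ hγ
  have l := Chain22.tendsto_exp_neg_rpow_mul hγ 4
  refine Top.whp_of_real_le (by
    simpa using (tendsto_LR_lt_rpow true zero_le_one le_rfl hγ).add l) ?_
  filter_upwards [l.eventually (ge_mem_nhds one_pos), eventually_gt_atTop 0,
    ((tendsto_rpow_atTop hγ).comp tendsto_natCast_atTop_atTop).eventually_ge_atTop 30]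
    with n h1 hn hθ
  simp only [Function.comp] at hθ
  have n0 : (0 : ℝ) < n := by exact_mod_cast hn
  have eL : (n : ℝ) ^ (2 * γ) = (n : ℝ) ^ γ * (n : ℝ) ^ γ := by
    rw [← rpow_add n0]; ring_nf
  rw [eL]
  set θ := (n : ℝ) ^ γ
  set q := exp (-(6 * θ * (θ * θ) / 4))
  have I := fun x : Cube n => Fld90.int_PP hn (exp_pos (-(6 * θ * (θ * θ) / 4))).le (a := 6 * θ)
    (by linarith) x
  have := transfer_mean (n := n) true 1 (F := fun x g => PP q (6 * θ) (Jmat n g *ᵥ sv x) - 1)
    (fun x g => sub_nonneg.2 (one_le_PP (exp_pos _).le _ _)) (fun x => by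
      rw [← integrable_plant true 1 x fun g => PP q (6 * θ) (Jmat n g *ᵥ sv x) - 1]
      exact (I x).1.sub (integrable_const _)) one_pos (exp_pos (-θ))
  refine le_trans (measureReal_mono fun g hg => ?_) (this.trans (add_le_add le_rfl ?_))
  · have hw := wt_gibbs (n := n) 1 g
    simp only [mem_ofPred_eq, not_le] at hg ⊢
    rw [mean_sub, hw.mean_const]
    linarith [hw.mean_mono (exp_big_le (by linarith : 0 ≤ θ) (by nlinarith : 2 ≤ θ * θ) g)]
  set z := n * (2 * q * exp (6 * θ + (6 * θ) ^ 2))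
  have z0 : 0 ≤ z := by positivity
  have z1 : 2 * z ≤ exp (-(θ / 2)) * (n * 4) * exp (-θ) := by
    have : q * exp (6 * θ + (6 * θ) ^ 2) ≤ exp (-(θ / 2)) * exp (-θ) := by
      rw [← exp_add, ← exp_add]
      refine exp_le_exp.2 ?_
      have : 30 * (θ * θ) ≤ θ * (θ * θ) := mul_le_mul_of_nonneg_right hθ (by positivity)
      nlinarith
    nlinarith [mul_le_mul_of_nonneg_left this (show (0 : ℝ) ≤ n * 4 by positivity)]
  have z2 : z ≤ 1 := by
    nlinarith [mul_le_mul h1 (exp_le_one_iff.2 (show -θ ≤ 0 by linarith)) (exp_pos _).le zero_le_one]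
  rw [one_mul, div_le_iff₀ (exp_pos _), div_le_iff₀ (by positivity), ← card_cube]
  refine (Finset.sum_le_card_nsmul _ _ _ fun x _ => ?_).trans_eq (by
    rw [nsmul_eq_mul, Finset.card_univ, mul_comm])
  rw [← integral_plant true 1 x fun g => PP q (6 * θ) (Jmat n g *ᵥ sv x) - 1,
    integral_sub (I x).1 (integrable_const _)]
  simp only [integral_const, probReal_univ, smul_eq_mul, mul_one]
  have := abs_exp_sub_one_le (x := z) (by rwa [abs_of_nonneg z0])
  rw [abs_of_nonneg z0] at this
  have h2 := (I x).2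
  linarith [le_abs_self (exp z - 1)]

end Crest.Agent.T157.Cn

end
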