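import Crest.Agent.T157.CnDef_63

/-!
# Row 157, part C (helper22): the frozen regime for coins
-/

set_option autoImplicit false

noncomputable section

namespace Crest.Agent.T157.Cn

open MeasureTheory Set Matrix Real Filter
open Crest.ProbabilityR.SpinGlassDynamics
open Crest.Agent.T157.E Crest.Agent.T157.Eig Crest.Agent.T157.Top Crest.Agent.T157.Tap

variable {n : ℕ}

namespace Fro22

theorem whp_sq : Whp (couplingLaw true) fun n g => ∀ i j, Jmat n g i j ^ 2 ≤ 1 / n := by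
  have h : ∀ᵐ x ∂entryLaw true, x ^ 2 = 1 := by
    change ∀ᵐ x ∂coin, x ^ 2 = 1
    rw [ae_add_measure_iff]
    exact ⟨Measure.ae_smul_measure (by simp) _, Measure.ae_smul_measure (by simp) _⟩
  have h0 : ∀ n, couplingLaw true n {g | ¬ ∀ i j, Jmat n g i j ^ 2 ≤ 1 / n} = 0 := fun n => by
    have h2 : ∀ᵐ g ∂(Measure.pi fun _ : Pair n => entryLaw true), ∀ p, g p ^ 2 = 1 :=
      ae_all_iff.2 fun p =>
        (measurePreserving_eval (fun _ : Pair n => entryLaw true) p).quasiMeasurePreserving.ae h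
    rw [couplingLaw_eq, ← ae_iff]
    filter_upwards [h2] with g hg i j
    unfold Jmat
    split_ifs
    · rw [div_pow, hg, sq_sqrt (Nat.cast_nonneg n)]
    · rw [div_pow, hg, sq_sqrt (Nat.cast_nonneg n)]
    · simp
  simp only [Whp, h0]
  exact tendsto_const_nhds

theorem v_mul_le (x : ℝ) : (1 - tanh x ^ 2) * x ^ 2 ≤ 1 := by
  have hc := cosh_pos x
  have h1 : x ^ 2 ≤ sinh x ^ 2 := by
    rw [sq_le_sq, abs_sinh]
    exact self_le_sinh_iff.2 (abs_nonneg x)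
  have h2 : 1 - tanh x ^ 2 = 1 / cosh x ^ 2 := by
    rw [tanh_eq_sinh_div_cosh]; field_simp; rw [cosh_sq]; ring
  rw [h2, div_mul_eq_mul_div, one_mul, div_le_one (by positivity), cosh_sq]
  linarith

theorem v_nonneg (x : ℝ) : 0 ≤ 1 - tanh x ^ 2 := by
  have := abs_tanh_lt_one x
  rw [sub_nonneg, sq_le_one_iff_abs_le_one]; exact this.le

theorem v_le {T s a h : ℝ} (hs : s ^ 2 = 1) :
    (1 - tanh (h + (T * s + a)) ^ 2) * T ^ 2 ≤ 2 + 4 * a ^ 2 + 4 * h ^ 2 := by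
  set x := h + (T * s + a) with hx
  have h1 := v_mul_le x
  have h2 := v_nonneg x
  have h3 : 1 - tanh x ^ 2 ≤ 1 := by nlinarith [sq_nonneg (tanh x)]
  have h4 : T ^ 2 ≤ 2 * x ^ 2 + (4 * a ^ 2 + 4 * h ^ 2) := by
    have : T ^ 2 = (x - (a + h)) ^ 2 := by rw [hx]; linear_combination -T ^ 2 * hs
    nlinarith [sq_nonneg (x + (a + h)), sq_nonneg (a - h)]
  nlinarith [mul_le_mul_of_nonneg_left h4 h2,
    mul_le_mul_of_nonneg_right h3 (by positivity : 0 ≤ 4 * a ^ 2 + 4 * h ^ 2)]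

theorem avg_le (hn : 0 < n) {J : Mx n} (hJ : opn J ≤ 3) {T η : ℝ} (hT : 0 < T) (hη : 0 ≤ η)
    {σ : Cube n} {y : V n} (hy : nrm (y - T • sv σ) ≤ η * T * √n) (x : Cube n) :
    avg (vS J y x) ≤ 38 / T ^ 2 + 4 * η ^ 2 := by
  have hn' : (0 : ℝ) < n := by exact_mod_cast hn
  set a := y - T • sv σ with ha
  set h := J *ᵥ sv x with hh
  have h1 : a ⬝ᵥ a ≤ (η * T) ^ 2 * n := by
    have := (nrm_le_iff (by positivity)).1 hy
    rwa [mul_pow, sq_sqrt hn'.le] at this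
  have h2 : h ⬝ᵥ h ≤ 9 * n := by
    have h3 : nrm h ≤ 3 * √n := (nrm_mulVec_le _ _).trans (by
      rw [nrm, sv_dot_self]; exact mul_le_mul_of_nonneg_right hJ (sqrt_nonneg _))
    have := (nrm_le_iff (by positivity)).1 h3
    rwa [mul_pow, sq_sqrt hn'.le, show (3 : ℝ) ^ 2 = 9 by norm_num] at this
  have h4 : ∀ i, vS J y x i * T ^ 2 ≤ 2 + 4 * (a i * a i) + 4 * (h i * h i) := fun i => by
    have := v_le (T := T) (a := a i) (h := h i) (spin_sq (σ i))
    have e : (J *ᵥ sv x + y) i = h i + (T * spin (σ i) + a i) := by simp [ha, hh, sv]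
    rw [vS, e]; nlinarith
  have h5 := Finset.sum_le_sum fun i (_ : i ∈ Finset.univ) => h4 i
  rw [← Finset.sum_mul, Finset.sum_add_distrib, Finset.sum_add_distrib, ← Finset.mul_sum,
    ← Finset.mul_sum] at h5
  simp only [Finset.sum_const, Finset.card_univ, Fintype.card_fin, nsmul_eq_mul] at h5
  change _ ≤ _ + 4 * (a ⬝ᵥ a) + 4 * (h ⬝ᵥ h) at h5
  rw [avg, div_le_iff₀ hn', ← mul_le_mul_iff_left₀ (pow_pos hT 2)]
  have e : (38 / T ^ 2 + 4 * η ^ 2) * n * T ^ 2 = 38 * n + 4 * ((η * T) ^ 2 * n) := by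
    field_simp
  rw [e]; linarith

theorem quad_le {W : Mx n} {ε : ℝ} (hF : Frz W ε) {t : ℝ} (ht : t ∈ Icc (0 : ℝ) 1) {v : V n}
    (h0 : ∀ i, 0 ≤ v i) (h1 : ∀ i, v i ≤ 1) (hv : avg v ≤ ε) (u : V n) :
    (fun i => √(v i) * u i) ⬝ᵥ ((1 - t) • W) *ᵥ (fun i => √(v i) * u i) ≤ 1 / 8 * (u ⬝ᵥ u) := by
  have h2 := hF (fun i => √(v i)) (fun i => ⟨sqrt_nonneg _, sqrt_le_one.2 (h1 i)⟩)
    (by simpa only [sq_sqrt (h0 _)] using hv)
  have h3 := ((le_abs_self _).trans (abs_quad_le _ u)).trans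
    (mul_le_mul_of_nonneg_right h2 (dot_self_nonneg u))
  have e : u ⬝ᵥ (diagonal (fun i => √(v i)) * W * diagonal fun i => √(v i)) *ᵥ u =
      (fun i => √(v i) * u i) ⬝ᵥ W *ᵥ fun i => √(v i) * u i := by
    rw [← mulVec_mulVec, ← mulVec_mulVec, dotProduct_mulVec u]
    congr 1
    · ext i; rw [vecMul_diagonal, mul_comm]
    · congr 1; ext i; rw [mulVec_diagonal]
  rw [e] at h3
  rw [smul_mulVec, dotProduct_smul, smul_eq_mul]
  have h4 := dot_self_nonneg u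
  nlinarith [ht.1, ht.2, mul_le_mul_of_nonneg_left h3 (sub_nonneg.2 ht.2)]

end Fro22

open Fro22

theorem froGlue : FroGlue := by
  rintro ⟨ε₁, hε₁, n₀, hB⟩ ⟨ε₂, hε₂, hF⟩ hO
  obtain ⟨η, hη, hη1, hη2⟩ : ∃ η : ℝ, 0 < η ∧ η ≤ 1 ∧ 8 * η ≤ min ε₁ ε₂ :=
    ⟨min 1 (min ε₁ ε₂ / 8), by positivity, min_le_left _ _, by
      linarith [min_le_right 1 (min ε₁ ε₂ / 8)]⟩
  have hT : 0 < 48 / η ^ 2 := by positivity
  have hTη : η ^ 2 * (48 / η ^ 2) = 48 := by field_simp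
  set T := 48 / η ^ 2
  have hη3 : η ^ 2 ≤ η := by nlinarith
  have h48 : 48 ≤ η * T := by nlinarith
  have hav : 38 / T ^ 2 + 4 * η ^ 2 ≤ min ε₁ ε₂ := by
    have : 38 / T ^ 2 ≤ η ^ 2 := by
      rw [div_le_iff₀ (by positivity)]; nlinarith
    linarith
  refine ⟨T, hT, η, 2, by norm_num, h48, by linarith, ((hF.and hO).and whp_sq).mono ?_⟩
  filter_upwards [eventually_ge_atTop n₀, eventually_gt_atTop 0] with n hn hn0
  rintro g ⟨⟨hF, hO⟩, hs⟩ t ht σ y hy u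
  have ht1 : |1 - t| ≤ 1 := abs_le.2 ⟨by linarith [ht.2], by linarith [ht.1]⟩
  have hO' : opn ((1 - t) • Jmat n g) ≤ 3 := by
    rw [opn_smul]; exact (mul_le_of_le_one_left (opn_nonneg _) ht1).trans hO
  have hP := hB n hn ((1 - t) • Jmat n g) y (by rw [transpose_smul, Jmat_transpose])
    (fun i => by simp [Jmat_diag]) (fun i j => by
      rw [Matrix.smul_apply, smul_eq_mul, mul_pow]
      exact (mul_le_of_le_one_left (sq_nonneg _) ((sq_le_one_iff_abs_le_one _).2 ht1)).trans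
        (hs i j)) fun x => by
      have h := (avg_le hn0 hO' hT hη.le hy x).trans hav
      exact ⟨h.trans (min_le_left _ _), quad_le hF ht (fun i => v_nonneg _)
        (fun i => sub_le_self _ (sq_nonneg _)) (h.trans (min_le_right _ _))⟩
  rw [covM, SL.covMat_quad, ← SL.var_eq_cov]
  exact (hP _).trans (mul_le_mul_of_nonneg_left (TopA.dir_lin_le (fun x => exp_pos _) u) zero_le_two)

end Crest.Agent.T157.Cn

end
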