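import Crest.Agent.T157.EdAllA_88
import Crest.Agent.T157.EdLb_88

/-!
# Row 157, part E: existence and universality of the edge limit, unconditional (helper88)
-/

set_option autoImplicit false

namespace Crest.Agent.T157.Ed.All

open Crest.Agent.T157.Ed

theorem edgeTStmt : EdgeTStmt := edgeT_of Lb88.lbStmt
theorem limStmt : LimStmt := lim_of Lb88.lbStmt
theorem nondegStmt : NondegStmt := nondeg_of Lb88.lbStmt
theorem mbStmt : MbStmt := mb_of Lb88.lbStmt
theorem tailStmt : TailStmt := tail_of Lb88.lbStmt
theorem univStmt : UnivStmt := univ_of Lb88.lbStmt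
theorem edgeStmt : EdgeStmt := edge_of Lb88.lbStmt

end Crest.Agent.T157.Ed.All
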