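import Crest.Agent.T157.CnDef_63
import Crest.Agent.T157.NrmS_84
import Crest.Agent.T157.EdAll_88

/-!
# Row 157, part C (helper49): `OpnC` and `FrzC`

* `opn_three b`: `‖J‖ ≤ 3` with high probability (from the tail of the edge), both laws;
* `whp_sub b`: all principal blocks of at most `κ n` sites have norm at most `1/16`;
* `frz b`: `Frz (Jmat n g) ε` with high probability, both laws.
-/

set_option autoImplicit false

noncomputable section

namespace Crest.Agent.T157.Cn

open MeasureTheory ProbabilityTheory Matrix Real Filter Topology Finset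
open Crest.ProbabilityR.SpinGlassDynamics
open Crest.Agent.T157.E Crest.Agent.T157.Eig Crest.Agent.T157.Top Crest.Agent.T157.Tap

namespace Frz49

variable {n : ℕ}

theorem opn_three (b : Bool) : Whp (couplingLaw b) fun n g => opn (Jmat n g) ≤ 3 := by
  obtain ⟨C, hC⟩ := Ed.All.tailStmt.2 1 zero_le_one
  have ht : Tendsto Ed.tau atTop atTop :=
    (tendsto_rpow_atTop (by norm_num)).comp tendsto_natCast_atTop_atTop
  refine whp_of_real_le (a := fun n => 2 * C * exp (-(Ed.tau n))) ?_ ?_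
  · simpa using (tendsto_exp_neg_atTop_nhds_zero.comp ht).const_mul (2 * C)
  filter_upwards [hC, ht.eventually_gt_atTop 0] with n hn h0
  obtain ⟨h1, h2⟩ := hn b (Ed.tau n) h0.le le_rfl
  have hs : {g | ¬ opn (Jmat n g) ≤ 3} ⊆ {g | Ed.Lam n (Jmat n g) 0 ≤ -Ed.tau n} ∪
      {g | Ed.Lam n (-Jmat n g) 0 ≤ -Ed.tau n} := by
    intro g hg
    have hg' : 3 < opn (Jmat n g) := not_le.1 hg
    rw [opn_eq_max (Jmat_isHermitian g), lt_max_iff] at hg'
    rcases hg' with h | h
    · left
      show Ed.tau n * (2 - lam (Jmat n g) 0) ≤ -Ed.tau n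
      nlinarith
    · right
      show Ed.tau n * (2 - lam (-Jmat n g) 0) ≤ -Ed.tau n
      nlinarith
  refine (measureReal_mono hs (measure_ne_top _ _)).trans ((measureReal_union_le _ _).trans ?_)
  rw [one_mul] at h1 h2
  linarith

/-- the principal block on `S` -/
def blk (J : Mx n) (S : Finset (Fin n)) : Matrix S S ℝ := J.submatrix Subtype.val Subtype.val

lemma bil_blk (J : Mx n) (S : Finset (Fin n)) (c e : S → ℝ) :
    c ⬝ᵥ blk J S *ᵥ e = (emb Subtype.val *ᵥ c) ⬝ᵥ J *ᵥ (emb Subtype.val *ᵥ e) := by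
  rw [blk, ← emb_compress, ← mulVec_mulVec, ← mulVec_mulVec, dotProduct_mulVec, vecMul_transpose]

lemma emb_dot (S : Finset (Fin n)) (c : S → ℝ) :
    (emb (Subtype.val : S → Fin n) *ᵥ c) ⬝ᵥ (emb Subtype.val *ᵥ c) = c ⬝ᵥ c :=
  dot_isom (emb_isom Subtype.val_injective) c c

lemma blk_tail (b : Bool) (hn : 0 < n) (S : Finset (Fin n)) :
    (couplingLaw b n).real {g | 1 / 16 < opn (blk (Jmat n g) S)} ≤
      25 ^ S.card * exp (-(n / 16384)) := by
  have hn' : (0 : ℝ) < n := Nat.cast_pos.2 hn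
  rw [couplingLaw_eq]
  obtain ⟨N, hNc, hN1, hN⟩ := Nrm.exists_half_net S
  have hsub : {g | 1 / 16 < opn (blk (Jmat n g) S)} ⊆
      ⋃ q ∈ N ×ˢ N, {g : Pair n → ℝ | 1 / 64 ≤
        (emb Subtype.val *ᵥ q.1) ⬝ᵥ Jmat n g *ᵥ (emb Subtype.val *ᵥ q.2)} := by
    intro g hg
    by_contra hc
    simp only [Set.mem_iUnion, not_exists, Set.mem_ofPred_eq, not_le, mem_product] at hc
    have := Nrm.opn_le_of_net hN hN (A := blk (Jmat n g) S) (M := 1 / 64) fun c hc' d hd => by
      rw [bil_blk]; exact (hc (c, d) ⟨hc', hd⟩).le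
    have hg' : 1 / 16 < opn (blk (Jmat n g) S) := hg
    linarith
  have h1 : ∀ q ∈ N ×ˢ N, (Measure.pi fun _ : Pair n => entryLaw b).real
      {g : Pair n → ℝ | 1 / 64 ≤ (emb Subtype.val *ᵥ q.1) ⬝ᵥ Jmat n g *ᵥ (emb Subtype.val *ᵥ q.2)} ≤
      exp (-(n / 16384)) := by
    intro q hq
    rw [mem_product] at hq
    have a1 := (nrm_le_iff zero_le_one).1 (hN1 _ hq.1)
    have a2 := (nrm_le_iff zero_le_one).1 (hN1 _ hq.2)
    have := (Nrm.subG_bil_Jmat (fun _ : Pair n => entryLaw b) (fun _ => Nrm.subG_entryLaw b)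
      (u := emb Subtype.val *ᵥ q.1) (v := emb Subtype.val *ᵥ q.2)
      (c := NNReal.mk (2 / n) (by positivity)) (by
      rw [NNReal.coe_mk, emb_dot, emb_dot]
      refine div_le_div_of_nonneg_right ?_ hn'.le
      nlinarith [dot_self_nonneg q.1, dot_self_nonneg q.2])).measure_ge_le
      (ε := 1 / 64) (by positivity)
    refine this.trans (le_of_eq ?_)
    rw [NNReal.coe_mk]
    congr 1
    field_simp
    ring
  refine (measureReal_mono hsub (measure_ne_top _ _)).trans
    ((measureReal_biUnion_finset_le _ _).trans ((sum_le_sum h1).trans ?_))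
  rw [sum_const, card_product, nsmul_eq_mul]
  refine mul_le_mul_of_nonneg_right ?_ (exp_pos _).le
  have h6 : (N.card : ℝ) ≤ 5 ^ S.card := by simpa using (Nat.cast_le (α := ℝ)).2 hNc
  push_cast
  rw [show (25 : ℝ) = 5 * 5 by norm_num, mul_pow]
  exact mul_le_mul h6 h6 (Nat.cast_nonneg _) (by positivity)

/-- weighted count of the small sets -/
lemma count_le (L k : ℝ) (hL : 0 ≤ L) :
    ∑ S ∈ (univ : Finset (Finset (Fin n))).filter (fun S => (S.card : ℝ) ≤ k), (25 : ℝ) ^ S.card ≤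
      exp (L * k + n * (25 * exp (-L))) := by
  have h1 : ∑ S ∈ (univ : Finset (Finset (Fin n))).filter (fun S => (S.card : ℝ) ≤ k),
      (25 : ℝ) ^ S.card ≤ ∑ S : Finset (Fin n), exp (L * k) * (25 * exp (-L)) ^ S.card := by
    refine (sum_le_sum fun S hS => ?_).trans
      (sum_le_sum_of_subset_of_nonneg (filter_subset _ _) fun S _ _ => by positivity)
    have hk := (mem_filter.1 hS).2
    rw [mul_pow, ← exp_nat_mul, mul_left_comm, ← exp_add]
    refine le_mul_of_one_le_right (by positivity) (one_le_exp ?_)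
    nlinarith
  refine h1.trans ?_
  rw [← mul_sum, exp_add]
  refine mul_le_mul_of_nonneg_left ?_ (exp_pos _).le
  have h2 := Finset.sum_pow_mul_eq_add_pow (25 * exp (-L)) (1 : ℝ) (univ : Finset (Fin n))
  simp only [one_pow, mul_one, powerset_univ, card_univ, Fintype.card_fin] at h2
  rw [h2, exp_nat_mul]
  exact pow_le_pow_left₀ (by positivity) (add_one_le_exp _) n

theorem whp_sub (b : Bool) : ∃ κ > (0 : ℝ), Whp (couplingLaw b) fun n g =>
    ∀ S : Finset (Fin n), (S.card : ℝ) ≤ κ * n → opn (blk (Jmat n g) S) ≤ 1 / 16 := by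
  set L : ℝ := log (100 * 16384) with hL
  have hL0 : 0 < L := log_pos (by norm_num)
  have hE : exp (-L) = 1 / (100 * 16384) := by
    rw [exp_neg, hL, exp_log (by norm_num), one_div]
  refine ⟨1 / (4 * 16384 * L), by positivity, ?_⟩
  refine whp_of_real_le (a := fun n : ℕ => exp (-(n / 32768 : ℝ))) ?_ ?_
  · exact tendsto_exp_neg_atTop_nhds_zero.comp
      (tendsto_natCast_atTop_atTop.atTop_div_const (by norm_num))
  filter_upwards [eventually_gt_atTop 0] with n hn
  set k : ℝ := 1 / (4 * 16384 * L) * n with hk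
  have hs : {g | ¬ ∀ S : Finset (Fin n), (S.card : ℝ) ≤ k → opn (blk (Jmat n g) S) ≤ 1 / 16} ⊆
      ⋃ S ∈ (univ : Finset (Finset (Fin n))).filter (fun S => (S.card : ℝ) ≤ k),
        {g | 1 / 16 < opn (blk (Jmat n g) S)} := by
    intro g hg
    simp only [Set.mem_ofPred_eq, not_forall, not_le] at hg
    obtain ⟨S, h1, h2⟩ := hg
    exact Set.mem_biUnion (mem_filter.2 ⟨mem_univ S, h1⟩) h2
  refine (measureReal_mono hs (measure_ne_top _ _)).trans
    ((measureReal_biUnion_finset_le _ _).trans ((sum_le_sum fun S _ => blk_tail b hn S).trans ?_))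
  rw [← sum_mul]
  refine (mul_le_mul_of_nonneg_right (count_le L k hL0.le) (exp_pos _).le).trans ?_
  rw [← exp_add, hE]
  refine exp_le_exp.2 (le_of_eq ?_)
  rw [hk]
  field_simp
  ring

/-- deterministic part -/
lemma frz_of {J : Mx n} (hJ : J.IsHermitian) (h18 : opn J ≤ 18) {κ : ℝ} (hn : 0 < n)
    (hS : ∀ S : Finset (Fin n), (S.card : ℝ) ≤ κ * n → opn (blk J S) ≤ 1 / 16) :
    Frz J (κ / 360000) := by
  intro d hd hav
  have hn' : (0 : ℝ) < n := Nat.cast_pos.2 hn
  set S : Finset (Fin n) := univ.filter fun i => 1 / 600 < d i with hSd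
  have hc : (S.card : ℝ) ≤ κ * n := by
    have h1 : (S.card : ℝ) * (1 / 360000) ≤ ∑ i, d i ^ 2 := by
      calc (S.card : ℝ) * (1 / 360000) = ∑ _i ∈ S, (1 / 360000 : ℝ) := by
            rw [sum_const, nsmul_eq_mul]
        _ ≤ ∑ i ∈ S, d i ^ 2 := sum_le_sum fun i hi => by
            have := (mem_filter.1 hi).2
            nlinarith
        _ ≤ _ := sum_le_sum_of_subset_of_nonneg (subset_univ _) fun i _ _ => sq_nonneg _
    rw [avg, div_le_iff₀ hn'] at hav
    linarith
  have hA : (diagonal d * J * diagonal d).IsHermitian := by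
    have := isHermitian_conjTranspose_mul_mul (diagonal d) hJ
    simpa using this
  refine opn_le_of_quad hA (by norm_num) fun v => ?_
  have e0 : v ⬝ᵥ (diagonal d * J * diagonal d) *ᵥ v = (d * v) ⬝ᵥ J *ᵥ (d * v) := by
    have e : ∀ w : V n, diagonal d *ᵥ w = d * w := fun w => by ext i; simp [mulVec_diagonal]
    rw [← mulVec_mulVec, ← mulVec_mulVec, e, e]
    simp only [dotProduct, Pi.mul_apply]
    exact sum_congr rfl fun i _ => by ring
  set x : V n := d * v with hx
  set y : S → ℝ := fun i => x i with hy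
  set a : V n := emb (Subtype.val : S → Fin n) *ᵥ y with ha
  have haa : ∀ i, a i = if i ∈ S then x i else 0 := fun i => by
    simp only [ha, mulVec, dotProduct, emb, of_apply, ite_mul, one_mul, zero_mul]
    split_ifs with h
    · rw [sum_eq_single ⟨i, h⟩ (fun j _ hj => if_neg fun e => hj (Subtype.ext e.symm))
        (fun h' => absurd (mem_univ _) h'), if_pos rfl]
    · exact sum_eq_zero fun j _ => if_neg fun e : i = j => h (by rw [e]; exact j.2)
  have hv := nrm_nonneg v
  have hxi : ∀ i, x i * x i ≤ v i * v i := fun i => by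
    have h1 := (hd i).1
    have h2 := (hd i).2
    have h3 : d i * d i ≤ 1 := by nlinarith
    have : x i * x i = d i * d i * (v i * v i) := by simp only [hx, Pi.mul_apply]; ring
    rw [this]
    exact mul_le_of_le_one_left (mul_self_nonneg _) h3
  have nx : nrm x ≤ nrm v := by
    rw [nrm_le_iff hv, nrm_sq]
    exact sum_le_sum fun i _ => hxi i
  have da : a ⬝ᵥ a ≤ v ⬝ᵥ v := sum_le_sum fun i _ => by
    rw [haa]
    split_ifs
    · exact hxi i
    · rw [mul_zero]; exact mul_self_nonneg _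
  have na : nrm a ≤ nrm v := by rwa [nrm_le_iff hv, nrm_sq]
  have nb : nrm (x - a) ≤ 1 / 600 * nrm v := by
    rw [nrm_le_iff (by positivity), mul_pow, nrm_sq, dotProduct, dotProduct, mul_sum]
    refine sum_le_sum fun i _ => ?_
    rw [Pi.sub_apply, haa]
    split_ifs with h
    · rw [sub_self, mul_zero]; exact mul_nonneg (by positivity) (mul_self_nonneg _)
    · have h1 : d i ≤ 1 / 600 := by simpa [hSd] using h
      have h2 := (hd i).1
      have : (x i - 0) * (x i - 0) = d i * d i * (v i * v i) := by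
        simp only [hx, Pi.mul_apply]; ring
      rw [this]
      exact mul_le_mul_of_nonneg_right (by nlinarith) (mul_self_nonneg _)
  have e1 : x ⬝ᵥ J *ᵥ x = a ⬝ᵥ J *ᵥ a + a ⬝ᵥ J *ᵥ (x - a) + (x - a) ⬝ᵥ J *ᵥ x := by
    rw [mulVec_sub, dotProduct_sub, sub_dotProduct]; ring
  have b1 : |a ⬝ᵥ J *ᵥ a| ≤ 1 / 16 * (v ⬝ᵥ v) := by
    rw [ha, ← bil_blk]
    refine (abs_quad_le _ _).trans ?_
    rw [← emb_dot S y]
    exact mul_le_mul (hS S hc) da (dot_self_nonneg _) (by norm_num)
  have o0 := opn_nonneg J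
  have b2 : |a ⬝ᵥ J *ᵥ (x - a)| ≤ 18 * (nrm v * (1 / 600 * nrm v)) :=
    (abs_bil_le J a (x - a)).trans (mul_le_mul h18 (mul_le_mul na nb (nrm_nonneg _) hv)
      (mul_nonneg (nrm_nonneg _) (nrm_nonneg _)) (by norm_num))
  have b3 : |(x - a) ⬝ᵥ J *ᵥ x| ≤ 18 * (1 / 600 * nrm v * nrm v) :=
    (abs_bil_le J (x - a) x).trans (mul_le_mul h18 (mul_le_mul nb nx (nrm_nonneg _) (by positivity))
      (mul_nonneg (nrm_nonneg _) (nrm_nonneg _)) (by norm_num))
  rw [e0, e1]
  have t := (abs_add_le _ ((x - a) ⬝ᵥ J *ᵥ x)).trans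
    (add_le_add ((abs_add_le _ _).trans (add_le_add b1 b2)) b3)
  have := nrm_mul_self v
  have := dot_self_nonneg v
  nlinarith

theorem frz (b : Bool) : ∃ ε > (0 : ℝ), Whp (couplingLaw b) fun n g => Frz (Jmat n g) ε := by
  obtain ⟨κ, hκ, h⟩ := whp_sub b
  refine ⟨κ / 360000, by positivity, ((opn_three b).and h).mono ?_⟩
  filter_upwards [eventually_gt_atTop 0] with n hn g hg
  exact frz_of (Jmat_isHermitian g) (by linarith [hg.1]) hn hg.2

end Frz49

theorem opnC : OpnC := Frz49.opn_three true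

theorem frzC : FrzC := Frz49.frz true

end Crest.Agent.T157.Cn

end
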