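import Crest.Agent.T157.PathB_90

/-!
# Row 157, part C: products of squashed values determine the cylinder integrals (helper90)

For a continuous injective `q : ℝ → ℝ` with `|q| ≤ 1` (e.g. `Real.tanh`) and tight coordinates,
convergence (resp. asymptotic equality under the two coupling laws) of `E ∏ q (X i)` gives the same
for all cylinder functions.
-/

set_option autoImplicit false
set_option linter.unusedSectionVars false

noncomputable section

namespace Crest.Agent.T157.Soft

open MeasureTheory Filter Topology Set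
open Crest.ProbabilityR.SpinGlassDynamics

/-- product of squashed coordinates along a list of indices -/
def mon {I : Type*} (q : ℝ → ℝ) (l : List I) (x : I → ℝ) : ℝ := (l.map fun i => q (x i)).prod

section
variable {I : Type*} {q : ℝ → ℝ}

lemma measurable_mon (hq : Continuous q) (l : List I) : Measurable (mon q l) := by
  induction l with
  | nil => exact measurable_const
  | cons i l ih => exact (hq.measurable.comp (measurable_pi_apply i)).mul ih

lemma abs_mon_le (hb : ∀ x, |q x| ≤ 1) (l : List I) (x : I → ℝ) : |mon q l x| ≤ 1 := by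
  induction l with
  | nil => simp [mon]
  | cons i l ih =>
    rw [mon, List.map_cons, List.prod_cons, abs_mul]
    exact mul_le_one₀ (hb _) (abs_nonneg _) ih

lemma cyl_poly_approx (hq : Continuous q) (hinj : Function.Injective q) (hb : ∀ x, |q x| ≤ 1)
    {φ : (I → ℝ) → ℝ} (hφ : IsCyl φ) : ∃ (s : Finset I) (K : ℝ), 0 ≤ K ∧ (∀ x, |φ x| ≤ K) ∧
      ∀ M ε : ℝ, 0 < ε → ∃ p ∈ Submodule.span ℝ (range (mon (I := I) q)),
        (∀ x, |p x| ≤ K + ε) ∧ ∀ x, (∀ i ∈ s, |x i| ≤ M) → |φ x - p x| ≤ ε := by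
  have hc := hφ.continuous
  obtain ⟨s, K, hK, hbd, hl⟩ := hφ
  refine ⟨s, K, hK, hbd, fun M ε hε => ?_⟩
  have he : IsClosedEmbedding fun x : Icc (-M) M => q x :=
    (hq.comp continuous_subtype_val).isClosedEmbedding (hinj.comp Subtype.val_injective)
  obtain ⟨r, hr⟩ := ContinuousMap.exists_extension' he
    (⟨Subtype.val, continuous_subtype_val⟩ : C(Icc (-M) M, ℝ))
  let co : I → C(I → Icc (-1 : ℝ) 1, ℝ) := fun i => ⟨fun u => u i, by fun_prop⟩
  have hA : (Algebra.adjoin ℝ (range co)).SeparatesPoints := by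
    intro u v huv
    obtain ⟨i, hi⟩ := Function.ne_iff.1 huv
    exact ⟨co i, ⟨_, Algebra.subset_adjoin (mem_range_self i), rfl⟩, fun h => hi (Subtype.ext h)⟩
  obtain ⟨⟨g, hg⟩, hg'⟩ := ContinuousMap.exists_mem_subalgebra_near_continuous_of_separatesPoints _ hA
    (fun u => φ fun i => r (u i)) (hc.comp (by fun_prop)) ε hε
  let Q : (I → ℝ) → I → Icc (-1 : ℝ) 1 := fun x i => ⟨q (x i), abs_le.1 (hb _)⟩
  have hg'' : ∀ x, |g (Q x) - φ fun i => r (q (x i))| ≤ ε := fun x => (hg' (Q x)).le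
  refine ⟨fun x => g (Q x), ?_, fun x => ?_, fun x hx => ?_⟩
  · have hg2 : g ∈ Submodule.span ℝ (Submonoid.closure (range co) : Set C(I → Icc (-1 : ℝ) 1, ℝ)) := by
      rw [← Algebra.adjoin_eq_span]; exact hg
    clear hg' hg'' hg
    induction hg2 using Submodule.span_induction with
    | mem f hf =>
      refine Submodule.subset_span ?_
      induction hf using Submonoid.closure_induction with
      | mem f hf => obtain ⟨i, rfl⟩ := hf; exact ⟨[i], funext fun x => by simp [mon, co, Q]⟩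
      | one => exact ⟨[], funext fun x => by simp [mon]⟩
      | mul f f' _ _ h h' =>
        obtain ⟨l, hl⟩ := h
        obtain ⟨l', hl'⟩ := h'
        refine ⟨l ++ l', funext fun x => ?_⟩
        rw [ContinuousMap.mul_apply, ← congrFun hl x, ← congrFun hl' x]
        simp [mon]
    | zero => exact Submodule.zero_mem _
    | add f f' _ _ h h' => exact Submodule.add_mem _ h h'
    | smul a f _ h => exact Submodule.smul_mem _ a h
  · have h1 := abs_le.1 (hg'' x)
    have h2 := abs_le.1 (hbd fun i => r (q (x i)))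
    rw [abs_le]; constructor <;> linarith [h1.1, h1.2, h2.1, h2.2]
  · have h1 := hl x fun i => r (q (x i))
    rw [Finset.sum_eq_zero fun i hi => by
      rw [show r (q (x i)) = x i from congrFun hr ⟨x i, abs_le.1 (hx i hi)⟩, sub_self, abs_zero],
      mul_zero, abs_nonpos_iff, sub_eq_zero] at h1
    rw [h1, abs_sub_comm]
    exact hg'' x

variable {B : Type*} {Ω : ℕ → Type*} [∀ n, MeasurableSpace (Ω n)]
  (P : B → ∀ n, Measure (Ω n)) [∀ b n, IsProbabilityMeasure (P b n)] (X : ∀ n, Ω n → I → ℝ)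

/-- the coordinates of `X` are tight -/
def TightCoord : Prop := ∀ (b : B) (i : I) (ε : ℝ), 0 < ε → ∃ M : ℝ, ∀ᶠ n in atTop,
  P b n {ω | M < |X n ω i|} ≤ ENNReal.ofReal ε

variable {P X}

lemma TightCoord.finset [Finite B] (ht : TightCoord P X) (s : Finset I) {ε : ℝ} (hε : 0 < ε) :
    ∃ M : ℝ, ∀ b, ∀ᶠ n in atTop, P b n {ω | ∃ i ∈ s, M < |X n ω i|} ≤ ENNReal.ofReal ε := by
  set η : ℝ := ε / (s.card + 1) with hη
  have hη0 : 0 < η := by positivity
  choose M hM using fun b i => ht b i η hη0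
  obtain ⟨M', hM'⟩ := (Finite.bddAbove_range fun p : B × s => M p.1 p.2)
  refine ⟨M', fun b => ?_⟩
  filter_upwards [(eventually_all_finset s).2 fun i _ => hM b i] with n hn
  calc P b n {ω | ∃ i ∈ s, M' < |X n ω i|} ≤ P b n (⋃ i ∈ s, {ω | M b i < |X n ω i|}) := by
        refine measure_mono fun ω ⟨i, hi, h⟩ => ?_
        exact mem_biUnion hi (lt_of_le_of_lt (hM' ⟨(b, ⟨i, hi⟩), rfl⟩) h)
    _ ≤ ∑ i ∈ s, P b n {ω | M b i < |X n ω i|} := measure_biUnion_finset_le _ _
    _ ≤ ∑ _i ∈ s, ENNReal.ofReal η := Finset.sum_le_sum hn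
    _ = ENNReal.ofReal (s.card * η) := by
        rw [Finset.sum_const, nsmul_eq_mul, ENNReal.ofReal_mul (Nat.cast_nonneg _),
          ENNReal.ofReal_natCast]
    _ ≤ ENNReal.ofReal ε := by
        refine ENNReal.ofReal_le_ofReal ?_
        have : (s.card + 1) * η = ε := by rw [hη]; field_simp
        nlinarith

lemma span_mon_bdd (hq : Continuous q) (hb : ∀ x, |q x| ≤ 1) {p : (I → ℝ) → ℝ}
    (hp : p ∈ Submodule.span ℝ (range (mon (I := I) q))) :
    Measurable p ∧ ∃ C, ∀ x, |p x| ≤ C := by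
  induction hp using Submodule.span_induction with
  | mem f hf => obtain ⟨l, rfl⟩ := hf; exact ⟨measurable_mon hq l, 1, abs_mon_le hb l⟩
  | zero => exact ⟨measurable_const, 0, fun _ => by simp⟩
  | add f f' _ _ h h' =>
    obtain ⟨h1, C, h2⟩ := h
    obtain ⟨h1', C', h2'⟩ := h'
    exact ⟨h1.add h1', C + C', fun x => (abs_add_le _ _).trans (add_le_add (h2 x) (h2' x))⟩
  | smul a f _ h =>
    obtain ⟨h1, C, h2⟩ := h
    exact ⟨h1.const_smul a, |a| * C, fun x => by
      rw [Pi.smul_apply, smul_eq_mul, abs_mul]; exact mul_le_mul_of_nonneg_left (h2 x) (abs_nonneg a)⟩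

lemma integrable_span_mon (hq : Continuous q) (hb : ∀ x, |q x| ≤ 1)
    (hX : ∀ n i, Measurable fun ω => X n ω i) {p : (I → ℝ) → ℝ}
    (hp : p ∈ Submodule.span ℝ (range (mon (I := I) q))) (b : B) (n : ℕ) :
    Integrable (fun ω => p (X n ω)) (P b n) := by
  obtain ⟨h1, C, h2⟩ := span_mon_bdd hq hb hp
  exact Integrable.of_bound (h1.comp (measurable_pi_lambda _ (hX n))).aestronglyMeasurable C
    (ae_of_all _ fun ω => h2 _)

/-- a cylinder function is close in mean to a combination of products -/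
lemma exists_poly_close [Finite B] (hq : Continuous q) (hinj : Function.Injective q)
    (hb : ∀ x, |q x| ≤ 1) (hX : ∀ n i, Measurable fun ω => X n ω i) (ht : TightCoord P X)
    {φ : (I → ℝ) → ℝ} (hφ : IsCyl φ) {ε : ℝ} (hε : 0 < ε) :
    ∃ p ∈ Submodule.span ℝ (range (mon (I := I) q)), ∀ b, ∀ᶠ n in atTop,
      |∫ ω, φ (X n ω) ∂P b n - ∫ ω, p (X n ω) ∂P b n| ≤ ε := by
  obtain ⟨s, K, hK, hbd, h⟩ := cyl_poly_approx hq hinj hb hφ
  set η : ℝ := min 1 (ε / (2 * K + 3)) with hη
  have hη0 : 0 < η := lt_min one_pos (by positivity)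
  obtain ⟨M, hM⟩ := ht.finset s hη0
  obtain ⟨p, hp, h1, h2⟩ := h M η hη0
  refine ⟨p, hp, fun b => (hM b).mono fun n hn => ?_⟩
  refine (abs_integral_sub_le (P b n)
    (hφ.measurable.comp (measurable_pi_lambda _ (hX n))).aestronglyMeasurable
    (integrable_span_mon hq hb hX hp b n).aestronglyMeasurable (K := K + 1) (by positivity) hη0.le
    hη0.le (fun ω => (hbd _).trans (by linarith))
    (fun ω => (h1 _).trans (by linarith [min_le_left 1 (ε / (2 * K + 3))])) hn
    fun ω hω => h2 _ fun i hi => not_lt.1 fun h => hω ⟨i, hi, h⟩).trans ?_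
  have : η * (2 * K + 3) ≤ ε := by
    rw [← le_div_iff₀ (by positivity)]; exact min_le_right _ _
  linarith

/-- convergence of the product moments gives convergence of all cylinder integrals -/
theorem cyl_conv_of_mon [Finite B] [Nonempty B] (hq : Continuous q) (hinj : Function.Injective q)
    (hb : ∀ x, |q x| ≤ 1) (hX : ∀ n i, Measurable fun ω => X n ω i) (ht : TightCoord P X)
    (h : ∀ l : List I, ∃ L, ∀ b, Tendsto (fun n => ∫ ω, mon q l (X n ω) ∂P b n) atTop (𝓝 L))
    (φ : (I → ℝ) → ℝ) (hφ : IsCyl φ) :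
    ∃ L, ∀ b, Tendsto (fun n => ∫ ω, φ (X n ω) ∂P b n) atTop (𝓝 L) := by
  have key : ∀ p ∈ Submodule.span ℝ (range (mon (I := I) q)),
      ∃ L, ∀ b, Tendsto (fun n => ∫ ω, p (X n ω) ∂P b n) atTop (𝓝 L) := by
    intro p hp
    induction hp using Submodule.span_induction with
    | mem f hf => obtain ⟨l, rfl⟩ := hf; exact h l
    | zero => exact ⟨0, fun b => by simp⟩
    | add f f' hf hf' h h' =>
      obtain ⟨L, h⟩ := h
      obtain ⟨L', h'⟩ := h'
      refine ⟨L + L', fun b => ((h b).add (h' b)).congr fun n => ?_⟩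
      exact (integral_add (integrable_span_mon hq hb hX hf b n)
        (integrable_span_mon hq hb hX hf' b n)).symm
    | smul a f _ h =>
      obtain ⟨L, h⟩ := h
      exact ⟨a * L, fun b => ((h b).const_mul a).congr fun n => (integral_const_mul _ _).symm⟩
  refine exists_tendsto_of_approx _ fun ε hε => ?_
  obtain ⟨p, hp, h1⟩ := exists_poly_close hq hinj hb hX ht hφ (half_pos hε)
  obtain ⟨L, hL⟩ := key p hp
  refine ⟨L, fun b => ?_⟩
  filter_upwards [h1 b, Metric.tendsto_nhds.1 (hL b) _ (half_pos hε)] with n e1 e2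
  rw [Real.dist_eq] at e2
  linarith [abs_sub_le (∫ ω, φ (X n ω) ∂P b n) (∫ ω, p (X n ω) ∂P b n) L]

/-- asymptotic equality of the product moments gives that of all cylinder integrals -/
theorem cyl_diff_of_mon [Finite B] (hq : Continuous q) (hinj : Function.Injective q)
    (hb : ∀ x, |q x| ≤ 1) (hX : ∀ n i, Measurable fun ω => X n ω i) (ht : TightCoord P X) (b b' : B)
    (h : ∀ l : List I, Tendsto
      (fun n => ∫ ω, mon q l (X n ω) ∂P b n - ∫ ω, mon q l (X n ω) ∂P b' n) atTop (𝓝 0))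
    (φ : (I → ℝ) → ℝ) (hφ : IsCyl φ) :
    Tendsto (fun n => ∫ ω, φ (X n ω) ∂P b n - ∫ ω, φ (X n ω) ∂P b' n) atTop (𝓝 0) := by
  have key : ∀ p ∈ Submodule.span ℝ (range (mon (I := I) q)),
      Tendsto (fun n => ∫ ω, p (X n ω) ∂P b n - ∫ ω, p (X n ω) ∂P b' n) atTop (𝓝 0) := by
    intro p hp
    induction hp using Submodule.span_induction with
    | mem f hf => obtain ⟨l, rfl⟩ := hf; exact h l
    | zero => simp
    | add f f' hf hf' h h' =>
      have := h.add h'
      rw [add_zero] at this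
      refine this.congr fun n => ?_
      simp only [Pi.add_apply]
      rw [integral_add (integrable_span_mon hq hb hX hf b n) (integrable_span_mon hq hb hX hf' b n),
        integral_add (integrable_span_mon hq hb hX hf b' n) (integrable_span_mon hq hb hX hf' b' n)]
      ring
    | smul a f _ h =>
      have := h.const_mul a
      rw [mul_zero] at this
      refine this.congr fun n => ?_
      simp only [Pi.smul_apply, smul_eq_mul, integral_const_mul]
      ring
  rw [Metric.tendsto_nhds]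
  intro ε hε
  obtain ⟨p, hp, h1⟩ := exists_poly_close hq hinj hb hX ht hφ (ε := ε / 4) (by positivity)
  filter_upwards [h1 b, h1 b', Metric.tendsto_nhds.1 (key p hp) (ε / 4) (by positivity)]
    with n e1 e2 e3
  rw [Real.dist_eq, sub_zero] at e3 ⊢
  have a1 := abs_le.1 e1
  have a2 := abs_le.1 e2
  have a3 := abs_lt.1 e3
  rw [abs_lt]
  constructor <;> linarith [a1.1, a1.2, a2.1, a2.2, a3.1, a3.2]

end

/-- **Universality bridge**: Gaussian convergence + asymptotic equality of the product moments under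
the two coupling laws give convergence for both laws. -/
theorem cyl_conv_of_gauss {I : Type*} {q : ℝ → ℝ} (hq : Continuous q) (hinj : Function.Injective q)
    (hb : ∀ x, |q x| ≤ 1) {X : ∀ n, (Pair n → ℝ) → I → ℝ} (hX : ∀ n i, Measurable fun g => X n g i)
    (ht : TightCoord couplingLaw X)
    (hG : ∀ φ : (I → ℝ) → ℝ, IsCyl φ →
      ∃ L, Tendsto (fun n => ∫ g, φ (X n g) ∂disorderLaw n) atTop (𝓝 L))
    (hU : ∀ l : List I, Tendsto (fun n => ∫ g, mon q l (X n g) ∂couplingLaw true n -
      ∫ g, mon q l (X n g) ∂disorderLaw n) atTop (𝓝 0))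
    (φ : (I → ℝ) → ℝ) (hφ : IsCyl φ) :
    ∃ L, ∀ b, Tendsto (fun n => ∫ g, φ (X n g) ∂couplingLaw b n) atTop (𝓝 L) := by
  obtain ⟨L, hL⟩ := hG φ hφ
  refine ⟨L, fun b => ?_⟩
  cases b
  · exact hL
  · have := (cyl_diff_of_mon hq hinj hb hX ht true false hU φ hφ).add hL
    rw [zero_add] at this
    exact this.congr fun n => sub_add_cancel _ _

lemma abs_tanh_le (x : ℝ) : |Real.tanh x| ≤ 1 :=
  abs_le.2 ⟨(Real.neg_one_lt_tanh x).le, (Real.tanh_lt_one x).le⟩

lemma continuous_tanh : Continuous Real.tanh := by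
  have : Real.tanh = fun x => Real.sinh x / Real.cosh x := funext Real.tanh_eq_sinh_div_cosh
  rw [this]
  exact Real.continuous_sinh.div Real.continuous_cosh fun x => (Real.cosh_pos x).ne'

/-- the resolvent decreases, and is at most `a⁻¹` times its value at `1` for `a ≤ 1` -/
lemma Rn_le {n : ℕ} (g : Pair n → ℝ) {a : ℝ} (ha : 0 < a) : Rn n g a ≤ (1 + 1 / a) * Rn n g 1 := by
  obtain ⟨c, lam, hc, hl, -, h⟩ := An_spec g
  rw [h a ha, h 1 one_pos, Finset.mul_sum]
  refine Finset.sum_le_sum fun j _ => ?_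
  have h1 := hl j
  rw [mul_div_assoc', div_le_div_iff₀ (by positivity) (by positivity), mul_comm (1 + 1 / a),
    mul_assoc]
  refine mul_le_mul_of_nonneg_left ?_ (hc j)
  have : 1 / a * a = 1 := by field_simp
  nlinarith [mul_nonneg (one_div_pos.2 ha).le h1]

lemma tightCoord_Rn (h : ResTightStmt) :
    TightCoord couplingLaw fun n g (a : Ioi (0 : ℝ)) => Rn n g a := by
  intro b a ε hε
  obtain ⟨M, hM⟩ := h b ε hε
  have ha : (0 : ℝ) < a := a.2
  refine ⟨(1 + 1 / a) * M, hM.mono fun n hn => le_trans (measure_mono fun g hg => ?_) hn⟩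
  have h1 : (1 + 1 / (a : ℝ)) * M < |Rn n g a| := hg
  rw [abs_of_nonneg (Rn_nonneg g _)] at h1
  exact lt_of_mul_lt_mul_left (h1.trans_le (Rn_le g ha)) (by positivity)

lemma tightCoord_An (h : ATightStmt) :
    TightCoord couplingLaw fun n g (s : Ioi (0 : ℝ)) => An n g s := by
  intro b s ε hε
  obtain ⟨M, hM⟩ := h b s ε s.2 hε
  refine ⟨M, hM.mono fun n hn => le_trans (measure_mono fun g hg => ?_) hn⟩
  have h1 : M < |An n g s| := hg
  rwa [abs_of_nonneg (An_nonneg g _)] at h1

lemma tightCoord_ABn (h : ATightStmt) (h' : BSizeStmt) : TightCoord couplingLaw ABn := by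
  rintro b (s | p) ε hε
  · exact tightCoord_An h b s ε hε
  · obtain ⟨M, hM⟩ := h' b (min p.1 p.2) (max p.1 p.2) ε (lt_min p.1.2 p.2.2) hε
    refine ⟨M, hM.mono fun n hn => le_trans (measure_mono fun g hg => ?_) hn⟩
    exact ⟨p.1, ⟨min_le_left _ _, le_max_left _ _⟩, p.2, ⟨min_le_right _ _, le_max_right _ _⟩, hg⟩

/-- resolvent convergence for both laws from the Gaussian case and a Lindeberg comparison of the
products of `tanh (Rn a)` -/
theorem resConv_of_gauss (ht : ResTightStmt)
    (hG : ∀ φ : (Ioi (0 : ℝ) → ℝ) → ℝ, IsCyl φ →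
      ∃ L, Tendsto (fun n => ∫ g, φ (fun a => Rn n g a) ∂disorderLaw n) atTop (𝓝 L))
    (hU : ∀ l : List (Ioi (0 : ℝ)), Tendsto (fun n =>
      ∫ g, (l.map fun a : Ioi (0 : ℝ) => Real.tanh (Rn n g a)).prod ∂couplingLaw true n -
      ∫ g, (l.map fun a : Ioi (0 : ℝ) => Real.tanh (Rn n g a)).prod ∂disorderLaw n) atTop (𝓝 0)) :
    ResConvStmt :=
  cyl_conv_of_gauss continuous_tanh Real.tanh_injective abs_tanh_le (fun _ _ => measurable_Rn _)
    (tightCoord_Rn ht) hG hU

end Crest.Agent.T157.Soft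

end
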