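import Crest.Agent.T157.UnA_81
import Crest.Agent.T157.Univ_90

/-!
# Row 157, part C: universality through a complex entry, B (helper81)

Classes of scalar functionals of the couplings:
* `Po` (nonnegative, multiplicative bound), `Tt` (`Po` and tight), `Nl` (`Po` and null),
* `Nz` (normalisers), `Au` (holomorphic with small average oscillation),
and the transfer theorems `Tt.coin`, `Nl.coin`, `Au.null`, `Au.tight`, `Au.cyl`.
-/

set_option autoImplicit false
set_option linter.unusedSectionVars false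

noncomputable section

namespace Crest.Agent.T157.Un

open MeasureTheory ProbabilityTheory Metric Finset Filter Topology
open Crest.ProbabilityR.SpinGlassDynamics Crest.Agent.T157.E

section fixed
variable {ι : Type*} [Fintype ι] [DecidableEq ι] {r r' s c c' : ℝ}
  {Q Q' S S' G G' X X' : (ι → ℝ) → ℝ}

/-- holomorphic in each entry, bounded by `S`, oscillation bounded in mean square by `G` -/
def AnS (r s : ℝ) (Q S G : (ι → ℝ) → ℝ) : Prop := ∀ g, |Q g| ≤ S g ∧ ∃ K : ι → ℝ,
  ∑ e, K e ^ 2 ≤ s ^ 4 * G g ∧ ∀ e, ∃ F, Ex r (fun t => Q (sh s g e t)) F ∧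
    ∀ z ∈ ball (0 : ℂ) r, ‖F z‖ ≤ S g ∧ ‖F z - F 0‖ ≤ K e

lemma AnS.mono (h : AnS r s Q S G) (hr : r' ≤ r) (hS : ∀ g, S g ≤ S' g) (hG : ∀ g, G g ≤ G' g) :
    AnS r' s Q S' G' := fun g => by
  obtain ⟨h0, K, hK, hF⟩ := h g
  refine ⟨h0.trans (hS g), K, hK.trans (by gcongr; exact hG g), fun e => ?_⟩
  obtain ⟨F, h1, h2⟩ := hF e
  exact ⟨F, h1.mono hr, fun z hz => ⟨(h2 z (ball_subset_ball hr hz)).1.trans (hS g),
    (h2 z (ball_subset_ball hr hz)).2⟩⟩

lemma AnS.const (r s a : ℝ) : AnS r s (fun _ : ι → ℝ => a) (fun _ => |a|) fun _ => 0 := fun _ =>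
  ⟨le_rfl, 0, by simp, fun _ => ⟨_, Ex.const r a, fun _ _ => by simp⟩⟩

lemma AnS.add (h : AnS r s Q S G) (h' : AnS r s Q' S' G') :
    AnS r s (fun g => Q g + Q' g) (fun g => S g + S' g) fun g => 2 * G g + 2 * G' g := fun g => by
  obtain ⟨h0, K, hK, hF⟩ := h g
  obtain ⟨h0', K', hK', hF'⟩ := h' g
  refine ⟨(abs_add_le _ _).trans (add_le_add h0 h0'), fun e => K e + K' e, ?_, fun e => ?_⟩
  · calc _ ≤ ∑ e, (2 * K e ^ 2 + 2 * K' e ^ 2) :=
          sum_le_sum fun e _ => by nlinarith [sq_nonneg (K e - K' e)]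
      _ ≤ _ := by rw [sum_add_distrib, ← mul_sum, ← mul_sum]; linarith
  obtain ⟨F, h1, h2⟩ := hF e
  obtain ⟨F', h1', h2'⟩ := hF' e
  refine ⟨_, h1.add h1', fun z hz => ⟨(norm_add_le _ _).trans (add_le_add (h2 z hz).1 (h2' z hz).1), ?_⟩⟩
  rw [add_sub_add_comm]
  exact (norm_add_le _ _).trans (add_le_add (h2 z hz).2 (h2' z hz).2)

lemma AnS.mul (h : AnS r s Q S G) (h' : AnS r s Q' S' G') :
    AnS r s (fun g => Q g * Q' g) (fun g => S g * S' g)
      fun g => 2 * (S' g * S' g * G g) + 2 * (S g * S g * G' g) := fun g => by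
  obtain ⟨h0, K, hK, hF⟩ := h g
  obtain ⟨h0', K', hK', hF'⟩ := h' g
  have p := (abs_nonneg _).trans h0
  have p' := (abs_nonneg _).trans h0'
  refine ⟨by rw [abs_mul]; exact mul_le_mul h0 h0' (abs_nonneg _) p, fun e => K e * S' g + S g * K' e, ?_, fun e => ?_⟩
  · calc _ ≤ ∑ e, (2 * (S' g * S' g) * K e ^ 2 + 2 * (S g * S g) * K' e ^ 2) :=
          sum_le_sum fun e _ => by nlinarith [sq_nonneg (K e * S' g - S g * K' e)]
      _ ≤ 2 * (S' g * S' g) * (s ^ 4 * G g) + 2 * (S g * S g) * (s ^ 4 * G' g) := by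
          rw [sum_add_distrib, ← mul_sum, ← mul_sum]; gcongr
      _ = _ := by ring
  obtain ⟨F, h1, h2⟩ := hF e
  obtain ⟨F', h1', h2'⟩ := hF' e
  refine ⟨_, h1.mul h1', fun z hz => ?_⟩
  have z0 : (0 : ℂ) ∈ ball (0 : ℂ) r := mem_ball_self (pos_of_mem_ball hz)
  refine ⟨by rw [norm_mul]; exact mul_le_mul (h2 z hz).1 (h2' z hz).1 (norm_nonneg _) p, ?_⟩
  rw [show F z * F' z - F 0 * F' 0 = (F z - F 0) * F' z + F 0 * (F' z - F' 0) by ring]
  refine (norm_add_le _ _).trans ?_
  rw [norm_mul, norm_mul]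
  exact add_le_add (mul_le_mul (h2 z hz).2 (h2' z hz).1 (norm_nonneg _)
    ((norm_nonneg _).trans (h2 z hz).2)) (mul_le_mul (h2 0 z0).1 (h2' z hz).2 (norm_nonneg _) p)

lemma AnS.pm (h : AnS r s X (fun g => c * X g) G) : Pm r s c X := fun g e => by
  obtain ⟨-, K, -, hF⟩ := h g
  obtain ⟨F, h1, h2⟩ := hF e
  exact ⟨F, h1, fun z hz => (h2 z hz).1⟩

/-- a bounded functional: the oscillation may be capped -/
lemma AnS.cap {M : ℝ} (h : AnS r s Q (fun _ => M) G) (hc : (Fintype.card ι : ℝ) ≤ s ^ 4)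
    (hG : ∀ g, 0 ≤ G g) : AnK r s Q fun g => (1 + 4 * M ^ 2) * (G g / (1 + G g)) := fun g => by
  obtain ⟨h0, K, hK, hF⟩ := h g
  have hM := (abs_nonneg _).trans h0
  have hg := hG g
  refine ⟨fun e => min |K e| (2 * M), ?_, fun e => ?_⟩
  · have m0 : ∀ e, 0 ≤ min |K e| (2 * M) := fun e => le_min (abs_nonneg _) (by positivity)
    have h1 : ∑ e, min |K e| (2 * M) ^ 2 ≤ s ^ 4 * G g :=
      (sum_le_sum fun e _ => by
        rw [← sq_abs (K e)]; exact pow_le_pow_left₀ (m0 e) (min_le_left _ _) 2).trans hK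
    have h2 : ∑ e, min |K e| (2 * M) ^ 2 ≤ s ^ 4 * (4 * M ^ 2) := by
      refine (sum_le_sum fun e _ => pow_le_pow_left₀ (m0 e) (min_le_right _ _) 2).trans ?_
      rw [sum_const, card_univ, nsmul_eq_mul, mul_pow]
      norm_num
      gcongr
    beta_reduce
    rw [← mul_div_assoc, ← mul_div_assoc, le_div_iff₀ (by positivity)]
    nlinarith [mul_le_mul_of_nonneg_right h2 hg]
  obtain ⟨F, h1, h2⟩ := hF e
  refine ⟨F, h1, fun z hz => le_min ((h2 z hz).2.trans (le_abs_self _)) ?_⟩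
  linarith [norm_sub_le (F z) (F 0), (h2 z hz).1, (h2 0 (mem_ball_self (pos_of_mem_ball hz))).1]

lemma half_le {F : ℂ → ℂ} {a L : ℝ} (hc : 0 ≤ c) (ha : 0 ≤ a) (hL : 0 < L)
    (hd : DifferentiableOn ℂ F (ball 0 r)) (h0 : F 0 = a) (hb : ∀ z ∈ ball (0 : ℂ) r, ‖F z‖ ≤ c * a)
    {z : ℂ} (hz : z ∈ ball (0 : ℂ) (r / (2 * (c + 1)))) :
    ‖F z‖ ≤ 3 / 2 * a ∧ (L + a) / 2 ≤ ‖L + F z‖ := by
  have hr : 0 < r := by
    have := pos_of_mem_ball hz
    rwa [div_pos_iff_of_pos_right (by positivity)] at this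
  have hz' : z ∈ ball (0 : ℂ) r := ball_subset_ball (div_le_self hr.le (by linarith)) hz
  have h1 := schwarz_le (K := (c + 1) * a) hd (fun w hw => by
    have := norm_sub_le (F w) (F 0)
    rw [h0, Complex.norm_real, Real.norm_of_nonneg ha] at this
    rw [h0]; linarith [hb w hw]) hz'
  have h2 : ‖F z - F 0‖ ≤ a / 2 := by
    refine h1.trans ?_
    calc _ ≤ (c + 1) * a / r * (r / (2 * (c + 1))) := by
          gcongr; exact (mem_ball_zero_iff.1 hz).le
      _ = _ := by field_simp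
  rw [h0] at h2
  have h3 : ‖(a : ℂ)‖ = a := by rw [Complex.norm_real, Real.norm_of_nonneg ha]
  have h4 : ‖((L + a : ℝ) : ℂ)‖ = L + a := by
    rw [Complex.norm_real, Real.norm_of_nonneg (by positivity)]
  have h5 := norm_sub_norm_le (F z) a
  have h6 := norm_sub_norm_le ((L + a : ℝ) : ℂ) (L + F z)
  rw [show ((L + a : ℝ) : ℂ) - (L + F z) = -(F z - a) by push_cast; ring, norm_neg] at h6
  constructor <;> linarith

lemma Pm.mono (h : Pm r s c X) (hr : r' ≤ r) : Pm r' s c X := fun g e => by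
  obtain ⟨F, h1, h2⟩ := h g e
  exact ⟨F, h1.mono hr, fun z hz => h2 z (ball_subset_ball hr hz)⟩

lemma Pm.add (h : Pm r s c X) (h' : Pm r s c' X') (hc : 0 ≤ c) (hc' : 0 ≤ c') (h0 : ∀ g, 0 ≤ X g)
    (h0' : ∀ g, 0 ≤ X' g) : Pm r s (c + c') fun g => X g + X' g := fun g e => by
  obtain ⟨F, h1, h2⟩ := h g e
  obtain ⟨F', h1', h2'⟩ := h' g e
  refine ⟨_, h1.add h1', fun z hz => (norm_add_le _ _).trans ?_⟩
  nlinarith [h2 z hz, h2' z hz, mul_nonneg hc (h0' g), mul_nonneg hc' (h0 g)]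

lemma Pm.mul (h : Pm r s c X) (h' : Pm r s c' X') :
    Pm r s (c * c') fun g => X g * X' g := fun g e => by
  obtain ⟨F, h1, h2⟩ := h g e
  obtain ⟨F', h1', h2'⟩ := h' g e
  refine ⟨_, h1.mul h1', fun z hz => ?_⟩
  rw [norm_mul, mul_mul_mul_comm]
  exact mul_le_mul (h2 z hz) (h2' z hz) (norm_nonneg _) ((norm_nonneg _).trans (h2 z hz))

lemma Pm.ratio {L : ℝ} (h : Pm r s c X) (hc : 0 ≤ c) (h0 : ∀ g, 0 ≤ X g) (hr : 0 < r) (hL : 0 < L) :
    Pm (r / (2 * (c + 1))) s 3 fun g => X g / (L + X g) := fun g e => by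
  obtain ⟨F, h1, h2⟩ := h g e
  have hle : r / (2 * (c + 1)) ≤ r := div_le_self hr.le (by linarith)
  have key := fun z hz => half_le (z := z) hc (h0 g) hL h1.diff (by rw [h1.zero hr, sh_zero]) h2 hz
  have p := h0 g
  refine ⟨_, (h1.mono hle).div (((Ex.const _ L).add h1).mono hle) fun z hz => ?_, fun z hz => ?_⟩
  · exact norm_pos_iff.1 (lt_of_lt_of_le (by positivity) (key z hz).2)
  · rw [norm_div]
    calc _ ≤ 3 / 2 * X g / ((L + X g) / 2) := by
          gcongr
          exacts [(key z hz).1, (key z hz).2]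
      _ = _ := by field_simp

lemma AnS.inv {L : ℝ} (h : AnS r s S (fun g => c * S g) G) (hc : 0 ≤ c) (h0 : ∀ g, 0 ≤ S g)
    (hr : 0 < r) (hL : 0 < L) : AnS (r / (2 * (c + 1))) s (fun g => 1 / (L + S g))
      (fun g => 2 / (L + S g)) fun g => 4 / L ^ 4 * G g := fun g => by
  obtain ⟨-, K, hK, hF⟩ := h g
  have p := h0 g
  refine ⟨by beta_reduce; rw [abs_of_nonneg (by positivity)]; gcongr; norm_num, fun e => 2 / L ^ 2 * K e, ?_,
    fun e => ?_⟩
  · simp only [mul_pow, ← mul_sum]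
    calc _ ≤ (2 / L ^ 2) ^ 2 * (s ^ 4 * G g) := by gcongr
      _ = _ := by field_simp; ring
  obtain ⟨F, h1, h2⟩ := hF e
  have hle : r / (2 * (c + 1)) ≤ r := div_le_self hr.le (by linarith)
  have e0 : F 0 = S g := by rw [h1.zero hr, sh_zero]
  have key := fun z hz => (half_le (z := z) hc p hL h1.diff e0 (fun z hz => (h2 z hz).1) hz).2
  have ne : ∀ z ∈ ball (0 : ℂ) (r / (2 * (c + 1))), (L : ℂ) + F z ≠ 0 := fun z hz =>
    norm_pos_iff.1 (lt_of_lt_of_le (by positivity) (key z hz))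
  refine ⟨_, (Ex.const _ 1).div (((Ex.const _ L).add h1).mono hle) ne, fun z hz => ⟨?_, ?_⟩⟩
  · rw [norm_div, Complex.ofReal_one, norm_one]
    calc _ ≤ 1 / ((L + S g) / 2) := by gcongr; exact key z hz
      _ = _ := by field_simp
  · have n0 := ne 0 (mem_ball_self (pos_of_mem_ball hz))
    have h3 := (h2 z (ball_subset_ball hle hz)).2
    rw [Complex.ofReal_one, div_sub_div _ _ (ne z hz) n0, norm_div, norm_mul,
      show 1 * ((L : ℂ) + F 0) - (L + F z) * 1 = -(F z - F 0) by ring, norm_neg]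
    have h4 : ‖(L : ℂ) + F 0‖ = L + S g := by
      rw [e0, ← Complex.ofReal_add, Complex.norm_real, Real.norm_of_nonneg (by positivity)]
    rw [h4]
    calc _ ≤ K e / (L / 2 * L) := by
          gcongr
          · exact (norm_nonneg _).trans h3
          · linarith [key z hz]
          · linarith
      _ = _ := by field_simp

end fixed

/-! ### sequences of functionals -/

/-- sequences of functionals of the couplings -/
abbrev Fam : Type := ∀ n : ℕ, (Pair n → ℝ) → ℝ

/-- bounded above in probability -/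
def Tight (b : Bool) (X : Fam) : Prop := ∀ ε : ℝ, 0 < ε → ∃ M : ℝ, ∀ᶠ n : ℕ in atTop,
  couplingLaw b n {g | M < X n g} ≤ ENNReal.ofReal ε

/-- the positive part tends to zero in probability -/
def Null (b : Bool) (X : Fam) : Prop := ∀ δ ε : ℝ, 0 < δ → 0 < ε → ∀ᶠ n : ℕ in atTop,
  couplingLaw b n {g | δ < X n g} ≤ ENNReal.ofReal ε

variable {b : Bool} {X X' S S' G G' Q Q' : Fam}

lemma meas_two {Ω : Type*} [MeasurableSpace Ω] {μ : Measure Ω} {A B C : Set Ω} {ε : ℝ} (hε : 0 < ε)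
    (hA : μ A ≤ ENNReal.ofReal (ε / 2)) (hB : μ B ≤ ENNReal.ofReal (ε / 2)) (h : C ⊆ A ∪ B) :
    μ C ≤ ENNReal.ofReal ε := by
  refine ((measure_mono h).trans (measure_union_le _ _)).trans ((add_le_add hA hB).trans_eq ?_)
  rw [← ENNReal.ofReal_add (by positivity) (by positivity), add_halves]

lemma Tight.mono (h : Tight b X) (e : ∀ᶠ n : ℕ in atTop, ∀ g, X' n g ≤ X n g) : Tight b X' :=
  fun ε hε => (h ε hε).imp fun _ hM => by
    filter_upwards [hM, e] with n h1 h2
    exact (measure_mono fun g hg => lt_of_lt_of_le hg (h2 g)).trans h1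

lemma Null.mono (h : Null b X) (e : ∀ᶠ n : ℕ in atTop, ∀ g, X' n g ≤ X n g) : Null b X' :=
  fun δ ε hδ hε => by
    filter_upwards [h δ ε hδ hε, e] with n h1 h2
    exact (measure_mono fun g hg => lt_of_lt_of_le hg (h2 g)).trans h1

lemma Tight.const (a : ℝ) : Tight b fun _ _ => a := fun _ _ => ⟨a, .of_forall fun _ => by simp⟩

lemma Null.of_tendsto {a : ℕ → ℝ} (h : Tendsto a atTop (𝓝 0)) : Null b fun n _ => a n :=
  fun δ _ hδ _ => by
    filter_upwards [h.eventually (gt_mem_nhds hδ)] with n hn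
    simp [hn.not_gt]

lemma Null.tight (h : Null b X) : Tight b X := fun ε hε => ⟨1, h 1 ε one_pos hε⟩

lemma Tight.add (h : Tight b X) (h' : Tight b X') : Tight b fun n g => X n g + X' n g := fun ε hε => by
  obtain ⟨M, h1⟩ := h _ (half_pos hε)
  obtain ⟨M', h2⟩ := h' _ (half_pos hε)
  refine ⟨M + M', ?_⟩
  filter_upwards [h1, h2] with n h1 h2
  refine meas_two hε h1 h2 fun g hg => ?_
  by_contra hh
  simp only [Set.mem_union, Set.mem_ofPred_eq, not_or, not_lt] at hh hg
  linarith [hh.1, hh.2]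

lemma Tight.mul (h : Tight b X) (h' : Tight b X') (h0 : ∀ n g, 0 ≤ X n g) (h0' : ∀ n g, 0 ≤ X' n g) :
    Tight b fun n g => X n g * X' n g := fun ε hε => by
  obtain ⟨M, h1⟩ := h _ (half_pos hε)
  obtain ⟨M', h2⟩ := h' _ (half_pos hε)
  refine ⟨M * M', ?_⟩
  filter_upwards [h1, h2] with n h1 h2
  refine meas_two hε h1 h2 fun g hg => ?_
  by_contra hh
  simp only [Set.mem_union, Set.mem_ofPred_eq, not_or, not_lt] at hh hg
  exact hg.not_ge (mul_le_mul hh.1 hh.2 (h0' n g) ((h0 n g).trans hh.1))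

lemma Null.add (h : Null b X) (h' : Null b X') : Null b fun n g => X n g + X' n g :=
  fun δ ε hδ hε => by
    filter_upwards [h _ _ (half_pos hδ) (half_pos hε), h' _ _ (half_pos hδ) (half_pos hε)]
      with n h1 h2
    refine meas_two hε h1 h2 fun g hg => ?_
    by_contra hh
    simp only [Set.mem_union, Set.mem_ofPred_eq, not_or, not_lt] at hh hg
    linarith [hh.1, hh.2]

lemma Tight.mul_null (h : Tight b X) (h' : Null b X') (h0 : ∀ n g, 0 ≤ X n g) :
    Null b fun n g => X n g * X' n g := fun δ ε hδ hε => by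
  obtain ⟨M, h1⟩ := h _ (half_pos hε)
  have hM : 0 < |M| + 1 := by positivity
  filter_upwards [h1, h' (δ / (|M| + 1)) _ (div_pos hδ hM) (half_pos hε)] with n h1 h2
  refine meas_two hε h1 h2 fun g hg => ?_
  by_contra hh
  simp only [Set.mem_union, Set.mem_ofPred_eq, not_or, not_lt] at hh hg
  have h3 : X n g * X' n g ≤ (|M| + 1) * (δ / (|M| + 1)) :=
    (mul_le_mul_of_nonneg_left hh.2 (h0 n g)).trans
      (mul_le_mul_of_nonneg_right (by linarith [le_abs_self M, hh.1]) (by positivity))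
  rw [mul_div_cancel₀ _ hM.ne'] at h3
  linarith

lemma int_le_of_meas {Ω : Type*} [MeasurableSpace Ω] {μ : Measure Ω} [IsProbabilityMeasure μ]
    {f : Ω → ℝ} (hf : Measurable f) {B δ ε : ℝ} (hB : ∀ x, |f x| ≤ B) (hδ : 0 ≤ δ) (hε : 0 ≤ ε)
    {A : Set Ω} (hA : μ A ≤ ENNReal.ofReal ε) (h : ∀ x ∉ A, |f x| ≤ δ) (hB0 : 0 ≤ B) :
    ∫ x, f x ∂μ ≤ δ + 2 * B * ε := by
  have := Soft.abs_integral_sub_le μ (v := fun _ => 0) hf.aestronglyMeasurable
    aestronglyMeasurable_const hB0 hδ hε hB (fun _ => by simpa using hB0) hA (by simpa using h)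
  simpa using (le_abs_self _).trans this

lemma meas_le_of_int {Ω : Type*} [MeasurableSpace Ω] {μ : Measure Ω} [IsProbabilityMeasure μ]
    {f : Ω → ℝ} (hf : Integrable f μ) (h0 : ∀ x, 0 ≤ f x) {a ε : ℝ} (ha : 0 < a) {A : Set Ω}
    (hA : ∀ x ∈ A, a ≤ f x) (h : ∫ x, f x ∂μ ≤ a * ε) : μ A ≤ ENNReal.ofReal ε := by
  have h1 := mul_meas_ge_le_integral_of_nonneg (.of_forall h0) hf a
  refine (measure_mono (t := {x | a ≤ f x}) hA).trans ?_
  rw [← ofReal_measureReal]
  exact ENNReal.ofReal_le_ofReal (le_of_mul_le_mul_left (h1.trans h) ha)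

lemma hyb_const (b : Bool) (n : ℕ) : hyb (fun _ : Pair n => b) = couplingLaw b n :=
  (couplingLaw_eq b n).symm

lemma sqrt_pow4 (n : ℕ) : √(n : ℝ) ^ 4 = (n : ℝ) ^ 2 := by
  rw [show 4 = 2 * 2 from rfl, pow_mul, Real.sq_sqrt (Nat.cast_nonneg n)]

lemma card_pair (n : ℕ) : (Fintype.card (Pair n) : ℝ) ≤ √(n : ℝ) ^ 4 := by
  have : Fintype.card (Pair n) ≤ Fintype.card (Fin n × Fin n) := Fintype.card_subtype_le _
  rw [Fintype.card_prod, Fintype.card_fin] at this
  rw [sqrt_pow4, sq]; exact_mod_cast this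

lemma tendsto_sqrt : Tendsto (fun n : ℕ => √(n : ℝ)) atTop atTop :=
  Real.tendsto_sqrt_atTop.comp tendsto_natCast_atTop_atTop

lemma tendsto_err (A r : ℝ) : Tendsto (fun n : ℕ => A / (√(n : ℝ) ^ 4 * r ^ 8)) atTop (𝓝 0) := by
  have := ((tendsto_pow_atTop (n := 4) (by norm_num)).comp tendsto_sqrt).const_div_atTop (A / r ^ 8)
  refine this.congr fun n => ?_
  simp only [Function.comp]; rw [div_div, mul_comm]

/-- nonnegative functionals with a multiplicative bound -/
structure Po (X : Fam) : Prop where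
  meas : ∀ n, Measurable (X n)
  nn : ∀ n g, 0 ≤ X n g
  pm : ∃ r c, 0 < r ∧ 0 ≤ c ∧ ∀ᶠ n : ℕ in atTop, Pm r √(n : ℝ) c (X n)

namespace Po

lemma const {a : ℕ → ℝ} (h : ∀ n, 0 ≤ a n) : Po fun n _ => a n :=
  ⟨fun _ => measurable_const, fun n _ => h n, 1, 1, one_pos, zero_le_one, .of_forall fun n _ _ =>
    ⟨_, Ex.const _ _, fun _ _ => by simp [abs_of_nonneg (h n)]⟩⟩

lemma add (h : Po X) (h' : Po X') : Po fun n g => X n g + X' n g := by
  obtain ⟨r, c, h1, h2, h3⟩ := h.pm
  obtain ⟨r', c', h1', h2', h3'⟩ := h'.pm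
  refine ⟨fun n => (h.meas n).add (h'.meas n), fun n g => add_nonneg (h.nn n g) (h'.nn n g),
    min r r', c + c', lt_min h1 h1', by positivity, ?_⟩
  filter_upwards [h3, h3'] with n a a'
  exact (a.mono (min_le_left _ _)).add (a'.mono (min_le_right _ _)) h2 h2' (h.nn n) (h'.nn n)

lemma mul (h : Po X) (h' : Po X') : Po fun n g => X n g * X' n g := by
  obtain ⟨r, c, h1, h2, h3⟩ := h.pm
  obtain ⟨r', c', h1', h2', h3'⟩ := h'.pm
  refine ⟨fun n => (h.meas n).mul (h'.meas n), fun n g => mul_nonneg (h.nn n g) (h'.nn n g),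
    min r r', c * c', lt_min h1 h1', by positivity, ?_⟩
  filter_upwards [h3, h3'] with n a a'
  exact (a.mono (min_le_left _ _)).mul (a'.mono (min_le_right _ _))

lemma abs_ratio (h : Po X) {L : ℝ} (hL : 0 < L) (n : ℕ) (g : Pair n → ℝ) :
    |X n g / (L + X n g)| ≤ 1 := by
  have := h.nn n g
  rw [abs_of_nonneg (by positivity), div_le_one (by positivity)]; linarith

lemma meas_ratio (h : Po X) (L : ℝ) (n : ℕ) : Measurable fun g => X n g / (L + X n g) :=
  (h.meas n).div ((h.meas n).const_add L)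

/-- comparison of all hybrid laws with the Gaussian one -/
lemma hyb_le (h : Po X) : ∃ C : ℝ, 0 < C ∧ ∀ η : ℝ, 0 < η → ∀ᶠ n : ℕ in atTop, ∀ L : ℝ, 0 < L →
    ∀ σ : Pair n → Bool, ∫ g, X n g / (L + X n g) ∂hyb σ ≤
      C * (∫ g, X n g / (L + X n g) ∂couplingLaw false n + η) := by
  obtain ⟨r, c, h1, h2, h3⟩ := h.pm
  have hr : 0 < r / (2 * (c + 1)) := by positivity
  refine ⟨_, Real.exp_pos (512 * 3 * (3 + 1) * m8 / (r / (2 * (c + 1))) ^ 4), fun η hη => ?_⟩
  filter_upwards [h3, tendsto_sqrt.eventually_ge_atTop (2 / (r / (2 * (c + 1)))),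
    tendsto_sqrt.eventually_gt_atTop 0,
    (tendsto_err (512 * 1 * m8) (r / (2 * (c + 1)))).eventually (gt_mem_nhds hη)]
    with n a1 a2 a3 a4 L hL σ
  have := lin_le hr a3 ((div_le_iff₀ hr).1 a2) (by norm_num) (card_pair n) (h.meas_ratio L n)
    (fun g => by have := h.nn n g; positivity) (fun g => (le_abs_self _).trans (h.abs_ratio hL n g))
    (a1.ratio h2 (h.nn n) h1 hL) σ
  rw [hyb_const] at this
  refine this.trans ?_
  gcongr

lemma null_hyb (h : Po X) (h0 : Null false X) {η : ℝ} (hη : 0 < η) :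
    ∀ᶠ n : ℕ in atTop, ∀ σ : Pair n → Bool, ∫ g, X n g / (1 + X n g) ∂hyb σ ≤ η := by
  obtain ⟨C, hC, h1⟩ := h.hyb_le
  have hd : 0 < η / (4 * C) := by positivity
  filter_upwards [h1 _ hd, h0 _ _ hd hd] with n a1 a2 σ
  have := int_le_of_meas (h.meas_ratio 1 n) (h.abs_ratio one_pos n) hd.le hd.le a2 (fun g hg => by
    have p := h.nn n g
    rw [abs_of_nonneg (by positivity)]
    exact (div_le_self p (by linarith)).trans (not_lt.1 hg)) zero_le_one
  calc _ ≤ C * ((η / (4 * C) + 2 * 1 * (η / (4 * C))) + η / (4 * C)) := by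
        refine (a1 1 one_pos σ).trans ?_; gcongr
    _ = η := by field_simp; norm_num

/-- **transfer of smallness** -/
theorem null (h : Po X) (h0 : Null false X) (b : Bool) : Null b X := fun δ ε hδ hε => by
  have ha : 0 < δ / (1 + δ) := by positivity
  filter_upwards [h.null_hyb h0 (mul_pos ha hε)] with n a
  have := a fun _ => b
  rw [hyb_const] at this
  refine meas_le_of_int (int_bdd (h.meas_ratio 1 n) (h.abs_ratio one_pos n))
    (fun g => by have := h.nn n g; positivity) ha (fun g hg => ?_) this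
  have hg' : δ < X n g := hg
  rw [div_le_div_iff₀ (by positivity) (by linarith)]; nlinarith

/-- **transfer of tightness** -/
theorem tight (h : Po X) (h0 : Tight false X) (b : Bool) : Tight b X := fun ε hε => by
  obtain ⟨C, hC, h1⟩ := h.hyb_le
  have hd : 0 < ε / (8 * C) := by positivity
  obtain ⟨M, hM⟩ := h0 _ hd
  set L := (|M| + 1) / (ε / (8 * C)) with hL
  have hL0 : 0 < L := by positivity
  refine ⟨L, ?_⟩
  filter_upwards [h1 _ hd, hM] with n a1 a2
  have h2 := int_le_of_meas (h.meas_ratio L n) (h.abs_ratio hL0 n) hd.le hd.le a2 (fun g hg => by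
    have p := h.nn n g
    have q0 : X n g ≤ M := not_lt.1 hg
    have q : X n g ≤ |M| + 1 := by linarith [le_abs_self M]
    rw [abs_of_nonneg (by positivity)]
    calc _ ≤ (|M| + 1) / L := by gcongr; linarith
      _ = _ := by rw [hL]; field_simp) zero_le_one
  have h3 := a1 L hL0 fun _ => b
  rw [hyb_const] at h3
  refine meas_le_of_int (a := 1 / 2) (int_bdd (h.meas_ratio L n) (h.abs_ratio hL0 n))
    (fun g => by have := h.nn n g; positivity) (by norm_num) (fun g hg => ?_) (h3.trans ?_)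
  · have hg' : L < X n g := hg
    rw [div_le_div_iff₀ (by positivity) (by linarith)]; linarith
  · calc _ ≤ C * ((ε / (8 * C) + 2 * 1 * (ε / (8 * C))) + ε / (8 * C)) := by gcongr
      _ = _ := by field_simp; norm_num

end Po

/-- tight positive functionals -/
structure Tt (X : Fam) : Prop where
  po : Po X
  ti : Tight false X

/-- null positive functionals -/
structure Nl (X : Fam) : Prop where
  po : Po X
  nu : Null false X

lemma Tt.coin (h : Tt X) (b : Bool) : Tight b X := h.po.tight h.ti b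
lemma Nl.coin (h : Nl X) (b : Bool) : Null b X := h.po.null h.nu b
lemma Tt.const {a : ℝ} (h : 0 ≤ a) : Tt fun _ _ => a := ⟨.const fun _ => h, .const a⟩
lemma Tt.add (h : Tt X) (h' : Tt X') : Tt fun n g => X n g + X' n g := ⟨h.po.add h'.po, h.ti.add h'.ti⟩
lemma Tt.mul (h : Tt X) (h' : Tt X') : Tt fun n g => X n g * X' n g :=
  ⟨h.po.mul h'.po, h.ti.mul h'.ti h.po.nn h'.po.nn⟩
lemma Nl.of_tendsto {a : ℕ → ℝ} (h0 : ∀ n, 0 ≤ a n) (h : Tendsto a atTop (𝓝 0)) :
    Nl fun n _ => a n := ⟨.const h0, .of_tendsto h⟩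
lemma Nl.zero : Nl fun _ _ => 0 := .of_tendsto (fun _ => le_rfl) tendsto_const_nhds
lemma Nl.tt (h : Nl X) : Tt X := ⟨h.po, h.nu.tight⟩
lemma Nl.add (h : Nl X) (h' : Nl X') : Nl fun n g => X n g + X' n g := ⟨h.po.add h'.po, h.nu.add h'.nu⟩
lemma Tt.mul_nl (h : Tt X) (h' : Nl X') : Nl fun n g => X n g * X' n g :=
  ⟨h.po.mul h'.po, h.ti.mul_null h'.nu h.po.nn⟩
lemma Nl.const_mul (h : Nl X) {a : ℝ} (ha : 0 ≤ a) : Nl fun n g => a * X n g := (Tt.const ha).mul_nl h

/-- **universality of bounded functionals** -/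
theorem univ_bdd {r M : ℝ} (hr : 0 < r) (hQ : ∀ n, Measurable (Q n)) (hG : Nl G)
    (h : ∀ᶠ n : ℕ in atTop, AnS r √(n : ℝ) (Q n) (fun _ => M) (G n)) :
    Tendsto (fun n => ∫ g, Q n g ∂couplingLaw true n - ∫ g, Q n g ∂couplingLaw false n) atTop
      (𝓝 0) := by
  rw [Metric.tendsto_nhds]
  intro ε hε
  set C := 64 * (1 + 10 * m8 ^ 2) / r ^ 4 with hC
  have hC0 : 0 < C := by positivity
  have hη : 0 < ε / (2 * C) := by positivity
  have hM : 0 < 1 + 4 * M ^ 2 := by positivity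
  filter_upwards [h, hG.po.null_hyb hG.nu (div_pos (pow_pos hη 2) hM),
    tendsto_sqrt.eventually_gt_atTop 0,
    (tendsto_err (1024 * M * m8) r).eventually (gt_mem_nhds (half_pos hε))] with n a1 a2 a3 a4
  have := univ_le hr a3 hη (card_pair n) (hQ n) (fun g => (a1 g).1) (a1.cap (card_pair n) (hG.po.nn n))
    fun σ => ⟨(int_bdd (hG.po.meas_ratio 1 n) (hG.po.abs_ratio one_pos n)).const_mul _, by
      rw [integral_const_mul, ← le_div_iff₀' hM]; exact a2 σ⟩
  rw [hyb_const, hyb_const, ← hC, show C * (ε / (2 * C)) = ε / 2 by field_simp] at this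
  rw [Real.dist_eq, sub_zero]
  linarith

/-- normalisers -/
structure Nz (S : Fam) : Prop where
  meas : ∀ n, Measurable (S n)
  nn : ∀ n g, 0 ≤ S n g
  ti : Tight false S
  ex : ∃ r c G, 0 < r ∧ 0 ≤ c ∧ Nl G ∧
    ∀ᶠ n : ℕ in atTop, AnS r √(n : ℝ) (S n) (fun g => c * S n g) (G n)

namespace Nz

lemma tt (h : Nz S) : Tt S := by
  obtain ⟨r, c, G, h1, h2, -, h3⟩ := h.ex
  exact ⟨⟨h.meas, h.nn, r, c, h1, h2, h3.mono fun _ a => a.pm⟩, h.ti⟩

lemma const {a : ℝ} (h : 0 ≤ a) : Nz fun _ _ => a :=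
  ⟨fun _ => measurable_const, fun _ _ => h, .const a, 1, 1, _, one_pos, zero_le_one, .zero,
    .of_forall fun _ => (AnS.const _ _ a).mono le_rfl (fun _ => by simp [abs_of_nonneg h])
      fun _ => le_rfl⟩

lemma add (h : Nz S) (h' : Nz S') : Nz fun n g => S n g + S' n g := by
  obtain ⟨r, c, G, h1, h2, h3, h4⟩ := h.ex
  obtain ⟨r', c', G', h1', h2', h3', h4'⟩ := h'.ex
  refine ⟨fun n => (h.meas n).add (h'.meas n), fun n g => add_nonneg (h.nn n g) (h'.nn n g),
    h.ti.add h'.ti, min r r', c + c', _, lt_min h1 h1', by positivity,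
    (h3.const_mul zero_le_two).add (h3'.const_mul zero_le_two), ?_⟩
  filter_upwards [h4, h4'] with n a a'
  refine ((a.mono (min_le_left _ _) (fun _ => le_rfl) fun _ => le_rfl).add
    (a'.mono (min_le_right _ _) (fun _ => le_rfl) fun _ => le_rfl)).mono le_rfl (fun g => ?_)
    fun _ => le_rfl
  nlinarith [mul_nonneg h2 (h'.nn n g), mul_nonneg h2' (h.nn n g)]

lemma mul (h : Nz S) (h' : Nz S') : Nz fun n g => S n g * S' n g := by
  obtain ⟨r, c, G, h1, h2, h3, h4⟩ := h.ex
  obtain ⟨r', c', G', h1', h2', h3', h4'⟩ := h'.ex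
  have t := (Tt.const h2).mul h.tt
  have t' := (Tt.const h2').mul h'.tt
  refine ⟨fun n => (h.meas n).mul (h'.meas n), fun n g => mul_nonneg (h.nn n g) (h'.nn n g),
    (h.tt.mul h'.tt).ti, min r r', c * c', _, lt_min h1 h1', by positivity,
    (((t'.mul t').mul_nl h3).const_mul zero_le_two).add
      (((t.mul t).mul_nl h3').const_mul zero_le_two), ?_⟩
  filter_upwards [h4, h4'] with n a a'
  exact ((a.mono (min_le_left _ _) (fun _ => le_rfl) fun _ => le_rfl).mul
    (a'.mono (min_le_right _ _) (fun _ => le_rfl) fun _ => le_rfl)).mono le_rfl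
    (fun g => le_of_eq (by ring)) fun _ => le_rfl

lemma const_mul (h : Nz S) {a : ℝ} (ha : 0 ≤ a) : Nz fun n g => a * S n g := (const ha).mul h

end Nz

/-- holomorphic functionals with a small average oscillation -/
structure Au (Q : Fam) : Prop where
  meas : ∀ n, Measurable (Q n)
  ex : ∃ r S G, 0 < r ∧ Nz S ∧ Nl G ∧ ∀ᶠ n : ℕ in atTop, AnS r √(n : ℝ) (Q n) (S n) (G n)

namespace Au

lemma const (a : ℝ) : Au fun _ _ => a :=
  ⟨fun _ => measurable_const, 1, _, _, one_pos, .const (abs_nonneg a), .zero,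
    .of_forall fun _ => AnS.const _ _ a⟩

lemma of_nz (h : Nz S) : Au S := by
  obtain ⟨r, c, G, h1, h2, h3, h4⟩ := h.ex
  exact ⟨h.meas, r, _, G, h1, h.const_mul h2, h3, h4⟩

lemma congr (h : Au Q) (hm : ∀ n, Measurable (Q' n)) (e : ∀ᶠ n : ℕ in atTop, Q' n = Q n) : Au Q' := by
  obtain ⟨r, S, G, h1, h2, h3, h4⟩ := h.ex
  refine ⟨hm, r, S, G, h1, h2, h3, ?_⟩
  filter_upwards [h4, e] with n a b
  rwa [b]

lemma add (h : Au Q) (h' : Au Q') : Au fun n g => Q n g + Q' n g := by
  obtain ⟨r, S, G, h1, h2, h3, h4⟩ := h.ex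
  obtain ⟨r', S', G', h1', h2', h3', h4'⟩ := h'.ex
  refine ⟨fun n => (h.meas n).add (h'.meas n), min r r', _, _, lt_min h1 h1', h2.add h2',
    (h3.const_mul zero_le_two).add (h3'.const_mul zero_le_two), ?_⟩
  filter_upwards [h4, h4'] with n a a'
  exact (a.mono (min_le_left _ _) (fun _ => le_rfl) fun _ => le_rfl).add
    (a'.mono (min_le_right _ _) (fun _ => le_rfl) fun _ => le_rfl)

lemma mul (h : Au Q) (h' : Au Q') : Au fun n g => Q n g * Q' n g := by
  obtain ⟨r, S, G, h1, h2, h3, h4⟩ := h.ex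
  obtain ⟨r', S', G', h1', h2', h3', h4'⟩ := h'.ex
  refine ⟨fun n => (h.meas n).mul (h'.meas n), min r r', _, _, lt_min h1 h1', h2.mul h2',
    (((h2'.tt.mul h2'.tt).mul_nl h3).const_mul zero_le_two).add
      (((h2.tt.mul h2.tt).mul_nl h3').const_mul zero_le_two), ?_⟩
  filter_upwards [h4, h4'] with n a a'
  exact (a.mono (min_le_left _ _) (fun _ => le_rfl) fun _ => le_rfl).mul
    (a'.mono (min_le_right _ _) (fun _ => le_rfl) fun _ => le_rfl)

lemma const_mul (h : Au Q) (a : ℝ) : Au fun n g => a * Q n g := (const a).mul h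

lemma sub (h : Au Q) (h' : Au Q') : Au fun n g => Q n g - Q' n g := by
  simpa [sub_eq_add_neg] using h.add (h'.const_mul (-1))

lemma sum {κ : Type*} (s : Finset κ) {Q : κ → Fam} (h : ∀ k ∈ s, Au (Q k)) :
    Au fun n g => ∑ k ∈ s, Q k n g := by
  classical
  induction s using Finset.induction_on with
  | empty => simpa using const 0
  | insert k s hk ih =>
    simpa [sum_insert hk] using (h k (mem_insert_self _ _)).add
      (ih fun j hj => h j (mem_insert_of_mem hj))

theorem tight (h : Au Q) (b : Bool) : Tight b fun n g => |Q n g| := by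
  obtain ⟨r, S, G, -, h2, -, h4⟩ := h.ex
  exact (h2.tt.coin b).mono (h4.mono fun _ a g => (a g).1)

/-- the normalised functional is bounded and holomorphic -/
lemma norm (h : Au Q) : ∃ S, Nz S ∧ (∀ᶠ n : ℕ in atTop, ∀ g, |Q n g| ≤ S n g) ∧ ∀ L : ℝ, 0 < L →
    ∃ r G, 0 < r ∧ Nl G ∧ ∀ᶠ n : ℕ in atTop,
      AnS r √(n : ℝ) (fun g => Q n g * (1 / (L + S n g))) (fun _ => 2) (G n) := by
  obtain ⟨r, S, G, h1, h2, h3, h4⟩ := h.ex
  obtain ⟨r', c, G', h1', h2', h3', h4'⟩ := h2.ex
  refine ⟨S, h2, h4.mono fun _ a g => (a g).1, fun L hL => ⟨min r (r' / (2 * (c + 1))), _,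
    lt_min h1 (by positivity), ((h3.const_mul (a := 2 / L * (2 / L)) (by positivity)).const_mul
      zero_le_two).add (((h2.tt.mul h2.tt).mul_nl
        (h3'.const_mul (a := 4 / L ^ 4) (by positivity))).const_mul zero_le_two), ?_⟩⟩
  filter_upwards [h4, h4'] with n a a'
  refine ((a.mono (min_le_left _ _) (fun _ => le_rfl) fun _ => le_rfl).mul
    ((a'.inv h2' (h2.nn n) h1' hL).mono (min_le_right _ _) (fun _ => le_rfl) fun _ => le_rfl)).mono
    le_rfl (fun g => ?_) fun g => ?_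
  · have := h2.nn n g
    rw [← mul_div_assoc, div_le_iff₀ (by positivity)]; linarith
  · have := h2.nn n g
    have := h3.po.nn n g
    gcongr <;> linarith

/-- **transfer of smallness** -/
theorem null (h : Au Q) (h0 : Null false fun n g => |Q n g|) (b : Bool) :
    Null b fun n g => |Q n g| := by
  cases b
  · exact h0
  obtain ⟨S, hS, h1, h2⟩ := (h.mul h).norm
  obtain ⟨r, G, hr, hG, h3⟩ := h2 1 one_pos
  have hm : ∀ n, Measurable fun g => Q n g * Q n g * (1 / (1 + S n g)) := fun n =>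
    ((h.meas n).mul (h.meas n)).mul (measurable_const.div ((hS.meas n).const_add 1))
  have hU := univ_bdd (Q := fun n g => Q n g * Q n g * (1 / (1 + S n g))) hr hm hG h3
  have nn : ∀ n g, 0 ≤ Q n g * Q n g * (1 / (1 + S n g)) := fun n g =>
    mul_nonneg (mul_self_nonneg _) (by have := hS.nn n g; positivity)
  have h4 : Null true fun n g => Q n g * Q n g * (1 / (1 + S n g)) := fun δ ε hδ hε => by
    have hd : 0 < min 1 (δ * ε / 6) := lt_min one_pos (by positivity)
    filter_upwards [h3, h0 _ _ hd hd, Metric.tendsto_nhds.1 hU _ hd] with n a1 a2 a3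
    have h5 := int_le_of_meas (hm n) (fun g => (a1 g).1) hd.le hd.le a2 (fun g hg => by
      have p := hS.nn n g
      have q : |Q n g| ≤ min 1 (δ * ε / 6) := not_lt.1 hg
      rw [abs_of_nonneg (nn n g), ← abs_mul_abs_self]
      calc _ ≤ min 1 (δ * ε / 6) * 1 * 1 := by
            gcongr
            · exact q.trans (min_le_left _ _)
            · rw [div_le_one (by positivity)]; linarith
        _ = _ := by ring) zero_le_two
    rw [Real.dist_eq, sub_zero] at a3
    refine meas_le_of_int (int_bdd (hm n) fun g => (a1 g).1) (nn n) hδ (fun g hg => le_of_lt hg) ?_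
    linarith [(abs_lt.1 a3).2, min_le_right 1 (δ * ε / 6)]
  have h5 := (((Tt.const zero_le_one).add hS.tt).coin true).mul_null h4
    fun n g => by have := hS.nn n g; positivity
  intro δ ε hδ hε
  filter_upwards [h5 (δ * δ) ε (by positivity) hε] with n a
  refine (measure_mono fun g hg => ?_).trans a
  have p := hS.nn n g
  have hg' : δ < |Q n g| := hg
  change δ * δ < (1 + S n g) * (Q n g * Q n g * (1 / (1 + S n g)))
  rw [show (1 + S n g) * (Q n g * Q n g * (1 / (1 + S n g))) = Q n g * Q n g by field_simp,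
    ← abs_mul_abs_self (Q n g)]
  exact mul_lt_mul'' hg' hg' hδ.le hδ.le

lemma norm_list {I : Type*} {Z : ∀ n, (Pair n → ℝ) → I → ℝ}
    (h : ∀ i, ∃ r G, 0 < r ∧ Nl G ∧ ∀ᶠ n : ℕ in atTop,
      AnS r √(n : ℝ) (fun g => Z n g i) (fun _ => 2) (G n)) (l : List I) :
    ∃ r M G, 0 < r ∧ Nl G ∧ ∀ᶠ n : ℕ in atTop,
      AnS r √(n : ℝ) (fun g => (l.map fun i => 1 / 4 * Z n g i).prod) (fun _ => M) (G n) := by
  induction l with
  | nil => exact ⟨1, _, _, one_pos, .zero, .of_forall fun _ => by simpa using AnS.const 1 _ 1⟩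
  | cons i l ih =>
    obtain ⟨r, G, h1, h2, h3⟩ := h i
    obtain ⟨r', M, G', h1', h2', h3'⟩ := ih
    refine ⟨min r r', |1 / 4| * 2 * M, _, lt_min h1 h1',
      ((((Nl.zero.const_mul (a := 2 * 2) (by norm_num)).const_mul zero_le_two).add
        ((h2.const_mul (a := |1 / 4| * |1 / 4|) (by positivity)).const_mul zero_le_two)).const_mul
          (mul_self_nonneg M)).const_mul zero_le_two |>.add
      ((h2'.const_mul (mul_self_nonneg (|1 / 4| * 2))).const_mul zero_le_two), ?_⟩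
    filter_upwards [h3, h3'] with n a a'
    simp only [List.map_cons, List.prod_cons]
    exact (((AnS.const r _ (1 / 4)).mul a).mono (min_le_left _ _) (fun _ => le_rfl)
      fun _ => le_rfl).mul (a'.mono (min_le_right _ _) (fun _ => le_rfl) fun _ => le_rfl)

/-- **universality of cylinder functionals** -/
theorem cyl {I : Type*} {Y : ∀ n, (Pair n → ℝ) → I → ℝ} (h : ∀ i, Au fun n g => Y n g i)
    (φ : (I → ℝ) → ℝ) (hφ : Soft.IsCyl φ) :
    Tendsto (fun n => ∫ g, φ (Y n g) ∂couplingLaw true n - ∫ g, φ (Y n g) ∂couplingLaw false n)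
      atTop (𝓝 0) := by
  choose S hS hb hN using fun i => (h i).norm
  have mY : ∀ n, Measurable (Y n) := fun n => measurable_pi_lambda _ fun i => (h i).meas n
  let q : ℝ → ℝ := fun x => x / (2 + max |x| 2)
  have qp : ∀ x : ℝ, 0 < 2 + max |x| 2 := fun x => by positivity
  have hq : Continuous q := continuous_id.div (by fun_prop) fun x => (qp x).ne'
  have hqb : ∀ x, |q x| ≤ 1 := fun x => by
    rw [abs_div, abs_of_pos (qp x), div_le_one (qp x)]; linarith [le_max_left |x| 2]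
  have hinj : Function.Injective q := by
    refine StrictMono.injective fun x y hxy => ?_
    rw [div_lt_div_iff₀ (qp x) (qp y)]
    rcases le_total |x| 2 with a | a <;> rcases le_total |y| 2 with b | b <;>
      simp only [max_eq_right, max_eq_left, a, b] <;>
      rcases abs_cases x with c | c <;> rcases abs_cases y with d | d <;>
      nlinarith [c.1, c.2, d.1, d.2]
  have step : ∀ L : ℝ, 0 < L → Tendsto (fun n =>
      ∫ g, φ (fun i => L * (Y n g i * (1 / (L + S i n g)))) ∂couplingLaw true n -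
      ∫ g, φ (fun i => L * (Y n g i * (1 / (L + S i n g)))) ∂couplingLaw false n) atTop (𝓝 0) := by
    intro L hL
    have mZ : ∀ n i, Measurable fun g => Y n g i * (1 / (L + S i n g)) := fun n i =>
      ((h i).meas n).mul (measurable_const.div (((hS i).meas n).const_add L))
    have zb : ∀ i, ∀ᶠ n : ℕ in atTop, ∀ g, |Y n g i * (1 / (L + S i n g))| ≤ 2 := fun i => by
      obtain ⟨r, G, -, -, h3⟩ := hN i L hL
      exact h3.mono fun n a g => (a g).1
    refine Soft.cyl_diff_of_mon (P := couplingLaw)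
      (X := fun n g i => Y n g i * (1 / (L + S i n g))) hq hinj hqb mZ (fun b i ε _ => ⟨2, ?_⟩)
      true false (fun l => ?_) (fun z => φ fun i => L * z i) ?_
    · filter_upwards [zb i] with n a
      simp only [(a _).not_gt, Set.ofPred_false, measure_empty, zero_le]
    · obtain ⟨r, M, G, h1, h2, h3⟩ :=
        norm_list (Z := fun n g i => Y n g i * (1 / (L + S i n g))) (fun i => hN i L hL) l
      have m : ∀ n, Measurable fun g =>
          (l.map fun i => 1 / 4 * (Y n g i * (1 / (L + S i n g)))).prod := fun n =>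
        (Soft.measurable_mon (q := fun x => 1 / 4 * x) (by fun_prop) l).comp
          (measurable_pi_lambda _ (mZ n))
      refine (univ_bdd h1 m h2 h3).congr' ?_
      have : ∀ᶠ n : ℕ in atTop, ∀ i ∈ l, ∀ g, |Y n g i * (1 / (L + S i n g))| ≤ 2 :=
        (eventually_all_finite l.finite_toSet).2 fun i _ => zb i
      filter_upwards [this] with n a
      have e : ∀ g, (l.map fun i => 1 / 4 * (Y n g i * (1 / (L + S i n g)))).prod =
          Soft.mon q l fun i => Y n g i * (1 / (L + S i n g)) := fun g => by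
        unfold Soft.mon
        congr 1
        refine List.map_congr_left fun i hi => ?_
        simp only [q, max_eq_right (a i hi g)]; ring
      simp only [e]
    · obtain ⟨s, K, h0, h1, h2⟩ := hφ
      refine ⟨s, K * (1 + L), by positivity, fun x => (h1 _).trans (by nlinarith), fun x y => ?_⟩
      refine (h2 _ _).trans ?_
      simp only [← mul_sub, abs_mul, abs_of_pos hL, ← mul_sum]
      have : 0 ≤ ∑ i ∈ s, |x i - y i| := by positivity
      nlinarith [mul_nonneg h0 this]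
  have mφ := hφ.measurable
  obtain ⟨s, K, h0, h1, h2⟩ := hφ
  rw [Metric.tendsto_nhds]
  intro ε hε
  have tS : Tt fun n g => ∑ i ∈ s, S i n g * S i n g := by
    classical
    clear h2
    induction s using Finset.induction_on with
    | empty => simpa using Tt.const le_rfl
    | insert i s hi ih => simpa [sum_insert hi] using ((hS i).tt.mul (hS i).tt).add ih
  have hd : 0 < ε / (10 * (K + 1)) := by positivity
  obtain ⟨M₀, a0⟩ := tS.coin false _ hd
  obtain ⟨M₁, a1⟩ := tS.coin true _ hd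
  set M := |M₀| + |M₁| + 1 with hM
  have hM0 : 0 < M := by positivity
  have hL : 0 < M / (ε / (10 * (K + 1))) := by positivity
  have key : ∀ (b : Bool) (n : ℕ), (∀ i ∈ s, ∀ g, |Y n g i| ≤ S i n g) →
      couplingLaw b n {g | M < ∑ i ∈ s, S i n g * S i n g} ≤ ENNReal.ofReal (ε / (10 * (K + 1))) →
      |∫ g, φ (Y n g) ∂couplingLaw b n - ∫ g, φ (fun i => M / (ε / (10 * (K + 1))) *
        (Y n g i * (1 / (M / (ε / (10 * (K + 1))) + S i n g)))) ∂couplingLaw b n| ≤ 3 * ε / 10 := by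
    intro b n c1 c2
    set L := M / (ε / (10 * (K + 1))) with hLd
    refine (Soft.abs_integral_sub_le _ (mφ.comp (mY n)).aestronglyMeasurable
      (mφ.comp (measurable_pi_lambda _ fun i => (((h i).meas n).mul (measurable_const.div
        (((hS i).meas n).const_add L))).const_mul L)).aestronglyMeasurable h0
      (mul_pos hd (by positivity : 0 < K + 1)).le hd.le (fun _ => h1 _) (fun _ => h1 _) c2
      fun g hg => (h2 _ _).trans ?_).trans ?_
    · have c3 : ∑ i ∈ s, S i n g * S i n g ≤ M := not_lt.1 hg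
      have c4 : ∑ i ∈ s, |Y n g i - L * (Y n g i * (1 / (L + S i n g)))| ≤
          (∑ i ∈ s, S i n g * S i n g) / L := by
        rw [sum_div]
        refine sum_le_sum fun i hi => ?_
        have p := (hS i).nn n g
        rw [show Y n g i - L * (Y n g i * (1 / (L + S i n g))) =
          Y n g i * (S i n g / (L + S i n g)) by field_simp; ring, abs_mul,
          abs_of_nonneg (by positivity : 0 ≤ S i n g / (L + S i n g)), mul_div_assoc]
        gcongr
        exacts [c1 i hi g, by linarith]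
      calc _ ≤ (K + 1) * (M / L) := by
            refine mul_le_mul (by linarith) (c4.trans ?_) (by positivity) (by positivity)
            gcongr
        _ = _ := by rw [hLd]; field_simp
    · have : K * (ε / (10 * (K + 1))) ≤ (K + 1) * (ε / (10 * (K + 1))) := by gcongr; linarith
      have e : (K + 1) * (ε / (10 * (K + 1))) = ε / 10 := by field_simp
      linarith
  filter_upwards [a0, a1, (eventually_all_finset s).2 fun i _ => hb i,
    Metric.tendsto_nhds.1 (step _ hL) (ε / 10) (by positivity)] with n b0 b1 b2 b3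
  have k0 := abs_le.1 (key false n b2 ((measure_mono fun g (hg : M < _) =>
    lt_of_le_of_lt (by linarith [le_abs_self M₀, abs_nonneg M₁] : M₀ ≤ M) hg).trans b0))
  have k1 := abs_le.1 (key true n b2 ((measure_mono fun g (hg : M < _) =>
    lt_of_le_of_lt (by linarith [le_abs_self M₁, abs_nonneg M₀] : M₁ ≤ M) hg).trans b1))
  rw [Real.dist_eq, sub_zero, abs_lt] at b3 ⊢
  constructor <;> linarith [k0.1, k0.2, k1.1, k1.2, b3.1, b3.2]

/-- convergence of cylinder functionals for both laws from the Gaussian case -/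
theorem cyl_conv {I : Type*} {Y : ∀ n, (Pair n → ℝ) → I → ℝ} (h : ∀ i, Au fun n g => Y n g i)
    (φ : (I → ℝ) → ℝ) (hφ : Soft.IsCyl φ) {L : ℝ}
    (hL : Tendsto (fun n => ∫ g, φ (Y n g) ∂disorderLaw n) atTop (𝓝 L)) (b : Bool) :
    Tendsto (fun n => ∫ g, φ (Y n g) ∂couplingLaw b n) atTop (𝓝 L) := by
  cases b
  · exact hL
  · have := (cyl h φ hφ).add hL
    rw [zero_add] at this
    exact this.congr fun n => sub_add_cancel _ _

end Au

end Crest.Agent.T157.Un

end
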