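import Crest.Agent.T157.UnD_81
import Crest.Agent.T157.UnB_81
import Crest.Agent.T157.PathQ_90

/-!
# Row 157, part C: universality through a complex entry, E (helper81)

Vector functions of the spins that depend on the couplings: the pointwise class `PcF` and the
mean-square class `LcF` at a fixed size `n`.
-/

set_option autoImplicit false
set_option linter.unusedSectionVars false

noncomputable section

namespace Crest.Agent.T157.Un

open MeasureTheory Metric Finset Matrix Filter Topology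
open Crest.ProbabilityR.SpinGlassDynamics Crest.Agent.T157.E Crest.Agent.T157.SL
open Crest.Agent.T157.Sg (sq2 ipV nv)
open Crest.Agent.T157.Soft (N23)

variable {n : ℕ} {ι : Type*} [Fintype ι]

/-- the Gibbs weight at the critical temperature -/
abbrev gw (n : ℕ) (g : Pair n → ℝ) : Cube n → ℝ := gibbsWeight n 1 g

lemma gw_pos (g : Pair n → ℝ) (x : Cube n) : 0 < gw n g x := gibbsWeight_pos 1 g x

lemma gwt (g : Pair n → ℝ) : Wt (gw n g) := Wt.of_pos (gw_pos g)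

/-- rescaled overlap -/
def Rh (n : ℕ) (x y : Cube n) : ℝ := (N23 n)⁻¹ * (sv x ⬝ᵥ sv y)

lemma lam_eq (hn : 0 < n) (a : ℝ) (x y : Cube n) :
    N23 n ^ 2 * a + (N23 n ^ 2)⁻¹ * (sv x ⬝ᵥ sv y) ^ 4 = N23 n ^ 2 * (a + Rh n x y ^ 4) := by
  have := (Soft.N23_pos hn).ne'
  rw [Rh]; field_simp

lemma N_sq (hn : 0 < n) : N23 n ^ 2 = √(n : ℝ) ^ 4 * (N23 n)⁻¹ := by
  have h := (Soft.N23_pos hn).ne'
  have : N23 n ^ 3 = (n : ℝ) ^ 2 := by
    rw [← Real.rpow_natCast, ← Real.rpow_mul (Nat.cast_nonneg n), ← Real.rpow_natCast]; norm_num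
  rw [sqrt_pow4, ← this]; field_simp

/-- squared norm of a complex vector -/
def sqc (U : ι → Cube n → ℂ) (x : Cube n) : ℝ := ∑ i, ‖U i x‖ ^ 2

lemma sqc_nonneg (U : ι → Cube n → ℂ) (x : Cube n) : 0 ≤ sqc U x := by unfold sqc; positivity

lemma sqc_real (u : ι → Cube n → ℝ) (x : Cube n) : sqc (fun i x => (u i x : ℂ)) x = sq2 u x := by
  simp [sqc, sq2]

lemma sqc_add_le (U V : ι → Cube n → ℂ) (x : Cube n) : sqc (U + V) x ≤ 2 * sqc U x + 2 * sqc V x := by
  simp only [sqc, mul_sum, ← sum_add_distrib, Pi.add_apply]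
  refine sum_le_sum fun i _ => ?_
  have h1 := pow_le_pow_left₀ (norm_nonneg _) (norm_add_le (U i x) (V i x)) 2
  nlinarith [sq_nonneg (‖U i x‖ - ‖V i x‖)]

lemma sq2_add_le (u v : ι → Cube n → ℝ) (x : Cube n) : sq2 (u + v) x ≤ 2 * sq2 u x + 2 * sq2 v x := by
  simp only [sq2, mul_sum, ← sum_add_distrib, Pi.add_apply]
  exact sum_le_sum fun i _ => by nlinarith [sq_nonneg (u i x - v i x)]

lemma sqc_smul (c : ℝ) (U : ι → Cube n → ℂ) (x : Cube n) :
    sqc (fun i x => (c : ℂ) * U i x) x = c ^ 2 * sqc U x := by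
  simp [sqc, mul_pow, mul_sum]

lemma norm_dot_sq_le (U V : ι → Cube n → ℂ) (x : Cube n) :
    ‖∑ i, U i x * V i x‖ ^ 2 ≤ sqc U x * sqc V x := by
  refine le_trans ?_ (sum_mul_sq_le_sq_mul_sq univ (fun i => ‖U i x‖) fun i => ‖V i x‖)
  gcongr
  exact (norm_sum_le _ _).trans (le_of_eq (sum_congr rfl fun i _ => norm_mul _ _))

lemma abs_dot_le (u : ι → Cube n → ℝ) (x y : Cube n) :
    |∑ i, u i x * u i y| ≤ (sq2 u x + sq2 u y) / 2 := by
  refine (abs_sum_le_sum_abs _ _).trans ?_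
  rw [sq2, sq2, ← sum_add_distrib, sum_div]
  refine sum_le_sum fun i _ => ?_
  rw [abs_mul, ← sq_abs (u i x), ← sq_abs (u i y)]
  nlinarith [sq_nonneg (|u i x| - |u i y|)]

lemma bil_sq_le {w : Cube n → ℝ} (hw : ∀ x, 0 < w x) {k : Cube n → ℂ}
    (hk : ∀ x, ‖k x‖ ≤ 3 * prob w x) (A B : ι → Cube n → ℂ) :
    ‖∑ x, k x * ∑ i, A i x * B i x‖ ^ 2 ≤ 9 * (mean w (sqc A) * mean w (sqc B)) := by
  have hP := Chain22.isP_prob' hw
  have h1 : ‖∑ x, k x * ∑ i, A i x * B i x‖ ≤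
      3 * ipV (prob w) (fun i x => ‖A i x‖) fun i x => ‖B i x‖ := by
    simp only [ipV, Chain22.ip]
    rw [sum_comm, mul_sum]
    refine (norm_sum_le _ _).trans (sum_le_sum fun x _ => ?_)
    rw [norm_mul, ← mul_sum, ← mul_assoc]
    exact mul_le_mul (hk x) ((norm_sum_le _ _).trans (le_of_eq (sum_congr rfl fun i _ =>
      norm_mul _ _))) (norm_nonneg _) ((norm_nonneg _).trans (hk x))
  have h2 := (le_abs_self _).trans (Sg.abs_ipV_le hP (fun i x => ‖A i x‖) fun i x => ‖B i x‖)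
  have h3 := Sg.nv_sq hP fun i x => ‖A i x‖
  have h4 := Sg.nv_sq hP fun i x => ‖B i x‖
  rw [Sg.ipV_self_eq] at h3 h4
  calc _ ≤ (3 * (nv (prob w) (fun i x => ‖A i x‖) * nv (prob w) fun i x => ‖B i x‖)) ^ 2 := by
        gcongr; linarith
    _ = _ := by rw [mul_pow, mul_pow, h3, h4]; norm_num; rfl

/-- holomorphic extension of a vector function in the entry `e` -/
def ExV (r : ℝ) (u : (Pair n → ℝ) → ι → Cube n → ℝ) (g : Pair n → ℝ) (e : Pair n)
    (U : ℂ → ι → Cube n → ℂ) : Prop :=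
  ∀ i x, Ex r (fun t => u (sh √(n : ℝ) g e t) i x) fun z => U z i x

variable {r r' : ℝ} {u u' : (Pair n → ℝ) → ι → Cube n → ℝ} {β β' : (Pair n → ℝ) → Cube n → ℝ}
  {S S' G G' : (Pair n → ℝ) → ℝ}

lemma ExV.zero {g : Pair n → ℝ} {e : Pair n} {U : ℂ → ι → Cube n → ℂ} (h : ExV r u g e U)
    (hr : 0 < r) : U 0 = fun i x => (u g i x : ℂ) := by
  funext i x; rw [(h i x).zero hr, sh_zero]

/-- pointwise class -/
def PcF (r : ℝ) (u : (Pair n → ℝ) → ι → Cube n → ℝ) (β : (Pair n → ℝ) → Cube n → ℝ) : Prop :=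
  ∀ g, (∀ x, sq2 (u g) x ≤ β g x) ∧ ∃ K : Pair n → Cube n → ℝ,
    (∀ x, ∑ e, K e x ≤ N23 n ^ 2 * β g x) ∧ ∀ e, ∃ U, ExV r u g e U ∧
      ∀ z ∈ ball (0 : ℂ) r, ∀ x, sqc (U z) x ≤ β g x ∧ sqc (U z - U 0) x ≤ K e x

/-- mean-square class -/
def LcF (r : ℝ) (u : (Pair n → ℝ) → ι → Cube n → ℝ) (S G : (Pair n → ℝ) → ℝ) : Prop :=
  ∀ g, mean (gw n g) (sq2 (u g)) ≤ S g ∧ mean (gw n g) (fun x => sq2 (u g) x ^ 2) ≤ S g ∧
    ∃ K : Pair n → ℝ, ∑ e, K e ≤ √(n : ℝ) ^ 4 * G g ∧ ∀ e, ∃ U, ExV r u g e U ∧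
      ∀ z ∈ ball (0 : ℂ) r, mean (gw n g) (sqc (U z)) ≤ S g ∧ mean (gw n g) (sqc (U z - U 0)) ≤ K e

namespace PcF

lemma nn (h : PcF r u β) (g : Pair n → ℝ) (x : Cube n) : 0 ≤ β g x :=
  (Sg.sq2_nonneg _ x).trans ((h g).1 x)

lemma mono (h : PcF r u β) (hr : r' ≤ r) (hβ : ∀ g x, β g x ≤ β' g x) : PcF r' u β' := fun g => by
  obtain ⟨h0, K, hK, hU⟩ := h g
  refine ⟨fun x => (h0 x).trans (hβ g x), K, fun x => (hK x).trans (by gcongr; exact hβ g x),
    fun e => ?_⟩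
  obtain ⟨U, h1, h2⟩ := hU e
  exact ⟨U, fun i x => (h1 i x).mono hr, fun z hz x =>
    ⟨(h2 z (ball_subset_ball hr hz) x).1.trans (hβ g x), (h2 z (ball_subset_ball hr hz) x).2⟩⟩

lemma const (r : ℝ) (a : ι → Cube n → ℝ) : PcF r (fun _ => a) fun _ => sq2 a := fun _ =>
  ⟨fun _ => le_rfl, 0, fun x => by simpa using mul_nonneg (sq_nonneg _) (Sg.sq2_nonneg a x),
    fun _ => ⟨fun _ i x => a i x, fun _ _ => Ex.const _ _, fun _ _ x =>
      ⟨(sqc_real a x).le, by simp [sqc]⟩⟩⟩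

lemma add (h : PcF r u β) (h' : PcF r u' β') :
    PcF r (fun g => u g + u' g) fun g x => 2 * β g x + 2 * β' g x := fun g => by
  obtain ⟨h0, K, hK, hU⟩ := h g
  obtain ⟨h0', K', hK', hU'⟩ := h' g
  refine ⟨fun x => (sq2_add_le _ _ x).trans (by linarith [h0 x, h0' x]),
    fun e x => 2 * K e x + 2 * K' e x, fun x => ?_, fun e => ?_⟩
  · simp only [sum_add_distrib, ← mul_sum]; linarith [hK x, hK' x]
  obtain ⟨U, h1, h2⟩ := hU e
  obtain ⟨U', h1', h2'⟩ := hU' e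
  refine ⟨fun z => U z + U' z, fun i x => (h1 i x).add (h1' i x), fun z hz x =>
    ⟨(sqc_add_le _ _ x).trans (by linarith [(h2 z hz x).1, (h2' z hz x).1]), ?_⟩⟩
  rw [add_sub_add_comm]
  exact (sqc_add_le _ _ x).trans (by linarith [(h2 z hz x).2, (h2' z hz x).2])

lemma smul (h : PcF r u β) (c : ℝ) : PcF r (fun g => c • u g) fun g x => c ^ 2 * β g x := fun g => by
  obtain ⟨h0, K, hK, hU⟩ := h g
  refine ⟨fun x => ?_, fun e x => c ^ 2 * K e x, fun x => ?_, fun e => ?_⟩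
  · simp only [sq2, Pi.smul_apply, smul_eq_mul, mul_pow, ← mul_sum]
    exact mul_le_mul_of_nonneg_left (h0 x) (sq_nonneg c)
  · rw [← mul_sum, mul_left_comm]; exact mul_le_mul_of_nonneg_left (hK x) (sq_nonneg c)
  obtain ⟨U, h1, h2⟩ := hU e
  refine ⟨fun z i x => c * U z i x, fun i x => (Ex.const r c).mul (h1 i x), fun z hz x => ⟨?_, ?_⟩⟩
  · rw [sqc_smul]; exact mul_le_mul_of_nonneg_left (h2 z hz x).1 (sq_nonneg c)
  · have : ((fun i x => (c : ℂ) * U z i x) - fun i x => (c : ℂ) * U 0 i x) =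
        fun i x => (c : ℂ) * (U z - U 0) i x := by funext i x; simp [mul_sub]
    rw [this, sqc_smul]; exact mul_le_mul_of_nonneg_left (h2 z hz x).2 (sq_nonneg c)

lemma dot (h : PcF r u β) (h' : PcF r u' β') :
    PcF r (fun g (_ : Unit) x => ∑ i, u g i x * u' g i x) fun g x => 4 * (β g x * β' g x) := fun g => by
  have p := h.nn g
  have p' := h'.nn g
  obtain ⟨h0, K, hK, hU⟩ := h g
  obtain ⟨h0', K', hK', hU'⟩ := h' g
  refine ⟨fun x => ?_, fun e x => 2 * (K e x * β' g x) + 2 * (β g x * K' e x), fun x => ?_,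
    fun e => ?_⟩
  · simp only [sq2, univ_unique, sum_singleton]
    have := (sum_mul_sq_le_sq_mul_sq univ (fun i => u g i x) fun i => u' g i x).trans
      (mul_le_mul (h0 x) (h0' x) (Sg.sq2_nonneg _ x) (p x))
    nlinarith [mul_nonneg (p x) (p' x)]
  · simp only [sum_add_distrib, ← mul_sum, ← sum_mul]
    nlinarith [mul_le_mul_of_nonneg_right (hK x) (p' x), mul_le_mul_of_nonneg_left (hK' x) (p x)]
  obtain ⟨U, h1, h2⟩ := hU e
  obtain ⟨U', h1', h2'⟩ := hU' e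
  refine ⟨fun z _ x => ∑ i, U z i x * U' z i x, fun _ x => Ex.sum _ fun i _ => (h1 i x).mul (h1' i x),
    fun z hz x => ⟨?_, ?_⟩⟩
  · simp only [sqc, univ_unique, sum_singleton]
    have := (norm_dot_sq_le (U z) (U' z) x).trans
      (mul_le_mul (h2 z hz x).1 (h2' z hz x).1 (sqc_nonneg _ x) (p x))
    nlinarith [mul_nonneg (p x) (p' x)]
  · have z0 : (0 : ℂ) ∈ ball (0 : ℂ) r := mem_ball_self (pos_of_mem_ball hz)
    have e1 : ((fun (_ : Unit) x => ∑ i, U z i x * U' z i x) - fun _ x => ∑ i, U 0 i x * U' 0 i x) =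
        (fun _ x => ∑ i, (U z - U 0) i x * U' z i x) +
          fun _ x => ∑ i, U 0 i x * (U' z - U' 0) i x := by
      funext _ x
      simp only [Pi.sub_apply, Pi.add_apply, ← sum_sub_distrib, ← sum_add_distrib]
      exact sum_congr rfl fun i _ => by ring
    rw [e1]
    refine (sqc_add_le _ _ x).trans ?_
    have a1 := (norm_dot_sq_le (U z - U 0) (U' z) x).trans (mul_le_mul (h2 z hz x).2 (h2' z hz x).1
      (sqc_nonneg _ x) ((sqc_nonneg _ x).trans (h2 z hz x).2))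
    have a2 := (norm_dot_sq_le (U 0) (U' z - U' 0) x).trans (mul_le_mul (h2 0 z0 x).1 (h2' z hz x).2
      (sqc_nonneg _ x) (p x))
    simp only [sqc, univ_unique, sum_singleton] at a1 a2 ⊢
    linarith

end PcF

section chan
variable {κ : Type*} [Fintype κ] [DecidableEq κ] {φ : Cube n → κ → ℝ} {s : ℝ}

lemma k0_mono {w : Cube n → ℝ} (hw : ∀ x, 0 < w x) {f f' : Cube n → ℝ} (h : ∀ x, f x ≤ f' x)
    (x : Cube n) : (k0 φ s w *ᵥ f) x ≤ (k0 φ s w *ᵥ f') x :=
  sum_le_sum fun y _ => mul_le_mul_of_nonneg_left (h y) (k0_nn hw x y)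

lemma k0_nonneg {w : Cube n → ℝ} (hw : ∀ x, 0 < w x) {f : Cube n → ℝ} (h : ∀ x, 0 ≤ f x)
    (x : Cube n) : 0 ≤ (k0 φ s w *ᵥ f) x := sum_nonneg fun y _ => mul_nonneg (k0_nn hw x y) (h y)

lemma exV_T (hn : 0 < n) (hr : r ≤ 1 / 4) {g : Pair n → ℝ} {e : Pair n} {U : ℂ → ι → Cube n → ℂ}
    (h : ExV r u g e U) : ExV r (fun g i => k0 φ s (gw n g) *ᵥ u g i) g e
      fun z i x => ∑ y, kc φ s (gw n g) (chi e) z x y * U z i y := fun i x => by
  refine (Ex.sum _ fun y _ => ((ex_kc (gw_pos g) (sgn_chi e) x y).mono hr).mul (h i y)).congr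
    fun t _ => ?_
  simp only [gw, gibbs_sh hn, mulVec, dotProduct]

lemma sqc_T_sub (hr : 0 < r) (hr' : r ≤ 1 / 4) {g : Pair n → ℝ} {e : Pair n}
    {U : ℂ → ι → Cube n → ℂ} (h : ExV r u g e U) {z : ℂ} (hz : z ∈ ball (0 : ℂ) r) (x : Cube n) :
    sqc ((fun i x => ∑ y, kc φ s (gw n g) (chi e) z x y * U z i y) -
      fun i x => ∑ y, kc φ s (gw n g) (chi e) 0 x y * U 0 i y) x ≤
      18 * (k0 φ s (gw n g) *ᵥ sqc (U z - U 0)) x + 2 * cv φ s (gw n g) (chi e) (u g) x := by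
  have hz' := ball_subset_ball hr' hz
  have e1 : ((fun i x => ∑ y, kc φ s (gw n g) (chi e) z x y * U z i y) -
      fun i x => ∑ y, kc φ s (gw n g) (chi e) 0 x y * U 0 i y) =
      (fun i x => ∑ y, kc φ s (gw n g) (chi e) z x y * (U z - U 0) i y) + fun i x =>
        ∑ y, kc φ s (gw n g) (chi e) z x y * u g i y -
          ∑ y, kc φ s (gw n g) (chi e) 0 x y * u g i y := by
    funext i x
    simp only [h.zero hr, Pi.sub_apply, Pi.add_apply, mul_sub, sum_sub_distrib]; ring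
  rw [e1]
  refine (sqc_add_le _ _ x).trans ?_
  have a1 := kc_jensen (φ := φ) (s := s) (gw_pos g) (sgn_chi e) hz' x (U z - U 0)
  have a2 := kc_tilt (φ := φ) (s := s) (gw_pos g) (sgn_chi e) hz' x (u g)
  unfold sqc
  linarith

lemma sum_cv_le' (hn : 0 < n) {w : Cube n → ℝ} (hw : ∀ x, 0 < w x) (u : ι → Cube n → ℝ)
    {γ : Cube n → Cube n → ℝ} (hγ : ∀ x y, |∑ i, u i x * u i y| ≤ γ x y) (x : Cube n) :
    ∑ e : Pair n, cv φ s w (chi e) u x ≤ N23 n ^ 2 *
      (2 * E2 φ s w (fun y y' => γ y y' ^ 2) x + 2 * E2 φ s w (fun y y' => Rh n y y' ^ 4) x) := by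
  refine (sum_cv_le hw u hγ (pow_pos (Soft.N23_pos hn) 2) x).trans (le_of_eq ?_)
  simp only [lam_eq hn, E2_const_mul, E2_add hw]; ring

lemma E2_half {w : Cube n → ℝ} (hw : ∀ x, 0 < w x) (b : Cube n → ℝ) (x : Cube n) :
    E2 φ s w (fun y y' => ((b y + b y') / 2) ^ 2) x ≤ (k0 φ s w *ᵥ fun y => b y ^ 2) x := by
  have := E2_mono (φ := φ) (s := s) hw (F := fun y y' => ((b y + b y') / 2) ^ 2)
    (G := fun y y' => 1 / 2 * b y ^ 2 + 1 / 2 * b y' ^ 2)
    (fun y y' => by nlinarith [sq_nonneg (b y - b y')]) x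
  rw [E2_add hw, E2_const_mul, E2_const_mul, E2_left hw (fun y => b y ^ 2),
    E2_right hw fun y => b y ^ 2] at this
  linarith

lemma PcF.T (hn : 0 < n) (hr : 0 < r) (hr' : r ≤ 1 / 4) (hs : 0 ≤ s) (h : PcF r u β) :
    PcF r (fun g i => k0 φ s (gw n g) *ᵥ u g i) fun g x => 18 * (k0 φ s (gw n g) *ᵥ β g) x +
      4 * (k0 φ s (gw n g) *ᵥ fun y => β g y ^ 2) x +
      4 * E2 φ s (gw n g) (fun y y' => Rh n y y' ^ 4) x := fun g => by
  have p := h.nn g
  have q1 := k0_nonneg (φ := φ) (s := s) (gw_pos g) p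
  have q2 := k0_nonneg (φ := φ) (s := s) (gw_pos g) fun y => sq_nonneg (β g y)
  have q3 := E2_nonneg (φ := φ) (s := s) (gw_pos g) (F := fun y y' => Rh n y y' ^ 4)
    fun _ _ => by positivity
  obtain ⟨h0, K, hK, hU⟩ := h g
  refine ⟨fun x => ?_, fun e x => 18 * (k0 φ s (gw n g) *ᵥ K e) x +
    2 * cv φ s (gw n g) (chi e) (u g) x, fun x => ?_, fun e => ?_⟩
  · have := (Sg.sq2_P_le (Sg.stRC φ (gw_pos g) hs) (u g) x).trans (k0_mono (gw_pos g) h0 x)
    change sq2 (fun i => k0 φ s (gw n g) *ᵥ u g i) x ≤ _ at this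
    linarith [q1 x, q2 x, q3 x]
  · have a1 := sum_cv_le' (φ := φ) (s := s) hn (gw_pos g) (u g)
      (γ := fun y y' => (β g y + β g y') / 2)
      (fun y y' => (abs_dot_le _ y y').trans (by linarith [h0 y, h0 y'])) x
    have a2 := mul_le_mul_of_nonneg_left (E2_half (φ := φ) (s := s) (gw_pos g) (β g) x)
      (sq_nonneg (N23 n))
    have a3 : ∑ e, (k0 φ s (gw n g) *ᵥ K e) x ≤ N23 n ^ 2 * (k0 φ s (gw n g) *ᵥ β g) x := by
      have := k0_mono (φ := φ) (s := s) (gw_pos g) hK x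
      simp only [mulVec, dotProduct, mul_sum, mul_left_comm _ (N23 n ^ 2)] at this ⊢
      rwa [sum_comm]
    simp only [sum_add_distrib, ← mul_sum]
    linarith
  obtain ⟨U, h1, h2⟩ := hU e
  refine ⟨_, exV_T hn hr' h1, fun z hz x => ⟨?_, (sqc_T_sub hr hr' h1 hz x).trans ?_⟩⟩
  · have := (kc_jensen (φ := φ) (s := s) (gw_pos g) (sgn_chi e) (ball_subset_ball hr' hz) x
      (U z)).trans (mul_le_mul_of_nonneg_left (k0_mono (gw_pos g) (fun y => (h2 z hz y).1) x)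
        (by norm_num))
    unfold sqc
    linarith [q1 x, q2 x, q3 x]
  · linarith [k0_mono (φ := φ) (s := s) (gw_pos g) (fun y => (h2 z hz y).2) x]

lemma PcF.Ta (hn : 0 < n) (a : ι → Cube n → ℝ) {γ : Cube n → Cube n → ℝ}
    (hγ : ∀ x y, |∑ i, a i x * a i y| ≤ γ x y) :
    PcF (1 / 4) (fun g i => k0 φ s (gw n g) *ᵥ a i) fun g x => 9 * E2 φ s (gw n g) γ x +
      2 * E2 φ s (gw n g) (fun y y' => γ y y' ^ 2) x +
      2 * E2 φ s (gw n g) (fun y y' => Rh n y y' ^ 4) x := fun g => by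
  have q1 := E2_nonneg (φ := φ) (s := s) (gw_pos g) fun x y => (abs_nonneg _).trans (hγ x y)
  have q2 := E2_nonneg (φ := φ) (s := s) (gw_pos g) fun x y => sq_nonneg (γ x y)
  have q3 := E2_nonneg (φ := φ) (s := s) (gw_pos g) (F := fun y y' => Rh n y y' ^ 4)
    fun _ _ => by positivity
  have q4 := E2_mono (φ := φ) (s := s) (gw_pos g) hγ
  refine ⟨fun x => ?_, fun e x => cv φ s (gw n g) (chi e) a x, fun x => ?_, fun e => ?_⟩
  · have := kc_gram (φ := φ) (s := s) (χ := fun _ => 1) (gw_pos g) (fun _ => .inl rfl)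
      (mem_ball_self (by norm_num)) x a
    simp only [kc_zero, ← Complex.ofReal_mul, ← Complex.ofReal_sum, Complex.norm_real,
      Real.norm_eq_abs, sq_abs] at this
    change sq2 (fun i => k0 φ s (gw n g) *ᵥ a i) x ≤ _ at this
    linarith [q1 x, q2 x, q3 x, q4 x]
  · have := sum_cv_le' (φ := φ) (s := s) hn (gw_pos g) a hγ x
    nlinarith [mul_nonneg (sq_nonneg (N23 n)) (q1 x)]
  refine ⟨_, exV_T (u := fun _ => a) (U := fun _ i x => a i x) hn le_rfl fun i x => Ex.const _ _,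
    fun z hz x => ⟨?_, kc_tilt (gw_pos g) (sgn_chi e) hz x a⟩⟩
  have := kc_gram (φ := φ) (s := s) (gw_pos g) (sgn_chi e) hz x a
  unfold sqc
  linarith [q1 x, q2 x, q3 x, q4 x]

lemma LcF.T (hn : 0 < n) (hr : 0 < r) (hr' : r ≤ 1 / 4) (hs : 0 ≤ s) (h : LcF r u S G)
    {Y : (Pair n → ℝ) → ℝ}
    (hY : ∀ g, mean (gw n g) (E2 φ s (gw n g) fun y y' => Rh n y y' ^ 4) ≤ Y g) :
    LcF r (fun g i => k0 φ s (gw n g) *ᵥ u g i) (fun g => 9 * S g)
      fun g => 18 * G g + (N23 n)⁻¹ * (4 * S g + 4 * Y g) := fun g => by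
  obtain ⟨h0, h0', K, hK, hU⟩ := h g
  have hW := gwt g
  have p : 0 ≤ S g := (hW.mean_nonneg (Sg.sq2_nonneg _)).trans h0
  have b1 : ∀ x, sq2 (fun i => k0 φ s (gw n g) *ᵥ u g i) x ≤ (k0 φ s (gw n g) *ᵥ sq2 (u g)) x :=
    Sg.sq2_P_le (Sg.stRC φ (gw_pos g) hs) (u g)
  refine ⟨?_, ?_, fun e => 18 * K e + 2 * mean (gw n g) (cv φ s (gw n g) (chi e) (u g)), ?_,
    fun e => ?_⟩
  · have := hW.mean_mono b1
    rw [mean_k0 (gw_pos g) hs] at this
    linarith
  · have := hW.mean_mono fun x => (pow_le_pow_left₀ (Sg.sq2_nonneg _ x) (b1 x) 2).trans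
      (k0_pow_le (gw_pos g) (Sg.sq2_nonneg _) 2 x)
    rw [mean_k0 (gw_pos g) hs] at this
    linarith
  · have a1 := hW.mean_mono fun x => (sum_cv_le' (φ := φ) (s := s) hn (gw_pos g) (u g)
      (abs_dot_le (u g)) x).trans (mul_le_mul_of_nonneg_left (add_le_add_left
        (mul_le_mul_of_nonneg_left (E2_half (gw_pos g) (sq2 (u g)) x) zero_le_two) _) (sq_nonneg _))
    rw [mean_sum, mean_const_mul, mean_add, mean_const_mul, mean_const_mul,
      mean_k0 (gw_pos g) hs] at a1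
    have a2 := mul_le_mul_of_nonneg_left (add_le_add h0' (hY g)) (sq_nonneg (N23 n))
    simp only [sum_add_distrib, ← mul_sum]
    rw [mul_add, ← mul_assoc _ (N23 n)⁻¹, ← N_sq hn]
    linarith
  obtain ⟨U, h1, h2⟩ := hU e
  refine ⟨_, exV_T hn hr' h1, fun z hz => ⟨?_, ?_⟩⟩
  · have := hW.mean_mono fun x => kc_jensen (φ := φ) (s := s) (gw_pos g) (sgn_chi e)
      (ball_subset_ball hr' hz) x (U z)
    rw [mean_const_mul, mean_k0 (gw_pos g) hs] at this
    exact this.trans (mul_le_mul_of_nonneg_left (h2 z hz).1 (by norm_num))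
  · have := hW.mean_mono fun x => sqc_T_sub (φ := φ) (s := s) hr hr' h1 hz x
    rw [mean_add, mean_const_mul, mean_const_mul, mean_k0 (gw_pos g) hs] at this
    linarith [(h2 z hz).2]

end chan

lemma PcF.lc (hn : 0 < n) (h : PcF r u β) (h1 : ∀ g, mean (gw n g) (β g) ≤ S g)
    (h2 : ∀ g, mean (gw n g) (fun x => β g x ^ 2) ≤ S g) :
    LcF r u S fun g => (N23 n)⁻¹ * S g := fun g => by
  obtain ⟨h0, K, hK, hU⟩ := h g
  have hW := gwt g
  refine ⟨(hW.mean_mono h0).trans (h1 g), (hW.mean_mono fun x =>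
    pow_le_pow_left₀ (Sg.sq2_nonneg _ x) (h0 x) 2).trans (h2 g), fun e => mean (gw n g) (K e), ?_,
    fun e => ?_⟩
  · have := hW.mean_mono hK
    rw [mean_sum, mean_const_mul] at this
    rw [← mul_assoc, ← N_sq hn]
    exact this.trans (mul_le_mul_of_nonneg_left (h1 g) (sq_nonneg _))
  obtain ⟨U, a1, a2⟩ := hU e
  exact ⟨U, a1, fun z hz => ⟨(hW.mean_mono fun x => (a2 z hz x).1).trans (h1 g),
    hW.mean_mono fun x => (a2 z hz x).2⟩⟩

namespace LcF

lemma nn (h : LcF r u S G) (g : Pair n → ℝ) : 0 ≤ S g :=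
  ((gwt g).mean_nonneg (Sg.sq2_nonneg _)).trans (h g).1

lemma mono (h : LcF r u S G) (hr : r' ≤ r) : LcF r' u S G := fun g => by
  obtain ⟨h0, h0', K, hK, hU⟩ := h g
  refine ⟨h0, h0', K, hK, fun e => ?_⟩
  obtain ⟨U, h1, h2⟩ := hU e
  exact ⟨U, fun i x => (h1 i x).mono hr, fun z hz => h2 z (ball_subset_ball hr hz)⟩

lemma add (h : LcF r u S G) (h' : LcF r u' S' G') :
    LcF r (fun g => u g + u' g) (fun g => 8 * S g + 8 * S' g) fun g => 2 * G g + 2 * G' g := fun g => by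
  have p := h.nn g
  have p' := h'.nn g
  obtain ⟨h0, h0', K, hK, hU⟩ := h g
  obtain ⟨k0, k0', K', hK', hU'⟩ := h' g
  have hW := gwt g
  refine ⟨?_, ?_, fun e => 2 * K e + 2 * K' e, ?_, fun e => ?_⟩
  · have := hW.mean_mono (sq2_add_le (u g) (u' g))
    rw [mean_add, mean_const_mul, mean_const_mul] at this
    linarith
  · have := hW.mean_mono (f := fun x => sq2 (u g + u' g) x ^ 2)
      (g := fun x => 8 * sq2 (u g) x ^ 2 + 8 * sq2 (u' g) x ^ 2) fun x =>
      (pow_le_pow_left₀ (Sg.sq2_nonneg _ x) (sq2_add_le (u g) (u' g) x) 2).trans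
        (by nlinarith [sq_nonneg (sq2 (u g) x - sq2 (u' g) x)])
    rw [mean_add, mean_const_mul, mean_const_mul] at this
    linarith
  · simp only [sum_add_distrib, ← mul_sum]; linarith
  obtain ⟨U, h1, h2⟩ := hU e
  obtain ⟨U', h1', h2'⟩ := hU' e
  refine ⟨fun z => U z + U' z, fun i x => (h1 i x).add (h1' i x), fun z hz => ⟨?_, ?_⟩⟩
  · have := hW.mean_mono (sqc_add_le (U z) (U' z))
    rw [mean_add, mean_const_mul, mean_const_mul] at this
    linarith [(h2 z hz).1, (h2' z hz).1]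
  · have := hW.mean_mono (sqc_add_le (U z - U 0) (U' z - U' 0))
    rw [mean_add, mean_const_mul, mean_const_mul] at this
    rw [add_sub_add_comm]
    linarith [(h2 z hz).2, (h2' z hz).2]

lemma smul (h : LcF r u S G) (c : ℝ) :
    LcF r (fun g => c • u g) (fun g => (c ^ 2 + c ^ 4) * S g) fun g => c ^ 2 * G g := fun g => by
  have p := h.nn g
  obtain ⟨h0, h0', K, hK, hU⟩ := h g
  have e0 : sq2 (c • u g) = fun x => c ^ 2 * sq2 (u g) x := by
    funext x; simp only [sq2, Pi.smul_apply, smul_eq_mul, mul_pow, mul_sum]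
  have c2 := sq_nonneg c
  have c4 : 0 ≤ c ^ 4 := by positivity
  refine ⟨?_, ?_, fun e => c ^ 2 * K e, ?_, fun e => ?_⟩
  · rw [e0, mean_const_mul]; nlinarith [mul_le_mul_of_nonneg_left h0 c2, mul_nonneg c4 p]
  · simp only [e0, mul_pow, mean_const_mul, show (c ^ 2) ^ 2 = c ^ 4 by ring]
    nlinarith [mul_le_mul_of_nonneg_left h0' c4, mul_nonneg c2 p]
  · rw [← mul_sum, mul_left_comm]; exact mul_le_mul_of_nonneg_left hK c2
  obtain ⟨U, h1, h2⟩ := hU e
  refine ⟨fun z i x => c * U z i x, fun i x => (Ex.const r c).mul (h1 i x), fun z hz => ⟨?_, ?_⟩⟩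
  · rw [funext (sqc_smul c (U z)), mean_const_mul]
    nlinarith [mul_le_mul_of_nonneg_left (h2 z hz).1 c2, mul_nonneg c4 p]
  · have : ((fun i x => (c : ℂ) * U z i x) - fun i x => (c : ℂ) * U 0 i x) =
        fun i x => (c : ℂ) * (U z - U 0) i x := by funext i x; simp [mul_sub]
    rw [this, funext (sqc_smul c (U z - U 0)), mean_const_mul]
    exact mul_le_mul_of_nonneg_left (h2 z hz).2 c2

end LcF

/-- the resolvent contracts fourth moments -/
lemma mean_sq2_RV {Ω : Type*} [Fintype Ω] [DecidableEq Ω] (c : Chain22.RC Ω) {τ : ℝ} (hτ : 0 ≤ τ)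
    (h : ι → Ω → ℝ) : Chain22.mean c.π (fun x => sq2 (Sg.RV c τ h) x ^ 2) ≤
      Chain22.mean c.π fun x => sq2 h x ^ 2 := by
  set f := Sg.RV c τ h with hf
  have young : ∀ (v : ι → Ω → ℝ) x, sq2 f x * ∑ i, v i x * f i x ≤
      1 / 4 * sq2 v x ^ 2 + 3 / 4 * sq2 f x ^ 2 := fun v x => by
    have := mul_le_mul_of_nonneg_left ((le_abs_self _).trans (Sg.abs_dot_le_half v f x))
      (Sg.sq2_nonneg f x)
    nlinarith [sq_nonneg (sq2 v x - sq2 f x)]
  have h1 : ∀ x, (1 + τ) * sq2 f x ^ 2 ≤ (1 / 4 * sq2 h x ^ 2 + 3 / 4 * sq2 f x ^ 2) +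
      τ * (1 / 4 * (c.P *ᵥ fun y => sq2 f y ^ 2) x + 3 / 4 * sq2 f x ^ 2) := fun x => by
    have e : (1 + τ) * sq2 f x = ∑ i, h i x * f i x + τ * ∑ i, (c.P *ᵥ f i) x * f i x := by
      simp only [sq2, mul_sum, ← sum_add_distrib]
      refine sum_congr rfl fun i _ => ?_
      have := Sg.resV_strong c one_pos hτ (h i) x
      change 1 * f i x + τ * (f i x - (c.P *ᵥ f i) x) = h i x at this
      rw [← this]; ring
    have a1 := young h x
    have a2 := young (fun i => c.P *ᵥ f i) x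
    have a3 : sq2 (fun i => c.P *ᵥ f i) x ^ 2 ≤ (c.P *ᵥ fun y => sq2 f y ^ 2) x :=
      (pow_le_pow_left₀ (Sg.sq2_nonneg _ x) (Sg.sq2_P_le c f x) 2).trans
        (((c.isP_row x).mean_sq_le (sq2 f)).trans_eq (sum_congr rfl fun y _ => by ring))
    calc _ = sq2 f x * ((1 + τ) * sq2 f x) := by ring
      _ = sq2 f x * ∑ i, h i x * f i x + τ * (sq2 f x * ∑ i, (c.P *ᵥ f i) x * f i x) := by
          rw [e]; ring
      _ ≤ _ := add_le_add a1 (mul_le_mul_of_nonneg_left (by linarith) hτ)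
  have h2 := c.isP.mean_mono h1
  have h3 := c.mean_P fun y => sq2 f y ^ 2
  simp only [Chain22.mean, mul_add, sum_add_distrib, mul_left_comm (c.π _), ← mul_sum] at h2 h3 ⊢
  rw [h3] at h2
  linarith

lemma LcF.res (hn : 0 < n) (hr : 0 < r) (hr' : r ≤ 1 / 4) {τ : ℝ} (hτ : 0 ≤ τ) (h : LcF r u S G) :
    LcF r (fun g => Sg.RV (Soft.ch hn g) (n * τ) (u g)) (fun g => 9 * S g)
      fun g => 18 * G g + τ / n * (288 * S g) := fun g => by
  have p := h.nn g
  obtain ⟨h0, h0', K, hK, hU⟩ := h g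
  have hn' : (0 : ℝ) < n := by exact_mod_cast hn
  have hnτ : 0 ≤ n * τ := by positivity
  have b0 : ipV (Soft.ch hn g).π (u g) (u g) ≤ S g := (Sg.ipV_self_eq _).trans_le h0
  have eqn : ∀ g i x, 1 * Sg.RV (Soft.ch hn g) (n * τ) (u g) i x -
      τ * gen (gw n g) (Sg.RV (Soft.ch hn g) (n * τ) (u g) i) x = u g i x := fun g i x => by
    rw [Chain22.gen_eq hn (gw_pos g), ← Sg.resV_strong (Soft.ch hn g) one_pos hnτ (u g i) x]
    change _ - τ * (n * (((Soft.ch hn g).P *ᵥ _) x - _)) = _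
    simp only [Sg.RV]; ring
  refine ⟨?_, ((mean_sq2_RV (Soft.ch hn g) hnτ (u g)).trans h0').trans (by linarith), fun e =>
    18 * K e + 144 * τ ^ 2 * ∑ i, (enS (gw n g) (Sg.RV (Soft.ch hn g) (n * τ) (u g) i) e.1.1 +
      enS (gw n g) (Sg.RV (Soft.ch hn g) (n * τ) (u g) i) e.1.2), ?_, fun e => ?_⟩
  · have := pow_le_pow_left₀ (Sg.nv_nonneg _) (Sg.nv_RV_le (Soft.ch hn g) hnτ (u g)) 2
    rw [Sg.nv_sq (Soft.ch hn g).isP, Sg.nv_sq (Soft.ch hn g).isP, Sg.ipV_self_eq] at this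
    exact (this.trans b0).trans (by linarith)
  · have a1 := (Sg.DV_RV_le (Soft.ch hn g) hnτ (u g)).trans b0
    have a2 := sum_le_sum fun i (_ : i ∈ univ) =>
      sum_enS_le (gw_pos g) (Sg.RV (Soft.ch hn g) (n * τ) (u g) i)
    have a3 : ∑ i, 2 * n * dir (gw n g) (Sg.RV (Soft.ch hn g) (n * τ) (u g) i) =
        2 * n * (n * Sg.DV (Soft.ch hn g) (Sg.RV (Soft.ch hn g) (n * τ) (u g))) := by
      simp only [Sg.DV, mul_sum, ← Soft.dir_eq hn]; rfl
    rw [sum_comm, a3] at a2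
    simp only [sum_add_distrib (f := fun e => 18 * K e), ← mul_sum]
    have a4 := mul_le_mul_of_nonneg_left a2 (by positivity : 0 ≤ 144 * τ ^ 2)
    have a5 := mul_le_mul_of_nonneg_left a1 (by positivity : 0 ≤ 288 * τ * n)
    have a6 : √(n : ℝ) ^ 4 * (τ / n * (288 * S g)) = 288 * τ * n * S g := by
      rw [sqrt_pow4]; field_simp
    rw [mul_add, a6]
    nlinarith
  obtain ⟨U, h1, h2⟩ := hU e
  choose Φ k1 k2 using fun i => res_ext (gw_pos g) e one_pos hτ hr hr'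
    (h := fun t => u (sh √(n : ℝ) g e t) i)
    (φ := fun t => Sg.RV (Soft.ch hn (sh √(n : ℝ) g e t)) (n * τ) (u (sh √(n : ℝ) g e t)) i)
    (H := fun z => U z i) (h1 i) fun t x => by rw [← gibbs_sh hn]; exact eqn _ i x
  have ms : ∀ V : ι → Cube n → ℂ, mean (gw n g) (sqc V) = ∑ i, nsq (gw n g) (V i) := fun V => by
    simp only [mean, sqc, nsq, mul_sum]; exact sum_comm
  refine ⟨fun z i => Φ i z, k1, fun z hz => ⟨?_, ?_⟩⟩
  · have := (h2 z hz).1
    rw [ms] at this ⊢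
    refine (sum_le_sum fun i _ => (k2 i z hz).1).trans ?_
    rw [← mul_sum]; linarith
  · have := (h2 z hz).2
    rw [ms] at this ⊢
    refine (sum_le_sum fun i _ => (k2 i z hz).2).trans ?_
    simp only [sh_zero, ← mul_sum, sum_add_distrib (f := fun i => 2 * nsq (gw n g) (U z i - U 0 i))]
    change ∑ i, nsq (gw n g) (U z i - U 0 i) ≤ _ at this
    linarith

/-- inner products of elements of the mean-square class -/
lemma LcF.ip (hn : 0 < n) (hr : 0 < r) (hr' : r ≤ 1 / 4) (h : LcF r u S G) (h' : LcF r u' S' G') :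
    AnS r √(n : ℝ) (fun g => ipV (prob (gw n g)) (u g) (u' g)) (fun g => 2 * (S g + S' g))
      fun g => 27 * (S' g * G g) + 27 * (S g * G' g) + (N23 n)⁻¹ *
        (6 * ((S g + S' g) * (S g + S' g)) + 6 * m2 (gw n g) fun x y => Rh n x y ^ 4) := fun g => by
  have p := h.nn g
  have p' := h'.nn g
  obtain ⟨h0, h0', K, hK, hU⟩ := h g
  obtain ⟨k0, k0', K', hK', hU'⟩ := h' g
  have hW := gwt g
  have ipe : ∀ g, ipV (prob (gw n g)) (u g) (u' g) =
      ∑ x, prob (gw n g) x * ∑ i, u g i x * u' g i x := fun g => by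
    simp only [ipV, Chain22.ip, mul_sum]; exact sum_comm
  set F : Cube n → ℝ := fun x => ∑ i, u g i x * u' g i x with hF
  have hK0 : ∀ e, 0 ≤ K e ∧ 0 ≤ K' e := fun e => by
    obtain ⟨U, -, h2⟩ := hU e
    obtain ⟨U', -, h2'⟩ := hU' e
    exact ⟨(hW.mean_nonneg (sqc_nonneg _)).trans (h2 0 (mem_ball_self hr)).2,
      (hW.mean_nonneg (sqc_nonneg _)).trans (h2' 0 (mem_ball_self hr)).2⟩
  refine ⟨?_, fun e => √(27 * (K e * S' g) + 27 * (S g * K' e) + 3 * tl (gw n g) (chi e) F ^ 2), ?_,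
    fun e => ?_⟩
  · have a1 : |mean (gw n g) F| ≤ mean (gw n g) fun x => 1 / 2 * sq2 (u g) x + 1 / 2 * sq2 (u' g) x :=
      (abs_sum_le_sum_abs _ _).trans (sum_le_sum fun x _ => by
        rw [abs_mul, abs_of_nonneg (prob_nn (gw_pos g) x)]
        exact mul_le_mul_of_nonneg_left (by linarith [Sg.abs_dot_le_half (u g) (u' g) x])
          (prob_nn (gw_pos g) x))
    rw [mean_add, mean_const_mul, mean_const_mul] at a1
    beta_reduce
    rw [ipe]
    change |mean (gw n g) F| ≤ _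
    linarith
  · have a0 : ∀ e, √(27 * (K e * S' g) + 27 * (S g * K' e) + 3 * tl (gw n g) (chi e) F ^ 2) ^ 2 =
        27 * (K e * S' g) + 27 * (S g * K' e) + 3 * tl (gw n g) (chi e) F ^ 2 := fun e =>
      Real.sq_sqrt (by have := (hK0 e).1; have := (hK0 e).2; positivity)
    have a1 := sum_tl_le (ι := Unit) (gw_pos g) (fun _ => F) (γ := fun x y => |F x * F y|)
      (fun x y => by simp) (pow_pos (Soft.N23_pos hn) 2)
    have a2 : mean (gw n g) (fun x => F x ^ 2) ≤ S g + S' g := by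
      have := hW.mean_mono (f := fun x => F x ^ 2)
        (g := fun x => sq2 (u g) x ^ 2 + sq2 (u' g) x ^ 2) fun x => by
        have := sum_mul_sq_le_sq_mul_sq univ (fun i => u g i x) fun i => u' g i x
        change F x ^ 2 ≤ sq2 (u g) x * sq2 (u' g) x at this
        nlinarith [sq_nonneg (sq2 (u g) x - sq2 (u' g) x), sq_nonneg (F x)]
      rw [mean_add] at this
      linarith
    have a3 := mul_self_le_mul_self (hW.mean_nonneg fun x => sq_nonneg (F x)) a2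
    simp only [lam_eq hn, sq_abs, mul_pow, m2_const_mul, m2_add, m2_mul, univ_unique,
      sum_singleton] at a1
    simp only [a0, sum_add_distrib, ← mul_sum, ← sum_mul]
    rw [mul_add, ← mul_assoc _ (N23 n)⁻¹, ← N_sq hn]
    nlinarith [mul_le_mul_of_nonneg_right hK p', mul_le_mul_of_nonneg_left hK' p,
      mul_le_mul_of_nonneg_left a3 (sq_nonneg (N23 n))]
  obtain ⟨U, h1, h2⟩ := hU e
  obtain ⟨U', h1', h2'⟩ := hU' e
  refine ⟨fun z => ∑ x, pc (cw (gw n g) (chi e) z) x * ∑ i, U z i x * U' z i x,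
    (Ex.sum _ fun x _ => ((ex_pc (gw_pos g) (sgn_chi e) x).mono hr').mul
      (Ex.sum _ fun i _ => (h1 i x).mul (h1' i x))).congr fun t _ => by
        beta_reduce; rw [ipe, gw, gibbs_sh hn], fun z hz => ?_⟩
  have hz' := ball_subset_ball hr' hz
  have np := norm_pc (gw_pos g) (sgn_chi e) hz'
  have mq := fun V : ι → Cube n → ℂ => hW.mean_nonneg (sqc_nonneg V)
  constructor
  · have := (bil_sq_le (gw_pos g) np (U z) (U' z)).trans (mul_le_mul_of_nonneg_left
      (mul_le_mul (h2 z hz).1 (h2' z hz).1 (mq _) p) (by norm_num))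
    refine (pow_le_pow_iff_left₀ (norm_nonneg _) (by positivity) two_ne_zero).1 (this.trans ?_)
    nlinarith [sq_nonneg (S g - S' g), mul_nonneg p p']
  · refine Real.le_sqrt_of_sq_le ?_
    have a1 := (bil_sq_le (gw_pos g) np (U z - U 0) (U' z)).trans (mul_le_mul_of_nonneg_left
      (mul_le_mul (h2 z hz).2 (h2' z hz).1 (mq _) (hK0 e).1) (by norm_num))
    have a2 := (bil_sq_le (gw_pos g) np (U 0) (U' z - U' 0)).trans (mul_le_mul_of_nonneg_left
      (mul_le_mul (h2 0 (mem_ball_self hr)).1 (h2' z hz).2 (mq _) p) (by norm_num))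
    have a3 := pow_le_pow_left₀ (norm_nonneg _) (tilt_le (gw_pos g) (sgn_chi e) hz' F) 2
    have e1 : ∑ x, pc (cw (gw n g) (chi e) z) x * ∑ i, U z i x * U' z i x -
        ∑ x, pc (cw (gw n g) (chi e) 0) x * ∑ i, U 0 i x * U' 0 i x =
        ∑ x, pc (cw (gw n g) (chi e) z) x * ∑ i, (U z - U 0) i x * U' z i x +
        ∑ x, pc (cw (gw n g) (chi e) z) x * ∑ i, U 0 i x * (U' z - U' 0) i x +
        (∑ x, pc (cw (gw n g) (chi e) z) x * F x - mean (gw n g) F) := by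
      simp only [pc_zero, h1.zero hr, h1'.zero hr, hF, mean, Pi.sub_apply, sub_mul, mul_sub,
        sum_sub_distrib]
      push_cast; ring
    beta_reduce
    rw [e1]
    set A := ∑ x, pc (cw (gw n g) (chi e) z) x * ∑ i, (U z - U 0) i x * U' z i x
    set B := ∑ x, pc (cw (gw n g) (chi e) z) x * ∑ i, U 0 i x * (U' z - U' 0) i x
    set C := ∑ x, pc (cw (gw n g) (chi e) z) x * F x - mean (gw n g) F
    have a4 := pow_le_pow_left₀ (norm_nonneg _) (norm_add₃_le (a := A) (b := B) (c := C)) 2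
    unfold tl
    nlinarith [sq_nonneg (‖A‖ - ‖B‖), sq_nonneg (‖A‖ - ‖C‖), sq_nonneg (‖B‖ - ‖C‖)]

/-- means of a symmetric nonnegative kernel over two replicas -/
lemma anS_m2 (hn : 0 < n) {k : Cube n → Cube n → ℝ} (h0 : ∀ x y, 0 ≤ k x y)
    (hs : ∀ x y, k x y = k y x) :
    AnS (1 / 4) √(n : ℝ) (fun g => m2 (gw n g) k) (fun g => 9 * m2 (gw n g) k) fun g => (N23 n)⁻¹ *
      (32 * m2 (gw n g) (fun x y => k x y ^ 4) + 32 * m2 (gw n g) fun x y => Rh n x y ^ 4) := fun g => by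
  have hW := gwt g
  have p := m2_nonneg (gw_pos g) h0
  refine ⟨by rw [abs_of_nonneg p]; linarith,
    fun e => 4 * mean (gw n g) fun x => tl (gw n g) (chi e) (k x), ?_, fun e => ?_⟩
  · have a1 : ∀ x, ∑ e : Pair n, tl (gw n g) (chi e) (k x) ^ 2 ≤ N23 n ^ 2 *
        (2 * mean (gw n g) (fun y => k x y ^ 4) + 2 * m2 (gw n g) fun x y => Rh n x y ^ 4) := by
      intro x
      have b1 := sum_tl_le (ι := Unit) (gw_pos g) (fun _ => k x) (γ := fun y y' => |k x y * k x y'|)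
        (fun _ _ => by simp) (pow_pos (Soft.N23_pos hn) 2)
      simp only [lam_eq hn, sq_abs, mul_pow, m2_const_mul, m2_add, m2_mul, univ_unique,
        sum_singleton] at b1
      have b2 := mean_pow_le (gw_pos g) (fun y => sq_nonneg (k x y)) 2
      simp only [← pow_mul] at b2
      nlinarith [mul_le_mul_of_nonneg_left b2 (sq_nonneg (N23 n))]
    have a2 := hW.mean_mono a1
    rw [mean_sum, mean_const_mul, mean_add, mean_const_mul, hW.mean_const, ← m2_eq_mean] at a2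
    have a3 := sum_le_sum fun (e : Pair n) (_ : e ∈ univ) =>
      mean_pow_le (gw_pos g) (fun x => tl_nonneg (w := gw n g) (chi e) (k x)) 2
    simp only [mul_pow, ← mul_sum]
    rw [← mul_assoc, ← N_sq hn]
    linarith
  refine ⟨fun z => ∑ x, ∑ y, pc (cw (gw n g) (chi e) z) x * pc (cw (gw n g) (chi e) z) y * k x y,
    (Ex.sum _ fun x _ => Ex.sum _ fun y _ => ((ex_pc (gw_pos g) (sgn_chi e) x).mul
      (ex_pc (gw_pos g) (sgn_chi e) y)).mul (Ex.const _ _)).congr fun t _ => by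
        beta_reduce; rw [m2, gw, gibbs_sh hn], fun z hz => ⟨?_, ?_⟩⟩
  · have np := norm_pc (gw_pos g) (sgn_chi e) hz
    simp only [m2, mul_sum]
    refine (norm_sum_le _ _).trans (sum_le_sum fun x _ => (norm_sum_le _ _).trans
      (sum_le_sum fun y _ => ?_))
    rw [norm_mul, norm_mul, Complex.norm_real, Real.norm_of_nonneg (h0 x y)]
    calc _ ≤ 3 * prob (gw n g) x * (3 * prob (gw n g) y) * k x y := by
          gcongr
          exacts [h0 x y, (norm_nonneg _).trans (np x), np x, np y]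
      _ = _ := by ring
  · have np := norm_pc (gw_pos g) (sgn_chi e) hz
    have ti := tilt_le (gw_pos g) (sgn_chi e) hz
    have e1 : ∑ x, ∑ y, pc (cw (gw n g) (chi e) z) x * pc (cw (gw n g) (chi e) z) y * k x y -
        ∑ x, ∑ y, pc (cw (gw n g) (chi e) 0) x * pc (cw (gw n g) (chi e) 0) y * k x y =
        ∑ x, (pc (cw (gw n g) (chi e) z) x + prob (gw n g) x) *
          (∑ y, pc (cw (gw n g) (chi e) z) y * k x y - mean (gw n g) (k x)) := by
      have sw : ∑ x, pc (cw (gw n g) (chi e) z) x * ∑ y, (prob (gw n g) y : ℂ) * k x y =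
          ∑ x, (prob (gw n g) x : ℂ) * ∑ y, pc (cw (gw n g) (chi e) z) y * k x y := by
        simp only [mul_sum]
        rw [sum_comm]
        exact sum_congr rfl fun x _ => sum_congr rfl fun y _ => by rw [hs y x]; ring
      simp only [pc_zero, mean, add_mul, mul_sub, sum_add_distrib, sum_sub_distrib, mul_assoc,
        ← mul_sum]
      push_cast
      rw [sw]; ring
    beta_reduce
    rw [e1, mean, mul_sum]
    refine (norm_sum_le _ _).trans (sum_le_sum fun x _ => ?_)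
    rw [norm_mul, ← mul_assoc]
    refine mul_le_mul ((norm_add_le _ _).trans ?_) (ti (k x)) (norm_nonneg _)
      (mul_nonneg (by norm_num) (prob_nn (gw_pos g) x))
    rw [Complex.norm_real, Real.norm_of_nonneg (prob_nn (gw_pos g) x)]
    linarith [np x]

end Crest.Agent.T157.Un

end
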