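import Crest.Agent.T157.CnDef_63
import Crest.Agent.T157.UnE_81

/-!
# Row 157, part C (helper10): two-replica exponential moments for coins

`Cn.ldGlue : LdGlue`.  All parameters `θ` are packed into one two-replica mean of a symmetric
nonnegative kernel, and the linear comparison `Un.lin_le` is used with a constant that does not
depend on the kernel.
-/

set_option autoImplicit false

noncomputable section

namespace Crest.Agent.T157.Cn

open MeasureTheory Finset Matrix Filter Topology Real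
open Crest.ProbabilityR.SpinGlassDynamics Crest.Agent.T157.E Crest.Agent.T157.Un
open Crest.Agent.T157.Soft (N23 Xth)

namespace Ld10

variable {n : ℕ}

/-- comparison of coins with Gaussians, uniformly in the functional -/
lemma cmp : ∃ C : ℝ, 0 < C ∧ ∀ η : ℝ, 0 < η → ∀ᶠ n : ℕ in atTop, ∀ X : (Pair n → ℝ) → ℝ,
    Measurable X → (∀ g, 0 ≤ X g) → Pm (1 / 4) √(n : ℝ) 9 X → ∀ L : ℝ, 0 < L →
      ∫ g, X g / (L + X g) ∂couplingLaw true n ≤
        C * (∫ g, X g / (L + X g) ∂couplingLaw false n + η) := by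
  have hr : (0 : ℝ) < 1 / 4 / (2 * (9 + 1)) := by positivity
  refine ⟨_, Real.exp_pos (512 * 3 * (3 + 1) * m8 / (1 / 4 / (2 * (9 + 1))) ^ 4), fun η hη => ?_⟩
  filter_upwards [tendsto_sqrt.eventually_ge_atTop (2 / (1 / 4 / (2 * (9 + 1)))),
    tendsto_sqrt.eventually_gt_atTop 0,
    (tendsto_err (512 * 1 * m8) (1 / 4 / (2 * (9 + 1)))).eventually (gt_mem_nhds hη)]
    with n a2 a3 a4 X hm h0 hp L hL
  have := lin_le (X := fun g => X g / (L + X g)) (M := 1) hr a3 ((div_le_iff₀ hr).1 a2) (by norm_num) (card_pair n)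
    (hm.div (hm.const_add L)) (fun g => by have := h0 g; positivity)
    (fun g => by have := h0 g; rw [div_le_one (by positivity)]; linarith)
    (hp.ratio (by norm_num) h0 (by norm_num) hL) fun _ => true
  rw [hyb_const, hyb_const] at this
  refine this.trans ?_
  gcongr

lemma xth_eq (g : Pair n → ℝ) (θ : ℝ) :
    Xth n g θ = m2 (gw n g) fun x y => exp (θ * Rh n x y) := rfl

lemma dot_le (x y : Cube n) : sv x ⬝ᵥ sv y ≤ n := by
  have h : ∀ i, sv x i * sv y i ≤ 1 := fun i => by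
    simp only [sv, spin]; split_ifs <;> norm_num
  calc _ ≤ ∑ _i : Fin n, (1 : ℝ) := sum_le_sum fun i _ => h i
    _ = n := by simp

lemma xth_mono (g : Pair n → ℝ) {θ θ' : ℝ} (h0 : 0 ≤ θ) (h : θ ≤ θ') :
    Xth n g θ ≤ 1 + Xth n g θ' := by
  rw [xth_eq, xth_eq, ← m2_const (gw_pos g) 1, ← m2_add]
  refine m2_mono (gw_pos g) fun x y => ?_
  rcases le_total (Rh n x y) 0 with hR | hR
  · have := exp_le_one_iff.2 (mul_nonpos_of_nonneg_of_nonpos h0 hR)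
    linarith [exp_pos (θ' * Rh n x y)]
  · have := exp_le_exp.2 (mul_le_mul_of_nonneg_right h hR)
    linarith

lemma xth_big (hn : 0 < n) (g : Pair n → ℝ) {θ : ℝ} (h : (n : ℝ) ≤ θ) :
    Xth n g θ ≤ exp (θ ^ (3 / 2 : ℝ)) := by
  have hn1 : (1 : ℝ) ≤ n := by exact_mod_cast hn
  have hn0 : (0 : ℝ) < n := by linarith
  have hθ : 0 < θ := by linarith
  rw [xth_eq, ← m2_const (gw_pos g) (exp (θ ^ (3 / 2 : ℝ)))]
  refine m2_mono (gw_pos g) fun x y => exp_le_exp.2 ?_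
  have h1 : Rh n x y ≤ θ ^ (1 / 2 : ℝ) := by
    have h2 : (n : ℝ) ≤ N23 n * θ ^ (1 / 2 : ℝ) := by
      calc (n : ℝ) = n ^ (1 : ℝ) := (rpow_one _).symm
        _ ≤ n ^ (2 / 3 + 1 / 2 : ℝ) := rpow_le_rpow_of_exponent_le hn1 (by norm_num)
        _ = N23 n * n ^ (1 / 2 : ℝ) := rpow_add hn0 _ _
        _ ≤ _ := by gcongr
    rw [Rh, inv_mul_le_iff₀ (Soft.N23_pos hn)]
    exact (dot_le x y).trans h2
  calc θ * Rh n x y ≤ θ * θ ^ (1 / 2 : ℝ) := by gcongr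
    _ = _ := by rw [← rpow_one_add' hθ.le (by norm_num)]; norm_num

/-- the weights -/
def wt (B : ℝ) (k : ℕ) : ℝ := (1 / 2) ^ k * exp (-(B * (k : ℝ) ^ (3 / 2 : ℝ)))

lemma wt_pos (B : ℝ) (k : ℕ) : 0 < wt B k := by unfold wt; positivity

/-- the kernel -/
def ker (n : ℕ) (B : ℝ) (x y : Cube n) : ℝ :=
  ∑ k ∈ range (n + 1), wt B k * exp (k * Rh n x y)

/-- the functional -/
def YY (n : ℕ) (B : ℝ) (g : Pair n → ℝ) : ℝ := m2 (gw n g) (ker n B)

lemma ker_nn (B : ℝ) (x y : Cube n) : 0 ≤ ker n B x y :=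
  sum_nonneg fun k _ => (mul_pos (wt_pos B k) (exp_pos _)).le

lemma ker_symm (B : ℝ) (x y : Cube n) : ker n B x y = ker n B y x := by
  simp only [ker, Rh, dotProduct_comm]

lemma YY_eq (B : ℝ) (g : Pair n → ℝ) : YY n B g = ∑ k ∈ range (n + 1), wt B k * Xth n g k := by
  simp only [YY, xth_eq, m2, ker, mul_sum]
  rw [eq_comm, sum_comm]
  refine sum_congr rfl fun x _ => ?_
  rw [sum_comm]
  exact sum_congr rfl fun y _ => sum_congr rfl fun k _ => by ring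

lemma YY_nn (B : ℝ) (g : Pair n → ℝ) : 0 ≤ YY n B g := m2_nonneg (gw_pos g) (ker_nn B)

lemma YY_meas (B : ℝ) : Measurable (YY n B) := by
  unfold YY m2 prob gw gibbsWeight
  fun_prop

lemma YY_pm (hn : 0 < n) (B : ℝ) : Pm (1 / 4) √(n : ℝ) 9 (YY n B) :=
  (anS_m2 hn (ker_nn B) (ker_symm B)).pm

lemma xth_nn (g : Pair n → ℝ) (θ : ℝ) : 0 ≤ Xth n g θ :=
  m2_nonneg (gw_pos g) fun _ _ => (exp_pos _).le

lemma YY_le {B B' : ℝ} (hB : B ≤ B') (hB' : 0 ≤ B') {g : Pair n → ℝ}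
    (h : ∀ θ : ℝ, 0 ≤ θ → Xth n g θ ≤ B * exp (B * θ ^ (3 / 2 : ℝ))) : YY n B' g ≤ 2 * B' := by
  rw [YY_eq]
  calc _ ≤ ∑ k ∈ range (n + 1), B' * (1 / 2) ^ k := sum_le_sum fun k _ => by
        have h1 : Xth n g k ≤ B' * exp (B' * (k : ℝ) ^ (3 / 2 : ℝ)) :=
          (h k (Nat.cast_nonneg k)).trans (by gcongr)
        calc _ ≤ wt B' k * (B' * exp (B' * (k : ℝ) ^ (3 / 2 : ℝ))) :=
              mul_le_mul_of_nonneg_left h1 (wt_pos _ _).le
          _ = _ := by rw [wt, exp_neg]; field_simp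
    _ ≤ _ := by
        rw [← mul_sum, mul_comm 2]
        exact mul_le_mul_of_nonneg_left (sum_geometric_two_le _) hB'

lemma xth_nat {B L : ℝ} {g : Pair n → ℝ} (h : YY n B g ≤ L) {k : ℕ} (hk : k ≤ n) :
    Xth n g k ≤ L * exp ((B + 1) * (k : ℝ) ^ (3 / 2 : ℝ)) := by
  have h1 : wt B k * Xth n g k ≤ L := by
    refine le_trans ?_ h
    rw [YY_eq]
    exact single_le_sum (f := fun k : ℕ => wt B k * Xth n g k)
      (fun j _ => mul_nonneg (wt_pos B j).le (xth_nn g j)) (mem_range.2 (by omega))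
  have h2 : (k : ℝ) ≤ (k : ℝ) ^ (3 / 2 : ℝ) := by
    rcases Nat.eq_zero_or_pos k with rfl | hk0
    · simp
    · calc (k : ℝ) = k ^ (1 : ℝ) := (rpow_one _).symm
        _ ≤ _ := rpow_le_rpow_of_exponent_le (by exact_mod_cast hk0) (by norm_num)
  have h3 : (2 : ℝ) ^ k ≤ exp ((k : ℝ) ^ (3 / 2 : ℝ)) := by
    calc (2 : ℝ) ^ k ≤ exp 1 ^ k := by gcongr; linarith [add_one_le_exp (1 : ℝ)]
      _ = exp k := by rw [← exp_nat_mul, mul_one]
      _ ≤ _ := exp_le_exp.2 h2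
  have hL : 0 ≤ L := (mul_nonneg (wt_pos B k).le (xth_nn g k)).trans h1
  calc Xth n g k = wt B k * Xth n g k * (2 ^ k * exp (B * (k : ℝ) ^ (3 / 2 : ℝ))) := by
        rw [wt, exp_neg, one_div, inv_pow]; field_simp
    _ ≤ L * (exp ((k : ℝ) ^ (3 / 2 : ℝ)) * exp (B * (k : ℝ) ^ (3 / 2 : ℝ))) := by gcongr
    _ = _ := by rw [← exp_add]; congr 2; ring

lemma pow_add_one_le {θ : ℝ} (h0 : 0 ≤ θ) : (θ + 1) ^ (3 / 2 : ℝ) ≤ 4 * (θ ^ (3 / 2 : ℝ) + 1) := by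
  have h4 : (2 : ℝ) ^ (3 / 2 : ℝ) ≤ 4 := by
    calc (2 : ℝ) ^ (3 / 2 : ℝ) ≤ 2 ^ (2 : ℝ) := rpow_le_rpow_of_exponent_le (by norm_num) (by norm_num)
      _ = 4 := by norm_num
  have hp : 0 ≤ θ ^ (3 / 2 : ℝ) := by positivity
  rcases le_total θ 1 with h | h
  · calc (θ + 1) ^ (3 / 2 : ℝ) ≤ 2 ^ (3 / 2 : ℝ) := by gcongr; linarith
      _ ≤ _ := by linarith
  · calc (θ + 1) ^ (3 / 2 : ℝ) ≤ (2 * θ) ^ (3 / 2 : ℝ) := by gcongr; linarith
      _ = 2 ^ (3 / 2 : ℝ) * θ ^ (3 / 2 : ℝ) := mul_rpow (by norm_num) h0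
      _ ≤ 4 * θ ^ (3 / 2 : ℝ) := by gcongr
      _ ≤ _ := by linarith

lemma xth_all (hn : 0 < n) {B L : ℝ} (hB : 0 ≤ B) (hL : 0 ≤ L) {g : Pair n → ℝ}
    (h : YY n B g ≤ L) {θ : ℝ} (h0 : 0 ≤ θ) :
    Xth n g θ ≤ (1 + L * exp (4 * (B + 1)) + 4 * (B + 1)) *
      exp ((1 + L * exp (4 * (B + 1)) + 4 * (B + 1)) * θ ^ (3 / 2 : ℝ)) := by
  have hp : 0 ≤ θ ^ (3 / 2 : ℝ) := by positivity
  have hq : 0 ≤ L * exp (4 * (B + 1)) := by positivity
  set A := 1 + L * exp (4 * (B + 1)) + 4 * (B + 1) with hA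
  have hA1 : 1 ≤ A := by linarith
  rcases le_total (n : ℝ) θ with hθ | hθ
  · calc _ ≤ 1 * exp (1 * θ ^ (3 / 2 : ℝ)) := by simpa using xth_big hn g hθ
      _ ≤ _ := by gcongr
  · have h1 := xth_mono g h0 (Nat.le_ceil θ)
    have h2 := xth_nat h (Nat.ceil_le.2 hθ)
    have h3 : ((⌈θ⌉₊ : ℕ) : ℝ) ^ (3 / 2 : ℝ) ≤ 4 * (θ ^ (3 / 2 : ℝ) + 1) :=
      le_trans (by gcongr; exact (Nat.ceil_lt_add_one h0).le) (pow_add_one_le h0)
    have h4 : 1 ≤ exp (A * θ ^ (3 / 2 : ℝ)) := one_le_exp (by positivity)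
    have h5 : exp ((B + 1) * ((⌈θ⌉₊ : ℕ) : ℝ) ^ (3 / 2 : ℝ)) ≤
        exp (4 * (B + 1)) * exp (A * θ ^ (3 / 2 : ℝ)) := by
      rw [← exp_add]
      refine exp_le_exp.2 ?_
      have : 4 * (B + 1) * θ ^ (3 / 2 : ℝ) ≤ A * θ ^ (3 / 2 : ℝ) := by gcongr; linarith
      nlinarith [mul_le_mul_of_nonneg_left h3 (by linarith : 0 ≤ B + 1)]
    calc _ ≤ 1 + L * (exp (4 * (B + 1)) * exp (A * θ ^ (3 / 2 : ℝ))) := by
          refine h1.trans (add_le_add le_rfl (h2.trans ?_)); gcongr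
      _ ≤ (1 + L * exp (4 * (B + 1))) * exp (A * θ ^ (3 / 2 : ℝ)) := by nlinarith
      _ ≤ _ := by gcongr; linarith

end Ld10

open Ld10 in
/-- **two-replica exponential moments for coins** -/
theorem ldGlue : LdGlue := fun hG ε hε => by
  obtain ⟨C, hC, h1⟩ := cmp
  have hd : 0 < ε / (8 * C) := by positivity
  obtain ⟨B, hB⟩ := hG _ hd
  set L := (2 * |B| + 1) / (ε / (8 * C)) with hL
  have hL0 : 0 < L := by positivity
  refine ⟨1 + L * exp (4 * (|B| + 1)) + 4 * (|B| + 1), ?_⟩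
  filter_upwards [h1 _ hd, hB, eventually_gt_atTop 0] with n a1 a2 hn
  have hm : Measurable fun g => YY n |B| g / (L + YY n |B| g) :=
    (YY_meas _).div ((YY_meas _).const_add L)
  have hb : ∀ g, |YY n |B| g / (L + YY n |B| g)| ≤ 1 := fun g => by
    have := YY_nn |B| g
    rw [abs_of_nonneg (by positivity), div_le_one (by positivity)]; linarith
  have h2 := int_le_of_meas hm hb hd.le hd.le a2 (fun g hg => by
    have p := YY_nn |B| g
    have q0 : YY n |B| g ≤ 2 * |B| := YY_le (le_abs_self B) (abs_nonneg B) fun θ hθ =>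
      not_lt.1 fun hh => hg ⟨θ, hθ, hh⟩
    have q : YY n |B| g ≤ 2 * |B| + 1 := by linarith
    rw [abs_of_nonneg (by positivity)]
    calc _ ≤ (2 * |B| + 1) / L := by gcongr; linarith
      _ = _ := by rw [hL]; field_simp) zero_le_one
  have h3 := a1 _ (YY_meas |B|) (YY_nn |B|) (YY_pm hn |B|) L hL0
  refine meas_le_of_int (a := 1 / 2) (int_bdd hm hb)
    (fun g => by have := YY_nn |B| g; positivity) (by norm_num) (fun g hg => ?_) (h3.trans ?_)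
  · obtain ⟨θ, hθ, hh⟩ := hg
    have hg' : L < YY n |B| g := not_le.1 fun h =>
      hh.not_ge (xth_all hn (abs_nonneg B) hL0.le h hθ)
    rw [div_le_div_iff₀ (by positivity) (by linarith)]; linarith
  · calc _ ≤ C * ((ε / (8 * C) + 2 * 1 * (ε / (8 * C))) + ε / (8 * C)) := by gcongr
      _ = _ := by field_simp; norm_num

end Crest.Agent.T157.Cn

end
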