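import Crest.Agent.T157.CrD_63
import Crest.Agent.T157.CnDef_63

/-!
# Row 157, part C (helper56): the terminal time and the high levels for coins
-/

set_option autoImplicit false

noncomputable section

namespace Crest.Agent.T157.Cn

open MeasureTheory Filter Topology Set Matrix Real
open Crest.ProbabilityR.SpinGlassDynamics
open Crest.Agent.T157 Crest.Agent.T157.E Crest.Agent.T157.SL Crest.Agent.T157.Soft
open Crest.Agent.T157.Q1
open Crest.Agent.T157.Eig (nrm opn nrm_add_le nrm_smul)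

variable {n : ℕ} {w f : Cube n → ℝ}

/-- at the terminal time the covariance is bounded off a small event -/
theorem cov_end {J : Tap.Mx n} {M T η : ℝ} (hT : 0 ≤ T) (h2 : 16 ≤ η ^ 2 * T) (η0 : 0 < η)
    (fro : Froz J M T η) :
    (law sv (ising J 0) T).real {y | ¬ Tap.CovOK (ising J 0) M (η * T / 2 * √n) y} ≤
      exp (-(n / 2)) := by
  have hp : ∀ x, 0 < ising J 0 x := fun _ => exp_pos _
  have hA := Glue.measurableSet_covOK hp M (η * T / 2 * √n)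
  rw [law_real (.of_pos hp) hA]
  refine (Wt.of_pos hp).mean_le fun x => (Glue.px_le hA x fun z hz => ?_).trans (Glue.nrm_tail n)
  by_contra h6
  refine hz fun v hv u => ?_
  have sn := sqrt_nonneg (n : ℝ)
  have h5 : 4 ≤ η * √T := by
    refine le_of_sq_le_sq ?_ (by positivity)
    rw [mul_pow, sq_sqrt hT]; linarith
  have h7 := mul_le_mul_of_nonneg_left (not_le.1 h6).le (sqrt_nonneg T)
  have h8 := mul_le_mul_of_nonneg_right h5 (mul_nonneg (sqrt_nonneg T) sn)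
  have h9 : η * √T * (√T * √n) = η * T * √n := by
    rw [mul_assoc, ← mul_assoc (√T), mul_self_sqrt hT, mul_assoc]
  have := fro 0 ⟨le_rfl, zero_le_one⟩ x (T • sv x + √T • z + v) (by
    have h3 := nrm_add_le (√T • z) v
    rw [nrm_smul, abs_of_nonneg (sqrt_nonneg _)] at h3
    rw [show T • sv x + √T • z + v - T • sv x = √T • z + v by abel]
    linarith) u
  rwa [sub_zero, one_smul, ← zero_add (T • sv x + √T • z + v), ← tilt_ising] at this

theorem termGlue : TermGlue := fun κ T hκ hT hF hO ε hε => by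
  obtain ⟨η, M, M0, h1, h2, hF⟩ := hF
  have η0 : 0 < η := by by_contra h; nlinarith [mul_nonneg (neg_nonneg.2 (not_lt.1 h)) hT.le]
  refine ⟨max (3 * exp (6 * M + 2)) (max (max M (4 / (η * T / 2))) 0),
    Top.whp_iff.1 ((hF.and hO).mono ?_) ε hε⟩
  filter_upwards [Glue.ev_small (3 * exp (6 * M + 2) * 96) one_half_pos,
    ev_exp_pow 1 hκ (half_pos one_half_pos), ev_exp_pow 1 hκ one_half_pos] with n e1 e2 e3 g hg
  rw [gibbsWeight_eq_ising, one_smul]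
  refine term_of (fun _ => exp_pos _) (Glue.tail_end (Jmat_transpose g) hg.2 M0 hT.le h1 h2 hg.1)
    (exp_pos _).le (by positivity) ?_ (by positivity) ((cov_end hT.le h2 η0 hg.1).trans ?_)
  · rw [show (n : ℝ) / 2 = 1 / 2 * n by ring]; linarith
  · rw [show (n : ℝ) / 2 = 1 / 2 * n by ring]; linarith

/-- transport through three windows -/
theorem tp_three (hW : Wt w) (f0 : ∀ x, 0 ≤ f x) (h0 : 0 < mean w f)
    {t m S T K κ K' E₁ E₂ E₃ M p r : ℝ} (hM : ∀ x, f x ≤ M) (t0 : 0 < t) (htS : t ≤ S) (hST : S ≤ T)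
    (htm : t ≤ m) (hK : 1 ≤ K) (hκ : 1 ≤ κ) (hK' : 1 ≤ K') (h1 : (m / t) ^ K ≤ E₁)
    (h2 : (S / t) ^ (κ - 1) ≤ E₂) (h3 : (T / S) ^ (K' - 1) ≤ E₃) (hp : 0 ≤ p)
    (c1 : ∀ r, r ≤ S → t ≤ r → r ≤ m → Crit.CovAt w r (K / r) p)
    (c2 : ∀ r, r ≤ S → m ≤ r → Crit.CovAt w r (κ / r) p)
    (c3 : ∀ r ∈ Ioo S T, Crit.CovAt w r (K' / r) p) (hr : r ∈ Ioo t T) :
    Tp sv w f r T (E₁ * E₂ * E₃) (3 * (T ^ 3 * (E₁ * E₂ * E₃) ^ 2 * (16 * n ^ 2 * (p * M)))) := by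
  have S0 := t0.trans_le htS
  have T0 := S0.trans_le hST
  have M0 := (f0 _).trans (hM fun _ => true)
  have e1 : 1 ≤ E₁ := (one_le_rpow ((one_le_div t0).2 htm) (by linarith)).trans h1
  have e2 : 1 ≤ E₂ := (one_le_rpow ((one_le_div t0).2 htS) (by linarith)).trans h2
  have e3 : 1 ≤ E₃ := (one_le_rpow ((one_le_div S0).2 hST) (by linarith)).trans h3
  have e12 : 1 ≤ E₁ * E₂ := one_le_mul_of_one_le_of_one_le e1 e2
  have w3 : ∀ r, S ≤ r → r ≤ T → Tp sv w f r T E₃ (T ^ 3 * E₃ ^ 2 * (16 * n ^ 2 * (p * M))) :=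
    fun r h4 h5 => tp_pow hW f0 h0 hM (S0.trans_le h4) h5 (by linarith) ((rpow_le_rpow
      (div_nonneg T0.le (S0.le.trans h4)) (div_le_div_of_nonneg_left T0.le S0 h4)
      (by linarith)).trans h3) hp fun q hq => c3 q ⟨h4.trans_lt hq.1, hq.2⟩
  have q : 0 ≤ T ^ 3 * (16 * n ^ 2 * (p * M)) := by positivity
  have s1 : E₃ ^ 2 ≤ (E₁ * E₂ * E₃) ^ 2 := by gcongr; nlinarith
  have s2 : (E₁ * E₂) ^ 2 ≤ (E₁ * E₂ * E₃) ^ 2 :=
    pow_le_pow_left₀ (by positivity) (le_mul_of_one_le_right (by positivity) e3) 2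
  rcases le_or_gt S r with h | h
  · exact (w3 r h hr.2.le).mono hW s1 (by
      linarith [mul_le_mul_of_nonneg_left s1 q, mul_nonneg q (sq_nonneg (E₁ * E₂ * E₃))])
  refine ((tp_two hW f0 h0 hM t0 htS htm hK hκ h1 h2 hp c1 c2 ⟨hr.1, h⟩).trans (w3 S le_rfl hST)
    S0.ne').mono hW le_rfl ?_
  calc _ ≤ 2 * (T ^ 3 * (E₁ * E₂ * E₃) ^ 2 * (16 * n ^ 2 * (p * M))) +
        (E₁ * E₂) ^ 2 * (T ^ 3 * E₃ ^ 2 * (16 * n ^ 2 * (p * M))) := by gcongr
    _ = _ := by ring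

/-- **one high level**, from a transport estimate -/
theorem sp_tp (hw : ∀ x, 0 < w x) {t T E H A L P θ δ lam : ℝ} (t0 : 0 < t) (htT : t ≤ T)
    (E0 : 0 ≤ E) (hTp : ∀ f : Cube n → ℝ, (∀ x, 0 ≤ f x) → 0 < mean w f →
      (∀ x, f x ≤ exp (2 * H)) → ∀ r ∈ Ioo t T, Tp sv w f r T E
        (3 * (T ^ 3 * E ^ 2 * (16 * n ^ 2 * (exp (-(3 * H)) * exp (2 * H))))))
    (hX : XX sv w (65 * t) ≤ exp H) (hT : Glue.Tail w T A δ) (A0 : 0 ≤ A) (δ0 : 0 ≤ δ)
    (hJ : JT w T P (exp (-(3 * H)))) (P0 : 0 ≤ P) (L0 : 0 ≤ L)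
    (hF : mean w (fun x => exp (θ * Ent.big w L x)) ≤ 2) (hθ : 24 * A < θ) (hH : 8 ≤ H)
    (hs : δ + 3 / 2 * (E ^ 2 * (T ^ 2 + 48 * T ^ 3 * n ^ 2) * exp (-H)) / t ≤ 1)
    (hl : lam * (A * (3 + L) + 3 / 2 * (E ^ 2 * T ^ 2 * P) / t) ≤ H / 2) : SP w H lam :=
  SP.of_norm hw fun g g1 hM hent => by
  have hW := Wt.of_pos hw
  have T0 := t0.trans_le htT
  have f0 : ∀ x, 0 ≤ g x ^ 2 := fun x => sq_nonneg _
  have h0 : 0 < mean w fun x => g x ^ 2 := g1 ▸ one_pos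
  have D0 := Ent.dir_nonneg hw g
  have ee : exp (-(3 * H)) * exp (2 * H) = exp (-H) := by rw [← exp_add]; congr 1; ring
  have a1 := early_ent hW f0 g1 (by linarith) hM t0 hX
  have a2 := window hW f0 h0 (R₀ := 2 * √n + 1) (E := E) (Q := 0) (L := log (T / t))
    (P := P * dir w g + exp (-H))
    (by positivity) (fun x x' => (diam_sv x x').trans (by gcongr; linarith)) t0 htT
    E0 (by positivity) (by positivity) le_rfl (hTp _ f0 h0 hM)
    (fun c _ => (hJ g _ hM h0 c).trans_eq (by rw [ee]; ring)) le_rfl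
  have a3 := hT _ f0
  have a4 := mul_le_mul_of_nonneg_left (Ent.sum_entS_sq_le hw g L0) A0
  have a5 : var w (fun x => √(g x ^ 2)) ≤ 1 := (hW.var_le_mean _ 0).trans_eq (by
    simpa only [sub_zero, sq_sqrt (f0 _)] using g1)
  have a9 := big_le hw f0 g1 hM A0 hF hθ hH
  have a6 := mul_le_mul_of_nonneg_left a5 δ0
  rw [ee] at a2
  have key : H / 2 ≤ dir w g * (A * (3 + L) + 3 / 2 * (E ^ 2 * T ^ 2 * P) / t) := by
    simp only [div_eq_mul_inv _ t] at a2 hs ⊢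
    linarith
  by_contra hc
  have p : 0 ≤ A * (3 + L) + 3 / 2 * (E ^ 2 * T ^ 2 * P) / t := by positivity
  rcases p.eq_or_lt with p | p
  · rw [← p] at key; linarith
  · linarith [mul_lt_mul_of_pos_right (not_le.1 hc) p]

/-- the numerics of one high level -/
theorem sp_lev3 (hw : ∀ x, 0 < w x) {c S T K K' δ d H A P θ e C : ℝ} (c0 : 0 < c) (c1 : c ≤ 1)
    (S0 : 0 < S) (hST : S ≤ T) (hK : 1 ≤ K) (hK' : 1 ≤ K') (δ0 : 0 < δ)
    (hδ : 4 * (K + 1) * δ ≤ min d 1) (hn : 1 ≤ n) (hH : 8 ≤ H) (hHn : H ≤ n)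
    (hT : Crit.sH n H ≤ S / c)
    (w1 : ∀ r : ℝ, r ≤ S → c * Crit.sH n H ≤ r → r ≤ (n : ℝ) ^ δ * Crit.sH n H →
      Crit.CovAt w r (K / r) (exp (-(3 * H))))
    (w2 : ∀ r : ℝ, r ≤ S → (n : ℝ) ^ δ * Crit.sH n H ≤ r →
      Crit.CovAt w r ((1 + δ) / r) (exp (-(3 * H))))
    (w3 : ∀ r ∈ Ioo S T, Crit.CovAt w r (K' / r) (exp (-(3 * H))))
    (hX : XX sv w (65 * (c * Crit.sH n H)) ≤ exp H) (hTl : Glue.Tail w T A e) (A0 : 0 ≤ A)
    (e0 : 0 ≤ e) (e1 : e ≤ 1 / 2) (hJ : JT w T P (exp (-(3 * H)))) (P0 : 0 ≤ P)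
    (hF : mean w (fun x => exp (θ * Ent.big w ((n : ℝ) ^ δ) x)) ≤ 2) (hθ : 24 * A < θ)
    (hC : C = (c⁻¹ ^ K * (S / c) ^ δ * (T / S) ^ (K' - 1)) ^ 2)
    (v1 : 3 * C * (T ^ 2 + 48 * T ^ 3) / c * (n : ℝ) ^ 4 ≤ exp H)
    (v2 : (8 * A + 3 * C * T ^ 2 * P / c) * (n : ℝ) ^ (d / 2) ≤ (n : ℝ) ^ d) :
    SP w H ((n : ℝ) ^ (-d) * Crit.sH n H * H) := by
  have n1 : (1 : ℝ) ≤ n := by exact_mod_cast hn
  have n0 : (0 : ℝ) < n := by linarith
  have H0 : 0 < H := by linarith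
  have T0 := S0.trans_le hST
  have C0 : 0 ≤ C := by rw [hC]; positivity
  have s1 : Crit.sH n H ≤ 1 := rpow_le_one (by positivity) ((div_le_one n0).2 hHn) (by norm_num)
  have s2 : (n : ℝ)⁻¹ ≤ Crit.sH n H := le_trans (by rw [inv_eq_one_div]; gcongr; linarith)
    (self_le_rpow_of_le_one (by positivity) ((div_le_one n0).2 hHn) (by norm_num))
  generalize Crit.sH n H = s at *
  have s0 : 0 < s := lt_of_lt_of_le (by positivity) s2
  have s3 : s⁻¹ ≤ n := inv_le_of_inv_le₀ n0 s2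
  have d1 : 1 ≤ (n : ℝ) ^ δ := one_le_rpow n1 δ0.le
  have hE : (c⁻¹ ^ K * (n : ℝ) ^ (δ * K) * ((S / c) ^ δ * (n : ℝ) ^ δ) * (T / S) ^ (K' - 1)) ^ 2 ≤
      C * (n : ℝ) ^ (min d 1 / 2) := by
    rw [hC, mul_mul_mul_comm, mul_right_comm, mul_pow, ← rpow_add n0, ← rpow_natCast ((n : ℝ) ^ _),
      ← rpow_mul n0.le]
    exact mul_le_mul_of_nonneg_left (rpow_le_rpow_of_exponent_le n1 (by push_cast; linarith))
      (by positivity)
  have hE1 := hE.trans (mul_le_mul_of_nonneg_left ((rpow_le_rpow_of_exponent_le n1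
    (show _ ≤ (1 : ℝ) by linarith [min_le_right d 1])).trans_eq (rpow_one _)) C0)
  have hE2 := hE.trans (mul_le_mul_of_nonneg_left (rpow_le_rpow_of_exponent_le n1
    (show _ ≤ d / 2 by linarith [min_le_left d 1])) C0)
  have d2 : (n : ℝ) ^ δ ≤ (n : ℝ) ^ (d / 2) :=
    rpow_le_rpow_of_exponent_le n1 (by nlinarith [min_le_left d 1])
  have htS : c * s ≤ S := (le_div_iff₀' c0).1 hT
  refine sp_tp hw (t := c * s)
    (E := c⁻¹ ^ K * (n : ℝ) ^ (δ * K) * ((S / c) ^ δ * (n : ℝ) ^ δ) * (T / S) ^ (K' - 1))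
    (by positivity) (htS.trans hST) (by positivity) (fun f f0 h0 hM r hr => tp_three (.of_pos hw)
      f0 h0 hM (t := c * s) (m := (n : ℝ) ^ δ * s) (κ := 1 + δ) (by positivity) htS hST
      (by gcongr; linarith) hK (by linarith) hK' (le_of_eq ?_) ?_ le_rfl (exp_pos _).le w1 w2 w3 hr)
    hX hTl A0 e0 hJ P0 (by positivity) hF hθ hH ?_ ?_
  · rw [mul_div_mul_right _ _ s0.ne', div_eq_inv_mul, mul_rpow (by positivity) (by positivity),
      rpow_mul n0.le]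
  · rw [add_sub_cancel_left, ← mul_rpow (by positivity) n0.le, ← div_div, div_eq_mul_inv _ s]
    gcongr
  · generalize (c⁻¹ ^ K * (n : ℝ) ^ (δ * K) * ((S / c) ^ δ * (n : ℝ) ^ δ) *
      (T / S) ^ (K' - 1)) ^ 2 = E at *
    have : 3 / 2 * (E * (T ^ 2 + 48 * T ^ 3 * n ^ 2) * exp (-H)) / (c * s) ≤ 1 / 2 := by
      calc _ = 3 / 2 * (E * (T ^ 2 * 1 + 48 * T ^ 3 * n ^ 2) * exp (-H)) / c * s⁻¹ := by
            field_simp
        _ ≤ 3 / 2 * (C * n * (T ^ 2 * n ^ 2 + 48 * T ^ 3 * n ^ 2) * exp (-H)) / c * n := by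
            gcongr; exact one_le_pow₀ n1
        _ = 3 * C * (T ^ 2 + 48 * T ^ 3) / c * (n : ℝ) ^ 4 * exp (-H) / 2 := by ring
        _ ≤ exp H * exp (-H) / 2 := by gcongr
        _ = _ := by rw [← exp_add, add_neg_cancel, exp_zero]
    linarith
  · generalize (c⁻¹ ^ K * (n : ℝ) ^ (δ * K) * ((S / c) ^ δ * (n : ℝ) ^ δ) *
      (T / S) ^ (K' - 1)) ^ 2 = E at *
    calc _ = (n : ℝ) ^ (-d) * H * (s * (A * (3 * 1 + (n : ℝ) ^ δ)) + 3 / 2 * (E * T ^ 2 * P) / c) := by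
          field_simp
      _ ≤ (n : ℝ) ^ (-d) * H * (1 * (A * (3 * (n : ℝ) ^ (d / 2) + (n : ℝ) ^ (d / 2))) +
          3 / 2 * (C * (n : ℝ) ^ (d / 2) * T ^ 2 * P) / c) := by gcongr; exact d1.trans d2
      _ = (n : ℝ) ^ (-d) * H * ((8 * A + 3 * C * T ^ 2 * P / c) * (n : ℝ) ^ (d / 2)) / 2 := by ring
      _ ≤ (n : ℝ) ^ (-d) * H * (n : ℝ) ^ d / 2 := by gcongr
      _ = _ := by rw [mul_right_comm, ← rpow_add n0, neg_add_cancel, rpow_zero, one_mul]

/-- the top levels from tensorisation with a defect -/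
theorem sp_dat (hw : ∀ x, 0 < w x) {A D H L θ lam : ℝ} (h : DAT w A D) (A0 : 0 < A) (L0 : 0 ≤ L)
    (hF : mean w (fun x => exp (θ * Ent.big w L x)) ≤ 2) (hθ : 24 * A < θ) (hH : 8 ≤ H)
    (hD : 8 * D ≤ H) (hl : lam * (A * (3 + L)) ≤ H / 2) : SP w H lam :=
  SP.of_norm hw fun g g1 hM hent => by
  have f0 : ∀ x, 0 ≤ g x ^ 2 := fun x => sq_nonneg _
  have a3 := h _ f0
  have a4 := mul_le_mul_of_nonneg_left (Ent.sum_entS_sq_le hw g L0) A0.le
  have a9 := big_le hw f0 g1 hM A0.le hF hθ hH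
  rw [g1] at a3
  by_contra hc
  have p : 0 < A * (3 + L) := by positivity
  linarith [mul_lt_mul_of_pos_right (not_le.1 hc) p]

theorem levGlue : LevGlue := fun a κ T ha hκ T0 hW hF hO hFl hTo hL =>
  Top.whp_of_approx fun ε hε => by
  obtain ⟨B, hB⟩ := hL ε hε
  refine ⟨fun n g => ∀ θ, 0 ≤ θ → Xth n g θ ≤ B * exp (B * θ ^ (3 / 2 : ℝ)),
    hB.mono fun n hn => le_trans (measure_mono fun g hg => ?_) hn, ?_⟩
  · simpa only [mem_ofPred_eq, not_forall, not_le, exists_prop] using hg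
  have B1 := le_max_right B 1
  set c := (65 * (2 * max B 1))⁻¹ with hc
  have c0 : 0 < c := by positivity
  have c1 : c ≤ 1 := inv_le_one_of_one_le₀ (by linarith)
  have a0 : 0 < 2 / 3 - a := sub_pos.2 ha
  set d := κ * (2 / 3 - a) with hd
  have d0 : 0 < d := mul_pos hκ a0
  obtain ⟨η, M, M0, h1, h2, hF⟩ := hF
  obtain ⟨z, z0, hTo⟩ := hTo (d / 10) (by positivity)
  obtain ⟨K, hW⟩ := hW (z / 2) (by positivity) c c0
  have K1 := le_max_right K 1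
  obtain ⟨δ, δ0, δ1, δ2⟩ : ∃ δ > 0, δ ≤ κ ∧ 4 * (max K 1 + 1) * δ ≤ min d 1 :=
    ⟨min κ (min d 1 / (4 * (max K 1 + 1))), by positivity, min_le_left _ _,
      (le_div_iff₀' (by positivity)).1 (min_le_right _ _)⟩
  obtain ⟨t0, t00, K', hW⟩ := hW δ δ0
  have S0 : 0 < min t0 T := lt_min t00 T0
  set S := min t0 T with hS
  set C := (c⁻¹ ^ max K 1 * (S / c) ^ δ * (T / S) ^ (max K' 1 - 1)) ^ 2 with hC
  refine ((((((hW.and hF).and hO).and (hFl (δ / 2) (half_pos δ0))).and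
    (hFl (d / 5) (by positivity))).and hTo).and (Chain22.whp_opn true)).mono ?_
  filter_upwards [eventually_ge_atTop 1, ev_pow hκ 8, ev_pow hκ (2 * max B 1),
    ev_exp hκ (3 * C * (T ^ 2 + 48 * T ^ 3) / c),
    ev_pow (half_lt_self d0) (8 * exp (6 * M + 2) + 3 * C * T ^ 2 * (exp (8 * M) ^ 2 * 64) / c),
    Glue.ev_small (exp (6 * M + 2) * 96) one_half_pos,
    ((tendsto_exp_neg_atTop_nhds_zero.comp ((tendsto_natCast_atTop_atTop (R := ℝ)).const_mul_atTop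
      (half_pos one_half_pos))).eventually (ge_mem_nhds one_half_pos)),
    ev_small2 (exp (8 * M) ^ 2 * 1296 + 2) one_half_pos,
    ev_pow (show 1 - z / 2 < 1 by linarith) 24, ev_pow (half_pos δ0) (24 * exp (6 * M + 2) + 1),
    ev_pow (show 1 - z / 2 < 1 by linarith) ((S / c) ^ (3 / 2 : ℝ))⁻¹,
    ev_pow (show d / 10 < d / 5 by linarith) 25, ev_pow (show 1 - z < 1 - z / 2 by linarith) 8,
    ev_pow (half_lt_self d0) 152]
    with n hn v1 v2 v4 v5 v6 v7 v8 v9 v10 v11 v12 v13 v14 g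
      ⟨⟨⟨⟨⟨⟨g1, g2⟩, g3⟩, g4⟩, g5⟩, g6⟩, g7⟩ g0 j hH
  have n1 : (1 : ℝ) ≤ n := by exact_mod_cast hn
  have n0 : (0 : ℝ) < n := zero_lt_one.trans_le n1
  have hw := gibbsWeight_pos (n := n) 1 g
  rw [rpow_zero, mul_one] at v1 v2 v10
  rw [rpow_one] at v9 v11
  set H : ℝ := 2 ^ j
  have H0 : 0 < H := by positivity
  have s0 : 0 < Crit.sH n H := rpow_pos_of_pos (by positivity) _
  rcases lt_or_ge (19 * (n : ℝ)) H with h' | h'
  · exact sp_of_min hw (Chain22.log_inv_prob_gibbs_le g7) (by rw [abs_one]; linarith) _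
  refine SP.mono (lam := (n : ℝ) ^ (-d) * Crit.sH n H * H) ?_ (.of_pos hw) ?_
  swap
  · have e1 : H ^ (1 + a) / N23 n = H ^ (-(2 / 3 - a)) * (H / n) ^ (2 / 3 : ℝ) * H := by
      rw [div_rpow H0.le n0.le, N23, show 1 + a = -(2 / 3 - a) + 2 / 3 + 1 by ring, rpow_add H0,
        rpow_add H0, rpow_one]
      ring
    rw [e1, Crit.sH, hd, ← mul_neg, rpow_mul n0.le]
    gcongr ?_ * _ * _
    exact rpow_le_rpow_of_nonpos (by positivity) hH (by linarith)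
  rcases le_total H ((n : ℝ) ^ (1 - z / 2)) with h | h
  · have g8 := g1 H ((rpow_le_rpow_of_exponent_le n1 δ1).trans hH) h
    have hST : S ≤ T := min_le_right _ _
    have e := gibbsWeight_eq_ising (n := n) 1 g
    rw [one_smul] at e
    have p0 : (0 : ℝ) < (n : ℝ) ^ (1 - z / 2) := by positivity
    have hTl := Glue.tail_end (Jmat_transpose g) g3 M0 T0.le h1 h2 g2
    have hJ := (jt_end (Jmat_transpose g) g3 M0 T0.le h1 h2 g2).mono (δ' := exp (-(3 * H))) (by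
      refine le_trans ?_ (v8.trans (exp_le_exp.2 (by linarith)))
      have e3 : (n : ℝ) ≤ n ^ 2 := le_self_pow₀ n1 two_ne_zero
      rw [show (n : ℝ) / 2 = 1 / 2 * n by ring]
      exact mul_le_mul_of_nonneg_right (by linarith) (exp_pos _).le)
    rw [← e] at hTl hJ
    refine sp_lev3 hw (K := max K 1) (K' := max K' 1) (θ := (n : ℝ) ^ (δ / 2)) c0 c1 S0 hST K1
      (le_max_right _ _) δ0 δ2 hn (v1.trans hH) (by linarith) ?_
      (fun r hr h h' => covAt_mono (.of_pos hw) ((g8 r (hr.trans hST)).1 h h')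
        (div_le_div_of_nonneg_right (le_max_left _ _) (le_trans (by positivity) h)))
      (fun r hr h => (g8 r (hr.trans hST)).2.1 h (hr.trans (min_le_left _ _)))
      (fun r hr => covAt_mono (.of_pos hw) ((g8 r hr.2.le).2.2 ((min_lt_iff.1 hr.1).elim le_of_lt
        fun h => absurd hr.2 h.not_gt))
        (div_le_div_of_nonneg_right (le_max_left _ _) (S0.le.trans hr.1.le)))
      (xx_le g g0 (le_max_left _ _) B1 (v2.trans hH))
      hTl (exp_pos _).le (by positivity) ?_ hJ (by positivity) ?_ (by linarith) hC (v4.trans (exp_le_exp.2 hH)) v5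
    · have q0 : 0 < (S / c) ^ (3 / 2 : ℝ) := by positivity
      refine (rpow_le_rpow (by positivity) (show H / n ≤ (S / c) ^ (3 / 2 : ℝ) from ?_)
        (by norm_num)).trans_eq ?_
      · rw [div_le_iff₀ n0]
        exact h.trans ((inv_mul_le_iff₀ q0).1 v11)
      · rw [← rpow_mul (by positivity), show (3 / 2 * (2 / 3) : ℝ) = 1 by norm_num, rpow_one]
    · rw [show (n : ℝ) / 2 = 1 / 2 * n by ring]
      simp only [Function.comp] at v7
      linarith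
    · rwa [show 2 * (δ / 2) = δ by ring] at g4
  · have p1 : (1 : ℝ) ≤ (n : ℝ) ^ (2 * (d / 5)) := one_le_rpow n1 (by positivity)
    have p2 : (0 : ℝ) < (n : ℝ) ^ (d / 10) := by positivity
    refine sp_dat hw g6 p2 (by positivity) g5 (by linarith) (v1.trans hH) (v13.trans h) ?_
    have b2 : Crit.sH n H ≤ 19 := (rpow_le_rpow (by positivity) ((div_le_iff₀ n0).2 h')
      (by norm_num)).trans (rpow_le_self_of_one_le (by norm_num) (by norm_num))
    have e2 : (n : ℝ) ^ (d / 10) * (n : ℝ) ^ (2 * (d / 5)) = (n : ℝ) ^ (d / 2) := by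
      rw [← rpow_add n0]; congr 1; ring
    calc _ ≤ (n : ℝ) ^ (-d) * 19 * H * ((n : ℝ) ^ (d / 10) *
          (3 * (n : ℝ) ^ (2 * (d / 5)) + (n : ℝ) ^ (2 * (d / 5)))) := by gcongr; linarith
      _ = (n : ℝ) ^ (-d) * H * (152 * ((n : ℝ) ^ (d / 10) * (n : ℝ) ^ (2 * (d / 5)))) / 2 := by ring
      _ ≤ (n : ℝ) ^ (-d) * H * (n : ℝ) ^ d / 2 := by rw [e2]; gcongr
      _ = _ := by rw [mul_right_comm, ← rpow_add n0, neg_add_cancel, rpow_zero, one_mul]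

end Crest.Agent.T157.Cn

end
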