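import Crest.Agent.T157.StDef_87

/-!
# Row 157, part C4: `ApproxGlue` (helper22)
-/

set_option autoImplicit false

noncomputable section

namespace Crest.Agent.T157.St

open MeasureTheory ProbabilityTheory Matrix Filter Topology Finset Real
open scoped ENNReal
open Crest.Agent.T157.E Crest.Agent.T157.Eig
open Crest.Agent.T157.Cond Crest.Agent.T157.Ed Crest.Agent.T157.Top

namespace Apx22

/-- the matrix of `pad` -/
def padM (K n : ℕ) : Matrix (Fin n) (Fin K) ℝ := fun i j => if (i : ℕ) = j then 1 else 0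

lemma padM_mulVec (K n : ℕ) (a : Fin K → ℝ) : padM K n *ᵥ a = pad K n a := by
  funext i
  simp only [mulVec, dotProduct, padM, pad, ite_mul, one_mul, zero_mul]
  split_ifs with h
  · rw [sum_eq_single (⟨i, h⟩ : Fin K)]
    · simp
    · intro j _ hj
      rw [if_neg]
      intro e
      exact hj (Fin.ext e.symm)
    · simp
  · refine sum_eq_zero fun j _ => if_neg fun e => h ?_
    rw [e]; exact j.2

lemma padM_isom {K n : ℕ} (h : K ≤ n) : (padM K n)ᵀ * padM K n = 1 := by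
  ext j l
  simp only [mul_apply, transpose_apply, padM, one_apply, ite_mul, one_mul, zero_mul]
  rw [sum_eq_single (⟨j, lt_of_lt_of_le j.2 h⟩ : Fin n)]
  · simp [Fin.ext_iff]
  · intro i _ hi
    rw [if_neg]
    intro e
    exact hi (Fin.ext e)
  · simp

lemma two_mul_le_sum {Ks : List ℝ} (h : AdmL Ks) : ∀ K ∈ Ks, 2 * K ≤ 2 * Ks.sum := fun K hK =>
  mul_le_mul_of_nonneg_left (List.single_le_sum (fun x hx => (h.2 x hx).le) K hK) zero_le_two

lemma continuous_ct {L : ℝ} (hL : 0 < L) (K : ℕ) : Continuous (ct L (K := K)) := by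
  unfold ct
  refine continuous_const.add (continuous_finsetSum _ fun k _ => ?_)
  exact (continuous_apply k).div (by fun_prop) fun y => by positivity

lemma continuous_phi (hP : PhiContStmt) {Ks : List ℝ} {θ : ℝ} (hK : AdmL Ks)
    (hθ : ∀ K ∈ Ks, 2 * K ≤ θ) {K K₁ : ℕ} {ρ : (Fin K → ℝ) → Measure (Fin K₁ → ℝ)}
    (hρ : ∀ y, Cp (ρ y))
    (hc : Continuous fun q : (Fin K → ℝ) × (Fin K → ℝ) => Xk θ (ρ q.1) (ρ q.2)) :
    Continuous fun y => PhiL (ρ y) Ks := by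
  refine continuous_iff_continuousAt.2 fun y0 => Metric.tendsto_nhds.2 fun ε hε => ?_
  obtain ⟨δ, hδ, h⟩ := hP Ks θ (Xk θ (ρ y0) (ρ y0) + 1) (ε / 2) hK hθ (by positivity)
  have c1 : Continuous fun y => Xk θ (ρ y) (ρ y) := hc.comp (continuous_id.prodMk continuous_id)
  have c2 : Continuous fun y => Xk θ (ρ y) (ρ y0) := hc.comp (continuous_id.prodMk continuous_const)
  have c3 : Continuous fun y => D2 θ (ρ y) (ρ y0) :=
    (c1.sub (continuous_const.mul c2)).add continuous_const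
  have e1 := (c1.tendsto y0).eventually (gt_mem_nhds (lt_add_one _))
  have e2 := (c3.tendsto y0).eventually
    (gt_mem_nhds (show D2 θ (ρ y0) (ρ y0) < δ by unfold D2; linarith))
  filter_upwards [e1, e2] with y h1 h2
  rw [Real.dist_eq]
  exact (h _ _ _ (hρ y) (hρ y0) h1.le (by linarith) h2.le).trans_lt (by linarith)

lemma Xk_le (hM : MmdStmt) {ι : Type} [Fintype ι] {μ ν : Measure (ι → ℝ)} (hμ : Cp μ) (hν : Cp ν)
    {θ B : ℝ} (hθ : 0 ≤ θ) (hB : Xk θ ν ν ≤ B) (hD : D2 θ μ ν ≤ 1) :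
    Xk θ μ μ ≤ (√B + 1) ^ 2 := by
  obtain ⟨-, -, -, h1, -, -, h2, -⟩ := hM ι μ ν μ hμ hν hμ θ θ hθ le_rfl
  have h3 : √(Xk θ μ μ) ≤ √B + 1 :=
    h2.trans (add_le_add (sqrt_le_sqrt hB) (by rw [← sqrt_one]; exact sqrt_le_sqrt hD))
  rw [← sq_sqrt (zero_le_one.trans h1)]
  exact pow_le_pow_left₀ (sqrt_nonneg _) h3 2

lemma le_sq_sqrt_add (B : ℝ) : B ≤ (√B + 1) ^ 2 := by
  rcases le_total B 0 with h | h
  · exact h.trans (sq_nonneg _)
  · nlinarith [sq_sqrt h, sqrt_nonneg B]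

end Apx22

open Apx22

theorem approxGlue : ApproxGlue := by
  intro hM hP hI hLn hG hR hMg hF hC Ks ε hK hε
  set θ := 2 * Ks.sum with hθ
  have hθK := two_mul_le_sum hK
  have hθ0 : 0 ≤ θ := mul_nonneg zero_le_two (List.sum_nonneg fun x hx => (hK.2 x hx).le)
  obtain ⟨C, -, hG⟩ := hG
  obtain ⟨L, w₁, hL, hG⟩ := hG (ε / 4) (by positivity)
  obtain ⟨w₂, hMg⟩ := hMg L C hL
  obtain ⟨w₃, hF⟩ := hF L C θ hL hθ0
  set w := max w₁ (max w₂ w₃) with hw
  obtain ⟨B, hMg⟩ := hMg w ((le_max_left _ _).trans (le_max_right _ _))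
  set B' := B * exp (B * |θ| ^ (3 / 2 : ℝ)) with hB'
  obtain ⟨δ, hδ, hPc⟩ := hP Ks θ ((√B' + 1) ^ 2) (ε / 2) hK hθK (by positivity)
  obtain ⟨K₁, δ', hδ', hF⟩ := hF w ((le_max_right _ _).trans (le_max_right _ _)) (min δ 1)
    (lt_min hδ one_pos)
  obtain ⟨L', hL', hR⟩ := hR w (min δ' (ε / 4)) (lt_min hδ' (by positivity))
  obtain ⟨K, hFK, hRK⟩ := (hF.and hR).exists
  obtain ⟨ρ, hρ, hρc, hFn⟩ := hFK (ct L') (continuous_ct hL' K)
  refine ⟨K, fun y => PhiL (ρ y) Ks, continuous_phi hP hK hθK hρ hρc, ?_⟩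
  filter_upwards [hG w (le_max_left _ _), hMg, hFn, hRK,
    whp_iff.1 (hC.2 θ (min δ 1) hθ0 (lt_min hδ one_pos)) (ε / 4) (by positivity),
    eventually_ge_atTop 1, eventually_ge_atTop K₁] with n h1 h2 h3 h4 h5 hn hn1
  obtain ⟨l1, l2, -, l4, -⟩ := hLn n hn
  have ht : 0 < sx n ^ 2 := pow_pos (rpow_pos_of_pos (by exact_mod_cast hn) _) 2
  have sub : {W : Mat n | ε < |PhiL (muW n W) Ks - PhiL (ρ (LamV n K W)) Ks|} ⊆
      ({W | ¬ (W.IsHermitian ∧ Gd n (Lam n W) (sx n ^ 2) L w C)} ∪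
        {W | min δ' (ε / 4) <
          |sx n ^ 2 - ∑ k ∈ Ico K n, 1 / (w + Lam n W k) - ct L' (LamV n K W)|}) ∪
        {W | ¬ D2 θ (muW n W) (nuW n W) ≤ min δ 1} := by
    intro W hW
    by_contra hn'
    simp only [Set.mem_union, Set.mem_ofPred_eq, not_or, not_not, not_lt] at hn'
    obtain ⟨⟨⟨hh, hg⟩, hr⟩, hd⟩ := hn'
    obtain ⟨O, hO, -, hO'⟩ := l4 W hh
    have cD := (l2 (Lam n W) _ ht).1
    obtain ⟨-, i2, -, i4⟩ := hI _ _ O hO _ _ cD cD
    have hX : Xk θ (nuD n (Lam n W) (sx n ^ 2)) (nuD n (Lam n W) (sx n ^ 2)) ≤ B' :=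
      h2 _ _ ht hg θ
    have hXW : Xk θ (nuW n W) (nuW n W) ≤ B' := by rw [hO', i2]; exact hX
    have a1 : |PhiL (muW n W) Ks - PhiL (nuW n W) Ks| ≤ ε / 2 :=
      hPc _ _ _ (l1 W).1 (l1 W).2.1
        (Xk_le hM (l1 W).1 (l1 W).2.1 hθ0 hXW (hd.trans (min_le_right _ _)))
        (hXW.trans (le_sq_sqrt_add _)) (hd.trans (min_le_left _ _))
    have hD := h3 _ _ ht hg (hr.trans (min_le_left _ _))
    obtain ⟨j1, -, -, j4⟩ := hI _ _ (padM K₁ n) (padM_isom hn1) _ _ (hρ (LamV n K W))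
      (hρ (LamV n K W))
    have e : (fun x => padM K₁ n *ᵥ x) = pad K₁ n := funext (padM_mulVec K₁ n)
    rw [e] at j1 j4
    have hD' : D2 θ ((ρ (LamV n K W)).map (pad K₁ n)) (nuD n (Lam n W) (sx n ^ 2)) ≤ min δ 1 := by
      rw [(hM _ _ _ _ j1 cD cD θ θ hθ0 le_rfl).2.2.1]; exact hD
    have a2 : |PhiL ((ρ (LamV n K W)).map (pad K₁ n)) Ks -
        PhiL (nuD n (Lam n W) (sx n ^ 2)) Ks| ≤ ε / 2 :=
      hPc _ _ _ j1 cD (Xk_le hM j1 cD hθ0 hX (hD'.trans (min_le_right _ _)))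
        (hX.trans (le_sq_sqrt_add _)) (hD'.trans (min_le_left _ _))
    rw [j4 Ks hK] at a2
    rw [hO', i4 Ks hK] at a1
    have hW' : ε < |PhiL (muW n W) Ks - PhiL (ρ (LamV n K W)) Ks| := hW
    rw [abs_le] at a1 a2
    rcases lt_abs.1 hW' with h | h <;> linarith [a1.1, a1.2, a2.1, a2.2]
  calc GOE n {W | ε < |PhiL (muW n W) Ks - PhiL (ρ (LamV n K W)) Ks|} ≤ _ := measure_mono sub
    _ ≤ ENNReal.ofReal (ε / 4) + ENNReal.ofReal (ε / 4) + ENNReal.ofReal (ε / 4) :=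
        (measure_union_le _ _).trans (add_le_add ((measure_union_le _ _).trans
          (add_le_add h1 (h4.trans (ENNReal.ofReal_le_ofReal (min_le_right _ _))))) h5)
    _ ≤ ENNReal.ofReal ε := by
        rw [← ENNReal.ofReal_add (by positivity) (by positivity),
          ← ENNReal.ofReal_add (by positivity) (by positivity)]
        exact ENNReal.ofReal_le_ofReal (by linarith)

end Crest.Agent.T157.St

end
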