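import Crest.Agent.T157.StLnk_10

/-!
# Row 157, part C4: convergence in law of the chain functionals, cubic overlap moment (helper10)
-/

set_option autoImplicit false

noncomputable section

namespace Crest.Agent.T157.St

open MeasureTheory ProbabilityTheory Matrix Filter Topology Finset Real
open scoped ENNReal
open Crest.ProbabilityR.SpinGlassDynamics Crest.Agent.T157.E Crest.Agent.T157.Eig
open Crest.Agent.T157.Cond Crest.Agent.T157.Ed Crest.Agent.T157.Top
open Lnk10

namespace Conv10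

/-- an outer-measure bound passes from the GOE to the couplings -/
theorem disorder_le {n : ℕ} {A : Set (Pair n → ℝ)} {B : Set (Mat n)}
    (h : ∀ g ∈ A, ∀ d, Wmat n g d ∈ B) : disorderLaw n A ≤ GOE n B := by
  refine le_trans ?_ ((mp_Wmat (n := n)).measure_preimage_le B)
  calc disorderLaw n A = ((disorderLaw n).prod (gv (Fin n))) (A ×ˢ Set.univ) := by
        rw [Measure.prod_prod, measure_univ, mul_one]
    _ ≤ _ := measure_mono fun p hp => h p.1 hp.1 p.2

theorem integral_disorder {n : ℕ} {F : Mat n → ℝ} (hF : Measurable F) {G : (Pair n → ℝ) → ℝ}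
    (h : ∀ g d, F (Wmat n g d) = G g) : ∫ W, F W ∂GOE n = ∫ g, G g ∂disorderLaw n := by
  rw [GOE, ← (mp_Wmat (n := n)).map_eq, integral_map (mp_Wmat (n := n)).measurable.aemeasurable
    hF.aestronglyMeasurable]
  simp only [h]
  rw [integral_fun_fst, probReal_univ, one_smul]

theorem exp_cube_le {c R : ℝ} (hc : 0 ≤ c) (θ : ℕ → ℝ) (hθ : ∀ j, 0 ≤ θ j) {N : ℕ}
    (hN : |R| < N) : exp (c * |R| ^ 3) ≤ ∑ j ∈ range N,
      exp (c * (j + 1) ^ 3 - θ j * j) * (exp (θ j * R) + exp (-θ j * R)) := by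
  have h0 := abs_nonneg R
  set j := ⌊|R|⌋₊ with hj
  have h1 : (j : ℝ) ≤ |R| := Nat.floor_le h0
  have h2 : |R| < j + 1 := Nat.lt_floor_add_one _
  refine le_trans ?_ (single_le_sum (f := fun j : ℕ => exp (c * (j + 1) ^ 3 - θ j * j) *
    (exp (θ j * R) + exp (-θ j * R))) (fun _ _ => by positivity)
    (mem_range.2 ((Nat.floor_lt h0).2 hN)))
  have h3 : exp (θ j * |R|) ≤ exp (θ j * R) + exp (-θ j * R) := by
    rcases abs_cases R with h | h
    · rw [h.1]; linarith [exp_pos (-θ j * R)]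
    · rw [h.1, mul_neg, ← neg_mul]; linarith [exp_pos (θ j * R)]
  refine le_trans ?_ (mul_le_mul_of_nonneg_left h3 (exp_pos _).le)
  rw [← exp_add, exp_le_exp]
  have h4 : |R| ^ 3 ≤ (j + 1) ^ 3 := pow_le_pow_left₀ h0 h2.le 3
  nlinarith [mul_le_mul_of_nonneg_left h4 hc, mul_le_mul_of_nonneg_left h1 (hθ j)]

theorem term_le {B : ℝ} (hB : 1 ≤ B) (j : ℕ) :
    exp (1 / (64 * B ^ 2) * (j + 1) ^ 3 - (j / (2 * B)) ^ 2 * j) *
      exp (B * |((j : ℝ) / (2 * B)) ^ 2| ^ (3 / 2 : ℝ)) ≤ exp 1 * exp (-(1 / (16 * B ^ 2))) ^ j := by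
  have hj : (0 : ℝ) ≤ j := Nat.cast_nonneg j
  have e : |((j : ℝ) / (2 * B)) ^ 2| ^ (3 / 2 : ℝ) = (j / (2 * B)) ^ 3 := by
    rw [abs_of_nonneg (sq_nonneg _), ← rpow_natCast, ← rpow_mul (by positivity), ← rpow_natCast]
    norm_num
  rw [e, ← exp_nat_mul, ← exp_add, ← exp_add, exp_le_exp]
  have h1 : ((j : ℝ) + 1) ^ 3 ≤ 4 * (j ^ 3 + 1) := by
    nlinarith [mul_nonneg (sq_nonneg ((j : ℝ) - 1)) (add_nonneg hj zero_le_one)]
  have h2 : (j : ℝ) ≤ j ^ 3 := by exact_mod_cast Nat.le_self_pow (by norm_num) j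
  have h3 : 1 ≤ B ^ 2 := one_le_pow₀ hB
  have e2 : 1 / (64 * B ^ 2) * ((j : ℝ) + 1) ^ 3 - (j / (2 * B)) ^ 2 * j + B * (j / (2 * B)) ^ 3 =
      ((j + 1) ^ 3 - 8 * j ^ 3) / (64 * B ^ 2) := by field_simp; ring
  have e3 : 1 + (j : ℝ) * -(1 / (16 * B ^ 2)) = (64 * B ^ 2 - 4 * j) / (64 * B ^ 2) := by
    field_simp; ring
  rw [e2, e3]
  exact div_le_div_of_nonneg_right (by linarith) (by positivity)

end Conv10

open Conv10

theorem convGlue : ConvGlue := by
  intro _ hLim hA φ hφ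
  classical
  suffices h : ∃ L, ∀ _ : Unit, Tendsto (fun n => ∫ W, φ (fun i => PhiL (muW n W) i.1) ∂GOE n)
      atTop (𝓝 L) by
    obtain ⟨L, hL⟩ := h
    refine ⟨L, (hL ()).congr fun n => integral_disorder
      (hφ.measurable.comp (measurable_pi_lambda _ fun i => measurable_PhiL i.1)) fun g d => ?_⟩
    simp only [Function.comp_apply, muW_Wmat]
  refine Soft.cyl_conv_of_approx (B := Unit) (fun _ n => GOE n)
    (fun n W (i : {Ks : List ℝ // AdmL Ks}) => PhiL (muW n W) i.1)
    (fun n i => measurable_PhiL i.1) (fun s ε hε => ?_) φ hφ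
  have hε' : 0 < ε / (s.card + 1) := by positivity
  choose K Ψ hΨ hP using fun i : {Ks : List ℝ // AdmL Ks} => hA i.1 _ i.2 hε'
  refine ⟨fun _ n W i => if i ∈ s then Ψ i (LamV n (K i) W) else 0, fun _ n i => ?_, fun _ => ?_,
    fun ψ hψ => ?_⟩
  · by_cases hi : i ∈ s
    · simp only [if_pos hi]; exact (hΨ i).measurable.comp (measurable_LamV n _)
    · simp only [if_neg hi]; exact measurable_const
  · filter_upwards [(eventually_all_finset s).2 fun i _ => hP i] with n hn
    have hle : ε / (s.card + 1) ≤ ε := div_le_self hε.le (by linarith [Nat.cast_nonneg (α := ℝ) s.card])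
    calc _ ≤ GOE n (⋃ i ∈ s, {W | ε / (s.card + 1) <
            |PhiL (muW n W) i.1 - Ψ i (LamV n (K i) W)|}) := by
          refine measure_mono ?_
          rintro W ⟨i, hi, hW⟩
          rw [if_pos hi] at hW
          exact Set.mem_biUnion hi (hle.trans_lt hW)
      _ ≤ ∑ i ∈ s, ENNReal.ofReal (ε / (s.card + 1)) :=
          (measure_biUnion_finset_le _ _).trans (sum_le_sum hn)
      _ ≤ ENNReal.ofReal ε := by
          rw [← ENNReal.ofReal_sum_of_nonneg fun _ _ => hε'.le]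
          refine ENNReal.ofReal_le_ofReal ?_
          rw [sum_const, nsmul_eq_mul, mul_div_assoc', div_le_iff₀ (by positivity)]
          nlinarith
  · obtain ⟨ν, _, hν⟩ := hLim (s.sup K)
    let G : (Fin (s.sup K) → ℝ) → {Ks : List ℝ // AdmL Ks} → ℝ := fun y i =>
      if hi : i ∈ s then Ψ i fun k => y (Fin.castLE (le_sup hi) k) else 0
    have hG : Continuous G := continuous_pi fun i => by
      by_cases hi : i ∈ s
      · simp only [G, dif_pos hi]; exact (hΨ i).comp (by fun_prop)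
      · simp only [G, dif_neg hi]; exact continuous_const
    obtain ⟨_, C, -, hC, -⟩ := id hψ
    let F := BoundedContinuousFunction.ofNormedAddCommGroup (fun y => ψ (G y))
      (hψ.continuous.comp hG) C fun y => hC _
    refine ⟨_, fun _ => (hν F).congr fun n => ?_⟩
    refine integral_congr_ae (Eventually.of_forall fun W => ?_)
    change ψ (G (LamV n (s.sup K) W)) = ψ _
    refine congrArg ψ (funext fun i => ?_)
    by_cases hi : i ∈ s
    · simp only [G, dif_pos hi, if_pos hi]; rfl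
    · simp only [G, dif_neg hi, if_neg hi]

theorem ld3Glue : Ld3Glue := by
  intro _ hLd ε hε
  obtain ⟨B0, hB0⟩ := hLd ε hε
  set B := max B0 1 with hBdef
  have hB : 1 ≤ B := le_max_right _ _
  set q := exp (-(1 / (16 * B ^ 2))) with hq
  have hq1 : q < 1 := exp_lt_one_iff.2 (neg_neg_of_pos (by positivity))
  have hq0 : 0 ≤ q := (exp_pos _).le
  refine ⟨1 / (64 * B ^ 2), 2 * B * exp 1 * (1 - q)⁻¹, by positivity, ?_⟩
  filter_upwards [hB0, eventually_ge_atTop 1] with n hn hn1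
  refine le_trans (disorder_le fun g hg d => ?_) hn
  intro hM
  rw [Set.mem_ofPred_eq] at hg
  refine not_le.2 hg ?_
  rw [muW_Wmat] at hM
  set w := gibbsWeight n 1 g with hw
  have hp : ∀ x, 0 ≤ prob w x := prob_nonneg fun x => (gibbsWeight_pos 1 g x).le
  have hX : ∀ θ : ℝ, (mean w fun x => mean w fun x' => exp (θ * (hat n x ⬝ᵥ hat n x'))) ≤
      B * exp (B * |θ| ^ (3 / 2 : ℝ)) := fun θ => by
    have h := hM θ
    simp only [Xk, integral_muG] at h
    refine h.trans ?_
    have h1 : B0 ≤ B := le_max_left _ _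
    calc B0 * exp (B0 * |θ| ^ (3 / 2 : ℝ)) ≤ B * exp (B0 * |θ| ^ (3 / 2 : ℝ)) := by gcongr
      _ ≤ _ := by gcongr
  have hs := sx_pos hn1
  have hR : ∀ x x' : Cube n, 1 / (64 * B ^ 2) * |sv x ⬝ᵥ sv x'| ^ 3 / n ^ 2 =
      1 / (64 * B ^ 2) * |hat n x ⬝ᵥ hat n x'| ^ 3 := fun x x' => by
    rw [hat, hat, smul_dotProduct, dotProduct_smul, smul_eq_mul, smul_eq_mul, abs_mul, abs_mul,
      abs_of_pos (show 0 < (sx n ^ 2)⁻¹ by positivity), ← sx_pow_six n]
    field_simp
  obtain ⟨N, hN⟩ := exists_nat_gt (∑ x : Cube n, ∑ x' : Cube n, |hat n x ⬝ᵥ hat n x'|)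
  have hN' : ∀ x x' : Cube n, |hat n x ⬝ᵥ hat n x'| < N := fun x x' =>
    ((single_le_sum (f := fun x' => |hat n x ⬝ᵥ hat n x'|) (fun _ _ => abs_nonneg _)
      (mem_univ x')).trans (single_le_sum (f := fun x => ∑ x', |hat n x ⬝ᵥ hat n x'|)
      (fun _ _ => sum_nonneg fun _ _ => abs_nonneg _) (mem_univ x))).trans_lt hN
  simp only [hR]
  let θ : ℕ → ℝ := fun j => (j / (2 * B)) ^ 2
  let a : ℕ → ℝ := fun j => exp (1 / (64 * B ^ 2) * (j + 1) ^ 3 - θ j * j)
  calc _ ≤ mean w fun x => mean w fun x' => ∑ j ∈ range N, a j *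
          (exp (θ j * (hat n x ⬝ᵥ hat n x')) + exp (-θ j * (hat n x ⬝ᵥ hat n x'))) :=
        sum_le_sum fun x _ => mul_le_mul_of_nonneg_left (sum_le_sum fun x' _ =>
          mul_le_mul_of_nonneg_left (exp_cube_le (by positivity) θ (fun _ => sq_nonneg _)
            (hN' x x')) (hp x')) (hp x)
    _ = ∑ j ∈ range N, a j * ((mean w fun x => mean w fun x' => exp (θ j * (hat n x ⬝ᵥ hat n x'))) +
          mean w fun x => mean w fun x' => exp (-θ j * (hat n x ⬝ᵥ hat n x'))) := by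
        simp only [mean, mul_sum, ← sum_add_distrib]
        rw [sum_comm]
        refine (sum_congr rfl fun x _ => sum_comm).trans (sum_comm.trans ?_)
        refine sum_congr rfl fun j _ => ?_
        rw [sum_comm]
        exact sum_congr rfl fun x _ => sum_congr rfl fun x' _ => by ring
    _ ≤ ∑ j ∈ range N, 2 * B * exp 1 * q ^ j := sum_le_sum fun j _ => by
        have h1 := hX (θ j)
        have h2 := hX (-θ j)
        rw [abs_neg] at h2
        have h3 := mul_le_mul_of_nonneg_left (term_le hB j) (show 0 ≤ 2 * B by positivity)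
        have h4 := mul_le_mul_of_nonneg_left (add_le_add h1 h2) (show 0 ≤ a j from (exp_pos _).le)
        refine h4.trans (le_trans (le_of_eq ?_) (h3.trans_eq (by ring)))
        simp only [a, θ]; ring
    _ ≤ _ := by
        rw [← mul_sum, ← tsum_geometric_of_lt_one hq0 hq1]
        exact mul_le_mul_of_nonneg_left ((summable_geometric_of_lt_one hq0 hq1).sum_le_tsum _
          fun j _ => pow_nonneg hq0 j) (by positivity)

end Crest.Agent.T157.St

end
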