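import Crest.Agent.T157.StTwo_90

/-!
# Row 157, part C4: lower bound of the shell probability (`DenGlue`) (helper90)
-/

set_option autoImplicit false

noncomputable section

namespace Crest.Agent.T157.St.Den90

open MeasureTheory ProbabilityTheory Matrix Filter Topology Finset Real
open scoped ENNReal NNReal
open Two90

/-- fourth moment of the standard Gaussian -/
def k4 : ℝ := ∫ x, x ^ 4 ∂gaussianReal 0 1

lemma k4_nonneg : 0 ≤ k4 := integral_nonneg fun x => by positivity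

lemma memLp_sq (v : ℝ≥0) : MemLp (fun x : ℝ => x ^ 2) 2 (gaussianReal 0 v) := by
  have h := memLp_id_gaussianReal' (μ := 0) (v := v) 4 (by simp)
  have : ENNReal.HolderTriple 4 4 2 := ⟨by
    rw [show (4 : ℝ≥0∞) = 2 * 2 by norm_num, ENNReal.mul_inv (by simp) (by simp), ← mul_two,
      mul_assoc, ENNReal.inv_mul_cancel (by simp) (by simp), mul_one]⟩
  have := h.mul (r := 2) h
  refine this.congr_norm (by fun_prop) (ae_of_all _ fun x => ?_)
  simp [sq]

lemma int_sq (v : ℝ≥0) : ∫ x, x ^ 2 ∂gaussianReal 0 v = v := by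
  have h := variance_fun_id_gaussianReal (μ := 0) (v := v)
  rw [variance_eq_integral measurable_id'.aemeasurable] at h
  simpa [integral_id_gaussianReal] using h

lemma int_four {c : ℝ} (hc : 0 ≤ c) : ∫ x, x ^ 4 ∂gaussianReal 0 c.toNNReal = c ^ 2 * k4 := by
  have e : gaussianReal 0 c.toNNReal = (gaussianReal 0 1).map (√c * ·) := by
    rw [gaussianReal_map_const_mul]
    congr 1
    · simp
    · ext; simp [Real.sq_sqrt hc, hc]
  rw [e, integral_map (by fun_prop) (by fun_prop), k4, ← integral_const_mul]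
  refine integral_congr_ae (ae_of_all _ fun x => ?_)
  have : √c ^ 4 = c ^ 2 := by rw [show 4 = 2 * 2 from rfl, pow_mul, Real.sq_sqrt hc]
  simp only [mul_pow, this]

lemma var_sq_le {c : ℝ} (hc : 0 ≤ c) :
    Var[fun x : ℝ => x ^ 2; gaussianReal 0 c.toNNReal] ≤ c ^ 2 * k4 := by
  refine (variance_le_expectation_sq (by fun_prop)).trans (le_of_eq ?_)
  rw [← int_four hc]
  refine integral_congr_ae (ae_of_all _ fun x => ?_)
  simp only [Pi.pow_apply]; ring

variable {ι : Type} [Fintype ι] [DecidableEq ι]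

instance (m c : ι → ℝ) : IsProbabilityMeasure (gs m c) := by unfold gs; infer_instance

lemma cheb (c : ι → ℝ) (hc : ∀ k, 0 < c k) (S : Finset ι) {r : ℝ} (hr : 0 < r) :
    gs 0 c {x | r ≤ |∑ l ∈ S, x l ^ 2 - ∑ l ∈ S, c l|} ≤
      ENNReal.ofReal (k4 * (∑ l, c l ^ 2) / r ^ 2) := by
  set X : ι → ℝ → ℝ := fun l x => if l ∈ S then x ^ 2 else 0 with hX
  have hm : ∀ l, MemLp (X l) 2 (gaussianReal ((0 : ι → ℝ) l) (c l).toNNReal) := fun l => by
    by_cases h : l ∈ S
    · simpa [hX, h] using memLp_sq _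
    · simp [hX, h]
  have hY : (∑ l, fun ω : ι → ℝ => X l (ω l)) = fun x => ∑ l ∈ S, x l ^ 2 := by
    ext x
    simp [hX, Finset.sum_apply, Finset.sum_ite_mem]
  have hv := variance_sum_pi hm
  rw [hY] at hv
  have hmp : ∀ l, MeasurePreserving (fun x : ι → ℝ => x l) (gs 0 c)
      (gaussianReal ((0 : ι → ℝ) l) (c l).toNNReal) := fun l => measurePreserving_eval _ l
  have hL : MemLp (fun x : ι → ℝ => ∑ l ∈ S, x l ^ 2) 2 (gs 0 c) :=
    memLp_finsetSum _ fun l _ => (memLp_sq _).comp_measurePreserving (hmp l)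
  have hE : ∫ x, ∑ l ∈ S, x l ^ 2 ∂gs 0 c = ∑ l ∈ S, c l := by
    rw [integral_finsetSum (f := fun l (x : ι → ℝ) => x l ^ 2) _ fun l _ =>
      ((memLp_sq _).comp_measurePreserving (hmp l)).integrable (by simp)]
    refine Finset.sum_congr rfl fun l _ => ?_
    have := (hmp l).hasLaw.integral_comp (f := fun x : ℝ => x ^ 2) (by fun_prop)
    simp only [Function.comp_def] at this
    rw [this, Pi.zero_apply, int_sq, Real.coe_toNNReal _ (hc l).le]
  have h := meas_ge_le_variance_div_sq hL hr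
  rw [hE] at h
  refine h.trans (ENNReal.ofReal_le_ofReal ?_)
  gcongr
  refine (le_of_eq hv).trans ?_
  rw [Finset.mul_sum]
  refine Finset.sum_le_sum fun l _ => ?_
  by_cases hl : l ∈ S
  · have := var_sq_le (hc l).le
    simpa [hX, hl, mul_comm] using this
  · have e : X l = 0 := by ext x; simp [hX, hl]
    rw [e, variance_zero]
    exact mul_nonneg k4_nonneg (sq_nonneg _)

lemma factor (μ : ι → Measure ℝ) [∀ k, IsProbabilityMeasure (μ k)] (k : ι) {A : Set ℝ}
    (hA : MeasurableSet A) {B : Set (ι → ℝ)} (hB : MeasurableSet B)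
    (hi : ∀ x a, Function.update x k a ∈ B ↔ x ∈ B) :
    Measure.pi μ ({x | x k ∈ A} ∩ B) = μ k A * Measure.pi μ B := by
  have hA' : MeasurableSet {x : ι → ℝ | x k ∈ A} := measurable_pi_apply k hA
  rw [← lintegral_indicator_one (hA'.inter hB), ← lintegral_indicator_one hB,
    ← lintegral_const_mul _ (measurable_one.indicator hB)]
  refine lintegral_eq_of_lmarginal_eq {k} (measurable_one.indicator (hA'.inter hB))
    ((measurable_one.indicator hB).const_mul _) ?_
  ext x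
  simp only [lmarginal_singleton]
  by_cases hx : x ∈ B
  · have e1 : ∀ a, ({x : ι → ℝ | x k ∈ A} ∩ B).indicator (1 : (ι → ℝ) → ℝ≥0∞)
        (Function.update x k a) = A.indicator 1 a := fun a => by
      by_cases ha : a ∈ A
      · rw [Set.indicator_of_mem ha, Set.indicator_of_mem]
        · rfl
        · exact ⟨by simpa using ha, (hi x a).2 hx⟩
      · rw [Set.indicator_of_notMem ha, Set.indicator_of_notMem]
        exact fun h => ha (by simpa using h.1)
    have e2 : ∀ a, B.indicator (1 : (ι → ℝ) → ℝ≥0∞) (Function.update x k a) = 1 := fun a => by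
      rw [Set.indicator_of_mem ((hi x a).2 hx)]; rfl
    simp only [e1, e2, lintegral_indicator_one hA]
    simp
  · have e1 : ∀ a, ({x : ι → ℝ | x k ∈ A} ∩ B).indicator (1 : (ι → ℝ) → ℝ≥0∞)
        (Function.update x k a) = 0 := fun a =>
      Set.indicator_of_notMem (fun h => hx ((hi x a).1 h.2)) _
    have e2 : ∀ a, B.indicator (1 : (ι → ℝ) → ℝ≥0∞) (Function.update x k a) = 0 := fun a =>
      Set.indicator_of_notMem (fun h => hx ((hi x a).1 h)) _
    simp [e1, e2]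

lemma icc_lo {a c u : ℝ} (ha : 0 < a) (hac : a ≤ c) (hc : c ≤ 1) (hu : 0 ≤ u) :
    ENNReal.ofReal ((√(2 * π))⁻¹ * exp (-((u + 1) ^ 2 / (2 * a)))) ≤
      gaussianReal 0 c.toNNReal (Set.Icc u (u + 1)) := by
  have h0 : 0 < c := ha.trans_le hac
  rw [gaussianReal_apply _ (by simpa using h0)]
  calc _ = ∫⁻ _x in Set.Icc u (u + 1),
        ENNReal.ofReal ((√(2 * π))⁻¹ * exp (-((u + 1) ^ 2 / (2 * a)))) := by
        rw [setLIntegral_const]; simp
    _ ≤ _ := by
        refine setLIntegral_mono' measurableSet_Icc fun x hx => ?_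
        refine ENNReal.ofReal_le_ofReal ?_
        unfold gaussianPDFReal
        rw [Real.coe_toNNReal _ h0.le, sub_zero, neg_div]
        have h1 : √(2 * π * c) ≤ √(2 * π) :=
          Real.sqrt_le_sqrt (mul_le_of_le_one_right (by positivity) hc)
        have h2 : x ^ 2 / (2 * c) ≤ (u + 1) ^ 2 / (2 * a) := by
          have := hx.1
          have := hx.2
          gcongr
          linarith
        gcongr

lemma dot_split (x : ι → ℝ) {i j k : ι} (hij : i ≠ j) (hik : i ≠ k) (hjk : j ≠ k) (f : ℝ → ℝ) :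
    ∑ l, f (x l) = f (x i) + f (x j) + f (x k) +
      ∑ l ∈ ((univ.erase i).erase j).erase k, f (x l) := by
  rw [← Finset.add_sum_erase _ _ (mem_univ i),
    ← Finset.add_sum_erase (univ.erase i) _ (a := j) (by simp [hij.symm]),
    ← Finset.add_sum_erase ((univ.erase i).erase j) _ (a := k) (by simp [hik.symm, hjk.symm])]
  ring

lemma core (hT : TwoStmt) (c : ι → ℝ) (hc : ∀ k, 0 < c k) {i j k : ι} (hij : i ≠ j)
    (hik : i ≠ k) (hjk : j ≠ k) {a t r m M ε : ℝ} (ha : 0 < a) (hi : a ≤ c i) (hj : a ≤ c j)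
    (hk : a ≤ c k) (h1 : ∀ l, c l ≤ 1) (hr : 0 < r) (hM : 0 ≤ M)
    (hv : k4 * (∑ l, c l ^ 2) / r ^ 2 ≤ 1 / 2) (hu : (|m| + 1) ^ 2 + ∑ l, c l + r ≤ t)
    (hd : t - M ≤ ∑ l, c l - 3 - r) (h0 : 0 < ε) (hε : ε ≤ 1) :
    exp (-((M + 1) / (2 * a))) / 2 * ((√(2 * π))⁻¹ * exp (-((|m| + 1) ^ 2 / (2 * a))) / 2) * ε ≤
      (gs 0 c).real (shell t ε ∩ {x | m ≤ |x k|}) := by
  set S := ((univ.erase i).erase j).erase k with hS
  set B : Set (ι → ℝ) := {x | r ≤ |∑ l ∈ S, x l ^ 2 - ∑ l ∈ S, c l|}ᶜ with hB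
  have hBm : MeasurableSet B := (measurableSet_le measurable_const (by fun_prop)).compl
  have hE : MeasurableSet {x : ι → ℝ | m ≤ |x k|} := measurableSet_le measurable_const (by fun_prop)
  have hB2 : ENNReal.ofReal (1 / 2) ≤ gs 0 c B := by
    rw [hB, prob_compl_eq_one_sub (measurableSet_le measurable_const (by fun_prop))]
    have := (cheb c hc S hr).trans (ENNReal.ofReal_le_ofReal hv)
    refine le_trans (le_of_eq ?_) (tsub_le_tsub_left this 1)
    rw [← ENNReal.ofReal_one, ← ENNReal.ofReal_sub _ (by norm_num)]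
    norm_num
  have hfac : gs 0 c ({x | x k ∈ Set.Icc |m| (|m| + 1)} ∩ B) =
      gaussianReal 0 (c k).toNNReal (Set.Icc |m| (|m| + 1)) * gs 0 c B := by
    refine factor _ k measurableSet_Icc hBm fun x b => ?_
    have : ∑ l ∈ S, Function.update x k b l ^ 2 = ∑ l ∈ S, x l ^ 2 :=
      Finset.sum_congr rfl fun l hl => by rw [Function.update_of_ne (ne_of_mem_erase hl)]
    simp only [hB, Set.mem_compl_iff, Set.mem_ofPred_eq, this]
  have hT2 := (hT ι 0 c hc i j hij ({x | m ≤ |x k|}.indicator 1) (measurable_one.indicator hE)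
    (fun x a b => by
      simp only [Set.indicator, Set.mem_ofPred_eq, Function.update_of_ne hjk.symm,
        Function.update_of_ne hik.symm, Pi.one_apply]) t ε h0.le).2 rfl rfl M
  rw [lintegral_indicator_one hE, lintegral_indicator_one hE, Measure.restrict_apply hE,
    Measure.restrict_apply hE] at hT2
  have hsub : {x : ι → ℝ | x k ∈ Set.Icc |m| (|m| + 1)} ∩ B ⊆ {x | m ≤ |x k|} ∩
      {x | t - M ≤ x ⬝ᵥ x - x i ^ 2 - x j ^ 2 ∧ x ⬝ᵥ x - x i ^ 2 - x j ^ 2 ≤ t} := by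
    rintro x ⟨⟨x1, x2⟩, hx⟩
    simp only [hB, Set.mem_compl_iff, Set.mem_ofPred_eq, not_le] at hx
    have e1 := dot_split x hij hik hjk fun u => u ^ 2
    have e2 := dot_split c hij hik hjk fun u => u
    have e3 : x ⬝ᵥ x = ∑ l, x l ^ 2 := Finset.sum_congr rfl fun l _ => (sq _).symm
    have x3 : x k ^ 2 ≤ (|m| + 1) ^ 2 := pow_le_pow_left₀ ((abs_nonneg m).trans x1) x2 2
    obtain ⟨y1, y2⟩ := abs_lt.1 hx
    refine ⟨(le_abs_self m).trans (x1.trans (le_abs_self _)), ?_, ?_⟩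
    · linarith [h1 i, h1 j, h1 k, sq_nonneg (x k)]
    · linarith [hc i, hc j, hc k]
  have hq : √(c i * c j) ≤ 1 := Real.sqrt_le_one.2 (mul_le_one₀ (h1 i) (hc j).le (h1 j))
  have hq0 : 0 < √(c i * c j) := Real.sqrt_pos.2 (mul_pos (hc i) (hc j))
  have hmin : a ≤ min (c i) (c j) := le_min hi hj
  have hX : exp (-((M + 1) / (2 * a))) / 2 * ε ≤
      ε / (2 * √(c i * c j)) * exp (-((M + ε) / (2 * min (c i) (c j)))) := by
    have a1 : ε / 2 ≤ ε / (2 * √(c i * c j)) := by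
      gcongr; linarith
    have a2 : (M + ε) / (2 * min (c i) (c j)) ≤ (M + 1) / (2 * a) := by gcongr
    calc _ = ε / 2 * exp (-((M + 1) / (2 * a))) := by ring
      _ ≤ _ := by gcongr
  have key : ENNReal.ofReal (exp (-((M + 1) / (2 * a))) / 2 * ε) *
      (ENNReal.ofReal ((√(2 * π))⁻¹ * exp (-((|m| + 1) ^ 2 / (2 * a)))) * ENNReal.ofReal (1 / 2)) ≤
      gs 0 c ({x | m ≤ |x k|} ∩ shell t ε) := by
    refine le_trans ?_ hT2
    refine mul_le_mul' (ENNReal.ofReal_le_ofReal hX) (le_trans ?_ (measure_mono hsub))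
    rw [hfac]
    exact mul_le_mul' (icc_lo ha hk (h1 k) (abs_nonneg m)) hB2
  rw [← ENNReal.ofReal_mul (by positivity), ← ENNReal.ofReal_mul (by positivity),
    ENNReal.ofReal_le_iff_le_toReal (measure_ne_top _ _), Set.inter_comm] at key
  refine le_trans (le_of_eq ?_) key
  ring

lemma summ : Summable fun k : ℕ => (256 / ((k : ℝ) + 1) ^ (2 / 3 : ℝ)) ^ 2 := by
  have h := (summable_nat_add_iff 1).2
    (Real.summable_nat_rpow_inv.2 (show (1 : ℝ) < 4 / 3 by norm_num))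
  refine (h.mul_left (256 ^ 2)).congr fun k => ?_
  rw [div_pow, ← Real.rpow_natCast (((k : ℝ) + 1) ^ (2 / 3 : ℝ)),
    ← Real.rpow_mul (by positivity), div_eq_mul_inv (256 ^ 2 : ℝ)]
  norm_num

lemma ex_idx {n : ℕ} (hn : 3 ≤ n) (k : Fin n) :
    ∃ i j : Fin n, (i : ℕ) < 3 ∧ (j : ℕ) < 3 ∧ i ≠ j ∧ i ≠ k ∧ j ≠ k := by
  by_cases h0 : (k : ℕ) = 0
  · exact ⟨⟨1, by omega⟩, ⟨2, by omega⟩, by simp, by simp, by simp [Fin.ext_iff],
      by simp [Fin.ext_iff, h0], by simp [Fin.ext_iff, h0]⟩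
  by_cases h1 : (k : ℕ) = 1
  · exact ⟨⟨0, by omega⟩, ⟨2, by omega⟩, by simp, by simp, by simp [Fin.ext_iff],
      by simp [Fin.ext_iff, h1], by simp [Fin.ext_iff, h1]⟩
  · exact ⟨⟨0, by omega⟩, ⟨1, by omega⟩, by simp, by simp, by simp [Fin.ext_iff],
      by simp only [ne_eq, Fin.ext_iff]; omega, by simp only [ne_eq, Fin.ext_iff]; omega⟩

end Crest.Agent.T157.St.Den90

namespace Crest.Agent.T157.St

open MeasureTheory ProbabilityTheory Matrix Filter Topology Finset Real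
open scoped ENNReal NNReal
open Two90 Den90

theorem denGlue : DenGlue := by
  intro hT L C m K hL
  set S0 : ℝ := ∑' k : ℕ, (256 / ((k : ℝ) + 1) ^ (2 / 3 : ℝ)) ^ 2 with hS0
  refine ⟨max (2 * L + 1) (max (16 * (|m| + 1) ^ 4) (32 * k4 * S0)), le_max_left _ _,
    fun w hw => ?_⟩
  have w1 : 2 * L + 1 ≤ w := (le_max_left _ _).trans hw
  have w2 : 16 * (|m| + 1) ^ 4 ≤ w := (le_max_left _ _).trans ((le_max_right _ _).trans hw)
  have w3 : 32 * k4 * S0 ≤ w := (le_max_right _ _).trans ((le_max_right _ _).trans hw)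
  have w0 : 0 < w := by linarith
  have hs : 0 < √w := Real.sqrt_pos.2 w0
  set a : ℝ := 1 / (w + (60 * (K + 3) + L)) with ha
  set M : ℝ := |C| * √w + 3 + √w / 4 with hM
  have ha0 : 0 < a := by positivity
  refine ⟨exp (-((M + 1) / (2 * a))) / 2 *
    ((√(2 * π))⁻¹ * exp (-((|m| + 1) ^ 2 / (2 * a))) / 2), by positivity, ?_⟩
  filter_upwards [eventually_ge_atTop (8 * (K + 3))] with n hn η t hG ε h0 hε
  have hlo : ∀ l : Fin n, ((l : ℝ) + 1) ^ (2 / 3 : ℝ) / 256 + 1 ≤ w + η l := fun l => by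
    have := hG.lo l l.2
    linarith
  have hp : ∀ l : Fin n, 0 < ((l : ℝ) + 1) ^ (2 / 3 : ℝ) / 256 := fun l => by positivity
  have hc : ∀ l, 0 < cw n η w l := fun l => one_div_pos.2 (by linarith [hlo l, hp l])
  have h1 : ∀ l, cw n η w l ≤ 1 := fun l =>
    (div_le_one (by linarith [hlo l, hp l])).2 (by linarith [hlo l, hp l])
  have hal : ∀ l : Fin n, (l : ℕ) < K + 3 → a ≤ cw n η w l := fun l hl => by
    have h2 := hG.hi l (by omega)
    have h3 : ((l : ℝ) + 1) ^ (2 / 3 : ℝ) ≤ (l : ℝ) + 1 := by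
      have := Real.rpow_le_rpow_of_exponent_le (x := (l : ℝ) + 1)
        (by linarith [Nat.cast_nonneg (α := ℝ) (l : ℕ)]) (show (2 / 3 : ℝ) ≤ 1 by norm_num)
      rwa [Real.rpow_one] at this
    have h4 : (l : ℝ) + 1 ≤ K + 3 := by exact_mod_cast hl
    exact one_div_le_one_div_of_le (by linarith [hlo l, hp l]) (by linarith)
  have hsum : ∑ l, cw n η w l = ∑ k ∈ range n, 1 / (w + η k) :=
    Fin.sum_univ_eq_sum_range (fun k => 1 / (w + η k)) n
  have hup := hG.up
  have hdn := hG.dn w le_rfl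
  unfold Sr at hup hdn
  have hsq : ∑ l, cw n η w l ^ 2 ≤ S0 := by
    calc ∑ l, cw n η w l ^ 2 ≤ ∑ l : Fin n, (256 / ((l : ℝ) + 1) ^ (2 / 3 : ℝ)) ^ 2 := by
          refine Finset.sum_le_sum fun l _ => pow_le_pow_left₀ (hc l).le ?_ 2
          rw [← one_div_div]
          exact one_div_le_one_div_of_le (hp l) (by linarith [hlo l])
      _ = ∑ k ∈ range n, (256 / ((k : ℝ) + 1) ^ (2 / 3 : ℝ)) ^ 2 :=
          Fin.sum_univ_eq_sum_range (fun k : ℕ => (256 / ((k : ℝ) + 1) ^ (2 / 3 : ℝ)) ^ 2) n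
      _ ≤ S0 := summ.sum_le_tsum _ fun k _ => sq_nonneg _
  have hv : k4 * (∑ l, cw n η w l ^ 2) / (√w / 4) ^ 2 ≤ 1 / 2 := by
    rw [div_pow, Real.sq_sqrt w0.le, div_le_iff₀ (by positivity)]
    have := mul_le_mul_of_nonneg_left hsq k4_nonneg
    linarith
  have hm : (|m| + 1) ^ 2 ≤ √w / 4 := by
    have : 4 * (|m| + 1) ^ 2 ≤ √w := Real.le_sqrt_of_sq_le (by linarith)
    linarith
  have hC : C * √w ≤ |C| * √w := mul_le_mul_of_nonneg_right (le_abs_self C) hs.le
  have main : ∀ k : Fin n, (k : ℕ) < K + 3 → exp (-((M + 1) / (2 * a))) / 2 *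
      ((√(2 * π))⁻¹ * exp (-((|m| + 1) ^ 2 / (2 * a))) / 2) * ε ≤
      (gs 0 (cw n η w)).real (shell t ε ∩ {x | m ≤ |x k|}) := fun k hk => by
    obtain ⟨i, j, hi, hj, hij, hik, hjk⟩ := ex_idx (by omega) k
    exact core hT _ hc hij hik hjk ha0 (hal i (by omega)) (hal j (by omega)) (hal k hk) h1
      (r := √w / 4) (by positivity) (by positivity) hv (by linarith) (by linarith) h0 hε
  exact ⟨(main ⟨0, by omega⟩ (by simp)).trans (measureReal_mono Set.inter_subset_left),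
    fun k hk => main k (by omega)⟩

theorem denStmt : DenStmt := denGlue twoStmt

end Crest.Agent.T157.St

end
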