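import Crest.Agent.T157.StFinB_85
import Crest.Agent.T157.StApx_22

/-!
# Row 157, part C4: `FinGlue` (helper85)
-/

set_option autoImplicit false

noncomputable section

namespace Crest.Agent.T157.St

open MeasureTheory ProbabilityTheory Matrix Filter Topology Finset Real
open scoped ENNReal BoundedContinuousFunction
open Crest.Agent.T157.E

namespace Fin85

/-! ### the projection of the spherical law -/

lemma continuous_lft (a b : ℕ) : Continuous (lft a b) := continuous_pi fun _ => continuous_apply _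

lemma proj_eq (hS : SphStmt) (hSh : ShellStmt) {q : ℝ → ℝ} {Λ : ℝ} (h : Dn q Λ) {c : ℕ → ℝ}
    (hc : ∀ k, 0 < c k) {a b : ℕ} (hn : 0 < a + b) (hI : Iv q Λ c a b) {η : ℕ → ℝ} {w t : ℝ}
    (ht : 0 < t) (hcη : ∀ k, k < a + b → c k = 1 / (w + η k))
    (hp : IsProbabilityMeasure (nuD (a + b) η t))
    (hZ : 0 < ∫ x, q (t - S c 0 a x) ∂gv (Fin a)) :
    (nuD (a + b) η t).map (lft a b) =
      mu0 (fun k : Fin a => c k) fun x => q (t - S c 0 a x) := by
  have : Nonempty (Fin (a + b)) := ⟨⟨0, hn⟩⟩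
  have cq : Continuous fun x => q (t - S c 0 a x) :=
    h.cont.comp (continuous_const.sub (continuous_S c 0 a))
  have := prob_mu0 (fun k : Fin a => c k) (fun x => h.nn (t - S c 0 a x)) hZ
  have := Measure.isProbabilityMeasure_map (μ := nuD (a + b) η t)
    (continuous_lft a b).measurable.aemeasurable
  obtain ⟨κ, hκ, hsh⟩ := hSh (Fin (a + b)) t ht
  set H : (Fin (a + b) → ℝ) → ℝ := fun x => -(1 / 2) * ∑ k : Fin (a + b), η k * x k ^ 2 with hH
  set D := κ * (∏ k : Fin (a + b), (√(c k))⁻¹) * exp (-(w * t / 2)) with hD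
  have key : ∀ (F : (Fin a → ℝ) → ℝ) (A : ℝ), Continuous F → (∀ x, |F x| ≤ A) →
      ∫ x, F (sc (fun k : Fin a => c k) x) * q (t - S c 0 a x) ∂gv (Fin a) =
        D * ∫ x, F (lft a b x) * exp (H x) ∂sphR (Fin (a + b)) √t := by
    intro F A hF hA
    have l1 := shell_tendsto h (fun k => (hc k).le) hI hF hA t
    have l2 := hsh (fun k : Fin (a + b) => c k) (fun k => hc k) _ (hF.comp (continuous_lft a b))
    rw [tendsto_nhds_unique l1 l2, hD, mul_assoc _ (exp _)]
    congr 1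
    rw [← integral_const_mul]
    refine integral_congr_ae ?_
    filter_upwards [((hS (Fin (a + b))).1 √t).2.1] with x hx
    rw [sq_sqrt ht.le] at hx
    have e : -(1 / 2) * ∑ k : Fin (a + b), x k ^ 2 / c k = -(w * t / 2) + H x := by
      have : ∑ k : Fin (a + b), x k ^ 2 / c k =
          w * (x ⬝ᵥ x) + ∑ k : Fin (a + b), η k * x k ^ 2 := by
        rw [dotProduct, mul_sum, ← sum_add_distrib]
        refine sum_congr rfl fun k _ => ?_
        rw [hcη k k.2, one_div, div_inv_eq_mul]; ring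
      rw [this, hx, hH]; ring
    simp only [Function.comp]
    rw [e, exp_add]; ring
  have k1 := key (fun _ => 1) 1 continuous_const (by simp)
  simp only [one_mul] at k1
  refine ext_of_forall_integral_eq_of_IsFiniteMeasure fun f => ?_
  have k2 := key f ‖f‖ f.continuous fun x => f.norm_coe_le_norm x
  rw [integral_map (continuous_lft a b).measurable.aemeasurable f.continuous.aestronglyMeasurable,
    integral_mu0 _ cq (fun x => h.nn _) f.continuous.measurable]
  have e1 : ∫ x, f (lft a b x) ∂nuD (a + b) η t =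
      (∫ x, f (lft a b x) * exp (H x) ∂sphR (Fin (a + b)) √t) /
        ∫ x, exp (H x) ∂sphR (Fin (a + b)) √t := by
    rw [nuD, integral_tilted, ← integral_div]
    refine integral_congr_ae (ae_of_all _ fun x => ?_)
    simp only [smul_eq_mul, hH]; ring
  have e2 : ∫ x, q (t - S c 0 a x) / (∫ x, q (t - S c 0 a x) ∂gv (Fin a)) *
      f (sc (fun k : Fin a => c k) x) ∂gv (Fin a) =
      (∫ x, f (sc (fun k : Fin a => c k) x) * q (t - S c 0 a x) ∂gv (Fin a)) /
        ∫ x, q (t - S c 0 a x) ∂gv (Fin a) := by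
    rw [← integral_div]
    refine integral_congr_ae (ae_of_all _ fun x => ?_)
    simp only; ring
  have hD0 : D ≠ 0 := fun h0 => by rw [k1, h0, zero_mul] at hZ; exact lt_irrefl _ hZ
  rw [e1, e2, k2, k1, mul_div_mul_left _ _ hD0]

lemma den_le {q : ℝ → ℝ} {Λ : ℝ} (h : Dn q Λ) {c : ℕ → ℝ} (hc : ∀ k, 0 ≤ c k) {a b : ℕ}
    (hI : Iv q Λ c a b) {t d : ℝ} (hd : ∀ ε, 0 < ε → ε ≤ 1 →
      d * ε ≤ (gs 0 fun k : Fin (a + b) => c k).real (shell t ε)) :
    d ≤ ∫ x, q (t - S c 0 a x) ∂gv (Fin a) := by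
  have l1 := shell_tendsto h hc hI (F := fun _ => 1) continuous_const (A := 1) (by simp) t
  simp only [one_mul] at l1
  refine ge_of_tendsto l1 ?_
  filter_upwards [Ioc_mem_nhdsGT (zero_lt_one' ℝ)] with ε hε
  rw [le_div_iff₀ hε.1, setIntegral_const, smul_eq_mul, mul_one]
  exact hd ε hε.1 hε.2

/-! ### the approximating family -/

/-- clamped variances -/
def cy (w L U : ℝ) {K : ℕ} (y : Fin K → ℝ) (k : ℕ) : ℝ :=
  if h : k < K then 1 / (w + max (-L) (min (y ⟨k, h⟩) U)) else 1 / (w - L)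

lemma cy_bd {w L U : ℝ} (hw : L < w) (hU : -L ≤ U) {K : ℕ} (y : Fin K → ℝ) (k : ℕ) :
    1 / (w + U) ≤ cy w L U y k ∧ cy w L U y k ≤ 1 / (w - L) := by
  have h0 : 0 < w - L := by linarith
  unfold cy
  split_ifs with h
  · have h1 : -L ≤ max (-L) (min (y ⟨k, h⟩) U) := le_max_left _ _
    have h2 : max (-L) (min (y ⟨k, h⟩) U) ≤ U := max_le hU (min_le_right _ _)
    exact ⟨one_div_le_one_div_of_le (by linarith) (by linarith),
      one_div_le_one_div_of_le h0 (by linarith)⟩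
  · exact ⟨one_div_le_one_div_of_le h0 (by linarith), le_rfl⟩

lemma continuous_cy {w L U : ℝ} (hw : L < w) (K k : ℕ) :
    Continuous fun y : Fin K → ℝ => cy w L U y k := by
  unfold cy
  split_ifs with h
  · refine continuous_const.div (by fun_prop) fun y => ne_of_gt ?_
    linarith [le_max_left (-L) (min (y ⟨k, h⟩) U)]
  · exact continuous_const

instance : Measure.IsOpenPosMeasure (gaussianReal 0 1) :=
  (gaussianReal_absolutelyContinuous' 0 one_ne_zero).isOpenPosMeasure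

/-- abstract family: everything that is needed about the approximating laws -/
lemma family {Y : Type} [TopologicalSpace Y] [FirstCountableTopology Y]
    {P : Y → ℝ → ℝ} {Λ θ : ℝ} (hθ : 0 ≤ θ) (hP : ∀ y, Dn (P y) Λ)
    (hPc : Continuous fun q : Y × ℝ => P q.1 q.2) (hPp : ∀ y s, 0 < s → 0 < P y s)
    {c : Y → ℕ → ℝ} (hc : ∀ k, Continuous fun y => c y k) (h0 : ∀ y k, 0 ≤ c y k)
    (h1 : ∀ y k, θ * c y k ≤ 1 / 2) {r : Y → ℝ} (hr : Continuous r) (hr0 : ∀ y, 0 < r y)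
    (a i m : ℕ) :
    (∀ y, Cp (mu0 (fun k : Fin a => c y k) fun x => qf (P y) (c y) i m (r y - S (c y) 0 a x))) ∧
    Continuous fun q : Y × Y =>
      Xk θ (mu0 (fun k : Fin a => c q.1 k) fun x => qf (P q.1) (c q.1) i m (r q.1 - S (c q.1) 0 a x))
        (mu0 (fun k : Fin a => c q.2 k) fun x =>
          qf (P q.2) (c q.2) i m (r q.2 - S (c q.2) 0 a x)) := by
  set f : Y → (Fin a → ℝ) → ℝ := fun y x => qf (P y) (c y) i m (r y - S (c y) 0 a x) with hf
  have hq : ∀ y, Dn (qf (P y) (c y) i m) Λ := fun y => (hP y).qf (h0 y) i m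
  have cS : ∀ j l, Continuous fun q : Y × (Fin l → ℝ) => S (c q.1) j l q.2 := fun j l =>
    continuous_finsetSum _ fun k _ => ((hc _).comp continuous_fst).mul (by fun_prop)
  have cf : Continuous fun q : Y × (Fin a → ℝ) => f q.1 q.2 := by
    refine continuous_of_dominated (bound := fun _ => Λ)
      (fun q => ((hP q.1).int _ _ _ _).aestronglyMeasurable)
      (fun q => ae_of_all _ fun z => (hP q.1).abs_le _) (integrable_const _)
      (ae_of_all _ fun z => ?_)
    exact hPc.comp (continuous_fst.prodMk (((hr.comp continuous_fst).sub (cS 0 a)).sub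
      ((cS i m).comp (continuous_fst.prodMk continuous_const))))
  have cfy : ∀ y, Continuous (f y) := fun y => cf.comp (Continuous.prodMk_right y)
  have fn : ∀ y x, 0 ≤ f y x := fun y x => (hq y).nn _
  have fa : ∀ y x, |f y x| ≤ Λ := fun y x => (hq y).abs_le _
  have hZ : ∀ y, 0 < ∫ x, f y x ∂gv (Fin a) := fun y => by
    refine integral_pos_of_integrable_nonneg_nonzero (x := 0) (cfy y)
      (int_bdd (cfy y).measurable (fa y)) (fn y) (ne_of_gt ?_)
    refine integral_pos_of_integrable_nonneg_nonzero (x := 0)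
      ((hP y).cont.comp (continuous_const.sub (continuous_S _ _ _))) ((hP y).int _ _ _ _)
      (fun z => (hP y).nn _) (ne_of_gt (hPp y _ ?_))
    simpa [S] using hr0 y
  have cZ : Continuous fun y => ∫ x, f y x ∂gv (Fin a) :=
    continuous_of_dominated (bound := fun _ => Λ) (fun y => (cfy y).aestronglyMeasurable)
      (fun y => ae_of_all _ (fa y)) (integrable_const _)
      (ae_of_all _ fun x => cf.comp (Continuous.prodMk_left x))
  refine ⟨fun y => cp_mu0 (cfy y) (fn y) (hZ y) (r := r y) fun x hx => ?_, ?_⟩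
  · rw [sc_dot (c := fun k : Fin a => c y k) fun k => h0 y k]
    by_contra hlt
    refine hx ((hq y).zero _ ?_)
    simp only [S, zero_add]
    linarith
  · have e : ∀ q : Y × Y, Xk θ (mu0 (fun k : Fin a => c q.1 k) (f q.1))
        (mu0 (fun k : Fin a => c q.2 k) (f q.2)) =
        (∫ z : (Fin a → ℝ) × (Fin a → ℝ), f q.1 z.1 * f q.2 z.2 *
          exp (θ * (sc (fun k : Fin a => c q.1 k) z.1 ⬝ᵥ sc (fun k : Fin a => c q.2 k) z.2))
          ∂(gv (Fin a)).prod (gv (Fin a))) /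
          ((∫ x, f q.1 x ∂gv (Fin a)) * ∫ x, f q.2 x ∂gv (Fin a)) := fun q => by
      rw [Xk_mu0 hθ (fun k => h0 _ _) (fun k => h0 _ _) (fun k => h1 _ _) (fun k => h1 _ _)
        (cfy q.1) (cfy q.2) (fn q.1) (fn q.2) (hZ q.2) (fun x => (hq q.1).le _)
        (fun x => (hq q.2).le _), ← integral_div]
      refine integral_congr_ae (ae_of_all _ fun z => ?_)
      simp only
      rw [div_mul_div_comm, div_mul_eq_mul_div]
    refine (Continuous.div ?_ ((cZ.comp continuous_fst).mul (cZ.comp continuous_snd))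
      fun q => (mul_pos (hZ q.1) (hZ q.2)).ne').congr fun q => (e q).symm
    have ik := fun q : Y × Y => int_ker (c := fun k : Fin a => c q.1 k)
      (c' := fun k : Fin a => c q.2 k) hθ (fun k => h0 _ _) (fun k => h0 _ _) (fun k => h1 _ _)
      (fun k => h1 _ _) (cfy q.1) (cfy q.2) (fa q.1) (fa q.2)
    refine continuous_of_dominated (bound := fun z => Λ * Λ * (G z.1 * G z.2))
      (fun q => (ik q).2.aestronglyMeasurable) (fun q => ae_of_all _ (ik q).1)
      ((integrable_G.mul_prod integrable_G).const_mul _) (ae_of_all _ fun z => ?_)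
    refine ((cf.comp (continuous_fst.prodMk continuous_const)).mul
      (cf.comp (continuous_snd.prodMk continuous_const))).mul (continuous_exp.comp
        (continuous_const.mul (continuous_finsetSum _ fun k _ => ?_)))
    exact ((((hc k).comp continuous_fst).sqrt).mul continuous_const).mul
      ((((hc k).comp continuous_snd).sqrt).mul continuous_const)

/-! ### tails -/

/-- the summable majorant -/
def uk (k : ℕ) : ℝ := (((k : ℝ) + 1) ^ (2 / 3 : ℝ))⁻¹

lemma uk_pos (k : ℕ) : 0 < uk k := by unfold uk; positivity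

lemma tail {e : ℝ} (he : 0 < e) : ∀ᶠ K in atTop, ∀ n, ∑ k ∈ Ico K n, uk k ^ 2 ≤ e := by
  have hs : Summable fun k : ℕ => uk k ^ 2 := by
    have h := (summable_nat_add_iff 1).2
      (Real.summable_nat_rpow_inv.2 (show (1 : ℝ) < 4 / 3 by norm_num))
    refine h.congr fun k => ?_
    unfold uk
    rw [inv_pow, ← rpow_natCast, ← rpow_mul (by positivity)]
    push_cast
    norm_num
  obtain ⟨s, hs⟩ := hs.vanishing (gt_mem_nhds he)
  obtain ⟨N, hN⟩ := s.exists_nat_subset_range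
  filter_upwards [eventually_ge_atTop N] with K hK n
  refine (hs _ (disjoint_left.2 fun k hk hk' => ?_)).le
  have := mem_range.1 (hN hk')
  have := (mem_Ico.1 hk).1
  omega

lemma gd_bd {n : ℕ} {η : ℕ → ℝ} {t L w C : ℝ} (h : Gd n η t L w C) (hw : L < w) {k : ℕ}
    (hk : k < n) : -L ≤ η k ∧ 0 < w + η k ∧ 1 / (w + η k) ≤ 256 * uk k := by
  have h1 := h.lo k hk
  have h2 : 0 < ((k : ℝ) + 1) ^ (2 / 3 : ℝ) := by positivity
  refine ⟨by linarith, by linarith, ?_⟩
  have h3 : ((k : ℝ) + 1) ^ (2 / 3 : ℝ) / 256 ≤ w + η k := by linarith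
  refine (one_div_le_one_div_of_le (by positivity) h3).trans (le_of_eq ?_)
  unfold uk; field_simp

lemma gd_hi {n : ℕ} {η : ℕ → ℝ} {t L w C : ℝ} (h : Gd n η t L w C) {k K : ℕ}
    (hk : k < K) (hK : 8 * K ≤ n) : η k ≤ 60 * K + L := by
  have h1 := h.hi k (by omega)
  have h2 : ((k : ℝ) + 1) ^ (2 / 3 : ℝ) ≤ ((k : ℝ) + 1) ^ (1 : ℝ) :=
    rpow_le_rpow_of_exponent_le (by linarith [Nat.cast_nonneg (α := ℝ) k]) (by norm_num)
  rw [rpow_one] at h2
  have h3 : (k : ℝ) + 1 ≤ K := by exact_mod_cast hk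
  linarith

lemma sum_compl (n K : ℕ) (g : ℕ → ℝ) :
    ∑ k ∈ (univ.filter fun k : Fin n => (k : ℕ) < K)ᶜ, g k = ∑ k ∈ Ico K n, g k := by
  rw [compl_filter, sum_filter,
    Fin.sum_univ_eq_sum_range (fun k => if ¬ k < K then g k else 0) n, ← sum_filter]
  congr 1
  ext k
  simp only [mem_filter, mem_range, mem_Ico, not_lt]
  exact and_comm

lemma keep_eq (a b : ℕ) (x : Fin (a + b) → ℝ) :
    keep (univ.filter fun k : Fin (a + b) => (k : ℕ) < a) x = Apx22.padM a (a + b) *ᵥ lft a b x := by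
  rw [Apx22.padM_mulVec]
  funext k
  simp only [keep, pad, mem_filter, mem_univ, true_and, lft]
  split_ifs with h
  · rfl
  · rfl

lemma D2_isom (hI : IsomStmt) {K n : ℕ} (h : K ≤ n) {μ ν : Measure (Fin K → ℝ)} (hμ : Cp μ)
    (hν : Cp ν) (θ : ℝ) :
    D2 θ (μ.map fun x => Apx22.padM K n *ᵥ x) (ν.map fun x => Apx22.padM K n *ᵥ x) = D2 θ μ ν := by
  unfold D2
  rw [(hI _ _ _ (Apx22.padM_isom h) μ μ hμ hμ).2.1, (hI _ _ _ (Apx22.padM_isom h) μ ν hμ hν).2.1,
    (hI _ _ _ (Apx22.padM_isom h) ν ν hν hν).2.1]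

end Fin85

open Fin85

theorem finGlue : FinGlue := by
  intro hM hI hPr hS hSh hF hD hMg hCo hLn L C θ hL hθ
  obtain ⟨w1, -, hD⟩ := hD L C 0 0 hL
  obtain ⟨w2, hMg⟩ := hMg L C hL
  obtain ⟨w3, -, hCo⟩ := hCo L C 0 0 hL
  refine ⟨max (max w1 w2) (max w3 (L + 2 * θ + 4)), fun w hw ε hε => ?_⟩
  obtain ⟨d, hd, hD⟩ := hD w ((le_max_left _ _).trans ((le_max_left _ _).trans hw))
  obtain ⟨B, hMg⟩ := hMg w ((le_max_right _ _).trans ((le_max_left _ _).trans hw))
  obtain ⟨B', d', hB', -, hCo⟩ := hCo w ((le_max_left _ _).trans ((le_max_right _ _).trans hw))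
  have hw4 : L + 2 * θ + 4 ≤ w := (le_max_right _ _).trans ((le_max_right _ _).trans hw)
  have hLw : L < w := by linarith
  obtain ⟨p, pc, p0, pp, pl, pd⟩ := hF
  have pn : ∀ c : Fin 4 → ℝ, (∀ k, 0 < c k) → ∀ s, 0 ≤ p c s := fun c hc s => by
    rcases le_or_gt s 0 with h | h
    · exact (p0 c s h).ge
    · exact (pp c s hc h).le
  have pD : ∀ a b : ℝ, 0 < a → ∃ Λ : ℝ, 0 ≤ Λ ∧ ∀ c : Fin 4 → ℝ, (∀ k, a ≤ c k ∧ c k ≤ b) →
      Dn (p c) Λ := fun a b ha => by
    obtain ⟨Λ, h0, h⟩ := pl a b ha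
    exact ⟨Λ, h0, fun c hc => ⟨pn c fun k => ha.trans_le (hc k).1, fun s => (h c hc s s).1,
      fun s s' => (h c hc s s').2, p0 c⟩⟩
  -- the first cut
  set X := √(B * exp (B * |2 * θ| ^ (3 / 2 : ℝ))) with hX
  have hX0 : 0 ≤ X := sqrt_nonneg _
  set A := 2 * θ * (256 * B') * X + 1 with hA
  have hA0 : 0 < A := by positivity
  obtain ⟨K₁, hK₁⟩ := (tail (e := (ε / 4 / A) ^ 2) (by positivity)).exists
  have hU1 : (0 : ℝ) ≤ 60 * ((K₁ + 4 : ℕ) : ℝ) := by positivity
  obtain ⟨Λ, hΛ, hΛD⟩ := pD (1 / (w + (60 * ((K₁ + 4 : ℕ) : ℝ) + L))) (1 / (w - L))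
    (one_div_pos.2 (by linarith))
  set M := (1 / d + 2 * Λ / d ^ 2) * ∫ a, G a ∂gv (Fin K₁) with hM'
  have hG0 : 0 ≤ ∫ a, G a ∂gv (Fin K₁) := integral_nonneg fun a => (G_pos a).le
  have hM0 : 0 ≤ M := by positivity
  set e := min (d / 2) (√ε / 2 / (M + 1)) with he
  have hsq : 0 < √ε := sqrt_pos.2 hε
  have he0 : 0 < e := lt_min (by positivity) (by positivity)
  set l := e / (2 * (Λ + 1)) with hl
  have hl0 : 0 < l := by positivity
  refine ⟨K₁, l, hl0, ?_⟩
  filter_upwards [eventually_ge_atTop (K₁ + 4),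
    tail (e := l ^ 2 / ((V0 + 1) * 256 ^ 2)) (by have := V0_nonneg; positivity)] with K hK hKt c hc
  obtain ⟨m, rfl⟩ := Nat.exists_eq_add_of_le hK
  set U : ℝ := 60 * ((K₁ + 4 + m : ℕ) : ℝ) + L with hU
  have hU0 : (0 : ℝ) ≤ 60 * ((K₁ + 4 + m : ℕ) : ℝ) := by positivity
  have hUL : -L ≤ U := by linarith
  have hwU : 0 < 1 / (w + U) := one_div_pos.2 (by linarith)
  obtain ⟨Λ', -, hΛ'⟩ := pD (1 / (w + U)) (1 / (w - L)) hwU
  have cpos : ∀ (y : Fin (K₁ + 4 + m) → ℝ) k, 0 < cy w L U y k := fun y k =>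
    hwU.trans_le (cy_bd hLw hUL y k).1
  have hθw : θ * (1 / (w - L)) ≤ 1 / 2 := by
    rw [mul_one_div, div_le_iff₀ (by linarith)]; linarith
  have cθ : ∀ (y : Fin (K₁ + 4 + m) → ℝ) k, θ * cy w L U y k ≤ 1 / 2 := fun y k =>
    (mul_le_mul_of_nonneg_left (cy_bd hLw hUL y k).2 hθ).trans hθw
  obtain ⟨f1, f2⟩ := family (Y := Fin (K₁ + 4 + m) → ℝ)
    (P := fun y => p fun k : Fin 4 => cy w L U y (K₁ + k)) (Λ := Λ') hθ
    (fun y => hΛ' _ fun k => cy_bd hLw hUL y _)
    (pc.comp_continuous ((continuous_pi fun k =>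
      (continuous_cy hLw _ _).comp continuous_fst).prodMk continuous_snd) fun q k => cpos _ _)
    (fun y s hs => pp _ s (fun k => cpos _ _) hs) (c := fun y => cy w L U y)
    (continuous_cy hLw _) (fun y k => (cpos y k).le) cθ (r := fun y => max (c y) 1)
    (hc.max continuous_const) (fun y => lt_max_of_lt_right one_pos) K₁ (K₁ + 4) m
  refine ⟨_, f1, f2, ?_⟩
  filter_upwards [hD, hMg, hCo, eventually_ge_atTop (8 * (K₁ + 4 + m))] with n hD hMg hCo hn
    η t ht hG hct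
  obtain ⟨m2, rfl⟩ : ∃ m2, n = K₁ + (4 + (m + m2)) := ⟨n - (K₁ + 4 + m), by omega⟩
  obtain ⟨-, l2, -⟩ := hLn (K₁ + (4 + (m + m2))) (by omega)
  obtain ⟨cpν, flip⟩ := l2 η t ht
  set cn : ℕ → ℝ := fun k => if k < K₁ + (4 + (m + m2)) then 1 / (w + η k) else 1 with hcn
  have cn_eq : ∀ k, k < K₁ + (4 + (m + m2)) → cn k = 1 / (w + η k) := fun k hk => if_pos hk
  have cn_pos : ∀ k, 0 < cn k := fun k => by
    simp only [hcn]
    split_ifs with hk
    · exact one_div_pos.2 (gd_bd hG hLw hk).2.1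
    · exact one_pos
  have cw_eq : cw (K₁ + (4 + (m + m2))) η w = fun k : Fin (K₁ + (4 + (m + m2))) => cn k :=
    funext fun k => (cn_eq k k.2).symm
  set y : Fin (K₁ + 4 + m) → ℝ := fun k => η k with hy
  have cy_eq : ∀ k, k < K₁ + 4 + m → cy w L U y k = cn k := fun k hk => by
    have hk' : k < K₁ + (4 + (m + m2)) := by omega
    rw [cn_eq k hk', cy, dif_pos hk]
    have h1 := (gd_bd hG hLw hk').1
    have h2 : η k ≤ U := gd_hi hG hk hn
    simp only [hy]
    rw [min_eq_left h2, max_eq_right h1]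
  -- the four modes
  set P := p fun k : Fin 4 => cn (K₁ + k) with hP
  have DP : Dn P Λ := hΛD _ fun k => by
    have hk : K₁ + k < K₁ + (4 + (m + m2)) := by have := k.2; omega
    have g := gd_bd hG hLw hk
    have g2 : η (K₁ + k) ≤ 60 * ((K₁ + 4 : ℕ) : ℝ) + L :=
      gd_hi hG (by have := k.2; omega) (by omega)
    rw [cn_eq _ hk]
    exact ⟨one_div_le_one_div_of_le g.2.1 (by linarith),
      one_div_le_one_div_of_le (by linarith) (by linarith [g.1])⟩
  have IP : Iv P Λ cn K₁ 4 := iv_four DP (fun k => (cn_pos k).le) K₁ (pd _ fun k => cn_pos _)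
  have Dq := DP.qf (fun k => (cn_pos k).le) (K₁ + 4) (m + m2)
  have Iq := IP.add DP (m + m2)
  have Dq' := DP.qf (fun k => (cn_pos k).le) (K₁ + 4) m
  have hZ := den_le Dq (fun k => (cn_pos k).le) Iq (t := t) (d := d) fun ε h1 h2 => by
    rw [← cw_eq]; exact (hD η t hG ε h1 h2).1
  have proj := proj_eq hS hSh Dq cn_pos (by omega) Iq ht cn_eq cpν.prob (hd.trans_le hZ)
  -- the approximating law in the same words
  have rho_eq : (mu0 (fun k : Fin K₁ => cy w L U y k) fun x =>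
      qf (p fun k : Fin 4 => cy w L U y (K₁ + k)) (cy w L U y) (K₁ + 4) m
        (max (c y) 1 - S (cy w L U y) 0 K₁ x)) =
      mu0 (fun k : Fin K₁ => cn k) fun x => qf P cn (K₁ + 4) m (max (c y) 1 - S cn 0 K₁ x) := by
    have e1 : (fun k : Fin K₁ => cy w L U y k) = fun k : Fin K₁ => cn k :=
      funext fun k => cy_eq _ (by have := k.2; omega)
    have e2 : (fun k : Fin 4 => cy w L U y (K₁ + k)) = fun k : Fin 4 => cn (K₁ + k) :=
      funext fun k => cy_eq _ (by have := k.2; omega)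
    rw [e1, e2, qf_congr _ (c' := cn) fun k hk => cy_eq _ (by omega),
      S_congr (c' := cn) fun k hk => cy_eq _ (by omega)]
  have cpρ := f1 y
  rw [rho_eq] at cpρ
  change D2 θ _ ((mu0 (fun k : Fin K₁ => cy w L U y k) fun x =>
      qf (p fun k : Fin 4 => cy w L U y (K₁ + k)) (cy w L U y) (K₁ + 4) m
        (max (c y) 1 - S (cy w L U y) 0 K₁ x)).map _) ≤ ε
  rw [rho_eq]
  -- the tail sums
  have s1 : ∀ g : ℝ → ℝ, ∑ k : Fin m2, g (cn (K₁ + 4 + m + k)) =
      ∑ k ∈ Ico (K₁ + 4 + m) (K₁ + (4 + (m + m2))), g (1 / (w + η k)) := fun g => by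
    rw [sum_Ico_eq_sum_range, show K₁ + (4 + (m + m2)) - (K₁ + 4 + m) = m2 by omega,
      ← Fin.sum_univ_eq_sum_range (fun k => g (1 / (w + η (K₁ + 4 + m + k)))) m2]
    exact sum_congr rfl fun k _ => by rw [cn_eq _ (by have := k.2; omega)]
  have s2 : ∑ k : Fin m2, cn (K₁ + 4 + m + k) ^ 2 ≤ l ^ 2 / (V0 + 1) := by
    rw [s1 fun x => x ^ 2]
    calc _ ≤ ∑ k ∈ Ico (K₁ + 4 + m) (K₁ + (4 + (m + m2))), 256 ^ 2 * uk k ^ 2 :=
          sum_le_sum fun k hk => by
            have g := gd_bd hG hLw (mem_Ico.1 hk).2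
            rw [← mul_pow]
            exact pow_le_pow_left₀ (one_div_pos.2 g.2.1).le g.2.2 2
      _ ≤ 256 ^ 2 * (l ^ 2 / ((V0 + 1) * 256 ^ 2)) := by
          rw [← mul_sum]; exact mul_le_mul_of_nonneg_left (hKt _) (by positivity)
      _ = _ := by have := V0_nonneg; field_simp
  have s3 : 1 ≤ t - ∑ k ∈ Ico (K₁ + 4 + m) (K₁ + (4 + (m + m2))), 1 / (w + η k) := by
    have h1 := hG.up
    have h2 : ∑ k ∈ Ico (K₁ + 4 + m) (K₁ + (4 + (m + m2))), 1 / (w + η k) ≤
        ∑ k ∈ range (K₁ + (4 + (m + m2))), 1 / (w + η k) :=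
      sum_le_sum_of_subset_of_nonneg (fun k hk => mem_range.2 (mem_Ico.1 hk).2)
        fun k hk _ => (one_div_pos.2 (gd_bd hG hLw (mem_range.1 hk)).2.1).le
    have h3 : 2 ≤ √w := le_sqrt_of_sq_le (by linarith)
    unfold Sr at h1
    linarith
  have s4 : |t - ∑ k ∈ Ico (K₁ + 4 + m) (K₁ + (4 + (m + m2))), 1 / (w + η k) - max (c y) 1| ≤ l := by
    refine le_trans ?_ hct
    rcases le_total (c y) 1 with h | h
    · rw [max_eq_right h, abs_of_nonneg (by linarith), abs_of_nonneg (by linarith)]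
      linarith
    · rw [max_eq_left h]
  have close : ∀ x, |qf P cn (K₁ + 4) (m + m2) (t - S cn 0 K₁ x) -
      qf P cn (K₁ + 4) m (max (c y) 1 - S cn 0 K₁ x)| ≤ e := fun x => by
    refine (DP.qf_split cn (K₁ + 4) m m2 _ _ hl0).trans ?_
    have a1 : |t - S cn 0 K₁ x - ∑ k : Fin m2, cn (K₁ + 4 + m + k) -
        (max (c y) 1 - S cn 0 K₁ x)| ≤ l := by
      rw [s1 fun x => x]
      refine le_trans (le_of_eq ?_) s4
      congr 1; ring
    have a2 : V0 * (∑ k : Fin m2, cn (K₁ + 4 + m + k) ^ 2) / l ≤ l := by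
      have hV := V0_nonneg
      rw [div_le_iff₀ hl0]
      calc _ ≤ (V0 + 1) * (l ^ 2 / (V0 + 1)) :=
            mul_le_mul (by linarith) s2 (sum_nonneg fun _ _ => sq_nonneg _) (by linarith)
        _ = _ := by field_simp
    calc _ ≤ (Λ + 1) * (2 * l) :=
          mul_le_mul (by linarith) (by linarith) (by have := V0_nonneg; positivity) (by linarith)
      _ = e := by rw [hl]; field_simp
  have cθn : ∀ k : Fin K₁, θ * cn k ≤ 1 / 2 := fun k => by
    rw [← cy_eq _ (by have := k.2; omega)]; exact cθ y k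
  have cq : ∀ {q : ℝ → ℝ}, Dn q Λ → ∀ r, Continuous fun x => q (r - S cn 0 K₁ x) :=
    fun h r => h.cont.comp (continuous_const.sub (continuous_S cn 0 K₁))
  have part2 := D2_mu0 (c := fun k : Fin K₁ => cn k) hθ (fun k => (cn_pos k).le) cθn
    (cq Dq t) (cq Dq' (max (c y) 1)) (fun _ => Dq.nn _) (fun _ => Dq'.nn _) (fun _ => Dq.le _)
    (fun _ => Dq'.le _) hd hZ close (min_le_left _ _)
  have cpA : Cp (mu0 (fun k : Fin K₁ => cn k) fun x =>
      qf P cn (K₁ + 4) (m + m2) (t - S cn 0 K₁ x)) := by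
    refine cp_mu0 (cq Dq t) (fun _ => Dq.nn _) (hd.trans_le hZ) (r := t) fun x hx => ?_
    rw [sc_dot (c := fun k : Fin K₁ => cn k) fun k => (cn_pos k).le]
    by_contra hlt
    refine hx (Dq.zero _ ?_)
    simp only [S, zero_add]
    linarith
  have hK₁n : K₁ ≤ K₁ + (4 + (m + m2)) := by omega
  have padc : Continuous fun x : Fin K₁ → ℝ => Apx22.padM K₁ (K₁ + (4 + (m + m2))) *ᵥ x :=
    continuous_const.matrix_mulVec continuous_id
  have pad_eq : pad K₁ (K₁ + (4 + (m + m2))) = fun x => Apx22.padM K₁ (K₁ + (4 + (m + m2))) *ᵥ x :=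
    funext fun x => (Apx22.padM_mulVec _ _ x).symm
  have keep_map : (nuD (K₁ + (4 + (m + m2))) η t).map
      (keep (univ.filter fun k : Fin (K₁ + (4 + (m + m2))) => (k : ℕ) < K₁)) =
      (mu0 (fun k : Fin K₁ => cn k) fun x => qf P cn (K₁ + 4) (m + m2) (t - S cn 0 K₁ x)).map
        fun x => Apx22.padM K₁ (K₁ + (4 + (m + m2))) *ᵥ x := by
    rw [← proj, Measure.map_map padc.measurable (continuous_lft _ _).measurable]
    congr 1
    funext x
    exact keep_eq _ _ x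
  have part1 := hPr _ _ cpν flip (univ.filter fun k : Fin (K₁ + (4 + (m + m2))) => (k : ℕ) < K₁) θ hθ
  rw [keep_map] at part1
  have q1 : √(∑ k ∈ (univ.filter fun k : Fin (K₁ + (4 + (m + m2))) => (k : ℕ) < K₁)ᶜ,
      (∫ x, x k ^ 2 ∂nuD (K₁ + (4 + (m + m2))) η t) ^ 2) ≤ 256 * B' * (ε / 4 / A) := by
    refine sqrt_le_iff.2 ⟨by positivity, ?_⟩
    calc _ ≤ ∑ k ∈ (univ.filter fun k : Fin (K₁ + (4 + (m + m2))) => (k : ℕ) < K₁)ᶜ,
          (256 * B') ^ 2 * uk k ^ 2 := sum_le_sum fun k _ => by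
            have g := gd_bd hG hLw k.2
            rw [← mul_pow]
            refine pow_le_pow_left₀ (integral_nonneg fun _ => sq_nonneg _)
              ((hCo η t ht hG k).1.trans ?_) 2
            rw [div_eq_mul_one_div]
            nlinarith [mul_le_mul_of_nonneg_left g.2.2 hB']
      _ ≤ (256 * B') ^ 2 * (ε / 4 / A) ^ 2 := by
          rw [sum_compl _ _ fun k => (256 * B') ^ 2 * uk k ^ 2, ← mul_sum]
          exact mul_le_mul_of_nonneg_left (hK₁ _) (by positivity)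
      _ = _ := by ring
  have q2 : √(Xk (2 * θ) (nuD (K₁ + (4 + (m + m2))) η t) (nuD (K₁ + (4 + (m + m2))) η t)) ≤ X :=
    sqrt_le_sqrt (hMg η t ht hG _)
  have part1' := part1.trans (mul_le_mul (mul_le_mul_of_nonneg_left q1 (by positivity)) q2
    (sqrt_nonneg _) (by positivity))
  have r1 : 2 * θ * (256 * B' * (ε / 4 / A)) * X ≤ (√ε / 2) ^ 2 := by
    rw [div_pow, sq_sqrt hε.le]
    calc _ = (A - 1) * (ε / 4 / A) := by rw [hA]; ring
      _ ≤ A * (ε / 4 / A) := mul_le_mul_of_nonneg_right (by linarith) (by positivity)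
      _ = _ := by field_simp; norm_num
  have r2 : (e * (1 / d + 2 * Λ / d ^ 2) * ∫ a, G a ∂gv (Fin K₁)) ^ 2 ≤ (√ε / 2) ^ 2 := by
    rw [mul_assoc, ← hM']
    refine pow_le_pow_left₀ (by positivity) ?_ 2
    calc e * M ≤ √ε / 2 / (M + 1) * (M + 1) :=
          mul_le_mul (min_le_right _ _) (by linarith) hM0 (by positivity)
      _ = _ := by field_simp
  rw [pad_eq]
  have cA' := (hI _ _ _ (Apx22.padM_isom hK₁n) _ _ cpA cpA).1
  have cρ' := (hI _ _ _ (Apx22.padM_isom hK₁n) _ _ cpρ cpρ).1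
  have tri := (hM _ _ _ _ cpν cA' cρ' θ θ hθ le_rfl).2.2.2.2.2.1
  rw [D2_isom hI hK₁n cpA cpρ] at tri
  have t1 := sqrt_le_iff.2 ⟨(by positivity : 0 ≤ √ε / 2), part1'.trans r1⟩
  have t2 := sqrt_le_iff.2 ⟨(by positivity : 0 ≤ √ε / 2), part2.trans r2⟩
  exact (sqrt_le_sqrt_iff hε.le).1 (by linarith)

end Crest.Agent.T157.St

end
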