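import Crest.Agent.T157.EdDef_88

/-!
# Row 157, part E: edge limit — basic lemmas (helper88)
-/

set_option autoImplicit false
set_option linter.unusedSectionVars false

noncomputable section

namespace Crest.Agent.T157.Ed

open MeasureTheory ProbabilityTheory Matrix Filter Topology Finset Module
open Crest.ProbabilityR.SpinGlassDynamics Crest.Agent.T157.E Crest.Agent.T157.Eig
open Crest.Agent.T157.Cond

/-! ### scales -/

lemma sx_nonneg (n : ℕ) : 0 ≤ sx n := Real.rpow_nonneg (Nat.cast_nonneg n) _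

lemma sx_pow (n k : ℕ) : sx n ^ k = (n : ℝ) ^ ((k : ℝ) / 6) := by
  rw [sx, ← Real.rpow_natCast, ← Real.rpow_mul (Nat.cast_nonneg n)]
  congr 1; ring

lemma sx_pow_six (n : ℕ) : sx n ^ 6 = n := by
  rw [sx_pow]; norm_num

lemma tau_eq (n : ℕ) : tau n = sx n ^ 4 := by
  rw [sx_pow, tau]; norm_num

lemma sqrt_eq (n : ℕ) : Real.sqrt n = sx n ^ 3 := by
  rw [sx_pow, Real.sqrt_eq_rpow]; norm_num

lemma one_le_sx {n : ℕ} (hn : 1 ≤ n) : 1 ≤ sx n :=
  Real.one_le_rpow (by exact_mod_cast hn) (by norm_num)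

lemma sx_pos {n : ℕ} (hn : 1 ≤ n) : 0 < sx n := lt_of_lt_of_le one_pos (one_le_sx hn)

lemma tau_nonneg (n : ℕ) : 0 ≤ tau n := Real.rpow_nonneg (Nat.cast_nonneg n) _

lemma one_le_tau {n : ℕ} (hn : 1 ≤ n) : 1 ≤ tau n := by
  rw [tau_eq]; exact one_le_pow₀ (one_le_sx hn)

lemma tau_pos {n : ℕ} (hn : 1 ≤ n) : 0 < tau n := lt_of_lt_of_le one_pos (one_le_tau hn)

lemma tau_rpow (n : ℕ) : tau n ^ (3 / 2 : ℝ) = n := by
  rw [tau, ← Real.rpow_mul (Nat.cast_nonneg n)]; norm_num

lemma tendsto_sx : Tendsto sx atTop atTop :=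
  (tendsto_rpow_atTop (by norm_num : (0 : ℝ) < 1 / 6)).comp tendsto_natCast_atTop_atTop

lemma tendsto_tau : Tendsto tau atTop atTop :=
  (tendsto_rpow_atTop (by norm_num : (0 : ℝ) < 2 / 3)).comp tendsto_natCast_atTop_atTop

lemma one_le_of_pow_six {n : ℕ} {s : ℝ} (hs : 0 < s) (h : s ^ 6 = n) : 1 ≤ s := by
  have h1 : (0 : ℝ) < n := h ▸ pow_pos hs 6
  have h2 : (1 : ℝ) ≤ n := by exact_mod_cast Nat.cast_pos.1 h1
  by_contra hc
  have := pow_lt_one₀ hs.le (not_le.1 hc) (by norm_num : 6 ≠ 0)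
  linarith

lemma sqrt_eq_of_pow_six {n : ℕ} {s : ℝ} (hs : 0 < s) (h : s ^ 6 = n) :
    Real.sqrt n = s ^ 3 := by
  rw [← h, show s ^ 6 = (s ^ 3) ^ 2 by ring, Real.sqrt_sq (pow_pos hs 3).le]

/-! ### continuity and measurability of the eigenvalues -/

section lam
variable {ι κ : Type*} [Fintype ι] [DecidableEq ι] [Fintype κ] [DecidableEq κ]

lemma abs_quad_le (M : Matrix ι ι ℝ) (v : ι → ℝ) :
    |v ⬝ᵥ M *ᵥ v| ≤ (∑ i, ∑ j, |M i j|) * (v ⬝ᵥ v) := by
  have h1 : ∀ i, v i ^ 2 ≤ v ⬝ᵥ v := fun i => by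
    rw [sq]
    exact single_le_sum (f := fun i => v i * v i) (fun i _ => mul_self_nonneg _) (mem_univ i)
  have h2 : v ⬝ᵥ M *ᵥ v = ∑ i, ∑ j, M i j * (v i * v j) := by
    simp only [dotProduct, mulVec, mul_sum]
    exact sum_congr rfl fun i _ => sum_congr rfl fun j _ => by ring
  rw [h2, sum_mul]
  refine (abs_sum_le_sum_abs _ _).trans (sum_le_sum fun i _ => ?_)
  rw [sum_mul]
  refine (abs_sum_le_sum_abs _ _).trans (sum_le_sum fun j _ => ?_)
  rw [abs_mul]
  refine mul_le_mul_of_nonneg_left ?_ (abs_nonneg _)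
  have := h1 i
  have := h1 j
  rw [abs_le]
  constructor <;> nlinarith [sq_nonneg (v i + v j), sq_nonneg (v i - v j)]

lemma lam_le_add_sum {A B : Matrix ι ι ℝ} (hA : A.IsHermitian) (hB : B.IsHermitian) (k : ℕ) :
    lam A k ≤ lam B k + ∑ i, ∑ j, |A i j - B i j| := by
  by_cases hk : k < Fintype.card ι
  · refine lam_le_add hA hB hk fun v => ?_
    have h := (le_abs_self _).trans (abs_quad_le (A - B) v)
    rw [sub_mulVec, dotProduct_sub] at h
    simp only [Matrix.sub_apply] at h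
    linarith
  · rw [lam_of_le (not_lt.1 hk), lam_of_le (not_lt.1 hk), zero_add]
    positivity

theorem abs_lam_sub_le {A B : Matrix ι ι ℝ} (hA : A.IsHermitian) (hB : B.IsHermitian) (k : ℕ) :
    |lam A k - lam B k| ≤ ∑ i, ∑ j, |A i j - B i j| := by
  have h1 := lam_le_add_sum hA hB k
  have h2 := lam_le_add_sum hB hA k
  simp only [abs_sub_comm (B _ _)] at h2
  rw [abs_le]; constructor <;> linarith

theorem continuous_lam {X : Type*} [TopologicalSpace X] {f : X → Matrix ι ι ℝ}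
    (hf : Continuous f) (hh : ∀ x, (f x).IsHermitian) (k : ℕ) :
    Continuous fun x => lam (f x) k := by
  refine continuous_iff_continuousAt.2 fun x => ?_
  refine tendsto_iff_norm_sub_tendsto_zero.2 ?_
  have h1 : Continuous fun y => ∑ i, ∑ j, |f y i j - f x i j| := by
    refine continuous_finsetSum _ fun i _ => continuous_finsetSum _ fun j _ => ?_
    exact ((hf.matrix_elem i j).sub continuous_const).abs
  have h2 := h1.tendsto x
  simp only [sub_self, abs_zero, sum_const_zero] at h2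
  exact squeeze_zero (fun _ => norm_nonneg _) (fun y => abs_lam_sub_le (hh y) (hh x) k) h2

theorem measurable_lam_apply (k : ℕ) : Measurable fun W : Matrix ι ι ℝ => lam W k := by
  classical
  have hc : Continuous fun W : Matrix ι ι ℝ => lam ((1 / 2 : ℝ) • (W + Wᵀ)) k := by
    refine continuous_lam (by fun_prop) (fun W => ?_) k
    rw [herm_iff, transpose_smul, transpose_add, transpose_transpose, add_comm]
  have he : (fun W : Matrix ι ι ℝ => lam W k) = fun W =>
      if W ∈ {W : Matrix ι ι ℝ | Wᵀ = W} then lam ((1 / 2 : ℝ) • (W + Wᵀ)) k else 0 := by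
    funext W
    split_ifs with h
    · have h' : Wᵀ = W := h
      rw [h', ← two_smul ℝ W, smul_smul]; norm_num
    · rw [lam, dif_neg]
      exact fun h' => h (herm_iff.1 h'.1)
  rw [he]
  exact Measurable.ite measurableSet_symm hc.measurable measurable_const

theorem measurable_lam : Measurable fun W : Matrix ι ι ℝ => (lam W : ℕ → ℝ) :=
  measurable_pi_lambda _ measurable_lam_apply

/-- transfer of a lower bound for an eigenvalue through a linear map -/
theorem transfer {A : Matrix ι ι ℝ} {B : Matrix κ κ ℝ} (hA : A.IsHermitian) (hB : B.IsHermitian)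
    (T : (ι → ℝ) →ₗ[ℝ] (κ → ℝ)) {k : ℕ} (hk : k < Fintype.card ι) {y : ℝ}
    (h : ∀ v, lam A k * (v ⬝ᵥ v) ≤ v ⬝ᵥ A *ᵥ v →
      (T v = 0 → v = 0) ∧ y * (T v ⬝ᵥ T v) ≤ T v ⬝ᵥ B *ᵥ T v) : y ≤ lam B k := by
  refine le_lam hB (V := (high A k).map T) ?_ ?_
  · have h1 : finrank ℝ ((high A k).map T) = finrank ℝ (high A k) := by
      rw [← LinearMap.range_domRestrict]
      refine LinearMap.finrank_range_of_inj ?_
      rw [← LinearMap.ker_eq_bot, LinearMap.ker_eq_bot']
      intro v hv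
      exact Subtype.ext ((h v (le_quad_of_high hA hk v.2)).1 hv)
    have h2 := cod_high A k
    unfold Cod at h2
    omega
  · rintro _ ⟨v, hv, rfl⟩
    exact (h v (le_quad_of_high hA hk hv)).2

end lam

variable {n : ℕ}

lemma measurable_Lam (n k : ℕ) : Measurable fun W : Mat n => Lam n W k :=
  (measurable_const.sub (measurable_lam_apply k)).const_mul _

lemma measurable_LamV (n K : ℕ) : Measurable (LamV n K) :=
  measurable_pi_lambda _ fun k => measurable_Lam n k

lemma measurable_kapL (n : ℕ) : Measurable (kapL n) := by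
  refine Measurable.iSup fun k => Measurable.max (by fun_prop) ?_
  split_ifs <;> fun_prop

/-! ### sequences and vectors -/

lemma ext_succ (v : Fin n → ℝ) (i : Fin n) : ext v (i + 1) = v i := by
  have h : 1 ≤ (i : ℕ) + 1 ∧ (i : ℕ) + 1 ≤ n := ⟨by omega, i.2⟩
  simp [ext, h]

lemma ext_succ' (v : Fin n → ℝ) {i : ℕ} (hi : i < n) : ext v (i + 1) = v ⟨i, hi⟩ :=
  ext_succ v ⟨i, hi⟩

lemma ext_zero (v : Fin n → ℝ) : ext v 0 = 0 := by simp [ext]

lemma ext_of_lt (v : Fin n → ℝ) {i : ℕ} (hi : n < i) : ext v i = 0 := by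
  rw [ext, dif_neg]; omega

lemma adm_ext (v : Fin n → ℝ) : Adm n (ext v) := ⟨ext_zero v, fun _ hi => ext_of_lt v hi⟩

lemma ext_add (v w : Fin n → ℝ) : ext (v + w) = ext v + ext w := by
  funext i; simp only [ext, Pi.add_apply]; split_ifs <;> simp

lemma ext_smul (c : ℝ) (v : Fin n → ℝ) : ext (c • v) = c • ext v := by
  funext i; simp only [ext, Pi.smul_apply]; split_ifs <;> simp

/-- the vector of a sequence -/
def res (n : ℕ) (u : ℕ → ℝ) : Fin n → ℝ := fun i => u (i + 1)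

lemma res_ext (v : Fin n → ℝ) : res n (ext v) = v := funext fun i => ext_succ v i

lemma ext_res {u : ℕ → ℝ} (hu : Adm n u) : ext (res n u) = u := by
  funext i
  rcases Nat.eq_zero_or_pos i with h | h
  · rw [h, ext_zero, hu.1]
  · by_cases h2 : n < i
    · rw [ext_of_lt _ h2, hu.2 i h2]
    · obtain ⟨j, rfl⟩ : ∃ j, i = j + 1 := ⟨i - 1, by omega⟩
      rw [ext_succ' _ (by omega : j < n)]; rfl

lemma sum_range_succ_eq (F : ℕ → ℝ) (h0 : F 0 = 0) :
    ∑ i ∈ range (n + 1), F i = ∑ i : Fin n, F (i + 1) := by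
  rw [sum_range_succ', h0, add_zero, Finset.sum_range]

lemma nrm_ext (v : Fin n → ℝ) : nrm n (ext v) = v ⬝ᵥ v := by
  rw [nrm, sum_range_succ_eq _ (by simp [ext_zero])]
  simp only [ext_succ, dotProduct, sq]

lemma nrm_nonneg (n : ℕ) (u : ℕ → ℝ) : 0 ≤ nrm n u := sum_nonneg fun _ _ => sq_nonneg _

lemma kin_nonneg (n : ℕ) (s : ℝ) (u : ℕ → ℝ) : 0 ≤ kin n s u :=
  mul_nonneg (by positivity) (sum_nonneg fun _ _ => sq_nonneg _)

lemma pot_nonneg (n : ℕ) (s : ℝ) (u : ℕ → ℝ) : 0 ≤ pot n s u :=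
  sum_nonneg fun _ _ => by positivity

lemma tri_symm (a b : ℕ → ℝ) (i j : Fin n) : tri n a b i j = tri n a b j i := by
  unfold tri
  by_cases h : i = j
  · rw [h]
  · have h' : (i : ℕ) ≠ j := fun e => h (Fin.ext e)
    rw [if_neg h, if_neg (Ne.symm h)]
    split_ifs <;> first | rfl | omega

lemma tri_herm (a b : ℕ → ℝ) : (tri n a b).IsHermitian := by
  rw [herm_iff]; ext i j; exact tri_symm a b j i

lemma tri_congr {a b a' b' : ℕ → ℝ} (ha : ∀ i, 1 ≤ i → a i = a' i) (hb : ∀ i, 1 ≤ i → b i = b' i) :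
    tri n a b = tri n a' b' := by
  ext i j
  unfold tri
  rw [ha _ (by omega), hb _ (by omega), hb ((j : ℕ) + 1) (by omega)]

lemma sum_succ_eq (v : Fin n → ℝ) (i : Fin n) (c : ℝ) :
    ∑ j : Fin n, (if (i : ℕ) + 1 = j then c * v j else 0) = c * ext v (i + 1 + 1) := by
  by_cases h : (i : ℕ) + 1 < n
  · rw [ext_succ' v h, sum_eq_single (⟨i + 1, h⟩ : Fin n)]
    · simp
    · intro j _ hj
      rw [if_neg]
      exact fun e => hj (Fin.ext e.symm)
    · simp
  · rw [ext_of_lt v (by omega), mul_zero]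
    refine sum_eq_zero fun j _ => if_neg ?_
    have := j.2
    omega

theorem quad_tri (a b : ℕ → ℝ) (v : Fin n → ℝ) : v ⬝ᵥ tri n a b *ᵥ v =
    ∑ i ∈ range (n + 1), (a i * ext v i ^ 2 + 2 * b i * (ext v i * ext v (i + 1))) := by
  rw [sum_range_succ_eq _ (by simp [ext_zero])]
  have h1 : ∀ i j : Fin n, v i * (tri n a b i j * v j) =
      (if i = j then a (i + 1) * v i ^ 2 else 0) +
      (if (i : ℕ) + 1 = j then (b (i + 1) * v i) * v j else 0) +
      (if (j : ℕ) + 1 = i then (b (j + 1) * v j) * v i else 0) := by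
    intro i j
    unfold tri
    by_cases h : i = j
    · subst h; simp; ring
    · have h' : (i : ℕ) ≠ j := fun e => h (Fin.ext e)
      simp only [if_neg h]
      split_ifs <;> first | omega | ring
  simp only [dotProduct, mulVec, mul_sum, h1, sum_add_distrib]
  rw [sum_comm (f := fun (i j : Fin n) => if (j : ℕ) + 1 = i then (b (j + 1) * v j) * v i else 0)]
  simp only [sum_succ_eq, sum_ite_eq, mem_univ, if_true, ext_succ]
  rw [add_assoc, ← sum_add_distrib]
  congr 1
  exact sum_congr rfl fun i _ => by ring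

lemma Hm_herm (s : ℝ) (a b : ℕ → ℝ) : (Hm n s a b).IsHermitian :=
  (herm_smul (tri_herm a b) s).sub (herm_smul isHermitian_one _)

theorem quad_Hm (s : ℝ) (a b : ℕ → ℝ) (v : Fin n → ℝ) :
    v ⬝ᵥ Hm n s a b *ᵥ v = -Qf n s a b (ext v) := by
  rw [Hm, sub_mulVec, dotProduct_sub, smul_mulVec, smul_mulVec, dotProduct_smul, dotProduct_smul,
    one_mulVec, quad_tri, Qf, nrm_ext, smul_eq_mul, smul_eq_mul]
  ring

lemma Hc_herm (J : ℕ) (δ : ℝ) (z : Fin J → ℝ) : (Hc J δ z).IsHermitian := tri_herm _ _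

/-- the shifted sum of squares of an admissible sequence -/
lemma sum_sq_shift {u : ℕ → ℝ} (hu : Adm n u) (c : ℕ → ℝ) :
    ∑ i ∈ range (n + 1), c (i + 1) * u (i + 1) ^ 2 = ∑ i ∈ range (n + 1), c i * u i ^ 2 := by
  have h1 := sum_range_succ' (fun i => c i * u i ^ 2) (n + 1)
  have h2 := sum_range_succ (fun i => c i * u i ^ 2) (n + 1)
  simp only [hu.1, hu.2 (n + 1) (by omega)] at h1 h2
  linarith

theorem quad_Hc (J : ℕ) (δ : ℝ) (z w : Fin J → ℝ) : w ⬝ᵥ Hc J δ z *ᵥ w =
    -(1 / δ ^ 2 * ∑ j ∈ range (J + 1), (ext w (j + 1) - ext w j) ^ 2 +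
      ∑ j ∈ range (J + 1), (j * δ - ext z j) * ext w j ^ 2) := by
  have h := sum_sq_shift (adm_ext w) fun _ => 1 / δ ^ 2
  rw [Hc, quad_tri, mul_sum]
  have h2 : ∀ j : ℕ, (ext z j - 2 / δ ^ 2 - j * δ) * ext w j ^ 2 +
      2 * (1 / δ ^ 2) * (ext w j * ext w (j + 1)) =
      -(1 / δ ^ 2 * (ext w (j + 1) - ext w j) ^ 2 + (j * δ - ext z j) * ext w j ^ 2) +
        (1 / δ ^ 2 * ext w (j + 1) ^ 2 - 1 / δ ^ 2 * ext w j ^ 2) := fun j => by ring
  simp only [h2, sum_add_distrib, sum_sub_distrib, sum_neg_distrib, h]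
  ring

lemma Tm_herm (g : Fin n → Fin n → ℝ) : (Tm n g).IsHermitian := herm_smul (tri_herm _ _) _

theorem Lam_Tm (g : Fin n → Fin n → ℝ) {k : ℕ} (hk : k < n) :
    tau n * (2 - lam (Tm n g) k) = -lam (Hm n (sx n) (rowA n g) (bx (bet n) (rowX n g))) k := by
  have hs := sx_pos (n := n) (by omega)
  have h1 : tri n (rowA n g) (bx (bet n) (rowX n g)) = tri n (rowA n g) (rowB n g) :=
    tri_congr (fun _ _ => rfl) fun i hi => by
      rw [bx, rowX, if_neg (by omega)]; ring
  have h2 : Hm n (sx n) (rowA n g) (bx (bet n) (rowX n g)) =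
      tau n • Tm n g + (-(2 * tau n)) • (1 : Mat n) := by
    rw [Hm, h1, Tm, smul_smul, tau_eq, sqrt_eq, neg_smul, sub_eq_add_neg]
    congr 2
    field_simp
  rw [h2, lam_add_smul_one (herm_smul (Tm_herm g) _) _ (by simpa using hk),
    lam_smul (Tm_herm g) (tau_nonneg n)]
  ring

/-! ### oscillation and Abel summation -/

lemma le_osc (η : ℕ → ℝ) (l j : ℕ) {r : ℕ} (hr : r ≤ l) :
    |∑ i ∈ range r, η (j * l + i)| ≤ osc η l j :=
  le_ciSup (f := fun r : Fin (l + 1) => |∑ i ∈ range r, η (j * l + i)|) (Finite.bddAbove_range _)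
    ⟨r, by omega⟩

lemma osc_nonneg (η : ℕ → ℝ) (l j : ℕ) : 0 ≤ osc η l j :=
  (abs_nonneg _).trans (le_osc η l j (Nat.zero_le l))

lemma osc_le {η : ℕ → ℝ} {l j : ℕ} {o : ℝ} (h : ∀ r, r ≤ l → |∑ i ∈ range r, η (j * l + i)| ≤ o) :
    osc η l j ≤ o := ciSup_le fun r => h r (by have := r.2; omega)

lemma exists_osc_eq (η : ℕ → ℝ) (l j : ℕ) :
    ∃ r, r ≤ l ∧ osc η l j = |∑ i ∈ range r, η (j * l + i)| := by
  obtain ⟨r, hr⟩ := exists_eq_ciSup_of_finite
    (f := fun r : Fin (l + 1) => |∑ i ∈ range r, η (j * l + i)|)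
  exact ⟨r, by have := r.2; omega, hr.symm⟩

lemma abs_le_two_osc (η : ℕ → ℝ) (l j : ℕ) {r : ℕ} (hr : r < l) :
    |η (j * l + r)| ≤ 2 * osc η l j := by
  have h1 := le_osc η l j (r := r + 1) hr
  have h2 := le_osc η l j hr.le
  rw [sum_range_succ] at h1
  rw [abs_le] at *
  constructor <;> linarith [h1.1, h1.2, h2.1, h2.2]

lemma le_kap (n : ℕ) (s : ℝ) (a x : ℕ → ℝ) (l : ℕ) {j : ℕ} (hj : j ≤ n) :
    2400 * ((osc a l j / s) ^ 2 + (osc x l j / s) ^ 2) + (s ^ 2 / l) ^ 2 -
      (j : ℝ) * l / (64 * s ^ 2) ≤ kap n s a x l :=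
  le_ciSup (f := fun j : Fin (n + 1) =>
    2400 * ((osc a l j / s) ^ 2 + (osc x l j / s) ^ 2) + (s ^ 2 / l) ^ 2 -
      ((j : ℕ) : ℝ) * l / (64 * s ^ 2)) (Finite.bddAbove_range _) ⟨j, by omega⟩

lemma kap_nonneg (n : ℕ) (s : ℝ) (a x : ℕ → ℝ) (l : ℕ) : 0 ≤ kap n s a x l := by
  refine le_trans ?_ (le_kap n s a x l (Nat.zero_le n))
  simp only [Nat.cast_zero, zero_mul, zero_div, sub_zero]
  positivity

lemma abel_id (η w : ℕ → ℝ) (l : ℕ) : ∑ i ∈ range l, η i * (w i - w 0) =
    ∑ r ∈ range (l - 1), (∑ i ∈ range l, η i - ∑ i ∈ range (r + 1), η i) * (w (r + 1) - w r) := by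
  induction l with
  | zero => simp
  | succ l ih =>
    rw [sum_range_succ, ih, Nat.add_sub_cancel]
    have h1 : ∑ r ∈ range l, (∑ i ∈ range (l + 1), η i - ∑ i ∈ range (r + 1), η i) *
        (w (r + 1) - w r) = ∑ r ∈ range l, (∑ i ∈ range l, η i - ∑ i ∈ range (r + 1), η i) *
        (w (r + 1) - w r) + η l * (w l - w 0) := by
      rw [← sum_range_sub w l, mul_sum, ← sum_add_distrib]
      refine sum_congr rfl fun r _ => ?_
      rw [sum_range_succ η l]; ring
    rw [h1]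
    congr 1
    rcases l with _ | l
    · simp
    · rw [Nat.add_sub_cancel, sum_range_succ (fun r => (∑ i ∈ range (l + 1), η i -
        ∑ i ∈ range (r + 1), η i) * (w (r + 1) - w r)) l, sub_self, zero_mul, add_zero]

/-- Abel summation -/
theorem abel (η w : ℕ → ℝ) (l : ℕ) {o : ℝ} (h : ∀ r, r ≤ l → |∑ i ∈ range r, η i| ≤ o) :
    |∑ i ∈ range l, η i * (w i - w 0)| ≤ 2 * o * ∑ r ∈ range (l - 1), |w (r + 1) - w r| := by
  rw [abel_id, mul_sum]
  refine (abs_sum_le_sum_abs _ _).trans (sum_le_sum fun r hr => ?_)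
  rw [abs_mul]
  refine mul_le_mul_of_nonneg_right ?_ (abs_nonneg _)
  have h1 := h l le_rfl
  have h2 := h (r + 1) (by have := mem_range.1 hr; omega)
  rw [abs_le] at *
  constructor <;> linarith [h1.1, h1.2, h2.1, h2.2]

/-- a sum over consecutive windows -/
lemma sum_range_mul (F : ℕ → ℝ) (l J : ℕ) :
    ∑ i ∈ range (J * l), F i = ∑ j ∈ range J, ∑ r ∈ range l, F (j * l + r) := by
  induction J with
  | zero => simp
  | succ J ih => rw [Nat.succ_mul, sum_range_add, ih, sum_range_succ]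

lemma abs_sub_le_sum (w : ℕ → ℝ) {r l : ℕ} (hr : r ≤ l) :
    |w r - w 0| ≤ ∑ i ∈ range l, |w (i + 1) - w i| := by
  rw [← sum_range_sub w r]
  exact (abs_sum_le_sum_abs _ _).trans
    (sum_le_sum_of_subset_of_nonneg (range_subset_range.2 hr) fun _ _ _ => abs_nonneg _)

/-! ### measurability of the model -/

lemma measurable_ext {Ω : Type*} [MeasurableSpace Ω] {v : Ω → Fin n → ℝ}
    (hv : ∀ i, Measurable fun ω => v ω i) (i : ℕ) : Measurable fun ω => ext (v ω) i := by
  unfold ext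
  split_ifs
  · exact hv _
  · exact measurable_const

lemma continuous_ext {X : Type*} [TopologicalSpace X] {v : X → Fin n → ℝ}
    (hv : ∀ i, Continuous fun ω => v ω i) (i : ℕ) : Continuous fun ω => ext (v ω) i := by
  unfold ext
  split_ifs
  · exact hv _
  · exact continuous_const

lemma continuous_rowA (n i : ℕ) : Continuous fun g => rowA n g i :=
  continuous_ext (fun _ => by fun_prop) i

lemma continuous_rowB (n i : ℕ) : Continuous fun g => rowB n g i :=
  continuous_ext (fun _ => by fun_prop) i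

lemma continuous_rowX (n i : ℕ) : Continuous fun g => rowX n g i := by
  unfold rowX
  split_ifs
  · exact continuous_const
  · exact continuous_const.mul ((continuous_rowB n i).sub continuous_const)

lemma continuous_tri {X : Type*} [TopologicalSpace X] {a b : X → ℕ → ℝ}
    (ha : ∀ i, Continuous fun x => a x i) (hb : ∀ i, Continuous fun x => b x i) :
    Continuous fun x => tri n (a x) (b x) := by
  refine continuous_matrix fun i j => ?_
  unfold tri
  split_ifs
  · exact ha _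
  · exact hb _
  · exact hb _
  · exact continuous_const

lemma continuous_Tm (n : ℕ) : Continuous (Tm n) :=
  (continuous_tri (n := n) (continuous_rowA n) (continuous_rowB n)).const_smul (1 / Real.sqrt n)

lemma measurable_Tm (n : ℕ) : Measurable (Tm n) := (continuous_Tm n).measurable

lemma continuous_Phi (J : ℕ) (δ : ℝ) (k : ℕ) : Continuous fun z => Phi J δ z k := by
  refine (continuous_lam ?_ (Hc_herm J δ) k).neg
  refine continuous_tri (fun i => ?_) fun _ => continuous_const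
  exact ((continuous_ext (fun _ => by fun_prop) i).sub continuous_const).sub continuous_const

lemma measurable_osc {Ω : Type*} [MeasurableSpace Ω] {η : Ω → ℕ → ℝ}
    (hη : ∀ i, Measurable fun ω => η ω i) (l j : ℕ) : Measurable fun ω => osc (η ω) l j :=
  Measurable.iSup fun _ => (Finset.measurable_sum _ fun _ _ => hη _).abs

lemma measurable_kap (n : ℕ) (s : ℝ) (l : ℕ) :
    Measurable fun g => kap n s (rowA n g) (rowX n g) l := by
  refine Measurable.iSup fun j => ?_
  have h1 := measurable_osc (fun i => (continuous_rowA n i).measurable) l j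
  have h2 := measurable_osc (fun i => (continuous_rowX n i).measurable) l j
  fun_prop

lemma continuous_zblk (n : ℕ) (s : ℝ) (p J : ℕ) :
    Continuous fun g => zblk s (rowA n g) (rowX n g) p J :=
  continuous_pi fun _ => continuous_const.mul (continuous_finsetSum _ fun _ _ =>
    (continuous_rowA n _).add (continuous_rowX n _))

lemma Wy_herm (y : Ix n → ℝ) : (Wy n y).IsHermitian := Wmat_isHermitian _ _

lemma Ym_herm (σ : ℝ) {W : Mat n} (hW : W.IsHermitian) : (Ym σ W).IsHermitian :=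
  herm_smul ((herm_smul isHermitian_one _).add (herm_smul hW _)) _

lemma continuous_Wy (n : ℕ) : Continuous (Wy n) := by
  refine continuous_matrix fun i j => ?_
  simp only [Wy, Wmat, Matrix.add_apply, Jmat, diagonal_apply]
  refine Continuous.add ?_ ?_
  · split_ifs <;> fun_prop
  · split_ifs <;> fun_prop

lemma continuous_Ym (σ : ℝ) : Continuous (Ym σ : Mat n → Mat n) := by
  unfold Ym; fun_prop

lemma goe_ae_herm (n : ℕ) : ∀ᵐ W ∂GOE n, W.IsHermitian :=
  (goe_ae_symm _).mono fun _ h => herm_iff.2 h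

end Crest.Agent.T157.Ed

end
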