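import Crest.Agent.T157.StDef_87
import Crest.Agent.T157.EdBase_88

/-!
# Row 157, part C4: the good spectral event and the renormalised tail sum (helper84)

`goodGlue : GoodGlue`.
-/

set_option autoImplicit false

noncomputable section

namespace Crest.Agent.T157.St

open MeasureTheory ProbabilityTheory Matrix Filter Topology Finset Real
open scoped ENNReal
open Crest.Agent.T157.Eig Crest.Agent.T157.Cond Crest.Agent.T157.Ed

namespace Good84

/-- the renormalised Stieltjes transform of a sequence -/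
def SS (n : ℕ) (η : ℕ → ℝ) (t : ℝ) (ζ : ℂ) : ℂ := ∑ k ∈ range n, 1 / (ζ + (η k : ℝ)) - (t : ℂ)
/-- the defect of the self-consistent equation -/
def PP (n : ℕ) (η : ℕ → ℝ) (t : ℝ) (ζ : ℂ) : ℂ := SS n η t ζ ^ 2 - ζ * (1 + SS n η t ζ / (t : ℂ))

variable {n : ℕ} {η : ℕ → ℝ} {t : ℝ} {ζ : ℂ}

lemma re_SS : (SS n η t ζ).re =
    ∑ k ∈ range n, (ζ.re + η k) / ((ζ.re + η k) ^ 2 + ζ.im ^ 2) - t := by
  simp only [SS, Complex.sub_re, Complex.re_sum, one_div, Complex.inv_re, Complex.normSq_apply,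
    Complex.add_re, Complex.add_im, Complex.ofReal_re, Complex.ofReal_im, add_zero, sq]

lemma im_SS : (SS n η t ζ).im = -∑ k ∈ range n, ζ.im / ((ζ.re + η k) ^ 2 + ζ.im ^ 2) := by
  simp only [SS, Complex.sub_im, Complex.im_sum, one_div, Complex.inv_im, Complex.normSq_apply,
    Complex.add_re, Complex.add_im, Complex.ofReal_re, Complex.ofReal_im, add_zero, sq, sub_zero,
    neg_div, sum_neg_distrib]

lemma im_SS_nonpos (h : 0 ≤ ζ.im) : (SS n η t ζ).im ≤ 0 := by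
  rw [im_SS]
  exact neg_nonpos.2 (sum_nonneg fun k _ => by positivity)

lemma sq_sub_eq : SS n η t ζ ^ 2 - ζ = PP n η t ζ + ζ * SS n η t ζ / t := by rw [PP]; ring

lemma norm_sq_sub_le (ht : 0 < t) :
    ‖SS n η t ζ ^ 2 - ζ‖ ≤ ‖PP n η t ζ‖ + ‖ζ‖ * ‖SS n η t ζ‖ / t := by
  rw [sq_sub_eq]
  refine (norm_add_le _ _).trans (le_of_eq ?_)
  rw [norm_div, norm_mul, Complex.norm_real, Real.norm_eq_abs, abs_of_pos ht]

lemma norm_SS_sq_le (ht : 0 < t) (hζ : ‖ζ‖ ≤ t ^ 2) :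
    ‖SS n η t ζ‖ ^ 2 ≤ 2 * ‖PP n η t ζ‖ + 3 * ‖ζ‖ := by
  have h1 := norm_sq_sub_le (n := n) (η := η) (ζ := ζ) ht
  have h2 := norm_sub_norm_le (SS n η t ζ ^ 2) ζ
  rw [norm_pow] at h2
  have h3 : (‖ζ‖ / t) ^ 2 ≤ ‖ζ‖ := by
    rw [div_pow, div_le_iff₀ (by positivity), sq]
    exact mul_le_mul_of_nonneg_left hζ (norm_nonneg _)
  rw [mul_div_right_comm] at h1
  nlinarith [sq_nonneg (‖ζ‖ / t - ‖SS n η t ζ‖)]

lemma root_le (ht : 0 < t) (h : 0 ≤ ζ.im) {r : ℂ} (hr : r ^ 2 = ζ) :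
    r.im * ‖SS n η t ζ + r‖ ≤ ‖PP n η t ζ‖ + ‖ζ‖ * ‖SS n η t ζ‖ / t := by
  refine le_trans ?_ (norm_sq_sub_le ht)
  rw [show SS n η t ζ ^ 2 - ζ = (r - SS n η t ζ) * -(SS n η t ζ + r) by rw [← hr]; ring, norm_mul,
    norm_neg]
  refine mul_le_mul_of_nonneg_right (le_trans ?_ (Complex.im_le_norm _)) (norm_nonneg _)
  rw [Complex.sub_im]
  linarith [im_SS_nonpos (n := n) (η := η) (t := t) h]

lemma Sr_anti {v v' : ℝ} (h0 : ∀ k < n, 0 < v + η k) (h : v ≤ v') : Sr n η t v' ≤ Sr n η t v :=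
  sub_le_sub_right (sum_le_sum fun k hk =>
    one_div_le_one_div_of_le (h0 k (mem_range.1 hk)) (by linarith)) t

lemma re_le_Sr (h0 : ∀ k < n, 0 < ζ.re + η k) : (SS n η t ζ).re ≤ Sr n η t ζ.re := by
  rw [re_SS, Sr]
  refine sub_le_sub_right (sum_le_sum fun k hk => ?_) t
  have := h0 k (mem_range.1 hk)
  rw [div_le_div_iff₀ (by positivity) this]
  nlinarith [sq_nonneg ζ.im]

lemma Sr_le_re {a : ℝ} (ha : 0 < a) (hi : 0 ≤ ζ.im) (h0 : ∀ k < n, a ≤ ζ.re + η k) :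
    Sr n η t ζ.re ≤ (SS n η t ζ).re + ζ.im / a * -(SS n η t ζ).im := by
  rw [re_SS, im_SS, Sr, neg_neg, mul_sum, sub_add_eq_add_sub, ← sum_add_distrib]
  refine sub_le_sub_right (sum_le_sum fun k hk => ?_) t
  have h1 := h0 k (mem_range.1 hk)
  have h2 : 0 < ζ.re + η k := by linarith
  have h3 : ζ.im / (ζ.re + η k) ≤ ζ.im / a := div_le_div_of_nonneg_left hi ha h1
  refine le_trans (le_of_eq ?_) (add_le_add_right (mul_le_mul_of_nonneg_right h3 (by positivity)) _)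
  field_simp

/-- the diagonal point `v (1 + i)` -/
def zd (v : ℝ) : ℂ := ⟨v, v⟩
/-- the point used for the upper bound -/
def zu (w : ℝ) : ℂ := ⟨w, 369 / 800 * w⟩

lemma norm_mk_le {a b : ℝ} (ha : 0 ≤ a) (hb : 0 ≤ b) : ‖(⟨a, b⟩ : ℂ)‖ ≤ a + b := by
  simpa [abs_of_nonneg ha, abs_of_nonneg hb] using Complex.norm_le_abs_re_add_abs_im ⟨a, b⟩

lemma dn_det (ht : 0 < t) {w : ℝ} (hw : 1 ≤ w) (h0 : ∀ k < n, 0 < w + η k)
    (hP : ∀ j : ℕ, 2 * (2 ^ j * w) ≤ t ^ 2 → ‖PP n η t (zd (2 ^ j * w))‖ ≤ 2 ^ j * w) {v : ℝ}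
    (hv : w ≤ v) : -(5 * √v) ≤ Sr n η t v := by
  have hv0 : 0 < v := by linarith
  have hs := Real.sq_sqrt hv0.le
  have hs0 := Real.sqrt_nonneg v
  by_cases h4 : 4 * v ≤ t ^ 2
  · obtain ⟨j, hj1, hj2⟩ := exists_nat_pow_near (x := v / w) (y := 2)
      ((one_le_div (by linarith)).2 hv) one_lt_two
    rw [le_div_iff₀ (by linarith)] at hj1
    rw [div_lt_iff₀ (by linarith)] at hj2
    set u := 2 ^ (j + 1) * w with hu
    have hu2 : u ≤ 2 * v := by rw [hu, pow_succ]; linarith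
    have h1 := hP (j + 1) (by linarith)
    have h2 : ‖zd u‖ ≤ u + u := norm_mk_le (by linarith) (by linarith)
    have h3 := norm_SS_sq_le (n := n) (η := η) (ζ := zd u) ht (by linarith)
    have h5 : ‖SS n η t (zd u)‖ ≤ 4 * √v :=
      (pow_le_pow_iff_left₀ (norm_nonneg _) (by positivity) two_ne_zero).1 (by nlinarith)
    have h6 := re_le_Sr (n := n) (η := η) (t := t) (ζ := zd u) fun k hk => by
      have := h0 k hk
      change 0 < u + η k
      linarith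
    have h7 := Sr_anti (n := n) (η := η) (t := t) (v := v) (v' := u)
      (fun k hk => by linarith [h0 k hk]) hj2.le
    have h8 := (abs_le.1 (Complex.abs_re_le_norm (SS n η t (zd u)))).1
    change (SS n η t (zd u)).re ≤ Sr n η t u at h6
    linarith
  · have h1 : t ≤ 2 * √v :=
      (pow_le_pow_iff_left₀ ht.le (by positivity) two_ne_zero).1 (by nlinarith)
    have h2 : 0 ≤ ∑ k ∈ range n, 1 / (v + η k) :=
      sum_nonneg fun k hk => one_div_nonneg.2 (by linarith [h0 k (mem_range.1 hk)])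
    rw [Sr]
    linarith

lemma up_det {w : ℝ} (hw : 1 ≤ w) (ht : 600 * w ≤ t) (h0 : ∀ k < n, w / 2 ≤ w + η k)
    (hP : ‖PP n η t (zu w)‖ ≤ w / 100) : Sr n η t w ≤ -(√w / 2) := by
  have hs := Real.sq_sqrt (show 0 ≤ w by linarith)
  have hs1 : 1 ≤ √w := Real.one_le_sqrt.2 hw
  set s := √w
  have hsw : s ≤ w := by nlinarith
  have ht0 : 0 < t := by linarith
  have h2 : ‖zu w‖ ≤ w + 369 / 800 * w := norm_mk_le (by linarith) (by linarith)
  have h3 := norm_SS_sq_le (n := n) (η := η) (ζ := zu w) ht0 (by nlinarith)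
  have h5 : ‖SS n η t (zu w)‖ ≤ 3 * s :=
    (pow_le_pow_iff_left₀ (norm_nonneg _) (by positivity) two_ne_zero).1 (by nlinarith)
  have hi : (zu w).im = 369 / 800 * w := rfl
  have h6 := root_le (n := n) (η := η) (ζ := zu w) ht0 (by rw [hi]; linarith)
    (r := ⟨41 / 40 * s, 9 / 40 * s⟩) (by
      rw [sq]
      refine Complex.ext ?_ ?_ <;> simp only [Complex.mul_re, Complex.mul_im, zu] <;> nlinarith)
  have h7 : ‖zu w‖ * ‖SS n η t (zu w)‖ / t ≤ w / 100 := by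
    rw [div_le_iff₀ ht0]
    have := mul_le_mul h2 h5 (norm_nonneg _) (by linarith)
    nlinarith
  set δ := ‖SS n η t (zu w) + ⟨41 / 40 * s, 9 / 40 * s⟩‖ with hδ
  have h8 : δ ≤ s / 10 := by
    refine le_of_mul_le_mul_left (a := 9 / 40 * s) (h6.trans ?_) (by linarith)
    nlinarith
  have h9 := (abs_le.1 (Complex.abs_re_le_norm (SS n η t (zu w) + ⟨41 / 40 * s, 9 / 40 * s⟩))).2
  have h10 := (abs_le.1 (Complex.abs_im_le_norm (SS n η t (zu w) + ⟨41 / 40 * s, 9 / 40 * s⟩))).1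
  rw [← hδ] at h9 h10
  simp only [Complex.add_re, Complex.add_im] at h9 h10
  have h11 := Sr_le_re (n := n) (η := η) (t := t) (ζ := zu w) (a := w / 2) (by linarith)
    (by rw [hi]; linarith) h0
  rw [hi, show 369 / 800 * w / (w / 2) = 369 / 400 by field_simp; norm_num] at h11
  change Sr n η t w ≤ _ at h11
  linarith

lemma tail_term {w L x a : ℝ} (ha : 1 ≤ a) (hw : 2 * |w| ≤ a) (hx : a ≤ x) :
    |1 / (w + x) - x / (x ^ 2 + L ^ 2)| ≤ 2 * (L ^ 2 + |w|) * (a ^ 2)⁻¹ := by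
  have h1 := abs_le.1 (show |w| ≤ x / 2 by linarith)
  have hx1 : 1 ≤ x := ha.trans hx
  have h2 : 0 < w + x := by linarith [h1.1]
  have h3 : 0 < x ^ 2 + L ^ 2 := by positivity
  rw [div_sub_div _ _ h2.ne' h3.ne', abs_div, abs_of_pos (mul_pos h2 h3), ← div_eq_mul_inv,
    div_le_div_iff₀ (mul_pos h2 h3) (by positivity),
    show 1 * (x ^ 2 + L ^ 2) - (w + x) * x = L ^ 2 - w * x by ring]
  have h4 : |L ^ 2 - w * x| ≤ (L ^ 2 + |w|) * x := by
    refine (abs_sub _ _).trans ?_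
    rw [abs_mul, abs_of_nonneg (sq_nonneg L), abs_of_pos (show 0 < x by linarith)]
    nlinarith [sq_nonneg L]
  have h5 : x * a ^ 2 ≤ 2 * ((w + x) * (x ^ 2 + L ^ 2)) := by
    have b1 : a ^ 2 ≤ x ^ 2 + L ^ 2 := by nlinarith [sq_nonneg L]
    have b2 : x ≤ 2 * (w + x) := by linarith [h1.1]
    nlinarith [mul_le_mul b2 b1 (sq_nonneg a) (by linarith)]
  have h6 := mul_le_mul_of_nonneg_left h5 (show 0 ≤ L ^ 2 + |w| by positivity)
  nlinarith [mul_le_mul_of_nonneg_right h4 (sq_nonneg a)]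

lemma le_sq_of {L t : ℝ} (hL : 1 ≤ L) (ht : 5 * L ^ 2 ≤ t) : 0 + L ≤ t ^ 2 := by
  have h1 : L ≤ t := by nlinarith
  nlinarith

lemma ren_det {L w : ℝ} {K : ℕ} (hL : 1 ≤ L) (ht : 5 * L ^ 2 ≤ t) (hK : K ≤ n)
    (hP : ‖PP n η t ⟨0, L⟩‖ ≤ 1) :
    |t - ∑ k ∈ Ico K n, 1 / (w + η k) - ct L (fun k : Fin K => η k)| ≤
      2 / √(L / 2) + ∑ k ∈ Ico K n, |1 / (w + η k) - η k / (η k ^ 2 + L ^ 2)| := by
  have hs := Real.sq_sqrt (show 0 ≤ L / 2 by linarith)
  have hs0 : 0 < √(L / 2) := Real.sqrt_pos.2 (by linarith)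
  set s := √(L / 2) with hs'
  have ht0 : 0 < t := by nlinarith
  have h2 : ‖(⟨0, L⟩ : ℂ)‖ ≤ 0 + L := norm_mk_le le_rfl (by linarith)
  have h3 := norm_SS_sq_le (n := n) (η := η) (ζ := ⟨0, L⟩) ht0 (h2.trans (le_sq_of hL ht))
  have h5 : ‖SS n η t ⟨0, L⟩‖ ≤ 5 * L :=
    (pow_le_pow_iff_left₀ (norm_nonneg _) (by positivity) two_ne_zero).1 (by nlinarith)
  have h6 := root_le (n := n) (η := η) (ζ := ⟨0, L⟩) ht0 (show 0 ≤ L by linarith)
    (r := ⟨s, s⟩) (by
      rw [sq]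
      refine Complex.ext ?_ ?_ <;> simp only [Complex.mul_re, Complex.mul_im] <;> nlinarith)
  have h7 : ‖(⟨0, L⟩ : ℂ)‖ * ‖SS n η t ⟨0, L⟩‖ / t ≤ 1 := by
    rw [div_le_one ht0]
    have := mul_le_mul h2 h5 (norm_nonneg _) (by linarith)
    nlinarith
  have h8 : ‖SS n η t ⟨0, L⟩ + ⟨s, s⟩‖ ≤ 2 / s := by
    rw [le_div_iff₀ hs0, mul_comm]
    exact h6.trans (by linarith)
  have h9 := (Complex.abs_re_le_norm (SS n η t ⟨0, L⟩ + ⟨s, s⟩)).trans h8
  rw [Complex.add_re, re_SS] at h9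
  simp only [zero_add] at h9
  have e : t - ∑ k ∈ Ico K n, 1 / (w + η k) - ct L (fun k : Fin K => η k) =
      -((∑ k ∈ range n, η k / (η k ^ 2 + L ^ 2) - t + s) +
        ∑ k ∈ Ico K n, (1 / (w + η k) - η k / (η k ^ 2 + L ^ 2))) := by
    rw [ct, ← hs', ← sum_range fun k => η k / (η k ^ 2 + L ^ 2), sum_sub_distrib,
      ← sum_range_add_sum_Ico _ hK]
    ring
  rw [e, abs_neg]
  exact (abs_add_le _ _).trans (add_le_add h9 (abs_sum_le_sum_abs _ _))

/-! ### probability -/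

lemma markovP (h : SteinStmt) : ∃ C : ℝ, 0 < C ∧ ∀ n : ℕ, 1 ≤ n → ∀ ζ : ℂ, 1 ≤ ζ.im →
    ‖ζ‖ ≤ tau n → ∀ a : ℝ, 0 < a →
      (GOE n).real {W | a < ‖PP n (Lam n W) (sx n ^ 2) ζ‖} ≤ C * ‖ζ‖ / (ζ.im ^ 2 * a ^ 2) := by
  obtain ⟨C, hC⟩ := h
  refine ⟨max C 1, lt_max_of_lt_right one_pos, fun n hn ζ hi hζ a ha => ?_⟩
  have hm : Measurable fun W : Mat n => SS n (Lam n W) (sx n ^ 2) ζ :=
    (Finset.measurable_sum _ fun k _ => measurable_const.div (measurable_const.add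
      (Complex.measurable_ofReal.comp (measurable_Lam n k)))).sub measurable_const
  have hb : ∀ W : Mat n, ‖SS n (Lam n W) (sx n ^ 2) ζ‖ ≤ n + ‖((sx n ^ 2 : ℝ) : ℂ)‖ := fun W => by
    refine (norm_sub_le _ _).trans (add_le_add_left ((norm_sum_le _ _).trans ?_) _)
    refine (sum_le_card_nsmul _ _ 1 fun k _ => ?_).trans (by simp)
    rw [norm_div, norm_one]
    refine div_le_one_of_le₀ (le_trans ?_ (Complex.im_le_norm _)) (norm_nonneg _)
    simpa using hi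
  have hm2 : Measurable fun W : Mat n => ‖PP n (Lam n W) (sx n ^ 2) ζ‖ ^ 2 :=
    ((hm.pow_const 2).sub (measurable_const.mul (measurable_const.add
      (hm.div_const _)))).norm.pow_const 2
  set B := (n : ℝ) + ‖((sx n ^ 2 : ℝ) : ℂ)‖
  have hint : Integrable (fun W : Mat n => ‖PP n (Lam n W) (sx n ^ 2) ζ‖ ^ 2) (GOE n) := by
    refine Integrable.of_bound hm2.aestronglyMeasurable
      ((B ^ 2 + ‖ζ‖ * (1 + B / ‖((sx n ^ 2 : ℝ) : ℂ)‖)) ^ 2) (ae_of_all _ fun W => ?_)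
    rw [Real.norm_eq_abs, abs_of_nonneg (sq_nonneg _)]
    refine pow_le_pow_left₀ (norm_nonneg _) ((norm_sub_le _ _).trans (add_le_add ?_ ?_)) 2
    · rw [norm_pow]; exact pow_le_pow_left₀ (norm_nonneg _) (hb W) 2
    · rw [norm_mul]
      refine mul_le_mul_of_nonneg_left ((norm_add_le _ _).trans ?_) (norm_nonneg _)
      rw [norm_one, norm_div]
      exact add_le_add_right (div_le_div_of_nonneg_right (hb W) (norm_nonneg _)) _
  have h1 := mul_meas_ge_le_integral_of_nonneg (ae_of_all _ fun W => sq_nonneg _) hint (a ^ 2)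
  have h2 : (GOE n).real {W | a < ‖PP n (Lam n W) (sx n ^ 2) ζ‖} ≤
      (GOE n).real {W | a ^ 2 ≤ ‖PP n (Lam n W) (sx n ^ 2) ζ‖ ^ 2} :=
    measureReal_mono (fun W hW => pow_le_pow_left₀ ha.le (le_of_lt hW) 2) (measure_ne_top _ _)
  rw [← div_div, le_div_iff₀ (by positivity), mul_comm]
  refine (mul_le_mul_of_nonneg_left h2 (sq_nonneg a)).trans (h1.trans ((hC n hn ζ hi hζ).trans ?_))
  exact div_le_div_of_nonneg_right (mul_le_mul_of_nonneg_right (le_max_left _ _) (norm_nonneg _))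
    (sq_nonneg _)

lemma kap_tail (h : EdgeTStmt) {ε : ℝ} (hε : 0 < ε) : ∃ L : ℝ, 0 ≤ L ∧ ∀ᶠ n in atTop,
    (GOE n).real {W | L < kapL n (lam W)} ≤ ε := by
  obtain ⟨C, hC⟩ := h 1 zero_le_one
  refine ⟨|C| / ε, by positivity, hC.mono fun n hn => ?_⟩
  have hm : Measurable fun W : Mat n => ENNReal.ofReal (exp (1 * kapL n (lam W))) :=
    (((measurable_kapL n).comp measurable_lam).const_mul 1).exp.ennreal_ofReal
  have h1 := (mul_meas_ge_le_lintegral₀ hm.aemeasurable (ENNReal.ofReal (exp (|C| / ε)))).trans hn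
  have h2 : GOE n {W | |C| / ε < kapL n (lam W)} ≤ GOE n {W | ENNReal.ofReal (exp (|C| / ε)) ≤
      ENNReal.ofReal (exp (1 * kapL n (lam W)))} := measure_mono fun W hW =>
    ENNReal.ofReal_le_ofReal (exp_le_exp.2 (by rw [one_mul]; exact le_of_lt hW))
  have h3 := ENNReal.toReal_mono ENNReal.ofReal_ne_top ((mul_le_mul_right h2 _).trans
    (h1.trans (ENNReal.ofReal_le_ofReal (le_abs_self C))))
  rw [ENNReal.toReal_mul, ENNReal.toReal_ofReal (exp_pos _).le,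
    ENNReal.toReal_ofReal (abs_nonneg C)] at h3
  have h4 := add_one_le_exp (|C| / ε)
  refine le_of_mul_le_mul_left (h3.trans ?_) (exp_pos _)
  have := mul_le_mul_of_nonneg_right h4 hε.le
  rw [add_mul, div_mul_cancel₀ _ hε.ne'] at this
  linarith

lemma lo_hi {W : Mat n} {L : ℝ} (h : kapL n (lam W) ≤ L) {k : ℕ} (hk : k < n) :
    ((k : ℝ) + 1) ^ (2 / 3 : ℝ) / 256 - L ≤ Lam n W k ∧
      (8 * (k + 1) ≤ n → Lam n W k ≤ 60 * ((k : ℝ) + 1) ^ (2 / 3 : ℝ) + L) := by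
  have := (le_ciSup (f := fun k : Fin n => max ((((k : ℕ) : ℝ) + 1) ^ (2 / 3 : ℝ) / 256 -
      tau n * (2 - lam W k)) (if 8 * ((k : ℕ) + 1) ≤ n then tau n * (2 - lam W k) -
        60 * (((k : ℕ) : ℝ) + 1) ^ (2 / 3 : ℝ) else 0)) (Finite.bddAbove_range _) ⟨k, hk⟩).trans h
  rw [max_le_iff] at this
  refine ⟨by rw [Lam]; linarith [this.1], fun h8 => ?_⟩
  have h2 := this.2
  rw [if_pos h8] at h2
  rw [Lam]
  linarith

lemma tau_eq_sq (n : ℕ) : tau n = (sx n ^ 2) ^ 2 := by rw [tau_eq]; ring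

lemma tendsto_t : Tendsto (fun n => sx n ^ 2) atTop atTop :=
  (tendsto_pow_atTop two_ne_zero).comp tendsto_sx

lemma ofReal_le {μ : Measure (Mat n)} [IsProbabilityMeasure μ] {s : Set (Mat n)} {ε : ℝ}
    (h : μ.real s ≤ ε) : μ s ≤ ENNReal.ofReal ε := by
  rw [← ofReal_measureReal (measure_ne_top _ _)]
  exact ENNReal.ofReal_le_ofReal h

theorem good (hS : SteinStmt) (hE : EdgeTStmt) : GoodStmt := by
  obtain ⟨C, hC0, hC⟩ := markovP hS
  refine ⟨5, by norm_num, fun ε hε => ?_⟩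
  obtain ⟨L, hL0, hL⟩ := kap_tail hE (show 0 < ε / 3 by positivity)
  refine ⟨L, max (max 3 (2 * L)) (300000 * C / ε), hL0, fun w hw => ?_⟩
  have hw3 : 3 ≤ w := ((le_max_left _ _).trans (le_max_left _ _)).trans hw
  have hwL : 2 * L ≤ w := ((le_max_right _ _).trans (le_max_left _ _)).trans hw
  have hwC : 300000 * C ≤ w * ε := (div_le_iff₀ hε).1 ((le_max_right _ _).trans hw)
  filter_upwards [hL, tendsto_t.eventually_ge_atTop (600 * w), eventually_ge_atTop 1]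
    with n h1 ht hn
  refine ofReal_le ?_
  set t := sx n ^ 2 with htd
  have hτ : tau n = t ^ 2 := tau_eq_sq n
  set B : ℕ → Set (Mat n) := fun j => {W | 2 * (2 ^ j * w) ≤ t ^ 2 ∧
    2 ^ j * w < ‖PP n (Lam n W) t (zd (2 ^ j * w))‖} with hB
  have h2 : (GOE n).real {W | w / 100 < ‖PP n (Lam n W) t (zu w)‖} ≤ ε / 3 := by
    have a1 : ‖zu w‖ ≤ w + 369 / 800 * w := norm_mk_le (by linarith) (by linarith)
    have hi : (zu w).im = 369 / 800 * w := rfl
    refine (hC n hn (zu w) (by rw [hi]; linarith) (by rw [hτ]; nlinarith) _ (by linarith)).trans ?_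
    rw [hi, div_le_iff₀ (by positivity)]
    have a2 := mul_le_mul_of_nonneg_left a1 hC0.le
    have a3 : w * (w * ε) * 9 ≤ w * (w * ε) * w ^ 2 :=
      mul_le_mul_of_nonneg_left (by nlinarith) (by positivity)
    nlinarith [mul_le_mul_of_nonneg_left hwC (show 0 ≤ w by linarith)]
  have h3 : ∀ j ∈ range n, (GOE n).real (B j) ≤ ε / 6 * (1 / 2) ^ j := fun j _ => by
    by_cases hj : 2 * (2 ^ j * w) ≤ t ^ 2
    · have a0 : (1 : ℝ) ≤ 2 ^ j := one_le_pow₀ one_le_two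
      set u := 2 ^ j * w with hu
      have a1 : 3 ≤ u := by nlinarith
      have a2 : ‖zd u‖ ≤ u + u := norm_mk_le (by linarith) (by linarith)
      have hi : (zd u).im = u := rfl
      refine (measureReal_mono (fun W hW => hW.2) (measure_ne_top _ _)).trans
        ((hC n hn (zd u) (by rw [hi]; linarith) (by rw [hτ]; linarith) u (by linarith)).trans ?_)
      rw [hi, one_div, inv_pow, ← div_eq_mul_inv, div_le_div_iff₀ (by positivity) (by positivity)]
      have a3 := mul_le_mul_of_nonneg_right (mul_le_mul_of_nonneg_left a2 hC0.le)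
        (show (0 : ℝ) ≤ 2 ^ j by positivity)
      have a4 : 300000 * C * 2 ^ j ≤ u * ε := by
        have := mul_le_mul_of_nonneg_right hwC (show (0 : ℝ) ≤ 2 ^ j by positivity)
        rw [hu]; linarith
      have a5 : u * (u * ε) * 1 ≤ u * (u * ε) * u ^ 2 :=
        mul_le_mul_of_nonneg_left (by nlinarith) (by positivity)
      have a6 := mul_le_mul_of_nonneg_left a4 (show 0 ≤ u by linarith)
      have a7 : 0 ≤ u * (C * 2 ^ j) := by positivity
      nlinarith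
    · simp only [hB, hj, false_and, Set.ofPred_false, measureReal_empty]
      positivity
  have h4 : (GOE n).real (⋃ j ∈ range n, B j) ≤ ε / 3 := by
    refine (measureReal_biUnion_finset_le _ _).trans ((sum_le_sum h3).trans ?_)
    rw [← mul_sum]
    nlinarith [sum_geometric_two_le n]
  have h5 : (GOE n).real {W | ¬ (W.IsHermitian ∧ Gd n (Lam n W) t L w 5)} ≤ (GOE n).real
      (({W | L < kapL n (lam W)} ∪ {W | w / 100 < ‖PP n (Lam n W) t (zu w)‖}) ∪
        ⋃ j ∈ range n, B j) := by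
    refine ENNReal.toReal_mono (measure_ne_top _ _) (measure_mono_ae ?_)
    filter_upwards [goe_ae_herm n] with W hW hb
    by_contra hc
    change W ∉ ({W | L < kapL n (lam W)} ∪ {W | w / 100 < ‖PP n (Lam n W) t (zu w)‖}) ∪
      ⋃ j ∈ range n, B j at hc
    simp only [Set.mem_union, Set.mem_ofPred_eq, not_or, not_lt, Set.mem_iUnion, not_exists, hB,
      not_and, mem_range] at hc
    obtain ⟨⟨c1, c2⟩, c3⟩ := hc
    have hlo : ∀ k < n, w / 2 ≤ w + Lam n W k := fun k hk => by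
      have := (lo_hi c1 hk).1
      have : 0 ≤ ((k : ℝ) + 1) ^ (2 / 3 : ℝ) / 256 := by positivity
      linarith
    refine hb ⟨hW, fun k l hkl hl => ?_, fun k hk => (lo_hi c1 hk).1,
      fun k hk => (lo_hi c1 (by omega)).2 hk, up_det (by linarith) ht hlo c2, fun v hv =>
      dn_det (by linarith) (by linarith) (fun k hk => by linarith [hlo k hk]) (fun j hj => ?_) hv⟩
    · exact mul_le_mul_of_nonneg_left
        (by linarith [lam_anti hW hkl (by simpa using hl)]) (tau_nonneg n)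
    · refine c3 j ?_ hj
      have a1 : t ^ 2 ≤ n := by
        rw [← sx_pow_six, htd, ← pow_mul]
        exact pow_le_pow_right₀ (one_le_sx hn) (by norm_num)
      have a2 : (j : ℝ) < 2 ^ j := by exact_mod_cast Nat.lt_two_pow_self
      have a3 : (0 : ℝ) < 2 ^ j := by positivity
      exact_mod_cast (show (j : ℝ) < n by nlinarith)
  have h6 := measureReal_union_le (μ := GOE n) ({W | L < kapL n (lam W)} ∪
    {W | w / 100 < ‖PP n (Lam n W) t (zu w)‖}) (⋃ j ∈ range n, B j)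
  have h7 := measureReal_union_le (μ := GOE n) {W | L < kapL n (lam W)}
    {W | w / 100 < ‖PP n (Lam n W) t (zu w)‖}
  linarith

lemma tail_small {δ : ℝ} (hδ : 0 < δ) : ∀ᶠ K : ℕ in atTop, ∀ n : ℕ,
    ∑ k ∈ Ico K n, ((((k : ℝ) + 1) ^ (2 / 3 : ℝ) / 512) ^ 2)⁻¹ ≤ δ := by
  set f : ℕ → ℝ := fun k => ((((k : ℝ) + 1) ^ (2 / 3 : ℝ) / 512) ^ 2)⁻¹ with hf
  have hs : Summable f := by
    have := ((summable_nat_add_iff 1).2
      (Real.summable_nat_rpow_inv.2 (show (1 : ℝ) < 4 / 3 by norm_num))).mul_left (512 ^ 2)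
    refine this.congr fun k => ?_
    rw [hf]
    simp only
    rw [div_pow, ← Real.rpow_natCast (_ ^ _) 2, ← Real.rpow_mul (by positivity), inv_div,
      div_eq_mul_inv (512 ^ 2)]
    norm_num
  filter_upwards [hs.hasSum.tendsto_sum_nat.eventually_const_le
    (show ∑' k, f k - δ < ∑' k, f k by linarith)] with K hK n
  rcases le_total K n with h | h
  · have := hs.sum_le_tsum (range n) fun k _ => by simp only [hf]; positivity
    rw [← sum_range_add_sum_Ico _ h] at this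
    linarith
  · rw [Ico_eq_empty_of_le h, sum_empty]; exact hδ.le

theorem ren (hS : SteinStmt) (hE : EdgeTStmt) : RenStmt := by
  obtain ⟨C, hC0, hC⟩ := markovP hS
  intro w ε hε
  obtain ⟨L0, hL0, hL⟩ := kap_tail hE (half_pos hε)
  set L := max (max 1 (32 / ε ^ 2)) (2 * C / ε) with hLd
  have hL1 : 1 ≤ L := (le_max_left _ _).trans (le_max_left _ _)
  have hL2 : 32 ≤ L * ε ^ 2 :=
    (div_le_iff₀ (by positivity)).1 ((le_max_right _ _).trans (le_max_left _ _))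
  have hL3 : 2 * C ≤ L * ε := (div_le_iff₀ hε).1 (le_max_right _ _)
  refine ⟨L, by linarith, ?_⟩
  have hA : Tendsto (fun k : ℕ => ((k : ℝ) + 1) ^ (2 / 3 : ℝ) / 512) atTop atTop :=
    ((tendsto_rpow_atTop (by norm_num)).comp
      (tendsto_atTop_add_const_right _ 1 tendsto_natCast_atTop_atTop)).atTop_div_const (by norm_num)
  have hD : 0 < 2 * (L ^ 2 + |w|) := by positivity
  filter_upwards [tail_small (δ := ε / 2 / (2 * (L ^ 2 + |w|))) (by positivity),
    eventually_forall_ge_atTop.2 (hA.eventually_ge_atTop (max (max 1 (2 * |w|)) L0))] with K hK1 hK2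
  filter_upwards [hL, tendsto_t.eventually_ge_atTop (5 * L ^ 2), eventually_ge_atTop 1,
    eventually_ge_atTop K] with n h1 ht hn hKn
  refine ofReal_le ?_
  set t := sx n ^ 2 with htd
  have hτ : tau n = t ^ 2 := tau_eq_sq n
  have h2 : (GOE n).real {W | 1 < ‖PP n (Lam n W) t ⟨0, L⟩‖} ≤ ε / 2 := by
    have a1 : ‖(⟨0, L⟩ : ℂ)‖ ≤ 0 + L := norm_mk_le le_rfl (by linarith)
    refine (hC n hn ⟨0, L⟩ hL1 (by rw [hτ]; exact a1.trans (le_sq_of hL1 ht)) 1 one_pos).trans ?_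
    rw [div_le_iff₀ (by positivity)]
    have a2 := mul_le_mul_of_nonneg_left a1 hC0.le
    nlinarith [mul_le_mul_of_nonneg_left hL3 (show 0 ≤ L by linarith)]
  refine (measureReal_mono (s₂ := {W | L0 < kapL n (lam W)} ∪ {W | 1 < ‖PP n (Lam n W) t ⟨0, L⟩‖})
    (fun W hW => ?_) (measure_ne_top _ _)).trans ((measureReal_union_le _ _).trans (by linarith))
  by_contra hc
  simp only [Set.mem_union, Set.mem_ofPred_eq, not_or, not_lt] at hc
  have h3 := ren_det (η := Lam n W) (w := w) hL1 ht hKn hc.2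
  have h4 : 2 / √(L / 2) ≤ ε / 2 := by
    have hs0 : 0 < √(L / 2) := Real.sqrt_pos.2 (by linarith)
    have hs := Real.sq_sqrt (show 0 ≤ L / 2 by linarith)
    have : 4 ≤ √(L / 2) * ε :=
      (pow_le_pow_iff_left₀ (by norm_num) (by positivity) two_ne_zero).1 (by rw [mul_pow, hs]; linarith)
    rw [div_le_iff₀ hs0]
    linarith
  have h5 : ∑ k ∈ Ico K n, |1 / (w + Lam n W k) - Lam n W k / (Lam n W k ^ 2 + L ^ 2)| ≤ ε / 2 := by
    refine (sum_le_sum (s := Ico K n) fun k hk => tail_term (w := w) (L := L) (x := Lam n W k)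
      (a := ((k : ℝ) + 1) ^ (2 / 3 : ℝ) / 512) ?_ ?_ ?_).trans ?_
    · exact ((le_max_left _ _).trans (le_max_left _ _)).trans (hK2 k (mem_Ico.1 hk).1)
    · exact ((le_max_right _ _).trans (le_max_left _ _)).trans (hK2 k (mem_Ico.1 hk).1)
    · linarith [(lo_hi hc.1 (mem_Ico.1 hk).2).1, (le_max_right _ _).trans (hK2 k (mem_Ico.1 hk).1)]
    · rw [← mul_sum, mul_comm, ← le_div_iff₀ hD]
      exact hK1 n
  exact absurd (h3.trans (add_le_add h4 h5)) (not_le.2 (by rw [add_halves]; exact hW))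

end Good84

theorem goodGlue : GoodGlue := fun hS hE => ⟨Good84.good hS hE, Good84.ren hS hE⟩

end Crest.Agent.T157.St

end
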