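import Crest.Agent.T157.StDef_87

/-!
# Row 157, part C4 (statics): isometries, projections, rotations (helper42)

`isomStmt : IsomStmt`, `projGlue : ProjGlue`, `rotStmt : RotStmt`.
-/

set_option autoImplicit false
set_option linter.unusedSectionVars false

noncomputable section

namespace Crest.Agent.T157.St

open MeasureTheory ProbabilityTheory Matrix Filter Topology Finset Real
open scoped ENNReal
open Crest.ProbabilityR.SpinGlassDynamics Crest.Agent.T157.E Crest.Agent.T157.Eig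
open Crest.Agent.T157.Cond Crest.Agent.T157.Ed Crest.Agent.T157.Top

namespace Iso42

section good
variable {Ω : Type*} [MeasurableSpace Ω]

/-- measurable and almost surely bounded -/
structure Good (μ : Measure Ω) (f : Ω → ℝ) : Prop where
  meas : Measurable f
  bdd : ∃ C : ℝ, 0 ≤ C ∧ ∀ᵐ x ∂μ, |f x| ≤ C

variable {μ : Measure Ω} {f g : Ω → ℝ}

lemma Good.integrable [IsFiniteMeasure μ] (h : Good μ f) : Integrable f μ := by
  obtain ⟨C, -, hC⟩ := h.bdd
  exact Integrable.of_bound h.meas.aestronglyMeasurable C hC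

lemma Good.mul (h : Good μ f) (h' : Good μ g) : Good μ fun x => f x * g x := by
  obtain ⟨C, h0, hC⟩ := h.bdd
  obtain ⟨D, h1, hD⟩ := h'.bdd
  refine ⟨h.meas.mul h'.meas, C * D, mul_nonneg h0 h1, ?_⟩
  filter_upwards [hC, hD] with x hx hy
  rw [abs_mul]
  exact mul_le_mul hx hy (abs_nonneg _) h0

lemma Good.add (h : Good μ f) (h' : Good μ g) : Good μ fun x => f x + g x := by
  obtain ⟨C, h0, hC⟩ := h.bdd
  obtain ⟨D, h1, hD⟩ := h'.bdd
  refine ⟨h.meas.add h'.meas, C + D, add_nonneg h0 h1, ?_⟩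
  filter_upwards [hC, hD] with x hx hy
  exact (abs_add_le _ _).trans (add_le_add hx hy)

lemma Good.const (c : ℝ) : Good μ fun _ => c :=
  ⟨measurable_const, |c|, abs_nonneg _, ae_of_all _ fun _ => le_rfl⟩

lemma Good.abs (h : Good μ f) : Good μ fun x => |f x| := by
  obtain ⟨C, h0, hC⟩ := h.bdd
  exact ⟨h.meas.abs, C, h0, hC.mono fun x hx => by rwa [abs_abs]⟩

lemma Good.exp (h : Good μ f) : Good μ fun x => Real.exp (f x) := by
  obtain ⟨C, -, hC⟩ := h.bdd
  refine ⟨h.meas.exp, Real.exp C, (exp_pos _).le, hC.mono fun x hx => ?_⟩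
  rw [abs_of_pos (exp_pos _)]
  exact exp_le_exp.2 (le_of_abs_le hx)

lemma Good.sum {α : Type*} (s : Finset α) {F : α → Ω → ℝ} (h : ∀ a ∈ s, Good μ (F a)) :
    Good μ fun x => ∑ a ∈ s, F a x := by
  classical
  induction s using Finset.induction_on with
  | empty => simpa using Good.const (μ := μ) 0
  | insert a s ha ih =>
    simp only [sum_insert ha]
    exact (h a (mem_insert_self _ _)).add (ih fun b hb => h b (mem_insert_of_mem hb))

lemma Good.fst {Ω' : Type*} [MeasurableSpace Ω'] (ν : Measure Ω') [SFinite ν] (h : Good μ f) :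
    Good (μ.prod ν) fun p => f p.1 := by
  obtain ⟨C, h0, hC⟩ := h.bdd
  exact ⟨h.meas.comp measurable_fst, C, h0,
    (Measure.quasiMeasurePreserving_fst (μ := μ) (ν := ν)).ae hC⟩

lemma Good.snd {Ω' : Type*} [MeasurableSpace Ω'] (ν : Measure Ω') [SFinite μ] (h : Good μ f) :
    Good (ν.prod μ) fun p => f p.2 := by
  obtain ⟨C, h0, hC⟩ := h.bdd
  exact ⟨h.meas.comp measurable_snd, C, h0,
    (Measure.quasiMeasurePreserving_snd (μ := ν) (ν := μ)).ae hC⟩

/-- Cauchy–Schwarz -/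
lemma cs [IsFiniteMeasure μ] (h : Good μ f) (h' : Good μ g) :
    ∫ x, f x * g x ∂μ ≤ √(∫ x, f x * f x ∂μ) * √(∫ x, g x * g x ∂μ) := by
  have hff := (h.mul h).integrable
  have hgg := (h'.mul h').integrable
  have hfg := (h.mul h').integrable
  have key : ∀ t : ℝ, 0 ≤ (∫ x, f x * f x ∂μ) * (t * t) + (-2 * ∫ x, f x * g x ∂μ) * t +
      ∫ x, g x * g x ∂μ := by
    intro t
    have e : ∫ x, (t * f x - g x) ^ 2 ∂μ = (∫ x, f x * f x ∂μ) * (t * t) +
        (-2 * ∫ x, f x * g x ∂μ) * t + ∫ x, g x * g x ∂μ := by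
      have : ∀ x, (t * f x - g x) ^ 2 =
          (f x * f x * (t * t) + (-2 * t) * (f x * g x)) + g x * g x := fun x => by ring
      simp_rw [this]
      have i1 : Integrable (fun x => f x * f x * (t * t) + -2 * t * (f x * g x)) μ :=
        (hff.mul_const _).add (hfg.const_mul _)
      rw [integral_add i1 hgg,
        integral_add (hff.mul_const _) (hfg.const_mul _), integral_mul_const, integral_const_mul]
      ring
    rw [← e]
    exact integral_nonneg fun x => sq_nonneg _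
  have hd := discrim_le_zero key
  rw [discrim] at hd
  rw [← Real.sqrt_mul (integral_nonneg fun x => mul_self_nonneg _)]
  exact Real.le_sqrt_of_sq_le (by nlinarith)

end good

section chain
variable {ι : Type*} [Fintype ι] {μ ν : Measure (ι → ℝ)}

lemma good_coord (h : Cp μ) (i : ι) : Good μ fun x => x i := by
  obtain ⟨r, hr⟩ := h.bdd
  refine ⟨measurable_pi_apply i, √r, Real.sqrt_nonneg _, hr.mono fun x hx => ?_⟩
  refine Real.abs_le_sqrt (le_trans ?_ hx)
  rw [sq]
  exact single_le_sum (f := fun i => x i * x i) (fun i _ => mul_self_nonneg _) (mem_univ i)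

lemma good_ew (h : Cp μ) (K : ℝ) (y : ι → ℝ) : Good μ (ew K y) := by
  have h1 : Good μ fun x => ∑ i, y i * x i :=
    Good.sum _ fun i _ => (Good.const _).mul (good_coord h i)
  have h2 : Good μ fun x => ∑ i, x i * x i :=
    Good.sum _ fun i _ => (good_coord h i).mul (good_coord h i)
  have h3 := (h1.add ((Good.const (-(K / 2))).mul h2)).exp
  have e : ew K y = fun x => Real.exp (∑ i, y i * x i + -(K / 2) * ∑ i, x i * x i) := by
    funext x; simp only [ew, dotProduct]; congr 1; ring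
  rw [e]; exact h3

lemma measurable_pm [SFinite μ] (K : ℝ) {f : (ι → ℝ) → ℝ} (hf : Measurable f) :
    Measurable (pm K μ f) := by
  have h1 : Measurable fun p : (ι → ℝ) × (ι → ℝ) => ew K p.1 p.2 := by
    unfold ew; fun_prop
  have h2 : Measurable fun p : (ι → ℝ) × (ι → ℝ) => f p.2 * ew K p.1 p.2 :=
    (hf.comp measurable_snd).mul h1
  exact (h2.stronglyMeasurable.integral_prod_right' (ν := μ)).measurable.div
    (h1.stronglyMeasurable.integral_prod_right' (ν := μ)).measurable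

lemma measurable_Tk [SFinite μ] (K : ℝ) {f : (ι → ℝ) → ℝ} (hf : Measurable f) :
    Measurable (Tk K μ f) := by
  have h1 : Measurable fun p : (ι → ℝ) × (ι → ℝ) => pm K μ f (K • p.1 + √K • p.2) :=
    (measurable_pm K hf).comp (by fun_prop)
  exact (h1.stronglyMeasurable.integral_prod_right' (ν := gv ι)).measurable

lemma measurable_Tl [SFinite μ] (Ks : List ℝ) {f : (ι → ℝ) → ℝ} (hf : Measurable f) :
    Measurable (Tl μ Ks f) := by
  induction Ks with
  | nil => exact hf
  | cons K Ks ih => exact measurable_Tk K ih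

lemma abs_pm_le (h : Cp μ) (K : ℝ) {f : (ι → ℝ) → ℝ} {C : ℝ} (h0 : 0 ≤ C)
    (hC : ∀ᵐ x ∂μ, |f x| ≤ C) (y : ι → ℝ) : |pm K μ f y| ≤ C := by
  have := h.prob
  have hM : 0 ≤ Mf K μ y := integral_nonneg fun x => (exp_pos _).le
  rw [pm, abs_div, abs_of_nonneg hM]
  refine div_le_of_le_mul₀ hM h0 ?_
  rw [Mf, ← integral_const_mul, ← Real.norm_eq_abs]
  refine norm_integral_le_of_norm_le ((good_ew h K y).integrable.const_mul C) ?_
  filter_upwards [hC] with x hx
  have : 0 < ew K y x := exp_pos _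
  rw [Real.norm_eq_abs, abs_mul, abs_of_pos this]
  exact mul_le_mul_of_nonneg_right hx this.le

lemma good_pm (h : Cp μ) (K : ℝ) {f : (ι → ℝ) → ℝ} (hf : Good μ f) (x : ι → ℝ) :
    Good (gv ι) fun z => pm K μ f (K • x + √K • z) := by
  have := h.prob
  obtain ⟨C, h0, hC⟩ := hf.bdd
  exact ⟨(measurable_pm K hf.meas).comp (by fun_prop), C, h0,
    ae_of_all _ fun z => abs_pm_le h K h0 hC _⟩

lemma good_Tk (h : Cp μ) (K : ℝ) {f : (ι → ℝ) → ℝ} (hf : Good μ f) : Good μ (Tk K μ f) := by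
  have := h.prob
  obtain ⟨C, h0, hC⟩ := hf.bdd
  refine ⟨measurable_Tk K hf.meas, C, h0, ae_of_all _ fun x => ?_⟩
  have := norm_integral_le_of_norm_le_const (μ := gv ι) (C := C)
    (f := fun z => pm K μ f (K • x + √K • z)) (ae_of_all _ fun z => abs_pm_le h K h0 hC _)
  simpa [Tk] using this

lemma good_Tl (h : Cp μ) (Ks : List ℝ) {f : (ι → ℝ) → ℝ} (hf : Good μ f) :
    Good μ (Tl μ Ks f) := by
  induction Ks with
  | nil => exact hf
  | cons K Ks ih => exact good_Tk h K ih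

lemma Tk_sum (h : Cp μ) (K : ℝ) {α : Type*} (s : Finset α) (c : α → ℝ)
    {F : α → (ι → ℝ) → ℝ} (hF : ∀ a, Good μ (F a)) :
    Tk K μ (fun x => ∑ a ∈ s, c a * F a x) = fun x => ∑ a ∈ s, c a * Tk K μ (F a) x := by
  have := h.prob
  have h1 : ∀ y, pm K μ (fun x => ∑ a ∈ s, c a * F a x) y = ∑ a ∈ s, c a * pm K μ (F a) y := by
    intro y
    simp only [pm, sum_mul, mul_assoc]
    rw [integral_finsetSum _ fun a _ => ((hF a).mul (good_ew h K y)).integrable.const_mul _,
      sum_div]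
    exact sum_congr rfl fun a _ => by rw [integral_const_mul, mul_div_assoc]
  funext x
  simp only [Tk, h1]
  rw [integral_finsetSum _ fun a _ => (good_pm h K (hF a) x).integrable.const_mul _]
  exact sum_congr rfl fun a _ => integral_const_mul _ _

lemma Tl_sum (h : Cp μ) (Ks : List ℝ) {α : Type*} (s : Finset α) (c : α → ℝ)
    {F : α → (ι → ℝ) → ℝ} (hF : ∀ a, Good μ (F a)) :
    Tl μ Ks (fun x => ∑ a ∈ s, c a * F a x) = fun x => ∑ a ∈ s, c a * Tl μ Ks (F a) x := by
  induction Ks with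
  | nil => rfl
  | cons K Ks ih =>
    have : Tl μ (K :: Ks) (fun x => ∑ a ∈ s, c a * F a x) =
        Tk K μ (Tl μ Ks fun x => ∑ a ∈ s, c a * F a x) := rfl
    rw [this, ih, Tk_sum h K s c fun a => good_Tl h Ks (hF a)]
    rfl

lemma Xk_map {κ κ' : Type*} [Fintype κ] [Fintype κ'] (θ : ℝ) (μ : Measure (κ → ℝ))
    (ν : Measure (κ' → ℝ)) [SFinite ν] {f : (κ → ℝ) → ι → ℝ} {g : (κ' → ℝ) → ι → ℝ}
    (hf : Measurable f) (hg : Measurable g) :
    Xk θ (μ.map f) (ν.map g) = ∫ x, ∫ x', exp (θ * (f x ⬝ᵥ g x')) ∂ν ∂μ := by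
  have h1 : ∀ x : ι → ℝ, ∫ x', exp (θ * (x ⬝ᵥ x')) ∂ν.map g = ∫ x', exp (θ * (x ⬝ᵥ g x')) ∂ν :=
    fun x => integral_map hg.aemeasurable
      (by fun_prop : Measurable fun x' : ι → ℝ => exp (θ * (x ⬝ᵥ x'))).aestronglyMeasurable
  have h2 : Measurable fun p : (ι → ℝ) × (κ' → ℝ) => exp (θ * (p.1 ⬝ᵥ g p.2)) := by fun_prop
  simp only [Xk, h1]
  exact integral_map hf.aemeasurable
    (h2.stronglyMeasurable.integral_prod_right' (ν := ν)).aestronglyMeasurable

end chain

section isom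
variable {ι κ : Type*} [Fintype ι] [Fintype κ] [DecidableEq κ] {U : Matrix ι κ ℝ}

lemma back (hU : Uᵀ * U = 1) (x : κ → ℝ) : Uᵀ *ᵥ (U *ᵥ x) = x := by
  rw [mulVec_mulVec, hU, one_mulVec]

lemma dot_U (U : Matrix ι κ ℝ) (y : ι → ℝ) (x : κ → ℝ) : y ⬝ᵥ U *ᵥ x = (Uᵀ *ᵥ y) ⬝ᵥ x := by
  rw [dotProduct_mulVec, mulVec_transpose]

lemma dot_UU (hU : Uᵀ * U = 1) (x x' : κ → ℝ) : (U *ᵥ x) ⬝ᵥ (U *ᵥ x') = x ⬝ᵥ x' := by
  rw [dot_U, back hU]

lemma measurable_U (U : Matrix ι κ ℝ) : Measurable fun x : κ → ℝ => U *ᵥ x := by fun_prop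

lemma emb (hU : Uᵀ * U = 1) : MeasurableEmbedding fun x : κ → ℝ => U *ᵥ x := by
  refine Continuous.measurableEmbedding (by fun_prop) fun x x' h => ?_
  have := congrArg (fun y => Uᵀ *ᵥ y) h
  simpa only [back hU] using this

lemma gv_map (hU : Uᵀ * U = 1) : (gv ι).map (fun z => Uᵀ *ᵥ z) = gv κ := by
  have := ext_vec (μ := gv ι) (ν := gv κ) (X := fun z => Uᵀ *ᵥ z) (Y := id) (by fun_prop)
    measurable_id fun t => by
      have e : ∀ z : ι → ℝ, t ⬝ᵥ Uᵀ *ᵥ z = (U *ᵥ t) ⬝ᵥ z := fun z => by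
        rw [dotProduct_mulVec, vecMul_transpose]
      simp only [e, id]
      rw [CF_gv, CF_gv, dot_UU hU]
  rwa [Measure.map_id] at this

lemma pm_map (hU : Uᵀ * U = 1) (μ : Measure (κ → ℝ)) (K : ℝ) (f : (ι → ℝ) → ℝ) (y : ι → ℝ) :
    pm K (μ.map fun x => U *ᵥ x) f y = pm K μ (fun x => f (U *ᵥ x)) (Uᵀ *ᵥ y) := by
  have e : ∀ x, ew K y (U *ᵥ x) = ew K (Uᵀ *ᵥ y) x := fun x => by
    simp only [ew, dot_UU hU]; rw [dot_U]
  simp only [pm, Mf, (emb hU).integral_map, e]

lemma Tk_map (hU : Uᵀ * U = 1) (μ : Measure (κ → ℝ)) [SFinite μ] (K : ℝ) {f : (ι → ℝ) → ℝ}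
    (hf : Measurable f) (x : κ → ℝ) :
    Tk K (μ.map fun x => U *ᵥ x) f (U *ᵥ x) = Tk K μ (fun x => f (U *ᵥ x)) x := by
  simp only [Tk, pm_map hU, mulVec_add, mulVec_smul, back hU]
  rw [← gv_map hU, integral_map (by fun_prop)]
  exact ((measurable_pm K (hf.comp (measurable_U U))).comp
    (by fun_prop : Measurable fun z : κ → ℝ => K • x + √K • z)).aestronglyMeasurable

lemma Tl_map (hU : Uᵀ * U = 1) (μ : Measure (κ → ℝ)) [SFinite μ] (Ks : List ℝ)
    {f : (ι → ℝ) → ℝ} (hf : Measurable f) :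
    (fun x => Tl (μ.map fun x => U *ᵥ x) Ks f (U *ᵥ x)) = Tl μ Ks fun x => f (U *ᵥ x) := by
  induction Ks with
  | nil => rfl
  | cons K Ks ih =>
    funext x
    have e1 : Tl (μ.map fun x => U *ᵥ x) (K :: Ks) f =
        Tk K (μ.map fun x => U *ᵥ x) (Tl (μ.map fun x => U *ᵥ x) Ks f) := rfl
    have e2 : Tl μ (K :: Ks) (fun x => f (U *ᵥ x)) = Tk K μ (Tl μ Ks fun x => f (U *ᵥ x)) := rfl
    rw [e1, e2, Tk_map hU μ K (measurable_Tl Ks hf), ih]

lemma cp_map (hU : Uᵀ * U = 1) {μ : Measure (κ → ℝ)} (h : Cp μ) : Cp (μ.map fun x => U *ᵥ x) := by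
  have := h.prob
  obtain ⟨r, hr⟩ := h.bdd
  refine ⟨Measure.isProbabilityMeasure_map (measurable_U U).aemeasurable, r, ?_⟩
  rw [(emb hU).ae_map_iff]
  exact hr.mono fun x hx => by rwa [dot_UU hU]

lemma sm_map (hU : Uᵀ * U = 1) {μ : Measure (κ → ℝ)} (h : Cp μ) :
    sm (μ.map fun x => U *ᵥ x) = U * sm μ * Uᵀ := by
  have := h.prob
  ext i j
  have e : ∀ x : κ → ℝ, (U *ᵥ x) i * (U *ᵥ x) j =
      ∑ b, ∑ a, U i a * U j b * (x a * x b) := fun x => by
    simp only [mulVec, dotProduct, sum_mul, mul_sum]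
    exact sum_congr rfl fun b _ => sum_congr rfl fun a _ => by ring
  have hi : ∀ a b, Integrable (fun x : κ → ℝ => U i a * U j b * (x a * x b)) μ := fun a b =>
    ((good_coord h a).mul (good_coord h b)).integrable.const_mul _
  simp only [sm, (emb hU).integral_map, e, Matrix.mul_apply, transpose_apply, sum_mul]
  rw [integral_finsetSum _ fun b _ => integrable_finsetSum _ fun a _ => hi a b]
  refine sum_congr rfl fun b _ => ?_
  rw [integral_finsetSum _ fun a _ => hi a b]
  exact sum_congr rfl fun a _ => by rw [integral_const_mul]; ring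

lemma PhiL_map (hU : Uᵀ * U = 1) {μ : Measure (κ → ℝ)} (h : Cp μ) (Ks : List ℝ) :
    PhiL (μ.map fun x => U *ᵥ x) Ks = PhiL μ Ks := by
  have := h.prob
  have e1 : ∀ i x, Tl (μ.map fun x => U *ᵥ x) Ks (fun x => x i) (U *ᵥ x) =
      (U *ᵥ fun a => Tl μ Ks (fun x => x a) x) i := by
    intro i x
    have h1 := congrFun (Tl_map hU μ Ks (f := fun x => x i) (measurable_pi_apply i)) x
    have h2 := congrFun (Tl_sum h Ks univ (fun a => U i a) (F := fun a x => x a)
      (good_coord h)) x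
    exact h1.trans h2
  have g1 : ∀ a, Good μ fun x => Tl μ Ks (fun x => x a) x := fun a => good_Tl h Ks (good_coord h a)
  have g2 : ∀ i, Good μ fun x => (U *ᵥ x) i * (U *ᵥ fun a => Tl μ Ks (fun x => x a) x) i :=
    fun i => (Good.sum _ fun a _ => (Good.const (U i a)).mul (good_coord h a)).mul
      (Good.sum _ fun a _ => (Good.const (U i a)).mul (g1 a))
  simp only [PhiL, (emb hU).integral_map, e1]
  rw [← integral_finsetSum _ fun i _ => (g2 i).integrable,
    ← integral_finsetSum _ fun a _ => ((good_coord h a).mul (g1 a)).integrable]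
  congr 1
  funext x
  exact dot_UU hU x fun a => Tl μ Ks (fun x => x a) x

end isom

section proj
variable {ι : Type*} [Fintype ι] [DecidableEq ι] {μ : Measure (ι → ℝ)}

lemma measurable_keep (s : Finset ι) : Measurable (keep s) := by
  refine measurable_pi_lambda _ fun k => ?_
  simp only [keep]
  split_ifs
  · exact measurable_pi_apply k
  · exact measurable_const

lemma dot_keep (s : Finset ι) (x x' : ι → ℝ) : x ⬝ᵥ keep s x' = ∑ k ∈ s, x k * x' k := by
  simp only [dotProduct, keep, mul_ite, mul_zero]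
  rw [← sum_filter, filter_mem_eq_inter, univ_inter]

lemma keep_dot_keep (s : Finset ι) (x x' : ι → ℝ) :
    keep s x ⬝ᵥ keep s x' = ∑ k ∈ s, x k * x' k := by
  rw [dot_keep]
  exact sum_congr rfl fun k hk => by simp only [keep, if_pos hk]

lemma dot_split (s : Finset ι) (x x' : ι → ℝ) :
    x ⬝ᵥ x' = ∑ k ∈ s, x k * x' k + ∑ k ∈ sᶜ, x k * x' k := by
  rw [sum_add_sum_compl]; rfl

lemma cp_keep (h : Cp μ) (s : Finset ι) : Cp (μ.map (keep s)) := by
  have := h.prob
  obtain ⟨r, hr⟩ := h.bdd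
  refine ⟨Measure.isProbabilityMeasure_map (measurable_keep s).aemeasurable, r, ?_⟩
  rw [ae_map_iff (measurable_keep s).aemeasurable
    (measurableSet_le (by fun_prop) measurable_const)]
  refine hr.mono fun x hx => le_trans ?_ hx
  rw [keep_dot_keep, dot_split s x x]
  exact le_add_of_nonneg_right (sum_nonneg fun k _ => mul_self_nonneg _)

lemma good_ov (h : Cp μ) (s : Finset ι) :
    Good (μ.prod μ) fun p => ∑ k ∈ s, p.1 k * p.2 k := by
  have := h.prob
  exact Good.sum _ fun k _ => ((good_coord h k).fst μ).mul ((good_coord h k).snd μ)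

/-- the kernel with the overlap restricted to `s` -/
def Xs (θ : ℝ) (μ : Measure (ι → ℝ)) (s : Finset ι) : ℝ :=
  ∫ p, exp (θ * ∑ k ∈ s, p.1 k * p.2 k) ∂μ.prod μ

lemma Xs_eq (h : Cp μ) (θ : ℝ) (s : Finset ι) :
    Xs θ μ s = ∫ x, ∫ x', exp (θ * ∑ k ∈ s, x k * x' k) ∂μ ∂μ := by
  have := h.prob
  exact integral_prod _ (((Good.const θ).mul (good_ov h s)).exp.integrable)

lemma D2_keep (h : Cp μ) (θ : ℝ) (s : Finset ι) :
    D2 θ μ (μ.map (keep s)) = Xs θ μ univ - Xs θ μ s ∧ Xk θ μ μ = Xs θ μ univ := by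
  have := h.prob
  have e1 : Xk θ μ μ = Xs θ μ univ := by rw [Xs_eq h]; rfl
  have e2 : Xk θ μ (μ.map (keep s)) = Xs θ μ s := by
    have := Xk_map θ μ μ (f := id) measurable_id (measurable_keep s)
    rw [Measure.map_id] at this
    rw [this, Xs_eq h]
    simp only [id, dot_keep]
  have e3 : Xk θ (μ.map (keep s)) (μ.map (keep s)) = Xs θ μ s := by
    rw [Xk_map θ μ μ (measurable_keep s) (measurable_keep s), Xs_eq h]
    simp only [keep_dot_keep]
  refine ⟨?_, e1⟩
  rw [D2, e1, e2, e3]; ring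

lemma exp_sub_le (a b : ℝ) : exp a - exp b ≤ |a - b| * exp a := by
  have h1 : b - a + 1 ≤ exp (b - a) := add_one_le_exp _
  have h2 : exp b = exp (b - a) * exp a := by rw [← exp_add]; congr 1; ring
  have h3 := le_abs_self (a - b)
  have h4 := exp_pos a
  rw [h2]; nlinarith

lemma cross_zero (hf : ∀ k, μ.map (fun x => Function.update x k (-x k)) = μ) {k l : ι}
    (hkl : k ≠ l) : ∫ x, x k * x l ∂μ = 0 := by
  have hm : Measurable fun x : ι → ℝ => Function.update x k (-x k) := by fun_prop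
  have h1 : ∫ x, x k * x l ∂μ = ∫ x, -(x k * x l) ∂μ := by
    conv_lhs => rw [← hf k]
    rw [integral_map hm.aemeasurable
      (by fun_prop : Measurable fun x : ι → ℝ => x k * x l).aestronglyMeasurable]
    congr 1
    funext x
    rw [Function.update_self, Function.update_of_ne hkl.symm]; ring
  rw [integral_neg] at h1
  linarith

lemma ov_sq (h : Cp μ) (hf : ∀ k, μ.map (fun x => Function.update x k (-x k)) = μ)
    (s : Finset ι) :
    ∫ p, |∑ k ∈ s, p.1 k * p.2 k| * |∑ k ∈ s, p.1 k * p.2 k| ∂μ.prod μ =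
      ∑ k ∈ s, (∫ x, x k ^ 2 ∂μ) ^ 2 := by
  have := h.prob
  have e : ∀ p : (ι → ℝ) × (ι → ℝ), |∑ k ∈ s, p.1 k * p.2 k| * |∑ k ∈ s, p.1 k * p.2 k| =
      ∑ k ∈ s, ∑ l ∈ s, p.1 k * p.1 l * (p.2 k * p.2 l) := fun p => by
    rw [abs_mul_abs_self, sum_mul_sum]
    exact sum_congr rfl fun k _ => sum_congr rfl fun l _ => by ring
  have hi : ∀ k l, Integrable (fun p : (ι → ℝ) × (ι → ℝ) => p.1 k * p.1 l * (p.2 k * p.2 l))
      (μ.prod μ) := fun k l =>
    ((((good_coord h k).mul (good_coord h l)).fst μ).mul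
      (((good_coord h k).mul (good_coord h l)).snd μ)).integrable
  simp only [e]
  rw [integral_finsetSum _ fun k _ => integrable_finsetSum _ fun l _ => hi k l]
  refine sum_congr rfl fun k hk => ?_
  rw [integral_finsetSum _ fun l _ => hi k l, sum_eq_single_of_mem k hk]
  · rw [integral_prod_mul (fun x : ι → ℝ => x k * x k) (fun x : ι → ℝ => x k * x k)]
    simp only [sq]
  · intro l _ hl
    rw [integral_prod_mul (fun x : ι → ℝ => x k * x l) (fun x : ι → ℝ => x k * x l),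
      cross_zero hf hl.symm, zero_mul]

lemma proj (h : Cp μ) (hf : ∀ k, μ.map (fun x => Function.update x k (-x k)) = μ)
    (s : Finset ι) {θ : ℝ} (hθ : 0 ≤ θ) :
    D2 θ μ (μ.map (keep s)) ≤
      θ * √(∑ k ∈ sᶜ, (∫ x, x k ^ 2 ∂μ) ^ 2) * √(Xk (2 * θ) μ μ) := by
  have := h.prob
  have ga := ((Good.const θ).mul (good_ov h univ)).exp
  have gb := ((Good.const θ).mul (good_ov h s)).exp
  have gq := (good_ov h sᶜ).abs
  have hc := cs gq ga
  rw [ov_sq h hf] at hc
  have e2 : ∫ p, exp (θ * ∑ k, p.1 k * p.2 k) * exp (θ * ∑ k, p.1 k * p.2 k) ∂μ.prod μ =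
      Xk (2 * θ) μ μ := by
    rw [(D2_keep h (2 * θ) s).2, Xs]
    congr 1
    funext p
    rw [← exp_add]; congr 1; ring
  rw [e2] at hc
  rw [(D2_keep h θ s).1, Xs, Xs, ← integral_sub ga.integrable gb.integrable, mul_assoc]
  refine le_trans ?_ (mul_le_mul_of_nonneg_left hc hθ)
  rw [← integral_const_mul]
  refine integral_mono (ga.integrable.sub gb.integrable) ((gq.mul ga).integrable.const_mul θ)
    fun p => ?_
  refine (exp_sub_le _ _).trans (le_of_eq ?_)
  rw [← sum_add_sum_compl s fun k => p.1 k * p.2 k, ← mul_sub, add_sub_cancel_left, abs_mul,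
    abs_of_nonneg hθ, mul_assoc]

end proj

section rot
variable {ι : Type*} [Fintype ι] [DecidableEq ι]

/-- two orthogonal vectors lie along two prescribed columns of an orthogonal matrix -/
lemma exists_orth {i j : ι} (hij : i ≠ j) (a b : ι → ℝ) (hab : a ⬝ᵥ b = 0) :
    ∃ O : Matrix ι ι ℝ, Oᵀ * O = 1 ∧ (a = len a • fun k => O k i) ∧ b = len b • fun k => O k j := by
  let v : ι → EuclideanSpace ℝ ι := fun k => WithLp.toLp 2 (unitv (if k = i then a else b))
  let s : Set ι := {k | (k = i ∧ a ≠ 0) ∨ (k = j ∧ b ≠ 0)}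
  have hin : ∀ k l, inner ℝ (v k) (v l) =
      unitv (if l = i then a else b) ⬝ᵥ unitv (if k = i then a else b) := fun k l => by
    simp only [v, EuclideanSpace.inner_eq_star_dotProduct, star_trivial]
  have h0 : unitv a ⬝ᵥ unitv b = 0 := by
    simp only [unitv, smul_dotProduct, dotProduct_smul, hab, smul_zero]
  have h0' : unitv b ⬝ᵥ unitv a = 0 := by rw [dotProduct_comm, h0]
  have hv : Orthonormal ℝ (s.domRestrict v) := by
    rw [orthonormal_iff_ite]
    rintro ⟨k, hk⟩ ⟨l, hl⟩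
    simp only [Set.domRestrict_apply, hin, Subtype.mk.injEq]
    rcases hk with ⟨rfl, hk⟩ | ⟨rfl, hk⟩ <;> rcases hl with ⟨rfl, hl⟩ | ⟨rfl, hl⟩
    · simp [unitv_dot hk]
    · simp [hij, hij.symm, h0']
    · simp [hij.symm, h0]
    · simp [hij.symm, unitv_dot hk]
  obtain ⟨B, hB⟩ := hv.exists_orthonormalBasis_extension_of_card_eq (by simp)
  refine ⟨Matrix.of fun k l => B l k, ?_, ?_, ?_⟩
  · ext k l
    have := orthonormal_iff_ite.1 B.orthonormal l k
    rw [EuclideanSpace.inner_eq_star_dotProduct, star_trivial] at this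
    rw [Matrix.mul_apply, Matrix.one_apply]
    simp only [transpose_apply, Matrix.of_apply]
    rw [show (if k = l then (1 : ℝ) else 0) = if l = k then 1 else 0 from if_congr eq_comm rfl rfl,
      ← this]
    rfl
  · by_cases ha : a = 0
    · rw [len_eq_zero.2 ha, zero_smul, ha]
    · have := hB i (Or.inl ⟨rfl, ha⟩)
      simp only [Matrix.of_apply, this, v, if_true]
      exact (len_smul_unitv a).symm
  · by_cases hb : b = 0
    · rw [len_eq_zero.2 hb, zero_smul, hb]
    · have := hB j (Or.inr ⟨rfl, hb⟩)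
      simp only [Matrix.of_apply, this, v, if_neg hij.symm]
      exact (len_smul_unitv b).symm

lemma quad_col (O W : Matrix ι ι ℝ) (c : ℝ) (i : ι) :
    (c • fun k => O k i) ⬝ᵥ W *ᵥ (c • fun k => O k i) = c ^ 2 * (Oᵀ * W * Oᵀᵀ) i i := by
  simp only [mulVec_smul, smul_dotProduct, dotProduct_smul, smul_eq_mul, transpose_transpose,
    Matrix.mul_assoc]
  rw [← mul_assoc, ← sq]
  rfl

lemma sx_mul_tau (n : ℕ) : tau n * sx n ^ 2 = n := by
  rw [tau, sx, ← Real.rpow_natCast, ← Real.rpow_mul (Nat.cast_nonneg n),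
    ← Real.rpow_add' (Nat.cast_nonneg n) (by norm_num)]
  norm_num

end rot

end Iso42

open Iso42

theorem isomStmt : IsomStmt := by
  intro ι κ _ _ _ U hU μ ν hμ hν
  have := hν.prob
  refine ⟨cp_map hU hμ, fun θ => ?_, sm_map hU hμ, fun Ks _ => PhiL_map hU hμ Ks⟩
  rw [Xk_map θ μ ν (measurable_U U) (measurable_U U)]
  simp only [dot_UU hU, Xk]

theorem projStmt : ProjStmt := by
  intro ι _ _ μ h hf s θ hθ
  refine (proj h hf s hθ).trans ?_
  have : 0 ≤ θ * √(∑ k ∈ sᶜ, (∫ x, x k ^ 2 ∂μ) ^ 2) * √(Xk (2 * θ) μ μ) := by positivity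
  linarith

theorem projGlue : ProjGlue := fun _ => projStmt

theorem rotStmt : RotStmt := by
  intro n i j hij G hG hinv x x' hx hx'
  have hc : x' ⬝ᵥ x = x ⬝ᵥ x' := dotProduct_comm _ _
  obtain ⟨O, hO, ha, hb⟩ := exists_orth hij (x + x') (x - x') (by
    simp only [add_dotProduct, dotProduct_sub, hx, hx', hc]; ring)
  have la : len (x + x') ^ 2 = 2 * sx n ^ 2 + 2 * (x ⬝ᵥ x') := by
    rw [len_sq]; simp only [add_dotProduct, dotProduct_add, hx, hx', hc]; ring
  have lb : len (x - x') ^ 2 = 2 * sx n ^ 2 - 2 * (x ⬝ᵥ x') := by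
    rw [len_sq]; simp only [sub_dotProduct, dotProduct_sub, hx, hx', hc]; ring
  have hO' : Oᵀᵀ * Oᵀ = 1 := by rw [transpose_transpose]; exact mul_eq_one_comm.1 hO
  have hmap := goe_conj (ι := Fin n) (1 / Real.sqrt n) Oᵀ (by rw [transpose_transpose]; exact hO)
  have hm : Measurable fun W : Mat n => G W * ENNReal.ofReal
      (exp (n * (W i i + W j j) / 2 + tau n * (x ⬝ᵥ x') * (W i i - W j j) / 2)) := by
    have hi : Measurable fun W : Mat n => W i i := measurable_id.t157_entry i i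
    have hj : Measurable fun W : Mat n => W j j := measurable_id.t157_entry j j
    exact hG.mul (by fun_prop)
  conv_rhs => rw [GOE, ← hmap, lintegral_map hm (by fun_prop)]
  refine lintegral_congr fun W => ?_
  rw [hinv W Oᵀ hO']
  congr 3
  have qa := quad_col O W (len (x + x')) i
  have qb := quad_col O W (len (x - x')) j
  rw [← ha, la] at qa
  rw [← hb, lb] at qb
  simp only [mulVec_add, mulVec_sub, add_dotProduct, dotProduct_add, sub_dotProduct,
    dotProduct_sub] at qa qb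
  have ht := sx_mul_tau n
  simp only [Hh]
  rw [← ht]
  linear_combination (tau n / 4) * qa + (tau n / 4) * qb

end Crest.Agent.T157.St

end
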