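import Crest.Agent.T157.StDef_87
import Crest.Agent.T157.KrA_53
import Crest.Agent.T157.EdTri_62

/-!
# Row 157, part C4 (helper43): moments of one coordinate on the sphere, `LamGlue`
-/

set_option autoImplicit false
set_option linter.unusedSectionVars false

noncomputable section

namespace Crest.Agent.T157.St

open MeasureTheory ProbabilityTheory Matrix Filter Topology Real Set
open scoped ENNReal Nat
open Crest.Agent.T157.E Crest.Agent.T157.Cond Crest.Agent.T157.Ed

namespace Lam43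

/-- radial Gaussian integrals -/
def Ir (m : ℕ) : ℝ := ∫ r in Ioi (0 : ℝ), r ^ m * exp (-(1 / 2) * r ^ 2)

lemma Ir_eq (m : ℕ) :
    Ir m = (1 / 2 : ℝ) ^ (-((m : ℝ) + 1) / 2) * (1 / 2) * Gamma (((m : ℝ) + 1) / 2) := by
  have hm : (-1 : ℝ) < m := by have : (0 : ℝ) ≤ m := Nat.cast_nonneg m; linarith
  rw [← integral_rpow_mul_exp_neg_mul_rpow two_pos hm one_half_pos]
  simp only [Ir, rpow_natCast, rpow_two]

lemma Ir_pos (m : ℕ) : 0 < Ir m := by
  rw [Ir_eq]
  have := Gamma_pos_of_pos (show 0 < ((m : ℝ) + 1) / 2 by positivity)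
  positivity

lemma Ir_rec (m : ℕ) : Ir (m + 2) = (m + 1) * Ir m := by
  rw [Ir_eq, Ir_eq]
  push_cast
  rw [show ((m : ℝ) + 2 + 1) / 2 = (m + 1) / 2 + 1 by ring, Gamma_add_one (by positivity),
    show -((m : ℝ) + 2 + 1) / 2 = -(m + 1) / 2 - 1 by ring, rpow_sub_one (by norm_num)]
  ring

lemma lint_Ir (m : ℕ) :
    ∫⁻ r in Ioi (0 : ℝ), ENNReal.ofReal (r ^ m * exp (-(1 / 2) * r ^ 2)) = ENNReal.ofReal (Ir m) := by
  have hm : (-1 : ℝ) < m := by have : (0 : ℝ) ≤ m := Nat.cast_nonneg m; linarith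
  have hi := integrableOn_rpow_mul_exp_neg_mul_sq one_half_pos hm
  simp only [rpow_natCast] at hi
  rw [Ir, ofReal_integral_eq_lintegral_ofReal hi]
  filter_upwards [ae_restrict_mem measurableSet_Ioi] with r hr
  exact mul_nonneg (pow_nonneg (le_of_lt hr) _) (exp_pos _).le

section
variable {ι : Type} [Fintype ι] [DecidableEq ι] [Nonempty ι]

/-- even moments of a coordinate on the unit sphere -/
def mo (i : ι) (j : ℕ) : ℝ := ∫ x, x i ^ (2 * j) ∂sphR ι 1

lemma sq_le (hS : SphStmt) (i : ι) : ∀ᵐ x ∂sphR ι 1, x i ^ 2 ≤ 1 := by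
  filter_upwards [((hS ι).1 1).2.1] with x hx
  rw [one_pow] at hx
  rw [← hx, sq]
  exact Finset.single_le_sum (f := fun k => x k * x k) (fun k _ => mul_self_nonneg _)
    (Finset.mem_univ i)

lemma int_pow (hS : SphStmt) (i : ι) (j : ℕ) :
    Integrable (fun x : ι → ℝ => x i ^ (2 * j)) (sphR ι 1) := by
  have := ((hS ι).1 1).1
  refine Integrable.of_bound (by fun_prop : Measurable _).aestronglyMeasurable 1 ?_
  filter_upwards [sq_le hS i] with x hx
  rw [pow_mul, Real.norm_of_nonneg (by positivity)]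
  exact pow_le_one₀ (sq_nonneg _) hx

lemma mo_nonneg (i : ι) (j : ℕ) : 0 ≤ mo i j :=
  integral_nonneg fun x => by rw [pow_mul]; positivity

lemma polar (hS : SphStmt) : ∃ c : ℝ, 0 < c ∧ ∀ (i : ι) (j : ℕ),
    ∫⁻ t, ENNReal.ofReal (t ^ (2 * j)) ∂gaussianReal 0 1 =
      ENNReal.ofReal (c * Ir (Fintype.card ι - 1 + 2 * j) * mo i j) := by
  obtain ⟨κ, hκ, hF⟩ := (hS ι).2
  set c0 : ℝ := ((√(2 * π * 1))⁻¹) ^ Fintype.card ι with hc0
  have c0p : 0 < c0 := by rw [hc0]; positivity
  refine ⟨κ * c0, by positivity, fun i j => ?_⟩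
  have hm : Measurable fun t : ℝ => ENNReal.ofReal (t ^ (2 * j)) := by fun_prop
  rw [← (measurePreserving_eval (fun _ : ι => gaussianReal 0 1) i).lintegral_comp hm]
  erw [Kr.lintegral_gv (by fun_prop), hF _ (by fun_prop)]
  have e1 : ∀ r ∈ Ioi (0 : ℝ), ENNReal.ofReal (κ * r ^ (Fintype.card ι - 1)) *
      ∫⁻ x, ENNReal.ofReal (Kr.phi 1 (r • x)) *
        ENNReal.ofReal (Function.eval i (r • x) ^ (2 * j)) ∂sphR ι 1 =
      ENNReal.ofReal (κ * c0 * mo i j) *
        ENNReal.ofReal (r ^ (Fintype.card ι - 1 + 2 * j) * exp (-(1 / 2) * r ^ 2)) := by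
    intro r hr
    have hr' : 0 < r := hr
    have e2 : ∫⁻ x, ENNReal.ofReal (Kr.phi 1 (r • x)) *
        ENNReal.ofReal (Function.eval i (r • x) ^ (2 * j)) ∂sphR ι 1 =
        ∫⁻ x, ENNReal.ofReal (c0 * exp (-(1 / 2) * r ^ 2) * r ^ (2 * j)) *
          ENNReal.ofReal (x i ^ (2 * j)) ∂sphR ι 1 := by
      refine lintegral_congr_ae ?_
      filter_upwards [((hS ι).1 1).2.1] with x hx
      rw [← ENNReal.ofReal_mul (Kr.phi_nonneg _ _), ← ENNReal.ofReal_mul (by positivity), Kr.phi,
        smul_dotProduct, dotProduct_smul, hx]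
      simp only [Function.eval, Pi.smul_apply, smul_eq_mul, mul_pow]
      rw [show -(r * (r * 1 ^ 2)) / (2 * 1) = -(1 / 2) * r ^ 2 by ring]
      congr 1
      ring
    have := mo_nonneg i j
    rw [e2, lintegral_const_mul _ (by fun_prop), ← ofReal_integral_eq_lintegral_ofReal
      (int_pow hS i j) (ae_of_all _ fun x => (even_two_mul j).pow_nonneg _),
      ← ENNReal.ofReal_mul (by positivity), ← ENNReal.ofReal_mul (by positivity),
      ← ENNReal.ofReal_mul (by positivity), mo]
    congr 1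
    ring
  have := mo_nonneg i j
  rw [setLIntegral_congr_fun measurableSet_Ioi e1, lintegral_const_mul _ (by fun_prop), lint_Ir,
    ← ENNReal.ofReal_mul (by positivity)]
  congr 1
  ring

/-- the moment recursion -/
lemma mo_rec (hS : SphStmt) (i : ι) (j : ℕ) :
    (Fintype.card ι + 2 * j) * mo i (j + 1) = (2 * j + 1) * mo i j := by
  obtain ⟨c, hc, h⟩ := polar (ι := ι) hS
  obtain ⟨c1, hc1, h1⟩ := polar (ι := Unit) hS
  have hu : ∀ j, mo () j = 1 := fun j => by
    have := ((hS Unit).1 1).1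
    have e : ∀ᵐ x ∂sphR Unit 1, x () ^ (2 * j) = 1 := by
      filter_upwards [((hS Unit).1 1).2.1] with x hx
      simp only [dotProduct, Finset.univ_unique, Finset.sum_singleton, one_pow] at hx
      rw [pow_mul, sq, hx, one_pow]
    rw [mo, integral_congr_ae e]
    simp
  have key : ∀ j, c * Ir (Fintype.card ι - 1 + 2 * j) * mo i j = c1 * Ir (2 * j) := fun j => by
    have e := (h i j).symm.trans (h1 () j)
    have p1 := mo_nonneg i j
    have p2 := Ir_pos (Fintype.card ι - 1 + 2 * j)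
    have p3 := Ir_pos (2 * j)
    rw [hu, Fintype.card_unit, Nat.sub_self, zero_add, mul_one] at e
    exact (ENNReal.ofReal_eq_ofReal_iff (by positivity) (by positivity)).1 e
  have k0 := key j
  have k1 := key (j + 1)
  rw [show Fintype.card ι - 1 + 2 * (j + 1) = Fintype.card ι - 1 + 2 * j + 2 by ring,
    show 2 * (j + 1) = 2 * j + 2 by ring, Ir_rec, Ir_rec] at k1
  have e : ((Fintype.card ι - 1 + 2 * j : ℕ) : ℝ) + 1 = Fintype.card ι + 2 * j := by
    have : 1 ≤ Fintype.card ι := Fintype.card_pos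
    push_cast [Nat.cast_sub this]
    ring
  rw [e] at k1
  push_cast at k1
  have p2 := Ir_pos (Fintype.card ι - 1 + 2 * j)
  refine mul_left_cancel₀ (mul_pos hc p2).ne' ?_
  linear_combination k1 - (2 * j + 1) * k0

lemma mo_ge (hS : SphStmt) (i : ι) (j : ℕ) :
    (1 / (2 * Fintype.card ι : ℝ)) ^ j / j ! * exp (-(j * (j - 1) / Fintype.card ι : ℝ)) ≤
      mo i j / (2 * j)! := by
  have hn : (0 : ℝ) < Fintype.card ι := Nat.cast_pos.2 Fintype.card_pos
  set n : ℝ := (Fintype.card ι : ℝ) with hn'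
  induction j with
  | zero =>
    have := ((hS ι).1 1).1
    simp [mo]
  | succ j ih =>
    have h := mo_rec hS i j
    have hj : (0 : ℝ) ≤ j := Nat.cast_nonneg j
    have f1 : (0 : ℝ) < j ! := Nat.cast_pos.2 (Nat.factorial_pos _)
    have f2 : (0 : ℝ) < (2 * j)! := Nat.cast_pos.2 (Nat.factorial_pos _)
    have e1 : mo i (j + 1) / (2 * (j + 1))! =
        mo i j / (2 * j)! * (1 / (2 * n) / (j + 1) * (1 + 2 * j / n)⁻¹) := by
      have : mo i (j + 1) = (2 * j + 1) * mo i j / (n + 2 * j) := by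
        rw [eq_div_iff (by positivity), mul_comm]; exact h
      rw [this, show 2 * (j + 1) = 2 * j + 1 + 1 by ring, Nat.factorial_succ, Nat.factorial_succ]
      push_cast
      field_simp
      ring
    have e2 : (1 / (2 * n)) ^ (j + 1) / (j + 1)! *
          exp (-(((j + 1 : ℕ) : ℝ) * (((j + 1 : ℕ) : ℝ) - 1) / n)) =
        (1 / (2 * n)) ^ j / j ! * exp (-(j * (j - 1) / n)) *
          (1 / (2 * n) / (j + 1) * exp (-(2 * j / n))) := by
      rw [Nat.factorial_succ]
      push_cast
      rw [show -(((j : ℝ) + 1) * (j + 1 - 1) / n) = -(j * (j - 1) / n) + -(2 * j / n) by ring,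
        exp_add, pow_succ]
      field_simp
    rw [e1, e2]
    refine mul_le_mul ih (mul_le_mul_of_nonneg_left ?_ (by positivity)) (by positivity)
      (div_nonneg (mo_nonneg i j) f2.le)
    rw [Real.exp_neg]
    exact inv_anti₀ (by positivity) (by linarith [add_one_le_exp (2 * j / n)])

lemma hasSum_exp (x : ℝ) : HasSum (fun j : ℕ => x ^ j / j !) (exp x) := by
  rw [Real.exp_eq_exp_ℝ]; exact NormedSpace.expSeries_div_hasSum_exp x

lemma hasSum_fall (x : ℝ) :
    HasSum (fun j : ℕ => x ^ j / j ! * (j * (j - 1))) (x ^ 2 * exp x) := by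
  rw [← hasSum_nat_add_iff' 2]
  simp only [Finset.sum_range_succ, Finset.sum_range_zero, Nat.cast_zero, zero_mul, mul_zero,
    Nat.cast_one, sub_self, add_zero, sub_zero]
  refine ((hasSum_exp x).mul_left (x ^ 2)).congr_fun fun j => ?_
  have f1 : (0 : ℝ) < j ! := Nat.cast_pos.2 (Nat.factorial_pos _)
  rw [Nat.factorial_succ, Nat.factorial_succ]
  push_cast
  field_simp
  ring

lemma int_exp (hS : SphStmt) (i : ι) (s : ℝ) :
    Integrable (fun x : ι → ℝ => exp (s * x i)) (sphR ι 1) := by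
  have := ((hS ι).1 1).1
  refine Integrable.of_bound (by fun_prop : Measurable _).aestronglyMeasurable (exp |s|) ?_
  filter_upwards [sq_le hS i] with x hx
  rw [Real.norm_of_nonneg (exp_pos _).le, exp_le_exp]
  refine (le_abs_self _).trans ?_
  rw [abs_mul]
  exact mul_le_of_le_one_right (abs_nonneg _) ((sq_le_one_iff_abs_le_one _).1 hx)

lemma coord (hS : SphStmt) (i : ι) (s : ℝ) :
    exp (s ^ 2 / (2 * Fintype.card ι) - s ^ 4 / (4 * (Fintype.card ι : ℝ) ^ 3)) ≤
      ∫ x, exp (s * x i) ∂sphR ι 1 := by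
  have hn : (0 : ℝ) < Fintype.card ι := Nat.cast_pos.2 Fintype.card_pos
  have hge := mo_ge hS i
  set n : ℝ := (Fintype.card ι : ℝ) with hn'
  set l := s ^ 2 / (2 * n) with hl
  set a := l ^ 2 / n with ha
  have l0 : 0 ≤ l := by positivity
  have hs := (((hasSum_exp l).mul_right (1 + a)).sub ((hasSum_fall l).div_const n)).mul_left
    (exp (-a))
  have e : exp (-a) * (exp l * (1 + a) - l ^ 2 * exp l / n) =
      exp (l - s ^ 4 / (4 * n ^ 3)) := by
    rw [show l - s ^ 4 / (4 * n ^ 3) = -a + l by rw [ha, hl]; field_simp; ring, exp_add, ha]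
    ring
  rw [e] at hs
  have hneg : ∫ x, exp (-s * x i) ∂sphR ι 1 = ∫ x, exp (s * x i) ∂sphR ι 1 := by
    conv_rhs => rw [← ((hS ι).1 1).2.2.2 (-1) (by simp)]
    rw [integral_map (by fun_prop : Measurable _).aemeasurable
      (by fun_prop : Measurable _).aestronglyMeasurable]
    simp [neg_mulVec]
  have hcosh : ∫ x, cosh (s * x i) ∂sphR ι 1 = ∫ x, exp (s * x i) ∂sphR ι 1 := by
    simp only [Real.cosh_eq, ← neg_mul]
    rw [integral_div, integral_add (int_exp hS i s) (int_exp hS i (-s)), hneg]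
    ring
  have icosh : Integrable (fun x : ι → ℝ => cosh (s * x i)) (sphR ι 1) := by
    simp only [Real.cosh_eq, ← neg_mul]
    exact ((int_exp hS i s).add (int_exp hS i (-s))).div_const 2
  rw [← hcosh]
  refine hasSum_le_of_sum_le hs fun F => ?_
  calc _ ≤ ∑ j ∈ F, s ^ (2 * j) * (mo i j / (2 * j)!) := Finset.sum_le_sum fun j _ => by
        refine le_trans ?_ (mul_le_mul_of_nonneg_left (hge j) (by rw [pow_mul]; positivity))
        have h1 : exp (-a) * (1 + a - j * (j - 1) / n) ≤ exp (-(j * (j - 1) / n)) := by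
          rw [show -((j : ℝ) * (j - 1) / n) = -a + (a - j * (j - 1) / n) by ring, exp_add]
          exact mul_le_mul_of_nonneg_left (by linarith [add_one_le_exp (a - j * (j - 1) / n)])
            (exp_pos _).le
        have h2 := mul_le_mul_of_nonneg_left h1 (show 0 ≤ l ^ j / (j ! : ℝ) by positivity)
        have h3 : l ^ j = s ^ (2 * j) * (1 / (2 * n)) ^ j := by
          rw [pow_mul, ← mul_pow, hl, mul_one_div]
        calc _ = l ^ j / j ! * (exp (-a) * (1 + a - j * (j - 1) / n)) := by ring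
          _ ≤ _ := h2
          _ = _ := by rw [h3]; ring
    _ = ∫ x, ∑ j ∈ F, (s * x i) ^ (2 * j) / (2 * j)! ∂sphR ι 1 := by
        simp only [mul_pow]
        rw [integral_finsetSum _ fun j _ => ((int_pow hS i j).const_mul _).div_const _]
        refine Finset.sum_congr rfl fun j _ => ?_
        rw [integral_div, integral_const_mul, mo, mul_div_assoc]
    _ ≤ _ := by
        refine integral_mono ?_ icosh fun x => sum_le_hasSum F (fun j _ => ?_)
          (Real.hasSum_cosh (s * x i))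
        · simp only [mul_pow]
          exact integrable_finsetSum _ fun j _ => ((int_pow hS i j).const_mul _).div_const _
        · rw [pow_mul]; positivity

end

end Lam43

theorem lamGlue : LamGlue := by
  intro hS n v hv s
  rcases Nat.eq_zero_or_pos n with rfl | hn
  · simp [dotProduct] at hv
  have : Nonempty (Fin n) := ⟨⟨0, hn⟩⟩
  set i : Fin n := ⟨0, hn⟩
  obtain ⟨O, hO, hOv⟩ := Tri62.exists_orth (Pi.single i 1) v (by simp [hv])
  have hO' : Oᵀ * O = 1 := mul_eq_one_comm.1 hO
  have h := Lam43.coord hS i s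
  rw [Fintype.card_fin, ← ((hS (Fin n)).1 1).2.2.2 O hO',
    integral_map (by fun_prop : Measurable _).aemeasurable
      (by fun_prop : Measurable _).aestronglyMeasurable] at h
  refine h.trans_eq (integral_congr_ae (ae_of_all _ fun x => ?_))
  have e : (O *ᵥ x) i = v ⬝ᵥ x := by
    rw [← single_one_dotProduct i (O *ᵥ x), ← hOv, dotProduct_mulVec, vecMul_mulVec, hO',
      vecMul_one]
  simp only [e]

end Crest.Agent.T157.St

end
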