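import Crest.Agent.T157.SLC_23

/-!
# Row 157, part E: the planted model, A (helper37)

Exponential tilts of the coupling laws (Gaussian and `±1`), gauge invariance, the planted
identity and the transfer inequalities `planted ⇒ Gibbs`.
-/

set_option autoImplicit false
set_option linter.unusedSectionVars false

noncomputable section

namespace Crest.Agent.T157.Pl

open MeasureTheory ProbabilityTheory Matrix Real
open Crest.ProbabilityR.SpinGlassDynamics Crest.Agent.T157.E
open scoped ENNReal

/-! ### one coordinate -/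

/-- moment generating function of the entry law -/
def M (b : Bool) (θ : ℝ) : ℝ := if b then cosh θ else exp (θ ^ 2 / 2)

lemma M_true (θ : ℝ) : M true θ = cosh θ := rfl
lemma M_false (θ : ℝ) : M false θ = exp (θ ^ 2 / 2) := rfl
lemma M_pos (b : Bool) (θ : ℝ) : 0 < M b θ := by
  cases b
  exacts [exp_pos _, cosh_pos _]
lemma M_neg (b : Bool) (θ : ℝ) : M b (-θ) = M b θ := by cases b <;> simp [M]
lemma M_zero (b : Bool) : M b 0 = 1 := by cases b <;> simp [M]
lemma M_le (b : Bool) (θ : ℝ) : M b θ ≤ exp (θ ^ 2 / 2) := by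
  cases b
  exacts [le_rfl, cosh_le_exp_half_sq θ]
lemma one_le_M (b : Bool) (θ : ℝ) : 1 ≤ M b θ := by
  cases b
  exacts [one_le_exp (by positivity), one_le_cosh θ]

lemma entryLaw_true : entryLaw true = coin := rfl
lemma entryLaw_false : entryLaw false = gaussianReal 0 1 := rfl

lemma integrable_coin (f : ℝ → ℝ) : Integrable f coin := by
  refine Integrable.add_measure ?_ ?_ <;>
  exact (integrable_dirac (by simp)).smul_measure (by simp)

lemma integral_coin (f : ℝ → ℝ) : ∫ t, f t ∂coin = (f 1 + f (-1)) / 2 := by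
  rw [integral_add_measure ((integrable_dirac (by simp)).smul_measure (by simp))
    ((integrable_dirac (by simp)).smul_measure (by simp)), integral_smul_measure,
    integral_smul_measure, integral_dirac, integral_dirac]
  simp only [one_div, ENNReal.toReal_inv, ENNReal.toReal_ofNat, smul_eq_mul]
  ring

lemma integrable_exp_entry (b : Bool) (θ : ℝ) :
    Integrable (fun t => exp (θ * t)) (entryLaw b) := by
  cases b
  exacts [integrable_exp_mul_gaussianReal θ, integrable_coin _]

lemma integral_exp_entry (b : Bool) (θ : ℝ) : ∫ t, exp (θ * t) ∂entryLaw b = M b θ := by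
  cases b
  · have := congrFun (mgf_id_gaussianReal (μ := 0) (v := 1)) θ
    simpa [mgf, M, entryLaw] using this
  · rw [entryLaw_true, integral_coin, M_true, cosh_eq]; simp

lemma entry_map_neg (b : Bool) : (entryLaw b).map (fun t => -t) = entryLaw b := by
  cases b
  · rw [entryLaw_false, gaussianReal_map_neg, neg_zero]
  · rw [entryLaw_true, coin, Measure.map_add _ _ measurable_neg, Measure.map_smul, Measure.map_smul,
      Measure.map_dirac' measurable_neg, Measure.map_dirac' measurable_neg, neg_neg, add_comm]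

/-- the entry law tilted by `exp (θ t)` -/
def tl (b : Bool) (θ : ℝ) : Measure ℝ :=
  (entryLaw b).withDensity fun t => ENNReal.ofReal (exp (θ * t) / M b θ)

instance (b : Bool) (θ : ℝ) : IsProbabilityMeasure (tl b θ) := by
  constructor
  rw [tl, withDensity_apply _ MeasurableSet.univ, Measure.restrict_univ,
    ← ofReal_integral_eq_lintegral_ofReal ((integrable_exp_entry b θ).div_const _)
      (ae_of_all _ fun t => (div_pos (exp_pos _) (M_pos b θ)).le), integral_div, integral_exp_entry,
    div_self (M_pos b θ).ne', ENNReal.ofReal_one]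

lemma tl_zero (b : Bool) : tl b 0 = entryLaw b := by
  simp [tl, M_zero]

lemma integral_tl (b : Bool) (θ : ℝ) (f : ℝ → ℝ) :
    ∫ t, f t ∂tl b θ = ∫ t, exp (θ * t) / M b θ * f t ∂entryLaw b := by
  rw [tl, integral_withDensity_eq_integral_toReal_smul (by fun_prop) (by simp)]
  refine integral_congr_ae (.of_forall fun t => ?_)
  simp only [smul_eq_mul, ENNReal.toReal_ofReal (div_pos (exp_pos _) (M_pos b θ)).le]

/-- the tilted coin has mean `tanh θ` -/
lemma integral_tl_true (θ : ℝ) (f : ℝ → ℝ) :
    ∫ t, f t ∂tl true θ = ((1 + tanh θ) * f 1 + (1 - tanh θ) * f (-1)) / 2 := by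
  rw [integral_tl, entryLaw_true, integral_coin, M_true, tanh_eq_sinh_div_cosh]
  have := (cosh_pos θ).ne'
  field_simp
  rw [← cosh_add_sinh, ← cosh_sub_sinh]
  ring

lemma tl_true (θ : ℝ) : tl true θ = ENNReal.ofReal ((1 + tanh θ) / 2) • Measure.dirac (1 : ℝ) +
    ENNReal.ofReal ((1 - tanh θ) / 2) • Measure.dirac (-1 : ℝ) := by
  have h2 : ∀ x : ℝ, ENNReal.ofReal (x / 2) = 1 / 2 * ENNReal.ofReal x := fun x => by
    rw [ENNReal.ofReal_div_of_pos two_pos]; simp [div_eq_mul_inv, mul_comm]
  have hc := (cosh_pos θ).ne'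
  rw [tl, entryLaw_true, coin, withDensity_add_measure, withDensity_smul_measure,
    withDensity_smul_measure, dirac_withDensity, dirac_withDensity, smul_smul, smul_smul, h2, h2,
    M_true, tanh_eq_sinh_div_cosh]
  congr 4
  · field_simp; rw [cosh_add_sinh]
  · field_simp; rw [cosh_sub_sinh]

lemma tl_false (θ : ℝ) : tl false θ = gaussianReal θ 1 := by
  rw [tl, entryLaw_false, gaussianReal_of_var_ne_zero _ one_ne_zero,
    gaussianReal_of_var_ne_zero _ one_ne_zero, ← withDensity_mul _ (by fun_prop) (by fun_prop)]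
  congr 1
  funext t
  simp only [Pi.mul_apply, gaussianPDF, gaussianPDFReal, M_false]
  rw [← ENNReal.ofReal_mul (by positivity), mul_assoc, ← exp_sub, ← exp_add]
  congr 3
  simp only [NNReal.coe_one]
  ring

lemma tl_map_neg (b : Bool) (θ : ℝ) : (tl b θ).map (fun t => -t) = tl b (-θ) := by
  cases b
  · rw [tl_false, tl_false, gaussianReal_map_neg]
  · rw [tl_true, tl_true, Measure.map_add _ _ measurable_neg, Measure.map_smul, Measure.map_smul,
      Measure.map_dirac' measurable_neg, Measure.map_dirac' measurable_neg, neg_neg, add_comm,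
      tanh_neg, sub_neg_eq_add, ← sub_eq_add_neg]

/-! ### product laws -/

section prod
variable {ι : Type*} [Fintype ι]

/-- independent entries -/
abbrev law (b : Bool) (ι : Type*) [Fintype ι] : Measure (ι → ℝ) :=
  Measure.pi fun _ : ι => entryLaw b

/-- the product law tilted by `exp (g ⬝ᵥ a)` -/
def tilted (b : Bool) (a : ι → ℝ) : Measure (ι → ℝ) := Measure.pi fun i => tl b (a i)

/-- moment generating function of the product law -/
def MM (b : Bool) (a : ι → ℝ) : ℝ := ∏ i, M b (a i)

instance (b : Bool) (a : ι → ℝ) : IsProbabilityMeasure (tilted b a) := by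
  rw [tilted]; infer_instance

lemma MM_pos (b : Bool) (a : ι → ℝ) : 0 < MM b a := Finset.prod_pos fun _ _ => M_pos b _

lemma MM_false (a : ι → ℝ) : MM false a = exp (a ⬝ᵥ a / 2) := by
  simp only [MM, M_false, ← exp_sum, dotProduct, Finset.sum_div, sq]

lemma MM_le (b : Bool) (a : ι → ℝ) : MM b a ≤ exp (a ⬝ᵥ a / 2) := by
  rw [← MM_false]
  exact Finset.prod_le_prod (fun _ _ => (M_pos b _).le) fun _ _ => M_le b _

lemma law_false : law false ι = gv ι := rfl

lemma tilted_zero (b : Bool) : tilted b (0 : ι → ℝ) = law b ι := by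
  simp only [tilted, Pi.zero_apply, tl_zero]

theorem pi_wd {J : Type*} [Fintype J] (μ : Measure ℝ) [SigmaFinite μ] (f : J → ℝ → ℝ)
    (h0 : ∀ j x, 0 ≤ f j x) (hi : ∀ j, Integrable (f j) μ)
    [∀ j, SigmaFinite (μ.withDensity fun x => ENNReal.ofReal (f j x))] :
    Measure.pi (fun j => μ.withDensity fun x => ENNReal.ofReal (f j x)) =
      (Measure.pi fun _ : J => μ).withDensity fun y => ENNReal.ofReal (∏ j, f j (y j)) := by
  refine Measure.pi_eq fun s hs => ?_
  rw [withDensity_apply _ (MeasurableSet.univ_pi hs), ← lintegral_indicator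
    (MeasurableSet.univ_pi hs)]
  have h1 : ∀ y : J → ℝ, (Set.pi Set.univ s).indicator
      (fun y => ENNReal.ofReal (∏ j, f j (y j))) y =
      ENNReal.ofReal (∏ j, (s j).indicator (f j) (y j)) := by
    intro y
    by_cases hy : y ∈ Set.pi Set.univ s
    · rw [Set.indicator_of_mem hy]
      congr 1
      exact Finset.prod_congr rfl fun j _ => (Set.indicator_of_mem (hy j trivial) _).symm
    · rw [Set.indicator_of_notMem hy]
      simp only [Set.mem_pi, Set.mem_univ, forall_const, not_forall] at hy
      obtain ⟨j, hj⟩ := hy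
      rw [Finset.prod_eq_zero (Finset.mem_univ j) (Set.indicator_of_notMem hj _),
        ENNReal.ofReal_zero]
  simp_rw [h1]
  have h2 : ∀ j x, 0 ≤ (s j).indicator (f j) x := fun j x =>
    Set.indicator_nonneg (fun x _ => h0 j x) x
  rw [← ofReal_integral_eq_lintegral_ofReal
    (Integrable.fintype_prod_dep fun j => (hi j).indicator (hs j))
    (ae_of_all _ fun y => Finset.prod_nonneg fun j _ => h2 j _), integral_fintype_prod_eq_prod,
    ENNReal.ofReal_prod_of_nonneg fun j _ => integral_nonneg (h2 j)]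
  refine Finset.prod_congr rfl fun j _ => ?_
  rw [withDensity_apply _ (hs j), integral_indicator (hs j),
    ofReal_integral_eq_lintegral_ofReal (hi j).integrableOn (ae_of_all _ (h0 j))]

theorem tilted_eq (b : Bool) (a : ι → ℝ) :
    tilted b a = (law b ι).withDensity fun g => ENNReal.ofReal (exp (g ⬝ᵥ a) / MM b a) := by
  have : ∀ j, SigmaFinite ((entryLaw b).withDensity fun x =>
      ENNReal.ofReal (exp (a j * x) / M b (a j))) := fun j =>
    (inferInstance : SigmaFinite (tl b (a j)))
  rw [tilted]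
  refine (pi_wd (entryLaw b) (fun j x => exp (a j * x) / M b (a j))
    (fun j x => (div_pos (exp_pos _) (M_pos _ _)).le)
    (fun j => (integrable_exp_entry b _).div_const _)).trans ?_
  congr 1
  funext g
  rw [Finset.prod_div_distrib, ← exp_sum, MM, dotProduct]
  simp only [mul_comm]

lemma measurable_dens (b : Bool) (a : ι → ℝ) :
    Measurable fun g : ι → ℝ => ENNReal.ofReal (exp (g ⬝ᵥ a) / MM b a) := by
  unfold dotProduct; fun_prop

/-- change of measure (any `F`) -/
theorem integral_exp_mul (b : Bool) (a : ι → ℝ) (F : (ι → ℝ) → ℝ) :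
    ∫ g, exp (g ⬝ᵥ a) * F g ∂law b ι = MM b a * ∫ g, F g ∂tilted b a := by
  rw [tilted_eq, integral_withDensity_eq_integral_toReal_smul (measurable_dens b a) (by simp),
    ← integral_const_mul]
  refine integral_congr_ae (.of_forall fun g => ?_)
  have := (MM_pos b a).ne'
  simp only [smul_eq_mul, ENNReal.toReal_ofReal (div_pos (exp_pos _) (MM_pos b a)).le]
  field_simp

theorem integrable_exp_mul (b : Bool) (a : ι → ℝ) (F : (ι → ℝ) → ℝ) :
    Integrable (fun g => exp (g ⬝ᵥ a) * F g) (law b ι) ↔ Integrable F (tilted b a) := by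
  rw [tilted_eq, integrable_withDensity_iff_integrable_smul₀' (measurable_dens b a).aemeasurable
    (by simp), ← integrable_const_mul_iff (c := (MM b a)⁻¹) (IsUnit.mk0 _ (inv_pos.2 (MM_pos b a)).ne')]
  refine integrable_congr (.of_forall fun g => ?_)
  simp only [smul_eq_mul, ENNReal.toReal_ofReal (div_pos (exp_pos _) (MM_pos b a)).le]
  ring

theorem lintegral_exp_mul (b : Bool) (a : ι → ℝ) (F : (ι → ℝ) → ℝ≥0∞) :
    ∫⁻ g, ENNReal.ofReal (exp (g ⬝ᵥ a)) * F g ∂law b ι =
      ENNReal.ofReal (MM b a) * ∫⁻ g, F g ∂tilted b a := by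
  rw [tilted_eq, lintegral_withDensity_eq_lintegral_mul_non_measurable _ (measurable_dens b a)
    (by simp), ← lintegral_const_mul' _ _ ENNReal.ofReal_ne_top]
  refine lintegral_congr fun g => ?_
  rw [Pi.mul_apply, ← mul_assoc, ← ENNReal.ofReal_mul (MM_pos b a).le,
    mul_div_cancel₀ _ (MM_pos b a).ne']

theorem integrable_exp_dot (b : Bool) (a : ι → ℝ) :
    Integrable (fun g => exp (g ⬝ᵥ a)) (law b ι) := by
  simpa using (integrable_exp_mul b a fun _ => 1).2 (integrable_const _)

theorem integral_exp_dot (b : Bool) (a : ι → ℝ) : ∫ g, exp (g ⬝ᵥ a) ∂law b ι = MM b a := by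
  simpa using integral_exp_mul b a fun _ => 1

lemma tilted_ac (b : Bool) (a : ι → ℝ) : tilted b a ≪ law b ι := by
  rw [tilted_eq]; exact withDensity_absolutelyContinuous _ _

lemma ac_tilted (b : Bool) (a : ι → ℝ) : law b ι ≪ tilted b a := by
  rw [tilted_eq]
  exact withDensity_absolutelyContinuous' (measurable_dens b a).aemeasurable
    (.of_forall fun g => (ENNReal.ofReal_pos.2 (div_pos (exp_pos _) (MM_pos b a))).ne')

/-- Cameron–Martin -/
theorem mp_shift (a : ι → ℝ) : MeasurePreserving (fun g => g + a) (gv ι) (tilted false a) :=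
  measurePreserving_pi (fun _ : ι => gaussianReal 0 1) (fun i => tl false (a i))
    (f := fun i t => t + a i) fun i => ⟨by fun_prop, by
      rw [tl_false, gaussianReal_map_add_const, zero_add]⟩

theorem integral_tilted_false (a : ι → ℝ) (F : (ι → ℝ) → ℝ) :
    ∫ g, F g ∂tilted false a = ∫ g, F (g + a) ∂gv ι :=
  ((mp_shift a).integral_comp (MeasurableEquiv.addRight a).measurableEmbedding F).symm

theorem integrable_tilted_false (a : ι → ℝ) (F : (ι → ℝ) → ℝ) :
    Integrable F (tilted false a) ↔ Integrable (fun g => F (g + a)) (gv ι) :=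
  ((mp_shift a).integrable_comp_emb (MeasurableEquiv.addRight a).measurableEmbedding).symm

theorem tilted_false_apply (a : ι → ℝ) (A : Set (ι → ℝ)) :
    tilted false a A = gv ι {g | g + a ∈ A} :=
  ((mp_shift a).measure_preimage_emb (MeasurableEquiv.addRight a).measurableEmbedding A).symm

/-- a vector of signs -/
def IsSign (ε : ι → ℝ) : Prop := ∀ i, ε i = 1 ∨ ε i = -1

lemma IsSign.mul_self {ε : ι → ℝ} (h : IsSign ε) (g : ι → ℝ) : ε * (ε * g) = g := by
  funext i; rcases h i with e | e <;> simp [e]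

lemma IsSign.emb {ε : ι → ℝ} (h : IsSign ε) : MeasurableEmbedding fun g : ι → ℝ => ε * g :=
  (MeasurableEquiv.ofInvolutive (fun g : ι → ℝ => ε * g) h.mul_self
    (by fun_prop)).measurableEmbedding

theorem mp_sign (b : Bool) {ε : ι → ℝ} (h : IsSign ε) (a : ι → ℝ) :
    MeasurePreserving (fun g => ε * g) (tilted b a) (tilted b (ε * a)) :=
  measurePreserving_pi (fun i => tl b (a i)) (fun i => tl b ((ε * a) i))
    (f := fun i t => ε i * t) fun i => ⟨by fun_prop, by
      rcases h i with e | e
      · simp [e]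
      · simp [e, tl_map_neg]⟩

theorem mp_sign_law (b : Bool) {ε : ι → ℝ} (h : IsSign ε) :
    MeasurePreserving (fun g => ε * g) (law b ι) (law b ι) := by
  simpa only [mul_zero, tilted_zero] using mp_sign b h 0

lemma MM_sign (b : Bool) {ε : ι → ℝ} (h : IsSign ε) (a : ι → ℝ) : MM b (ε * a) = MM b a :=
  Finset.prod_congr rfl fun i _ => by rcases h i with e | e <;> simp [e, M_neg]

/-! ### random weights `c x * exp (g ⬝ᵥ a x)` on a finite space -/

variable {Ω : Type*} [Fintype Ω]

/-- random weight -/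
def rwt (c : Ω → ℝ) (a : Ω → ι → ℝ) (g : ι → ℝ) (x : Ω) : ℝ := c x * exp (g ⬝ᵥ a x)

lemma continuous_rwt (c : Ω → ℝ) (a : Ω → ι → ℝ) (x : Ω) : Continuous fun g => rwt c a g x := by
  unfold rwt dotProduct; fun_prop

theorem integrable_rwt_mul (b : Bool) (c : Ω → ℝ) (a : Ω → ι → ℝ) {F : Ω → (ι → ℝ) → ℝ}
    (hF : ∀ x, Integrable (F x) (tilted b (a x))) (x : Ω) :
    Integrable (fun g => rwt c a g x * F x g) (law b ι) := by
  simpa only [rwt, mul_assoc] using ((integrable_exp_mul b (a x) (F x)).2 (hF x)).const_mul (c x)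

/-- the planted identity for a general random weight -/
theorem integral_sum_rwt (b : Bool) (c : Ω → ℝ) (a : Ω → ι → ℝ) {F : Ω → (ι → ℝ) → ℝ}
    (hF : ∀ x, Integrable (F x) (tilted b (a x))) :
    ∫ g, ∑ x, rwt c a g x * F x g ∂law b ι =
      ∑ x, c x * MM b (a x) * ∫ g, F x g ∂tilted b (a x) := by
  rw [integral_finsetSum _ fun x _ => integrable_rwt_mul b c a hF x]
  refine Finset.sum_congr rfl fun x _ => ?_
  simp only [rwt, mul_assoc]
  rw [integral_const_mul, integral_exp_mul]

lemma Zw_mul_mean {w : Ω → ℝ} (hw : Zw w ≠ 0) (f : Ω → ℝ) : Zw w * mean w f = ∑ x, w x * f x := by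
  rw [SL.mean_eq_div]; exact mul_div_cancel₀ _ hw

lemma mass_eq_mean (w : Ω → ℝ) (A : Set Ω) : mass w A = mean w (A.indicator 1) := by
  classical
  rw [mass, mean, Finset.sum_filter]
  refine Finset.sum_congr rfl fun x _ => ?_
  by_cases h : x ∈ A <;> simp [h]

/-- transfer inequality, function form -/
theorem transfer_fun (b : Bool) {c : Ω → ℝ} (hc : ∀ x, 0 ≤ c x) (a : Ω → ι → ℝ)
    {F : Ω → (ι → ℝ) → ℝ} (h0 : ∀ x g, 0 ≤ F x g) (hF : ∀ x, Integrable (F x) (tilted b (a x)))
    {ε z : ℝ} (hε : 0 < ε) (hz : 0 < z) :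
    (law b ι).real {g | ε ≤ mean (rwt c a g) fun x => F x g} ≤
      (law b ι).real {g | Zw (rwt c a g) < z} +
        (∑ x, c x * MM b (a x) * ∫ g, F x g ∂tilted b (a x)) / (ε * z) := by
  have hI : Integrable (fun g => ∑ x, rwt c a g x * F x g) (law b ι) :=
    integrable_finsetSum _ fun x _ => integrable_rwt_mul b c a hF x
  have hM := mul_meas_ge_le_integral_of_nonneg (μ := law b ι)
    (.of_forall fun g => Finset.sum_nonneg fun x _ =>
      mul_nonneg (mul_nonneg (hc x) (exp_pos _).le) (h0 x g)) hI (ε * z)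
  rw [← integral_sum_rwt b c a hF]
  refine le_trans (measureReal_mono (s₂ := {g | Zw (rwt c a g) < z} ∪
    {g | ε * z ≤ ∑ x, rwt c a g x * F x g}) fun g hg => ?_) ((measureReal_union_le _ _).trans ?_)
  · by_cases h : Zw (rwt c a g) < z
    · exact Or.inl h
    · refine Or.inr ?_
      have h1 := not_lt.1 h
      rw [Set.mem_ofPred_eq, ← Zw_mul_mean (hz.trans_le h1).ne', mul_comm]
      exact mul_le_mul h1 hg hε.le (hz.le.trans h1)
  · rw [add_le_add_iff_left, le_div_iff₀ (mul_pos hε hz), mul_comm]
    exact hM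

/-- transfer inequality for arbitrary (not necessarily measurable) events -/
theorem transfer_set (b : Bool) {c : Ω → ℝ} (hc : ∀ x, 0 ≤ c x) (a : Ω → ι → ℝ)
    (A : Ω → Set (ι → ℝ)) {ε z : ℝ} (hε : 0 < ε) (hz : 0 < z) :
    (law b ι).real {g | ε ≤ mass (rwt c a g) {x | g ∈ A x}} ≤
      (law b ι).real {g | Zw (rwt c a g) < z} +
        (∑ x, c x * MM b (a x) * (tilted b (a x)).real (A x)) / (ε * z) := by
  have h := transfer_fun b hc a (F := fun x => (toMeasurable (tilted b (a x)) (A x)).indicator 1)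
    (fun x g => Set.indicator_nonneg (fun _ _ => zero_le_one) g)
    (fun x => (integrable_const _).indicator (measurableSet_toMeasurable _ _)) hε hz
  simp only [integral_indicator_one (measurableSet_toMeasurable _ _), Measure.real,
    measure_toMeasurable] at h
  refine le_trans (measureReal_mono fun g hg => ?_) h
  rw [Set.mem_ofPred_eq] at hg ⊢
  refine hg.trans ?_
  rw [mass_eq_mean]
  refine Finset.sum_le_sum fun x _ => mul_le_mul_of_nonneg_left ?_
    (div_nonneg (mul_nonneg (hc x) (exp_pos _).le)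
      (Finset.sum_nonneg fun y _ => mul_nonneg (hc y) (exp_pos _).le))
  beta_reduce
  by_cases hx : g ∈ A x
  · rw [Set.indicator_of_mem (show x ∈ {x | g ∈ A x} from hx),
      Set.indicator_of_mem (subset_toMeasurable _ _ hx)]
    exact le_rfl
  · rw [Set.indicator_of_notMem (show x ∉ {x | g ∈ A x} from hx)]
    exact Set.indicator_nonneg (fun _ _ => zero_le_one) g

end prod

end Crest.Agent.T157.Pl

end
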