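import Crest.Agent.T157.StDef_87
import Crest.Agent.T157.EdBase_88
import Crest.Agent.T157.PlA_37

/-!
# Row 157, part C4: moments of the spherical model (helper32)

`mgfGlue`, `coordGlue`, `sphTightGlue`.  Every spherical average is a ratio of limits of Gaussian
shell integrals; two modes bound the numerator, `DenStmt` bounds the denominator.
-/

set_option autoImplicit false

noncomputable section

namespace Crest.Agent.T157.St

open MeasureTheory ProbabilityTheory Matrix Filter Topology Finset Real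
open scoped ENNReal
open Crest.ProbabilityR.SpinGlassDynamics Crest.Agent.T157.E Crest.Agent.T157.Eig
open Crest.Agent.T157.Cond Crest.Agent.T157.Ed Crest.Agent.T157.Top

namespace Mgf32

section gen
variable {ι : Type} [Fintype ι]

instance (m c : ι → ℝ) : IsProbabilityMeasure (gs m c) := by unfold gs; infer_instance

lemma mp_gs (m : ι → ℝ) {c : ι → ℝ} (hc : ∀ k, 0 ≤ c k) :
    MeasurePreserving (fun (z : ι → ℝ) k => m k + √(c k) * z k) (gv ι) (gs m c) :=
  measurePreserving_pi (fun _ : ι => gaussianReal 0 1) (fun k => gaussianReal (m k) (c k).toNNReal)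
    (f := fun k t => m k + √(c k) * t) fun k => ⟨by fun_prop, by
      have h : (fun t : ℝ => m k + √(c k) * t) = (fun t => m k + t) ∘ fun t => √(c k) * t := rfl
      rw [h, ← Measure.map_map (by fun_prop) (by fun_prop), gaussianReal_map_const_mul,
        gaussianReal_map_const_add]
      congr 1
      · simp
      · ext; simp [sq_sqrt (hc k), hc k]⟩

lemma meas_shell (s ε : ℝ) : MeasurableSet (shell s ε : Set (ι → ℝ)) := by
  have h : Measurable fun x : ι → ℝ => x ⬝ᵥ x := by unfold dotProduct; fun_prop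
  exact (measurableSet_le measurable_const h).inter (measurableSet_le h measurable_const)

/-- Cameron–Martin on a set -/
lemma cm {c : ι → ℝ} (hc : ∀ k, 0 ≤ c k) (b : ι → ℝ) {A : Set (ι → ℝ)} (hA : MeasurableSet A) :
    ∫ x in A, exp (b ⬝ᵥ x) ∂gs 0 c =
      exp ((∑ k, c k * b k ^ 2) / 2) * (gs (fun k => c k * b k) c).real A := by
  have hm : Measurable fun x : ι → ℝ => exp (b ⬝ᵥ x) := by unfold dotProduct; fun_prop
  have h0 := mp_gs 0 hc
  have h1 := mp_gs (fun k => c k * b k) hc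
  rw [← integral_indicator hA, ← h0.map_eq,
    integral_map h0.measurable.aemeasurable (hm.indicator hA).aestronglyMeasurable,
    ← integral_indicator_one hA, ← h1.map_eq, integral_map h1.measurable.aemeasurable
      (measurable_one.indicator hA).aestronglyMeasurable]
  have h2 := Pl.integral_exp_mul false (fun k => √(c k) * b k)
    (fun z => A.indicator 1 fun k => √(c k) * z k)
  rw [Pl.integral_tilted_false, Pl.MM_false, Pl.law_false] at h2
  have h3 : ((fun k => √(c k) * b k) ⬝ᵥ fun k => √(c k) * b k) = ∑ k, c k * b k ^ 2 :=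
    sum_congr rfl fun k _ => by
      rw [mul_mul_mul_comm, mul_self_sqrt (hc k), sq]
  rw [h3] at h2
  refine Eq.trans (integral_congr_ae (.of_forall fun z => ?_)) (h2.trans (congrArg _
    (integral_congr_ae (.of_forall fun z => ?_))))
  · have e1 : (fun k => (0 : ι → ℝ) k + √(c k) * z k) = fun k => √(c k) * z k := by
      funext k; simp
    have e2 : (b ⬝ᵥ fun k => √(c k) * z k) = z ⬝ᵥ fun k => √(c k) * b k :=
      sum_congr rfl fun k _ => by ring
    simp only [e1]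
    by_cases h : (fun k => √(c k) * z k) ∈ A
    · rw [Set.indicator_of_mem h, Set.indicator_of_mem h, e2]; simp
    · rw [Set.indicator_of_notMem h, Set.indicator_of_notMem h, mul_zero]
  · refine congrArg (A.indicator 1) (funext fun k => ?_)
    rw [Pi.add_apply, mul_add, ← mul_assoc, mul_self_sqrt (hc k), add_comm]

lemma isCompact_sph (t : ℝ) : IsCompact {x : ι → ℝ | x ⬝ᵥ x = t} := by
  classical
  have hc : Continuous fun x : ι → ℝ => x ⬝ᵥ x := by unfold dotProduct; fun_prop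
  refine Metric.isCompact_of_isClosed_isBounded (isClosed_eq hc continuous_const) ?_
  refine (Metric.isBounded_closedBall (x := 0) (r := √t)).subset fun x hx => ?_
  rw [mem_closedBall_zero_iff, pi_norm_le_iff_of_nonneg (sqrt_nonneg _)]
  intro i
  refine abs_le_sqrt ?_
  rw [← show x ⬝ᵥ x = t from hx, sq]
  exact single_le_sum (f := fun i => x i * x i) (fun j _ => mul_self_nonneg (x j)) (mem_univ i)

lemma intg {μ : Measure (ι → ℝ)} [IsFiniteMeasure μ] {t : ℝ} (h : ∀ᵐ x ∂μ, x ⬝ᵥ x = t)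
    {F : (ι → ℝ) → ℝ} (hF : Continuous F) : Integrable F μ := by
  have := hF.continuousOn.integrableOn_compact (μ := μ) (isCompact_sph t)
  rwa [IntegrableOn, Measure.restrict_eq_self_of_ae_mem (s := {x | x ⬝ᵥ x = t}) h] at this

/-- unnormalised spherical average with precisions `a` -/
def J (S : Measure (ι → ℝ)) (a : ι → ℝ) (F : (ι → ℝ) → ℝ) : ℝ :=
  ∫ x, F x * exp (-(1 / 2) * ∑ k, a k * x k ^ 2) ∂S

lemma J_nonneg (S : Measure (ι → ℝ)) (a : ι → ℝ) {F : (ι → ℝ) → ℝ} (hF : ∀ x, 0 ≤ F x) :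
    0 ≤ J S a F := integral_nonneg fun x => mul_nonneg (hF x) (exp_pos _).le

lemma J_shift {S : Measure (ι → ℝ)} {t : ℝ} (h : ∀ᵐ x ∂S, x ⬝ᵥ x = t) (a : ι → ℝ) (v : ℝ)
    (F : (ι → ℝ) → ℝ) : J S (fun k => v + a k) F = exp (-(v * t / 2)) * J S a F := by
  rw [J, J, ← integral_const_mul]
  refine integral_congr_ae (h.mono fun x hx => ?_)
  have : ∑ k, (v + a k) * x k ^ 2 = v * t + ∑ k, a k * x k ^ 2 := by
    rw [← hx, dotProduct, mul_sum, ← sum_add_distrib]
    exact sum_congr rfl fun k _ => by ring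
  simp only [this]
  rw [mul_left_comm, ← exp_add]; congr 2; ring

lemma tilt_eq {S : Measure (ι → ℝ)} {t : ℝ} (h : ∀ᵐ x ∂S, x ⬝ᵥ x = t) (a : ι → ℝ) (v : ℝ)
    (F : (ι → ℝ) → ℝ) : ∫ x, F x ∂S.tilted (fun x => -(1 / 2) * ∑ k, a k * x k ^ 2) =
      J S (fun k => v + a k) F / J S (fun k => v + a k) fun _ => 1 := by
  rw [J_shift h, J_shift h, mul_div_mul_left _ _ (exp_pos _).ne', integral_tilted, J, J,
    ← integral_div]
  simp only [one_mul, smul_eq_mul]
  exact integral_congr_ae (.of_forall fun x => by simp only; ring)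

/-- the data extracted from `ShellStmt` -/
def Sh (S : Measure (ι → ℝ)) (t κ : ℝ) : Prop :=
  ∀ a : ι → ℝ, (∀ k, 0 < a k) → ∀ F : (ι → ℝ) → ℝ, Continuous F →
    Tendsto (fun ε => (∫ x in shell t ε, F x ∂gs 0 fun k => 1 / a k) / ε) (𝓝[>] 0)
      (𝓝 (κ * (∏ k, √(a k)) * J S a F))

lemma exists_sh [DecidableEq ι] [Nonempty ι] (h : ShellStmt) {t : ℝ} (ht : 0 < t) :
    ∃ κ, 0 < κ ∧ Sh (sphR ι √t) t κ := by
  obtain ⟨κ, hκ, H⟩ := h ι t ht
  refine ⟨κ, hκ, fun a ha F hF => ?_⟩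
  have := H (fun k => 1 / a k) (fun k => one_div_pos.2 (ha k)) F hF
  simpa only [J, one_div, sqrt_inv, inv_inv, div_inv_eq_mul, mul_comm (a _)] using this

variable {S : Measure (ι → ℝ)} {t κ : ℝ}

lemma Sh.up (h : Sh S t κ) {a : ι → ℝ} (ha : ∀ k, 0 < a k) {F : (ι → ℝ) → ℝ} (hF : Continuous F)
    {M : ℝ} (hM : ∀ ε, 0 < ε → ∫ x in shell t ε, F x ∂gs 0 (fun k => 1 / a k) ≤ M * ε) :
    κ * (∏ k, √(a k)) * J S a F ≤ M :=
  le_of_tendsto (h a ha F hF) (by
    filter_upwards [self_mem_nhdsWithin] with ε hε using (div_le_iff₀ hε).2 (hM ε hε))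

lemma Sh.low (h : Sh S t κ) {a : ι → ℝ} (ha : ∀ k, 0 < a k) {F : (ι → ℝ) → ℝ} (hF : Continuous F)
    {M : ℝ} (hM : ∀ ε, 0 < ε → ε ≤ 1 → M * ε ≤ ∫ x in shell t ε, F x ∂gs 0 (fun k => 1 / a k)) :
    M ≤ κ * (∏ k, √(a k)) * J S a F :=
  ge_of_tendsto (h a ha F hF) (by
    filter_upwards [Ioc_mem_nhdsGT one_pos] with ε hε using (le_div_iff₀ hε.1).2 (hM ε hε.1 hε.2))

lemma two_c {a b ε : ℝ} (ha : 0 < a) (hb : 0 < b) :
    ε / (2 * √(1 / a * (1 / b))) = √(a * b) / 2 * ε := by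
  have : 0 < √(a * b) := sqrt_pos.2 (mul_pos ha hb)
  rw [one_div_mul_one_div, one_div, sqrt_inv]; field_simp

lemma shell_le [DecidableEq ι] (hT : TwoStmt) (m : ι → ℝ) {a : ι → ℝ} (ha : ∀ k, 0 < a k)
    {i j : ι} (hij : i ≠ j) (s : ℝ) {ε : ℝ} (hε : 0 ≤ ε) :
    (gs m fun k => 1 / a k).real (shell s ε) ≤ √(a i * a j) / 2 * ε := by
  have h := (hT ι m (fun k => 1 / a k) (fun k => one_div_pos.2 (ha k)) i j hij (fun _ => 1)
    measurable_const (fun _ _ _ => rfl) s ε hε).1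
  rw [setLIntegral_one, lintegral_one, measure_univ, mul_one, two_c (ha i) (ha j)] at h
  exact ENNReal.toReal_le_of_le_ofReal (by positivity) h

lemma up_exp [DecidableEq ι] (hT : TwoStmt) (h : Sh S t κ) {a : ι → ℝ} (ha : ∀ k, 0 < a k)
    {i j : ι} (hij : i ≠ j) (b : ι → ℝ) :
    κ * (∏ k, √(a k)) * J S a (fun x => exp (b ⬝ᵥ x)) ≤
      exp ((∑ k, 1 / a k * b k ^ 2) / 2) * (√(a i * a j) / 2) := by
  refine h.up ha (by unfold dotProduct; fun_prop) fun ε hε => ?_
  rw [cm (fun k => (one_div_pos.2 (ha k)).le) b (meas_shell t ε), mul_assoc]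
  exact mul_le_mul_of_nonneg_left (shell_le hT _ ha hij t hε.le) (exp_pos _).le

lemma up_one [DecidableEq ι] (hT : TwoStmt) (h : Sh S t κ) {a : ι → ℝ} (ha : ∀ k, 0 < a k)
    {i j : ι} (hij : i ≠ j) : κ * (∏ k, √(a k)) * J S a (fun _ => 1) ≤ √(a i * a j) / 2 := by
  simpa using up_exp hT h ha hij 0

lemma up_sq [DecidableEq ι] (hT : TwoStmt) (h : Sh S t κ) {a : ι → ℝ} (ha : ∀ k, 0 < a k)
    {i j k : ι} (hij : i ≠ j) (hi : k ≠ i) (hj : k ≠ j) :
    κ * (∏ k, √(a k)) * J S a (fun x => x k ^ 2) ≤ √(a i * a j) / 2 * (1 / a k) := by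
  refine h.up ha (by fun_prop) fun ε hε => ?_
  have hc : ∀ k, 0 < 1 / a k := fun k => one_div_pos.2 (ha k)
  have h1 := (hT ι 0 (fun k => 1 / a k) hc i j hij (fun x => ENNReal.ofReal (x k ^ 2))
    (by fun_prop) (fun x u v => by simp [Function.update_of_ne hi, Function.update_of_ne hj])
    t ε hε.le).1
  have h2 : ∫⁻ x, ENNReal.ofReal (x k ^ 2) ∂gs 0 (fun k => 1 / a k) = ENNReal.ofReal (1 / a k) := by
    have h3 := (measurePreserving_eval (fun l : ι =>
      gaussianReal ((0 : ι → ℝ) l) (1 / a l).toNNReal) k).lintegral_comp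
      (f := fun u : ℝ => ENNReal.ofReal (u ^ 2)) (by fun_prop)
    have h4 : Integrable (fun u : ℝ => u ^ 2) (gaussianReal 0 (1 / a k).toNNReal) :=
      (memLp_id_gaussianReal' 2 (by simp)).integrable_sq
    have h5 : ∫ u, u ^ 2 ∂gaussianReal 0 (1 / a k).toNNReal = 1 / a k := by
      have := variance_fun_id_gaussianReal (μ := 0) (v := (1 / a k).toNNReal)
      rw [variance_eq_integral measurable_id'.aemeasurable] at this
      simpa [(hc k).le, (ha k).le] using this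
    refine h3.trans ?_
    rw [Pi.zero_apply, ← ofReal_integral_eq_lintegral_ofReal h4 (.of_forall fun u => sq_nonneg u),
      h5]
  rw [h2, two_c (ha i) (ha j), ← ENNReal.ofReal_mul (by positivity)] at h1
  rw [integral_eq_lintegral_of_nonneg_ae (.of_forall fun x => sq_nonneg _)
    (Continuous.aestronglyMeasurable (by fun_prop))]
  refine (ENNReal.toReal_le_of_le_ofReal (by have := hc k; positivity) h1).trans_eq (by ring)

lemma low_set (h : Sh S t κ) {a : ι → ℝ} (ha : ∀ k, 0 < a k) {F : (ι → ℝ) → ℝ} (hF : Continuous F)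
    (h0 : ∀ x, 0 ≤ F x) (h1 : ∀ x, F x ≤ 1) {A : Set (ι → ℝ)} (hA : MeasurableSet A)
    (hA1 : ∀ x ∈ A, F x = 1) {δ : ℝ}
    (hδ : ∀ ε, 0 < ε → ε ≤ 1 → δ * ε ≤ (gs 0 fun k => 1 / a k).real (shell t ε ∩ A)) :
    δ ≤ κ * (∏ k, √(a k)) * J S a F := by
  refine h.low ha hF fun ε hε hε1 => (hδ ε hε hε1).trans ?_
  have hi : Integrable F (gs 0 fun k => 1 / a k) :=
    (integrable_const (1 : ℝ)).mono' hF.aestronglyMeasurable
      (.of_forall fun x => by rw [Real.norm_of_nonneg (h0 x)]; exact h1 x)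
  calc _ = ∫ x in shell t ε ∩ A, F x ∂gs 0 fun k => 1 / a k := by
        rw [setIntegral_congr_fun ((meas_shell t ε).inter hA) (g := fun _ => 1)
          fun x hx => hA1 x hx.2]
        simp
    _ ≤ _ := setIntegral_mono_set hi.integrableOn (.of_forall h0)
        Set.inter_subset_left.eventuallyLE

lemma ratio_le {P N D U δ : ℝ} (hP : 0 < P) (hδ : 0 < δ) (hU : 0 ≤ U) (h1 : P * N ≤ U)
    (h2 : δ ≤ P * D) : N / D ≤ U / δ := by
  rw [← mul_div_mul_left N D hP.ne']
  exact div_le_div₀ hU h1 hδ h2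

end gen

variable {n : ℕ} {η : ℕ → ℝ} {t L w C : ℝ}

lemma a_pos (G : Gd n η t L w C) (hL : 0 ≤ L) (hw : 2 * L + 1 ≤ w) {v : ℝ} (hv : w ≤ v)
    (k : Fin n) : 0 < v + η k := by
  have h1 := G.lo k k.2
  have h2 : 0 ≤ ((k : ℝ) + 1) ^ (2 / 3 : ℝ) / 256 := by positivity
  linarith

lemma eta_le (G : Gd n η t L w C) (hn : 24 ≤ n) {k : ℕ} (hk : k ≤ 2) : η k ≤ 180 + L := by
  have h1 := G.hi k (by omega)
  have h2 : ((k : ℝ) + 1) ^ (2 / 3 : ℝ) ≤ 3 := by
    have h3 : (k : ℝ) ≤ 2 := by exact_mod_cast hk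
    have h4 : (0 : ℝ) ≤ k := Nat.cast_nonneg k
    calc _ ≤ ((k : ℝ) + 1) ^ (1 : ℝ) := rpow_le_rpow_of_exponent_le (by linarith) (by norm_num)
      _ ≤ 3 := by rw [rpow_one]; linarith
  linarith

lemma sqrt_mul_le {a b M : ℝ} (hb : 0 ≤ b) (ha' : a ≤ M) (hb' : b ≤ M) : √(a * b) ≤ M :=
  sqrt_le_iff.2 ⟨hb.trans hb', by rw [sq]; exact mul_le_mul ha' hb' hb (hb.trans hb')⟩

lemma exists_two (hn : 24 ≤ n) (k : Fin n) :
    ∃ i j : Fin n, i ≠ j ∧ k ≠ i ∧ k ≠ j ∧ (i : ℕ) ≤ 2 ∧ (j : ℕ) ≤ 2 := by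
  by_cases h0 : (k : ℕ) = 0
  · exact ⟨⟨1, by omega⟩, ⟨2, by omega⟩, by simp, Fin.ne_of_val_ne (by simp [h0]),
      Fin.ne_of_val_ne (by simp [h0]), by simp, by simp⟩
  by_cases h1 : (k : ℕ) = 1
  · exact ⟨⟨0, by omega⟩, ⟨2, by omega⟩, by simp, Fin.ne_of_val_ne (by simp [h1]),
      Fin.ne_of_val_ne (by simp [h1]), by simp, by simp⟩
  exact ⟨⟨0, by omega⟩, ⟨1, by omega⟩, by simp, Fin.ne_of_val_ne h0, Fin.ne_of_val_ne h1,
    by simp, by simp⟩

lemma final_bd {M δ C w θ : ℝ} (hM : 0 ≤ M) (hδ : 0 < δ) (hw : 0 ≤ w) (hθ : 0 ≤ θ) :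
    (M + 2 * θ) ^ 2 / (4 * δ ^ 2) * exp (θ * (C * √(w + 2 * θ))) ≤
      ((M + 2) ^ 2 / (4 * δ ^ 2) * exp (2 + |C| * √w + 2 * |C|) + (2 + |C| * √w + 2 * |C|)) *
      exp (((M + 2) ^ 2 / (4 * δ ^ 2) * exp (2 + |C| * √w + 2 * |C|) + (2 + |C| * √w + 2 * |C|)) *
        θ ^ (3 / 2 : ℝ)) := by
  set D := 2 + |C| * √w + 2 * |C| with hD
  set A := (M + 2) ^ 2 / (4 * δ ^ 2) * exp D with hA
  set p := θ ^ (3 / 2 : ℝ) with hp
  have hs := sqrt_nonneg θ
  have hss := mul_self_sqrt hθ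
  have hp' : p = θ * √θ := by
    rw [hp, show (3 / 2 : ℝ) = 1 + 1 / 2 by norm_num, rpow_add' hθ (by norm_num), rpow_one,
      sqrt_eq_rpow]
  have hp0 : 0 ≤ p := by positivity
  have hC := abs_nonneg C
  have hsw := sqrt_nonneg w
  have hD0 : 0 ≤ D := by positivity
  have hA0 : 0 ≤ A := by positivity
  have h1 : θ ≤ 1 + p := by
    rw [hp']
    rcases le_total θ 1 with h | h
    · nlinarith [mul_nonneg hθ hs]
    · nlinarith [one_le_sqrt.2 h]
  have h2 : √(w + 2 * θ) ≤ √w + 2 * √θ :=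
    sqrt_le_iff.2 ⟨by positivity, by nlinarith [mul_self_sqrt hw, mul_nonneg hsw hs]⟩
  have h3 : θ * (C * √(w + 2 * θ)) ≤ |C| * √w * (1 + p) + 2 * |C| * p := by
    calc _ ≤ θ * (|C| * (√w + 2 * √θ)) := by gcongr; exact le_abs_self C
      _ = |C| * √w * θ + 2 * |C| * p := by rw [hp']; ring
      _ ≤ _ := by gcongr
  have h4 : (M + 2 * θ) ^ 2 ≤ (M + 2) ^ 2 * exp (2 * θ) := by
    rw [show 2 * θ = θ * (2 : ℕ) by push_cast; ring, exp_mul, rpow_natCast, ← mul_pow]
    refine pow_le_pow_left₀ (by positivity) ?_ 2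
    have := add_one_le_exp θ
    push_cast
    nlinarith [mul_nonneg hM hθ]
  calc _ ≤ (M + 2) ^ 2 * exp (2 * θ) / (4 * δ ^ 2) * exp (|C| * √w * (1 + p) + 2 * |C| * p) := by
        gcongr
    _ = (M + 2) ^ 2 / (4 * δ ^ 2) * exp (2 * θ + (|C| * √w * (1 + p) + 2 * |C| * p)) := by
        rw [exp_add (2 * θ)]; ring
    _ ≤ (M + 2) ^ 2 / (4 * δ ^ 2) * exp (D + D * p) := by
        refine mul_le_mul_of_nonneg_left (exp_le_exp.2 ?_) (by positivity)
        rw [hD]; nlinarith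
    _ = A * exp (D * p) := by rw [exp_add, hA]; ring
    _ ≤ _ := by gcongr <;> linarith

end Mgf32

open Mgf32

theorem coordGlue : CoordGlue := by
  intro hS hSh hT hD L C m K hL
  obtain ⟨w₂, hw₂, H⟩ := hD L C (m + 1) K hL
  refine ⟨w₂, hw₂, fun w hw => ?_⟩
  obtain ⟨δ, hδ, H⟩ := H w hw
  have hM : 0 < w + (180 + L) := by linarith
  refine ⟨(w + (180 + L)) / 2 / δ, δ / ((w + (180 + L)) / 2), by positivity, by positivity, ?_⟩
  filter_upwards [H, eventually_ge_atTop 24] with n H hn η t ht G k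
  have : Nonempty (Fin n) := ⟨⟨0, by omega⟩⟩
  obtain ⟨κ, hκ, sh⟩ := exists_sh (ι := Fin n) hSh ht
  obtain ⟨hp, hae, -⟩ := (hS (Fin n)).1 √t
  rw [sq_sqrt ht.le] at hae
  have ha := a_pos G hL (hw₂.trans hw) le_rfl
  obtain ⟨i, j, hij, hi, hj, hi2, hj2⟩ := exists_two hn k
  have hs : √((w + η i) * (w + η j)) ≤ w + (180 + L) :=
    sqrt_mul_le (ha j).le (by linarith [eta_le G hn hi2]) (by linarith [eta_le G hn hj2])
  have hP : 0 < κ * ∏ k : Fin n, √(w + η k) :=
    mul_pos hκ (prod_pos fun k _ => sqrt_pos.2 (ha k))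
  have hden : δ ≤ κ * (∏ k : Fin n, √(w + η k)) * J (sphR (Fin n) √t) (fun k => w + η k)
      fun _ => 1 := low_set sh ha continuous_const (fun _ => zero_le_one) (fun _ => le_rfl)
    MeasurableSet.univ (fun _ _ => rfl) fun ε h1 h2 => by
      rw [Set.inter_univ]; exact (H η t G ε h1 h2).1
  refine ⟨?_, fun hk => ?_⟩
  · rw [nuD, tilt_eq hae (fun k => η k) w]
    have hk := ha k
    refine (ratio_le hP hδ (by positivity) (up_sq hT sh ha hij hi hj) hden).trans ?_
    calc _ ≤ (w + (180 + L)) / 2 * (1 / (w + η k)) / δ := by gcongr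
      _ = _ := by ring
  · let F : (Fin n → ℝ) → ℝ := fun x => min 1 (max 0 (|x k| - m))
    have hF : Continuous F := by fun_prop
    have hF0 : ∀ x, 0 ≤ F x := fun x => le_min zero_le_one (le_max_left _ _)
    have hA : ∀ r : ℝ, MeasurableSet {x : Fin n → ℝ | r ≤ |x k|} := fun r =>
      measurableSet_le measurable_const (by fun_prop)
    have h1 := low_set sh ha hF hF0 (fun x => min_le_left _ _) (hA (m + 1))
      (fun x hx => min_eq_left (le_max_of_le_right (by have : m + 1 ≤ |x k| := hx; linarith)))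
      fun ε h1 h2 => (H η t G ε h1 h2).2 k hk
    have h2 := up_one hT sh ha hij
    have hae' : ∀ᵐ x ∂nuD n η t, x ⬝ᵥ x = t := (tilted_absolutelyContinuous _ _).ae_le hae
    have : IsFiniteMeasure (nuD n η t) := by unfold nuD; infer_instance
    calc _ ≤ ∫ x, F x ∂nuD n η t := by
          rw [nuD, tilt_eq hae (fun k => η k) w, ← mul_div_mul_left (J _ _ F) _ hP.ne']
          exact div_le_div₀ (hδ.le.trans h1) h1 (hδ.trans_le hden) (h2.trans (by linarith))
      _ ≤ ∫ x, {x : Fin n → ℝ | m ≤ |x k|}.indicator 1 x ∂nuD n η t := by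
          refine integral_mono (intg hae' hF) ((integrable_const 1).indicator (hA m)) fun x => ?_
          by_cases hx : m ≤ |x k|
          · rw [Set.indicator_of_mem (show x ∈ {x : Fin n → ℝ | m ≤ |x k|} from hx)]
            exact min_le_left _ _
          · rw [Set.indicator_of_notMem (show x ∉ {x : Fin n → ℝ | m ≤ |x k|} from hx)]
            exact (min_le_right _ _).trans (max_le le_rfl (by linarith [not_le.1 hx]))
      _ = _ := integral_indicator_one (hA m)

theorem mgfGlue : MgfGlue := by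
  intro hS hSh hT hD L C hL
  obtain ⟨w₂, hw₂, H⟩ := hD L C 0 0 hL
  refine ⟨w₂, fun w hw => ?_⟩
  obtain ⟨δ, hδ, H⟩ := H w hw
  set M := w + (180 + L) with hMd
  have hM : 0 < M := by linarith
  refine ⟨(M + 2) ^ 2 / (4 * δ ^ 2) * exp (2 + |C| * √w + 2 * |C|) + (2 + |C| * √w + 2 * |C|), ?_⟩
  filter_upwards [H, eventually_ge_atTop 24] with n H hn η t ht G θ
  refine le_trans ?_ (final_bd (C := C) hM.le hδ (by linarith : 0 ≤ w) (abs_nonneg θ))
  have : Nonempty (Fin n) := ⟨⟨0, by omega⟩⟩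
  obtain ⟨κ, hκ, sh⟩ := exists_sh (ι := Fin n) hSh ht
  obtain ⟨hp, hae, -⟩ := (hS (Fin n)).1 √t
  rw [sq_sqrt ht.le] at hae
  set S := sphR (Fin n) √t with hSd
  set u := |θ| with hu
  have hu0 : 0 ≤ u := abs_nonneg θ
  have hw' := hw₂.trans hw
  have h0 := a_pos G hL hw' le_rfl
  have h1 := a_pos G hL hw' (v := w + u) (by linarith)
  have h2 := a_pos G hL hw' (v := w + 2 * u) (by linarith)
  obtain ⟨i, j, hij, -, -, hi2, hj2⟩ := exists_two hn ⟨0, by omega⟩
  let a' : Fin n → ℝ := fun k => (w + η k) * (w + 2 * u + η k) / (w + u + η k)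
  have h3 : ∀ k, 0 < a' k := fun k => div_pos (mul_pos (h0 k) (h2 k)) (h1 k)
  set P0 := ∏ k : Fin n, √(w + η k) with hP0
  set P1 := ∏ k : Fin n, √(w + u + η k) with hP1
  set P' := ∏ k : Fin n, √(a' k) with hP'
  have p0 : 0 < P0 := prod_pos fun k _ => sqrt_pos.2 (h0 k)
  have p1 : 0 < P1 := prod_pos fun k _ => sqrt_pos.2 (h1 k)
  have p' : 0 < P' := prod_pos fun k _ => sqrt_pos.2 (h3 k)
  have hden : δ ≤ κ * P0 * J S (fun k => w + η k) fun _ => 1 :=
    low_set sh h0 continuous_const (fun _ => zero_le_one) (fun _ => le_rfl)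
      MeasurableSet.univ (fun _ _ => rfl) fun ε h1 h2 => by
        rw [Set.inter_univ]; exact (H η t G ε h1 h2).1
  set D1 := J S (fun k => w + u + η k) fun _ => 1 with hD1
  have hden1 : δ * exp (-(u * t / 2)) ≤ κ * P0 * D1 := by
    have := J_shift hae (fun k : Fin n => w + η k) u fun _ => 1
    simp only [← add_assoc, add_comm u w] at this
    rw [hD1, this, mul_left_comm, mul_comm δ]
    exact mul_le_mul_of_nonneg_left hden (exp_pos _).le
  set e := δ * exp (-(u * t / 2)) with he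
  have e0 : 0 < e := by positivity
  set s1 := √((w + u + η i) * (w + u + η j)) / 2 with hs1
  set s' := √(a' i * a' j) / 2 with hs'
  let g : (Fin n → ℝ) → ℝ := fun x => exp ((∑ k : Fin n, 1 / (w + u + η k) * (θ * x k) ^ 2) / 2)
  have hg : Continuous g := by fun_prop
  have inner : ∀ x, ∫ x', exp (θ * (x ⬝ᵥ x')) ∂nuD n η t ≤ s1 * (P0 / P1) / e * g x := fun x => by
    have h4 := up_exp hT sh h1 hij (θ • x)
    simp only [smul_dotProduct, smul_eq_mul, Pi.smul_apply] at h4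
    rw [nuD, tilt_eq hae (fun k => η k) (w + u)]
    refine (ratio_le (U := g x * s1 * (P0 / P1)) (mul_pos hκ p0) e0 (by positivity) ?_
      hden1).trans_eq (by ring)
    refine le_trans (le_of_eq ?_) (mul_le_mul_of_nonneg_right h4 (div_pos p0 p1).le)
    rw [← hP1]; field_simp
  have outer : ∫ x, g x ∂nuD n η t ≤ s' * (P0 / P') / e := by
    have h4 := up_one hT sh h3 hij
    have h5 : J S (fun k => w + u + η k) g = J S a' fun _ => 1 := by
      refine integral_congr_ae (.of_forall fun x => ?_)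
      simp only [g, one_mul]
      rw [← exp_add, sum_div, mul_sum, mul_sum, ← sum_add_distrib]
      refine congrArg exp (sum_congr rfl fun k _ => ?_)
      have := (h1 k).ne'
      simp only [a']
      rw [mul_pow, ← sq_abs θ, ← hu]
      field_simp; ring
    rw [nuD, tilt_eq hae (fun k => η k) (w + u), h5]
    refine ratio_le (mul_pos hκ p0) e0 (by positivity) ?_ hden1
    refine le_trans (le_of_eq ?_) (mul_le_mul_of_nonneg_right h4 (div_pos p0 p').le)
    rw [← hP']; field_simp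
  have hae' : ∀ᵐ x ∂nuD n η t, x ⬝ᵥ x = t := (tilted_absolutelyContinuous _ _).ae_le hae
  have : IsFiniteMeasure (nuD n η t) := by unfold nuD; infer_instance
  have hss : s1 * s' ≤ (M + 2 * u) ^ 2 / 4 := by
    have hi := eta_le G hn hi2
    have hj := eta_le G hn hj2
    have b1 : ∀ k : Fin n, η k ≤ 180 + L → a' k ≤ M + 2 * u := fun k hk => by
      refine (div_le_iff₀ (h1 k)).2 ?_
      rw [mul_comm]
      exact mul_le_mul (by linarith) (by linarith) (h0 k).le (by linarith)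
    have c1 := sqrt_mul_le (M := M + 2 * u) (a := w + u + η i) (h1 j).le (by linarith) (by linarith)
    have c2 := sqrt_mul_le (h3 j).le (b1 i hi) (b1 j hj)
    have := mul_le_mul c1 c2 (sqrt_nonneg _) (by linarith)
    rw [hs1, hs']; nlinarith
  have hPP : P0 / P1 * (P0 / P') ≤ exp (-(u * ∑ k ∈ range n, 1 / (w + 2 * u + η k))) := by
    rw [hP0, hP1, hP', ← prod_div_distrib, ← prod_div_distrib, ← prod_mul_distrib,
      ← Fin.sum_univ_eq_sum_range (fun k => 1 / (w + 2 * u + η k)), mul_sum, ← sum_neg_distrib,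
      exp_sum]
    refine prod_le_prod (fun k _ => by positivity) fun k _ => ?_
    refine (sq_le_sq₀ (by positivity) (exp_pos _).le).1 ?_
    have k0 := h0 k
    have k1 := h1 k
    have k2 := h2 k
    rw [mul_pow, div_pow, div_pow, sq_sqrt k0.le, sq_sqrt k1.le, sq_sqrt (h3 k).le, ← exp_nat_mul]
    refine le_trans (le_of_eq ?_) (add_one_le_exp _)
    simp only [a']
    push_cast
    generalize η k = y at k0 k1 k2
    obtain ⟨z, rfl⟩ : ∃ z, y = z - (w + 2 * u) := ⟨y + (w + 2 * u), by ring⟩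
    have k3 : z ≠ 0 := by linarith [k2.ne']
    have e1 : w + (z - (w + 2 * u)) = z - 2 * u := by ring
    have e2 : w + u + (z - (w + 2 * u)) = z - u := by ring
    have e3 : w + 2 * u + (z - (w + 2 * u)) = z := by ring
    rw [e1] at k0; rw [e2] at k1
    rw [e1, e2, e3]
    have := k0.ne'
    have := k1.ne'
    field_simp; ring
  have hdn := G.dn (w + 2 * u) (by linarith)
  calc Xk θ (nuD n η t) (nuD n η t) ≤ ∫ x, s1 * (P0 / P1) / e * g x ∂nuD n η t :=
        integral_mono_of_nonneg (.of_forall fun x => integral_nonneg fun _ => (exp_pos _).le)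
          ((intg hae' hg).const_mul _) (.of_forall inner)
    _ ≤ s1 * (P0 / P1) / e * (s' * (P0 / P') / e) := by
        rw [integral_const_mul]; gcongr
    _ = s1 * s' / δ ^ 2 * (exp (u * t) * (P0 / P1 * (P0 / P'))) := by
        have : exp (u * t) = (exp (-(u * t / 2)) ^ 2)⁻¹ := by
          rw [← exp_nat_mul, ← Real.exp_neg]; congr 1; push_cast; ring
        rw [this, he]; field_simp
    _ ≤ (M + 2 * u) ^ 2 / 4 / δ ^ 2 *
          (exp (u * t) * exp (-(u * ∑ k ∈ range n, 1 / (w + 2 * u + η k)))) := by gcongr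
    _ ≤ _ := by
        rw [div_div, ← exp_add]
        gcongr
        unfold Sr at hdn
        nlinarith [mul_le_mul_of_nonneg_left hdn hu0]

theorem sphTightGlue : SphTightGlue := by
  intro hI hK hG hM ε hε
  obtain ⟨C, -, hG⟩ := hG
  obtain ⟨L, w₁, hL, hG⟩ := hG ε hε
  obtain ⟨w₂, hM⟩ := hM L C hL
  obtain ⟨B, hB⟩ := hM (max w₁ w₂) (le_max_right _ _)
  refine ⟨B, ?_⟩
  filter_upwards [hG _ (le_max_left w₁ w₂), hB, eventually_ge_atTop 1] with n h1 h2 hn
  refine le_trans (measure_mono ?_) h1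
  intro W hW hW'
  refine hW fun θ => ?_
  have ht : 0 < sx n ^ 2 := pow_pos (sx_pos hn) 2
  obtain ⟨-, hc, -, hd, -⟩ := hK n hn
  obtain ⟨O, hO, -, hν⟩ := hd W hW'.1
  have hcp := (hc (Lam n W) _ ht).1
  rw [hν, (hI (Fin n) (Fin n) O hO _ _ hcp hcp).2.1 θ]
  exact h2 _ _ ht hW'.2 θ

end Crest.Agent.T157.St
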