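import Crest.Agent.T157.StGood_84
import Crest.Agent.T157.ConcHW_16
import Crest.Agent.T157.EigN_84

/-!
# Row 157, part C4: overlap of the top eigenvector with the edge modes of the mixture (helper62)

`ovlGlue : OvlGlue`.  Real spectral parameter, a test vector `u + y` with `y ⊥ u`.
-/

set_option autoImplicit false

noncomputable section

namespace Crest.Agent.T157.St

open MeasureTheory ProbabilityTheory Matrix Filter Topology Finset Real
open scoped ENNReal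
open Crest.Agent.T157.E Crest.Agent.T157.Eig Crest.Agent.T157.Cond Crest.Agent.T157.Ed

namespace Ovl62

variable {n : ℕ}

/-- the matrix `w + τ (2 - W)` -/
def Mm (n : ℕ) (w : ℝ) (W : Mat n) : Mat n := (w + 2 * tau n) • (1 : Mat n) - tau n • W
/-- its inverse -/
def Rm (n : ℕ) (w : ℝ) (W : Mat n) : Mat n := fnK (fun x => (w + tau n * (2 - x))⁻¹) W

lemma quad_Mm (w : ℝ) (W : Mat n) (x : Fin n → ℝ) :
    x ⬝ᵥ Mm n w W *ᵥ x = (w + 2 * tau n) * (x ⬝ᵥ x) - tau n * (x ⬝ᵥ W *ᵥ x) := by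
  rw [Mm, sub_mulVec, smul_mulVec, smul_mulVec, one_mulVec, dotProduct_sub, dotProduct_smul,
    dotProduct_smul, smul_eq_mul, smul_eq_mul]

lemma Mm_eq (w : ℝ) {W : Mat n} (hW : W.IsHermitian) :
    Mm n w W = fnK (fun x => w + tau n * (2 - x)) W := by
  have e : (fun x : ℝ => w + tau n * (2 - x)) = fun x => (w + 2 * tau n) - tau n * x := by
    funext x; ring
  rw [e, fnK_sub (fun _ => w + 2 * tau n) (fun x => tau n * x), fnK_const hW,
    fnK_smul (tau n) (fun x => x), fnK_id_real hW, Mm]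

lemma quad_sum (w : ℝ) {W : Mat n} (hW : W.IsHermitian) (x : Fin n → ℝ) :
    x ⬝ᵥ Mm n w W *ᵥ x = ∑ k ∈ range n, (w + Lam n W k) * (vec W k ⬝ᵥ x) ^ 2 := by
  rw [Mm_eq w hW, quad_fnK, Fintype.card_fin]
  exact sum_congr rfl fun k _ => by rw [Lam, sq]

lemma dot_sum {W : Mat n} (hW : W.IsHermitian) (u x : Fin n → ℝ) :
    u ⬝ᵥ x = ∑ k ∈ range n, (vec W k ⬝ᵥ u) * (vec W k ⬝ᵥ x) := by
  rw [dot_eq hW, Fintype.card_fin]

lemma amgm {p x c m D : ℝ} (hc : 0 < c) (hm : c ≤ m) (hD : 0 < D) :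
    p * x ≤ 1 / (2 * D) * (m * x ^ 2) + D / 2 * (p ^ 2 / c) := by
  have h1 : 1 / (2 * D) * (c * x ^ 2) + D / 2 * (p ^ 2 / c) - p * x =
      (c * x - D * p) ^ 2 / (2 * D * c) := by field_simp; ring
  have h2 : 0 ≤ (c * x - D * p) ^ 2 / (2 * D * c) := by positivity
  have h3 : 1 / (2 * D) * (c * x ^ 2) ≤ 1 / (2 * D) * (m * x ^ 2) :=
    mul_le_mul_of_nonneg_left (mul_le_mul_of_nonneg_right hm (sq_nonneg _)) (by positivity)
  linarith

/-- a test vector of bounded energy forces an overlap -/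
lemma ovl_of_test {w D : ℝ} {K : ℕ} {W : Mat n} (hW : W.IsHermitian) (hD : 0 < D)
    (h1 : ∀ k < n, 1 ≤ w + Lam n W k) (h2 : ∀ k < n, K ≤ k → 2 * D ≤ w + Lam n W k)
    {u x : Fin n → ℝ} (hu : u ⬝ᵥ u = 1) (hx : u ⬝ᵥ x = 1) (hQ : x ⬝ᵥ Mm n w W *ᵥ x ≤ D) :
    ∃ k, k < K ∧ 1 / (2 * D + K + 1) ≤ |u ⬝ᵥ vec W k| := by
  by_contra hc
  push Not at hc
  set κ : ℝ := 1 / (2 * D + K + 1) with hκ
  have hκ0 : 0 < κ := by positivity
  have a1 : ∀ k ∈ range n, (vec W k ⬝ᵥ u) * (vec W k ⬝ᵥ x) ≤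
      1 / (2 * D) * ((w + Lam n W k) * (vec W k ⬝ᵥ x) ^ 2) +
        (D / 2 * (if k < K then κ ^ 2 else 0) +
          1 / 4 * ((vec W k ⬝ᵥ u) * (vec W k ⬝ᵥ u))) := by
    intro k hk
    have hk' := mem_range.1 hk
    split_ifs with h
    · have b1 := amgm (p := vec W k ⬝ᵥ u) (x := vec W k ⬝ᵥ x) one_pos (h1 k hk') hD
      have b2 : (vec W k ⬝ᵥ u) ^ 2 / 1 ≤ κ ^ 2 := by
        rw [div_one, ← sq_abs, dotProduct_comm]
        exact pow_le_pow_left₀ (abs_nonneg _) (hc k h).le 2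
      have b3 := mul_le_mul_of_nonneg_left b2 (by positivity : 0 ≤ D / 2)
      linarith [mul_self_nonneg (vec W k ⬝ᵥ u)]
    · have b1 := amgm (p := vec W k ⬝ᵥ u) (x := vec W k ⬝ᵥ x) (by positivity : 0 < 2 * D)
        (h2 k hk' (not_lt.1 h)) hD
      have b2 : D / 2 * ((vec W k ⬝ᵥ u) ^ 2 / (2 * D)) =
          1 / 4 * ((vec W k ⬝ᵥ u) * (vec W k ⬝ᵥ u)) := by field_simp; ring
      linarith
  have a2 := sum_le_sum a1
  rw [sum_add_distrib, sum_add_distrib, ← mul_sum, ← mul_sum, ← mul_sum, ← dot_sum hW,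
    ← dot_sum hW, ← quad_sum w hW, hu, hx] at a2
  have a3 : ∑ k ∈ range n, (if k < K then κ ^ 2 else 0) ≤ K * κ ^ 2 := by
    rw [← sum_filter, sum_const, nsmul_eq_mul]
    refine mul_le_mul_of_nonneg_right ?_ (sq_nonneg _)
    have : ((range n).filter (· < K)).card ≤ (range K).card :=
      card_le_card fun k hk => mem_range.2 (mem_filter.1 hk).2
    rw [card_range] at this
    exact_mod_cast this
  have a4 : 1 / (2 * D) * (x ⬝ᵥ Mm n w W *ᵥ x) ≤ 1 / 2 := by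
    calc _ ≤ 1 / (2 * D) * D := mul_le_mul_of_nonneg_left hQ (by positivity)
      _ = 1 / 2 := by field_simp
  have hK : (0 : ℝ) ≤ K := Nat.cast_nonneg _
  have a5 : K * κ ≤ 1 := by
    rw [hκ, mul_one_div, div_le_one (by positivity)]; linarith
  have a6 : 2 * D * κ < 1 := by
    rw [hκ, mul_one_div, div_lt_one (by positivity)]; linarith
  have a7 : D / 2 * (K * κ ^ 2) ≤ D / 2 * κ := by
    refine mul_le_mul_of_nonneg_left ?_ (by positivity)
    calc K * κ ^ 2 = K * κ * κ := by ring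
      _ ≤ 1 * κ := mul_le_mul_of_nonneg_right a5 hκ0.le
      _ = κ := one_mul _
  have a8 := mul_le_mul_of_nonneg_left a3 (by positivity : 0 ≤ D / 2)
  linarith

/-- the optimal correction -/
lemma test {M R : Mat n} (hR : Rᵀ = R) (hMR : M * R = 1) (hM : ∀ v, v ⬝ᵥ v ≤ v ⬝ᵥ M *ᵥ v)
    {u : Fin n → ℝ} (hu : u ⬝ᵥ u = 1) :
    0 < u ⬝ᵥ R *ᵥ u ∧ R *ᵥ u ⬝ᵥ R *ᵥ u ≤ u ⬝ᵥ R *ᵥ u ∧ ∀ ξ, ∃ y, u ⬝ᵥ y = 0 ∧
      y ⬝ᵥ M *ᵥ y - 2 * (ξ ⬝ᵥ y) = (R *ᵥ u ⬝ᵥ ξ) ^ 2 / (u ⬝ᵥ R *ᵥ u) - ξ ⬝ᵥ R *ᵥ ξ := by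
  have h0 : ∀ v, M *ᵥ (R *ᵥ v) = v := fun v => by rw [mulVec_mulVec, hMR, one_mulVec]
  have h1 : R *ᵥ u ⬝ᵥ R *ᵥ u ≤ u ⬝ᵥ R *ᵥ u := by
    have := hM (R *ᵥ u)
    rwa [h0, dotProduct_comm _ u] at this
  have h2 : 0 < u ⬝ᵥ R *ᵥ u := by
    refine lt_of_lt_of_le (Eig.dot_self_pos fun h => ?_) h1
    have := h0 u
    rw [h, mulVec_zero] at this
    rw [← this] at hu
    simp at hu
  refine ⟨h2, h1, fun ξ => ?_⟩
  have h3 : u ⬝ᵥ R *ᵥ ξ = R *ᵥ u ⬝ᵥ ξ := Cond.dot_symm hR u ξ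
  set β := (R *ᵥ u ⬝ᵥ ξ) / (u ⬝ᵥ R *ᵥ u) with hβ
  have h4 : u ⬝ᵥ R *ᵥ (ξ - β • u) = 0 := by
    rw [mulVec_sub, mulVec_smul, dotProduct_sub, dotProduct_smul, h3, smul_eq_mul, hβ]
    field_simp
    ring
  refine ⟨R *ᵥ (ξ - β • u), h4, ?_⟩
  rw [h0, dotProduct_sub, dotProduct_smul, dotProduct_comm _ u, h4, dotProduct_comm _ ξ,
    mulVec_sub, mulVec_smul, dotProduct_sub, dotProduct_smul, dotProduct_comm ξ (R *ᵥ u), hβ]
  simp only [smul_eq_mul]
  ring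

lemma Mm_mul_Rm {w : ℝ} {W : Mat n} (hW : W.IsHermitian) (h1 : ∀ k < n, 1 ≤ w + Lam n W k) :
    Mm n w W * Rm n w W = 1 := by
  rw [Mm_eq w hW, Rm, fnK_mul hW, ← fnK_one hW]
  refine fnK_congr fun k hk => mul_inv_cancel₀ ?_
  have := h1 k (by simpa using hk)
  rw [Lam] at this
  linarith

lemma Rm_symm (w : ℝ) (W : Mat n) : (Rm n w W)ᵀ = Rm n w W := by
  ext i j; rw [transpose_apply, Rm]; exact fnK_symm _ W j i

lemma le_Mm {w : ℝ} {W : Mat n} (hW : W.IsHermitian) (h1 : ∀ k < n, 1 ≤ w + Lam n W k)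
    (v : Fin n → ℝ) : v ⬝ᵥ v ≤ v ⬝ᵥ Mm n w W *ᵥ v := by
  rw [quad_sum w hW, dot_sum hW]
  refine sum_le_sum fun k hk => ?_
  rw [← sq]
  exact le_mul_of_one_le_left (sq_nonneg _) (h1 k (mem_range.1 hk))

lemma trace_Rm (w t : ℝ) {W : Mat n} (hW : W.IsHermitian) :
    (Rm n w W).trace = Sr n (Lam n W) t w + t := by
  rw [Rm, trace_fnK hW, Fintype.card_fin, Sr, sub_add_cancel]
  exact sum_congr rfl fun k _ => by rw [one_div, Lam]

lemma fro_Rm {w t L C : ℝ} {W : Mat n} (hW : W.IsHermitian) (h1 : ∀ k < n, 1 ≤ w + Lam n W k)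
    (hG : Gd n (Lam n W) t L w C) : Conc.fro (Rm n w W) ≤ 2 * (C * √(w + 1)) := by
  have e1 : Conc.fro (Rm n w W) = (Rm n w W * Rm n w W).trace := by
    simp only [Conc.fro, trace, diag_apply, mul_apply]
    refine sum_congr rfl fun i _ => sum_congr rfl fun j _ => ?_
    rw [sq]; congr 1; exact fnK_symm _ _ _ _
  rw [e1, Rm, fnK_mul hW, trace_fnK hW, Fintype.card_fin]
  have e2 : ∑ k ∈ range n, (w + tau n * (2 - lam W k))⁻¹ * (w + tau n * (2 - lam W k))⁻¹ ≤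
      2 * (Sr n (Lam n W) t w - Sr n (Lam n W) t (w + 1)) := by
    rw [Sr, Sr, sub_sub_sub_cancel_right, ← sum_sub_distrib, mul_sum]
    refine sum_le_sum fun k hk => ?_
    have a := h1 k (mem_range.1 hk)
    change (w + Lam n W k)⁻¹ * (w + Lam n W k)⁻¹ ≤ _
    rw [show w + 1 + Lam n W k = (w + Lam n W k) + 1 by ring]
    generalize w + Lam n W k = m at a
    have : 2 * (1 / m - 1 / (m + 1)) - m⁻¹ * m⁻¹ = (m - 1) / (m ^ 2 * (m + 1)) := by
      field_simp; ring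
    have h2 : 0 ≤ (m - 1) / (m ^ 2 * (m + 1)) := div_nonneg (by linarith) (by positivity)
    linarith
  have e3 := hG.up
  have e4 := hG.dn (w + 1) (by linarith)
  linarith [Real.sqrt_nonneg w]

/-- the resampled GOE matrix -/
def Tm (s : ℝ) (u : Fin n → ℝ) (p : (Fin n → ℝ) × Mat n) : Mat n :=
  s • rk2 (noise 1 u p.1) (dirv 1 u) + nextR 1 u * p.2 * nextR 1 u

lemma measurable_Tm (s : ℝ) (u : Fin n → ℝ) : Measurable (Tm s u) := by
  unfold Tm; fun_prop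

lemma law_Tm (s : ℝ) (u : Fin n → ℝ) :
    ((gv (Fin n)).prod (goe (Fin n) s)).map (Tm s u) = goe (Fin n) s := by
  have h := goe_step0 (IsProj.one (ι := Fin n)) u s
  simp only [Matrix.one_mul, Matrix.mul_one, Measure.map_id'] at h
  exact h.symm

lemma quad_Tm (s : ℝ) {u y : Fin n → ℝ} (hu : u ⬝ᵥ u = 1) (hy : u ⬝ᵥ y = 0) (ξ : Fin n → ℝ)
    (G : Mat n) : (u + y) ⬝ᵥ Tm s u (ξ, G) *ᵥ (u + y) =
      s * (√2 * (u ⬝ᵥ ξ) + 2 * (ξ ⬝ᵥ y)) + y ⬝ᵥ G *ᵥ y := by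
  have h1 : dirv 1 u = u := by
    rw [dirv, one_mulVec, unitv, len, hu, Real.sqrt_one, inv_one, one_smul]
  have h2 : nextR 1 u *ᵥ (u + y) = y := by
    rw [nextR, h1, sub_mulVec, one_mulVec, vmv_mulVec, dotProduct_add, hu, hy]; simp
  have h3 : (nextR 1 u)ᵀ = nextR 1 u := nextR_symm IsProj.one u
  have h4 : (u + y) ⬝ᵥ (nextR 1 u * G * nextR 1 u) *ᵥ (u + y) = y ⬝ᵥ G *ᵥ y := by
    rw [← mulVec_mulVec, ← mulVec_mulVec, Cond.dot_symm h3, h2]
  have h5 : noise 1 u ξ = ξ + ((√2 - 1) * (u ⬝ᵥ ξ)) • u := by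
    rw [noise_eq IsProj.one, h1, one_mulVec]
  have hy' : y ⬝ᵥ u = 0 := by rw [dotProduct_comm, hy]
  rw [Tm, add_mulVec, dotProduct_add, h4, h1, h5, rk2, smul_mulVec, dotProduct_smul, sub_mulVec,
    add_mulVec, smul_mulVec, vmv_mulVec, vmv_mulVec, vmv_mulVec]
  simp only [dotProduct_add, add_dotProduct, dotProduct_sub, dotProduct_smul, smul_dotProduct,
    smul_eq_mul, hu, hy, hy', dotProduct_comm ξ u, dotProduct_comm y ξ]
  ring

lemma quad_mix (A G : Mat n) (x : Fin n → ℝ) : x ⬝ᵥ mix n A G *ᵥ x =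
    √(1 - (sx n ^ 2)⁻¹) * (x ⬝ᵥ A *ᵥ x) + √((sx n ^ 2)⁻¹) * (x ⬝ᵥ G *ᵥ x) := by
  rw [mix, add_mulVec, smul_mulVec, smul_mulVec, dotProduct_add, dotProduct_smul,
    dotProduct_smul, smul_eq_mul, smul_eq_mul]

lemma coef (hn : 1 ≤ n) : tau n * (√((sx n ^ 2)⁻¹) * (1 / √n)) = 1 := by
  have h := sx_pos hn
  rw [Real.sqrt_inv, Real.sqrt_sq h.le, sqrt_eq, tau_eq]
  field_simp

lemma shift_le (hn : 1 ≤ n) : 2 * tau n * (1 - √(1 - (sx n ^ 2)⁻¹)) ≤ sx n ^ 2 + 1 := by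
  have h1 : 1 ≤ sx n ^ 2 := one_le_pow₀ (one_le_sx hn)
  rw [Good84.tau_eq_sq]
  generalize sx n ^ 2 = t at h1
  have h2 : t⁻¹ ≤ 1 := inv_le_one_of_one_le₀ h1
  have h3 : 0 ≤ t⁻¹ := by positivity
  have h4 : 1 - t⁻¹ / 2 - t⁻¹ ^ 2 / 2 ≤ √(1 - t⁻¹) := by
    refine Real.le_sqrt_of_sq_le ?_
    generalize t⁻¹ = x at h2 h3
    have a1 : x ^ 3 ≤ x ^ 2 := pow_le_pow_of_le_one h3 h2 (by norm_num)
    have a2 : x ^ 4 ≤ x ^ 2 := pow_le_pow_of_le_one h3 h2 (by norm_num)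
    nlinarith
  have h5 : 2 * t ^ 2 * (t⁻¹ / 2 + t⁻¹ ^ 2 / 2) = t + 1 := by field_simp
  rw [← h5]
  exact mul_le_mul_of_nonneg_left (by linarith) (by positivity)

/-- energy of the test vector -/
lemma energy (hn : 1 ≤ n) (w : ℝ) {A : Mat n} (hA : A.IsHermitian) {y : Fin n → ℝ}
    (hy : vec A 0 ⬝ᵥ y = 0) {D : ℝ} (hD0 : 0 ≤ D) (hD : Lam n A 0 ≤ D) (ξ : Fin n → ℝ)
    (G : Mat n) :
    (vec A 0 + y) ⬝ᵥ Mm n w (mix n A (Tm (1 / √n) (vec A 0) (ξ, G))) *ᵥ (vec A 0 + y) ≤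
      w + sx n ^ 2 + 1 + D - √2 * (vec A 0 ⬝ᵥ ξ) +
        (y ⬝ᵥ Mm n w (mix n A G) *ᵥ y - 2 * (ξ ⬝ᵥ y)) := by
  have hu : vec A 0 ⬝ᵥ vec A 0 = 1 := vec_dot_self hA (by simp; omega)
  have hy' : y ⬝ᵥ vec A 0 = 0 := by rw [dotProduct_comm, hy]
  have h1 : (vec A 0 + y) ⬝ᵥ A *ᵥ (vec A 0 + y) = lam A 0 + y ⬝ᵥ A *ᵥ y := by
    rw [mulVec_add, add_dotProduct, dotProduct_add, dotProduct_add, vec_dot_mulVec hA 0 y,
      mulVec_vec hA, dotProduct_smul, dotProduct_smul, hu, hy, hy']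
    simp
  have h2 : (vec A 0 + y) ⬝ᵥ (vec A 0 + y) = 1 + y ⬝ᵥ y := by
    rw [add_dotProduct, dotProduct_add, dotProduct_add, hu, hy, hy']; ring
  rw [quad_Mm, quad_Mm, quad_mix, quad_mix, quad_Tm _ hu hy, h1, h2]
  have h3 := coef hn
  have h4 := shift_le hn
  have h5 : √(1 - (sx n ^ 2)⁻¹) ≤ 1 := by
    have : 0 ≤ (sx n ^ 2)⁻¹ := by positivity
    exact Real.sqrt_le_one.2 (by linarith)
  have h6 : √(1 - (sx n ^ 2)⁻¹) * Lam n A 0 ≤ D :=
    (mul_le_mul_of_nonneg_left hD (Real.sqrt_nonneg _)).trans (mul_le_of_le_one_left hD0 h5)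
  rw [Lam] at h6
  generalize √(1 - (sx n ^ 2)⁻¹) = r at *
  generalize √((sx n ^ 2)⁻¹) = r' at *
  have h7 : tau n * (r' * (1 / √n * (√2 * (vec A 0 ⬝ᵥ ξ) + 2 * (ξ ⬝ᵥ y)))) =
      √2 * (vec A 0 ⬝ᵥ ξ) + 2 * (ξ ⬝ᵥ y) := by
    rw [← mul_assoc r', ← mul_assoc, h3, one_mul]
  linarith

lemma gauss_sq : ∫ t : ℝ, t ^ 2 ∂gaussianReal 0 1 = 1 := by
  have h := variance_id_gaussianReal (μ := 0) (v := 1)
  rw [variance_eq_integral measurable_id.aemeasurable] at h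
  simpa using h

/-- no test vector has small energy -/
def Bad (n : ℕ) (w D : ℝ) (A : Mat n) : Set (Mat n) :=
  {G | ∀ x, vec A 0 ⬝ᵥ x = 1 → D ≤ x ⬝ᵥ Mm n w (mix n A G) *ᵥ x}

lemma measurableSet_Bad (w D : ℝ) (A : Mat n) : MeasurableSet (Bad n w D A) := by
  refine IsClosed.measurableSet ?_
  have e : Bad n w D A = ⋂ x, ⋂ _ : vec A 0 ⬝ᵥ x = 1,
      {G | D ≤ x ⬝ᵥ Mm n w (mix n A G) *ᵥ x} := by
    ext G; simp [Bad]
  rw [e]
  refine isClosed_iInter fun x => isClosed_iInter fun _ => isClosed_le continuous_const ?_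
  simp only [quad_Mm, quad_mix]
  fun_prop

/-- the constant -/
def DD (w L C B : ℝ) : ℝ :=
  w + 62 + L + 2 * B + B ^ 2 + |C| * √w + B * √(2 * (|C| * √(w + 1)) + 1)

lemma sec_le (hn : 8 ≤ n) {w L C B : ℝ} (hL : 0 ≤ L) (hw : L + 1 ≤ w) (hB : 8 ≤ B) {A G : Mat n}
    (hA : A.IsHermitian) (hAG : Gd n (Lam n A) (sx n ^ 2) L w C)
    (hW : (mix n A G).IsHermitian) (hG : Gd n (Lam n (mix n A G)) (sx n ^ 2) L w C) :
    (gv (Fin n)).real {ξ | Tm (1 / √n) (vec A 0) (ξ, G) ∈ Bad n w (DD w L C B) A} ≤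
      6 * exp (-(B / 32)) := by
  have hu : vec A 0 ⬝ᵥ vec A 0 = 1 := vec_dot_self hA (by simp; omega)
  have h1 : ∀ k < n, 1 ≤ w + Lam n (mix n A G) k := fun k hk => by
    have a := hG.lo k hk
    have b : 0 ≤ ((k : ℝ) + 1) ^ (2 / 3 : ℝ) / 256 := by positivity
    linarith
  obtain ⟨t1, t2, t3⟩ := test (Rm_symm w _) (Mm_mul_Rm hW h1) (le_Mm hW h1) hu
  have h2 : Lam n A 0 ≤ 60 + L := by simpa using hAG.hi 0 (by omega)
  have h3 := trace_Rm w (sx n ^ 2) hW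
  have h4 := fro_Rm hW h1 hG
  have h5 := hG.dn w le_rfl
  have h6 : C * √w ≤ |C| * √w := mul_le_mul_of_nonneg_right (le_abs_self _) (Real.sqrt_nonneg _)
  have h7 : C * √(w + 1) ≤ |C| * √(w + 1) :=
    mul_le_mul_of_nonneg_right (le_abs_self _) (Real.sqrt_nonneg _)
  set R := Rm n w (mix n A G)
  set u := vec A 0
  set ρ := u ⬝ᵥ R *ᵥ u
  set F := 2 * (|C| * √(w + 1)) + 1 with hF
  have hF0 : 0 < F := by positivity
  have hB0 : 0 ≤ B := by linarith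
  have p1 := Conc.lin_tail (ι := Fin n) Conc.sg1_gauss u (c := 1)
    (by simpa [dotProduct, sq] using hu.le) hB0
  have p2 := Conc.lin_tail (ι := Fin n) Conc.sg1_gauss (R *ᵥ u) (c := ρ)
    (by simpa [dotProduct, sq] using t2) (u := B * √ρ) (by positivity)
  have p3 := Conc.hw_tail_fro (ι := Fin n) Conc.sg1_gauss (fun _ => gauss_sq) (A := R) hF0
    (by linarith) hB
  have e2 : -(B * √ρ) ^ 2 / (2 * ρ) = -B ^ 2 / (2 * 1) := by
    rw [mul_pow, Real.sq_sqrt t1.le]; field_simp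
  rw [e2] at p2
  have e3 : exp (-B ^ 2 / (2 * 1)) ≤ exp (-(B / 32)) := exp_le_exp.2 (by nlinarith)
  have hsub : {ξ | Tm (1 / √n) u (ξ, G) ∈ Bad n w (DD w L C B) A} ⊆
      ({x | B ≤ |u ⬝ᵥ x|} ∪ {x | B * √ρ ≤ |R *ᵥ u ⬝ᵥ x|}) ∪
        {x | B * √F ≤ |x ⬝ᵥ R *ᵥ x - R.trace|} := by
    intro ξ hξ
    by_contra hc
    simp only [Set.mem_union, Set.mem_ofPred_eq, not_or, not_le] at hc
    obtain ⟨⟨c1, c2⟩, c3⟩ := hc
    obtain ⟨y, y1, y2⟩ := t3 ξ
    have a1 := hξ (u + y) (by rw [dotProduct_add, hu, y1, add_zero])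
    have a2 := energy (by omega) w hA y1 (by linarith) h2 ξ G
    have a3 : (R *ᵥ u ⬝ᵥ ξ) ^ 2 / ρ ≤ B ^ 2 := by
      rw [div_le_iff₀ t1, ← sq_abs, ← Real.sq_sqrt t1.le, ← mul_pow]
      exact pow_le_pow_left₀ (abs_nonneg _) c2.le 2
    have a4 : √2 * -B ≤ √2 * (u ⬝ᵥ ξ) :=
      mul_le_mul_of_nonneg_left (abs_lt.1 c1).1.le (Real.sqrt_nonneg _)
    have a5 : √2 * B ≤ 2 * B := mul_le_mul_of_nonneg_right
      (Real.sqrt_le_iff.2 ⟨by norm_num, by norm_num⟩) hB0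
    have a6 := (abs_lt.1 c3).1
    rw [DD, ← hF] at a1
    linarith
  refine (measureReal_mono hsub).trans ((measureReal_union_le _ _).trans ?_)
  have := measureReal_union_le (μ := gv (Fin n)) {x | B ≤ |u ⬝ᵥ x|} {x | B * √ρ ≤ |R *ᵥ u ⬝ᵥ x|}
  linarith

lemma bad_le (hn : 8 ≤ n) {w L C B : ℝ} (hL : 0 ≤ L) (hw : L + 1 ≤ w) (hB : 8 ≤ B) {A : Mat n}
    (hA : A.IsHermitian) (hAG : Gd n (Lam n A) (sx n ^ 2) L w C) {N : Set (Mat n)}
    (hN : MeasurableSet N) (hNG : ∀ G ∉ N, (mix n A G).IsHermitian ∧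
      Gd n (Lam n (mix n A G)) (sx n ^ 2) L w C) :
    GOE n (Bad n w (DD w L C B) A) ≤ GOE n N + ENNReal.ofReal (6 * exp (-(B / 32))) := by
  have hm := measurableSet_Bad w (DD w L C B) A
  have hT := measurable_Tm (1 / √n) (vec A 0)
  conv_lhs => rw [GOE, ← law_Tm (1 / √n) (vec A 0), Measure.map_apply hT hm,
    Measure.prod_apply_symm (hT hm)]
  calc _ ≤ ∫⁻ G, (N.indicator 1 G + ENNReal.ofReal (6 * exp (-(B / 32)))) ∂GOE n := by
        refine lintegral_mono fun G => ?_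
        by_cases hG : G ∈ N
        · rw [Set.indicator_of_mem hG]
          exact prob_le_one.trans le_self_add
        · refine le_trans ?_ le_add_self
          rw [← ofReal_measureReal (measure_ne_top _ _)]
          exact ENNReal.ofReal_le_ofReal (sec_le hn hL hw hB hA hAG (hNG G hG).1 (hNG G hG).2)
    _ = _ := by
        rw [lintegral_add_right _ measurable_const, lintegral_indicator_one hN, lintegral_const,
          measure_univ, mul_one]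

lemma measurable_mix (n : ℕ) : Measurable fun p : Mat n × Mat n => mix n p.1 p.2 := by
  unfold mix; fun_prop

lemma law_mix (hn : 1 ≤ n) :
    ((GOE n).prod (GOE n)).map (fun p => mix n p.1 p.2) = GOE n := by
  refine map_eq_goe (measurable_mix n) fun M => ?_
  have h1 : 1 ≤ sx n ^ 2 := one_le_pow₀ (one_le_sx hn)
  have h2 : (sx n ^ 2)⁻¹ ≤ 1 := inv_le_one_of_one_le₀ h1
  have h3 : 0 ≤ (sx n ^ 2)⁻¹ := by positivity
  have e : ∀ p : Mat n × Mat n, pair M (mix n p.1 p.2) =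
      pair (√(1 - (sx n ^ 2)⁻¹) • M) p.1 + pair (√((sx n ^ 2)⁻¹) • M) p.2 := fun p => by
    rw [mix, pair_add, pair_smul, pair_smul, smul_pair, smul_pair]
  simp_rw [e]
  rw [CF_prod (GOE n) (GOE n) (fun W => pair (√(1 - (sx n ^ 2)⁻¹) • M) W)
    fun W => pair (√((sx n ^ 2)⁻¹) • M) W, CF_goe, CF_goe, ← Complex.exp_add, Vq_smul, Vq_smul,
    Real.sq_sqrt h3, Real.sq_sqrt (by linarith)]
  congr 1
  push_cast
  ring

lemma markov (hn : 1 ≤ n) {N : Set (Mat n)} (hN : MeasurableSet N) {e : ℝ} (he : 0 < e)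
    (h : GOE n N ≤ ENNReal.ofReal (e * e)) :
    GOE n {A | ENNReal.ofReal e ≤ GOE n {G | mix n A G ∈ N}} ≤ ENNReal.ofReal e := by
  have hm := measurable_mix n hN
  have h0 : ENNReal.ofReal e ≠ 0 := (ENNReal.ofReal_pos.2 he).ne'
  have h1 := mul_meas_ge_le_lintegral (μ := GOE n) (measurable_measure_prodMk_left (ν := GOE n) hm)
    (ENNReal.ofReal e)
  rw [← Measure.prod_apply hm, ← Measure.map_apply (measurable_mix n) hN, law_mix hn] at h1
  have h2 := h1.trans h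
  rw [ENNReal.ofReal_mul he.le] at h2
  exact (ENNReal.mul_le_mul_iff_right h0 ENNReal.ofReal_ne_top).1 h2

theorem ovl (hG : GoodStmt) : OvlStmt := by
  intro ε hε
  obtain ⟨C, -, hC⟩ := hG
  set e : ℝ := min (ε / 4) 1 with he
  have he0 : 0 < e := lt_min (by positivity) one_pos
  have he1 : e ≤ ε / 4 := min_le_left _ _
  have he2 : e * e ≤ e := mul_le_of_le_one_left he0.le (min_le_right _ _)
  obtain ⟨L, w₁, hL, hw⟩ := hC (e * e) (by positivity)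
  set w := max w₁ (L + 1)
  have hw1 : L + 1 ≤ w := le_max_right _ _
  set B : ℝ := 8 + 384 / ε with hB
  have hB8 : 8 ≤ B := by have : 0 < 384 / ε := by positivity
                         linarith
  have hBe : 6 * exp (-(B / 32)) ≤ ε / 2 := by
    have a1 : 12 / ε ≤ exp (B / 32) := by
      have := add_one_le_exp (B / 32)
      have b : B / 32 = 1 / 4 + 12 / ε := by rw [hB]; ring
      linarith
    rw [exp_neg, ← div_eq_mul_inv, div_le_iff₀ (exp_pos _)]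
    have a2 := mul_le_mul_of_nonneg_left a1 (by positivity : 0 ≤ ε / 2)
    have a3 : ε / 2 * (12 / ε) = 6 := by field_simp; norm_num
    linarith
  set D := DD w L C B
  have hD : 0 < D := by
    have : 0 < w := by linarith
    have : 0 < B := by linarith
    simp only [D, DD]; positivity
  obtain ⟨K, hK⟩ := eventually_atTop.1 (((tendsto_rpow_atTop (by norm_num : (0 : ℝ) < 2 / 3)).comp
    (tendsto_atTop_add_const_right _ 1 tendsto_natCast_atTop_atTop)).eventually_ge_atTop (512 * D))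
  refine ⟨K, 1 / (2 * D + K + 1), by positivity, ?_⟩
  filter_upwards [hw w (le_max_left _ _), eventually_ge_atTop 8] with n hn h8
  set N0 := {W : Mat n | ¬ (W.IsHermitian ∧ Gd n (Lam n W) (sx n ^ 2) L w C)}
  set N := toMeasurable (GOE n) N0
  have hN : MeasurableSet N := measurableSet_toMeasurable _ _
  have hN1 : GOE n N ≤ ENNReal.ofReal (e * e) := by rwa [measure_toMeasurable]
  have hN2 : ∀ W ∉ N, W.IsHermitian ∧ Gd n (Lam n W) (sx n ^ 2) L w C := fun W h => by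
    by_contra h'
    exact h (subset_toMeasurable _ _ h')
  have hM := markov (by omega) hN he0 hN1
  calc _ ≤ GOE n (N ∪ {A | ENNReal.ofReal e ≤ GOE n {G | mix n A G ∈ N}}) := by
        refine measure_mono fun A hA => ?_
        by_contra hc
        simp only [Set.mem_union, Set.mem_ofPred_eq, not_or, not_le] at hc
        obtain ⟨a1, a2⟩ := hN2 A hc.1
        refine hA ⟨a1, ?_⟩
        have hm : MeasurableSet {G | mix n A G ∈ N} :=
          (measurable_mix n).comp (measurable_prodMk_left (x := A)) hN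
        have b1 := bad_le h8 hL hw1 hB8 a1 a2 hm fun G h => hN2 _ h
        calc _ ≤ GOE n ({G | mix n A G ∈ N} ∪ Bad n w D A) := by
              refine measure_mono fun G hG => ?_
              by_contra hd
              simp only [Set.mem_union, Set.mem_ofPred_eq, not_or, Bad, not_forall, not_le] at hd
              obtain ⟨d1, x, d2, d3⟩ := hd
              obtain ⟨d4, d5⟩ := hN2 _ d1
              refine hG (ovl_of_test d4 hD (fun k hk => ?_) (fun k hk hk' => ?_)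
                (vec_dot_self a1 (by simp; omega)) d2 d3.le)
              · have a := d5.lo k hk
                have b : 0 ≤ ((k : ℝ) + 1) ^ (2 / 3 : ℝ) / 256 := by positivity
                linarith
              · have a := d5.lo k hk
                have b : 512 * D ≤ ((k : ℝ) + 1) ^ (2 / 3 : ℝ) := hK k hk'
                linarith
          _ ≤ ENNReal.ofReal e + (ENNReal.ofReal e + ENNReal.ofReal (6 * exp (-(B / 32)))) :=
              (measure_union_le _ _).trans (add_le_add hc.2.le (b1.trans (by gcongr; exact hc.2.le)))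
          _ ≤ _ := by
              rw [← ENNReal.ofReal_add he0.le (by positivity),
                ← ENNReal.ofReal_add he0.le (by positivity)]
              exact ENNReal.ofReal_le_ofReal (by linarith)
    _ ≤ ENNReal.ofReal (e * e) + ENNReal.ofReal e :=
        (measure_union_le _ _).trans (add_le_add hN1 hM)
    _ ≤ _ := by
        rw [← ENNReal.ofReal_add (by positivity) he0.le]
        exact ENNReal.ofReal_le_ofReal (by linarith)

end Ovl62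

theorem ovlGlue : OvlGlue := fun hS hE => Ovl62.ovl (Good84.good hS hE)

end Crest.Agent.T157.St

end
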