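import Crest.Agent.T157.FrA_98
import Crest.Agent.T157.NrmG_84
import Crest.Agent.R166.Stein_583

/-!
Row 157 (helper98), freeness with diagonals, part B: the vector Dyson equation for
`G = (diag d - W)⁻¹`, `W ~ goe ι s`, uniformly over all diagonals `d` in a box.
-/

set_option autoImplicit false
set_option linter.unusedSimpArgs false

noncomputable section

namespace Crest.Agent.T157.Fr

open Matrix Finset MeasureTheory ProbabilityTheory
open Crest.Agent.T157.Eig Crest.Agent.T157.Cond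
open Crest.Agent.T157.Conc (en ELip en_nonneg)
open Crest.Agent.T157.E (gv)

variable {ι : Type*} [Fintype ι] [DecidableEq ι]

/-- `s² tr G` -/
def mtr (s : ℝ) (d : ι → ℂ) (W : Matrix ι ι ℝ) : ℂ := ((s ^ 2 : ℝ) : ℂ) * (res d W).trace

/-- the error in the vector Dyson equation: `(d_i - s² tr G) G_ii - 1` -/
def err (s : ℝ) (d : ι → ℂ) (W : Matrix ι ι ℝ) : ι → ℂ :=
  fun i => (d i - mtr s d W) * res d W i i - 1

/-- the Lipschitz constant -/
def Lam (ι : Type*) [Fintype ι] (s A η : ℝ) : ℝ :=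
  A / η ^ 2 + 2 * (s ^ 2 * Fintype.card ι) / η ^ 3

variable {s A η : ℝ} {d d' : ι → ℂ} {W W' : Matrix ι ι ℝ}

lemma err_eq (h : IsUnit (Zm d W).det) (s : ℝ) (i : ι) :
    err s d W i = (cx W * res d W) i i - mtr s d W * res d W i i := by
  have h1 := congrFun (congrFun (Zm_mul_res h) i) i
  rw [Zm, Matrix.sub_mul, Matrix.sub_apply, diagonal_mul, one_apply_eq] at h1
  simp only [err]
  linear_combination h1

lemma norm_mtr_le (hη : 0 < η) (hd : ∀ i, η ≤ (d i).im) (hW : Wᵀ = W) (s : ℝ) :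
    ‖mtr s d W‖ ≤ s ^ 2 * Fintype.card ι / η := by
  rw [mtr, norm_mul, Complex.norm_real, Real.norm_of_nonneg (sq_nonneg s)]
  have := (trace_le (res d W)).trans
    (mul_le_mul_of_nonneg_left (cop_res_le hη hd hW) (Nat.cast_nonneg _))
  calc s ^ 2 * ‖(res d W).trace‖ ≤ s ^ 2 * (Fintype.card ι * (1 / η)) :=
        mul_le_mul_of_nonneg_left this (sq_nonneg s)
    _ = _ := by ring

lemma im_mtr_nonpos (hη : 0 < η) (hd : ∀ i, η ≤ (d i).im) (hW : Wᵀ = W) (s : ℝ) :
    (mtr s d W).im ≤ 0 := by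
  rw [mtr, Complex.im_ofReal_mul, trace, Complex.im_sum]
  exact mul_nonpos_of_nonneg_of_nonpos (sq_nonneg s)
    (sum_nonpos fun i _ => im_res_nonpos hη hd hW i)

lemma mul_Ap_mul (U V : Matrix ι ι ℂ) (s : ℝ) (p : ι × ι) (k l : ι) :
    (U * Ap s p * V) k l = ((s / √2 : ℝ) : ℂ) * (U k p.1 * V p.2 l + U k p.2 * V p.1 l) := by
  obtain ⟨a, b⟩ := p
  have e0 : ∀ i j : ι, (((Pi.single (a, b) (1 : ℝ) : ι × ι → ℝ) (i, j) : ℝ) : ℂ) =
      if i = a then (if j = b then 1 else 0) else 0 := fun i j => by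
    by_cases h1 : i = a <;> by_cases h2 : j = b <;> simp [Pi.single_apply, h1, h2]
  have e : ∀ i j, Ap s (a, b) i j = ((s / √2 : ℝ) : ℂ) *
      ((if i = a then (if j = b then 1 else 0) else 0) +
        (if j = a then (if i = b then 1 else 0) else 0)) := fun i j => by
    rw [← e0, ← e0]
    simp only [Ap, cx_apply, symG, of_apply]
    push_cast; ring
  simp only [mul_apply, e, mul_add, add_mul, sum_add_distrib, mul_ite, ite_mul, mul_one, mul_zero,
    zero_mul, sum_ite_eq', mem_univ, if_true, sum_ite_irrel, sum_const_zero]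
  ring

lemma hasDerivAt_res (hη : 0 < η) (hd : ∀ i, η ≤ (d i).im) (s : ℝ) (x : ι × ι → ℝ) (p : ι × ι)
    (k l : ι) : HasDerivAt (fun t => res d (symG s (Function.update x p t)) k l)
      ((res d (symG s x) * Ap s p * res d (symG s x)) k l) (x p) := by
  have hc : Continuous fun t : ℝ =>
      (res d (symG s (Function.update x p t)) * Ap s p * res d (symG s x)) k l := by
    have h1 : Continuous fun t : ℝ => Function.update x p t :=
      continuous_const.update p continuous_id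
    have h2 := (continuous_res hη hd s).comp h1
    exact ((h2.matrix_mul continuous_const).matrix_mul continuous_const).matrix_elem k l
  have := hasDerivAt_of_eq (f := fun t => res d (symG s (Function.update x p t)) k l) (a := x p) hc
    fun t => by
      have h := res_sub_res (unit_Zm hη hd (symG_transpose s (Function.update x p t)))
        (unit_Zm hη hd (symG_transpose s x))
      rw [symG_update, cx_smul] at h
      have h3 := congrFun (congrFun h k) l
      rw [Matrix.sub_apply, mul_smul_comm, smul_mul_assoc, Matrix.smul_apply, smul_eq_mul] at h3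
      simp only [Function.update_eq_self]
      exact h3
  simpa only [Function.update_eq_self] using this

omit [DecidableEq ι] in
lemma int_bdd {f : (ι → ℝ) → ℂ} (hf : Continuous f) {C : ℝ} (h : ∀ x, ‖f x‖ ≤ C) :
    Integrable f (gv ι) := Integrable.of_bound hf.aestronglyMeasurable C (ae_of_all _ h)

/-- Stein's identity for the resolvent -/
theorem integral_err (hη : 0 < η) (hd : ∀ i, η ≤ (d i).im) (s : ℝ) (i : ι) :
    ∫ x, err s d (symG s x) i ∂(gv (ι × ι)) =
      ∫ x, ((s ^ 2 : ℝ) : ℂ) * ∑ j, res d (symG s x) j i * res d (symG s x) j i ∂(gv (ι × ι)) := by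
  set G : (ι × ι → ℝ) → Matrix ι ι ℂ := fun x => res d (symG s x) with hG
  have hGc : Continuous G := continuous_res hη hd s
  have hGe : ∀ k l, Continuous fun x => G x k l := fun k l => hGc.matrix_elem k l
  have hGb : ∀ x k l, ‖G x k l‖ ≤ 1 / η := fun x k l =>
    (entry_le _ k l).trans (cop_res_le hη hd (symG_transpose s x))
  have h2 : ∀ k l k' l', Integrable (fun x => G x k l * G x k' l') (gv (ι × ι)) :=
    fun k l k' l' => int_bdd ((hGe k l).mul (hGe k' l')) (C := 1 / η * (1 / η)) fun x => by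
      rw [norm_mul]
      exact mul_le_mul (hGb x k l) (hGb x k' l') (norm_nonneg _) (by positivity)
  have h1 : ∀ p k l, Integrable (fun x : ι × ι → ℝ => ((x p : ℝ) : ℂ) * G x k l) (gv (ι × ι)) :=
    fun p k l => by
      have hx : Integrable (fun x : ι × ι → ℝ => ((x p : ℝ) : ℂ)) (gv (ι × ι)) :=
        (Crest.Agent.R339.Guerra.integrable_coord p).ofReal
      exact hx.mul_bdd (hGe k l).aestronglyMeasurable (ae_of_all _ fun x => hGb x k l)
  have hst : ∀ p k l, ∫ x, ((x p : ℝ) : ℂ) * G x k l ∂(gv (ι × ι)) =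
      ∫ x, ((s / √2 : ℝ) : ℂ) * (G x k p.1 * G x p.2 l + G x k p.2 * G x p.1 l) ∂(gv (ι × ι)) :=
    fun p k l => by
      refine Crest.Agent.R166.Stein583.stein p (hGe k l).measurable
        (continuous_const.mul (((hGe _ _).mul (hGe _ _)).add ((hGe _ _).mul (hGe _ _)))).measurable
        (fun x => ?_) (fun x => hGb x k l)
        (C' := ‖((s / √2 : ℝ) : ℂ)‖ * (1 / η * (1 / η) + 1 / η * (1 / η))) fun x => ?_
      · rw [← mul_Ap_mul]; exact hasDerivAt_res hη hd s x p k l
      · rw [norm_mul]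
        refine mul_le_mul_of_nonneg_left ((norm_add_le _ _).trans (add_le_add ?_ ?_)) (norm_nonneg _)
        all_goals
          rw [norm_mul]
          exact mul_le_mul (hGb x _ _) (hGb x _ _) (norm_nonneg _) (by positivity)
  have e1 : ∀ x, err s d (symG s x) i =
      ∑ j, (((s / √2 : ℝ) : ℂ) * (((x (i, j) : ℝ) : ℂ) * G x j i) +
        ((s / √2 : ℝ) : ℂ) * (((x (j, i) : ℝ) : ℂ) * G x j i) -
        ((s ^ 2 : ℝ) : ℂ) * (G x j j * G x i i)) := fun x => by
    rw [err_eq (unit_Zm hη hd (symG_transpose s x)), mtr, trace, mul_apply, mul_assoc, sum_mul,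
      mul_sum, ← sum_sub_distrib]
    refine sum_congr rfl fun j _ => ?_
    simp only [cx_apply, symG, of_apply, hG, diag_apply]
    push_cast; ring
  have hs2 : ((s / √2 : ℝ) : ℂ) * ((s / √2 : ℝ) : ℂ) * 2 = ((s ^ 2 : ℝ) : ℂ) := by
    have : s / √2 * (s / √2) * 2 = s ^ 2 := by
      have h2 : (√2 : ℝ) * √2 = 2 := Real.mul_self_sqrt (by norm_num)
      have h3 : (√2 : ℝ) ≠ 0 := by positivity
      field_simp
      nlinarith
    exact_mod_cast congrArg (fun r : ℝ => (r : ℂ)) this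
  simp only [e1]
  rw [integral_finsetSum _ fun j _ => by
      exact (((h1 _ _ _).const_mul _).add ((h1 _ _ _).const_mul _)).sub
        ((h2 _ _ _ _).const_mul _), integral_const_mul,
    integral_finsetSum _ fun j _ => by exact h2 _ _ _ _, mul_sum]
  refine sum_congr rfl fun j _ => ?_
  rw [integral_sub (by exact ((h1 _ _ _).const_mul _).add ((h1 _ _ _).const_mul _))
    ((h2 _ _ _ _).const_mul _), integral_add ((h1 _ _ _).const_mul _) ((h1 _ _ _).const_mul _),
    integral_const_mul, integral_const_mul, integral_const_mul, hst, hst,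
    integral_const_mul, integral_const_mul, integral_add (h2 _ _ _ _) (h2 _ _ _ _),
    integral_add (h2 _ _ _ _) (h2 _ _ _ _)]
  simp only [hG]
  rw [← hs2]
  ring

theorem norm_integral_err_le (hη : 0 < η) (hd : ∀ i, η ≤ (d i).im) (s : ℝ) (i : ι) :
    ‖∫ x, err s d (symG s x) i ∂(gv (ι × ι))‖ ≤ s ^ 2 / η ^ 2 := by
  rw [integral_err hη hd]
  have := norm_integral_le_of_norm_le_const (μ := gv (ι × ι)) (C := s ^ 2 / η ^ 2)
    (f := fun x => ((s ^ 2 : ℝ) : ℂ) * ∑ j, res d (symG s x) j i * res d (symG s x) j i)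
    (ae_of_all _ fun x => by
      rw [norm_mul, Complex.norm_real, Real.norm_of_nonneg (sq_nonneg s)]
      have h1 := norm_sum_mul_le (fun j => res d (symG s x) j i) (fun j => res d (symG s x) j i)
      have h2 := (cn_col_le (res d (symG s x)) i).trans (cop_res_le hη hd (symG_transpose s x))
      have h3 := mul_le_mul h2 h2 (cn_nonneg _) (by positivity)
      calc _ ≤ s ^ 2 * (1 / η * (1 / η)) := mul_le_mul_of_nonneg_left (h1.trans h3) (sq_nonneg s)
        _ = _ := by field_simp)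
  simpa using this

/-! ### Lipschitz bounds -/

lemma core_lip (hη : 0 < η) (hA : 0 ≤ A) {G G' X : Matrix ι ι ℂ} (hG : cop G ≤ 1 / η)
    (hG' : cop G' ≤ 1 / η) (hX : G - G' = G * X * G') (hd : ∀ i, ‖d i‖ ≤ A) (s : ℝ) :
    cn (fun i => d i * (G i i - G' i i) - (((s ^ 2 : ℝ) : ℂ) * G.trace * G i i -
      ((s ^ 2 : ℝ) : ℂ) * G'.trace * G' i i)) ≤ Lam ι s A η * hs X := by
  set N : ℝ := (Fintype.card ι : ℝ) with hN
  have hN0 : 0 ≤ N := Nat.cast_nonneg _
  have hsq : √N * √N = N := Real.mul_self_sqrt hN0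
  have hX0 := hs_nonneg X
  have e : (fun i => d i * (G i i - G' i i) - (((s ^ 2 : ℝ) : ℂ) * G.trace * G i i -
      ((s ^ 2 : ℝ) : ℂ) * G'.trace * G' i i)) =
      (diagonal d * G * X * G').diag - ((((s ^ 2 : ℝ) : ℂ) * (G * X * G').trace) • G.diag +
        (((s ^ 2 : ℝ) : ℂ) * G'.trace) • (G * X * G').diag) := by
    ext i
    rw [Matrix.mul_assoc (diagonal d), Matrix.mul_assoc (diagonal d), ← hX]
    simp only [Pi.sub_apply, Pi.add_apply, Pi.smul_apply, diag_apply, diagonal_mul, smul_eq_mul,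
      Matrix.sub_apply, trace_sub]
    ring
  have h3 : cn (G * X * G').diag ≤ 1 / η * hs X * (1 / η) :=
    (cn_diag_mul3 G X G').trans (by gcongr; exact cop_nonneg _)
  have h1 : cn (diagonal d * G * X * G').diag ≤ A * (1 / η) * hs X * (1 / η) :=
    (cn_diag_mul3 _ X G').trans (by
      gcongr
      · exact cop_nonneg _
      · exact cop_mul_le' (cop_diagonal_le hA hd) hG)
  have h4 : ‖(G * X * G').trace‖ ≤ √N * (1 / η * hs X * (1 / η)) :=
    ((norm_sum_le _ _).trans (sum_norm_le_cn _)).trans (by gcongr)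
  have h5 : cn G.diag ≤ √N * (1 / η) := (cn_diag_le_cop G).trans (by gcongr)
  have h6 : ‖G'.trace‖ ≤ N * (1 / η) := (trace_le G').trans (by gcongr)
  rw [e]
  refine (cn_sub_le _ _).trans ((add_le_add h1 (cn_add_le _ _)).trans ?_)
  rw [cn_smul, cn_smul, norm_mul, norm_mul, Complex.norm_real, Real.norm_of_nonneg (sq_nonneg s)]
  calc _ ≤ A * (1 / η) * hs X * (1 / η) + (s ^ 2 * (√N * (1 / η * hs X * (1 / η))) * (√N * (1 / η))
        + s ^ 2 * (N * (1 / η)) * (1 / η * hs X * (1 / η))) := by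
        gcongr
        · exact cn_nonneg _
        · exact cn_nonneg _
    _ = A * (1 / η) * hs X * (1 / η) + (s ^ 2 * ((√N * √N) * (1 / η * hs X * (1 / η))) * (1 / η)
        + s ^ 2 * (N * (1 / η)) * (1 / η * hs X * (1 / η))) := by ring
    _ = _ := by rw [hsq, Lam, ← hN]; field_simp; ring

lemma Lam_nonneg (hη : 0 < η) (hA : 0 ≤ A) (s : ℝ) : 0 ≤ Lam ι s A η := by
  unfold Lam; positivity

lemma Lam_pos (hη : 0 < η) (hA : 0 < A) (s : ℝ) : 0 < Lam ι s A η := by
  unfold Lam; positivity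

/-- the box of admissible diagonals -/
def Box (A η : ℝ) (d : ι → ℂ) : Prop := ∀ i, η ≤ (d i).im ∧ ‖d i‖ ≤ A

lemma err_sub_W (hη : 0 < η) (hA : 0 ≤ A) (hd : Box A η d) (hW : Wᵀ = W) (hW' : W'ᵀ = W') (s : ℝ) :
    cn (err s d W - err s d W') ≤ Lam ι s A η * hs (cx (W - W')) := by
  have h1 : ∀ i, η ≤ (d i).im := fun i => (hd i).1
  have := core_lip hη hA (cop_res_le hη h1 hW) (cop_res_le hη h1 hW')
    (res_sub_res (unit_Zm hη h1 hW) (unit_Zm hη h1 hW')) (fun i => (hd i).2) s
  convert this using 2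
  ext i; simp only [err, mtr, Pi.sub_apply]; ring

lemma err_sub_d (hη : 0 < η) (hA : η ≤ A) (hd : Box A η d) (hd' : Box A η d') (hW : Wᵀ = W)
    (s : ℝ) {δ : ℝ} (hδ : 0 ≤ δ) (h : ∀ i, ‖d i - d' i‖ ≤ δ) :
    cn (err s d W - err s d' W) ≤ 2 * √(Fintype.card ι) * δ * Lam ι s A η := by
  have h1 : ∀ i, η ≤ (d i).im := fun i => (hd i).1
  have h1' : ∀ i, η ≤ (d' i).im := fun i => (hd' i).1
  have hA0 : 0 ≤ A := hη.le.trans hA
  have h2 := core_lip hη hA0 (cop_res_le hη h1 hW) (cop_res_le hη h1' hW)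
    (res_sub_res_d (unit_Zm hη h1 hW) (unit_Zm hη h1' hW)) (fun i => (hd i).2) s
  have hX : hs (diagonal (d' - d)) ≤ √(Fintype.card ι) * δ := by
    have : hs (diagonal (d' - d)) = cn (d' - d) := by
      simp only [hs, cn]
      congr 1
      refine sum_congr rfl fun i _ => ?_
      rw [Finset.sum_eq_single i] <;> simp +contextual [diagonal_apply, eq_comm]
    rw [this]
    exact cn_le_of_bound hδ fun i => by rw [Pi.sub_apply, norm_sub_rev]; exact h i
  have h3 : cn (fun i => (d i - d' i) * res d' W i i) ≤ √(Fintype.card ι) * (δ * (1 / η)) :=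
    cn_le_of_bound (by positivity) fun i => by
      rw [norm_mul]
      exact mul_le_mul (h i) ((entry_le _ i i).trans (cop_res_le hη h1' hW)) (norm_nonneg _) hδ
  have e : err s d W - err s d' W = (fun i => d i * (res d W i i - res d' W i i) -
      (((s ^ 2 : ℝ) : ℂ) * (res d W).trace * res d W i i -
      ((s ^ 2 : ℝ) : ℂ) * (res d' W).trace * res d' W i i)) +
      fun i => (d i - d' i) * res d' W i i := by
    ext i; simp only [err, mtr, Pi.sub_apply, Pi.add_apply]; ring
  have hL := Lam_nonneg (ι := ι) hη hA0 s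
  have h4 : 1 / η ≤ Lam ι s A η := by
    have : 1 / η ≤ A / η ^ 2 := by
      rw [div_le_div_iff₀ hη (by positivity)]; nlinarith
    have h5 : 0 ≤ 2 * (s ^ 2 * Fintype.card ι) / η ^ 3 := by positivity
    unfold Lam; linarith
  rw [e]
  refine (cn_add_le _ _).trans ?_
  calc _ ≤ Lam ι s A η * (√(Fintype.card ι) * δ) + √(Fintype.card ι) * (δ * Lam ι s A η) := by
        gcongr
        · exact h2.trans (by gcongr)
        · exact h3.trans (by gcongr)
    _ = _ := by ring

omit [DecidableEq ι] in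
lemma abs_cn_sub_le (u v : ι → ℂ) : |cn u - cn v| ≤ cn (u - v) := by
  simp only [cn_eq_norm, WithLp.toLp_sub]; exact abs_norm_sub_norm_le _ _

lemma err_lip (hη : 0 < η) (hA : 0 ≤ A) (hd : Box A η d) (s : ℝ) (x y : ι × ι → ℝ) :
    cn (err s d (symG s x) - err s d (symG s y)) ≤ √2 * |s| * Lam ι s A η * en (x - y) := by
  refine (err_sub_W hη hA hd (symG_transpose s x) (symG_transpose s y) s).trans ?_
  rw [symG_sub]
  calc _ ≤ Lam ι s A η * (√2 * |s| * en (x - y)) :=
        mul_le_mul_of_nonneg_left (hs_symG_le s _) (Lam_nonneg hη hA s)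
    _ = _ := by ring

/-! ### second moments of Lipschitz functions -/

omit [DecidableEq ι] in
lemma sq_lip {L : ℝ} (hL : 0 < L) {F : (ι → ℝ) → ℝ} (h : ELip L F) :
    Integrable (fun x => F x ^ 2) (gv ι) ∧
      ∫ x, F x ^ 2 ∂(gv ι) ≤ 8 * L ^ 2 + 2 * (∫ x, F x ∂(gv ι)) ^ 2 := by
  set μ := ∫ x, F x ∂(gv ι) with hμ
  have hi : ∀ r : ℝ, Integrable (fun x => Real.exp (r * (F x - μ))) (gv ι) := fun r =>
    (h.sub_const μ).integrable_exp r
  have hb : ∀ r : ℝ, r ^ 2 = 1 / L ^ 2 → ∫ x, Real.exp (r * (F x - μ)) ∂(gv ι) ≤ 2 := fun r hr => by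
    refine (Crest.Agent.T157.Conc.mgf_lip h r).trans ?_
    have : L ^ 2 * r ^ 2 / 2 = 1 / 2 := by rw [hr]; field_simp
    rw [this]
    have := Real.exp_bound_div_one_sub_of_interval (x := 1 / 2) (by norm_num) (by norm_num)
    linarith
  have key : ∀ v : ℝ, v ^ 2 ≤ 2 * (Real.exp v + Real.exp (-v) - 2) := fun v => by
    rcases le_total 0 v with hv | hv
    · have := Real.quadratic_le_exp_of_nonneg hv
      have := Real.add_one_le_exp (-v)
      linarith
    · have := Real.quadratic_le_exp_of_nonneg (neg_nonneg.2 hv)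
      have := Real.add_one_le_exp v
      nlinarith
  have hp : ∀ x, F x ^ 2 ≤ 4 * L ^ 2 * (Real.exp (1 / L * (F x - μ)) +
      Real.exp (-(1 / L) * (F x - μ)) - 2) + 2 * μ ^ 2 := fun x => by
    have h1 := key (1 / L * (F x - μ))
    rw [← neg_mul] at h1
    have h2 : (F x - μ) ^ 2 = L ^ 2 * (1 / L * (F x - μ)) ^ 2 := by field_simp
    have h3 := mul_le_mul_of_nonneg_left h1 (sq_nonneg L)
    nlinarith [sq_nonneg (F x - 2 * μ)]
  have hI : Integrable (fun x => 4 * L ^ 2 * (Real.exp (1 / L * (F x - μ)) +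
      Real.exp (-(1 / L) * (F x - μ)) - 2) + 2 * μ ^ 2) (gv ι) :=
    ((((hi _).add (hi _)).sub (integrable_const _)).const_mul _).add (integrable_const _)
  have hF2 : Integrable (fun x => F x ^ 2) (gv ι) :=
    hI.mono' (h.continuous.pow 2).aestronglyMeasurable (ae_of_all _ fun x => by
      rw [Real.norm_of_nonneg (sq_nonneg _)]; exact hp x)
  refine ⟨hF2, (integral_mono hF2 hI hp).trans ?_⟩
  rw [integral_add (by exact (((hi _).add (hi _)).sub (integrable_const _)).const_mul _)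
    (integrable_const _), integral_const_mul, integral_sub (by exact (hi _).add (hi _))
    (integrable_const _), integral_add (hi _) (hi _)]
  have h1 := hb (1 / L) (by field_simp)
  have h2 := hb (-(1 / L)) (by field_simp)
  simp only [integral_const, probReal_univ, smul_eq_mul, one_mul]
  nlinarith [sq_nonneg L]

/-- a Lipschitz vector-valued function with small mean has a small norm -/
lemma tail_cn {κ : Type*} [Fintype κ] {L c : ℝ} (hL : 0 < L) (hc : 0 ≤ c) {V : (κ → ℝ) → ι → ℂ}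
    (h : ∀ x y, cn (V x - V y) ≤ L * en (x - y)) (hm : ∀ i, ‖∫ x, V x i ∂(gv κ)‖ ≤ c) {t : ℝ}
    (ht : 0 ≤ t) : (gv κ).real {x | √(Fintype.card ι) * (2 * c + 4 * L) + t ≤ cn (V x)} ≤
      Real.exp (-t ^ 2 / (2 * L ^ 2)) := by
  have hF : ELip L fun x => cn (V x) := fun x y => (abs_cn_sub_le _ _).trans (h x y)
  have hre : ∀ i, ELip L fun x => (V x i).re := fun i x y => by
    rw [← Complex.sub_re]
    exact (Complex.abs_re_le_norm _).trans ((norm_le_cn (V x - V y) i).trans (h x y))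
  have him : ∀ i, ELip L fun x => (V x i).im := fun i x y => by
    rw [← Complex.sub_im]
    exact (Complex.abs_im_le_norm _).trans ((norm_le_cn (V x - V y) i).trans (h x y))
  have hVi : ∀ i, Integrable (fun x => V x i) (gv κ) := fun i => by
    have := ((hre i).integrable.ofReal (𝕜 := ℂ)).add
      (((him i).integrable.ofReal (𝕜 := ℂ)).mul_const Complex.I)
    refine this.congr (ae_of_all _ fun x => ?_)
    exact Complex.re_add_im (V x i)
  have h2 : ∀ i, Integrable (fun x => ‖V x i‖ ^ 2) (gv κ) ∧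
      ∫ x, ‖V x i‖ ^ 2 ∂(gv κ) ≤ (2 * c + 4 * L) ^ 2 := fun i => by
    obtain ⟨a1, a2⟩ := sq_lip hL (hre i)
    obtain ⟨b1, b2⟩ := sq_lip hL (him i)
    have e : (fun x => ‖V x i‖ ^ 2) = fun x => (V x i).re ^ 2 + (V x i).im ^ 2 := by
      ext x; rw [Complex.sq_norm, Complex.normSq_apply]; ring
    rw [e]
    refine ⟨a1.add b1, ?_⟩
    rw [integral_add a1 b1]
    have e1 : ∫ x, (V x i).re ∂(gv κ) = (∫ x, V x i ∂(gv κ)).re := integral_re (hVi i)
    have e2 : ∫ x, (V x i).im ∂(gv κ) = (∫ x, V x i ∂(gv κ)).im := integral_im (hVi i)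
    have h3 := pow_le_pow_left₀ (norm_nonneg _) (hm i) 2
    rw [Complex.sq_norm, Complex.normSq_apply] at h3
    rw [e1] at a2
    rw [e2] at b2
    nlinarith [mul_nonneg hc hL.le]
  set M := √(Fintype.card ι) * (2 * c + 4 * L) with hM
  have hmean : ∫ x, cn (V x) ∂(gv κ) ≤ M := by
    have hsum : ∫ x, cn (V x) ^ 2 ∂(gv κ) ≤ M ^ 2 := by
      simp only [cn_sq]
      rw [integral_finsetSum _ fun i _ => (h2 i).1, hM, mul_pow, Real.sq_sqrt (Nat.cast_nonneg _)]
      calc _ ≤ ∑ _i : ι, (2 * c + 4 * L) ^ 2 := sum_le_sum fun i _ => (h2 i).2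
        _ = _ := by simp
    have hi2 := (sq_lip hL hF).1
    set μ := ∫ x, cn (V x) ∂(gv κ) with hμ
    have h0 : 0 ≤ ∫ x, (cn (V x) ^ 2 - 2 * μ * cn (V x) + μ ^ 2) ∂(gv κ) :=
      integral_nonneg fun x => by
        have := sq_nonneg (cn (V x) - μ)
        simp only [Pi.zero_apply]; linarith
    rw [integral_add (by exact hi2.sub (hF.integrable.const_mul _)) (integrable_const _),
      integral_sub hi2 (hF.integrable.const_mul _), integral_const_mul] at h0
    simp only [integral_const, probReal_univ, smul_eq_mul, one_mul] at h0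
    have hM0 : 0 ≤ M := by positivity
    exact abs_le_of_sq_le_sq' (by nlinarith) hM0 |>.2
  refine le_trans (measureReal_mono fun x hx => ?_) (Crest.Agent.T157.Conc.tail_lip hF ht)
  simp only [Set.mem_setOf_eq] at hx ⊢
  linarith

/-- the Dyson equation for a fixed diagonal -/
theorem tail_err (hs : 0 < s) (hη : 0 < η) (hA : 0 < A) (hd : Box A η d) {t : ℝ} (ht : 0 ≤ t) :
    (gv (ι × ι)).real {x | √(Fintype.card ι) * (2 * s ^ 2 / η ^ 2 + 6 * s * Lam ι s A η) + t ≤
      cn (err s d (symG s x))} ≤ Real.exp (-t ^ 2 / (4 * s ^ 2 * Lam ι s A η ^ 2)) := by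
  have hL := Lam_pos (ι := ι) hη hA s
  have h := tail_cn (L := √2 * |s| * Lam ι s A η) (c := s ^ 2 / η ^ 2) (by positivity)
    (by positivity) (err_lip hη hA.le hd s) (norm_integral_err_le hη (fun i => (hd i).1) s) ht
  have h2 : (√2 : ℝ) ^ 2 = 2 := Real.sq_sqrt (by norm_num)
  have e : 2 * (√2 * |s| * Lam ι s A η) ^ 2 = 4 * s ^ 2 * Lam ι s A η ^ 2 := by
    rw [mul_pow, mul_pow, h2, sq_abs]; ring
  rw [e] at h
  refine le_trans (measureReal_mono fun x hx => ?_) h
  simp only [Set.mem_setOf_eq] at hx ⊢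
  refine le_trans ?_ hx
  have h3 : √2 ≤ 3 / 2 := Real.sqrt_le_iff.2 ⟨by norm_num, by norm_num⟩
  rw [abs_of_pos hs]
  have h4 : √2 * s * Lam ι s A η ≤ 3 / 2 * s * Lam ι s A η := by gcongr
  have h5 : 2 * (s ^ 2 / η ^ 2) + 4 * (√2 * s * Lam ι s A η) ≤
      2 * s ^ 2 / η ^ 2 + 6 * s * Lam ι s A η := by
    rw [mul_div_assoc]; linarith
  gcongr

end Crest.Agent.T157.Fr
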