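import Crest.Agent.T157.StDef_87
import Crest.Agent.T157.EdBase_88
import Crest.Agent.T157.FrB_98

/-!
# Row 157, part C4: one Stein identity for the renormalised Stieltjes transform (helper79)

`steinStmt : SteinStmt`.
-/

set_option autoImplicit false

noncomputable section

namespace Crest.Agent.T157.St

open MeasureTheory ProbabilityTheory Matrix Filter Topology Finset
open Crest.Agent.T157.E (gv)
open Crest.Agent.T157.Eig Crest.Agent.T157.Cond
open Crest.Agent.T157.Fr (res mtr err cx hs cop cn Ap Zm)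

namespace Stein79

section bc
variable {κ : Type*} [Fintype κ]

/-- bounded continuous functions -/
def BC (f : (κ → ℝ) → ℂ) : Prop := Continuous f ∧ ∃ C, ∀ x, ‖f x‖ ≤ C

variable {f g : (κ → ℝ) → ℂ}

omit [Fintype κ] in
lemma BC.const (c : ℂ) : BC (fun _ : κ → ℝ => c) := ⟨continuous_const, ‖c‖, fun _ => le_rfl⟩

omit [Fintype κ] in
lemma BC.add (hf : BC f) (hg : BC g) : BC fun x => f x + g x := by
  obtain ⟨h1, C, hC⟩ := hf
  obtain ⟨h2, D, hD⟩ := hg
  exact ⟨h1.add h2, C + D, fun x => (norm_add_le _ _).trans (add_le_add (hC x) (hD x))⟩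

omit [Fintype κ] in
lemma BC.sub (hf : BC f) (hg : BC g) : BC fun x => f x - g x := by
  obtain ⟨h1, C, hC⟩ := hf
  obtain ⟨h2, D, hD⟩ := hg
  exact ⟨h1.sub h2, C + D, fun x => (norm_sub_le _ _).trans (add_le_add (hC x) (hD x))⟩

omit [Fintype κ] in
lemma BC.mul (hf : BC f) (hg : BC g) : BC fun x => f x * g x := by
  obtain ⟨h1, C, hC⟩ := hf
  obtain ⟨h2, D, hD⟩ := hg
  refine ⟨h1.mul h2, C * D, fun x => ?_⟩
  rw [norm_mul]
  exact mul_le_mul (hC x) (hD x) (norm_nonneg _) ((norm_nonneg _).trans (hC x))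

omit [Fintype κ] in
lemma BC.star (hf : BC f) : BC fun x => star (f x) := by
  obtain ⟨h1, C, hC⟩ := hf
  exact ⟨h1.star, C, fun x => by rw [norm_star]; exact hC x⟩

omit [Fintype κ] in
lemma BC.sum {α : Type*} (S : Finset α) {F : α → (κ → ℝ) → ℂ} (h : ∀ a, BC (F a)) :
    BC fun x => ∑ a ∈ S, F a x := by
  classical
  induction S using Finset.induction_on with
  | empty => simpa using BC.const 0
  | insert a S ha ih => simpa [sum_insert ha] using (h a).add ih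

lemma BC.int (hf : BC f) : Integrable f (gv κ) := by
  obtain ⟨h1, C, hC⟩ := hf
  exact Fr.int_bdd h1 hC

lemma BC.int_coord (hf : BC f) (p : κ) :
    Integrable (fun x : κ → ℝ => ((x p : ℝ) : ℂ) * f x) (gv κ) := by
  obtain ⟨h1, C, hC⟩ := hf
  have hx : Integrable (fun x : κ → ℝ => ((x p : ℝ) : ℂ)) (gv κ) :=
    (Crest.Agent.R339.Guerra.integrable_coord p).ofReal
  exact hx.mul_bdd h1.aestronglyMeasurable (ae_of_all _ hC)

lemma BC.stein [DecidableEq κ] (hf : BC f) (hg : BC g) (p : κ)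
    (h : ∀ x, HasDerivAt (fun t => f (Function.update x p t)) (g x) (x p)) :
    ∫ x, ((x p : ℝ) : ℂ) * f x ∂gv κ = ∫ x, g x ∂gv κ := by
  obtain ⟨h1, C, hC⟩ := hf
  obtain ⟨h2, D, hD⟩ := hg
  exact Crest.Agent.R166.Stein583.stein p h1.measurable h2.measurable h hC hD

lemma stein_sum [DecidableEq κ] {F F1 : κ → (κ → ℝ) → ℂ} {T : (κ → ℝ) → ℂ} (hF : ∀ p, BC (F p))
    (hF1 : ∀ p, BC (F1 p)) (hT : BC T) (a b : ℂ)
    (h : ∀ p x, HasDerivAt (fun t => F p (Function.update x p t)) (F1 p x) (x p)) :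
    ∫ x, -a * (∑ p, b * (((x p : ℝ) : ℂ) * F p x) - T x) ∂gv κ =
      -∫ x, a * (∑ p, b * F1 p x - T x) ∂gv κ := by
  have hst := fun p => (hF p).stein (hF1 p) p (h p)
  rw [integral_const_mul, integral_const_mul,
    integral_sub (integrable_finsetSum _ fun p _ => ((hF p).int_coord p).const_mul _) hT.int,
    integral_sub (integrable_finsetSum _ fun p _ => (hF1 p).int.const_mul _) hT.int,
    integral_finsetSum _ fun p _ => ((hF p).int_coord p).const_mul _,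
    integral_finsetSum _ fun p _ => (hF1 p).int.const_mul _]
  simp only [integral_const_mul, hst]
  ring

end bc

section main
variable {ι : Type*} [Fintype ι] [DecidableEq ι]

/-- resolvent along the Gaussian coordinates -/
def GG (s : ℝ) (z : ℂ) (x : ι × ι → ℝ) : Matrix ι ι ℂ := res (fun _ => z) (symG s x)
/-- normalised trace -/
def mm (s : ℝ) (z : ℂ) (x : ι × ι → ℝ) : ℂ := mtr s (fun _ : ι => z) (symG s x)
/-- the self-consistent polynomial -/
def PP (s : ℝ) (z : ℂ) (x : ι × ι → ℝ) : ℂ := mm s z x ^ 2 - z * mm s z x + 1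
/-- derivative of `PP` -/
def P1 (s : ℝ) (z : ℂ) (p : ι × ι) (x : ι × ι → ℝ) : ℂ :=
  (2 * mm s z x - z) *
    (((s ^ 2 : ℝ) : ℂ) * (2 * ((s / √2 : ℝ) : ℂ) * (GG s z x * GG s z x) p.1 p.2))

variable {s : ℝ} {z : ℂ}

lemma GG_symm (x : ι × ι → ℝ) (a b : ι) : GG s z x a b = GG s z x b a := by
  have := congrFun (congrFun (Fr.res_transpose (fun _ : ι => z) (symG_transpose s x)) b) a
  exact this

lemma bc_GG (hz : 0 < z.im) (a b : ι) : BC fun x : ι × ι → ℝ => GG s z x a b :=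
  ⟨(Fr.continuous_res hz (fun _ => le_rfl) s).matrix_elem a b, 1 / z.im, fun x =>
    (Fr.entry_le _ a b).trans (Fr.cop_res_le hz (fun _ => le_rfl) (symG_transpose s x))⟩

lemma mm_eq (x : ι × ι → ℝ) : mm s z x = ((s ^ 2 : ℝ) : ℂ) * ∑ k, GG s z x k k := rfl

lemma bc_mm (hz : 0 < z.im) : BC (mm (ι := ι) s z) :=
  (BC.const _).mul (BC.sum univ fun k => bc_GG hz k k)

lemma bc_PP (hz : 0 < z.im) : BC (PP (ι := ι) s z) := by
  have h := (((bc_mm (ι := ι) (s := s) hz).mul (bc_mm (s := s) hz)).sub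
    ((BC.const z).mul (bc_mm (s := s) hz))).add (BC.const 1)
  convert h using 2
  rw [PP, sq]

lemma bc_P1 (hz : 0 < z.im) (p : ι × ι) : BC (P1 s z p) :=
  (((BC.const 2).mul (bc_mm hz)).sub (BC.const z)).mul ((BC.const _).mul ((BC.const _).mul
    (BC.sum univ fun k => (bc_GG hz p.1 k).mul (bc_GG hz k p.2))))

lemma der_GG (hz : 0 < z.im) (x : ι × ι → ℝ) (p : ι × ι) (k l : ι) :
    HasDerivAt (fun t => GG s z (Function.update x p t) k l)
      (((s / √2 : ℝ) : ℂ) * (GG s z x k p.1 * GG s z x p.2 l + GG s z x k p.2 * GG s z x p.1 l))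
      (x p) := by
  rw [← Fr.mul_Ap_mul]
  exact Fr.hasDerivAt_res hz (fun _ => le_rfl) s x p k l

lemma der_PP (hz : 0 < z.im) (x : ι × ι → ℝ) (p : ι × ι) :
    HasDerivAt (fun t => PP s z (Function.update x p t)) (P1 s z p x) (x p) := by
  have h1 : HasDerivAt (fun t => mm s z (Function.update x p t))
      (((s ^ 2 : ℝ) : ℂ) * (2 * ((s / √2 : ℝ) : ℂ) * (GG s z x * GG s z x) p.1 p.2)) (x p) := by
    simp only [mm_eq]
    refine HasDerivAt.const_mul _ ?_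
    have h := HasDerivAt.fun_sum (u := univ) fun k _ => der_GG (s := s) hz x p k k
    refine h.congr_deriv (Eq.symm ?_)
    rw [mul_apply, mul_sum]
    refine sum_congr rfl fun k _ => ?_
    rw [GG_symm x k p.1, GG_symm x p.2 k]
    ring
  have h2 := ((h1.fun_mul h1).fun_sub (h1.const_mul z)).add_const 1
  simp only [Function.update_eq_self] at h2
  have e : (fun t => PP s z (Function.update x p t)) = fun t =>
      mm s z (Function.update x p t) * mm s z (Function.update x p t) -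
        z * mm s z (Function.update x p t) + 1 := funext fun t => by rw [PP, sq]
  rw [e]
  exact h2.congr_deriv (by rw [P1]; ring)

lemma sum_err (hz : 0 < z.im) (hs : s ^ 2 * Fintype.card ι = 1) (x : ι × ι → ℝ) :
    PP s z x = -((s ^ 2 : ℝ) : ℂ) *
      (∑ p : ι × ι, 2 * ((s / √2 : ℝ) : ℂ) * (((x p : ℝ) : ℂ) * GG s z x p.1 p.2) -
        mm s z x * ∑ k, GG s z x k k) := by
  have hu := Fr.unit_Zm (d := fun _ : ι => z) hz (fun _ => le_rfl) (symG_transpose s x)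
  have e1 : ∑ i, err s (fun _ : ι => z) (symG s x) i =
      (z - mm s z x) * ∑ k, GG s z x k k - Fintype.card ι := by
    simp only [err, sum_sub_distrib, ← mul_sum, sum_const, card_univ, nsmul_eq_mul, mul_one]
    rfl
  have e2 : ∑ i, err s (fun _ : ι => z) (symG s x) i =
      ∑ p : ι × ι, 2 * ((s / √2 : ℝ) : ℂ) * (((x p : ℝ) : ℂ) * GG s z x p.1 p.2) -
        mm s z x * ∑ k, GG s z x k k := by
    simp only [Fr.err_eq hu, sum_sub_distrib, ← mul_sum]
    congr 1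
    have a1 : ∀ i, (cx (symG s x) * res (fun _ : ι => z) (symG s x)) i i =
        ∑ j, ((s / √2 : ℝ) : ℂ) * (((x (i, j) : ℝ) : ℂ) * GG s z x i j) +
          ∑ j, ((s / √2 : ℝ) : ℂ) * (((x (j, i) : ℝ) : ℂ) * GG s z x j i) := fun i => by
      rw [mul_apply, ← sum_add_distrib]
      refine sum_congr rfl fun j _ => ?_
      rw [GG_symm x i j]
      simp only [Fr.cx_apply, symG, of_apply, GG]
      push_cast; ring
    simp only [a1, sum_add_distrib]
    rw [sum_comm (f := fun i j => ((s / √2 : ℝ) : ℂ) * (((x (j, i) : ℝ) : ℂ) * GG s z x j i)),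
      Fintype.sum_prod_type]
    simp only [← mul_sum]
    ring
  rw [← e2, e1, PP]
  have hs' : ((s ^ 2 : ℝ) : ℂ) * (Fintype.card ι : ℂ) = 1 := by exact_mod_cast hs
  have := mm_eq (s := s) (z := z) x
  linear_combination (mm s z x - z) * this - hs'

/-- the remainder of the Stein identity -/
def RR (s : ℝ) (z : ℂ) (x : ι × ι → ℝ) : ℂ :=
  ((s ^ 2 : ℝ) : ℂ) * (((s ^ 2 : ℝ) : ℂ) * (∑ p : ι × ι, GG s z x p.1 p.2 * GG s z x p.1 p.2) *
    star (PP s z x) +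
    ∑ p : ι × ι, 2 * ((s / √2 : ℝ) : ℂ) * (GG s z x p.1 p.2 * star (P1 s z p x)))

lemma c_sq (s : ℝ) : ((s / √2 : ℝ) : ℂ) * ((s / √2 : ℝ) : ℂ) * 2 = ((s ^ 2 : ℝ) : ℂ) := by
  have : s / √2 * (s / √2) * 2 = s ^ 2 := by
    have h2 : (√2 : ℝ) * √2 = 2 := Real.mul_self_sqrt (by norm_num)
    have h3 : (√2 : ℝ) ≠ 0 := by positivity
    field_simp
    nlinarith
  exact_mod_cast congrArg (fun r : ℝ => (r : ℂ)) this

/-- the test functions of the Stein identity -/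
def FF (s : ℝ) (z : ℂ) (p : ι × ι) (x : ι × ι → ℝ) : ℂ := GG s z x p.1 p.2 * star (PP s z x)
/-- their derivatives -/
def F1 (s : ℝ) (z : ℂ) (p : ι × ι) (x : ι × ι → ℝ) : ℂ :=
  ((s / √2 : ℝ) : ℂ) *
    (GG s z x p.1 p.1 * GG s z x p.2 p.2 + GG s z x p.1 p.2 * GG s z x p.1 p.2) *
      star (PP s z x) + GG s z x p.1 p.2 * star (P1 s z p x)
/-- the counterterm -/
def TT (s : ℝ) (z : ℂ) (x : ι × ι → ℝ) : ℂ := mm s z x * (∑ k, GG s z x k k) * star (PP s z x)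

lemma der_FF (hz : 0 < z.im) (p : ι × ι) (x : ι × ι → ℝ) :
    HasDerivAt (fun t => FF s z p (Function.update x p t)) (F1 s z p x) (x p) := by
  have h := (der_GG (s := s) hz x p p.1 p.2).fun_mul (der_PP (s := s) hz x p).star
  simp only [Function.update_eq_self] at h
  exact h

lemma eq_FF (hz : 0 < z.im) (hs : s ^ 2 * Fintype.card ι = 1) (x : ι × ι → ℝ) :
    PP s z x * star (PP s z x) = -((s ^ 2 : ℝ) : ℂ) *
      (∑ p : ι × ι, 2 * ((s / √2 : ℝ) : ℂ) * (((x p : ℝ) : ℂ) * FF s z p x) - TT s z x) := by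
  have h := sum_err hz hs x
  have h2 : ∑ p : ι × ι, 2 * ((s / √2 : ℝ) : ℂ) * (((x p : ℝ) : ℂ) * FF s z p x) =
      (∑ p : ι × ι, 2 * ((s / √2 : ℝ) : ℂ) * (((x p : ℝ) : ℂ) * GG s z x p.1 p.2)) *
        star (PP s z x) := by
    rw [sum_mul]; exact sum_congr rfl fun p _ => by rw [FF]; ring
  rw [h2, TT]
  linear_combination star (PP s z x) * h

lemma eq_F1 (x : ι × ι → ℝ) : RR s z x = ((s ^ 2 : ℝ) : ℂ) *
    (∑ p : ι × ι, 2 * ((s / √2 : ℝ) : ℂ) * F1 s z p x - TT s z x) := by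
  have h1 : (∑ k, GG s z x k k) * (∑ k, GG s z x k k) =
      ∑ p : ι × ι, GG s z x p.1 p.1 * GG s z x p.2 p.2 := by
    rw [sum_mul_sum, Fintype.sum_prod_type]
  have h2 : ∑ p : ι × ι, 2 * ((s / √2 : ℝ) : ℂ) * F1 s z p x =
      ((s ^ 2 : ℝ) : ℂ) * (∑ p : ι × ι, GG s z x p.1 p.1 * GG s z x p.2 p.2) * star (PP s z x) +
      ((s ^ 2 : ℝ) : ℂ) * (∑ p : ι × ι, GG s z x p.1 p.2 * GG s z x p.1 p.2) * star (PP s z x) +
      ∑ p : ι × ι, 2 * ((s / √2 : ℝ) : ℂ) * (GG s z x p.1 p.2 * star (P1 s z p x)) := by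
    rw [← c_sq]
    simp only [mul_sum, sum_mul, ← sum_add_distrib]
    exact sum_congr rfl fun p _ => by rw [F1]; ring
  rw [h2, ← h1, RR, TT, mm_eq]
  ring

theorem stein_id (hz : 0 < z.im) (hs : s ^ 2 * Fintype.card ι = 1) :
    ∫ x, PP s z x * star (PP s z x) ∂gv (ι × ι) = -∫ x, RR s z x ∂gv (ι × ι) := by
  have hF : ∀ p : ι × ι, BC (FF s z p) := fun p => (bc_GG hz _ _).mul (bc_PP hz).star
  have hF' : ∀ p : ι × ι, BC (F1 s z p) := fun p =>
    (((BC.const _).mul (((bc_GG hz _ _).mul (bc_GG hz _ _)).add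
      ((bc_GG hz _ _).mul (bc_GG hz _ _)))).mul (bc_PP hz).star).add
      ((bc_GG hz _ _).mul (bc_P1 hz p).star)
  have hT : BC (TT (ι := ι) s z) :=
    ((bc_mm hz).mul (BC.sum univ fun k => bc_GG hz k k)).mul (bc_PP hz).star
  simp only [eq_FF hz hs, eq_F1]
  exact stein_sum hF hF' hT _ _ (der_FF hz)

lemma hs_GG (hz : 0 < z.im) (x : ι × ι → ℝ) :
    s ^ 2 * hs (GG s z x) ^ 2 ≤ |(mm s z x).im| / z.im := by
  have hu := Fr.unit_Zm (d := fun _ : ι => z) hz (fun _ => le_rfl) (symG_transpose s x)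
  have h1 : z.im * hs (GG s z x) ^ 2 = -(∑ k, GG s z x k k).im := by
    rw [Fr.hs_sq, sum_comm, Complex.im_sum, ← sum_neg_distrib, mul_sum]
    refine sum_congr rfl fun i _ => ?_
    rw [mul_sum]
    exact (Fr.ward hu (symG_transpose s x) i).symm
  rw [le_div_iff₀ hz, mm_eq, Complex.im_ofReal_mul]
  calc s ^ 2 * hs (GG s z x) ^ 2 * z.im = -(s ^ 2 * (∑ k, GG s z x k k).im) := by
        linear_combination s ^ 2 * h1
    _ ≤ _ := neg_le_abs _

omit [DecidableEq ι] in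
lemma sum_prod_le (A B : Matrix ι ι ℂ) :
    ∑ p : ι × ι, ‖A p.1 p.2‖ * ‖B p.1 p.2‖ ≤ hs A * hs B := by
  have := Real.sum_mul_le_sqrt_mul_sqrt univ (fun p : ι × ι => ‖A p.1 p.2‖)
    (fun p : ι × ι => ‖B p.1 p.2‖)
  simpa only [Fintype.sum_prod_type, hs] using this

lemma norm_RR_le (hz : 0 < z.im) (x : ι × ι → ℝ) :
    ‖RR s z x‖ ≤ s ^ 2 * |(mm s z x).im| * ‖PP s z x‖ / z.im +
      2 * s ^ 4 * ‖2 * mm s z x - z‖ * |(mm s z x).im| / z.im ^ 2 := by
  have hY := hs_GG (s := s) hz x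
  have n2 : ‖((s ^ 2 : ℝ) : ℂ)‖ = s ^ 2 := by
    rw [Complex.norm_real, Real.norm_of_nonneg (sq_nonneg s)]
  have nc : ‖((s / √2 : ℝ) : ℂ)‖ * ‖((s / √2 : ℝ) : ℂ)‖ * 2 = s ^ 2 := by
    rw [← n2, ← c_sq, norm_mul, norm_mul]; simp
  have h1 : ‖∑ p : ι × ι, GG s z x p.1 p.2 * GG s z x p.1 p.2‖ ≤ hs (GG s z x) ^ 2 := by
    refine (norm_sum_le _ _).trans ?_
    simp only [norm_mul]
    rw [sq]; exact sum_prod_le _ _
  have h2 : hs (GG s z x * GG s z x) ≤ 1 / z.im * hs (GG s z x) :=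
    (Fr.hs_mul_le _ _).trans (mul_le_mul_of_nonneg_right
      (Fr.cop_res_le hz (fun _ => le_rfl) (symG_transpose s x)) (Fr.hs_nonneg _))
  have h3 : ‖∑ p : ι × ι, 2 * ((s / √2 : ℝ) : ℂ) * (GG s z x p.1 p.2 * star (P1 s z p x))‖ ≤
      2 * s ^ 2 * ‖2 * mm s z x - z‖ * (s ^ 2 * hs (GG s z x) ^ 2) / z.im := by
    refine (norm_sum_le _ _).trans ?_
    have e : ∀ p : ι × ι, ‖2 * ((s / √2 : ℝ) : ℂ) * (GG s z x p.1 p.2 * star (P1 s z p x))‖ =
        2 * s ^ 2 * ‖2 * mm s z x - z‖ * s ^ 2 *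
          (‖GG s z x p.1 p.2‖ * ‖(GG s z x * GG s z x) p.1 p.2‖) := fun p => by
      simp only [norm_mul, norm_star, P1, n2, Complex.norm_ofNat]
      linear_combination (2 * ‖2 * mm s z x - z‖ * s ^ 2 *
        (‖GG s z x p.1 p.2‖ * ‖(GG s z x * GG s z x) p.1 p.2‖)) * nc
    simp only [e, ← mul_sum]
    have h4 := (sum_prod_le (GG s z x) (GG s z x * GG s z x)).trans
      (mul_le_mul_of_nonneg_left h2 (Fr.hs_nonneg _))
    calc _ ≤ 2 * s ^ 2 * ‖2 * mm s z x - z‖ * s ^ 2 *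
          (hs (GG s z x) * (1 / z.im * hs (GG s z x))) :=
          mul_le_mul_of_nonneg_left h4 (by positivity)
      _ = _ := by ring
  rw [RR, norm_mul, n2]
  have h5 : ‖((s ^ 2 : ℝ) : ℂ) * (∑ p : ι × ι, GG s z x p.1 p.2 * GG s z x p.1 p.2) *
      star (PP s z x)‖ ≤ |(mm s z x).im| / z.im * ‖PP s z x‖ := by
    rw [norm_mul, norm_mul, n2, norm_star]
    exact mul_le_mul_of_nonneg_right
      ((mul_le_mul_of_nonneg_left h1 (sq_nonneg s)).trans hY) (norm_nonneg _)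
  have h6 : 2 * s ^ 2 * ‖2 * mm s z x - z‖ * (s ^ 2 * hs (GG s z x) ^ 2) / z.im ≤
      2 * s ^ 2 * ‖2 * mm s z x - z‖ * (|(mm s z x).im| / z.im) / z.im := by gcongr
  calc _ ≤ s ^ 2 * (|(mm s z x).im| / z.im * ‖PP s z x‖ +
        2 * s ^ 2 * ‖2 * mm s z x - z‖ * (|(mm s z x).im| / z.im) / z.im) :=
        mul_le_mul_of_nonneg_left ((norm_add_le _ _).trans (add_le_add h5 (h3.trans h6)))
          (sq_nonneg s)
    _ = _ := by field_simp

/-- the second moment bound from a pointwise Young inequality -/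
theorem second_moment (hz : 0 < z.im) (hs : s ^ 2 * Fintype.card ι = 1) {B : ℝ}
    (hB : ∀ x : ι × ι → ℝ, s ^ 2 * |(mm s z x).im| * ‖PP s z x‖ / z.im +
      2 * s ^ 4 * ‖2 * mm s z x - z‖ * |(mm s z x).im| / z.im ^ 2 ≤ ‖PP s z x‖ ^ 2 / 4 + B) :
    ∫ x, ‖PP s z x‖ ^ 2 ∂gv (ι × ι) ≤ 4 / 3 * B := by
  have e : ∀ x : ι × ι → ℝ, PP s z x * star (PP s z x) = ((‖PP s z x‖ ^ 2 : ℝ) : ℂ) := fun x => by
    rw [Complex.star_def, Complex.mul_conj, Complex.normSq_eq_norm_sq]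
  have hi : Integrable (fun x : ι × ι → ℝ => ‖PP s z x‖ ^ 2) (gv (ι × ι)) := by
    have := ((bc_PP (ι := ι) (s := s) hz).mul (bc_PP (s := s) hz)).int.norm
    simpa only [norm_mul, sq] using this
  have h1 := stein_id (ι := ι) hz hs
  simp only [e] at h1
  rw [integral_complex_ofReal] at h1
  have h2 := congrArg norm h1
  rw [norm_neg, Complex.norm_real, Real.norm_of_nonneg (integral_nonneg fun x => sq_nonneg _)] at h2
  have h3 : ‖∫ x, RR s z x ∂gv (ι × ι)‖ ≤ ∫ x, (‖PP s z x‖ ^ 2 / 4 + B) ∂gv (ι × ι) :=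
    norm_integral_le_of_norm_le ((hi.div_const 4).add (integrable_const B))
      (ae_of_all _ fun x => (norm_RR_le hz x).trans (hB x))
  rw [integral_add (hi.div_const 4) (integrable_const B), integral_div, integral_const] at h3
  simp only [probReal_univ, smul_eq_mul, one_mul] at h3
  linarith

lemma trace_res {W : Matrix ι ι ℝ} (hW : W.IsHermitian) (hz : 0 < z.im) :
    (res (fun _ : ι => z) W).trace = ∑ k ∈ range (Fintype.card ι), (z - (lam W k : ℂ))⁻¹ := by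
  have e : Zm (fun _ : ι => z) W = fnK (fun x : ℝ => z - (x : ℂ)) W := by
    have h1 := fnK_sub (A := W) (fun _ : ℝ => z) (fun x : ℝ => (x : ℂ))
    have h2 := fnK_const (K := ℂ) hW z
    have h3 := fnK_id (K := ℂ) hW
    refine Eq.trans ?_ h1.symm
    rw [h2]
    refine congrArg₂ (· - ·) ?_ h3.symm
    ext i j; by_cases h : i = j <;> simp [one_apply, h]
  rw [res, e, fnK_inv (f := fun x : ℝ => z - (x : ℂ)) hW fun k _ =>
    sub_ne_zero.2 (lam_ne_of_im hz.ne' W k).symm, trace_fnK hW]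

end main

/-- the pointwise Young inequality in hatted units -/
lemma young {a p r h u : ℝ} (hp : 0 ≤ p) (hh : 1 ≤ h) (hr : h ≤ r) (hu : u ^ 2 ≤ r)
    (h1 : a ^ 2 ≤ p + r + u * a) :
    a * p / h + 2 * ((2 * a + u) * a) / h ^ 2 ≤ p ^ 2 / 4 + 450 * r / h ^ 2 := by
  have h0 : 0 < h := by linarith
  have h2 : a ^ 2 ≤ 2 * p + 3 * r := by nlinarith [sq_nonneg (u - a)]
  have h3 : 2 * (u * a) ≤ r + a ^ 2 := by nlinarith [sq_nonneg (u - a)]
  have hh2 : 1 ≤ h ^ 2 := by nlinarith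
  have e : a * p / h + 2 * ((2 * a + u) * a) / h ^ 2 =
      (a * (p * h) + 2 * ((2 * a + u) * a)) / h ^ 2 := by field_simp
  have e2 : p ^ 2 / 4 + 450 * r / h ^ 2 = ((p * h) ^ 2 / 4 + 450 * r) / h ^ 2 := by field_simp
  rw [e, e2]
  refine div_le_div_of_nonneg_right ?_ (by positivity)
  have h4 : p ≤ p * h := by nlinarith
  set q := p * h
  nlinarith [sq_nonneg (q - 4 * a), sq_nonneg (q - 56)]

end Stein79

open Stein79 Crest.Agent.T157.Ed

/-- **(B) Stein** -/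
theorem steinStmt : SteinStmt := by
  refine ⟨600, fun n hn ζ h1 h2 => ?_⟩
  have h0 : 0 < ζ.im := by linarith
  by_cases hm : AEStronglyMeasurable (fun W : Mat n =>
    ‖Sc n W ζ ^ 2 - ζ * (1 + Sc n W ζ / ((sx n ^ 2 : ℝ) : ℂ))‖ ^ 2) (GOE n)
  swap
  · rw [integral_non_aestronglyMeasurable hm]; positivity
  rw [GOE, goe] at hm ⊢
  rw [integral_map (measurable_symG _).aemeasurable hm]
  have hx := sx_pos hn
  have hn0 : (0 : ℝ) < n := by exact_mod_cast hn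
  set t : ℝ := sx n ^ 2 with ht
  have ht0 : 0 < t := by positivity
  have hτ : tau n = t ^ 2 := by rw [tau_eq, ht]; ring
  have hnt : (n : ℝ) = t ^ 3 := by rw [← sx_pow_six, ht]; ring
  set s : ℝ := 1 / √(n : ℝ) with hs
  have hs2 : s ^ 2 = 1 / t ^ 3 := by rw [hs, div_pow, Real.sq_sqrt hn0.le, hnt, one_pow]
  have htc : (t : ℂ) ≠ 0 := by exact_mod_cast ht0.ne'
  set z : ℂ := 2 + ζ / ((t ^ 2 : ℝ) : ℂ) with hzdef
  have hzim : z.im = ζ.im / t ^ 2 := by
    rw [hzdef, Complex.add_im, Complex.div_ofReal_im]; simp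
  have hz : 0 < z.im := by rw [hzim]; positivity
  have hcard : s ^ 2 * Fintype.card (Fin n) = 1 := by
    rw [Fintype.card_fin, hs2, hnt]; field_simp
  have em : ∀ x : Fin n × Fin n → ℝ, mm s z x = 1 + Sc n (symG s x) ζ / (t : ℂ) := fun x => by
    have hW : (symG s x).IsHermitian := herm_iff.2 (symG_transpose s x)
    rw [mm, mtr, trace_res hW hz, Sc, Fintype.card_fin, ← ht, sub_div, div_self htc, hs2, sum_div,
      mul_sum]
    rw [add_sub_cancel]
    refine sum_congr rfl fun k _ => ?_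
    have hne : z - (lam (symG s x) k : ℂ) ≠ 0 := sub_ne_zero.2 (lam_ne_of_im hz.ne' _ k).symm
    have e : ζ + ((Lam n (symG s x) k : ℝ) : ℂ) = (t : ℂ) ^ 2 * (z - (lam (symG s x) k : ℂ)) := by
      rw [Lam, hτ, hzdef]; push_cast; field_simp; ring
    rw [e]; push_cast; field_simp
  have eP : ∀ x : Fin n × Fin n → ℝ,
      Sc n (symG s x) ζ ^ 2 - ζ * (1 + Sc n (symG s x) ζ / (t : ℂ)) = (t : ℂ) ^ 2 * PP s z x :=
    fun x => by
      rw [PP, em, hzdef]; push_cast; field_simp; ring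
  have hB := second_moment (ι := Fin n) hz hcard (B := 450 * ‖ζ‖ / ζ.im ^ 2 / t ^ 4) fun x => by
    set S := Sc n (symG s x) ζ with hS
    have nP : ‖S ^ 2 - ζ * (1 + S / (t : ℂ))‖ = t ^ 2 * ‖PP s z x‖ := by
      rw [eP, norm_mul, norm_pow, Complex.norm_real, Real.norm_of_nonneg ht0.le]
    have i1 : |(mm s z x).im| ≤ ‖S‖ / t := by
      rw [em, Complex.add_im, Complex.div_ofReal_im, Complex.one_im, zero_add, abs_div,
        abs_of_pos ht0]
      exact div_le_div_of_nonneg_right (Complex.abs_im_le_norm _) ht0.le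
    have nz : ‖ζ / (t : ℂ)‖ = ‖ζ‖ / t := by
      rw [norm_div, Complex.norm_real, Real.norm_of_nonneg ht0.le]
    have i2 : ‖2 * mm s z x - z‖ ≤ (2 * ‖S‖ + ‖ζ‖ / t) / t := by
      have e : 2 * mm s z x - z = (2 * S - ζ / (t : ℂ)) / (t : ℂ) := by
        rw [em, hzdef]; push_cast; field_simp; ring
      rw [e, norm_div, Complex.norm_real, Real.norm_of_nonneg ht0.le]
      refine div_le_div_of_nonneg_right ((norm_sub_le _ _).trans ?_) ht0.le
      rw [nz, norm_mul, Complex.norm_ofNat]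
    have i3 : ‖S‖ ^ 2 ≤ t ^ 2 * ‖PP s z x‖ + ‖ζ‖ + ‖ζ‖ / t * ‖S‖ := by
      have e : S ^ 2 = (S ^ 2 - ζ * (1 + S / (t : ℂ))) + ζ + ζ / (t : ℂ) * S := by ring
      rw [← norm_pow, ← nP, ← nz, ← norm_mul]
      conv_lhs => rw [e]
      exact norm_add₃_le
    have i4 : (‖ζ‖ / t) ^ 2 ≤ ‖ζ‖ := by
      rw [div_pow, div_le_iff₀ (by positivity), ← hτ, sq]
      exact mul_le_mul_of_nonneg_left h2 (norm_nonneg _)
    have y := young (by positivity : 0 ≤ t ^ 2 * ‖PP s z x‖) h1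
      (Complex.im_le_norm ζ) i4 i3
    have hs4 : s ^ 4 = 1 / t ^ 6 := by
      rw [show s ^ 4 = (s ^ 2) ^ 2 by ring, hs2]; field_simp
    calc _ ≤ s ^ 2 * (‖S‖ / t) * ‖PP s z x‖ / z.im +
          2 * s ^ 4 * ((2 * ‖S‖ + ‖ζ‖ / t) / t) * (‖S‖ / t) / z.im ^ 2 := by gcongr
      _ = (‖S‖ * (t ^ 2 * ‖PP s z x‖) / ζ.im +
          2 * ((2 * ‖S‖ + ‖ζ‖ / t) * ‖S‖) / ζ.im ^ 2) / t ^ 4 := by
          rw [hs2, hs4, hzim]; field_simp
      _ ≤ ((t ^ 2 * ‖PP s z x‖) ^ 2 / 4 + 450 * ‖ζ‖ / ζ.im ^ 2) / t ^ 4 :=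
          div_le_div_of_nonneg_right y (by positivity)
      _ = _ := by field_simp
  have e3 : ∀ x : Fin n × Fin n → ℝ,
      ‖Sc n (symG s x) ζ ^ 2 - ζ * (1 + Sc n (symG s x) ζ / (t : ℂ))‖ ^ 2 =
        t ^ 4 * ‖PP s z x‖ ^ 2 := fun x => by
    rw [eP, norm_mul, norm_pow, Complex.norm_real, Real.norm_of_nonneg ht0.le]; ring
  simp only [e3]
  rw [integral_const_mul]
  calc _ ≤ t ^ 4 * (4 / 3 * (450 * ‖ζ‖ / ζ.im ^ 2 / t ^ 4)) :=
        mul_le_mul_of_nonneg_left hB (by positivity)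
    _ = 600 * ‖ζ‖ / ζ.im ^ 2 := by field_simp; ring

end Crest.Agent.T157.St

end
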