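import Crest.Agent.T157.StDef_87
import Crest.Agent.T157.PathQ_90
import Crest.Agent.T157.PlA_37
import Crest.Agent.T157.EdBase_88
import Crest.Agent.T157.EigN_84

/-!
Row 157, part C4 (helper49): non-degeneracy of the critical statics
(`jenStmt`, `nondGlue`, `unbGlue`).
-/

set_option autoImplicit false

noncomputable section

namespace Crest.Agent.T157.St

open MeasureTheory ProbabilityTheory Matrix Filter Topology Finset Real
open scoped ENNReal
open Crest.ProbabilityR.SpinGlassDynamics Crest.Agent.T157.E Crest.Agent.T157.Eig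
open Crest.Agent.T157.Cond Crest.Agent.T157.Ed Crest.Agent.T157.Top

namespace Unb49

section abs
variable {ι : Type*} [Fintype ι]

theorem integral_dm {Ω : Type*} [Fintype Ω] {w : Ω → ℝ} (hw : ∀ x, 0 ≤ w x) (φ : Ω → ι → ℝ)
    (f : (ι → ℝ) → ℝ) : ∫ y, f y ∂dm w φ = mean w fun x => f (φ x) := by
  rw [dm, integral_finsetSum_measure fun x _ =>
    (integrable_dirac (by simp)).smul_measure ENNReal.ofReal_ne_top, mean]
  refine sum_congr rfl fun x _ => ?_
  have h : 0 ≤ prob w x := div_nonneg (hw x) (sum_nonneg fun y _ => hw y)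
  rw [integral_smul_measure, integral_dirac, ENNReal.toReal_ofReal h, smul_eq_mul]

theorem integrable_cp {μ : Measure (ι → ℝ)} (h : Cp μ) {F : (ι → ℝ) → ℝ} (hF : Continuous F) :
    Integrable F μ := by
  obtain ⟨r, hr⟩ := h.bdd
  have := h.prob
  obtain ⟨C, hC⟩ := (isCompact_closedBall (0 : ι → ℝ) √r).exists_bound_of_continuousOn
    hF.continuousOn
  refine (integrable_const C).mono' hF.aestronglyMeasurable (hr.mono fun x hx => hC x ?_)
  rw [mem_closedBall_zero_iff, pi_norm_le_iff_of_nonneg (Real.sqrt_nonneg r)]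
  intro i
  refine Real.abs_le_sqrt (le_trans ?_ hx)
  rw [sq]
  exact single_le_sum (f := fun i => x i * x i) (fun i _ => mul_self_nonneg _) (mem_univ i)

theorem quad_sm {μ : Measure (ι → ℝ)} (h : Cp μ) (v : ι → ℝ) :
    v ⬝ᵥ sm μ *ᵥ v = ∫ x, (v ⬝ᵥ x) ^ 2 ∂μ := by
  have e : ∀ x : ι → ℝ, (v ⬝ᵥ x) ^ 2 = ∑ i, ∑ j, v i * (x i * x j * v j) := fun x => by
    rw [sq, dotProduct, sum_mul_sum]
    exact sum_congr rfl fun i _ => sum_congr rfl fun j _ => by ring
  simp only [e]
  rw [integral_finsetSum _ fun i _ => integrable_cp h (by fun_prop)]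
  simp only [dotProduct, mulVec, sm, mul_sum]
  refine sum_congr rfl fun i _ => ?_
  rw [integral_finsetSum _ fun j _ => integrable_cp h (by fun_prop)]
  refine sum_congr rfl fun j _ => ?_
  rw [integral_const_mul, integral_mul_const]

omit [Fintype ι] in
theorem sm_herm (μ : Measure (ι → ℝ)) : (sm μ).IsHermitian := by
  ext i j; simp [sm, mul_comm]

/-- closeness of the directional second moments -/
theorem quad_close [DecidableEq ι] {A B : Matrix ι ι ℝ} {v : ι → ℝ} (hv : v ⬝ᵥ v = 1) {e : ℝ}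
    (he : 0 ≤ e) (h : ∑ i, ∑ j, (A i j - B i j) ^ 2 ≤ e ^ 2) : v ⬝ᵥ B *ᵥ v - e ≤ v ⬝ᵥ A *ᵥ v := by
  have h1 := Eig.abs_quad_le (A - B) v
  have h2 := (opn_le_sqrt_frob (A - B)).trans (Real.sqrt_le_iff.2 ⟨he, h⟩)
  rw [hv, mul_one, sub_mulVec, dotProduct_sub] at h1
  linarith [(abs_le.1 h1).1]

/-- Cameron–Martin lower bound -/
theorem cm_lower (a : ι → ℝ) {S : Set (ι → ℝ)} (hS : MeasurableSet S)
    (h : 3 / 4 ≤ (gv ι).real {g | g + a ∈ S}) : exp (-(a ⬝ᵥ a)) / 2 ≤ (gv ι).real S := by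
  have h1 : (gv ι).real {g | g + a ∈ S} = ∫ g, S.indicator 1 g ∂Pl.tilted false a := by
    rw [integral_indicator_one hS, measureReal_def, measureReal_def, Pl.tilted_false_apply]
  have h2 := Pl.integral_exp_mul false a (S.indicator 1)
  have h3 := Pl.integral_exp_dot false ((2 : ℝ) • a)
  have i3 := Pl.integrable_exp_dot false ((2 : ℝ) • a)
  rw [Pl.MM_false, Pl.law_false] at h2 h3
  rw [Pl.law_false] at i3
  obtain ⟨q, hq⟩ : ∃ q, q = exp (a ⬝ᵥ a / 2) := ⟨_, rfl⟩
  have q0 : 0 < q := hq ▸ exp_pos _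
  have e1 : exp (((2 : ℝ) • a) ⬝ᵥ ((2 : ℝ) • a) / 2) = q ^ 4 := by
    rw [hq, ← Real.exp_nat_mul, smul_dotProduct, dotProduct_smul]; congr 1; simp; ring
  have e2 : exp (-(a ⬝ᵥ a)) = (q ^ 2)⁻¹ := by
    rw [hq, ← Real.exp_nat_mul, ← Real.exp_neg]; congr 1; simp; ring
  have iS : Integrable (S.indicator (1 : (ι → ℝ) → ℝ)) (gv ι) := (integrable_const 1).indicator hS
  have h4 : ∫ g, exp (g ⬝ᵥ a) * S.indicator 1 g ∂gv ι ≤
      ∫ g, ((2 * q ^ 3)⁻¹ * exp (g ⬝ᵥ ((2 : ℝ) • a)) + q ^ 3 / 2 * S.indicator 1 g) ∂gv ι := by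
    refine integral_mono_of_nonneg (Eventually.of_forall fun g => ?_)
      ((i3.const_mul _).add (iS.const_mul _)) (Eventually.of_forall fun g => ?_)
    · exact mul_nonneg (exp_pos _).le (Set.indicator_nonneg (fun _ _ => zero_le_one) _)
    · have e : exp (g ⬝ᵥ ((2 : ℝ) • a)) = exp (g ⬝ᵥ a) ^ 2 := by
        rw [← Real.exp_nat_mul, dotProduct_smul]; simp
      simp only [e]
      by_cases hg : g ∈ S
      · simp only [Set.indicator_of_mem hg, Pi.one_apply, mul_one]
        have : (2 * q ^ 3)⁻¹ * exp (g ⬝ᵥ a) ^ 2 + q ^ 3 / 2 - exp (g ⬝ᵥ a) =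
            (2 * q ^ 3)⁻¹ * (exp (g ⬝ᵥ a) - q ^ 3) ^ 2 := by field_simp; ring
        have h5 : 0 ≤ (2 * q ^ 3)⁻¹ * (exp (g ⬝ᵥ a) - q ^ 3) ^ 2 := by positivity
        linarith
      · simp only [Set.indicator_of_notMem hg, mul_zero, add_zero]; positivity
  rw [integral_add (i3.const_mul _) (iS.const_mul _), integral_const_mul, integral_const_mul, h3,
    e1, h2, ← h1, ← hq, integral_indicator_one hS] at h4
  have e3 : (2 * q ^ 3)⁻¹ * q ^ 4 = q / 2 := by field_simp
  rw [e3] at h4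
  rw [e2, div_le_iff₀ two_pos, inv_le_iff_one_le_mul₀ (by positivity)]
  have h6 := mul_le_mul_of_nonneg_left h q0.le
  have h7 : q * 1 ≤ q * (2 * q ^ 2 * (gv ι).real S) := by nlinarith
  have := le_of_mul_le_mul_left h7 q0
  linarith

/-- tilting by a square pushes its mean up -/
theorem tilt_ge {ν : Measure (ι → ℝ)} (h : Cp ν) {Q : (ι → ℝ) → ℝ} (hQ : Continuous Q)
    (hQ0 : ∀ x, 0 ≤ Q x) {M δ l : ℝ} (hM : 0 ≤ M) (hδ : 0 < δ) (hl : M ≤ δ * l)
    (hb : δ ≤ ν.real {x | M + 1 ≤ Q x}) : M ≤ ∫ x, Q x ∂ν.tilted fun x => l * Q x := by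
  have := h.prob
  have l0 : 0 ≤ l := by nlinarith
  have i1 : Integrable (fun x => exp (l * Q x)) ν := integrable_cp h (by fun_prop)
  have i2 : Integrable (fun x => exp (l * Q x) * Q x) ν := integrable_cp h (by fun_prop)
  have hZ : 0 < ∫ x, exp (l * Q x) ∂ν := integral_exp_pos i1
  have hS : MeasurableSet {x | M + 1 ≤ Q x} := (isClosed_le continuous_const hQ).measurableSet
  have iS : Integrable (Set.indicator {x | M + 1 ≤ Q x} (1 : (ι → ℝ) → ℝ)) ν :=
    (integrable_const 1).indicator hS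
  have key : ∫ x, (exp (l * (M + 1)) * Set.indicator {x | M + 1 ≤ Q x} 1 x - M * exp (l * M)) ∂ν ≤
      ∫ x, (exp (l * Q x) * Q x - M * exp (l * Q x)) ∂ν := by
    refine integral_mono ((iS.const_mul _).sub (integrable_const _)) (i2.sub (i1.const_mul _))
      fun x => ?_
    have p1 := exp_pos (l * Q x)
    have p2 := mul_nonneg hM (exp_pos (l * M)).le
    by_cases hx : x ∈ {x | M + 1 ≤ Q x}
    · simp only [Set.indicator_of_mem hx, Pi.one_apply, mul_one]
      have hx' : M + 1 ≤ Q x := hx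
      have := exp_le_exp.2 (mul_le_mul_of_nonneg_left hx' l0)
      nlinarith
    · simp only [Set.indicator_of_notMem hx, mul_zero, zero_sub]
      rcases le_total (Q x) M with h1 | h1
      · have := mul_le_mul_of_nonneg_left (exp_le_exp.2 (mul_le_mul_of_nonneg_left h1 l0)) hM
        nlinarith [hQ0 x]
      · nlinarith
  rw [integral_sub (iS.const_mul _) (integrable_const _), integral_sub i2 (i1.const_mul _),
    integral_const_mul, integral_const_mul M fun x => exp (l * Q x), integral_indicator_one hS] at key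
  simp only [integral_const, probReal_univ, smul_eq_mul, one_mul] at key
  have e : ∫ x, Q x ∂ν.tilted (fun x => l * Q x) =
      (∫ x, exp (l * Q x) * Q x ∂ν) / ∫ x, exp (l * Q x) ∂ν := by
    rw [integral_tilted, ← integral_div]
    exact integral_congr_ae (Eventually.of_forall fun x => by simp only [smul_eq_mul]; ring)
  rw [e, le_div_iff₀ hZ]
  have h1 : exp (l * (M + 1)) = exp (l * M) * exp l := by rw [← exp_add]; ring_nf
  have h2 : M ≤ exp l * ν.real {x | M + 1 ≤ Q x} := by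
    have := add_one_le_exp l
    nlinarith
  have h3 := mul_le_mul_of_nonneg_left h2 (exp_pos (l * M)).le
  rw [h1] at key
  nlinarith

/-- a flip-symmetric coordinate is visible in every direction overlapping it -/
theorem flip_ge [DecidableEq ι] {ν : Measure (ι → ℝ)} [IsFiniteMeasure ν] {k : ι}
    (hf : ν.map (fun x => Function.update x k (-x k)) = ν) (p : ι → ℝ) {κ m : ℝ} (hκ : 0 ≤ κ)
    (hm : 0 ≤ m) (hp : κ ≤ |p k|) :
    ν.real {x | m ≤ |x k|} / 2 ≤ ν.real {x | κ * m ≤ |p ⬝ᵥ x|} := by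
  have hS : MeasurableSet {x : ι → ℝ | κ * m ≤ |p ⬝ᵥ x|} :=
    (isClosed_le continuous_const (by unfold dotProduct; fun_prop)).measurableSet
  have hm' : Measurable fun x : ι → ℝ => Function.update x k (-x k) :=
    (continuous_id.update k (continuous_apply k).neg).measurable
  have e : ν.real ((fun x => Function.update x k (-x k)) ⁻¹' {x | κ * m ≤ |p ⬝ᵥ x|}) =
      ν.real {x | κ * m ≤ |p ⬝ᵥ x|} := by
    rw [← map_measureReal_apply hm' hS, hf]
  have hsub : {x : ι → ℝ | m ≤ |x k|} ⊆ {x | κ * m ≤ |p ⬝ᵥ x|} ∪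
      (fun x => Function.update x k (-x k)) ⁻¹' {x | κ * m ≤ |p ⬝ᵥ x|} := fun x hx => by
    have e1 : p ⬝ᵥ Function.update x k (-x k) = p ⬝ᵥ x - 2 * (p k * x k) := by
      have : Function.update x k (-x k) = x - Pi.single k (2 * x k) := by
        ext i; by_cases h : i = k
        · subst h; simp; ring
        · simp [h]
      rw [this, dotProduct_sub, dotProduct_single]; ring
    have h1 : κ * m ≤ |p k * x k| := by
      rw [abs_mul]; exact mul_le_mul hp hx hm (hκ.trans hp)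
    by_contra hc
    simp only [Set.mem_union, Set.mem_ofPred_eq, Set.mem_preimage, not_or, not_le, e1] at hc
    have h2 := abs_lt.1 hc.1
    have h3 := abs_lt.1 hc.2
    rcases abs_cases (p k * x k) with h | h <;> linarith [h.1]
  have := (measureReal_mono hsub).trans (measureReal_union_le (μ := ν) _ _)
  linarith

end abs

variable {n : ℕ}

theorem sx_four (n : ℕ) : (sx n ^ 2) ^ 2 = Soft.N23 n := by
  rw [← pow_mul, ← tau_eq]; rfl

/-- transfer of an upper bound from the GOE to the couplings -/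
theorem le_goe {P : (Pair n → ℝ) → Prop} {B : Set (Mat n)}
    (h : ∀ g d, Wmat n g d ∉ B → P g) : disorderLaw n {g | ¬ P g} ≤ GOE n B := by
  have e : disorderLaw n {g | ¬ P g} =
      ((disorderLaw n).prod (gv (Fin n))) ({g | ¬ P g} ×ˢ Set.univ) := by
    rw [Measure.prod_prod, measure_univ, mul_one]
  rw [e]
  refine le_trans (measure_mono fun z hz => ?_) (mp_Wmat.measure_preimage_le B)
  by_contra hc
  exact hz.1 (h z.1 z.2 hc)

theorem mp_mix (hn : 1 ≤ n) :
    MeasurePreserving (fun p : Mat n × Mat n => mix n p.1 p.2) ((GOE n).prod (GOE n)) (GOE n) := by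
  have t1 : 1 ≤ sx n ^ 2 := one_le_pow₀ (one_le_sx hn)
  have h0 : 0 ≤ (sx n ^ 2)⁻¹ := by positivity
  have h1 : 0 ≤ 1 - (sx n ^ 2)⁻¹ := sub_nonneg.2 (inv_le_one_of_one_le₀ t1)
  have m1 : ∀ c : ℝ, MeasurePreserving (fun W : Mat n => c • W) (GOE n)
      (goe (Fin n) (c * (1 / √n))) := fun c => ⟨by fun_prop, goe_smul _ c⟩
  have m2 : MeasurePreserving (fun p : Mat n × Mat n => p.1 + p.2)
      ((goe (Fin n) (√(1 - (sx n ^ 2)⁻¹) * (1 / √n))).prod
        (goe (Fin n) (√((sx n ^ 2)⁻¹) * (1 / √n)))) (GOE n) :=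
    ⟨by fun_prop, goe_add _ _ _ (by rw [mul_pow, mul_pow, Real.sq_sqrt h1, Real.sq_sqrt h0]; ring)⟩
  exact m2.comp ((m1 _).prod (m1 _))

/-- the rank-one shift tilts the spherical law -/
theorem nuW_shift (hS : SphStmt) (hn : 1 ≤ n) (A : Mat n) (x : Fin n × Fin n → ℝ) (u : Fin n → ℝ)
    (l : ℝ) : nuW n (mix n A (symG (1 / √n) (x + fun p => √2 * l * (u p.1 * u p.2)))) =
      (nuW n (mix n A (symG (1 / √n) x))).tilted fun y => l * (u ⬝ᵥ y) ^ 2 := by
  have : Nonempty (Fin n) := ⟨⟨0, hn⟩⟩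
  obtain ⟨h1, h2, -⟩ := (hS (Fin n)).1 (sx n)
  have cp : Cp (sphR (Fin n) (sx n)) := ⟨h1, _, h2.mono fun x hx => hx.le⟩
  rw [nuW, nuW, tilted_tilted (integrable_cp cp (by unfold Hh dotProduct mulVec; fun_prop))]
  congr 1
  ext y
  have s0 := (sx_pos hn).ne'
  have e : mix n A (symG (1 / √n) (x + fun p => √2 * l * (u p.1 * u p.2))) =
      mix n A (symG (1 / √n) x) + (2 * l / tau n) • vecMulVec u u := by
    ext i j
    have h2 : (√2 : ℝ) ≠ 0 := by positivity
    simp only [mix, symG, Matrix.add_apply, Matrix.smul_apply, of_apply, Pi.add_apply,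
      smul_eq_mul, vecMulVec_apply, sqrt_eq, tau_eq, Real.sqrt_inv, Real.sqrt_sq (sx_nonneg n)]
    field_simp
    ring
  have t0 := (tau_pos hn).ne'
  simp only [e, Hh, Pi.add_apply, add_mulVec, dotProduct_add, smul_mulVec, dotProduct_smul,
    vmv_mulVec, smul_eq_mul, dotProduct_comm y u]
  field_simp

end Unb49

open Unb49

theorem jenStmt : JenStmt := by
  intro n g v s V hv hs hV h
  have hn : 0 < n := by
    rcases Nat.eq_zero_or_pos n with rfl | h
    · simp [dotProduct] at hv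
    · exact h
  refine Soft.An_ge hn g hv hV hs ?_
  have hw : ∀ x, 0 ≤ gibbsWeight n 1 g x := fun x => (gibbsWeight_pos 1 g x).le
  have e1 : v ⬝ᵥ sm (muG n g) *ᵥ v =
      (Soft.N23 n)⁻¹ * mean (gibbsWeight n 1 g) fun x => (v ⬝ᵥ sv x) ^ 2 := by
    simp only [dotProduct, mulVec, sm, muG, integral_dm hw, mean, mul_sum, sum_mul]
    simp only [← sx_four, hat, Pi.smul_apply, smul_eq_mul, sq (∑ _, _), sum_mul_sum]
    simp only [mul_sum]
    rw [sum_congr rfl fun i _ => sum_comm, sum_comm]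
    refine sum_congr rfl fun x _ => sum_congr rfl fun i _ => sum_congr rfl fun j _ => ?_
    ring
  have e2 : gibbsMean n 1 g (fun x => v ⬝ᵥ sv x) = 0 :=
    Soft.mean_odd g (f := fun x => v ⬝ᵥ sv x) fun x => by
      simp [dotProduct, sv, Bar.neg, spin_not]
  rw [gibbsVar, e2]
  rw [e1, le_inv_mul_iff₀ (Soft.N23_pos hn), mul_comm] at h
  simp only [sub_zero]
  exact h

theorem nondGlue : NondGlue := by
  intro hM hI hL hG hC hCl hJ hU
  -- a direction for the sphere is a direction for the cube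
  have key : ∀ n : ℕ, 1 ≤ n → ∀ (g : Pair n → ℝ) (d v : Fin n → ℝ) (V e : ℝ), v ⬝ᵥ v = 1 → 0 < V →
      0 ≤ e → V + e ≤ v ⬝ᵥ sm (nuW n (Wmat n g d)) *ᵥ v →
      D2 1 (muW n (Wmat n g d)) (nuW n (Wmat n g d)) ≤ e ^ 2 / 4 →
      V * exp (-(1 / V)) ≤ Soft.An n g 1 := by
    intro n hn g d v V e hv hV he h1 h2
    obtain ⟨c1, c2, -⟩ := (hL n hn).1 (Wmat n g d)
    have h3 := (hM (Fin n) _ _ _ c1 c2 c2 1 1 zero_le_one le_rfl).2.2.2.2.2.2.2
    have h4 := quad_close (A := sm (muW n (Wmat n g d))) (B := sm (nuW n (Wmat n g d))) hv he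
      (by linarith)
    refine hJ n g v 1 V hv zero_le_one hV ?_
    rw [← (hL n hn).2.2.1 g d]
    linarith
  constructor
  · intro ε hε
    obtain ⟨C, -, hG⟩ := hG
    obtain ⟨L, w₁, hL0, hG⟩ := hG (ε / 2) (by positivity)
    obtain ⟨w₂, -, hC⟩ := hC L C 1 1 hL0
    obtain ⟨B, δ, -, hδ, hC⟩ := hC (max w₁ w₂) (le_max_right _ _)
    refine ⟨1, δ / 2 * exp (-(1 / (δ / 2))), one_pos, by positivity, Eventually.frequently ?_⟩
    filter_upwards [hG _ (le_max_left w₁ w₂), hC, eventually_ge_atTop 1,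
      whp_iff.1 (hCl.2 1 ((δ / 2) ^ 2 / 4) zero_le_one (by positivity)) (ε / 2) (by positivity)]
      with n h1 h2 hn h3
    have h4 := le_goe (P := fun g => δ / 2 * exp (-(1 / (δ / 2))) ≤ Soft.An n g 1)
      (B := {W | ¬ (W.IsHermitian ∧ Gd n (Lam n W) (sx n ^ 2) L (max w₁ w₂) C)} ∪
        {W | ¬ D2 1 (muW n W) (nuW n W) ≤ (δ / 2) ^ 2 / 4}) fun g d hgd => by
      simp only [Set.mem_union, Set.mem_ofPred_eq, not_or, not_not] at hgd
      obtain ⟨⟨hW, hgood⟩, hD⟩ := hgd
      have t0 : 0 < sx n ^ 2 := pow_pos (sx_pos hn) 2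
      obtain ⟨O, hO, -, hν⟩ := (hL n hn).2.2.2.1 _ hW
      have cD := ((hL n hn).2.1 (Lam n (Wmat n g d)) _ t0).1
      have hsm := (hI (Fin n) (Fin n) O hO _ _ cD cD).2.2.1
      have hδ' := (h2 _ _ t0 hgood ⟨0, hn⟩).2 one_pos
      refine key n hn g d (O *ᵥ Pi.single ⟨0, hn⟩ 1) (δ / 2) (δ / 2) ?_ (by positivity)
        (by positivity) ?_ hD
      · rw [dot_isom hO]; simp
      · have := cD.prob
        rw [hν, hsm, mulVec_mulVec, Matrix.mul_assoc, hO, Matrix.mul_one, ← mulVec_mulVec,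
          dot_isom hO, quad_sm cD, add_halves]
        refine hδ'.trans ?_
        have hS : MeasurableSet {x : Fin n → ℝ | 1 ≤ |x ⟨0, hn⟩|} :=
          (isClosed_le continuous_const (by fun_prop)).measurableSet
        rw [← integral_indicator_one hS]
        refine integral_mono ((integrable_const 1).indicator hS)
          (integrable_cp cD (by unfold dotProduct; fun_prop)) fun x => ?_
        by_cases hx : x ∈ {x : Fin n → ℝ | 1 ≤ |x ⟨0, hn⟩|}
        · simp only [Set.indicator_of_mem hx, Pi.one_apply, single_one_dotProduct]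
          exact (one_le_sq_iff_one_le_abs _).2 hx
        · simp only [Set.indicator_of_notMem hx]; positivity
    simp only [not_le] at h4
    refine h4.trans ((measure_union_le _ _).trans ?_)
    simp only [not_le] at h3
    refine (add_le_add h1 h3).trans (le_of_eq ?_)
    rw [← ENNReal.ofReal_add (by positivity) (by positivity), add_halves]
  · refine ⟨1, one_pos, fun M => ?_⟩
    obtain ⟨c, hc, hU⟩ := hU (|M| + 1 + 1)
    refine ⟨c / 2, by positivity, Eventually.frequently ?_⟩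
    filter_upwards [hU, eventually_ge_atTop 1,
      whp_iff.1 (hCl.2 1 (1 ^ 2 / 4) zero_le_one (by positivity)) (c / 2) (by positivity)]
      with n h1 hn h3
    have hS : MeasurableSet {W : Mat n | |M| + 1 + 1 ≤ lam (sm (nuW n W)) 0} :=
      measurableSet_le measurable_const ((measurable_lam_apply 0).comp
        (hL n hn).2.2.2.2.2.2.2.2.2.2.2.1.measurable)
    have h4 := le_goe (P := fun g => M ≤ Soft.An n g 1)
      (B := {W | |M| + 1 + 1 ≤ lam (sm (nuW n W)) 0}ᶜ ∪
        {W | ¬ D2 1 (muW n W) (nuW n W) ≤ 1 ^ 2 / 4}) fun g d hgd => by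
      simp only [Set.mem_union, Set.mem_ofPred_eq, Set.mem_compl_iff, not_or, not_not] at hgd
      have h0 : 0 < Fintype.card (Fin n) := by simpa using Nat.succ_le_iff.1 hn
      have hM0 : 0 < |M| + 1 := by positivity
      refine le_trans ?_ (key n hn g d (vec (sm (nuW n (Wmat n g d))) 0) (|M| + 1) 1
        (vec_dot_self (sm_herm _) h0) hM0 zero_le_one
        (by rw [quad_vec (sm_herm _) h0]; exact hgd.1) hgd.2)
      have h1 := add_one_le_exp (-(1 / (|M| + 1)))
      have h2 : (|M| + 1) * (-(1 / (|M| + 1)) + 1) = |M| := by field_simp; ring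
      have h3 := mul_le_mul_of_nonneg_left h1 hM0.le
      linarith [le_abs_self M]
    have r1 := ENNReal.toReal_mono (measure_ne_top _ _) h1
    have r3 := ENNReal.toReal_mono ENNReal.ofReal_ne_top h3
    have r4 := ENNReal.toReal_mono (measure_ne_top _ _) h4
    rw [ENNReal.toReal_ofReal (by positivity), ← measureReal_def] at r1 r3
    rw [← measureReal_def, ← measureReal_def] at r4
    have r5 := r4.trans (measureReal_union_le _ _)
    rw [probReal_compl_eq_one_sub hS] at r5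
    have r6 : (disorderLaw n).real Set.univ ≤ (disorderLaw n).real {g | M ≤ Soft.An n g 1} +
        (disorderLaw n).real {g | ¬ M ≤ Soft.An n g 1} :=
      (measureReal_mono fun g _ => em _).trans (measureReal_union_le _ _)
    rw [probReal_univ] at r6
    exact ENNReal.ofReal_le_of_le_toReal (by rw [← measureReal_def]; linarith)

theorem unbGlue : UnbGlue := by
  intro hI hS hL hG hC hO M
  obtain ⟨K, κ, hκ, hO⟩ := hO (1 / 8) (by norm_num)
  obtain ⟨C, -, hG⟩ := hG
  obtain ⟨L, w₁, hL0, hG⟩ := hG (1 / 64) (by norm_num)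
  obtain ⟨w₂, -, hC⟩ := hC L C ((|M| + 1) / κ) K hL0
  obtain ⟨B, δ, -, hδ, hC⟩ := hC (max w₁ w₂) (le_max_right _ _)
  obtain ⟨l, hl⟩ : ∃ l, l = |M| / (δ / 2) := ⟨_, rfl⟩
  refine ⟨exp (-(2 * l ^ 2)) / 2 * (3 / 4), by positivity, ?_⟩
  filter_upwards [hG _ (le_max_left w₁ w₂), hC, hO, eventually_ge_atTop 1] with n h1 h2 h3 hn
  have h0 : 0 < Fintype.card (Fin n) := by simpa using Nat.succ_le_iff.1 hn
  have t0 : 0 < sx n ^ 2 := pow_pos (sx_pos hn) 2
  obtain ⟨S, hSd⟩ : ∃ S, S = {W : Mat n | M ≤ lam (sm (nuW n W)) 0} := ⟨_, rfl⟩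
  have hSm : MeasurableSet S := hSd ▸ measurableSet_le measurable_const
    ((measurable_lam_apply 0).comp (hL n hn).2.2.2.2.2.2.2.2.2.2.2.1.measurable)
  rw [← hSd]
  obtain ⟨Bd, hBd, hBm, hBe⟩ := exists_measurable_superset (GOE n)
    {W | ¬ (W.IsHermitian ∧ Gd n (Lam n W) (sx n ^ 2) L (max w₁ w₂) C)}
  have mp := mp_mix hn
  have mmix : ∀ A : Mat n, Measurable (mix n A) := fun A =>
    mp.measurable.comp measurable_prodMk_left
  -- the deterministic step
  have det : ∀ (A : Mat n) (x : Fin n × Fin n → ℝ), A.IsHermitian →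
      mix n A (symG (1 / √n) x) ∉ Bd →
      (∃ k, k < K ∧ κ ≤ |vec A 0 ⬝ᵥ vec (mix n A (symG (1 / √n) x)) k|) →
      mix n A (symG (1 / √n) (x + fun p => √2 * l * (vec A 0 p.1 * vec A 0 p.2))) ∈ S := by
    intro A x hA hx ⟨k, hk, hκk⟩
    obtain ⟨hW, hgood⟩ := not_not.1 fun h => hx (hBd h)
    rw [hSd, Set.mem_ofPred_eq]
    have cW := ((hL n hn).1 (mix n A (symG (1 / √n) x))).2.1
    have cW' := ((hL n hn).1 (mix n A (symG (1 / √n)
      (x + fun p => √2 * l * (vec A 0 p.1 * vec A 0 p.2))))).2.1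
    refine le_trans ?_ (quad_le_of_unit (sm_herm _) (vec_dot_self hA h0))
    rw [quad_sm cW', nuW_shift hS hn]
    refine (le_abs_self M).trans (tilt_ge cW (by unfold dotProduct; fun_prop) (fun _ => sq_nonneg _)
      (abs_nonneg M) (half_pos hδ) (le_of_eq (by rw [hl]; field_simp)) ?_)
    generalize mix n A (symG (1 / √n) x) = W at *
    have hkn : k < n := by
      by_contra hc
      rw [vec_of_le (k := k) (by simpa using hc)] at hκk
      simp at hκk; linarith
    obtain ⟨O, hO, hOv, hν⟩ := (hL n hn).2.2.2.1 _ hW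
    obtain ⟨cD, hflip⟩ := (hL n hn).2.1 (Lam n W) _ t0
    have := cD.prob
    have hδ' := (h2 _ _ t0 hgood ⟨k, hkn⟩).2 hk
    have h4 := flip_ge (hflip ⟨k, hkn⟩) (Oᵀ *ᵥ vec A 0) hκ.le
      (m := (|M| + 1) / κ) (by positivity) (by
        refine hκk.trans (le_of_eq ?_)
        simp only [mulVec, dotProduct, transpose_apply, hOv, mul_comm])
    have hm : MeasurableSet {y : Fin n → ℝ | |M| + 1 ≤ (vec A 0 ⬝ᵥ y) ^ 2} :=
      (isClosed_le continuous_const (by unfold dotProduct; fun_prop)).measurableSet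
    rw [hν, map_measureReal_apply (by unfold mulVec dotProduct; fun_prop) hm]
    refine (by linarith : δ / 2 ≤ _).trans (h4.trans (measureReal_mono fun y hy => ?_))
    simp only [Set.mem_ofPred_eq, Set.mem_preimage] at hy ⊢
    rw [mul_div_cancel₀ _ hκ.ne', mulVec_transpose, ← dotProduct_mulVec] at hy
    rw [← sq_abs]
    nlinarith [abs_nonneg M]
  -- one good matrix `A`
  have one : ∀ A : Mat n, A.IsHermitian →
      GOE n {G | ¬ ∃ k, k < K ∧ κ ≤ |vec A 0 ⬝ᵥ vec (mix n A G) k|} ≤ ENNReal.ofReal (1 / 8) →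
      GOE n (mix n A ⁻¹' Bd) ≤ ENNReal.ofReal (1 / 8) →
      ENNReal.ofReal (exp (-(2 * l ^ 2)) / 2) ≤ GOE n (mix n A ⁻¹' S) := by
    intro A hA g1 g2
    have ms := measurable_symG (ι := Fin n) (1 / √n)
    have f1 := (Measure.le_map_apply (μ := gv (Fin n × Fin n)) ms.aemeasurable _).trans g1
    have f2 := (Measure.le_map_apply (μ := gv (Fin n × Fin n)) ms.aemeasurable _).trans g2
    have r1 := ENNReal.toReal_mono ENNReal.ofReal_ne_top f1
    have r2 := ENNReal.toReal_mono ENNReal.ofReal_ne_top f2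
    rw [ENNReal.toReal_ofReal (by norm_num), ← measureReal_def] at r1 r2
    have hS' : MeasurableSet (symG (1 / √n) ⁻¹' (mix n A ⁻¹' S)) := ms (mmix A hSm)
    have h5 := cm_lower (fun p => √2 * l * (vec A 0 p.1 * vec A 0 p.2)) hS' (by
      have hsub : (Set.univ : Set (Fin n × Fin n → ℝ)) ⊆ _ ∪ (_ ∪ _) := fun x _ => by
        by_cases a1 : x ∈ symG (1 / √n) ⁻¹' (mix n A ⁻¹' Bd)
        · exact Or.inr (Or.inr a1)
        by_cases a2 : x ∈ symG (1 / √n) ⁻¹'
          {G | ¬ ∃ k, k < K ∧ κ ≤ |vec A 0 ⬝ᵥ vec (mix n A G) k|}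
        · exact Or.inr (Or.inl a2)
        exact Or.inl (show x ∈ {g | g + (fun p : Fin n × Fin n => √2 * l *
          (vec A 0 p.1 * vec A 0 p.2)) ∈ symG (1 / √n) ⁻¹' (mix n A ⁻¹' S)} from
          det A x hA a1 (not_not.1 a2))
      have := (measureReal_mono (μ := gv (Fin n × Fin n)) hsub).trans ((measureReal_union_le _ _).trans
        (add_le_add_right (measureReal_union_le _ _) _))
      rw [probReal_univ] at this
      linarith)
    have e : (fun p : Fin n × Fin n => √2 * l * (vec A 0 p.1 * vec A 0 p.2)) ⬝ᵥ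
        (fun p => √2 * l * (vec A 0 p.1 * vec A 0 p.2)) = 2 * l ^ 2 := by
      have h6 := vec_dot_self hA h0
      have h7 : √2 * √2 = 2 := Real.mul_self_sqrt (by norm_num)
      calc _ = (√2 * √2) * l ^ 2 * ((vec A 0 ⬝ᵥ vec A 0) * (vec A 0 ⬝ᵥ vec A 0)) := by
            simp only [dotProduct, Fintype.sum_prod_type, sum_mul_sum]
            simp only [mul_sum]
            exact sum_congr rfl fun i _ => sum_congr rfl fun j _ => by ring
        _ = _ := by rw [h6, h7]; ring
    rw [e] at h5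
    rw [GOE, goe, Measure.map_apply ms (mmix A hSm)]
    exact ENNReal.ofReal_le_of_le_toReal h5
  -- Fubini and Markov
  have fub : ∀ T : Set (Mat n), MeasurableSet T →
      Measurable (fun A => GOE n (mix n A ⁻¹' T)) ∧ ∫⁻ A, GOE n (mix n A ⁻¹' T) ∂GOE n = GOE n T :=
    fun T hT => ⟨measurable_measure_prodMk_left (mp.measurable hT), by
      rw [← mp.measure_preimage hT.nullMeasurableSet, Measure.prod_apply (mp.measurable hT)]; rfl⟩
  have mk := mul_meas_ge_le_lintegral₀ (μ := GOE n) (fub Bd hBm).1.aemeasurable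
    (ENNReal.ofReal (1 / 8))
  rw [(fub Bd hBm).2, hBe] at mk
  have mk' : (GOE n).real {A | ENNReal.ofReal (1 / 8) ≤ GOE n (mix n A ⁻¹' Bd)} ≤ 1 / 8 := by
    have := ENNReal.toReal_mono ENNReal.ofReal_ne_top (mk.trans h1)
    rw [ENNReal.toReal_mul, ENNReal.toReal_ofReal (by norm_num),
      ENNReal.toReal_ofReal (by norm_num), ← measureReal_def] at this
    linarith
  have r3 := ENNReal.toReal_mono ENNReal.ofReal_ne_top h3
  rw [ENNReal.toReal_ofReal (by norm_num), ← measureReal_def] at r3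
  have big : 3 / 4 ≤ (GOE n).real
      {A | ENNReal.ofReal (exp (-(2 * l ^ 2)) / 2) ≤ GOE n (mix n A ⁻¹' S)} := by
    have hsub : (Set.univ : Set (Mat n)) ⊆ _ ∪ (_ ∪ _) := fun A _ => by
      by_cases a1 : A ∈ {A | ENNReal.ofReal (1 / 8) ≤ GOE n (mix n A ⁻¹' Bd)}
      · exact Or.inr (Or.inr a1)
      by_cases a2 : A ∈ {A : Mat n | ¬ (A.IsHermitian ∧
        GOE n {G | ¬ ∃ k, k < K ∧ κ ≤ |vec A 0 ⬝ᵥ vec (mix n A G) k|} ≤ ENNReal.ofReal (1 / 8))}
      · exact Or.inr (Or.inl a2)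
      exact Or.inl (show A ∈ {A | ENNReal.ofReal (exp (-(2 * l ^ 2)) / 2) ≤
        GOE n (mix n A ⁻¹' S)} from one A (not_not.1 a2).1 (not_not.1 a2).2 (not_le.1 a1).le)
    have := (measureReal_mono (μ := GOE n) hsub).trans ((measureReal_union_le _ _).trans
      (add_le_add_right (measureReal_union_le _ _) _))
    rw [probReal_univ] at this
    linarith
  have mk2 := mul_meas_ge_le_lintegral₀ (μ := GOE n) (fub S hSm).1.aemeasurable
    (ENNReal.ofReal (exp (-(2 * l ^ 2)) / 2))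
  rw [(fub S hSm).2] at mk2
  rw [ENNReal.ofReal_mul (by positivity)]
  exact (mul_le_mul_right (ENNReal.ofReal_le_of_le_toReal big) _).trans mk2

end Crest.Agent.T157.St
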