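import Crest.Agent.T157.StDef_87
import Crest.Agent.T157.PlA_37

/-!
# Row 157, part C4: weak Poincaré inequality of the static chain (helper6)
-/

set_option autoImplicit false
set_option linter.unusedSectionVars false

noncomputable section

namespace Crest.Agent.T157.St

open MeasureTheory ProbabilityTheory Matrix Filter Topology Real Set
open Crest.Agent.T157.E

namespace Wp6

variable {ι : Type*} [Fintype ι] {μ : Measure (ι → ℝ)} {K : ℝ}

lemma cpt (r : ℝ) : IsCompact {x : ι → ℝ | x ⬝ᵥ x ≤ r} := by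
  refine Metric.isCompact_of_isClosed_isBounded (isClosed_le (by fun_prop) continuous_const) ?_
  refine (Metric.isBounded_closedBall (x := (0 : ι → ℝ)) (r := √r)).subset fun x hx => ?_
  rw [mem_closedBall_zero_iff, pi_norm_le_iff_of_nonneg (sqrt_nonneg r)]
  intro i
  refine abs_le_sqrt (le_trans ?_ hx)
  rw [sq]
  exact Finset.single_le_sum (f := fun i => x i * x i) (fun i _ => mul_self_nonneg _)
    (Finset.mem_univ i)

lemma int1 (hμ : Cp μ) {φ : (ι → ℝ) → ℝ} (hφ : Continuous φ) : Integrable φ μ := by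
  have := hμ.prob
  obtain ⟨r, hr⟩ := hμ.bdd
  have h := (hφ.continuousOn (s := {x | x ⬝ᵥ x ≤ r})).integrableOn_compact (μ := μ) (cpt r)
  have h2 : ∀ᵐ x ∂μ, x ∈ {x : ι → ℝ | x ⬝ᵥ x ≤ r} := hr
  rwa [IntegrableOn, Measure.restrict_eq_self_of_ae_mem h2] at h

lemma int2 (hμ : Cp μ) {φ : (ι → ℝ) × (ι → ℝ) → ℝ} (hφ : Continuous φ) :
    Integrable φ (μ.prod μ) := by
  have := hμ.prob
  obtain ⟨r, hr⟩ := hμ.bdd
  have h := (hφ.continuousOn (s := {x | x ⬝ᵥ x ≤ r} ×ˢ {x | x ⬝ᵥ x ≤ r})).integrableOn_compact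
    (μ := μ.prod μ) ((cpt r).prod (cpt r))
  have h2 : ∀ᵐ p ∂μ.prod μ, p ∈ {x : ι → ℝ | x ⬝ᵥ x ≤ r} ×ˢ {x : ι → ℝ | x ⬝ᵥ x ≤ r} :=
    (Measure.quasiMeasurePreserving_fst.ae hr).and (Measure.quasiMeasurePreserving_snd.ae hr)
  rwa [IntegrableOn, Measure.restrict_eq_self_of_ae_mem h2] at h

lemma ew_pos (K : ℝ) (y x : ι → ℝ) : 0 < ew K y x := exp_pos _

@[fun_prop] lemma continuous_ew {X : Type*} [TopologicalSpace X] (K : ℝ) {y x : X → ι → ℝ}
    (hy : Continuous y) (hx : Continuous x) : Continuous fun p => ew K (y p) (x p) := by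
  unfold ew; fun_prop

lemma ew_mul (K : ℝ) (y x x' : ι → ℝ) :
    ew K y x * ew K y x' = exp (K * (x ⬝ᵥ x')) * ew K y (x + x') := by
  simp only [ew, ← exp_add, dotProduct_add, add_dotProduct, dotProduct_comm x' x]
  congr 1; ring

lemma ew_eq (hK : 0 ≤ K) (z x : ι → ℝ) :
    ew K (√K • z) x = (Pl.MM false (√K • x))⁻¹ * exp (z ⬝ᵥ (√K • x)) := by
  rw [Pl.MM_false, ← exp_neg, ← exp_add, ew]
  congr 1
  simp only [smul_dotProduct, dotProduct_smul, smul_eq_mul]
  rw [← mul_assoc, mul_self_sqrt hK]; ring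

/-- Cameron–Martin formula -/
lemma cm (hK : 0 ≤ K) (F : (ι → ℝ) → ℝ) (x : ι → ℝ) :
    ∫ z, F (K • x + √K • z) ∂gv ι = ∫ z, ew K (√K • z) x * F (√K • z) ∂gv ι := by
  have h := Pl.integral_exp_mul false (√K • x) fun g => F (√K • g)
  rw [Pl.integral_tilted_false, Pl.law_false] at h
  simp only [ew_eq hK, mul_assoc]
  rw [integral_const_mul, h, ← mul_assoc, inv_mul_cancel₀ (Pl.MM_pos _ _).ne', one_mul]
  simp only [smul_add, smul_smul, mul_self_sqrt hK, add_comm]

lemma int_ew (hK : 0 ≤ K) (x : ι → ℝ) : Integrable (fun z => ew K (√K • z) x) (gv ι) := by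
  simp only [ew_eq hK]
  exact (Pl.integrable_exp_dot false (√K • x)).const_mul _

lemma integral_ew (hK : 0 ≤ K) (x : ι → ℝ) : ∫ z, ew K (√K • z) x ∂gv ι = 1 := by
  simpa using (cm hK (fun _ => 1) x).symm

lemma int_ew_prod (hK : 0 ≤ K) (μ : Measure (ι → ℝ)) [IsFiniteMeasure μ] :
    Integrable (fun p : (ι → ℝ) × (ι → ℝ) => ew K (√K • p.2) p.1) (μ.prod (gv ι)) := by
  refine (integrable_prod_iff (Continuous.aestronglyMeasurable (by fun_prop))).2
    ⟨Eventually.of_forall fun x => int_ew hK x, ?_⟩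
  simp only [Real.norm_of_nonneg (ew_pos _ _ _).le, integral_ew hK]
  exact integrable_const _

lemma int_ew_mu (hμ : Cp μ) (K : ℝ) (y : ι → ℝ) : Integrable (ew K y) μ :=
  int1 hμ (continuous_ew K continuous_const continuous_id)

lemma Mf_pos (hμ : Cp μ) (K : ℝ) (y : ι → ℝ) : 0 < Mf K μ y := by
  have := hμ.prob
  exact integral_exp_pos (int_ew_mu hμ K y)

lemma measurable_N (hμ : Cp μ) (K : ℝ) {f : (ι → ℝ) → ℝ} (hf : Measurable f) :
    Measurable fun y => ∫ x, f x * ew K y x ∂μ := by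
  have := hμ.prob
  have h : Measurable fun p : (ι → ℝ) × (ι → ℝ) => f p.2 * ew K p.1 p.2 :=
    (hf.comp measurable_snd).mul (Continuous.measurable (by fun_prop))
  exact h.stronglyMeasurable.integral_prod_right'.measurable

lemma measurable_Mf (hμ : Cp μ) (K : ℝ) : Measurable (Mf K μ) := by
  have h := measurable_N hμ K (f := fun _ => 1) measurable_const
  simp only [one_mul] at h
  exact h

lemma measurable_pm (hμ : Cp μ) (K : ℝ) {f : (ι → ℝ) → ℝ} (hf : Measurable f) :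
    Measurable (pm K μ f) := (measurable_N hμ K hf).div (measurable_Mf hμ K)

lemma int_Mf (hμ : Cp μ) (hK : 0 ≤ K) : Integrable (fun z => Mf K μ (√K • z)) (gv ι) := by
  have := hμ.prob
  exact (int_ew_prod hK μ).integral_prod_right

section f
variable {f : (ι → ℝ) → ℝ} {c : ℝ}

lemma int_f_ew (hμ : Cp μ) (hf : Measurable f) (hc : ∀ x, |f x| ≤ c) (K : ℝ) (y : ι → ℝ) :
    Integrable (fun x => f x * ew K y x) μ :=
  (int_ew_mu hμ K y).bdd_mul hf.aestronglyMeasurable (Eventually.of_forall hc)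

lemma abs_pm_le (hμ : Cp μ) (hc : ∀ x, |f x| ≤ c) (K : ℝ) (y : ι → ℝ) : |pm K μ f y| ≤ c := by
  rw [pm, abs_div, abs_of_pos (Mf_pos hμ K y), div_le_iff₀ (Mf_pos hμ K y), Mf,
    ← integral_const_mul]
  refine norm_integral_le_of_norm_le (f := fun x => f x * ew K y x)
    ((int_ew_mu hμ K y).const_mul c) (Eventually.of_forall fun x => ?_)
  rw [Real.norm_eq_abs, abs_mul, abs_of_pos (ew_pos K y x)]
  exact mul_le_mul_of_nonneg_right (hc x) (ew_pos K y x).le

lemma abs_sq_le (hc : ∀ x, |f x| ≤ c) (x : ι → ℝ) : |f x ^ 2| ≤ c ^ 2 := by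
  rw [abs_pow]; exact pow_le_pow_left₀ (abs_nonneg _) (hc x) 2

lemma abs_g_le (hc : ∀ x, |f x| ≤ c) (x x' : ι → ℝ) : |(f x - f x') ^ 2| ≤ (2 * c) ^ 2 := by
  rw [abs_pow]
  refine pow_le_pow_left₀ (abs_nonneg _) ((abs_sub _ _).trans ?_) 2
  linarith [hc x, hc x']

/-- posterior variance times the output density -/
def Vf (K : ℝ) (μ : Measure (ι → ℝ)) (f : (ι → ℝ) → ℝ) (y : ι → ℝ) : ℝ :=
  ∫ x, f x ^ 2 * ew K y x ∂μ - pm K μ f y * ∫ x, f x * ew K y x ∂μ

lemma dir_eq (hμ : Cp μ) (hK : 0 ≤ K) (hf : Measurable f) (hc : ∀ x, |f x| ≤ c) :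
    ∫ x, f x * (f x - Tk K μ f x) ∂μ = ∫ z, Vf K μ f (√K • z) ∂gv ι := by
  have := hμ.prob
  have hpm : Measurable fun z : ι → ℝ => pm K μ f (√K • z) :=
    (measurable_pm hμ K hf).comp (by fun_prop)
  have h1 : Integrable (fun p : (ι → ℝ) × (ι → ℝ) =>
      f p.1 * (f p.1 - pm K μ f (√K • p.2)) * ew K (√K • p.2) p.1) (μ.prod (gv ι)) := by
    refine (int_ew_prod hK μ).bdd_mul (c := c * (c + c)) (Measurable.aestronglyMeasurable ?_)
      (Eventually.of_forall fun p => ?_)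
    · exact (hf.comp measurable_fst).mul ((hf.comp measurable_fst).sub (hpm.comp measurable_snd))
    · rw [Real.norm_eq_abs, abs_mul]
      exact mul_le_mul (hc _) ((abs_sub _ _).trans (add_le_add (hc _) (abs_pm_le hμ hc _ _)))
        (abs_nonneg _) ((abs_nonneg _).trans (hc 0))
  have h2 := integral_integral_swap (f := fun x z : ι → ℝ =>
    f x * (f x - pm K μ f (√K • z)) * ew K (√K • z) x) h1
  refine (integral_congr_ae (Eventually.of_forall fun x => ?_)).trans
    (h2.trans (integral_congr_ae (Eventually.of_forall fun z => ?_)))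
  · have e : (fun z => f x * (f x - pm K μ f (√K • z)) * ew K (√K • z) x) = fun z =>
        f x * (f x * ew K (√K • z) x - ew K (√K • z) x * pm K μ f (√K • z)) := by
      funext z; ring
    change _ = ∫ z, f x * (f x - pm K μ f (√K • z)) * ew K (√K • z) x ∂gv ι
    rw [e, integral_const_mul, integral_sub ((int_ew hK x).const_mul _)
      ((int_ew hK x).mul_bdd hpm.aestronglyMeasurable
        (Eventually.of_forall fun z => abs_pm_le hμ hc _ _)),
      integral_const_mul, integral_ew hK, mul_one, Tk, cm hK]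
  · have e : (fun x => f x * (f x - pm K μ f (√K • z)) * ew K (√K • z) x) = fun x =>
        f x ^ 2 * ew K (√K • z) x - pm K μ f (√K • z) * (f x * ew K (√K • z) x) := by
      funext x; ring
    change ∫ x, f x * (f x - pm K μ f (√K • z)) * ew K (√K • z) x ∂μ = _
    rw [e, integral_sub (int_f_ew hμ (hf.pow_const 2) (abs_sq_le hc) _ _)
      ((int_f_ew hμ hf hc _ _).const_mul _), integral_const_mul]
    rfl

end f

/-- joint posterior density of two replicas -/
def kk (K : ℝ) (μ : Measure (ι → ℝ)) (p : (ι → ℝ) × (ι → ℝ)) (y : ι → ℝ) : ℝ :=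
  ew K y p.1 * ew K y p.2 / Mf K μ y

lemma kk_pos (hμ : Cp μ) (K : ℝ) (p : (ι → ℝ) × (ι → ℝ)) (y : ι → ℝ) : 0 < kk K μ p y :=
  div_pos (mul_pos (ew_pos _ _ _) (ew_pos _ _ _)) (Mf_pos hμ K y)

lemma int_kk (hμ : Cp μ) (hK : 0 ≤ K) :
    Integrable (fun q : ((ι → ℝ) × (ι → ℝ)) × (ι → ℝ) => kk K μ q.1 (√K • q.2))
      ((μ.prod μ).prod (gv ι)) := by
  have := hμ.prob
  have hm : Measurable fun q : ((ι → ℝ) × (ι → ℝ)) × (ι → ℝ) => kk K μ q.1 (√K • q.2) :=
    (Continuous.measurable (f := fun q : ((ι → ℝ) × (ι → ℝ)) × (ι → ℝ) =>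
      ew K (√K • q.2) q.1.1 * ew K (√K • q.2) q.1.2) (by fun_prop)).div
      ((measurable_Mf hμ K).comp (f := fun q : ((ι → ℝ) × (ι → ℝ)) × (ι → ℝ) => √K • q.2)
        (by fun_prop))
  refine (integrable_prod_iff' hm.aestronglyMeasurable).2 ⟨Eventually.of_forall fun z => ?_, ?_⟩
  · simp only [kk]
    exact ((int_ew_mu hμ K (√K • z)).mul_prod (int_ew_mu hμ K (√K • z))).div_const _
  · refine (int_Mf hμ hK).congr (Eventually.of_forall fun z => ?_)
    simp only [Real.norm_of_nonneg (kk_pos hμ K _ _).le]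
    simp only [kk]
    rw [integral_div, integral_prod_mul]
    exact (mul_self_div_self _).symm

lemma two_Vf {f : (ι → ℝ) → ℝ} {c : ℝ} (hμ : Cp μ) (hf : Measurable f) (hc : ∀ x, |f x| ≤ c)
    (K : ℝ) (y : ι → ℝ) :
    ∫ p, (f p.1 - f p.2) ^ 2 * kk K μ p y ∂μ.prod μ = 2 * Vf K μ f y := by
  have := hμ.prob
  have i0 := int_ew_mu hμ K y
  have i1 := int_f_ew hμ hf hc K y
  have i2 := int_f_ew hμ (hf.pow_const 2) (abs_sq_le hc) K y
  have e : (fun p : (ι → ℝ) × (ι → ℝ) => (f p.1 - f p.2) ^ 2 * kk K μ p y) = fun p =>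
      ((f p.1 ^ 2 * ew K y p.1) * ew K y p.2 - 2 * ((f p.1 * ew K y p.1) * (f p.2 * ew K y p.2)) +
        ew K y p.1 * (f p.2 ^ 2 * ew K y p.2)) / Mf K μ y := by
    funext p; rw [kk]; ring
  have hM := (Mf_pos hμ K y).ne'
  rw [e, integral_div, integral_add ((i2.mul_prod i0).sub' ((i1.mul_prod i1).const_mul 2))
    (i0.mul_prod i2), integral_sub (i2.mul_prod i0) ((i1.mul_prod i1).const_mul 2),
    integral_const_mul, integral_prod_mul (fun x => f x ^ 2 * ew K y x) (ew K y),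
    integral_prod_mul (fun x => f x * ew K y x) fun x => f x * ew K y x,
    integral_prod_mul (ew K y) fun x => f x ^ 2 * ew K y x, Vf, pm]
  change (_ * Mf K μ y - _ + Mf K μ y * _) / _ = _
  field_simp
  ring

/-- the Dirichlet form as a double integral -/
lemma two_dir {f : (ι → ℝ) → ℝ} {c : ℝ} (hμ : Cp μ) (hK : 0 ≤ K) (hf : Measurable f)
    (hc : ∀ x, |f x| ≤ c) :
    Integrable (fun p : (ι → ℝ) × (ι → ℝ) => (f p.1 - f p.2) ^ 2 * ∫ z, kk K μ p (√K • z) ∂gv ι)
      (μ.prod μ) ∧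
    ∫ p, (f p.1 - f p.2) ^ 2 * ∫ z, kk K μ p (√K • z) ∂gv ι ∂μ.prod μ =
      2 * ∫ x, f x * (f x - Tk K μ f x) ∂μ := by
  have := hμ.prob
  have hg : Measurable fun p : (ι → ℝ) × (ι → ℝ) => (f p.1 - f p.2) ^ 2 := by fun_prop
  have h1 := (int_kk hμ hK).bdd_mul (hg.comp measurable_fst).aestronglyMeasurable
    (Eventually.of_forall fun q => abs_g_le hc q.1.1 q.1.2)
  have h2 := integral_integral_swap (f := fun (p : (ι → ℝ) × (ι → ℝ)) (z : ι → ℝ) =>
    (f p.1 - f p.2) ^ 2 * kk K μ p (√K • z)) h1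
  have h3 := h1.integral_prod_left
  simp only [Function.comp, integral_const_mul, two_Vf hμ hf hc] at h2 h3
  exact ⟨h3, by rw [h2, dir_eq hμ hK hf hc]⟩

/-- the exponential moment seen from a point -/
def HH (K : ℝ) (μ : Measure (ι → ℝ)) (x : ι → ℝ) : ℝ := ∫ u, exp (2 * K * (x ⬝ᵥ u)) ∂μ

lemma HH_nonneg (K : ℝ) (μ : Measure (ι → ℝ)) (x : ι → ℝ) : 0 ≤ HH K μ x :=
  integral_nonneg fun _ => (exp_pos _).le

lemma int_HH (hμ : Cp μ) (K : ℝ) : Integrable (HH K μ) μ := by
  have := hμ.prob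
  exact (int2 hμ (φ := fun p => exp (2 * K * (p.1 ⬝ᵥ p.2))) (by fun_prop)).integral_prod_left

lemma measurable_HH (hμ : Cp μ) (K : ℝ) : Measurable (HH K μ) := by
  have := hμ.prob
  have h : Continuous fun p : (ι → ℝ) × (ι → ℝ) => exp (2 * K * (p.1 ⬝ᵥ p.2)) := by fun_prop
  exact h.stronglyMeasurable.integral_prod_right'.measurable

lemma ew_Mf (hμ : Cp μ) (hK : 0 ≤ K) (w : ι → ℝ) :
    Integrable (fun z => ew K (√K • z) w * Mf K μ (√K • z)) (gv ι) ∧
    ∫ z, ew K (√K • z) w * Mf K μ (√K • z) ∂gv ι = ∫ u, exp (K * (w ⬝ᵥ u)) ∂μ := by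
  have := hμ.prob
  have h0 : ∀ u, ∫ z, ew K (√K • z) w * ew K (√K • z) u ∂gv ι = exp (K * (w ⬝ᵥ u)) := fun u => by
    simp only [ew_mul]
    rw [integral_const_mul, integral_ew hK, mul_one]
  have h1 : Integrable (fun p : (ι → ℝ) × (ι → ℝ) => ew K (√K • p.2) w * ew K (√K • p.2) p.1)
      (μ.prod (gv ι)) := by
    refine (integrable_prod_iff (Continuous.aestronglyMeasurable (by fun_prop))).2
      ⟨Eventually.of_forall fun u => ?_, ?_⟩
    · simp only [ew_mul]
      exact (int_ew hK _).const_mul _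
    · simp only [Real.norm_of_nonneg (mul_pos (ew_pos _ _ _) (ew_pos _ _ _)).le, h0]
      exact int1 hμ (by fun_prop)
  have h2 := integral_integral_swap (f := fun u z : ι → ℝ =>
    ew K (√K • z) w * ew K (√K • z) u) h1
  have h3 := h1.integral_prod_right
  simp only [h0] at h2
  simp only [integral_const_mul] at h2 h3
  exact ⟨h3, h2.symm⟩

/-- lower bound of the transition density -/
lemma kk_lower (hμ : Cp μ) (hK : 0 ≤ K) {b : ℝ} (hb : 0 < b) {p : (ι → ℝ) × (ι → ℝ)}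
    (hi : Integrable (fun z => kk K μ p (√K • z)) (gv ι)) (h1 : HH K μ p.1 ≤ b)
    (h2 : HH K μ p.2 ≤ b) : exp (K * (p.1 ⬝ᵥ p.2)) / b ≤ ∫ z, kk K μ p (√K • z) ∂gv ι := by
  obtain ⟨i1, e1⟩ := ew_Mf hμ hK (p.1 + p.2)
  have i0 := int_ew hK (p.1 + p.2)
  have h3 : ∫ u, exp (K * ((p.1 + p.2) ⬝ᵥ u)) ∂μ ≤ b := by
    have j1 : Integrable (fun u => exp (2 * K * (p.1 ⬝ᵥ u))) μ := int1 hμ (by fun_prop)
    have j2 : Integrable (fun u => exp (2 * K * (p.2 ⬝ᵥ u))) μ := int1 hμ (by fun_prop)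
    have h4 : ∫ u, exp (K * ((p.1 + p.2) ⬝ᵥ u)) ∂μ ≤
        ∫ u, (exp (2 * K * (p.1 ⬝ᵥ u)) + exp (2 * K * (p.2 ⬝ᵥ u))) / 2 ∂μ := by
      refine integral_mono (int1 hμ (by fun_prop)) ((j1.add j2).div_const 2) fun u => ?_
      have e2 : ∀ t : ℝ, exp (2 * K * t) = exp (K * t) ^ 2 := fun t => by
        rw [sq, ← exp_add]; congr 1; ring
      simp only [add_dotProduct, mul_add, exp_add, e2]
      nlinarith [sq_nonneg (exp (K * (p.1 ⬝ᵥ u)) - exp (K * (p.2 ⬝ᵥ u)))]
    rw [integral_div, integral_add j1 j2] at h4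
    rw [HH] at h1 h2
    linarith
  have h4 : ∫ z, exp (K * (p.1 ⬝ᵥ p.2)) * (2 / b * ew K (√K • z) (p.1 + p.2) -
      1 / b ^ 2 * (ew K (√K • z) (p.1 + p.2) * Mf K μ (√K • z))) ∂gv ι ≤
      ∫ z, kk K μ p (√K • z) ∂gv ι := by
    refine integral_mono (((i0.const_mul _).sub (i1.const_mul _)).const_mul _) hi fun z => ?_
    simp only [kk, ew_mul, mul_div_assoc]
    refine mul_le_mul_of_nonneg_left ?_ (exp_pos _).le
    have hM := Mf_pos hμ K (√K • z)
    have he := ew_pos K (√K • z) (p.1 + p.2)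
    generalize Mf K μ (√K • z) = M at *
    generalize ew K (√K • z) (p.1 + p.2) = e at *
    have h5 : e / M - (2 / b * e - 1 / b ^ 2 * (e * M)) = e * (b - M) ^ 2 / (M * b ^ 2) := by
      field_simp; ring
    have h6 : 0 ≤ e * (b - M) ^ 2 / (M * b ^ 2) := by positivity
    linarith
  rw [integral_const_mul, integral_sub (i0.const_mul _) (i1.const_mul _), integral_const_mul,
    integral_const_mul, integral_ew hK, e1] at h4
  refine le_trans ?_ h4
  rw [div_eq_mul_one_div]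
  refine mul_le_mul_of_nonneg_left ?_ (exp_pos _).le
  have h5 := mul_le_mul_of_nonneg_left h3 (by positivity : 0 ≤ 1 / b ^ 2)
  have h6 : 1 / b ^ 2 * b = 1 / b := by field_simp
  have h7 : 2 / b * 1 = 2 * (1 / b) := by ring
  linarith

/-- good pairs -/
def SS (K : ℝ) (μ : Measure (ι → ℝ)) (b r : ℝ) : Set ((ι → ℝ) × (ι → ℝ)) :=
  {p | HH K μ p.1 ≤ b ∧ HH K μ p.2 ≤ b ∧ -r ≤ p.1 ⬝ᵥ p.2}

lemma measurableSet_SS (hμ : Cp μ) (K b r : ℝ) : MeasurableSet (SS K μ b r) :=
  (measurableSet_le ((measurable_HH hμ K).comp measurable_fst) measurable_const).inter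
    ((measurableSet_le ((measurable_HH hμ K).comp measurable_snd) measurable_const).inter
      (measurableSet_le measurable_const (Continuous.measurable
        (f := fun p : (ι → ℝ) × (ι → ℝ) => p.1 ⬝ᵥ p.2) (by fun_prop))))

lemma tail (hμ : Cp μ) (hs : μ.map (fun x => -x) = μ) (hK : 0 ≤ K) (r : ℝ) (x : ι → ℝ) :
    exp (2 * K * r) * μ.real {u | x ⬝ᵥ u < -r} ≤ HH K μ x := by
  have := hμ.prob
  have hc : Continuous fun u : ι → ℝ => exp (2 * K * (x ⬝ᵥ u)) := by fun_prop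
  have h1 : HH K μ x = ∫ u, exp (2 * K * (x ⬝ᵥ (-u))) ∂μ := by
    rw [HH, ← integral_map (φ := fun u : ι → ℝ => -u) (f := fun u => exp (2 * K * (x ⬝ᵥ u)))
      (by fun_prop) hc.aestronglyMeasurable, hs]
  have h2 := mul_meas_ge_le_integral_of_nonneg (μ := μ) (f := fun u => exp (2 * K * (x ⬝ᵥ (-u))))
    (Eventually.of_forall fun _ => (exp_pos _).le) (int1 hμ (by fun_prop)) (exp (2 * K * r))
  rw [h1]
  refine le_trans (mul_le_mul_of_nonneg_left (measureReal_mono fun u hu => ?_) (exp_pos _).le) h2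
  have h3 : x ⬝ᵥ u < -r := hu
  refine exp_le_exp.2 (mul_le_mul_of_nonneg_left ?_ (by positivity))
  rw [dotProduct_neg]; linarith

section main
variable {f : (ι → ℝ) → ℝ} {c b r : ℝ}

/-- squared increments along good pairs -/
def gS (K : ℝ) (μ : Measure (ι → ℝ)) (b r : ℝ) (f : (ι → ℝ) → ℝ) : (ι → ℝ) × (ι → ℝ) → ℝ :=
  (SS K μ b r).indicator fun p => (f p.1 - f p.2) ^ 2

lemma gS_nonneg (p : (ι → ℝ) × (ι → ℝ)) : 0 ≤ gS K μ b r f p :=
  indicator_nonneg (fun _ _ => sq_nonneg _) p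

lemma measurable_gS (hμ : Cp μ) (hf : Measurable f) : Measurable (gS K μ b r f) :=
  Measurable.indicator (by fun_prop) (measurableSet_SS hμ K b r)

lemma gS_le (hc : ∀ x, |f x| ≤ c) (p : (ι → ℝ) × (ι → ℝ)) : ‖gS K μ b r f p‖ ≤ (2 * c) ^ 2 :=
  (norm_indicator_le_norm_self _ _).trans (abs_g_le hc p.1 p.2)

lemma int_gS (hμ : Cp μ) (hf : Measurable f) (hc : ∀ x, |f x| ≤ c) :
    Integrable (gS K μ b r f) (μ.prod μ) := by
  have := hμ.prob
  exact (integrable_const _).mono' (measurable_gS hμ hf).aestronglyMeasurable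
    (Eventually.of_forall (gS_le hc))

lemma int_gS_right (hμ : Cp μ) (hf : Measurable f) (hc : ∀ x, |f x| ≤ c) (x : ι → ℝ) :
    Integrable (fun u => gS K μ b r f (x, u)) μ := by
  have := hμ.prob
  exact (integrable_const _).mono'
    ((measurable_gS hμ hf).comp measurable_prodMk_left).aestronglyMeasurable
    (Eventually.of_forall fun u => gS_le hc (x, u))

lemma gS_dir (hμ : Cp μ) (hK : 0 ≤ K) (hb : 0 < b) (hf : Measurable f) (hc : ∀ x, |f x| ≤ c) :
    exp (-(K * r)) / b * ∫ p, gS K μ b r f p ∂μ.prod μ ≤ 2 * ∫ x, f x * (f x - Tk K μ f x) ∂μ := by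
  have := hμ.prob
  obtain ⟨i1, e1⟩ := two_dir hμ hK hf hc
  rw [← e1, ← integral_const_mul]
  refine integral_mono_ae ((int_gS hμ hf hc).const_mul _) i1 ?_
  filter_upwards [(int_kk hμ hK).prod_right_ae] with p hp
  by_cases h : p ∈ SS K μ b r
  · rw [gS, indicator_of_mem h, mul_comm]
    refine mul_le_mul_of_nonneg_left (le_trans ?_ (kk_lower hμ hK hb hp h.1 h.2.1)) (sq_nonneg _)
    refine div_le_div_of_nonneg_right (exp_le_exp.2 ?_) hb.le
    rw [← mul_neg]
    exact mul_le_mul_of_nonneg_left h.2.2 hK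
  · rw [gS, indicator_of_notMem h, mul_zero]
    exact mul_nonneg (sq_nonneg _) (integral_nonneg fun z => (kk_pos hμ K _ _).le)

lemma three_point (hμ : Cp μ) (hs : μ.map (fun x => -x) = μ) (hK : 0 ≤ K) (hb : 0 < b)
    (hr : exp (2 * K * r) = 8 * b) (hm : μ.real {x | b < HH K μ x} ≤ 1 / 4) (hf : Measurable f)
    (hc : ∀ x, |f x| ≤ c) {x x' : ι → ℝ} (hx : HH K μ x ≤ b) (hx' : HH K μ x' ≤ b) :
    (f x - f x') ^ 2 ≤
      4 * ∫ u, gS K μ b r f (x, u) ∂μ + 4 * ∫ u, gS K μ b r f (x', u) ∂μ := by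
  have := hμ.prob
  set T : Set (ι → ℝ) := {u | (x, u) ∈ SS K μ b r ∧ (x', u) ∈ SS K μ b r} with hT
  have hTm : MeasurableSet T :=
    (measurable_prodMk_left (measurableSet_SS hμ K b r)).inter
      (measurable_prodMk_left (measurableSet_SS hμ K b r))
  have t1 := (tail hμ hs hK r x).trans hx
  have t2 := (tail hμ hs hK r x').trans hx'
  rw [hr] at t1 t2
  have t3 : μ.real {u | x ⬝ᵥ u < -r} ≤ 1 / 8 := by
    refine le_of_mul_le_mul_left ?_ (by positivity : 0 < 8 * b); linarith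
  have t4 : μ.real {u | x' ⬝ᵥ u < -r} ≤ 1 / 8 := by
    refine le_of_mul_le_mul_left ?_ (by positivity : 0 < 8 * b); linarith
  have h1 : μ.real Tᶜ ≤ 1 / 2 := by
    have h2 : Tᶜ ⊆ {x | b < HH K μ x} ∪ ({u | x ⬝ᵥ u < -r} ∪ {u | x' ⬝ᵥ u < -r}) := by
      intro u hu
      by_contra h
      simp only [mem_union, mem_ofPred_eq, not_or, not_lt] at h
      exact hu ⟨⟨hx, h.1, h.2.1⟩, ⟨hx', h.1, h.2.2⟩⟩
    have h3 := (measureReal_mono h2).trans ((measureReal_union_le (μ := μ) _ _).trans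
      (add_le_add le_rfl (measureReal_union_le _ _)))
    linarith
  rw [probReal_compl_eq_one_sub hTm] at h1
  have i1 := int_gS_right (K := K) (b := b) (r := r) hμ hf hc x
  have i2 := int_gS_right (K := K) (b := b) (r := r) hμ hf hc x'
  have h2 : ∫ u, T.indicator (fun _ => (f x - f x') ^ 2) u ∂μ ≤
      ∫ u, (2 * gS K μ b r f (x, u) + 2 * gS K μ b r f (x', u)) ∂μ := by
    refine integral_mono ((integrable_const _).indicator hTm)
      ((i1.const_mul 2).add (i2.const_mul 2)) fun u => ?_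
    by_cases hu : u ∈ T
    · simp only [indicator_of_mem hu, gS, indicator_of_mem hu.1, indicator_of_mem hu.2]
      nlinarith [sq_nonneg (f x + f x' - 2 * f u)]
    · simp only [indicator_of_notMem hu]
      exact add_nonneg (mul_nonneg zero_le_two (gS_nonneg _)) (mul_nonneg zero_le_two (gS_nonneg _))
  rw [integral_indicator_const _ hTm, integral_add (i1.const_mul 2) (i2.const_mul 2),
    integral_const_mul, integral_const_mul, smul_eq_mul] at h2
  nlinarith [sq_nonneg (f x - f x')]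

lemma var_le (hμ : Cp μ) (hs : μ.map (fun x => -x) = μ) (hK : 0 ≤ K) (hb : 0 < b)
    (hr : exp (2 * K * r) = 8 * b) (hm : μ.real {x | b < HH K μ x} ≤ 1 / 4) (hf : Measurable f)
    (hc : ∀ x, |f x| ≤ c) :
    ∫ x, f x ^ 2 ∂μ - (∫ x, f x ∂μ) ^ 2 ≤ 4 * ∫ p, gS K μ b r f p ∂μ.prod μ +
      2 * ∫ x, f x ^ 2 * {x | b < HH K μ x}.indicator 1 x ∂μ +
      2 * (μ.real {x | b < HH K μ x} * ∫ x, f x ^ 2 ∂μ) := by
  have := hμ.prob
  have hG : MeasurableSet {x | b < HH K μ x} :=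
    measurableSet_lt measurable_const (measurable_HH hμ K)
  set χ : (ι → ℝ) → ℝ := {x | b < HH K μ x}.indicator 1 with hχ
  set Φ : (ι → ℝ) → ℝ := fun x => ∫ u, gS K μ b r f (x, u) ∂μ with hΦ
  have i0 : Integrable (fun _ : ι → ℝ => (1 : ℝ)) μ := integrable_const _
  have i1 : Integrable f μ :=
    (integrable_const c).mono' hf.aestronglyMeasurable (Eventually.of_forall hc)
  have i2 : Integrable (fun x => f x ^ 2) μ := (integrable_const (c ^ 2)).mono'
    (hf.pow_const 2).aestronglyMeasurable (Eventually.of_forall (abs_sq_le hc))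
  have iχ : Integrable χ μ := i0.indicator hG
  have iA : Integrable (fun x => f x ^ 2 * χ x) μ :=
    iχ.bdd_mul i2.aestronglyMeasurable (Eventually.of_forall (abs_sq_le hc))
  have iΦ : Integrable Φ μ := (int_gS hμ hf hc).integral_prod_left
  have iU : Integrable (fun x => 4 * Φ x + 2 * (f x ^ 2 * χ x)) μ :=
    (iΦ.const_mul 4).add (iA.const_mul 2)
  have hΦ0 : ∀ x, 0 ≤ Φ x := fun x => integral_nonneg fun _ => gS_nonneg _
  have j1 := (i2.mul_prod i0).fun_add (i0.mul_prod i2)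
  have j2 := (i1.mul_prod i1).const_mul 2
  have j3 := (iU.mul_prod i0).fun_add (i0.mul_prod iU)
  have j4 := (i2.mul_prod iχ).fun_add (iχ.mul_prod i2)
  have h1 := integral_mono (j1.sub' j2) (j3.fun_add (j4.const_mul 2)) fun p => ?_
  · rw [integral_sub j1 j2, integral_add j3 (j4.const_mul 2), integral_const_mul,
      integral_const_mul, integral_add (i2.mul_prod i0) (i0.mul_prod i2),
      integral_add (iU.mul_prod i0) (i0.mul_prod iU), integral_add (i2.mul_prod iχ) (iχ.mul_prod i2),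
      integral_prod_mul (fun x => f x ^ 2) fun _ => (1 : ℝ),
      integral_prod_mul (fun _ => (1 : ℝ)) fun x => f x ^ 2, integral_prod_mul f f,
      integral_prod_mul (fun x => 4 * Φ x + 2 * (f x ^ 2 * χ x)) fun _ => (1 : ℝ),
      integral_prod_mul (fun _ => (1 : ℝ)) fun x => 4 * Φ x + 2 * (f x ^ 2 * χ x),
      integral_prod_mul (fun x => f x ^ 2) χ, integral_prod_mul χ fun x => f x ^ 2,
      integral_add (iΦ.const_mul 4) (iA.const_mul 2), integral_const_mul, integral_const_mul,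
      integral_indicator_one hG] at h1
    rw [integral_prod _ (int_gS hμ hf hc)]
    simp only [integral_const, probReal_univ, smul_eq_mul, mul_one] at h1
    linarith
  · simp only [mul_one, one_mul]
    have p1 := hΦ0 p.1
    have p2 := hΦ0 p.2
    have p3 := sq_nonneg (f p.1)
    have p4 := sq_nonneg (f p.2)
    have p5 := sq_nonneg (f p.1 + f p.2)
    by_cases h1 : p.1 ∈ {x | b < HH K μ x} <;> by_cases h2 : p.2 ∈ {x | b < HH K μ x}
    · simp only [hχ, indicator_of_mem h1, indicator_of_mem h2, Pi.one_apply]; nlinarith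
    · simp only [hχ, indicator_of_mem h1, indicator_of_notMem h2, Pi.one_apply]; nlinarith
    · simp only [hχ, indicator_of_notMem h1, indicator_of_mem h2, Pi.one_apply]; nlinarith
    · have h3 := three_point hμ hs hK hb hr hm hf hc (not_lt.1 h1) (not_lt.1 h2)
      simp only [hχ, indicator_of_notMem h1, indicator_of_notMem h2]
      nlinarith

end main

end Wp6

open Wp6 in
theorem wpStmt : WpStmt := by
  intro K B η hK hη
  set b := 4 * |B| / η + 4 * |B| + 1 with hb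
  have hB := abs_nonneg B
  have hb1 : 0 ≤ 4 * |B| / η := by positivity
  have hb0 : 0 < b := by positivity
  set r := log (8 * b) / (2 * K) with hr
  have hr' : exp (2 * K * r) = 8 * b := by
    rw [hr, mul_div_cancel₀ _ (by positivity), exp_log (by positivity)]
  have hc0 : 0 < exp (-(K * r)) / b := by positivity
  refine ⟨8 / (exp (-(K * r)) / b), by positivity, fun ι _ μ hμ hs hX J _ f a hf ha => ?_⟩
  have := hμ.prob
  have hG : MeasurableSet {x | b < HH K μ x} :=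
    measurableSet_lt measurable_const (measurable_HH hμ K)
  have ha0 : 0 ≤ a := (Finset.sum_nonneg fun _ _ => sq_nonneg _).trans (ha 0)
  have hc : ∀ j x, |f j x| ≤ √a := fun j x => abs_le_sqrt ((Finset.single_le_sum
    (f := fun j => f j x ^ 2) (fun _ _ => sq_nonneg _) (Finset.mem_univ j)).trans (ha x))
  have hm0 : b * μ.real {x | b < HH K μ x} ≤ |B| := by
    have h1 := mul_meas_ge_le_integral_of_nonneg (μ := μ) (Eventually.of_forall (HH_nonneg K μ))
      (int_HH hμ K) b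
    refine le_trans (mul_le_mul_of_nonneg_left (measureReal_mono fun x hx => ?_) hb0.le)
      (h1.trans (hX.trans (le_abs_self B)))
    exact le_of_lt (show b < HH K μ x from hx)
  have hm1 : 0 ≤ μ.real {x | b < HH K μ x} := measureReal_nonneg
  set m := μ.real {x | b < HH K μ x} with hm
  have hm2 : m ≤ 1 / 4 := by
    refine le_of_mul_le_mul_left ?_ hb0; linarith
  have hm3 : 4 * m ≤ η := by
    refine le_of_mul_le_mul_left ?_ hb0
    have : η * (4 * |B| / η) = 4 * |B| := by field_simp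
    nlinarith
  have i2 : ∀ j, Integrable (fun x => f j x ^ 2) μ := fun j => (integrable_const (√a ^ 2)).mono'
    ((hf j).pow_const 2).aestronglyMeasurable (Eventually.of_forall (abs_sq_le (hc j)))
  have iχ : Integrable ({x | b < HH K μ x}.indicator (1 : (ι → ℝ) → ℝ)) μ :=
    (integrable_const (1 : ℝ)).indicator hG
  have iA : ∀ j, Integrable (fun x => f j x ^ 2 * {x | b < HH K μ x}.indicator 1 x) μ := fun j =>
    iχ.bdd_mul (i2 j).aestronglyMeasurable (Eventually.of_forall (abs_sq_le (hc j)))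
  have s1 : ∑ j, ∫ x, f j x ^ 2 ∂μ ≤ a := by
    rw [← integral_finsetSum _ fun j _ => i2 j]
    simpa using integral_mono (integrable_finsetSum _ fun j _ => i2 j) (integrable_const a) ha
  have s2 : ∑ j, ∫ x, f j x ^ 2 * {x | b < HH K μ x}.indicator 1 x ∂μ ≤ a * m := by
    rw [← integral_finsetSum _ fun j _ => iA j, hm, ← integral_indicator_one hG,
      ← integral_const_mul]
    refine integral_mono (integrable_finsetSum _ fun j _ => iA j) (iχ.const_mul a) fun x => ?_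
    simp only [← Finset.sum_mul]
    exact mul_le_mul_of_nonneg_right (ha x) (indicator_nonneg (fun _ _ => zero_le_one) x)
  have s3 : ∀ j, ∫ x, f j x ^ 2 ∂μ - (∫ x, f j x ∂μ) ^ 2 ≤
      8 / (exp (-(K * r)) / b) * ∫ x, f j x * (f j x - Tk K μ (f j) x) ∂μ +
      2 * ∫ x, f j x ^ 2 * {x | b < HH K μ x}.indicator 1 x ∂μ + 2 * m * ∫ x, f j x ^ 2 ∂μ := by
    intro j
    have h1 := var_le hμ hs hK.le hb0 hr' hm2 (hf j) (hc j)
    have h2 := gS_dir (r := r) hμ hK.le hb0 (hf j) (hc j)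
    rw [mul_comm, ← le_div_iff₀ hc0] at h2
    have h3 : 2 * (∫ x, f j x * (f j x - Tk K μ (f j) x) ∂μ) / (exp (-(K * r)) / b) * 4 =
        8 / (exp (-(K * r)) / b) * ∫ x, f j x * (f j x - Tk K μ (f j) x) ∂μ := by ring
    linarith
  refine (Finset.sum_le_sum fun j _ => s3 j).trans ?_
  rw [Finset.sum_add_distrib, Finset.sum_add_distrib, ← Finset.mul_sum, ← Finset.mul_sum,
    ← Finset.mul_sum]
  have h1 := mul_le_mul_of_nonneg_left s1 (by positivity : 0 ≤ 2 * m)
  have h2 := mul_le_mul_of_nonneg_right hm3 ha0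
  linarith

end Crest.Agent.T157.St

end
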