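import Crest.Agent.T157.StDef_87
import Crest.Agent.T157.PlC_37
import Crest.Agent.T157.EdTri_62

/-!
# Row 157, part C4 (helper43): lower bounds of the partition functions (`ZcStmt`, `ZsGlue`)
-/

set_option autoImplicit false

noncomputable section

namespace Crest.Agent.T157.St

open MeasureTheory ProbabilityTheory Matrix Filter Topology Real
open scoped ENNReal
open Crest.ProbabilityR.SpinGlassDynamics Crest.Agent.T157.E Crest.Agent.T157.Eig
open Crest.Agent.T157.Cond Crest.Agent.T157.Ed Crest.Agent.T157.Top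

namespace Z43

lemma continuous_Zc (n : ℕ) : Continuous (Zc n) := by
  unfold Zc Zw ising
  fun_prop

lemma whp_LR {a : ℝ} (ha : 0 < a) :
    Whp disorderLaw fun n g => -(a * n) ≤ log (Pl.LR false n 1 g) := by
  have h2n : Tendsto (fun n : ℕ => 2 * (n : ℝ)) atTop atTop :=
    tendsto_natCast_atTop_atTop.const_mul_atTop two_pos
  have t2 := (tendsto_pow_log_div_mul_add_atTop (a / 2) (-1) 2 (by positivity)).comp h2n
  have t0 := (tendsto_pow_log_div_mul_add_atTop (a / 2) (-1) 0 (by positivity)).comp h2n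
  have t := (t2.add t0).div_const 4
  simp only [add_zero, zero_div] at t
  refine whp_of_real_le t ?_
  filter_upwards [(tendsto_natCast_atTop_atTop.const_mul_atTop ha).eventually_gt_atTop 1]
    with n hn
  have i1 : Integrable (Pl.LR false n 1) (disorderLaw n) := Pl.integrable_LR false 1
  have i2 : Integrable (fun g => log (Pl.LR false n 1 g)) (disorderLaw n) := by
    simp only [Pl.log_LR]
    exact (Pl.integrable_log_Z 1).sub (integrable_const _)
  have h := mul_meas_ge_le_integral_of_nonneg (μ := disorderLaw n)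
    (f := fun g => Pl.LR false n 1 g - 1 - log (Pl.LR false n 1 g))
    (ae_of_all _ fun g => sub_nonneg.2 (log_le_sub_one_of_pos (Pl.LR_pos false 1 g)))
    ((i1.sub (integrable_const _)).sub i2) (a * n - 1)
  have e1 : ∫ g, Pl.LR false n 1 g ∂disorderLaw n = 1 := Pl.integral_LR false 1
  have e2 : -∫ g, log (Pl.LR false n 1 g) ∂disorderLaw n = Pl.DD false n 1 := rfl
  have i3 : Integrable (fun g => Pl.LR false n 1 g - 1) (disorderLaw n) :=
    i1.sub (integrable_const _)
  rw [integral_sub i3 i2, integral_sub i1 (integrable_const _), e1] at h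
  simp only [integral_const, probReal_univ, smul_eq_mul, one_mul, sub_self, zero_sub, e2] at h
  have h3 := h.trans (Pl.DD_false_le_crit n zero_le_one le_rfl)
  have h4 : (disorderLaw n).real {g | ¬ -(a * n) ≤ log (Pl.LR false n 1 g)} ≤
      (disorderLaw n).real
        {g | a * n - 1 ≤ Pl.LR false n 1 g - 1 - log (Pl.LR false n 1 g)} := by
    refine measureReal_mono fun g hg => ?_
    have := Pl.LR_pos false (n := n) 1 g
    simp only [Set.mem_ofPred_eq, not_le] at hg ⊢
    linarith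
  refine h4.trans ?_
  simp only [Function.comp_apply, pow_zero]
  rw [show a / 2 * (2 * (n : ℝ)) + -1 = a * n - 1 by ring, ← add_div, div_right_comm,
    le_div_iff₀ (by linarith)]
  linarith

lemma whp_diag {a : ℝ} (ha : 0 < a) :
    Whp (fun n => gv (Fin n)) fun n d => -(a * n) ≤ (∑ i, √2 * d i / √n) / 2 := by
  have t : Tendsto (fun n : ℕ => exp (1 / 4) * exp (-(a * n))) atTop (𝓝 0) := by
    simpa using (tendsto_exp_neg_atTop_nhds_zero.comp
      (tendsto_natCast_atTop_atTop.const_mul_atTop ha)).const_mul (exp (1 / 4))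
  refine whp_of_real_le t ?_
  filter_upwards [eventually_gt_atTop 0] with n hn
  have hn' : (0 : ℝ) < n := Nat.cast_pos.2 hn
  set v : Fin n → ℝ := fun _ => -(√2 / √n / 2) with hv
  have h := mul_meas_ge_le_integral_of_nonneg (μ := gv (Fin n)) (f := fun d => exp (d ⬝ᵥ v))
    (ae_of_all _ fun _ => (exp_pos _).le) (Pl.integrable_exp_dot false v) (exp (a * n))
  have e1 : ∫ d, exp (d ⬝ᵥ v) ∂gv (Fin n) = exp (1 / 4) := by
    refine (Pl.integral_exp_dot false v).trans ?_
    rw [Pl.MM_false]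
    congr 1
    simp only [hv, dotProduct, Finset.sum_const, Finset.card_univ, Fintype.card_fin, nsmul_eq_mul,
      ← sq, neg_sq, div_pow, sq_sqrt hn'.le, sq_sqrt (zero_le_two (α := ℝ))]
    field_simp
    norm_num
  rw [e1] at h
  have h4 : (gv (Fin n)).real {d | ¬ -(a * n) ≤ (∑ i, √2 * d i / √n) / 2} ≤
      (gv (Fin n)).real {d | exp (a * n) ≤ exp (d ⬝ᵥ v)} := by
    refine measureReal_mono fun d hd => ?_
    have e : d ⬝ᵥ v = -((∑ i, √2 * d i / √n) / 2) := by
      rw [Finset.sum_div, ← Finset.sum_neg_distrib]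
      exact Finset.sum_congr rfl fun i _ => by rw [hv]; ring
    simp only [Set.mem_ofPred_eq, not_le, exp_le_exp, e] at hd ⊢
    linarith
  refine h4.trans ?_
  rw [Real.exp_neg, ← div_eq_mul_inv, le_div_iff₀ (exp_pos _), mul_comm]
  exact h

lemma Zc_Wmat {n : ℕ} (hn : n ≠ 0) (g : Pair n → ℝ) (d : Fin n → ℝ) :
    Zc n (Wmat n g d) =
      exp (log (Pl.LR false n 1 g) + (∑ i, √2 * d i / √n) / 2 + (n - 1) / 4) := by
  rw [exp_add, exp_add, exp_log (Pl.LR_pos false 1 g), Pl.LR, Pl.EZ_false hn, Zc, Wmat,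
    Pl.ising_add_diagonal, gibbsWeight_eq_ising, one_smul]
  simp only [Zw, ← Finset.sum_mul, one_pow, one_mul]
  field_simp

lemma hat_dot {n : ℕ} (hn : 1 ≤ n) (σ : Cube n) : hat n σ ⬝ᵥ hat n σ = sx n ^ 2 := by
  have := sx_pos hn
  rw [hat, smul_dotProduct, dotProduct_smul, sv_dot_self, ← sx_pow_six n, smul_eq_mul, smul_eq_mul]
  field_simp

lemma Hh_hat {n : ℕ} (hn : 1 ≤ n) (W : Mat n) (σ : Cube n) :
    exp (Hh n W (hat n σ)) = ising W 0 σ := by
  have := sx_pos hn
  rw [ising, Hh, hat, mulVec_smul, smul_dotProduct, dotProduct_smul, tau_eq, zero_dotProduct,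
    add_zero, smul_eq_mul, smul_eq_mul]
  congr 1
  field_simp

lemma Hh_conj {n : ℕ} (W O : Mat n) (hO : Oᵀ * O = 1) (x : Fin n → ℝ) :
    Hh n (O * W * Oᵀ) (O *ᵥ x) = Hh n W x := by
  rw [Hh, Hh, mulVec_mulVec, Matrix.mul_assoc, hO, Matrix.mul_one, ← mulVec_mulVec,
    dotProduct_mulVec, vecMul_mulVec, hO, vecMul_one]

/-- `E [e^{H(x)} / Zs] = 1` for every point of the sphere -/
lemma lint_ratio (hS : SphStmt) (hL : LnkStmt) {n : ℕ} (hn : 1 ≤ n) (x : Fin n → ℝ)
    (hx : x ⬝ᵥ x = sx n ^ 2) :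
    ∫⁻ W, ENNReal.ofReal (exp (Hh n W x) / Zs n W) ∂GOE n = 1 := by
  have : Nonempty (Fin n) := ⟨⟨0, hn⟩⟩
  obtain ⟨⟨hP, hae, -, -⟩, -⟩ := And.intro ((hS (Fin n)).1 (sx n)) trivial
  obtain ⟨-, -, -, -, hinv, -, -, -, hc, -, hpos, -, -⟩ := hL n hn
  have hm : Measurable (Zs n) := hc.measurable
  have hF : Measurable fun q : Mat n × (Fin n → ℝ) =>
      ENNReal.ofReal (exp (Hh n q.1 q.2) / Zs n q.1) := by
    have : Continuous fun q : Mat n × (Fin n → ℝ) => exp (Hh n q.1 q.2) := by
      unfold Hh; fun_prop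
    exact (this.measurable.div (hm.comp measurable_fst)).ennreal_ofReal
  have h1 : ∀ y : Fin n → ℝ, y ⬝ᵥ y = sx n ^ 2 →
      ∫⁻ W, ENNReal.ofReal (exp (Hh n W y) / Zs n W) ∂GOE n =
        ∫⁻ W, ENNReal.ofReal (exp (Hh n W x) / Zs n W) ∂GOE n := by
    intro y hy
    obtain ⟨O, hO, hOx⟩ := Tri62.exists_orth y x (hy.trans hx.symm)
    have hO' : Oᵀ * O = 1 := mul_eq_one_comm.1 hO
    have hG : GOE n = (GOE n).map fun W => O * W * Oᵀ := (goe_conj (1 / √n) O hO).symm
    conv_lhs => rw [hG]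
    erw [lintegral_map (hF.comp (measurable_id.prodMk measurable_const)) (by fun_prop)]
    refine lintegral_congr fun W => ?_
    simp only [Function.comp_apply, id]
    rw [← hOx, Hh_conj W O hO', (hinv W O hO').2]
  have h2 : ∫⁻ y, ∫⁻ W, ENNReal.ofReal (exp (Hh n W y) / Zs n W) ∂GOE n ∂sphR (Fin n) (sx n) =
      ∫⁻ W, ENNReal.ofReal (exp (Hh n W x) / Zs n W) ∂GOE n := by
    rw [lintegral_congr_ae (hae.mono fun y hy => h1 y hy), lintegral_const, measure_univ, mul_one]
  rw [← h2, ← lintegral_lintegral_swap hF.aemeasurable]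
  refine (lintegral_congr fun W => ?_).trans (lintegral_one.trans measure_univ)
  have hi : Integrable (fun y => exp (Hh n W y)) (sphR (Fin n) (sx n)) :=
    Integrable.of_integral_ne_zero (hpos W).1.ne'
  rw [← ofReal_integral_eq_lintegral_ofReal (hi.div_const _)
    (ae_of_all _ fun y => div_nonneg (exp_pos _).le (hpos W).1.le), integral_div]
  exact (congrArg _ (div_self (hpos W).1.ne')).trans ENNReal.ofReal_one

/-- `E [Zc / Zs] = 1` -/
lemma lint_Zc_Zs (hS : SphStmt) (hL : LnkStmt) {n : ℕ} (hn : 1 ≤ n) :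
    ∫⁻ W, ENNReal.ofReal (Zc n W / Zs n W) ∂GOE n = 1 := by
  obtain ⟨-, -, -, -, -, -, -, -, hc, -, hpos, -, -⟩ := hL n hn
  have e : ∀ W, ENNReal.ofReal (Zc n W / Zs n W) = ENNReal.ofReal (1 / 2 ^ n) *
      ∑ σ : Cube n, ENNReal.ofReal (exp (Hh n W (hat n σ)) / Zs n W) := fun W => by
    rw [← ENNReal.ofReal_sum_of_nonneg fun σ _ => div_nonneg (exp_pos _).le (hpos W).1.le,
      ← ENNReal.ofReal_mul (by positivity), ← Finset.sum_div, Zc, Zw]
    simp only [Hh_hat hn]
    congr 1
    ring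
  have hm : ∀ σ : Cube n,
      Measurable fun W : Mat n => ENNReal.ofReal (exp (Hh n W (hat n σ)) / Zs n W) := fun σ => by
    have : Continuous fun W : Mat n => exp (Hh n W (hat n σ)) := by unfold Hh; fun_prop
    exact (this.measurable.div hc.measurable).ennreal_ofReal
  simp only [e]
  rw [lintegral_const_mul _ (Finset.measurable_sum _ fun σ _ => hm σ),
    lintegral_finsetSum _ fun σ _ => hm σ]
  simp only [lint_ratio hS hL hn _ (hat_dot hn _), Finset.sum_const, Finset.card_univ,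
    nsmul_eq_mul, mul_one]
  rw [← ENNReal.ofReal_natCast, Pl.card_cube, ← ENNReal.ofReal_mul (by positivity)]
  simp

end Z43

open Z43

theorem zcStmt : ZcStmt := by
  intro ε hε
  have h3 : 0 < ε / 3 := by positivity
  have h1 := (Whp.comp (ν := fun n => (disorderLaw n).prod (gv (Fin n))) (T := fun n p => p.1)
    (fun n => measurePreserving_fst) (whp_LR h3)).and
    (Whp.comp (ν := fun n => (disorderLaw n).prod (gv (Fin n))) (T := fun n p => p.2)
      (fun n => measurePreserving_snd) (whp_diag h3))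
  have h2 := h1.mono (Q := fun n p => exp (n * (1 / 4 - ε)) ≤ Zc n (Wmat n p.1 p.2)) (by
    filter_upwards [(tendsto_natCast_atTop_atTop.const_mul_atTop h3).eventually_gt_atTop 1,
      eventually_gt_atTop 0] with n hn hn0 p hp
    rw [Zc_Wmat hn0.ne', exp_le_exp]
    linarith [hp.1, hp.2])
  refine Tendsto.congr (fun n => ?_) h2
  have hm : MeasurableSet {W : Mat n | ¬ exp (n * (1 / 4 - ε)) ≤ Zc n W} :=
    (measurableSet_le measurable_const (continuous_Zc n).measurable).compl
  rw [← (mp_Wmat (n := n)).measure_preimage hm.nullMeasurableSet]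
  rfl

theorem zsGlue : ZsGlue := by
  intro hS hL hZ ε hε
  have h2 : 0 < ε / 2 := by positivity
  have h1 : Whp GOE fun n W => Zc n W / Zs n W < exp (ε / 2 * n) := by
    have t : Tendsto (fun n : ℕ => exp (-(ε / 2 * n))) atTop (𝓝 0) :=
      tendsto_exp_neg_atTop_nhds_zero.comp (tendsto_natCast_atTop_atTop.const_mul_atTop h2)
    refine whp_of_real_le t ?_
    filter_upwards [eventually_ge_atTop 1] with n hn
    obtain ⟨-, -, -, -, -, -, -, -, hc, hc', -, -, -⟩ := hL n hn
    have h := meas_ge_le_lintegral_div (μ := GOE n)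
      (f := fun W => ENNReal.ofReal (Zc n W / Zs n W))
      (hc'.measurable.div hc.measurable).ennreal_ofReal.aemeasurable
      (ε := ENNReal.ofReal (exp (ε / 2 * n))) (by simpa using exp_pos _) ENNReal.ofReal_ne_top
    rw [lint_Zc_Zs hS hL hn, one_div, ← ENNReal.ofReal_inv_of_pos (exp_pos _), ← Real.exp_neg] at h
    refine ENNReal.toReal_le_of_le_ofReal (exp_pos _).le (le_trans (measure_mono fun W hW => ?_) h)
    exact ENNReal.ofReal_le_ofReal (not_lt.1 hW)
  refine ((hZ (ε / 2) h2).and h1).mono ?_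
  filter_upwards [eventually_ge_atTop 1] with n hn W hW
  obtain ⟨-, -, -, -, -, -, -, -, -, -, hpos, -, -⟩ := hL n hn
  have h3 := hW.2
  rw [div_lt_iff₀ (hpos W).1] at h3
  have h4 := hW.1.trans h3.le
  rw [show (n : ℝ) * (1 / 4 - ε / 2) = ε / 2 * n + n * (1 / 4 - ε) by ring, exp_add] at h4
  exact le_of_mul_le_mul_left h4 (exp_pos _)

end Crest.Agent.T157.St

end
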