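import Crest.Agent.T157.StB_87
import Crest.Agent.T157.EdAll_88
import Crest.Agent.T157.PathQ_90
import Crest.Agent.T157.StApx_22
import Crest.Agent.T157.StConv_10
import Crest.Agent.T157.StDen_90
import Crest.Agent.T157.StGood_84
import Crest.Agent.T157.StIso_42
import Crest.Agent.T157.StLam_43
import Crest.Agent.T157.StMgf_32
import Crest.Agent.T157.StShell_38
import Crest.Agent.T157.StUnb_49
import Crest.Agent.T157.StWp_6
import Crest.Agent.T157.StZ_43
import Crest.Agent.T157.StCl_28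
import Crest.Agent.T157.StFin_85
import Crest.Agent.T157.StOvl_62
import Crest.Agent.T157.StStein_79

/-!
# Row 157, part C4: the statics at `β = 1`, unconditional (assembly, helper87)
-/

set_option autoImplicit false

noncomputable section

namespace Crest.Agent.T157.St.All

open MeasureTheory Filter Topology Matrix Real
open Crest.ProbabilityR.SpinGlassDynamics Crest.Agent.T157.E Crest.Agent.T157.Ed

theorem goodStmt : GoodStmt := (goodGlue steinStmt Ed.All.edgeTStmt).1
theorem renStmt : RenStmt := (goodGlue steinStmt Ed.All.edgeTStmt).2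
theorem lnkStmt : LnkStmt := lnkGlue sphStmt
theorem mgfStmt : MgfStmt := mgfGlue sphStmt shellStmt twoStmt denStmt
theorem coordStmt : CoordStmt := coordGlue sphStmt shellStmt twoStmt denStmt
theorem finStmt : FinStmt :=
  finGlue mmdStmt isomStmt projStmt sphStmt shellStmt fourStmt denStmt mgfStmt coordStmt lnkStmt
theorem lamStmt : LamStmt := lamGlue sphStmt
theorem zsStmt : ZsStmt := zsGlue sphStmt lnkStmt zcStmt
theorem sphTightStmt : SphTightStmt := sphTightGlue isomStmt lnkStmt goodStmt mgfStmt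
theorem closeStmt : CloseStmt :=
  (closeGlue mmdStmt sphStmt lnkStmt rotStmt lamStmt zsStmt sphTightStmt).1
theorem ldStmt : LdStmt := (closeGlue mmdStmt sphStmt lnkStmt rotStmt lamStmt zsStmt sphTightStmt).2
theorem ld3Stmt : Ld3Stmt := ld3Glue lnkStmt ldStmt
theorem ovlStmt : OvlStmt := ovlGlue steinStmt Ed.All.edgeTStmt
theorem unbStmt : UnbStmt := unbGlue isomStmt sphStmt lnkStmt goodStmt coordStmt ovlStmt
theorem nonzeroStmt : Soft.NonzeroStmt :=
  (nondGlue mmdStmt isomStmt lnkStmt goodStmt coordStmt closeStmt jenStmt unbStmt).1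
theorem unboundedStmt : Soft.UnboundedStmt :=
  (nondGlue mmdStmt isomStmt lnkStmt goodStmt coordStmt closeStmt jenStmt unbStmt).2
theorem approxStmt : ApproxStmt :=
  approxGlue mmdStmt phiContStmt isomStmt lnkStmt goodStmt renStmt mgfStmt finStmt closeStmt
theorem convStmt : ConvStmt := convGlue lnkStmt Ed.All.limStmt approxStmt

lemma hat_dot_hat (n : ℕ) (x y : Cube n) :
    hat n x ⬝ᵥ hat n y = (Soft.N23 n)⁻¹ * (sv x ⬝ᵥ sv y) := by
  rw [hat, hat, smul_dotProduct, dotProduct_smul, smul_eq_mul, smul_eq_mul, ← mul_assoc, ← mul_inv,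
    ← pow_add]
  exact congrArg (fun t => t⁻¹ * (sv x ⬝ᵥ sv y)) (tau_eq n).symm

/-- dictionary with the soft top -/
lemma Xth_eq (n : ℕ) (g : Pair n → ℝ) (θ : ℝ) : Soft.Xth n g θ = Xk θ (muG n g) (muG n g) := by
  simp only [Xk, Lnk10.integral_muG, mean, Soft.Xth, hat_dot_hat, Finset.mul_sum, mul_assoc,
    gibbsProb_eq]

/-- the stretched exponential bound for the couplings -/
theorem ldG (ε : ℝ) (hε : 0 < ε) : ∃ B : ℝ, ∀ᶠ n in atTop,
    disorderLaw n {g | ¬ Mgf (muG n g) B} ≤ ENNReal.ofReal ε := by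
  obtain ⟨B, hB⟩ := ldStmt ε hε
  refine ⟨B, hB.mono fun n hn => le_trans (Conv10.disorder_le fun g hg d => ?_) hn⟩
  simpa only [Set.mem_ofPred_eq, Lnk10.muW_Wmat] using hg

/-- the Gaussian half of `Soft.LD2Stmt` -/
theorem ld2_gauss (θ ε : ℝ) (hε : 0 < ε) : ∃ M : ℝ, ∀ᶠ n in atTop,
    couplingLaw false n {g | M < Soft.Xth n g θ} ≤ ENNReal.ofReal ε := by
  obtain ⟨B, hB⟩ := ldG ε hε
  refine ⟨B * exp (B * |θ| ^ (3 / 2 : ℝ)), hB.mono fun n hn => le_trans (measure_mono ?_) hn⟩
  intro g hg h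
  rw [Set.mem_ofPred_eq, Xth_eq] at hg
  exact not_le.2 hg (h θ)

/-- `S0232` without static hypotheses -/
theorem r32_of (h0 : Soft.AFddStmt) (h1 : Soft.ATightStmt) (h2 : Soft.DecayStmt) : Top.R32 :=
  Soft.r32_of_fdd h0 h1 nonzeroStmt h2 (Soft.spread_of_unbounded h1 unboundedStmt)

theorem r32_of_q1 (h0 : Soft.AFddStmt) (h1 : Soft.Q1EStmt) (h2 : Soft.LD2Stmt)
    (h3 : Soft.MixStmt) : Top.R32 :=
  r32_of h0 (Soft.atight_of_q1 h1 h2) (Soft.decay_of_q1 h1 h2 h3)

end Crest.Agent.T157.St.All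

end
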