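import Crest.Agent.T157.Q1_63
import Crest.Agent.T157.StAll_87
import Crest.Agent.T157.CritDef_97
import Crest.Agent.T157.TrF_64
import Crest.Agent.T157.TopL_59

/-!
# Row 157, part C (helper63): the Gaussian inputs of the descent from infinity
-/

set_option autoImplicit false

noncomputable section

namespace Crest.Agent.T157.Q1

open MeasureTheory Filter Topology Set Matrix Real
open Crest.ProbabilityR.SpinGlassDynamics
open Crest.Agent.T157 Crest.Agent.T157.E Crest.Agent.T157.SL Crest.Agent.T157.Soft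

variable {n : ℕ} {w : Cube n → ℝ}

theorem ldB_gauss : LdB false := fun ε hε => by
  obtain ⟨B, hB⟩ := St.All.ldG ε hε
  refine ⟨B, hB.mono fun n hn => le_trans (measure_mono ?_) hn⟩
  rintro g ⟨θ, h0, h⟩ h'
  rw [St.All.Xth_eq] at h
  exact not_le.2 h (by simpa only [abs_of_nonneg h0] using h' θ)

theorem ev_exp_pow {κ c : ℝ} (A : ℝ) (hκ : κ < 1) (hc : 0 < c) :
    ∀ᶠ n : ℕ in atTop, A * exp (-(c * n)) ≤ exp (-(4 * (n : ℝ) ^ κ)) := by
  have l : Tendsto (fun n : ℕ => (n : ℝ) ^ (-(1 - κ))) atTop (𝓝 0) :=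
    (tendsto_rpow_neg_atTop (by linarith)).comp tendsto_natCast_atTop_atTop
  filter_upwards [Glue.ev_small |A| hc, l.eventually (ge_mem_nhds (show 0 < c / 8 by positivity)),
    eventually_ge_atTop 1] with n h1 h2 hn
  have n1 : (1 : ℝ) ≤ n := by exact_mod_cast hn
  have e : (n : ℝ) ^ κ = (n : ℝ) ^ (-(1 - κ)) * n := by
    rw [← rpow_add_one (by linarith)]; congr 1; ring
  refine le_trans ?_ (h1.trans (exp_le_exp.2 (by rw [e]; nlinarith)))
  exact mul_le_mul_of_nonneg_right ((le_abs_self A).trans (le_mul_of_one_le_right (abs_nonneg A) n1))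
    (exp_pos _).le

theorem tilt_tilt (w : Cube n → ℝ) (y v : Fin n → ℝ) : tilt (tilt w y) v = tilt w (y + v) := by
  funext x; rw [tilt, tilt, tilt, mul_assoc, ← exp_add, add_dotProduct]

theorem term_of (hw : ∀ x, 0 < w x) {T K δ K' ρ d : ℝ} (h : Glue.Tail w T K δ) (hK : 0 ≤ K)
    (hδ : 0 ≤ δ) (hd : 3 * δ ≤ d) (hρ : 0 < ρ)
    (hc : (law sv w T).real {y | ¬ Tap.CovOK w K' (ρ * √n) y} ≤ d) :
    Term w T (max (3 * K) (max (max K' (4 / ρ)) 0)) d := by
  have hW := Wt.of_pos hw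
  refine ⟨fun g M hM => (Tr.tail_var hw h hK hδ g).trans (add_le_add (mul_le_mul_of_nonneg_right
    (le_max_left _ _) (Ent.dir_nonneg hw g)) (mul_le_mul hd ?_ (hW.var_nonneg g) (by linarith))),
    _, Glue.measurableSet_covOK hw _ _, hc, fun y hy u hu => ?_⟩
  · exact (hW.var_le_mean g 0).trans (hW.mean_le fun x => by simpa using hM x)
  have := TopL.subG_of_covOK (w := tilt w y) (K := K') (fun x => mul_pos (hw x) (exp_pos _)) hρ
    (fun v hv z => by rw [zero_add, tilt_tilt]; exact not_not.1 hy v hv z) u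
  rw [mean_post_sv, meanV_post_sv]
  refine this.trans (exp_le_exp.2 (le_trans ?_ (le_max_right _ _)))
  nlinarith [le_max_left (max K' (4 / ρ)) 0, le_max_right (max K' (4 / ρ)) 0, dot_self_nonneg u]

/-- the fixed time, Gaussian couplings -/
theorem termStmt_gauss (h1 : Glue.TailStmt) (h2 : Tap.CovStmt) {κ T : ℝ} (hκ : κ < 1) (hT : 0 < T) :
    TermStmt false κ T := fun ε hε => by
  obtain ⟨K, K0, c, c0, h1⟩ := h1 1 ⟨one_pos, le_rfl⟩ T hT.le (.inr hT)
  obtain ⟨K', ρ, ρ0, k, k0, h2⟩ := h2 1 ⟨one_pos, le_rfl⟩ T hT.le (.inr hT) T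
  have h3 := GoeT.transfer 1 (fun n w => (law sv w T).real {y | ¬ Tap.CovOK w K' (ρ * √n) y} ≤
    exp (-k * n)) (fun n w hw => by simp only [GoeT.law_prob (GoeT.sum_pos hw).ne',
      GoeT.covOK_prob (GoeT.sum_pos hw).ne']) (h2.imp fun n W h => h T ⟨le_rfl, le_rfl⟩)
  refine ⟨max (3 * K) (max (max K' (4 / ρ)) 0), Top.whp_iff.1 ((h1.and h3).mono ?_) ε hε⟩
  filter_upwards [ev_exp_pow 3 hκ c0, ev_exp_pow 1 hκ k0] with n e1 e2 g hg
  exact term_of (gibbsWeight_pos 1 g) hg.1 K0 (exp_pos _).le e1 ρ0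
    (hg.2.trans (by rwa [one_mul, ← neg_mul] at e2))

theorem sp_iff {H lam : ℝ} : SP w H lam ↔ Crit.SLev w H lam := by
  have : ∀ g : Cube n → ℝ, (Ent.ind fun x => 0 < g x) = fun x => if 0 < g x then 1 else 0 :=
    fun g => by funext x; unfold Ent.ind; congr
  simp only [SP, Crit.SLev, this]

theorem dir_abs_le (hw : ∀ x, 0 < w x) (g : Cube n → ℝ) : dir w (fun x => |g x|) ≤ dir w g :=
  Finset.sum_le_sum fun i _ => (Ent.dirS_le_sq hw _ i (g := fun x => |siteM w g i x|) fun x b => by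
    rw [Chain22.siteM_update]).trans ((Wt.of_pos hw).mean_mono fun x => by
      rw [← sq_abs, ← sq_abs (g x - _)]
      exact pow_le_pow_left₀ (abs_nonneg _) (abs_abs_sub_abs_le _ _) 2)

/-- extensive levels from `(L')` -/
theorem sp_of_lp (hw : ∀ x, 0 < w x) {κ ε H : ℝ} (h : Top.Lp w κ ε) (hH : ε * n < H) :
    SP w H (κ * n) := fun g h0 h1 h2 => by
  have := SP.of_norm (H := H) (lam := κ * n) hw (fun g g1 _ g3 => le_of_not_gt fun hc => ?_)
    g h0 h1 h2
  · exact this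
  have := h (fun x => |g x|) (fun _ => abs_nonneg _) (by simpa only [sq_abs] using g1)
    ((dir_abs_le hw g).trans hc.le)
  simp only [sq_abs] at this
  linarith

/-- levels above the total entropy are empty -/
theorem sp_of_min (hw : ∀ x, 0 < w x) {H L : ℝ} (h : ∀ x, log (1 / prob w x) ≤ L) (hH : L < H)
    (lam : ℝ) : SP w H lam := SP.of_norm hw fun g g1 _ g3 => by
  have := Ent.ent_le_of_min (Wt.of_pos hw).isP (f := fun x => g x ^ 2) (fun _ => sq_nonneg _)
    (exp_pos (-L)) fun x _ => by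
      have := h x
      rw [one_div, log_inv, neg_le, le_log_iff_exp_le (GoeT.prob_pos hw x)] at this
      exact this
  rw [one_div, log_inv, log_exp, neg_neg] at this
  change ent w _ ≤ L * mean w _ at this
  rw [g1] at this
  linarith

/-- the high levels, Gaussian couplings -/
theorem levCrit_gauss (h1 : Crit.LevCrit) (h2 : Top.LpStmt) {a κ : ℝ} (ha : a < 2 / 3) (hκ : 0 < κ) :
    LevCrit false a κ := by
  obtain ⟨k, k0, h2⟩ := h2 1 zero_le_one le_rfl 1 one_pos
  have a0 : 0 < 2 / 3 - a := sub_pos.2 ha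
  have l : Tendsto (fun n : ℕ => (n : ℝ) ^ (-(2 / 3 - a))) atTop (𝓝 0) :=
    (tendsto_rpow_neg_atTop a0).comp tendsto_natCast_atTop_atTop
  refine (((h1 κ hκ _ (mul_pos hκ a0)).and h2).and (Chain22.whp_opn false)).mono ?_
  filter_upwards [eventually_ge_atTop 1, l.eventually (ge_mem_nhds
    (show 0 < k / 19 ^ 2 by positivity))] with n hn e g ⟨⟨g1, g2⟩, g3⟩ j hj
  have n1 : (1 : ℝ) ≤ n := by exact_mod_cast hn
  have n0 : (0 : ℝ) < n := by linarith
  have hw := gibbsWeight_pos (n := n) 1 g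
  set H : ℝ := 2 ^ j
  have H0 : 0 < H := by positivity
  have e1 : H ^ (1 + a) / N23 n = H ^ (-(2 / 3 - a)) * (H / n) ^ (2 / 3 : ℝ) * H := by
    rw [div_rpow H0.le n0.le, N23, show 1 + a = -(2 / 3 - a) + 2 / 3 + 1 by ring, rpow_add H0,
      rpow_add H0, rpow_one]
    ring
  rw [e1]
  rcases le_or_gt H n with h | h
  · refine (sp_iff.2 (g1 H hj h)).mono (.of_pos hw) ?_
    rw [Crit.sH, ← mul_neg, rpow_mul n0.le]
    gcongr ?_ * _ * _
    exact rpow_le_rpow_of_nonpos (by positivity) hj (by linarith)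
  rcases le_or_gt H (19 * n) with h' | h'
  · refine (sp_of_lp hw g2 (by linarith)).mono (.of_pos hw) ?_
    have b1 : H ^ (-(2 / 3 - a)) ≤ k / 19 ^ 2 :=
      (rpow_le_rpow_of_nonpos n0 h.le (by linarith)).trans e
    have b2 : (H / n) ^ (2 / 3 : ℝ) ≤ 19 :=
      (rpow_le_self_of_one_le ((one_le_div n0).2 h.le) (by norm_num)).trans ((div_le_iff₀ n0).2 h')
    calc _ ≤ k / 19 ^ 2 * 19 * (19 * n) := by gcongr
      _ = _ := by ring
  · exact sp_of_min hw (Chain22.log_inv_prob_gibbs_le g3) (by rw [abs_one]; linarith) _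

/-- **descent from infinity for Gaussian couplings** from the two window statements -/
theorem downStmt_gauss {a κ T : ℝ} (ha : 0 < a) (ha' : a < 2 / 3) (hκ : 0 < κ) (hκ' : κ ≤ 1 / 30)
    (hT : 0 < T) (h1 : AStar false a κ T) (h2 : Crit.LevCrit) (h3 : Top.LpStmt)
    (h4 : Glue.TailStmt) (h5 : Tap.CovStmt) : DownStmt false a :=
  downStmt_of ha (spStmt_of ha ha'.le hκ hκ' hT h1 (termStmt_gauss h4 h5 (by linarith) hT)
    ldB_gauss (levCrit_gauss h2 h3 ha' hκ))

end Crest.Agent.T157.Q1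

end
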