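import Crest.Agent.T157.CnTopB_63
import Crest.Agent.T157.Q1G_63

/-!
# Row 157, part C (helper63): the extensive levels for coins
-/

set_option autoImplicit false

noncomputable section

namespace Crest.Agent.T157.Cn

open Finset Matrix Real MeasureTheory Filter Topology
open Crest.ProbabilityR.SpinGlassDynamics
open Crest.Agent.T157.E Crest.Agent.T157.SL Crest.Agent.T157.Chain22 Crest.Agent.T157.Un
open Crest.Agent.T157.Q1 Crest.Agent.T157.Soft

variable {n : ℕ} {w : Cube n → ℝ}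

theorem DAT.mono {M H M' H' : ℝ} (h : DAT w M H) (hw : ∀ x, 0 < w x) (hM : M ≤ M') (hH : H ≤ H') :
    DAT w M' H' := fun f hf => (h f hf).trans (add_le_add
  (mul_le_mul_of_nonneg_right hM (sum_nonneg fun i _ => Ent.entS_nonneg hw hf i))
  (mul_le_mul_of_nonneg_right hH ((Wt.of_pos hw).mean_nonneg hf)))

theorem log_SS_le (hn : 2 ≤ n) (hw : ∀ x, 0 < w x) {m M q : ℕ} {L : ℝ} (hL : 2 * n ≤ q * L)
    (h : ∀ x y, KC w m M x y ≤ (n : ℝ) ^ m * exp L * prob w y) : log (SS w m M q) ≤ 2 * (q * L) := by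
  have n2 : (2 : ℝ) ≤ n := by exact_mod_cast hn
  have a : ∀ x y, (((n : ℝ) ^ m)⁻¹ * (KC w m M x y * (prob w y)⁻¹)) ^ q ≤ exp (q * L) :=
    fun x y => by
    have := prob_pos' hw y
    have := KC_nn hw m M x y
    rw [exp_nat_mul]
    refine pow_le_pow_left₀ (by positivity) ?_ q
    rw [← div_eq_inv_mul, ← div_eq_mul_inv, div_div, div_le_iff₀ (by positivity)]
    linarith [h x y]
  have b : (2 : ℝ) ^ n * 2 ^ n * 2 ≤ exp (2 * n) := by
    have : (2 : ℝ) ≤ exp (7 / 10) := by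
      rw [← log_le_iff_le_exp two_pos]; linarith [log_two_lt_d9]
    calc _ ≤ exp (7 / 10) ^ n * exp (7 / 10) ^ n * exp (7 / 10) := by gcongr
      _ ≤ _ := by
        rw [← exp_nat_mul, ← exp_add, ← exp_add]; exact exp_le_exp.2 (by linarith)
  rw [log_le_iff_le_exp (SS_pos hw m M q), two_mul, exp_add, SS]
  have c := sum_le_card_nsmul univ _ _ fun x _ => sum_le_card_nsmul univ _ _ fun y _ => a x y
  simp only [card_univ, Fintype.card_fun, Fintype.card_bool, Fintype.card_fin, nsmul_eq_mul,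
    Nat.cast_pow, Nat.cast_ofNat] at c
  have e1 : 1 ≤ exp (q * L) := one_le_exp (by linarith)
  have e2 : (1 : ℝ) ≤ 2 ^ n * 2 ^ n := one_le_mul_of_one_le_of_one_le (one_le_pow₀ one_le_two)
    (one_le_pow₀ one_le_two)
  nlinarith [mul_le_mul_of_nonneg_right (b.trans (exp_le_exp.2 hL)) (exp_pos (q * L)).le,
    mul_le_mul e2 e1 zero_le_one (by positivity)]

theorem KC_le_of_SS (hn : 0 < n) (hw : ∀ x, 0 < w x) {m M q : ℕ} {L : ℝ} (hq : q ≠ 0)
    (h : log (SS w m M q) ≤ q * L) (x y : Cube n) :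
    KC w m M x y ≤ (n : ℝ) ^ m * exp L * prob w y := by
  have p := fun y => prob_pos' hw y
  have k := KC_nn hw m M
  have t : ∀ x y, 0 ≤ (((n : ℝ) ^ m)⁻¹ * (KC w m M x y * (prob w y)⁻¹)) ^ q := fun x y => by
    have := p y; have := k x y; positivity
  rw [log_le_iff_le_exp (SS_pos hw m M q), exp_nat_mul] at h
  have a := le_of_pow_le_pow_left₀ hq (exp_pos L).le (((single_le_sum (fun y _ => t x y)
    (mem_univ y)).trans ((single_le_sum (fun x _ => sum_nonneg fun y _ => t x y) (mem_univ x)).trans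
    (le_add_of_nonneg_left zero_le_one))).trans h)
  have := p y
  rw [← div_eq_inv_mul, ← div_eq_mul_inv, div_div, div_le_iff₀ (by positivity)] at a
  linarith

theorem KC_le_of_ct (n0 : 0 < n) (g : Pair n → ℝ) {k M : ℕ} {H : ℝ} (k0 : 0 < k)
    (k1 : (k : ℝ) ≤ 2 * n) (hH : 6 * (n : ℝ) ^ 4 ≤ exp H)
    (D : ∀ x y, ctKernel n 1 g k x y ≤ exp H * gibbsProb n 1 g y) (x y : Cube n) :
    KC (gibbsWeight n 1 g) (n * k) M x y ≤
      (n : ℝ) ^ (n * k) * exp (2 * H) * prob (gibbsWeight n 1 g) y := by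
  have n1 : (1 : ℝ) ≤ n := by exact_mod_cast n0
  have n4 : (n : ℝ) ≤ (n : ℝ) ^ 4 := le_self_pow₀ n1 (by norm_num)
  have e1 : exp 1 * √((n * k : ℕ) : ℝ) ≤ exp H := by
    have s : √((n * k : ℕ) : ℝ) ≤ 2 * n := sqrt_le_iff.2 ⟨by positivity, by push_cast; nlinarith⟩
    nlinarith [exp_one_lt_three, sqrt_nonneg ((n * k : ℕ) : ℝ)]
  have e2 := D x y
  rw [E.ctKernel_eq, hbCt_eq n0 (gibbsWeight_pos 1 g), ← Nat.cast_mul] at e2
  rw [mul_assoc, two_mul, exp_add, mul_assoc]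
  exact (KC_le n0 (gibbsWeight_pos 1 g) _ M x y).trans (mul_le_mul_of_nonneg_left
    ((pow_le_heat _ (Nat.mul_pos n0 k0) x y).trans (mul_le_mul e1 e2
    (RC.H_nn _ (Nat.cast_nonneg _) x y) (exp_pos _).le)) (by positivity))

theorem ev_neg {a ε : ℝ} (ha : 0 < a) (hε : 0 < ε) (C : ℝ) :
    ∀ᶠ n : ℕ in atTop, C * (n : ℝ) ^ (-a) ≤ ε :=
  (((tendsto_rpow_neg_atTop ha).comp tendsto_natCast_atTop_atTop).const_mul C).eventually
    (ge_mem_nhds (by simpa using hε))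

theorem topGlue : TopGlue := fun h1 h2 γ' hγ => by
  obtain ⟨γ, γ0, γ1, γ2⟩ : ∃ γ > 0, γ ≤ γ' ∧ γ ≤ 1 / 100 :=
    ⟨min γ' (1 / 100), by positivity, min_le_left _ _, min_le_right _ _⟩
  refine ⟨γ / 16, by positivity, Top.whp_iff.2 fun ε hε => ?_⟩
  set a := 2 / 3 - γ / 8 with ha
  have a0 : 0 < a := by linarith
  filter_upwards [Top.whp_iff.1 (levCrit_gauss h1 h2 (a := a) (by linarith) one_half_pos) (ε / 8)
    (by positivity), eventually_ge_atTop 2, ev_pow (half_lt_self γ0) 7, ev_exp (half_pos γ0) 1,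
    ev_exp one_half_pos 6, ev_pow (show 1 / 2 < 1 - γ / 8 by linarith) 8,
    ev_pow (show (1 - γ / 8) * -a + 2 / 3 < γ / 2 by nlinarith) (4 * 4 ^ a / (1 - 2 ^ (-a)) * 1),
    ev_pow (show 1 - γ / 8 < 1 - γ / 16 by linarith) 8, ev_neg (show 0 < 7 / 8 * γ by linarith)
      (show (0 : ℝ) < 1 / 4 by norm_num) 36,
    ev_neg (show 0 < 2 * γ by linarith) (show (0 : ℝ) < 1 / 8 by norm_num) 1,
    ev_neg one_half_pos (show (0 : ℝ) < min (1 / 8) (ε / 8) by positivity) 1,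
    ev_neg (show 0 < 1 / 2 - 8 * γ by linarith) (show 0 < ε / 16 by positivity)
      (64 * (1 + 10 * m8 ^ 2) * 8),
    ev_neg (show 0 < 2 - 16 * γ by linarith) (show 0 < ε / 16 by positivity) (1024 * m8)]
    with n hG hn v1 v2 v3 v4 v5 v6 v7 v8 v9 v10 v11
  have n0 : 0 < n := by omega
  have n1 : (1 : ℝ) ≤ n := by exact_mod_cast n0
  have nR : (0 : ℝ) < n := by exact_mod_cast n0
  have o : ∀ {s : ℝ}, 0 ≤ s → (1 : ℝ) ≤ (n : ℝ) ^ s := fun h => one_le_rpow n1 h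
  have o1 := o (half_pos γ0).le
  have o2 := o (show 0 ≤ γ / 8 by positivity)
  have o3 := o (show 0 ≤ 1 - γ / 8 by linarith)
  have o4 := o one_half_pos.le
  rw [one_mul] at v2 v8 v9
  set k := ⌈(n : ℝ) ^ (γ / 2)⌉₊
  set M := ⌊(n : ℝ) ^ γ⌋₊
  set q := ⌈(n : ℝ) ^ (γ / 8)⌉₊
  set H := (n : ℝ) ^ (1 - γ / 8) with hH
  have k1 : (n : ℝ) ^ (γ / 2) ≤ k := Nat.le_ceil _
  have k2 : (k : ℝ) < (n : ℝ) ^ (γ / 2) + 1 := Nat.ceil_lt_add_one (by positivity)
  have q1 : (n : ℝ) ^ (γ / 8) ≤ q := Nat.le_ceil _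
  have q2 : (q : ℝ) < (n : ℝ) ^ (γ / 8) + 1 := Nat.ceil_lt_add_one (by positivity)
  have M1 : (M : ℝ) ≤ (n : ℝ) ^ γ := Nat.floor_le (by positivity)
  have M2 : (n : ℝ) ^ γ < M + 1 := Nat.lt_floor_add_one _
  have qL : 2 * n ≤ q * (2 * H) := by
    have : (n : ℝ) ^ (γ / 8) * H = n := by rw [hH, ← rpow_add nR, add_sub_cancel, rpow_one]
    nlinarith
  have n4 : (n : ℝ) ≤ (n : ℝ) ^ 4 := le_self_pow₀ n1 (by norm_num)
  have hc : n * exp k ≤ 2 ^ M := by
    have : exp (1 / 2) ≤ 2 := by rw [← le_log_iff_exp_le two_pos]; linarith [log_two_gt_d9]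
    refine (mul_le_mul_of_nonneg_right (n4.trans v2) (exp_pos _).le).trans
      (le_trans ?_ (pow_le_pow_left₀ (exp_pos _).le this M))
    rw [← exp_add, ← exp_nat_mul]
    exact exp_le_exp.2 (by linarith)
  have T := SS_transfer n0 (m := n * k) (M := M) (q := q) (B := q * (3 * (2 * H)))
    (δ := q * (2 * H)) (ε := ε / 8) (rpow_pos_of_pos nR (-(2 * γ))) v8 (le_trans ?_ v7)
    (rpow_pos_of_pos nR (-(1 / 2))) (v9.trans (min_le_left _ _)) (by positivity)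
    (le_trans (measure_mono fun g hg => ?_) hG)
  · refine (measure_mono fun g hg => ?_).trans (T.trans (ENNReal.ofReal_le_ofReal ?_))
    · have hw := gibbsWeight_pos (n := n) 1 g
      refine not_le.1 fun hs => hg ((dat_of n0 hw (card_cut n0 hc) (KC_le_of_SS n0 hw ?_ hs)).mono hw
        (M1.trans (rpow_le_rpow_of_exponent_le n1 γ1)) (by linarith))
      exact Nat.cast_ne_zero.1 (show (0 : ℝ) < q by linarith).ne'
    have e1 : exp (-((n : ℝ) ^ (-(1 / 2) : ℝ) * (q * (2 * H)))) ≤ (n : ℝ) ^ (-(1 / 2) : ℝ) := by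
      have : (n : ℝ) ^ (-(1 / 2) : ℝ) * n = (n : ℝ) ^ (1 / 2 : ℝ) := by
        rw [← rpow_add_one nR.ne']; norm_num
      rw [exp_neg, rpow_neg nR.le (1 / 2)]
      refine inv_anti₀ (by positivity) (le_trans ?_ (le_trans (le_add_of_nonneg_right zero_le_one)
        (add_one_le_exp _)))
      rw [← rpow_neg nR.le]
      nlinarith [mul_le_mul_of_nonneg_left qL (rpow_pos_of_pos nR (-(1 / 2))).le]
    have e2 : 64 * (1 + 10 * m8 ^ 2) / ((n : ℝ) ^ (-(2 * γ))) ^ 4 * (8 * (n : ℝ) ^ (-(1 / 2) : ℝ)) =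
        64 * (1 + 10 * m8 ^ 2) * 8 * (n : ℝ) ^ (-(1 / 2 - 8 * γ)) := by
      rw [← rpow_natCast ((n : ℝ) ^ _), ← rpow_mul nR.le, show -(1 / 2 - 8 * γ) = -(1 / 2) - -(2 * γ) * (4 : ℕ) by
        push_cast; ring, rpow_sub nR]
      ring
    have e3 : 1024 * m8 / (n ^ 2 * ((n : ℝ) ^ (-(2 * γ))) ^ 8) =
        1024 * m8 * (n : ℝ) ^ (-(2 - 16 * γ)) := by
      rw [← rpow_natCast, ← rpow_natCast, ← rpow_mul nR.le, ← rpow_add nR, div_eq_mul_inv,
        ← rpow_neg nR.le]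
      congr 2; push_cast; ring
    rw [e2, e3]
    linarith [min_le_right (1 / 8) (ε / 8)]
  · have o5 := o γ0.le
    calc _ ≤ 2 * (n : ℝ) ^ (γ / 8) * ((12 * (n : ℝ) ^ γ + 6 * (n : ℝ) ^ γ) * (n : ℝ) ^ (-(2 * γ))) := by
          gcongr <;> linarith
      _ = _ := by
          rw [show -(7 / 8 * γ) = γ / 8 + (γ + -(2 * γ)) by ring, rpow_add nR, rpow_add nR]; ring
  have hw := gibbsWeight_pos (n := n) 1 g
  intro hs
  refine not_le.2 (Set.mem_ofPred_eq ▸ hg :) ?_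
  obtain ⟨j, j1, j2⟩ := exists_nat_pow_near o4 one_lt_two
  have D := down_of_sp n0 g a0 one_pos (j₀ := j + 1) (fun i hi => by
    simpa only [one_mul] using hs i (j2.le.trans (pow_le_pow_right₀ one_le_two hi))) H (k / N23 n)
    (by rw [pow_add, pow_add]; linarith) (by
      rw [le_div_iff₀ (N23_pos n0), hH, ← rpow_mul nR.le, mul_assoc, N23, ← rpow_add nR]
      exact v5.trans k1)
  rw [div_mul_cancel₀ _ (N23_pos n0).ne'] at D
  exact (log_SS_le hn hw qL (KC_le_of_ct n0 g (Nat.cast_pos.1 (show (0 : ℝ) < k by linarith)) (by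
    linarith [(rpow_le_rpow_of_exponent_le n1 (show γ / 2 ≤ 1 by linarith)).trans_eq (rpow_one _)])
    (v3.trans (exp_le_exp.2 (by linarith))) D)).trans_eq (by ring)

end Crest.Agent.T157.Cn

end
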