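import Crest.Agent.T157.CrAll_63
import Crest.Agent.T157.CnTop_63
import Crest.Agent.T157.CnBoch_64
import Crest.Agent.T157.CnFro_22
import Crest.Agent.T157.CnFrz_49
import Crest.Agent.T157.CnLd_10
import Crest.Agent.T157.CnFld_90
import Crest.Agent.T157.CnLev_56

/-!
# Row 157, part C (helper63): the descent from infinity for both laws, assembly
-/

set_option autoImplicit false

noncomputable section

namespace Crest.Agent.T157.Cn

open Crest.Agent.T157.Q1

theorem ldB_coin : LdB true := ldGlue ldB_gauss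

theorem ldB (b : Bool) : LdB b := by
  cases b
  exacts [ldB_gauss, ldB_coin]

/-- the terminal time for coins -/
theorem froC : ∃ T > (0 : ℝ), FroC T := froGlue bochStmt frzC opnC

theorem topC (h : W2R) : TopC := topGlue (Q1.levCrit h) LpAll.topLp

variable {a κ : ℝ}

theorem spC (ha : 0 < a) (ha' : a < 2 / 3) (hκ : 0 < κ) (hκ' : κ ≤ 1 / 30)
    (h1 : ∀ T > (0 : ℝ), AStar true a κ T) (h2 : ∀ T > (0 : ℝ), WinC T) (h3 : W2R) :
    SPStmt true a := by
  obtain ⟨T, hT, fro⟩ := froC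
  exact spStmt_of ha ha'.le hκ hκ' hT (h1 T hT) (termGlue κ T (by linarith) hT fro opnC) ldB_coin
    (levGlue a κ T ha' hκ hT (h2 T hT) fro opnC fldC (topC h3) ldB_coin)

/-- **descent from infinity**, coins -/
theorem downC (ha : 0 < a) (ha' : a < 2 / 3) (hκ : 0 < κ) (hκ' : κ ≤ 1 / 30)
    (h1 : ∀ T > (0 : ℝ), AStar true a κ T) (h2 : ∀ T > (0 : ℝ), WinC T) (h3 : W2R) :
    DownStmt true a := downStmt_of ha (spC ha ha' hκ hκ' h1 h2 h3)

/-- **descent from infinity**, both laws -/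
theorem down (ha : 0 < a) (ha' : a < 2 / 3) (hκ : 0 < κ) (hκ' : κ ≤ 1 / 30)
    (h1 : ∀ b, ∀ T > (0 : ℝ), AStar b a κ T) (h2 : ∀ T > (0 : ℝ), WinC T) (h3 : W2R) (b : Bool) :
    DownStmt b a := by
  cases b
  exacts [Q1.downStmt ha ha' hκ hκ' one_pos (h1 false 1 one_pos) h3,
    downC ha ha' hκ hκ' (h1 true) h2 h3]

end Crest.Agent.T157.Cn

end
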