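import Crest.Agent.T157.CnDef_63
import Crest.Agent.T157.ChainPoi_22
import Crest.Agent.T157.EntE_34

/-!
# Row 157, part C (helper63): words of single-site updates, tensorisation from a kernel bound
-/

set_option autoImplicit false

noncomputable section

namespace Crest.Agent.T157.Cn

open Finset Matrix Real
open Crest.Agent.T157.E Crest.Agent.T157.SL Crest.Agent.T157.Chain22

variable {n : ℕ} {w : Cube n → ℝ}

theorem sum_word {α β : Type*} [Fintype α] [AddCommMonoid β] (m : ℕ) (F : List α → β) :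
    ∑ ω : Fin (m + 1) → α, F (List.ofFn ω) = ∑ l, ∑ ω : Fin m → α, F (l :: List.ofFn ω) := by
  rw [← Fintype.sum_prod_type', ← (Fin.consEquiv fun _ => α).sum_comp]
  exact sum_congr rfl fun p _ => by simp [Fin.consEquiv, List.ofFn_succ]

theorem sum_two_pow (i : Fin n) (m : ℕ) :
    ∑ ω : Fin m → Fin n, (2 : ℝ) ^ (List.ofFn ω).count i = (n + 1) ^ m := by
  induction m with
  | zero => simp
  | succ m ih =>
    rw [sum_word m fun ω => (2 : ℝ) ^ ω.count i, pow_succ']
    simp only [List.count_cons, pow_add, ← sum_mul, ih, ← mul_sum]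
    rw [mul_comm, sum_congr rfl fun l _ => show (2 : ℝ) ^ (if l == i then 1 else 0) =
      1 + if l = i then 1 else 0 by by_cases h : l = i <;> simp [h]; norm_num]
    simp [sum_add_distrib]

/-- product of the single-site kernels along a word -/
def KW (w : Cube n → ℝ) (ω : List (Fin n)) : Matrix (Cube n) (Cube n) ℝ := (ω.map (sk w)).prod

theorem KW_cons (l : Fin n) (ω : List (Fin n)) : KW w (l :: ω) = sk w l * KW w ω := by simp [KW]

theorem KW_nn (hw : ∀ x, 0 < w x) (ω : List (Fin n)) : ∀ x y, 0 ≤ KW w ω x y := by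
  induction ω with
  | nil => intro x y; simp only [KW, List.map_nil, List.prod_nil, one_apply]; split_ifs <;> norm_num
  | cons l ω ih =>
    intro x y; rw [KW_cons, mul_apply]
    exact sum_nonneg fun z _ => mul_nonneg ((siteRC hw l).nn x z) (ih z y)

theorem sum_KW (hn : 0 < n) (hw : ∀ x, 0 < w x) (m : ℕ) :
    ∑ ω : Fin m → Fin n, KW w (List.ofFn ω) = (n : ℝ) ^ m • (hbRC hn hw).P ^ m := by
  have n0 : (n : ℝ) ≠ 0 := by exact_mod_cast hn.ne'
  have e : ∑ l, sk w l = (n : ℝ) • (hbRC hn hw).P := by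
    ext x y
    rw [Matrix.smul_apply, hbRC_P, hb_eq, smul_eq_mul, ← mul_assoc, mul_one_div_cancel n0, one_mul,
      Matrix.sum_apply]
  induction m with
  | zero => simp [KW]
  | succ m ih =>
    rw [sum_word m (KW w)]
    simp only [KW_cons, ← Finset.mul_sum, ih, ← Finset.sum_mul, e]
    rw [smul_mul_smul_comm, ← pow_succ', ← pow_succ']

/-- words in which no site occurs more than `M` times -/
def cut (n m M : ℕ) : Finset (Fin m → Fin n) := univ.filter fun ω => ∀ i, (List.ofFn ω).count i ≤ M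

/-- the cut kernel -/
def KC (w : Cube n → ℝ) (m M : ℕ) : Matrix (Cube n) (Cube n) ℝ :=
  ∑ ω ∈ cut n m M, KW w (List.ofFn ω)

theorem KC_le (hn : 0 < n) (hw : ∀ x, 0 < w x) (m M : ℕ) (x y : Cube n) :
    KC w m M x y ≤ (n : ℝ) ^ m * ((hbRC hn hw).P ^ m) x y := by
  have := congrFun (congrFun (sum_KW hn hw m) x) y
  rw [Matrix.smul_apply, smul_eq_mul] at this
  rw [← this, KC, Matrix.sum_apply, Matrix.sum_apply]
  exact sum_le_sum_of_subset_of_nonneg (subset_univ _) fun ω _ _ => KW_nn hw _ x y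

theorem card_cut (hn : 0 < n) {k M : ℕ} (h : n * exp k ≤ 2 ^ M) :
    (n : ℝ) ^ (n * k) ≤ 2 * (cut n (n * k) M).card := by
  have n0 : (0 : ℝ) < n := by exact_mod_cast hn
  have a1 : ∀ ω : Fin (n * k) → Fin n, (1 : ℝ) ≤ (if ∀ i, (List.ofFn ω).count i ≤ M then 1 else 0) +
      (∑ i, (2 : ℝ) ^ (List.ofFn ω).count i) / 2 ^ (M + 1) := fun ω => by
    split_ifs with h
    · exact le_add_of_nonneg_right (by positivity)
    · obtain ⟨i, hi⟩ := not_forall.1 h
      rw [zero_add, one_le_div (by positivity)]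
      exact (pow_le_pow_right₀ one_le_two (not_le.1 hi)).trans
        (single_le_sum (f := fun i => (2 : ℝ) ^ (List.ofFn ω).count i) (fun _ _ => by positivity)
          (mem_univ i))
  have a2 := sum_le_sum fun ω (_ : ω ∈ univ) => a1 ω
  rw [sum_add_distrib, ← sum_div, sum_comm, sum_boole] at a2
  simp only [sum_two_pow, sum_const, card_univ, Fintype.card_fun, Fintype.card_fin, nsmul_eq_mul,
    mul_one, Nat.cast_pow] at a2
  have a3 : ((n : ℝ) + 1) ^ (n * k) ≤ (n : ℝ) ^ (n * k) * exp k := by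
    have : (n : ℝ) + 1 ≤ n * exp (1 / n) := by
      have := mul_le_mul_of_nonneg_left (add_one_le_exp (1 / (n : ℝ))) n0.le
      rwa [mul_add, mul_one_div_cancel n0.ne', mul_one, add_comm] at this
    refine (pow_le_pow_left₀ (by positivity) this _).trans_eq ?_
    rw [mul_pow, ← exp_nat_mul]
    congr 2; push_cast; field_simp
  have a4 : n * ((n : ℝ) + 1) ^ (n * k) / 2 ^ (M + 1) ≤ (n : ℝ) ^ (n * k) / 2 := by
    rw [div_le_div_iff₀ (by positivity) two_pos, pow_succ]
    nlinarith [mul_le_mul_of_nonneg_left a3 n0.le,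
      mul_le_mul_of_nonneg_left h (show 0 ≤ (n : ℝ) ^ (n * k) by positivity)]
  rw [cut]
  linarith

theorem site_log (hw : ∀ x, 0 < w x) {f h : Cube n → ℝ} (hf : ∀ x, 0 ≤ f x) (hh : ∀ x, 0 < h x)
    (l : Fin n) : E.mean w (fun x => f x * log (h x)) ≤
      Ent.entS w f l + E.mean w fun x => f x * log (siteM w h l x) := by
  rw [emean_eq, emean_eq, ← mean_siteM hw l, Ent.entS,
    ← Ent.mean_mean_cnd hw l (fun x y => f y * log (siteM w h l x)) fun x b y => by
      rw [siteM_update], ← Chain22.mean_add]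
  refine (isP_prob' hw).mean_mono fun x => ?_
  have := (Ent.isP_cnd hw l x).mean_mul_le_ent (fun b => hf (Function.update x l b))
    fun b => log (h (Function.update x l b))
  simp only [exp_log (hh _)] at this
  rw [Ent.mean_cnd w h, ← Ent.mean_mul_const] at this
  rw [← Ent.mean_cnd]
  exact this

theorem word_log (hw : ∀ x, 0 < w x) {f h : Cube n → ℝ} (hf : ∀ x, 0 ≤ f x) (hh : ∀ x, 0 < h x)
    (ω : List (Fin n)) : (∀ x, 0 < (KW w ω *ᵥ h) x) ∧ E.mean w (fun x => f x * log (h x)) ≤
      ∑ i, ω.count i * Ent.entS w f i + E.mean w fun x => f x * log ((KW w ω *ᵥ h) x) := by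
  induction ω with
  | nil => simpa [KW] using hh
  | cons l ω ih =>
    rw [KW_cons, ← mulVec_mulVec, sk_mulVec]
    refine ⟨fun x => div_pos (add_pos (mul_pos (hw _) (ih.1 _)) (mul_pos (hw _) (ih.1 _)))
      (den_pos hw l x), ?_⟩
    have := site_log hw hf ih.1 l
    simp only [List.count_cons, Nat.cast_add, add_mul, sum_add_distrib, beq_iff_eq, Nat.cast_ite,
      Nat.cast_one, Nat.cast_zero, ite_mul, one_mul, zero_mul, sum_ite_eq, mem_univ, if_true]
    linarith [ih.2]

/-- **tensorisation from a bound of the cut kernel** -/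
theorem dat_of (hn : 0 < n) (hw : ∀ x, 0 < w x) {m M : ℕ} {H : ℝ}
    (hc : (n : ℝ) ^ m ≤ 2 * (cut n m M).card)
    (hK : ∀ x y, KC w m M x y ≤ (n : ℝ) ^ m * exp H * prob w y) : DAT w M (H + 2) := fun f hf => by
  have hW := Wt.of_pos hw
  have n0 : (0 : ℝ) < n := by exact_mod_cast hn
  have S0 := fun i => Ent.entS_nonneg hw hf i
  rcases (hW.mean_nonneg hf).eq_or_lt with h0 | h0
  · rw [← h0, mul_zero, add_zero, eent_eq, Ent.ent_eq_zero_of_mean hW.isP hf h0.symm]
    exact mul_nonneg M.cast_nonneg (sum_nonneg fun i _ => S0 i)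
  set c := E.mean w f with hc'
  have hh : ∀ x, 0 < f x + c := fun x => add_pos_of_nonneg_of_pos (hf x) h0
  set b := 4 * exp H * c with hb
  have b0 : 0 < b := by positivity
  have C0 : (0 : ℝ) < (cut n m M).card := by linarith [pow_pos n0 m]
  have a1 : ∀ ω ∈ cut n m M, E.mean w (fun x => f x * log (f x + c)) ≤ M * ∑ i, Ent.entS w f i +
      E.mean w fun x => f x * ((KW w (List.ofFn ω) *ᵥ fun x => f x + c) x / b - 1 + log b) :=
    fun ω hω => by
    have := word_log hw hf hh (List.ofFn ω)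
    refine this.2.trans (add_le_add ?_ (hW.mean_mono fun x => mul_le_mul_of_nonneg_left ?_ (hf x)))
    · rw [mul_sum]
      exact sum_le_sum fun i _ => mul_le_mul_of_nonneg_right
        (Nat.cast_le.2 ((mem_filter.1 hω).2 i)) (S0 i)
    · linarith [log_le_sub_one_of_pos (div_pos (this.1 x) b0), log_div (this.1 x).ne' b0.ne']
  have a2 := sum_le_sum a1
  have a3 : ∑ ω ∈ cut n m M, E.mean w (fun x => f x *
      ((KW w (List.ofFn ω) *ᵥ fun x => f x + c) x / b - 1 + log b)) ≤
      (cut n m M).card * (c * log b) := by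
    have e0 : (cut n m M).card * (c * log b) = ∑ x, (cut n m M).card * (prob w x * f x * log b) := by
      rw [← mul_sum, ← sum_mul]; rfl
    simp only [E.mean]
    rw [sum_comm, e0]
    refine sum_le_sum fun x _ => ?_
    have : ∑ ω ∈ cut n m M, (KW w (List.ofFn ω) *ᵥ fun x => f x + c) x ≤ (cut n m M).card * b := by
      have e : ∑ y, prob w y * (f y + c) = 2 * c := by
        simp only [mul_add, sum_add_distrib, ← sum_mul, hW.isP.sum1]
        change c + _ = _; ring
      calc _ = ∑ y, KC w m M x y * (f y + c) := by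
            simp only [KC, mulVec, dotProduct, Matrix.sum_apply, sum_mul]; exact sum_comm
        _ ≤ ∑ y, (n : ℝ) ^ m * exp H * prob w y * (f y + c) :=
            sum_le_sum fun y _ => mul_le_mul_of_nonneg_right (hK x y) (hh y).le
        _ = (n : ℝ) ^ m * exp H * (2 * c) := by simp only [mul_assoc, ← mul_sum, e]
        _ ≤ _ := by rw [hb]; nlinarith [mul_pos (exp_pos H) h0]
    rw [← mul_sum, ← mul_sum, sum_add_distrib, sum_sub_distrib, ← sum_div]
    simp only [sum_const, nsmul_eq_mul, mul_one]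
    have := (div_le_iff₀ b0).2 this
    nlinarith [mul_nonneg (hW.isP.nn x) (hf x)]
  rw [sum_add_distrib, sum_const, sum_const, nsmul_eq_mul, nsmul_eq_mul] at a2
  have a4 : E.mean w (fun x => f x * log (f x + c)) ≤ M * ∑ i, Ent.entS w f i + c * log b :=
    le_of_mul_le_mul_left (by linarith) C0
  have a5 : E.mean w (fun x => f x * log (f x)) ≤ E.mean w fun x => f x * log (f x + c) :=
    hW.mean_mono fun x => (hf x).eq_or_lt.elim (fun h => by simp [← h]) fun h =>
      mul_le_mul_of_nonneg_left (log_le_log h (by linarith)) h.le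
  have a6 : log 4 ≤ 2 := by
    rw [show (4 : ℝ) = 2 ^ 2 by norm_num, log_pow]
    push_cast
    linarith [log_two_lt_d9]
  rw [hb, log_mul (by positivity) h0.ne', log_mul (by norm_num) (exp_pos H).ne', log_exp] at a4
  change E.mean w (fun x => f x * log (f x)) - c * log c ≤ _
  nlinarith

/-- discrete time from continuous time -/
theorem pow_le_heat {Ω : Type*} [Fintype Ω] [DecidableEq Ω] (c : RC Ω) {m : ℕ} (hm : 1 ≤ m)
    (x y : Ω) : (c.P ^ m) x y ≤ exp 1 * √m * c.H m x y := by
  have h1 := le_hasSum (c.hasSum_H m x y) m fun k _ =>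
    mul_nonneg (poi_nonneg m.cast_nonneg k) (c.pow_nn k x y)
  have h2 : 1 ≤ exp 1 * √m * poi m m := by
    rw [poi, ← mul_div_assoc, one_le_div (by positivity), exp_neg, mul_left_comm, ← div_eq_inv_mul,
      le_div_iff₀ (exp_pos _)]
    exact factorial_le_stirling hm
  nlinarith [c.pow_nn m x y, mul_le_mul_of_nonneg_left h1 (show 0 ≤ exp 1 * √m by positivity)]

end Crest.Agent.T157.Cn

end
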