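import Crest.Agent.T157.CondC_53

/-!
# Row 157, part E (helper53): Gaussian conditioning, part D — a whole run of adaptive queries

`Alg 𝒳 ι`: causal query rule `v k x r` (data `x`, earlier responses `r j`, `j < k`).
`a.out W x k = W *ᵥ a.v k x (a.out W x)` are the true responses, `a.hist W x K` their truncation;
`a.fA`, `a.fR` the revealed part and the unrevealed projector as functions of the responses;
`a.sout`, `a.shist` the responses simulated from independent Gaussian vectors.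

* `IsCond.run`      : after `K` queries the matrix is conditionally GOE;
* `IsCond.run_law`  : law of the data and responses = law of the simulation;
* `IsCond.run_joint`: joint law with the matrix;
* `Alg.fR_eq`, `Alg.fA_eq`, `Alg.sout_eq` : explicit Gram–Schmidt / Onsager form; rank bounds.
-/

set_option autoImplicit false
set_option linter.unusedSectionVars false

noncomputable section

namespace Crest.Agent.T157.Cond

open MeasureTheory ProbabilityTheory Matrix Finset
open Crest.Agent.T157.E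
open scoped ENNReal

/-- resampling one coordinate of a finite product -/
theorem mp_update {τ α : Type*} [Fintype τ] [DecidableEq τ] [MeasurableSpace α] (μ : Measure α)
    [IsProbabilityMeasure μ] (j : τ) :
    MeasurePreserving (fun p : (τ → α) × α => Function.update p.1 j p.2)
      ((Measure.pi fun _ : τ => μ).prod μ) (Measure.pi fun _ : τ => μ) := by
  have hm : Measurable (fun p : (τ → α) × α => Function.update p.1 j p.2) := measurable_update'
  refine ⟨hm, (Measure.pi_eq fun s hs => ?_).symm⟩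
  rw [Measure.map_apply hm (MeasurableSet.univ_pi hs)]
  have : (fun p : (τ → α) × α => Function.update p.1 j p.2) ⁻¹' (Set.univ.pi s) =
      (Set.univ.pi (Function.update s j Set.univ)) ×ˢ (s j) := by
    ext ⟨g, t⟩
    simp only [Set.mem_preimage, Set.mem_pi, Set.mem_univ, true_implies, Set.mem_prod]
    constructor
    · intro h
      refine ⟨fun i => ?_, by simpa using h j⟩
      by_cases hi : i = j
      · subst hi; simp
      · simpa [Function.update_of_ne hi] using h i
    · rintro ⟨h1, h2⟩ i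
      by_cases hi : i = j
      · subst hi; simpa using h2
      · simpa [Function.update_of_ne hi] using h1 i
  rw [this, Measure.prod_prod, Measure.pi_pi]
  rw [← Finset.mul_prod_erase Finset.univ (fun i => μ (s i)) (Finset.mem_univ j),
    ← Finset.mul_prod_erase Finset.univ (fun i => μ (Function.update s j Set.univ i))
      (Finset.mem_univ j)]
  simp only [Function.update_self, measure_univ, one_mul]
  rw [mul_comm]
  congr 1
  refine Finset.prod_congr rfl fun i hi => ?_
  rw [Function.update_of_ne (Finset.ne_of_mem_erase hi)]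

variable {ι : Type*} [Fintype ι] {Ω 𝒳 : Type*} [MeasurableSpace Ω] [MeasurableSpace 𝒳]

/-- `K` independent standard Gaussian vectors -/
abbrev gK (K : ℕ) (ι : Type*) [Fintype ι] : Measure (Fin K → ι → ℝ) :=
  Measure.pi fun _ : Fin K => gv ι

/-- extension by zero of a finite family of vectors -/
def nz {K : ℕ} {β : Type*} [Zero β] (ξ : Fin K → β) (k : ℕ) : β :=
  if h : k < K then ξ ⟨k, h⟩ else 0

lemma nz_of_lt {K : ℕ} {β : Type*} [Zero β] (ξ : Fin K → β) {k : ℕ} (h : k < K) :
    nz ξ k = ξ ⟨k, h⟩ := dif_pos h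

lemma nz_update_self {K : ℕ} {β : Type*} [Zero β] (ξ : Fin K → β) {k : ℕ} (h : k < K) (η : β) :
    nz (Function.update ξ ⟨k, h⟩ η) k = η := by
  rw [nz_of_lt _ h, Function.update_self]

lemma nz_update_ne {K : ℕ} {β : Type*} [Zero β] (ξ : Fin K → β) {k j : ℕ} (h : k < K) (η : β)
    (hj : j ≠ k) : nz (Function.update ξ ⟨k, h⟩ η) j = nz ξ j := by
  unfold nz
  split_ifs with h1
  · rw [Function.update_of_ne (fun e => hj (congrArg Fin.val e))]
  · rfl

@[fun_prop] lemma _root_.Measurable.t157_nz {K : ℕ} {β : Type*} [Zero β] [MeasurableSpace β]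
    {ξ : Ω → Fin K → β} (hξ : Measurable ξ) : Measurable fun ω => nz (ξ ω) := by
  refine measurable_pi_lambda _ fun k => ?_
  unfold nz
  split_ifs
  · exact (measurable_pi_apply _).comp hξ
  · exact measurable_const

/-- a causal query rule -/
structure Alg (𝒳 ι : Type*) [MeasurableSpace 𝒳] where
  /-- the `k`-th query, given the data and the responses -/
  v : ℕ → 𝒳 → (ℕ → ι → ℝ) → ι → ℝ
  meas : ∀ k, Measurable fun p : 𝒳 × (ℕ → ι → ℝ) => v k p.1 p.2
  causal : ∀ k x r r', (∀ j < k, r j = r' j) → v k x r = v k x r'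

namespace Alg

variable (a : Alg 𝒳 ι)

@[fun_prop] lemma measurable_v (k : ℕ) {X : Ω → 𝒳} {r : Ω → ℕ → ι → ℝ} (hX : Measurable X)
    (hr : Measurable r) : Measurable fun ω => a.v k (X ω) (r ω) :=
  (a.meas k).comp (hX.prodMk hr)

/-- the first `k` true responses (zero afterwards) -/
def hist (W : Matrix ι ι ℝ) (x : 𝒳) : ℕ → ℕ → ι → ℝ
  | 0 => 0
  | k + 1 => Function.update (hist W x k) k (W *ᵥ a.v k x (hist W x k))

/-- the true responses -/
def out (W : Matrix ι ι ℝ) (x : 𝒳) (k : ℕ) : ι → ℝ := a.hist W x (k + 1) k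

lemma hist_of_lt (W : Matrix ι ι ℝ) (x : 𝒳) {j k : ℕ} (h : j < k) :
    a.hist W x k j = a.out W x j := by
  induction k with
  | zero => omega
  | succ k ih =>
    rcases Nat.lt_succ_iff_lt_or_eq.1 h with h1 | h1
    · rw [hist, Function.update_of_ne h1.ne, ih h1]
    · subst h1; rfl

lemma hist_of_le (W : Matrix ι ι ℝ) (x : 𝒳) {j k : ℕ} (h : k ≤ j) : a.hist W x k j = 0 := by
  induction k with
  | zero => rfl
  | succ k ih => rw [hist, Function.update_of_ne (by omega), ih (by omega)]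

lemma v_hist (W : Matrix ι ι ℝ) (x : 𝒳) {j k : ℕ} (h : j ≤ k) :
    a.v j x (a.hist W x k) = a.v j x (a.out W x) :=
  a.causal _ _ _ _ fun _ hl => a.hist_of_lt W x (by omega)

/-- the defining recursion of the responses -/
lemma out_eq (W : Matrix ι ι ℝ) (x : 𝒳) (k : ℕ) : a.out W x k = W *ᵥ a.v k x (a.out W x) := by
  rw [out, hist, Function.update_self, a.v_hist W x le_rfl]

/-- the recursion determines the responses -/
lemma out_unique (W : Matrix ι ι ℝ) (x : 𝒳) {r : ℕ → ι → ℝ} {K : ℕ}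
    (h : ∀ k < K, r k = W *ᵥ a.v k x r) : ∀ k < K, r k = a.out W x k := by
  intro k
  induction k using Nat.strong_induction_on with
  | _ k ih =>
    intro hk
    rw [h k hk, a.out_eq, a.causal k x r (a.out W x) fun j hj => ih j hj (by omega)]

@[fun_prop] lemma measurable_hist (k : ℕ) {W : Ω → Matrix ι ι ℝ} {X : Ω → 𝒳} (hW : Measurable W)
    (hX : Measurable X) : Measurable fun ω => a.hist (W ω) (X ω) k := by
  induction k with
  | zero => exact measurable_const
  | succ k ih =>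
    exact measurable_update'.comp (ih.prodMk (hW.t157_mulVec (a.measurable_v k hX ih)))

@[fun_prop] lemma measurable_out {W : Ω → Matrix ι ι ℝ} {X : Ω → 𝒳} (hW : Measurable W)
    (hX : Measurable X) : Measurable fun ω => a.out (W ω) (X ω) :=
  measurable_pi_lambda _ fun k => (measurable_pi_apply k).comp (a.measurable_hist (k + 1) hW hX)

variable (A₀ R₀ : 𝒳 → Matrix ι ι ℝ)

/-- unrevealed projector after `k` queries -/
def fR (x : 𝒳) (r : ℕ → ι → ℝ) : ℕ → Matrix ι ι ℝ
  | 0 => R₀ x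
  | k + 1 => nextR (fR x r k) (a.v k x r)

/-- revealed part after `k` queries -/
def fA (x : 𝒳) (r : ℕ → ι → ℝ) : ℕ → Matrix ι ι ℝ
  | 0 => A₀ x
  | k + 1 => nextA (fA x r k) (a.fR R₀ x r k) (a.v k x r) (r k)

/-- `k`-th Gram–Schmidt direction -/
def e (x : 𝒳) (r : ℕ → ι → ℝ) (k : ℕ) : ι → ℝ := dirv (a.fR R₀ x r k) (a.v k x r)

lemma fR_causal (x : 𝒳) {r r' : ℕ → ι → ℝ} {k : ℕ} (h : ∀ j, j + 1 < k → r j = r' j) :
    a.fR R₀ x r k = a.fR R₀ x r' k := by
  induction k with
  | zero => rfl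
  | succ k ih =>
    rw [fR, fR, ih fun j hj => h j (by omega), a.causal k x r r' fun j hj => h j (by omega)]

lemma fA_causal (x : 𝒳) {r r' : ℕ → ι → ℝ} {k : ℕ} (h : ∀ j < k, r j = r' j) :
    a.fA A₀ R₀ x r k = a.fA A₀ R₀ x r' k := by
  induction k with
  | zero => rfl
  | succ k ih =>
    rw [fA, fA, ih fun j hj => h j (by omega), a.causal k x r r' fun j hj => h j (by omega),
      a.fR_causal R₀ x (r := r) (r' := r') fun j hj => h j (by omega), h k (by omega)]

lemma e_causal (x : 𝒳) {r r' : ℕ → ι → ℝ} {k : ℕ} (h : ∀ j < k, r j = r' j) :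
    a.e R₀ x r k = a.e R₀ x r' k := by
  rw [e, e, a.causal k x r r' h, a.fR_causal R₀ x (r := r) (r' := r') fun j hj => h j (by omega)]

variable {A₀ R₀}

@[fun_prop] lemma measurable_fR (hR : Measurable R₀) (k : ℕ) {X : Ω → 𝒳} {r : Ω → ℕ → ι → ℝ}
    (hX : Measurable X) (hr : Measurable r) : Measurable fun ω => a.fR R₀ (X ω) (r ω) k := by
  induction k with
  | zero => exact hR.comp hX
  | succ k ih => exact ih.t157_nextR (a.measurable_v k hX hr)

@[fun_prop] lemma measurable_fA (hA : Measurable A₀) (hR : Measurable R₀) (k : ℕ) {X : Ω → 𝒳}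
    {r : Ω → ℕ → ι → ℝ} (hX : Measurable X) (hr : Measurable r) :
    Measurable fun ω => a.fA A₀ R₀ (X ω) (r ω) k := by
  induction k with
  | zero => exact hA.comp hX
  | succ k ih =>
    exact ih.t157_nextA (a.measurable_fR hR k hX hr) (a.measurable_v k hX hr)
      ((measurable_pi_apply k).comp hr)

@[fun_prop] lemma measurable_e (hR : Measurable R₀) (k : ℕ) {X : Ω → 𝒳} {r : Ω → ℕ → ι → ℝ}
    (hX : Measurable X) (hr : Measurable r) : Measurable fun ω => a.e R₀ (X ω) (r ω) k :=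
  (a.measurable_fR hR k hX hr).t157_dirv (a.measurable_v k hX hr)

section frame
variable {x : 𝒳} (hp : IsProj (R₀ x)) (r : ℕ → ι → ℝ)
include hp

lemma fR_proj (k : ℕ) : IsProj (a.fR R₀ x r k) := by
  induction k with
  | zero => exact hp
  | succ k ih => exact ih.nextR _

lemma fR_mulVec_of {j k : ℕ} (h : j ≤ k) {y : ι → ℝ} (hy : a.fR R₀ x r j *ᵥ y = 0) :
    a.fR R₀ x r k *ᵥ y = 0 := by
  induction k, h using Nat.le_induction with
  | base => exact hy
  | succ k _ ih => exact nextR_mulVec_of (a.fR_proj hp r k) _ ih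

lemma fR_v {j k : ℕ} (h : j < k) : a.fR R₀ x r k *ᵥ a.v j x r = 0 :=
  a.fR_mulVec_of hp r h (nextR_v (a.fR_proj hp r j) _)

lemma fR_e {j k : ℕ} (h : j < k) : a.fR R₀ x r k *ᵥ a.e R₀ x r j = 0 :=
  a.fR_mulVec_of hp r h (nextR_dirv (a.fR_proj hp r j) _)

lemma fR_e_self (k : ℕ) : a.fR R₀ x r k *ᵥ a.e R₀ x r k = a.e R₀ x r k :=
  R_dirv (a.fR_proj hp r k) _

lemma e_dot_e {j k : ℕ} (h : j ≠ k) : a.e R₀ x r j ⬝ᵥ a.e R₀ x r k = 0 := by
  wlog hjk : j < k generalizing j k
  · rw [dotProduct_comm]; exact this h.symm (by omega)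
  rw [← a.fR_e_self hp r k, (a.fR_proj hp r k).dot, a.fR_e hp r hjk, zero_dotProduct]

lemma e_dot_v_of_lt {j k : ℕ} (h : j < k) : a.e R₀ x r k ⬝ᵥ a.v j x r = 0 := by
  rw [← a.fR_e_self hp r k, ← (a.fR_proj hp r k).dot, a.fR_v hp r h, dotProduct_zero]

lemma e_dot_v_self (k : ℕ) :
    a.e R₀ x r k ⬝ᵥ a.v k x r = len (a.fR R₀ x r k *ᵥ a.v k x r) :=
  dirv_dot_v (a.fR_proj hp r k) _

lemma R₀_mul_fR (k : ℕ) : R₀ x * a.fR R₀ x r k = a.fR R₀ x r k := by
  induction k with
  | zero => exact hp.idem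
  | succ k ih =>
    rw [fR, ← R_mul_nextR (a.fR_proj hp r k), ← Matrix.mul_assoc, ih]

lemma R₀_e (k : ℕ) : R₀ x *ᵥ a.e R₀ x r k = a.e R₀ x r k := by
  rw [← a.fR_e_self hp r k, Matrix.mulVec_mulVec, a.R₀_mul_fR hp r]

lemma fR_fA_fR (hA : R₀ x * A₀ x * R₀ x = 0) (k : ℕ) :
    a.fR R₀ x r k * a.fA A₀ R₀ x r k * a.fR R₀ x r k = 0 := by
  induction k with
  | zero => exact hA
  | succ k ih => exact nextR_nextA_nextR (a.fR_proj hp r k) _ ih _

omit hp in
lemma e_dot_self_le (k : ℕ) : a.e R₀ x r k ⬝ᵥ a.e R₀ x r k ≤ 1 := unitv_dot_le _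

omit hp in
lemma fR_eq (k : ℕ) :
    a.fR R₀ x r k = R₀ x - ∑ j ∈ range k, vecMulVec (a.e R₀ x r j) (a.e R₀ x r j) := by
  induction k with
  | zero => simp [fR]
  | succ k ih => rw [Finset.sum_range_succ, ← sub_sub, ← ih]; rfl

omit hp in
lemma fR_mulVec (k : ℕ) (y : ι → ℝ) :
    a.fR R₀ x r k *ᵥ y = R₀ x *ᵥ y - ∑ j ∈ range k, (a.e R₀ x r j ⬝ᵥ y) • a.e R₀ x r j := by
  rw [a.fR_eq, Matrix.sub_mulVec, Matrix.sum_mulVec]
  simp only [vmv_mulVec]

omit hp in
lemma fA_symm (hA : (A₀ x)ᵀ = A₀ x) (k : ℕ) : (a.fA A₀ R₀ x r k)ᵀ = a.fA A₀ R₀ x r k := by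
  induction k with
  | zero => exact hA
  | succ k ih => exact nextA_symm _ ih _

omit hp in
lemma fA_eq (k : ℕ) : a.fA A₀ R₀ x r k = A₀ x + ∑ j ∈ range k,
    rk2 ((len (a.fR R₀ x r j *ᵥ a.v j x r))⁻¹ • (r j - a.fA A₀ R₀ x r j *ᵥ a.v j x r))
      (a.e R₀ x r j) := by
  induction k with
  | zero => simp [fA]
  | succ k ih => rw [Finset.sum_range_succ, ← add_assoc, ← ih]; rfl

/-- the true matrix keeps the same remainder along the run -/
lemma glue_run {W : Matrix ι ι ℝ} (hW : Wᵀ = W) (k : ℕ) :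
    glue (a.fA A₀ R₀ x (a.out (glue (A₀ x) (R₀ x) W) x) k)
      (a.fR R₀ x (a.out (glue (A₀ x) (R₀ x) W) x) k) W = glue (A₀ x) (R₀ x) W := by
  induction k with
  | zero => rfl
  | succ k ih =>
    have := glue_next (a.fR_proj hp (a.out (glue (A₀ x) (R₀ x) W) x) k)
      (a.v k x (a.out (glue (A₀ x) (R₀ x) W) x))
      (a.fA A₀ R₀ x (a.out (glue (A₀ x) (R₀ x) W) x) k) hW
    rw [ih, ← a.out_eq] at this
    exact this

end frame

variable (A₀ R₀)

/-- simulated responses: the first `k` of them -/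
def shist (s : ℝ) (x : 𝒳) (ξ : ℕ → ι → ℝ) : ℕ → ℕ → ι → ℝ
  | 0 => 0
  | k + 1 => Function.update (shist s x ξ k) k
      (resp s (a.fA A₀ R₀ x (shist s x ξ k) k) (a.fR R₀ x (shist s x ξ k) k)
        (a.v k x (shist s x ξ k)) (ξ k))

/-- simulated responses -/
def sout (s : ℝ) (x : 𝒳) (ξ : ℕ → ι → ℝ) (k : ℕ) : ι → ℝ := a.shist A₀ R₀ s x ξ (k + 1) k

lemma shist_of_lt (s : ℝ) (x : 𝒳) (ξ : ℕ → ι → ℝ) {j k : ℕ} (h : j < k) :
    a.shist A₀ R₀ s x ξ k j = a.sout A₀ R₀ s x ξ j := by
  induction k with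
  | zero => omega
  | succ k ih =>
    rcases Nat.lt_succ_iff_lt_or_eq.1 h with h1 | h1
    · rw [shist, Function.update_of_ne h1.ne, ih h1]
    · subst h1; rfl

lemma shist_of_le (s : ℝ) (x : 𝒳) (ξ : ℕ → ι → ℝ) {j k : ℕ} (h : k ≤ j) :
    a.shist A₀ R₀ s x ξ k j = 0 := by
  induction k with
  | zero => rfl
  | succ k ih => rw [shist, Function.update_of_ne (by omega), ih (by omega)]

lemma shist_causal (s : ℝ) (x : 𝒳) {ξ ξ' : ℕ → ι → ℝ} {k : ℕ} (h : ∀ j < k, ξ j = ξ' j) :
    a.shist A₀ R₀ s x ξ k = a.shist A₀ R₀ s x ξ' k := by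
  induction k with
  | zero => rfl
  | succ k ih => rw [shist, shist, ih fun j hj => h j (by omega), h k (by omega)]

lemma sout_causal (s : ℝ) (x : 𝒳) {ξ ξ' : ℕ → ι → ℝ} {k : ℕ} (h : ∀ j ≤ k, ξ j = ξ' j) :
    a.sout A₀ R₀ s x ξ k = a.sout A₀ R₀ s x ξ' k := by
  rw [sout, sout, a.shist_causal A₀ R₀ s x (ξ := ξ) (ξ' := ξ') fun j hj => h j (by omega)]

/-- the defining recursion of the simulation -/
lemma sout_rec (s : ℝ) (x : 𝒳) (ξ : ℕ → ι → ℝ) (k : ℕ) :
    a.sout A₀ R₀ s x ξ k = resp s (a.fA A₀ R₀ x (a.sout A₀ R₀ s x ξ) k)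
      (a.fR R₀ x (a.sout A₀ R₀ s x ξ) k) (a.v k x (a.sout A₀ R₀ s x ξ)) (ξ k) := by
  have h : ∀ j < k, a.shist A₀ R₀ s x ξ k j = a.sout A₀ R₀ s x ξ j :=
    fun j hj => a.shist_of_lt A₀ R₀ s x ξ hj
  rw [sout, shist, Function.update_self, a.fA_causal A₀ R₀ x h, a.causal k x _ _ h,
    a.fR_causal R₀ x (r' := a.sout A₀ R₀ s x ξ) fun j hj => h j (by omega)]

/-- the revealed part along the simulation -/
lemma fA_sout (s : ℝ) (x : 𝒳) (ξ : ℕ → ι → ℝ) (k : ℕ) :
    a.fA A₀ R₀ x (a.sout A₀ R₀ s x ξ) k = A₀ x + ∑ j ∈ range k,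
      s • rk2 (noise (a.fR R₀ x (a.sout A₀ R₀ s x ξ) j) (a.v j x (a.sout A₀ R₀ s x ξ)) (ξ j))
        (a.e R₀ x (a.sout A₀ R₀ s x ξ) j) := by
  induction k with
  | zero => simp [fA]
  | succ k ih =>
    rw [Finset.sum_range_succ, ← add_assoc, ← ih, fA]
    conv_lhs => enter [4]; rw [a.sout_rec]
    rw [nextA_resp]
    rfl

variable {A₀ R₀}

@[fun_prop] lemma measurable_shist (hA : Measurable A₀) (hR : Measurable R₀) (s : ℝ) (k : ℕ)
    {X : Ω → 𝒳} {ξ : Ω → ℕ → ι → ℝ} (hX : Measurable X) (hξ : Measurable ξ) :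
    Measurable fun ω => a.shist A₀ R₀ s (X ω) (ξ ω) k := by
  induction k with
  | zero => exact measurable_const
  | succ k ih =>
    exact measurable_update'.comp (ih.prodMk ((a.measurable_fA hA hR k hX ih).t157_resp s
      (a.measurable_fR hR k hX ih) (a.measurable_v k hX ih) ((measurable_pi_apply k).comp hξ)))

@[fun_prop] lemma measurable_sout (hA : Measurable A₀) (hR : Measurable R₀) (s : ℝ)
    {X : Ω → 𝒳} {ξ : Ω → ℕ → ι → ℝ} (hX : Measurable X) (hξ : Measurable ξ) :
    Measurable fun ω => a.sout A₀ R₀ s (X ω) (ξ ω) :=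
  measurable_pi_lambda _ fun k =>
    (measurable_pi_apply k).comp (a.measurable_shist hA hR s (k + 1) hX hξ)

end Alg

variable {s : ℝ} {P : Measure Ω} [IsProbabilityMeasure P] {X : Ω → 𝒳} {W : Ω → Matrix ι ι ℝ}
  {A R : 𝒳 → Matrix ι ι ℝ}

/-- **after `k` adaptive queries the matrix is conditionally GOE** -/
theorem IsCond.run (h : IsCond s P X W A R) (a : Alg 𝒳 ι) (k : ℕ) :
    IsCond s P (fun ω => (X ω, a.hist (W ω) (X ω) k)) W (fun y => a.fA A R y.1 y.2 k)
      fun y => a.fR R y.1 y.2 k := by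
  have hA := h.mA; have hR := h.mR
  induction k with
  | zero => exact h.extend (g := fun _ => (0 : ℕ → ι → ℝ)) measurable_const
  | succ k ih =>
    have hq := ih.query (v := fun y => a.v k y.1 y.2) (a.meas k)
    refine hq.relabel (f := fun z : (𝒳 × (ℕ → ι → ℝ)) × (ι → ℝ) =>
      (z.1.1, Function.update z.1.2 k z.2))
      (measurable_fst.fst.prodMk (measurable_update'.comp (measurable_fst.snd.prodMk measurable_snd)))
      (a.measurable_fA hA hR _ measurable_fst measurable_snd)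
      (a.measurable_fR hR _ measurable_fst measurable_snd)
      (fun y => a.fR_proj (h.proj y.1) _ _) (fun z => ?_) fun z => ?_
    · have hc : ∀ j < k, Function.update z.1.2 k z.2 j = z.1.2 j :=
        fun j hj => Function.update_of_ne hj.ne _ _
      simp only [Alg.fA, Function.update_self]
      rw [a.fA_causal A R _ hc, a.causal k _ _ _ hc,
        a.fR_causal R _ (r' := z.1.2) fun j hj => hc j (by omega)]
    · have hc : ∀ j < k, Function.update z.1.2 k z.2 j = z.1.2 j :=
        fun j hj => Function.update_of_ne hj.ne _ _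
      simp only [Alg.fR]
      rw [a.causal k _ _ _ hc, a.fR_causal R _ (r' := z.1.2) fun j hj => hc j (by omega)]

/-- **simulation**: the data and the first `k ≤ K` responses have the law of the simulation driven
by `K` independent standard Gaussian vectors -/
theorem IsCond.run_law (h : IsCond s P X W A R) (a : Alg 𝒳 ι) {K k : ℕ} (hk : k ≤ K) :
    P.map (fun ω => (X ω, a.hist (W ω) (X ω) k)) =
      ((P.map X).prod (gK K ι)).map fun p => (p.1, a.shist A R s p.1 (nz p.2) k) := by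
  have hX := h.mX; have hW := h.mW; have hA := h.mA; have hR := h.mR
  have : IsProbabilityMeasure (P.map X) := Measure.isProbabilityMeasure_map hX.aemeasurable
  induction k with
  | zero =>
    have e1 : (fun p : 𝒳 × (Fin K → ι → ℝ) => (p.1, a.shist A R s p.1 (nz p.2) 0)) =
        (fun x => (x, (0 : ℕ → ι → ℝ))) ∘ Prod.fst := rfl
    rw [e1, ← Measure.map_map (by fun_prop) measurable_fst, Measure.map_fst_prod, measure_univ,
      one_smul, Measure.map_map (by fun_prop) hX]
    rfl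
  | succ k ih =>
    have hkK : k < K := hk
    have hq := (h.run a k).query_law (v := fun y => a.v k y.1 y.2) (a.meas k)
    have hf : Measurable fun z : (𝒳 × (ℕ → ι → ℝ)) × (ι → ℝ) =>
        (z.1.1, Function.update z.1.2 k z.2) :=
      measurable_fst.fst.prodMk (measurable_update'.comp (measurable_fst.snd.prodMk measurable_snd))
    have hs : ∀ j, Measurable fun p : 𝒳 × (Fin K → ι → ℝ) =>
        (p.1, a.shist A R s p.1 (nz p.2) j) := fun j =>
      measurable_fst.prodMk (a.measurable_shist hA hR s j measurable_fst measurable_snd.t157_nz)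
    have hr : Measurable fun p : (𝒳 × (ℕ → ι → ℝ)) × (ι → ℝ) =>
        (p.1, resp s (a.fA A R p.1.1 p.1.2 k) (a.fR R p.1.1 p.1.2 k) (a.v k p.1.1 p.1.2) p.2) :=
      measurable_fst.prodMk ((a.measurable_fA hA hR k measurable_fst.fst measurable_fst.snd).t157_resp
        s (a.measurable_fR hR k measurable_fst.fst measurable_fst.snd)
        (a.measurable_v k measurable_fst.fst measurable_fst.snd) measurable_snd)
    have e1 := congrArg (Measure.map fun z : (𝒳 × (ℕ → ι → ℝ)) × (ι → ℝ) =>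
      (z.1.1, Function.update z.1.2 k z.2)) hq
    have hs2 : Measurable fun p : (𝒳 × (Fin K → ι → ℝ)) × (ι → ℝ) =>
        ((p.1.1, a.shist A R s p.1.1 (nz p.1.2) k), p.2) :=
      ((hs k).comp measurable_fst).prodMk measurable_snd
    rw [Measure.map_map hf (by fun_prop), ih hkK.le, map_prod_left ((P.map X).prod (gK K ι)) _ (hs k),
      Measure.map_map hr hs2, Measure.map_map hf (hr.comp hs2)] at e1
    refine e1.trans ?_
    have hu := mp_update (τ := Fin K) (gv ι) ⟨k, hkK⟩
    have e2 : (P.map X).prod (gK K ι) = ((P.map X).prod ((gK K ι).prod (gv ι))).map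
        fun p => (p.1, Function.update p.2.1 ⟨k, hkK⟩ p.2.2) := by
      have := Measure.map_prod_map (P.map X) ((gK K ι).prod (gv ι)) measurable_id hu.measurable
      rw [Measure.map_id, hu.map_eq] at this
      exact this
    have hu' : Measurable fun p : 𝒳 × ((Fin K → ι → ℝ) × (ι → ℝ)) =>
        (p.1, Function.update p.2.1 ⟨k, hkK⟩ p.2.2) :=
      measurable_fst.prodMk (hu.measurable.comp measurable_snd)
    conv_rhs => rw [e2, Measure.map_map (hs (k + 1)) hu', prod_assoc_map _ _ _ ((hs (k + 1)).comp hu')]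
    congr 1
    funext p
    have hc : a.shist A R s p.1.1 (nz (Function.update p.1.2 ⟨k, hkK⟩ p.2)) k =
        a.shist A R s p.1.1 (nz p.1.2) k :=
      a.shist_causal A R s _ fun j hj => nz_update_ne _ hkK _ hj.ne
    simp only [Function.comp, Alg.shist, hc, nz_update_self]

/-- joint law of the data, the responses and the matrix -/
theorem IsCond.run_joint (h : IsCond s P X W A R) (a : Alg 𝒳 ι) (K : ℕ) :
    P.map (fun ω => ((X ω, a.hist (W ω) (X ω) K), W ω)) =
      (((P.map X).prod (gK K ι)).prod (goe ι s)).map fun p =>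
        ((p.1.1, a.shist A R s p.1.1 (nz p.1.2) K),
          glue (a.fA A R p.1.1 (a.shist A R s p.1.1 (nz p.1.2) K) K)
            (a.fR R p.1.1 (a.shist A R s p.1.1 (nz p.1.2) K) K) p.2) := by
  have hX := h.mX; have hA := h.mA; have hR := h.mR
  have hs : Measurable fun p : 𝒳 × (Fin K → ι → ℝ) => (p.1, a.shist A R s p.1 (nz p.2) K) :=
    measurable_fst.prodMk (a.measurable_shist hA hR s K measurable_fst measurable_snd.t157_nz)
  have hc := h.run a K
  have hs2 : Measurable fun p : (𝒳 × (Fin K → ι → ℝ)) × Matrix ι ι ℝ =>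
      ((p.1.1, a.shist A R s p.1.1 (nz p.1.2) K), p.2) :=
    (hs.comp measurable_fst).prodMk measurable_snd
  have hg : Measurable fun p : (𝒳 × (ℕ → ι → ℝ)) × Matrix ι ι ℝ =>
      (p.1, glue (a.fA A R p.1.1 p.1.2 K) (a.fR R p.1.1 p.1.2 K) p.2) :=
    measurable_fst.prodMk ((hc.mA.comp measurable_fst).t157_glue
      (hc.mR.comp measurable_fst) measurable_snd)
  rw [hc.law, h.run_law a le_rfl, map_prod_left ((P.map X).prod (gK K ι)) _ hs,
    Measure.map_map hg hs2]
  rfl

end Crest.Agent.T157.Cond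

end
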