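import Crest.Agent.T157.EDef_39
import Crest.Agent.T157.EigN_84

/-!
# Row 157, part E: LOCAL LAW for Wigner matrices — definitions and exact statements (helper91)

* `Law ν` (mean 0, variance 1, subgaussian), `Ens n` (`H x = ∑ a, x a * c a • (E_ij + E_ji)` with the
  covariance of a Wigner matrix, diagonal variance free: covers `Jmat`, `Wmat`, all hybrids);
* `Res gb st PP QQ msc al qq Phi Psi Dom InS Bd`;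
* `MData`, `Ok`, `Cond1`, `Cond`, `MomStmt` (the abstract recursive moment lemma);
* `Vhp` (probability `≥ 1 - exp (-n^c)`, uniformly over ensembles and parameters);
* the APIs `ResApi MscApi VhpApi` and the statements of the chain.
-/

set_option autoImplicit false

noncomputable section

namespace Crest.Agent.T157.Ll

open MeasureTheory ProbabilityTheory Matrix Filter Function
open Crest.ProbabilityR.SpinGlassDynamics Crest.Agent.T157.E Crest.Agent.T157.Eig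

/-- admissible law of one entry -/
structure Law (ν : Measure ℝ) : Prop where
  prob : IsProbabilityMeasure ν
  mean : ∫ x, x ∂ν = 0
  var : ∫ x, x ^ 2 ∂ν = 1
  sg : HasSubgaussianMGF (fun x : ℝ => x) 1 ν

/-- a Wigner-type ensemble: independent variables `x a ∼ ν a`, each sitting at `(i a, j a)` and
`(j a, i a)` with coefficient `c a`; `cov` says off-diagonal variance `1/n`, diagonal variance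
`2 (1 + d k) / n ∈ [0, 4/n]`. -/
structure Ens (n : ℕ) : Type 1 where
  ι : Type
  [fin : Fintype ι]
  [dec : DecidableEq ι]
  i : ι → Fin n
  j : ι → Fin n
  c : ι → ℝ
  d : Fin n → ℝ
  ν : ι → Measure ℝ
  law : ∀ a, Law (ν a)
  card : Fintype.card ι ≤ n ^ 2
  c_sq : ∀ a, c a ^ 2 ≤ 1 / (n : ℝ)
  d_le : ∀ k, |d k| ≤ 1
  cov : ∀ F : Fin n → Fin n → ℝ, ∑ a, c a ^ 2 * (F (i a) (j a) + F (j a) (i a)) =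
    (∑ k, ∑ l, F k l + ∑ k, d k * F k k) / n

instance {n : ℕ} (E : Ens n) : Fintype E.ι := E.fin
instance {n : ℕ} (E : Ens n) : DecidableEq E.ι := E.dec
instance {n : ℕ} (E : Ens n) (a : E.ι) : IsProbabilityMeasure (E.ν a) := (E.law a).prob

variable {n : ℕ}

/-- `E_ij + E_ji` -/
def Dl (i j : Fin n) : Matrix (Fin n) (Fin n) ℝ := single i j 1 + single j i 1

/-- the random matrix -/
def Ens.H (E : Ens n) (x : E.ι → ℝ) : Matrix (Fin n) (Fin n) ℝ :=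
  ∑ a, (x a * E.c a) • Dl (E.i a) (E.j a)

/-- the law of the variables -/
def Ens.μ (E : Ens n) : Measure (E.ι → ℝ) := Measure.pi E.ν

instance (E : Ens n) : IsProbabilityMeasure E.μ := by unfold Ens.μ; infer_instance

/-- basis vector -/
def ee (k : Fin n) : Fin n → ℝ := Pi.single k 1

/-- resolvent `(A - z)⁻¹` -/
def Res (A : Matrix (Fin n) (Fin n) ℝ) (z : ℂ) : Matrix (Fin n) (Fin n) ℂ :=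
  (A.map (fun x => (x : ℂ)) - z • (1 : Matrix (Fin n) (Fin n) ℂ))⁻¹

/-- `G_{uv} = uᵀ (A - z)⁻¹ v` -/
def gb (A : Matrix (Fin n) (Fin n) ℝ) (z : ℂ) (u v : Fin n → ℝ) : ℂ :=
  (fun k => (u k : ℂ)) ⬝ᵥ Res A z *ᵥ fun k => (v k : ℂ)

/-- Stieltjes transform `m = tr G / n` -/
def st (A : Matrix (Fin n) (Fin n) ℝ) (z : ℂ) : ℂ := (Res A z).trace / n

/-- `P = 1 + z m + m²` -/
def PP (A : Matrix (Fin n) (Fin n) ℝ) (z : ℂ) : ℂ := 1 + z * st A z + st A z ^ 2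

/-- `Q_{uv} = ⟨u,v⟩ + (z + m) G_{uv}` -/
def QQ (A : Matrix (Fin n) (Fin n) ℝ) (z : ℂ) (u v : Fin n → ℝ) : ℂ :=
  ((u ⬝ᵥ v : ℝ) : ℂ) + (z + st A z) * gb A z u v

/-- Stieltjes transform of the semicircle law (the root of `m² + z m + 1` in the upper half plane) -/
def msc (z : ℂ) : ℂ :=
  if 0 < ((-z + (z ^ 2 - 4) ^ (2⁻¹ : ℂ)) / 2).im then (-z + (z ^ 2 - 4) ^ (2⁻¹ : ℂ)) / 2
  else (-z - (z ^ 2 - 4) ^ (2⁻¹ : ℂ)) / 2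

/-- distance of the two roots, `|√(z² - 4)|` -/
def al (z : ℂ) : ℝ := ‖z + 2 * msc z‖

/-- `1 / (n η)` -/
def qq (n : ℕ) (z : ℂ) : ℝ := 1 / (n * z.im)

/-- control parameter of `P` -/
def Phi (n : ℕ) (z : ℂ) : ℝ := qq n z * √(al z * (msc z).im) + qq n z ^ 2

/-- control parameter of `G_{uv}` -/
def Psi (n : ℕ) (z : ℂ) : ℝ := √(qq n z * (msc z).im) + qq n z

/-- random control parameter of `P` (`m` = the value of `st`) -/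
def phi1 (n : ℕ) (z m : ℂ) : ℝ :=
  √((‖z + 2 * m‖ + qq n z) * qq n z * (qq n z * m.im + 1 / n) + (qq n z * m.im) ^ 2 + qq n z / n)

/-- spectral domain -/
def Dom (K ε : ℝ) (n : ℕ) (z : ℂ) : Prop := |z.re| ≤ K ∧ (n : ℝ) ^ (-1 + ε) ≤ z.im ∧ z.im ≤ K

/-- the test vectors `u, v, e_1, …, e_n` -/
def InS (u v w : Fin n → ℝ) : Prop := w = u ∨ w = v ∨ ∃ k, w = ee k

/-- a priori bound -/
def Bd (A : Matrix (Fin n) (Fin n) ℝ) (z : ℂ) (Γ : ℝ) (u v : Fin n → ℝ) : Prop :=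
  ∀ a b, InS u v a → InS u v b → ‖gb A z a b‖ ≤ Γ

/-! ### the abstract moment lemma -/

/-- `X = ∑ a, x a * f a + r` with first and second derivatives of `f a` and `X` in `x a` -/
structure MData (ι : Type) where
  X : (ι → ℝ) → ℂ
  r : (ι → ℝ) → ℂ
  f : ι → (ι → ℝ) → ℂ
  f1 : ι → (ι → ℝ) → ℂ
  f2 : ι → (ι → ℝ) → ℂ
  X1 : ι → (ι → ℝ) → ℂ
  X2 : ι → (ι → ℝ) → ℂ

section mdata
variable {ι : Type} [Fintype ι] [DecidableEq ι]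

structure MData.Ok (D : MData ι) (B : ℝ) : Prop where
  eq : ∀ x, D.X x = ∑ a, (x a : ℂ) * D.f a x + D.r x
  mX : Measurable D.X
  mr : Measurable D.r
  mf : ∀ a, Measurable (D.f a)
  mf1 : ∀ a, Measurable (D.f1 a)
  mX1 : ∀ a, Measurable (D.X1 a)
  df : ∀ a x t, HasDerivAt (fun s => D.f a (update x a s)) (D.f1 a (update x a t)) t
  df1 : ∀ a x t, HasDerivAt (fun s => D.f1 a (update x a s)) (D.f2 a (update x a t)) t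
  dX : ∀ a x t, HasDerivAt (fun s => D.X (update x a s)) (D.X1 a (update x a t)) t
  dX1 : ∀ a x t, HasDerivAt (fun s => D.X1 a (update x a s)) (D.X2 a (update x a t)) t
  bX : ∀ x, ‖D.X x‖ ≤ B
  br : ∀ x, ‖D.r x‖ ≤ B
  bf : ∀ a x, ‖D.f a x‖ ≤ B
  bf1 : ∀ a x, ‖D.f1 a x‖ ≤ B
  bf2 : ∀ a x, ‖D.f2 a x‖ ≤ B
  bX1 : ∀ a x, ‖D.X1 a x‖ ≤ B
  bX2 : ∀ a x, ‖D.X2 a x‖ ≤ B

/-- Taylor weight -/
def wt (t : ℝ) : ℝ := |t| ^ 3 / 2 + |t|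

/-- the pointwise size conditions at `x` with the (random) parameter `φ` -/
def MData.Cond1 (D : MData ι) (φ : ℝ) (x : ι → ℝ) : Prop :=
  ∃ a0 a1 a2 b1 b2 : ι → ℝ,
    (∀ a, ∀ t ∈ Set.uIcc 0 (x a), ‖D.f a (update x a t)‖ ≤ a0 a ∧ ‖D.f1 a (update x a t)‖ ≤ a1 a ∧
      ‖D.f2 a (update x a t)‖ ≤ a2 a ∧ ‖D.X1 a (update x a t)‖ ≤ b1 a ∧
      ‖D.X2 a (update x a t)‖ ≤ b2 a ∧ ‖D.X (update x a t) - D.X x‖ ≤ φ) ∧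
    ‖D.r x + ∑ a, D.f1 a x‖ + ∑ a, wt (x a) * a2 a ≤ φ ∧
    ‖∑ a, D.f a x * D.X1 a x‖ + ‖∑ a, D.f a x * (starRingEnd ℂ) (D.X1 a x)‖ +
      ∑ a, wt (x a) * (a1 a * b1 a + a0 a * b2 a) ≤ φ ^ 2 ∧
    ∑ a, wt (x a) * (a0 a * b1 a ^ 2) ≤ φ ^ 3

/-- the pointwise condition with the deterministic parameter `φ0` -/
def MData.Cond (D : MData ι) (φ0 : ℝ) (x : ι → ℝ) : Prop :=
  ∃ φ, 0 ≤ φ ∧ φ ^ 2 ≤ φ0 ^ 2 + φ0 * ‖D.X x‖ ∧ D.Cond1 φ x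

end mdata

/-- **L1, the recursive moment lemma** (helper91) -/
def MomStmt : Prop :=
  ∀ (ι : Type) [Fintype ι] [DecidableEq ι] (ν : ι → Measure ℝ), (∀ a, Law (ν a)) →
    ∀ (D : MData ι) (B φ0 δ l : ℝ) (p : ℕ), D.Ok B → 1 ≤ B → 0 < φ0 → 0 < δ → 0 < l → 2 ≤ p →
      Measure.pi ν {x | ¬ D.Cond φ0 x} ≤ ENNReal.ofReal δ →
      Measure.pi ν {x | l < ‖D.X x‖} ≤ ENNReal.ofReal
        (((512 * p ^ 2 * φ0) ^ (2 * p) +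
          10 ^ 5 * (Fintype.card ι + 1) * p ^ 2 * B ^ (2 * p) * (δ + √δ)) / l ^ (2 * p))

/-! ### very high probability -/

/-- `P` holds with probability `≥ 1 - exp (-n^c)`, uniformly in the ensemble and the parameter -/
def Vhp {Θ : ℕ → Type} (P : ∀ n (E : Ens n), Θ n → (E.ι → ℝ) → Prop) : Prop :=
  ∃ c : ℝ, 0 < c ∧ ∀ᶠ n : ℕ in atTop, ∀ (E : Ens n) (θ : Θ n),
    E.μ {x | ¬ P n E θ x} ≤ ENNReal.ofReal (Real.exp (-(n : ℝ) ^ c))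

/-- the same for a property of the matrix -/
def VhpM {Θ : ℕ → Type} (P : ∀ n, Θ n → Matrix (Fin n) (Fin n) ℝ → Prop) : Prop :=
  Vhp (Θ := Θ) fun n E θ x => P n θ (E.H x)

/-- **L2, resolvent API** (deterministic) -/
structure ResApi : Prop where
  herm : ∀ {n : ℕ} (E : Ens n) (x : E.ι → ℝ), (E.H x).IsHermitian
  upd : ∀ {n : ℕ} (E : Ens n) (x : E.ι → ℝ) (a : E.ι) (t : ℝ),
    E.H (update x a t) = E.H x + ((t - x a) * E.c a) • Dl (E.i a) (E.j a)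
  covC : ∀ {n : ℕ} (E : Ens n) (F : Fin n → Fin n → ℂ),
    ∑ a, ((E.c a : ℂ)) ^ 2 * (F (E.i a) (E.j a) + F (E.j a) (E.i a)) =
      (∑ k, ∑ l, F k l + ∑ k, (E.d k : ℂ) * F k k) / n
  cov_le : ∀ {n : ℕ} (E : Ens n) (F : Fin n → Fin n → ℝ), (∀ k l, 0 ≤ F k l) →
    ∑ a, E.c a ^ 2 * (F (E.i a) (E.j a) + F (E.j a) (E.i a)) ≤ 2 * (∑ k, ∑ l, F k l) / n
  expand : ∀ {n : ℕ} (E : Ens n) (x : E.ι → ℝ) {z : ℂ}, 0 < z.im → ∀ u v : Fin n → ℝ,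
    ((u ⬝ᵥ v : ℝ) : ℂ) + z * gb (E.H x) z u v = ∑ a, (x a : ℂ) * ((E.c a : ℂ) *
      (u (E.i a) * gb (E.H x) z (ee (E.j a)) v + u (E.j a) * gb (E.H x) z (ee (E.i a)) v))
  deriv : ∀ {n : ℕ} (E : Ens n) (x : E.ι → ℝ) (a : E.ι) {z : ℂ}, 0 < z.im →
    ∀ (u v : Fin n → ℝ) (t : ℝ), HasDerivAt (fun s => gb (E.H (update x a s)) z u v)
      (-(E.c a : ℂ) * (gb (E.H (update x a t)) z u (ee (E.i a)) * gb (E.H (update x a t)) z (ee (E.j a)) v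
        + gb (E.H (update x a t)) z u (ee (E.j a)) * gb (E.H (update x a t)) z (ee (E.i a)) v)) t
  meas : ∀ {n : ℕ} (E : Ens n) (z : ℂ) (u v : Fin n → ℝ), Measurable fun x => gb (E.H x) z u v
  symm : ∀ {n : ℕ} {A : Matrix (Fin n) (Fin n) ℝ}, A.IsHermitian → ∀ (z : ℂ) (u v : Fin n → ℝ),
    gb A z u v = gb A z v u
  entry : ∀ {n : ℕ} (A : Matrix (Fin n) (Fin n) ℝ) (z : ℂ) (k l : Fin n),
    gb A z (ee k) (ee l) = Res A z k l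
  lin : ∀ {n : ℕ} (A : Matrix (Fin n) (Fin n) ℝ) (z : ℂ) (u v : Fin n → ℝ),
    gb A z u v = ∑ k, (u k : ℂ) * gb A z (ee k) v
  st_eq : ∀ {n : ℕ} (A : Matrix (Fin n) (Fin n) ℝ) (z : ℂ), st A z = (∑ k, gb A z (ee k) (ee k)) / n
  bound : ∀ {n : ℕ} {A : Matrix (Fin n) (Fin n) ℝ}, A.IsHermitian → ∀ {z : ℂ}, 0 < z.im →
    ∀ u v : Fin n → ℝ, u ⬝ᵥ u ≤ 1 → v ⬝ᵥ v ≤ 1 → ‖gb A z u v‖ ≤ 1 / z.im
  im_nonneg : ∀ {n : ℕ} {A : Matrix (Fin n) (Fin n) ℝ}, A.IsHermitian → ∀ {z : ℂ}, 0 < z.im →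
    ∀ u : Fin n → ℝ, 0 ≤ (gb A z u u).im
  ward : ∀ {n : ℕ} {A : Matrix (Fin n) (Fin n) ℝ}, A.IsHermitian → ∀ {z : ℂ}, 0 < z.im →
    ∀ u : Fin n → ℝ, ∑ k, ‖gb A z (ee k) u‖ ^ 2 = (gb A z u u).im / z.im
  ward2 : ∀ {n : ℕ} {A : Matrix (Fin n) (Fin n) ℝ}, A.IsHermitian → ∀ {z : ℂ}, 0 < z.im →
    ∑ k, ∑ l, ‖∑ m, gb A z (ee k) (ee m) * gb A z (ee m) (ee l)‖ ^ 2 ≤ n * (st A z).im / z.im ^ 3
  pert : ∀ {n : ℕ} {A : Matrix (Fin n) (Fin n) ℝ}, A.IsHermitian → ∀ {z : ℂ}, 0 < z.im →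
    ∀ (τ : ℝ) (i j : Fin n) (u v : Fin n → ℝ), gb (A + τ • Dl i j) z u v = gb A z u v -
      τ * (gb (A + τ • Dl i j) z u (ee i) * gb A z (ee j) v +
        gb (A + τ • Dl i j) z u (ee j) * gb A z (ee i) v)
  resz : ∀ {n : ℕ} {A : Matrix (Fin n) (Fin n) ℝ}, A.IsHermitian → ∀ {z z' : ℂ}, 0 < z.im →
    0 < z'.im → ∀ u v : Fin n → ℝ,
      gb A z u v - gb A z' u v = (z - z') * ∑ k, gb A z u (ee k) * gb A z' (ee k) v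
  lipz : ∀ {n : ℕ} {A : Matrix (Fin n) (Fin n) ℝ}, A.IsHermitian → ∀ {z z' : ℂ}, 0 < z.im →
    0 < z'.im → ∀ u v : Fin n → ℝ, u ⬝ᵥ u ≤ 1 → v ⬝ᵥ v ≤ 1 →
      ‖gb A z u v - gb A z' u v‖ ≤ ‖z - z'‖ / (z.im * z'.im)
  lipst : ∀ {n : ℕ} {A : Matrix (Fin n) (Fin n) ℝ}, A.IsHermitian → ∀ {z z' : ℂ}, 0 < z.im →
    0 < z'.im → ‖st A z - st A z'‖ ≤ ‖z - z'‖ / (z.im * z'.im)
  bd_down : ∀ {n : ℕ} {A : Matrix (Fin n) (Fin n) ℝ}, A.IsHermitian → ∀ {z z' : ℂ}, 0 < z.im →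
    z.re = z'.re → z.im ≤ z'.im → ∀ {Γ : ℝ} {u v : Fin n → ℝ}, Bd A z' Γ u v →
      Bd A z (2 * (z'.im / z.im) * Γ) u v
  spec : ∀ {n : ℕ} {A : Matrix (Fin n) (Fin n) ℝ}, A.IsHermitian → ∀ {z : ℂ}, z.im ≠ 0 →
    ∀ u v : Fin n → ℝ, gb A z u v = ∑ k ∈ Finset.range n,
      ((lam A k : ℂ) - z)⁻¹ * (((vec A k ⬝ᵥ u) * (vec A k ⬝ᵥ v) : ℝ) : ℂ)
  spec_st : ∀ {n : ℕ} {A : Matrix (Fin n) (Fin n) ℝ}, A.IsHermitian → ∀ {z : ℂ}, z.im ≠ 0 →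
    st A z = (∑ k ∈ Finset.range n, ((lam A k : ℂ) - z)⁻¹) / n
  eigv : ∀ {n : ℕ} {A : Matrix (Fin n) (Fin n) ℝ}, A.IsHermitian → ∀ {z : ℂ}, 0 < z.im →
    ∀ (w v : Fin n → ℝ) (l : ℝ), A *ᵥ w = l • w → w ⬝ᵥ w ≤ 1 →
      (w ⬝ᵥ v) ^ 2 ≤ ‖(l : ℂ) - z‖ ^ 2 * ((gb A z v v).im / z.im)

/-- **L3, semicircle API** -/
structure MscApi : Prop where
  eq : ∀ z : ℂ, msc z ^ 2 + z * msc z + 1 = 0
  im_pos : ∀ {z : ℂ}, 0 < z.im → 0 < (msc z).im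
  uniq : ∀ {z m : ℂ}, 0 < z.im → 0 ≤ m.im → m ^ 2 + z * m + 1 = 0 → m = msc z
  factor : ∀ z m : ℂ, 1 + z * m + m ^ 2 = (m - msc z) * (m - (msc z)⁻¹)
  inv_eq : ∀ z : ℂ, (msc z)⁻¹ = -z - msc z
  al_eq : ∀ z : ℂ, al z = ‖msc z - (msc z)⁻¹‖
  al_sq : ∀ z : ℂ, al z ^ 2 = ‖z - 2‖ * ‖z + 2‖
  normSq : ∀ {z : ℂ}, 0 < z.im → ‖msc z‖ ^ 2 * ((msc z).im + z.im) = (msc z).im
  norm_le : ∀ {z : ℂ}, 0 < z.im → ‖msc z‖ ≤ 1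
  le_norm : ∀ {z : ℂ}, 0 < z.im → 1 / (‖z‖ + 1) ≤ ‖msc z‖
  im_le_al : ∀ {z : ℂ}, 0 < z.im → 2 * (msc z).im + z.im ≤ al z
  le_im : ∀ {z : ℂ}, 0 < z.im → z.im / (‖z‖ + 1) ^ 2 ≤ (msc z).im
  le_al_im : ∀ {z : ℂ}, 0 < z.im → z.im / (‖z‖ + 1) ≤ al z * (msc z).im
  inside : ∀ {z : ℂ}, 0 < z.im → |z.re| ≤ 2 → al z ≤ 2 * (2 * (msc z).im + z.im)
  outside : ∀ {z : ℂ}, 0 < z.im → 2 ≤ |z.re| → z.im ≤ 2 → al z * (msc z).im ≤ |z.re| * z.im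
  lip : ∀ {z z' : ℂ}, 0 < z.im → 0 < z'.im → z.im ≤ 1 → ‖msc z - msc z'‖ ≤ 4 * ‖z - z'‖ / z.im
  lip' : ∀ {z z' : ℂ}, 0 < z.im → 0 < z'.im → 1 ≤ z.im → ‖msc z - msc z'‖ ≤ 4 * ‖z - z'‖
  al_mono : ∀ {z z' : ℂ}, 0 < z.im → z.re = z'.re → z.im ≤ z'.im → al z ≤ al z'
  dist : ∀ {z m : ℂ}, 0 < z.im → 0 ≤ m.im → ∃ δ : ℝ, 0 ≤ δ ∧
    (δ = ‖m - msc z‖ ∨ δ = ‖m - (msc z)⁻¹‖) ∧ δ ≤ ‖m - msc z‖ ∧ δ ≤ ‖m - (msc z)⁻¹‖ ∧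
    δ ^ 2 ≤ ‖1 + z * m + m ^ 2‖ ∧ al z * δ ≤ 2 * ‖1 + z * m + m ^ 2‖ ∧
    m.im ≤ (msc z).im + δ ∧ ‖z + 2 * m‖ ≤ al z + 2 * δ
  deriv : ∀ {z : ℂ}, 0 < z.im → HasDerivAt msc (-msc z / (z + 2 * msc z)) z
  near : ∀ (K ε : ℝ), 0 < ε → ∀ᶠ n : ℕ in atTop, ∀ z z' : ℂ, Dom K ε n z → Dom K ε n z' →
    ‖z - z'‖ ≤ 1 / (n : ℝ) ^ 10 → qq n z' ≤ 2 * qq n z ∧ Phi n z' ≤ 8 * Phi n z ∧
      Psi n z' ≤ 2 * Psi n z ∧ ‖msc z - msc z'‖ ≤ 1 / (n : ℝ) ^ 8 ∧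
      1 / (n : ℝ) ^ 2 ≤ qq n z ∧ qq n z ≤ (n : ℝ) ^ (-ε) ∧ 1 / (n : ℝ) ^ 2 ≤ Phi n z ∧
      1 / (n : ℝ) ≤ Psi n z

/-- **L4, calculus of `Vhp`** -/
structure VhpApi : Prop where
  of_all : ∀ {Θ : ℕ → Type} {P : ∀ n (E : Ens n), Θ n → (E.ι → ℝ) → Prop},
    (∀ᶠ n : ℕ in atTop, ∀ E θ x, P n E θ x) → Vhp P
  mono : ∀ {Θ : ℕ → Type} {P Q : ∀ n (E : Ens n), Θ n → (E.ι → ℝ) → Prop}, Vhp P →
    (∀ᶠ n : ℕ in atTop, ∀ E θ x, P n E θ x → Q n E θ x) → Vhp Q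
  and : ∀ {Θ : ℕ → Type} {P Q : ∀ n (E : Ens n), Θ n → (E.ι → ℝ) → Prop}, Vhp P → Vhp Q →
    Vhp fun n E θ x => P n E θ x ∧ Q n E θ x
  comp : ∀ {Θ Θ' : ℕ → Type} {P : ∀ n (E : Ens n), Θ n → (E.ι → ℝ) → Prop} (g : ∀ n, Θ' n → Θ n),
    Vhp P → Vhp (Θ := Θ') fun n E θ x => P n E (g n θ) x
  all : ∀ {Θ T : ℕ → Type} [∀ n, Fintype (T n)] (k : ℕ)
    {P : ∀ n (E : Ens n), Θ n × T n → (E.ι → ℝ) → Prop},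
    (∀ᶠ n : ℕ in atTop, Fintype.card (T n) ≤ n ^ k) → Vhp (Θ := fun n => Θ n × T n) P →
    Vhp (Θ := Θ) fun n E θ x => ∀ τ, P n E (θ, τ) x
  allS : ∀ {Θ : ℕ → Type} (u v : ∀ n, Θ n → Fin n → ℝ)
    {P : ∀ n (E : Ens n), Θ n × (Fin n → ℝ) × (Fin n → ℝ) → (E.ι → ℝ) → Prop},
    Vhp (Θ := fun n => Θ n × (Fin n → ℝ) × (Fin n → ℝ)) P →
    Vhp (Θ := Θ) fun n E θ x => ∀ a b, InS (u n θ) (v n θ) a → InS (u n θ) (v n θ) b →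
      P n E (θ, a, b) x
  grid : ∀ {Θ : ℕ → Type} (K ε : ℝ) (k : ℕ)
    {R : ∀ n (E : Ens n), Θ n → ℂ → (E.ι → ℝ) → Prop},
    (Vhp (Θ := fun n => Θ n × ℂ) fun n E θ x => Dom K ε n θ.2 → R n E θ.1 θ.2 x) →
    Vhp (Θ := Θ) fun n E θ x => ∀ z, Dom K ε n z →
      ∃ z', Dom K ε n z' ∧ ‖z - z'‖ ≤ 1 / (n : ℝ) ^ k ∧ R n E θ z' x
  ent : ∀ {Θ : ℕ → Type} (ε : ℝ), 0 < ε → Vhp (Θ := Θ) fun n E _ x => ∀ a : E.ι, |x a| ≤ (n : ℝ) ^ ε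
  mom : ∀ {Θ : ℕ → Type} (X : ∀ n (E : Ens n), Θ n → (E.ι → ℝ) → ℂ) (φ0 : ∀ n, Θ n → ℝ)
    (A : ∀ n, Θ n → Prop) {Gd : ∀ n (E : Ens n), Θ n → (E.ι → ℝ) → Prop} (k : ℕ), Vhp Gd →
    (∀ᶠ n : ℕ in atTop, ∀ (E : Ens n) (θ : Θ n), A n θ → 1 / (n : ℝ) ^ k ≤ φ0 n θ ∧
      ∃ D : MData E.ι, D.X = X n E θ ∧ D.Ok ((n : ℝ) ^ k) ∧ ∀ x, Gd n E θ x → D.Cond (φ0 n θ) x) →
    ∀ ε : ℝ, 0 < ε → Vhp (Θ := Θ) fun n E θ x => A n θ → ‖X n E θ x‖ ≤ (n : ℝ) ^ ε * φ0 n θ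

/-- **L5, deterministic bounds for `Q_{uv}`** -/
def QDetStmt : Prop :=
  ∃ (C : ℝ) (k : ℕ), 1 ≤ C ∧ ∀ (n : ℕ) (E : Ens n) (z : ℂ) (u v : Fin n → ℝ), 1 ≤ n →
    1 / (n : ℝ) ≤ z.im → ‖z‖ ≤ n → u ⬝ᵥ u ≤ 1 → v ⬝ᵥ v ≤ 1 →
    ∃ D : MData E.ι, (D.X = fun x => QQ (E.H x) z u v) ∧ D.Ok (C * (n : ℝ) ^ k) ∧
      ∀ (x : E.ι → ℝ) (W Γ ψ : ℝ), 1 ≤ W → 1 ≤ Γ → ‖z‖ ≤ Γ → (∀ a, |x a| ≤ W) →
        8 * W * Γ ≤ √(n : ℝ) → Bd (E.H x) z Γ u v → 0 ≤ ψ → ψ ≤ 1 → 1 / (n : ℝ) ≤ ψ ^ 2 →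
        (∀ a, InS u v a → qq n z * (gb (E.H x) z a a).im ≤ ψ ^ 2) →
        D.Cond1 (C * (W * Γ) ^ k * ψ) x

/-- **L6, deterministic bounds for `P`** -/
def PDetStmt : Prop :=
  ∃ (C : ℝ) (k : ℕ), 1 ≤ C ∧ ∀ (n : ℕ) (E : Ens n) (z : ℂ), 1 ≤ n →
    1 / (n : ℝ) ≤ z.im → ‖z‖ ≤ n →
    ∃ D : MData E.ι, (D.X = fun x => PP (E.H x) z) ∧ D.Ok (C * (n : ℝ) ^ k) ∧
      ∀ (x : E.ι → ℝ) (W Γ : ℝ), 1 ≤ W → 1 ≤ Γ → ‖z‖ ≤ Γ → (∀ a, |x a| ≤ W) →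
        8 * W * Γ ≤ √(n : ℝ) → (∀ k l, ‖gb (E.H x) z (ee k) (ee l)‖ ≤ Γ) →
        D.Cond1 (C * (W * Γ) ^ k * phi1 n z (st (E.H x) z)) x

/-- **L7, the self-improving inequality for `P`** -/
def PhiStmt : Prop :=
  ∀ K : ℝ, ∃ C : ℝ, 1 ≤ C ∧ ∀ (n : ℕ) (z m : ℂ), 1 ≤ n → 1 / (n : ℝ) ≤ z.im → ‖z‖ ≤ K → 0 ≤ m.im →
    phi1 n z m ^ 2 ≤ C * (Phi n z ^ 2 + Phi n z * ‖1 + z * m + m ^ 2‖)

/-- **L8, a priori bound (bootstrap)** -/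
def AprStmt : Prop :=
  ∀ K ε : ℝ, 0 < ε → ∃ C : ℝ, 1 ≤ C ∧ VhpM (Θ := fun n => (Fin n → ℝ) × (Fin n → ℝ))
    fun n θ A => θ.1 ⬝ᵥ θ.1 ≤ 1 → θ.2 ⬝ᵥ θ.2 ≤ 1 → ∀ z, Dom K ε n z → Bd A z C θ.1 θ.2

/-- **L9a, the self-consistent equation** -/
def PStmt : Prop :=
  ∀ K ε ε' : ℝ, 0 < ε → 0 < ε' → VhpM (Θ := fun _ => Unit)
    fun n _ A => ∀ z, Dom K ε n z → ‖PP A z‖ ≤ (n : ℝ) ^ ε' * Phi n z

/-- **L9b, averaged local law** -/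
def AvgStmt : Prop :=
  ∀ K ε ε' : ℝ, 0 < ε → 0 < ε' → VhpM (Θ := fun _ => Unit)
    fun n _ A => ∀ z, Dom K ε n z → ‖st A z - msc z‖ ≤ (n : ℝ) ^ ε' * qq n z ∧
      al z * ‖st A z - msc z‖ ≤ (n : ℝ) ^ ε' * Phi n z

/-- **L10, isotropic local law** -/
def IsoStmt : Prop :=
  ∀ K ε ε' : ℝ, 0 < ε → 0 < ε' → VhpM (Θ := fun n => (Fin n → ℝ) × (Fin n → ℝ))
    fun n θ A => θ.1 ⬝ᵥ θ.1 ≤ 1 → θ.2 ⬝ᵥ θ.2 ≤ 1 → ∀ z, Dom K ε n z →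
      ∀ a b, InS θ.1 θ.2 a → InS θ.1 θ.2 b →
        ‖gb A z a b - msc z * ((a ⬝ᵥ b : ℝ) : ℂ)‖ ≤ (n : ℝ) ^ ε' * Psi n z

/-- **L11a, crude norm bound** -/
def NormStmt : Prop :=
  ∃ K0 : ℝ, VhpM (Θ := fun _ => Unit) fun _ _ A => opn A ≤ K0

/-- **L11b, no outliers** -/
def EdgeStmt : Prop :=
  ∀ ε : ℝ, 0 < ε → VhpM (Θ := fun _ => Unit) fun n _ A => opn A ≤ 2 + (n : ℝ) ^ (-(2 / 3 : ℝ) + ε)

/-- **L12, eigenvalue counting** (`cnt A x = #{k | x ≤ lam A k}`) -/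
def CntStmt : Prop :=
  ∀ ε : ℝ, 0 < ε → VhpM (Θ := fun _ => Unit) fun n _ A => ∀ t ∈ Set.Icc (0 : ℝ) Real.pi,
    |(cnt A (2 * Real.cos t) : ℝ) - n * (t - Real.sin t * Real.cos t) / Real.pi| ≤ (n : ℝ) ^ ε

/-- **L13, isotropic delocalisation** -/
def DelStmt : Prop :=
  ∀ ε : ℝ, 0 < ε → VhpM (Θ := fun n => Fin n → ℝ) fun n v A => v ⬝ᵥ v ≤ 1 →
    ∀ (w : Fin n → ℝ) (l : ℝ), A *ᵥ w = l • w → w ⬝ᵥ w ≤ 1 →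
      (w ⬝ᵥ v) ^ 2 ≤ (n : ℝ) ^ (-1 + ε) ∧ ∀ k, w k ^ 2 ≤ (n : ℝ) ^ (-1 + ε)

/-- **L14, transfer to `Jmat` / `Wmat`** -/
structure InstApi : Prop where
  law : ∀ b, Law (entryLaw b)
  toJ : ∀ {Θ : ℕ → Type} {P : ∀ n, Θ n → Matrix (Fin n) (Fin n) ℝ → Prop}, VhpM P →
    ∃ c : ℝ, 0 < c ∧ ∀ᶠ n : ℕ in atTop, ∀ ν : Pair n → Measure ℝ, (∀ p, Law (ν p)) → ∀ θ : Θ n,
      Measure.pi ν {g | ¬ P n θ (Jmat n g)} ≤ ENNReal.ofReal (Real.exp (-(n : ℝ) ^ c))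
  toW : ∀ {Θ : ℕ → Type} {P : ∀ n, Θ n → Matrix (Fin n) (Fin n) ℝ → Prop}, VhpM P →
    ∃ c : ℝ, 0 < c ∧ ∀ᶠ n : ℕ in atTop, ∀ (ν : Pair n → Measure ℝ) (ν' : Fin n → Measure ℝ)
      (σ : Fin n → ℝ), (∀ p, Law (ν p)) → (∀ k, Law (ν' k)) → (∀ k, |σ k| ≤ 2) → ∀ θ : Θ n,
      ((Measure.pi ν).prod (Measure.pi ν'))
        {y | ¬ P n θ (Jmat n y.1 + diagonal fun k => σ k * y.2 k / √(n : ℝ))} ≤
        ENNReal.ofReal (Real.exp (-(n : ℝ) ^ c))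

end Crest.Agent.T157.Ll
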