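import Crest.Agent.T157.CwDef_8
import Crest.Agent.T157.LlDef_91

/-!
# Row 157, part C (helper72): coin windows, II. The penalty forcing the spectral event

`PenStmt`: a light function `Y ≤ 0` of the couplings, of size `O(log n)` on the typical event
`Fine`, such that `-H ≤ Y` forces `Cw.WW` up to a Gaussian probability `exp (-H)`.
`Y = -log (1 + ∑ exp u_i)`, the `u_i` are affine in Gaussian integrals over boxes.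
-/

set_option autoImplicit false

noncomputable section

namespace Crest.Agent.T157.Cp

open MeasureTheory ProbabilityTheory Matrix Set Filter
open scoped ENNReal
open Crest.ProbabilityR.SpinGlassDynamics
open Crest.Agent.T157.E Crest.Agent.T157.Cw
open Crest.Agent.T157.Qe (V Mx Le zz ell GOE)
open Crest.Agent.T157.Conc (ex)
open Crest.Agent.T157.Dq (Dg)

variable {n : ℕ}

/-- the box of radius `ρ` -/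
def box (ρ : ℝ) : Set (V n) := {x | ∀ i, |x i| ≤ ρ}
/-- logarithm of the Gaussian integral over the box -/
def Jx (ρ : ℝ) (N : Mx n) : ℝ :=
  Real.log (∫ x in box ρ, Real.exp ((x ⬝ᵥ x - x ⬝ᵥ N *ᵥ x) / 2) ∂Conc.gv (Fin n))
/-- resolvent -/
def Rz (z : ℝ) (W : Mx n) : Mx n := (z • (1 : Mx n) - W)⁻¹
/-- logarithmic potential -/
def Ph (a : V n) (z : ℝ) : ℝ := ∑ i, Real.log (z - a i)
/-- Stieltjes transform -/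
def Tz (a : V n) (z : ℝ) : ℝ := ∑ i, (z - a i)⁻¹
/-- squared Frobenius norm -/
def fr (W : Mx n) : ℝ := ∑ i, ∑ j, W i j ^ 2

/-- **P1** box integrals -/
structure BoxStmt (C : ℝ) : Prop where
  meas : ∀ (n : ℕ) (ρ z : ℝ), Measurable fun W : Mx n => Jx ρ (z • (1 : Mx n) - W)
  lt : ∀ (n : ℕ) (ρ z : ℝ) (dd : V n), 0 < ρ →
    LT (C * ρ ^ 8) fun g => Jx ρ (z • (1 : Mx n) - Wmat n g dd)
  up : ∀ (n : ℕ) (ρ z : ℝ) (W : Mx n) (a : V n), 0 < ρ → Dg W a → (∀ i, a i < z) →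
    Jx ρ (z • (1 : Mx n) - W) ≤ -Ph a z / 2
  lo : ∀ (n : ℕ) (ρ z K : ℝ) (W : Mx n) (a : V n), 1 ≤ n → 0 < ρ → 0 < K → Dg W a →
    (∀ i, a i < z) → (∀ i, Rz z W i i ≤ K) → 2 * K * Real.log (4 * n) ≤ ρ ^ 2 →
    -Ph a z / 2 - Real.log 2 ≤ Jx ρ (z • (1 : Mx n) - W)
  sh : ∀ (n : ℕ) (ρ : ℝ) (N : Mx n) (u : V n), 0 < ρ → Nᵀ = N → u ∈ box ρ →
    Jx ρ N - u ⬝ᵥ N *ᵥ u / 2 ≤ Jx (2 * ρ) N

def BoxGlue : Prop := ∀ C, LtStmt C → BoxStmt C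

/-- **P2** averaging over the orthogonal group: one rotated vector is a Gaussian direction -/
def RotStmt : Prop := ∀ (n : ℕ) (E : Set (Mx n)) (δ : ℝ≥0∞), MeasurableSet E →
  (∀ W : Mx n, Wᵀ = W → ∃ (v : V n) (A : Set (V n)), v ⬝ᵥ v = 1 ∧ MeasurableSet A ∧
    (∀ c : ℝ, 0 < c → ∀ x, c • x ∈ A ↔ x ∈ A) ∧ Conc.gv (Fin n) A ≤ δ ∧
    ((∀ O : Mx n, O * Oᵀ = 1 → O * W * Oᵀ ∈ E → O *ᵥ v ∈ A) ∨
      ∀ O : Mx n, O * Oᵀ = 1 → O * W * Oᵀ ∈ E → Oᵀ *ᵥ v ∈ A)) →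
  GOE n E ≤ δ

/-- an outlier that no vector of the box sees -/
def E1 (ρ z x H : ℝ) : Set (Mx n) := {W | Wᵀ = W ∧ Le ((-3 : ℝ) • (1 : Mx n)) W ∧
  Le W ((3 : ℝ) • (1 : Mx n)) ∧ ¬ Le W ((z + x) • (1 : Mx n)) ∧
  ∀ u ∈ box ρ, u ⬝ᵥ (W - z • (1 : Mx n)) *ᵥ u ≤ 2 * H}

/-- **P3** the top eigenvector is flat -/
def TopStmt : Prop := ∀ (n : ℕ) (ρ z x H : ℝ), 1 ≤ n → 0 < ρ → 0 < x → x ≤ 1 → 0 < H →
  128 * H * Real.log n ≤ ρ ^ 2 * x * n →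
  GOE n (E1 ρ z x H) ≤ ex (-(n / 16 : ℝ)) + ex (2 - x * n / 112)

def TopGlue : Prop := RotStmt → TopStmt

/-- a large diagonal entry of a resolvent of bounded trace -/
def E3 (z η : ℝ) : Set (Mx n) := {W | Wᵀ = W ∧ Le W ((z - η) • (1 : Mx n)) ∧
  (Rz z W).trace ≤ 4 * n ∧ ∃ i, 32 < Rz z W i i}

/-- **P4** the diagonal of the resolvent -/
def DiagStmt : Prop := ∀ (n : ℕ) (z η : ℝ), 0 < η → η ≤ 1 / 16 →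
  GOE n (E3 z η) ≤ n * ex (-(2 * η * n))

def DiagGlue : Prop := RotStmt → DiagStmt

/-- **P5** two-set concentration -/
def NearStmt : Prop := ∀ (n : ℕ) (F : Set (Mx n)) (H : ℝ), 1 ≤ n → 1 ≤ H → GOE n Fᶜ ≤ 2⁻¹ →
  GOE n {W | ∀ W' ∈ F, 16 * H / n ≤ fr (W - W')} ≤ ex (-H)

/-- **P6** linear statistics of two matrices -/
def HwStmt : Prop := ∀ (n : ℕ) (W W' : Mx n) (a a' φ ψ : V n) (f : ℝ → ℝ), Dg W a → Dg W' a' →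
  (∀ k l, |f (a k) - f (a' l)| ≤ (φ k + ψ l) * |a k - a' l|) →
  (∑ k, f (a k) - ∑ l, f (a' l)) ^ 2 ≤ 2 * (∑ k, φ k ^ 2 + ∑ l, ψ l ^ 2) * fr (W - W')

/-- **P7** from the grid `g = j δ` to all spectral parameters -/
def GridStmt : Prop := ∀ (n : ℕ) (a : V n) (w δ D : ℝ), 0 < δ → 128 * δ ≤ w → w ≤ 1 / 4 → 0 ≤ D →
  2 * D ≤ n * δ * w → (∀ i, a i ≤ 2 + w ^ 2 / 2) →
  (∀ j : ℕ, j * δ ∈ Icc (1 / 128 : ℝ) (1 - w) → Tz a (zz (j * δ)) ≤ 4 * n →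
    |Ph a (zz (j * δ)) - n * ell (j * δ)| ≤ D) →
  ∀ g ∈ Icc (1 / 64 : ℝ) (1 - 2 * w),
    |Tz a (zz g) - n * g| ≤ 2 * n * δ + 2 * D / (δ * w) ∧
    |Ph a (zz g) - n * ell g| ≤ D + 24576 * δ * √(zz g - 2) * (3 * n * δ + 2 * D / (δ * w)) ∧
    ∑ i, ((zz g - a i) ^ 2)⁻¹ ≤
      (n * √(zz g - 2) + 8 * (2 * n * δ + 2 * D / (δ * w))) / (zz g - 2)

/-- the typical event -/
def Fine (ζ : ℝ) (W : Mx n) : Prop := ∃ a, Dg W a ∧ (∀ i, |a i| ≤ 2 + (n : ℝ) ^ (ζ - 2 / 3)) ∧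
  ∀ g ∈ Ico (1 / 128 : ℝ) 1, 2 * (n : ℝ) ^ (ζ - 2 / 3) ≤ zz g - 2 →
    |Tz a (zz g) - n * g| ≤ 2 * (n : ℝ) ^ ζ / (zz g - 2) ∧
    |Ph a (zz g) - n * ell g| ≤ (n : ℝ) ^ (2 * ζ) ∧
    ∀ i, Rz (zz g) W i i ≤ (n : ℝ) ^ (ζ - 1) * Tz a (zz g)

/-- **P8** it is typical for every ensemble -/
def FineStmt : Prop := ∀ ζ > (0 : ℝ), Ll.VhpM (Θ := fun _ => Unit) fun _ _ A => Fine ζ A

/-- **the penalty** -/
def PenStmt : Prop := ∀ κ > (0 : ℝ), ∀ d > (0 : ℝ), ∀ η > (0 : ℝ), ∃ ζ > (0 : ℝ), ∃ c > (0 : ℝ),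
  ∀ᶠ n : ℕ in atTop, ∀ t e H : ℝ, (n : ℝ) ^ d / (n : ℝ) ^ (2 / 3 : ℝ) ≤ t → t ≤ 1 →
    (n : ℝ) ^ (-ζ) ≤ e → e ≤ 1 / 4 → 0 ≤ H → H ≤ c * e ^ 3 * n * t →
    H ≤ (n : ℝ) ^ ζ * (n * t ^ (3 / 2 : ℝ)) →
    ∃ Y : Mx n → ℝ, Measurable Y ∧ (∀ W, Y W ≤ 0) ∧
      (∀ dd, LT ((n : ℝ) ^ η) fun g => Y (Wmat n g dd)) ∧
      (∀ W, Fine ζ W → -(3 * Real.log n) ≤ Y W) ∧
      GOE n {W | ¬ WW t e κ W ∧ -H ≤ Y W} ≤ ex (-H)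

def PenGlue : Prop := ∀ C, LtStmt C → BoxStmt C → TopStmt → DiagStmt → NearStmt → HwStmt →
  GridStmt → FineStmt → PenStmt

end Crest.Agent.T157.Cp

end
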