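import Crest.Agent.T157.CpDef_72
import Crest.Agent.T157.QeA_24

/-!
# Row 157, coin windows: the penalty, deterministic part (helper72)
-/

set_option autoImplicit false

noncomputable section

namespace Crest.Agent.T157.Cp.Pen72

open Matrix Set Finset
open Crest.Agent.T157.Cw
open Crest.Agent.T157.Qe (V Mx Le zz ell)
open Crest.Agent.T157.Dq (Dg)

variable {n : ℕ}

lemma zz_sub {g : ℝ} (hg : 0 < g) : zz g - 2 = (1 - g) ^ 2 / g := by rw [zz]; field_simp; ring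

lemma zz_ge {g w : ℝ} (hg : 0 < g) (hw : 0 ≤ w) (h : g ≤ 1 - w) : w ^ 2 ≤ zz g - 2 := by
  rw [zz_sub hg, le_div_iff₀ hg]
  nlinarith [mul_nonneg hw hw, mul_nonneg (mul_nonneg hw hw) hw]

lemma trace_Rz {W : Mx n} {a : V n} {z : ℝ} (h : Dg W a) (hz : ∀ i, a i < z) :
    (Rz z W).trace = Tz a z := by
  obtain ⟨O, hO, rfl⟩ := h
  have hO' : Oᵀ * O = 1 := mul_eq_one_comm.1 hO
  have e : z • (1 : Mx n) - O * diagonal a * Oᵀ = O * diagonal (fun i => z - a i) * Oᵀ := by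
    rw [← diagonal_sub, mul_sub, sub_mul, ← smul_one_eq_diagonal, mul_smul_comm, mul_one,
      smul_mul_assoc, hO]
  have : Rz z (O * diagonal a * Oᵀ) = O * diagonal (fun i => (z - a i)⁻¹) * Oᵀ := by
    rw [Rz, e]
    refine inv_eq_right_inv ?_
    simp only [mul_assoc]
    rw [← mul_assoc Oᵀ, hO', one_mul, ← mul_assoc (Matrix.diagonal _), diagonal_mul_diagonal]
    simp only [fun i => mul_inv_cancel₀ (sub_pos.2 (hz i)).ne', diagonal_one, one_mul, hO]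
  rw [this, trace_mul_cycle, hO', one_mul, trace_diagonal, Tz]

set_option maxHeartbeats 1000000 in
/-- consequences of the grid bounds -/
lemma grid9 (hG : GridStmt) {a : V n} {ε τ : ℝ} (e0 : 0 < ε) (e1 : ε ≤ 1 / 2) (t0 : 0 < τ)
    (t1 : τ ≤ 1) (ha : ∀ i, a i ≤ 2 + (ε * τ / 2) ^ 2 / 2)
    (hQ : ∀ j : ℕ, j * (ε ^ 2 * τ / 10 ^ 5) ∈ Icc (1 / 128 : ℝ) (1 - ε * τ / 2) →
      Tz a (zz (j * (ε ^ 2 * τ / 10 ^ 5))) ≤ 4 * n →
      |Ph a (zz (j * (ε ^ 2 * τ / 10 ^ 5))) - n * ell (j * (ε ^ 2 * τ / 10 ^ 5))| ≤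
        ε ^ 6 * n * τ ^ 3 / 10 ^ 6)
    {g σ : ℝ} (hg : g ∈ Ico (1 / 64 : ℝ) 1) (s0 : 0 < σ) (hσ : zz g - 2 = σ ^ 4)
    (hs : 2 * ε ^ 2 * τ ^ 2 ≤ σ ^ 4) :
    |Tz a (zz g) - n * g| ≤ ε ^ 2 * n * τ ∧
    |Ph a (zz g) - n * ell g| ≤ ε ^ 2 * n * (τ ^ 3 / 2 + τ ^ 2 * σ ^ 2 / 2) ∧
    ∑ i, ((zz g - a i) ^ 2)⁻¹ ≤ 9 * n / σ ^ 2 ∧ ∀ i, σ ^ 4 / 2 ≤ zz g - a i := by
  have n0 : (0 : ℝ) ≤ n := Nat.cast_nonneg n
  have g0 : 0 < g := by linarith [hg.1]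
  have et : ε * τ ≤ 1 / 2 := by nlinarith
  have et0 : 0 < ε * τ := by positivity
  have hg2 : g ≤ 1 - 2 * (ε * τ / 2) := by
    rcases le_total g (1 / 2) with h | h
    · linarith
    · have h1 : (ε * τ) ^ 2 ≤ (1 - g) ^ 2 := by
        have := zz_sub g0
        rw [hσ, eq_div_iff g0.ne'] at this
        nlinarith [sq_nonneg (ε * τ)]
      have := abs_le_of_sq_le_sq' h1 (by linarith [hg.2])
      linarith [this.2]
  have eD : 2 * (ε ^ 6 * n * τ ^ 3 / 10 ^ 6) / (ε ^ 2 * τ / 10 ^ 5 * (ε * τ / 2)) =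
      2 / 5 * ε * (ε ^ 2 * n * τ) := by field_simp; ring
  have X0 : 0 ≤ ε ^ 2 * n * τ := by positivity
  obtain ⟨h1, h2, h3⟩ := hG n a (ε * τ / 2) (ε ^ 2 * τ / 10 ^ 5) (ε ^ 6 * n * τ ^ 3 / 10 ^ 6)
    (by positivity) (by nlinarith) (by linarith) (by positivity) (by
      have : ε ^ 3 * τ ≤ 1 := mul_le_one₀ (pow_le_one₀ e0.le (by linarith)) t0.le t1
      have := mul_le_mul_of_nonneg_left this (by positivity : 0 ≤ ε ^ 3 * n * τ ^ 2)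
      have : 0 ≤ ε ^ 3 * n * τ ^ 2 := by positivity
      nlinarith) ha hQ g ⟨hg.1, hg2⟩
  have sq : √(σ ^ 4) = σ ^ 2 := by
    rw [show σ ^ 4 = (σ ^ 2) ^ 2 by ring, Real.sqrt_sq (by positivity)]
  rw [eD] at h1 h2 h3
  rw [hσ, sq] at h2 h3
  have X1 : ε * (ε ^ 2 * n * τ) ≤ 1 / 2 * (ε ^ 2 * n * τ) := mul_le_mul_of_nonneg_right e1 X0
  have es : ε * τ ≤ σ ^ 2 := (abs_le_of_sq_le_sq' (by nlinarith [sq_nonneg (ε * τ)])
    (by positivity)).2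
  refine ⟨h1.trans (by nlinarith), h2.trans ?_, h3.trans ?_, fun i => by
    nlinarith [ha i, sq_nonneg (ε * τ)]⟩
  · have a1 : ε ^ 6 * n * τ ^ 3 ≤ ε ^ 2 * n * τ ^ 3 := by
      have : ε ^ 6 ≤ ε ^ 2 := pow_le_pow_of_le_one e0.le (by linarith) (by norm_num)
      gcongr
    have a2 : 3 * n * (ε ^ 2 * τ / 10 ^ 5) + 2 / 5 * ε * (ε ^ 2 * n * τ) ≤ ε ^ 2 * n * τ := by
      nlinarith
    have a3 : 24576 * (ε ^ 2 * τ / 10 ^ 5) * σ ^ 2 ≤ τ * σ ^ 2 / 2 := by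
      have : ε ^ 2 ≤ 1 := pow_le_one₀ e0.le (by linarith)
      have := mul_le_mul_of_nonneg_right this (by positivity : 0 ≤ τ * σ ^ 2)
      have : 0 ≤ τ * σ ^ 2 := by positivity
      nlinarith
    have a4 := mul_le_mul a3 a2 (by positivity) (by positivity)
    have : 0 ≤ ε ^ 2 * n * τ ^ 3 := by positivity
    nlinarith
  · rw [div_le_div_iff₀ (by positivity) (by positivity)]
    have a1 : ε ^ 2 * n * τ ≤ n * σ ^ 2 := by
      have : ε * (ε * τ) ≤ 1 * σ ^ 2 := mul_le_mul (by linarith) es et0.le zero_le_one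
      nlinarith
    have a2 : n * σ ^ 2 + 8 * (2 * n * (ε ^ 2 * τ / 10 ^ 5) + 2 / 5 * ε * (ε ^ 2 * n * τ)) ≤
        9 * (n * σ ^ 2) := by nlinarith
    have := mul_le_mul_of_nonneg_right a2 (sq_nonneg σ)
    nlinarith

/-- comparison of two close matrices -/
lemma near (hH : HwStmt) {W W' : Mx n} {a a' : V n} (h : Dg W a) (h' : Dg W' a') {z σ R : ℝ}
    (s0 : 0 < σ) (n0 : 0 < n) (hf : fr (W - W') ≤ 16 * R / n)
    (h1 : ∑ i, ((z - a i) ^ 2)⁻¹ ≤ 9 * n / σ ^ 2) (h2 : ∀ i, σ ^ 4 / 2 ≤ z - a i)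
    (h1' : ∑ i, ((z - a' i) ^ 2)⁻¹ ≤ 9 * n / σ ^ 2) (h2' : ∀ i, σ ^ 4 / 2 ≤ z - a' i) :
    (Tz a z - Tz a' z) ^ 2 ≤ 576 * R / σ ^ 10 ∧ (Ph a z - Ph a' z) ^ 2 ≤ 576 * R / σ ^ 2 := by
  have N0 : (0 : ℝ) < n := by exact_mod_cast n0
  have f0 : 0 ≤ fr (W - W') := by unfold fr; positivity
  have p : ∀ i, 0 < z - a i := fun i => lt_of_lt_of_le (by positivity) (h2 i)
  have p' : ∀ i, 0 < z - a' i := fun i => lt_of_lt_of_le (by positivity) (h2' i)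
  have four : ∀ b : V n, ∑ i, ((z - b i) ^ 2)⁻¹ ≤ 9 * n / σ ^ 2 → (∀ i, σ ^ 4 / 2 ≤ z - b i) →
      ∑ i, (((z - b i) ^ 2)⁻¹ / 2) ^ 2 ≤ 9 * n / σ ^ 10 := fun b b1 b2 => by
    have : ∀ i, (((z - b i) ^ 2)⁻¹ / 2) ^ 2 ≤ (σ ^ 8)⁻¹ * ((z - b i) ^ 2)⁻¹ := fun i => by
      have c1 : ((z - b i) ^ 2)⁻¹ ≤ ((σ ^ 4 / 2) ^ 2)⁻¹ :=
        inv_anti₀ (by positivity) (pow_le_pow_left₀ (by positivity) (b2 i) 2)
      have c2 : ((σ ^ 4 / 2) ^ 2)⁻¹ = 4 * (σ ^ 8)⁻¹ := by field_simp; ring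
      have c3 : 0 ≤ ((z - b i) ^ 2)⁻¹ := by positivity
      rw [c2] at c1
      nlinarith
    refine (sum_le_sum fun i _ => this i).trans ?_
    rw [← mul_sum]
    exact (mul_le_mul_of_nonneg_left b1 (by positivity)).trans (le_of_eq (by field_simp))
  constructor
  · refine (hH n W W' a a' (fun i => ((z - a i) ^ 2)⁻¹ / 2) (fun i => ((z - a' i) ^ 2)⁻¹ / 2)
      (fun x => (z - x)⁻¹) h h' fun k l => ?_).trans ?_
    · have e : (z - a k)⁻¹ - (z - a' l)⁻¹ = (z - a k)⁻¹ * (z - a' l)⁻¹ * (a k - a' l) := by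
        have := (p k).ne'; have := (p' l).ne'; field_simp; ring
      rw [e, abs_mul, abs_of_pos (mul_pos (inv_pos.2 (p k)) (inv_pos.2 (p' l))), ← inv_pow, ← inv_pow]
      exact mul_le_mul_of_nonneg_right (by nlinarith [sq_nonneg ((z - a k)⁻¹ - (z - a' l)⁻¹)])
        (abs_nonneg _)
    · refine (mul_le_mul (mul_le_mul_of_nonneg_left (add_le_add (four a h1 h2) (four a' h1' h2'))
        zero_le_two) hf f0 (by positivity)).trans (le_of_eq (by field_simp; ring))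
  · refine (hH n W W' a a' (fun i => (z - a i)⁻¹) (fun i => (z - a' i)⁻¹)
      (fun x => Real.log (z - x)) h h' fun k l => ?_).trans ?_
    · have one : ∀ x y : ℝ, 0 < x → 0 < y → Real.log x - Real.log y ≤ (x⁻¹ + y⁻¹) * |x - y| :=
        fun x y hx hy => by
          rw [← Real.log_div hx.ne' hy.ne']
          refine (Real.log_le_sub_one_of_pos (by positivity)).trans ?_
          rw [div_sub_one hy.ne', div_eq_inv_mul]
          exact (mul_le_mul_of_nonneg_left (le_abs_self _) (by positivity)).trans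
            (mul_le_mul_of_nonneg_right (by simp; positivity) (abs_nonneg _))
      have c1 := one _ _ (p k) (p' l)
      have c2 := one _ _ (p' l) (p k)
      rw [show z - a k - (z - a' l) = -(a k - a' l) by ring, abs_neg] at c1
      rw [show z - a' l - (z - a k) = a k - a' l by ring, add_comm] at c2
      exact abs_le.2 ⟨by linarith, c1⟩
    · simp only [inv_pow]
      refine (mul_le_mul (mul_le_mul_of_nonneg_left (add_le_add h1 h1') zero_le_two) hf f0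
        (by positivity)).trans (le_of_eq (by field_simp; ring))

/-- the numerical conditions: `e = ε²`, `t = τ²` -/
structure Num (n : ℕ) (ζ κ ε τ H : ℝ) : Prop where
  n1 : 2 ≤ n
  z0 : 0 ≤ ζ
  e0 : 0 < ε
  e1 : ε ≤ 1 / 2
  t0 : 0 < τ
  t1 : τ ≤ 1
  H0 : 0 ≤ H
  r : 128 * (n : ℝ) ^ (ζ - 2 / 3) ≤ ε ^ 2 * τ ^ 2
  D : 12 * 10 ^ 6 * (n : ℝ) ^ (2 * ζ) ≤ ε ^ 6 * n * τ ^ 3
  h3 : 2304 * (H + 3) ≤ 2 * ε ^ 6 * n * τ ^ 2
  m3 : (4 * (n : ℝ) ^ ζ) ^ 4 ≤ ε ^ 10 * n ^ 2 * τ ^ 2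
  h2 : 2304 * (H + 3) ≤ ((n : ℝ) ^ κ) ^ 2 * n * (ε * τ) ^ 3
  m2 : (4 * (n : ℝ) ^ ζ) ^ 2 ≤ n * (ε * τ) ^ 2
  m1 : 2 * (n : ℝ) ^ (2 * ζ) ≤ √n * τ
  k0 : 0 ≤ κ

set_option maxHeartbeats 1600000 in
/-- the spectral event from the grid bounds and a typical neighbour -/
lemma ww (hG : GridStmt) (hH : HwStmt) {ζ κ ε τ H : ℝ} (N : Num n ζ κ ε τ H) {W W' : Mx n} {a : V n}
    (h : Dg W a) (h3 : ∀ i, -3 ≤ a i) (ha : ∀ i, a i ≤ 2 + (ε * τ / 2) ^ 2 / 2)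
    (hQ : ∀ j : ℕ, j * (ε ^ 2 * τ / 10 ^ 5) ∈ Icc (1 / 128 : ℝ) (1 - ε * τ / 2) →
      Tz a (zz (j * (ε ^ 2 * τ / 10 ^ 5))) ≤ 4 * n →
      |Ph a (zz (j * (ε ^ 2 * τ / 10 ^ 5))) - n * ell (j * (ε ^ 2 * τ / 10 ^ 5))| ≤
        ε ^ 6 * n * τ ^ 3 / 10 ^ 6)
    (hF : Fine ζ W') (hf : fr (W - W') ≤ 16 * (H + 3) / n) : WW (τ ^ 2) (ε ^ 2) κ W := by
  obtain ⟨a', h', b1, b2⟩ := hF
  have e0 := N.e0; have t0 := N.t0; have H0 := N.H0
  have n0 : (0 : ℝ) < n := by exact_mod_cast (by linarith [N.n1] : 0 < n)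
  have n1 : (1 : ℝ) ≤ n := by exact_mod_cast (by linarith [N.n1] : 1 ≤ n)
  have r0 : 0 ≤ (n : ℝ) ^ (ζ - 2 / 3) := by positivity
  have hr := N.r
  have P1 : 1 ≤ (n : ℝ) ^ κ := Real.one_le_rpow n1 N.k0
  refine ⟨a, h, fun i => ⟨h3 i, (ha i).trans (by nlinarith [sq_nonneg (ε * τ)])⟩, fun g hg hs => ?_⟩
  have et : 0 < ε ^ 2 * τ ^ 2 := by positivity
  have sp : 0 < zz g - 2 := by linarith
  obtain ⟨σ, s0, hσ⟩ : ∃ σ : ℝ, 0 < σ ∧ zz g - 2 = σ ^ 4 :=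
    ⟨√√(zz g - 2), by positivity, by
      rw [show (4 : ℕ) = 2 * 2 from rfl, pow_mul, Real.sq_sqrt (Real.sqrt_nonneg _),
        Real.sq_sqrt sp.le]⟩
  obtain ⟨c1, c2, c3, c4⟩ := grid9 hG e0 N.e1 t0 N.t1 ha hQ hg s0 hσ (hσ ▸ hs)
  obtain ⟨-, -, d3, d4⟩ := grid9 hG (a := a') e0 N.e1 t0 N.t1
    (fun i => (abs_le.1 (b1 i)).2.trans (by nlinarith)) (fun j hj _ => by
      have w0 : 0 < ε * τ / 2 := by positivity
      have := zz_ge (by linarith [hj.1]) w0.le hj.2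
      refine (b2 _ ⟨hj.1, by linarith [hj.2]⟩ (by nlinarith)).2.1.trans ?_
      have := N.D
      have : 0 ≤ (n : ℝ) ^ (2 * ζ) := by positivity
      linarith) hg s0 hσ (hσ ▸ hs)
  obtain ⟨f1, f2⟩ := near hH h h' s0 (by linarith [N.n1]) hf c3 c4 d3 d4
  obtain ⟨g1, g2, -⟩ := b2 g ⟨by linarith [hg.1], hg.2⟩ (by linarith)
  rw [hσ] at g1 hs ⊢
  change |Tz a (zz g) - _| ≤ _ ∧ |Ph a (zz g) - _| ≤ _
  have es : ε * τ ≤ σ ^ 2 := (abs_le_of_sq_le_sq' (by nlinarith) (by positivity)).2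
  have tri : ∀ x y c B : ℝ, |x - y| ≤ B / 2 → |y - c| ≤ B / 2 → |x - c| ≤ B := fun x y c B u v =>
    (abs_sub_le x y c).trans (by linarith)
  have ab : ∀ x A B : ℝ, x ^ 2 ≤ A → A ≤ B ^ 2 → 0 ≤ B → |x| ≤ B := fun x A B u v w =>
    abs_le.2 (abs_le_of_sq_le_sq' (u.trans v) w)
  have sn : √(n : ℝ) ^ 2 = n := Real.sq_sqrt n0.le
  have sn0 : 0 < √(n : ℝ) := Real.sqrt_pos.2 n0
  set m := max (σ ^ 4) (τ ^ 2) with hm
  have m1 : τ ≤ √m := Real.le_sqrt_of_sq_le (le_max_right _ _)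
  have m2 : σ ^ 2 ≤ √m := Real.le_sqrt_of_sq_le (le_trans (le_of_eq (by ring)) (le_max_left _ _))
  have M0 : 0 ≤ (n : ℝ) ^ ζ := by positivity
  refine ⟨le_min (c1.trans (by gcongr)) (le_min ?_ ?_), le_min (c2.trans ?_) ?_⟩
  · rw [Real.sqrt_div n0.le, show σ ^ 4 = (σ ^ 2) ^ 2 by ring, Real.sqrt_sq (by positivity)]
    refine tri _ (Tz a' (zz g)) _ _ (ab _ _ _ f1 ?_ (by positivity)) (g1.trans ?_)
    · rw [div_pow, mul_pow, div_pow, sn, div_le_iff₀ (by positivity)]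
      have := pow_le_pow_left₀ (by positivity) es 3
      have := mul_le_mul_of_nonneg_left this (by positivity : 0 ≤ ((n : ℝ) ^ κ) ^ 2 * n)
      refine le_trans ?_ (le_of_eq (?_ : ((n : ℝ) ^ κ) ^ 2 * n * (σ ^ 2) ^ 3 / 4 = _))
      · linarith [N.h2]
      · field_simp; ring
    · have a1 : 4 * (n : ℝ) ^ ζ ≤ √n * (ε * τ) :=
        (abs_le_of_sq_le_sq' (by rw [mul_pow √(n : ℝ), sn]; exact N.m2) (by positivity)).2
      have a2 : √n * (ε * τ) ≤ (n : ℝ) ^ κ * (√n * σ ^ 2) :=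
        (mul_le_mul_of_nonneg_left es sn0.le).trans (le_mul_of_one_le_left (by positivity) P1)
      rw [div_le_iff₀ (by positivity)]
      refine le_trans (by linarith : _ ≤ (n : ℝ) ^ κ * (√n * σ ^ 2) / 2) (le_of_eq ?_)
      field_simp
  · have e34 : (σ ^ 4) ^ (3 / 4 : ℝ) = σ ^ 3 := by
      rw [← Real.rpow_natCast, ← Real.rpow_mul s0.le, ← Real.rpow_natCast]; norm_num
    rw [e34]
    refine tri _ (Tz a' (zz g)) _ _ (ab _ _ _ f1 ?_ (by positivity)) (g1.trans ?_)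
    · rw [div_pow, div_pow, mul_pow, sn, div_le_iff₀ (by positivity)]
      have := mul_le_mul_of_nonneg_left hs (by positivity : 0 ≤ ε ^ 4 * n)
      refine le_trans ?_ (le_of_eq (?_ : ε ^ 4 * n * σ ^ 4 / 4 = _))
      · linarith [N.h3]
      · field_simp; ring
    · have a1 : 4 * (n : ℝ) ^ ζ ≤ ε ^ 2 * √n * σ := by
        refine le_of_pow_le_pow_left₀ (by norm_num : 4 ≠ 0) (by positivity) (N.m3.trans ?_)
        have := mul_le_mul_of_nonneg_left hs (by positivity : 0 ≤ ε ^ 8 * n ^ 2)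
        rw [mul_pow, mul_pow, show √(n : ℝ) ^ 4 = (√(n : ℝ) ^ 2) ^ 2 by ring, sn]
        have : 0 ≤ ε ^ 10 * n ^ 2 * τ ^ 2 := by positivity
        nlinarith
      rw [div_le_iff₀ (by positivity)]
      refine le_trans (by linarith : _ ≤ ε ^ 2 * √n * σ / 2) (le_of_eq ?_)
      field_simp
  · have m0 : 0 ≤ m := le_max_of_le_right (sq_nonneg τ)
    have e32 : m ^ (3 / 2 : ℝ) = √m ^ 3 := by
      rw [Real.sqrt_eq_rpow, ← Real.rpow_natCast, ← Real.rpow_mul m0]; norm_num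
    rw [e32]
    have a1 : τ ^ 3 ≤ √m ^ 3 := pow_le_pow_left₀ t0.le m1 3
    have a2 : τ ^ 2 * σ ^ 2 ≤ √m ^ 2 * √m :=
      mul_le_mul (pow_le_pow_left₀ t0.le m1 2) m2 (by positivity) (by positivity)
    exact mul_le_mul_of_nonneg_left (by nlinarith) (by positivity)
  · rw [Real.sqrt_mul n0.le, Real.sqrt_sq t0.le]
    refine tri _ (Ph a' (zz g)) _ _ (ab _ _ _ f2 ?_ (by positivity)) (g2.trans ?_)
    · rw [div_pow, mul_pow, mul_pow, sn, div_le_iff₀ (by positivity)]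
      have a1 : (ε * τ) ^ 3 ≤ τ ^ 2 * σ ^ 2 := by
        have : (ε * τ) ^ 2 ≤ τ ^ 2 := by
          rw [mul_pow]
          exact mul_le_of_le_one_left (by positivity) (pow_le_one₀ e0.le (by linarith [N.e1]))
        exact le_trans (le_of_eq (by ring)) (mul_le_mul this es (by positivity) (by positivity))
      have := mul_le_mul_of_nonneg_left a1 (by positivity : 0 ≤ ((n : ℝ) ^ κ) ^ 2 * n)
      nlinarith [N.h2]
    · have := le_mul_of_one_le_left (by positivity : 0 ≤ √n * τ) P1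
      linarith [N.m1]

end Crest.Agent.T157.Cp.Pen72

end
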