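import Crest.Agent.T157.CpPenA_72
import Crest.Agent.T157.NrmG_84

/-!
# Row 157, coin windows: the penalty function (helper72)
-/

set_option autoImplicit false

noncomputable section

namespace Crest.Agent.T157.Cp.Pen72

open MeasureTheory Matrix Set Finset
open scoped ENNReal
open Crest.ProbabilityR.SpinGlassDynamics
open Crest.Agent.T157.E Crest.Agent.T157.Cw
open Crest.Agent.T157.Qe (V Mx Le zz ell GOE)
open Crest.Agent.T157.Conc (ex)
open Crest.Agent.T157.Dq (Dg)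

variable {n : ℕ}

/-- radius of the box -/
def rh (n : ℕ) (ζ : ℝ) : ℝ := √(2 * (32 * (n : ℝ) ^ ζ) * Real.log (4 * n))
/-- tolerance -/
def D0 (n : ℕ) (ε τ : ℝ) : ℝ := ε ^ 6 * n * τ ^ 3 / (6 * 10 ^ 6)
/-- the grid -/
def JJ (n : ℕ) (ε τ : ℝ) : Finset ℕ := by
  classical exact (range n).filter fun j : ℕ =>
    j * (ε ^ 2 * τ / 10 ^ 5) ∈ Icc (1 / 128 : ℝ) (1 - ε * τ / 2)
/-- the terms of the penalty -/
def uu (n : ℕ) (ζ ε τ H : ℝ) : Option (ℕ × Bool) → Mx n → ℝ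
  | none, W => Jx (2 * rh n ζ) (zz (1 - ε * τ / 8) • (1 : Mx n) - W) +
      (-1) * Jx (rh n ζ) (zz (1 - ε * τ / 8) • (1 : Mx n) - W)
  | some p, W => (1 + H / D0 n ε τ) * (if p.2 then 1 else -1) *
      Jx (rh n ζ) (zz (p.1 * (ε ^ 2 * τ / 10 ^ 5)) • (1 : Mx n) - W) +
      (1 + H / D0 n ε τ) * ((if p.2 then 1 else -1) *
        (n * ell (p.1 * (ε ^ 2 * τ / 10 ^ 5)) / 2) - D0 n ε τ)
/-- the penalty -/
def YY (n : ℕ) (ζ ε τ H : ℝ) (W : Mx n) : ℝ :=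
  (-1) * Real.log (1 + ∑ i ∈ insertNone (JJ n ε τ ×ˢ Finset.univ), Real.exp (uu n ζ ε τ H i W))

variable {C ζ κ ε τ H : ℝ}

lemma Num.N1 (N : Num n ζ κ ε τ H) : (1 : ℝ) ≤ n := by exact_mod_cast (by linarith [N.n1] : 1 ≤ n)

lemma Num.lg (N : Num n ζ κ ε τ H) : 0 < Real.log (4 * n) := Real.log_pos (by linarith [N.N1])

lemma Num.rh0 (N : Num n ζ κ ε τ H) : 0 < rh n ζ := by
  have := N.lg; have := N.N1
  unfold rh; positivity

lemma Num.rh2 (N : Num n ζ κ ε τ H) : 2 * (32 * (n : ℝ) ^ ζ) * Real.log (4 * n) = rh n ζ ^ 2 := by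
  have := N.lg
  rw [rh, Real.sq_sqrt (by positivity)]

lemma Num.D1' (N : Num n ζ κ ε τ H) : 2 * (n : ℝ) ^ (2 * ζ) ≤ D0 n ε τ := by
  rw [D0, le_div_iff₀ (by positivity)]; linarith [N.D]

lemma Num.D2 (N : Num n ζ κ ε τ H) : 2 ≤ D0 n ε τ := by
  linarith [Real.one_le_rpow N.N1 (by linarith [N.z0] : 0 ≤ 2 * ζ), N.D1']

lemma Num.D1 (N : Num n ζ κ ε τ H) : (n : ℝ) ^ (2 * ζ) ≤ D0 n ε τ := by
  linarith [N.D2, N.D1']

lemma meas_YY (hB : BoxStmt C) : Measurable (YY n ζ ε τ H) := by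
  refine ((Finset.measurable_sum _ fun i _ => Measurable.exp ?_).const_add _).log.const_mul _
  cases i with
  | none => exact (hB.meas _ _ _).add ((hB.meas _ _ _).const_mul _)
  | some p => exact ((hB.meas _ _ _).const_mul _).add_const _

lemma YY_le (W : Mx n) : YY n ζ ε τ H W ≤ 0 := by
  have := Real.log_nonneg (le_add_of_nonneg_right (a := (1 : ℝ))
    (sum_nonneg (s := insertNone (JJ n ε τ ×ˢ Finset.univ)) fun i _ => (Real.exp_pos (uu n ζ ε τ H i W)).le))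
  unfold YY; linarith

lemma lt_YY (hL : LtStmt C) (hB : BoxStmt C) (N : Num n ζ κ ε τ H) (dd : V n) :
    LT (C * (2056 * (1 + H / D0 n ε τ) ^ 4 * C * rh n ζ ^ 8))
      fun g => YY n ζ ε τ H (Wmat n g dd) := by
  have C0 : 0 ≤ C := by linarith [hL.one]
  have r0 := N.rh0
  have q1 : 1 ≤ 1 + H / D0 n ε τ := le_add_of_nonneg_right (div_nonneg N.H0 (by linarith [N.D2]))
  have q4 : 1 ≤ (1 + H / D0 n ε τ) ^ 4 := one_le_pow₀ q1
  have X0 : 0 ≤ C * rh n ζ ^ 8 := by positivity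
  refine hL.mono _ _ _ _ (le_of_eq (by simp)) (hL.smul _ _ (-1) _ (hL.lse _ _
    (insertNone (JJ n ε τ ×ˢ Finset.univ)) (2056 * (1 + H / D0 n ε τ) ^ 4 * C * rh n ζ ^ 8)
    (fun i g => uu n ζ ε τ H i (Wmat n g dd)) (by positivity) fun i _ => ?_))
  cases i with
  | none =>
    refine hL.mono _ _ _ _ ?_ (hL.add _ _ _ _ _ (hB.lt n _ _ dd (by positivity))
      (hL.smul _ _ (-1) _ (hB.lt n _ _ dd r0)))
    simp only [abs_neg, abs_one, max_self, one_pow, one_mul]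
    nlinarith [mul_le_mul_of_nonneg_right q4 X0]
  | some p =>
    refine hL.mono _ _ _ _ ?_ (hL.add _ _ _ _ _ (hL.smul _ _ _ _ (hB.lt n _ _ dd r0))
      (hL.const _ _))
    have : max |(1 + H / D0 n ε τ) * if p.2 then 1 else -1| 1 = 1 + H / D0 n ε τ := by
      have : |(1 + H / D0 n ε τ) * if p.2 then 1 else -1| = 1 + H / D0 n ε τ := by
        rw [abs_mul, abs_of_nonneg (by linarith)]; split_ifs <;> simp
      rw [this, max_eq_left q1]
    rw [this]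
    nlinarith [mul_nonneg (by positivity : 0 ≤ (1 + H / D0 n ε τ) ^ 4) X0]

lemma fineJ (hB : BoxStmt C) (N : Num n ζ κ ε τ H) {W : Mx n} (hF : Fine ζ W) {g : ℝ}
    (g0 : 1 / 128 ≤ g) (g1 : g ≤ 1 - ε * τ / 8) : ∃ P : ℝ, |P - n * ell g| ≤ D0 n ε τ ∧
      (∀ ρ, 0 < ρ → Jx ρ (zz g • (1 : Mx n) - W) ≤ -P / 2) ∧
      -P / 2 - Real.log 2 ≤ Jx (rh n ζ) (zz g • (1 : Mx n) - W) := by
  obtain ⟨a, h, b1, b2⟩ := hF
  have N1 := N.N1
  have et : 0 < ε * τ := mul_pos N.e0 N.t0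
  have s1 := zz_ge (by linarith) (by positivity) g1
  have r0 : 0 < (n : ℝ) ^ (ζ - 2 / 3) := by positivity
  have s2 : 2 * (n : ℝ) ^ (ζ - 2 / 3) ≤ zz g - 2 := by nlinarith [N.r]
  obtain ⟨c1, c2, c3⟩ := b2 g ⟨g0, by linarith⟩ s2
  have lt : ∀ i, a i < zz g := fun i => by linarith [(abs_le.1 (b1 i)).2]
  refine ⟨_, c2.trans N.D1, fun ρ hρ => hB.up n ρ _ W a hρ h lt,
    hB.lo n _ _ (32 * (n : ℝ) ^ ζ) W a (by linarith [N.n1]) N.rh0 (by positivity) h lt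
      (fun i => (c3 i).trans ?_) N.rh2.le⟩
  have a1 : 2 * (n : ℝ) ^ ζ / (zz g - 2) ≤ n := by
    rw [div_le_iff₀ (by linarith)]
    have : (n : ℝ) ^ ζ ≤ n * (n : ℝ) ^ (ζ - 2 / 3) := by
      rw [mul_comm, ← Real.rpow_add_one (by linarith)]
      exact Real.rpow_le_rpow_of_exponent_le N1 (by linarith)
    nlinarith
  have a2 : Tz a (zz g) ≤ 2 * n := by nlinarith [(abs_le.1 c1).2]
  refine (mul_le_mul_of_nonneg_left a2 (by positivity)).trans ?_
  rw [mul_left_comm, ← Real.rpow_add_one (by linarith), sub_add_cancel]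
  have : 0 ≤ (n : ℝ) ^ ζ := by positivity
  linarith

lemma mem_JJ {j : ℕ} : j ∈ JJ n ε τ ↔
    j < n ∧ j * (ε ^ 2 * τ / 10 ^ 5) ∈ Icc (1 / 128 : ℝ) (1 - ε * τ / 2) := by
  simp only [JJ, mem_filter, Finset.mem_range]

lemma fine_YY (hB : BoxStmt C) (N : Num n ζ κ ε τ H) {W : Mx n} (hF : Fine ζ W) :
    -(3 * Real.log n) ≤ YY n ζ ε τ H W := by
  have et : 0 < ε * τ := mul_pos N.e0 N.t0
  have et1 : ε * τ ≤ 1 / 2 := by nlinarith [N.e0, N.e1, N.t0, N.t1]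
  have n2 : (2 : ℝ) ≤ n := by exact_mod_cast N.n1
  have l2 : Real.log 2 ≤ 1 := by linarith [Real.log_two_lt_d9]
  have h1 : Real.exp (uu n ζ ε τ H none W) ≤ 2 := by
    obtain ⟨P, -, p1, p2⟩ := fineJ hB N hF (g := 1 - ε * τ / 8) (by linarith) le_rfl
    have := p1 (2 * rh n ζ) (by linarith [N.rh0])
    rw [← Real.exp_log two_pos]
    exact Real.exp_le_exp.2 (by simp only [uu]; linarith)
  have h2 : ∀ p ∈ JJ n ε τ ×ˢ (Finset.univ : Finset Bool), Real.exp (uu n ζ ε τ H (some p) W) ≤ 1 :=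
    fun p hp => by
      have hj := (mem_JJ.1 (mem_product.1 hp).1).2
      obtain ⟨P, p0, p1, p2⟩ := fineJ hB N hF hj.1 (by linarith [hj.2])
      have p3 := p1 _ N.rh0
      have q1 : 0 ≤ 1 + H / D0 n ε τ := by have := div_nonneg N.H0 (by linarith [N.D2] : 0 ≤ D0 n ε τ); linarith
      rw [Real.exp_le_one_iff]
      simp only [uu]
      rw [mul_assoc, ← mul_add]
      refine mul_nonpos_of_nonneg_of_nonpos q1 ?_
      have := abs_le.1 p0
      have d2 := N.D2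
      split_ifs <;> linarith
  have h3 := sum_le_card_nsmul _ _ _ h2
  have h4 : ((JJ n ε τ ×ˢ (Finset.univ : Finset Bool)).card : ℝ) ≤ n * 2 := by
    rw [card_product, card_univ, Fintype.card_bool]
    push_cast
    gcongr
    exact (card_filter_le _ _).trans (card_range n).le
  rw [nsmul_eq_mul, mul_one] at h3
  have h5 : Real.log (1 + ∑ i ∈ insertNone (JJ n ε τ ×ˢ Finset.univ), Real.exp (uu n ζ ε τ H i W)) ≤
      Real.log ((n : ℝ) ^ 3) := by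
    refine Real.log_le_log (by positivity) ?_
    rw [sum_insertNone]
    nlinarith [mul_le_mul n2 n2 zero_le_two (by linarith)]
  rw [Real.log_pow] at h5
  unfold YY; push_cast at h5; linarith

/-- the penalty forces the spectral event off five small sets -/
lemma force (hB : BoxStmt C) (hG : GridStmt) (hH : HwStmt) (N : Num n ζ κ ε τ H)
    (hg : 10 ^ 5 < n * (ε ^ 2 * τ)) {W W' : Mx n} (hW : Wᵀ = W) (h3 : Eig.opn W < 2 + 1)
    (h1 : W ∉ E1 (rh n ζ) (zz (1 - ε * τ / 8)) ((ε * τ / 2) ^ 2 / 4) (H + 1))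
    (h2 : ∀ j ∈ JJ n ε τ, W ∉ E3 (zz (j * (ε ^ 2 * τ / 10 ^ 5))) ((ε * τ / 2) ^ 2 / 2))
    (hF : Fine ζ W') (hf : fr (W - W') ≤ 16 * (H + 3) / n) (hY : -H ≤ YY n ζ ε τ H W) :
    WW (τ ^ 2) (ε ^ 2) κ W := by
  have et : 0 < ε * τ := mul_pos N.e0 N.t0
  have et1 : ε * τ ≤ 1 / 2 := by nlinarith [N.e0, N.e1, N.t0, N.t1]
  have hu : ∀ i ∈ insertNone (JJ n ε τ ×ˢ Finset.univ), uu n ζ ε τ H i W ≤ H := fun i hi => by
    have a1 := single_le_sum (f := fun i => Real.exp (uu n ζ ε τ H i W))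
      (fun i _ => (Real.exp_pos _).le) hi
    have a2 := Real.log_le_log (Real.exp_pos _) (a1.trans (le_add_of_nonneg_left zero_le_one))
    rw [Real.log_exp] at a2
    unfold YY at hY; linarith
  obtain ⟨a, h⟩ := Qe.dg_symm hW
  have x0 : ∀ x : V n, 0 ≤ x ⬝ᵥ x := fun x => sum_nonneg fun i _ => mul_self_nonneg _
  have q : ∀ x : V n, |x ⬝ᵥ W *ᵥ x| ≤ 3 * (x ⬝ᵥ x) := fun x =>
    (Eig.abs_quad_le W x).trans (mul_le_mul_of_nonneg_right (by linarith) (x0 x))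
  have L1 : Le ((-3 : ℝ) • (1 : Mx n)) W := fun x => by
    rw [Qe.qf_smul, Qe.qf_one]; linarith [(abs_le.1 (q x)).1]
  have L2 : Le W ((3 : ℝ) • (1 : Mx n)) := fun x => by
    rw [Qe.qf_smul, Qe.qf_one]; linarith [(abs_le.1 (q x)).2]
  have L3 : Le W ((zz (1 - ε * τ / 8) + (ε * τ / 2) ^ 2 / 4) • (1 : Mx n)) := by
    by_contra hc
    refine h1 ⟨hW, L1, L2, hc, fun u hu' => ?_⟩
    have a1 := hB.sh n _ (zz (1 - ε * τ / 8) • (1 : Mx n) - W) u N.rh0 (by simp [hW]) hu'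
    have a2 := hu none (by simp)
    simp only [uu] at a2
    rw [Qe.qf_sub] at a1 ⊢
    linarith
  have ha : ∀ i, a i ≤ 2 + (ε * τ / 2) ^ 2 / 2 := fun i => by
    have a1 := Qe.le_dg h L3 i
    have a2 : zz (1 - ε * τ / 8) - 2 ≤ (ε * τ / 2) ^ 2 / 4 := by
      rw [zz_sub (by linarith), div_le_iff₀ (by linarith)]
      nlinarith [mul_pos et et]
    linarith
  refine ww hG hH N h (Qe.ge_dg h L1) ha (fun j hj hT => ?_) hF hf
  have d0 : 0 < ε ^ 2 * τ := by have := N.e0; have := N.t0; positivity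
  have jn : j < n := by
    have : (j : ℝ) * (ε ^ 2 * τ) < n * (ε ^ 2 * τ) := by linarith [hj.2]
    exact_mod_cast lt_of_mul_lt_mul_right this d0.le
  have hJ := mem_JJ.2 ⟨jn, hj⟩
  have s1 := zz_ge (by linarith [hj.1]) (by positivity) hj.2
  have lt : ∀ i, a i < zz (j * (ε ^ 2 * τ / 10 ^ 5)) := fun i => by
    nlinarith [ha i, mul_pos et et]
  have dg : ∀ i, Rz (zz (j * (ε ^ 2 * τ / 10 ^ 5))) W i i ≤ 32 * (n : ℝ) ^ ζ := fun i => by
    have := Real.one_le_rpow N.N1 N.z0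
    by_contra hc
    exact h2 j hJ ⟨hW, Qe.dg_le h fun i => by linarith [ha i], by rwa [trace_Rz h lt],
      i, by linarith⟩
  have p1 := hB.up n _ _ W a N.rh0 h lt
  have p2 := hB.lo n _ _ _ W a (by linarith [N.n1]) N.rh0 (by have := N.N1; positivity) h lt dg
    N.rh2.le
  have u1 := hu (some (j, true)) (by simp [hJ])
  have u2 := hu (some (j, false)) (by simp [hJ])
  simp only [uu, if_true, Bool.false_eq_true, if_false] at u1 u2
  have d2 := N.D2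
  have key : ∀ x : ℝ, (1 + H / D0 n ε τ) * x ≤ H → x ≤ D0 n ε τ := fun x hx => by
    by_contra hc
    have a1 : 0 ≤ H / D0 n ε τ := div_nonneg N.H0 (by linarith)
    have a2 : H / D0 n ε τ * D0 n ε τ = H := div_mul_cancel₀ _ (by linarith)
    nlinarith
  rw [mul_assoc, ← mul_add] at u1 u2
  have v1 := key _ u1
  have v2 := key _ u2
  have e6 : ε ^ 6 * n * τ ^ 3 / 10 ^ 6 = 6 * D0 n ε τ := by rw [D0]; ring
  rw [e6, abs_le]
  constructor <;> linarith [Real.log_two_lt_d9]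

lemma ex_add_le {a b c : ℝ} {x y : ℝ≥0∞} (hx : x ≤ ENNReal.ofReal (a * Real.exp c))
    (hy : y ≤ ENNReal.ofReal (b * Real.exp c)) (ha : 0 ≤ a) (hb : 0 ≤ b) :
    x + y ≤ ENNReal.ofReal ((a + b) * Real.exp c) := by
  rw [add_mul, ENNReal.ofReal_add (by positivity) (by positivity)]
  exact add_le_add hx hy

/-- the Gaussian side -/
lemma prob (hB : BoxStmt C) (hT : TopStmt) (hD : DiagStmt) (hN : NearStmt) (hG : GridStmt)
    (hH : HwStmt) (N : Num n ζ κ ε τ H) (hg : 10 ^ 5 < n * (ε ^ 2 * τ))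
    (hl : 16 * Real.log n ≤ ε ^ 2 * τ ^ 2 * n) (hF : GOE n {W | Fine ζ W}ᶜ ≤ 2⁻¹) :
    GOE n {W | ¬ WW (τ ^ 2) (ε ^ 2) κ W ∧ -H ≤ YY n ζ ε τ H W} ≤ ex (-H) := by
  have e0 := N.e0; have t0 := N.t0; have H0 := N.H0; have N1 := N.N1
  have et : 0 < ε * τ := mul_pos N.e0 N.t0
  have et1 : ε * τ ≤ 1 / 2 := by nlinarith [N.e1, N.t1]
  have n1 : 1 ≤ n := by linarith [N.n1]
  obtain ⟨X, hX⟩ : ∃ X, X = ε ^ 2 * τ ^ 2 * n := ⟨_, rfl⟩
  have X1 : X ≤ n / 4 := by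
    have : (ε * τ) ^ 2 ≤ (1 / 2) ^ 2 := pow_le_pow_left₀ et.le et1 2
    rw [hX]; nlinarith
  have X2 : 18432 * (H + 3) ≤ X := by
    have a1 : ε ^ 4 ≤ (1 / 2) ^ 4 := pow_le_pow_left₀ e0.le N.e1 4
    have a2 := mul_le_mul_of_nonneg_right a1 (by positivity : 0 ≤ ε ^ 2 * τ ^ 2 * n)
    rw [hX]; nlinarith [N.h3]
  have sub : {W : Mx n | ¬ WW (τ ^ 2) (ε ^ 2) κ W ∧ -H ≤ YY n ζ ε τ H W} ⊆
      {W | ¬ Wᵀ = W} ∪ ({W | 2 + 1 ≤ Eig.opn W} ∪
      E1 (rh n ζ) (zz (1 - ε * τ / 8)) ((ε * τ / 2) ^ 2 / 4) (H + 1) ∪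
      (⋃ j ∈ JJ n ε τ, E3 (zz (j * (ε ^ 2 * τ / 10 ^ 5))) ((ε * τ / 2) ^ 2 / 2)) ∪
      {W | ∀ W' ∈ {W | Fine ζ W}, 16 * (H + 3) / n ≤ fr (W - W')}) := fun W hW => by
    by_contra hc
    simp only [Set.mem_union, Set.mem_iUnion, Set.mem_ofPred_eq, not_or, not_not, not_le,
      not_exists, not_forall] at hc
    obtain ⟨c0, ⟨⟨c1, c2⟩, c3⟩, W', c4, c5⟩ := hc
    exact hW.1 (force hB hG hH N hg c0 c1 c2 c3 c4 c5.le hW.2)
  have up : ∀ {y : ℝ}, y ≤ -(H + 3) → ex y ≤ ENNReal.ofReal (1 * Real.exp (-(H + 3))) :=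
    fun hy => by rw [one_mul]; exact Conc.ex_mono hy
  have p0 : GOE n {W | ¬ Wᵀ = W} = 0 := ae_iff.1 (Cond.goe_ae_symm _)
  have p1 : GOE n {W | 2 + 1 ≤ Eig.opn W} ≤ ENNReal.ofReal (2 * Real.exp (-(H + 3))) := by
    rw [← ofReal_measureReal (measure_ne_top _ _)]
    refine ENNReal.ofReal_le_ofReal ((Nrm.goe_opn_tail_n zero_le_one).trans ?_)
    gcongr; linarith
  have p2 := (hT n (rh n ζ) (zz (1 - ε * τ / 8)) ((ε * τ / 2) ^ 2 / 4) (H + 1) n1 N.rh0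
    (by positivity) (by nlinarith) (by linarith) (by
      rw [← N.rh2]
      have a1 := Real.one_le_rpow N1 N.z0
      have a2 : Real.log n ≤ Real.log (4 * n) := Real.log_le_log (by linarith) (by linarith)
      have a3 := Real.log_nonneg N1
      have a4 : Real.log n * 1 ≤ Real.log (4 * n) * (n : ℝ) ^ ζ :=
        mul_le_mul a2 a1 zero_le_one (a3.trans a2)
      have a5 := mul_le_mul a4 (by linarith : 32 * (H + 1) ≤ X) (by positivity)
        (mul_nonneg (a3.trans a2) (by positivity))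
      rw [hX] at a5
      nlinarith)).trans (ex_add_le (up (by linarith)) (up (by rw [hX] at X2; nlinarith))
        zero_le_one zero_le_one)
  have p3 : GOE n (⋃ j ∈ JJ n ε τ, E3 (zz (j * (ε ^ 2 * τ / 10 ^ 5))) ((ε * τ / 2) ^ 2 / 2)) ≤
      ENNReal.ofReal (1 * Real.exp (-(H + 3))) := by
    refine (measure_biUnion_finset_le _ _).trans ((sum_le_card_nsmul _ _ _ fun j _ =>
      hD n _ _ (by positivity) (by nlinarith)).trans ?_)
    have c : ((JJ n ε τ).card : ℝ≥0∞) ≤ n := by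
      exact_mod_cast (card_filter_le _ _).trans (card_range n).le
    have en : (n : ℝ≥0∞) = ex (Real.log n) := by
      rw [ex, Real.exp_log (by linarith), ENNReal.ofReal_natCast]
    rw [nsmul_eq_mul]
    refine (mul_le_mul_left c _).trans ?_
    rw [en, ← Conc.ex_add, ← Conc.ex_add]
    refine up ?_
    rw [hX] at X2; nlinarith
  have p4 := (hN n _ (H + 3) n1 (by linarith) hF).trans (up le_rfl)
  refine (measure_mono sub).trans ((measure_union_le _ _).trans ?_)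
  rw [p0, zero_add]
  refine ((measure_union_le _ _).trans (ex_add_le ((measure_union_le _ _).trans (ex_add_le
    ((measure_union_le _ _).trans (ex_add_le p1 p2 (by norm_num) (by norm_num))) p3 (by norm_num)
    (by norm_num))) p4 (by norm_num) (by norm_num))).trans (ENNReal.ofReal_le_ofReal ?_)
  rw [show -H = 3 + -(H + 3) by ring, Real.exp_add]
  refine mul_le_mul_of_nonneg_right ?_ (Real.exp_pos _).le
  have := Real.quadratic_le_exp_of_nonneg (by norm_num : (0 : ℝ) ≤ 3)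
  linarith

end Crest.Agent.T157.Cp.Pen72

end
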