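import Crest.Agent.T157.CpPenB_72
import Crest.Agent.T157.LlInst_18

/-!
# Row 157, coin windows: `Cp.PenGlue` (helper72)
-/

set_option autoImplicit false

noncomputable section

namespace Crest.Agent.T157.Cp

open MeasureTheory Matrix Filter Topology Pen72
open Crest.Agent.T157.Cw
open Crest.Agent.T157.Qe (V Mx GOE)

namespace Pen72

set_option maxHeartbeats 1600000 in
lemma num_of {n : ℕ} {C ζ κ η ε τ H u M : ℝ} (n1 : 2 ≤ n) (z0 : 0 ≤ ζ) (k0 : 0 ≤ κ) (_C0 : 0 ≤ C)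
    (e0 : 0 < ε) (e1 : ε ≤ 1 / 2) (t0 : 0 < τ) (t1 : τ ≤ 1) (H0 : 0 ≤ H) (u0 : 0 < u)
    (hu : u ^ 3 = n) (hM : (n : ℝ) ^ ζ = M) (hr : (n : ℝ) ^ (ζ - 2 / 3) = M / u ^ 2)
    (M1 : 10 ^ 4 ≤ M) (MC : 2056 * C ^ 2 ≤ M) (Ml : Real.log (4 * n) ≤ M)
    (hκ : M ^ 2 ≤ (n : ℝ) ^ κ) (hη : M ^ 37 ≤ (n : ℝ) ^ η) (he : 1 ≤ ε ^ 2 * M)
    (ht : M ^ 5 ≤ u * τ) (h1 : H ≤ 1 / 2304 * (ε ^ 2) ^ 3 * n * τ ^ 2) (h2 : H ≤ M * (n * τ ^ 3)) :
    Num n ζ κ ε τ H ∧ 10 ^ 5 < n * (ε ^ 2 * τ) ∧ 16 * Real.log n ≤ ε ^ 2 * τ ^ 2 * n ∧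
      C * (2056 * (1 + H / D0 n ε τ) ^ 4 * C * rh n ζ ^ 8) ≤ (n : ℝ) ^ η := by
  have N2 : (2 : ℝ) ≤ n := by exact_mod_cast n1
  have M0 : 0 < M := by linarith
  have M1' : 1 ≤ M := by linarith
  have h2z : (n : ℝ) ^ (2 * ζ) = M ^ 2 := by
    rw [mul_comm, Real.rpow_mul (by linarith), hM, Real.rpow_two]
  obtain ⟨y, hy⟩ : ∃ y, y = u * τ := ⟨_, rfl⟩
  rw [← hy] at ht
  have pw : ∀ a b : ℕ, a ≤ b → M ^ a ≤ M ^ b := fun a b h => pow_le_pow_right₀ M1' h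
  have big : ∀ (c : ℝ) (a b : ℕ), c ≤ 10 ^ 8 → a + 2 ≤ b → c * M ^ a ≤ M ^ b := fun c a b hc h => by
    refine le_trans ?_ (pw _ _ h)
    rw [pow_add, mul_comm]
    exact mul_le_mul_of_nonneg_left (by nlinarith) (by positivity)
  have y1 : 1 ≤ y := (one_le_pow₀ M1').trans ht
  have A : M ^ 4 ≤ ε ^ 2 * y := by
    refine le_of_mul_le_mul_right ?_ M0
    linarith [mul_le_mul_of_nonneg_right he (by linarith : 0 ≤ y)]
  have n3 : n * τ ^ 3 = y ^ 3 := by rw [hy, ← hu]; ring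
  have n2 : y ^ 3 ≤ n * τ ^ 2 := by
    rw [← n3]; gcongr ?_ * ?_; exact pow_le_pow_of_le_one t0.le t1 (by norm_num)
  have n1' : n * τ ^ 2 ≤ n * τ := by
    gcongr ?_ * ?_; nlinarith
  have A3 : M ^ 12 ≤ ε ^ 6 * y ^ 3 :=
    le_trans (le_of_eq (by ring)) ((pow_le_pow_left₀ (by positivity) A 3).trans (le_of_eq (by ring)))
  have A1 : M ^ 4 ≤ ε ^ 2 * y ^ 2 := A.trans (by gcongr; nlinarith)
  have A2 : M ^ 4 ≤ ε ^ 2 * y ^ 3 := A.trans (by gcongr; exact le_self_pow₀ y1 (by norm_num))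
  have B2 : M ^ 4 ≤ ε ^ 2 * (n * τ ^ 2) := A2.trans (by gcongr)
  have N : Num n ζ κ ε τ H := by
    refine ⟨n1, z0, e0, e1, t0, t1, H0, ?_, ?_, ?_, ?_, ?_, ?_, ?_, k0⟩
    · rw [hr, ← mul_div_assoc, div_le_iff₀ (by positivity)]
      have := big 128 1 4 (by norm_num) (by norm_num)
      rw [hy] at A1
      linarith
    · rw [h2z, mul_assoc (ε ^ 6), n3]
      exact (big _ 2 12 (by norm_num) (by norm_num)).trans A3
    · have a1 := big 6912 0 12 (by norm_num) (by norm_num)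
      have a2 := mul_le_mul_of_nonneg_left n2 (by positivity : 0 ≤ ε ^ 6)
      linarith
    · have a1 := big 256 4 20 (by norm_num) (by norm_num)
      have a2 := pow_le_pow_left₀ (by positivity) A 5
      have a3 : y ^ 5 ≤ n ^ 2 * τ ^ 2 := by
        have b1 : y ^ 5 ≤ y ^ 3 * y ^ 3 := by rw [← pow_add]; exact pow_le_pow_right₀ y1 (by norm_num)
        have b2 : y ^ 3 ≤ n * τ := n2.trans n1'
        linarith [mul_le_mul b2 b2 (by positivity) (by positivity)]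
      have a4 := mul_le_mul_of_nonneg_left a3 (by positivity : 0 ≤ ε ^ 10)
      rw [hM]
      linarith
    · have a1 : M ^ 2 ≤ ((n : ℝ) ^ κ) ^ 2 * ε ^ 3 := by
        have b1 := pow_le_pow_left₀ (by positivity) hκ 2
        have b2 : ε ^ 4 ≤ ε ^ 3 := pow_le_pow_of_le_one e0.le (by linarith) (by norm_num)
        have b3 := mul_le_mul b1 b2 (by positivity) (by positivity)
        have b4 := mul_le_mul_of_nonneg_left (one_le_pow₀ (n := 2) he) (by positivity : 0 ≤ M ^ 2)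
        linarith
      have a2 := mul_le_mul_of_nonneg_right a1 (by positivity : 0 ≤ y ^ 3)
      have a3 : 3 ≤ M * y ^ 3 := by nlinarith [one_le_pow₀ (n := 3) y1]
      have a4 := mul_le_mul_of_nonneg_right M1 (by positivity : 0 ≤ M * y ^ 3)
      rw [n3] at h2
      rw [mul_pow ε, show ((n : ℝ) ^ κ) ^ 2 * n * (ε ^ 3 * τ ^ 3) =
        ((n : ℝ) ^ κ) ^ 2 * ε ^ 3 * (n * τ ^ 3) by ring, n3]
      linarith
    · have := big 16 2 4 (by norm_num) (by norm_num)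
      rw [hM]; linarith
    · have a1 : u ≤ √n := Real.le_sqrt_of_sq_le (by
        have : 1 ≤ u := by nlinarith
        rw [← hu]; exact pow_le_pow_right₀ this (by norm_num))
      have := big 2 2 5 (by norm_num) (by norm_num)
      rw [h2z]
      linarith [mul_le_mul_of_nonneg_right a1 t0.le]
  refine ⟨N, ?_, ?_, ?_⟩
  · have a1 := big (10 ^ 6) 0 4 (by norm_num) (by norm_num)
    linarith [mul_le_mul_of_nonneg_left n1' (sq_nonneg ε)]
  · have a1 := big 16 1 4 (by norm_num) (by norm_num)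
    have a2 : Real.log n ≤ Real.log (4 * n) := Real.log_le_log (by linarith) (by linarith)
    linarith
  · have d2 := N.D2
    have q0 : 0 ≤ H / D0 n ε τ := div_nonneg H0 (by linarith)
    have a1 : H / D0 n ε τ ≤ 6 * 10 ^ 6 * M ^ 4 := by
      rw [div_le_iff₀ (by linarith), D0]
      have b1 := mul_le_mul_of_nonneg_left (one_le_pow₀ (n := 3) he)
        (by positivity : 0 ≤ M * (n * τ ^ 3))
      linarith
    have a2 : 1 + H / D0 n ε τ ≤ M ^ 6 := by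
      have := big (6 * 10 ^ 6 + 1) 4 6 (by norm_num) (by norm_num)
      linarith [one_le_pow₀ (n := 4) M1']
    have a3 : rh n ζ ^ 2 ≤ M ^ 3 := by
      rw [← N.rh2, hM]
      linarith [mul_le_mul_of_nonneg_left Ml M0.le, mul_le_mul_of_nonneg_right M1 (sq_nonneg M),
        sq_nonneg M]
    have a4 := pow_le_pow_left₀ (by positivity) a2 4
    have a5 := pow_le_pow_left₀ (by positivity) a3 4
    have a6 := mul_le_mul MC (mul_le_mul a4 a5 (by positivity) (by positivity)) (by positivity) M0.le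
    refine le_trans (le_of_eq (by ring)) (a6.trans (le_trans (le_of_eq (by ring)) hη))

end Pen72

theorem penGlue : PenGlue := by
  intro C hL hB hT hD hN hH hG hF κ κ0 d d0 η η0
  obtain ⟨ζ, z0, z1, z2, z3⟩ : ∃ ζ : ℝ, 0 < ζ ∧ ζ ≤ κ / 2 ∧ ζ ≤ d / 10 ∧ ζ ≤ η / 37 :=
    ⟨min (κ / 2) (min (d / 10) (η / 37)), by positivity, min_le_left _ _,
      (min_le_right _ _).trans (min_le_left _ _), (min_le_right _ _).trans (min_le_right _ _)⟩
  refine ⟨ζ, z0, 1 / 2304, by norm_num, ?_⟩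
  obtain ⟨c, c0, hc⟩ := Ll.VhpM.goe (hF ζ z0)
  have tn : ∀ {a : ℝ}, 0 < a → Tendsto (fun n : ℕ => (n : ℝ) ^ a) atTop atTop := fun ha =>
    (tendsto_rpow_atTop ha).comp tendsto_natCast_atTop_atTop
  have z2' : 0 < ζ / 2 := by positivity
  filter_upwards [hc, eventually_ge_atTop 4, (tn z0).eventually_ge_atTop (10 ^ 4),
    (tn z0).eventually_ge_atTop (2056 * C ^ 2), (tn z2').eventually_ge_atTop (4 / ζ)]
    with n hn n4 M1 MC Ml t e H ht t1 he e1 H0 h1 h2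
  have N4 : (4 : ℝ) ≤ n := by exact_mod_cast n4
  have N0 : (0 : ℝ) < n := by linarith
  have N1 : (1 : ℝ) ≤ n := by linarith
  have t0 : 0 < t := lt_of_lt_of_le (by positivity) ht
  have e0 : 0 < e := lt_of_lt_of_le (by positivity) he
  obtain ⟨τ, τ0, rfl⟩ : ∃ τ : ℝ, 0 < τ ∧ t = τ ^ 2 := ⟨√t, by positivity, (Real.sq_sqrt t0.le).symm⟩
  obtain ⟨ε, ε0, rfl⟩ : ∃ ε : ℝ, 0 < ε ∧ e = ε ^ 2 := ⟨√e, by positivity, (Real.sq_sqrt e0.le).symm⟩
  have pw : ∀ (k : ℕ) (a : ℝ), ((n : ℝ) ^ a) ^ k = (n : ℝ) ^ (a * k) := fun k a => by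
    rw [Real.rpow_mul N0.le, Real.rpow_natCast]
  have mono : ∀ {a b : ℝ}, a ≤ b → (n : ℝ) ^ a ≤ (n : ℝ) ^ b := fun h =>
    Real.rpow_le_rpow_of_exponent_le N1 h
  have u2 : ((n : ℝ) ^ (1 / 3 : ℝ)) ^ 2 = (n : ℝ) ^ (2 / 3 : ℝ) := by rw [pw]; norm_num
  obtain ⟨N, g1, g2, g3⟩ := num_of (C := C) (κ := κ) (η := η) (ε := ε) (τ := τ) (H := H)
    (u := (n : ℝ) ^ (1 / 3 : ℝ)) (by linarith : 2 ≤ n) z0.le κ0.le (by linarith [hL.one]) ε0
    (abs_le_of_sq_le_sq' (by linarith) (by norm_num)).2 τ0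
    (abs_le_of_sq_le_sq' (by linarith) zero_le_one).2 H0 (by positivity) (by rw [pw]; norm_num) rfl
    (by rw [u2, Real.rpow_sub N0]) M1 MC (by
      have a1 : Real.log (4 * n) ≤ 2 * Real.log n := by
        rw [Real.log_mul (by norm_num) N0.ne']
        linarith [Real.log_le_log (by norm_num) N4]
      have a2 := Real.log_le_rpow_div N0.le z2'
      have a3 : (n : ℝ) ^ ζ = (n : ℝ) ^ (ζ / 2) * (n : ℝ) ^ (ζ / 2) := by
        rw [← Real.rpow_add N0, add_halves]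
      have a4 := mul_le_mul_of_nonneg_left Ml (by positivity : 0 ≤ (n : ℝ) ^ (ζ / 2))
      have a5 : (n : ℝ) ^ (ζ / 2) * (4 / ζ) = 2 * ((n : ℝ) ^ (ζ / 2) / (ζ / 2)) := by
        field_simp; ring
      linarith)
    (by rw [pw]; exact mono (by push_cast; linarith)) (by rw [pw]; exact mono (by push_cast; linarith))
    (by
      have := mul_le_mul_of_nonneg_right he (by positivity : 0 ≤ (n : ℝ) ^ ζ)
      rwa [← Real.rpow_add N0, neg_add_cancel, Real.rpow_zero] at this)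
    (by
      refine (abs_le_of_sq_le_sq' ?_ (by positivity)).2
      rw [div_le_iff₀ (by positivity)] at ht
      rw [mul_pow, u2, ← pow_mul, pw, mul_comm _ (τ ^ 2)]
      exact (mono (by push_cast; linarith)).trans ht) h1
    (by
      have : (τ ^ 2) ^ (3 / 2 : ℝ) = τ ^ 3 := by
        rw [← Real.rpow_natCast, ← Real.rpow_mul τ0.le, ← Real.rpow_natCast]; norm_num
      rwa [this] at h2)
  refine ⟨YY n ζ ε τ H, meas_YY hB, YY_le, fun dd => hL.mono _ _ _ _ g3 (lt_YY hL hB N dd),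
    fun W hW => fine_YY hB N hW, prob hB hT hD hN hG hH N g1 g2 ((hn ()).trans ?_)⟩
  rw [← ENNReal.ofReal_ofNat, ← ENNReal.ofReal_inv_of_pos two_pos]
  refine ENNReal.ofReal_le_ofReal ?_
  rw [Real.exp_neg]
  refine inv_anti₀ two_pos ?_
  linarith [Real.add_one_le_exp ((n : ℝ) ^ c), Real.one_le_rpow N1 c0.le]

end Crest.Agent.T157.Cp

end
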