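import Crest.Agent.T157.StDef_87
import Crest.Agent.T157.EdBase_88
import Crest.Agent.T157.PlB_37

/-!
# Row 157, part C4: links between the cube and the spherical models (helper10)
-/

set_option autoImplicit false
set_option linter.unusedSectionVars false

noncomputable section

namespace Crest.Agent.T157.St

open MeasureTheory ProbabilityTheory Matrix Filter Topology Finset Real
open scoped ENNReal
open Crest.ProbabilityR.SpinGlassDynamics Crest.Agent.T157.E Crest.Agent.T157.Eig
open Crest.Agent.T157.Cond Crest.Agent.T157.Ed Crest.Agent.T157.Top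

namespace Lnk10

section dm
variable {ι Ω : Type*} [Fintype ι] [Fintype Ω] {w : Ω → ℝ}

theorem prob_nonneg (hw : ∀ x, 0 ≤ w x) (x : Ω) : 0 ≤ prob w x :=
  div_nonneg (hw x) (sum_nonneg fun y _ => hw y)

theorem sum_prob [Nonempty Ω] (hw : ∀ x, 0 < w x) : ∑ x, prob w x = 1 := by
  simp only [prob]
  rw [← sum_div, div_self (sum_pos (fun x _ => hw x) univ_nonempty).ne']

omit [Fintype ι] in
theorem integrable_dm [Finite ι] (w : Ω → ℝ) (φ : Ω → ι → ℝ) (F : (ι → ℝ) → ℝ) :
    Integrable F (∑ x, ENNReal.ofReal (prob w x) • Measure.dirac (φ x)) :=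
  integrable_finsetSum_measure.2 fun _ _ =>
    (integrable_dirac enorm_lt_top).smul_measure ENNReal.ofReal_ne_top

/-- integrals against `dm` are weighted means -/
theorem integral_dm (hw : ∀ x, 0 ≤ w x) (φ : Ω → ι → ℝ) (F : (ι → ℝ) → ℝ) :
    ∫ y, F y ∂dm w φ = mean w fun x => F (φ x) := by
  rw [dm, integral_finsetSum_measure fun _ _ =>
    (integrable_dirac enorm_lt_top).smul_measure ENNReal.ofReal_ne_top]
  refine sum_congr rfl fun x _ => ?_
  rw [integral_smul_measure, integral_dirac, ENNReal.toReal_ofReal (prob_nonneg hw x), smul_eq_mul]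

theorem isProb_dm [Nonempty Ω] (hw : ∀ x, 0 < w x) (φ : Ω → ι → ℝ) :
    IsProbabilityMeasure (dm w φ) := ⟨by
  simp only [dm, Measure.coe_finsetSum, Finset.sum_apply, Measure.smul_apply, measure_univ,
    smul_eq_mul, mul_one]
  rw [← ENNReal.ofReal_sum_of_nonneg fun x _ => prob_nonneg (fun x => (hw x).le) x, sum_prob hw,
    ENNReal.ofReal_one]⟩

theorem ae_dm (w : Ω → ℝ) (φ : Ω → ι → ℝ) {P : (ι → ℝ) → Prop} (h : ∀ x, P (φ x)) :
    ∀ᵐ y ∂dm w φ, P y := by
  rw [dm, ae_finsetSum_measure_iff]
  exact fun x _ => Measure.ae_smul_measure (by rw [ae_dirac_eq]; exact h x) _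

theorem cp_dm [Nonempty Ω] (hw : ∀ x, 0 < w x) (φ : Ω → ι → ℝ) : Cp (dm w φ) :=
  ⟨isProb_dm hw φ, ∑ x, φ x ⬝ᵥ φ x, ae_dm w φ fun x =>
    single_le_sum (f := fun x => φ x ⬝ᵥ φ x) (fun y _ => dot_self_nonneg (φ y)) (mem_univ x)⟩

theorem map_dm {κ : Type*} [Fintype κ] (w : Ω → ℝ) (φ : Ω → ι → ℝ) {T : (ι → ℝ) → κ → ℝ}
    (hT : Measurable T) : (dm w φ).map T = dm w fun x => T (φ x) := by
  rw [dm, Measure.map_finset_sum hT.aemeasurable, dm]
  exact sum_congr rfl fun x _ => by rw [Measure.map_smul, Measure.map_dirac' hT]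

theorem dm_equiv (w : Ω → ℝ) (φ : Ω → ι → ℝ) (e : Ω ≃ Ω) (he : ∀ x, w (e x) = w x) :
    dm w (fun x => φ (e x)) = dm w φ := by
  rw [dm, dm, ← Equiv.sum_comp e fun x => ENNReal.ofReal (prob w x) • Measure.dirac (φ x)]
  simp only [prob, he]

end dm

section cp
variable {ι : Type*} [Fintype ι] {μ : Measure (ι → ℝ)}

theorem isCompact_ball (r : ℝ) : IsCompact {x : ι → ℝ | x ⬝ᵥ x ≤ r} := by
  refine (isCompact_closedBall (0 : ι → ℝ) (r + 1)).of_isClosed_subset
    (isClosed_le (by fun_prop) continuous_const) fun x hx => ?_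
  have h0 : 0 ≤ r := (dot_self_nonneg x).trans hx
  rw [mem_closedBall_zero_iff, pi_norm_le_iff_of_nonneg (by linarith)]
  intro i
  have h1 : x i * x i ≤ x ⬝ᵥ x :=
    single_le_sum (f := fun i => x i * x i) (fun j _ => mul_self_nonneg (x j)) (mem_univ i)
  have h2 : x i * x i ≤ r := h1.trans hx
  rw [Real.norm_eq_abs, abs_le]
  constructor <;> nlinarith

/-- continuous functions are integrable against a compactly supported law -/
theorem integrable_cp (h : Cp μ) {F : (ι → ℝ) → ℝ} (hF : Continuous F) : Integrable F μ := by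
  obtain ⟨r, hr⟩ := h.bdd
  have := h.prob
  rw [← Measure.restrict_eq_self_of_ae_mem (s := {x | x ⬝ᵥ x ≤ r}) hr]
  exact hF.continuousOn.integrableOn_compact (isCompact_ball r)

/-- parametric integrals against a compactly supported law -/
theorem continuous_cp (h : Cp μ) {X : Type*} [TopologicalSpace X] [FirstCountableTopology X]
    [LocallyCompactSpace X] {F : X → (ι → ℝ) → ℝ} (hF : Continuous F.uncurry) :
    Continuous fun p => ∫ x, F p x ∂μ := by
  obtain ⟨r, hr⟩ := h.bdd
  have := h.prob
  rw [← Measure.restrict_eq_self_of_ae_mem (s := {x | x ⬝ᵥ x ≤ r}) hr]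
  exact continuous_parametric_integral_of_continuous hF (isCompact_ball r)

theorem cp_tilted (h : Cp μ) {f : (ι → ℝ) → ℝ} (hf : Continuous f) : Cp (μ.tilted f) := by
  have := h.prob
  exact ⟨isProbabilityMeasure_tilted (integrable_cp h hf.rexp),
    h.bdd.imp fun _ hr => (tilted_absolutelyContinuous μ f).ae_le hr⟩

theorem integral_exp_pos_cp (h : Cp μ) {f : (ι → ℝ) → ℝ} (hf : Continuous f) :
    0 < ∫ x, exp (f x) ∂μ := by
  have := h.prob
  exact integral_exp_pos (integrable_cp h hf.rexp)

end cp

theorem map_tilted {α β : Type*} [MeasurableSpace α] [MeasurableSpace β] (μ : Measure α)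
    {T : α → β} (hT : Measurable T) {f : β → ℝ} (hf : Measurable f) :
    (μ.tilted fun x => f (T x)).map T = (μ.map T).tilted f := by
  ext s hs
  rw [Measure.map_apply hT hs, tilted_apply' _ _ (hT hs), tilted_apply' _ _ hs,
    setLIntegral_map hs (by fun_prop) hT,
    integral_map hT.aemeasurable hf.exp.aestronglyMeasurable]

theorem tilted_add_const {α : Type*} [MeasurableSpace α] (μ : Measure α) (f : α → ℝ) (c : ℝ) :
    (μ.tilted fun x => f x + c) = μ.tilted f := by
  simp only [Measure.tilted, exp_add, integral_mul_const]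
  congr 1
  funext x
  rw [mul_div_mul_right _ _ (exp_pos c).ne']

variable {n : ℕ}

instance : LocallyCompactSpace (Mat n) :=
  (inferInstance : LocallyCompactSpace (Fin n → Fin n → ℝ))

instance : FirstCountableTopology (Mat n) :=
  (inferInstance : FirstCountableTopology (Fin n → Fin n → ℝ))

theorem measurable_mulVec (O : Mat n) : Measurable fun x : Fin n → ℝ => O *ᵥ x :=
  (continuous_const.matrix_mulVec continuous_id).measurable

theorem continuous_Hh : Continuous fun q : Mat n × (Fin n → ℝ) => Hh n q.1 q.2 := by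
  unfold Hh; fun_prop

theorem continuous_Hh' (W : Mat n) : Continuous (Hh n W) :=
  continuous_Hh.comp (Continuous.prodMk_right W)

theorem ising_pos (W : Mat n) (x : Cube n) : 0 < ising W 0 x := exp_pos _

theorem integral_muW (W : Mat n) (F : (Fin n → ℝ) → ℝ) :
    ∫ y, F y ∂muW n W = mean (ising W 0) fun x => F (hat n x) :=
  integral_dm (fun x => (ising_pos W x).le) _ F

theorem integral_muG (g : Pair n → ℝ) (F : (Fin n → ℝ) → ℝ) :
    ∫ y, F y ∂muG n g = mean (gibbsWeight n 1 g) fun x => F (hat n x) :=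
  integral_dm (fun x => (gibbsWeight_pos 1 g x).le) _ F

theorem muW_Wmat (g : Pair n → ℝ) (d : Fin n → ℝ) : muW n (Wmat n g d) = muG n g := by
  rw [muW, muG, dm, dm, Wmat, Pl.prob_ising_add_diagonal, gibbsWeight_eq_ising, one_smul]

theorem muW_neg (W : Mat n) : (muW n W).map (fun x => -x) = muW n W := by
  have hs : ∀ x : Cube n, sv (fun i => !x i) = -sv x := fun x => funext fun i => spin_not (x i)
  let e : Cube n ≃ Cube n := Function.Involutive.toPerm (fun x i => !x i) fun x => by simp
  rw [muW, map_dm _ _ measurable_neg, ← dm_equiv (ising W 0) (hat n) e fun x => ?_]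
  · congr 1
    funext x
    change _ = hat n fun i => !x i
    rw [hat, hat, hs, smul_neg]
  · change ising W 0 (fun i => !x i) = _
    simp [ising, hs, mulVec_neg]

theorem continuous_ising (x : Cube n) : Continuous fun W : Mat n => ising W 0 x := by
  unfold ising; fun_prop

theorem continuous_prob (x : Cube n) : Continuous fun W : Mat n => prob (ising W 0) x :=
  (continuous_ising x).div (continuous_finsetSum _ fun y _ => continuous_ising y) fun W =>
    (sum_pos (fun y _ => ising_pos W y) univ_nonempty).ne'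

theorem continuous_muW {X : Type*} [TopologicalSpace X] {W : X → Mat n} (hW : Continuous W)
    {F : X → (Fin n → ℝ) → ℝ} (hF : Continuous F.uncurry) :
    Continuous fun p => ∫ x, F p x ∂muW n (W p) := by
  simp only [integral_muW, mean]
  exact continuous_finsetSum _ fun x _ => ((continuous_prob x).comp hW).mul
    (hF.comp (Continuous.prodMk_left (hat n x)))

theorem measurable_Tl (Ks : List ℝ) (f : (Fin n → ℝ) → ℝ) (x : Fin n → ℝ) :
    Measurable fun W : Mat n => Tl (muW n W) Ks f x := by
  induction Ks generalizing x with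
  | nil => exact measurable_const
  | cons K Ks ih =>
    change Measurable fun W : Mat n => Tk K (muW n W) (Tl (muW n W) Ks f) x
    simp only [Tk, pm, Mf, integral_muW, mean]
    refine (StronglyMeasurable.integral_prod_right (Measurable.stronglyMeasurable ?_)).measurable
    have hp : ∀ σ, Measurable fun q : Mat n × (Fin n → ℝ) => prob (ising q.1 0) σ := fun σ =>
      (continuous_prob σ).measurable.comp measurable_fst
    have he : ∀ σ, Measurable fun q : Mat n × (Fin n → ℝ) => ew K (K • x + √K • q.2) (hat n σ) :=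
      fun σ => by unfold ew dotProduct; fun_prop
    exact (Finset.measurable_fun_sum _ fun σ _ => (hp σ).mul
      (((ih (hat n σ)).comp measurable_fst).mul (he σ))).div
      (Finset.measurable_fun_sum _ fun σ _ => (hp σ).mul (he σ))

theorem measurable_PhiL (Ks : List ℝ) : Measurable fun W : Mat n => PhiL (muW n W) Ks := by
  simp only [PhiL, integral_muW, mean]
  exact Finset.measurable_fun_sum _ fun i _ => Finset.measurable_fun_sum _ fun σ _ =>
    (continuous_prob σ).measurable.mul ((measurable_Tl Ks _ _).const_mul _)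

theorem Hh_conj (W : Mat n) {O : Mat n} (hO : Oᵀ * O = 1) (x : Fin n → ℝ) :
    Hh n (O * W * Oᵀ) (O *ᵥ x) = Hh n W x := by
  rw [Hh, Hh, mulVec_mulVec, Matrix.mul_assoc, hO, Matrix.mul_one, ← mulVec_mulVec, dot_isom hO]

/-- the eigenvector matrix -/
def eigM (W : Mat n) : Mat n := fun i k => vec W k i

theorem eigM_isom {W : Mat n} (hW : W.IsHermitian) : (eigM W)ᵀ * eigM W = 1 := by
  ext k l
  have := vec_dot hW (k := k) (l := l) (by simp) (by simp)
  simp only [mul_apply, transpose_apply, eigM, one_apply, Fin.ext_iff]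
  exact this

theorem quad_eigM {W : Mat n} (hW : W.IsHermitian) (x : Fin n → ℝ) :
    (eigM W *ᵥ x) ⬝ᵥ W *ᵥ (eigM W *ᵥ x) = ∑ k : Fin n, lam W k * x k ^ 2 := by
  have h : W * eigM W = eigM W * diagonal fun k : Fin n => lam W k := by
    ext i k
    have := congrFun (mulVec_vec hW k) i
    rw [mul_diagonal, mul_comm]
    exact this
  rw [mulVec_mulVec, h, ← mulVec_mulVec, dot_isom (eigM_isom hW)]
  exact sum_congr rfl fun k _ => by rw [mulVec_diagonal]; ring

section sph
variable {S : Measure (Fin n → ℝ)}

theorem continuous_tilt (hS : Cp S) {X : Type*} [TopologicalSpace X] [FirstCountableTopology X]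
    [LocallyCompactSpace X] {W : X → Mat n} (hW : Continuous W)
    {F : X → (Fin n → ℝ) → ℝ} (hF : Continuous F.uncurry) :
    Continuous fun p => ∫ x, F p x ∂S.tilted (Hh n (W p)) := by
  simp only [integral_tilted, smul_eq_mul]
  have hH : Continuous fun q : X × (Fin n → ℝ) => exp (Hh n (W q.1) q.2) :=
    (continuous_Hh.comp ((hW.comp continuous_fst).prodMk continuous_snd)).rexp
  have hZ : Continuous fun p => ∫ x, exp (Hh n (W p) x) ∂S := continuous_cp hS hH
  exact continuous_cp hS ((hH.div (hZ.comp continuous_fst) fun q =>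
    (integral_exp_pos_cp hS (continuous_Hh' _)).ne').mul hF)

end sph

end Lnk10

open Lnk10

theorem lnkGlue : LnkGlue := by
  intro hS n hn
  have : Nonempty (Fin n) := ⟨⟨0, hn⟩⟩
  have h1 := (hS (Fin n)).1
  have hc : ∀ r, Cp (sphR (Fin n) r) := fun r =>
    ⟨(h1 r).1, r ^ 2, (h1 r).2.1.mono fun x hx => hx.le⟩
  have hconj : ∀ W O : Mat n, Oᵀ * O = 1 →
      nuW n (O * W * Oᵀ) = (nuW n W).map (fun x => O *ᵥ x) := fun W O hO => by
    have := map_tilted (sphR (Fin n) (sx n)) (measurable_mulVec O)
      (continuous_Hh' (O * W * Oᵀ)).measurable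
    simp only [Hh_conj W hO, (h1 _).2.2.2 O hO] at this
    exact this.symm
  have hexp : ∀ {X : Type} [TopologicalSpace X] {θ : X → ℝ} (_ : Continuous θ),
      Continuous (Function.uncurry fun (q : X × (Fin n → ℝ)) (x' : Fin n → ℝ) =>
        exp (θ q.1 * (q.2 ⬝ᵥ x'))) := fun hθ => by
    unfold Function.uncurry; fun_prop
  refine ⟨fun W => ⟨cp_dm (ising_pos W) _, cp_tilted (hc _) (continuous_Hh' W), muW_neg W, ?_⟩,
    fun η t _ => ⟨cp_tilted (hc _) (by fun_prop), fun k => ?_⟩, muW_Wmat,
    fun W hW => ⟨eigM W, eigM_isom hW, fun _ _ => rfl, ?_⟩, fun W O hO => ⟨hconj W O hO, ?_⟩,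
    ?_, ?_, ?_, continuous_cp (hc _) continuous_Hh.rexp, ?_,
    fun W => ⟨integral_exp_pos_cp (hc _) (continuous_Hh' W), ?_⟩, ?_, fun Ks _ => measurable_PhiL Ks⟩
  · have := hconj W (-1) (by simp)
    simpa [neg_mulVec] using this.symm
  · let O : Mat n := diagonal (Function.update 1 k (-1))
    have hO : Oᵀ * O = 1 := by
      rw [diagonal_transpose, diagonal_mul_diagonal, ← diagonal_one]
      congr 1
      funext i
      by_cases h : i = k
      · subst h; simp
      · simp [Function.update_of_ne h]
    have e : (fun x : Fin n → ℝ => Function.update x k (-x k)) = fun x => O *ᵥ x := by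
      funext x i
      rw [mulVec_diagonal]
      by_cases h : i = k
      · subst h; simp
      · simp [Function.update_of_ne h]
    have hf : Continuous fun x : Fin n → ℝ => -(1 / 2) * ∑ j : Fin n, η j * x j ^ 2 := by fun_prop
    have := map_tilted (sphR (Fin n) √t) (measurable_mulVec O) hf.measurable
    rw [(h1 _).2.2.2 O hO] at this
    have e2 : ∀ (x : Fin n → ℝ) j, (O *ᵥ x) j ^ 2 = x j ^ 2 := fun x j => by
      rw [mulVec_diagonal]
      by_cases h : j = k
      · subst h; simp
      · simp [Function.update_of_ne h]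
    simp only [e2] at this
    rw [e, nuD, this]
  · have := map_tilted (sphR (Fin n) (sx n)) (measurable_mulVec (eigM W))
      (continuous_Hh' W).measurable
    rw [(h1 _).2.2.2 _ (eigM_isom hW)] at this
    rw [nuW, ← this, nuD, sqrt_sq (sx_nonneg n),
      ← tilted_add_const _ (fun x : Fin n → ℝ => -(1 / 2) * ∑ k : Fin n, Lam n W k * x k ^ 2)
        (tau n * sx n ^ 2)]
    congr 1
    refine tilted_congr ((h1 (sx n)).2.1.mono fun x hx => ?_)
    simp only [Hh, quad_eigM hW]
    simp only [← hx, Lam, dotProduct, mul_sum, ← sum_add_distrib]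
    exact sum_congr rfl fun k _ => by ring
  · rw [Zs, ← (h1 _).2.2.2 O hO, integral_map (measurable_mulVec O).aemeasurable
      (continuous_Hh' _).rexp.aestronglyMeasurable]
    simp only [Hh_conj W hO, Zs]
  · exact continuous_tilt (hc _) continuous_snd
      (continuous_tilt (hc _) (continuous_snd.comp continuous_fst) (hexp continuous_fst))
  · exact continuous_muW continuous_snd
      (continuous_muW (continuous_snd.comp continuous_fst) (hexp continuous_fst))
  · exact continuous_muW continuous_snd
      (continuous_tilt (hc _) (continuous_snd.comp continuous_fst) (hexp continuous_fst))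
  · exact (continuous_finsetSum _ fun y _ => continuous_ising y).div_const _
  · exact div_pos (sum_pos (fun y _ => ising_pos W y) univ_nonempty) (by positivity)
  · exact continuous_matrix fun i j => continuous_tilt (hc _) continuous_id
      (F := fun _ x => x i * x j) (by unfold Function.uncurry; fun_prop)

end Crest.Agent.T157.St

end
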