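import Crest.Agent.T157.CqDef_72
import Crest.Agent.T157.StAll_87
import Mathlib.Analysis.Convex.PartitionOfUnity

/-!
# Row 157, part C: joint convergence of the marked scalars, `CvGlue` (helper41)
-/

set_option autoImplicit false

noncomputable section

namespace Crest.Agent.T157.Cq

open MeasureTheory ProbabilityTheory Matrix Filter Topology Finset Real
open Crest.ProbabilityR.SpinGlassDynamics Crest.Agent.T157.E Crest.Agent.T157.Eig
open Crest.Agent.T157.St Crest.Agent.T157.Ed Crest.Agent.T157.Cond Crest.Agent.T157.Top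
open Crest.Agent.T157.Tr (Off Om PM)
open Crest.Agent.T157.St.Apx22

namespace Cv41

/-- the marked scalar of a law -/
def ms {ι : Type*} [Fintype ι] (i : IS) (μ : Measure (ι → ℝ)) (M : Matrix ι ι ℝ) : ℝ :=
  mk μ M i.1.1 (i.2.1.ev μ 0)

lemma b1_zero {ι : Type*} [Fintype ι] : B1 (0 : (ι → ℝ) → ℝ) :=
  ⟨measurable_const, fun _ => by simp⟩

lemma sm_zero {ι : Type*} [Fintype ι] : Sm 1 (0 : (ι → ℝ) → ℝ) = 0 := by
  funext x; simp [Sm]

lemma ms_map (hI : IsoStmt) (i : IS) {ι κ : Type} [Fintype ι] [Fintype κ] [DecidableEq κ]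
    {U : Matrix ι κ ℝ} (hU : Uᵀ * U = 1) {μ : Measure (κ → ℝ)} (hμ : Cp μ) {M : Matrix ι ι ℝ}
    {D : Matrix κ κ ℝ} (h : M * U = U * D) : ms i (μ.map fun x => U *ᵥ x) M = ms i μ D := by
  rw [ms, ms, mk, mk, (Iso42.emb hU).integral_map]
  refine integral_congr_ae (.of_forall fun x => ?_)
  simp only
  rw [hI ι κ U hU μ hμ 0 b1_zero _ i.2.2 x, mulVec_mulVec, h, ← mulVec_mulVec, Iso42.dot_UU hU]
  rfl

/-- continuity in the discrepancy -/
lemma ms_close (hS : SclStmt) (i : IS) (Z₀ ε : ℝ) (hε : 0 < ε) : ∃ θ : ℝ, 0 ≤ θ ∧ ∀ B : ℝ,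
    ∃ δ : ℝ, 0 < δ ∧ ∀ (ι : Type) [Fintype ι] (μ ν : Measure (ι → ℝ)), Cp μ → Cp ν →
      Xk θ μ μ ≤ B → Xk θ ν ν ≤ B → D2 θ μ ν ≤ δ → ∀ M : Matrix ι ι ℝ, M.PosSemidef →
      M.trace ≤ Z₀ → |ms i μ M - ms i ν M| ≤ ε := by
  obtain ⟨θ, h0, h⟩ := hS (max (max Z₀ i.1.1) (max 1 i.2.1.sz)) ε hε
  refine ⟨θ, h0, fun B => ?_⟩
  obtain ⟨δ, hδ, h⟩ := h B
  refine ⟨δ, hδ, fun ι _ μ ν hμ hν h1 h2 h3 M hM hZ => ?_⟩
  have := h ι μ ν hμ hν h1 h2 h3 M i.1.1 1 0 i.2.1 hM
    (hZ.trans ((le_max_left _ _).trans (le_max_left _ _))) i.1.2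
    ((le_max_right _ _).trans (le_max_left _ _)) one_pos
    ((le_max_left _ _).trans (le_max_right _ _)) b1_zero i.2.2
    ((le_max_right _ _).trans (le_max_right _ _))
  rwa [sm_zero] at this

/-- continuity in the mark -/
lemma continuous_ms (hB : BdStmt) (i : IS) {ι : Type} [Fintype ι] {μ : Measure (ι → ℝ)}
    (hμ : Cp μ) : Continuous (ms i μ) := by
  have := hμ.prob
  obtain ⟨hm, hb⟩ := (hB ι μ this).2 0 b1_zero _ i.2.2
  have hc : Continuous cut := smoothTransition.continuous.comp (by fun_prop)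
  refine continuous_of_dominated (bound := fun _ => i.2.1.bd) (fun M => ?_)
    (fun M => .of_forall fun x => ?_) (integrable_const _) (.of_forall fun x => ?_)
  · exact ((hc.measurable.comp (by fun_prop)).mul hm).aestronglyMeasurable
  · rw [Real.norm_eq_abs, abs_mul, cut, abs_of_nonneg (smoothTransition.nonneg _)]
    exact (mul_le_of_le_one_left (abs_nonneg _) (smoothTransition.le_one _)).trans (hb x)
  · exact (hc.comp (by fun_prop)).mul continuous_const

lemma trace_le (L : ℝ) : ∃ Z : ℝ, ∀ (n : ℕ) (η : ℕ → ℝ) (t w C : ℝ), Gd n η t L w C →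
    ∀ m, m ≤ n → ∑ k ∈ range m, 1 / (η k ^ 2 + 1) ≤ Z := by
  have hs : Summable fun k : ℕ => 2 * (1 + L ^ 2) * 256 ^ 2 * (((k + 1 : ℕ) : ℝ) ^ (4 / 3 : ℝ))⁻¹ :=
    ((summable_nat_add_iff 1).2 (Real.summable_nat_rpow_inv.2 (by norm_num))).mul_left _
  refine ⟨_, fun n η t w C h m hm => le_trans (sum_le_sum fun k hk => ?_)
    (hs.sum_le_tsum (range m) fun k _ => by positivity)⟩
  have h1 := h.lo k ((mem_range.1 hk).trans_le hm)
  have h0 : (0 : ℝ) < (k : ℝ) + 1 := by positivity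
  have e : (((k + 1 : ℕ) : ℝ)) ^ (4 / 3 : ℝ) = (((k : ℝ) + 1) ^ (2 / 3 : ℝ)) ^ 2 := by
    rw [← rpow_natCast, ← rpow_mul h0.le]; push_cast; norm_num
  set u := ((k : ℝ) + 1) ^ (2 / 3 : ℝ) with hu
  have u0 : 0 < u := rpow_pos_of_pos h0 _
  rw [e, ← div_eq_mul_inv, div_le_div_iff₀ (by positivity) (by positivity)]
  have h2 : u ^ 2 ≤ (256 * (η k + L)) ^ 2 := pow_le_pow_left₀ u0.le (by linarith) 2
  nlinarith [sq_nonneg (η k - L), sq_nonneg (η k * L)]

/-- the mark of the finite model -/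
def md {K₁ K : ℕ} (h : K₁ ≤ K) (y : Fin K → ℝ) : Matrix (Fin K₁) (Fin K₁) ℝ :=
  diagonal fun k => 1 / (y (Fin.castLE h k) ^ 2 + 1)

lemma continuous_md {K₁ K : ℕ} (h : K₁ ≤ K) : Continuous (md h) :=
  (continuous_pi fun k => continuous_const.div (by fun_prop) fun y => by positivity).matrix_diagonal

lemma md_psd {K₁ K : ℕ} (h : K₁ ≤ K) (y : Fin K → ℝ) : (md h y).PosSemidef :=
  PosSemidef.diagonal fun k => by positivity

lemma fd_psd (n : ℕ) (η : ℕ → ℝ) : (fd n η).PosSemidef :=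
  PosSemidef.diagonal fun k => by positivity

lemma fl_psd (n : ℕ) (W : Mat n) : (fl n 1 W).PosSemidef := by
  refine .of_dotProduct_mulVec_nonneg (fnK_herm _ _) fun x => ?_
  rw [star_trivial, fl, quad_fnK]
  exact sum_nonneg fun k _ => mul_nonneg (by positivity) (mul_self_nonneg _)

lemma fl_mul {n : ℕ} {W O : Mat n} (hW : W.IsHermitian) (hO : ∀ i k, O i k = vec W k i) :
    fl n 1 W * O = O * fd n (Lam n W) := by
  ext i k
  have := congrFun (fnK_mulVec_vec hW (fun x => 1 ^ 2 / ((tau n * (2 - x)) ^ 2 + 1 ^ 2)) k) i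
  rw [fd, mul_diagonal, mul_comm, hO, mul_apply]
  simp only [hO]
  refine this.trans ?_
  simp only [Pi.smul_apply, smul_eq_mul, Lam, one_pow]

lemma fd_mul {K₁ K n : ℕ} (h : K₁ ≤ K) (η : ℕ → ℝ) :
    fd n η * padM K₁ n = padM K₁ n * md h fun k => η k := by
  ext i k
  rw [fd, md, mul_diagonal, diagonal_mul, padM]
  split_ifs with e
  · rw [e]; simp
  · simp

/-- a continuous version of the scalar of the finite model -/
lemma exists_cont (hB : BdStmt) (i : IS) {Z ε θ : ℝ} (hε : 0 < ε)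
    (hS : ∀ B : ℝ, ∃ δ : ℝ, 0 < δ ∧ ∀ (ι : Type) [Fintype ι] (μ ν : Measure (ι → ℝ)), Cp μ → Cp ν →
      Xk θ μ μ ≤ B → Xk θ ν ν ≤ B → D2 θ μ ν ≤ δ → ∀ M : Matrix ι ι ℝ, M.PosSemidef →
      M.trace ≤ Z → |ms i μ M - ms i ν M| ≤ ε)
    {K₁ K : ℕ} (h : K₁ ≤ K) {ρ : (Fin K → ℝ) → Measure (Fin K₁ → ℝ)} (hρ : ∀ y, Cp (ρ y))
    (hc : Continuous fun q : (Fin K → ℝ) × (Fin K → ℝ) => Xk θ (ρ q.1) (ρ q.2)) :
    ∃ Ψ : (Fin K → ℝ) → ℝ, Continuous Ψ ∧
      ∀ y, (md h y).trace ≤ Z → |ms i (ρ y) (md h y) - Ψ y| ≤ 2 * ε := by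
  refine (exists_continuous_forall_mem_convex_of_local_const
    (t := fun y : Fin K → ℝ => {c : ℝ | (md h y).trace ≤ Z → |ms i (ρ y) (md h y) - c| ≤ 2 * ε})
    (fun y => ?_) fun y0 => ?_).elim fun g hg => ⟨g, g.continuous, hg⟩
  · by_cases hy : (md h y).trace ≤ Z
    · convert convex_closedBall (ms i (ρ y) (md h y)) (2 * ε) using 1
      ext c
      simp only [hy, Set.mem_ofPred_eq, forall_const, Metric.mem_closedBall, Real.dist_eq,
        abs_sub_comm c]
    · rw [Set.eq_univ_of_forall (s := {c : ℝ | _ → _}) fun c h => absurd h hy]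
      exact convex_univ
  · refine ⟨ms i (ρ y0) (md h y0), ?_⟩
    obtain ⟨δ, hδ, hS⟩ := hS (Xk θ (ρ y0) (ρ y0) + 1)
    have c1 : Continuous fun y => Xk θ (ρ y) (ρ y) := hc.comp (continuous_id.prodMk continuous_id)
    have c2 : Continuous fun y => Xk θ (ρ y) (ρ y0) :=
      hc.comp (continuous_id.prodMk continuous_const)
    have c3 : Continuous fun y => D2 θ (ρ y) (ρ y0) :=
      (c1.sub (continuous_const.mul c2)).add continuous_const
    have e1 := (c1.tendsto y0).eventually (gt_mem_nhds (lt_add_one _))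
    have e2 := (c3.tendsto y0).eventually
      (gt_mem_nhds (show D2 θ (ρ y0) (ρ y0) < δ by unfold D2; linarith))
    have e3 := Metric.tendsto_nhds.1
      (((continuous_ms hB i (hρ y0)).comp (continuous_md h)).tendsto y0) ε hε
    filter_upwards [e1, e2, e3] with y h1 h2 h3 hy
    have h4 := hS _ _ _ (hρ y) (hρ y0) h1.le (by linarith) h2.le _ (md_psd h y) hy
    rw [Real.dist_eq, Function.comp_apply, Function.comp_apply] at h3
    rw [abs_le] at h4 ⊢
    rw [abs_lt] at h3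
    constructor <;> linarith [h3.1, h3.2, h4.1, h4.2]

/-- the scalars are close to continuous functions of the edge eigenvalues -/
theorem approx (hB : BdStmt) (hS : SclStmt) (hI : IsoStmt) (i : IS) (ε : ℝ) (hε : 0 < ε) :
    ∃ (K : ℕ) (Ψ : (Fin K → ℝ) → ℝ), Continuous Ψ ∧ ∀ᶠ n in atTop,
      GOE n {W | ε < |ms i (muW n W) (fl n 1 W) - Ψ (LamV n K W)|} ≤ ENNReal.ofReal ε := by
  have hM := mmdStmt
  obtain ⟨C, -, hG⟩ := All.goodStmt
  obtain ⟨L, w₁, hL, hG⟩ := hG (ε / 4) (by positivity)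
  obtain ⟨Z, hZ⟩ := trace_le L
  obtain ⟨θ, hθ0, hS⟩ := ms_close hS i Z (ε / 4) (by positivity)
  obtain ⟨w₂, hMg⟩ := All.mgfStmt L C hL
  obtain ⟨w₃, hF⟩ := All.finStmt L C θ hL hθ0
  set w := max w₁ (max w₂ w₃) with hw
  obtain ⟨B, hMg⟩ := hMg w ((le_max_left _ _).trans (le_max_right _ _))
  set B' := B * exp (B * |θ| ^ (3 / 2 : ℝ)) with hB'
  obtain ⟨δ, hδ, hPc⟩ := hS ((√B' + 1) ^ 2)
  obtain ⟨K₁, δ', hδ', hF⟩ := hF w ((le_max_right _ _).trans (le_max_right _ _)) (min δ 1)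
    (lt_min hδ one_pos)
  obtain ⟨L', hL', hR⟩ := All.renStmt w (min δ' (ε / 4)) (lt_min hδ' (by positivity))
  obtain ⟨K, ⟨hFK, hRK⟩, hK⟩ := ((hF.and hR).and (eventually_ge_atTop K₁)).exists
  obtain ⟨ρ, hρ, hρc, hFn⟩ := hFK (ct L') (continuous_ct hL' K)
  obtain ⟨Ψ, hΨ, hΨ'⟩ := exists_cont hB i (by positivity) hS hK hρ hρc
  refine ⟨K, Ψ, hΨ, ?_⟩
  filter_upwards [hG w (le_max_left _ _), hMg, hFn, hRK,
    whp_iff.1 (All.closeStmt.2 θ (min δ 1) hθ0 (lt_min hδ one_pos)) (ε / 4) (by positivity),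
    eventually_ge_atTop 1, eventually_ge_atTop K₁] with n h1 h2 h3 h4 h5 hn hn1
  obtain ⟨l1, l2, -, l4, -⟩ := All.lnkStmt n hn
  have ht : 0 < sx n ^ 2 := pow_pos (rpow_pos_of_pos (by exact_mod_cast hn) _) 2
  have sub : {W : Mat n | ε < |ms i (muW n W) (fl n 1 W) - Ψ (LamV n K W)|} ⊆
      ({W | ¬ (W.IsHermitian ∧ Gd n (Lam n W) (sx n ^ 2) L w C)} ∪
        {W | min δ' (ε / 4) <
          |sx n ^ 2 - ∑ k ∈ Ico K n, 1 / (w + Lam n W k) - ct L' (LamV n K W)|}) ∪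
        {W | ¬ D2 θ (muW n W) (nuW n W) ≤ min δ 1} := by
    intro W hW
    by_contra hn'
    simp only [Set.mem_union, Set.mem_ofPred_eq, not_or, not_not, not_lt] at hn'
    obtain ⟨⟨⟨hh, hg⟩, hr⟩, hd⟩ := hn'
    obtain ⟨O, hO, hOv, hO'⟩ := l4 W hh
    have cD := (l2 (Lam n W) _ ht).1
    obtain ⟨-, i2, -, -⟩ := isomStmt _ _ O hO _ _ cD cD
    have hX : Xk θ (nuD n (Lam n W) (sx n ^ 2)) (nuD n (Lam n W) (sx n ^ 2)) ≤ B' :=
      h2 _ _ ht hg θ
    have hXW : Xk θ (nuW n W) (nuW n W) ≤ B' := by rw [hO', i2]; exact hX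
    have t1 : (fl n 1 W).trace ≤ Z := by
      rw [fl, trace_fnK hh, Fintype.card_fin]
      simpa only [one_pow, Lam] using hZ n _ _ _ _ hg n le_rfl
    have t2 : (fd n (Lam n W)).trace ≤ Z := by
      rw [fd, trace_diagonal, Fin.sum_univ_eq_sum_range (fun k => 1 / (Lam n W k ^ 2 + 1))]
      exact hZ n _ _ _ _ hg n le_rfl
    have t3 : (md hK (LamV n K W)).trace ≤ Z := by
      rw [md, trace_diagonal]
      exact (Fin.sum_univ_eq_sum_range (fun k => 1 / (Lam n W k ^ 2 + 1)) K₁).trans_le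
        (hZ n _ _ _ _ hg K₁ hn1)
    have a1 := hPc _ _ _ (l1 W).1 (l1 W).2.1
      (Xk_le hM (l1 W).1 (l1 W).2.1 hθ0 hXW (hd.trans (min_le_right _ _)))
      (hXW.trans (le_sq_sqrt_add _)) (hd.trans (min_le_left _ _)) _ (fl_psd n W) t1
    have hD := h3 _ _ ht hg (hr.trans (min_le_left _ _))
    have j1 := Iso42.cp_map (padM_isom hn1) (hρ (LamV n K W))
    have j4 := ms_map hI i (padM_isom hn1) (hρ (LamV n K W)) (fd_mul hK (Lam n W))
    have e : (fun x => padM K₁ n *ᵥ x) = pad K₁ n := funext (padM_mulVec K₁ n)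
    rw [e] at j1 j4
    have hD' : D2 θ ((ρ (LamV n K W)).map (pad K₁ n)) (nuD n (Lam n W) (sx n ^ 2)) ≤ min δ 1 := by
      rw [(hM _ _ _ _ j1 cD cD θ θ hθ0 le_rfl).2.2.1]; exact hD
    have a2 := hPc _ _ _ j1 cD (Xk_le hM j1 cD hθ0 hX (hD'.trans (min_le_right _ _)))
      (hX.trans (le_sq_sqrt_add _)) (hD'.trans (min_le_left _ _)) _ (fd_psd n _) t2
    rw [j4] at a2
    rw [hO', ms_map hI i hO cD (fl_mul hh hOv)] at a1
    have a3 := hΨ' _ t3
    have hW' : ε < |ms i (muW n W) (fl n 1 W) - Ψ (LamV n K W)| := hW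
    change |ms i (ρ (LamV n K W)) (md hK (LamV n K W)) - _| ≤ _ at a2
    rw [abs_le] at a1 a2 a3
    rcases lt_abs.1 hW' with h | h <;> linarith [a1.1, a1.2, a2.1, a2.2, a3.1, a3.2]
  calc GOE n {W | ε < |ms i (muW n W) (fl n 1 W) - Ψ (LamV n K W)|} ≤ _ := measure_mono sub
    _ ≤ ENNReal.ofReal (ε / 4) + ENNReal.ofReal (ε / 4) + ENNReal.ofReal (ε / 4) :=
        (measure_union_le _ _).trans (add_le_add ((measure_union_le _ _).trans
          (add_le_add h1 (h4.trans (ENNReal.ofReal_le_ofReal (min_le_right _ _))))) h5)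
    _ ≤ ENNReal.ofReal ε := by
        rw [← ENNReal.ofReal_add (by positivity) (by positivity),
          ← ENNReal.ofReal_add (by positivity) (by positivity)]
        exact ENNReal.ofReal_le_ofReal (by linarith)

end Cv41

open Cv41

theorem cvGlue : CvGlue := by
  intro hB hS hI hm φ hφ
  classical
  suffices h : ∃ L, ∀ _ : Unit, Tendsto (fun n => ∫ p, φ (sc n p) ∂PB false n) atTop (𝓝 L) from
    h.imp fun L hL => hL ()
  refine Soft.cyl_conv_of_approx (B := Unit) (fun _ n => PB false n) sc hm (fun s ε hε => ?_) φ hφ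
  have hε' : 0 < ε / (s.card + 1) := by positivity
  choose K Ψ hΨ hP using fun i : IS => approx hB hS hI i _ hε'
  have mp : ∀ n, MeasurePreserving (fun p : Om n => Wp p) (PB false n) (GOE n) := fun n => mp_Wmat
  refine ⟨fun _ n p i => if i ∈ s then Ψ i (LamV n (K i) (Wp p)) else 0, fun _ n i => ?_,
    fun _ => ?_, fun ψ hψ => ?_⟩
  · by_cases hi : i ∈ s
    · simp only [if_pos hi]
      exact (hΨ i).measurable.comp ((measurable_LamV n _).comp (mp n).measurable)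
    · simp only [if_neg hi]; exact measurable_const
  · filter_upwards [(eventually_all_finset s).2 fun i _ => hP i] with n hn
    have hle : ε / (s.card + 1) ≤ ε :=
      div_le_self hε.le (by linarith [Nat.cast_nonneg (α := ℝ) s.card])
    calc _ ≤ PB false n ((fun p : Om n => Wp p) ⁻¹' ⋃ i ∈ s, {W | ε / (s.card + 1) <
            |ms i (muW n W) (fl n 1 W) - Ψ i (LamV n (K i) W)|}) := by
          refine measure_mono ?_
          rintro p ⟨i, hi, hW⟩
          rw [if_pos hi, sc, ← Lnk10.muW_Wmat p.1 p.2] at hW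
          exact Set.mem_biUnion hi (hle.trans_lt hW)
      _ ≤ ∑ i ∈ s, ENNReal.ofReal (ε / (s.card + 1)) :=
          ((mp n).measure_preimage_le _).trans
            ((measure_biUnion_finset_le _ _).trans (sum_le_sum hn))
      _ ≤ ENNReal.ofReal ε := by
          rw [← ENNReal.ofReal_sum_of_nonneg fun _ _ => hε'.le]
          refine ENNReal.ofReal_le_ofReal ?_
          rw [sum_const, nsmul_eq_mul, mul_div_assoc', div_le_iff₀ (by positivity)]
          nlinarith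
  · obtain ⟨ν, _, hν⟩ := Ed.All.limStmt (s.sup K)
    let G : (Fin (s.sup K) → ℝ) → IS → ℝ := fun y i =>
      if hi : i ∈ s then Ψ i fun k => y (Fin.castLE (le_sup hi) k) else 0
    have hG : Continuous G := continuous_pi fun i => by
      by_cases hi : i ∈ s
      · simp only [G, dif_pos hi]; exact (hΨ i).comp (by fun_prop)
      · simp only [G, dif_neg hi]; exact continuous_const
    obtain ⟨_, C, -, hC, -⟩ := id hψ
    let F := BoundedContinuousFunction.ofNormedAddCommGroup (fun y => ψ (G y))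
      (hψ.continuous.comp hG) C fun y => hC _
    refine ⟨_, fun _ => (hν F).congr fun n => ?_⟩
    rw [← (mp n).map_eq, integral_map (f := fun W => F (LamV n (s.sup K) W))
      (mp n).measurable.aemeasurable
      (F.continuous.measurable.comp (measurable_LamV n _)).aestronglyMeasurable]
    refine integral_congr_ae (Eventually.of_forall fun p => ?_)
    change ψ (G (LamV n (s.sup K) (Wp p))) = ψ _
    refine congrArg ψ (funext fun i => ?_)
    by_cases hi : i ∈ s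
    · simp only [G, dif_pos hi, if_pos hi]; rfl
    · simp only [G, dif_neg hi, if_neg hi]

end Crest.Agent.T157.Cq

end
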