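import Crest.Agent.T157.CqTv_37
import Crest.Agent.T157.StIso_42

/-!
# Row 157, part C: reduction to cylinder functions (`CylStmt`)
-/

set_option autoImplicit false
set_option linter.unusedSectionVars false

noncomputable section

namespace Crest.Agent.T157.Cq

open MeasureTheory ProbabilityTheory Matrix Filter Topology Finset Real
open Crest.Agent.T157.E Crest.Agent.T157.St Crest.Agent.T157.St.A87 Crest.Agent.T157.SL
open Crest.Agent.T157.St.Iso42 (Good good_coord good_ov measurable_keep dot_keep keep_dot_keep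
  dot_split exp_sub_le cs Xs D2_keep)

namespace Cyl37

open Tv37

variable {ι : Type*} [Fintype ι] [DecidableEq ι] {μ : Measure (ι → ℝ)} {K : ℝ}
  {f g : (ι → ℝ) → ℝ}

/-- the unnormalised posterior mean which sees the coordinates in `s` only -/
def Nk (K : ℝ) (μ : Measure (ι → ℝ)) (s : Finset ι) (f : (ι → ℝ) → ℝ) (y : ι → ℝ) : ℝ :=
  ∫ a, f a * ew K y (keep s a) ∂μ

lemma keep_univ (x : ι → ℝ) : keep univ x = x := by
  funext k
  simp [keep]

lemma keep_keep (s : Finset ι) (x : ι → ℝ) : keep s (keep s x) = keep s x := by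
  funext k
  by_cases h : k ∈ s <;> simp [keep, h]

lemma keep_le (s : Finset ι) (x : ι → ℝ) : keep s x ⬝ᵥ keep s x ≤ x ⬝ᵥ x := by
  rw [keep_dot_keep, dot_split s x x]
  exact le_add_of_nonneg_right (sum_nonneg fun k _ => mul_self_nonneg _)

lemma Nk_univ (f : (ι → ℝ) → ℝ) : Nk K μ univ f = Un K μ f := by
  funext y
  simp only [Nk, Un, keep_univ]

lemma Nk_keep (s : Finset ι) (y : ι → ℝ) : Nk K μ s f (keep s y) = Nk K μ s f y := by
  simp only [Nk, ew, keep_dot_keep]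
  simp only [dot_keep]

lemma bm_ewk (hK : 0 < K) (s : Finset ι) (y : ι → ℝ) : Bm fun a => ew K y (keep s a) :=
  ⟨(bm_ew hK y).meas.comp (measurable_keep s), (bm_ew hK y).bd.imp fun _ h _ => h _⟩

lemma abs_Nk_le [IsFiniteMeasure μ] (hK : 0 < K) (s : Finset ι) (hf : B1 f) (y : ι → ℝ) :
    |Nk K μ s f y| ≤ Nk K μ s (fun _ => 1) y := by
  refine norm_integral_le_of_norm_le (f := fun a => f a * ew K y (keep s a))
    (bm_int ((Bm.const 1).mul (bm_ewk hK s y))) (.of_forall fun x => ?_)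
  rw [Real.norm_eq_abs, abs_mul, abs_of_pos (ew_pos _ _ _)]
  exact mul_le_mul_of_nonneg_right (hf.2 x) (ew_pos _ _ _).le

lemma measurable_Nk [SFinite μ] (s : Finset ι) (hf : Measurable f) : Measurable (Nk K μ s f) :=
  (StronglyMeasurable.integral_prod_right (f := fun y x => f x * ew K y (keep s x))
    ((hf.comp measurable_snd).mul (measurable_ew K measurable_fst
      ((measurable_keep s).comp measurable_snd))).stronglyMeasurable).measurable

omit [DecidableEq ι] in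
lemma mg_nrm (r : ℝ) : MG fun z : ι → ℝ => exp (Fintype.card ι * √r * ‖z‖) :=
  ⟨by fun_prop, 1, Fintype.card ι * √r, zero_le_one, by positivity, fun z => by
    rw [abs_of_pos (exp_pos _), one_mul]⟩

lemma term_le (hK : 0 ≤ K) (s : Finset ι) (hf : B1 f) {r : ℝ} {a : ι → ℝ} (ha : a ⬝ᵥ a ≤ r)
    (y : ι → ℝ) : |f a * ew K y (keep s a)| ≤ exp (Fintype.card ι * √r * ‖y‖) := by
  rw [abs_mul, abs_of_pos (ew_pos _ _ _)]
  exact (mul_le_of_le_one_left (ew_pos _ _ _).le (hf.2 a)).trans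
    (ew_le hK ((keep_le s a).trans ha) y)

lemma mg_Nk (hμ : Cp μ) (hK : 0 ≤ K) (s : Finset ι) (hf : B1 f) : MG (Nk K μ s f) := by
  have := hμ.prob
  obtain ⟨r, hr⟩ := hμ.bdd
  refine (mg_nrm r).of_le (measurable_Nk s hf.1) fun y => ?_
  rw [abs_of_pos (exp_pos _)]
  exact (norm_integral_le_of_norm_le (f := fun a => f a * ew K y (keep s a)) (integrable_const _)
    (hr.mono fun a ha => term_le hK s hf ha y)).trans_eq (by simp)

theorem IK_Nk_Nk (hμ : Cp μ) (hK : 0 ≤ K) (s t : Finset ι) (hf : B1 f) (hg : B1 g) :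
    IK K (fun y => Nk K μ s f y * Nk K μ t g y) =
      ∫ p, f p.1 * g p.2 * exp (K * (keep s p.1 ⬝ᵥ keep t p.2)) ∂μ.prod μ := by
  have := hμ.prob
  obtain ⟨r, hr⟩ := hμ.bdd
  have e : ∀ p : (ι → ℝ) × (ι → ℝ), f p.1 * g p.2 * exp (K * (keep s p.1 ⬝ᵥ keep t p.2)) =
      ∫ z, f p.1 * ew K (√K • z) (keep s p.1) * (g p.2 * ew K (√K • z) (keep t p.2)) ∂gv ι :=
    fun p => by
      rw [← IK_ew_ew hK, IK, ← integral_const_mul]
      congr 1
      funext z
      ring
  simp only [e, IK, Nk, ← integral_prod_mul]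
  refine integral_integral_swap ?_
  have m1 : Measurable fun q : (ι → ℝ) × (ι → ℝ) × (ι → ℝ) => q.2.1 := by fun_prop
  have m2 : Measurable fun q : (ι → ℝ) × (ι → ℝ) × (ι → ℝ) => q.2.2 := by fun_prop
  refine ((intK ((mg_nrm r).mul (mg_nrm r)) K).comp_fst (μ.prod μ)).mono'
    (((hf.1.comp m1).mul (measurable_ew K (by fun_prop) ((measurable_keep s).comp m1))).mul
      ((hg.1.comp m2).mul (measurable_ew K (by fun_prop)
        ((measurable_keep t).comp m2)))).aestronglyMeasurable ?_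
  filter_upwards [(Measure.quasiMeasurePreserving_fst.comp Measure.quasiMeasurePreserving_snd).ae hr,
    (Measure.quasiMeasurePreserving_snd.comp Measure.quasiMeasurePreserving_snd).ae hr] with q a b
  simp only [Function.uncurry, Real.norm_eq_abs]
  rw [abs_mul]
  exact mul_le_mul (term_le hK s hf a _) (term_le hK t hg b _) (abs_nonneg _) (exp_pos _).le

lemma ov_sq (h : Cp μ) (s : Finset ι) :
    ∫ p, |∑ k ∈ s, p.1 k * p.2 k| * |∑ k ∈ s, p.1 k * p.2 k| ∂μ.prod μ =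
      ∑ i ∈ s, ∑ j ∈ s, sm μ i j ^ 2 := by
  have := h.prob
  have e : ∀ p : (ι → ℝ) × (ι → ℝ), |∑ k ∈ s, p.1 k * p.2 k| * |∑ k ∈ s, p.1 k * p.2 k| =
      ∑ k ∈ s, ∑ l ∈ s, p.1 k * p.1 l * (p.2 k * p.2 l) := fun p => by
    rw [abs_mul_abs_self, sum_mul_sum]
    exact sum_congr rfl fun k _ => sum_congr rfl fun l _ => by ring
  have hi : ∀ k l, Integrable (fun p : (ι → ℝ) × (ι → ℝ) => p.1 k * p.1 l * (p.2 k * p.2 l))
      (μ.prod μ) := fun k l =>
    ((((good_coord h k).mul (good_coord h l)).fst μ).mul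
      (((good_coord h k).mul (good_coord h l)).snd μ)).integrable
  simp only [e]
  rw [integral_finsetSum _ fun k _ => integrable_finsetSum _ fun l _ => hi k l]
  refine sum_congr rfl fun k _ => ?_
  rw [integral_finsetSum _ fun l _ => hi k l]
  refine sum_congr rfl fun l _ => ?_
  rw [integral_prod_mul (fun x : ι → ℝ => x k * x l) (fun x : ι → ℝ => x k * x l), sq]
  rfl

/-- the `L²` estimate for a nonnegative weight -/
theorem l2 (hμ : Cp μ) (hK : 0 ≤ K) (s : Finset ι) (hf : B1 f) (h0 : ∀ a, 0 ≤ f a) :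
    IK K (fun y => (Un K μ f y - Nk K μ s f y) ^ 2) ≤
      K * (√(∑ i ∈ sᶜ, ∑ j ∈ sᶜ, sm μ i j ^ 2) * √(Xk (2 * K) μ μ)) := by
  have := hμ.prob
  have a := mg_Nk hμ hK univ hf
  have b := mg_Nk hμ hK s hf
  have gf : Good μ f := ⟨hf.1, 1, zero_le_one, .of_forall hf.2⟩
  have gw := (gf.fst μ).mul (gf.snd μ)
  have ga := ((Good.const K).mul (good_ov hμ univ)).exp
  have gb := ((Good.const K).mul (good_ov hμ s)).exp
  have gq := (good_ov hμ sᶜ).abs
  have hc := cs gq ga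
  rw [ov_sq hμ] at hc
  have e2 : ∫ p, exp (K * ∑ k, p.1 k * p.2 k) * exp (K * ∑ k, p.1 k * p.2 k) ∂μ.prod μ =
      Xk (2 * K) μ μ := by
    rw [(D2_keep hμ (2 * K) s).2, Xs]
    congr 1
    funext p
    rw [← exp_add]
    congr 1
    ring
  rw [e2] at hc
  refine le_trans ?_ (mul_le_mul_of_nonneg_left hc hK)
  have e1 : IK K (fun y => (Un K μ f y - Nk K μ s f y) ^ 2) =
      IK K (fun y => Nk K μ univ f y * Nk K μ univ f y) -
        2 * IK K (fun y => Nk K μ univ f y * Nk K μ s f y) +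
        IK K (fun y => Nk K μ s f y * Nk K μ s f y) := by
    rw [← IK_const_mul, ← IK_sub (a.mul a) ((a.mul b).const_mul 2),
      ← IK_add ((a.mul a).sub ((a.mul b).const_mul 2)) (b.mul b), Nk_univ]
    exact IK_congr fun y => by ring
  rw [e1, IK_Nk_Nk hμ hK _ _ hf hf, IK_Nk_Nk hμ hK _ _ hf hf, IK_Nk_Nk hμ hK _ _ hf hf,
    ← integral_const_mul K]
  simp only [keep_dot_keep]
  simp only [keep_univ, dot_keep]
  have h1 := integral_sub (gw.mul ga).integrable (gw.mul gb).integrable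
  refine le_trans (le_of_eq (Eq.trans (by ring) h1.symm)) (integral_mono
    ((gw.mul ga).integrable.sub (gw.mul gb).integrable)
    ((gq.mul ga).integrable.const_mul K) fun p => ?_)
  have h2 := exp_sub_le (K * ∑ k, p.1 k * p.2 k) (K * ∑ k ∈ s, p.1 k * p.2 k)
  rw [← mul_sub, ← sum_add_sum_compl s, add_sub_cancel_left, sum_add_sum_compl, abs_mul,
    abs_of_nonneg hK, mul_assoc] at h2
  have h3 : f p.1 * f p.2 ≤ 1 :=
    mul_le_one₀ (le_of_abs_le (hf.2 _)) (h0 _) (le_of_abs_le (hf.2 _))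
  simp only [Pi.sub_apply]
  rw [← mul_sub]
  exact (mul_le_mul_of_nonneg_left h2 (mul_nonneg (h0 _) (h0 _))).trans
    (mul_le_of_le_one_left (by positivity) h3)

lemma Nk_half [IsFiniteMeasure μ] (hK : 0 < K) (s : Finset ι) (hf : B1 f) (y : ι → ℝ) :
    Nk K μ s f y = 2 * Nk K μ s (fun a => (1 + f a) / 2) y - Nk K μ s (fun _ => 1) y := by
  have i1 := bm_int (μ := μ) ((Bm.const 1).mul (bm_ewk hK s y))
  have i2 := bm_int (μ := μ) (hf.bm.mul (bm_ewk hK s y))
  rw [eq_sub_iff_add_eq, Nk, Nk, Nk, ← integral_add i2 i1, ← integral_const_mul]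
  congr 1
  funext a
  ring

theorem main (hμ : Cp μ) (hK : 0 < K) (s : Finset ι) (hf : B1 f) :
    ∃ φ, B1 φ ∧ (∀ y, φ y = φ (keep s y)) ∧ ∫ x, |Tk K μ f x - Sm K φ x| ∂μ ≤
      4 * √(K * (√(∑ i ∈ sᶜ, ∑ j ∈ sᶜ, sm μ i j ^ 2) * √(Xk (2 * K) μ μ))) := by
  have := hμ.prob
  have o : B1 fun _ : ι → ℝ => (1 : ℝ) := ⟨measurable_const, fun _ => by simp⟩
  have u0 : ∀ a, 0 ≤ (1 + f a) / 2 := fun a => by linarith [(abs_le.mp (hf.2 a)).1]
  have u : B1 fun a => (1 + f a) / 2 := ⟨(hf.1.const_add 1).div_const 2, fun a => by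
    rw [abs_of_nonneg (u0 a)]
    linarith [(abs_le.mp (hf.2 a)).2]⟩
  have hφ : B1 fun y => Nk K μ s f y / Nk K μ s (fun _ => 1) y :=
    ⟨(measurable_Nk s hf.1).div (measurable_Nk s measurable_const), fun y => by
      rw [abs_div]
      exact div_le_one_of_le₀ ((abs_Nk_le hK s hf y).trans (le_abs_self _)) (abs_nonneg _)⟩
  refine ⟨_, hφ, fun y => by simp only [Nk_keep], ?_⟩
  have c := bm_abs ((bm_pm' (μ := μ) hK hf.bm).sub hφ.bm)
  refine (integral_mono_of_nonneg (.of_forall fun x => abs_nonneg _) (bm_int (bm_Ay (K := K) c))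
    (.of_forall fun x => abs_Ay_sub_le (bm_pm' hK hf.bm) hφ.bm c (fun _ => le_rfl) x)).trans ?_
  have h1 := bayes' (μ := μ) hK.le o.bm c
  simp only [one_mul] at h1
  have mU := (mg_Un hμ hK.le u.bm.bs).sub (mg_Nk hμ hK.le s u)
  have mM := (mg_Un hμ hK.le o.bm.bs).sub (mg_Nk hμ hK.le s o)
  have k1 := (IK_abs_le_sqrt (K := K) mU).trans (sqrt_le_sqrt (l2 hμ hK.le s u u0))
  have k2 := (IK_abs_le_sqrt (K := K) mM).trans (sqrt_le_sqrt (l2 hμ hK.le s o fun _ => zero_le_one))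
  have k3 := IK_add (K := K) (mU.abs.const_mul 2) (mM.abs.const_mul 2)
  rw [IK_const_mul, IK_const_mul] at k3
  rw [h1]
  refine (IK_mono ((mg_Un hμ hK.le o.bm.bs).mul c.mg)
    ((mU.abs.const_mul 2).add (mM.abs.const_mul 2)) fun y => ?_).trans (by linarith)
  have p1 := Mf_pos' (μ := μ) hK y
  have p2 := Nk_half (μ := μ) hK univ hf y
  have p3 := Nk_half (μ := μ) hK s hf y
  have p4 := hφ.2 y
  rw [Nk_univ, Nk_univ, Nk_univ] at p2
  rw [pm_eq, Mf_eq] at *
  have p5 : 0 < Nk K μ s (fun _ => 1) y := by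
    simp only [Nk, one_mul]
    exact integral_exp_pos (bm_int (bm_ewk hK s y))
  set M := Un K μ (fun _ => 1) y
  set M0 := Nk K μ s (fun _ => 1) y
  set t := Nk K μ s f y / M0 with ht
  have e : M * (Un K μ f y / M - t) = 2 * (Un K μ (fun a => (1 + f a) / 2) y -
      Nk K μ s (fun a => (1 + f a) / 2) y) - (1 + t) * (M - M0) := by
    have : t * M0 = Nk K μ s f y := div_mul_cancel₀ _ p5.ne'
    rw [mul_sub, mul_div_cancel₀ _ p1.ne']
    linear_combination p2 - p3 - this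
  rw [← abs_of_pos p1, ← abs_mul, abs_of_pos p1, e]
  refine (abs_sub _ _).trans ?_
  rw [abs_mul, abs_mul, abs_two]
  have : |1 + t| ≤ 2 := (abs_add_le _ _).trans (by rw [abs_one]; linarith)
  gcongr

end Cyl37

/-- **leaf CYL** -/
theorem cylStmt : CylStmt := by
  intro K B ε hK hε
  have h1 : 0 < K * (√B + 1) := by positivity
  refine ⟨((ε / 4) ^ 2 / (K * (√B + 1))) ^ 2, by positivity, fun ι _ _ μ s hμ hB hδ ψ hψ => ?_⟩
  obtain ⟨φ, a, b, c⟩ := Cyl37.main hμ hK s hψ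
  refine ⟨φ, a, b, c.trans ?_⟩
  have h2 := sqrt_le_sqrt ((Xk_mono hμ (K := 2 * K) (by positivity) (by linarith)).trans hB)
  have h3 := (sqrt_le_left (by positivity)).mpr hδ
  rw [← le_div_iff₀' four_pos, sqrt_le_left (by positivity)]
  calc _ ≤ K * ((ε / 4) ^ 2 / (K * (√B + 1)) * (√B + 1)) := by gcongr; linarith
    _ = _ := by field_simp

end Crest.Agent.T157.Cq
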