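import Crest.Agent.T157.PathA_90

/-!
# Row 157, part C: the soft top of S0233 (helper90)

`s0233_of_fdd`: joint finite-dimensional convergence of `(An, Bn)`, tightness of `An`, size and
modulus bounds for `Bn` on compact squares and the merging of `Bn (s, ·)` with `An` for large `s`
(Gaussian couplings) give the statement S0233.
-/

set_option autoImplicit false

noncomputable section

namespace Crest.Agent.T157.Soft

open MeasureTheory Filter Topology Set BoundedContinuousFunction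
open Crest.ProbabilityR.SpinGlassDynamics
open Crest.Agent.T157

/-- index set of the joint finite-dimensional distributions -/
abbrev IAB : Type := Ioi (0 : ℝ) ⊕ Ioi (0 : ℝ) × Ioi (0 : ℝ)

/-- the values of `An` and `Bn` -/
def ABn (n : ℕ) (g : Pair n → ℝ) : IAB → ℝ :=
  Sum.elim (fun s => An n g s) fun p => Bn n g p.1 p.2

/-- the values of `Rn` and `Bn` -/
def RBn (n : ℕ) (g : Pair n → ℝ) : IAB → ℝ :=
  Sum.elim (fun a => Rn n g a) fun p => Bn n g p.1 p.2

/-- joint finite-dimensional convergence of `(An, Bn)`, same limit for both coupling laws -/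
def ABFddStmt : Prop := ∀ φ : (IAB → ℝ) → ℝ, IsCyl φ → ∃ L, ∀ b,
  Tendsto (fun n => ∫ g, φ (ABn n g) ∂couplingLaw b n) atTop (𝓝 L)

/-- joint convergence of the resolvent values and of the values of `Bn` -/
def RBConvStmt : Prop := ∀ φ : (IAB → ℝ) → ℝ, IsCyl φ → ∃ L, ∀ b,
  Tendsto (fun n => ∫ g, φ (RBn n g) ∂couplingLaw b n) atTop (𝓝 L)

/-- `Bn` is tight in sup norm on compact squares -/
def BSizeStmt : Prop := ∀ (b : Bool) (a a' ε : ℝ), 0 < a → 0 < ε → ∃ M : ℝ, ∀ᶠ n in atTop,
  couplingLaw b n {g | ∃ s ∈ Icc a a', ∃ t ∈ Icc a a', M < |Bn n g s t|} ≤ ENNReal.ofReal ε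

/-- asymptotic equicontinuity of `Bn` on compact squares -/
def BModStmt : Prop := ∀ (b : Bool) (a a' η ε : ℝ), 0 < a → 0 < η → 0 < ε → ∃ δ : ℝ, 0 < δ ∧
  ∀ᶠ n in atTop, couplingLaw b n {g | ∃ s ∈ Icc a a', ∃ t ∈ Icc a a', ∃ s' ∈ Icc a a',
    ∃ t' ∈ Icc a a', |s - s'| < δ ∧ |t - t'| < δ ∧ η < |Bn n g s t - Bn n g s' t'|} ≤
      ENNReal.ofReal ε

/-- for large waiting time the quench autocorrelation is close to the stationary one -/
def MergeStmt : Prop := ∀ a a' η ε : ℝ, 0 < a → 0 < η → 0 < ε → ∃ s₁ : ℝ, ∀ s, s₁ ≤ s → 0 < s →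
  ∃ᶠ n in atTop, disorderLaw n {g | ∃ t ∈ Icc a a', η < |Bn n g s t - An n g t|} ≤ ENNReal.ofReal ε

lemma measurable_ABn (n : ℕ) (i : IAB) : Measurable fun g => ABn n g i := by
  rcases i with s | p
  · exact (continuous_An_left _).measurable
  · exact (continuous_Bn_left _ _).measurable

lemma measurable_RBn (n : ℕ) (i : IAB) : Measurable fun g => RBn n g i := by
  rcases i with s | p
  · exact measurable_Rn _
  · exact (continuous_Bn_left _ _).measurable

/-- a cylinder function of finitely many finite linear combinations is a cylinder function -/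
lemma IsCyl.comp_lin {I J : Type*} {ψ : (I → ℝ) → ℝ} (hψ : IsCyl ψ) (t : I → Finset J)
    (w : I → J → ℝ) : IsCyl fun x : J → ℝ => ψ fun i => ∑ α ∈ t i, w i α * x α := by
  classical
  obtain ⟨u, K, hK, hb, hl⟩ := hψ
  set W : ℝ := ∑ s ∈ u, ∑ α ∈ t s, |w s α| with hW
  have hW0 : 0 ≤ W := by positivity
  refine ⟨u.biUnion t, K * (1 + W), by positivity, fun x => (hb _).trans ?_,
    fun x y => (hl _ _).trans ?_⟩
  · exact le_mul_of_one_le_right hK (le_add_of_nonneg_right hW0)
  set S := ∑ α ∈ u.biUnion t, |x α - y α| with hS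
  have hS0 : 0 ≤ S := by positivity
  have key : ∑ s ∈ u, |∑ α ∈ t s, w s α * x α - ∑ α ∈ t s, w s α * y α| ≤ W * S := by
    rw [hW, Finset.sum_mul]
    refine Finset.sum_le_sum fun s hs => ?_
    rw [← Finset.sum_sub_distrib, Finset.sum_mul]
    refine (Finset.abs_sum_le_sum_abs _ _).trans (Finset.sum_le_sum fun α hα => ?_)
    rw [← mul_sub, abs_mul]
    refine mul_le_mul_of_nonneg_left ?_ (abs_nonneg _)
    exact Finset.single_le_sum (f := fun α => |x α - y α|) (fun _ _ => abs_nonneg _)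
      (Finset.mem_biUnion.2 ⟨s, hs, hα⟩)
  rw [mul_assoc]
  refine mul_le_mul_of_nonneg_left (key.trans ?_) hK
  nlinarith

theorem abfdd_of_res (h : RBConvStmt) (ht : ResTightStmt) : ABFddStmt := by
  intro φ hφ
  refine cyl_conv_of_approx couplingLaw ABn measurable_ABn (fun T ε hε => ?_) φ hφ
  obtain ⟨M₀, h₀⟩ := ht false ε hε
  obtain ⟨M₁, h₁⟩ := ht true ε hε
  set M := max 1 (max M₀ M₁) with hM
  have hM0 : 0 < M := lt_of_lt_of_le one_pos (le_max_left _ _)
  choose t w hw using fun s : Ioi (0 : ℝ) => An_approx (s := s) s.2 (div_pos hε hM0)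
  classical
  let t' : IAB → Finset IAB := Sum.elim (fun s => (t s).map Function.Embedding.inl)
    fun p => {Sum.inr p}
  let w' : IAB → IAB → ℝ := Sum.elim (fun s => Sum.elim (w s) 0) fun _ _ => 1
  refine ⟨fun _ n g i => ∑ α ∈ t' i, w' i α * RBn n g α, fun _ n s => ?_, fun b => ?_,
    fun ψ hψ => h _ (hψ.comp_lin t' w')⟩
  · exact Finset.measurable_fun_sum _ fun α _ => (measurable_RBn _ _).const_mul _
  · have hb : ∀ᶠ n in atTop, couplingLaw b n {g | M < Rn n g 1} ≤ ENNReal.ofReal ε := by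
      cases b
      · refine h₀.mono fun n hn => le_trans (measure_mono fun g hg => ?_) hn
        exact lt_of_le_of_lt ((le_max_left M₀ M₁).trans (le_max_right 1 _)) hg
      · refine h₁.mono fun n hn => le_trans (measure_mono fun g hg => ?_) hn
        exact lt_of_le_of_lt ((le_max_right M₀ M₁).trans (le_max_right 1 _)) hg
    refine hb.mono fun n hn => le_trans (measure_mono ?_) hn
    rintro g ⟨s | p, -, hg⟩
    · simp only [ABn, RBn, t', w', Sum.elim_inl, Finset.sum_map, Function.Embedding.inl_apply] at hg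
      have h1 := hg.trans_le (hw s n g)
      rw [div_mul_eq_mul_div, lt_div_iff₀ hM0] at h1
      exact lt_of_mul_lt_mul_left h1 hε.le
    · simp only [ABn, RBn, t', w', Sum.elim_inr, Finset.sum_singleton, one_mul, sub_self,
        abs_zero] at hg
      exact absurd hg (not_lt.2 hε.le)

theorem afdd_of_abfdd (h : ABFddStmt) : AFddStmt := by
  intro φ hφ
  have := h _ (hφ.comp_lin (fun s => ({Sum.inl s} : Finset IAB)) fun _ _ => 1)
  simpa [ABn] using this

/-- the law of `toPathPair n` -/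
def lawAB (b : Bool) (n : ℕ) : ProbabilityMeasure PathPair :=
  ⟨(couplingLaw b n).map (toPathPair n),
    Measure.isProbabilityMeasure_map measurable_toPathPair.aemeasurable⟩

lemma lawAB_apply (b : Bool) (n : ℕ) {S : Set PathPair} (hS : MeasurableSet S) :
    (lawAB b n : Measure PathPair) S = couplingLaw b n (toPathPair n ⁻¹' S) :=
  Measure.map_apply measurable_toPathPair hS

/-- the laws of the functions `Bn` are tight -/
theorem isTight_quenchPath [MeasurableSpace C(Ioi (0 : ℝ) × Ioi (0 : ℝ), ℝ)]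
    [BorelSpace C(Ioi (0 : ℝ) × Ioi (0 : ℝ), ℝ)] (h1 : BSizeStmt) (h2 : BModStmt) (b : Bool) :
    IsTightMeasureSet {(couplingLaw b n).map (quenchPath n) | n} := by
  have key : ∀ (n : ℕ) (S : Set C(Ioi (0 : ℝ) × Ioi (0 : ℝ), ℝ)), IsOpen S →
      (couplingLaw b n).map (quenchPath n) S = couplingLaw b n (quenchPath n ⁻¹' S) := fun n S hS =>
    Measure.map_apply continuous_quenchPath.measurable hS.measurableSet
  refine isTight_of_modulus (fun j => Kx j ×ˢ Kx j) (fun j => (isCompact_Kx j).prod (isCompact_Kx j))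
    (fun x => ?_) (fun n => (couplingLaw b n).map (quenchPath n)) (fun j ε hε => ?_)
    (fun j η ε hη hε => ?_)
  · obtain ⟨j, hj, hj'⟩ := ((Kx_eventually x.1).and (Kx_eventually x.2)).exists
    exact ⟨j, prod_mem_nhds hj hj'⟩
  · obtain ⟨ε', -, hε', hle⟩ := ENNReal.lt_iff_exists_real_btwn.1 hε
    obtain ⟨M, hM⟩ := h1 b (1 / ((j : ℝ) + 1)) (j + 1) ε' Nat.one_div_pos_of_nat
      (ENNReal.ofReal_pos.1 hε')
    refine ⟨M, hM.mono fun n hn => (key n _ ?_).trans_le ?_⟩
    · simp only [ofPred_exists, ofPred_and]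
      exact isOpen_iUnion fun x => isOpen_const.inter (isOpen_lt (by fun_prop) (by fun_prop))
    · refine le_trans (measure_mono ?_) (hn.trans hle.le)
      rintro g ⟨x, hx, h⟩
      exact ⟨x.1, hx.1, x.2, hx.2, h⟩
  · obtain ⟨ε', -, hε', hle⟩ := ENNReal.lt_iff_exists_real_btwn.1 hε
    obtain ⟨δ, hδ, hM⟩ := h2 b (1 / ((j : ℝ) + 1)) (j + 1) η ε' Nat.one_div_pos_of_nat hη
      (ENNReal.ofReal_pos.1 hε')
    refine ⟨δ, hδ, hM.mono fun n hn => (key n _ ?_).trans_le ?_⟩
    · simp only [ofPred_exists, ofPred_and]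
      exact isOpen_iUnion fun x => isOpen_const.inter (isOpen_iUnion fun y => isOpen_const.inter
        (isOpen_const.inter (isOpen_lt (by fun_prop) (by fun_prop))))
    · refine le_trans (measure_mono ?_) (hn.trans hle.le)
      rintro g ⟨x, hx, y, hy, hd, h⟩
      rw [Prod.dist_eq, max_lt_iff] at hd
      exact ⟨x.1, hx.1, x.2, hx.2, y.1, hy.1, y.2, hy.2, hd.1, hd.2, h⟩

theorem isTight_toPathPair (h0 : ATightStmt) (h1 : BSizeStmt) (h2 : BModStmt) (b : Bool) :
    IsTightMeasureSet {(couplingLaw b n).map (toPathPair n) | n} := by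
  let _ : MeasurableSpace C(Ioi (0 : ℝ) × Ioi (0 : ℝ), ℝ) := borel _
  have : BorelSpace C(Ioi (0 : ℝ) × Ioi (0 : ℝ), ℝ) := ⟨rfl⟩
  have t1 := isTight_toPath h0 b
  have t2 := isTight_quenchPath h1 h2 b
  rw [isTightMeasureSet_iff_exists_isCompact_measure_compl_le] at t1 t2 ⊢
  intro ε hε
  obtain ⟨K₁, hK₁, e1⟩ := t1 (ε / 2) (ENNReal.half_pos hε.ne')
  obtain ⟨K₂, hK₂, e2⟩ := t2 (ε / 2) (ENNReal.half_pos hε.ne')
  have hK : IsCompact (X := PathPair) (K₁ ×ˢ K₂) := hK₁.prod hK₂
  refine ⟨_, hK, ?_⟩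
  rintro _ ⟨n, rfl⟩
  have e1' := e1 _ ⟨n, rfl⟩
  have e2' := e2 _ ⟨n, rfl⟩
  rw [Measure.map_apply measurable_toPath hK₁.measurableSet.compl] at e1'
  rw [Measure.map_apply continuous_quenchPath.measurable hK₂.measurableSet.compl] at e2'
  rw [Measure.map_apply measurable_toPathPair hK.measurableSet.compl, ← ENNReal.add_halves ε]
  refine le_trans (measure_mono fun g hg => ?_) ((measure_union_le _ _).trans (add_le_add e1' e2'))
  by_contra hcon
  simp only [mem_union, mem_preimage, mem_compl_iff, not_or, not_not] at hcon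
  exact hg ⟨hcon.1, hcon.2⟩

/-- evaluations on `PathPair` -/
def evAB (p : PathPair) : IAB → ℝ := Sum.elim (fun s => p.1 s) fun q => p.2 q

lemma continuous_pair_fst (s : Ioi (0 : ℝ)) : Continuous fun p : PathPair => p.1 s :=
  (continuous_eval_const s).comp continuous_fst

lemma continuous_pair_snd (q : Ioi (0 : ℝ) × Ioi (0 : ℝ)) : Continuous fun p : PathPair => p.2 q :=
  (continuous_eval_const q).comp continuous_snd

lemma continuous_evAB (i : IAB) : Continuous fun p => evAB p i := by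
  rcases i with s | q
  exacts [continuous_pair_fst s, continuous_pair_snd q]

lemma evAB_injective : Function.Injective evAB := fun _ _ h =>
  Prod.ext (ContinuousMap.ext fun s => congrFun h (Sum.inl s))
    (ContinuousMap.ext fun s => congrFun h (Sum.inr s))

lemma evAB_toPathPair {n : ℕ} (g : Pair n → ℝ) : evAB (toPathPair n g) = ABn n g := by
  funext i; rcases i with s | q <;> rfl

/-- **S0233 from finite-dimensional convergence.** -/
theorem s0233_of_fdd (h1 : ABFddStmt) (h2 : ATightStmt) (h3 : BSizeStmt) (h4 : BModStmt)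
    (h5 : MergeStmt) :
    ∃ Q : Measure PathPair, IsProbabilityMeasure Q ∧
      (∀ (b : Bool) (F : PathPair →ᵇ ℝ),
        Tendsto (fun n : ℕ => ∫ g, F (toPathPair n g) ∂(couplingLaw b n)) atTop
          (𝓝 (∫ p, F p ∂Q))) ∧
      ∀ (a b ε : ℝ), 0 < a → a ≤ b → 0 < ε →
        Tendsto (fun s : Ioi (0 : ℝ) => Q {p | ∃ t : Ioi (0 : ℝ),
          a ≤ (t : ℝ) ∧ (t : ℝ) ≤ b ∧ ε < |p.2 (s, t) - p.1 t|}) atTop (𝓝 0) := by
  obtain ⟨Q, hQ⟩ := exists_weak_limit evAB continuous_evAB evAB_injective lawAB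
    (isTight_toPathPair h2 h3 h4) fun φ hφ => by
      obtain ⟨L, hL⟩ := h1 φ hφ
      refine ⟨L, fun b => (hL b).congr fun n => ?_⟩
      simp_rw [← evAB_toPathPair]
      exact (integral_map measurable_toPathPair.aemeasurable
        (hφ.continuous.comp (continuous_pi continuous_evAB)).aestronglyMeasurable).symm
  refine ⟨Q, inferInstance, fun b F => ?_, fun a b η ha _ hη => ?_⟩
  · refine ((ProbabilityMeasure.tendsto_iff_forall_integral_tendsto.1 (hQ b)) F).congr fun n => ?_
    exact integral_map measurable_toPathPair.aemeasurable F.continuous.aestronglyMeasurable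
  · rw [ENNReal.tendsto_nhds_zero]
    intro ε hε
    obtain ⟨ε', -, hε', hle⟩ := ENNReal.lt_iff_exists_real_btwn.1 hε
    obtain ⟨s₁, hs₁⟩ := h5 a b η ε' ha hη (ENNReal.ofReal_pos.1 hε')
    filter_upwards [eventually_ge_atTop
      (⟨max s₁ 1, mem_Ioi.2 (lt_of_lt_of_le one_pos (le_max_right _ _))⟩ : Ioi (0 : ℝ))] with s hs
    have hS : IsOpen {p : PathPair | ∃ t : Ioi (0 : ℝ),
        a ≤ (t : ℝ) ∧ (t : ℝ) ≤ b ∧ η < |p.2 (s, t) - p.1 t|} := by
      simp only [ofPred_exists, ofPred_and]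
      exact isOpen_iUnion fun t => isOpen_const.inter (isOpen_const.inter (isOpen_lt continuous_const
        ((continuous_pair_snd _).sub (continuous_pair_fst _)).abs))
    refine (measure_open_le (hQ false) hS ((hs₁ s ((le_max_left _ _).trans hs) s.2).mono
      fun n hn => ?_)).trans hle.le
    rw [lawAB_apply _ _ hS.measurableSet]
    refine le_trans (measure_mono ?_) hn
    rintro g ⟨t, h, h', h''⟩
    exact ⟨t, ⟨h, h'⟩, h''⟩

/-- **S0233 from resolvent convergence.** -/
theorem s0233_of_res (h1 : RBConvStmt) (h2 : ResTightStmt) (h3 : BSizeStmt) (h4 : BModStmt)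
    (h5 : MergeStmt) :
    ∃ Q : Measure PathPair, IsProbabilityMeasure Q ∧
      (∀ (b : Bool) (F : PathPair →ᵇ ℝ),
        Tendsto (fun n : ℕ => ∫ g, F (toPathPair n g) ∂(couplingLaw b n)) atTop
          (𝓝 (∫ p, F p ∂Q))) ∧
      ∀ (a b ε : ℝ), 0 < a → a ≤ b → 0 < ε →
        Tendsto (fun s : Ioi (0 : ℝ) => Q {p | ∃ t : Ioi (0 : ℝ),
          a ≤ (t : ℝ) ∧ (t : ℝ) ≤ b ∧ ε < |p.2 (s, t) - p.1 t|}) atTop (𝓝 0) :=
  s0233_of_fdd (abfdd_of_res h1 h2) (atight_of_res h2) h3 h4 h5

end Crest.Agent.T157.Soft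

end
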