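import Crest.Agent.T157.TrA_64

/-!
# Row 157, part C1 (helper64): vector observables, conservation with bad events, crude bound
-/

set_option autoImplicit false
set_option linter.unusedSectionVars false

noncomputable section

namespace Crest.Agent.T157.Tr

open MeasureTheory ProbabilityTheory Filter Topology Set Real Matrix
open Crest.Agent.T157.SL Crest.Agent.T157.E Crest.Agent.T157.Pa Crest.Agent.T157.Eig

theorem le_sqrt_of_forall {x a b : ℝ} (ha : 0 ≤ a) (hb : 0 ≤ b)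
    (h : ∀ l : ℝ, 0 < l → x ≤ (l * a + b / l) / 2) : x ≤ √a * √b := by
  rcases le_or_gt x 0 with hx | hx
  · exact hx.trans (by positivity)
  rcases ha.eq_or_lt with ha0 | ha0
  · exfalso
    have h1 := h ((b + 1) / x) (by positivity)
    rw [← ha0, mul_zero, zero_add, div_div_eq_mul_div, div_div, le_div_iff₀ (by positivity)] at h1
    nlinarith
  · have h1 := h (x / a) (by positivity)
    rw [div_mul_cancel₀ _ ha0.ne', div_div_eq_mul_div] at h1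
    have h2 : x ≤ b * a / x := by linarith
    rw [le_div_iff₀ hx] at h2
    rw [← Real.sqrt_mul ha]
    exact Real.le_sqrt_of_sq_le (by nlinarith)

theorem int_le_sqrt {α : Type*} [MeasurableSpace α] {μ : Measure α} {F G H : α → ℝ}
    (hF : Integrable F μ) (hG : Integrable G μ) (hH : Integrable H μ) (G0 : ∀ x, 0 ≤ G x)
    (H0 : ∀ x, 0 ≤ H x) (h : ∀ x, F x ^ 2 ≤ G x * H x) :
    ∫ x, F x ∂μ ≤ √(∫ x, G x ∂μ) * √(∫ x, H x ∂μ) := by
  refine le_sqrt_of_forall (integral_nonneg G0) (integral_nonneg H0) fun l hl => ?_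
  rw [← integral_const_mul, ← integral_div, ← integral_add (hG.const_mul l) (hH.div_const l),
    ← integral_div]
  refine integral_mono hF (((hG.const_mul l).add (hH.div_const l)).div_const 2) fun x => ?_
  have h1 : 0 ≤ (l * G x + H x / l) / 2 := by have := G0 x; have := H0 x; positivity
  refine (le_abs_self _).trans (abs_le_of_sq_le_sq' ?_ h1).2
  have h2 : G x * H x = (l * G x) * (H x / l) := by field_simp
  rw [sq_abs]
  nlinarith [h x, sq_nonneg (l * G x - H x / l)]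

variable {Ω : Type*} [Fintype Ω] {ι : Type} [Fintype ι] [DecidableEq ι] {κ : Type*} [Fintype κ]

/-- Hilbert–Schmidt product of families of vectors -/
def dd (U V : κ → ι → ℝ) : ℝ := ∑ a, U a ⬝ᵥ V a
/-- a matrix acting on a family of vectors -/
def mv (A : Matrix ι ι ℝ) (U : κ → ι → ℝ) : κ → ι → ℝ := fun a => A *ᵥ U a

section dd
variable (U V Z : κ → ι → ℝ) (A : Matrix ι ι ℝ) (c : ℝ)

theorem dd_comm : dd U V = dd V U := Finset.sum_congr rfl fun _ _ => dotProduct_comm _ _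
theorem dd_self_nonneg : 0 ≤ dd U U := Finset.sum_nonneg fun _ _ => SL.dot_self_nonneg _
theorem dd_add_left : dd (U + V) Z = dd U Z + dd V Z := by
  simp only [dd, Pi.add_apply, add_dotProduct, Finset.sum_add_distrib]
theorem dd_sub_left : dd (U - V) Z = dd U Z - dd V Z := by
  simp only [dd, Pi.sub_apply, sub_dotProduct, Finset.sum_sub_distrib]
theorem dd_sub_right : dd Z (U - V) = dd Z U - dd Z V := by
  rw [dd_comm, dd_sub_left, dd_comm U, dd_comm V]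
theorem dd_smul_left : dd (c • U) V = c * dd U V := by
  simp only [dd, Pi.smul_apply, smul_dotProduct, smul_eq_mul, Finset.mul_sum]
theorem dd_smul_right : dd U (c • V) = c * dd U V := by rw [dd_comm, dd_smul_left, dd_comm]

theorem dd_sq_le : dd U V ^ 2 ≤ dd U U * dd V V := by
  have e : ∀ U V : κ → ι → ℝ, dd U V = ∑ p : κ × ι, U p.1 p.2 * V p.1 p.2 := fun U V => by
    rw [Fintype.sum_prod_type]; rfl
  rw [e, e, e]
  simpa only [sq] using Finset.sum_mul_sq_le_sq_mul_sq Finset.univ (fun p : κ × ι => U p.1 p.2)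
    fun p : κ × ι => V p.1 p.2

theorem dd_mv_le : dd (mv A U) (mv A U) ≤ opn A ^ 2 * dd U U := by
  rw [dd, dd, Finset.mul_sum]
  exact Finset.sum_le_sum fun a _ => mulVec_dot_le A (U a)

theorem dd_sub_le : dd (U - V) (U - V) ≤ 2 * dd U U + 2 * dd V V := by
  have h := dd_self_nonneg (U + V)
  rw [dd_add_left, dd_comm U, dd_comm V, dd_add_left, dd_add_left] at h
  rw [dd_sub_left, dd_sub_right, dd_sub_right, dd_comm V U]
  rw [dd_comm V U] at h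
  linarith

theorem dd_add_le : dd (U + V) (U + V) ≤ 2 * dd U U + 2 * dd V V := by
  have h := dd_self_nonneg (U - V)
  rw [dd_sub_left, dd_sub_right, dd_sub_right, dd_comm V U] at h
  rw [dd_add_left, dd_comm U, dd_comm V, dd_add_left, dd_add_left, dd_comm V U]
  linarith

theorem mv_sub : mv A (U - V) = mv A U - mv A V := by
  funext a; simp only [mv, Pi.sub_apply, mulVec_sub]

theorem mv_one_sub : mv (1 - A) U = U - mv A U := by
  funext a; simp only [mv, Pi.sub_apply, sub_mulVec, one_mulVec]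

theorem mv_mul (B : Matrix ι ι ℝ) : mv (A * B) U = mv A (mv B U) := by
  funext a; simp only [mv, mulVec_mulVec]

theorem mv_smul : mv (c • A) U = c • mv A U := by
  funext a; simp only [mv, Pi.smul_apply, smul_mulVec]

end dd

variable {W : BM ι} {Q : Measure W.Ω} {r s t T : ℝ}

/-- families of random vectors known at time `r` -/
def TV (W : BM ι) (r : ℝ) (U : W.Ω → κ → ι → ℝ) : Prop := ∀ a j, W.Tm r fun ω => U ω a j

/-- `L²` product of families of random vectors -/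
def II (Q : Measure W.Ω) (U V : W.Ω → κ → ι → ℝ) : ℝ := ∫ ω, dd (U ω) (V ω) ∂Q

namespace TV
variable {U V Z : W.Ω → κ → ι → ℝ} {A : W.Ω → Matrix ι ι ℝ} {c : W.Ω → ℝ}

theorem mono (h : TV W r U) (hr : r ≤ s) : TV W s U := fun a j => (h a j).mono hr
theorem dd (h : TV W r U) (h' : TV W r V) : W.Tm r fun ω => dd (U ω) (V ω) :=
  BM.Tm.sum _ fun a _ => BM.Tm.sum _ fun j _ => (h a j).mul (h' a j)
theorem sub (h : TV W r U) (h' : TV W r V) : TV W r fun ω => U ω - V ω :=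
  fun a j => (h a j).sub (h' a j)
theorem add (h : TV W r U) (h' : TV W r V) : TV W r fun ω => U ω + V ω :=
  fun a j => (h a j).add (h' a j)
theorem smul (h : TV W r U) (hc : W.Tm r c) : TV W r fun ω => c ω • U ω :=
  fun a j => hc.mul (h a j)
theorem mv (h : TV W r U) (hA : ∀ i j, W.Tm r fun ω => A ω i j) : TV W r fun ω => mv (A ω) (U ω) :=
  fun a i => BM.Tm.sum _ fun j _ => (hA i j).mul (h a j)

theorem nonneg (U : W.Ω → κ → ι → ℝ) : 0 ≤ II Q U U := integral_nonneg fun _ => dd_self_nonneg _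

theorem cs (hQ : W.Nice Q) (h : TV W r U) (h' : TV W r V) : II Q U V ≤ √(II Q U U) * √(II Q V V) :=
  int_le_sqrt ((h.dd h').int hQ) ((h.dd h).int hQ) ((h'.dd h').int hQ)
    (fun _ => dd_self_nonneg _) (fun _ => dd_self_nonneg _) fun _ => dd_sq_le _ _

theorem II_sub (hQ : W.Nice Q) (h : TV W r U) (h' : TV W r V) (h'' : TV W r Z) :
    II Q (fun ω => U ω - V ω) Z = II Q U Z - II Q V Z := by
  simp only [II, dd_sub_left]
  exact integral_sub ((h.dd h'').int hQ) ((h'.dd h'').int hQ)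

end TV

variable {φ : Ω → ι → ℝ} {w : Ω → ℝ} {ε p : ℝ → ℝ} {g : κ → Ω → ℝ} {b s0 t1 ρ : ℝ}

/-- the covariance family of a vector observable -/
def Vg (φ : Ω → ι → ℝ) (w : Ω → ℝ) (g : κ → Ω → ℝ) (q : Pt ι) : κ → ι → ℝ :=
  fun a => vv φ w (g a) q
/-- `E |Cov_r (g, φ)|²` -/
def psi (φ : Ω → ι → ℝ) (w : Ω → ℝ) (g : κ → Ω → ℝ) (r : ℝ) : ℝ :=
  ex φ w (fun q => dd (Vg φ w g q) (Vg φ w g q)) r
/-- transported family -/
def TW (W : BM ι) (φ : Ω → ι → ℝ) (w : Ω → ℝ) (ε : ℝ → ℝ) (s : ℝ) (H : W.Ω → κ → ι → ℝ) (t : ℝ)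
    (ω : W.Ω) : κ → ι → ℝ := fun a => Tw W φ w ε s (fun ω => H ω a) t ω

theorem sum_var_le (hw : Wt w) (hb : ∀ x, ∑ a, g a x ^ 2 ≤ b ^ 2) : ∑ a, var w (g a) ≤ b ^ 2 := by
  calc ∑ a, var w (g a) ≤ ∑ a, mean w fun x => g a x ^ 2 :=
        Finset.sum_le_sum fun a _ => by simpa using hw.var_le_mean (g a) 0
    _ = mean w fun x => ∑ a, g a x ^ 2 := (mean_sum w _ _).symm
    _ ≤ b ^ 2 := hw.mean_le hb

theorem dd_Vg_le' (hw : Wt w) {q : Pt ι} (hq : 0 < q.1) (g : κ → Ω → ℝ) :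
    q.1 * dd (Vg φ w g q) (Vg φ w g q) ≤ nx φ w q * ∑ a, var (pw φ w q) (g a) := by
  rw [dd, Finset.mul_sum, Finset.mul_sum]
  exact Finset.sum_le_sum fun a _ => vv_sq_le hw hq (g a)

theorem dd_Vg_le (hw : Wt w) {q : Pt ι} (hq : 0 < q.1) (hb : ∀ x, ∑ a, g a x ^ 2 ≤ b ^ 2) :
    q.1 * dd (Vg φ w g q) (Vg φ w g q) ≤ nx φ w q * b ^ 2 :=
  (dd_Vg_le' hw hq g).trans
    (mul_le_mul_of_nonneg_left (sum_var_le (hw.post φ _ _) hb) (nx_nonneg q))

theorem eg_dd_Vg (hw : Wt w) (g : κ → Ω → ℝ) {I : Set ℝ} :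
    EG I fun q => dd (Vg φ w g q) (Vg φ w g q) :=
  EG.sum _ fun a _ => eg_covV_dot hw (g a) (g a)

theorem mg_dd_Vg (hw : Wt w) (g : κ → Ω → ℝ) (t : ℝ) :
    MG fun y => dd (Vg φ w g (t, y)) (Vg φ w g (t, y)) := (eg_dd_Vg (I := univ) hw g).mg trivial

theorem psi_nonneg (hw : Wt w) (r : ℝ) : 0 ≤ psi φ w g r := ex_nonneg hw fun _ => dd_self_nonneg _

theorem tv_Vg (hw : Wt w) (ht : 0 ≤ t) (g : κ → Ω → ℝ) :
    TV W t fun ω => Vg φ w g (t, W.B t ω) := fun a j => W.tm_mg ht (mg_vv hw (g a) t j)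

theorem tm_ig (hw : Wt w) (ht : 0 ≤ t) : W.Tm t fun ω => ig φ w ε (t, W.B t ω) :=
  W.tm_mg ht (mg_ig hw ε t)

theorem tm_nx (hw : Wt w) (ht : 0 ≤ t) : W.Tm t fun ω => nx φ w (t, W.B t ω) :=
  W.tm_mg ht (mg_nx hw t)

theorem tm_X (hw : Wt w) (ht : 0 ≤ t) (i j : ι) : W.Tm t fun ω => Xp φ w (t, W.B t ω) i j :=
  W.tm_mg ht (mg_X hw t i j)

theorem tm_Y (hw : Wt w) (ht : 0 ≤ t) (i j : ι) : W.Tm t fun ω => Yp φ w ε (t, W.B t ω) i j :=
  (tm_ig hw ht).mul (tm_X hw ht i j)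

theorem tm_pb (hw : Wt w) (ht : 0 ≤ t) (m : ℕ) :
    W.Tm t fun ω => (1 - ig φ w ε (t, W.B t ω)) * (1 + nx φ w (t, W.B t ω)) ^ m :=
  W.tm_mg ht (mg_pb hw ε m t)

theorem int_pb (hw : Wt w) (ht : t ∈ Icc 0 T) (m : ℕ) :
    ∫ ω, (1 - ig φ w ε (t, W.B t ω)) * (1 + nx φ w (t, W.B t ω)) ^ m ∂W.Qsl φ w T =
      pb φ w ε m t :=
  BM.int_sl_ex (G := fun q => (1 - ig φ w ε q) * (1 + nx φ w q) ^ m) hw ht (mg_pb hw ε m t)

theorem II_Vg (hw : Wt w) (ht : t ∈ Icc 0 T) (g : κ → Ω → ℝ) :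
    II (W.Qsl φ w T) (fun ω => t • Vg φ w g (t, W.B t ω)) (fun ω => t • Vg φ w g (t, W.B t ω)) =
      t ^ 2 * psi φ w g t := by
  simp only [II, dd_smul_left, dd_smul_right, ← mul_assoc, integral_const_mul]
  rw [BM.int_sl_ex (G := fun q => dd (Vg φ w g q) (Vg φ w g q)) hw ht (mg_dd_Vg hw g t), sq]
  rfl

/-- the covariance bound (A) with fixed-time bad events on `[s0, t1]` -/
structure HA (φ : Ω → ι → ℝ) (w : Ω → ℝ) (ε p : ℝ → ℝ) (s0 t1 ρ : ℝ) : Prop where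
  pos : 0 < s0
  cε : ContinuousOn ε (Icc s0 t1)
  ε0 : ∀ r ∈ Icc s0 t1, 0 ≤ ε r
  cp : ContinuousOn p (Icc s0 t1)
  le : ∀ r ∈ Icc s0 t1, pb φ w ε 3 r ≤ p r
  ρ0 : 0 ≤ ρ
  sup : ∀ r ∈ Icc s0 t1, r * p r ≤ ρ ^ 2
  int : ∫ u in s0..t1, √(p u / u) ≤ ρ

namespace HA
variable {H : W.Ω → κ → ι → ℝ}

theorem p0 (hw : Wt w) (h : HA φ w ε p s0 t1 ρ) (hr : r ∈ Icc s0 t1) : 0 ≤ p r :=
  (pb_nonneg hw 3 r).trans (h.le r hr)

theorem c1 (h : HA φ w ε p s0 t1 ρ) : ContinuousOn (fun u => √(p u / u)) (Icc s0 t1) :=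
  (h.cp.div continuousOn_id fun _ hu => (h.pos.trans_le hu.1).ne').sqrt

theorem c2 (h : HA φ w ε p s0 t1 ρ) : ContinuousOn (fun u => ε u / u) (Icc s0 t1) :=
  h.cε.div continuousOn_id fun _ hu => (h.pos.trans_le hu.1).ne'

theorem int_sub_le {k : ℝ → ℝ} {a c : ℝ} (hk : ContinuousOn k (Icc a c))
    (k0 : ∀ u ∈ Icc a c, 0 ≤ k u) (h1 : a ≤ r) (h2 : r ≤ t) (h3 : t ≤ c) :
    ∫ u in r..t, k u ≤ ∫ u in a..c, k u := by
  have hac : a ≤ c := h1.trans (h2.trans h3)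
  refine intervalIntegral.integral_mono_interval h1 h2 h3 ?_ (hk.intervalIntegrable_of_Icc hac)
  filter_upwards [ae_restrict_mem measurableSet_Ioc] with u hu
  exact k0 u ⟨hu.1.le, hu.2⟩

theorem int_le (h : HA φ w ε p s0 t1 ρ) (h1 : s0 ≤ r) (h2 : r ≤ t) (h3 : t ≤ t1) :
    ∫ u in r..t, √(p u / u) ≤ ρ :=
  (int_sub_le h.c1 (fun _ _ => sqrt_nonneg _) h1 h2 h3).trans h.int

theorem eps_le (h : HA φ w ε p s0 t1 ρ) {a c : ℝ} (h0 : s0 ≤ a) (h1 : a ≤ r) (h2 : r ≤ t)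
    (h3 : t ≤ c) (h4 : c ≤ t1) : ∫ u in r..t, ε u / u ≤ ∫ u in a..c, ε u / u :=
  int_sub_le (h.c2.mono (Icc_subset_Icc h0 h4)) (fun u hu =>
    div_nonneg (h.ε0 u ⟨h0.trans hu.1, hu.2.trans h4⟩) (h.pos.le.trans (h0.trans hu.1))) h1 h2 h3

theorem eps_nonneg (h : HA φ w ε p s0 t1 ρ) (h1 : s0 ≤ r) (h2 : r ≤ t) (h3 : t ≤ t1) :
    0 ≤ ∫ u in r..t, ε u / u :=
  intervalIntegral.integral_nonneg h2 fun u hu =>
    div_nonneg (h.ε0 u ⟨h1.trans hu.1, hu.2.trans h3⟩) (h.pos.le.trans (h1.trans hu.1))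

theorem mono (h : HA φ w ε p s0 t1 ρ) (h1 : s0 ≤ r) (h2 : r ≤ t) (h3 : t ≤ t1) :
    HA φ w ε p r t ρ :=
  have hs := Icc_subset_Icc h1 h3
  ⟨h.pos.trans_le h1, h.cε.mono hs, fun u hu => h.ε0 u (hs hu), h.cp.mono hs,
    fun u hu => h.le u (hs hu), h.ρ0, fun u hu => h.sup u (hs hu), h.int_le h1 h2 h3⟩

theorem int_p_le (hw : Wt w) (h : HA φ w ε p s0 t1 ρ) (h2 : s0 ≤ t1) :
    ∫ u in s0..t1, p u ≤ ρ ^ 2 := by
  calc ∫ u in s0..t1, p u ≤ ∫ u in s0..t1, ρ * √(p u / u) := by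
        refine intervalIntegral.integral_mono_on h2 (h.cp.intervalIntegrable_of_Icc h2)
          ((continuousOn_const.mul h.c1).intervalIntegrable_of_Icc h2) fun u hu => ?_
        have hu0 : 0 < u := h.pos.trans_le hu.1
        have hp := h.p0 hw hu
        refine (abs_le_of_sq_le_sq' ?_ (mul_nonneg h.ρ0 (sqrt_nonneg _))).2
        rw [mul_pow, sq_sqrt (div_nonneg hp hu0.le)]
        calc p u ^ 2 = u * p u * (p u / u) := by field_simp
          _ ≤ _ := mul_le_mul_of_nonneg_right (h.sup u hu) (div_nonneg hp hu0.le)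
    _ = ρ * ∫ u in s0..t1, √(p u / u) := intervalIntegral.integral_const_mul _ _
    _ ≤ ρ ^ 2 := by rw [sq]; exact mul_le_mul_of_nonneg_left h.int h.ρ0

theorem tv_TW (hw : Wt w) (h : HA φ w ε p s0 t1 ρ) (hH : TV W s0 H) (ht : t ∈ Icc s0 t1) :
    TV W t (TW W φ w ε s0 H t) :=
  fun a j => (fv_Tw (φ := φ) hw h.pos h.cε h.ε0 (hH a) j).ad.tm ht

theorem TW_start (H : W.Ω → κ → ι → ℝ) : TW W φ w ε s0 H s0 = H := by
  funext ω a; exact Tw_start ω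

theorem TW_le (hw : Wt w) (h : HA φ w ε p s0 t1 ρ) (hH : TV W s0 H) (h1 : s0 ≤ r) (h2 : r ≤ t)
    (h3 : t ≤ t1) (ω : W.Ω) : dd (TW W φ w ε s0 H t ω) (TW W φ w ε s0 H t ω) ≤
      exp (2 * ∫ u in r..t, ε u / u) * dd (TW W φ w ε s0 H r ω) (TW W φ w ε s0 H r ω) := by
  rw [dd, dd, Finset.mul_sum]
  exact Finset.sum_le_sum fun a _ => Tw_sq_le hw h.pos h.cε h.ε0 (hH a) h1 h2 h3 ω

theorem II_TW_le (hw : Wt w) (h : HA φ w ε p s0 t1 ρ) (hQ : W.Nice Q) (hH : TV W s0 H)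
    (h1 : s0 ≤ r) (h2 : r ≤ t) (h3 : t ≤ t1) :
    II Q (TW W φ w ε s0 H t) (TW W φ w ε s0 H t) ≤
      exp (2 * ∫ u in r..t, ε u / u) * II Q (TW W φ w ε s0 H r) (TW W φ w ε s0 H r) := by
  have a1 := h.tv_TW hw hH ⟨h1.trans h2, h3⟩
  have a2 := h.tv_TW hw hH ⟨h1, h2.trans h3⟩
  rw [II, II, ← integral_const_mul]
  exact integral_mono ((a1.dd a1).int hQ) (((a2.dd a2).int hQ).const_mul _)
    fun ω => h.TW_le hw hH h1 h2 h3 ω

theorem sqrt_II_TW_le (hw : Wt w) (h : HA φ w ε p s0 t1 ρ) (hQ : W.Nice Q) (hH : TV W s0 H)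
    (ht : t ∈ Icc s0 t1) : √(II Q (TW W φ w ε s0 H t) (TW W φ w ε s0 H t)) ≤
      exp (∫ u in s0..t1, ε u / u) * √(II Q H H) := by
  have h1 := h.II_TW_le hw hQ hH le_rfl ht.1 ht.2
  rw [TW_start] at h1
  have h2 := h.eps_le le_rfl le_rfl ht.1 ht.2 le_rfl
  refine sqrt_le_iff.2 ⟨by positivity, h1.trans ?_⟩
  rw [mul_pow, sq_sqrt (TV.nonneg H), ← exp_nat_mul]
  exact mul_le_mul_of_nonneg_right (exp_le_exp.2 (by push_cast; linarith)) (TV.nonneg H)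

theorem sm_vec (hw : Wt w) (h : HA φ w ε p s0 t1 ρ) (h01 : s0 ≤ t1) (hT : t1 ≤ T)
    (hH : TV W s0 H) (g : κ → Ω → ℝ) :
    W.SM (W.Qsl φ w T) s0 t1 (fun t ω => dd (TW W φ w ε s0 H t ω) (t • Vg φ w g (t, W.B t ω)))
      fun t ω => -((1 - ig φ w ε (t, W.B t ω)) *
        dd (TW W φ w ε s0 H t ω) (mv (Xp φ w (t, W.B t ω)) (Vg φ w g (t, W.B t ω)))) := by
  have hQ := BM.nice_sl (W := W) (φ := φ) hw (h.pos.le.trans (h01.trans hT))
  refine (BM.SM.sum hQ Finset.univ fun a _ =>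
    sm_cons hw h.pos h01 hT h.cε h.ε0 (hH a) (g a)).congr (fun _ _ _ => rfl) fun t _ ω => ?_
  simp only [dd, Finset.mul_sum, Finset.sum_neg_distrib]
  rfl

/-- conservation up to the bad events -/
theorem cons_le (hw : Wt w) (h : HA φ w ε p s0 t1 ρ) (h01 : s0 ≤ t1) (hT : t1 ≤ T)
    (hH : TV W s0 H) (hb0 : 0 ≤ b) (hb : ∀ x, ∑ a, g a x ^ 2 ≤ b ^ 2) :
    II (W.Qsl φ w T) H (fun ω => s0 • Vg φ w g (s0, W.B s0 ω)) ≤
      II (W.Qsl φ w T) (TW W φ w ε s0 H t1) (fun ω => t1 • Vg φ w g (t1, W.B t1 ω)) +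
        exp (∫ u in s0..t1, ε u / u) * √(II (W.Qsl φ w T) H H) * b * ρ := by
  have hQ := BM.nice_sl (W := W) (φ := φ) hw (h.pos.le.trans (h01.trans hT))
  set G := exp (∫ u in s0..t1, ε u / u) * √(II (W.Qsl φ w T) H H) * b with hG
  have G0 : 0 ≤ G := by positivity
  have h1 := (h.sm_vec hw h01 hT hH g).neg.expect_le hQ le_rfl h01 le_rfl
    (k := fun u => G * √(p u / u)) ((continuousOn_const.mul h.c1).intervalIntegrable_of_Icc h01)
    fun u hu => ?_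
  · simp only [integral_neg, TW_start, intervalIntegral.integral_const_mul] at h1
    have h2 := mul_le_mul_of_nonneg_left h.int G0
    unfold II
    linarith
  · have hu' : u ∈ Icc s0 t1 := ⟨hu.1.le, hu.2.le⟩
    have hu0 : 0 < u := h.pos.trans hu.1
    have a1 := h.tv_TW hw hH hu'
    have a2 := (tv_Vg (W := W) (φ := φ) hw hu0.le g).mv (tm_X (φ := φ) hw hu0.le)
    have a3 := (BM.Tm.const (W := W) (r := u) 1).sub (tm_ig (φ := φ) (ε := ε) hw hu0.le)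
    simp only [neg_neg]
    refine (int_le_sqrt ((a3.mul (a1.dd a2)).int hQ) ((a1.dd a1).int hQ)
      (((tm_pb (φ := φ) (ε := ε) hw hu0.le 3).int hQ).const_mul (b ^ 2 / u))
      (fun _ => dd_self_nonneg _) (fun ω => ?_) fun ω => ?_).trans ?_
    · have := nx_nonneg (φ := φ) (w := w) (u, W.B u ω)
      have := sub_nonneg.2 (ig_le_one (φ := φ) (w := w) (ε := ε) (u, W.B u ω))
      positivity
    · have n0 := nx_nonneg (φ := φ) (w := w) (u, W.B u ω)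
      have b1 := dd_sq_le (TW W φ w ε s0 H u ω)
        (mv (Xp φ w (u, W.B u ω)) (Vg φ w g (u, W.B u ω)))
      have b2 := dd_mv_le (Vg φ w g (u, W.B u ω)) (Xp φ w (u, W.B u ω))
      have b3 := dd_Vg_le (φ := φ) (q := (u, W.B u ω)) hw hu0 hb
      have b4 : dd (Vg φ w g (u, W.B u ω)) (Vg φ w g (u, W.B u ω)) ≤
          nx φ w (u, W.B u ω) * (b ^ 2 / u) := by
        rw [← mul_div_assoc, le_div_iff₀ hu0]; simp only at b3; linarith
      have b5 : dd (mv (Xp φ w (u, W.B u ω)) (Vg φ w g (u, W.B u ω)))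
          (mv (Xp φ w (u, W.B u ω)) (Vg φ w g (u, W.B u ω))) ≤
          b ^ 2 / u * (1 + nx φ w (u, W.B u ω)) ^ 3 := by
        refine b2.trans ((mul_le_mul_of_nonneg_left b4 (sq_nonneg _)).trans ?_)
        have : nx φ w (u, W.B u ω) ^ 3 ≤ (1 + nx φ w (u, W.B u ω)) ^ 3 :=
          pow_le_pow_left₀ n0 (by linarith) 3
        calc opn (Xp φ w (u, W.B u ω)) ^ 2 * (nx φ w (u, W.B u ω) * (b ^ 2 / u))
            = b ^ 2 / u * nx φ w (u, W.B u ω) ^ 3 := by unfold nx; ring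
          _ ≤ _ := mul_le_mul_of_nonneg_left this (by positivity)
      have b6 := b1.trans (mul_le_mul_of_nonneg_left b5 (dd_self_nonneg _))
      rcases ig_cases (φ := φ) (w := w) (ε := ε) (u, W.B u ω) with e | e
      · simp [e.2]
      · simpa [e.2] using b6
    · rw [integral_const_mul, int_pb hw ⟨hu0.le, hu'.2.trans hT⟩, hG]
      have c1 := h.sqrt_II_TW_le hw hQ hH hu'
      have c2 : √(b ^ 2 / u * pb φ w ε 3 u) ≤ b * √(p u / u) := by
        refine sqrt_le_iff.2 ⟨by positivity, ?_⟩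
        rw [mul_pow, sq_sqrt (div_nonneg (h.p0 hw hu') hu0.le)]
        calc b ^ 2 / u * pb φ w ε 3 u ≤ b ^ 2 / u * p u :=
              mul_le_mul_of_nonneg_left (h.le u hu') (by positivity)
          _ = _ := by ring
      calc _ ≤ (exp (∫ u in s0..t1, ε u / u) * √(II (W.Qsl φ w T) H H)) * (b * √(p u / u)) :=
            mul_le_mul c1 c2 (sqrt_nonneg _) (by positivity)
        _ = _ := by ring

end HA

/-- the starting family `s 1_good Cov_s (g, φ)` -/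
def H0 (W : BM ι) (φ : Ω → ι → ℝ) (w : Ω → ℝ) (ε : ℝ → ℝ) (g : κ → Ω → ℝ) (s : ℝ) (ω : W.Ω) :
    κ → ι → ℝ := ig φ w ε (s, W.B s ω) • s • Vg φ w g (s, W.B s ω)

theorem tv_H0 (hw : Wt w) (hs : 0 ≤ s) : TV W s (H0 W φ w ε g s) :=
  ((tv_Vg hw hs g).smul (BM.Tm.const s)).smul (tm_ig hw hs)

theorem II_H0 (g : κ → Ω → ℝ) : II Q (H0 W φ w ε g s) (fun ω => s • Vg φ w g (s, W.B s ω)) =
    II Q (H0 W φ w ε g s) (H0 W φ w ε g s) := by
  simp only [II, H0, dd_smul_left, dd_smul_right]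
  refine integral_congr_ae (Eventually.of_forall fun ω => ?_)
  rcases ig_cases (φ := φ) (w := w) (ε := ε) (s, W.B s ω) with e | e <;> simp [e.2]

theorem dd_H0_le (hw : Wt w) (hs : 0 < s) (ε0 : 0 ≤ ε s) (hb : ∀ x, ∑ a, g a x ^ 2 ≤ b ^ 2)
    (ω : W.Ω) : dd (H0 W φ w ε g s ω) (H0 W φ w ε g s ω) ≤ s * (1 + ε s) * b ^ 2 := by
  have b3 := dd_Vg_le (φ := φ) (q := (s, W.B s ω)) hw hs hb
  simp only [H0, dd_smul_left, dd_smul_right]
  rcases ig_cases (φ := φ) (w := w) (ε := ε) (s, W.B s ω) with e | e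
  · rw [e.2]
    have := mul_le_mul_of_nonneg_right e.1 (sq_nonneg b)
    simp only at b3 this
    nlinarith
  · rw [e.2]; simp only [zero_mul]; positivity

theorem psi_le_H0 (hw : Wt w) (hs : 0 < s) (hT : s ≤ T) (hb : ∀ x, ∑ a, g a x ^ 2 ≤ b ^ 2) :
    s ^ 2 * psi φ w g s ≤
      II (W.Qsl φ w T) (H0 W φ w ε g s) (H0 W φ w ε g s) + b ^ 2 * (s * pb φ w ε 3 s) := by
  have hQ := BM.nice_sl (W := W) (φ := φ) hw (hs.le.trans hT)
  have a1 := tv_H0 (W := W) (φ := φ) (ε := ε) (g := g) hw hs.le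
  have a2 := (tv_Vg (W := W) (φ := φ) hw hs.le g).smul (BM.Tm.const s)
  have a3 := (tm_pb (W := W) (φ := φ) (ε := ε) hw hs.le 3).int hQ
  rw [← II_Vg (W := W) hw ⟨hs.le, hT⟩, ← int_pb (W := W) hw ⟨hs.le, hT⟩, II, II, ← mul_assoc,
    ← integral_const_mul, ← integral_add ((a1.dd a1).int hQ) (a3.const_mul _)]
  refine integral_mono ((a2.dd a2).int hQ) (((a1.dd a1).int hQ).add (a3.const_mul _)) fun ω => ?_
  have b3 := dd_Vg_le (φ := φ) (q := (s, W.B s ω)) hw hs hb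
  have n0 := nx_nonneg (φ := φ) (w := w) (s, W.B s ω)
  simp only [H0, dd_smul_left, dd_smul_right]
  rcases ig_cases (φ := φ) (w := w) (ε := ε) (s, W.B s ω) with e | e
  · simp [e.2]
  · rw [e.2]
    have h3 : nx φ w (s, W.B s ω) ≤ (1 + nx φ w (s, W.B s ω)) ^ 3 := by nlinarith [sq_nonneg (nx φ w (s, W.B s ω)), mul_nonneg n0 (sq_nonneg (nx φ w (s, W.B s ω)))]
    have h4 := mul_le_mul_of_nonneg_right h3 (sq_nonneg b)
    simp only at b3
    nlinarith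

/-- almost monotonicity of `s² E|v_s|²` -/
theorem HA.crude (hw : Wt w) (h : HA φ w ε p s0 t1 ρ) (h01 : s0 ≤ t1) (hb0 : 0 ≤ b)
    (hb : ∀ x, ∑ a, g a x ^ 2 ≤ b ^ 2) : √(s0 ^ 2 * psi φ w g s0) ≤
      exp (∫ u in s0..t1, ε u / u) * (√(t1 ^ 2 * psi φ w g t1) + b * ρ) + b * ρ := by
  obtain ⟨W⟩ := BM.nonempty ι
  have ht1 : 0 ≤ t1 := h.pos.le.trans h01
  have hQ := BM.nice_sl (W := W) (φ := φ) hw ht1
  have a1 := tv_H0 (W := W) (φ := φ) (ε := ε) (g := g) hw h.pos.le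
  have h1 := h.cons_le hw h01 le_rfl a1 hb0 hb
  have h2 := TV.cs hQ (h.tv_TW hw a1 ⟨h01, le_rfl⟩) ((tv_Vg (φ := φ) hw ht1 g).smul (BM.Tm.const t1))
  have h3 := h.sqrt_II_TW_le hw hQ a1 ⟨h01, le_rfl⟩
  have h4 := psi_le_H0 (W := W) (φ := φ) (ε := ε) hw h.pos h01 hb
  rw [II_H0] at h1
  rw [II_Vg hw ⟨ht1, le_rfl⟩] at h2
  set A2 := II (W.Qsl φ w t1) (H0 W φ w ε g s0) (H0 W φ w ε g s0)
  set G := exp (∫ u in s0..t1, ε u / u)
  set α := √(t1 ^ 2 * psi φ w g t1)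
  have A0 : 0 ≤ A2 := TV.nonneg _
  have G0 : 0 < G := exp_pos _
  have α0 : 0 ≤ α := sqrt_nonneg _
  have ρ0 := h.ρ0
  have h5 : √A2 * √A2 ≤ √A2 * (G * (α + b * ρ)) := by
    rw [mul_self_sqrt A0]
    nlinarith [mul_le_mul_of_nonneg_right h3 α0]
  have h6 : √A2 ≤ G * (α + b * ρ) := by
    rcases (sqrt_nonneg A2).eq_or_lt with e | e
    · rw [← e]; positivity
    · exact le_of_mul_le_mul_left h5 e
  have h7 : s0 * pb φ w ε 3 s0 ≤ ρ ^ 2 :=
    (mul_le_mul_of_nonneg_left (h.le s0 ⟨le_rfl, h01⟩) h.pos.le).trans (h.sup s0 ⟨le_rfl, h01⟩)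
  have h8 : √(s0 ^ 2 * psi φ w g s0) ≤ √A2 + b * ρ := by
    refine sqrt_le_iff.2 ⟨by positivity, h4.trans ?_⟩
    have := mul_le_mul_of_nonneg_left h7 (sq_nonneg b)
    have := sq_sqrt A0
    have : 0 ≤ √A2 * (b * ρ) := by positivity
    nlinarith
  linarith

end Crest.Agent.T157.Tr

end
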