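import Crest.Agent.T157.PathQ_90
import Crest.Agent.T157.TrB_64
import Crest.Agent.T157.Top_97

/-!
# Row 157, part C (helper63): coming down from infinity, statements

`Q1EStmt` follows from small-set Poincaré inequalities at the dyadic entropy levels `H = 2 ^ j`
(`SPStmt`); these follow from static inputs along stochastic localisation:
`AStar` (covariance window with bad events of size `e^{-3H}`), `TermStmt` (a fixed time `T`),
`LdB` (two-replica exponential moments), and `LevCrit` (levels `H ≥ n^κ`).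
-/

set_option autoImplicit false

noncomputable section

namespace Crest.Agent.T157.Q1

open MeasureTheory Filter Topology Set Matrix Real
open Crest.ProbabilityR.SpinGlassDynamics
open Crest.Agent.T157 Crest.Agent.T157.E Crest.Agent.T157.SL Crest.Agent.T157.Soft

variable {n : ℕ}

/-- small-set Poincaré inequality at the entropy level `H` -/
def SP (w : Cube n → ℝ) (H lam : ℝ) : Prop := ∀ g : Cube n → ℝ, (∀ x, 0 ≤ g x) →
  (∀ x, g x ^ 2 ≤ exp (2 * H) * mean w fun x => g x ^ 2) →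
  mean w (Ent.ind fun x => 0 < g x) ≤ exp (-H) → lam * mean w (fun x => g x ^ 2) ≤ dir w g

/-- start of the localisation window at level `H` -/
def ts (n : ℕ) (c H : ℝ) : ℝ := c * H ^ (2 / 3 : ℝ) / N23 n

/-- covariance window at level `H`: `‖r C_r‖ ≤ 1 + e r` on `[ts, T]` up to bad events of total size
`e^{-3H}`, with a loss `C H^{2/3 - a}` -/
def Win (w : Cube n → ℝ) (c T C a H : ℝ) : Prop := ∃ (e p : ℝ → ℝ) (ρ : ℝ),
  Tr.HA sv w e p (ts n c H) T ρ ∧ ρ ^ 2 ≤ exp (-(3 * H)) * ts n c H ∧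
    exp (2 * ∫ u in ts n c H..T, e u / u) ≤ C * H ^ (2 / 3 - a)

/-- the localised law at time `T`: averaged Poincaré inequality with a defect, and an exponential
moment of unit linear forms off a small event -/
structure Term (w : Cube n → ℝ) (T G δ : ℝ) : Prop where
  var : ∀ (g : Cube n → ℝ) (M : ℝ), (∀ x, g x ^ 2 ≤ M) →
    ex sv w (fun p => var (pw sv w p) g) T ≤ G * dir w g + δ * M
  sub : ∃ A : Set (Fin n → ℝ), MeasurableSet A ∧ (law sv w T).real A ≤ δ ∧ ∀ y ∉ A,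
    ∀ u : Fin n → ℝ, u ⬝ᵥ u ≤ 1 → mean (post sv w T y)
      (fun x => exp (u ⬝ᵥ (sv x - meanV (post sv w T y) sv))) ≤ exp G

/-- **(A\*)** the covariance windows at the levels `2^j ≤ n^κ` -/
def AStar (b : Bool) (a κ T : ℝ) : Prop := ∀ c ε : ℝ, 0 < c → 0 < ε → ∃ (C : ℝ) (j₀ : ℕ),
  ∀ᶠ n : ℕ in atTop, couplingLaw b n {g | ∃ j, j₀ ≤ j ∧ (2 : ℝ) ^ j ≤ (n : ℝ) ^ κ ∧
    ¬ Win (gibbsWeight n 1 g) c T C a (2 ^ j)} ≤ ENNReal.ofReal ε

/-- **(P1\*)** the fixed time `T` -/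
def TermStmt (b : Bool) (κ T : ℝ) : Prop := ∀ ε : ℝ, 0 < ε → ∃ G : ℝ, ∀ᶠ n : ℕ in atTop,
  couplingLaw b n {g | ¬ Term (gibbsWeight n 1 g) T G (exp (-(4 * (n : ℝ) ^ κ)))} ≤
    ENNReal.ofReal ε

/-- two-replica exponential moments, all parameters at once -/
def LdB (b : Bool) : Prop := ∀ ε : ℝ, 0 < ε → ∃ B : ℝ, ∀ᶠ n : ℕ in atTop,
  couplingLaw b n {g | ∃ θ : ℝ, 0 ≤ θ ∧ B * exp (B * θ ^ (3 / 2 : ℝ)) < Xth n g θ} ≤
    ENNReal.ofReal ε

/-- the levels `2^j ≥ n^κ` (true with `H^{5/3}`; a loss `n^δ`, `δ ≤ κ (2/3 - a)`, is allowed) -/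
def LevCrit (b : Bool) (a κ : ℝ) : Prop := Top.Whp (couplingLaw b) fun n g =>
  ∀ j : ℕ, (n : ℝ) ^ κ ≤ 2 ^ j → SP (gibbsWeight n 1 g) (2 ^ j) (((2 : ℝ) ^ j) ^ (1 + a) / N23 n)

/-- all dyadic levels -/
def SPStmt (b : Bool) (a : ℝ) : Prop := ∀ ε : ℝ, 0 < ε → ∃ (β : ℝ) (j₀ : ℕ), 0 < β ∧
  ∀ᶠ n : ℕ in atTop, couplingLaw b n {g | ∃ j, j₀ ≤ j ∧
    ¬ SP (gibbsWeight n 1 g) (2 ^ j) (((2 : ℝ) ^ j) ^ (1 + a) / (β * N23 n))} ≤ ENNReal.ofReal ε

/-- pointwise bound of the kernel: level `H` is reached at rescaled time `β H^{-a}` -/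
def Down (n : ℕ) (g : Pair n → ℝ) (a β H₀ : ℝ) : Prop := ∀ H t : ℝ, H₀ ≤ H → β * H ^ (-a) ≤ t →
  ∀ x y, ctKernel n 1 g (t * N23 n) x y ≤ exp H * gibbsProb n 1 g y

/-- **coming down from infinity** -/
def DownStmt (b : Bool) (a : ℝ) : Prop := ∀ ε : ℝ, 0 < ε → ∃ β H₀ : ℝ, 0 < β ∧ 0 < H₀ ∧
  ∀ᶠ n : ℕ in atTop, couplingLaw b n {g | ¬ Down n g a β H₀} ≤ ENNReal.ofReal ε

end Crest.Agent.T157.Q1

end
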