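import Crest.Agent.T157.CqDef_72

/-!
# Row 157, part C: finite-chain lemmas for `TopGlue` (helper72)
-/

set_option autoImplicit false

noncomputable section

namespace Crest.Agent.T157.Cq.Top72

open MeasureTheory Matrix Finset Real
open Crest.Agent.T157.E (prob post slE)
open Crest.Agent.T157.Chain22 Crest.Agent.T157.Soft Crest.Agent.T157.Sg
open Crest.Agent.T157.St (dm Tk ew Mf)
open Crest.Agent.T157.St.A87

section st
variable {Ω ι : Type*} [Fintype Ω] [Nonempty Ω] [DecidableEq Ω] [Fintype ι] [DecidableEq ι]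
  {φ : Ω → ι → ℝ} {w : Ω → ℝ} {K : ℝ} (hw : ∀ x, 0 < w x) (hK : 0 ≤ K)

lemma iter_dm (f : (ι → ℝ) → ℝ) (j : ℕ) :
    (fun x => (Tk K (dm w φ))^[j] f (φ x)) = (stRC φ hw hK).P ^ j *ᵥ fun x => f (φ x) := by
  induction j with
  | zero => simp
  | succ j ih =>
    funext x
    rw [Function.iterate_succ_apply', Tk_dm hw hK, ih, pow_succ', ← mulVec_mulVec]

lemma Qs_dm (c : ℝ) (f : (ι → ℝ) → ℝ) (x : Ω) :
    Qs K c (dm w φ) f (φ x) = ((stRC φ hw hK).H c *ᵥ fun x => f (φ x)) x := by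
  rw [← ((stRC φ hw hK).hasSum_H_mulVec c _ x).tsum_eq, Qs]
  exact tsum_congr fun j => by rw [← iter_dm hw hK]

/-- second moment of the overlap of one static step -/
lemma pair_sq {c : RC Ω} (hc : c.π = prob w) :
    ∑ q : ι × ι, ip (prob w) (fun x => φ x q.1 * φ x q.2)
      ((stRC φ hw hK).P *ᵥ fun x => φ x q.1 * φ x q.2) ≤ 1 + 24 * XX c (ft φ) (K + 1) := by
  have hW := SL.Wt.of_pos hw
  have p0 := hW.prob_nonneg
  have cp := St.Lnk10.cp_dm hw φ
  have mS : ∀ q : ι × ι, SL.MG fun y => E.mean (post φ w K y) (fun x => φ x q.1 * φ x q.2) *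
      E.mean (post φ w K y) fun x => φ x q.1 * φ x q.2 := fun q =>
    (Rec.mg_pm hW K _).mul (Rec.mg_pm hW K _)
  simp only [ip_stRC]
  rw [← SL.slE_sum _ fun q _ => .of_mg fun _ => mS q, ← IK_Mf_dm hw hK (.sum _ fun q _ => mS q)]
  have mG : ∀ a a' : Ω, SL.MG fun y => prob w a * prob w a' * (φ a ⬝ᵥ φ a') ^ 4 *
      (ew K y (φ a) * ew K y (φ a')) := fun a a' => ((mg_ew hK _).mul (mg_ew hK _)).const_mul _
  have mG2 : SL.MG fun y => ∑ a, ∑ a', prob w a * prob w a' * (φ a ⬝ᵥ φ a') ^ 4 *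
      (ew K y (φ a) * ew K y (φ a')) := .sum _ fun a _ => .sum _ fun a' _ => mG a a'
  refine (IK_mono ((mg_Mf cp hK).mul (.sum _ fun q _ => mS q)) ((SL.MG.const 1).add mG2)
    fun y => ?_).trans ?_
  · have hM := Mf_pos cp hK y
    have eM : Mf K (dm w φ) y = ∑ a, prob w a * ew K y (φ a) :=
      St.Lnk10.integral_dm (fun x => (hw x).le) _ _
    set M := Mf K (dm w φ) y
    have e1 : ∀ f : Ω → ℝ, E.mean (post φ w K y) f = (∑ a, prob w a * (ew K y (φ a) * f a)) / M :=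
      fun f => by
        rw [eM]; exact SL.mean_mul_weight w (fun x => ew K y (φ x)) f hW.pos.ne'
    have e2 : ∑ q : ι × ι, (∑ a, prob w a * (ew K y (φ a) * (φ a q.1 * φ a q.2))) *
        (∑ a, prob w a * (ew K y (φ a) * (φ a q.1 * φ a q.2))) =
        ∑ a, ∑ a', prob w a * ew K y (φ a) * (prob w a' * ew K y (φ a')) * (φ a ⬝ᵥ φ a') ^ 2 := by
      simp only [sum_mul_sum, dotProduct, sq]
      rw [sum_comm]
      refine sum_congr rfl fun a _ => ?_
      rw [sum_comm]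
      refine sum_congr rfl fun a' _ => ?_
      rw [Fintype.sum_prod_type, mul_sum]
      refine sum_congr rfl fun i _ => ?_
      rw [mul_sum]
      exact sum_congr rfl fun j _ => by ring
    simp only [e1, div_mul_div_comm, ← sum_div, e2]
    rw [← mul_div_assoc, mul_div_mul_left _ _ hM.ne', div_le_iff₀ hM]
    have e3 : (1 + ∑ a, ∑ a', prob w a * prob w a' * (φ a ⬝ᵥ φ a') ^ 4 *
        (ew K y (φ a) * ew K y (φ a'))) * M = ∑ a, ∑ a', prob w a * ew K y (φ a) *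
          (prob w a' * ew K y (φ a')) * (M⁻¹ + M * (φ a ⬝ᵥ φ a') ^ 4) := by
      simp only [mul_add, sum_add_distrib, ← sum_mul, ← mul_sum, ← eM]
      rw [add_mul, sum_mul]
      congr 1
      · field_simp
      · refine sum_congr rfl fun a _ => ?_
        rw [sum_mul]
        exact sum_congr rfl fun a' _ => by ring
    rw [e3]
    refine sum_le_sum fun a _ => sum_le_sum fun a' _ => mul_le_mul_of_nonneg_left ?_
      (mul_nonneg (mul_nonneg (p0 a) (ew_pos _ _ _).le) (mul_nonneg (p0 a') (ew_pos _ _ _).le))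
    set u := (φ a ⬝ᵥ φ a') ^ 2 with hu
    have : (φ a ⬝ᵥ φ a') ^ 4 = u ^ 2 := by rw [hu]; ring
    rw [this, inv_eq_one_div, ← sub_nonneg]
    have : 1 / M + M * u ^ 2 - u = ((1 - M * u) ^ 2 + M * u) / M := by field_simp; ring
    rw [this]
    positivity
  · rw [IK_add (.const 1) mG2, IK_const, IK_sum _ fun a _ => .sum _ fun a' _ => mG a a']
    simp only [IK_sum _ fun a' _ => mG _ a', IK_const_mul, IK_ew_ew hK, XX, hc, mul_sum]
    refine add_le_add le_rfl (sum_le_sum fun a _ => sum_le_sum fun a' _ => ?_)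
    have e : rr (ft φ) a a' = φ a ⬝ᵥ φ a' := rfl
    rw [e]
    set u := φ a ⬝ᵥ φ a'
    have h1 : |u| ^ 4 / (4 : ℕ).factorial ≤ exp |u| := Real.pow_div_factorial_le_exp _ (abs_nonneg u) 4
    norm_num [Nat.factorial] at h1
    have h2 : u ^ 4 = |u| ^ 4 := by rw [show 4 = 2 * 2 from rfl, pow_mul, pow_mul, sq_abs]
    have h3 : exp (K * u) ≤ exp (K * |u|) := by gcongr; exact le_abs_self u
    have h4 : u ^ 4 * exp (K * u) ≤ 24 * exp ((K + 1) * |u|) := by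
      rw [add_mul, one_mul, exp_add, h2]
      nlinarith [exp_pos (K * u), mul_le_mul (show |u| ^ 4 ≤ 24 * exp |u| by linarith) h3
        (exp_pos _).le (by positivity)]
    nlinarith [mul_le_mul_of_nonneg_left h4 (mul_nonneg (p0 a) (p0 a'))]

lemma abs_sin_sub (L u : ℝ) (hL : 0 < L) : |L * sin (u / L) - u| ≤ u ^ 2 / L := by
  have key : ∀ v : ℝ, 0 ≤ v → |sin v - v| ≤ v ^ 2 := fun v hv => by
    have h1 := Real.sin_le hv
    rw [abs_sub_comm, abs_of_nonneg (by linarith)]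
    rcases le_total v 1 with h | h
    · rcases hv.eq_or_lt with rfl | h0
      · simp
      · have := Real.sin_gt_sub_cube h0
        nlinarith [mul_pos h0 h0, mul_nonneg (mul_pos h0 h0).le (sub_nonneg.2 h)]
    · rcases le_total v 2 with h' | h'
      · have := Real.sin_nonneg_of_nonneg_of_le_pi hv (by linarith [Real.pi_gt_three])
        nlinarith
      · nlinarith [Real.neg_one_le_sin v]
  have k2 : ∀ v : ℝ, |sin v - v| ≤ v ^ 2 := fun v => by
    rcases le_total 0 v with h | h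
    · exact key v h
    · have := key (-v) (by linarith)
      rwa [sin_neg, neg_sub_neg, abs_sub_comm, neg_sq] at this
  have e : L * sin (u / L) - u = L * (sin (u / L) - u / L) := by field_simp
  rw [e, abs_mul, abs_of_pos hL]
  refine (mul_le_mul_of_nonneg_left (k2 _) hL.le).trans (le_of_eq ?_)
  field_simp

omit [Nonempty Ω] [DecidableEq ι] in
lemma psi_abs (T d : RC Ω) (hd : d.π = T.π) (hT : T.PSD) (φ : Ω → ι → ℝ) {L t : ℝ} (hL : 0 < L)
    (ht : 0 ≤ t) :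
    mean T.π (fun x => |Gt d (fun i => T.P *ᵥ ft φ i) t x -
      (T.P *ᵥ fun a => (d.H t *ᵥ (T.P *ᵥ fun a' => L * sin (φ a ⬝ᵥ φ a' / L))) x) x|) ≤
      L⁻¹ * ∑ q : ι × ι, ip T.π (fun x => φ x q.1 * φ x q.2)
        (T.P *ᵥ fun x => φ x q.1 * φ x q.2) := by
  obtain ⟨R, hR⟩ : ∃ R, R = d.H t * T.P := ⟨_, rfl⟩
  have R0 : ∀ x a, 0 ≤ R x a := fun x a => by
    rw [hR]; exact sum_nonneg fun y _ => mul_nonneg (d.H_nn ht x y) (T.nn y a)
  have e0 : ∀ (f : Ω → ℝ) x, (d.H t *ᵥ (T.P *ᵥ f)) x = ∑ a, R x a * f a := fun f x => by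
    rw [mulVec_mulVec, ← hR]; rfl
  have e1 : ∀ x, (T.P *ᵥ fun a => (d.H t *ᵥ (T.P *ᵥ fun a' => L * sin (φ a ⬝ᵥ φ a' / L))) x) x =
      ∑ a, ∑ a', T.P x a * R x a' * (L * sin (φ a ⬝ᵥ φ a' / L)) := fun x => by
    simp only [e0]
    refine sum_congr rfl fun a _ => ?_
    change T.P x a * _ = _
    rw [mul_sum]
    exact sum_congr rfl fun a' _ => by ring
  have e2 : ∀ (s : Ω → ℝ) x, (T.P *ᵥ s) x * (d.H t *ᵥ (T.P *ᵥ s)) x =
      ∑ a, ∑ a', T.P x a * R x a' * (s a * s a') := fun s x => by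
    rw [e0]
    change (∑ a, T.P x a * s a) * _ = _
    rw [sum_mul_sum]
    exact sum_congr rfl fun a _ => sum_congr rfl fun a' _ => by ring
  have e3 : ∀ x, Gt d (fun i => T.P *ᵥ ft φ i) t x = ∑ a, ∑ a', T.P x a * R x a' * (φ a ⬝ᵥ φ a') :=
    fun x => by
      rw [Gt_eq]
      simp only [HV, e2, dotProduct, mul_sum]
      rw [sum_comm]
      exact sum_congr rfl fun a _ => sum_comm
  have k1 : ∀ x, |Gt d (fun i => T.P *ᵥ ft φ i) t x -
      (T.P *ᵥ fun a => (d.H t *ᵥ (T.P *ᵥ fun a' => L * sin (φ a ⬝ᵥ φ a' / L))) x) x| ≤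
      ∑ q : ι × ι, L⁻¹ * ((T.P *ᵥ fun x => φ x q.1 * φ x q.2) x *
        (d.H t *ᵥ (T.P *ᵥ fun x => φ x q.1 * φ x q.2)) x) := fun x => by
    rw [e1, e3, ← sum_sub_distrib]
    simp only [e2, mul_sum]
    rw [sum_comm]
    refine (abs_sum_le_sum_abs _ _).trans (sum_le_sum fun a _ => ?_)
    rw [← sum_sub_distrib, sum_comm]
    refine (abs_sum_le_sum_abs _ _).trans (sum_le_sum fun a' _ => ?_)
    have h0 := mul_nonneg (T.nn x a) (R0 x a')
    rw [← mul_sub, abs_mul, abs_of_nonneg h0, abs_sub_comm, ← mul_sum, ← mul_sum, mul_left_comm]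
    refine mul_le_mul_of_nonneg_left ((abs_sin_sub L _ hL).trans (le_of_eq ?_)) h0
    rw [div_eq_inv_mul, sq, dotProduct, sum_mul_sum, Fintype.sum_prod_type]
    congr 1
    exact sum_congr rfl fun i _ => sum_congr rfl fun j _ => by ring
  refine (T.isP.mean_mono k1).trans ?_
  rw [mul_sum, mean]
  simp only [mul_sum]
  rw [sum_comm]
  refine sum_le_sum fun q _ => ?_
  simp only [mul_left_comm (T.π _) L⁻¹]
  rw [← mul_sum]
  refine mul_le_mul_of_nonneg_left ?_ (inv_nonneg.2 hL.le)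
  have := ip_H_le_self (c := d) (T.P *ᵥ fun x => φ x q.1 * φ x q.2) ht
  rw [hd] at this
  exact this.trans (hT.ip_P_P_le _)

/-- the bounded kernel functional is close to `b · Q b` in `L¹` -/
lemma psi_err {K' L t : ℝ} (hK' : 0 ≤ K') (hL : 0 < L) (ht : 0 ≤ t) {c : RC Ω}
    (hc : c.π = prob w) :
    mean (prob w) (fun x => |Gt (stRC φ hw hK) (fun i => (stRC φ hw hK').P *ᵥ ft φ i) t x -
      psiS (dm w φ) L K' K t (φ x)|) ≤ (1 + 24 * XX c (ft φ) (K' + 1)) / L := by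
  have h := psi_abs (stRC φ hw hK') (stRC φ hw hK) rfl (stRC_psd hw hK') φ hL ht
  rw [div_eq_inv_mul]
  refine le_trans (le_of_eq ?_) (h.trans (mul_le_mul_of_nonneg_left (pair_sq hw hK' hc)
    (inv_nonneg.2 hL.le)))
  simp only [psiS, Tk_dm hw hK', Qs_dm hw hK]
  rfl

end st

section core
variable {Ω : Type*} [Fintype Ω] [DecidableEq Ω] {c : RC Ω} {pp ρ ν f g : Ω → ℝ} {E : ℝ}

omit [DecidableEq Ω] in
lemma dom_le (h : ∀ y, ρ y ≤ E * pp y) (hf : ∀ y, 0 ≤ f y) : mean ρ f ≤ E * mean pp f := by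
  rw [mean, mean, mul_sum]
  exact sum_le_sum fun y _ => by nlinarith [mul_le_mul_of_nonneg_right (h y) (hf y)]

omit [DecidableEq Ω] in
lemma dom_abs (hρ : IsP ρ) (h : ∀ y, ρ y ≤ E * pp y) (f g : Ω → ℝ) :
    |mean ρ f - mean ρ g| ≤ E * mean pp fun y => |f y - g y| := by
  refine le_trans ?_ (dom_le h fun y => abs_nonneg _)
  rw [mean, mean, ← sum_sub_distrib]
  refine (abs_sum_le_sum_abs _ _).trans (sum_le_sum fun y _ => ?_)
  rw [← mul_sub, abs_mul, abs_of_nonneg (hρ.nn y)]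

omit [DecidableEq Ω] in
lemma l1_le (hpp : IsP pp) {δ : ℝ} (hδ : 0 ≤ δ) (h : mean pp (fun y => (f y - g y) ^ 2) ≤ δ ^ 2) :
    mean pp (fun y => |f y - g y|) ≤ δ := by
  refine abs_le_of_sq_le_sq' ((hpp.mean_sq_le _).trans (le_trans (le_of_eq ?_) h)) hδ |>.2
  simp only [ip, mean, abs_mul_abs_self, sq]

omit [DecidableEq Ω] in
lemma dom_sq (hρ : IsP ρ) (hpp : IsP pp) (hE : 0 ≤ E) (h : ∀ y, ρ y ≤ E * pp y) {δ : ℝ} (hδ : 0 ≤ δ)
    (h2 : mean pp (fun y => (f y - g y) ^ 2) ≤ δ ^ 2) : |mean ρ f - mean ρ g| ≤ E * δ :=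
  (dom_abs hρ h f g).trans (mul_le_mul_of_nonneg_left (l1_le hpp hδ h2) hE)

/-- shifting the time -/
lemma shift (hν : IsP ν) {b s r : ℝ} (hb : 0 < b) (hs : 2 * b ≤ s) (hr : 0 ≤ r) (hE : 1 ≤ E)
    (h : ∀ y, (ν ᵥ* c.H b) y ≤ E * c.π y) (hf : ∀ y, |f y| ≤ 1) :
    |mean (ν ᵥ* c.H s) f - mean (ν ᵥ* c.H (s + r)) f| ≤ r / b * (2 * E ^ 2) := by
  have e : ∀ t, mean (ν ᵥ* c.H (b + t)) f = ip c.π (dens c ν b) (c.H t *ᵥ f) := fun t => by
    rw [c.H_add, ← vecMul_vecMul, mean_vecMul, ← pi_mul_dens (c := c) ν b]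
    simp only [mean, ip, mul_assoc]
  have h1 := ip_H_lip (c := c) (dens c ν b) f hb (s := s - b) (t := s - b + r) (by linarith)
    (by linarith)
  rw [← e, ← e, show b + (s - b) = s by ring, show b + (s - b + r) = s + r by ring,
    show s - b - (s - b + r) = -r by ring, abs_neg, abs_of_nonneg hr] at h1
  refine h1.trans (mul_le_mul_of_nonneg_left ?_ (by positivity))
  have a1 := (ip_H_le_self (c := c) f (t := b / 2) (by positivity)).trans (ip_self_le c.isP hf)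
  have a2 := (ip_H_le_self (c := c) (dens c ν b) (t := b / 2) (by positivity)).trans
    (ip_self_le c.isP (K := E) fun y => by
      rw [abs_of_nonneg (dens_nonneg hν hb.le y), Soft.dens, div_le_iff₀ (c.pos y)]; exact h y)
  nlinarith

open Classical in
/-- **the deterministic core of the merging argument** -/
theorem core (hν : IsP ν) {b s τ r E₀ E₁ E₂ δ₁ δ₂ δ₃ η z q m : ℝ} {e f v u : Ω → ℝ} {A : Ω → Prop}
    (hb : 0 < b) (hs : 2 * b ≤ s) (hτ : 0 ≤ τ) (hr : 0 ≤ r) (hE₀ : 1 ≤ E₀)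
    (hE₁ : 0 ≤ E₁) (hE₂ : 0 ≤ E₂) (hδ₁ : 0 ≤ δ₁) (hδ₂ : 0 ≤ δ₂) (hδ₃ : 0 ≤ δ₃) (hη : 0 ≤ η)
    (h0 : ∀ y, (ν ᵥ* c.H b) y ≤ E₀ * c.π y) (h1 : ∀ y, (ν ᵥ* c.H (r + τ)) y ≤ E₁ * c.π y)
    (h2 : ∀ y, (ν ᵥ* c.H r) y ≤ E₂ * c.π y) (he : ∀ y, |e y| ≤ 1) (hu : ∀ y, |u y| ≤ 1)
    (hz : |z| ≤ 1)
    (a1 : mean c.π (fun y => ((c.H (s - τ) *ᵥ e) y - f y) ^ 2) ≤ δ₁ ^ 2)
    (a2 : mean c.π (fun y => (f y - v y) ^ 2) ≤ δ₂ ^ 2)
    (a3 : mean c.π (fun y => ((c.H τ *ᵥ v) y - u y) ^ 2) ≤ δ₃ ^ 2)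
    (hq : mean (ν ᵥ* c.H r) (Ent.ind A) ≤ q)
    (hm : mean c.π (Ent.ind fun y => ¬ A y ∧ η < |u y - z|) ≤ m) :
    |mean (ν ᵥ* c.H s) e - z| ≤
      r / b * (2 * E₀ ^ 2) + E₁ * δ₁ + E₁ * δ₂ + E₂ * δ₃ + (η + 2 * q + 2 * (E₂ * m)) := by
  have p1 := isP_vecMul (c := c) hν (add_nonneg hr hτ)
  have p2 := isP_vecMul (c := c) hν hr
  have k0 := shift hν hb hs hr hE₀ h0 he
  have k1 := dom_sq p1 c.isP hE₁ h1 hδ₁ a1
  have k2 := dom_sq p1 c.isP hE₁ h1 hδ₂ a2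
  have k3 := dom_sq p2 c.isP hE₂ h2 hδ₃ a3
  rw [← mean_vecMul, vecMul_vecMul, ← c.H_add, show r + τ + (s - τ) = s + r by ring] at k1
  rw [← mean_vecMul, vecMul_vecMul, ← c.H_add] at k3
  have k4 : |mean (ν ᵥ* c.H r) u - z| ≤ η + 2 * q + 2 * (E₂ * m) := by
    have i0 : ∀ (P : Ω → Prop) y, 0 ≤ Ent.ind P y := fun P y => by unfold Ent.ind; split_ifs <;> simp
    have b1 := (dom_le h2 (i0 fun y => ¬ A y ∧ η < |u y - z|)).trans
      (mul_le_mul_of_nonneg_left hm hE₂)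
    have b2 := dom_abs p2 (E := 1) (pp := ν ᵥ* c.H r) (fun y => by rw [one_mul]) u fun _ => z
    rw [p2.mean_const, one_mul] at b2
    have b3 := p2.mean_mono (f := fun y => |u y - z|) (g := (fun _ => η) + (2 : ℝ) • Ent.ind A +
      (2 : ℝ) • Ent.ind fun y => ¬ A y ∧ η < |u y - z|) fun y => by
        have := abs_sub (u y) z
        have := hu y
        simp only [Pi.add_apply, Pi.smul_apply, smul_eq_mul, Ent.ind]
        split_ifs with h h' h'
        · linarith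
        · linarith
        · linarith
        · push Not at h'; linarith [h' h]
    rw [mean_add, mean_add, mean_smul, mean_smul, p2.mean_const] at b3
    linarith
  rw [abs_le] at *
  constructor <;> linarith [k0.1, k0.2, k1.1, k1.2, k2.1, k2.2, k3.1, k3.2, k4.1, k4.2]

end core

end Crest.Agent.T157.Cq.Top72

end
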