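import Crest.Agent.T157.RecA_77

/-!
# Row 157, part C2 (helper77): discrete derivatives of `x ↦ E F(s x + B_s)`
-/

set_option autoImplicit false
set_option linter.unusedSectionVars false

noncomputable section

namespace Crest.Agent.T157.Rec

open MeasureTheory ProbabilityTheory Filter Topology Set Real Matrix Function
open Crest.Agent.T157.E Crest.Agent.T157.SL
open Crest.ProbabilityR.SpinGlassDynamics (spin Pair)

variable {n : ℕ} {w f : Cube n → ℝ} {s : ℝ} {F : (Fin n → ℝ) → ℝ}

/-! ### the discrete gradient -/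

/-- discrete gradient -/
def grad (f : Cube n → ℝ) (x : Cube n) (i : Fin n) : ℝ := incr f i x / 2

/-- spin flip -/
def fl (x : Cube n) (i : Fin n) : Cube n := update x i (!x i)

theorem grad_eq (f : Cube n → ℝ) (x : Cube n) (i : Fin n) :
    grad f x i = sv x i * (f x - f (fl x i)) / 2 := by
  have e : f x = f (update x i (x i)) := by rw [update_eq_self]
  rw [grad, incr, sv, fl, e]
  cases x i <;> simp [spin]

theorem grad_update (f : Cube n → ℝ) (x : Cube n) (i : Fin n) (b : Bool) :
    grad f (update x i b) i = grad f x i := by simp only [grad, incr, update_idem]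

theorem grad_add (f g : Cube n → ℝ) (x : Cube n) :
    grad (fun x => f x + g x) x = grad f x + grad g x := by ext; simp only [grad, incr, Pi.add_apply]; ring

theorem grad_sub (f g : Cube n → ℝ) (x : Cube n) :
    grad (fun x => f x - g x) x = grad f x - grad g x := by ext; simp only [grad, incr, Pi.sub_apply]; ring

theorem grad_const (c : ℝ) (x : Cube n) : grad (fun _ => c) x = 0 := by ext; simp [grad, incr]

theorem grad_const_mul (c : ℝ) (f : Cube n → ℝ) (x : Cube n) :
    grad (fun x => c * f x) x = c • grad f x := by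
  ext; simp only [grad, incr, Pi.smul_apply, smul_eq_mul]; ring

theorem sv_fl_sub (x : Cube n) (i : Fin n) : sv (fl x i) - sv x = Pi.single i (-2 * sv x i) := by
  rw [fl, sv_update_sub, spin_not, sv]; congr 1; ring

theorem sv_fl_ne (x : Cube n) {i j : Fin n} (h : i ≠ j) : sv (fl x j) i = sv x i := by
  simp [sv, fl, h]

theorem sv_mul_self (x : Cube n) (i : Fin n) : sv x i * sv x i = 1 := spin_mul_self _

theorem grad_lin (a : Fin n → ℝ) (x : Cube n) : grad (fun x => a ⬝ᵥ sv x) x = a := by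
  ext i
  rw [grad_eq, ← dotProduct_sub, ← neg_sub, sv_fl_sub, dotProduct_neg, dotProduct_single]
  linear_combination a i * sv_mul_self x i

/-- the energy is at most the mean square gradient -/
theorem dir_le_grad (hw : ∀ x, 0 < w x) (f : Cube n → ℝ) :
    dir w f ≤ mean w fun x => grad f x ⬝ᵥ grad f x := by
  rw [Ent.dir_eq_sum]
  simp only [dotProduct, mean_sum]
  refine Finset.sum_le_sum fun i _ => (Ent.dirS_le_sq hw f i
    (g := fun x => (f (update x i true) + f (update x i false)) / 2)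
    fun x b => by simp only [update_idem]).trans_eq ?_
  refine congrArg (mean w) (funext fun x => ?_)
  have e : f x = f (update x i (x i)) := by rw [update_eq_self]
  rw [grad, incr, e]
  cases x i <;> ring

theorem dir_add_le (hw : ∀ x, 0 < w x) (f g : Cube n → ℝ) {η : ℝ} (hη : 0 < η) :
    dir w (fun x => f x + g x) ≤ (1 + η) * dir w f + (1 + η⁻¹) * dir w g := by
  simp only [Ent.dir_eq_sum, Finset.mul_sum, ← Finset.sum_add_distrib]
  refine Finset.sum_le_sum fun i _ => (Ent.dirS_le_sq hw _ i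
    (g := fun x => siteM w f i x + siteM w g i x)
    fun x b => by simp only [Chain22.siteM_update]).trans ?_
  refine ((Wt.of_pos hw).mean_mono (g := fun x => (1 + η) * (f x - siteM w f i x) ^ 2 +
    (1 + η⁻¹) * (g x - siteM w g i x) ^ 2) fun x => ?_).trans_eq ?_
  · rw [add_sub_add_comm]; exact add_sq_le hη _ _
  · rw [mean_add, mean_const_mul, mean_const_mul]; rfl

/-! ### the score functions -/

/-- the shift of the noise under a spin flip -/
def hv (s : ℝ) (x : Cube n) (i : Fin n) : Fin n → ℝ := √s • (sv (fl x i) - sv x)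

theorem hv_dot (hs : 0 ≤ s) (x : Cube n) (i j : Fin n) :
    hv s x i ⬝ᵥ hv s x j = if i = j then 4 * s else 0 := by
  rw [hv, hv, dot_sqrt hs, sv_fl_sub, sv_fl_sub, single_dotProduct, Pi.single_apply]
  split_ifs with h
  · subst h; linear_combination 4 * s * sv_mul_self x i
  · simp

theorem hv_apply (s : ℝ) (x : Cube n) (i j : Fin n) :
    hv s x i j = if i = j then -2 * √s * sv x i else 0 := by
  rw [hv, sv_fl_sub, Pi.smul_apply, Pi.single_apply, smul_eq_mul]
  by_cases h : i = j
  · subst h; simp; ring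
  · simp [h, Ne.symm h]

/-- the score of the spin `i` -/
def sc (s : ℝ) (x : Cube n) (i : Fin n) (z : Fin n → ℝ) : ℝ := sv x i / 2 * (1 - eh (hv s x i) z)

theorem mg_sc (s : ℝ) (x : Cube n) (i : Fin n) : MG (sc s x i) :=
  ((MG.const 1).sub (mg_eh _)).const_mul _

theorem int_sc (s : ℝ) (x : Cube n) (i : Fin n) : ∫ z, sc s x i z ∂Gs (Fin n) = 0 := by
  simp only [sc]
  rw [integral_const_mul, integral_sub (MG.const 1).int (mg_eh _).int, int_eh]; simp

theorem int_sc_mul (hs : 0 ≤ s) (x : Cube n) (i j : Fin n) :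
    ∫ z, sc s x i z * sc s x j z ∂Gs (Fin n) = if i = j then (exp (4 * s) - 1) / 4 else 0 := by
  simp only [sc, mul_mul_mul_comm (sv x i / 2)]
  rw [integral_const_mul, int_one_sub_eh, hv_dot hs]
  split_ifs with h
  · subst h; linear_combination (exp (4 * s) - 1) / 4 * sv_mul_self x i
  · simp

theorem int_coord_sc (s : ℝ) (x : Cube n) (i j : Fin n) :
    ∫ z, z j * sc s x i z ∂Gs (Fin n) = if i = j then √s else 0 := by
  have e : ∀ z : Fin n → ℝ, z j * sc s x i z = sv x i / 2 * (z j - z j * eh (hv s x i) z) :=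
    fun z => by rw [sc]; ring
  simp only [e]
  rw [integral_const_mul, integral_sub (mg_coord j).int ((mg_coord j).mul (mg_eh _)).int, int_coord,
    int_coord_eh, hv_apply]
  split_ifs with h
  · linear_combination √s * sv_mul_self x i
  · simp

theorem eh_add {ι : Type*} [Fintype ι] {h k : ι → ℝ} (e : h ⬝ᵥ k = 0) (z : ι → ℝ) :
    eh (h + k) z = eh h z * eh k z := by
  rw [eh, eh, eh, ← exp_add, dotProduct_add, add_dotProduct, dotProduct_add, dotProduct_add, e,
    dotProduct_comm k h, e]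
  congr 1; ring

theorem int_three {ι : Type*} [Fintype ι] [DecidableEq ι] {A B C G : (ι → ℝ) → ℝ} (hA : MG A)
    (hB : MG B) (hC : MG C) (hG : MG G) : ∫ z, (A z + B z - C z) * G z ∂Gs ι =
      ∫ z, G z * A z ∂Gs ι + ∫ z, G z * B z ∂Gs ι - ∫ z, G z * C z ∂Gs ι := by
  rw [← integral_add (hG.mul hA).int (hG.mul hB).int,
    ← integral_sub ((hG.mul hA).add (hG.mul hB)).int (hG.mul hC).int]
  congr 1; ext z; ring

theorem int_sc_four (hs : 0 ≤ s) (x : Cube n) (p q : Pair n) :
    ∫ z, (sc s x p.1.1 z * sc s x p.1.2 z) * (sc s x q.1.1 z * sc s x q.1.2 z) ∂Gs (Fin n) =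
      if p = q then ((exp (4 * s) - 1) / 4) ^ 2 else 0 := by
  obtain ⟨⟨i, j⟩, hp⟩ := p
  obtain ⟨⟨k, l⟩, hq⟩ := q
  simp only at hp hq ⊢
  have e : ∀ (i j : Fin n), i < j → ∀ z, sc s x i z * sc s x j z = sv x i * sv x j / 4 *
      ((1 - eh (hv s x i) z) + (1 - eh (hv s x j) z) - (1 - eh (hv s x i + hv s x j) z)) :=
    fun i j h z => by rw [eh_add (by rw [hv_dot hs, if_neg h.ne]), sc, sc]; ring
  have m := fun h : Fin n → ℝ => (MG.const 1).sub (mg_eh h)
  simp only [e i j hp, e k l hq, mul_mul_mul_comm (sv x i * sv x j / 4)]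
  rw [integral_const_mul, int_three (m _) (m _) (m _) (((m _).add (m _)).sub (m _)),
    int_three (m _) (m _) (m _) (m _), int_three (m _) (m _) (m _) (m _),
    int_three (m _) (m _) (m _) (m _)]
  simp only [int_one_sub_eh, add_dotProduct, dotProduct_add, hv_dot hs, exp_add, Subtype.mk.injEq,
    Prod.mk.injEq]
  have h1 := sv_mul_self x i
  have h2 := sv_mul_self x j
  by_cases a : i = k
  · subst a
    by_cases b : j = l
    · subst b
      simp only [if_true, if_neg hp.ne, if_neg hp.ne', exp_zero, and_self]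
      linear_combination (exp (4 * s) - 1) ^ 2 / 16 * (sv x j * sv x j * h1 + h2)
    · simp [b, hp.ne', hq.ne]
  · by_cases b : j = l
    · subst b; simp [a, hp.ne, hq.ne']
    · by_cases c : i = l
      · subst c; simp [a, b, (hq.trans hp).ne']
      · by_cases d : j = k
        · subst d; simp [a, b, c]
        · simp [a, b, c, d]

/-! ### derivatives of `x ↦ E F (s x + B_s)` -/

theorem Pm_fl (hs : 0 ≤ s) (F : (Fin n → ℝ) → ℝ) (x : Cube n) (i : Fin n) :
    Pm sv s (fun _ => F) (fl x i) = ∫ z, F (s • sv x + √s • z) * eh (hv s x i) z ∂Gs (Fin n) :=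
  int_change hs x (fl x i) F

theorem grad_Pm (hs : 0 ≤ s) (hF : MG F) (x : Cube n) (i : Fin n) :
    grad (Pm sv s fun _ => F) x i = ∫ z, F (s • sv x + √s • z) * sc s x i z ∂Gs (Fin n) := by
  have m := hF.affine (s • sv x) √s
  have e : ∀ z, F (s • sv x + √s • z) * sc s x i z =
      sv x i / 2 * (F (s • sv x + √s • z) - F (s • sv x + √s • z) * eh (hv s x i) z) :=
    fun z => by rw [sc]; ring
  simp only [e]
  rw [grad_eq, Pm_fl hs, integral_const_mul, integral_sub m.int (m.mul (mg_eh _)).int, Pm]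
  ring

theorem grad_grad_Pm (hs : 0 ≤ s) (hF : MG F) (x : Cube n) {i j : Fin n} (h : i ≠ j) :
    grad (fun x => grad (Pm sv s fun _ => F) x i) x j =
      ∫ z, F (s • sv x + √s • z) * (sc s x i z * sc s x j z) ∂Gs (Fin n) := by
  have m := hF.affine (s • sv x) √s
  have e1 : Pm sv s (fun _ => F) (fl (fl x j) i) =
      ∫ z, F (s • sv x + √s • z) * eh (hv s x i) z * eh (hv s x j) z ∂Gs (Fin n) := by
    refine (int_change hs x _ F).trans ?_
    have : √s • (sv (fl (fl x j) i) - sv x) = hv s x i + hv s x j := by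
      rw [hv, hv, ← smul_add, sv_fl_sub x i, ← sv_fl_ne x h, ← sv_fl_sub]
      congr 1; abel
    simp only [this, eh_add (show hv s x i ⬝ᵥ hv s x j = 0 by rw [hv_dot hs, if_neg h]), mul_assoc]
  have e2 : ∀ z, F (s • sv x + √s • z) * (sc s x i z * sc s x j z) = sv x i * sv x j / 4 *
      (F (s • sv x + √s • z) - F (s • sv x + √s • z) * eh (hv s x i) z -
        (F (s • sv x + √s • z) * eh (hv s x j) z -
          F (s • sv x + √s • z) * eh (hv s x i) z * eh (hv s x j) z)) := fun z => by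
    rw [sc, sc]; ring
  have m1 := m.mul (mg_eh (hv s x i))
  have m2 := m.mul (mg_eh (hv s x j))
  have m3 := m1.mul (mg_eh (hv s x j))
  simp only [e2]
  rw [grad_eq, grad_eq, grad_eq, e1, Pm_fl hs, Pm_fl hs, sv_fl_ne x h, integral_const_mul,
    integral_sub (m.sub m1).int (m2.sub m3).int, integral_sub m.int m1.int,
    integral_sub m2.int m3.int, Pm]
  ring

theorem vs_nonneg (hs : 0 ≤ s) : 0 ≤ (exp (4 * s) - 1) / 4 := by
  have := one_le_exp (show 0 ≤ 4 * s by positivity); linarith

theorem grad_Pm_sub (hF : MG F) (c : ℝ) (x : Cube n) :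
    grad (Pm sv s fun _ y => F y - c) x = grad (Pm sv s fun _ => F) x := by
  have : (Pm sv s fun (_ : Cube n) y => F y - c) = fun x => Pm sv s (fun _ => F) x - c := by
    ext x; rw [Pm_sub (fun _ => hF) fun _ => .const c, Pm_fun]
  rw [this, grad_sub, grad_const, sub_zero]

/-- first derivatives -/
theorem grad_Pm_sq_le (hs : 0 ≤ s) (hF : MG F) (c : ℝ) (x : Cube n) :
    grad (Pm sv s fun _ => F) x ⬝ᵥ grad (Pm sv s fun _ => F) x ≤
      (exp (4 * s) - 1) / 4 * Pm sv s (fun _ y => (F y - c) ^ 2) x := by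
  rw [← grad_Pm_sub hF c]
  simp only [dotProduct, ← sq, grad_Pm hs (hF.sub (.const c))]
  exact bessel_orth (mg_sc s x) (vs_nonneg hs) (fun i => by rw [int_sc_mul hs, if_pos rfl])
    (fun i j h => by rw [int_sc_mul hs, if_neg h]) ((hF.sub (.const c)).affine _ _)

/-- second derivatives -/
theorem grad_grad_Pm_sq_le (hs : 0 ≤ s) (hF : MG F) (x : Cube n) :
    ∑ i, grad (fun x => grad (Pm sv s fun _ => F) x i) x ⬝ᵥ
      grad (fun x => grad (Pm sv s fun _ => F) x i) x ≤
      2 * ((exp (4 * s) - 1) / 4) ^ 2 * Pm sv s (fun _ y => F y ^ 2) x := by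
  simp only [dotProduct, ← sq]
  have d : ∀ i, grad (fun x => grad (Pm sv s fun _ => F) x i) x i = 0 := fun i => by
    rw [grad_eq, fl, grad_update]; simp
  rw [sum_sum_eq_two_mul_pair (fun i j => grad (fun x => grad (Pm sv s fun _ => F) x i) x j ^ 2)
    (fun i j => by
      rcases eq_or_ne i j with rfl | h
      · rfl
      · simp only [grad_grad_Pm hs hF x h, grad_grad_Pm hs hF x h.symm, mul_comm (sc s x i _)])
    fun i => by rw [d]; simp, mul_assoc]
  refine mul_le_mul_of_nonneg_left ?_ zero_le_two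
  simp only [fun p : Pair n => grad_grad_Pm hs hF x p.2.ne]
  exact bessel_orth (fun p : Pair n => (mg_sc s x p.1.1).mul (mg_sc s x p.1.2)) (sq_nonneg _)
    (fun p => by rw [int_sc_four hs, if_pos rfl]) (fun p q h => by rw [int_sc_four hs, if_neg h])
    (hF.affine _ _)

/-- comparison of the discrete gradient with the Gaussian score -/
theorem grad_Pm_sub_sq_le (hs : 0 ≤ s) (hF : MG F) (x : Cube n) :
    ∑ i, (grad (Pm sv s fun _ => F) x i - √s * ∫ z, z i * F (s • sv x + √s • z) ∂Gs (Fin n)) ^ 2 ≤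
      ((exp (4 * s) - 1) / 4 - s) * Pm sv s (fun _ y => F y ^ 2) x := by
  have m := hF.affine (s • sv x) √s
  have m1 := fun i => (mg_sc s x i).sub ((mg_coord i).const_mul √s)
  have e : ∀ i j, ∫ z, (sc s x i z - √s * z i) * (sc s x j z - √s * z j) ∂Gs (Fin n) =
      if i = j then (exp (4 * s) - 1) / 4 - s else 0 := fun i j => by
    have : ∀ z : Fin n → ℝ, (sc s x i z - √s * z i) * (sc s x j z - √s * z j) = sc s x i z * sc s x j z -
      √s * (z j * sc s x i z) - (√s * (z i * sc s x j z) - √s * √s * (z i * z j)) := fun z => by ring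
    have a1 := (mg_sc s x i).mul (mg_sc s x j)
    have a2 := ((mg_coord j).mul (mg_sc s x i)).const_mul √s
    have a3 := ((mg_coord i).mul (mg_sc s x j)).const_mul √s
    have a4 := ((mg_coord i).mul (mg_coord j)).const_mul (√s * √s)
    simp only [this]
    rw [integral_sub (a1.sub a2).int (a3.sub a4).int, integral_sub a1.int a2.int,
      integral_sub a3.int a4.int, integral_const_mul, integral_const_mul, integral_const_mul,
      int_sc_mul hs, int_coord_sc, int_coord_sc, int_coord_mul, mul_self_sqrt hs]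
    by_cases h : i = j
    · simp only [h, if_true, mul_self_sqrt hs]; ring
    · simp [h, Ne.symm h]
  have := bessel_orth m1 (Γ := (exp (4 * s) - 1) / 4 - s)
    (by have := add_one_le_exp (4 * s); linarith) (fun i => by rw [e, if_pos rfl])
    (fun i j h => by rw [e, if_neg h]) m
  refine le_of_eq_of_le (Finset.sum_congr rfl fun i _ => congrArg (· ^ 2) ?_) this
  simp only [mul_sub]
  rw [integral_sub (m.mul (mg_sc s x i)).int (m.mul ((mg_coord i).const_mul √s)).int, grad_Pm hs hF,
    ← integral_const_mul]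
  congr 2; ext z; ring

/-- Gaussian integration by parts for posterior means -/
theorem stein_post {Ω ι : Type*} [Fintype Ω] [Fintype ι] [DecidableEq ι] {φ : Ω → ι → ℝ} {w : Ω → ℝ}
    (hw : Wt w) (g : Ω → ℝ) (s : ℝ) (u : ι → ℝ) (c : ℝ) (i : ι) :
    ∫ z, z i * mean (post φ w s (u + c • z)) g ∂Gs ι =
      c * ∫ z, covV (post φ w s (u + c • z)) g φ i ∂Gs ι := by
  have b : ∀ p : Pt ι, p.1 ∈ (univ : Set ℝ) → ‖((s, u + c • p.2) : Pt ι).2‖ ≤ ‖u‖ + |c| * ‖p.2‖ :=
    fun p _ => (norm_add_le _ _).trans_eq (by rw [norm_smul, Real.norm_eq_abs])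
  rw [← integral_const_mul]
  refine stein (I := univ) (G := fun p => mean (post φ w s (u + c • p.2)) g)
    (H := fun p => c * covV (post φ w s (u + c • p.2)) g φ i)
    ((eg_mean (I := univ) hw g).comp (φ := fun p : Pt ι => (s, u + c • p.2)) (by fun_prop)
      (fun _ _ => mem_univ _) _ _ b)
    (((eg_cov (I := univ) hw g _).comp (φ := fun p : Pt ι => (s, u + c • p.2)) (by fun_prop)
      (fun _ _ => mem_univ _) _ _ b).const_mul c) (mem_univ 0) i fun y => ?_
  have h1 := (df_mean (φ := φ) (I := univ) hw g).dp i (s, u + c • y) (mem_univ _)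
  have h2 : HasDerivAt (fun r => u i + c * r) c (y i) := by
    simpa using ((hasDerivAt_id' (y i)).const_mul c).const_add (u i)
  have h3 := h1.comp_of_eq (y i) h2 rfl
  rw [mul_comm]
  refine h3.congr_of_eventuallyEq (.of_forall fun r => ?_)
  simp only [Function.comp_apply, pw]
  congr 2
  ext j
  by_cases h : j = i
  · subst h; simp
  · simp [h]

/-- the operator `T_s g = E[E[g | y_s] | σ]` -/
def Tm (w : Cube n → ℝ) (s : ℝ) (g : Cube n → ℝ) : Cube n → ℝ :=
  Pm sv s fun _ y => mean (post sv w s y) g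

theorem mg_pm {Ω ι : Type*} [Fintype Ω] [Fintype ι] [DecidableEq ι] {φ : Ω → ι → ℝ} {w : Ω → ℝ}
    (hw : Wt w) (s : ℝ) (g : Ω → ℝ) : MG fun y => mean (post φ w s y) g :=
  mg_mean hw s fun x => .const (g x)

theorem mg_pcov {Ω ι : Type*} [Fintype Ω] [Fintype ι] [DecidableEq ι] {φ : Ω → ι → ℝ} {w : Ω → ℝ}
    (hw : Wt w) (s : ℝ) (f g : Ω → ℝ) : MG fun y => cov (post φ w s y) f g :=
  (eg_cov (I := univ) hw f g).mg (mem_univ s)

theorem mg_pvar {Ω ι : Type*} [Fintype Ω] [Fintype ι] [DecidableEq ι] {φ : Ω → ι → ℝ} {w : Ω → ℝ}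
    (hw : Wt w) (s : ℝ) (f : Ω → ℝ) : MG fun y => var (post φ w s y) f :=
  (eg_var (I := univ) hw f).mg (mem_univ s)

/-- the gradient of `T_s g` is `s E[Cov_{y_s}(g, σ) | σ]` up to `O(s)` -/
theorem grad_Tm_sub_sq_le (hw : Wt w) (hs : 0 ≤ s) (g : Cube n → ℝ) (x : Cube n) :
    ∑ i, (grad (Tm w s g) x i - s * Pm sv s (fun _ y => covV (post sv w s y) g sv i) x) ^ 2 ≤
      ((exp (4 * s) - 1) / 4 - s) * Pm sv s (fun _ y => mean (post sv w s y) g ^ 2) x := by
  have := grad_Pm_sub_sq_le hs (mg_pm (φ := sv) hw s g) x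
  simp only [stein_post hw, ← mul_assoc, mul_self_sqrt hs] at this
  exact this

/-- `⟨g, (1 - T_s) g⟩` -/
theorem slE_var {Ω ι : Type*} [Fintype Ω] [Fintype ι] [DecidableEq ι] {φ : Ω → ι → ℝ} {w : Ω → ℝ}
    (hw : Wt w) (hs : 0 ≤ s) (g : Ω → ℝ) :
    (slE φ w s fun x y => (mean (post φ w s y) g - g x) ^ 2) =
      slE φ w s fun _ y => var (post φ w s y) g := by
  rw [bayes hw hs (.of_mg fun x => mg_sq ((mg_pm hw s g).sub (.const _)))]
  congr 1; ext _ y
  simp only [mean, var, sub_sq_comm (g _)]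

theorem mean_Tm_sub_sq_le (hw : Wt w) (hs : 0 ≤ s) (g : Cube n → ℝ) :
    mean w (fun x => (Tm w s g x - g x) ^ 2) ≤ slE sv w s fun _ y => var (post sv w s y) g :=
  (mean_Pm_sub_sq_le hw (fun _ => mg_pm hw s g) g).trans_eq (slE_var hw hs g)

theorem mean_grad_Tm_le (hw : Wt w) (hs : 0 ≤ s) (g : Cube n → ℝ) :
    mean w (fun x => grad (Tm w s g) x ⬝ᵥ grad (Tm w s g) x) ≤
      (exp (4 * s) - 1) / 4 * slE sv w s fun _ y => var (post sv w s y) g := by
  rw [← slE_var hw hs, slE_eq_Pm, ← mean_const_mul]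
  exact hw.mean_mono fun x => grad_Pm_sq_le hs (mg_pm hw s g) (g x) x

end Crest.Agent.T157.Rec

end
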