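import Crest.Agent.T157.CqDiscDef_34
import Crest.Agent.T157.CqTopA_72
import Crest.Agent.T157.TrF_64
import Crest.Agent.T157.RecB_77

/-!
# Row 157, part C (helper59): two static chains of a finite law (`Dc.CoreGlue`)
-/

set_option autoImplicit false

noncomputable section

namespace Crest.Agent.T157.Cq.Dc

open MeasureTheory Matrix Filter Topology Finset Real
open Crest.Agent.T157.St
open Crest.Agent.T157.Tr (pb psi HA)

namespace Core59

variable {Ω ι : Type} [Fintype Ω] [Fintype ι] [DecidableEq ι] {w : Ω → ℝ} {φ : Ω → ι → ℝ}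
  {ε p : ℝ → ℝ} {K K' η D c : ℝ}

lemma ha_of (hD : 0 < D) (hK : 0 < K) (hKK : K ≤ K') (hη : 2 * √D * K ^ (-(1 / 2) : ℝ) ≤ η)
    (h : ∀ r ∈ Set.Icc K K', pb φ w (fun u => D * u ^ (-c)) 3 r ≤ D * r ^ (-2 : ℝ)) :
    HA φ w (fun u => D * u ^ (-c)) (fun u => D * u ^ (-2 : ℝ)) K K' η := by
  have p0 : ∀ u ∈ Set.Icc K K', 0 < u := fun u hu => hK.trans_le hu.1
  have hc : ∀ γ : ℝ, ContinuousOn (fun u : ℝ => D * u ^ γ) (Set.Icc K K') := fun γ =>
    continuousOn_const.mul (continuousOn_id.rpow_const fun u hu => .inl (p0 u hu).ne')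
  have h0 : 0 ≤ 2 * √D * K ^ (-(1 / 2) : ℝ) := by positivity
  refine ⟨hK, hc _, fun r hr => by have := p0 r hr; positivity, hc _, h, h0.trans hη,
    fun r hr => ?_, le_trans ?_ hη⟩
  · have hr0 := p0 r hr
    refine le_trans ?_ (pow_le_pow_left₀ h0 hη 2)
    have e1 : r * (D * r ^ (-2 : ℝ)) = D / r := by
      rw [rpow_neg hr0.le, rpow_two]; field_simp
    have e2 : (2 * √D * K ^ (-(1 / 2) : ℝ)) ^ 2 = 4 * (D / K) := by
      rw [mul_pow, mul_pow, sq_sqrt hD.le, ← rpow_natCast (K ^ _), ← rpow_mul hK.le]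
      norm_num [rpow_neg_one]; ring
    have : D / r ≤ D / K := div_le_div_of_nonneg_left hD.le hK hr.1
    have : 0 ≤ D / K := by positivity
    rw [e1, e2]; linarith
  · have e : ∫ u in K..K', √(D * u ^ (-2 : ℝ) / u) =
        ∫ u in K..K', √D * ((1 * u) ^ (-(1 / 2) : ℝ) / u) := by
      refine intervalIntegral.integral_congr fun u hu => ?_
      rw [Set.uIcc_of_le hKK] at hu
      have hu0 := p0 u hu
      refine (sqrt_eq_iff_mul_self_eq (by positivity) (by positivity)).2 ?_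
      rw [mul_mul_mul_comm, mul_self_sqrt hD.le, one_mul, div_mul_div_comm, ← rpow_add hu0,
        rpow_neg hu0.le 2, rpow_two]
      norm_num [rpow_neg_one]; field_simp
    have := Tr.int_rpow_neg (N := 1) one_pos hK hKK (γ := 1 / 2) (by norm_num)
    rw [e, intervalIntegral.integral_const_mul]
    refine (mul_le_mul_of_nonneg_left this (sqrt_nonneg D)).trans_eq ?_
    rw [one_mul]; ring

lemma sq_psi_le (hw : SL.Wt w) (h : HA φ w ε p K K' η) {u b : ℝ} (hu : u ∈ Set.Icc K K')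
    (hε : ε u ≤ η) {g : Unit → Ω → ℝ} (hb : ∀ x, ∑ a, g a x ^ 2 ≤ b ^ 2) :
    u ^ 2 * psi φ w g u ≤ (1 + η) * (u * Tr.Ph φ w g u) + b ^ 2 * η ^ 2 := by
  have hu0 : 0 < u := h.pos.trans_le hu.1
  have f2 := mul_le_mul_of_nonneg_left (Tr.psi_le_Ph (φ := φ) hw hu0 (h.ε0 u hu) hb) hu0.le
  have f3 := mul_le_mul_of_nonneg_left
    ((mul_le_mul_of_nonneg_left (h.le u hu) hu0.le).trans (h.sup u hu)) (sq_nonneg b)
  have f4 := mul_le_mul_of_nonneg_right hε (mul_nonneg hu0.le (Tr.Ph_nonneg (φ := φ) (g := g) hw u))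
  nlinarith

lemma i1 (hw : SL.Wt w) (h : HA φ w ε p K K' η) (hKK : K ≤ K') (hη : 0 < η) (hη1 : η ≤ 1)
    (hε : ε K' ≤ η) (hi : ∫ u in K..K', ε u / u ≤ η) (hK : K ≤ η * K') {b : ℝ} (hb0 : 0 ≤ b)
    {g : Unit → Ω → ℝ} (hb : ∀ x, ∑ a, g a x ^ 2 ≤ b ^ 2) :
    K * Tr.Ph φ w g K ≤ (1 + 36 * η) * (K' * Tr.Ph φ w g K') + 50 * η * b ^ 2 := by
  have P0 := Tr.Ph_nonneg (φ := φ) (g := g) hw K'
  have A0 : 0 ≤ K' * Tr.Ph φ w g K' := mul_nonneg (h.pos.le.trans hKK) P0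
  have f1 := sq_psi_le hw h ⟨hKK, le_rfl⟩ hε hb
  have f2 := Tr.int_psi_le (φ := φ) (g := g) hw h.pos hKK
    (B := (1 + 35 * η) * (K' * Tr.Ph φ w g K') + 50 * η * b ^ 2) fun u hu => by
      have k1 := (h.mono hu.1 hu.2 le_rfl).crude hw hu.2 hb0 hb
      have k2 : exp (∫ u in u..K', ε u / u) ≤ 1 + 2 * η := by
        refine (exp_le_exp.2 ((h.eps_le le_rfl hu.1 hu.2 le_rfl le_rfl).trans hi)).trans ?_
        have := abs_le.1 (Real.abs_exp_sub_one_sub_id_le (x := η) (by rwa [abs_of_pos hη]))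
        nlinarith
      have X0 := sqrt_nonneg (K' ^ 2 * psi φ w g K')
      have X2 := sq_sqrt (mul_nonneg (sq_nonneg K') (Tr.psi_nonneg (φ := φ) (g := g) hw K'))
      rw [← X2] at f1
      generalize √(K' ^ 2 * psi φ w g K') = X at k1 f1 X0
      generalize K' * Tr.Ph φ w g K' = A at f1 A0
      have bη : 0 ≤ b * η := by positivity
      have k3 : √(u ^ 2 * psi φ w g u) ≤ (1 + 2 * η) * X + 4 * (b * η) := by
        nlinarith [mul_le_mul_of_nonneg_right k2 (add_nonneg X0 bη), mul_le_mul_of_nonneg_left hη1 bη]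
      refine (sqrt_le_iff.1 k3).2.trans ?_
      have k4 : ((1 + 2 * η) * X + 4 * (b * η)) ^ 2 ≤
          (1 + η) * (1 + 2 * η) ^ 2 * X ^ 2 + 16 * (η + η ^ 2) * b ^ 2 := by
        nlinarith [mul_nonneg hη.le (sq_nonneg ((1 + 2 * η) * X - 4 * b))]
      have k5 := mul_le_mul_of_nonneg_left f1 (show 0 ≤ (1 + η) * (1 + 2 * η) ^ 2 by positivity)
      have η2 : η ^ 2 ≤ η := by nlinarith
      have η3 : η ^ 3 ≤ η := by nlinarith
      have η4 : η ^ 4 ≤ η := by nlinarith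
      have η5 : η ^ 5 ≤ η := by nlinarith
      have k6 : (1 + η) * (1 + 2 * η) ^ 2 * (1 + η) ≤ 1 + 35 * η := by nlinarith
      have k7 : (1 + η) * (1 + 2 * η) ^ 2 * η ^ 2 + 16 * (η + η ^ 2) ≤ 50 * η := by nlinarith
      nlinarith [mul_le_mul_of_nonneg_right k6 A0, mul_le_mul_of_nonneg_right k7 (sq_nonneg b)]
  rw [Tr.Ph_sub hw h.pos.le hKK]
  nlinarith [mul_le_mul_of_nonneg_right hK P0]

variable [Nonempty Ω] [DecidableEq Ω]

lemma sub_sq_le (hw : ∀ x, 0 < w x) (hK : 0 ≤ K) (g : Unit → Ω → ℝ) :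
    Sg.ipV (E.prob w) ((fun a => (Sg.stRC φ hw hK).P *ᵥ g a) - g)
      ((fun a => (Sg.stRC φ hw hK).P *ᵥ g a) - g) ≤ Tr.Ph φ w g K := by
  refine sum_le_sum fun a _ => ?_
  have := (Rec.mean_Pm_sub_sq_le (φ := φ) (t := K) (SL.Wt.of_pos hw)
    (fun _ => Rec.mg_pm (SL.Wt.of_pos hw) K (g a)) (g a)).trans_eq (Rec.slE_var (SL.Wt.of_pos hw) hK (g a))
  refine le_trans (le_of_eq ?_) this
  simp only [Chain22.ip, E.mean, Pi.sub_apply, Sg.stRC_mulVec, sq]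

lemma num {e : ℝ} (h0 : 0 ≤ η) (h1 : η ≤ 1) (h : 50 * η ≤ e) :
    (1 + η) * (1 + η) ≤ 1 + e ∧ (1 + η) * η ^ 2 + η ≤ e := by
  have η2 : η ^ 2 ≤ η := by nlinarith
  have η3 : η ^ 3 ≤ η := by nlinarith
  constructor <;> nlinarith

end Core59

open Core59

theorem coreGlue : CoreGlue := by
  intro hS r₁ r₂ δ D c h₁ hδ hD hc
  obtain ⟨e, he, H⟩ := Sg.s2.{0, 0} (t₂ := r₂) h₁ (sqrt_pos.2 hδ)
  set η := min 1 (e / 50) with hη
  have η0 : 0 < η := by positivity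
  have η1 : η ≤ 1 := min_le_left _ _
  have ηe : 50 * η ≤ e := by linarith [min_le_right 1 (e / 50)]
  have t : ∀ A γ : ℝ, 0 < γ → ∀ᶠ K : ℝ in atTop, A * K ^ (-γ) ≤ η := fun A γ hγ =>
    (by simpa using (tendsto_rpow_neg_atTop hγ).const_mul A :
      Tendsto (fun K : ℝ => A * K ^ (-γ)) atTop (𝓝 0)).eventually (ge_mem_nhds η0)
  obtain ⟨K₀, hK₀⟩ := eventually_atTop.1 (((t (2 * √D) (1 / 2) (by norm_num)).and
    ((t (D / c) c hc).and (t D c hc))).and (eventually_ge_atTop η⁻¹))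
  refine ⟨max 1 K₀, le_max_left _ _, fun K hK m => ?_⟩
  have K0 : 0 < K := one_pos.trans_le ((le_max_left _ _).trans hK)
  obtain ⟨⟨a1, a2, a3⟩, a4⟩ := hK₀ K ((le_max_right _ _).trans hK)
  filter_upwards [eventually_ge_atTop K, eventually_ge_atTop (K / η),
    eventually_ge_atTop (100 * (5 + η⁻¹) * (m : ℝ) ^ 2 * K ^ 2 / η)] with K' b1 b2 b3
    Ω ι _ _ _ _ _ w φ hw hm hp f hf r hr
  have K'0 : 0 < K' := K0.trans_le b1
  have hW := SL.Wt.of_pos hw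
  have ha := ha_of hD K0 b1 a1 hp
  have hi : ∫ u in K..K', D * u ^ (-c) / u ≤ η := by
    have := mul_le_mul_of_nonneg_left (Tr.int_rpow_neg (N := 1) one_pos K0 b1 hc) hD.le
    simp only [one_mul, ← intervalIntegral.integral_const_mul, ← mul_div_assoc] at this
    refine this.trans (le_trans (le_of_eq ?_) a2)
    ring
  have hε : D * K' ^ (-c) ≤ η :=
    (mul_le_mul_of_nonneg_left (rpow_le_rpow_of_nonpos K0 b1 (by linarith)) hD.le).trans a3
  have dv : ∀ {s : ℝ} (hs : 0 ≤ s) (g : Unit → Ω → ℝ), Sg.DV (Sg.stRC φ hw hs) g = Tr.Ph φ w g s :=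
    fun hs g => Sg.DV_stRC hw hs g
  have sq : ∀ (g : Unit → Ω → ℝ) (B : ℝ), Sg.Sup g B → ∃ b, 0 ≤ b ∧ B = b ^ 2 := fun g B h =>
    ⟨√B, sqrt_nonneg _, (sq_sqrt (h.nonneg (Sg.stRC φ hw K0.le).isP)).symm⟩
  have key := H Ω Unit (Sg.stRC φ hw K'0.le) (Sg.stRC φ hw K0.le) rfl K' K K'0.le K0.le
    (fun g B hB => ?_) (fun g B hB => ?_) r hr.1 hr.2 (fun _ x => f (φ x)) 1
    fun x => by simpa using hf _
  · rw [sqrt_one, mul_one, Sg.nv_sub_comm, Sg.nv, sqrt_le_sqrt_iff hδ.le] at key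
    rw [St.Lnk10.integral_dm (fun x => (hw x).le)]
    refine le_trans (le_of_eq ?_) key
    simp only [Top72.Qs_dm hw K0.le, Top72.Qs_dm hw K'0.le, Sg.ipV, Chain22.ip, E.mean,
      Pi.sub_apply, Sg.HV, Sg.stRC_π, univ_unique, sum_singleton, _root_.sq]
  · obtain ⟨b, b0, rfl⟩ := sq g B hB
    rw [dv, dv]
    have := i1 hW ha b1 η0 η1 hε hi (by rwa [div_le_iff₀' η0] at b2) b0 hB
    have A0 := mul_nonneg K'0.le (Tr.Ph_nonneg (φ := φ) (g := g) hW K')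
    nlinarith [mul_le_mul_of_nonneg_right (show 36 * η ≤ e by linarith) A0,
      mul_le_mul_of_nonneg_right ηe (sq_nonneg b)]
  · obtain ⟨b, b0, rfl⟩ := sq g B hB
    have P0 := Tr.Ph_nonneg (φ := φ) (g := g) hW K
    have A0 := mul_nonneg K0.le P0
    refine ⟨fun a => (Sg.stRC φ hw K0.le).P *ᵥ g a, (sub_sq_le hw K0.le g).trans ?_, ?_⟩
    · rw [dv]
      have : 1 ≤ η * K := by rwa [inv_le_iff_one_le_mul₀' η0] at a4
      nlinarith [mul_le_mul_of_nonneg_right this P0, mul_nonneg he.le (sq_nonneg b),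
        mul_le_mul_of_nonneg_right (show η ≤ e by linarith) A0]
    · rw [dv, dv]
      have c1 := hS Ω ι w φ hw K K' η b K0.le K'0 η0 g hB
      have c2 := mul_le_mul_of_nonneg_left (sq_psi_le hW ha ⟨le_rfl, b1⟩ a3 hB)
        (show 0 ≤ 1 + η by positivity)
      have c3 : 100 * (5 + η⁻¹) * (Fintype.card ι : ℝ) ^ 2 * (K ^ 2 / K') ≤ η := by
        have : (Fintype.card ι : ℝ) ≤ m := by exact_mod_cast hm
        rw [div_le_iff₀' η0] at b3
        rw [← mul_div_assoc, div_le_iff₀ K'0]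
        exact le_trans (by gcongr) b3
      have c4 := mul_le_mul_of_nonneg_right c3 (sq_nonneg b)
      have c5 := mul_le_mul_of_nonneg_right (num η0.le η1 ηe).1 A0
      have c6 := mul_le_mul_of_nonneg_right (num η0.le η1 ηe).2 (sq_nonneg b)
      linarith

end Crest.Agent.T157.Cq.Dc

end
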