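import Crest.Agent.T157.CqDef_72

/-!
# Row 157, part C: the leaves of `Cq.DiscGlue` (helper34)

The soft sphere is conditioned on a ball (`CondL`), rounded to a grid (`GridL`), the covariance
bounds (`PiL`) and the exponential moments of the overlap (`MgfL`) give the bad-event moments of
the finite approximant (`PbL`), and two static chains of a finite law are compared through their
forms (`SmL`, `CoreL`).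
-/

set_option autoImplicit false

noncomputable section

namespace Crest.Agent.T157.Cq.Dc

open MeasureTheory ProbabilityTheory Matrix Filter Topology Finset Real
open Crest.Agent.T157.St Crest.Agent.T157.Ed
open Crest.Agent.T157.Sp (OffY pst)
open Crest.Agent.T157.Tr (pb psi)

/-- covariance bound off a set of outputs -/
def Hy {ι : Type*} [Fintype ι] (μ : Measure (ι → ℝ)) (r a p : ℝ) : Prop :=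
  OffY r μ p fun y => Sp.CovB (pst r μ y) a

/-- exponential moment of the overlap, as a Lebesgue integral -/
def Xl {ι : Type*} [Fintype ι] (θ : ℝ) (μ : Measure (ι → ℝ)) : ENNReal :=
  ∫⁻ x, ∫⁻ x', ENNReal.ofReal (exp (θ * (x ⬝ᵥ x'))) ∂μ ∂μ

/-- closed ball -/
def Bl (ι : Type*) [Fintype ι] (ϱ : ℝ) : Set (ι → ℝ) := {x | x ⬝ᵥ x ≤ ϱ}

/-- exponential moments of the overlap of the soft sphere -/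
def MgfL : Prop := ∀ L C : ℝ, 0 ≤ L → ∃ w₂ : ℝ, ∀ w, w₂ ≤ w → ∃ B : ℝ, 1 ≤ B ∧
  ∀ᶠ n in atTop, ∀ η, Gd n η (sx n ^ 2) L w C → IsProbabilityMeasure (piS n η) ∧
    Integrable (fun x => (x ⬝ᵥ x) ^ 4) (piS n η) ∧
    ∀ θ : ℝ, |θ| ≤ (n : ℝ) ^ 4 →
      Xl θ (piS n η) ≤ ENNReal.ofReal (B * exp (B * |θ| ^ (3 / 2 : ℝ)))

/-- the posterior covariance of the soft sphere in power form -/
def PiL : Prop := Sp.SWinStmt → Sp.LargeStmt → ∀ L C : ℝ, 0 ≤ L → ∃ w₂ : ℝ, ∀ w, w₂ ≤ w →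
  ∃ B K : ℝ, 1 ≤ B ∧ 1 ≤ K ∧ ∀ᶠ n in atTop, ∀ η, Gd n η (sx n ^ 2) L w C → ∀ r, K ≤ r →
    Hy (piS n η) r ((1 + B * r ^ (-(1 / 36) : ℝ)) / r)
      (if r ≤ (n : ℝ) ^ 3 then B * r ^ (-14 : ℝ) else 0)

/-- conditioning on a ball -/
def CondL : Prop := ∀ (ι : Type) [Fintype ι] (μ : Measure (ι → ℝ)) (ϱ q : ℝ),
  IsProbabilityMeasure μ → μ.real (Bl ι ϱ)ᶜ ≤ q → q ≤ 1 / 2 →
    IsProbabilityMeasure (μ[|Bl ι ϱ]) ∧ (∀ᵐ x ∂μ[|Bl ι ϱ], x ⬝ᵥ x ≤ ϱ) ∧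
    (∀ θ X : ℝ, 0 ≤ X → Xl θ μ ≤ ENNReal.ofReal X → Xk θ (μ[|Bl ι ϱ]) (μ[|Bl ι ϱ]) ≤ 4 * X) ∧
    ∀ r a p τ : ℝ, 0 < r → 0 ≤ a → 0 ≤ p → 0 < τ → τ ≤ 1 / 2 → Hy μ r a p →
      Hy (μ[|Bl ι ϱ]) r ((1 + 2 * τ) * a) (2 * p + 2 * q / τ)

/-- rounding to a grid -/
def GridL : Prop := ∀ (ι : Type) [Fintype ι] (μ : Measure (ι → ℝ)) (ϱ T s : ℝ),
  IsProbabilityMeasure μ → (∀ᵐ x ∂μ, x ⬝ᵥ x ≤ ϱ) → 0 ≤ T → 0 < s →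
  ∃ (N : ℕ) (w : Fin (N + 1) → ℝ) (φ : Fin (N + 1) → ι → ℝ), (∀ x, 0 < w x) ∧
    (∀ x, φ x ⬝ᵥ φ x ≤ ϱ + 1) ∧
    (∀ θ, |θ| ≤ T → Xk θ (dm w φ) (dm w φ) ≤ 2 * Xk θ μ μ ∧ D2 θ μ (dm w φ) ≤ s) ∧
    ∀ r a p : ℝ, 0 < r → r ≤ T → 0 ≤ a → a ≤ T → 0 ≤ p → Hy μ r a p →
      Hy (dm w φ) r (a + s) (2 * p + s)

/-- moments of the bad event -/
def PbL : Prop := ∀ B : ℝ, 1 ≤ B → ∃ D : ℝ, 1 ≤ D ∧
  ∀ (Ω ι : Type) [Fintype Ω] [Nonempty Ω] [Fintype ι] [DecidableEq ι] (w : Ω → ℝ)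
    (φ : Ω → ι → ℝ) (ε : ℝ → ℝ) (r p : ℝ), (∀ x, 0 < w x) → 1 ≤ r → 0 ≤ p → 0 ≤ ε r →
    Hy (dm w φ) r ((1 + ε r) / r) p →
    (∀ ϱ, (∀ x, φ x ⬝ᵥ φ x ≤ ϱ) → pb φ w ε 3 r ≤ (1 + r * ϱ) ^ 3 * p) ∧
    ((∀ θ : ℝ, |θ| ≤ 3 * r → Xk θ (dm w φ) (dm w φ) ≤ B * exp (B * |θ| ^ (3 / 2 : ℝ))) →
      pb φ w ε 3 r ≤ D * r ^ 5 * √p)

/-- the form of a fine channel on a smoothed function -/
def SmL : Prop := ∀ (Ω ι : Type) [Fintype Ω] [Nonempty Ω] [DecidableEq Ω] [Fintype ι]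
  [DecidableEq ι] (w : Ω → ℝ) (φ : Ω → ι → ℝ) (hw : ∀ x, 0 < w x) (K K' e b : ℝ) (hK : 0 ≤ K),
    0 < K' → 0 < e → ∀ g : Unit → Ω → ℝ, (∀ x, ∑ a, g a x ^ 2 ≤ b ^ 2) →
    K' * Tr.Ph φ w (fun a => (Sg.stRC φ hw hK).P *ᵥ g a) K' ≤ (1 + e) * (K ^ 2 * psi φ w g K) +
      100 * (5 + e⁻¹) * (Fintype.card ι) ^ 2 * (K ^ 2 / K') * b ^ 2

/-- two static chains of a finite law -/
def CoreL : Prop := ∀ r₁ r₂ δ D c : ℝ, 0 < r₁ → 0 < δ → 0 < D → 0 < c → ∃ K₀ : ℝ, 1 ≤ K₀ ∧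
  ∀ K, K₀ ≤ K → ∀ m : ℕ, ∀ᶠ K' in atTop, ∀ (Ω ι : Type) [Fintype Ω] [Nonempty Ω] [DecidableEq Ω]
    [Fintype ι] [DecidableEq ι] (w : Ω → ℝ) (φ : Ω → ι → ℝ), (∀ x, 0 < w x) →
    Fintype.card ι ≤ m →
    (∀ r ∈ Set.Icc K K', pb φ w (fun u => D * u ^ (-c)) 3 r ≤ D * r ^ (-2 : ℝ)) →
    ∀ f : (ι → ℝ) → ℝ, (∀ x, |f x| ≤ 1) → ∀ r ∈ Set.Icc r₁ r₂,
      ∫ x, (Qs K (K * r) (dm w φ) f x - Qs K' (K' * r) (dm w φ) f x) ^ 2 ∂dm w φ ≤ δ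

def CoreGlue : Prop := SmL → CoreL

def FinGlue : Prop := MgfL → PiL → CondL → GridL → PbL → CoreL → DiscGlue

end Crest.Agent.T157.Cq.Dc

end
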