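import Crest.Agent.T157.CqDiscDef_34

/-!
# Row 157, part C: `Dc.finGlue`, the assembly of `Cq.DiscGlue` (helper34)
-/

set_option autoImplicit false
set_option linter.unusedSectionVars false

noncomputable section

namespace Crest.Agent.T157.Cq.Dc

open MeasureTheory ProbabilityTheory Matrix Filter Topology Finset Real
open Crest.Agent.T157.St Crest.Agent.T157.Ed
open Crest.Agent.T157.Tr (pb)

namespace Fin34

variable {ι : Type} [Fintype ι] {μ : Measure (ι → ℝ)}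

lemma Hy.mono {r a a' p p' : ℝ} (h : Hy μ r a p) (ha : a ≤ a') (hp : p ≤ p') : Hy μ r a' p' := by
  obtain ⟨A, h1, h2, h3⟩ := h
  exact ⟨A, h1, h2.trans (ENNReal.ofReal_le_ofReal hp), fun y hy v => ⟨(h3 y hy v).1,
    (h3 y hy v).2.trans (mul_le_mul_of_nonneg_right ha (Finset.sum_nonneg fun i _ => mul_self_nonneg (v i)))⟩⟩

lemma meas_Bl (ϱ : ℝ) : MeasurableSet (Bl ι ϱ) := measurableSet_le (by fun_prop) measurable_const

/-- the tail beats a cubic factor -/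
lemma tail [IsProbabilityMeasure μ] (h : Integrable (fun x => (x ⬝ᵥ x) ^ 4) μ) {A η : ℝ}
    (hA : 0 ≤ A) (hη : 0 < η) :
    ∃ ϱ : ℝ, 1 ≤ ϱ ∧ (1 + A * (ϱ + 1)) ^ 3 * μ.real (Bl ι ϱ)ᶜ ≤ η := by
  set M := ∫ x, (x ⬝ᵥ x) ^ 4 ∂μ with hM
  have M0 : 0 ≤ M := integral_nonneg fun x => by positivity
  set ϱ := 1 + (1 + 2 * A) ^ 3 * M / η with hϱ
  have h1 : 1 ≤ ϱ := le_add_of_nonneg_right (by positivity)
  have h2 : ϱ ^ 4 * μ.real (Bl ι ϱ)ᶜ ≤ M := by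
    refine le_trans (mul_le_mul_of_nonneg_left (measureReal_mono fun x hx => ?_) (by positivity))
      (mul_meas_ge_le_integral_of_nonneg (.of_forall fun x => by positivity) h (ϱ ^ 4))
    exact pow_le_pow_left₀ (zero_le_one.trans h1) (le_of_lt (not_le.1 fun h => hx h)) 4
  refine ⟨ϱ, h1, ?_⟩
  have h3 : (1 + A * (ϱ + 1)) ^ 3 ≤ ((1 + 2 * A) * ϱ) ^ 3 :=
    pow_le_pow_left₀ (by positivity) (by nlinarith) 3
  have h4 : (1 + 2 * A) ^ 3 * M ≤ η * ϱ := by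
    rw [hϱ, mul_add, mul_div_cancel₀ _ hη.ne']; linarith
  refine (mul_le_mul_of_nonneg_right h3 measureReal_nonneg).trans
    (le_of_mul_le_mul_right ?_ (show 0 < ϱ by positivity))
  calc _ = (1 + 2 * A) ^ 3 * (ϱ ^ 4 * μ.real (Bl ι ϱ)ᶜ) := by ring
    _ ≤ (1 + 2 * A) ^ 3 * M := by gcongr
    _ ≤ _ := h4

/-- powers on `[1, K']` -/
lemma pows {r K' : ℝ} (h1 : 1 ≤ r) (h2 : r ≤ K') :
    K' ^ (-14 : ℝ) ≤ r ^ (-14 : ℝ) ∧ r ^ (-14 : ℝ) ≤ r ^ (-2 : ℝ) ∧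
    r ^ (-14 : ℝ) * r ≤ r ^ (-(1 / 36) : ℝ) ∧ K' ^ (-(1 / 36) : ℝ) ≤ r ^ (-(1 / 36) : ℝ) ∧
    r ^ (-(1 / 36) : ℝ) ≤ 1 ∧ r ^ 5 * √(r ^ (-14 : ℝ)) = r ^ (-2 : ℝ) := by
  have h0 : 0 < r := by linarith
  refine ⟨rpow_le_rpow_of_nonpos h0 h2 (by norm_num),
    rpow_le_rpow_of_exponent_le h1 (by norm_num), ?_,
    rpow_le_rpow_of_nonpos h0 h2 (by norm_num), rpow_le_one_of_one_le_of_nonpos h1 (by norm_num), ?_⟩
  · rw [← rpow_add_one h0.ne']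
    exact rpow_le_rpow_of_exponent_le h1 (by norm_num)
  · rw [sqrt_eq_rpow, ← rpow_mul h0.le, ← rpow_natCast, ← rpow_add h0]
    norm_num

/-- the finite approximant -/
lemma apx [DecidableEq ι] (hC : CondL) (hG : GridL) {B₁ B₂ D₀ N K K' q₀ : ℝ} (b1 : 1 ≤ B₁)
    (b2 : 1 ≤ B₂) (d0 : 1 ≤ D₀)
    (hP : ∀ (Ω : Type) [Fintype Ω] [Nonempty Ω] (w : Ω → ℝ)
      (φ : Ω → ι → ℝ) (ε : ℝ → ℝ) (r p : ℝ), (∀ x, 0 < w x) → 1 ≤ r → 0 ≤ p → 0 ≤ ε r →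
      Hy (dm w φ) r ((1 + ε r) / r) p →
      (∀ ϱ, (∀ x, φ x ⬝ᵥ φ x ≤ ϱ) → pb φ w ε 3 r ≤ (1 + r * ϱ) ^ 3 * p) ∧
      ((∀ θ : ℝ, |θ| ≤ 3 * r →
        Xk θ (dm w φ) (dm w φ) ≤ 8 * B₁ * exp (8 * B₁ * |θ| ^ (3 / 2 : ℝ))) →
        pb φ w ε 3 r ≤ D₀ * r ^ 5 * √p))
    [IsProbabilityMeasure μ] (h4 : Integrable (fun x => (x ⬝ᵥ x) ^ 4) μ)
    (hM : ∀ θ : ℝ, |θ| ≤ 3 * N → Xl θ μ ≤ ENNReal.ofReal (B₁ * exp (B₁ * |θ| ^ (3 / 2 : ℝ))))
    (hH : ∀ r, K ≤ r → Hy μ r ((1 + B₂ * r ^ (-(1 / 36) : ℝ)) / r)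
      (if r ≤ N then B₂ * r ^ (-14 : ℝ) else 0)) (k1 : 1 ≤ K) (k2 : K ≤ K') (hq : 0 < q₀) :
    ∃ ϱ : ℝ, μ.real (Bl ι ϱ)ᶜ ≤ q₀ ∧ μ.real (Bl ι ϱ)ᶜ ≤ 1 / 2 ∧ Cp (μ[|Bl ι ϱ]) ∧
      ∀ θ s₀ : ℝ, 0 ≤ θ → 0 < s₀ → ∃ (m : ℕ) (w : Fin (m + 1) → ℝ) (φ : Fin (m + 1) → ι → ℝ),
        (∀ x, 0 < w x) ∧ Xk θ (dm w φ) (dm w φ) ≤ 2 * Xk θ (μ[|Bl ι ϱ]) (μ[|Bl ι ϱ]) ∧
        D2 θ (μ[|Bl ι ϱ]) (dm w φ) ≤ s₀ ∧ ∀ r ∈ Set.Icc K K',
          pb φ w (fun u => 5 * B₂ * D₀ * u ^ (-(1 / 36) : ℝ)) 3 r ≤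
            5 * B₂ * D₀ * r ^ (-2 : ℝ) := by
  have k0 : 0 < K' := by linarith
  set τ := K' ^ (-(1 / 36) : ℝ) / 2 with hτ
  set κ := K' ^ (-14 : ℝ) with hκ
  have τ0 : 0 < τ := by positivity
  have κ0 : 0 < κ := by positivity
  have τ1 : τ ≤ 1 / 2 := by
    have := (pows (k1.trans k2) le_rfl).2.2.2.2.1
    linarith
  obtain ⟨ϱ, ϱ1, hϱ⟩ := tail h4 k0.le (show 0 < min (τ * κ / 8) (min q₀ (1 / 2)) by positivity)
  set P := (1 + K' * (ϱ + 1)) ^ 3 with hPd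
  set q := μ.real (Bl ι ϱ)ᶜ with hqd
  have P1 : 1 ≤ P := one_le_pow₀ (le_add_of_nonneg_right (by positivity))
  have q0 : 0 ≤ q := measureReal_nonneg
  have q1 : q ≤ min q₀ (1 / 2) :=
    (le_mul_of_one_le_left q0 P1).trans (hϱ.trans (min_le_right _ _))
  have q2 : P * q ≤ τ * κ / 8 := hϱ.trans (min_le_left _ _)
  obtain ⟨c1, c2, c3, c4⟩ := hC ι μ ϱ q inferInstance le_rfl (q1.trans (min_le_right _ _))
  refine ⟨ϱ, q1.trans (min_le_left _ _), q1.trans (min_le_right _ _), ⟨c1, ϱ, c2⟩,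
    fun θ s₀ θ0 s0 => ?_⟩
  set s := min s₀ (κ / (2 * P)) with hs
  have s1 : 0 < s := by positivity
  have s2 : P * s ≤ κ / 2 := (mul_le_mul_of_nonneg_left (min_le_right _ _) (by positivity)).trans_eq
    (by field_simp)
  obtain ⟨m, w, φ, hw, g1, g2, g3⟩ := hG ι _ ϱ (θ + 3 * K' + 2 * (1 + B₂)) s c1 c2 (by positivity) s1
  have g4 := g2 θ (by rw [abs_of_nonneg θ0]; linarith)
  refine ⟨m, w, φ, hw, g4.1, g4.2.trans (min_le_left _ _), fun r hr => ?_⟩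
  have r1 : 1 ≤ r := k1.trans hr.1
  have r0 : 0 < r := by linarith
  obtain ⟨p1, p2, p3, p4, p5, p6⟩ := pows r1 hr.2
  set ρ := r ^ (-(1 / 36) : ℝ) with hρ
  set p := if r ≤ N then B₂ * r ^ (-14 : ℝ) else 0 with hp
  have ρ0 : 0 < ρ := by positivity
  have p0 : 0 ≤ p := by rw [hp]; split_ifs <;> positivity
  have a0 : 0 ≤ (1 + B₂ * ρ) / r := by positivity
  have a2 : 1 + B₂ * ρ ≤ 1 + B₂ := add_le_add le_rfl (mul_le_of_le_one_right (by positivity) p5)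
  have a1 : (1 + B₂ * ρ) / r ≤ 1 + B₂ := (div_le_self (by positivity) r1).trans a2
  have σ1 : P * (4 * q / τ + s) ≤ κ := by
    have : P * (4 * q / τ) ≤ κ / 2 := by
      rw [← mul_div_assoc, div_le_iff₀ τ0]; linarith
    linarith
  have σ0 : 0 ≤ 4 * q / τ + s := by positivity
  have σ2 : 4 * q / τ + s ≤ κ := (le_mul_of_one_le_left σ0 P1).trans σ1
  have bd : B₂ ≤ B₂ * D₀ := le_mul_of_one_le_right (by linarith) d0
  have h1 := g3 r _ _ r0 (by linarith [hr.2]) (by positivity)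
    ((mul_le_mul (show 1 + 2 * τ ≤ 2 by linarith) a1 a0 zero_le_two).trans (by linarith))
    (by positivity)
    (c4 r _ _ τ r0 a0 p0 τ0 τ1 (hH r hr.1))
  have h2 : Hy (dm w φ) r ((1 + 5 * B₂ * D₀ * ρ) / r) (4 * p + (4 * q / τ + s)) := by
    refine Hy.mono h1 ?_ (le_of_eq (by ring))
    rw [← mul_div_assoc, div_add' _ _ _ r0.ne']
    refine div_le_div_of_nonneg_right ?_ r0.le
    have e1 : s * r ≤ ρ := by
      refine le_trans (mul_le_mul_of_nonneg_right ?_ r0.le) p3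
      have : 0 ≤ 4 * q / τ := by positivity
      linarith
    have e2 : 2 * τ * (1 + B₂ * ρ) ≤ ρ * (1 + B₂) :=
      mul_le_mul (by linarith) a2 (by positivity) ρ0.le
    have e3 : (2 * B₂ + 2) * ρ ≤ 5 * B₂ * D₀ * ρ :=
      mul_le_mul_of_nonneg_right (by linarith) ρ0.le
    linarith
  obtain ⟨h3, h5⟩ := hP _ w φ (fun u => 5 * B₂ * D₀ * u ^ (-(1 / 36) : ℝ)) r _ hw r1 (by positivity)
    (by positivity) h2
  have r2 : 0 ≤ r ^ (-2 : ℝ) := by positivity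
  by_cases hN : r ≤ N
  · refine (h5 fun θ' h' => ?_).trans ?_
    · have h6 := c3 θ' _ (by positivity) (hM θ' (by linarith))
      have h7 : exp (B₁ * |θ'| ^ (3 / 2 : ℝ)) ≤ exp (8 * B₁ * |θ'| ^ (3 / 2 : ℝ)) := by
        gcongr; linarith
      refine ((g2 θ' (by linarith [hr.2])).1.trans (by linarith)).trans
        (mul_le_mul_of_nonneg_left h7 (by positivity))
    · have h6 : √(4 * p + (4 * q / τ + s)) ≤ 5 * B₂ * √(r ^ (-14 : ℝ)) := by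
        have : 0 ≤ r ^ (-14 : ℝ) := by positivity
        refine sqrt_le_iff.2 ⟨by positivity, ?_⟩
        rw [mul_pow, sq_sqrt this, hp, if_pos hN]
        have e : 4 * B₂ + 1 ≤ (5 * B₂) ^ 2 :=
          (show 4 * B₂ + 1 ≤ 5 * B₂ by linarith).trans (le_self_pow₀ (by linarith) two_ne_zero)
        linarith [mul_le_mul_of_nonneg_right e this]
      calc _ ≤ D₀ * r ^ 5 * (5 * B₂ * √(r ^ (-14 : ℝ))) := by gcongr
        _ = _ := by rw [← p6]; ring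
  · refine (h3 _ g1).trans ?_
    rw [hp, if_neg hN, mul_zero, zero_add]
    calc _ ≤ P * (4 * q / τ + s) := by rw [hPd]; gcongr; exact hr.2
      _ ≤ r ^ (-2 : ℝ) := σ1.trans (p1.trans p2)
      _ ≤ _ := le_mul_of_one_le_left r2 (by linarith)

lemma int_le_cond [IsProbabilityMeasure μ] {A : Set (ι → ℝ)} (hA : MeasurableSet A)
    (h : μ.real Aᶜ ≤ 1 / 2) {G : (ι → ℝ) → ℝ} (hG : Measurable G) (h0 : ∀ x, 0 ≤ G x)
    (h2 : ∀ x, G x ≤ 2) : ∫ x, G x ∂μ ≤ ∫ x, G x ∂μ[|A] + 2 * μ.real Aᶜ := by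
  have i : Integrable G μ := (integrable_const (2 : ℝ)).mono' hG.aestronglyMeasurable
    (.of_forall fun x => by rw [Real.norm_of_nonneg (h0 x)]; exact h2 x)
  have h3 : 1 / 2 ≤ μ.real A := by
    rw [measureReal_compl hA, probReal_univ] at h; linarith
  rw [← integral_add_compl hA i, ProbabilityTheory.cond, integral_smul_measure, ENNReal.toReal_inv, smul_eq_mul]
  refine add_le_add (le_mul_of_one_le_left (integral_nonneg h0) ?_) ?_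
  · exact (one_le_inv₀ (lt_of_lt_of_le (by norm_num) h3)).2 measureReal_le_one
  · refine (setIntegral_mono i.integrableOn (integrable_const (2 : ℝ)).integrableOn h2).trans_eq ?_
    simp [mul_comm]

/-- the squared difference as a static expression -/
def sE (K c K' c' : ℝ) : SE :=
  .mul (.add (.Q K c .var) (.mul (.const (-1)) (.Q K' c' .var)))
    (.add (.Q K c .var) (.mul (.const (-1)) (.Q K' c' .var)))

lemma mk_sE (ν : Measure (ι → ℝ)) (v : (ι → ℝ) → ℝ) (K c K' c' : ℝ) :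
    mk ν 0 0 ((sE K c K' c').ev ν v) = ∫ x, (Qs K c ν v x - Qs K' c' ν v x) ^ 2 ∂ν := by
  refine integral_congr_ae (.of_forall fun x => ?_)
  simp only [cut, zero_mul, sub_zero, smoothTransition.one_of_one_le one_le_two, sE, SE.ev]
  ring

lemma b1_Qs (hB : BdStmt) (ν : Measure (ι → ℝ)) [IsProbabilityMeasure ν] {v : (ι → ℝ) → ℝ}
    (hv : B1 v) {K c : ℝ} (hK : 0 < K) (hc : 0 ≤ c) : B1 (Qs K c ν v) :=
  (hB ι ν inferInstance).2 v hv (.Q K c .var) ⟨hK, hc, trivial⟩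

lemma B1.int {ν : Measure (ι → ℝ)} [IsProbabilityMeasure ν] {u v : (ι → ℝ) → ℝ} (hu : B1 u)
    (hv : B1 v) : Integrable (fun x => |u x - v x|) ν :=
  (integrable_const (2 : ℝ)).mono' (hu.1.sub hv.1).abs.aestronglyMeasurable (.of_forall fun x => by
    rw [Real.norm_of_nonneg (abs_nonneg _)]
    linarith [abs_sub (u x) (v x), hu.2 x, hv.2 x])

lemma l1_le {ν : Measure (ι → ℝ)} [IsProbabilityMeasure ν] {u v : (ι → ℝ) → ℝ} (hu : B1 u)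
    (hv : B1 v) {a : ℝ} (ha : 0 < a) (h : ∫ x, (u x - v x) ^ 2 ∂ν ≤ a ^ 2) :
    ∫ x, |u x - v x| ∂ν ≤ a := by
  have i : Integrable (fun x => (u x - v x) ^ 2) ν :=
    (integrable_const (4 : ℝ)).mono' ((hu.1.sub hv.1).pow_const 2).aestronglyMeasurable
      (.of_forall fun x => by
        rw [Real.norm_of_nonneg (sq_nonneg _), ← sq_abs]
        nlinarith [abs_sub (u x) (v x), hu.2 x, hv.2 x, abs_nonneg (u x - v x)])
  have h1 : ∫ x, |u x - v x| ∂ν ≤ ∫ x, (a / 2 + (2 * a)⁻¹ * (u x - v x) ^ 2) ∂ν :=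
    integral_mono (B1.int hu hv) ((integrable_const _).add (i.const_mul _)) fun x => by
      have e : a / 2 + (2 * a)⁻¹ * (u x - v x) ^ 2 - |u x - v x| =
          (2 * a)⁻¹ * (|u x - v x| - a) ^ 2 := by rw [← sq_abs (u x - v x)]; field_simp; ring
      have : 0 ≤ (2 * a)⁻¹ * (|u x - v x| - a) ^ 2 := by positivity
      show |u x - v x| ≤ _
      linarith
  rw [integral_add (integrable_const _) (i.const_mul _), integral_const_mul] at h1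
  have h2 : (2 * a)⁻¹ * ∫ x, (u x - v x) ^ 2 ∂ν ≤ a / 2 :=
    (mul_le_mul_of_nonneg_left h (by positivity)).trans_eq (by field_simp)
  simp only [integral_const, probReal_univ, smul_eq_mul, one_mul] at h1
  linarith

lemma fin_le [IsProbabilityMeasure μ] {A : Set (ι → ℝ)} [IsProbabilityMeasure (μ[|A])]
    (hA : MeasurableSet A) (h : μ.real Aᶜ ≤ 1 / 2) {u u' v v' : (ι → ℝ) → ℝ} (a1 : B1 u)
    (a2 : B1 u') (a3 : B1 v) (a4 : B1 v') {a c c' : ℝ} (ha : 0 < a) (c0 : 0 ≤ c) (c0' : 0 ≤ c')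
    (h1 : ∫ x, (v x - v' x) ^ 2 ∂μ[|A] ≤ a ^ 2)
    (h4 : ∫ x, |u x - v x| ∂μ[|A] ≤ 8 * c * μ.real Aᶜ)
    (h5 : ∫ x, |u' x - v' x| ∂μ[|A] ≤ 8 * c' * μ.real Aᶜ)
    (q1 : μ.real Aᶜ ≤ a / (8 * c + 8 * c' + 2)) : ∫ x, |u x - u' x| ∂μ ≤ 2 * a := by
  have h3 := l1_le a3 a4 ha h1
  have h6 := int_le_cond hA h (G := fun x => |u x - u' x|) (a1.1.sub a2.1).abs
    (fun x => abs_nonneg _) fun x => by linarith [abs_sub (u x) (u' x), a1.2 x, a2.2 x]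
  have h7 : ∫ x, |u x - u' x| ∂μ[|A] ≤ ∫ x, (|u x - v x| + |v x - v' x| + |u' x - v' x|) ∂μ[|A] :=
    integral_mono (B1.int a1 a2) (((B1.int a1 a3).add (B1.int a3 a4)).add (B1.int a2 a4)) fun x => by
      have e1 := abs_sub_le (u x) (v x) (u' x)
      have e2 := abs_sub_le (v x) (v' x) (u' x)
      rw [abs_sub_comm (v' x)] at e2
      show _ ≤ _ + _ + _
      linarith
  rw [integral_add (f := fun x => |u x - v x| + |v x - v' x|) ((B1.int a1 a3).add (B1.int a3 a4))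
    (B1.int a2 a4), integral_add (B1.int a1 a3) (B1.int a3 a4)] at h7
  rw [le_div_iff₀ (by positivity)] at q1
  linarith

end Fin34

open Fin34

theorem finGlue : FinGlue := by
  intro hM hP hC hG hPb hCo hB hS hT hW hL L C L0
  obtain ⟨w₁, hM⟩ := hM L C L0
  obtain ⟨w₂, hP⟩ := hP hW hL L C L0
  refine ⟨max w₁ w₂, fun w hw r₁ r₂ δ r0 δ0 => ?_⟩
  obtain ⟨B₁, b1, hM⟩ := hM w ((le_max_left _ _).trans hw)
  obtain ⟨B₂, K₂, b2, k2, hP⟩ := hP w ((le_max_right _ _).trans hw)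
  obtain ⟨D₀, d0, hPb⟩ := hPb (8 * B₁) (by linarith)
  obtain ⟨K₀, k0, hCo⟩ := hCo r₁ r₂ ((δ / 2) ^ 2 / 2) (5 * B₂ * D₀) (1 / 36) r0 (by positivity)
    (by positivity) (by norm_num)
  refine ⟨max K₀ K₂, by positivity, fun K hK => ?_⟩
  have k1 : 1 ≤ K := k0.trans ((le_max_left _ _).trans hK)
  filter_upwards [hM, hP, eventually_ge_atTop 3] with n hM hP hn η hη
  obtain ⟨m1, m2, m3⟩ := hM η hη.1
  filter_upwards [hCo K ((le_max_left _ _).trans hK) n, eventually_ge_atTop K] with K' hCo hK' K₁ φ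
    K1 hφ r hr
  have K0 : 0 < K := by linarith
  have K0' : 0 < K' := by linarith
  have r1 : 0 < r := r0.trans_le hr.1
  have c0 : 0 ≤ K * r := by positivity
  have c0' : 0 ≤ K' * r := by positivity
  have n3 : (3 : ℝ) ≤ n := by exact_mod_cast hn
  obtain ⟨ϱ, q1, q2, cp, H⟩ := apx (N := (n : ℝ) ^ 3) hC hG b1 b2 d0 (fun Ω _ _ => hPb Ω (Fin n)) m2
    (fun θ h => m3 θ (h.trans (by rw [pow_succ' _ 3]; gcongr)))
    (fun r h => hP η hη.1 r (((le_max_right _ _).trans hK).trans h)) k1 hK'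
    (show 0 < δ / 2 / (8 * (K * r) + 8 * (K' * r) + 2) by positivity)
  set ν := (piS n η)[|Bl (Fin n) ϱ] with hν
  have := cp.prob
  have hv := (hB (Fin n) ν inferInstance).1 K₁ φ K1 hφ
  set v := Sm K₁ φ with hvd
  obtain ⟨θ, θ0, hS⟩ := hS (max (sE K (K * r) K' (K' * r)).sz K₁) ((δ / 2) ^ 2 / 2) (by positivity)
  obtain ⟨s₀, s0, hS⟩ := hS (2 * |Xk θ ν ν|)
  obtain ⟨m, u, ψ, hu, x1, x2, x3⟩ := H θ s₀ θ0 s0
  have z0 : (0 : ℝ) ≤ max (sE K (K * r) K' (K' * r)).sz K₁ := K1.le.trans (le_max_right _ _)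
  have h1 := hS (Fin n) ν (dm u ψ) cp (Lnk10.cp_dm hu ψ)
    ((le_abs_self _).trans (le_mul_of_one_le_left (abs_nonneg _) one_le_two))
    (x1.trans (mul_le_mul_of_nonneg_left (le_abs_self _) zero_le_two)) x2 0 0 K₁ φ (sE K (K * r) K' (K' * r)) PosSemidef.zero
    (by rwa [trace_zero]) le_rfl z0 K1 (le_max_right _ _) hφ
    ⟨⟨⟨K0, c0, trivial⟩, trivial, K0', c0', trivial⟩, ⟨K0, c0, trivial⟩, trivial, K0', c0', trivial⟩
    (le_max_left _ _)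
  rw [mk_sE, mk_sE] at h1
  have h2 := hCo _ (Fin n) u ψ hu (Fintype.card_fin n).le x3 v hv.2 r hr
  rw [← mul_div_cancel₀ δ two_ne_zero]
  exact fin_le (meas_Bl ϱ) q2 (b1_Qs hB (piS n η) hv K0 c0) (b1_Qs hB (piS n η) hv K0' c0')
    (b1_Qs hB ν hv K0 c0) (b1_Qs hB ν hv K0' c0') (half_pos δ0) c0 c0'
    ((sub_le_iff_le_add.1 (le_of_abs_le h1)).trans ((add_le_add le_rfl h2).trans_eq (add_halves _)))
    (hT (Fin n) (piS n η) _ _ K _ m1 (meas_Bl ϱ) le_rfl q2 K0 c0 v hv)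
    (hT (Fin n) (piS n η) _ _ K' _ m1 (meas_Bl ϱ) le_rfl q2 K0' c0' v hv) q1

end Crest.Agent.T157.Cq.Dc

end
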