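import Crest.Agent.T157.SLE_23
import Crest.Agent.T157.EntE_34

/-!
# Row 157, part C2 (helper77): the shift lemma

`Pm φ t Ψ x = E[Ψ(X, y_t) | X = x]`.  The heat-bath energy of `Pm φ t Ψ` is bounded by the mean
posterior energy of `Ψ` and the mean square distance of `Ψ` to any function of `X`.
-/

set_option autoImplicit false
set_option linter.unusedSectionVars false

noncomputable section

namespace Crest.Agent.T157.Rec

open MeasureTheory ProbabilityTheory Filter Topology Set Real Matrix Function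
open Crest.Agent.T157.E Crest.Agent.T157.SL

section gauss
variable {ι : Type*} [Fintype ι] [DecidableEq ι] {F G : (ι → ℝ) → ℝ}

/-- the Cameron–Martin density -/
def eh (h z : ι → ℝ) : ℝ := exp (z ⬝ᵥ h - h ⬝ᵥ h / 2)

theorem mg_coord (i : ι) : MG fun z : ι → ℝ => z i := (EG.coord (I := univ) i).mg (mem_univ 0)

theorem mg_sq (h : MG F) : MG fun z => F z ^ 2 := by simpa only [sq] using h.mul h

theorem mg_eh (h : ι → ℝ) : MG (eh h) := by
  refine ⟨by unfold eh; fun_prop, 1, ∑ i, |h i|, zero_le_one, by positivity, fun z => ?_⟩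
  rw [eh, abs_of_pos (exp_pos _), one_mul, exp_le_exp, Finset.sum_mul]
  refine (sub_le_self _ (by have := dot_self_nonneg h; positivity)).trans
    (Finset.sum_le_sum fun i _ => ?_)
  rw [mul_comm (|h i|)]
  exact (le_abs_self _).trans (by
    rw [abs_mul]; exact mul_le_mul_of_nonneg_right (norm_le_pi_norm z i) (abs_nonneg _))

theorem int_shift (h : ι → ℝ) (F : (ι → ℝ) → ℝ) :
    ∫ z, F (h + z) ∂Gs ι = ∫ z, F z * eh h z ∂Gs ι := by
  rw [cm]; simp only [eh, mul_comm]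

theorem int_eh (h : ι → ℝ) : ∫ z, eh h z ∂Gs ι = 1 := by
  simpa using (int_shift h fun _ => 1).symm

theorem int_eh_mul (h k : ι → ℝ) : ∫ z, eh h z * eh k z ∂Gs ι = exp (h ⬝ᵥ k) := by
  rw [← int_shift k (eh h)]
  have : ∀ z, eh h (k + z) = exp (h ⬝ᵥ k) * eh h z := fun z => by
    rw [eh, eh, ← exp_add, add_dotProduct, dotProduct_comm k h, add_sub_assoc]
  simp only [this, integral_const_mul, int_eh, mul_one]

theorem int_coord (i : ι) : ∫ z, z i ∂Gs ι = 0 := by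
  simpa using stein (I := univ) (G := fun _ : Pt ι => (1 : ℝ)) (H := fun _ => 0) (.const 1) (.const 0)
    (mem_univ 0) i fun y => hasDerivAt_const _ _

theorem int_coord_mul (i j : ι) : ∫ z, z i * z j ∂Gs ι = if i = j then 1 else 0 := by
  have := stein (I := univ) (G := fun p : Pt ι => p.2 j) (H := fun _ => if i = j then 1 else 0)
    (.coord j) (.const _) (mem_univ 0) i fun y => by
      by_cases h : i = j
      · subst h; simpa using hasDerivAt_id' (y i)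
      · simpa [h, update_of_ne (Ne.symm h)] using hasDerivAt_const (y i) (y j)
  simpa using this

theorem int_coord_eh (i : ι) (h : ι → ℝ) : ∫ z, z i * eh h z ∂Gs ι = h i := by
  rw [← int_shift h fun z => z i]
  simp only [Pi.add_apply]
  rw [integral_add (integrable_const _) (mg_coord i).int, int_coord]; simp

/-- Cauchy–Schwarz -/
theorem int_mul_sq_le (h : MG F) (h' : MG G) :
    (∫ z, F z * G z ∂Gs ι) ^ 2 ≤ (∫ z, F z ^ 2 ∂Gs ι) * ∫ z, G z ^ 2 ∂Gs ι := by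
  have := discrim_le_zero (a := ∫ z, F z ^ 2 ∂Gs ι) (b := 2 * ∫ z, F z * G z ∂Gs ι)
    (c := ∫ z, G z ^ 2 ∂Gs ι) fun r => by
    rw [mul_comm _ (r * r), mul_right_comm 2, ← integral_const_mul, ← integral_const_mul,
      ← integral_add ((mg_sq h).const_mul _).int ((h.mul h').const_mul _).int,
      ← integral_add (((mg_sq h).const_mul _).add ((h.mul h').const_mul _)).int (mg_sq h').int]
    exact integral_nonneg fun z => by
      show (0 : ℝ) ≤ _
      nlinarith [sq_nonneg (r * F z + G z)]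
  rw [discrim] at this
  linarith

theorem int_sq_le (h : MG F) : (∫ z, F z ∂Gs ι) ^ 2 ≤ ∫ z, F z ^ 2 ∂Gs ι := by
  simpa using int_mul_sq_le h (.const 1)

theorem int_sq_nonneg (F : (ι → ℝ) → ℝ) : 0 ≤ ∫ z, F z ^ 2 ∂Gs ι :=
  integral_nonneg fun _ => sq_nonneg _

/-- the Gram form of a finite family -/
theorem int_sum_sq {κ : Type*} [Fintype κ] {ψ : κ → (ι → ℝ) → ℝ} (hψ : ∀ k, MG (ψ k)) (a : κ → ℝ) :
    ∫ z, (∑ k, a k * ψ k z) ^ 2 ∂Gs ι = ∑ k, ∑ l, a k * a l * ∫ z, ψ k z * ψ l z ∂Gs ι := by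
  simp only [sq, Finset.sum_mul_sum]
  rw [integral_finsetSum _ fun k _ => (MG.sum _ fun l _ =>
    ((hψ k).const_mul _).mul ((hψ l).const_mul _)).int]
  refine Finset.sum_congr rfl fun k _ => ?_
  rw [integral_finsetSum _ fun l _ => (((hψ k).const_mul _).mul ((hψ l).const_mul _)).int]
  refine Finset.sum_congr rfl fun l _ => ?_
  rw [← integral_const_mul]
  simp only [mul_mul_mul_comm (a k)]

/-- **Bessel inequality** -/
theorem bessel {κ : Type*} [Fintype κ] {ψ : κ → (ι → ℝ) → ℝ} (hψ : ∀ k, MG (ψ k)) {Γ : ℝ}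
    (h0 : 0 ≤ Γ) (hΓ : ∀ a : κ → ℝ,
      ∑ k, ∑ l, a k * a l * ∫ z, ψ k z * ψ l z ∂Gs ι ≤ Γ * ∑ k, a k ^ 2) (hF : MG F) :
    ∑ k, (∫ z, F z * ψ k z ∂Gs ι) ^ 2 ≤ Γ * ∫ z, F z ^ 2 ∂Gs ι := by
  set a := fun k => ∫ z, F z * ψ k z ∂Gs ι with ha
  have m : MG fun z => ∑ k, a k * ψ k z := .sum _ fun k _ => (hψ k).const_mul _
  have h1 : ∑ k, a k ^ 2 = ∫ z, F z * ∑ k, a k * ψ k z ∂Gs ι := by
    simp only [Finset.mul_sum]
    rw [integral_finsetSum _ fun k _ => (hF.mul ((hψ k).const_mul _)).int]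
    refine Finset.sum_congr rfl fun k _ => ?_
    simp only [mul_left_comm _ (a k)]
    rw [integral_const_mul, sq]
  have h2 := int_mul_sq_le hF m
  rw [← h1, int_sum_sq hψ] at h2
  have h3 := h2.trans (mul_le_mul_of_nonneg_left (hΓ a) (int_sq_nonneg F))
  have h4 : 0 ≤ ∑ k, a k ^ 2 := Finset.sum_nonneg fun _ _ => sq_nonneg _
  rcases h4.eq_or_lt with h | h
  · exact h.symm.le.trans (mul_nonneg h0 (int_sq_nonneg F))
  · exact le_of_mul_le_mul_right (by rw [← sq]; linarith) h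

/-- Bessel inequality for an orthogonal family -/
theorem bessel_orth {κ : Type*} [Fintype κ] [DecidableEq κ] {ψ : κ → (ι → ℝ) → ℝ}
    (hψ : ∀ k, MG (ψ k)) {Γ : ℝ} (h0 : 0 ≤ Γ) (h1 : ∀ k, ∫ z, ψ k z * ψ k z ∂Gs ι ≤ Γ)
    (h2 : ∀ k l, k ≠ l → ∫ z, ψ k z * ψ l z ∂Gs ι = 0) (hF : MG F) :
    ∑ k, (∫ z, F z * ψ k z ∂Gs ι) ^ 2 ≤ Γ * ∫ z, F z ^ 2 ∂Gs ι := by
  refine bessel hψ h0 (fun a => ?_) hF
  rw [Finset.mul_sum]
  refine Finset.sum_le_sum fun k _ => ?_
  rw [Finset.sum_eq_single k (fun l _ hl => by rw [h2 k l hl.symm, mul_zero]) (by simp), ← sq, mul_comm]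
  exact mul_le_mul_of_nonneg_right (h1 k) (sq_nonneg _)

theorem int_one_sub_eh (h k : ι → ℝ) :
    ∫ z, (1 - eh h z) * (1 - eh k z) ∂Gs ι = exp (h ⬝ᵥ k) - 1 := by
  have : ∀ z, (1 - eh h z) * (1 - eh k z) = 1 - eh h z - eh k z + eh h z * eh k z := fun z => by ring
  simp only [this]
  rw [integral_add (((MG.const 1).sub (mg_eh h)).sub (mg_eh k)).int ((mg_eh h).mul (mg_eh k)).int,
    integral_sub ((MG.const 1).sub (mg_eh h)).int (mg_eh k).int,
    integral_sub (MG.const 1).int (mg_eh h).int, int_eh, int_eh, int_eh_mul]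
  simp; ring

end gauss

theorem add_sq_le {η : ℝ} (hη : 0 < η) (a b : ℝ) :
    (a + b) ^ 2 ≤ (1 + η) * a ^ 2 + (1 + η⁻¹) * b ^ 2 := by
  have : 2 * (a * b) ≤ η * a ^ 2 + η⁻¹ * b ^ 2 := by
    have h := mul_nonneg (inv_pos.2 hη).le (sq_nonneg (η * a - b))
    have e : η⁻¹ * (η * a - b) ^ 2 = η * a ^ 2 + η⁻¹ * b ^ 2 - 2 * (a * b) := by field_simp; ring
    linarith
  nlinarith

section channel
variable {Ω ι : Type*} [Fintype Ω] [Fintype ι] [DecidableEq ι] {φ : Ω → ι → ℝ} {w : Ω → ℝ} {t : ℝ}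
  {Ψ Ψ' : Ω → (ι → ℝ) → ℝ}

/-- conditional expectation given the state -/
def Pm (φ : Ω → ι → ℝ) (t : ℝ) (Ψ : Ω → (ι → ℝ) → ℝ) (x : Ω) : ℝ :=
  ∫ z, Ψ x (t • φ x + √t • z) ∂Gs ι

theorem slE_eq_Pm (Ψ : Ω → (ι → ℝ) → ℝ) : slE φ w t Ψ = mean w (Pm φ t Ψ) := rfl

theorem Pm_fun (f : Ω → ℝ) : Pm φ t (fun x _ => f x) = f := by ext; simp [Pm]

theorem Pm_add (h : ∀ x, MG (Ψ x)) (h' : ∀ x, MG (Ψ' x)) (x : Ω) :
    Pm φ t (fun x y => Ψ x y + Ψ' x y) x = Pm φ t Ψ x + Pm φ t Ψ' x :=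
  integral_add ((h x).affine _ _).int ((h' x).affine _ _).int

theorem Pm_sub (h : ∀ x, MG (Ψ x)) (h' : ∀ x, MG (Ψ' x)) (x : Ω) :
    Pm φ t (fun x y => Ψ x y - Ψ' x y) x = Pm φ t Ψ x - Pm φ t Ψ' x :=
  integral_sub ((h x).affine _ _).int ((h' x).affine _ _).int

theorem Pm_mul (f : Ω → ℝ) (Ψ : Ω → (ι → ℝ) → ℝ) (x : Ω) :
    Pm φ t (fun x y => f x * Ψ x y) x = f x * Pm φ t Ψ x := integral_const_mul _ _

theorem Pm_sum {κ : Type*} (S : Finset κ) {Ψ : κ → Ω → (ι → ℝ) → ℝ} (h : ∀ k ∈ S, ∀ x, MG (Ψ k x))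
    (x : Ω) : Pm φ t (fun x y => ∑ k ∈ S, Ψ k x y) x = ∑ k ∈ S, Pm φ t (Ψ k) x :=
  integral_finsetSum _ fun k hk => ((h k hk x).affine _ _).int

theorem Pm_mono (h : ∀ x, MG (Ψ x)) (h' : ∀ x, MG (Ψ' x)) {x : Ω} (e : ∀ y, Ψ x y ≤ Ψ' x y) :
    Pm φ t Ψ x ≤ Pm φ t Ψ' x :=
  integral_mono ((h x).affine _ _).int ((h' x).affine _ _).int fun _ => e _

theorem Pm_le (h : ∀ x, MG (Ψ x)) {x : Ω} {c : ℝ} (e : ∀ y, Ψ x y ≤ c) : Pm φ t Ψ x ≤ c := by
  simpa [Pm] using Pm_mono (φ := φ) (t := t) (Ψ' := fun _ _ => c) h (fun _ => .const c) e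

theorem Pm_nonneg {x : Ω} (e : ∀ y, 0 ≤ Ψ x y) : 0 ≤ Pm φ t Ψ x := integral_nonneg fun _ => e _

theorem Pm_sq_le (h : ∀ x, MG (Ψ x)) (x : Ω) : Pm φ t Ψ x ^ 2 ≤ Pm φ t (fun x y => Ψ x y ^ 2) x :=
  int_sq_le ((h x).affine _ _)

/-- `Pm` is a contraction of `L²` -/
theorem mean_Pm_sub_sq_le (hw : Wt w) (h : ∀ x, MG (Ψ x)) (f : Ω → ℝ) :
    mean w (fun x => (Pm φ t Ψ x - f x) ^ 2) ≤ slE φ w t fun x y => (Ψ x y - f x) ^ 2 := by
  refine hw.mean_mono fun x => ?_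
  have := Pm_sq_le (φ := φ) (t := t) (Ψ := fun x y => Ψ x y - f x) (fun x => (h x).sub (.const _)) x
  rwa [Pm_sub h (fun _ => .const _), Pm_fun] at this

/-- change of the state in the channel -/
theorem int_change (ht : 0 ≤ t) (x x' : Ω) (F : (ι → ℝ) → ℝ) :
    ∫ z, F (t • φ x' + √t • z) ∂Gs ι =
      ∫ z, F (t • φ x + √t • z) * eh (√t • (φ x' - φ x)) z ∂Gs ι := by
  rw [← int_shift _ fun z => F (t • φ x + √t • z)]
  congr 1; ext z; congr 1
  rw [smul_add, smul_smul, mul_self_sqrt ht, smul_sub]; abel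

end channel

section cube
variable {n : ℕ} {ι : Type*} [Fintype ι] [DecidableEq ι] {φ : Cube n → ι → ℝ} {w : Cube n → ℝ} {t : ℝ}
  {Ψ : Cube n → (ι → ℝ) → ℝ}

theorem post_pos (hw : ∀ x, 0 < w x) (φ : Cube n → ι → ℝ) (t : ℝ) (y : ι → ℝ) (x : Cube n) :
    0 < post φ w t y x := mul_pos (hw x) (exp_pos _)

theorem abs_siteM_le (hw : ∀ x, 0 < w x) (f : Cube n → ℝ) (i : Fin n) (x : Cube n) :
    |siteM w f i x| ≤ |f (update x i true)| + |f (update x i false)| := by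
  have h1 := hw (update x i true)
  have h2 := hw (update x i false)
  rw [siteM, abs_div, abs_of_pos (add_pos h1 h2), div_le_iff₀ (add_pos h1 h2)]
  refine (abs_add_le _ _).trans ?_
  rw [abs_mul, abs_mul, abs_of_pos h1, abs_of_pos h2]
  nlinarith [mul_nonneg h1.le (abs_nonneg (f (update x i false))),
    mul_nonneg h2.le (abs_nonneg (f (update x i true)))]

theorem mg_siteM (hw : ∀ x, 0 < w x) (h : ∀ x, MG (Ψ x)) (i : Fin n) (x : Cube n) :
    MG fun y => siteM (post φ w t y) (fun x => Ψ x y) i x := by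
  have m : ∀ x, Measurable fun y => post φ w t y x := fun x =>
    ((cont_pw φ w x).comp (f := fun y : ι → ℝ => (t, y)) (by fun_prop)).measurable
  refine ((h (update x i true)).abs.add (h (update x i false)).abs).of_le
    ((((m _).mul (h _).meas).add ((m _).mul (h _).meas)).div ((m _).add (m _))) fun y => ?_
  exact (abs_siteM_le (post_pos hw φ t y) _ i x).trans (le_abs_self _)

theorem mg_dir (hw : ∀ x, 0 < w x) (h : ∀ x, MG (Ψ x)) :
    MG fun y => dir (post φ w t y) fun x => Ψ x y :=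
  .sum _ fun i _ => mg_mean (Wt.of_pos hw) t fun x => mg_sq ((h x).sub (mg_siteM hw h i x))

/-- the mean posterior energy -/
theorem slE_dir (hw : ∀ x, 0 < w x) (ht : 0 ≤ t) (h : ∀ x, MG (Ψ x)) :
    (slE φ w t fun _ y => dir (post φ w t y) fun x => Ψ x y) =
      ∑ i, slE φ w t fun x y => (Ψ x y - siteM (post φ w t y) (fun x => Ψ x y) i x) ^ 2 := by
  have m := fun i x => mg_sq ((h x).sub (mg_siteM (φ := φ) (t := t) hw h i x))
  simp only [bayes (Wt.of_pos hw) ht (.of_mg (m _))]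
  exact slE_sum _ fun i _ => .of_mg fun _ => mg_mean (Wt.of_pos hw) t (m i)

/-- the Gram condition on the likelihood ratios of the channel -/
def Gram (φ : Cube n → ι → ℝ) (t Γ : ℝ) : Prop :=
  ∀ (x : Cube n) (a : Fin n → ℝ), ∑ i, ∑ j, a i * a j *
    (exp (t * ((φ (update x i true) - φ x) ⬝ᵥ (φ (update x j true) - φ x))) - 1) ≤ Γ * ∑ i, a i ^ 2

theorem dot_sqrt (ht : 0 ≤ t) (u v : ι → ℝ) : (√t • u) ⬝ᵥ (√t • v) = t * (u ⬝ᵥ v) := by
  rw [smul_dotProduct, dotProduct_smul, smul_eq_mul, smul_eq_mul, ← mul_assoc, mul_self_sqrt ht]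

/-- **shift lemma** -/
theorem shift (hw : ∀ x, 0 < w x) (ht : 0 ≤ t) {Γ : ℝ} (h0 : 0 ≤ Γ) (hΓ : Gram φ t Γ)
    (h : ∀ x, MG (Ψ x)) (f : Cube n → ℝ) {η : ℝ} (hη : 0 < η) :
    dir w (Pm φ t Ψ) ≤ (1 + η) * (1 + Γ) * (slE φ w t fun _ y => dir (post φ w t y) fun x => Ψ x y) +
      (1 + η⁻¹) * Γ * slE φ w t fun x y => (Ψ x y - f x) ^ 2 := by
  have hW := Wt.of_pos hw
  set S : Fin n → Cube n → (ι → ℝ) → ℝ := fun i x y => siteM (post φ w t y) (fun x => Ψ x y) i x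
    with hS
  have mS : ∀ i x, MG (S i x) := mg_siteM hw h
  set d : Cube n → Fin n → ι → ℝ := fun x i => √t • (φ (update x i true) - φ x) with hd
  set a : Fin n → Cube n → ℝ := fun i x =>
    ∫ z, (Ψ x (t • φ x + √t • z) - S i x (t • φ x + √t • z)) * eh (d x i) z ∂Gs ι with ha
  set b : Fin n → Cube n → ℝ := fun i x =>
    ∫ z, (Ψ x (t • φ x + √t • z) - f x) * (1 - eh (d x i) z) ∂Gs ι with hb
  have h1 : ∀ i, Ent.dirS w (Pm φ t Ψ) i ≤ mean w fun x => (a i x + b i x) ^ 2 := fun i => by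
    refine (Ent.dirS_le_sq hw _ i (g := fun x => Pm φ t (S i) (update x i true))
      fun x b => by simp only [update_idem]).trans_eq ?_
    refine congrArg (mean w) (funext fun x => congrArg (· ^ 2) ?_)
    have m1 := (h x).affine (t • φ x) √t
    have m2 := (mS i x).affine (t • φ x) √t
    have m3 := mg_eh (d x i)
    have e1 : Pm φ t (S i) (update x i true) = ∫ z, S i x (t • φ x + √t • z) * eh (d x i) z ∂Gs ι := by
      rw [← int_change ht x (update x i true) (S i x)]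
      simp only [Pm, hS, Chain22.siteM_update]
    have e2 : ∫ z, f x * (1 - eh (d x i) z) ∂Gs ι = 0 := by
      rw [integral_const_mul, integral_sub (MG.const 1).int m3.int, int_eh]; simp
    rw [e1, ha, hb]
    simp only [sub_mul]
    rw [integral_sub (m1.mul m3).int (m2.mul m3).int, integral_sub
      (m1.mul ((MG.const 1).sub m3)).int (((MG.const 1).sub m3).const_mul _).int, e2]
    simp only [mul_sub, mul_one]
    rw [integral_sub m1.int (m1.mul m3).int, Pm]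
    ring
  have h2 : ∀ i x, a i x ^ 2 ≤ (1 + Γ) * Pm φ t (fun x y => (Ψ x y - S i x y) ^ 2) x := fun i x => by
    refine (int_mul_sq_le (((h x).sub (mS i x)).affine (t • φ x) √t) (mg_eh (d x i))).trans ?_
    rw [mul_comm]
    refine mul_le_mul_of_nonneg_right ?_ (int_sq_nonneg _)
    simp only [sq]
    rw [int_eh_mul, hd, dot_sqrt ht]
    have := hΓ x (Pi.single i 1)
    simp only [Pi.single_apply, ite_mul, one_mul, zero_mul, Finset.sum_ite_eq', Finset.mem_univ,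
      if_true, ite_pow, one_pow, ne_eq, OfNat.ofNat_ne_zero, not_false_eq_true, zero_pow, mul_one,
      Finset.sum_ite_irrel, Finset.sum_const_zero] at this
    linarith
  have h3 : ∀ x, ∑ i, b i x ^ 2 ≤ Γ * Pm φ t (fun x y => (Ψ x y - f x) ^ 2) x := fun x =>
    bessel (fun i => (MG.const 1).sub (mg_eh (d x i))) h0 (fun c => by
      simpa only [int_one_sub_eh, hd, dot_sqrt ht] using hΓ x c)
      (((h x).sub (.const (f x))).affine (t • φ x) √t)
  rw [Ent.dir_eq_sum, slE_dir hw ht h]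
  refine (Finset.sum_le_sum fun i _ => (h1 i).trans (hW.mean_mono fun x =>
    (add_sq_le hη _ _).trans (add_le_add (mul_le_mul_of_nonneg_left (h2 i x) (by positivity))
      le_rfl))).trans ?_
  simp only [mean_add, mean_const_mul, Finset.sum_add_distrib, ← Finset.mul_sum, mul_assoc]
  refine add_le_add le_rfl (mul_le_mul_of_nonneg_left ?_ (by positivity))
  rw [← mean_sum, slE_eq_Pm, ← mean_const_mul]
  exact hW.mean_mono h3

theorem sv_update_sub (x : Cube n) (i : Fin n) (b : Bool) :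
    sv (update x i b) - sv x = Pi.single i (Crest.ProbabilityR.SpinGlassDynamics.spin b - sv x i) := by
  ext j
  by_cases h : j = i
  · subst h; simp [sv]
  · simp [sv, h]

theorem gram_sv (ht : 0 ≤ t) : Gram (sv (n := n)) t (exp (4 * t) - 1) := fun x a => by
  rw [Finset.mul_sum]
  refine Finset.sum_le_sum fun i _ => ?_
  rw [Finset.sum_eq_single i (fun j _ hj => by
    simp [sv_update_sub, Pi.single_eq_of_ne hj]) (by simp), ← sq, mul_comm]
  refine mul_le_mul_of_nonneg_right (sub_le_sub_right (exp_le_exp.2 ?_) _) (sq_nonneg _)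
  rw [mul_comm 4]
  refine mul_le_mul_of_nonneg_left ?_ ht
  simp only [sv_update_sub, single_dotProduct, Pi.single_eq_same, sv]
  cases x i <;> norm_num [Crest.ProbabilityR.SpinGlassDynamics.spin]

/-- **shift lemma** for the isotropic channel `y = t σ + B_t` -/
theorem shift_sv (hw : ∀ x, 0 < w x) (ht : 0 ≤ t) {Ψ : Cube n → (Fin n → ℝ) → ℝ}
    (h : ∀ x, MG (Ψ x)) (f : Cube n → ℝ) {η : ℝ} (hη : 0 < η) :
    dir w (Pm sv t Ψ) ≤ (1 + η) * exp (4 * t) * (slE sv w t fun _ y => dir (tilt w y) fun x => Ψ x y) +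
      (1 + η⁻¹) * (exp (4 * t) - 1) * slE sv w t fun x y => (Ψ x y - f x) ^ 2 := by
  simpa only [dir_post_sv, add_sub_cancel] using
    shift hw ht (sub_nonneg.2 (one_le_exp (by positivity))) (gram_sv ht) h f hη

end cube

end Crest.Agent.T157.Rec

end
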