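import Crest.Agent.T157.SpDef_87
import Crest.Agent.T157.StA_87

/-!
# Row 157 (helper85): `Sp.trfStmt`
-/

set_option autoImplicit false
set_option linter.unusedSectionVars false

noncomputable section

namespace Crest.Agent.T157.Sp

open MeasureTheory ProbabilityTheory Matrix Filter Topology Finset Real
open scoped ENNReal
open Crest.Agent.T157.E Crest.Agent.T157.St Crest.Agent.T157.St.A87 Crest.Agent.T157.SL
open Crest.Agent.T157.Rec

namespace Trf85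

variable {ι : Type*} [Fintype ι] [DecidableEq ι] {μ ν : Measure (ι → ℝ)} {K s : ℝ}

lemma mg_inv (hν : Cp ν) (hK : 0 ≤ K) : MG fun y => (Mf K ν y)⁻¹ := by
  have := hν.prob
  obtain ⟨r, hr⟩ := hν.bdd
  refine ⟨(measurable_Mf hν).inv, exp (K * r), Fintype.card ι * √r, (exp_pos _).le, by positivity,
    fun y => ?_⟩
  have h0 := Mf_pos hν hK y
  rw [abs_of_pos (inv_pos.2 h0), ← exp_add, inv_le_comm₀ h0 (exp_pos _), ← exp_neg]
  have h1 : ∫ _x, exp (-(K * r + Fintype.card ι * √r * ‖y‖)) ∂ν ≤ ∫ x, ew K y x ∂ν := by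
    refine integral_mono_ae (integrable_const _) ((Bs.ew hν hK y).int hν) (hr.mono fun x hx => ?_)
    have h2 := ew_le hK hx (-y)
    rw [norm_neg, ew, exp_le_exp, neg_dotProduct] at h2
    simp only [ew, exp_le_exp]
    nlinarith [mul_le_mul_of_nonneg_left hx hK]
  rw [integral_const, probReal_univ, one_smul] at h1
  exact h1

/-- density of `1 + χ²` -/
def R (K : ℝ) (μ ν : Measure (ι → ℝ)) (y : ι → ℝ) : ℝ := Mf K μ y ^ 2 / Mf K ν y
/-- density of `χ²` -/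
def Dd (K : ℝ) (μ ν : Measure (ι → ℝ)) (y : ι → ℝ) : ℝ := (Mf K μ y - Mf K ν y) ^ 2 / Mf K ν y

lemma mg_R (hμ : Cp μ) (hν : Cp ν) (hK : 0 ≤ K) : MG (R K μ ν) := by
  have := (mg_sq (mg_Mf hμ hK)).mul (mg_inv hν hK)
  exact this

lemma mg_Dd (hμ : Cp μ) (hν : Cp ν) (hK : 0 ≤ K) : MG (Dd K μ ν) := by
  have := (mg_sq ((mg_Mf hμ hK).sub (mg_Mf hν hK))).mul (mg_inv hν hK)
  exact this

lemma R_nonneg (hν : Cp ν) (hK : 0 ≤ K) (y : ι → ℝ) : 0 ≤ R K μ ν y :=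
  div_nonneg (sq_nonneg _) (Mf_pos hν hK y).le

lemma Dd_nonneg (hν : Cp ν) (hK : 0 ≤ K) (y : ι → ℝ) : 0 ≤ Dd K μ ν y :=
  div_nonneg (sq_nonneg _) (Mf_pos hν hK y).le

lemma IK_Dd (hμ : Cp μ) (hν : Cp ν) (hK : 0 ≤ K) : IK K (Dd K μ ν) = IK K (R K μ ν) - 1 := by
  have e : ∀ y, Dd K μ ν y = (R K μ ν y - 2 * Mf K μ y) + Mf K ν y := fun y => by
    have := (Mf_pos hν hK y).ne'
    unfold Dd R; field_simp; ring
  rw [IK_congr e, IK_add ((mg_R hμ hν hK).sub ((mg_Mf hμ hK).const_mul 2)) (mg_Mf hν hK),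
    IK_sub (mg_R hμ hν hK) ((mg_Mf hμ hK).const_mul 2), IK_const_mul, IK_Mf hμ hK, IK_Mf hν hK]
  ring

lemma one_le_IK_R (hμ : Cp μ) (hν : Cp ν) (hK : 0 ≤ K) : 1 ≤ IK K (R K μ ν) := by
  have := IK_nonneg (K := K) (Dd_nonneg (μ := μ) hν hK)
  rw [IK_Dd hμ hν hK] at this; linarith

lemma chi_eq (hμ : Cp μ) (hν : Cp ν) (hK : 0 ≤ K) :
    Chi K μ ν = ENNReal.ofReal (IK K (R K μ ν)) := by
  have hm := (mg_R hμ hν hK).meas
  rw [IK, ofReal_integral_eq_lintegral_ofReal (intK (mg_R hμ hν hK) K)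
    (.of_forall fun z => R_nonneg hν hK _), Chi, gK]
  exact lintegral_map (f := fun y => ENNReal.ofReal (R K μ ν y)) hm.ennreal_ofReal (by fun_prop)

lemma out_eq (hμ : Cp μ) (hK : 0 ≤ K) {F : (ι → ℝ) → ℝ} (hF : MG F) :
    IK K (fun y => Mf K μ y * F y) = ∫ x, ∫ z, F (K • x + √K • z) ∂gv ι ∂μ := by
  have := bayes hμ hK (.const 1) hF
  simp only [one_mul] at this
  rw [this, Mf_eq]

/-- probability of a set of outputs -/
def PY (K : ℝ) (μ : Measure (ι → ℝ)) (A : Set (ι → ℝ)) : ℝ :=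
  IK K fun y => Mf K μ y * A.indicator (fun _ => (1 : ℝ)) y

lemma mg_ind {A : Set (ι → ℝ)} (hA : MeasurableSet A) : MG (A.indicator fun _ => (1 : ℝ)) :=
  (MG.const 1).indicator hA

lemma lawY_eq (hμ : Cp μ) (hK : 0 ≤ K) {A : Set (ι → ℝ)} (hA : MeasurableSet A) :
    lawY K μ A = ENNReal.ofReal (PY K μ A) := by
  have := hμ.prob
  have hm : Measurable fun p : (ι → ℝ) × (ι → ℝ) => K • p.1 + √K • p.2 := by fun_prop
  have hp : IsProbabilityMeasure (lawY K μ) := Measure.isProbabilityMeasure_map hm.aemeasurable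
  have hi : Integrable (fun p : (ι → ℝ) × (ι → ℝ) =>
      A.indicator (fun _ => (1 : ℝ)) (K • p.1 + √K • p.2)) (μ.prod (gv ι)) :=
    Integrable.of_bound ((mg_ind hA).meas.comp hm).aestronglyMeasurable 1 (.of_forall fun p => by
      by_cases h : K • p.1 + √K • p.2 ∈ A <;> simp [h])
  rw [PY, out_eq hμ hK (mg_ind hA), ← integral_prod _ hi, ← ofReal_measureReal (μ := lawY K μ),
    ← integral_indicator_one hA, lawY]
  congr 1
  exact integral_map hm.aemeasurable (mg_ind hA).meas.aestronglyMeasurable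

lemma int_pst (s : ℝ) (μ : Measure (ι → ℝ)) (y : ι → ℝ) (f : (ι → ℝ) → ℝ) :
    ∫ x, f x ∂pst s μ y = (∫ x, f x * ew s y x ∂μ) / Mf s μ y := by
  rw [pst, integral_tilted, ← integral_div]
  refine integral_congr_ae (.of_forall fun x => ?_)
  simp only [smul_eq_mul, ew, Mf]; ring

lemma cp_pst (hμ : Cp μ) (hs : 0 ≤ s) (y : ι → ℝ) : Cp (pst s μ y) := by
  have := hμ.prob
  obtain ⟨r, hr⟩ := hμ.bdd
  exact ⟨isProbabilityMeasure_tilted ((Bs.ew hμ hs y).int hμ), r,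
    (tilted_absolutelyContinuous _ _).ae_le hr⟩

lemma Mf_pst (y y' : ι → ℝ) : Mf K (pst s μ y) y' = Mf (s + K) μ (y + y') / Mf s μ y := by
  rw [Mf, int_pst]
  congr 1
  refine integral_congr_ae (.of_forall fun x => ?_)
  simp only [ew_add, mul_comm]

/-- the second stage of `1 + χ²` -/
def F2 (s K : ℝ) (μ ν : Measure (ι → ℝ)) (y : ι → ℝ) : ℝ := IK K fun y' => R (s + K) μ ν (y + y')

lemma F2_eq (hμ : Cp μ) (hν : Cp ν) (hs : 0 ≤ s) (hK : 0 ≤ K) (y : ι → ℝ) :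
    F2 s K μ ν y = R s μ ν y * IK K (R K (pst s μ y) (pst s ν y)) := by
  rw [F2, ← IK_const_mul]
  refine IK_congr fun y' => ?_
  have h1 := (Mf_pos hμ hs y).ne'
  have h2 := (Mf_pos hν hs y).ne'
  have h3 := (Mf_pos hν (add_nonneg hs hK) (y + y')).ne'
  simp only [R, Mf_pst]; field_simp

lemma R_le_F2 (hμ : Cp μ) (hν : Cp ν) (hs : 0 ≤ s) (hK : 0 ≤ K) (y : ι → ℝ) :
    R s μ ν y ≤ F2 s K μ ν y := by
  rw [F2_eq hμ hν hs hK]
  exact le_mul_of_one_le_right (R_nonneg hν hs y) (one_le_IK_R (cp_pst hμ hs y) (cp_pst hν hs y) hK)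

lemma mg_dot (v : ι → ℝ) : MG fun z : ι → ℝ => v ⬝ᵥ z :=
  MG.sum univ fun i _ => (mg_coord i).const_mul (v i)

lemma int_dot (v : ι → ℝ) : ∫ z, v ⬝ᵥ z ∂gv ι = 0 := by
  simp only [dotProduct]
  rw [integral_finsetSum _ fun i _ => ((mg_coord i).const_mul (v i)).int]
  simp [integral_const_mul, int_coord]

lemma int_dot_sq (v : ι → ℝ) : ∫ z, (v ⬝ᵥ z) ^ 2 ∂gv ι = v ⬝ᵥ v := by
  have := int_sum_sq (ψ := fun k (z : ι → ℝ) => z k) (fun k => mg_coord k) v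
  simpa [int_coord_mul, dotProduct] using this

lemma mg_pow4 {F : (ι → ℝ) → ℝ} (h : MG F) : MG fun z => F z ^ 4 := by
  have := mg_sq (mg_sq h)
  simpa only [← pow_mul] using this

lemma int_dot_four (v : ι → ℝ) : ∫ z, (v ⬝ᵥ z) ^ 4 ∂gv ι ≤ 100 * (v ⬝ᵥ v) ^ 2 := by
  by_cases hv : v = 0
  · simp [hv]
  have h0 : 0 < v ⬝ᵥ v := Eig.dot_self_pos hv
  set c := √(v ⬝ᵥ v) with hc
  have hc0 : 0 < c := sqrt_pos.2 h0
  have hc2 : c ^ 2 = v ⬝ᵥ v := sq_sqrt h0.le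
  set h : ι → ℝ := c⁻¹ • v with hh
  have h1 : h ⬝ᵥ h = 1 := by
    rw [hh, smul_dotProduct, dotProduct_smul, smul_eq_mul, smul_eq_mul, ← hc2]; field_simp
  have h2 : ∀ z, (v ⬝ᵥ z) ^ 4 ≤ c ^ 4 * 48 * (eh h z + eh (-h) z) := fun z => by
    have e : v ⬝ᵥ z = c * (z ⬝ᵥ h) := by
      rw [hh, dotProduct_smul, smul_eq_mul, dotProduct_comm]; field_simp
    have e2 : exp (1 / 2 : ℝ) ≤ 2 := by
      have := exp_one_lt_three
      have h3 : exp (1 / 2 : ℝ) * exp (1 / 2) = exp 1 := by rw [← exp_add]; norm_num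
      nlinarith [exp_pos (1 / 2 : ℝ)]
    have e3 : exp (z ⬝ᵥ h) = eh h z * exp (1 / 2) := by rw [eh, h1, ← exp_add]; congr 1; ring
    have e4 : exp (-(z ⬝ᵥ h)) = eh (-h) z * exp (1 / 2) := by
      rw [eh, neg_dotProduct, dotProduct_neg, dotProduct_neg, h1, ← exp_add]; congr 1; ring
    have e5 := pow_div_factorial_le_exp _ (abs_nonneg (z ⬝ᵥ h)) 4
    have e6 : exp |z ⬝ᵥ h| ≤ exp (z ⬝ᵥ h) + exp (-(z ⬝ᵥ h)) := by
      rcases abs_cases (z ⬝ᵥ h) with a | a <;> rw [a.1] <;> linarith [exp_pos (z ⬝ᵥ h),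
        exp_pos (-(z ⬝ᵥ h))]
    have e7 : |z ⬝ᵥ h| ^ 4 = (z ⬝ᵥ h) ^ 4 := by rw [← abs_pow]; exact abs_of_nonneg (by positivity)
    have p1 : 0 < eh h z := exp_pos _
    have p2 : 0 < eh (-h) z := exp_pos _
    rw [e7] at e5
    norm_num [Nat.factorial] at e5
    rw [e, mul_pow, mul_assoc]
    refine mul_le_mul_of_nonneg_left ?_ (by positivity)
    nlinarith
  have h3 := integral_mono (mg_pow4 (mg_dot v)).int
    (((mg_eh h).add (mg_eh (-h))).const_mul (c ^ 4 * 48)).int h2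
  rw [integral_const_mul, integral_add (mg_eh h).int (mg_eh (-h)).int, int_eh, int_eh] at h3
  rw [← hc2]
  refine h3.trans ?_
  nlinarith [pow_pos hc0 4]

lemma lin_eq (_hK : 0 ≤ K) (v m x z : ι → ℝ) :
    v ⬝ᵥ (K • x + √K • z) - K * (v ⬝ᵥ m) = K * (v ⬝ᵥ (x - m)) + √K * (v ⬝ᵥ z) := by
  simp only [dotProduct_add, dotProduct_sub, dotProduct_smul, smul_eq_mul]; ring

lemma mg_f (K : ℝ) (v m : ι → ℝ) : MG fun y : ι → ℝ => v ⬝ᵥ y - K * (v ⬝ᵥ m) :=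
  (mg_dot v).sub (.const _)

lemma mg_u (v m : ι → ℝ) : MG fun x : ι → ℝ => v ⬝ᵥ (x - m) := by
  simpa only [dotProduct_sub] using (mg_dot v).sub (.const (v ⬝ᵥ m))

lemma out2 (hμ : Cp μ) (hK : 0 ≤ K) (v m : ι → ℝ) :
    IK K (fun y => Mf K μ y * (v ⬝ᵥ y - K * (v ⬝ᵥ m)) ^ 2) =
      K ^ 2 * ∫ x, (v ⬝ᵥ (x - m)) ^ 2 ∂μ + K * (v ⬝ᵥ v) := by
  have := hμ.prob
  rw [out_eq hμ hK (mg_sq (mg_f K v m))]
  have e : ∀ x, ∫ z, (v ⬝ᵥ (K • x + √K • z) - K * (v ⬝ᵥ m)) ^ 2 ∂gv ι =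
      K ^ 2 * (v ⬝ᵥ (x - m)) ^ 2 + K * (v ⬝ᵥ v) := fun x => by
    have e1 : ∀ z, (v ⬝ᵥ (K • x + √K • z) - K * (v ⬝ᵥ m)) ^ 2 = (K ^ 2 * (v ⬝ᵥ (x - m)) ^ 2 +
        (2 * K * (v ⬝ᵥ (x - m)) * √K) * (v ⬝ᵥ z)) + K * (v ⬝ᵥ z) ^ 2 := fun z => by
      rw [lin_eq hK]
      have := sq_sqrt hK
      linear_combination (v ⬝ᵥ z) ^ 2 * this
    simp only [e1]
    rw [integral_add ((MG.const _).add ((mg_dot v).const_mul _)).int
      ((mg_sq (mg_dot v)).const_mul K).int, integral_add (integrable_const _)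
      ((mg_dot v).const_mul _).int, integral_const, integral_const_mul, integral_const_mul, int_dot,
      int_dot_sq]
    simp
  simp only [e]
  rw [integral_add (((Bs.of_mg hμ (mg_sq (mg_u v m))).int hμ).const_mul _) (integrable_const _),
    integral_const_mul]
  simp

lemma out4 (hμ : Cp μ) (hK : 0 ≤ K) (v m : ι → ℝ) :
    IK K (fun y => Mf K μ y * (v ⬝ᵥ y - K * (v ⬝ᵥ m)) ^ 4) ≤
      8 * K ^ 4 * ∫ x, (v ⬝ᵥ (x - m)) ^ 4 ∂μ + 800 * K ^ 2 * (v ⬝ᵥ v) ^ 2 := by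
  have := hμ.prob
  rw [out_eq hμ hK (mg_pow4 (mg_f K v m))]
  have e : ∀ x, ∫ z, (v ⬝ᵥ (K • x + √K • z) - K * (v ⬝ᵥ m)) ^ 4 ∂gv ι ≤
      8 * K ^ 4 * (v ⬝ᵥ (x - m)) ^ 4 + 800 * K ^ 2 * (v ⬝ᵥ v) ^ 2 := fun x => by
    have e1 : ∀ z, (v ⬝ᵥ (K • x + √K • z) - K * (v ⬝ᵥ m)) ^ 4 ≤
        8 * K ^ 4 * (v ⬝ᵥ (x - m)) ^ 4 + 8 * K ^ 2 * (v ⬝ᵥ z) ^ 4 := fun z => by
      rw [lin_eq hK]
      have h1 : (√K * (v ⬝ᵥ z)) ^ 4 = K ^ 2 * (v ⬝ᵥ z) ^ 4 := by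
        rw [mul_pow, show (√K) ^ 4 = ((√K) ^ 2) ^ 2 by ring, sq_sqrt hK]
      have h2 : ∀ a b : ℝ, (a + b) ^ 4 ≤ 8 * a ^ 4 + 8 * b ^ 4 := fun a b => by
        nlinarith [sq_nonneg (a - b), sq_nonneg (a + b), sq_nonneg (a ^ 2 - b ^ 2),
          mul_nonneg (sq_nonneg (a - b)) (sq_nonneg (a + b)), sq_nonneg (a ^ 2 + b ^ 2),
          mul_nonneg (sq_nonneg (a - b)) (add_nonneg (sq_nonneg a) (sq_nonneg b))]
      refine (h2 _ _).trans (le_of_eq ?_)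
      rw [h1]; ring
    have i1 := ((MG.const (8 * K ^ 4 * (v ⬝ᵥ (x - m)) ^ 4)).add
      ((mg_pow4 (mg_dot v)).const_mul (8 * K ^ 2))).int
    refine (integral_mono ((mg_pow4 (mg_f K v m)).affine (K • x) √K).int i1 e1).trans ?_
    rw [integral_add (integrable_const _) ((mg_pow4 (mg_dot v)).const_mul (8 * K ^ 2)).int,
      integral_const, integral_const_mul]
    have := mul_le_mul_of_nonneg_left (int_dot_four v) (show 0 ≤ 8 * K ^ 2 by positivity)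
    simp only [probReal_univ, smul_eq_mul, one_mul]
    linarith
  have i2 := (((Bs.of_mg hμ (mg_pow4 (mg_u v m))).int hμ).const_mul (8 * K ^ 4)).add
    (integrable_const (800 * K ^ 2 * (v ⬝ᵥ v) ^ 2))
  refine (integral_mono_of_nonneg (.of_forall fun x => integral_nonneg fun z => by positivity) i2
    (.of_forall e)).trans (le_of_eq ?_)
  simp only [Pi.add_apply]
  rw [integral_add (((Bs.of_mg hμ (mg_pow4 (mg_u v m))).int hμ).const_mul _) (integrable_const _),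
    integral_const_mul]
  simp

/-- the transfer at one output -/
lemma covB_of (hμ : Cp μ) (hν : Cp ν) (hK : 0 < K) {ε a : ℝ} (hε : 0 < ε) (ha : 0 ≤ a)
    (hD : IK K (Dd K μ ν) ≤ ε ^ 2) (hM : Mom ν a) : CovB μ (a + 30 * ε * (a + 1 / K)) := by
  have := hμ.prob
  obtain ⟨-, m, hM⟩ := hM
  intro v
  have hb := Bs.of_mg hμ (mg_dot v)
  obtain ⟨C, -, hC⟩ := hb.bd
  refine ⟨MemLp.of_bound hb.meas.aestronglyMeasurable C hC, ?_⟩
  by_cases hv : v = 0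
  · subst hv
    have : (fun x : ι → ℝ => (0 : ι → ℝ) ⬝ᵥ x) = 0 := by funext x; simp
    rw [this, variance_zero]; simp
  have h0 : 0 < v ⬝ᵥ v := Eig.dot_self_pos hv
  have h1 : Var[fun x => v ⬝ᵥ x; μ] ≤ ∫ x, (v ⬝ᵥ (x - m)) ^ 2 ∂μ := by
    rw [← variance_sub_const hb.meas.aestronglyMeasurable (v ⬝ᵥ m)]
    refine (variance_le_expectation_sq
      (hb.meas.sub_const _).aestronglyMeasurable).trans (le_of_eq ?_)
    simp only [Pi.pow_apply, dotProduct_sub]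
  refine h1.trans ?_
  obtain ⟨-, m2, m4⟩ := hM v
  set T : ℝ := (K ^ 2 * a + K) * (v ⬝ᵥ v) with hT
  have hT0 : 0 < T := by positivity
  have g2 := mg_sq (mg_f K v m)
  have g4 := mg_pow4 (mg_f K v m)
  have h2 : IK K (fun y => Mf K μ y * (v ⬝ᵥ y - K * (v ⬝ᵥ m)) ^ 2) ≤
      IK K (fun y => (Mf K ν y * (v ⬝ᵥ y - K * (v ⬝ᵥ m)) ^ 2 + 15 * T / ε * Dd K μ ν y) +
        ε / (60 * T) * (Mf K ν y * (v ⬝ᵥ y - K * (v ⬝ᵥ m)) ^ 4)) := by
    refine IK_mono ((mg_Mf hμ hK.le).mul g2) ((((mg_Mf hν hK.le).mul g2).add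
      ((mg_Dd hμ hν hK.le).const_mul _)).add (((mg_Mf hν hK.le).mul g4).const_mul _)) fun y => ?_
    have p := Mf_pos hν hK.le y
    set f := v ⬝ᵥ y - K * (v ⬝ᵥ m)
    set A := Mf K μ y
    set B := Mf K ν y
    have e : B * f ^ 2 + 15 * T / ε * Dd K μ ν y + ε / (60 * T) * (B * f ^ 4) - A * f ^ 2 =
        (30 * T * (A - B) - ε * B * f ^ 2) ^ 2 / (60 * T * ε * B) := by
      change B * f ^ 2 + 15 * T / ε * ((A - B) ^ 2 / B) + _ - _ = _
      field_simp; ring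
    have : 0 ≤ (30 * T * (A - B) - ε * B * f ^ 2) ^ 2 / (60 * T * ε * B) := by positivity
    linarith
  rw [IK_add (((mg_Mf hν hK.le).mul g2).add ((mg_Dd hμ hν hK.le).const_mul _))
    (((mg_Mf hν hK.le).mul g4).const_mul _), IK_add ((mg_Mf hν hK.le).mul g2)
    ((mg_Dd hμ hν hK.le).const_mul _), IK_const_mul, IK_const_mul, out2 hμ hK.le, out2 hν hK.le] at h2
  have h3 : IK K (fun y => Mf K ν y * (v ⬝ᵥ y - K * (v ⬝ᵥ m)) ^ 4) ≤ 900 * T ^ 2 := by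
    refine (out4 hν hK.le v m).trans ?_
    have h4 := mul_le_mul_of_nonneg_left m4 (show 0 ≤ 8 * K ^ 4 by positivity)
    have h5 : 0 ≤ K ^ 3 * a * (v ⬝ᵥ v) ^ 2 := by positivity
    have h6 : 0 ≤ K ^ 4 * a ^ 2 * (v ⬝ᵥ v) ^ 2 := by positivity
    have h7 : 0 ≤ K ^ 2 * (v ⬝ᵥ v) ^ 2 := by positivity
    rw [hT]; nlinarith
  have h4 : 15 * T / ε * IK K (Dd K μ ν) ≤ 15 * T * ε :=
    (mul_le_mul_of_nonneg_left hD (by positivity)).trans (le_of_eq (by field_simp))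
  have h5 : ε / (60 * T) * IK K (fun y => Mf K ν y * (v ⬝ᵥ y - K * (v ⬝ᵥ m)) ^ 4) ≤ 15 * T * ε :=
    (mul_le_mul_of_nonneg_left h3 (by positivity)).trans (le_of_eq (by field_simp; ring))
  have h6 := mul_le_mul_of_nonneg_left m2 (sq_nonneg K)
  refine le_of_mul_le_mul_left ?_ (pow_pos hK 2)
  have e : K ^ 2 * ((a + 30 * ε * (a + 1 / K)) * (v ⬝ᵥ v)) =
      K ^ 2 * (a * (v ⬝ᵥ v)) + 30 * T * ε := by rw [hT]; field_simp
  rw [e]; linarith

end Trf85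

open Trf85

theorem trfStmt : TrfStmt := by
  intro ι _ μ ν hμ hν s K ξ ε a p hs hK hξ hε ha hp hchi ⟨A, hA, hA1, hA2⟩
  classical
  have hsK := add_nonneg hs.le hK.le
  rw [chi_eq hμ hν hsK, ENNReal.ofReal_le_ofReal_iff (by linarith)] at hchi
  rw [lawY_eq hν hs.le hA, ENNReal.ofReal_le_ofReal_iff hp] at hA1
  have mF : MG (F2 s K μ ν) := mg_IK (mg_R hμ hν hsK) K
  have mR := mg_R hμ hν hs.le
  have mD := mg_Dd hμ hν hs.le
  have hF : IK s (F2 s K μ ν) ≤ 1 + ξ := (IK_IK hs.le hK.le (mg_R hμ hν hsK)).trans_le hchi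
  have hR1 := one_le_IK_R hμ hν hs.le
  have hR2 := IK_mono (K := s) mR mF (R_le_F2 hμ hν hs.le hK.le)
  have hD : IK s (Dd s μ ν) ≤ ξ := by rw [IK_Dd hμ hν hs.le]; linarith
  set B : Set (ι → ℝ) := {y | (1 + ε ^ 2) * R s μ ν y < F2 s K μ ν y} with hB
  have hBm : MeasurableSet B := measurableSet_lt (mR.meas.const_mul _) mF.meas
  refine ⟨A ∪ B, hA.union hBm, ?_, fun y hy => ?_⟩
  · rw [lawY_eq hμ hs.le (hA.union hBm)]
    refine ENNReal.ofReal_le_ofReal ?_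
    have g1 := ((mg_Mf hν hs.le).mul (mg_ind hA)).const_mul 2
    have g2 := mD.const_mul 4
    have g3 := (mF.sub mR).const_mul (2 / ε ^ 2)
    have h1 : PY s μ (A ∪ B) ≤ IK s fun y =>
        (2 * (Mf s ν y * A.indicator (fun _ => (1 : ℝ)) y) + 4 * Dd s μ ν y) +
          2 / ε ^ 2 * (F2 s K μ ν y - R s μ ν y) := by
      refine IK_mono ((mg_Mf hμ hs.le).mul (mg_ind (hA.union hBm))) ((g1.add g2).add g3) fun y => ?_
      have p1 := Mf_pos hμ hs.le y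
      have p2 := Mf_pos hν hs.le y
      have q1 := Dd_nonneg (μ := μ) hν hs.le y
      have q2 : 0 ≤ 2 / ε ^ 2 * (F2 s K μ ν y - R s μ ν y) :=
        mul_nonneg (by positivity) (sub_nonneg.2 (R_le_F2 hμ hν hs.le hK.le y))
      have eD : Dd s μ ν y * Mf s ν y = (Mf s μ y - Mf s ν y) ^ 2 := div_mul_cancel₀ _ p2.ne'
      have eR : R s μ ν y * Mf s ν y = Mf s μ y ^ 2 := div_mul_cancel₀ _ p2.ne'
      by_cases hyA : y ∈ A
      · rw [Set.indicator_of_mem (Set.mem_union_left _ hyA), Set.indicator_of_mem hyA]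
        have : Mf s μ y ≤ 2 * Mf s ν y + 4 * Dd s μ ν y := by
          refine le_of_mul_le_mul_right ?_ p2
          nlinarith [sq_nonneg (2 * Mf s μ y - 3 * Mf s ν y)]
        linarith
      by_cases hyB : y ∈ B
      · rw [Set.indicator_of_mem (Set.mem_union_right _ hyB), Set.indicator_of_notMem hyA]
        have h2 : 2 * R s μ ν y ≤ 2 / ε ^ 2 * (F2 s K μ ν y - R s μ ν y) := by
          rw [div_mul_eq_mul_div, le_div_iff₀ (by positivity)]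
          have : (1 + ε ^ 2) * R s μ ν y < F2 s K μ ν y := hyB
          nlinarith
        have : Mf s μ y ≤ 2 * R s μ ν y + 4 * Dd s μ ν y := by
          refine le_of_mul_le_mul_right ?_ p2
          nlinarith [sq_nonneg (4 * Mf s μ y - 3 * Mf s ν y), sq_nonneg (Mf s ν y)]
        linarith
      · rw [Set.indicator_of_notMem (fun h => h.elim hyA hyB), Set.indicator_of_notMem hyA]
        linarith
    rw [IK_add (g1.add g2) g3, IK_add g1 g2, IK_const_mul, IK_const_mul, IK_const_mul,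
      IK_sub mF mR] at h1
    have h2 : 2 / ε ^ 2 * (IK s (F2 s K μ ν) - IK s (R s μ ν)) ≤ 2 / ε ^ 2 * ξ :=
      mul_le_mul_of_nonneg_left (by linarith) (by positivity)
    have h3 : 2 / ε ^ 2 * ξ = 2 * ξ / ε ^ 2 := by ring
    unfold PY at hA1
    linarith
  · have c1 := cp_pst hμ hs.le y
    have c2 := cp_pst hν hs.le y
    refine covB_of c1 c2 hK hε ha ?_ (hA2 y fun h => hy (Or.inl h))
    have h1 : F2 s K μ ν y ≤ (1 + ε ^ 2) * R s μ ν y := not_lt.1 fun h => hy (Or.inr h)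
    rw [F2_eq hμ hν hs.le hK.le, mul_comm] at h1
    have h2 : 0 < R s μ ν y := div_pos (pow_pos (Mf_pos hμ hs.le y) 2) (Mf_pos hν hs.le y)
    rw [IK_Dd c1 c2 hK.le]
    linarith [le_of_mul_le_mul_right h1 h2]

end Crest.Agent.T157.Sp

end
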