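import Crest.Agent.T157.CqDiscDef_34
import Crest.Agent.T157.SpTrf_85
import Crest.Agent.T157.StLnk_10

/-!
# Row 157, part C: rounding a compactly supported law to a grid (helper49)
-/

set_option autoImplicit false
set_option linter.unusedSectionVars false

noncomputable section

namespace Crest.Agent.T157.Cq.Dc

open MeasureTheory ProbabilityTheory Matrix Filter Topology Finset Real
open Crest.Agent.T157.E Crest.Agent.T157.St Crest.Agent.T157.St.A87 Crest.Agent.T157.SL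
open Crest.Agent.T157.Rec
open Crest.Agent.T157.Sp (OffY pst lawY CovB)
open Crest.Agent.T157.Sp.Trf85
open Crest.Agent.T157.Eig (nrm nrm_nonneg nrm_sq nrm_add_le nrm_sub_le nrm_le_iff)

namespace Grid49

variable {ι : Type} [Fintype ι] [DecidableEq ι] {μ : Measure (ι → ℝ)} {e ρ : ℝ}
  {Φ Ψ Φ' Ψ' : (ι → ℝ) → ι → ℝ}

/-- a law with finite support is a `dm` -/
lemma fin_supp (ν : Measure (ι → ℝ)) [IsProbabilityMeasure ν] (F : Finset (ι → ℝ))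
    (hF : ∀ᵐ x ∂ν, x ∈ F) : ∃ (N : ℕ) (w : Fin (N + 1) → ℝ) (φ : Fin (N + 1) → ι → ℝ),
      (∀ i, 0 < w i) ∧ (∀ i, ν {φ i} ≠ 0) ∧ dm w φ = ν := by
  classical
  set S := F.filter fun a => ν {a} ≠ 0 with hS
  have h1 : ν = ∑ a ∈ S, ν {a} • Measure.dirac a := by
    refine (Measure.ae_mem_finset_iff.1 hF).trans (sum_subset (filter_subset _ _) ?_).symm
    intro a ha h
    have h0 : ν {a} = 0 := by
      by_contra h0
      exact h (mem_filter.2 ⟨ha, h0⟩)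
    rw [h0, zero_smul]
  have hne : S.card ≠ 0 := fun h => by
    rw [card_eq_zero.1 h, sum_empty] at h1
    exact IsProbabilityMeasure.ne_zero ν h1
  obtain ⟨N, hN⟩ := Nat.exists_eq_succ_of_ne_zero hne
  let q : S ≃ Fin (N + 1) := S.equivFinOfCardEq hN
  have hq : ∀ i, ν {(q.symm i : ι → ℝ)} ≠ 0 := fun i => (mem_filter.1 (q.symm i).2).2
  have h2 : ν = ∑ i, ν {(q.symm i : ι → ℝ)} • Measure.dirac (q.symm i : ι → ℝ) := by
    rw [Equiv.sum_comp q.symm fun a : S => ν {(a : ι → ℝ)} • Measure.dirac (a : ι → ℝ),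
      sum_coe_sort S fun a => ν {a} • Measure.dirac a]
    exact h1
  have h3 : ∑ i, ν.real {(q.symm i : ι → ℝ)} = 1 := by
    have := congrArg (fun m : Measure (ι → ℝ) => (m Set.univ).toReal) h2
    simp only [measure_univ, ENNReal.toReal_one, Measure.coe_finsetSum, Finset.sum_apply,
      Measure.smul_apply, smul_eq_mul, mul_one] at this
    rw [ENNReal.toReal_sum fun i _ => measure_ne_top _ _] at this
    exact this.symm
  refine ⟨N, fun i => ν.real {(q.symm i : ι → ℝ)}, fun i => q.symm i,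
    fun i => ENNReal.toReal_pos (hq i) (measure_ne_top _ _), hq, ?_⟩
  refine Eq.trans ?_ h2.symm
  refine sum_congr rfl fun i _ => ?_
  rw [prob, h3, div_one, ofReal_measureReal]

/-- measurable maps close to the identity -/
structure Cl (e : ℝ) (Φ : (ι → ℝ) → ι → ℝ) : Prop where
  meas : Measurable Φ
  cl : ∀ x, nrm (Φ x - x) ≤ e

lemma cl_id (he : 0 ≤ e) : Cl e (id : (ι → ℝ) → ι → ℝ) :=
  ⟨measurable_id, fun x => by simpa [nrm] using he⟩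

lemma exists_grid (he : 0 < e) (ρ : ℝ) : ∃ (Φ : (ι → ℝ) → ι → ℝ) (F : Finset (ι → ℝ)),
    Cl e Φ ∧ ∀ x, nrm x ≤ ρ → Φ x ∈ F := by
  classical
  set h : ℝ := e / (Fintype.card ι + 1) with hh
  have h0 : 0 < h := by positivity
  refine ⟨fun x k => h * ⌊x k / h⌋,
    (Fintype.piFinset fun _ : ι => Icc ⌊-ρ / h⌋ ⌊ρ / h⌋).image fun z k => h * z k,
    ⟨measurable_pi_lambda _ fun k => ?_, fun x => ?_⟩, fun x hx => ?_⟩
  · have hm : Measurable fun x : ι → ℝ => x k / h := by fun_prop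
    exact (measurable_of_countable (fun z : ℤ => h * (z : ℝ))).comp hm.floor
  · rw [nrm_le_iff he.le]
    have h1 : ∀ k, (h * ⌊x k / h⌋ - x k) * (h * ⌊x k / h⌋ - x k) ≤ h ^ 2 := fun k => by
      have a := Int.floor_le (x k / h)
      have b := Int.lt_floor_add_one (x k / h)
      rw [le_div_iff₀ h0] at a
      rw [div_lt_iff₀ h0] at b
      nlinarith
    refine (sum_le_sum fun k _ => h1 k).trans ?_
    rw [sum_const, card_univ, nsmul_eq_mul, hh, div_pow, ← mul_div_assoc,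
      div_le_iff₀ (by positivity)]
    have : (0 : ℝ) ≤ Fintype.card ι := Nat.cast_nonneg _
    nlinarith [sq_nonneg e, mul_nonneg this (sq_nonneg e), mul_nonneg (mul_nonneg this this) (sq_nonneg e)]
  · refine mem_image.2 ⟨fun k => ⌊x k / h⌋, Fintype.mem_piFinset.2 fun k => ?_, rfl⟩
    have := abs_le.1 ((Eig.abs_apply_le_nrm x k).trans hx)
    exact mem_Icc.2 ⟨Int.floor_mono (div_le_div_of_nonneg_right this.1 h0.le),
      Int.floor_mono (div_le_div_of_nonneg_right this.2 h0.le)⟩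

lemma Cl.nrm_le (h : Cl e Φ) {x : ι → ℝ} (hx : nrm x ≤ ρ) : nrm (Φ x) ≤ ρ + e := by
  have := nrm_add_le x (Φ x - x)
  rw [add_sub_cancel] at this
  linarith [h.cl x]

lemma Cl.sub_le (h : Cl e Φ) (h' : Cl e Ψ) (x : ι → ℝ) : nrm (Φ x - Ψ x) ≤ 2 * e := by
  have := nrm_sub_le (Φ x - x) (Ψ x - x)
  rw [sub_sub_sub_cancel_right] at this
  linarith [h.cl x, h'.cl x]

lemma Cl.ae (h : Cl e Φ) (hr : ∀ᵐ x ∂μ, nrm x ≤ ρ) : ∀ᵐ y ∂μ.map Φ, nrm y ≤ ρ + e :=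
  (ae_map_iff h.meas.aemeasurable
    (measurableSet_le Eig.continuous_nrm.measurable measurable_const)).2
    (hr.mono fun _ hx => h.nrm_le hx)

lemma cp_of [IsProbabilityMeasure μ] (hr : ∀ᵐ x ∂μ, nrm x ≤ ρ) : Cp μ :=
  ⟨inferInstance, ρ ^ 2, hr.mono fun x hx => (nrm_le_iff ((nrm_nonneg x).trans hx)).1 hx⟩

lemma Cl.cp [IsProbabilityMeasure μ] (h : Cl e Φ) (hr : ∀ᵐ x ∂μ, nrm x ≤ ρ) : Cp (μ.map Φ) :=
  have := Measure.isProbabilityMeasure_map (μ := μ) h.meas.aemeasurable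
  cp_of (h.ae hr)

lemma ae_prod [SFinite μ] (hr : ∀ᵐ x ∂μ, nrm x ≤ ρ) :
    ∀ᵐ p ∂μ.prod μ, nrm p.1 ≤ ρ ∧ nrm p.2 ≤ ρ :=
  (Measure.quasiMeasurePreserving_fst.ae hr).and (Measure.quasiMeasurePreserving_snd.ae hr)

lemma int_xk [IsProbabilityMeasure μ] (hr : ∀ᵐ x ∂μ, nrm x ≤ ρ) (h : Cl e Φ) (h' : Cl e Ψ) (θ : ℝ) :
    Integrable (fun p : (ι → ℝ) × (ι → ℝ) => exp (θ * (Φ p.1 ⬝ᵥ Ψ p.2))) (μ.prod μ) := by
  have hm : Measurable fun p : (ι → ℝ) × (ι → ℝ) => exp (θ * (Φ p.1 ⬝ᵥ Ψ p.2)) :=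
    (show Continuous fun p : (ι → ℝ) × (ι → ℝ) => exp (θ * (p.1 ⬝ᵥ p.2)) by fun_prop).measurable.comp
      ((h.meas.comp measurable_fst).prodMk (h'.meas.comp measurable_snd))
  refine Integrable.of_bound hm.aestronglyMeasurable (exp (|θ| * ((ρ + e) * (ρ + e))))
    ((ae_prod hr).mono fun p hp => ?_)
  rw [Real.norm_eq_abs, abs_of_pos (exp_pos _), exp_le_exp]
  refine (le_abs_self _).trans ?_
  rw [abs_mul]
  have a := h.nrm_le hp.1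
  exact mul_le_mul_of_nonneg_left ((Eig.abs_dot_le _ _).trans (mul_le_mul a (h'.nrm_le hp.2)
    (nrm_nonneg _) ((nrm_nonneg _).trans a))) (abs_nonneg _)

lemma xk_map [IsProbabilityMeasure μ] (hr : ∀ᵐ x ∂μ, nrm x ≤ ρ) (h : Cl e Φ) (h' : Cl e Ψ) (θ : ℝ) :
    Xk θ (μ.map Φ) (μ.map Ψ) = ∫ p, exp (θ * (Φ p.1 ⬝ᵥ Ψ p.2)) ∂μ.prod μ := by
  have hc : Continuous fun y : ι → ℝ => ∫ x', exp (θ * (y ⬝ᵥ x')) ∂μ.map Ψ :=
    Lnk10.continuous_cp (h'.cp hr) (by unfold Function.uncurry; fun_prop)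
  rw [integral_prod _ (int_xk hr h h' θ), Xk,
    integral_map h.meas.aemeasurable hc.aestronglyMeasurable]
  refine integral_congr_ae (.of_forall fun x => ?_)
  exact integral_map h'.meas.aemeasurable
    (show Continuous fun x' : ι → ℝ => exp (θ * (Φ x ⬝ᵥ x')) by fun_prop).aestronglyMeasurable

lemma xk_le [IsProbabilityMeasure μ] (hr : ∀ᵐ x ∂μ, nrm x ≤ ρ) (he : e ≤ 1) (h : Cl e Φ)
    (h' : Cl e Ψ) (k : Cl e Φ') (k' : Cl e Ψ') {θ T Λ : ℝ} (hθ : |θ| ≤ T)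
    (hΛ : T * (4 * (ρ + 1) * e) ≤ Λ) :
    Xk θ (μ.map Φ) (μ.map Ψ) ≤ exp Λ * Xk θ (μ.map Φ') (μ.map Ψ') := by
  rw [xk_map hr h h', xk_map hr k k', ← integral_const_mul]
  refine integral_mono_ae (int_xk hr h h' θ) ((int_xk hr k k' θ).const_mul _)
    ((ae_prod hr).mono fun p hp => ?_)
  simp only
  rw [← exp_add, exp_le_exp]
  have e0 : 0 ≤ e := (nrm_nonneg _).trans (h.cl 0)
  have r0 : 0 ≤ ρ := (nrm_nonneg _).trans hp.1
  have e1 : Φ p.1 ⬝ᵥ Ψ p.2 - Φ' p.1 ⬝ᵥ Ψ' p.2 =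
      (Φ p.1 - Φ' p.1) ⬝ᵥ Ψ p.2 + Φ' p.1 ⬝ᵥ (Ψ p.2 - Ψ' p.2) := by
    rw [sub_dotProduct, dotProduct_sub]; ring
  have b1 : |(Φ p.1 - Φ' p.1) ⬝ᵥ Ψ p.2| ≤ 2 * e * (ρ + 1) := (Eig.abs_dot_le _ _).trans
    (mul_le_mul (h.sub_le k _) ((h'.nrm_le hp.2).trans (by linarith)) (nrm_nonneg _) (by positivity))
  have b2 : |Φ' p.1 ⬝ᵥ (Ψ p.2 - Ψ' p.2)| ≤ (ρ + 1) * (2 * e) := (Eig.abs_dot_le _ _).trans
    (mul_le_mul ((k.nrm_le hp.1).trans (by linarith)) (h'.sub_le k' _) (nrm_nonneg _) (by positivity))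
  have b3 : |Φ p.1 ⬝ᵥ Ψ p.2 - Φ' p.1 ⬝ᵥ Ψ' p.2| ≤ 4 * (ρ + 1) * e := by
    rw [e1]; exact (abs_add_le _ _).trans (by linarith)
  have b4 : θ * (Φ p.1 ⬝ᵥ Ψ p.2 - Φ' p.1 ⬝ᵥ Ψ' p.2) ≤ T * (4 * (ρ + 1) * e) := by
    refine (le_abs_self _).trans ?_
    rw [abs_mul]
    exact mul_le_mul hθ b3 (abs_nonneg _) ((abs_nonneg _).trans hθ)
  linarith

lemma xk_bd [IsProbabilityMeasure μ] (hr : ∀ᵐ x ∂μ, nrm x ≤ ρ) {θ T : ℝ} (hθ : |θ| ≤ T) :
    0 ≤ Xk θ μ μ ∧ Xk θ μ μ ≤ exp (T * ρ ^ 2) := by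
  have h := xk_map hr (cl_id le_rfl) (cl_id le_rfl) θ
  rw [Measure.map_id] at h
  rw [h]
  refine ⟨integral_nonneg fun _ => (exp_pos _).le, ?_⟩
  have := integral_mono_ae (int_xk hr (cl_id le_rfl) (cl_id le_rfl) θ)
    (integrable_const (exp (T * ρ ^ 2))) ((ae_prod hr).mono fun p hp => ?_)
  · simpa using this
  simp only [id]
  rw [exp_le_exp]
  refine (le_abs_self _).trans ?_
  rw [abs_mul, sq]
  exact mul_le_mul hθ ((Eig.abs_dot_le _ _).trans (mul_le_mul hp.1 hp.2 (nrm_nonneg _)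
    ((nrm_nonneg _).trans hp.1))) (abs_nonneg _) ((abs_nonneg _).trans hθ)

/-- the likelihood changes little -/
lemma ew_cl (h : Cl e Φ) (he : e ≤ 1) {r T Y Λ : ℝ} (hr0 : 0 ≤ r) (hrT : r ≤ T) {x y : ι → ℝ}
    (hx : nrm x ≤ ρ) (hy : nrm y ≤ Y) (hΛ : (Y + T * (ρ + 1)) * e ≤ Λ) :
    ew r y (Φ x) ≤ exp Λ * ew r y x ∧ ew r y x ≤ exp Λ * ew r y (Φ x) := by
  have e0 : 0 ≤ e := (nrm_nonneg _).trans (h.cl 0)
  have r0 : 0 ≤ ρ := (nrm_nonneg _).trans hx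
  have b1 : |y ⬝ᵥ Φ x - y ⬝ᵥ x| ≤ Y * e := by
    rw [← dotProduct_sub]
    exact (Eig.abs_dot_le _ _).trans (mul_le_mul hy (h.cl x) (nrm_nonneg _) ((nrm_nonneg _).trans hy))
  have b2 : |Φ x ⬝ᵥ Φ x - x ⬝ᵥ x| ≤ e * (2 * (ρ + 1)) := by
    have : Φ x ⬝ᵥ Φ x - x ⬝ᵥ x = (Φ x - x) ⬝ᵥ (Φ x + x) := by
      rw [sub_dotProduct, dotProduct_add, dotProduct_add, dotProduct_comm x (Φ x)]; ring
    rw [this]
    refine (Eig.abs_dot_le _ _).trans (mul_le_mul (h.cl x) ((nrm_add_le _ _).trans ?_) (nrm_nonneg _) e0)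
    linarith [h.nrm_le hx]
  have b3 : |r / 2 * (Φ x ⬝ᵥ Φ x - x ⬝ᵥ x)| ≤ T / 2 * (e * (2 * (ρ + 1))) := by
    rw [abs_mul, abs_of_nonneg (by positivity)]
    exact mul_le_mul (by linarith) b2 (abs_nonneg _) (by linarith)
  rw [abs_le] at b1 b3
  simp only [ew, ← exp_add, exp_le_exp]
  constructor <;> nlinarith [b1.1, b1.2, b3.1, b3.2]

lemma int_map [IsProbabilityMeasure μ] (hr : ∀ᵐ x ∂μ, nrm x ≤ ρ) (h : Cl e Φ) {F : (ι → ℝ) → ℝ}
    (hF : Continuous F) : Integrable (fun x => F (Φ x)) μ ∧ ∫ y, F y ∂μ.map Φ = ∫ x, F (Φ x) ∂μ :=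
  ⟨(integrable_map_measure hF.aestronglyMeasurable h.meas.aemeasurable).1
    (Lnk10.integrable_cp (h.cp hr) hF), integral_map h.meas.aemeasurable hF.aestronglyMeasurable⟩

lemma cont_ew (r : ℝ) (y : ι → ℝ) : Continuous (ew r y) := by unfold ew; fun_prop

lemma Mf_cl [IsProbabilityMeasure μ] (hr : ∀ᵐ x ∂μ, nrm x ≤ ρ) (h : Cl e Φ) (he : e ≤ 1)
    {r T Y Λ : ℝ} (hr0 : 0 ≤ r) (hrT : r ≤ T) {y : ι → ℝ} (hy : nrm y ≤ Y)
    (hΛ : (Y + T * (ρ + 1)) * e ≤ Λ) :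
    Mf r (μ.map Φ) y ≤ exp Λ * Mf r μ y ∧ Mf r μ y ≤ exp Λ * Mf r (μ.map Φ) y := by
  obtain ⟨i1, e1⟩ := int_map hr h (cont_ew r y)
  have i2 := Lnk10.integrable_cp (cp_of hr) (cont_ew r y)
  simp only [Mf]
  rw [e1, ← integral_const_mul, ← integral_const_mul]
  exact ⟨integral_mono_ae i1 (i2.const_mul _) (hr.mono fun x hx => (ew_cl h he hr0 hrT hx hy hΛ).1),
    integral_mono_ae i2 (i1.const_mul _) (hr.mono fun x hx => (ew_cl h he hr0 hrT hx hy hΛ).2)⟩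

lemma cov_cl [IsProbabilityMeasure μ] (hr : ∀ᵐ x ∂μ, nrm x ≤ ρ) (h : Cl e Φ) (he0 : 0 < e)
    (he : e ≤ 1) {r T Y Λ a : ℝ} (hr0 : 0 ≤ r) (hrT : r ≤ T) {y : ι → ℝ} (hy : nrm y ≤ Y)
    (hΛ : (Y + T * (ρ + 1)) * e ≤ Λ) (hC : CovB (pst r μ y) a) :
    CovB (pst r (μ.map Φ) y) (exp Λ * exp Λ * ((1 + e) * a + 2 * e)) := by
  intro v
  have c1 := cp_of hr
  have c2 := h.cp hr
  have p1 := (cp_pst c1 hr0 y).prob
  have p2 := (cp_pst c2 hr0 y).prob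
  have hb := Bs.of_mg (cp_pst c2 hr0 y) (mg_dot v)
  obtain ⟨C, -, hC'⟩ := hb.bd
  refine ⟨MemLp.of_bound hb.meas.aestronglyMeasurable C hC', ?_⟩
  set m : ℝ := ∫ x, v ⬝ᵥ x ∂pst r μ y with hm
  have h1 : Var[fun x => v ⬝ᵥ x; pst r (μ.map Φ) y] ≤ ∫ x, (v ⬝ᵥ x - m) ^ 2 ∂pst r (μ.map Φ) y := by
    rw [← variance_sub_const hb.meas.aestronglyMeasurable m]
    exact variance_le_expectation_sq (hb.meas.sub_const _).aestronglyMeasurable
  have h2 : ∫ x, (v ⬝ᵥ x - m) ^ 2 ∂pst r μ y ≤ a * (v ⬝ᵥ v) := by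
    rw [← variance_eq_integral hb.meas.aemeasurable]
    exact (hC v).2
  have M1 := Mf_pos c1 hr0 y
  have M2 := Mf_pos c2 hr0 y
  have hv := Eig.dot_self_nonneg v
  rw [int_pst, div_le_iff₀ M1] at h2
  refine h1.trans ?_
  have cF : Continuous fun x : ι → ℝ => (v ⬝ᵥ x - m) ^ 2 * ew r y x :=
    (show Continuous fun x : ι → ℝ => (v ⬝ᵥ x - m) ^ 2 by fun_prop).mul (cont_ew r y)
  obtain ⟨i1, e1⟩ := int_map hr h cF
  have i2 := Lnk10.integrable_cp c1 cF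
  have i3 := Lnk10.integrable_cp c1 (cont_ew r y)
  rw [int_pst, div_le_iff₀ M2, e1]
  have h3 : ∫ x, (v ⬝ᵥ Φ x - m) ^ 2 * ew r y (Φ x) ∂μ ≤ ∫ x, exp Λ * ((1 + e) *
      ((v ⬝ᵥ x - m) ^ 2 * ew r y x) + 2 * e * (v ⬝ᵥ v) * ew r y x) ∂μ := by
    refine integral_mono_ae i1 (((i2.const_mul _).add (i3.const_mul _)).const_mul _)
      (hr.mono fun x hx => ?_)
    have a1 := (ew_cl h he hr0 hrT hx hy hΛ).1
    have a2 : (v ⬝ᵥ (Φ x - x)) ^ 2 ≤ e ^ 2 * (v ⬝ᵥ v) := by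
      refine (Eig.dot_sq_le _ _).trans ?_
      rw [mul_comm]
      exact mul_le_mul_of_nonneg_right ((nrm_le_iff he0.le).1 (h.cl x)) hv
    have a3 : (v ⬝ᵥ Φ x - m) ^ 2 ≤ (1 + e) * (v ⬝ᵥ x - m) ^ 2 + 2 * e * (v ⬝ᵥ v) := by
      have e2 : v ⬝ᵥ Φ x - m = (v ⬝ᵥ x - m) + v ⬝ᵥ (Φ x - x) := by rw [dotProduct_sub]; ring
      rw [e2]
      refine le_of_mul_le_mul_left ?_ he0
      set A := v ⬝ᵥ x - m
      set B := v ⬝ᵥ (Φ x - x)
      have a4 : (1 + e) * B ^ 2 ≤ 2 * (e ^ 2 * (v ⬝ᵥ v)) :=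
        mul_le_mul (by linarith) a2 (sq_nonneg _) (by norm_num)
      nlinarith [sq_nonneg (e * A - B)]
    have a5 := ew_pos r y x
    calc (v ⬝ᵥ Φ x - m) ^ 2 * ew r y (Φ x)
        ≤ ((1 + e) * (v ⬝ᵥ x - m) ^ 2 + 2 * e * (v ⬝ᵥ v)) * (exp Λ * ew r y x) :=
          mul_le_mul a3 a1 (ew_pos _ _ _).le (by positivity)
      _ = _ := by ring
  refine h3.trans ?_
  rw [integral_const_mul, integral_add (i2.const_mul _) (i3.const_mul _), integral_const_mul,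
    integral_const_mul]
  have h4 := (Mf_cl hr h he hr0 hrT hy hΛ).2
  have a0 : 0 ≤ a * (v ⬝ᵥ v) := (variance_nonneg _ _).trans (hC v).2
  have h5 : (1 + e) * ∫ x, (v ⬝ᵥ x - m) ^ 2 * ew r y x ∂μ + 2 * e * (v ⬝ᵥ v) * Mf r μ y ≤
      ((1 + e) * (a * (v ⬝ᵥ v)) + 2 * e * (v ⬝ᵥ v)) * (exp Λ * Mf r (μ.map Φ) y) := by
    refine le_trans ?_ (mul_le_mul_of_nonneg_left h4 (by positivity))
    have := mul_le_mul_of_nonneg_left h2 (show 0 ≤ 1 + e by linarith)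
    linarith
  refine (mul_le_mul_of_nonneg_left h5 (exp_pos Λ).le).trans (le_of_eq ?_)
  ring

/-- second moment of the output -/
lemma out_sq {ν : Measure (ι → ℝ)} (hν : Cp ν) {R r : ℝ} (hR : ∀ᵐ x ∂ν, x ⬝ᵥ x ≤ R) (hr : 0 ≤ r) :
    MG (fun y => Mf r ν y * (y ⬝ᵥ y)) ∧
      IK r (fun y => Mf r ν y * (y ⬝ᵥ y)) ≤ r ^ 2 * R + r * Fintype.card ι := by
  have := hν.prob
  have g : ∀ i ∈ (univ : Finset ι), MG fun y : ι → ℝ =>
      Mf r ν y * (Pi.single i 1 ⬝ᵥ y - r * (Pi.single i 1 ⬝ᵥ (0 : ι → ℝ))) ^ 2 := fun i _ =>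
    (mg_Mf hν hr).mul (mg_sq (mg_f r _ _))
  have e : (fun y => Mf r ν y * (y ⬝ᵥ y)) = fun y => ∑ i,
      Mf r ν y * (Pi.single i 1 ⬝ᵥ y - r * (Pi.single i 1 ⬝ᵥ (0 : ι → ℝ))) ^ 2 := by
    funext y
    simp only [single_dotProduct, one_mul, dotProduct_zero, mul_zero, sub_zero]
    rw [dotProduct, mul_sum]
    simp only [sq]
  rw [e]
  refine ⟨MG.sum univ g, ?_⟩
  rw [IK_sum _ g]
  simp only [out2 hν hr]
  simp only [single_dotProduct, one_mul, sub_zero, Pi.single_eq_same, mul_one,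
    sum_add_distrib, sum_const, card_univ, nsmul_eq_mul, ← mul_sum]
  rw [← integral_finsetSum _ fun i _ => Lnk10.integrable_cp hν (by fun_prop), mul_comm _ r]
  refine add_le_add (mul_le_mul_of_nonneg_left ?_ (sq_nonneg r)) le_rfl
  have := integral_mono_ae (Lnk10.integrable_cp hν
    (show Continuous fun x : ι → ℝ => ∑ i, x i ^ 2 by fun_prop)) (integrable_const R)
    (hR.mono fun x hx => by simpa only [dotProduct, sq] using hx)
  simpa using this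

lemma law_cl [IsProbabilityMeasure μ] (hr : ∀ᵐ x ∂μ, nrm x ≤ ρ) (h : Cl e Φ) (he : e ≤ 1)
    {r T Y Λ p R : ℝ} (hr0 : 0 ≤ r) (hrT : r ≤ T) (hY : 0 < Y) (hΛ : (Y + T * (ρ + 1)) * e ≤ Λ)
    (hR : ∀ᵐ x ∂μ.map Φ, x ⬝ᵥ x ≤ R) (hp : 0 ≤ p) {A : Set (ι → ℝ)} (hA : MeasurableSet A)
    (hB : MeasurableSet {y : ι → ℝ | Y < nrm y}) (hAp : lawY r μ A ≤ ENNReal.ofReal p) :
    lawY r (μ.map Φ) (A ∪ {y | Y < nrm y}) ≤
      ENNReal.ofReal (exp Λ * p + (Y ^ 2)⁻¹ * (r ^ 2 * R + r * Fintype.card ι)) := by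
  have c1 := cp_of hr
  have c2 := h.cp hr
  rw [lawY_eq c1 hr0 hA, ENNReal.ofReal_le_ofReal_iff hp] at hAp
  rw [lawY_eq c2 hr0 (hA.union hB)]
  refine ENNReal.ofReal_le_ofReal ?_
  obtain ⟨g2, b2⟩ := out_sq c2 hR hr0
  have g1 := ((mg_Mf c1 hr0).mul (mg_ind hA)).const_mul (exp Λ)
  have h1 : PY r (μ.map Φ) (A ∪ {y | Y < nrm y}) ≤ IK r fun y =>
      exp Λ * (Mf r μ y * A.indicator (fun _ => (1 : ℝ)) y) +
        (Y ^ 2)⁻¹ * (Mf r (μ.map Φ) y * (y ⬝ᵥ y)) := by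
    refine IK_mono ((mg_Mf c2 hr0).mul (mg_ind (hA.union hB))) (g1.add (g2.const_mul _)) fun y => ?_
    have p1 := Mf_pos c1 hr0 y
    have p2 := Mf_pos c2 hr0 y
    have q0 := Eig.dot_self_nonneg y
    have q1 : 0 ≤ exp Λ * (Mf r μ y * A.indicator (fun _ => (1 : ℝ)) y) :=
      mul_nonneg (exp_pos _).le (mul_nonneg p1.le (Set.indicator_nonneg (fun _ _ => zero_le_one) _))
    have q2 : 0 ≤ (Y ^ 2)⁻¹ * (Mf r (μ.map Φ) y * (y ⬝ᵥ y)) := by positivity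
    by_cases hyB : Y < nrm y
    · rw [Set.indicator_of_mem (show y ∈ A ∪ {y | Y < nrm y} from Or.inr hyB), mul_one]
      have : Y ^ 2 ≤ y ⬝ᵥ y := by rw [← nrm_sq]; exact pow_le_pow_left₀ hY.le hyB.le 2
      have : Mf r (μ.map Φ) y ≤ (Y ^ 2)⁻¹ * (Mf r (μ.map Φ) y * (y ⬝ᵥ y)) := by
        rw [← div_eq_inv_mul, le_div_iff₀ (by positivity)]
        exact mul_le_mul_of_nonneg_left this p2.le
      linarith
    by_cases hyA : y ∈ A
    · rw [Set.indicator_of_mem (Set.mem_union_left _ hyA), Set.indicator_of_mem hyA, mul_one,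
        mul_one]
      linarith [(Mf_cl hr h he hr0 hrT (not_lt.1 hyB) hΛ).1]
    · rw [Set.indicator_of_notMem (fun h => h.elim hyA hyB), mul_zero]
      linarith
  rw [IK_add g1 (g2.const_mul _), IK_const_mul, IK_const_mul] at h1
  exact h1.trans (add_le_add (mul_le_mul_of_nonneg_left hAp (exp_pos _).le)
    (mul_le_mul_of_nonneg_left b2 (by positivity)))

end Grid49

open Grid49

theorem gridL : GridL := by
  intro ι _ μ ϱ T s hμ hϱ hT hs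
  classical
  have ϱ0 : 0 ≤ ϱ := by
    obtain ⟨x, hx⟩ := hϱ.exists
    exact (Eig.dot_self_nonneg x).trans hx
  set ρ : ℝ := √ϱ with hρ
  have ρ0 : 0 ≤ ρ := sqrt_nonneg _
  have ρ2 : ρ ^ 2 = ϱ := sq_sqrt ϱ0
  have hr : ∀ᵐ x ∂μ, nrm x ≤ ρ := hϱ.mono fun x hx => sqrt_le_sqrt hx
  set Q : ℝ := T ^ 2 * (ϱ + 1) + T * Fintype.card ι with hQ
  have Q0 : 0 ≤ Q := by positivity
  set Y : ℝ := Q / s + 1 with hY
  have Y1 : 1 ≤ Y := le_add_of_nonneg_left (by positivity)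
  set c : ℝ := T * (4 * (ρ + 1)) + (Y + T * (ρ + 1)) with hc
  have lim : ∀ {f : ℝ → ℝ} {b : ℝ}, Continuous f → f 0 < b → ∀ᶠ e in 𝓝[>] (0 : ℝ), f e < b :=
    fun hf hb => (hf.continuousAt.eventually_lt continuousAt_const hb).filter_mono nhdsWithin_le_nhds
  obtain ⟨e, ⟨⟨⟨e1, e2⟩, e3⟩, e4⟩, e0⟩ := ((((lim (f := fun e => 2 * ρ * e + e ^ 2 + e) (b := 1)
    (by fun_prop) (by simp)).and (lim (f := fun e => exp (c * e)) (b := 2) (by fun_prop)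
    (by simp))).and (lim (f := fun e => 3 * (exp (c * e) - 1) * exp (T * ρ ^ 2)) (b := s)
    (by fun_prop) (by simpa using hs))).and (lim (f := fun e => (exp (c * e) * exp (c * e) *
      (1 + e) - 1) * T + exp (c * e) * exp (c * e) * (2 * e)) (b := s) (by fun_prop)
    (by simpa using hs))).and self_mem_nhdsWithin |>.exists
  have e0' : 0 < e := e0
  have he : e ≤ 1 := by nlinarith [mul_nonneg ρ0 e0'.le]
  have hΛ1 : T * (4 * (ρ + 1) * e) ≤ c * e := by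
    have : 0 ≤ (Y + T * (ρ + 1)) * e := by positivity
    rw [hc]; linarith
  have hΛ2 : (Y + T * (ρ + 1)) * e ≤ c * e := by
    have : 0 ≤ T * (4 * (ρ + 1)) * e := by positivity
    rw [hc]; linarith
  have E1 : 1 ≤ exp (c * e) := one_le_exp (by positivity)
  obtain ⟨Φ, F, hΦ, hF⟩ := exists_grid (ι := ι) e0' ρ
  have := Measure.isProbabilityMeasure_map (μ := μ) hΦ.meas.aemeasurable
  obtain ⟨N, w, φ, hw, hφ, hd⟩ := fin_supp (μ.map Φ) F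
    ((ae_map_iff hΦ.meas.aemeasurable F.measurableSet).2 (hr.mono hF))
  have hR : ∀ᵐ x ∂μ.map Φ, x ⬝ᵥ x ≤ ϱ + 1 := (hΦ.ae hr).mono fun x hx => by
    have := (nrm_le_iff (by positivity)).1 hx
    nlinarith
  refine ⟨N, w, φ, hw, fun i => ?_, fun θ hθ => ?_, fun r a p hr0 hrT ha haT hp ⟨A, hA, hAp, hAc⟩ => ?_⟩
  · by_contra hcon
    refine hφ i (measure_mono_null ?_ (ae_iff.1 hR))
    rintro _ rfl
    exact hcon
  · rw [hd]
    have i0 := cl_id (ι := ι) e0'.le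
    have x1 := xk_le hr he hΦ hΦ i0 i0 hθ hΛ1
    have x2 := xk_le hr he i0 i0 i0 hΦ hθ hΛ1
    rw [Measure.map_id] at x1 x2
    obtain ⟨x3, x4⟩ := xk_bd hr hθ
    refine ⟨x1.trans (mul_le_mul_of_nonneg_right e2.le x3), ?_⟩
    have x5 : (2 - exp (c * e)) * Xk θ μ μ ≤ Xk θ μ (μ.map Φ) := by
      refine le_of_mul_le_mul_left (le_trans ?_ x2) (exp_pos (c * e))
      nlinarith [mul_nonneg x3 (sq_nonneg (exp (c * e) - 1))]
    have x6 := mul_le_mul_of_nonneg_left x4 (show 0 ≤ 3 * (exp (c * e) - 1) by linarith)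
    rw [D2]
    linarith
  · rw [hd]
    have hB : MeasurableSet {y : ι → ℝ | Y < nrm y} :=
      measurableSet_lt measurable_const Eig.continuous_nrm.measurable
    refine ⟨A ∪ {y | Y < nrm y}, hA.union hB, ?_, fun y hy v => ?_⟩
    · refine (law_cl hr hΦ he hr0.le hrT (by linarith) hΛ2 hR hp hA hB hAp).trans
        (ENNReal.ofReal_le_ofReal (add_le_add (mul_le_mul_of_nonneg_right e2.le hp) ?_))
      have q1 : r ^ 2 * (ϱ + 1) + r * Fintype.card ι ≤ Q := by rw [hQ]; gcongr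
      rw [← div_eq_inv_mul, div_le_iff₀ (by positivity)]
      have q2 : s * Y = Q + s := by rw [hY]; field_simp
      nlinarith [mul_le_mul_of_nonneg_left Y1 (show 0 ≤ s * Y by positivity)]
    · obtain ⟨m, hv⟩ := cov_cl hr hΦ e0' he hr0.le hrT (not_lt.1 fun h => hy (Or.inr h)) hΛ2
        (hAc y fun h => hy (Or.inl h)) v
      refine ⟨m, hv.trans (mul_le_mul_of_nonneg_right ?_ (Eig.dot_self_nonneg v))⟩
      have q1 : 1 ≤ exp (c * e) * exp (c * e) * (1 + e) :=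
        one_le_mul_of_one_le_of_one_le (one_le_mul_of_one_le_of_one_le E1 E1) (by linarith)
      have q2 := mul_le_mul_of_nonneg_left haT (sub_nonneg.2 q1)
      linarith

end Crest.Agent.T157.Cq.Dc

end
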