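import Crest.Agent.T157.SpDef_87
import Crest.Agent.T157.StMgf_32
import Crest.Agent.T157.StShell_38
import Crest.Agent.T157.StDen_90

/-!
# Row 157: `Sp.DomStmt` (helper15)

The spherical models are dominated by the Gaussian reference off two coordinates.
-/

set_option autoImplicit false

noncomputable section

namespace Crest.Agent.T157.Sp

open MeasureTheory ProbabilityTheory Matrix Filter Topology Finset Real
open scoped ENNReal NNReal
open Crest.Agent.T157.E Crest.Agent.T157.St Crest.Agent.T157.St.Mgf32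

namespace Dom15

section gen
variable {ι : Type} [Fintype ι]

theorem tilted_add_const {α : Type*} [MeasurableSpace α] (μ : Measure α) (f : α → ℝ) (a : ℝ) :
    μ.tilted (fun x => f x + a) = μ.tilted f := by
  unfold Measure.tilted
  congr 1
  funext x
  simp only [exp_add]
  rw [integral_mul_const, mul_div_mul_right _ _ (exp_pos a).ne']

/-- the Gaussian law as a tilted Lebesgue measure -/
theorem gs_tilted {c : ι → ℝ} (hc : ∀ k, 0 < c k) :
    Integrable (fun x : ι → ℝ => exp (-(1 / 2) * ∑ k, x k ^ 2 / c k)) ∧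
    gs 0 c = (volume : Measure (ι → ℝ)).tilted fun x => -(1 / 2) * ∑ k, x k ^ 2 / c k := by
  set N := (√(2 * π))⁻¹ ^ Fintype.card ι * (∏ k, (√(c k))⁻¹) with hN
  have hN0 : 0 < N := by
    have : 0 < ∏ k, (√(c k))⁻¹ := prod_pos fun k _ => inv_pos.2 (sqrt_pos.2 (hc k))
    positivity
  have h1 := Sph38.integral_gs hc fun _ => 1
  simp only [integral_const, probReal_univ, smul_eq_mul, mul_one, Sph38.den] at h1
  rw [← hN, integral_const_mul] at h1
  have h2 : ∫ x : ι → ℝ, exp (-(1 / 2) * ∑ k, x k ^ 2 / c k) = N⁻¹ :=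
    (eq_inv_of_mul_eq_one_right h1.symm)
  refine ⟨?_, ?_⟩
  · by_contra h
    rw [integral_undef h] at h2
    exact (inv_pos.2 hN0).ne h2
  · rw [Sph38.gs_eq hc, Measure.tilted, h2]
    congr 1
    funext x
    rw [Sph38.den, ← hN, div_inv_eq_mul, mul_comm]

variable [DecidableEq ι]

theorem DomC_mono {μ : Measure (ι → ℝ)} {c : ι → ℝ} {i j : ι} {B B' : ℝ} (h : DomC μ c i j B)
    (hB : B ≤ B') : DomC μ c i j B' := fun G h1 h2 h3 h4 =>
  (h G h1 h2 h3 h4).trans (mul_le_mul_of_nonneg_right hB (integral_nonneg h2))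

theorem DomM_mono {μ : Measure (ι → ℝ)} {c : ι → ℝ} {i j : ι} {B B' : ℝ} (h : DomM μ c i j B)
    (hB : B ≤ B') : DomM μ c i j B' := fun G h1 h2 =>
  (h G h1 h2).trans (mul_le_mul_left (ENNReal.ofReal_le_ofReal hB) _)

omit [DecidableEq ι] in
theorem lint_eq {c : ι → ℝ} {G : (ι → ℝ) → ℝ} (h1 : Continuous G) (h2 : ∀ x, 0 ≤ G x)
    (h3 : ∀ x, G x ≤ 1) :
    ∫⁻ x, ENNReal.ofReal (G x) ∂gs 0 c = ENNReal.ofReal (∫ x, G x ∂gs 0 c) :=
  (ofReal_integral_eq_lintegral_ofReal (Integrable.of_bound h1.aestronglyMeasurable 1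
    (ae_of_all _ fun x => by rw [Real.norm_of_nonneg (h2 x)]; exact h3 x)) (ae_of_all _ h2)).symm

theorem DomC_of_DomM {μ : Measure (ι → ℝ)} {c : ι → ℝ} {i j : ι} {B : ℝ} (hB : 0 ≤ B)
    (h : DomM μ c i j B) : DomC μ c i j B := fun G h1 h2 h3 h4 => by
  have h5 := h (fun x => ENNReal.ofReal (G x)) h1.measurable.ennreal_ofReal
    fun x a b => by rw [h4]
  rw [lint_eq h1 h2 h3, ← ENNReal.ofReal_mul hB] at h5
  rw [integral_eq_lintegral_of_nonneg_ae (ae_of_all _ h2) h1.aestronglyMeasurable]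
  exact ENNReal.toReal_le_of_le_ofReal (mul_nonneg hB (integral_nonneg h2)) h5

/-- weights of the shells -/
def wt (m : ℕ) : ℝ := exp 2 * (((m : ℝ) + 1) * exp (-1) ^ m)

theorem wt_nonneg (m : ℕ) : 0 ≤ wt m := by unfold wt; positivity

theorem wt_summable : Summable wt := by
  have h : ‖exp (-1 : ℝ)‖ < 1 := by
    rw [Real.norm_of_nonneg (exp_pos _).le]; exact exp_lt_one_iff.2 (by norm_num)
  have h1 := summable_pow_mul_geometric_of_norm_lt_one 1 h
  have h2 := summable_geometric_of_norm_lt_one h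
  refine ((h1.add h2).mul_left (exp 2)).congr fun m => ?_
  unfold wt; ring

omit [DecidableEq ι] in
theorem bump_le {ε : ℝ} (hε : 0 < ε) (s : ℝ) (x : ι → ℝ) (g : ℝ≥0∞) :
    ENNReal.ofReal (exp (-((ε ^ 2)⁻¹ / 8) * (x ⬝ᵥ x - s) ^ 2)) * g ≤
      ∑' m : ℕ, ENNReal.ofReal (exp 2 * exp (-1) ^ m) *
        (shell (s - (m + 1) * ε) (2 * (m + 1) * ε)).indicator (fun _ => g) x := by
  set q := x ⬝ᵥ x with hq
  set u := |q - s| / ε with hu
  have hu0 : 0 ≤ u := by positivity
  have h1 : (⌊u⌋₊ : ℝ) ≤ u := Nat.floor_le hu0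
  have h2 : u < ⌊u⌋₊ + 1 := Nat.lt_floor_add_one u
  refine le_trans ?_ (ENNReal.le_tsum ⌊u⌋₊)
  set m := ⌊u⌋₊
  have h3 : |q - s| < (m + 1) * ε := by rwa [hu, div_lt_iff₀ hε] at h2
  have h4 := abs_lt.1 h3
  rw [Set.indicator_of_mem (show x ∈ shell (s - (m + 1) * ε) (2 * (m + 1) * ε) from
    ⟨by rw [← hq]; linarith, by rw [← hq]; linarith⟩)]
  refine mul_le_mul_left (ENNReal.ofReal_le_ofReal ?_) _
  rw [← exp_nat_mul, ← exp_add, exp_le_exp]
  have h5 : (ε ^ 2)⁻¹ * (q - s) ^ 2 = u ^ 2 := by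
    rw [hu, div_pow, sq_abs]; field_simp
  have h6 : -((ε ^ 2)⁻¹ / 8) * (q - s) ^ 2 = -(u ^ 2 / 8) := by rw [← h5]; ring
  rw [h6]
  nlinarith [sq_nonneg (u - 4)]

/-- the numerator of the soft model -/
theorem num_le {a : ι → ℝ} (ha : ∀ k, 0 < a k) {i j : ι} (hij : i ≠ j) {M : ℝ}
    (hM : √(a i * a j) ≤ M) {ε : ℝ} (hε : 0 < ε) (s : ℝ) {G : (ι → ℝ) → ℝ≥0∞} (hG : Measurable G)
    (hinv : ∀ x u v, G (Function.update (Function.update x i u) j v) = G x) :
    ∫⁻ x, ENNReal.ofReal (exp (-((ε ^ 2)⁻¹ / 8) * (x ⬝ᵥ x - s) ^ 2)) * G x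
        ∂gs 0 (fun k => 1 / a k) ≤
      ENNReal.ofReal ((∑' m, wt m) * M * ε) * ∫⁻ x, G x ∂gs 0 fun k => 1 / a k := by
  have hM0 : 0 ≤ M := (sqrt_nonneg _).trans hM
  calc _ ≤ ∫⁻ x, ∑' m : ℕ, ENNReal.ofReal (exp 2 * exp (-1) ^ m) *
          (shell (s - (m + 1) * ε) (2 * (m + 1) * ε)).indicator G x ∂gs 0 fun k => 1 / a k :=
        lintegral_mono fun x => bump_le hε s x (G x)
    _ = ∑' m : ℕ, ENNReal.ofReal (exp 2 * exp (-1) ^ m) *
          ∫⁻ x in shell (s - (m + 1) * ε) (2 * (m + 1) * ε), G x ∂gs 0 fun k => 1 / a k := by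
        rw [lintegral_tsum fun m =>
          ((hG.indicator (meas_shell _ _)).const_mul _).aemeasurable]
        refine tsum_congr fun m => ?_
        rw [lintegral_const_mul _ (hG.indicator (meas_shell _ _)),
          lintegral_indicator (meas_shell _ _)]
    _ ≤ ∑' m : ℕ, ENNReal.ofReal (wt m * M * ε) * ∫⁻ x, G x ∂gs 0 fun k => 1 / a k := by
        refine ENNReal.tsum_le_tsum fun m => ?_
        have h := (twoStmt ι 0 (fun k => 1 / a k) (fun k => one_div_pos.2 (ha k)) i j hij G hG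
          hinv (s - (m + 1) * ε) (2 * (m + 1) * ε) (by positivity)).1
        rw [two_c (ha i) (ha j)] at h
        refine (mul_le_mul_right h _).trans ?_
        rw [← mul_assoc, ← ENNReal.ofReal_mul (by positivity)]
        refine mul_le_mul_left (ENNReal.ofReal_le_ofReal ?_) _
        calc exp 2 * exp (-1) ^ m * (√(a i * a j) / 2 * (2 * (m + 1) * ε))
            = wt m * √(a i * a j) * ε := by unfold wt; ring
          _ ≤ _ := by have := wt_nonneg m; gcongr
    _ = _ := by
        rw [ENNReal.tsum_mul_right, ← ENNReal.ofReal_tsum_of_nonneg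
          (fun m => by have := wt_nonneg m; positivity)
          ((wt_summable.mul_right M).mul_right ε), tsum_mul_right, tsum_mul_right]

end gen

end Dom15

open Dom15

theorem domStmt : DomStmt := by
  intro L C hL
  obtain ⟨w₂, hw₂, H⟩ := denStmt L C 0 0 hL
  refine ⟨w₂, hw₂, fun w hw => ?_⟩
  obtain ⟨δ, hδ, H⟩ := H w hw
  set M := w + (180 + L) with hMd
  have hw0 : 0 < w := by linarith
  have hM : 0 < M := by linarith
  set Z := ∑' m, wt m with hZ
  have hZ0 : 0 ≤ Z := tsum_nonneg wt_nonneg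
  set e0 := exp (-((1 + 2 * w) ^ 2 / 8)) with he0
  have he0' : 0 < e0 := exp_pos _
  have hB1 : 0 < M / 2 / δ := by positivity
  have hB2 : 0 ≤ Z * M / (e0 * δ) := by positivity
  refine ⟨M / 2 / δ + Z * M / (e0 * δ), by positivity, ?_⟩
  filter_upwards [H, eventually_ge_atTop 24] with n H hn η t ht G i j hi hj
  have : Nonempty (Fin n) := ⟨i⟩
  have hij : i ≠ j := fun h => by rw [h] at hi; omega
  have ha := a_pos G hL (hw₂.trans hw) le_rfl
  have hs : √((w + η i) * (w + η j)) ≤ M :=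
    sqrt_mul_le (ha j).le (by linarith [eta_le G hn (k := i) (by omega)])
      (by linarith [eta_le G hn (k := j) (by omega)])
  have hc : ∀ k, 0 < cw n η w k := fun k => one_div_pos.2 (ha k)
  refine ⟨DomC_mono (B := M / 2 / δ) ?_ (by linarith), fun κ hκ => ?_⟩
  · intro F hF h0 h1 hinv
    obtain ⟨κ, hκ, sh⟩ := exists_sh (ι := Fin n) shellStmt ht
    have hae := Sph38.sphR_ae (ι := Fin n) √t
    rw [sq_sqrt ht.le] at hae
    have hP : 0 < κ * ∏ k : Fin n, √(w + η k) :=
      mul_pos hκ (prod_pos fun k _ => sqrt_pos.2 (ha k))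
    have hden : δ ≤ κ * (∏ k : Fin n, √(w + η k)) * J (sphR (Fin n) √t) (fun k => w + η k)
        fun _ => 1 := low_set sh ha continuous_const (fun _ => zero_le_one) (fun _ => le_rfl)
      MeasurableSet.univ (fun _ _ => rfl) fun ε h1 h2 => by
        rw [Set.inter_univ]; exact (H η t G ε h1 h2).1
    have hI : 0 ≤ ∫ x, F x ∂gs 0 (cw n η w) := integral_nonneg h0
    have hnum : κ * (∏ k : Fin n, √(w + η k)) * J (sphR (Fin n) √t) (fun k => w + η k) F ≤
        M / 2 * ∫ x, F x ∂gs 0 (cw n η w) := sh.up ha hF fun ε hε => by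
      have h2 := (twoStmt (Fin n) 0 (cw n η w) hc i j hij (fun x => ENNReal.ofReal (F x))
        hF.measurable.ennreal_ofReal (fun x u v => by rw [hinv]) t ε hε.le).1
      rw [lint_eq hF h0 h1, cw, cw, two_c (ha i) (ha j),
        ← ENNReal.ofReal_mul (by positivity)] at h2
      rw [integral_eq_lintegral_of_nonneg_ae (.of_forall h0) hF.aestronglyMeasurable]
      refine (ENNReal.toReal_le_of_le_ofReal (by positivity) h2).trans ?_
      calc _ ≤ M / 2 * ε * ∫ x, F x ∂gs 0 (cw n η w) := by gcongr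
        _ = _ := by ring
    rw [nuD, tilt_eq hae (fun k => η k) w]
    exact (ratio_le hP hδ (by positivity) hnum hden).trans_eq (by ring)
  · have hκ0 : 0 < κ := by linarith
    set ε := (√κ)⁻¹ with hεd
    have hsk : 1 ≤ √κ := one_le_sqrt.2 hκ
    have hε : 0 < ε := by positivity
    have hε1 : ε ≤ 1 := inv_le_one_of_one_le₀ hsk
    have hε2 : (ε ^ 2)⁻¹ = κ := by rw [hεd, inv_pow, inv_inv, sq_sqrt hκ0.le]
    set s := t + 2 * w / κ with hsd
    let g : (Fin n → ℝ) → ℝ := fun x => -(κ / 8) * (x ⬝ᵥ x - s) ^ 2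
    have hg : Continuous g := by
      have := Sph38.continuous_dot (ι := Fin n)
      fun_prop
    obtain ⟨hint, hgs⟩ := gs_tilted hc
    have hpi : piD n η t κ = (gs 0 (cw n η w)).tilted g := by
      rw [hgs, tilted_tilted hint, piD, ← tilted_add_const _ _ (-(w * t / 2 + w ^ 2 / (2 * κ)))]
      congr 1
      funext x
      have h1 : ∑ k, x k ^ 2 / cw n η w k = w * (x ⬝ᵥ x) + ∑ k : Fin n, η k * x k ^ 2 := by
        rw [dotProduct, mul_sum, ← sum_add_distrib]
        refine sum_congr rfl fun k _ => ?_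
        rw [cw, div_div_eq_mul_div, div_one]; ring
      simp only [Pi.add_apply, g]
      rw [h1, hsd]
      field_simp
      ring
    have hg1 : ∀ x, exp (g x) ≤ 1 := fun x => exp_le_one_iff.2
      (mul_nonpos_of_nonpos_of_nonneg (neg_nonpos.2 (by positivity)) (sq_nonneg _))
    have hgi : Integrable (fun x => exp (g x)) (gs 0 (cw n η w)) :=
      Integrable.of_bound (Continuous.aestronglyMeasurable (by fun_prop)) 1
        (ae_of_all _ fun x => by rw [Real.norm_of_nonneg (exp_pos _).le]; exact hg1 x)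
    have hZl : e0 * δ * ε ≤ ∫ x, exp (g x) ∂gs 0 (cw n η w) := by
      calc e0 * δ * ε ≤ e0 * (gs 0 (cw n η w)).real (shell t ε) := by
            rw [mul_assoc]; exact mul_le_mul_of_nonneg_left (H η t G ε hε hε1).1 he0'.le
        _ = ∫ _x in shell t ε, e0 ∂gs 0 (cw n η w) := by
            rw [setIntegral_const, smul_eq_mul, mul_comm]
        _ ≤ ∫ x in shell t ε, exp (g x) ∂gs 0 (cw n η w) := by
            refine setIntegral_mono_on (integrable_const _).integrableOn hgi.integrableOn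
              (meas_shell _ _) fun x hx => exp_le_exp.2 ?_
            obtain ⟨h1, h2⟩ := hx
            have h3 : 2 * w / κ ≤ 2 * w * ε := by
              rw [← hε2, div_inv_eq_mul]
              exact mul_le_mul_of_nonneg_left (by nlinarith) (by positivity)
            have h4 : 0 ≤ 2 * w / κ := by positivity
            have h5 : (x ⬝ᵥ x - s) ^ 2 ≤ ((1 + 2 * w) * ε) ^ 2 := by
              apply sq_le_sq'
              · rw [hsd]; nlinarith
              · rw [hsd]; nlinarith [mul_pos hw0 hε]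
            have h6 : κ * ((1 + 2 * w) * ε) ^ 2 = (1 + 2 * w) ^ 2 := by
              rw [← hε2]; field_simp
            have h7 := mul_le_mul_of_nonneg_left h5 hκ0.le
            simp only [g]
            linarith
        _ ≤ _ := setIntegral_le_integral hgi (ae_of_all _ fun x => (exp_pos _).le)
    have hZp : 0 < e0 * δ * ε := by positivity
    have hM' : DomM (piD n η t κ) (cw n η w) i j (M / 2 / δ + Z * M / (e0 * δ)) := by
      refine DomM_mono (B := Z * M / (e0 * δ)) (fun F hF hinv => ?_) (by linarith)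
      have h1 := num_le ha hij hs hε s hF hinv
      rw [hε2] at h1
      rw [hpi, lintegral_tilted]
      calc _ ≤ ∫⁻ x, ENNReal.ofReal (e0 * δ * ε)⁻¹ * (ENNReal.ofReal (exp (g x)) * F x)
            ∂gs 0 (cw n η w) := by
            refine lintegral_mono fun x => ?_
            rw [← mul_assoc, ← ENNReal.ofReal_mul (by positivity)]
            refine mul_le_mul_left (ENNReal.ofReal_le_ofReal ?_) _
            rw [← div_eq_inv_mul]
            exact div_le_div_of_nonneg_left (exp_pos _).le hZp hZl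
        _ = ENNReal.ofReal (e0 * δ * ε)⁻¹ * ∫⁻ x, ENNReal.ofReal (exp (g x)) * F x
            ∂gs 0 (cw n η w) := lintegral_const_mul' _ _ ENNReal.ofReal_ne_top
        _ ≤ ENNReal.ofReal (e0 * δ * ε)⁻¹ * (ENNReal.ofReal (Z * M * ε) *
            ∫⁻ x, F x ∂gs 0 (cw n η w)) := mul_le_mul_right h1 _
        _ = _ := by
            rw [← mul_assoc, ← ENNReal.ofReal_mul (by positivity)]
            congr 2
            field_simp
    exact ⟨hpi ▸ isProbabilityMeasure_tilted hgi, hM', DomC_of_DomM (by positivity) hM'⟩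

end Crest.Agent.T157.Sp

end
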