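import Crest.Agent.T157.CqDiscDef_34
import Crest.Agent.T157.SpDom_15

/-!
# Row 157, part C (helper31): exponential moments of the overlap of the soft sphere
-/

set_option autoImplicit false

noncomputable section

namespace Crest.Agent.T157.Cq.Dc

open MeasureTheory ProbabilityTheory Matrix Filter Topology Finset Real
open scoped ENNReal
open Crest.Agent.T157.E Crest.Agent.T157.St Crest.Agent.T157.St.Mgf32 Crest.Agent.T157.Ed
open Crest.Agent.T157.Sp (piD)
open Crest.Agent.T157.Sp.Dom15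

namespace Mgf31

section gen
variable {ι : Type} [Fintype ι]

/-- the normalising constant -/
def Nc (a : ι → ℝ) : ℝ := (√(2 * π))⁻¹ ^ Fintype.card ι * ∏ k, √(a k)

theorem Nc_pos {a : ι → ℝ} (ha : ∀ k, 0 < a k) : 0 < Nc a :=
  mul_pos (by positivity) (prod_pos fun k _ => sqrt_pos.2 (ha k))

theorem den_eq {a : ι → ℝ} (ha : ∀ k, 0 < a k) (b x : ι → ℝ) :
    exp (-(1 / 2) * ∑ k, a k * x k ^ 2 + b ⬝ᵥ x) =
      exp ((∑ k, 1 / a k * b k ^ 2) / 2) / Nc a *
        Sph38.den (fun k => 1 / a k) (x - fun k => b k / a k) := by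
  have h0 := (Nc_pos ha).ne'
  have e : Sph38.den (fun k => 1 / a k) (x - fun k => b k / a k) =
      Nc a * exp (-(1 / 2) * ∑ k, (x k - b k / a k) ^ 2 / (1 / a k)) := by
    simp only [Sph38.den, Nc, one_div, sqrt_inv, inv_inv, Pi.sub_apply]
  rw [e, ← mul_assoc, div_mul_cancel₀ _ h0, ← exp_add]
  congr 1
  rw [dotProduct, mul_sum, mul_sum, sum_div, ← sum_add_distrib, ← sum_add_distrib]
  refine sum_congr rfl fun k _ => ?_
  have := (ha k).ne'
  field_simp
  ring

/-- the soft shell -/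
def bump (κ s : ℝ) (x : ι → ℝ) : ℝ := exp (-(κ / 8) * (x ⬝ᵥ x - s) ^ 2)

theorem cont_bump (κ s : ℝ) : Continuous (bump κ s : (ι → ℝ) → ℝ) := by
  have := Sph38.continuous_dot (ι := ι)
  unfold bump
  fun_prop

theorem bump_le_one {κ : ℝ} (hκ : 0 ≤ κ) (s : ℝ) (x : ι → ℝ) : bump κ s x ≤ 1 :=
  exp_le_one_iff.2 (mul_nonpos_of_nonpos_of_nonneg (neg_nonpos.2 (by positivity)) (sq_nonneg _))

theorem shift (η : ι → ℝ) (t v : ℝ) {κ : ℝ} (hκ : κ ≠ 0) (x : ι → ℝ) :
    exp (-(1 / 2) * ∑ k, η k * x k ^ 2 - κ / 8 * (x ⬝ᵥ x - t) ^ 2) =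
      exp (v * t / 2 + v ^ 2 / (2 * κ)) *
        (exp (-(1 / 2) * ∑ k, (v + η k) * x k ^ 2) * bump κ (t + 2 * v / κ) x) := by
  have h1 : ∑ k, (v + η k) * x k ^ 2 = v * (x ⬝ᵥ x) + ∑ k, η k * x k ^ 2 := by
    rw [dotProduct, mul_sum, ← sum_add_distrib]
    exact sum_congr rfl fun k _ => by ring
  rw [bump, ← exp_add, ← exp_add, h1]
  congr 1
  field_simp
  ring

variable [DecidableEq ι]

theorem bump_gs (m : ι → ℝ) {a : ι → ℝ} (ha : ∀ k, 0 < a k) {i j : ι} (hij : i ≠ j) {M : ℝ}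
    (hM : √(a i * a j) ≤ M) {ε : ℝ} (hε : 0 < ε) (s : ℝ) :
    ∫⁻ x, ENNReal.ofReal (bump (ε ^ 2)⁻¹ s x) ∂gs m (fun k => 1 / a k) ≤
      ENNReal.ofReal ((∑' m, wt m) * M * ε) := by
  have hM0 : 0 ≤ M := (sqrt_nonneg _).trans hM
  calc _ ≤ ∫⁻ x, ∑' l : ℕ, ENNReal.ofReal (exp 2 * exp (-1) ^ l) *
          (shell (s - (l + 1) * ε) (2 * (l + 1) * ε)).indicator 1 x ∂gs m fun k => 1 / a k :=
        lintegral_mono fun x => (mul_one _).symm.trans_le (bump_le hε s x 1)
    _ = ∑' l : ℕ, ENNReal.ofReal (exp 2 * exp (-1) ^ l) *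
          gs m (fun k => 1 / a k) (shell (s - (l + 1) * ε) (2 * (l + 1) * ε)) := by
        rw [lintegral_tsum fun l =>
          ((measurable_one.indicator (meas_shell _ _)).const_mul _).aemeasurable]
        refine tsum_congr fun l => ?_
        rw [lintegral_const_mul _ (measurable_one.indicator (meas_shell _ _)),
          lintegral_indicator_one (meas_shell _ _)]
    _ ≤ ∑' l : ℕ, ENNReal.ofReal (wt l * M * ε) := by
        refine ENNReal.tsum_le_tsum fun l => ?_
        have h := shell_le twoStmt m ha hij (s - (l + 1) * ε) (ε := 2 * (l + 1) * ε)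
          (by positivity)
        rw [← ENNReal.ofReal_toReal (measure_ne_top (gs m fun k => 1 / a k) _),
          ← ENNReal.ofReal_mul (by positivity)]
        refine ENNReal.ofReal_le_ofReal ((mul_le_mul_of_nonneg_left h (by positivity)).trans ?_)
        calc exp 2 * exp (-1) ^ l * (√(a i * a j) / 2 * (2 * (l + 1) * ε))
            = wt l * √(a i * a j) * ε := by unfold wt; ring
          _ ≤ _ := by have := wt_nonneg l; gcongr
    _ = _ := by
        rw [← ENNReal.ofReal_tsum_of_nonneg (fun m => by have := wt_nonneg m; positivity)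
          ((wt_summable.mul_right M).mul_right ε), tsum_mul_right, tsum_mul_right]

theorem I_le {a : ι → ℝ} (ha : ∀ k, 0 < a k) (b : ι → ℝ) {i j : ι} (hij : i ≠ j) {M : ℝ}
    (hM : √(a i * a j) ≤ M) {ε : ℝ} (hε : 0 < ε) (s : ℝ) {c : ℝ} (hc : 0 ≤ c) :
    ∫⁻ x, ENNReal.ofReal (c * (exp (-(1 / 2) * ∑ k, a k * x k ^ 2 + b ⬝ᵥ x) *
      bump (ε ^ 2)⁻¹ s x)) ≤ ENNReal.ofReal (c * (exp ((∑ k, 1 / a k * b k ^ 2) / 2) / Nc a) *
        ((∑' m, wt m) * M * ε)) := by
  have h0 := Nc_pos ha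
  have h := bump_gs (fun k => b k / a k) ha hij hM hε s
  have hd : Measurable fun x : ι → ℝ =>
      ENNReal.ofReal (Sph38.den (fun k => 1 / a k) (x - fun k => b k / a k)) :=
    ((Sph38.continuous_den _).comp (continuous_id.sub continuous_const)).measurable.ennreal_ofReal
  rw [Sph38.gs_eq' _ fun k => one_div_pos.2 (ha k), lintegral_withDensity_eq_lintegral_mul _ hd
    (cont_bump _ _).measurable.ennreal_ofReal] at h
  rw [ENNReal.ofReal_mul (by positivity)]
  refine le_trans (le_of_eq ?_) (mul_le_mul_right h _)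
  rw [← lintegral_const_mul' _ _ ENNReal.ofReal_ne_top]
  refine lintegral_congr fun x => ?_
  simp only [Pi.mul_apply]
  rw [← ENNReal.ofReal_mul (Sph38.den_nonneg _ _), ← ENNReal.ofReal_mul (by positivity),
    den_eq ha]
  congr 1
  ring

end gen

theorem prod_le {n : ℕ} {η : ℕ → ℝ} {w u : ℝ} (h0 : ∀ k : Fin n, 0 < w + η k)
    (h1 : ∀ k : Fin n, 0 < w + u + η k) (h2 : ∀ k : Fin n, 0 < w + 2 * u + η k) :
    Nc (fun k : Fin n => w + η k) / Nc (fun k : Fin n => w + u + η k) *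
      (Nc (fun k : Fin n => w + η k) /
        Nc fun k : Fin n => (w + η k) * (w + 2 * u + η k) / (w + u + η k)) ≤
      exp (-(u * ∑ k ∈ range n, 1 / (w + 2 * u + η k))) := by
  have hK : (√(2 * π))⁻¹ ^ Fintype.card (Fin n) ≠ 0 := by positivity
  rw [Nc, Nc, Nc, mul_div_mul_left _ _ hK, mul_div_mul_left _ _ hK, ← prod_div_distrib,
    ← prod_div_distrib, ← prod_mul_distrib,
    ← Fin.sum_univ_eq_sum_range (fun k => 1 / (w + 2 * u + η k)), mul_sum, ← sum_neg_distrib,
    exp_sum]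
  refine prod_le_prod (fun k _ => by positivity) fun k _ => ?_
  refine (sq_le_sq₀ (by positivity) (exp_pos _).le).1 ?_
  have k0 := h0 k
  have k1 := h1 k
  have k2 := h2 k
  rw [mul_pow, div_pow, div_pow, sq_sqrt k0.le, sq_sqrt k1.le, sq_sqrt (by positivity),
    ← exp_nat_mul]
  refine le_trans (le_of_eq ?_) (add_one_le_exp _)
  push_cast
  generalize η k = y at k0 k1 k2
  obtain ⟨z, rfl⟩ : ∃ z, y = z - (w + 2 * u) := ⟨y + (w + 2 * u), by ring⟩
  have k3 : z ≠ 0 := by linarith [k2.ne']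
  have e1 : w + (z - (w + 2 * u)) = z - 2 * u := by ring
  have e2 : w + u + (z - (w + 2 * u)) = z - u := by ring
  have e3 : w + 2 * u + (z - (w + 2 * u)) = z := by ring
  rw [e1] at k0; rw [e2] at k1
  rw [e1, e2, e3]
  have := k0.ne'
  have := k1.ne'
  field_simp; ring

theorem extra {w u κ : ℝ} (hw : 0 ≤ w) (hu : 0 ≤ u) (hκ : 1 ≤ κ) (h : u ≤ κ ^ 2) :
    (2 * w * u + u ^ 2) / κ ≤ 2 * w + (2 * w + 1) * u ^ (3 / 2 : ℝ) := by
  have hs := sqrt_nonneg u
  have hss := mul_self_sqrt hu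
  have hp' : u ^ (3 / 2 : ℝ) = u * √u := by
    rw [show (3 / 2 : ℝ) = 1 + 1 / 2 by norm_num, rpow_add' hu (by norm_num), rpow_one,
      sqrt_eq_rpow]
  have h1 : u ≤ 1 + u * √u := by
    rcases le_total u 1 with h | h
    · nlinarith [mul_nonneg hu hs]
    · nlinarith [one_le_sqrt.2 h]
  have h2 : √u ≤ κ := sqrt_le_iff.2 ⟨by linarith, h⟩
  have h3 : u ^ 2 / κ ≤ u * √u := by
    rw [div_le_iff₀ (by linarith)]
    calc u ^ 2 = u * √u * √u := by rw [mul_assoc, hss, sq]
      _ ≤ _ := by gcongr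
  have h4 : 2 * w * u / κ ≤ 2 * w * (1 + u * √u) :=
    (div_le_self (by positivity) hκ).trans (by gcongr)
  rw [add_div, hp']
  linarith

end Mgf31

open Mgf31

theorem mgfL : MgfL := by
  intro L C hL
  obtain ⟨w₂, hw₂, H⟩ := denStmt L C 0 0 hL
  refine ⟨w₂, fun w hw => ?_⟩
  obtain ⟨δ, hδ, H⟩ := H w hw
  set M := w + (180 + L) with hMd
  have hw0 : 0 < w := by linarith
  have hM : 0 < M := by linarith
  set Z := ∑' m, wt m with hZ
  have hZ0 : 0 ≤ Z := tsum_nonneg wt_nonneg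
  set e0 := exp (-((1 + 2 * w) ^ 2 / 8)) with he0
  have he0' : 0 < e0 := exp_pos _
  set δ' := e0 * δ / (2 * (Z + 1)) with hδ'
  have hδ0 : 0 < δ' := by positivity
  set A := (M + 2) ^ 2 / (4 * δ' ^ 2) * exp (2 + |C| * √w + 2 * |C|) + (2 + |C| * √w + 2 * |C|)
    with hA
  have hA0 : 0 ≤ A := by positivity
  have hA1 : 0 ≤ A * exp (2 * w) := by positivity
  refine ⟨A * exp (2 * w) + A + 2 * w + 1, by linarith, ?_⟩
  filter_upwards [H, eventually_ge_atTop 24] with n H hn η G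
  set t := sx n ^ 2 with ht
  set κ := (n : ℝ) ^ 2 with hκd
  have n1 : (1 : ℝ) ≤ n := by exact_mod_cast (by omega : 1 ≤ n)
  have hκ : 1 ≤ κ := one_le_pow₀ n1
  have hκ0 : 0 < κ := by linarith
  set ε := (n : ℝ)⁻¹ with hεd
  have hε : 0 < ε := by positivity
  have hε1 : ε ≤ 1 := inv_le_one_of_one_le₀ n1
  have hε2 : (ε ^ 2)⁻¹ = κ := by rw [hεd, inv_pow, inv_inv]
  have hw' := hw₂.trans hw
  have h0 := a_pos G hL hw' le_rfl
  have hc : ∀ k, 0 < cw n η w k := fun k => one_div_pos.2 (h0 k)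
  let f : (Fin n → ℝ) → ℝ := fun x =>
    -(1 / 2) * ∑ k : Fin n, η k * x k ^ 2 - κ / 8 * (x ⬝ᵥ x - t) ^ 2
  have hdot := Sph38.continuous_dot (ι := Fin n)
  have hf : Continuous f := by fun_prop
  have hg0 : Integrable fun x : Fin n → ℝ => exp (-(1 / 2) * ∑ k : Fin n, (w + η k) * x k ^ 2) := by
    refine (gs_tilted hc).1.congr (ae_of_all _ fun x => ?_)
    simp only [cw, div_div_eq_mul_div, div_one, mul_comm (x _ ^ 2)]
  have hfi : Integrable fun x => exp (f x) := by
    refine (hg0.const_mul (exp (w * t / 2 + w ^ 2 / (2 * κ)))).mono' (by fun_prop)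
      (ae_of_all _ fun x => ?_)
    rw [Real.norm_of_nonneg (exp_pos _).le, shift (fun k : Fin n => η k) t w hκ0.ne']
    exact mul_le_mul_of_nonneg_left (mul_le_of_le_one_right (exp_pos _).le
      (bump_le_one hκ0.le _ _)) (exp_pos _).le
  have hpi : piS n η = volume.tilted f := rfl
  refine ⟨isProbabilityMeasure_tilted hfi, ?_, fun θ hθ => ?_⟩
  · rw [hpi, integrable_tilted_iff hfi]
    refine (hg0.const_mul (24 * exp ((w + 2) * t / 2 + (w + 2) ^ 2 / (2 * κ)))).mono'
      (by fun_prop) (ae_of_all _ fun x => ?_)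
    have q0 : 0 ≤ x ⬝ᵥ x := sum_nonneg fun k _ => mul_self_nonneg _
    have h1 := pow_div_factorial_le_exp _ q0 4
    have h2 : exp (-(1 / 2) * ∑ k : Fin n, (w + 2 + η k) * x k ^ 2) * exp (x ⬝ᵥ x) =
        exp (-(1 / 2) * ∑ k : Fin n, (w + η k) * x k ^ 2) := by
      rw [← exp_add, dotProduct, mul_sum, mul_sum, ← sum_add_distrib]
      exact congrArg _ (sum_congr rfl fun k _ => by ring)
    rw [smul_eq_mul, Real.norm_of_nonneg (by positivity),
      shift (fun k : Fin n => η k) t (w + 2) hκ0.ne', ← h2]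
    have h3 : (x ⬝ᵥ x) ^ 4 ≤ 24 * exp (x ⬝ᵥ x) := by
      rw [div_le_iff₀ (by positivity)] at h1
      norm_num [Nat.factorial] at h1
      linarith
    have h4 := bump_le_one hκ0.le (t + 2 * (w + 2) / κ) x
    calc _ ≤ exp ((w + 2) * t / 2 + (w + 2) ^ 2 / (2 * κ)) *
          (exp (-(1 / 2) * ∑ k : Fin n, (w + 2 + η k) * x k ^ 2) * 1) * (24 * exp (x ⬝ᵥ x)) := by
          gcongr
      _ = _ := by ring
  set u := |θ| with hu
  have hu0 : 0 ≤ u := abs_nonneg θ
  have h1 := a_pos G hL hw' (v := w + u) (by linarith)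
  have h2 := a_pos G hL hw' (v := w + 2 * u) (by linarith)
  obtain ⟨i, j, hij, -, -, hi2, hj2⟩ := exists_two hn ⟨0, by omega⟩
  let a' : Fin n → ℝ := fun k => (w + η k) * (w + 2 * u + η k) / (w + u + η k)
  have h3 : ∀ k, 0 < a' k := fun k => div_pos (mul_pos (h0 k) (h2 k)) (h1 k)
  have hi := eta_le G hn hi2
  have hj := eta_le G hn hj2
  have b1 : ∀ k : Fin n, η k ≤ 180 + L → a' k ≤ M + 2 * u := fun k hk => by
    refine (div_le_iff₀ (h1 k)).2 ?_
    rw [mul_comm]
    exact mul_le_mul (by linarith) (by linarith) (h0 k).le (by linarith)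
  have c1 := sqrt_mul_le (M := M + 2 * u) (a := w + u + η i) (h1 j).le (by linarith) (by linarith)
  have c2 := sqrt_mul_le (h3 j).le (b1 i hi) (b1 j hj)
  set P0 := Nc fun k : Fin n => w + η k with hP0
  set P1 := Nc fun k : Fin n => w + u + η k with hP1
  set P' := Nc a' with hP'
  have p0 : 0 < P0 := Nc_pos h0
  have p1 : 0 < P1 := Nc_pos h1
  have p' : 0 < P' := Nc_pos h3
  set Ew := exp (w * t / 2 + w ^ 2 / (2 * κ)) with hEw
  set Ev := exp ((w + u) * t / 2 + (w + u) ^ 2 / (2 * κ)) with hEv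
  have ew : 0 < Ew := exp_pos _
  have ev : 0 < Ev := exp_pos _
  have hbi : Integrable (bump κ (t + 2 * w / κ)) (gs 0 (cw n η w)) :=
    Integrable.of_bound (cont_bump _ _).aestronglyMeasurable 1 (ae_of_all _ fun x =>
      (Real.norm_of_nonneg (exp_pos _).le).trans_le (bump_le_one hκ0.le _ x))
  have hZl : e0 * δ * ε ≤ ∫ x, bump κ (t + 2 * w / κ) x ∂gs 0 (cw n η w) := by
    calc e0 * δ * ε ≤ e0 * (gs 0 (cw n η w)).real (shell t ε) := by
          rw [mul_assoc]; exact mul_le_mul_of_nonneg_left (H η t G ε hε hε1).1 he0'.le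
      _ = ∫ _x in shell t ε, e0 ∂gs 0 (cw n η w) := by
          rw [setIntegral_const, smul_eq_mul, mul_comm]
      _ ≤ ∫ x in shell t ε, bump κ (t + 2 * w / κ) x ∂gs 0 (cw n η w) := by
          refine setIntegral_mono_on (integrable_const _).integrableOn hbi.integrableOn
            (meas_shell _ _) fun x hx => exp_le_exp.2 ?_
          obtain ⟨h1, h2⟩ := hx
          have h3 : 2 * w / κ ≤ 2 * w * ε := by
            rw [← hε2, div_inv_eq_mul]
            exact mul_le_mul_of_nonneg_left (by nlinarith) (by positivity)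
          have h4 : 0 ≤ 2 * w / κ := by positivity
          have h5 : (x ⬝ᵥ x - (t + 2 * w / κ)) ^ 2 ≤ ((1 + 2 * w) * ε) ^ 2 := by
            apply sq_le_sq'
            · nlinarith
            · nlinarith [mul_pos hw0 hε]
          have h6 : κ * ((1 + 2 * w) * ε) ^ 2 = (1 + 2 * w) ^ 2 := by
            rw [← hε2]; field_simp
          have h7 := mul_le_mul_of_nonneg_left h5 hκ0.le
          linarith
      _ ≤ _ := setIntegral_le_integral hbi (ae_of_all _ fun x => (exp_pos _).le)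
  set N := ∫ x, exp (f x) with hN
  have hNl : Ew / P0 * (e0 * δ * ε) ≤ N := by
    refine (mul_le_mul_of_nonneg_left hZl (by positivity)).trans (le_of_eq ?_)
    rw [Sph38.integral_gs hc, ← integral_const_mul]
    refine integral_congr_ae (ae_of_all _ fun x => ?_)
    have e := den_eq h0 0 x
    simp only [zero_dotProduct, add_zero, Pi.zero_apply, zero_div] at e
    have e' : (x - fun _ => 0) = x := sub_zero x
    rw [e'] at e
    simp only [f]
    rw [shift (fun k : Fin n => η k) t w hκ0.ne', e]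
    simp only [ne_eq, OfNat.ofNat_ne_zero, not_false_eq_true, zero_pow, mul_zero, sum_const_zero,
      zero_div, Real.exp_zero]
    change _ * (Sph38.den (fun k : Fin n => 1 / (w + η k)) x * _) = _
    ring
  have N0 : 0 < N := lt_of_lt_of_le (by positivity) hNl
  set S := Z * (M + 2 * u) * ε with hS
  have S0 : 0 ≤ S := by positivity
  let g : (Fin n → ℝ) → ℝ := fun x => exp ((∑ k : Fin n, 1 / (w + u + η k) * (θ * x k) ^ 2) / 2)
  have inner : ∀ x, ∫⁻ x', ENNReal.ofReal (exp (θ * (x ⬝ᵥ x'))) ∂piS n η ≤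
      ENNReal.ofReal (Ev / N * (g x / P1) * S) := fun x => by
    have h4 := I_le h1 (θ • x) hij c1 hε (t + 2 * (w + u) / κ) (c := Ev / N) (by positivity)
    rw [hε2] at h4
    rw [hpi, lintegral_tilted]
    refine le_trans (le_of_eq (lintegral_congr fun x' => ?_)) h4
    rw [← ENNReal.ofReal_mul (by positivity), ← hN]
    simp only [f]
    rw [shift (fun k : Fin n => η k) t (w + u) hκ0.ne', exp_add _ ((θ • x) ⬝ᵥ x'),
      smul_dotProduct, smul_eq_mul]
    congr 1
    ring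
  have outer : ∫⁻ x, ENNReal.ofReal (Ev / N * (g x / P1) * S) ∂piS n η ≤
      ENNReal.ofReal (Ev / N * (S / P1) * (Ev / N) * (1 / P') * S) := by
    have h4 := I_le h3 0 hij c2 hε (t + 2 * (w + u) / κ) (c := Ev / N * (S / P1) * (Ev / N))
      (by positivity)
    rw [hε2] at h4
    simp only [zero_dotProduct, add_zero, Pi.zero_apply, ne_eq, OfNat.ofNat_ne_zero,
      not_false_eq_true, zero_pow, mul_zero, sum_const_zero, zero_div, Real.exp_zero] at h4
    rw [hpi, lintegral_tilted]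
    refine le_trans (le_of_eq (lintegral_congr fun x => ?_)) h4
    rw [← ENNReal.ofReal_mul (by positivity), ← hN]
    simp only [f]
    have h5 : exp (-(1 / 2) * ∑ k : Fin n, (w + u + η k) * x k ^ 2) * g x =
        exp (-(1 / 2) * ∑ k, a' k * x k ^ 2) := by
      simp only [g]
      rw [← exp_add, sum_div, mul_sum, mul_sum, ← sum_add_distrib]
      refine congrArg exp (sum_congr rfl fun k _ => ?_)
      have := (h1 k).ne'
      simp only [a']
      rw [mul_pow, ← sq_abs θ, ← hu]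
      field_simp; ring
    rw [shift (fun k : Fin n => η k) t (w + u) hκ0.ne', ← h5]
    congr 1
    ring
  refine ((lintegral_mono inner).trans outer).trans (ENNReal.ofReal_le_ofReal ?_)
  have hPP : P0 / P1 * (P0 / P') ≤ _ := prod_le h0 h1 h2
  have hdn := G.dn (w + 2 * u) (by linarith)
  have hex := extra hw0.le hu0 hκ (hθ.trans_eq (by rw [hκd]; ring))
  have hfin : _ ≤ A * exp (A * u ^ (3 / 2 : ℝ)) := final_bd (C := C) hM.le hδ0 hw0.le hu0
  have hE : (Ev / Ew) ^ 2 = exp (u * t) * exp ((2 * w * u + u ^ 2) / κ) := by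
    rw [hEv, hEw, ← exp_sub, ← exp_nat_mul, ← exp_add]
    congr 1
    push_cast
    field_simp
    ring
  have hS1 : S / (e0 * δ * ε) ≤ (M + 2 * u) / (2 * δ') := by
    have e : (M + 2 * u) / (2 * δ') = (Z + 1) * (M + 2 * u) * ε / (e0 * δ * ε) := by
      rw [hδ']; field_simp
    rw [e, hS]
    gcongr
    linarith
  have p0' : 0 ≤ u ^ (3 / 2 : ℝ) := by positivity
  calc Ev / N * (S / P1) * (Ev / N) * (1 / P') * S
      ≤ Ev / (Ew / P0 * (e0 * δ * ε)) * (S / P1) * (Ev / (Ew / P0 * (e0 * δ * ε))) * (1 / P') *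
        S := by gcongr
    _ = (S / (e0 * δ * ε)) ^ 2 * ((Ev / Ew) ^ 2 * (P0 / P1 * (P0 / P'))) := by field_simp
    _ ≤ ((M + 2 * u) / (2 * δ')) ^ 2 * (exp (u * t) * exp ((2 * w * u + u ^ 2) / κ) *
          exp (-(u * ∑ k ∈ range n, 1 / (w + 2 * u + η k)))) := by rw [hE]; gcongr
    _ = (M + 2 * u) ^ 2 / (4 * δ' ^ 2) *
          exp (u * t + -(u * ∑ k ∈ range n, 1 / (w + 2 * u + η k))) *
          exp ((2 * w * u + u ^ 2) / κ) := by rw [exp_add]; ring
    _ ≤ (M + 2 * u) ^ 2 / (4 * δ' ^ 2) * exp (u * (C * √(w + 2 * u))) *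
          exp (2 * w + (2 * w + 1) * u ^ (3 / 2 : ℝ)) := by
        gcongr
        unfold Sr at hdn
        nlinarith [mul_le_mul_of_nonneg_left hdn hu0]
    _ ≤ A * exp (A * u ^ (3 / 2 : ℝ)) * exp (2 * w + (2 * w + 1) * u ^ (3 / 2 : ℝ)) := by gcongr
    _ = A * exp (2 * w) * exp ((A + 2 * w + 1) * u ^ (3 / 2 : ℝ)) := by
        rw [mul_assoc, mul_assoc, ← exp_add, ← exp_add]; congr 2; ring
    _ ≤ _ := by gcongr <;> linarith

end Crest.Agent.T157.Cq.Dc

end
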