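import Crest.Agent.T157.SpDef_87
import Crest.Agent.T157.StLnk_10
import Crest.Agent.T157.CritDef_97
import Crest.Agent.R166.Gauss_286

/-!
# Row 157: the covariance bound at the bottom of the window (helper34)
-/

set_option autoImplicit false

noncomputable section

namespace Crest.Agent.T157.Sp

open MeasureTheory ProbabilityTheory Matrix Filter Topology Finset Real
open scoped ENNReal
open Crest.ProbabilityR.SpinGlassDynamics Crest.Agent.T157.E Crest.Agent.T157.St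
open Crest.Agent.T157.Ed Crest.Agent.T157.Top Crest.Agent.T157.St.Lnk10

namespace Win34

variable {n : ℕ} {O : Mat n}

theorem lawY_map (hO : Oᵀ * O = 1) (r : ℝ) (μ : Measure (Fin n → ℝ)) [SFinite μ] :
    lawY r (μ.map fun x => O *ᵥ x) = (lawY r μ).map fun x => O *ᵥ x := by
  have hm := measurable_mulVec O
  have hg : (gv (Fin n)).map (fun x => O *ᵥ x) = gv (Fin n) :=
    R166.Gauss286.gv_map_mulVec O (mul_eq_one_comm.1 hO)
  rw [lawY, lawY]
  conv_lhs => rw [← hg]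
  rw [Measure.map_prod_map _ _ hm hm, Measure.map_map (by fun_prop) (hm.prodMap hm),
    Measure.map_map hm (by fun_prop)]
  congr 1
  funext p
  simp [mulVec_add, mulVec_smul]

theorem pst_map (hO : Oᵀ * O = 1) (r : ℝ) (μ : Measure (Fin n → ℝ)) (y : Fin n → ℝ) :
    pst r (μ.map fun x => O *ᵥ x) (O *ᵥ y) = (pst r μ y).map fun x => O *ᵥ x := by
  rw [pst, pst, ← map_tilted μ (measurable_mulVec O) (by fun_prop)]
  simp only [Eig.dot_isom hO]

theorem Mom.map (hO : Oᵀ * O = 1) {μ : Measure (Fin n → ℝ)} {a : ℝ} (h : Mom μ a) :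
    Mom (μ.map fun x => O *ᵥ x) a := by
  obtain ⟨_, m, h⟩ := h
  have hm := measurable_mulVec O
  refine ⟨Measure.isProbabilityMeasure_map hm.aemeasurable, O *ᵥ m, fun v => ?_⟩
  have e : ∀ x, v ⬝ᵥ (O *ᵥ x - O *ᵥ m) = (Oᵀ *ᵥ v) ⬝ᵥ (x - m) := fun x => by
    rw [← mulVec_sub, dotProduct_mulVec, ← mulVec_transpose]
  have e2 : (Oᵀ *ᵥ v) ⬝ᵥ (Oᵀ *ᵥ v) = v ⬝ᵥ v :=
    Eig.dot_isom (by rw [transpose_transpose]; exact mul_eq_one_comm.1 hO) v v
  obtain ⟨h1, h2, h3⟩ := h (Oᵀ *ᵥ v)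
  rw [e2] at h2 h3
  rw [integrable_map_measure (by fun_prop) hm.aemeasurable,
    integral_map hm.aemeasurable (by fun_prop), integral_map hm.aemeasurable (by fun_prop)]
  simp only [Function.comp_def, e]
  exact ⟨h1, h2, h3⟩

theorem OffY.map (hO : Oᵀ * O = 1) {μ : Measure (Fin n → ℝ)} [SFinite μ] {r p a : ℝ}
    (h : OffY r μ p fun y => Mom (pst r μ y) a) :
    OffY r (μ.map fun x => O *ᵥ x) p fun y => Mom (pst r (μ.map fun x => O *ᵥ x) y) a := by
  obtain ⟨A, hA, h1, h2⟩ := h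
  have hA' := measurable_mulVec Oᵀ hA
  refine ⟨_, hA', ?_, fun y hy => ?_⟩
  · rw [lawY_map hO, Measure.map_apply (measurable_mulVec O) hA']
    convert h1 using 2
    ext y
    simp [mulVec_mulVec, hO]
  · have : y = O *ᵥ (Oᵀ *ᵥ y) := by rw [mulVec_mulVec, mul_eq_one_comm.1 hO, one_mulVec]
    beta_reduce
    rw [this, pst_map hO]
    exact Mom.map hO (h2 _ hy)

theorem OffY.mono {ι : Type*} [Fintype ι] {μ : Measure (ι → ℝ)} {r p p' : ℝ}
    {P Q : (ι → ℝ) → Prop} (h : OffY r μ p P) (hp : p ≤ p') (hPQ : ∀ y, P y → Q y) :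
    OffY r μ p' Q := by
  obtain ⟨A, hA, h1, h2⟩ := h
  exact ⟨A, hA, h1.trans (ENNReal.ofReal_le_ofReal hp), fun y hy => hPQ y (h2 y hy)⟩

theorem CovB.mono {ι : Type*} [Fintype ι] {μ : Measure (ι → ℝ)} {a b : ℝ} (h : CovB μ a)
    (hab : a ≤ b) : CovB μ b := fun v =>
  ⟨(h v).1, (h v).2.trans (mul_le_mul_of_nonneg_right hab
    (sum_nonneg fun _ _ => mul_self_nonneg _))⟩

theorem exp_le {c : ℝ} (hc : 0 < c) : ∃ D : ℝ, 0 < D ∧ ∀ u : ℝ, 0 < u →
    exp (-(c * u ^ 2)) ≤ D * (u ^ 48)⁻¹ := by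
  refine ⟨(Nat.factorial 24 : ℝ) / c ^ 24, by positivity, fun u hu => ?_⟩
  have h := pow_div_factorial_le_exp (x := c * u ^ 2) (by positivity) 24
  rw [exp_neg, inv_le_comm₀ (exp_pos _) (by positivity)]
  refine le_trans (le_of_eq ?_) h
  field_simp

/-- the scales of the window in terms of `u = r ^ (1 / 4)` -/
theorem scales (hn : 1 ≤ n) {r : ℝ} (h1 : 1 ≤ r) (h2 : r ≤ Tw n) : ∃ u : ℝ, 1 ≤ u ∧ r = u ^ 4 ∧
    √r = u ^ 2 ∧ r ^ (-(1 / 4) : ℝ) = u⁻¹ ∧ r ^ (-12 : ℝ) = (u ^ 48)⁻¹ ∧ u ≤ sx n ∧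
    (n : ℝ) ^ (-(1 / 4) : ℝ) ≤ (u ^ 50)⁻¹ := by
  have hr : 0 < r := by linarith
  have hn' : (1 : ℝ) ≤ n := by exact_mod_cast hn
  have hp : ∀ k : ℕ, (r ^ (1 / 4 : ℝ)) ^ k = r ^ ((k : ℝ) / 4) := fun k => by
    rw [← rpow_natCast, ← rpow_mul hr.le]; congr 1; ring
  have hu : r ^ (1 / 4 : ℝ) ≤ (n : ℝ) ^ (1 / 200 : ℝ) := by
    refine (rpow_le_rpow hr.le h2 (by norm_num)).trans (le_of_eq ?_)
    rw [Tw, ← rpow_mul (by positivity)]; norm_num
  refine ⟨r ^ (1 / 4 : ℝ), one_le_rpow h1 (by norm_num), ?_, ?_, rpow_neg hr.le _, ?_, ?_, ?_⟩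
  · rw [hp]; norm_num
  · rw [hp, sqrt_eq_rpow]; norm_num
  · rw [hp, ← rpow_neg hr.le]; norm_num
  · exact hu.trans (rpow_le_rpow_of_exponent_le hn' (by norm_num))
  · rw [rpow_neg (by positivity)]
    refine inv_anti₀ (by positivity) ((pow_le_pow_left₀ (by positivity) hu 50).trans (le_of_eq ?_))
    rw [← rpow_natCast, ← rpow_mul (by positivity)]; norm_num

theorem win_of (hG : GoodStmt) (hL : LnkStmt) : WinGlue := by
  intro hS hT hC ε hε
  obtain ⟨C0, -, hG⟩ := hG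
  obtain ⟨L, w₁, hL0, hG⟩ := hG (ε / 2) (half_pos hε)
  obtain ⟨w₂, hS⟩ := hS L C0 hL0
  obtain ⟨B, K, c, hB, hK, hc, hS⟩ := hS (max w₁ w₂) (le_max_right _ _)
  obtain ⟨D, hD, hexp⟩ := exp_le hc
  refine ⟨2 * B * D + 31 * B + 60, K, by positivity, hK, ?_⟩
  filter_upwards [hG _ (le_max_left w₁ w₂), hS, eventually_ge_atTop 1,
    (ENNReal.tendsto_nhds_zero.1 hC) (ENNReal.ofReal (ε / 2)) (by simpa using hε)]
    with n h1 h2 hn h3
  refine le_trans (measure_mono (t := _ ∪ _) fun W hW => ?_) ((measure_union_le _ _).trans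
    ((add_le_add h1 h3).trans (le_of_eq ?_)))
  swap
  · rw [← ENNReal.ofReal_add (half_pos hε).le (half_pos hε).le, add_halves]
  by_contra hcon
  simp only [Set.mem_union, Set.mem_ofPred_eq, not_or, not_not] at hcon
  obtain ⟨⟨hH, hGd⟩, hchi⟩ := hcon
  refine hW fun r hr => ?_
  obtain ⟨hcp, hcd, -, hO, -⟩ := hL n hn
  obtain ⟨O, hO, -, hnu⟩ := hO W hH
  have hr1 : 1 ≤ r := hK.trans hr.1
  have hr2 : r ≤ Tw n - r := by linarith [hr.2]
  obtain ⟨u, hu, e1, e2, e3, e4, e5, e6⟩ := scales hn hr1 (by linarith)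
  have hu0 : 0 < u := by linarith
  have := (hcd (Lam n W) (sx n ^ 2) (pow_pos (sx_pos hn) 2)).1.prob
  have h4 := OffY.map hO (h2 _ hGd r hr.1).1
  rw [← hnu, e2, e3, min_eq_left (pow_le_pow_left₀ hu0.le e5 2),
    max_eq_left (inv_anti₀ hu0 e5)] at h4
  have hx : 0 ≤ (n : ℝ) ^ (-(1 / 4) : ℝ) := by positivity
  have h5 := hT (Fin n) _ _ (hcp W).1 (hcp W).2.1 r (Tw n - r) _ u⁻¹ _ _ (by linarith)
    (by linarith) hx (by positivity) (by positivity) (by positivity)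
    (by rw [add_sub_cancel]; exact hchi) h4
  rw [e3, e4]
  have hi : u⁻¹ ≤ 1 := inv_le_one_of_one_le₀ hu
  refine OffY.mono h5 ?_ fun y hy => CovB.mono hy ?_
  · have h6 := hexp u hu0
    have h7 : (n : ℝ) ^ (-(1 / 4) : ℝ) / u⁻¹ ^ 2 ≤ (u ^ 48)⁻¹ := by
      rw [div_le_iff₀ (by positivity)]
      refine e6.trans (le_of_eq ?_)
      field_simp
    have h8 : (u ^ 50)⁻¹ ≤ (u ^ 48)⁻¹ :=
      inv_anti₀ (by positivity) (pow_le_pow_right₀ hu (by norm_num))
    have h9 : 0 < (u ^ 48)⁻¹ := by positivity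
    rw [mul_div_assoc]
    nlinarith [mul_le_mul_of_nonneg_left h6 hB.le, mul_pos hB h9]
  · have hr0 : 0 < r := by linarith
    have h6 : 1 / (Tw n - r) ≤ 1 / r := one_div_le_one_div_of_le hr0 hr2
    have h7 : 0 < u⁻¹ := by positivity
    calc _ ≤ (1 + B * u⁻¹) / r + 30 * u⁻¹ * ((1 + B * 1) / r + 1 / r) := by gcongr
      _ = (1 + (31 * B + 60) * u⁻¹) / r := by ring
      _ ≤ _ := by gcongr; nlinarith [mul_pos hB hD]

section cube

variable {Ω ι : Type*} [Fintype Ω] [Nonempty Ω] [Fintype ι] {w : Ω → ℝ}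

theorem int_pst (hw : ∀ x, 0 < w x) (φ : Ω → ι → ℝ) (r : ℝ) (y : ι → ℝ) (F : (ι → ℝ) → ℝ) :
    ∫ x, F x ∂pst r (dm w φ) y = mean (post φ w r y) fun x => F (φ x) := by
  have hw' : ∀ x, 0 ≤ w x := fun x => (hw x).le
  rw [pst, integral_tilted, integral_dm hw', integral_dm hw']
  refine sum_congr rfl fun x _ => ?_
  have := SL.prob_mul_weight w (fun x => exp (y ⬝ᵥ φ x - r / 2 * (φ x ⬝ᵥ φ x)))
    (sum_pos (fun x _ => hw x) univ_nonempty).ne' x
  change prob (post φ w r y) x = _ at this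
  simp only [this, smul_eq_mul]
  ring

theorem var_pst (hw : ∀ x, 0 < w x) (φ : Ω → ι → ℝ) (r : ℝ) (y v : ι → ℝ) :
    Var[fun x => v ⬝ᵥ x; pst r (dm w φ) y] = var (post φ w r y) fun x => v ⬝ᵥ φ x := by
  rw [variance_eq_integral (by fun_prop), int_pst hw, int_pst hw]
  rfl

omit [Nonempty Ω] in
theorem lawY_dm (w : Ω → ℝ) (φ : Ω → ι → ℝ) (r : ℝ) : lawY r (dm w φ) = SL.law φ w r := by
  ext A hA
  have hm : Measurable fun p : (ι → ℝ) × (ι → ℝ) => r • p.1 + √r • p.2 := by fun_prop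
  rw [lawY, Measure.map_apply hm hA, Measure.prod_apply (hm hA), dm, SL.law,
    lintegral_finsetSum_measure, Measure.coe_finsetSum, Finset.sum_apply]
  refine sum_congr rfl fun x _ => ?_
  rw [lintegral_smul_measure, lintegral_dirac, Measure.smul_apply,
    Measure.map_apply (by fun_prop) hA]
  rfl

end cube

end Win34

open Win34 in
/-- the window bound in the words of `CritDef_97` -/
theorem winC (h : WinStmt) (ε : ℝ) (hε : 0 < ε) : ∃ C K : ℝ, 0 < C ∧ 1 ≤ K ∧ ∀ᶠ n in atTop,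
    GOE n {W | ¬ ∀ r ∈ Set.Icc (K / tau n) (Tw n / 2 / tau n), Crit.CovAt (ising W 0) r
      ((1 + C * (tau n * r) ^ (-(1 / 4) : ℝ)) / r) (C * (tau n * r) ^ (-12 : ℝ))} ≤
      ENNReal.ofReal ε := by
  obtain ⟨C, K, hC, hK, h⟩ := h ε hε
  refine ⟨C, K, hC, hK, ?_⟩
  filter_upwards [h, eventually_ge_atTop 1] with n h hn
  refine le_trans (measure_mono fun W hW => ?_) h
  refine fun h' => hW fun r hr => ?_
  have ht := tau_pos hn
  have hs := pow_pos (sx_pos hn) 2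
  have hts : tau n = (sx n ^ 2) ^ 2 := by rw [tau_eq]; ring
  have h1 : K ≤ tau n * r := by rw [mul_comm]; exact (div_le_iff₀ ht).1 hr.1
  have hr0 : 0 < r := lt_of_lt_of_le (by positivity) hr.1
  obtain ⟨A, hA, h2, h3⟩ := h' (tau n * r) ⟨h1, by rw [mul_comm]; exact (le_div_iff₀ ht).1 hr.2⟩
  refine ENNReal.toReal_le_of_le_ofReal (by positivity) (le_trans ?_ h2)
  have hm : Measurable fun y : Fin n → ℝ => sx n ^ 2 • y := by fun_prop
  refine le_trans (measure_mono (t := (fun y => sx n ^ 2 • y) ⁻¹' A) fun y hy => ?_) (le_of_eq ?_)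
  · by_contra hy'
    refine hy fun v => ?_
    have h4 := (h3 _ hy' v).2
    have e : post (hat n) (ising W 0) (tau n * r) (sx n ^ 2 • y) = post sv (ising W 0) r y := by
      funext x
      simp only [post, hat, smul_dotProduct, dotProduct_smul, smul_eq_mul, hts]
      have := (sx_pos hn).ne'
      congr 2; field_simp
    rw [muW, var_pst (ising_pos W), e] at h4
    have e2 : var (post sv (ising W 0) r y) (fun x => v ⬝ᵥ hat n x) =
        (tau n)⁻¹ * (v ⬝ᵥ covM (tilt (ising W 0) y) *ᵥ v) := by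
      rw [covM, SL.covMat_quad]
      simp only [var, cov, mean, prob_post_sv, hat, dotProduct_smul, smul_eq_mul, hts,
        mul_left_comm _ (sx n ^ 2)⁻¹, ← mul_sum, ← mul_sub]
      rw [mul_sum]
      exact sum_congr rfl fun x _ => by ring
    rw [e2, inv_mul_le_iff₀ ht] at h4
    refine h4.trans (le_of_eq ?_)
    field_simp
  · rw [muW, lawY_dm, SL.law, SL.law, Measure.coe_finsetSum, Measure.coe_finsetSum,
      Finset.sum_apply, Finset.sum_apply]
    refine sum_congr rfl fun x _ => ?_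
    rw [Measure.smul_apply, Measure.smul_apply, ← Measure.map_apply hm hA,
      Measure.map_map hm (by fun_prop)]
    congr 3
    funext z
    rw [Function.comp_apply, hat, hts, sqrt_mul (sq_nonneg _), sqrt_sq hs.le, smul_add, smul_smul,
      smul_smul, smul_smul]
    congr 2
    field_simp

end Crest.Agent.T157.Sp

end
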