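import Crest.Agent.T157.CqDiscDef_34
import Crest.Agent.T157.SpWinA_34

/-!
# Row 157, part C (helper66): moments of the bad event (`Cq.Dc.PbL`)
-/

set_option autoImplicit false
set_option linter.unusedSectionVars false

noncomputable section

namespace Crest.Agent.T157.Cq.Dc

open MeasureTheory ProbabilityTheory Matrix Filter Topology Finset Real
open Crest.Agent.T157.E (prob post slE mean var covMat)
open Crest.Agent.T157.SL Crest.Agent.T157.Eig
open Crest.Agent.T157.St (dm ew Mf Xk)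
open Crest.Agent.T157.St.A87
open Crest.Agent.T157.Tr (pb nx ig Xp)

namespace Pb66

variable {Ω : Type} [Fintype Ω] [Nonempty Ω] {ι : Type} [Fintype ι] [DecidableEq ι]
  {φ : Ω → ι → ℝ} {w q : Ω → ℝ} {r : ℝ}

/-- expectation over two independent copies -/
def mm (q : Ω → ℝ) (G : Ω → Ω → ℝ) : ℝ := mean q fun a => mean q fun a' => G a a'

lemma cube_mean (hq : SL.Wt q) {f : Ω → ℝ} (hf : ∀ x, 0 ≤ f x) :
    mean q f ^ 3 ≤ mean q fun x => f x ^ 3 := by
  have h0 := hq.mean_nonneg hf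
  set m := mean q f with hm
  have h : mean q (fun x => -2 * m ^ 3 + 3 * m ^ 2 * f x) ≤ mean q fun x => f x ^ 3 :=
    hq.mean_mono fun x => by
      nlinarith [mul_nonneg (sq_nonneg (f x - m)) (add_nonneg (hf x) (add_nonneg h0 h0))]
  rw [mean_add, hq.mean_const, mean_const_mul, ← hm] at h
  nlinarith

lemma mm_nonneg (hq : SL.Wt q) {G : Ω → Ω → ℝ} (h : ∀ a a', 0 ≤ G a a') : 0 ≤ mm q G :=
  hq.mean_nonneg fun a => hq.mean_nonneg (h a)

lemma mm_mono (hq : SL.Wt q) {G H : Ω → Ω → ℝ} (h : ∀ a a', G a a' ≤ H a a') : mm q G ≤ mm q H :=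
  hq.mean_mono fun a => hq.mean_mono (h a)

lemma cube_mm (hq : SL.Wt q) {G : Ω → Ω → ℝ} (h : ∀ a a', 0 ≤ G a a') :
    mm q G ^ 3 ≤ mm q fun a a' => G a a' ^ 3 :=
  (cube_mean hq fun a => hq.mean_nonneg (h a)).trans (hq.mean_mono fun a => cube_mean hq (h a))

lemma mm_affine (hq : SL.Wt q) (c d : ℝ) (G : Ω → Ω → ℝ) :
    mm q (fun a a' => c + d * G a a') = c + d * mm q G := by
  simp only [mm, mean_add, hq.mean_const, mean_const_mul]

/-- second moments against the Hilbert–Schmidt norm -/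
lemma mean_sq_le (q : Ω → ℝ) (v : ι → ℝ) :
    (mean q fun a => (v ⬝ᵥ φ a) ^ 2) ^ 2 ≤ (v ⬝ᵥ v) ^ 2 * mm q fun a a' => (φ a ⬝ᵥ φ a') ^ 2 := by
  have e0 : ∀ x y : ι → ℝ, (x ⬝ᵥ y) ^ 2 = ∑ k : ι × ι, x k.1 * x k.2 * (y k.1 * y k.2) := by
    intro x y
    rw [sq, dotProduct, sum_mul_sum, Fintype.sum_prod_type]
    exact sum_congr rfl fun i _ => sum_congr rfl fun j _ => by ring
  have e1 : (mean q fun a => (v ⬝ᵥ φ a) ^ 2) =
      ∑ k : ι × ι, v k.1 * v k.2 * mean q fun a => φ a k.1 * φ a k.2 := by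
    simp only [e0, mean_sum, mean_const_mul]
  have e2 : (v ⬝ᵥ v) ^ 2 = ∑ k : ι × ι, (v k.1 * v k.2) ^ 2 := by simp only [e0, sq]
  have e3 : (mm q fun a a' => (φ a ⬝ᵥ φ a') ^ 2) =
      ∑ k : ι × ι, (mean q fun a => φ a k.1 * φ a k.2) ^ 2 := by
    simp only [mm, e0, mean_sum, mean_const_mul, mean_mul_const, sq]
  rw [e1, e2, e3]
  exact sum_mul_sq_le_sq_mul_sq _ _ _

lemma quad_le (hq : SL.Wt q) (v : ι → ℝ) :
    v ⬝ᵥ covMat q φ *ᵥ v ≤ mean q fun a => (v ⬝ᵥ φ a) ^ 2 := by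
  rw [covMat_quad, ← var_eq_cov]
  simpa using hq.var_le_mean (fun a => v ⬝ᵥ φ a) 0

lemma nx_le (hw : SL.Wt w) (hr : 0 ≤ r) (y : ι → ℝ) {c : ℝ} (hc : 0 ≤ c)
    (h : ∀ v, r * (v ⬝ᵥ covMat (post φ w r y) φ *ᵥ v) ≤ c * (v ⬝ᵥ v)) : nx φ w (r, y) ≤ c := by
  refine opn_le_of_quad ?_ hc fun v => ?_
  · exact (Matrix.conjTranspose_eq_transpose_of_trivial _).trans (Tr.Xp_transpose _)
  · rw [abs_of_nonneg (Tr.quad_X_nonneg hw hr v), Xp, smul_mulVec, dotProduct_smul, smul_eq_mul]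
    exact h v

lemma nx_pow_le (hw : SL.Wt w) (hr : 0 ≤ r) (y : ι → ℝ) :
    nx φ w (r, y) ^ 6 ≤ mm (post φ w r y) fun a a' => (r * (φ a ⬝ᵥ φ a')) ^ 6 := by
  have hq := hw.post φ r y
  set m := mm (post φ w r y) fun a a' => (φ a ⬝ᵥ φ a') ^ 2 with hm
  have m0 : 0 ≤ m := mm_nonneg hq fun _ _ => sq_nonneg _
  have h1 : nx φ w (r, y) ≤ r * √m := nx_le hw hr y (by positivity) fun v => by
    rw [mul_assoc]
    refine mul_le_mul_of_nonneg_left ((quad_le hq v).trans ?_) hr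
    refine (le_abs_self _).trans (abs_le_of_sq_le_sq' ?_
      (mul_nonneg (sqrt_nonneg _) (SL.dot_self_nonneg v))).2
    rw [sq_abs, mul_pow, sq_sqrt m0, mul_comm]
    exact mean_sq_le _ v
  have h2 : m ^ 3 ≤ mm (post φ w r y) fun a a' => ((φ a ⬝ᵥ φ a') ^ 2) ^ 3 :=
    cube_mm hq fun _ _ => sq_nonneg _
  have h3 := mm_affine hq 0 (r ^ 6) fun a a' => ((φ a ⬝ᵥ φ a') ^ 2) ^ 3
  calc nx φ w (r, y) ^ 6 ≤ (r * √m) ^ 6 := pow_le_pow_left₀ (Tr.nx_nonneg _) h1 6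
    _ = r ^ 6 * m ^ 3 := by rw [mul_pow, show 6 = 2 * 3 from rfl, pow_mul √m, sq_sqrt m0]
    _ ≤ r ^ 6 * _ := mul_le_mul_of_nonneg_left h2 (by positivity)
    _ = _ := by
      rw [zero_add] at h3
      rw [← h3]
      congr 1
      funext a a'
      ring

lemma mg_mm (hw : SL.Wt w) (r : ℝ) (G : Ω → Ω → ℝ) : MG fun y => mm (post φ w r y) G :=
  (eg_mean' (I := Set.univ) (φ := φ) hw fun a => eg_mean hw (G a)).mg (Set.mem_univ r)

/-- **pair inequality** -/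
lemma pair_le (hw : ∀ x, 0 < w x) (hr : 0 ≤ r) (G : Ω → Ω → ℝ) :
    ex φ w (fun p => mm (pw φ w p) G) r ≤
      (1 + ∑ a, ∑ a', prob w a * prob w a' * G a a' ^ 2 * exp (r * (φ a ⬝ᵥ φ a'))) / 2 := by
  classical
  have hW := SL.Wt.of_pos hw
  have p0 := hW.prob_nonneg
  have cp := St.Lnk10.cp_dm hw φ
  have mS := mg_mm (φ := φ) hW r G
  rw [ex, ← Sg.IK_Mf_dm hw hr mS]
  have mG : ∀ a a' : Ω, MG fun y => prob w a * prob w a' * G a a' ^ 2 *
      (ew r y (φ a) * ew r y (φ a')) := fun a a' => ((mg_ew hr _).mul (mg_ew hr _)).const_mul _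
  have mG2 : MG fun y => ∑ a, ∑ a', prob w a * prob w a' * G a a' ^ 2 *
      (ew r y (φ a) * ew r y (φ a')) := .sum _ fun a _ => .sum _ fun a' _ => mG a a'
  refine (IK_mono ((mg_Mf cp hr).mul mS) (((MG.const 1).add mG2).const_mul (1 / 2))
    fun y => ?_).trans (le_of_eq ?_)
  · have hM := Mf_pos cp hr y
    have eM : Mf r (dm w φ) y = ∑ a, prob w a * ew r y (φ a) :=
      St.Lnk10.integral_dm (fun x => (hw x).le) _ _
    set M := Mf r (dm w φ) y
    have e1 : ∀ f : Ω → ℝ, mean (post φ w r y) f = (∑ a, prob w a * (ew r y (φ a) * f a)) / M :=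
      fun f => by
        rw [eM]; exact mean_mul_weight w (fun x => ew r y (φ x)) f hW.pos.ne'
    have e2 : M * mm (post φ w r y) G = ∑ a, ∑ a', prob w a * ew r y (φ a) *
        (prob w a' * ew r y (φ a')) * (G a a' / M) := by
      simp only [mm, e1]
      rw [mul_div_cancel₀ _ hM.ne']
      refine sum_congr rfl fun a _ => ?_
      rw [sum_div, mul_sum, mul_sum]
      exact sum_congr rfl fun a' _ => by ring
    have e3 : 1 / 2 * (1 + ∑ a, ∑ a', prob w a * prob w a' * G a a' ^ 2 *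
        (ew r y (φ a) * ew r y (φ a'))) = ∑ a, ∑ a', prob w a * ew r y (φ a) *
          (prob w a' * ew r y (φ a')) * ((M⁻¹ ^ 2 + G a a' ^ 2) / 2) := by
      simp only [add_div, mul_add, sum_add_distrib, ← sum_mul, ← mul_sum, ← eM]
      congr 1
      · field_simp
      · rw [mul_sum]
        refine sum_congr rfl fun a _ => ?_
        rw [mul_sum]
        exact sum_congr rfl fun a' _ => by ring
    rw [e2, e3]
    refine sum_le_sum fun a _ => sum_le_sum fun a' _ => mul_le_mul_of_nonneg_left ?_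
      (mul_nonneg (mul_nonneg (p0 a) (ew_pos _ _ _).le) (mul_nonneg (p0 a') (ew_pos _ _ _).le))
    rw [div_eq_mul_inv (G a a')]
    nlinarith [sq_nonneg (G a a' - M⁻¹)]
  · rw [IK_const_mul, IK_add (.const 1) mG2, IK_const,
      IK_sum _ fun a _ => .sum _ fun a' _ => mG a a']
    simp only [IK_sum _ fun a' _ => mG _ a', IK_const_mul, IK_ew_ew hr]
    ring

lemma Xk_dm (hw : ∀ x, 0 < w x) (θ : ℝ) : Xk θ (dm w φ) (dm w φ) =
    ∑ a, ∑ a', prob w a * prob w a' * exp (θ * (φ a ⬝ᵥ φ a')) := by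
  simp only [St.Xk, St.Lnk10.integral_dm fun x => (hw x).le, mean, mul_sum, mul_assoc]

lemma ex_exp_le (hw : ∀ x, 0 < w x) (hr : 0 ≤ r) :
    ex φ w (fun p => mm (pw φ w p) fun a a' => exp |r * (φ a ⬝ᵥ φ a')|) r ≤
      (1 + Xk (3 * r) (dm w φ) (dm w φ) + Xk (-r) (dm w φ) (dm w φ)) / 2 := by
  have p0 := (SL.Wt.of_pos hw).prob_nonneg
  refine (pair_le hw hr _).trans ?_
  rw [Xk_dm hw, Xk_dm hw, add_assoc, ← sum_add_distrib]
  gcongr with a
  rw [← sum_add_distrib]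
  gcongr with a'
  rw [mul_assoc, ← mul_add]
  refine mul_le_mul_of_nonneg_left ?_ (mul_nonneg (p0 a) (p0 a'))
  rw [sq, ← exp_add, ← exp_add, mul_assoc, neg_mul]
  set u := r * (φ a ⬝ᵥ φ a')
  rcases le_total 0 u with h | h
  · rw [abs_of_nonneg h, show u + u + u = 3 * u by ring]
    linarith [exp_pos (-u)]
  · rw [abs_of_nonpos h, show -u + -u + u = -u by ring]
    linarith [exp_pos (3 * u)]

lemma add_pow_six {a b : ℝ} (ha : 0 ≤ a) (hb : 0 ≤ b) : (a + b) ^ 6 ≤ 32 * (a ^ 6 + b ^ 6) := by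
  have := add_pow_le ha hb 6
  norm_num at this
  exact this

lemma pow_six_le (u : ℝ) {Λ : ℝ} (hΛ : 0 ≤ Λ) :
    u ^ 6 ≤ 32 * Λ ^ 6 + 23040 * exp (-Λ) * exp |u| := by
  have e : u ^ 6 = |u| ^ 6 := by rw [show 6 = 2 * 3 from rfl, pow_mul, pow_mul, sq_abs]
  rw [e, mul_assoc, ← exp_add]
  have h0 := abs_nonneg u
  set v := |u|
  rcases le_total v Λ with h | h
  · have := pow_le_pow_left₀ h0 h 6
    nlinarith [exp_pos (-Λ + v), pow_nonneg hΛ 6]
  · have h1 := add_pow_six hΛ (sub_nonneg.2 h)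
    have h2 := pow_div_factorial_le_exp (v - Λ) (sub_nonneg.2 h) 6
    norm_num [Nat.factorial] at h2
    rw [add_sub_cancel] at h1
    rw [show -Λ + v = v - Λ by ring]
    linarith

/-- sixth moment of the covariance norm -/
lemma ex_six (hw : ∀ x, 0 < w x) (hr : 1 ≤ r) {B : ℝ} (hB : 1 ≤ B)
    (h : ∀ θ : ℝ, |θ| ≤ 3 * r → Xk θ (dm w φ) (dm w φ) ≤ B * exp (B * |θ| ^ (3 / 2 : ℝ))) :
    ex φ w (fun p => ((1 + nx φ w p) ^ 3) ^ 2) r ≤ 10 ^ 8 * B ^ 6 * r ^ 10 := by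
  have hW := SL.Wt.of_pos hw
  have r0 : 0 ≤ r := by linarith
  set Λ := B * (3 * r) ^ (3 / 2 : ℝ) with hΛ
  have Λ0 : 0 ≤ Λ := by positivity
  have X1 : Xk (3 * r) (dm w φ) (dm w φ) ≤ B * exp Λ := by
    have := h (3 * r) (by rw [abs_of_nonneg (by positivity)])
    rwa [abs_of_nonneg (by positivity)] at this
  have X2 : Xk (-r) (dm w φ) (dm w φ) ≤ B * exp Λ := by
    have := h (-r) (by rw [abs_neg, abs_of_nonneg r0]; linarith)
    rw [abs_neg, abs_of_nonneg r0] at this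
    refine this.trans ?_
    rw [hΛ]
    gcongr
    linarith
  have h1 := ex_exp_le (φ := φ) hw r0
  have mE := mg_mm (φ := φ) hW r fun a a' => exp |r * (φ a ⬝ᵥ φ a')|
  have h2 : ex φ w (fun p => ((1 + nx φ w p) ^ 3) ^ 2) r ≤ ex φ w (fun p =>
      (32 + 1024 * Λ ^ 6) + 737280 * exp (-Λ) *
        mm (pw φ w p) fun a a' => exp |r * (φ a ⬝ᵥ φ a')|) r := by
    refine ex_mono hW (Tr.MG.pow' (Tr.MG.pow' ((MG.const 1).add (Tr.mg_nx hW r)) 3) 2)
      ((MG.const _).add (mE.const_mul _)) fun y => ?_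
    have a1 := add_pow_six zero_le_one (Tr.nx_nonneg (φ := φ) (w := w) (r, y))
    have a2 := nx_pow_le (φ := φ) hW r0 y
    have a3 := mm_mono (hW.post φ r y) fun a a' => pow_six_le (r * (φ a ⬝ᵥ φ a')) Λ0
    rw [mm_affine (hW.post φ r y)] at a3
    rw [← pow_mul]
    change (1 + nx φ w (r, y)) ^ 6 ≤ _ + _ * mm (post φ w r y) _
    rw [one_pow] at a1
    linarith
  rw [ex_add (.const _) (mE.const_mul _), ex_const hW, ex_const_mul] at h2
  have h3 : exp (-Λ) * ex φ w (fun p => mm (pw φ w p) fun a a' => exp |r * (φ a ⬝ᵥ φ a')|) r ≤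
      2 * B := by
    have e1 : exp (-Λ) * exp Λ = 1 := by rw [← exp_add, neg_add_cancel, exp_zero]
    have e2 : exp (-Λ) ≤ 1 := exp_le_one_iff.2 (by linarith)
    refine (mul_le_mul_of_nonneg_left (h1.trans (show _ ≤ 1 / 2 + B * exp Λ by linarith))
      (exp_pos _).le).trans ?_
    rw [mul_add, mul_left_comm, e1]
    linarith
  have h4 : Λ ^ 6 = 19683 * B ^ 6 * r ^ 9 := by
    rw [hΛ, mul_pow, ← rpow_natCast ((3 * r) ^ (3 / 2 : ℝ)), ← rpow_mul (by positivity),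
      show (3 / 2 : ℝ) * ((6 : ℕ) : ℝ) = ((9 : ℕ) : ℝ) by norm_num, rpow_natCast]
    ring
  have b1 : B ≤ B ^ 6 := by simpa using pow_le_pow_right₀ hB (show 1 ≤ 6 by norm_num)
  have b2 : r ^ 9 ≤ r ^ 10 := pow_le_pow_right₀ hr (by norm_num)
  have b3 : 1 ≤ r ^ 10 := one_le_pow₀ hr
  have b4 : B ^ 6 * r ^ 9 ≤ B ^ 6 * r ^ 10 := mul_le_mul_of_nonneg_left b2 (by positivity)
  have b5 : B ^ 6 ≤ B ^ 6 * r ^ 10 := le_mul_of_one_le_right (by positivity) b3
  rw [mul_assoc 737280, h4] at h2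
  nlinarith

end Pb66

open Pb66 in
/-- **task 729** -/
theorem pbL : PbL := by
  intro B hB
  refine ⟨10 ^ 4 * B ^ 3, by nlinarith [one_le_pow₀ (n := 3) hB], ?_⟩
  intro Ω ι _ _ _ _ w φ ε r p hw hr hp hε ⟨A, hA, h1, h2⟩
  have hW := SL.Wt.of_pos hw
  have r0 : 0 < r := by linarith
  have hl : (law φ w r).real A ≤ p := by
    rw [Sp.Win34.lawY_dm] at h1
    exact ENNReal.toReal_le_of_le_ofReal hp h1
  have hi : ∀ y, 1 - ig φ w ε (r, y) ≤ A.indicator (fun _ => (1 : ℝ)) y := by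
    intro y
    by_cases hy : y ∈ A
    · rw [Set.indicator_of_mem hy]; linarith [Tr.ig_nonneg (φ := φ) (w := w) (ε := ε) (r, y)]
    · have : nx φ w (r, y) ≤ 1 + ε r := nx_le hW r0.le y (by linarith) fun v => by
        have := (h2 y hy v).2
        rw [Sp.Win34.var_pst hw, div_mul_eq_mul_div, le_div_iff₀ r0] at this
        rw [covMat_quad, ← var_eq_cov, mul_comm]
        exact this
      rw [Set.indicator_of_notMem hy, ig, if_pos this, sub_self]
  have mN : MG fun y => (1 + nx φ w (r, y)) ^ 3 :=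
    Tr.MG.pow' ((MG.const 1).add (Tr.mg_nx hW r)) 3
  have n0 : ∀ y, 0 ≤ 1 + nx φ w (r, y) := fun y => by
    linarith [Tr.nx_nonneg (φ := φ) (w := w) (r, y)]
  have h3 : pb φ w ε 3 r ≤
      ex φ w (fun q => A.indicator (fun _ => (1 : ℝ)) q.2 * (1 + nx φ w q) ^ 3) r :=
    ex_mono hW (Tr.mg_pb hW ε 3 r) ((Tr.mg_ind hA).mul mN) fun y =>
      mul_le_mul_of_nonneg_right (hi y) (pow_nonneg (n0 y) 3)
  have i0 : ∀ y, 0 ≤ A.indicator (fun _ => (1 : ℝ)) y := fun y =>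
    Set.indicator_nonneg (fun _ _ => zero_le_one) y
  refine ⟨fun ϱ hϱ => h3.trans ?_, fun h => h3.trans ?_⟩
  · have ϱ0 : 0 ≤ ϱ := (SL.dot_self_nonneg _).trans (hϱ (Classical.arbitrary Ω))
    have h4 : ∀ y, nx φ w (r, y) ≤ r * ϱ := fun y => nx_le hW r0.le y (by positivity) fun v => by
      rw [mul_assoc]
      refine mul_le_mul_of_nonneg_left ((quad_le (hW.post φ r y) v).trans
        ((hW.post φ r y).mean_le fun a => ?_)) r0.le
      have c : (v ⬝ᵥ φ a) ^ 2 ≤ (v ⬝ᵥ v) * (φ a ⬝ᵥ φ a) := by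
        simpa only [dotProduct, sq] using sum_mul_sq_le_sq_mul_sq univ v (φ a)
      nlinarith [mul_le_mul_of_nonneg_left (hϱ a) (SL.dot_self_nonneg v)]
    refine (ex_mono hW ((Tr.mg_ind hA).mul mN) ((Tr.mg_ind hA).const_mul ((1 + r * ϱ) ^ 3))
      (H := fun q => (1 + r * ϱ) ^ 3 * A.indicator (fun _ => (1 : ℝ)) q.2) fun y => ?_).trans ?_
    · rw [mul_comm]
      exact mul_le_mul_of_nonneg_right (pow_le_pow_left₀ (n0 y) (by linarith [h4 y]) 3) (i0 y)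
    · rw [ex_const_mul, Tr.ex_ind hW hA]
      exact mul_le_mul_of_nonneg_left hl (by positivity)
  · have h4 := ex_mul_sq_le (φ := φ) (G := fun q => A.indicator (fun _ => (1 : ℝ)) q.2)
      (H := fun q => (1 + nx φ w q) ^ 3) (t := r) hW (Tr.mg_ind hA) mN
    have h5 : ex φ w (fun q => A.indicator (fun _ => (1 : ℝ)) q.2 ^ 2) r = (law φ w r).real A := by
      rw [← Tr.ex_ind hW hA]
      exact ex_congr fun y => by by_cases hy : y ∈ A <;> simp [hy]
    have h6 := ex_six hw hr hB h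
    have h7 : 0 ≤ ex φ w (fun p => ((1 + nx φ w p) ^ 3) ^ 2) r := ex_nonneg hW fun _ => sq_nonneg _
    rw [h5] at h4
    refine (le_abs_self _).trans (abs_le_of_sq_le_sq' ?_ (by positivity)).2
    rw [sq_abs, mul_pow, sq_sqrt hp]
    refine h4.trans ((mul_le_mul hl h6 h7 hp).trans (le_of_eq ?_))
    ring

end Crest.Agent.T157.Cq.Dc

end
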