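import Crest.Agent.T157.CqDiscDef_34
import Crest.Agent.T157.SpTrf_85

/-!
# Row 157, part C (helper67): `Dc.PiL` and `Dc.CondL`
-/

set_option autoImplicit false
set_option linter.unusedSectionVars false

noncomputable section

namespace Crest.Agent.T157.Cq.Dc

open MeasureTheory ProbabilityTheory Matrix Filter Topology Finset Real
open Crest.Agent.T157.E Crest.Agent.T157.St Crest.Agent.T157.Ed Crest.Agent.T157.St.A87
open Crest.Agent.T157.Sp (OffY pst lawY CovB Mom)

namespace Pi67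

section abs
variable {ι : Type} [Fintype ι] [DecidableEq ι] {μ : Measure (ι → ℝ)}

theorem covB_of_mom {a : ℝ} (h : Mom μ a) : CovB μ a := by
  obtain ⟨_, m, h⟩ := h
  intro v
  obtain ⟨h4, h2, -⟩ := h v
  have hc : Continuous fun x : ι → ℝ => v ⬝ᵥ (x - m) := by fun_prop
  have hl : MemLp (fun x : ι → ℝ => v ⬝ᵥ (x - m)) 2 μ := by
    rw [memLp_two_iff_integrable_sq hc.aestronglyMeasurable]
    refine ((integrable_const 1).add h4).mono' (hc.pow 2).aestronglyMeasurable
      (.of_forall fun x => ?_)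
    rw [Real.norm_eq_abs, abs_of_nonneg (sq_nonneg _), Pi.add_apply]
    nlinarith [sq_nonneg ((v ⬝ᵥ (x - m)) ^ 2 - 1), sq_nonneg (v ⬝ᵥ (x - m))]
  have e : (fun x : ι → ℝ => v ⬝ᵥ x) = fun x => v ⬝ᵥ (x - m) + v ⬝ᵥ m := by
    funext x; rw [dotProduct_sub]; ring
  rw [e, variance_add_const hc.aestronglyMeasurable]
  exact ⟨hl.add (memLp_const _), (variance_le_expectation_sq hc.aestronglyMeasurable).trans h2⟩

theorem covB_mono {a b : ℝ} (h : CovB μ a) (hab : a ≤ b) : CovB μ b := fun v =>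
  ⟨(h v).1, (h v).2.trans (mul_le_mul_of_nonneg_right hab
    (sum_nonneg fun _ _ => mul_self_nonneg _))⟩

theorem ofr_le {α : Type*} [MeasurableSpace α] (ν : Measure α) {f : α → ℝ} (hf : ∀ x, 0 ≤ f x) :
    ENNReal.ofReal (∫ x, f x ∂ν) ≤ ∫⁻ x, ENNReal.ofReal (f x) ∂ν := by
  by_cases h : Integrable f ν
  · exact (ofReal_integral_eq_lintegral_ofReal h (.of_forall hf)).le
  · rw [integral_undef h]; simp

theorem meas_Bl (ϱ : ℝ) : MeasurableSet (Bl ι ϱ) :=
  measurableSet_le (by fun_prop) measurable_const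

theorem ew_bd {r : ℝ} (hr : 0 < r) (y x : ι → ℝ) : ew r y x ≤ exp (y ⬝ᵥ y / (2 * r)) := by
  rw [ew, exp_le_exp, le_div_iff₀ (by positivity)]
  have h := Eig.dot_self_nonneg (y - r • x)
  simp only [sub_dotProduct, dotProduct_sub, smul_dotProduct, dotProduct_smul, smul_eq_mul,
    dotProduct_comm x y] at h
  nlinarith

theorem int_ew [IsFiniteMeasure μ] {r : ℝ} (hr : 0 < r) (y : ι → ℝ) : Integrable (ew r y) μ :=
  Integrable.of_bound (measurable_ew r measurable_const measurable_id).aestronglyMeasurable _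
    (.of_forall fun x => by rw [Real.norm_eq_abs, abs_of_pos (ew_pos _ _ _)]; exact ew_bd hr y x)

theorem meas_Mf [SFinite μ] (r : ℝ) : Measurable (Mf r μ) :=
  (StronglyMeasurable.integral_prod_right (f := fun y x => ew r y x)
    (continuous_ew r).stronglyMeasurable).measurable

/-- the output density has total mass `μ univ` -/
theorem tot_Mf [IsFiniteMeasure μ] {r : ℝ} (hr : 0 < r) :
    Integrable (fun z => Mf r μ (√r • z)) (gv ι) ∧ IK r (Mf r μ) = μ.real Set.univ := by
  have hi : Integrable (fun p : (ι → ℝ) × (ι → ℝ) => ew r (√r • p.1) p.2) ((gv ι).prod μ) := by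
    rw [integrable_prod_iff' (measurable_ew r (by fun_prop) measurable_snd).aestronglyMeasurable]
    refine ⟨.of_forall fun x => intK (mg_ew hr.le x) r, ?_⟩
    have : ∀ x : ι → ℝ, ∫ z, ‖ew r (√r • z) x‖ ∂gv ι = 1 := fun x => by
      simp only [Real.norm_eq_abs, abs_of_pos (ew_pos _ _ _)]
      exact IK_ew hr.le x
    simp only [this]
    exact integrable_const 1
  refine ⟨hi.integral_prod_left, ?_⟩
  have h := integral_integral_swap (f := fun z x => ew r (√r • z) x) hi
  have e : ∀ x : ι → ℝ, ∫ z, ew r (√r • z) x ∂gv ι = 1 := IK_ew hr.le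
  simp only [e, integral_const, smul_eq_mul, mul_one] at h
  exact h

theorem lawY_le {ν : Measure (ι → ℝ)} (h : ν ≤ (2 : ENNReal) • μ) (r : ℝ) {A : Set (ι → ℝ)}
    (hA : MeasurableSet A) : lawY r ν A ≤ 2 * lawY r μ A := by
  have hm : Measurable fun p : (ι → ℝ) × (ι → ℝ) => r • p.1 + √r • p.2 := by fun_prop
  rw [lawY, lawY, Measure.map_apply hm hA, Measure.map_apply hm hA, Measure.prod_apply (hm hA),
    Measure.prod_apply (hm hA)]
  refine (lintegral_mono' h le_rfl).trans (le_of_eq ?_)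
  rw [lintegral_smul_measure, smul_eq_mul]

theorem int_cond (S : Set (ι → ℝ)) (f : (ι → ℝ) → ℝ) :
    ∫ x, f x ∂μ[|S] = (μ.real S)⁻¹ * ∫ x in S, f x ∂μ := by
  rw [ProbabilityTheory.cond, integral_smul_measure, ENNReal.toReal_inv, smul_eq_mul]; rfl

end abs

theorem exp_le {c : ℝ} (hc : 0 < c) (k : ℕ) : ∃ D : ℝ, 0 < D ∧ ∀ u : ℝ, 0 < u →
    exp (-(c * u)) ≤ D * (u ^ k)⁻¹ := by
  refine ⟨(Nat.factorial k : ℝ) / c ^ k, by positivity, fun u hu => ?_⟩
  have h := pow_div_factorial_le_exp (x := c * u) (by positivity) k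
  rw [exp_neg, inv_le_comm₀ (exp_pos _) (by positivity)]
  refine le_trans (le_of_eq ?_) h
  rw [mul_pow]; field_simp

end Pi67

open Pi67

theorem piL : PiL := by
  intro hS hL L C L0
  obtain ⟨w₂, hS⟩ := hS L C L0
  refine ⟨w₂, fun w hw => ?_⟩
  obtain ⟨B, K, c, hB, hK, hc, hS⟩ := hS w hw
  obtain ⟨D, D0, hD⟩ := exp_le hc 504
  refine ⟨1 + B + B * D, max K ((L + 2) ^ 36), by nlinarith [mul_pos hB D0], le_max_of_le_left hK,
    ?_⟩
  filter_upwards [hS, eventually_ge_atTop 1] with n hS hn η hη r hr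
  have n1 : (1 : ℝ) ≤ n := by exact_mod_cast hn
  have r1 : 1 ≤ r := hK.trans ((le_max_left _ _).trans hr)
  have r0 : 0 < r := by linarith
  have BD : 0 < B * D := mul_pos hB D0
  set u : ℝ := r ^ (1 / 36 : ℝ) with hu
  have hp : ∀ k : ℕ, u ^ k = r ^ ((k : ℝ) / 36) := fun k => by
    rw [hu, ← rpow_natCast, ← rpow_mul r0.le]; congr 1; ring
  have u1 : 1 ≤ u := one_le_rpow r1 (by norm_num)
  have u0 : 0 < u := by linarith
  have e36 : u ^ 36 = r := by rw [hp]; norm_num
  have e1 : r ^ (-(1 / 36) : ℝ) = u⁻¹ := rpow_neg r0.le _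
  have s0 : 0 < sx n := rpow_pos_of_pos (by linarith) _
  have s6 : sx n ^ 6 = n := by
    rw [sx, ← rpow_natCast, ← rpow_mul (by linarith)]; norm_num
  have s18 : sx n ^ 18 = (n : ℝ) ^ 3 := by rw [← s6]; ring
  rw [e1]
  split_ifs with h3
  · obtain ⟨A, hA, h1, h2⟩ := (hS η hη r ((le_max_left _ _).trans hr)).2 ((n : ℝ) ^ 2)
      (one_le_pow₀ n1)
    have su : u ^ 2 ≤ sx n := by
      refine (pow_le_pow_iff_left₀ (by positivity) s0.le (n := 18) (by norm_num)).1 ?_
      rw [s18, ← pow_mul]; exact e36.trans_le h3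
    have uu : u ≤ u ^ 2 := by nlinarith
    refine ⟨A, hA, h1.trans (ENNReal.ofReal_le_ofReal ?_), fun y hy =>
      covB_mono (covB_of_mom (h2 y hy)) ?_⟩
    · have e14 : r ^ (-14 : ℝ) = (u ^ 504)⁻¹ := by rw [hp, ← rpow_neg r0.le]; norm_num
      have m1 : u ≤ min √r (sx n ^ 2) := by
        refine le_min (le_sqrt_of_sq_le ?_) (by nlinarith)
        rw [← e36]; exact pow_le_pow_right₀ u1 (by norm_num)
      have h4 : exp (-(c * min √r (sx n ^ 2))) ≤ D * (u ^ 504)⁻¹ :=
        (exp_le_exp.2 (neg_le_neg (mul_le_mul_of_nonneg_left m1 hc.le))).trans (hD u u0)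
      rw [e14]
      refine (mul_le_mul_of_nonneg_left h4 hB.le).trans ?_
      rw [← mul_assoc]
      exact mul_le_mul_of_nonneg_right (by linarith) (by positivity)
    · refine div_le_div_of_nonneg_right (add_le_add_right ?_ 1) r0.le
      refine mul_le_mul (by linarith) (max_le ?_ (inv_anti₀ u0 (uu.trans su))) (by positivity)
        (by positivity)
      rw [← e1]
      exact rpow_le_rpow_of_exponent_le r1 (by norm_num)
  · have su : sx n ≤ u ^ 2 := by
      refine (pow_le_pow_iff_left₀ s0.le (by positivity) (n := 18) (by norm_num)).1 ?_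
      rw [s18, ← pow_mul]; exact (not_le.1 h3).le.trans e36.ge
    have uL : L + 2 ≤ u := by
      refine (pow_le_pow_iff_left₀ (by positivity) u0.le (n := 36) (by norm_num)).1 ?_
      rw [e36]; exact (le_max_right _ _).trans hr
    refine ⟨∅, MeasurableSet.empty, by simp, fun y _ => ?_⟩
    refine covB_mono (hL n η (sx n ^ 2) ((n : ℝ) ^ 2) r (r / (1 + u⁻¹)) y (by positivity)
      (by positivity) fun k => ?_).2 ?_
    · have h1 := hη.lo k k.2
      have h2 : 0 ≤ ((k : ℝ) + 1) ^ (2 / 3 : ℝ) / 256 := by positivity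
      have h4 : (n : ℝ) ^ 2 * sx n ^ 2 ≤ u ^ 28 := by
        rw [← s6, show (sx n ^ 6) ^ 2 * sx n ^ 2 = sx n ^ 14 by ring, show u ^ 28 = (u ^ 2) ^ 14 by
          ring]
        exact pow_le_pow_left₀ s0.le su 14
      have h5 : r / (1 + u⁻¹) ≤ r - u ^ 35 / 2 := by
        rw [div_le_iff₀ (by positivity), ← e36]
        have : (u ^ 36 - u ^ 35 / 2) * (1 + u⁻¹) = u ^ 36 + u ^ 34 * (u - 1) / 2 := by
          field_simp; ring
        rw [this]
        have : 0 ≤ u ^ 34 * (u - 1) := mul_nonneg (by positivity) (by linarith)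
        linarith
      have h6 : u ^ 2 ≤ u ^ 7 := pow_le_pow_right₀ u1 (by norm_num)
      have h7 : 1 ≤ u ^ 28 := one_le_pow₀ u1
      have h8 : 2 * L ≤ u ^ 7 - 1 := by nlinarith
      have h9 : u ^ 35 = u ^ 28 * u ^ 7 := by ring
      nlinarith
    · rw [one_div_div]
      refine div_le_div_of_nonneg_right (add_le_add_right ?_ 1) r0.le
      exact le_mul_of_one_le_left (by positivity) (by linarith)

theorem condL : CondL := by
  intro ι _ μ ϱ q hμ hq q2
  classical
  set S := Bl ι ϱ with hS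
  have mS : MeasurableSet S := meas_Bl ϱ
  have m2 : 1 / 2 ≤ μ.real S := by
    have := probReal_compl_eq_one_sub (μ := μ) mS
    linarith
  have m0 : 0 < μ.real S := by linarith
  have mi : (μ.real S)⁻¹ ≤ 2 := by rw [inv_le_comm₀ m0 two_pos]; linarith
  have S0 : μ S ≠ 0 := fun h => by simp [Measure.real, h] at m0
  have hν : IsProbabilityMeasure μ[|S] := cond_isProbabilityMeasure S0
  have hae : ∀ᵐ x ∂μ[|S], x ⬝ᵥ x ≤ ϱ := ae_cond_mem mS
  have hle : μ[|S] ≤ (2 : ENNReal) • μ := by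
    intro A
    rw [ProbabilityTheory.cond, Measure.smul_apply, Measure.smul_apply, smul_eq_mul, smul_eq_mul]
    refine mul_le_mul' ?_ (Measure.restrict_le_self A)
    rw [← ofReal_measureReal (μ := μ) (s := S), ← ENNReal.ofReal_inv_of_pos m0,
      ← ENNReal.ofReal_ofNat 2]
    exact ENNReal.ofReal_le_ofReal mi
  have cp : Cp μ[|S] := ⟨hν, ϱ, hae⟩
  refine ⟨hν, hae, fun θ X X0 hX => ?_, fun r a p τ r0 a0 p0 τ0 τ2 ⟨A, hA, h1, h2⟩ => ?_⟩
  · rw [← ENNReal.ofReal_le_ofReal_iff (by positivity), Xk]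
    refine (ofr_le _ fun x => integral_nonneg fun _ => (exp_pos _).le).trans ?_
    have k : ∀ x : ι → ℝ, ENNReal.ofReal (∫ x', exp (θ * (x ⬝ᵥ x')) ∂μ[|S]) ≤
        2 * ∫⁻ x', ENNReal.ofReal (exp (θ * (x ⬝ᵥ x'))) ∂μ := fun x => by
      refine (ofr_le _ fun _ => (exp_pos _).le).trans ((lintegral_mono' hle le_rfl).trans ?_)
      rw [lintegral_smul_measure, smul_eq_mul]
    refine (lintegral_mono' hle k).trans ?_
    rw [lintegral_smul_measure, smul_eq_mul, lintegral_const_mul' _ _ (by simp),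
      show 4 * X = 2 * (2 * X) by ring, ENNReal.ofReal_mul zero_le_two,
      ENNReal.ofReal_mul zero_le_two, ENNReal.ofReal_ofNat]
    gcongr
    exact hX
  · have q0 : 0 ≤ q := measureReal_nonneg.trans hq
    have sp : ∀ y, Mf r (μ.restrict S) y + Mf r (μ.restrict Sᶜ) y = Mf r μ y := fun y =>
      integral_add_compl mS (int_ew r0 y)
    have Mν : ∀ y, Mf r μ[|S] y = (μ.real S)⁻¹ * Mf r (μ.restrict S) y := fun y => int_cond S _
    have M0 : ∀ (ν : Measure (ι → ℝ)) y, 0 ≤ Mf r ν y := fun ν y =>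
      integral_nonneg fun x => (ew_pos _ _ _).le
    have Mp : ∀ y, 0 < Mf r μ y := fun y => integral_exp_pos (int_ew r0 y)
    set A' : Set (ι → ℝ) := {y | τ * Mf r μ y < Mf r (μ.restrict Sᶜ) y} with hA'
    have mA' : MeasurableSet A' := measurableSet_lt ((meas_Mf r).const_mul τ) (meas_Mf r)
    refine ⟨A ∪ A', hA.union mA', (measure_union_le _ _).trans ?_, fun y hy v => ?_⟩
    · rw [ENNReal.ofReal_add (by positivity) (by positivity)]
      refine add_le_add ((lawY_le hle r hA).trans ?_) ?_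
      · rw [ENNReal.ofReal_mul zero_le_two, ENNReal.ofReal_ofNat]; gcongr
      · rw [Sp.Trf85.lawY_eq cp r0.le mA']
        refine ENNReal.ofReal_le_ofReal ?_
        have t := tot_Mf (μ := μ.restrict Sᶜ) r0
        rw [measureReal_restrict_apply_univ] at t
        have k : Sp.Trf85.PY r μ[|S] A' ≤ IK r fun y => 2 / τ * Mf r (μ.restrict Sᶜ) y := by
          refine integral_mono_of_nonneg (.of_forall fun z => mul_nonneg (M0 _ _)
            (Set.indicator_nonneg (fun _ _ => zero_le_one) _)) (t.1.const_mul _)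
            (.of_forall fun z => ?_)
          dsimp only
          by_cases hz : √r • z ∈ A'
          · rw [Set.indicator_of_mem hz, mul_one, Mν, div_mul_eq_mul_div, le_div_iff₀ τ0]
            have k1 : τ * Mf r μ (√r • z) < Mf r (μ.restrict Sᶜ) (√r • z) := hz
            have k2 := sp (√r • z)
            have k3 := M0 (μ.restrict Sᶜ) (√r • z)
            have k4 := M0 (μ.restrict S) (√r • z)
            have k5 := mul_le_mul_of_nonneg_right mi k4
            nlinarith
          · rw [Set.indicator_of_notMem hz, mul_zero]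
            exact mul_nonneg (by positivity) (M0 _ _)
        rw [IK_const_mul, t.2] at k
        refine k.trans ?_
        rw [div_mul_eq_mul_div]; gcongr
    · rw [Set.mem_union, not_or] at hy
      obtain ⟨l2, hv⟩ := h2 y hy.1 v
      have k1 : Mf r (μ.restrict Sᶜ) y ≤ τ * Mf r μ y := not_lt.1 hy.2
      have cp' := Sp.Trf85.cp_pst cp r0.le y
      have := cp'.prob
      have hc : Continuous fun x : ι → ℝ => v ⬝ᵥ x := by fun_prop
      obtain ⟨C, -, hC⟩ := (Bs.of_mg cp' (Sp.Trf85.mg_dot v)).bd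
      refine ⟨MemLp.of_bound hc.aestronglyMeasurable C hC, ?_⟩
      have hp : IsProbabilityMeasure (pst r μ y) := isProbabilityMeasure_tilted (int_ew r0 y)
      set c := ∫ x, v ⬝ᵥ x ∂pst r μ y with hc'
      rw [variance_eq_integral hc.aemeasurable, ← hc', Sp.Trf85.int_pst, div_le_iff₀ (Mp y)] at hv
      have i1 : Integrable (fun x => (v ⬝ᵥ x - c) ^ 2 * ew r y x) μ := by
        have := (integrable_tilted_iff (int_ew r0 y) _).1 (l2.sub (memLp_const c)).integrable_sq
        exact this.congr (.of_forall fun x => mul_comm _ _)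
      have k2 : ∫ x in S, (v ⬝ᵥ x - c) ^ 2 * ew r y x ∂μ ≤ a * (v ⬝ᵥ v) * Mf r μ y :=
        (setIntegral_le_integral i1 (.of_forall fun x =>
          mul_nonneg (sq_nonneg _) (ew_pos _ _ _).le)).trans hv
      have k3 := sp y
      have k4 := Mp y
      have k5 : 0 < Mf r (μ.restrict S) y := by nlinarith
      have v0 : 0 ≤ a * (v ⬝ᵥ v) := mul_nonneg a0 (Eig.dot_self_nonneg v)
      rw [← variance_sub_const hc.aestronglyMeasurable c]
      refine (variance_le_expectation_sq (hc.sub continuous_const).aestronglyMeasurable).trans ?_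
      simp only [Pi.pow_apply]
      rw [Sp.Trf85.int_pst, Mν, int_cond, mul_div_mul_left _ _ (inv_ne_zero m0.ne'),
        div_le_iff₀ k5]
      refine k2.trans ?_
      have k6 : Mf r μ y ≤ (1 + 2 * τ) * Mf r (μ.restrict S) y := by
        have : (1 - τ) * Mf r μ y ≤ Mf r (μ.restrict S) y := by linarith
        have k7 : 1 ≤ (1 + 2 * τ) * (1 - τ) := by nlinarith
        nlinarith
      nlinarith [mul_le_mul_of_nonneg_left k6 v0]

end Crest.Agent.T157.Cq.Dc

end
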