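import Crest.Agent.T157.CqDiscDef_34

/-!
# Row 157, part C: `Dc.smL`, the form of a fine channel on a smoothed function (helper34)
-/

set_option autoImplicit false
set_option linter.unusedSectionVars false

noncomputable section

namespace Crest.Agent.T157.Cq.Dc

open MeasureTheory Matrix Finset Real Set
open Crest.Agent.T157.E Crest.Agent.T157.SL Crest.Agent.T157.Rec

namespace Sm34

variable {ι : Type*} [Fintype ι] [DecidableEq ι] {F : (ι → ℝ) → ℝ} {b e : ℝ}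

lemma mg_dot (v : ι → ℝ) : MG fun z : ι → ℝ => z ⬝ᵥ v := by
  have : (fun z : ι → ℝ => z ⬝ᵥ v) = fun z => ∑ i, v i * z i := by
    funext z; rw [dotProduct_comm]; rfl
  rw [this]
  exact .sum _ fun i _ => (mg_coord i).const_mul _

lemma int_mul_dot (hF : MG F) (v : ι → ℝ) :
    ∫ z, F z * (z ⬝ᵥ v) ∂Gs ι = v ⬝ᵥ fun i => ∫ z, z i * F z ∂Gs ι := by
  simp only [dotProduct, mul_sum]
  rw [integral_finsetSum _ fun i _ => (hF.mul (by
    simpa only [mul_comm] using (mg_coord i).const_mul (v i))).int]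
  refine sum_congr rfl fun i _ => ?_
  rw [← integral_const_mul]
  exact integral_congr_ae (.of_forall fun z => by ring)

lemma int_dot (v : ι → ℝ) : ∫ z, z ⬝ᵥ v ∂Gs ι = 0 := by
  have := int_mul_dot (MG.const (ι := ι) 1) v
  simpa [int_coord] using this

lemma int_dot_sq (v : ι → ℝ) : ∫ z, (z ⬝ᵥ v) ^ 2 ∂Gs ι = v ⬝ᵥ v := by
  simp only [sq]
  rw [int_mul_dot (mg_dot v)]
  congr 1
  funext i
  rw [int_mul_dot (mg_coord i)]
  simp [int_coord_mul, dotProduct]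

lemma int_rem (a : ι → ℝ) :
    ∫ z, (eh a z - 1 - z ⬝ᵥ a) ^ 2 ∂Gs ι = exp (a ⬝ᵥ a) - 1 - a ⬝ᵥ a := by
  have m1 := mg_eh a
  have m2 := mg_dot a
  have h1 : ∫ z, eh a z * (z ⬝ᵥ a) ∂Gs ι = a ⬝ᵥ a := by
    rw [int_mul_dot m1]; simp only [int_coord_eh]
  have : ∀ z, (eh a z - 1 - z ⬝ᵥ a) ^ 2 = (1 - eh a z) * (1 - eh a z) + (z ⬝ᵥ a) ^ 2 +
      2 * (z ⬝ᵥ a) - 2 * (eh a z * (z ⬝ᵥ a)) := fun z => by ring
  simp only [this]
  have m3 := ((MG.const 1).sub m1).mul ((MG.const 1).sub m1)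
  rw [integral_sub ((m3.add (mg_sq m2)).add (m2.const_mul 2)).int ((m1.mul m2).const_mul 2).int,
    integral_add (m3.add (mg_sq m2)).int (m2.const_mul 2).int, integral_add m3.int (mg_sq m2).int,
    integral_const_mul, integral_const_mul, int_one_sub_eh, int_dot_sq, int_dot, h1]
  ring

/-- first-order expansion of a Gaussian shift -/
lemma shift_sq (hF : MG F) (hb : ∀ z, F z ^ 2 ≤ b ^ 2) (he : 0 < e) (a : ι → ℝ) :
    (∫ z, F (a + z) ∂Gs ι - ∫ z, F z ∂Gs ι) ^ 2 ≤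
      (1 + e) * (a ⬝ᵥ fun i => ∫ z, z i * F z ∂Gs ι) ^ 2 + (5 + e⁻¹) * b ^ 2 * (a ⬝ᵥ a) ^ 2 := by
  have s0 : 0 ≤ a ⬝ᵥ a := dot_self_nonneg a
  have i0 : 0 < e⁻¹ := inv_pos.2 he
  have hG : ∀ G : (ι → ℝ) → ℝ, MG G → (∀ z, G z ^ 2 ≤ b ^ 2) → ∫ z, G z ^ 2 ∂Gs ι ≤ b ^ 2 :=
    fun G hG h => by simpa using integral_mono (mg_sq hG).int (integrable_const (b ^ 2)) h
  set W := a ⬝ᵥ fun i => ∫ z, z i * F z ∂Gs ι with hW
  rcases le_total (a ⬝ᵥ a) 1 with h | h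
  · have m1 := mg_eh a
    have m2 := mg_dot a
    have e1 : ∫ z, F (a + z) ∂Gs ι - ∫ z, F z ∂Gs ι =
        W + ∫ z, F z * (eh a z - 1 - z ⬝ᵥ a) ∂Gs ι := by
      simp only [mul_sub, mul_one]
      rw [integral_sub ((hF.mul m1).sub hF).int (hF.mul m2).int, integral_sub (hF.mul m1).int hF.int,
        int_mul_dot hF, int_shift]
      ring
    have e2 := int_mul_sq_le hF ((m1.sub (.const 1)).sub m2)
    rw [int_rem] at e2
    have e3 : exp (a ⬝ᵥ a) - 1 - a ⬝ᵥ a ≤ (a ⬝ᵥ a) ^ 2 :=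
      (le_abs_self _).trans (abs_exp_sub_one_sub_id_le (by rwa [abs_of_nonneg s0]))
    have e4 : 0 ≤ exp (a ⬝ᵥ a) - 1 - a ⬝ᵥ a := by linarith [add_one_le_exp (a ⬝ᵥ a)]
    have e5 := e2.trans (mul_le_mul (hG F hF hb) e3 e4 (sq_nonneg b))
    rw [e1]
    refine (add_sq_le he _ _).trans (add_le_add le_rfl ?_)
    rw [mul_assoc]
    exact mul_le_mul (by linarith) e5 (sq_nonneg _) (by positivity)
  · have m : MG fun z => F (a + z) := by simpa using hF.affine a 1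
    have h1 := (int_sq_le m).trans (hG _ m fun z => hb _)
    have h2 := (int_sq_le hF).trans (hG _ hF hb)
    have h3 : b ^ 2 ≤ b ^ 2 * (a ⬝ᵥ a) ^ 2 := le_mul_of_one_le_right (sq_nonneg b) (one_le_pow₀ h)
    have h4 : 0 ≤ (1 + e) * W ^ 2 := by positivity
    have h5 : 0 ≤ e⁻¹ * (b ^ 2 * (a ⬝ᵥ a) ^ 2) := by positivity
    nlinarith [sq_nonneg (∫ z, F (a + z) ∂Gs ι + ∫ z, F z ∂Gs ι), sq_nonneg b]

lemma mg_four (i : ι) : MG fun z : ι → ℝ => z i ^ 4 :=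
  ((EG.coord (I := univ) i).pow 4).mg (mem_univ 0)

lemma int_four (i : ι) : ∫ z, z i ^ 4 ∂Gs ι = 3 := by
  have := stein (I := univ) (G := fun p : Pt ι => p.2 i ^ 3) (H := fun p => 3 * p.2 i ^ 2)
    ((EG.coord i).pow 3) (((EG.coord i).pow 2).const_mul 3) (mem_univ 0) i fun y => by
      simpa using hasDerivAt_pow 3 (y i)
  have h2 := int_coord_mul i i
  simp only [← sq, if_true] at h2
  simp only [← pow_succ'] at this
  rw [this, integral_const_mul, h2, mul_one]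

lemma mg_self : MG fun z : ι → ℝ => z ⬝ᵥ z := .sum _ fun i _ => (mg_coord i).mul (mg_coord i)

lemma int_self_sq : ∫ z, (z ⬝ᵥ z) ^ 2 ∂Gs ι ≤ 100 * (Fintype.card ι) ^ 2 := by
  have h : ∀ z : ι → ℝ, (z ⬝ᵥ z) ^ 2 ≤ Fintype.card ι * ∑ i, z i ^ 4 := fun z => by
    have := sq_sum_le_card_mul_sum_sq (s := Finset.univ) (f := fun i => z i * z i)
    refine this.trans_eq ?_
    rw [card_univ]
    congr 1
    exact sum_congr rfl fun i _ => by ring
  refine (integral_mono (mg_sq mg_self).int ((MG.sum _ fun i _ => mg_four i).const_mul _).int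
    h).trans ?_
  rw [integral_const_mul, integral_finsetSum _ fun i _ => (mg_four i).int]
  simp only [int_four, sum_const, card_univ, nsmul_eq_mul]
  nlinarith [sq_nonneg (Fintype.card ι : ℝ)]

/-- the averaged expansion -/
lemma shift_int (hF : MG F) (hb : ∀ z, F z ^ 2 ≤ b ^ 2) (he : 0 < e) (c : ℝ) :
    ∫ z', (∫ z, F (c • z' + z) ∂Gs ι - ∫ z, F z ∂Gs ι) ^ 2 ∂Gs ι ≤
      (1 + e) * (c ^ 2 * ∑ i, (∫ z, z i * F z ∂Gs ι) ^ 2) +
        100 * (5 + e⁻¹) * (Fintype.card ι) ^ 2 * c ^ 4 * b ^ 2 := by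
  set W : ι → ℝ := fun i => ∫ z, z i * F z ∂Gs ι with hW
  have i1 := ((mg_sq (mg_dot W)).const_mul ((1 + e) * c ^ 2)).int
  have i2 := ((mg_sq (mg_self (ι := ι))).const_mul ((5 + e⁻¹) * b ^ 2 * c ^ 4)).int
  refine (integral_mono_of_nonneg (.of_forall fun _ => sq_nonneg _) (i1.add i2)
    (.of_forall fun z' => (shift_sq hF hb he _).trans_eq ?_)).trans ?_
  · simp only [Pi.add_apply, smul_dotProduct, dotProduct_smul, smul_eq_mul]; ring
  · simp only [Pi.add_apply]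
    rw [integral_add i1 i2, integral_const_mul, integral_const_mul, int_dot_sq]
    have h1 : W ⬝ᵥ W = ∑ i, W i ^ 2 := by simp only [dotProduct, sq]
    have h2 := mul_le_mul_of_nonneg_left (int_self_sq (ι := ι))
      (show 0 ≤ (5 + e⁻¹) * b ^ 2 * c ^ 4 by positivity)
    rw [h1]
    nlinarith

end Sm34

open Sm34

theorem smL : SmL := by
  intro Ω ι _ _ _ _ _ w φ hw K K' e b hK hK' he g hb
  have hW := Wt.of_pos hw
  set g0 := g () with hg0
  have hb0 : ∀ x, g0 x ^ 2 ≤ b ^ 2 := fun x => by simpa using hb x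
  let ψ : (ι → ℝ) → ℝ := fun y => mean (post φ w K y) g0
  have mψ : MG ψ := mg_pm hW K g0
  have bψ : ∀ y, ψ y ^ 2 ≤ b ^ 2 := fun y => by
    rw [← sq_abs b]
    exact sq_le_sq' (neg_le_of_abs_le ((hW.post φ K y).abs_mean_le fun x => sq_le_sq.1 (hb0 x)))
      (le_of_abs_le ((hW.post φ K y).abs_mean_le fun x => sq_le_sq.1 (hb0 x)))
  let G : (ι → ℝ) → ℝ := fun y => ∫ z, ψ ((K / K') • y + √K • z) ∂Gs ι
  have mG : MG G := by
    have := ((mψ.conv 0 √K).affine 0 (K / K'))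
    simpa using this
  set f : Ω → ℝ := (Sg.stRC φ hw hK).P *ᵥ g0 with hf
  have ef : ∀ x, f x = ∫ z, ψ (K • φ x + √K • z) ∂Gs ι := fun x => by
    rw [hf, Sg.stRC_mulVec]; rfl
  have h1 : Tr.Ph φ w (fun a => (Sg.stRC φ hw hK).P *ᵥ g a) K' ≤
      slE φ w K' fun x y => (f x - G y) ^ 2 := by
    have m : ∀ x, MG fun y => (f x - G y) ^ 2 := fun x => mg_sq ((MG.const _).sub mG)
    rw [bayes hW hK'.le (.of_mg m), Tr.Ph, Fintype.sum_unique]
    exact slE_mono hW (.of_mg fun _ => mg_pvar hW K' f) (.of_mg fun _ => mg_mean hW K' m)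
      fun _ y => (hW.post φ K' y).var_le_mean f _
  set c := √K / √K' with hc
  have s0 : 0 < √K' := sqrt_pos.2 hK'
  have c2 : c ^ 2 = K / K' := by rw [hc, div_pow, sq_sqrt hK, sq_sqrt hK'.le]
  have h2 : ∀ x, ∫ z', (f x - G (K' • φ x + √K' • z')) ^ 2 ∂Gs ι ≤
      (1 + e) * (c ^ 2 * K) * Pm φ K (fun _ y => ∑ i, covV (post φ w K y) g0 φ i ^ 2) x +
        100 * (5 + e⁻¹) * (Fintype.card ι) ^ 2 * c ^ 4 * b ^ 2 := fun x => by
    have h3 := shift_int (mψ.affine (K • φ x) √K) (fun z => bψ _) he c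
    have e1 : ∀ z', (f x - G (K' • φ x + √K' • z')) ^ 2 =
        (∫ z, ψ (K • φ x + √K • (c • z' + z)) ∂Gs ι - ∫ z, ψ (K • φ x + √K • z) ∂Gs ι) ^ 2 :=
      fun z' => by
        rw [sub_sq_comm, ef]
        congr 2
        refine integral_congr_ae (.of_forall fun z => congrArg ψ ?_)
        rw [smul_add, smul_add, smul_smul, smul_smul, smul_smul, add_assoc,
          div_mul_cancel₀ _ hK'.ne']
        congr 3
        rw [hc, ← mul_div_assoc, mul_self_sqrt hK, div_mul_eq_mul_div, div_eq_div_iff hK'.ne' s0.ne',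
          mul_assoc, mul_self_sqrt hK'.le]
    simp only [e1]
    refine h3.trans (add_le_add ?_ le_rfl)
    have m : ∀ i, MG fun y => covV (post φ w K y) g0 φ i := fun i => mg_pcov hW K _ _
    rw [mul_assoc, mul_assoc, Pm_sum _ fun i _ _ => mg_sq (m i), mul_sum _ _ K]
    refine mul_le_mul_of_nonneg_left (mul_le_mul_of_nonneg_left (sum_le_sum fun i _ => ?_)
      (sq_nonneg c)) (by positivity)
    rw [stein_post hW, mul_pow, sq_sqrt hK]
    exact mul_le_mul_of_nonneg_left (Pm_sq_le (φ := φ) (t := K) (fun _ => m i) x) hK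
  have h3 : Tr.psi φ w g K = mean w (Pm φ K fun _ y => ∑ i, covV (post φ w K y) g0 φ i ^ 2) := by
    rw [← slE_eq_Pm, Tr.psi, ex]
    simp only [Tr.dd, Fintype.sum_unique, Tr.Vg, Tr.vv, dotProduct, sq]
    rfl
  have h4 := h1.trans ((slE_eq_mean _).trans_le (hW.mean_mono h2))
  rw [mean_add, mean_const_mul, hW.mean_const, ← h3] at h4
  refine (mul_le_mul_of_nonneg_left h4 hK'.le).trans_eq ?_
  rw [show c ^ 4 = (c ^ 2) ^ 2 by ring, c2]
  field_simp

end Crest.Agent.T157.Cq.Dc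

end
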