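import Crest.Agent.T157.CqDiscSm_34
import Crest.Agent.T157.CqDiscFin_34
import Crest.Agent.T157.CqDiscCore_59
import Crest.Agent.T157.CqDiscPi_67
import Crest.Agent.T157.CqDiscGrid_49
import Crest.Agent.T157.CqDiscPb_66
import Crest.Agent.T157.CqDiscMgf_31

/-!
# Row 157, part C: `Cq.discGlue` (helper34)
-/

namespace Crest.Agent.T157.Cq

theorem discGlue : DiscGlue :=
  Dc.finGlue Dc.mgfL Dc.piL Dc.condL Dc.gridL Dc.pbL (Dc.coreGlue Dc.smL)

end Crest.Agent.T157.Cq
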