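import Crest.Agent.T157.UnI_81
import Crest.Agent.T157.CqTopA_72

/-!
# Row 157, part C: static expressions are in the universal classes (helper79)

`ev_pa : e.Adm → Pa (EV e)`, transfer of finitely many tail bounds `tr_fin`, time grids `grid`.
-/

set_option autoImplicit false
set_option linter.unusedSectionVars false

noncomputable section

namespace Crest.Agent.T157.Cq.Ev79

open MeasureTheory Metric Finset Matrix Filter Topology
open Crest.ProbabilityR.SpinGlassDynamics Crest.Agent.T157.E Crest.Agent.T157.SL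
open Crest.Agent.T157.Sg (sq2 ipV nv)
open Crest.Agent.T157.Soft (N23)
open Crest.Agent.T157.St (hat muG Tk)
open Crest.Agent.T157.Chain22 (RC poi poi_nonneg hasSum_poi)
open Crest.Agent.T157.Tr (Off)
open Crest.Agent.T157.Un

section fixed
variable {n : ℕ} {ι : Type*} [Fintype ι]
  {κ : Type*} [Fintype κ] [DecidableEq κ] {φ : Cube n → κ → ℝ} {s r : ℝ}

/-- the frozen index is averaged by the static kernel started at the same point -/
lemma pcF_diag (hn : 0 < n) (hr : 0 < r) (hr' : r ≤ 1 / 4)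
    {u : Cube n → (Pair n → ℝ) → ι → Cube n → ℝ} {β : (Pair n → ℝ) → Cube n → ℝ}
    (h : ∀ a, PcF r (u a) β) :
    PcF r (fun g i x => ∑ a, k0 φ s (gw n g) x a * u a g i x) fun g x => 18 * β g x +
      4 * β g x ^ 2 + 4 * E2 φ s (gw n g) (fun y y' => Rh n y y' ^ 4) x := fun g => by
  have hw := gw_pos g
  have p := fun x => (h x).nn g x
  have q3 := E2_nonneg (φ := φ) (s := s) hw (F := fun y y' => Rh n y y' ^ 4)
    fun _ _ => by positivity
  have kc1 : ∀ (b : ℝ) (x : Cube n), (k0 φ s (gw n g) *ᵥ fun _ => b) x = b := fun b x => by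
    simp only [mulVec, dotProduct, ← sum_mul, k0_row hw, one_mul]
  have h0 := fun a => (h a g).1
  choose K hK hU using fun a => (h a g).2
  choose U h1 h2 using hU
  have ex : ∀ e x, ExV r (fun g i a => u a g i x) g e fun z i a => U a e z i x :=
    fun e x i a => h1 a e i x
  refine ⟨fun x => ?_, fun e x => 18 * (k0 φ s (gw n g) *ᵥ fun a => K a e x) x +
    2 * cv φ s (gw n g) (chi e) (fun i a => u a g i x) x, fun x => ?_, fun e =>
    ⟨fun z i x => ∑ a, kc φ s (gw n g) (chi e) z x a * U a e z i x,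
      fun i x => exV_T (φ := φ) (s := s) hn hr' (ex e x) i x, fun z hz x => ⟨?_, ?_⟩⟩⟩
  · have a1 : sq2 (fun i x => ∑ a, k0 φ s (gw n g) x a * u a g i x) x ≤
        (k0 φ s (gw n g) *ᵥ fun a => sq2 (u a g) x) x := by
      simp only [sq2, mulVec, dotProduct, mul_sum]
      rw [sum_comm]
      exact sum_le_sum fun i _ => Real.pow_arith_mean_le_arith_mean_pow_of_even univ _ _
        (fun a _ => k0_nn hw x a) (k0_row hw x) even_two
    have a2 := k0_mono (φ := φ) (s := s) hw (fun a => h0 a x) x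
    rw [kc1] at a2
    nlinarith [p x, q3 x, sq_nonneg (β g x)]
  · have a1 := sum_cv_le' (φ := φ) (s := s) hn hw (fun i a => u a g i x) (γ := fun _ _ => β g x)
      (fun y y' => (abs_dot_le (fun i a => u a g i x) y y').trans (by
        have b1 : sq2 (fun i a => u a g i x) y ≤ β g x := h0 y x
        have b2 : sq2 (fun i a => u a g i x) y' ≤ β g x := h0 y' x
        linarith)) x
    rw [E2_left hw (fun _ => β g x ^ 2), kc1] at a1
    have a3 : ∑ e, (k0 φ s (gw n g) *ᵥ fun a => K a e x) x ≤ N23 n ^ 2 * β g x := by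
      have := k0_mono (φ := φ) (s := s) hw (fun a => hK a x) x
      rw [kc1] at this
      simp only [mulVec, dotProduct, mul_sum] at this ⊢
      rwa [sum_comm]
    simp only [sum_add_distrib, ← mul_sum]
    linarith
  · have := (kc_jensen (φ := φ) (s := s) hw (sgn_chi e) (ball_subset_ball hr' hz) x
      fun i a => U a e z i x).trans (mul_le_mul_of_nonneg_left
        (k0_mono hw (fun a => (h2 a e z hz x).1) x) (by norm_num))
    rw [kc1] at this
    unfold sqc
    nlinarith [p x, q3 x, sq_nonneg (β g x)]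
  · have a1 := sqc_T_sub (φ := φ) (s := s) hr hr' (ex e x) hz x
    have a2 := k0_mono (φ := φ) (s := s) hw
      (f := sqc ((fun i a => U a e z i x) - fun i a => U a e 0 i x)) (fun a => (h2 a e z hz x).2) x
    exact a1.trans (by linarith)

end fixed

section chain
variable {Ω ι : Type*} [Fintype Ω] [DecidableEq Ω] [Fintype ι]

omit [DecidableEq Ω] in
lemma abs_avg {p f : Ω → ℝ} {L : ℝ} (h0 : ∀ y, 0 ≤ p y) (h1 : ∑ y, p y = 1) (hf : ∀ y, |f y| ≤ L) :
    |∑ y, p y * f y| ≤ L := by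
  refine (abs_sum_le_sum_abs _ _).trans ((sum_le_sum fun y _ => ?_).trans_eq
    (by rw [← sum_mul, h1, one_mul]))
  rw [abs_mul, abs_of_nonneg (h0 y)]
  exact mul_le_mul_of_nonneg_left (hf y) (h0 y)

lemma poi_sup (d : RC Ω) {t : ℝ} (ht : 0 ≤ t) (J : ℕ) {f : Ω → ℝ} {L : ℝ} (hf : ∀ x, |f x| ≤ L)
    (x : Ω) : |(d.H t *ᵥ f) x - ∑ j ∈ range J, poi t j * ((d.P ^ j) *ᵥ f) x| ≤
      L * (1 - ∑ j ∈ range J, poi t j) := by
  have b : ∀ j, |((d.P ^ j) *ᵥ f) x| ≤ L := fun j => abs_avg (d.pow_nn j x) (d.pow_row j x) hf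
  have h1 := sum_le_hasSum (range J) (fun j _ => sub_nonneg.2 (mul_le_mul_of_nonneg_left
    (abs_le.1 (b j)).2 (poi_nonneg ht j)))
    (((hasSum_poi t).mul_right L).sub (d.hasSum_H_mulVec t f x))
  have h2 := sum_le_hasSum (range J) (fun j _ => sub_nonneg.2 (mul_le_mul_of_nonneg_left
    (abs_le.1 (b j)).1 (poi_nonneg ht j)))
    ((d.hasSum_H_mulVec t f x).sub ((hasSum_poi t).mul_right (-L)))
  rw [sum_sub_distrib, ← sum_mul] at h1 h2
  rw [abs_le]
  constructor <;> linarith

lemma abs_exp_time {t t' t₀ x : ℝ} (h0 : 0 < t₀) (ht : t₀ ≤ t) (ht' : t₀ ≤ t') (hx : 0 ≤ x) :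
    |Real.exp (-(t * x)) - Real.exp (-(t' * x))| ≤ |t - t'| / t₀ := by
  have key : ∀ t t' : ℝ, t₀ ≤ t → t ≤ t' →
      |Real.exp (-(t * x)) - Real.exp (-(t' * x))| ≤ (t' - t) / t₀ := fun t t' a b => by
    have e : Real.exp (-(t' * x)) = Real.exp (-(t * x)) * Real.exp (-((t' - t) * x)) := by
      rw [← Real.exp_add]; congr 1; ring
    have d0 : 0 ≤ (t' - t) * x := mul_nonneg (sub_nonneg.2 b) hx
    have c1 := Real.add_one_le_exp (-((t' - t) * x))
    have c2 : Real.exp (-((t' - t) * x)) ≤ 1 := Real.exp_le_one_iff.2 (by linarith)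
    have c3 : Real.exp (-(t * x)) * (t * x) ≤ 1 := by
      rw [Real.exp_neg, inv_mul_le_iff₀ (Real.exp_pos _)]
      linarith [Real.add_one_le_exp (t * x)]
    have p := Real.exp_pos (-(t * x))
    set A := Real.exp (-(t * x))
    have c4 : A * (t₀ * x) ≤ 1 := le_trans (by gcongr) c3
    rw [e, abs_of_nonneg (by nlinarith), le_div_iff₀ h0]
    calc (A - A * Real.exp (-((t' - t) * x))) * t₀ ≤ A * ((t' - t) * x) * t₀ := by
          gcongr; nlinarith
      _ = (t' - t) * (A * (t₀ * x)) := by ring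
      _ ≤ _ := mul_le_of_le_one_right (sub_nonneg.2 b) c4
  rcases le_total t t' with h | h
  · rw [abs_sub_comm t, abs_of_nonneg (sub_nonneg.2 h)]; exact key t t' ht h
  · rw [abs_sub_comm, abs_of_nonneg (sub_nonneg.2 h)]; exact key t' t ht' h

/-- continuity of the semigroup in time, uniformly in the chain and in the time scale -/
lemma nv_HV_time (c : RC Ω) {σ t t' t₀ : ℝ} (hσ : 0 ≤ σ) (h0 : 0 < t₀) (ht : t₀ ≤ t) (ht' : t₀ ≤ t')
    (h : ι → Ω → ℝ) :
    nv c.π (Sg.HV c (σ * t) h - Sg.HV c (σ * t') h) ≤ |t - t'| / t₀ * nv c.π h := by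
  refine Sg.nv_le_of_sq (mul_nonneg (by positivity) (Sg.nv_nonneg _)) ?_
  rw [mul_pow, Sg.nv_sq c.isP, ipV, ipV, mul_sum]
  refine sum_le_sum fun i _ => ?_
  rw [c.parseval, c.parseval (h i), mul_sum]
  refine sum_le_sum fun k _ => ?_
  have h1 := abs_exp_time h0 ht ht' (mul_nonneg hσ (sub_nonneg.2 (c.ev_le_one k)))
  rw [Pi.sub_apply, Chain22.ip_sub_left, Sg.HV, Sg.HV, c.ip_H_φ, c.ip_H_φ, ← sub_mul,
    mul_mul_mul_comm, ← sq, mul_comm σ t, mul_comm σ t', mul_assoc t, mul_assoc t']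
  exact mul_le_mul_of_nonneg_right (sq_le_sq' (abs_le.1 h1).1 (abs_le.1 h1).2) (mul_self_nonneg _)

end chain

/-! ### a frozen configuration -/

/-- pointwise class, uniformly in a frozen configuration -/
structure Pf (u : ∀ n, Cube n → (Pair n → ℝ) → Unit → Cube n → ℝ) : Prop where
  meas : ∀ n a i x, Measurable fun g => u n a g i x
  ex : ∃ β, Mo β ∧ ∀ᶠ n : ℕ in atTop, ∀ a, PcF (1 / 4) (u n a) (β n)

namespace Pf
variable {u u' : ∀ n, Cube n → (Pair n → ℝ) → Unit → Cube n → ℝ} {K : ℝ}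

lemma const {f : ∀ n, Cube n → Unit → Cube n → ℝ} {B : ℝ} (hB : 0 ≤ B)
    (h : ∀ n a x, sq2 (f n a) x ≤ B) : Pf fun n a _ => f n a :=
  ⟨fun _ _ _ _ => measurable_const, _, .const hB, .of_forall fun n a =>
    (PcF.const _ (f n a)).mono le_rfl fun _ x => h n a x⟩

lemma add (h : Pf u) (h' : Pf u') : Pf fun n a g => u n a g + u' n a g := by
  obtain ⟨β, a, b⟩ := h.ex
  obtain ⟨β', a', b'⟩ := h'.ex
  refine ⟨fun n a i x => (h.meas n a i x).add (h'.meas n a i x), _,
    (a.const_mul zero_le_two).add (a'.const_mul zero_le_two), ?_⟩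
  filter_upwards [b, b'] with n c c' d
  exact (c d).add (c' d)

lemma smul (h : Pf u) (c : ℝ) : Pf fun n a g => c • u n a g := by
  obtain ⟨β, a, b⟩ := h.ex
  exact ⟨fun n a i x => (h.meas n a i x).const_mul c, _, a.const_mul (sq_nonneg c),
    b.mono fun n hn d => (hn d).smul c⟩

lemma T (h : Pf u) (hK : 0 ≤ K) : Pf fun n a g i => k0 (hat n) K (gw n g) *ᵥ u n a g i := by
  obtain ⟨β, a, b⟩ := h.ex
  have hc := chn_hat hK
  refine ⟨fun n a i x => measurable_sum _ fun y _ => (meas_k0 _ K x y).mul (h.meas n a i y), _,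
    (((a.T (φ := hat) hc.1).const_mul (c := 18) (by norm_num)).add
      ((a.sq.T (φ := hat) hc.1).const_mul (c := 4) (by norm_num))).add
      ((Mo.R4 hc).const_mul (c := 4) (by norm_num)), ?_⟩
  filter_upwards [b, eventually_gt_atTop 0] with n c hn d
  exact (c d).T hn (by norm_num) le_rfl hK

lemma Tpow (h : Pf u) (hK : 0 ≤ K) (j : ℕ) :
    Pf fun n a g i => (k0 (hat n) K (gw n g) ^ j) *ᵥ u n a g i := by
  induction j with
  | zero => simpa using h
  | succ j ih => simpa only [pow_succ', ← mulVec_mulVec] using ih.T hK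

lemma sum {κ : Type*} (t : Finset κ) {u : κ → ∀ n, Cube n → (Pair n → ℝ) → Unit → Cube n → ℝ}
    (h : ∀ k ∈ t, Pf (u k)) : Pf fun n a g => ∑ k ∈ t, u k n a g := by
  classical
  induction t using Finset.induction_on with
  | empty => simpa using const (f := 0) le_rfl fun _ _ _ => by simp [sq2]
  | insert k t hk ih =>
    simpa [sum_insert hk] using (h k (mem_insert_self _ _)).add
      (ih fun j hj => h j (mem_insert_of_mem hj))

lemma diag (h : Pf u) (hK : 0 ≤ K) :
    Pc (ι := fun _ => Unit) fun n g i x => ∑ a, k0 (hat n) K (gw n g) x a * u n a g i x := by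
  obtain ⟨β, a, b⟩ := h.ex
  refine ⟨fun n i x => measurable_sum _ fun y _ => (meas_k0 _ K x y).mul (h.meas n y i x), 1 / 4, _,
    by norm_num, le_rfl, ((a.const_mul (c := 18) (by norm_num)).add
      (a.sq.const_mul (c := 4) (by norm_num))).add
      ((Mo.R4 (chn_hat hK)).const_mul (c := 4) (by norm_num)), ?_⟩
  filter_upwards [b, eventually_gt_atTop 0] with n c hn
  exact pcF_diag hn (by norm_num) le_rfl c

end Pf

lemma pa_of_sup {u : VF fun _ => Unit}
    (h : ∀ η : ℝ, 0 < η → ∃ v, Pc v ∧ ∀ n g x, |u n g () x - v n g () x| ≤ η) : Pa u :=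
  fun k η ε hk hη _ => by
    obtain ⟨v, h1, h2⟩ := h (min 1 η) (by positivity)
    refine ⟨v, h1, .of_le (.of_forall fun n g => ((gwt g).mean_mono (g := fun _ => η)
      fun x => ?_).trans_eq ((gwt g).mean_const _))⟩
    have a : sq2 ((u - v) n g) x ≤ min 1 η := by
      have e : sq2 ((u - v) n g) x = |u n g () x - v n g () x| ^ 2 := by simp [sq2]
      rw [e]
      exact (pow_le_of_le_one (abs_nonneg _) ((h2 n g x).trans (min_le_left _ _))
        two_ne_zero).trans (h2 n g x)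
    exact (pow_le_of_le_one (Sg.sq2_nonneg _ x) (a.trans (min_le_left _ _)) hk.ne').trans
      (a.trans (min_le_right _ _))

/-- a static expression on the cube -/
def EV (e : SE) : VF fun _ => Unit := fun n g _ x => e.ev (muG n g) 0 (hat n x)

lemma psi_sup {L K' K c : ℝ} (hL : 1 ≤ L) (hK' : 0 ≤ K') (hK : 0 ≤ K) (hc : 0 ≤ c) {η : ℝ}
    (hη : 0 < η) : ∃ v, Pc v ∧ ∀ n g x, |EV (.psi L K' K c) n g () x - v n g () x| ≤ η := by
  have L0 : 0 < L := by linarith
  obtain ⟨J, hJ⟩ := exists_poi_tail c (η := η / L) (by positivity)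
  have b : ∀ y : ℝ, |L * Real.sin y| ≤ L := fun y => by
    rw [abs_mul, abs_of_pos L0]; exact mul_le_of_le_one_right L0.le (Real.abs_sin_le_one y)
  have h0 : Pf fun n a _ _ x => L * Real.sin (hat n a ⬝ᵥ hat n x / L) :=
    Pf.const (B := L ^ 2) (sq_nonneg _) fun n a x => by
      simpa [sq2] using sq_le_sq' (abs_le.1 (b _)).1 (abs_le.1 (b _)).2
  refine ⟨_, (Pf.sum (range J) fun j _ => ((h0.T hK').Tpow hK j).smul (poi c j)).diag hK',
    fun n g x => ?_⟩
  have hw := gw_pos g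
  simp only [EV, SE.ev, psiS, muG, Sg.Tk_dm hw hK', Top72.Qs_dm hw hK, Finset.sum_apply,
    Pi.smul_apply, smul_eq_mul]
  rw [mulVec, dotProduct, ← sum_sub_distrib]
  refine (abs_avg (p := k0 (hat n) K' (gw n g) x) (L := η) (k0_nn hw x) (k0_row hw x)
    fun a => (poi_sup (Sg.stRC (hat n) hw hK) hc J (fun y => abs_avg (k0_nn (φ := hat n) (s := K') hw y)
      (k0_row hw y) fun a' => b (hat n a ⬝ᵥ hat n a' / L)) x).trans ?_).trans_eq' ?_
  · exact (mul_le_mul_of_nonneg_left hJ L0.le).trans_eq (by field_simp)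
  · simp only [mul_sub]; rfl

/-- **admissible static expressions are in the class `Pa`** -/
theorem ev_pa : ∀ e : SE, e.Adm → Pa (EV e)
  | .var, _ => Pc.zero.pa
  | .psi _ _ _ _, h => pa_of_sup fun _ hη => psi_sup h.1 h.2.1.le h.2.2.1.le h.2.2.2 hη
  | .const a, _ => (Pc.const (a := fun _ _ _ => a) (B := a ^ 2)
      (.of_forall fun _ _ => by simp [sq2])).pa
  | .add e e', h => (ev_pa e h.1).add (ev_pa e' h.2)
  | .mul e e', h => by
    have := (ev_pa e h.1).dot (ev_pa e' h.2)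
    rwa [show dt (EV e) (EV e') = EV (.mul e e') by funext n g _ x; simp [dt, EV, SE.ev]] at this
  | .T K e, h => by
    have := (ev_pa e h.2).T (chn_hat h.1.le)
    rwa [show TS hat (fun _ => K) (EV e) = EV (.T K e) from funext fun n => funext fun g =>
      funext fun _ => funext fun x => (Sg.Tk_dm (gw_pos g) h.1.le _ x).symm] at this
  | .Q K c e, h => by
    have := (ev_pa e h.2.2).Q (chn_hat h.1.le) h.2.1
    rwa [show QS (chn_hat h.1.le) c (EV e) = EV (.Q K c e) from funext fun n => funext fun g =>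
      funext fun _ => funext fun x => (Top72.Qs_dm (gw_pos g) h.1.le c _ x).symm] at this

/-- the smoothed spin vector -/
def TH (K : ℝ) : VF Fin := fun n g i x => Tk K (muG n g) (fun y => y i) (hat n x)

theorem th_pc {K : ℝ} (hK : 0 ≤ K) : Pc (TH K) := by
  have := Pc.That (chn_hat hK)
  rwa [show (TS hat (fun _ => K) fun n _ => Sg.ft (hat n)) = TH K from funext fun n =>
    funext fun g => funext fun i => funext fun x =>
      (Sg.Tk_dm (gw_pos g) hK (fun y => y i) x).symm] at this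

/-! ### finitely many tail bounds -/

lemma ap_pow {X : Fam} (h : Ap X) (p : ℕ) : Ap fun n g => X n g ^ p := by
  induction p with
  | zero => simpa using Ap.const 1
  | succ p ih => simpa only [pow_succ] using ih.mul h

lemma ap_sum {I : Type*} (t : Finset I) {X : I → Fam} (h : ∀ i ∈ t, Ap (X i)) :
    Ap fun n g => ∑ i ∈ t, X i n g := by
  classical
  induction t using Finset.induction_on with
  | empty => simpa using Ap.const 0
  | insert k t hk ih =>
    simpa only [sum_insert hk] using (h k (mem_insert_self _ _)).add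
      (ih fun j hj => h j (mem_insert_of_mem hj))

lemma tight_sum {I : Type*} (t : Finset I) {X : I → Fam} {b : Bool} (h : ∀ i ∈ t, Tight b (X i)) :
    Tight b fun n g => ∑ i ∈ t, X i n g := by
  classical
  induction t using Finset.induction_on with
  | empty => simpa using Tight.const 0
  | insert k t hk ih =>
    simpa only [sum_insert hk] using (h k (mem_insert_self _ _)).add
      (ih fun j hj => h j (mem_insert_of_mem hj))

/-- **joint transfer**: the loss in probability does not depend on the size of the family -/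
theorem tr_fin {I : Type*} (t : Finset I) {X : I → Fam} (h : ∀ i ∈ t, Ap (X i))
    (h0 : ∀ i n g, 0 ≤ X i n g) {δ δ' ε : ℝ} (δ0 : 0 ≤ δ) (hδ : δ < δ') (hε : 0 < ε)
    (hG : Off disorderLaw (ε / 4) fun n g => ∀ i ∈ t, X i n g ≤ δ) (b : Bool) :
    Off (couplingLaw b) ε fun n g => ∀ i ∈ t, X i n g ≤ δ' := by
  have d0 : 0 < δ' := δ0.trans_lt hδ
  have c1 : (1 : ℝ) ≤ t.card + 1 := le_add_of_nonneg_left (Nat.cast_nonneg _)
  obtain ⟨p, hp⟩ := exists_pow_lt_of_lt_one (x := 1 / 2 / (t.card + 1 : ℝ)) (y := δ'⁻¹ * δ)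
    (by positivity) (by rwa [inv_mul_lt_iff₀ d0, mul_one])
  rw [lt_div_iff₀ (by positivity)] at hp
  have p0 : p ≠ 0 := by rintro rfl; rw [pow_zero] at hp; linarith
  have := (ap_sum t fun i hi => ap_pow ((Ap.const δ'⁻¹).mul (h i hi)) p).tr
    (δ := 1 / 2) (δ' := 1) (by norm_num) hε (Eventually.mono hG fun n a => by
      refine le_trans (measure_mono fun g hg => ?_) a
      intro hh
      refine (show _ < _ from hg).not_ge
        ((sum_le_card_nsmul _ _ ((δ'⁻¹ * δ) ^ p) fun i hi => ?_).trans ?_)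
      · exact pow_le_pow_left₀ (mul_nonneg (by positivity) (h0 i n g))
          (mul_le_mul_of_nonneg_left (hh i hi) (by positivity)) p
      · rw [nsmul_eq_mul]
        nlinarith [pow_nonneg (show 0 ≤ δ'⁻¹ * δ by positivity) p]) b
  refine Eventually.mono this fun n a => le_trans (measure_mono fun g hg => ?_) a
  by_contra hh
  refine hg fun i hi => ?_
  have q : ∀ j, 0 ≤ δ'⁻¹ * X j n g := fun j => mul_nonneg (by positivity) (h0 j n g)
  have a1 := (single_le_sum (fun j _ => pow_nonneg (q j) p) hi).trans (not_lt.1 hh)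
  rwa [pow_le_one_iff_of_nonneg (q i) p0, inv_mul_le_iff₀ d0, mul_one] at a1

/-- **transfer uniformly over an interval of times** -/
theorem grid {I : Type*} [Fintype I] {D : I → ℝ → Fam} {M : Fam} {r₁ r₂ δ ε : ℝ} (hδ : 0 < δ)
    (hε : 0 < ε) (hD : ∀ i, ∀ r ∈ Set.Icc r₁ r₂, Ap fun n g => D i r n g ^ 2)
    (D0 : ∀ i r n g, 0 ≤ D i r n g) (hM : ∀ b, Tight b M)
    (hc : ∀ᶠ n : ℕ in atTop, ∀ g i, ∀ r ∈ Set.Icc r₁ r₂, ∀ r' ∈ Set.Icc r₁ r₂,
      D i r n g ≤ D i r' n g + |r - r'| * M n g)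
    (hG : Off disorderLaw (ε / 8) fun n g => ∀ r ∈ Set.Icc r₁ r₂, ∀ i, D i r n g ^ 2 ≤ δ / 9)
    (b : Bool) : Off (couplingLaw b) ε fun n g => ∀ r ∈ Set.Icc r₁ r₂, ∀ i, D i r n g ^ 2 ≤ δ := by
  obtain ⟨B, B0, hB⟩ := sm_of_tight hM (half_pos hε)
  have s0 : 0 < √δ := Real.sqrt_pos.2 hδ
  obtain ⟨t, t1, t2, t3⟩ := finite_cover_balls_of_compact (isCompact_Icc (a := r₁) (b := r₂))
    (e := √δ / 2 / B) (by positivity)
  have m : ∀ q : ℝ × I, q ∈ t2.toFinset ×ˢ univ → q.1 ∈ Set.Icc r₁ r₂ := fun q hq =>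
    t1 (t2.mem_toFinset.1 (mem_product.1 hq).1)
  have := tr_fin (t2.toFinset ×ˢ univ) (X := fun q n g => D q.2 q.1 n g ^ 2)
    (fun q hq => hD _ _ (m q hq)) (fun _ _ _ => sq_nonneg _) (δ := δ / 9) (δ' := δ / 4)
    (by positivity) (by linarith) (half_pos hε) ((hG.le (by linarith)).imp
      fun n g a q hq => a _ (m q hq) _) b
  filter_upwards [this, hB b, hc] with n a1 a2 a3
  refine meas_two hε a1 a2 fun g hg => ?_
  by_contra hh
  simp only [Set.mem_union, Set.mem_ofPred_eq, not_or, not_lt, not_not] at hh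
  refine hg fun r hr i => ?_
  obtain ⟨r', c1, c2⟩ := Set.mem_iUnion₂.1 (t3 hr)
  rw [mem_ball, Real.dist_eq] at c2
  have c3 : D i r' n g ≤ √δ / 2 := (abs_le_of_sq_le_sq' ((hh.1 (r', i) (mem_product.2
    ⟨t2.mem_toFinset.2 c1, mem_univ _⟩)).trans_eq (by rw [div_pow, Real.sq_sqrt hδ.le]; norm_num))
    (by positivity)).2
  have c4 : |r - r'| * M n g ≤ √δ / 2 := (mul_le_mul_of_nonneg_left hh.2 (abs_nonneg _)).trans
    ((mul_le_mul_of_nonneg_right c2.le B0.le).trans_eq (by field_simp))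
  exact (pow_le_pow_left₀ (D0 i r n g) ((a3 g i r hr r' (t1 c1)).trans ((add_le_add c3 c4).trans_eq
    (add_halves _))) 2).trans_eq (Real.sq_sqrt hδ.le)

end Crest.Agent.T157.Cq.Ev79

end
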