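import Crest.Agent.T157.CqDef_72

/-!
# Row 157, part C: heat bath versus static chain (helper6)

`Cq.i12Glue`, `Cq.tsGlue`, the dictionary `Qs_dm`, and `Sg6.sg_of` (both laws, from the form
inequalities and the two-replica moments).
-/

set_option autoImplicit false

noncomputable section

namespace Crest.Agent.T157.Cq.Sg6

section abs
open Finset Matrix
open Crest.Agent.T157.Chain22 Crest.Agent.T157.Sg

variable {Ω : Type*} [Fintype Ω]

lemma D_par (d : RC Ω) (f h : Ω → ℝ) : d.D (f + h) (f + h) ≤ 2 * d.D f f + 2 * d.D h h := by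
  have := d.D_nonneg (f - h)
  simp only [RC.D, mulVec_add, mulVec_sub, ip_add_left, ip_sub_left, ip_add_right,
    ip_sub_right] at this ⊢
  linarith

lemma ip_sub_P_le {d : RC Ω} (hd : d.PSD) (f : Ω → ℝ) :
    ip d.π (f - d.P *ᵥ f) (f - d.P *ᵥ f) ≤ d.D f f := by
  have h2 := hd.ip_P_P_le f
  rw [RC.D, ip_sub_left, ip_sub_right d.π (d.P *ᵥ f), ip_comm d.π (d.P *ᵥ f) f]
  linarith

/-- clamp to `[-1, 1]` -/
def cl (t : ℝ) : ℝ := max (-1) (min 1 t)

lemma abs_cl_sub (a b : ℝ) : |cl a - cl b| ≤ |a - b| := by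
  refine (abs_max_sub_max_le_max _ _ _ _).trans (max_le (by simp) ?_)
  exact (abs_min_sub_min_le_max _ _ _ _).trans (max_le (by simp) le_rfl)

lemma cl_sq_le (a : ℝ) : cl a ^ 2 ≤ 1 := by
  have h1 : -1 ≤ cl a := le_max_left _ _
  have h2 : cl a ≤ 1 := max_le (by norm_num) (min_le_left _ _)
  nlinarith

lemma cl_eq {a : ℝ} (h : a ^ 2 ≤ 1) : cl a = a := by
  have h1 : a ≤ 1 := by nlinarith
  have h2 : -1 ≤ a := by nlinarith
  rw [cl, min_eq_right h1, max_eq_right h2]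

/-- one more step of a comparable static chain changes a smoothed function little -/
theorem ts_abs [DecidableEq Ω] {c d d₁ : RC Ω} (hd₁ : d₁.π = c.π) (p1 : d₁.PSD)
    {a b b₁ e r t : ℝ} (ha : 0 ≤ a) (hb : 0 < b) (hb₁ : 0 < b₁) (he : 0 ≤ e) (he1 : e ≤ 1)
    (hr : 0 < r) (ht : b * r ≤ t) (i2 : I2 Unit c d a b e) (i1 : I1 Unit c d₁ a b₁ e)
    {F : Ω → ℝ} (hF : ∀ x, F x ^ 2 ≤ 1) :
    ip c.π (d.H t *ᵥ F - d₁.P *ᵥ (d.H t *ᵥ F)) (d.H t *ᵥ F - d₁.P *ᵥ (d.H t *ᵥ F)) ≤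
      2 * ((4 / r + 3) / b₁) + 2 * (e * (1 + 1 / r)) := by
  have t0 : 0 < t := (mul_pos hb hr).trans_le ht
  set u := d.H t *ᵥ F with hu
  have sF : Sup (fun _ : Unit => F) 1 := fun x => by simpa using hF x
  have su : Sup (fun _ : Unit => u) 1 := sF.HV d t0.le
  have u1 : ∀ x, u x ^ 2 ≤ 1 := fun x => by simpa using su x
  have r0 : 0 < 1 / r := by positivity
  have h1 : b * d.D u u ≤ 1 / r := by
    have a1 := d.D_H_le F t0
    have a2 : ip d.π F F ≤ 1 := by simpa [ipV] using sF.ipV_le d.isP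
    have a3 : d.D u u ≤ 1 / (2 * t) := a1.trans (by gcongr)
    calc b * d.D u u ≤ b * (1 / (2 * t)) := by gcongr
      _ ≤ 1 / r := by
        rw [mul_one_div, div_le_div_iff₀ (by positivity) hr]; linarith
  obtain ⟨f, f1, f2⟩ := i2 _ 1 su
  simp only [DV, ipV, univ_unique, sum_singleton, Pi.sub_apply] at f1 f2
  set v : Ω → ℝ := fun x => cl (f default x) with hv
  have h2 : c.D v v ≤ c.D (f default) (f default) := c.D_le_of_abs fun x y => abs_cl_sub _ _
  have h3 : ip c.π (u - v) (u - v) ≤ e * (1 + 1 / r) := by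
    refine le_trans ?_ (f1.trans (by gcongr))
    refine c.isP.mean_mono fun x => ?_
    have := abs_cl_sub (f default x) (u x)
    rw [cl_eq (u1 x)] at this
    have := sq_le_sq.2 this
    simp only [Pi.sub_apply, hv]
    nlinarith
  have h4 := i1 (fun _ => v) 1 (fun x => by simpa using cl_sq_le _)
  simp only [DV, univ_unique, sum_singleton] at h4
  have h5 : a * c.D v v ≤ 1 / r * 2 + 1 := by
    have := mul_le_mul_of_nonneg_left h2 ha
    nlinarith [mul_le_mul_of_nonneg_left h1 he]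
  have h6 : d₁.D v v ≤ (4 / r + 3) / b₁ := by
    rw [le_div_iff₀' hb₁]
    have : 0 ≤ a * c.D v v := mul_nonneg ha (c.D_nonneg v)
    have e2 : 4 / r = 1 / r * 4 := by ring
    nlinarith
  have h7 := D_par d₁ v (u - v)
  have h8 := p1.D_le_one (u - v)
  have h9 := ip_sub_P_le p1 u
  rw [add_sub_cancel] at h7
  rw [hd₁] at h8 h9
  linarith

end abs

section dict
open Matrix
open Crest.Agent.T157.E Crest.Agent.T157.St Crest.Agent.T157.Sg

variable {Ω ι : Type*} [Fintype Ω] [Nonempty Ω] [DecidableEq Ω] [Fintype ι] [DecidableEq ι]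
  {φ : Ω → ι → ℝ} {w : Ω → ℝ} {K : ℝ} (hw : ∀ x, 0 < w x) (hK : 0 ≤ K)

lemma Tk_dm' (f : (ι → ℝ) → ℝ) :
    (fun x => Tk K (dm w φ) f (φ x)) = (stRC φ hw hK).P *ᵥ fun x => f (φ x) :=
  funext fun x => Tk_dm hw hK f x

lemma iter_dm (j : ℕ) (f : (ι → ℝ) → ℝ) :
    (fun x => (Tk K (dm w φ))^[j] f (φ x)) = (stRC φ hw hK).P ^ j *ᵥ fun x => f (φ x) := by
  induction j with
  | zero => simp
  | succ j ih =>
    rw [pow_succ', ← mulVec_mulVec, ← ih, ← Tk_dm' hw hK]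
    simp only [Function.iterate_succ_apply']

/-- the Poissonised static chain of a finite law is the semigroup of `stRC` -/
theorem Qs_dm (c : ℝ) (f : (ι → ℝ) → ℝ) :
    (fun x => Qs K c (dm w φ) f (φ x)) = (stRC φ hw hK).H c *ᵥ fun x => f (φ x) := by
  funext x
  rw [Qs, ← ((stRC φ hw hK).hasSum_H_mulVec c _ x).tsum_eq]
  congr 1
  funext j
  rw [← iter_dm hw hK j f]

end dict

open MeasureTheory Matrix Filter Topology Finset Real
open Crest.ProbabilityR.SpinGlassDynamics Crest.Agent.T157.E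
open Crest.Agent.T157.St Crest.Agent.T157.Ed
open Crest.Agent.T157.Tr (Off)
open Crest.Agent.T157.Soft (Pn ch N23 N23_pos)
open Crest.Agent.T157.Q1 (LdB)

variable {n : ℕ}

/-- the static chain of the cube in hatted units -/
abbrev st (g : Pair n → ℝ) {K : ℝ} (hK : 0 ≤ K) : Chain22.RC (Cube n) :=
  Sg.stRC (hat n) (gibbsWeight_pos 1 g) hK

lemma st_P_eq (hn : 0 < n) (g : Pair n → ℝ) {K : ℝ} (hK : 0 ≤ K) (hs : 0 ≤ K / N23 n) :
    (st g hK).P = (Sg.stRC sv (gibbsWeight_pos 1 g) hs).P := by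
  have h := Sg.stQ_smul (φ := sv) (w := gibbsWeight n 1 g) ((sx n ^ 2)⁻¹)
    (inv_pos.2 (pow_pos (sx_pos hn) 2)) K
  have e : ((sx n ^ 2)⁻¹) ^ 2 * K = K / N23 n := by
    rw [show N23 n = sx n ^ 4 from tau_eq n]; ring
  rw [e] at h
  exact h

lemma DV_st (hn : 0 < n) (g : Pair n → ℝ) {K : ℝ} (hK : 0 ≤ K) {κ : Type} [Fintype κ]
    (f : κ → Cube n → ℝ) :
    Sg.DV (st g hK) f = Tr.Ph sv (gibbsWeight n 1 g) f (K / N23 n) := by
  have hs : 0 ≤ K / N23 n := div_nonneg hK (N23_pos hn).le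
  have e : Sg.DV (Sg.stRC sv (gibbsWeight_pos 1 g) hs) f =
    Tr.Ph sv (gibbsWeight n 1 g) f (K / N23 n) := Sg.DV_stRC _ hs f
  rw [← e]
  simp only [Sg.DV, Chain22.RC.D, st_P_eq hn g hK hs]
  rfl

lemma DV_ch (hn : 0 < n) (g : Pair n → ℝ) {κ : Type} [Fintype κ] (f : κ → Cube n → ℝ) :
    Soft.tau n 1 * Sg.DV (ch hn g) f = N23 n * ∑ a, dir (gibbsWeight n 1 g) (f a) := by
  simp only [Sg.DV, ← dirichletForm_eq, Soft.dir_eq hn, ← Finset.mul_sum]
  ring

lemma ft_hat : Sg.ft (hat n) = Soft.an n := by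
  funext i x
  have : sx n ^ 2 = (n : ℝ) ^ (1 / 3 : ℝ) := by rw [sx_pow]; norm_num
  simp only [Sg.ft, hat, Soft.an, this, Pi.smul_apply, smul_eq_mul, sv]

/-- `Sg1` in chain words -/
lemma sum_Sg1 (hn : 0 < n) (g : Pair n → ℝ) {K : ℝ} (hK : 0 ≤ K) (c r : ℝ) {κ : Type} [Fintype κ]
    (f : κ → (Fin n → ℝ) → ℝ) :
    ∑ i, Sg1 n g K c r (f i) = Sg.nv (ch hn g).π
      (Sg.HV (ch hn g) (Soft.tau n 1 * r) (fun i x => f i (hat n x)) -
        Sg.HV (st g hK) c fun i x => f i (hat n x)) ^ 2 := by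
  rw [Sg.nv_sq (ch hn g).isP, Sg.ipV]
  refine sum_congr rfl fun i _ => ?_
  have e : Soft.tau n 1 * r = Soft.tau n r := by ring
  simp only [Sg1, Sg.HV, Pi.sub_apply, e, Soft.Pn_eq hn, ← Qs_dm (gibbsWeight_pos 1 g) hK, sq]
  rfl

/-- fourth moment of the smoothed features -/
lemma mom4 (hn : 0 < n) (g : Pair n → ℝ) {K' : ℝ} (hK : 0 ≤ K') :
    Chain22.mean (ch hn g).π (fun x => Sg.sq2
      (fun i x => Tk K' (muG n g) (fun y => y i) (hat n x)) x ^ 2) ≤ 4 * Soft.Xth n g (K' + 2) := by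
  have e : (fun (i : Fin n) (x : Cube n) => Tk K' (muG n g) (fun y => y i) (hat n x)) =
      fun i => (st g hK).P *ᵥ Sg.ft (hat n) i :=
    funext fun i => Tk_dm' (gibbsWeight_pos 1 g) hK fun y => y i
  rw [e]
  have h1 := Sg.mean_pow_le (ch hn g).isP
    (Sg.sq2_nonneg fun i => (st g hK).P *ᵥ Sg.ft (hat n) i) le_rfl 2
  have h2 := Sg.exp_sq_stRC_le (φ := hat n) (gibbsWeight_pos 1 g) hK (c := ch hn g) rfl zero_le_one
  have h3 := Soft.XX_le hn g (K' + 2 * 1)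
  rw [← ft_hat] at h3
  rw [mul_one] at h2 h3
  have h4 : Sg.EM (ch hn g).π (Sg.sq2 fun i => (st g hK).P *ᵥ Sg.ft (hat n) i) 1 ≤
    2 * Soft.Xth n g (K' + 2) := h2.trans h3
  norm_num [Nat.factorial] at h1
  linarith

/-- both form inequalities, either law -/
def I12B (b : Bool) (k : ℝ) : Prop := ∀ e ε : ℝ, 0 < e → 0 < ε → ∃ K₀ : ℝ, 0 < K₀ ∧ ∀ K, K₀ ≤ K →
  Off (couplingLaw b) ε fun n g => ∀ (hn : 0 < n) (hK : 0 ≤ K),
    Sg.I12 (ch hn g) (Sg.stRC (hat n) (gibbsWeight_pos 1 g) hK) (Soft.tau n 1) (k * K) e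

/-- **(SG)** from the form inequalities and the two-replica moments -/
theorem sg_of {b : Bool} {k : ℝ} (hk : 0 < k) (hB : BdStmt) (hL : LdB b) (hI : I12B b k) :
    SgStmt b k := by
  intro r₁ r₂ B K' δ ε h1 hK' hδ hε
  obtain ⟨A, hA⟩ := hL (ε / 2) (by positivity)
  obtain ⟨e, he, H⟩ := Sg.s2_mom (t₂ := r₂) (δ := √δ)
    (max (B ^ 4) (4 * (A * exp (A * (K' + 2) ^ (3 / 2 : ℝ))))) h1 (by positivity)
  obtain ⟨K₀, h0, hI⟩ := hI e (ε / 2) he (by positivity)
  refine ⟨K₀, h0, fun K hK S hS => ?_⟩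
  have K0 : 0 ≤ K := h0.le.trans hK
  have hA' : Off (couplingLaw b) (ε / 2) fun n g =>
      ¬ ∃ θ : ℝ, 0 ≤ θ ∧ A * exp (A * θ ^ (3 / 2 : ℝ)) < Soft.Xth n g θ := by
    simpa only [Off, not_not] using hA
  have := ((hI K hK).and hA' (by positivity) (by positivity)).le (le_of_eq (add_halves ε))
  refine this.mono ((eventually_gt_atTop 0).mono fun n hn g ⟨a1, a2⟩ r hr => ?_)
  have key := H (Cube n) (ch hn g) (st g K0) rfl _ _ (Soft.tau_pos hn one_pos).le
    (by positivity) (a1 hn K0) r hr.1 hr.2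
  have fin : ∀ {κ : Type} [Fintype κ] (f : κ → (Fin n → ℝ) → ℝ),
      Chain22.mean (ch hn g).π (fun x => Sg.sq2 (fun i x => f i (hat n x)) x ^ 2) ≤
        max (B ^ 4) (4 * (A * exp (A * (K' + 2) ^ (3 / 2 : ℝ)))) →
      ∑ i, Sg1 n g K (k * K * r) r (f i) ≤ δ := fun f hf => by
    rw [sum_Sg1 hn g K0, ← sq_sqrt hδ.le]
    exact pow_le_pow_left₀ (Sg.nv_nonneg _) (key _ _ hf) 2
  refine ⟨fun s hs => ?_, fin _ ((mom4 hn g hK'.le).trans (le_trans ?_ (le_max_right _ _)))⟩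
  · have b1 := ((hB (Fin n) (muG n g) (Lnk10.cp_dm (gibbsWeight_pos 1 g) _).prob).2 0
      ⟨measurable_const, fun _ => by simp⟩ s (hS s hs).1).2
    have := fin (κ := Unit) (fun _ => s.ev (muG n g) 0) (le_trans ?_ (le_max_left _ _))
    · simpa using this
    rw [← (ch hn g).isP.mean_const (B ^ 4)]
    refine (ch hn g).isP.mean_mono fun x => ?_
    have b2 := (b1 (hat n x)).trans (hS s hs).2
    have := pow_le_pow_left₀ (abs_nonneg _) b2 4
    rw [show (4 : ℕ) = 2 * 2 from rfl, pow_mul, sq_abs] at this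
    simpa [Sg.sq2] using this
  · have := not_lt.1 fun h => a2 ⟨K' + 2, by positivity, h⟩
    linarith

end Crest.Agent.T157.Cq.Sg6

namespace Crest.Agent.T157.Cq

open MeasureTheory Matrix Filter Topology Finset Real
open Crest.ProbabilityR.SpinGlassDynamics Crest.Agent.T157.E
open Crest.Agent.T157.St Crest.Agent.T157.Ed
open Crest.Agent.T157.Soft (Pn ch N23 N23_pos)
open Sg6

theorem i12Glue : I12Glue := by
  intro k _ h1 h2 e ε he hε
  obtain ⟨K₁, p1, h1⟩ := h1 e (ε / 2) he (by positivity)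
  obtain ⟨K₂, -, h2⟩ := h2 e (ε / 2) he (by positivity)
  refine ⟨max K₁ K₂, lt_max_of_lt_left p1, fun K hK => ?_⟩
  have := ((h1 K (le_of_max_le_left hK)).and (h2 K (le_of_max_le_right hK)) (by positivity)
    (by positivity)).le (le_of_eq (add_halves ε))
  refine this.imp fun n g ⟨a1, a2⟩ hn K0 κ _ => ⟨fun f B hB => ?_, fun f B hB => ?_⟩
  · rw [DV_st hn, DV_ch]
    exact a1 κ f B hB
  · obtain ⟨f', b1, b2⟩ := a2 κ f B hB
    refine ⟨f', ?_, ?_⟩
    · rw [DV_st hn]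
      refine le_trans (le_of_eq ?_) b1
      simp only [Sg.ipV, Pi.sub_apply, sq]
      rfl
    · rw [DV_st hn, DV_ch]
      exact b2

/-- (TS) needs only the form inequalities -/
theorem ts_of {k : ℝ} (hk : 0 < k) (hI : I12Stmt k) : TsStmt k := by
  intro r δ ε hr hδ hε
  set e := min 1 (δ / (4 * (1 + 1 / r))) with he
  have e0 : 0 < e := lt_min one_pos (by positivity)
  have e2 : e * (1 + 1 / r) ≤ δ / 4 := by
    have := min_le_right 1 (δ / (4 * (1 + 1 / r)))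
    rw [← he, le_div_iff₀ (by positivity)] at this
    linarith
  obtain ⟨K₀, h0, hI⟩ := hI e (ε / 2) e0 (by positivity)
  set K₁ := max K₀ (4 * (4 / r + 3) / (k * δ)) with hK₁
  have k1 : 0 < K₁ := lt_max_of_lt_left h0
  have k2 : (4 / r + 3) / (k * K₁) ≤ δ / 4 := by
    have : 4 * (4 / r + 3) / (k * δ) ≤ K₁ := le_max_right _ _
    rw [div_le_iff₀ (by positivity)] at this ⊢
    linarith
  refine ⟨K₁, K₀, k1, h0, fun K hK => ?_⟩
  have K0 : 0 < K := h0.trans_le hK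
  have := ((hI K hK).and (hI K₁ (le_max_left _ _)) (by positivity)
    (by positivity)).le (le_of_eq (add_halves ε))
  refine this.mono ((eventually_gt_atTop 0).mono fun n hn g ⟨a1, a2⟩ f hf c hc => ?_)
  have key := ts_abs (c := ch hn g) (d := st g K0.le) (d₁ := st g k1.le) rfl
    (Sg.stRC_psd _ _) (Soft.tau_pos hn one_pos).le (by positivity) (by positivity) e0.le
    (min_le_left _ _) hr hc (a1 hn K0.le Unit).2 (a2 hn k1.le Unit).1
    (F := fun x => f (hat n x)) fun x => by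
      rw [← sq_abs]; exact pow_le_one₀ (abs_nonneg _) (hf.2 _)
  rw [← Qs_dm (gibbsWeight_pos 1 g) K0.le, ← Tk_dm' (gibbsWeight_pos 1 g) k1.le] at key
  rw [muG, Lnk10.integral_dm fun x => (gibbsWeight_pos 1 g x).le]
  refine le_trans (le_of_eq ?_) (key.trans (by linarith))
  simp only [sq]
  rfl

theorem tsGlue : TsGlue := fun _ hk _ hI _ => ts_of hk hI

end Crest.Agent.T157.Cq

end
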