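import Crest.Agent.T157.SpDef_87

/-!
# Row 157: `Sp.LowStmt` (helper15)

Markov's inequality with a Laplace transform off two coordinates.
-/

set_option autoImplicit false

noncomputable section

namespace Crest.Agent.T157.Sp

open MeasureTheory ProbabilityTheory Matrix Filter Topology Finset Real
open scoped ENNReal NNReal
open Crest.Agent.T157.E Crest.Agent.T157.St

namespace Low15

theorem lap {v b : ℝ} (hv : 0 ≤ v) (hb : 0 ≤ b) :
    ∫ y, exp (-(b * y ^ 2)) ∂gaussianReal 0 v.toNNReal = (√(1 + 2 * (b * v)))⁻¹ := by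
  rcases hv.eq_or_lt with rfl | hv
  · simp
  rw [integral_gaussianReal_eq_integral_smul (by simpa using hv)]
  simp only [gaussianPDFReal, Real.coe_toNNReal _ hv.le, sub_zero, smul_eq_mul]
  have e : ∀ θ : ℝ, (√(2 * π * v))⁻¹ * exp (-θ ^ 2 / (2 * v)) * exp (-(b * θ ^ 2)) =
      (√(2 * π * v))⁻¹ * exp (-((1 + 2 * (b * v)) / (2 * v)) * θ ^ 2) := fun θ => by
    rw [mul_assoc, ← exp_add]
    congr 2
    field_simp
    ring
  simp only [e]
  have h1 : 0 < 1 + 2 * (b * v) := by positivity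
  rw [integral_const_mul, integral_gaussian,
    show π / ((1 + 2 * (b * v)) / (2 * v)) = 2 * π * v / (1 + 2 * (b * v)) by field_simp,
    sqrt_div (by positivity), div_eq_mul_inv, ← mul_assoc,
    inv_mul_cancel₀ (sqrt_pos.2 (by positivity)).ne', one_mul]

theorem inv_sqrt_le {x : ℝ} (hx : 0 ≤ x) : (√(1 + 2 * x))⁻¹ ≤ exp (-x + x ^ 2) := by
  have h1 : 2 * x - 2 * x ^ 2 ≤ log (1 + 2 * x) := by
    have h2 := Real.le_log_one_add_of_nonneg (x := 2 * x) (by positivity)
    refine le_trans ?_ h2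
    rw [le_div_iff₀ (by positivity)]
    nlinarith [mul_nonneg hx (sq_nonneg x)]
  have h3 : exp (x - x ^ 2) ≤ √(1 + 2 * x) := by
    apply Real.le_sqrt_of_sq_le
    rw [← exp_nat_mul, ← Real.le_log_iff_exp_le (by positivity)]
    push_cast; linarith
  rw [show -x + x ^ 2 = -(x - x ^ 2) by ring, Real.exp_neg]
  exact inv_anti₀ (exp_pos _) h3

/-- one mode of the channel -/
def g1 (b r a : ℝ) : ℝ := ∫ z, exp (-(b * (r * a + √r * z) ^ 2)) ∂gaussianReal 0 1

theorem g1_nonneg (b r a : ℝ) : 0 ≤ g1 b r a := integral_nonneg fun _ => (exp_pos _).le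

theorem ex_le {b : ℝ} (hb : 0 ≤ b) (y : ℝ) : ‖exp (-(b * y ^ 2))‖ ≤ 1 := by
  rw [Real.norm_of_nonneg (exp_pos _).le]
  exact exp_le_one_iff.2 (neg_nonpos.2 (by positivity))

theorem g1_le {b : ℝ} (hb : 0 ≤ b) (r a : ℝ) : g1 b r a ≤ 1 := by
  have := norm_integral_le_of_norm_le_const (μ := gaussianReal 0 1)
    (f := fun z => exp (-(b * (r * a + √r * z) ^ 2))) (C := 1) (ae_of_all _ fun z => ex_le hb _)
  simp only [probReal_univ, mul_one] at this
  exact (le_abs_self _).trans this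

theorem g1_cont {b : ℝ} (hb : 0 ≤ b) (r : ℝ) : Continuous (g1 b r) := by
  refine continuous_of_dominated (bound := fun _ => 1) (fun a => ?_)
    (fun a => ae_of_all _ fun z => ex_le hb _) (integrable_const _) (ae_of_all _ fun z => ?_)
  · exact Continuous.aestronglyMeasurable (by fun_prop)
  · fun_prop

theorem g1_int {b r c : ℝ} (hb : 0 ≤ b) (hr : 0 ≤ r) (hc : 0 ≤ c) :
    ∫ a, g1 b r a ∂gaussianReal 0 c.toNNReal = (√(1 + 2 * (b * (r ^ 2 * c + r))))⁻¹ := by
  rw [← lap (by positivity) hb]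
  have h1 : (gaussianReal 0 c.toNNReal).map (r * ·) = gaussianReal 0 (r ^ 2 * c).toNNReal := by
    rw [gaussianReal_map_const_mul]
    congr 1
    · simp
    · ext; simp [hc, mul_nonneg (sq_nonneg r) hc]
  have h2 : (gaussianReal 0 1).map (√r * ·) = gaussianReal 0 r.toNNReal := by
    rw [gaussianReal_map_const_mul]
    congr 1
    · simp
    · ext; simp [hr]
  have h3 : gaussianReal 0 (r ^ 2 * c + r).toNNReal =
      gaussianReal 0 (r ^ 2 * c).toNNReal ∗ gaussianReal 0 r.toNNReal := by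
    rw [gaussianReal_conv_gaussianReal, add_zero, Real.toNNReal_add (by positivity) hr]
  have hcont : Continuous fun y : ℝ => exp (-(b * y ^ 2)) := by fun_prop
  rw [h3, integral_conv (Integrable.of_bound hcont.aestronglyMeasurable 1
    (ae_of_all _ fun y => ex_le hb y))]
  have h4 : ∀ x : ℝ, ∫ y, exp (-(b * (x + y) ^ 2)) ∂gaussianReal 0 r.toNNReal =
      ∫ z, exp (-(b * (x + √r * z) ^ 2)) ∂gaussianReal 0 1 := fun x => by
    rw [← h2, integral_map (by fun_prop) (Continuous.aestronglyMeasurable (by fun_prop))]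
  simp_rw [h4]
  rw [← h1, integral_map (by fun_prop)]
  · rfl
  · refine Continuous.aestronglyMeasurable ?_
    refine continuous_of_dominated (bound := fun _ => 1) (fun a => ?_)
      (fun a => ae_of_all _ fun z => ex_le hb _) (integrable_const _) (ae_of_all _ fun z => ?_)
    · exact Continuous.aestronglyMeasurable (by fun_prop)
    · fun_prop

theorem int_prod {ι : Type} [Fintype ι] [DecidableEq ι] (ν : ι → Measure ℝ)
    [∀ k, IsProbabilityMeasure (ν k)] (S : Finset ι) (f : ι → ℝ → ℝ) :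
    ∫ x, ∏ k ∈ S, f k (x k) ∂Measure.pi ν = ∏ k ∈ S, ∫ a, f k a ∂ν k := by
  have h := integral_fintype_prod_eq_prod (μ := ν) (fun k a => if k ∈ S then f k a else 1)
  have h2 : ∀ k, ∫ a, (if k ∈ S then f k a else 1) ∂ν k = if k ∈ S then ∫ a, f k a ∂ν k else 1 :=
    fun k => by split_ifs <;> simp
  simp_rw [h2, prod_ite_mem, univ_inter] at h
  exact h

end Low15

open Low15

theorem lowStmt : LowStmt := by
  intro ι _ _ μ c d i j B r l u hμ hc hd hB hr hl hD
  set S := (univ.erase i).erase j with hS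
  have hb : ∀ k, 0 ≤ l * d k := fun k => mul_nonneg hl (hd k)
  let G : (ι → ℝ) → ℝ := fun x => ∏ k ∈ S, g1 (l * d k) r (x k)
  have hGc : Continuous G :=
    continuous_finsetProd _ fun k _ => (g1_cont (hb k) r).comp (continuous_apply k)
  have hG0 : ∀ x, 0 ≤ G x := fun x => prod_nonneg fun k _ => g1_nonneg _ _ _
  have hG1 : ∀ x, G x ≤ 1 := fun x =>
    prod_le_one (fun k _ => g1_nonneg _ _ _) fun k _ => g1_le (hb k) _ _
  have h1 := hD G hGc hG0 hG1 fun x a b => prod_congr rfl fun k hk => by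
    have hj : k ≠ j := (mem_erase.1 hk).1
    have hi : k ≠ i := (mem_erase.1 (mem_erase.1 hk).2).1
    rw [Function.update_of_ne hj, Function.update_of_ne hi]
  have h2 : ∫ x, G x ∂gs 0 c ≤ exp (-(l * ∑ k ∈ S, d k * (r ^ 2 * c k + r)) +
      l ^ 2 * ∑ k, (d k * (r ^ 2 * c k + r)) ^ 2) := by
    have ha : ∀ k, 0 ≤ l * d k * (r ^ 2 * c k + r) := fun k => by
      have := hb k; have := hc k; positivity
    rw [gs, int_prod _ S fun k => g1 (l * d k) r]
    calc ∏ k ∈ S, ∫ a, g1 (l * d k) r a ∂gaussianReal ((0 : ι → ℝ) k) (c k).toNNReal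
        ≤ ∏ k ∈ S, exp (-(l * d k * (r ^ 2 * c k + r)) + (l * d k * (r ^ 2 * c k + r)) ^ 2) := by
          refine prod_le_prod (fun k _ => integral_nonneg fun a => g1_nonneg _ _ _) fun k _ => ?_
          rw [Pi.zero_apply, g1_int (hb k) hr (hc k).le]
          exact inv_sqrt_le (ha k)
      _ = exp (-(l * ∑ k ∈ S, d k * (r ^ 2 * c k + r)) +
            l ^ 2 * ∑ k ∈ S, (d k * (r ^ 2 * c k + r)) ^ 2) := by
          rw [← exp_sum, sum_add_distrib, sum_neg_distrib, mul_sum, mul_sum]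
          congr 2
          · exact congrArg _ (sum_congr rfl fun k _ => by ring)
          · exact sum_congr rfl fun k _ => by ring
      _ ≤ _ := by
          refine exp_le_exp.2 (add_le_add_right (mul_le_mul_of_nonneg_left ?_ (sq_nonneg l)) _)
          exact sum_le_sum_of_subset_of_nonneg (subset_univ _) fun k _ _ => sq_nonneg _
  let H : (ι → ℝ) → ℝ := fun y => ∏ k ∈ S, exp (-(l * d k * y k ^ 2))
  have hHc : Continuous H := by fun_prop
  have hH0 : ∀ y, 0 ≤ H y := fun y => prod_nonneg fun k _ => (exp_pos _).le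
  have hH1 : ∀ y, ‖H y‖ ≤ 1 := fun y => by
    rw [Real.norm_of_nonneg (hH0 y)]
    exact prod_le_one (fun k _ => (exp_pos _).le) fun k _ =>
      (le_abs_self _).trans (ex_le (hb k) _)
  have hT : Measurable fun p : (ι → ℝ) × (ι → ℝ) => r • p.1 + √r • p.2 := by fun_prop
  have : IsProbabilityMeasure (lawY r μ) := Measure.isProbabilityMeasure_map hT.aemeasurable
  have hHi : Integrable H (lawY r μ) :=
    Integrable.of_bound hHc.aestronglyMeasurable 1 (ae_of_all _ hH1)
  have h3 : ∫ y, H y ∂lawY r μ = ∫ x, G x ∂μ := by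
    rw [lawY, integral_map hT.aemeasurable hHc.aestronglyMeasurable, integral_prod _
      (Integrable.of_bound (Continuous.aestronglyMeasurable (by fun_prop)) 1
        (ae_of_all _ fun p => hH1 _))]
    refine integral_congr_ae (ae_of_all _ fun x => ?_)
    exact int_prod _ S fun k z => exp (-(l * d k * (r * x k + √r * z) ^ 2))
  have hA : MeasurableSet {y : ι → ℝ | ∑ k, d k * y k ^ 2 ≤ u} :=
    measurableSet_le (by fun_prop) measurable_const
  have h4 : (lawY r μ).real {y | ∑ k, d k * y k ^ 2 ≤ u} ≤ ∫ y, exp (l * u) * H y ∂lawY r μ := by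
    rw [← integral_indicator_one hA]
    refine integral_mono ((integrable_const 1).indicator hA) (hHi.const_mul _) fun y => ?_
    by_cases hy : ∑ k, d k * y k ^ 2 ≤ u
    · rw [Set.indicator_of_mem (show y ∈ {y : ι → ℝ | ∑ k, d k * y k ^ 2 ≤ u} from hy)]
      simp only [H, Pi.one_apply]
      rw [← exp_sum, ← exp_add, one_le_exp_iff, sum_neg_distrib]
      have h5 : ∑ k ∈ S, d k * y k ^ 2 ≤ ∑ k, d k * y k ^ 2 :=
        sum_le_sum_of_subset_of_nonneg (subset_univ _) fun k _ _ =>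
          mul_nonneg (hd k) (sq_nonneg _)
      have h6 : ∑ k ∈ S, l * d k * y k ^ 2 = l * ∑ k ∈ S, d k * y k ^ 2 := by
        rw [mul_sum]; exact sum_congr rfl fun k _ => by ring
      rw [h6]
      nlinarith [mul_le_mul_of_nonneg_left (h5.trans hy) hl]
    · rw [Set.indicator_of_notMem (show y ∉ {y : ι → ℝ | ∑ k, d k * y k ^ 2 ≤ u} from hy)]
      exact mul_nonneg (exp_pos _).le (hH0 y)
  rw [integral_const_mul, h3] at h4
  rw [← ofReal_measureReal]
  refine ENNReal.ofReal_le_ofReal (h4.trans ?_)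
  calc exp (l * u) * ∫ x, G x ∂μ ≤ exp (l * u) * (B * exp (-(l * ∑ k ∈ S, d k * (r ^ 2 * c k + r)) +
        l ^ 2 * ∑ k, (d k * (r ^ 2 * c k + r)) ^ 2)) :=
        mul_le_mul_of_nonneg_left (h1.trans (mul_le_mul_of_nonneg_left h2 hB)) (exp_pos _).le
    _ = _ := by
        rw [mul_left_comm, ← exp_add]; congr 2; ring

end Crest.Agent.T157.Sp

end
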