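import Crest.Agent.T157.CqDef_72
import Crest.Agent.T157.SpLow_15
import Crest.Agent.T157.ChainPoi_22

/-!
# Row 157, part C: `Cq.KapStmt` (helper46)

Path representation of the killed chain, Gaussian averages of `exp (-Q)`, Poissonisation.
-/

set_option autoImplicit false
set_option linter.all false

noncomputable section

namespace Crest.Agent.T157.Cq

open MeasureTheory ProbabilityTheory Matrix Filter Topology Finset Real
open Crest.ProbabilityR.SpinGlassDynamics Crest.Agent.T157.E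
open Crest.Agent.T157.St Crest.Agent.T157.Ed
open Crest.Agent.T157.Soft (Pn unif ch)
open Crest.Agent.T157.Chain22 (poi IsP)

namespace Kap46

variable {n : ℕ}

/-! ### the path representation -/

theorem Ph_eq (w f : Cube n → ℝ) (x : Cube n) : Ph w f x = ∑ y, hb w x y * f y := by
  have := Chain22.hb_mulVec w f x
  rw [Ph, ← one_div, ← this]; rfl

theorem rep0 (hn : 0 < n) {w : Cube n → ℝ} (hw : ∀ x, 0 < w x) (m : ℕ) :
    ∃ (ι : Type) (_ : Fintype ι) (p : Cube n → ι → ℝ) (a : Cube n → ι → Cube n → ℝ),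
      (∀ x, IsP (p x)) ∧ (∀ x i y, 0 ≤ a x i y) ∧ (∀ x i, ∑ y, a x i y = m) ∧
      (∀ V x, kil w V m x = ∑ i, p x i * exp (-(a x i ⬝ᵥ V / (n * tau n)))) ∧
      ∀ V x, ∑ j ∈ range m, (Ph w)^[j] V x = ∑ i, p x i * (a x i ⬝ᵥ V) := by
  induction m with
  | zero =>
    exact ⟨Unit, inferInstance, fun _ _ => 1, fun _ _ _ => 0, fun _ => ⟨fun _ => zero_le_one, by simp⟩,
      fun _ _ _ => le_rfl, by simp, fun V x => by simp [kil, dotProduct], fun V x => by
        simp [dotProduct]⟩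
  | succ m ih =>
    obtain ⟨ι, _, p, a, h1, h2, h3, h4, h5⟩ := ih
    have nn : ∀ x y, 0 ≤ hb w x y := (Chain22.hbRC hn hw).nn
    have row : ∀ x, ∑ y, hb w x y = 1 := (Chain22.hbRC hn hw).row
    have P1 : ∀ x, IsP fun q : Cube n × ι => hb w x q.1 * p q.1 q.2 := fun x =>
      ⟨fun q => mul_nonneg (nn _ _) ((h1 _).nn _), by
        rw [Fintype.sum_prod_type]
        simp only [← mul_sum, (h1 _).sum1, mul_one, row]⟩
    refine ⟨Cube n × ι, inferInstance, fun x q => hb w x q.1 * p q.1 q.2,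
      fun x q => Pi.single x 1 + a q.1 q.2, P1, fun x q y => ?_, fun x q => ?_, fun V x => ?_,
      fun V x => ?_⟩
    · exact add_nonneg (by rw [Pi.single_apply]; split_ifs <;> norm_num) (h2 _ _ _)
    · simp [sum_add_distrib, h3, add_comm]
    · have e : kil w V (m + 1) x = exp (-(V x / (n * tau n))) * Ph w (kil w V m) x := by
        rw [kil, Function.iterate_succ_apply']; rfl
      rw [e, Ph_eq, Fintype.sum_prod_type, mul_sum]
      refine sum_congr rfl fun y _ => ?_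
      rw [h4, mul_sum, mul_sum]
      refine sum_congr rfl fun i _ => ?_
      rw [add_dotProduct, single_dotProduct, one_mul, add_div, neg_add, exp_add]; ring
    · have e : ∑ j ∈ range m, (Ph w)^[j + 1] V x = ∑ y, hb w x y * ∑ j ∈ range m, (Ph w)^[j] V y := by
        simp only [Function.iterate_succ_apply', Ph_eq w _ x, mul_sum]
        exact sum_comm
      rw [sum_range_succ', e]
      simp only [add_dotProduct, single_dotProduct, one_mul, mul_add, sum_add_distrib, ← sum_mul,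
        (P1 x).sum1, Function.iterate_zero_apply, h5]
      rw [add_comm, Fintype.sum_prod_type]
      simp only [mul_sum, mul_assoc]

theorem N_pos (hn : 0 < n) : (0 : ℝ) < n * tau n := by
  have : (0 : ℝ) < n := by exact_mod_cast hn
  unfold tau; positivity

/-- **path representation** of `kap` and `occ` -/
theorem rep (hn : 0 < n) (W : Mat n) (ε : ℝ) :
    ∃ (ι : Type) (_ : Fintype ι) (p : ι → ℝ) (a : ι → Cube n → ℝ), IsP p ∧ (∀ i y, 0 ≤ a i y) ∧
      (∀ i, ∑ y, a i y = Mst n ε / (n * tau n)) ∧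
      (∀ V, kap W ε V = ∑ i, p i * (1 - exp (-(a i ⬝ᵥ V)))) ∧
      ∀ V, occ W ε V = ∑ i, p i * (a i ⬝ᵥ V) := by
  obtain ⟨ι, _, p, a, h1, h2, h3, h4, h5⟩ := rep0 hn (w := ising W 0) (fun _ => exp_pos _) (Mst n ε)
  have hN := N_pos hn
  have P1 : IsP fun q : Cube n × ι => unif n q.1 * p q.1 q.2 :=
    ⟨fun q => mul_nonneg (Soft.isP_unif.nn _) ((h1 _).nn _), by
      rw [Fintype.sum_prod_type]
      simp only [← mul_sum, (h1 _).sum1, mul_one, Soft.isP_unif.sum1]⟩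
  refine ⟨Cube n × ι, inferInstance, fun q => unif n q.1 * p q.1 q.2,
    fun q => (n * tau n)⁻¹ • a q.1 q.2, P1, fun q y => mul_nonneg (inv_nonneg.2 hN.le) (h2 _ _ _),
    fun q => ?_, fun V => ?_, fun V => ?_⟩
  · simp only [Pi.smul_apply, smul_eq_mul, ← mul_sum, h3]; rw [div_eq_inv_mul]
  · simp only [mul_sub, sum_sub_distrib, mul_one, P1.sum1]
    rw [kap, um, Fintype.sum_prod_type]
    simp only [h4, mul_sum, mul_assoc, smul_dotProduct, smul_eq_mul, div_eq_inv_mul]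
  · rw [occ, Fintype.sum_prod_type]
    simp only [um]
    rw [sum_comm, mul_sum]
    refine sum_congr rfl fun x _ => ?_
    rw [← mul_sum, h5, mul_sum, mul_sum]
    refine sum_congr rfl fun i _ => ?_
    rw [smul_dotProduct, smul_eq_mul]; ring

theorem dot_nonneg {a V : Cube n → ℝ} (ha : ∀ y, 0 ≤ a y) (hV : ∀ y, 0 ≤ V y) : 0 ≤ a ⬝ᵥ V :=
  sum_nonneg fun y _ => mul_nonneg (ha y) (hV y)

/-! ### Gaussian averages -/

section gauss
variable {ι : Type*} [Fintype ι]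

theorem map_dot (v : ι → ℝ) :
    (gv ι).map (fun x => v ⬝ᵥ x) = gaussianReal 0 (v ⬝ᵥ v).toNNReal := by
  have hv : 0 ≤ v ⬝ᵥ v := sum_nonneg fun i _ => mul_self_nonneg _
  haveI : IsProbabilityMeasure ((gv ι).map fun x => v ⬝ᵥ x) :=
    Measure.isProbabilityMeasure_map (by fun_prop)
  refine Measure.ext_of_charFun (funext fun t => ?_)
  have h := Cond.CF_gv (t • v)
  rw [charFun_gaussianReal, charFun_apply_real, integral_map (by fun_prop) (by fun_prop)]
  simp only [Cond.CF, smul_dotProduct, dotProduct_smul, smul_eq_mul] at h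
  rw [Real.coe_toNNReal _ hv]
  push_cast at h ⊢
  rw [h]
  congr 1; ring

theorem int_exp_sq (v : ι → ℝ) {b : ℝ} (hb : 0 ≤ b) :
    ∫ ξ, exp (-(b * (v ⬝ᵥ ξ) ^ 2)) ∂gv ι = (√(1 + 2 * (b * (v ⬝ᵥ v))))⁻¹ := by
  have hv : 0 ≤ v ⬝ᵥ v := sum_nonneg fun i _ => mul_self_nonneg _
  rw [← Sp.Low15.lap hv hb, ← map_dot, integral_map (by fun_prop) (by fun_prop)]

theorem integrable_sq (v : ι → ℝ) : Integrable (fun ξ => (v ⬝ᵥ ξ) ^ 2) (gv ι) := by
  have h : Integrable (fun x : ℝ => x ^ 2) (gaussianReal 0 (v ⬝ᵥ v).toNNReal) :=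
    (memLp_id_gaussianReal 2).integrable_sq
  rw [← map_dot] at h
  exact (integrable_map_measure (by fun_prop) (by fun_prop)).1 h

theorem int_sq (v : ι → ℝ) : ∫ ξ, (v ⬝ᵥ ξ) ^ 2 ∂gv ι = v ⬝ᵥ v := by
  have hv : 0 ≤ v ⬝ᵥ v := sum_nonneg fun i _ => mul_self_nonneg _
  have h := variance_id_gaussianReal (μ := 0) (v := (v ⬝ᵥ v).toNNReal)
  rw [variance_of_integral_eq_zero (by fun_prop) (by simp), Real.coe_toNNReal _ hv, ← map_dot,
    integral_map (by fun_prop) (by fun_prop)] at h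
  exact h

theorem integrable_exp_neg {Q : (ι → ℝ) → ℝ} (hm : Measurable Q) (h : ∀ ξ, 0 ≤ Q ξ) :
    Integrable (fun ξ => exp (-Q ξ)) (gv ι) :=
  Integrable.of_bound (by fun_prop) 1 (ae_of_all _ fun ξ => by
    rw [Real.norm_eq_abs, abs_of_pos (exp_pos _)]
    exact exp_le_one_iff.2 (neg_nonpos.2 (h ξ)))

variable {κ : Type*} [Fintype κ] {c : κ → ℝ} (v : κ → ι → ℝ)

theorem Q_low (hc : ∀ y, 0 ≤ c y) : exp (-∑ y, c y * (v y ⬝ᵥ v y)) ≤
    ∫ ξ, exp (-∑ y, c y * (v y ⬝ᵥ ξ) ^ 2) ∂gv ι := by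
  set m := ∑ y, c y * (v y ⬝ᵥ v y) with hm
  have hi : Integrable (fun ξ => ∑ y, c y * (v y ⬝ᵥ ξ) ^ 2) (gv ι) :=
    integrable_finsetSum _ fun y _ => (integrable_sq (v y)).const_mul _
  have e : ∫ ξ, ∑ y, c y * (v y ⬝ᵥ ξ) ^ 2 ∂gv ι = m := by
    rw [integral_finsetSum _ fun y _ => (integrable_sq (v y)).const_mul _]
    simp only [integral_const_mul, int_sq, hm]
  have h1 : ∫ ξ, exp (-m) * ((1 + m) - ∑ y, c y * (v y ⬝ᵥ ξ) ^ 2) ∂gv ι = exp (-m) := by
    rw [integral_const_mul, integral_sub (integrable_const _) hi, e]; simp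
  rw [← h1]
  refine integral_mono (((integrable_const _).sub hi).const_mul _)
    (integrable_exp_neg (by fun_prop) fun ξ => sum_nonneg fun y _ => mul_nonneg (hc y) (sq_nonneg _))
    fun ξ => ?_
  have := add_one_le_exp (m - ∑ y, c y * (v y ⬝ᵥ ξ) ^ 2)
  have h2 := mul_le_mul_of_nonneg_left this (exp_pos (-m)).le
  rw [← exp_add, neg_add_eq_sub, sub_sub_cancel_left] at h2
  refine le_trans (le_of_eq ?_) h2
  ring

theorem Q_up (hc : ∀ y, 0 ≤ c y) (hm : 0 < ∑ y, c y * (v y ⬝ᵥ v y)) :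
    ∫ ξ, exp (-∑ y, c y * (v y ⬝ᵥ ξ) ^ 2) ∂gv ι ≤ (√(1 + 2 * ∑ y, c y * (v y ⬝ᵥ v y)))⁻¹ := by
  set m := ∑ y, c y * (v y ⬝ᵥ v y) with hm'
  have hv : ∀ y, 0 ≤ v y ⬝ᵥ v y := fun y => sum_nonneg fun i _ => mul_self_nonneg _
  have hθ : ∀ y, 0 ≤ c y * (v y ⬝ᵥ v y) / m := fun y => div_nonneg (mul_nonneg (hc y) (hv y)) hm.le
  have h1 : ∑ y, c y * (v y ⬝ᵥ v y) / m = 1 := by rw [← sum_div, div_self hm.ne']
  have hi : ∀ y, Integrable (fun ξ => exp (-(m / (v y ⬝ᵥ v y) * (v y ⬝ᵥ ξ) ^ 2))) (gv ι) := fun y =>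
    integrable_exp_neg (by fun_prop) fun ξ => mul_nonneg (div_nonneg hm.le (hv y)) (sq_nonneg _)
  calc _ ≤ ∫ ξ, ∑ y, c y * (v y ⬝ᵥ v y) / m * exp (-(m / (v y ⬝ᵥ v y) * (v y ⬝ᵥ ξ) ^ 2)) ∂gv ι := by
        refine integral_mono (integrable_exp_neg (by fun_prop) fun ξ =>
          sum_nonneg fun y _ => mul_nonneg (hc y) (sq_nonneg _))
          (integrable_finsetSum _ fun y _ => (hi y).const_mul _) fun ξ => ?_
        have := convexOn_exp.map_sum_le (t := univ) (w := fun y => c y * (v y ⬝ᵥ v y) / m)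
          (p := fun y => -(m / (v y ⬝ᵥ v y) * (v y ⬝ᵥ ξ) ^ 2)) (fun y _ => hθ y) h1
          fun _ _ => Set.mem_univ _
        simp only [smul_eq_mul] at this
        refine le_trans (le_of_eq ?_) this
        rw [← sum_neg_distrib]
        congr 1
        refine sum_congr rfl fun y _ => ?_
        by_cases h0 : v y ⬝ᵥ v y = 0
        · rw [dotProduct_self_eq_zero.1 h0]; simp
        · field_simp
    _ = ∑ y, c y * (v y ⬝ᵥ v y) / m * (√(1 + 2 * m))⁻¹ := by
        rw [integral_finsetSum _ fun y _ => (hi y).const_mul _]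
        refine sum_congr rfl fun y _ => ?_
        rw [integral_const_mul, int_exp_sq _ (div_nonneg hm.le (hv y))]
        by_cases h0 : v y ⬝ᵥ v y = 0
        · simp [h0]
        · rw [div_mul_cancel₀ _ h0]
    _ = _ := by rw [← sum_mul, h1, one_mul]

theorem Q_rev (hc : ∀ y, 0 ≤ c y) {z : ℝ} (hz : 0 ≤ z) :
    1 - exp (-(z * ∑ y, c y * (v y ⬝ᵥ v y))) ≤
      4 * z + 2 * (1 - ∫ ξ, exp (-∑ y, c y * (v y ⬝ᵥ ξ) ^ 2) ∂gv ι) := by
  rcases le_or_gt (∑ y, c y * (v y ⬝ᵥ v y)) 4 with h | h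
  · have h1 : ∫ ξ, exp (-∑ y, c y * (v y ⬝ᵥ ξ) ^ 2) ∂gv ι ≤ 1 := by
      have := integral_mono (μ := gv ι) (integrable_exp_neg (Q := fun ξ => ∑ y, c y * (v y ⬝ᵥ ξ) ^ 2)
        (by fun_prop) fun ξ => sum_nonneg fun y _ => mul_nonneg (hc y) (sq_nonneg _))
        (integrable_const (1 : ℝ)) fun ξ => exp_le_one_iff.2
          (neg_nonpos.2 (sum_nonneg fun y _ => mul_nonneg (hc y) (sq_nonneg _)))
      simpa using this
    have h2 := add_one_le_exp (-(z * ∑ y, c y * (v y ⬝ᵥ v y)))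
    nlinarith [mul_le_mul_of_nonneg_left h hz]
  · have h1 := Q_up v hc (by linarith)
    have h2 : (3 : ℝ) ≤ √(1 + 2 * ∑ y, c y * (v y ⬝ᵥ v y)) := le_sqrt_of_sq_le (by linarith)
    have h3 := h1.trans (inv_anti₀ (by norm_num) h2)
    have := exp_pos (-(z * ∑ y, c y * (v y ⬝ᵥ v y)))
    linarith

end gauss

/-! ### Poisson weights -/

theorem hasDerivAt_cdf (i : ℕ) (t : ℝ) :
    HasDerivAt (fun s => ∑ k ∈ range (i + 1), poi s k) (-poi t i) t := by
  have h0 : HasDerivAt (fun s : ℝ => exp (-s)) (-exp (-t)) t := by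
    simpa using (hasDerivAt_neg t).exp
  induction i with
  | zero => simpa [poi] using h0
  | succ i ih =>
    simp only [sum_range_succ _ (i + 1)]
    have h1 := (h0.mul (hasDerivAt_pow (i + 1) t)).div_const ((i + 1).factorial : ℝ)
    refine (ih.fun_add h1).congr_deriv ?_
    have : (i.factorial : ℝ) ≠ 0 := by positivity
    simp only [poi, Nat.factorial_succ, Nat.add_sub_cancel]
    push_cast
    field_simp
    ring

theorem cdf_le {t : ℝ} (ht : 0 ≤ t) (i : ℕ) : ∑ k ∈ range i, poi t k ≤ 1 :=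
  sum_le_hasSum _ (fun k _ => Chain22.poi_nonneg ht k) (Chain22.hasSum_poi t)

theorem exists_time {N ε : ℝ} (hN : 0 < N) (hε : 0 < ε) (M : ℕ) {u : ℕ → ℝ} (hu : ∀ i, 0 ≤ u i) :
    ∃ r ∈ Set.Icc (ε / 2) ε, ∑ i ∈ range M, poi (N * r) i * u i ≤
      2 / ε * (N⁻¹ * ∑ i ∈ range M, u i) := by
  have hd : ∀ r, HasDerivAt (fun r => ∑ i ∈ range M, -(u i * ∑ k ∈ range (i + 1), poi (N * r) k))
      (N * ∑ i ∈ range M, poi (N * r) i * u i) r := fun r => by
    refine (HasDerivAt.fun_sum fun i _ => (((hasDerivAt_cdf i (N * r)).comp r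
      ((hasDerivAt_id r).const_mul N)).const_mul (u i)).fun_neg).congr_deriv ?_
    rw [mul_sum]
    exact sum_congr rfl fun i _ => by ring
  obtain ⟨r, hr, e⟩ := exists_hasDerivAt_eq_slope _ _ (show ε / 2 < ε by linarith)
    (fun r _ => (hd r).continuousAt.continuousWithinAt) fun r _ => hd r
  refine ⟨r, ⟨hr.1.le, hr.2.le⟩, ?_⟩
  have h1 : ∑ i ∈ range M, -(u i * ∑ k ∈ range (i + 1), poi (N * ε) k) -
      ∑ i ∈ range M, -(u i * ∑ k ∈ range (i + 1), poi (N * (ε / 2)) k) ≤ ∑ i ∈ range M, u i := by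
    rw [← sum_sub_distrib]
    refine sum_le_sum fun i _ => ?_
    have a := cdf_le (t := N * (ε / 2)) (by positivity) (i + 1)
    have b : 0 ≤ ∑ k ∈ range (i + 1), poi (N * ε) k :=
      sum_nonneg fun k _ => Chain22.poi_nonneg (by positivity) k
    nlinarith [mul_nonneg (hu i) b, mul_le_mul_of_nonneg_left a (hu i)]
  rw [eq_div_iff (by linarith)] at e
  rw [← e] at h1
  have e2 : 2 / ε * (N⁻¹ * ∑ i ∈ range M, u i) = (∑ i ∈ range M, u i) / (N * (ε / 2)) := by
    field_simp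
  rw [e2, le_div_iff₀ (by positivity)]
  refine le_trans (le_of_eq ?_) h1
  ring

theorem poi_split {t S δ : ℝ} (ht : 0 ≤ t) (hδ : 0 < δ) {M : ℕ} (hM : t + δ ≤ M) {u : ℕ → ℝ}
    (h0 : ∀ i, 0 ≤ u i) (h1 : ∀ i, u i ≤ 1) (h : HasSum (fun i => poi t i * u i) S) :
    S ≤ ∑ i ∈ range M, poi t i * u i + t / δ ^ 2 := by
  refine hasSum_le_of_sum_le h fun s => ?_
  rw [← sum_filter_add_sum_filter_not s (· < M)]
  refine add_le_add (sum_le_sum_of_subset_of_nonneg (fun i hi => mem_range.2 (mem_filter.1 hi).2)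
    fun i _ _ => mul_nonneg (Chain22.poi_nonneg ht i) (h0 i)) ?_
  refine le_trans (sum_le_sum fun i _ => mul_le_of_le_one_right (Chain22.poi_nonneg ht i) (h1 i))
    (Chain22.sum_poi_far_le ht hδ _ fun j hj => ?_)
  have : (M : ℝ) ≤ j := by exact_mod_cast not_lt.1 (mem_filter.1 hj).2
  exact le_trans (by linarith) (le_abs_self _)

/-! ### the chain -/

theorem Ph_W (g : Pair n → ℝ) (d : Fin n → ℝ) :
    Ph (ising (Wmat n g d) 0) = Ph (gibbsWeight n 1 g) := by
  obtain ⟨c, hc, e⟩ : ∃ c : ℝ, c ≠ 0 ∧ ∀ x, ising (Wmat n g d) 0 x = gibbsWeight n 1 g x * c := by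
    refine ⟨exp (1 / 2 * ∑ i, √2 * d i / √n), (exp_pos _).ne', fun x => ?_⟩
    have : sv x ⬝ᵥ (diagonal fun i => √2 * d i / √n) *ᵥ sv x = ∑ i, √2 * d i / √n :=
      sum_congr rfl fun i _ => by rw [mulVec_diagonal, mul_left_comm, sv, spin_mul_self, mul_one]
    rw [gibbsWeight_eq_ising, one_smul, ising, ising, Wmat, add_mulVec, dotProduct_add, this,
      ← exp_add]
    congr 1; ring
  funext f x
  simp only [Ph, siteM, e]
  congr 1
  refine sum_congr rfl fun l _ => ?_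
  conv_rhs => rw [← mul_div_mul_right _ _ hc]
  congr 1 <;> ring

theorem pow_mulVec (hn : 0 < n) (g : Pair n → ℝ) (f : Cube n → ℝ) (k : ℕ) :
    ((ch hn g).P ^ k) *ᵥ f = (Ph (gibbsWeight n 1 g))^[k] f := by
  induction k with
  | zero => simp
  | succ k ih =>
    rw [pow_succ', ← mulVec_mulVec, ih, Function.iterate_succ_apply']
    funext x
    rw [Ph_eq]; rfl

theorem hasSum_Pn (hn : 0 < n) (g : Pair n → ℝ) (d : Fin n → ℝ) (r : ℝ) (f : Cube n → ℝ) :
    HasSum (fun k => poi (n * tau n * r) k * um ((Ph (ising (Wmat n g d) 0))^[k] f))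
      (um (Pn n g r f)) := by
  have e : Soft.tau n r = n * tau n * r := by rw [Soft.tau_eq, mul_comm (Soft.N23 n)]; rfl
  rw [Soft.Pn_eq hn, e, Ph_W]
  have := hasSum_sum (s := univ) fun x _ =>
    ((ch hn g).hasSum_H_mulVec (n * tau n * r) f x).mul_left (unif n x)
  simp only [pow_mulVec] at this
  have e2 : (fun k => poi (n * tau n * r) k * um ((Ph (gibbsWeight n 1 g))^[k] f)) =
      fun k => ∑ x, unif n x * (poi (n * tau n * r) k * (Ph (gibbsWeight n 1 g))^[k] f x) := by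
    funext k
    rw [um, mul_sum]
    exact sum_congr rfl fun x _ => by ring
  rw [e2]; exact this

theorem iter_mem (hn : 0 < n) {w f : Cube n → ℝ} (hw : ∀ x, 0 < w x) (h0 : ∀ x, 0 ≤ f x)
    (h1 : ∀ x, f x ≤ 1) (k : ℕ) : ∀ x, 0 ≤ (Ph w)^[k] f x ∧ (Ph w)^[k] f x ≤ 1 := by
  induction k with
  | zero => exact fun x => ⟨h0 x, h1 x⟩
  | succ k ih =>
    intro x
    have nn : ∀ y, 0 ≤ hb w x y := (Chain22.hbRC hn hw).nn x
    have row : ∑ y, hb w x y = 1 := (Chain22.hbRC hn hw).row x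
    rw [Function.iterate_succ_apply', Ph_eq]
    exact ⟨sum_nonneg fun y _ => mul_nonneg (nn y) (ih y).1,
      (sum_le_sum fun y _ => mul_le_of_le_one_right (nn y) (ih y).2).trans row.le⟩

theorem path_le {a V : Cube n → ℝ} {T b ε : ℝ} (ha : ∀ y, 0 ≤ a y) (hs : ∑ y, a y ≤ 2 * ε)
    (hV : ∀ y, 0 ≤ V y) (hT : 0 < T) (hb : 0 < b) (hε : 0 < ε) :
    a ⬝ᵥ (Ent.ind fun x => b < V x) ≤ T / b + 4 * ε * (1 - exp (-(a ⬝ᵥ fun x => V x / T))) := by
  have hy : 0 ≤ a ⬝ᵥ fun x => V x / T := dot_nonneg ha fun y => div_nonneg (hV y) hT.le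
  rcases le_or_gt (a ⬝ᵥ fun x => V x / T) 1 with h | h
  · have h1 : a ⬝ᵥ (Ent.ind fun x => b < V x) ≤ T / b * (a ⬝ᵥ fun x => V x / T) := by
      rw [dotProduct, dotProduct, mul_sum]
      refine sum_le_sum fun y _ => ?_
      rw [mul_left_comm]
      refine mul_le_mul_of_nonneg_left ?_ (ha y)
      have e : T / b * (V y / T) = V y / b := by field_simp
      rw [e]
      by_cases hy : b < V y
      · rw [Ent.ind_pos (p := fun x => b < V x) hy]; exact (one_le_div hb).2 hy.le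
      · rw [Ent.ind_neg (p := fun x => b < V x) hy]; exact div_nonneg (hV y) hb.le
    have h2 : exp (-(a ⬝ᵥ fun x => V x / T)) ≤ 1 := exp_le_one_iff.2 (neg_nonpos.2 hy)
    have h3 := mul_le_of_le_one_right (div_pos hT hb).le h
    nlinarith
  · have h1 : a ⬝ᵥ (Ent.ind fun x => b < V x) ≤ 2 * ε :=
      (sum_le_sum fun y _ => mul_le_of_le_one_right (ha y) (Ent.ind_le_one _ y)).trans hs
    have h2 : exp (-(a ⬝ᵥ fun x => V x / T)) ≤ 1 / 2 := by
      rw [exp_neg, one_div]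
      exact inv_anti₀ two_pos (by linarith [add_one_le_exp (a ⬝ᵥ fun x => V x / T)])
    have h3 := (div_pos hT hb).le
    nlinarith

end Kap46

open Kap46 in
/-- **(k1)-(k3)** -/
theorem kapStmt : KapStmt := by
  intro n W ε hn hε
  obtain ⟨ι, _, p, a, hp, ha, hs, hk, ho⟩ := rep hn W ε
  refine ⟨fun V V' hV hV' => ?_, fun F s hs0 => ?_, fun g d V T b hW hV hT hb h4 => ?_⟩
  · rw [hk, hk, hk, ho, ← sum_add_distrib]
    have h1 : ∀ i, 0 ≤ a i ⬝ᵥ V := fun i => dot_nonneg (ha i) hV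
    have h2 : ∀ i, 0 ≤ a i ⬝ᵥ V' := fun i => dot_nonneg (ha i) hV'
    have h3 : ∀ i, exp (-(a i ⬝ᵥ V)) ≤ 1 := fun i => exp_le_one_iff.2 (neg_nonpos.2 (h1 i))
    have h4 : ∀ i, exp (-(a i ⬝ᵥ V')) ≤ 1 := fun i => exp_le_one_iff.2 (neg_nonpos.2 (h2 i))
    refine ⟨sum_nonneg fun i _ => mul_nonneg (hp.nn i) (sub_nonneg.2 (h3 i)),
      (sum_le_sum fun i _ => mul_le_of_le_one_right (hp.nn i) ?_).trans hp.sum1.le,
      sum_le_sum fun i _ => mul_le_mul_of_nonneg_left ?_ (hp.nn i),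
      sum_le_sum fun i _ => mul_le_mul_of_nonneg_left ?_ (hp.nn i), sum_le_sum fun i _ => ?_⟩
    · linarith [exp_pos (-(a i ⬝ᵥ V))]
    · linarith [add_one_le_exp (-(a i ⬝ᵥ V))]
    · rw [dotProduct_add, neg_add, exp_add]
      nlinarith [exp_pos (-(a i ⬝ᵥ V)), h4 i]
    · rw [← mul_add]
      refine mul_le_mul_of_nonneg_left ?_ (hp.nn i)
      rw [dotProduct_add, neg_add, exp_add]
      nlinarith [mul_nonneg (sub_nonneg.2 (h3 i)) (sub_nonneg.2 (h4 i))]
  · have hc : ∀ i y, 0 ≤ a i y * s := fun i y => mul_nonneg (ha i y) hs0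
    have e1 : ∀ i ξ, (a i ⬝ᵥ fun x => s * sl (F *ᵥ ξ) x) =
        ∑ y, a i y * s * ((Fᵀ *ᵥ hat n y) ⬝ᵥ ξ) ^ 2 := fun i ξ =>
      sum_congr rfl fun y _ => by
        simp only [sl]
        rw [mulVec_transpose, ← dotProduct_mulVec, dotProduct_comm (F *ᵥ ξ), mul_assoc]
    have e2 : ∀ i (z : ℝ), (a i ⬝ᵥ fun x => z * s * qf (F * Fᵀ) x) =
        z * ∑ y, a i y * s * ((Fᵀ *ᵥ hat n y) ⬝ᵥ (Fᵀ *ᵥ hat n y)) := fun i z => by
      rw [mul_sum]
      refine sum_congr rfl fun y _ => ?_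
      simp only [qf]
      rw [← mulVec_mulVec, dotProduct_mulVec, ← mulVec_transpose]; ring
    have hi : ∀ i, Integrable (fun ξ => exp (-∑ y, a i y * s * ((Fᵀ *ᵥ hat n y) ⬝ᵥ ξ) ^ 2))
        (gv (Fin n)) := fun i => integrable_exp_neg (by fun_prop) fun ξ =>
      sum_nonneg fun y _ => mul_nonneg (hc i y) (sq_nonneg _)
    have e3 : ∫ ξ, kap W ε (fun x => s * sl (F *ᵥ ξ) x) ∂gv (Fin n) = ∑ i, p i *
        (1 - ∫ ξ, exp (-∑ y, a i y * s * ((Fᵀ *ᵥ hat n y) ⬝ᵥ ξ) ^ 2) ∂gv (Fin n)) := by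
      simp only [hk, e1]
      refine (integral_finsetSum _ fun i _ =>
        ((integrable_const (1 : ℝ)).sub (hi i)).const_mul (p i)).trans ?_
      refine sum_congr rfl fun i _ => ?_
      simp only [Pi.sub_apply]
      rw [integral_const_mul, integral_sub (integrable_const _) (hi i)]; simp
    rw [e3]
    refine ⟨?_, fun z hz => ?_⟩
    · rw [hk]
      refine sum_le_sum fun i _ => mul_le_mul_of_nonneg_left (sub_le_sub_left ?_ _) (hp.nn i)
      have := e2 i 1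
      simp only [one_mul] at this
      rw [this]
      exact Q_low _ (hc i)
    · rw [hk, show 4 * z = ∑ i, p i * (4 * z) by rw [← sum_mul, hp.sum1, one_mul], mul_sum,
        ← sum_add_distrib]
      refine sum_le_sum fun i _ => ?_
      rw [e2, mul_left_comm 2, ← mul_add]
      exact mul_le_mul_of_nonneg_left (Q_rev _ (hc i) hz) (hp.nn i)
  · have hN := N_pos hn
    set f : Cube n → ℝ := Ent.ind fun x => b < V x with hf
    have hu := iter_mem hn (w := ising W 0) (f := f) (fun _ => exp_pos _) (Ent.ind_nonneg _)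
      (Ent.ind_le_one _)
    have u0 : ∀ i, 0 ≤ um ((Ph (ising W 0))^[i] f) := fun i =>
      Soft.isP_unif.mean_nonneg fun x => (hu i x).1
    have u1 : ∀ i, um ((Ph (ising W 0))^[i] f) ≤ 1 := fun i =>
      (Soft.isP_unif.mean_mono fun x => (hu i x).2).trans (Soft.isP_unif.mean_const 1).le
    obtain ⟨r, hr, h1⟩ := exists_time hN hε (Mst n ε) u0
    refine ⟨r, hr, ?_⟩
    have hr0 : 0 ≤ r := le_trans (by positivity) hr.1
    have hr1 : n * tau n * r ≤ ε * (n * tau n) := by nlinarith [hr.2]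
    have hM : 2 * ε * (n * tau n) < Mst n ε + 1 := Nat.lt_floor_add_one _
    have hM' : (Mst n ε : ℝ) ≤ 2 * ε * (n * tau n) := Nat.floor_le (by positivity)
    have h2 := poi_split (t := n * tau n * r) (δ := ε * (n * tau n) / 4) (by positivity)
      (by positivity) (M := Mst n ε) (by linarith) u0 u1 (hW ▸ hasSum_Pn hn g d r f)
    have h3 : n * tau n * r / (ε * (n * tau n) / 4) ^ 2 ≤ 16 / (ε * (n * tau n)) := by
      refine (div_le_div_of_nonneg_right hr1 (by positivity)).trans (le_of_eq ?_)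
      field_simp
      norm_num
    have h5 : occ W ε f ≤ T / b + 4 * ε * kap W ε fun x => V x / T := by
      rw [ho, hk, show T / b = ∑ i, p i * (T / b) by rw [← sum_mul, hp.sum1, one_mul], mul_sum,
        ← sum_add_distrib]
      refine sum_le_sum fun i _ => ?_
      rw [mul_left_comm (4 * ε), ← mul_add]
      refine mul_le_mul_of_nonneg_left (path_le (ha i) ?_ hV hT hb hε) (hp.nn i)
      rw [hs, div_le_iff₀ hN]; exact hM'
    have h6 := mul_le_mul_of_nonneg_left h5 (show 0 ≤ 2 / ε by positivity)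
    have e : 2 / ε * (T / b + 4 * ε * kap W ε fun x => V x / T) =
        8 * (kap W ε fun x => V x / T) + 2 * T / (ε * b) := by field_simp; ring
    rw [e] at h6
    exact h2.trans (add_le_add (h1.trans h6) h3)

end Crest.Agent.T157.Cq

end
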