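import Crest.Agent.T157.EDef_39

/-!
# Row 157, part C (helper31): KILL-TV, the derivative of the survival function
-/

set_option autoImplicit false

noncomputable section

namespace Crest.Agent.T157.Cq.Kill31

open Matrix Finset Real
open Crest.ProbabilityR.SpinGlassDynamics Crest.Agent.T157.E

/-- one site: derivative of the conditional mean -/
theorem site_deriv {a b f g : ℝ → ℝ} {s ea eb f' g' : ℝ} (ha0 : 0 < a s) (hb0 : 0 < b s)
    (ha : HasDerivAt a (a s * ea) s) (hb : HasDerivAt b (b s * eb) s) (hf : HasDerivAt f f' s)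
    (hg : HasDerivAt g g' s) :
    HasDerivAt (fun s => (a s * f s + b s * g s) / (a s + b s))
      ((a s * f' + b s * g') / (a s + b s) +
        a s * b s / (a s + b s) ^ 2 * (ea - eb) * (f s - g s)) s := by
  have h0 : a s + b s ≠ 0 := by positivity
  refine (((ha.mul hf).add (hb.mul hg)).div (ha.add hb) h0).congr_deriv ?_
  simp only [Pi.add_apply, Pi.mul_apply]
  field_simp
  ring

theorem site_bound {a b f g d l : ℝ} (ha : 0 < a) (hb : 0 < b) (hl : 0 < l) :
    |a * b / (a + b) ^ 2 * (2 * d) * (f - g)| ≤ l / 2 * d ^ 2 +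
      1 / (2 * l) * ((a * f ^ 2 + b * g ^ 2) / (a + b) - ((a * f + b * g) / (a + b)) ^ 2) := by
  have h0 : a + b ≠ 0 := by positivity
  have e : (a * f ^ 2 + b * g ^ 2) / (a + b) - ((a * f + b * g) / (a + b)) ^ 2 =
      a * b / (a + b) ^ 2 * (f - g) ^ 2 := by
    field_simp; ring
  rw [e]
  set c := a * b / (a + b) ^ 2 with hc
  have c0 : 0 ≤ c := by positivity
  have c4 : c ≤ 1 / 4 := by
    rw [hc, div_le_div_iff₀ (by positivity) (by norm_num)]; nlinarith [sq_nonneg (a - b)]
  set D := f - g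
  have key : ∀ D : ℝ, c * (2 * d) * D ≤ l / 2 * d ^ 2 + 1 / (2 * l) * (c * D ^ 2) := fun D => by
    have h1 : 0 ≤ (l * d - 2 * c * D) ^ 2 + c * (1 - 4 * c) * D ^ 2 :=
      add_nonneg (sq_nonneg _) (mul_nonneg (mul_nonneg c0 (by linarith)) (sq_nonneg _))
    have h2 : l / 2 * d ^ 2 + 1 / (2 * l) * (c * D ^ 2) - c * (2 * d) * D =
        ((l * d - 2 * c * D) ^ 2 + c * (1 - 4 * c) * D ^ 2) / (2 * l) := by
      field_simp; ring
    have h3 := div_nonneg h1 (by positivity : 0 ≤ 2 * l)
    linarith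
  refine abs_le.2 ⟨?_, key D⟩
  have := key (-D)
  rw [neg_sq] at this
  linarith

variable {n : ℕ}

theorem sv_update (x : Cube n) (l : Fin n) (b : Bool) :
    sv (Function.update x l b) = sv x + (spin b - sv x l) • Pi.single l (1 : ℝ) := by
  funext i
  by_cases h : i = l
  · subst h; simp [sv]
  · simp [sv, Function.update_of_ne h, Pi.single_eq_of_ne h]

theorem quad_add {A : Matrix (Fin n) (Fin n) ℝ} (hA : ∀ i j, A i j = A j i) (z : Fin n → ℝ)
    (l : Fin n) (c : ℝ) :
    (z + c • Pi.single l (1 : ℝ)) ⬝ᵥ A *ᵥ (z + c • Pi.single l (1 : ℝ)) =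
      z ⬝ᵥ A *ᵥ z + 2 * c * (A *ᵥ z) l + c ^ 2 * A l l := by
  have e : z ⬝ᵥ A *ᵥ (Pi.single l (1 : ℝ)) = (A *ᵥ z) l := by
    rw [mulVec_single_one]
    simp only [dotProduct, mulVec, col_apply]
    exact sum_congr rfl fun i _ => by rw [hA i l, mul_comm]
  rw [mulVec_add, mulVec_smul, add_dotProduct, dotProduct_add, dotProduct_add, dotProduct_smul,
    smul_dotProduct, smul_dotProduct, dotProduct_smul, e, single_one_dotProduct,
    single_one_dotProduct, mulVec_single_one]
  simp only [smul_eq_mul, col_apply]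
  ring

theorem quad_diff {A : Matrix (Fin n) (Fin n) ℝ} (hA : ∀ i j, A i j = A j i) (x : Cube n)
    (l : Fin n) :
    1 / 2 * (sv (Function.update x l true) ⬝ᵥ A *ᵥ sv (Function.update x l true)) -
      1 / 2 * (sv (Function.update x l false) ⬝ᵥ A *ᵥ sv (Function.update x l false)) =
      2 * ((A *ᵥ sv x) l - A l l * sv x l) := by
  rw [sv_update, sv_update, quad_add hA, quad_add hA]
  simp only [spin]
  norm_num
  ring

theorem ising_deriv {W : ℝ → Matrix (Fin n) (Fin n) ℝ} {W' : Matrix (Fin n) (Fin n) ℝ} {s : ℝ}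
    (h : ∀ i j, HasDerivAt (fun s => W s i j) (W' i j) s) (y : Cube n) :
    HasDerivAt (fun s => ising (W s) 0 y)
      (ising (W s) 0 y * (1 / 2 * (sv y ⬝ᵥ W' *ᵥ sv y))) s := by
  unfold ising
  refine HasDerivAt.exp (HasDerivAt.add_const _ (HasDerivAt.const_mul _ ?_))
  simp only [dotProduct, mulVec]
  exact HasDerivAt.fun_sum fun i _ => HasDerivAt.const_mul _
    (HasDerivAt.fun_sum fun j _ => (h i j).mul_const _)

theorem ising_pos (A : Matrix (Fin n) (Fin n) ℝ) (y : Cube n) : 0 < ising A 0 y := exp_pos _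

/-- the heat-bath step -/
def P (w f : Cube n → ℝ) (x : Cube n) : ℝ := (n : ℝ)⁻¹ * ∑ l, siteM w f l x

theorem siteM_mono {w f g : Cube n → ℝ} (hw : ∀ x, 0 < w x) (h : ∀ x, f x ≤ g x) (l : Fin n)
    (x : Cube n) : siteM w f l x ≤ siteM w g l x := by
  unfold siteM
  exact div_le_div_of_nonneg_right (add_le_add (mul_le_mul_of_nonneg_left (h _) (hw _).le)
    (mul_le_mul_of_nonneg_left (h _) (hw _).le)) (add_pos (hw _) (hw _)).le

theorem siteM_lin {w : Cube n → ℝ} (hw : ∀ x, 0 < w x) (a b c : ℝ) (f g : Cube n → ℝ) (l : Fin n)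
    (x : Cube n) :
    siteM w (fun y => a + b * f y + c * g y) l x = a + b * siteM w f l x + c * siteM w g l x := by
  unfold siteM
  have := (add_pos (hw (Function.update x l true)) (hw (Function.update x l false))).ne'
  field_simp
  ring

theorem P_nonneg {w f : Cube n → ℝ} (hw : ∀ x, 0 < w x) (h : ∀ x, 0 ≤ f x) (x : Cube n) :
    0 ≤ P w f x := by
  refine mul_nonneg (by positivity) (sum_nonneg fun l _ => ?_)
  unfold siteM
  exact div_nonneg (add_nonneg (mul_nonneg (hw _).le (h _)) (mul_nonneg (hw _).le (h _)))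
    (add_pos (hw _) (hw _)).le

/-- the killed chain -/
def U (w V : Cube n → ℝ) (N : ℝ) (m : ℕ) : Cube n → ℝ :=
  (fun u x => exp (-(V x / N)) * P w u x)^[m] 1

theorem U_succ (w V : Cube n → ℝ) (N : ℝ) (m : ℕ) (x : Cube n) :
    U w V N (m + 1) x = exp (-(V x / N)) * P w (U w V N m) x := by
  unfold U
  rw [Function.iterate_succ_apply']

theorem U_nonneg {w : Cube n → ℝ} (hw : ∀ x, 0 < w x) (V : Cube n → ℝ) (N : ℝ) (m : ℕ) :
    ∀ x, 0 ≤ U w V N m x := by
  induction m with
  | zero => intro x; simp [U]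
  | succ m ih => intro x; rw [U_succ]; exact mul_nonneg (exp_pos _).le (P_nonneg hw ih x)

theorem U_deriv (hn : 1 ≤ n) {W : ℝ → Matrix (Fin n) (Fin n) ℝ} {W' : Matrix (Fin n) (Fin n) ℝ}
    {s N θ l : ℝ} (hN : 0 < N) (hθ : 0 ≤ θ) (hl : 0 < l)
    (h : ∀ i j, HasDerivAt (fun s => W s i j) (W' i j) s) (hs : ∀ i j, W' i j = W' j i)
    {V : Cube n → ℝ} (hV : ∀ x, 0 ≤ V x)
    (hb : ∀ x, (n : ℝ)⁻¹ * ∑ i, ((W' *ᵥ sv x) i - W' i i * sv x i) ^ 2 ≤ θ * (V x / N + 1 / N))
    (m : ℕ) : ∃ u' : Cube n → ℝ, ∀ x, HasDerivAt (fun s => U (ising (W s) 0) V N m x) (u' x) s ∧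
      |u' x| ≤ (l * θ / 2 * (1 + m / N) + 1 / (2 * l)) + -(l * θ / 2) * U (ising (W s) 0) V N m x +
        -(1 / (2 * l)) * U (ising (W s) 0) V N m x ^ 2 := by
  induction m with
  | zero =>
    refine ⟨0, fun x => ⟨by simpa [U] using hasDerivAt_const s (1 : ℝ), ?_⟩⟩
    simp [U]
  | succ m ih =>
    obtain ⟨u', hu⟩ := ih
    set w := ising (W s) 0 with hw
    have w0 : ∀ x, 0 < w x := ising_pos _
    set u := U w V N m with hU
    let r : Fin n → Cube n → ℝ := fun i x =>
      w (Function.update x i true) * w (Function.update x i false) /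
        (w (Function.update x i true) + w (Function.update x i false)) ^ 2 *
        (2 * ((W' *ᵥ sv x) i - W' i i * sv x i)) *
        (u (Function.update x i true) - u (Function.update x i false))
    refine ⟨fun x => exp (-(V x / N)) * ((n : ℝ)⁻¹ * ∑ i, (siteM w u' i x + r i x)),
      fun x => ⟨?_, ?_⟩⟩
    · simp only [U_succ, P]
      refine HasDerivAt.const_mul _ (HasDerivAt.const_mul _ (HasDerivAt.fun_sum fun i _ => ?_))
      have := site_deriv (w0 _) (w0 _) (ising_deriv h (Function.update x i true))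
        (ising_deriv h (Function.update x i false)) (hu (Function.update x i true)).1
        (hu (Function.update x i false)).1
      rw [quad_diff hs] at this
      exact this
    · have n0 : (0 : ℝ) < n := by exact_mod_cast hn
      set a := exp (-(V x / N)) with ha
      have a0 : 0 < a := exp_pos _
      have v0 : 0 ≤ V x / N := div_nonneg (hV x) hN.le
      have a1 : a ≤ 1 := exp_le_one_iff.2 (by linarith)
      have a2 : a * (1 + V x / N) ≤ 1 := by
        have h1 := add_one_le_exp (V x / N)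
        have h2 : a * exp (V x / N) = 1 := by rw [ha, ← exp_add]; simp
        nlinarith
      have h1 : ∀ i, |siteM w u' i x + r i x| ≤
          (l * θ / 2 * (1 + m / N) + 1 / (2 * l)) + -(l * θ / 2) * siteM w u i x +
            l / 2 * ((W' *ᵥ sv x) i - W' i i * sv x i) ^ 2 -
              1 / (2 * l) * siteM w u i x ^ 2 := fun i => by
        have b1 := siteM_mono w0 (fun y => (abs_le.1 (hu y).2).2) i x
        rw [siteM_lin w0] at b1
        have b2 := siteM_mono w0 (f := fun y => 0 + -1 * u' y + 0 * u' y)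
          (fun y => by have := (abs_le.1 (hu y).2).1; linarith :
            ∀ y, _ ≤ (l * θ / 2 * (1 + m / N) + 1 / (2 * l)) + -(l * θ / 2) * u y +
              -(1 / (2 * l)) * u y ^ 2) i x
        rw [siteM_lin w0, siteM_lin w0] at b2
        have b3 : |r i x| ≤ l / 2 * ((W' *ᵥ sv x) i - W' i i * sv x i) ^ 2 +
            1 / (2 * l) * (siteM w (fun y => u y ^ 2) i x - siteM w u i x ^ 2) :=
          site_bound (w0 _) (w0 _) hl
        have b4 := abs_le.1 b3
        exact abs_le.2 ⟨by linarith [b4.1], by linarith [b4.2]⟩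
      have h2 : (P w u x) ^ 2 ≤ (n : ℝ)⁻¹ * ∑ i, siteM w u i x ^ 2 := by
        have := sq_sum_le_card_mul_sum_sq (s := univ) (f := fun i => siteM w u i x)
        rw [card_univ, Fintype.card_fin] at this
        rw [P, mul_pow]
        calc _ ≤ (n : ℝ)⁻¹ ^ 2 * (n * ∑ i, siteM w u i x ^ 2) := by gcongr
          _ = _ := by field_simp
      have h3 : |(n : ℝ)⁻¹ * ∑ i, (siteM w u' i x + r i x)| ≤
          (l * θ / 2 * (1 + m / N) + 1 / (2 * l)) + -(l * θ / 2) * P w u x +
            l / 2 * (θ * (V x / N + 1 / N)) - 1 / (2 * l) * P w u x ^ 2 := by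
        rw [abs_mul, abs_of_pos (inv_pos.2 n0)]
        have h4 := (abs_sum_le_sum_abs _ _).trans (sum_le_sum fun i (_ : i ∈ univ) => h1 i)
        refine (mul_le_mul_of_nonneg_left h4 (inv_pos.2 n0).le).trans ?_
        rw [sum_sub_distrib, sum_add_distrib, sum_add_distrib, ← mul_sum, ← mul_sum, ← mul_sum,
          sum_const, card_univ, Fintype.card_fin, nsmul_eq_mul]
        have h5 := mul_le_mul_of_nonneg_left (hb x) (by positivity : 0 ≤ l / 2)
        have h6 := mul_le_mul_of_nonneg_left h2 (by positivity : 0 ≤ 1 / (2 * l))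
        have h7 : (n : ℝ)⁻¹ * (n * (l * θ / 2 * (1 + m / N) + 1 / (2 * l))) =
            l * θ / 2 * (1 + m / N) + 1 / (2 * l) := by field_simp
        have h8 : P w u x = (n : ℝ)⁻¹ * ∑ i, siteM w u i x := rfl
        rw [mul_sub, mul_add, mul_add, h7]
        rw [h8] at h6 ⊢
        linarith
      rw [abs_mul, abs_of_pos a0, U_succ, ← ha, ← hU]
      refine (mul_le_mul_of_nonneg_left h3 a0.le).trans ?_
      set q := P w u x
      have c1 : 0 ≤ l * θ / 2 := by positivity
      have c2 : 0 ≤ 1 / (2 * l) := by positivity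
      have d1 : a * (1 + V x / N) + a * ((m + 1) / N) ≤ 1 + (m + 1) / N :=
        add_le_add a2 (mul_le_of_le_one_left (by positivity) a1)
      have d2 : a - a * q ^ 2 ≤ 1 - (a * q) ^ 2 := by
        have : 0 ≤ a * (1 - a) * q ^ 2 := mul_nonneg (mul_nonneg a0.le (by linarith)) (sq_nonneg q)
        nlinarith
      have d3 := mul_le_mul_of_nonneg_left d1 c1
      have d4 := mul_le_mul_of_nonneg_left d2 c2
      push_cast
      have e : a * (l * θ / 2 * (1 + m / N) + 1 / (2 * l) + -(l * θ / 2) * q +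
          l / 2 * (θ * (V x / N + 1 / N)) - 1 / (2 * l) * q ^ 2) =
          l * θ / 2 * (a * (1 + V x / N) + a * ((m + 1) / N)) + 1 / (2 * l) * (a - a * q ^ 2) +
            -(l * θ / 2) * (a * q) := by ring
      rw [e]
      linarith

/-- **KILL-TV**, pointwise -/
theorem U_sub (hn : 1 ≤ n) {W W' : ℝ → Matrix (Fin n) (Fin n) ℝ} {N θ T : ℝ} (hN : 0 < N)
    (hθ : 0 ≤ θ) (hT : 0 ≤ T) (h : ∀ s i j, HasDerivAt (fun s => W s i j) (W' s i j) s)
    (hs : ∀ s, (W s).IsHermitian) {V : Cube n → ℝ} (hV : ∀ x, 0 ≤ V x)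
    (hb : ∀ s ∈ Set.Icc 0 T, ∀ x,
      (n : ℝ)⁻¹ * ∑ i, ((W' s *ᵥ sv x) i - W' s i i * sv x i) ^ 2 ≤ θ * (V x / N + 1 / N))
    {m : ℕ} (hm : m / N ≤ 2) (x : Cube n) :
    |U (ising (W T) 0) V N m x - U (ising (W 0) 0) V N m x| ≤ 2 * T * √θ := by
  have hs' : ∀ s i j, W' s i j = W' s j i := fun s i j => by
    have e : (fun s => W s i j) = fun s => W s j i := funext fun s => by
      simpa using ((hs s).apply i j).symm
    exact (h s i j).unique (e ▸ h s j i)
  have key : ∀ l : ℝ, 0 < l → |U (ising (W T) 0) V N m x - U (ising (W 0) 0) V N m x| ≤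
      (3 * l * θ / 2 + 1 / (2 * l)) * T := fun l hl => by
    have h1 : ∀ s ∈ Set.Icc 0 T, ∃ d, HasDerivAt (fun s => U (ising (W s) 0) V N m x) d s ∧
        |d| ≤ 3 * l * θ / 2 + 1 / (2 * l) := fun s hs => by
      obtain ⟨u', hu⟩ := U_deriv hn hN hθ hl (h s) (hs' s) hV (hb s hs) m
      refine ⟨u' x, (hu x).1, (hu x).2.trans ?_⟩
      have u0 := U_nonneg (ising_pos (W s)) V N m x
      have c1 : 0 ≤ l * θ / 2 := by positivity
      have c2 : 0 ≤ 1 / (2 * l) := by positivity
      have := mul_nonneg c1 u0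
      have := mul_nonneg c2 (sq_nonneg (U (ising (W s) 0) V N m x))
      have := mul_le_mul_of_nonneg_left hm c1
      linarith
    choose! d hd using h1
    have := norm_image_sub_le_of_norm_deriv_le_segment' (f' := d)
      (fun s hs => (hd s hs).1.hasDerivWithinAt)
      (fun s hs => (hd s (Set.Ico_subset_Icc_self hs)).2) T (Set.right_mem_Icc.2 hT)
    simpa using this
  rcases hθ.eq_or_lt with rfl | h0
  · refine le_of_forall_pos_le_add fun e he => (key ((T + 1) / e) (by positivity)).trans ?_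
    have : 1 / (2 * ((T + 1) / e)) * T ≤ e := by
      rw [show 1 / (2 * ((T + 1) / e)) * T = e * (T / (2 * (T + 1))) by field_simp]
      exact mul_le_of_le_one_right he.le ((div_le_one (by positivity)).2 (by linarith))
    simpa using this
  · have s0 : 0 < √θ := sqrt_pos.2 h0
    refine (key (√θ)⁻¹ (by positivity)).trans (le_of_eq ?_)
    have e : θ = √θ * √θ := (mul_self_sqrt hθ).symm
    set r := √θ
    rw [e]
    field_simp
    ring

end Crest.Agent.T157.Cq.Kill31

end
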