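import Crest.Agent.T157.CqDef_72
import Crest.Agent.T157.CqKillA_31

/-!
# Row 157, part C (helper31): KILL-TV
-/

set_option autoImplicit false

noncomputable section

namespace Crest.Agent.T157.Cq

open Matrix Finset Real
open Crest.Agent.T157.E Crest.Agent.T157.Ed

theorem killStmt : KillStmt := by
  refine ⟨π, fun n ε θ W W' V V' hn h0 h1 hθ hd hs hV hV' hb => ?_⟩
  have n0 : (0 : ℝ) < n := by exact_mod_cast hn
  have t0 : 0 < tau n := rpow_pos_of_pos n0 _
  have hN : 0 < n * tau n := mul_pos n0 t0
  have key := fun x => Kill31.U_sub hn hN hθ (T := π / 2) (by positivity) hd hs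
    (V := V + V') (fun x => add_nonneg (hV x) (hV' x)) (fun s h x => by
      have h2 := (hb s h x).trans (mul_le_mul_of_nonneg_left
        (by have := hV' x; simp only [Pi.add_apply]; linarith : V x + 1 ≤ (V + V') x + 1) hθ)
      rw [← add_div, ← mul_div_assoc, le_div_iff₀ hN]
      refine le_of_eq_of_le ?_ h2
      field_simp) (m := Mst n ε) (by
      rw [div_le_iff₀ hN]
      exact (Nat.floor_le (by positivity)).trans (by nlinarith)) x
  have hu := (Soft.isP_unif (n := n))
  unfold kap um
  rw [sub_sub_sub_cancel_left, ← sum_sub_distrib]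
  refine (abs_sum_le_sum_abs _ _).trans ?_
  calc _ ≤ ∑ x, Soft.unif n x * (π * √θ) := sum_le_sum fun x _ => by
        rw [← mul_sub, abs_mul, abs_of_nonneg (hu.1 x), abs_sub_comm]
        exact mul_le_mul_of_nonneg_left ((key x).trans_eq (by ring)) (hu.1 x)
    _ = π * √θ := by rw [← sum_mul, hu.2, one_mul]

end Crest.Agent.T157.Cq

end
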