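import Crest.Agent.T157.KlA_17
import Crest.Agent.T157.CqDef_72

/-!
# Row 157, part C (3d) (helper17): `klStmt`, for a fine channel the static chain is the scheme
-/

set_option autoImplicit false
set_option linter.unusedSectionVars false

noncomputable section

namespace Crest.Agent.T157.Cq

open MeasureTheory ProbabilityTheory Matrix Filter Topology Finset Real
open Crest.Agent.T157.E Crest.Agent.T157.St Crest.Agent.T157.Kr
open Crest.Agent.T157.SL (MG int_exp)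

namespace Kl17

variable {ι : Type*} [Fintype ι] [DecidableEq ι]

/-- state and two noises -/
abbrev Pt (ι : Type*) := (ι → ℝ) × (ι → ℝ) × (ι → ℝ)

/-- of order `K^{-a/2}` with exponential growth -/
def Tm (a : ℕ) (f : ℝ → Pt ι → ℝ) : Prop := ∃ C c : ℝ, 0 ≤ C ∧ 0 ≤ c ∧
  ∀ᶠ K : ℝ in atTop, ∀ w, |f K w| ≤ C * √K⁻¹ ^ a * exp (c * ‖w‖)

namespace Tm

variable {a b : ℕ} {f g : ℝ → Pt ι → ℝ}

lemma const (c : ℝ) : Tm 0 fun _ (_ : Pt ι) => c :=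
  ⟨|c|, 0, abs_nonneg _, le_rfl, .of_forall fun _ _ => by simp⟩

lemma sg : Tm 1 fun K (_ : Pt ι) => √K⁻¹ :=
  ⟨1, 0, zero_le_one, le_rfl, .of_forall fun _ _ => by simp [abs_of_nonneg]⟩

lemma of_norm (h : ∀ K w, |f K w| ≤ ‖w‖) : Tm 0 f :=
  ⟨1, 1, zero_le_one, zero_le_one, .of_forall fun K w => by
    have := add_one_le_exp ‖w‖
    have := h K w
    simp only [pow_zero, one_mul]
    linarith⟩

lemma of_le (h : Tm a g) (e : ∀ᶠ K : ℝ in atTop, ∀ w, |f K w| ≤ g K w) : Tm a f := by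
  obtain ⟨C, c, h1, h2, h3⟩ := h
  exact ⟨C, c, h1, h2, (h3.and e).mono fun K h w => (h.2 w).trans ((le_abs_self _).trans (h.1 w))⟩

lemma congr (h : Tm a g) (e : ∀ K, 0 < K → ∀ w, f K w = g K w) : Tm a f := by
  obtain ⟨C, c, h1, h2, h3⟩ := h
  exact ⟨C, c, h1, h2, (h3.and (eventually_gt_atTop 0)).mono fun K h w => by
    rw [e K h.2]; exact h.1 w⟩

lemma mono (h : Tm b f) (e : a ≤ b) : Tm a f := by
  obtain ⟨C, c, h1, h2, h3⟩ := h
  refine ⟨C, c, h1, h2, (h3.and (eventually_ge_atTop 1)).mono fun K h w => (h.1 w).trans ?_⟩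
  have := pow_le_pow_of_le_one (sqrt_nonneg K⁻¹) (sqrt_le_one.2 (inv_le_one_of_one_le₀ h.2)) e
  gcongr

lemma mul (h : Tm a f) (h' : Tm b g) : Tm (a + b) fun K w => f K w * g K w := by
  obtain ⟨C, c, h1, h2, h3⟩ := h
  obtain ⟨C', c', h1', h2', h3'⟩ := h'
  refine ⟨C * C', c + c', by positivity, by positivity, (h3.and h3').mono fun K h w => ?_⟩
  rw [abs_mul, add_mul, exp_add, pow_add]
  exact (mul_le_mul (h.1 w) (h.2 w) (abs_nonneg _) (by positivity)).trans_eq (by ring)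

lemma add (h : Tm a f) (h' : Tm a g) : Tm a fun K w => f K w + g K w := by
  obtain ⟨C, c, h1, h2, h3⟩ := h
  obtain ⟨C', c', h1', h2', h3'⟩ := h'
  refine ⟨C + C', c + c', by positivity, by positivity, (h3.and h3').mono fun K h w => ?_⟩
  rw [add_mul C, add_mul (C * _)]
  refine (abs_add_le _ _).trans (add_le_add ((h.1 w).trans ?_) ((h.2 w).trans ?_)) <;>
  gcongr <;> linarith

lemma cmul (c : ℝ) (h : Tm a f) : Tm a fun K w => c * f K w := ((const c).mul h).mono (by omega)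

lemma mul0 (h : Tm 0 f) (h' : Tm a g) : Tm a fun K w => f K w * g K w := (h.mul h').mono (by omega)

lemma sub (h : Tm a f) (h' : Tm a g) : Tm a fun K w => f K w - g K w :=
  (h.add (h'.cmul (-1))).congr fun _ _ _ => by ring

lemma sq (h : Tm a f) : Tm (2 * a) fun K w => f K w ^ 2 :=
  ((h.mul h).mono (by omega)).congr fun _ _ _ => by ring

lemma sum {κ : Type*} (S : Finset κ) {f : κ → ℝ → Pt ι → ℝ} (h : ∀ k, Tm a (f k)) :
    Tm a fun K w => ∑ k ∈ S, f k K w := by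
  classical
  induction S using Finset.induction_on with
  | empty => exact ⟨0, 0, le_rfl, le_rfl, .of_forall fun _ _ => by simp⟩
  | insert k s hk ih => simpa [Finset.sum_insert hk] using (h k).add ih

lemma dot {u v : ℝ → Pt ι → ι → ℝ} (h : ∀ k, Tm a fun K w => u K w k)
    (h' : ∀ k, Tm b fun K w => v K w k) : Tm (a + b) fun K w => u K w ⬝ᵥ v K w :=
  sum _ fun k => (h k).mul (h' k)

lemma c1 (k : ι) : Tm 0 fun _ (w : Pt ι) => w.1 k :=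
  of_norm fun _ w => (norm_le_pi_norm w.1 k).trans (norm_fst_le w)
lemma c2 (k : ι) : Tm 0 fun _ (w : Pt ι) => w.2.1 k :=
  of_norm fun _ w => (norm_le_pi_norm w.2.1 k).trans ((norm_fst_le _).trans (norm_snd_le w))
lemma c3 (k : ι) : Tm 0 fun _ (w : Pt ι) => w.2.2 k :=
  of_norm fun _ w => (norm_le_pi_norm w.2.2 k).trans ((norm_snd_le _).trans (norm_snd_le w))

lemma mg {g : (ι → ℝ) → ℝ} (h : Tm 0 fun _ (w : Pt ι) => g w.1) (m : Measurable g) : MG g := by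
  obtain ⟨C, c, h1, h2, h3⟩ := h
  obtain ⟨K, hK⟩ := h3.exists
  exact ⟨m, C, c, h1, h2, fun y => by simpa [Prod.norm_def] using hK (y, 0, 0)⟩

end Tm

variable (e : ι → ℝ) (t κ : ℝ)

/-- log-density -/
def Wf (x : ι → ℝ) : ℝ := -(1 / 2) * ∑ k, e k * x k ^ 2 - κ / 8 * (x ⬝ᵥ x - t) ^ 2
/-- gradient of the potential -/
def gr (y : ι → ℝ) : ι → ℝ := fun k => e k * y k + κ / 2 * ((y ⬝ᵥ y - t) * y k)
/-- Taylor remainder -/
def Ad (y d : ι → ℝ) : ℝ := 1 / 2 * ∑ k, e k * d k ^ 2 +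
  κ / 8 * (2 * ((y ⬝ᵥ y - t) * (d ⬝ᵥ d)) + (2 * (y ⬝ᵥ d) + d ⬝ᵥ d) ^ 2)
def Gf (y x : ι → ℝ) : ℝ := 2 * Ad e t κ y (x - y) ^ 2 + ((x - y) ⬝ᵥ (x - y)) ^ 2
def Ff (h : ℝ) (x : ι → ℝ) : ι → ℝ :=
  fun k => √(1 - 2 * e k * h) * x k / √(1 + h * κ * (x ⬝ᵥ x - t))
def Bv (K : ℝ) (x y : ι → ℝ) : ι → ℝ := gr e t κ y + K • (Ff e t κ K⁻¹ x - x)
def ph (K : ℝ) (x : ι → ℝ) (k : ι) : ℝ := K * (√(1 - 2 * e k * K⁻¹) /
  √(1 + K⁻¹ * κ * (x ⬝ᵥ x - t)) - 1 + 2 * e k * K⁻¹ / 2 + K⁻¹ * κ * (x ⬝ᵥ x - t) / 2)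

lemma taylor (y d : ι → ℝ) : Wf e t κ y - Wf e t κ (y + d) = gr e t κ y ⬝ᵥ d + Ad e t κ y d := by
  have h1 : ∑ k, e k * (y + d) k ^ 2 =
      ∑ k, e k * y k ^ 2 + 2 * ∑ k, e k * y k * d k + ∑ k, e k * d k ^ 2 := by
    simp only [mul_sum, ← sum_add_distrib, Pi.add_apply]
    exact sum_congr rfl fun k _ => by ring
  have h2 : gr e t κ y ⬝ᵥ d = ∑ k, e k * y k * d k + κ / 2 * ((y ⬝ᵥ y - t) * (y ⬝ᵥ d)) := by
    rw [dotProduct, dotProduct.eq_1 y d]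
    simp only [mul_sum, ← sum_add_distrib, gr]
    exact sum_congr rfl fun k _ => by ring
  simp only [Wf, Ad, h1, h2, add_dotProduct, dotProduct_add, dotProduct_comm d y]
  ring

lemma sq_le (K : ℝ) (x y x' : ι → ℝ) :
    (Wf e t κ y - Wf e t κ x' + K * ((Ff e t κ K⁻¹ x - x) ⬝ᵥ (x' - y))) ^ 2 ≤
      Gf e t κ y x' + (Bv e t κ K x y ⬝ᵥ Bv e t κ K x y) ^ 2 := by
  have h1 := taylor e t κ y (x' - y)
  rw [add_sub_cancel] at h1
  have h2 : Bv e t κ K x y ⬝ᵥ (x' - y) =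
      gr e t κ y ⬝ᵥ (x' - y) + K * ((Ff e t κ K⁻¹ x - x) ⬝ᵥ (x' - y)) := by
    rw [Bv, add_dotProduct, smul_dotProduct, smul_eq_mul]
  have h3 : (Bv e t κ K x y ⬝ᵥ (x' - y)) ^ 2 ≤
      (Bv e t κ K x y ⬝ᵥ Bv e t κ K x y) * ((x' - y) ⬝ᵥ (x' - y)) := by
    simpa only [dotProduct, sq] using sum_mul_sq_le_sq_mul_sq univ (Bv e t κ K x y) (x' - y)
  rw [h1, add_right_comm, ← h2, Gf]
  nlinarith [sq_nonneg (Bv e t κ K x y ⬝ᵥ (x' - y) - Ad e t κ y (x' - y)),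
    sq_nonneg (Bv e t κ K x y ⬝ᵥ Bv e t κ K x y - (x' - y) ⬝ᵥ (x' - y))]

lemma tm_G {a : ℕ} {y x : ℝ → Pt ι → ι → ℝ} (hy : ∀ k, Tm 0 fun K w => y K w k)
    (hd : ∀ k, Tm a fun K w => (x K w - y K w) k) : Tm (4 * a) fun K w => Gf e t κ (y K w) (x K w) := by
  have h1 := (Tm.dot hd hd).mono (by omega : 2 * a ≤ _)
  have h2 := (((Tm.sum univ fun k => ((hd k).sq.cmul (e k))).cmul (1 / 2)).add
    ((((((Tm.dot hy hy).sub (.const t)).mul0 h1).cmul 2).add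
      ((((Tm.dot hy hd).mono (by omega : a ≤ _)).cmul 2).add (h1.mono (by omega))).sq).cmul (κ / 8)))
  exact ((h2.sq.cmul 2).add h1.sq).mono (by omega)

lemma sqrt_ineq {a b : ℝ} (ha : a ≤ 1) (hb : -(3 / 4) ≤ b) :
    |√(1 - a) / √(1 + b) - 1 + a / 2 + b / 2| ≤ 5 * (a ^ 2 + b ^ 2) := by
  have h1 := sq_sqrt (by linarith : 0 ≤ 1 - a)
  have h2 := sq_sqrt (by linarith : 0 ≤ 1 + b)
  have u0 := sqrt_nonneg (1 - a)
  have v0 : 1 / 2 ≤ √(1 + b) := le_sqrt_of_sq_le (by linarith)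
  set u := √(1 - a)
  set v := √(1 + b)
  have ea : a = 1 - u ^ 2 := by linarith
  have eb : b = v ^ 2 - 1 := by linarith
  have v1 : 0 < v := by linarith
  have e : u / v - 1 + a / 2 + b / 2 = ((v - 1) - (u - 1)) * ((v - 1) * (1 / 2 + v⁻¹) + (u - 1) / 2) := by
    rw [ea, eb]; field_simp; ring
  have r0 : 0 < v⁻¹ := by positivity
  have r1 : v⁻¹ ≤ 2 := by rw [inv_le_comm₀ v1 two_pos]; linarith
  have b1 : (u - 1) ^ 2 ≤ a ^ 2 := by
    rw [ea, show (1 - u ^ 2) ^ 2 = (u - 1) ^ 2 * (1 + u) ^ 2 by ring]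
    exact le_mul_of_one_le_right (sq_nonneg _) (by nlinarith)
  have b2 : (v - 1) ^ 2 ≤ b ^ 2 := by
    rw [eb, show (v ^ 2 - 1) ^ 2 = (v - 1) ^ 2 * (1 + v) ^ 2 by ring]
    exact le_mul_of_one_le_right (sq_nonneg _) (by nlinarith)
  rw [e, abs_mul]
  have b3 : |(v - 1) * (1 / 2 + v⁻¹) + (u - 1) / 2| ≤ 5 / 2 * (|v - 1| + |u - 1|) := by
    refine (abs_add_le _ _).trans ?_
    rw [abs_mul, abs_div, abs_of_pos (by positivity : 0 < 1 / 2 + v⁻¹), abs_two]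
    nlinarith [abs_nonneg (v - 1), abs_nonneg (u - 1)]
  refine (mul_le_mul (abs_sub _ _) b3 (abs_nonneg _) (by positivity)).trans ?_
  nlinarith [sq_abs (v - 1), sq_abs (u - 1), sq_nonneg (|v - 1| - |u - 1|)]

variable {κ}

lemma tm_q : Tm 0 fun _ (w : Pt ι) => w.1 ⬝ᵥ w.1 - t := (Tm.dot Tm.c1 Tm.c1).sub (.const t)

lemma tm_ph (hκ : 0 < κ) (k : ι) : Tm 2 fun K (w : Pt ι) => ph e t κ K w.1 k := by
  refine (((Tm.const ((2 * e k) ^ 2)).add ((tm_q t).cmul κ).sq).cmul 5).mul0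
    (Tm.sg (ι := ι)).sq |>.of_le ?_
  filter_upwards [eventually_gt_atTop 0, eventually_ge_atTop (2 * e k),
    eventually_ge_atTop (2 * (κ * t))] with K K0 h1 h2 w
  have i0 := inv_pos.2 K0
  have i1 := mul_inv_cancel₀ K0.ne'
  have := sqrt_ineq (a := 2 * e k * K⁻¹) (b := K⁻¹ * κ * (w.1 ⬝ᵥ w.1 - t))
    (by nlinarith) (by nlinarith [mul_nonneg (mul_pos i0 hκ).le (q0 w.1)])
  rw [ph, abs_mul, abs_of_pos K0, sq_sqrt i0.le]
  refine (mul_le_mul_of_nonneg_left this K0.le).trans_eq ?_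
  field_simp

lemma Ff_eq {K : ℝ} (hK : 0 < K) (x : ι → ℝ) (k : ι) : K * (Ff e t κ K⁻¹ x k - x k) =
    (ph e t κ K x k - e k - κ / 2 * (x ⬝ᵥ x - t)) * x k := by
  rw [Ff, ph, mul_div_right_comm]
  generalize √(1 - 2 * e k * K⁻¹) / √(1 + K⁻¹ * κ * (x ⬝ᵥ x - t)) = r
  field_simp
  ring

lemma tm_all (hκ : 0 < κ) : Tm 4 fun K (w : Pt ι) => Gf e t κ (w.1 + √K⁻¹ • w.2.1) w.1 +
    (Gf e t κ (w.1 + √K⁻¹ • w.2.1) (w.1 + √K⁻¹ • w.2.1 + (Ff e t κ K⁻¹ w.1 - w.1) + √K⁻¹ • w.2.2) +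
      2 * (Bv e t κ K w.1 (w.1 + √K⁻¹ • w.2.1) ⬝ᵥ Bv e t κ K w.1 (w.1 + √K⁻¹ • w.2.1)) ^ 2) := by
  have hz : ∀ k, Tm 1 fun K (w : Pt ι) => (√K⁻¹ • w.2.1) k := fun k => Tm.sg.mul (.c2 k)
  have hy : ∀ k, Tm 0 fun K (w : Pt ι) => (w.1 + √K⁻¹ • w.2.1) k := fun k =>
    (Tm.c1 k).add ((hz k).mono zero_le_one)
  have hδ : ∀ k, Tm 2 fun K (w : Pt ι) => Ff e t κ K⁻¹ w.1 k - w.1 k := fun k =>
    ((((((tm_ph e t hκ k).mono (Nat.zero_le _)).sub (.const (e k))).sub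
      ((tm_q t).cmul (κ / 2))).mul0 (.c1 k)).mul0 Tm.sg.sq).congr fun K K0 w => by
      rw [← Ff_eq e t K0, sq_sqrt (inv_pos.2 K0).le]
      field_simp
  have hB : ∀ k, Tm 1 fun K (w : Pt ι) => Bv e t κ K w.1 (w.1 + √K⁻¹ • w.2.1) k := fun k =>
    ((((hz k).cmul (e k)).add (((((Tm.dot hy hy).sub (.const t)).mul0 (hz k)).add
      ((Tm.c1 k).mul0 (((Tm.dot Tm.c1 hz).cmul 2).add ((Tm.dot hz hz).mono one_le_two)))).cmul
      (κ / 2))).add ((Tm.c1 k).mul0 ((tm_ph e t hκ k).mono one_le_two))).congr fun K K0 w => by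
      generalize √K⁻¹ • w.2.1 = d
      simp only [Bv, gr, Pi.add_apply, Pi.smul_apply, Pi.sub_apply, smul_eq_mul, Ff_eq e t K0,
        add_dotProduct, dotProduct_add, dotProduct_comm d w.1]
      ring
  refine (tm_G e t κ (a := 1) hy fun k => ((hz k).cmul (-1)).congr fun K _ w => by simp).add
    ((tm_G e t κ (a := 1) hy fun k => (((hδ k).mono one_le_two).add
      (Tm.sg.mul (.c3 k))).congr fun K _ w => ?_).add ((Tm.dot hB hB).sq.cmul 2))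
  simp only [Pi.add_apply, Pi.sub_apply, Pi.smul_apply, smul_eq_mul]
  ring

lemma Wf_le (hκ : 0 < κ) : ∃ C, ∀ x, Wf e t κ x ≤ C - x ⬝ᵥ x := by
  refine ⟨(1 + ∑ k, |e k|) * t + 2 * (1 + ∑ k, |e k|) ^ 2 / κ, fun x => ?_⟩
  have h1 : -∑ k, e k * x k ^ 2 ≤ (∑ k, |e k|) * (x ⬝ᵥ x) := by
    rw [← sum_neg_distrib, dotProduct, mul_sum]
    refine sum_le_sum fun k _ => ?_
    have := single_le_sum (f := fun k => |e k|) (fun k _ => abs_nonneg _) (mem_univ k)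
    nlinarith [neg_abs_le (e k), mul_self_nonneg (x k)]
  have h0 : 0 ≤ ∑ k, |e k| := by positivity
  have h2 : (1 + ∑ k, |e k|) * (x ⬝ᵥ x - t) - κ / 8 * (x ⬝ᵥ x - t) ^ 2 ≤
      2 * (1 + ∑ k, |e k|) ^ 2 / κ := by
    rw [le_div_iff₀ hκ]
    nlinarith [sq_nonneg (4 * (1 + ∑ k, |e k|) - κ * (x ⬝ᵥ x - t))]
  rw [Wf]
  nlinarith [mul_nonneg h0 (q0 x)]

lemma int_W (hκ : 0 < κ) (c : ℝ) :
    Integrable (fun x => exp (Wf e t κ x) * exp (c * ‖x‖)) (volume : Measure (ι → ℝ)) := by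
  obtain ⟨C, hC⟩ := Wf_le e t hκ
  have h := int_exp (ι := ι) c
  rw [show SL.Gs ι = gv ι from rfl, gv_eq_withDensity, integrable_withDensity_iff (by fun_prop)
    (.of_forall fun _ => ENNReal.ofReal_lt_top)] at h
  refine (h.const_mul (exp C / phi 1 (0 : ι → ℝ))).mono' (Measurable.aestronglyMeasurable (by
    unfold Wf; fun_prop)) (.of_forall fun x => ?_)
  have e1 : exp C / phi 1 (0 : ι → ℝ) * (exp (c * ‖x‖) * phi 1 x) =
      exp (C + -(x ⬝ᵥ x) / (2 * 1)) * exp (c * ‖x‖) := by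
    simp only [phi, exp_add, dotProduct_zero, neg_zero, zero_div, exp_zero]
    field_simp
  rw [ENNReal.toReal_ofReal (phi_nonneg _ _), e1, Real.norm_of_nonneg (by positivity)]
  gcongr
  linarith [hC x, q0 x]

theorem main (hκ : 0 < κ) : ∃ C : ℝ, 0 ≤ C ∧ ∀ᶠ K : ℝ in atTop, ∀ f : (ι → ℝ) → ℝ, Measurable f →
    (∀ x, |f x| ≤ 1) → ∀ l : ℝ, 0 < l → l ≤ 1 → ∀ j : ℕ,
      l * ∫ x, |(Tk K (volume.tilted (Wf e t κ)))^[j] f x - (Uk K (Ff e t κ K⁻¹))^[j] f x|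
        ∂(volume.tilted (Wf e t κ)) ≤ 4 * (j * (C * K⁻¹ ^ 2)) + l ^ 2 := by
  obtain ⟨C, c, C0, c0, h⟩ := tm_all e t hκ
  have iW : Integrable (fun x => exp (Wf e t κ x)) (volume : Measure (ι → ℝ)) := by
    simpa using int_W e t hκ 0
  have i1 : Integrable (fun z => exp (c * ‖z‖)) (gv ι) := int_exp c
  have i2 : Integrable (fun z => exp (c * ‖z‖)) (volume.tilted (Wf e t κ)) :=
    (integrable_tilted_iff iW _).2 (int_W e t hκ c)
  set I := ∫ z, exp (c * ‖z‖) ∂gv ι with hI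
  set J := ∫ z, exp (c * ‖z‖) ∂(volume.tilted (Wf e t κ)) with hJ
  have I0 : 0 ≤ I := by positivity
  have J0 : 0 ≤ J := by positivity
  refine ⟨C * I * I * J, by positivity, ?_⟩
  filter_upwards [h, eventually_gt_atTop 0] with K hK K0 f mf hf l l0 l1 j
  have mG : Measurable fun p : (ι → ℝ) × (ι → ℝ) => Gf e t κ p.1 p.2 := by unfold Gf Ad; fun_prop
  have gG : ∀ y, MG (Gf e t κ y) := fun y => Tm.mg (tm_G e t κ (a := 0) (fun k => .const (y k))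
    fun k => (Tm.c1 k).sub (.const (y k))) (by unfold Gf Ad; fun_prop)
  have G0 : ∀ y x, 0 ≤ Gf e t κ y x := fun y x => by unfold Gf; positivity
  have key : ∀ x z, Gf e t κ (x + √K⁻¹ • z) x + (∫ z', Gf e t κ (x + √K⁻¹ • z)
      (x + √K⁻¹ • z + (Ff e t κ K⁻¹ x - x) + √K⁻¹ • z') ∂gv ι +
      2 * (Bv e t κ K x (x + √K⁻¹ • z) ⬝ᵥ Bv e t κ K x (x + √K⁻¹ • z)) ^ 2) ≤
      C * K⁻¹ ^ 2 * I * exp (c * ‖x‖) * exp (c * ‖z‖) := fun x z => by
    have i3 : Integrable _ (gv ι) := ((gG (x + √K⁻¹ • z)).affine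
      (x + √K⁻¹ • z + (Ff e t κ K⁻¹ x - x)) √K⁻¹).int
    have h5 : ∀ z' : ι → ℝ, C * √K⁻¹ ^ 4 * exp (c * ‖(x, z, z')‖) ≤
        C * K⁻¹ ^ 2 * exp (c * ‖x‖) * exp (c * ‖z‖) * exp (c * ‖z'‖) := fun z' => by
      have e4 : √K⁻¹ ^ 4 = K⁻¹ ^ 2 := by
        rw [show 4 = 2 * 2 from rfl, pow_mul, sq_sqrt (inv_pos.2 K0).le]
      rw [e4, mul_assoc _ (exp _), mul_assoc _ (exp _), ← exp_add, ← exp_add, ← mul_add, ← mul_add]
      gcongr
      have := norm_nonneg x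
      have := norm_nonneg z
      have := norm_nonneg z'
      simp only [Prod.norm_def, max_le_iff]
      exact ⟨by linarith, by linarith, by linarith⟩
    have := integral_mono ((integrable_const (Gf e t κ (x + √K⁻¹ • z) x)).add (i3.add
      (integrable_const (2 * (Bv e t κ K x (x + √K⁻¹ • z) ⬝ᵥ Bv e t κ K x (x + √K⁻¹ • z)) ^ 2))))
      (i1.const_mul (C * K⁻¹ ^ 2 * exp (c * ‖x‖) * exp (c * ‖z‖))) fun z' =>
        ((le_abs_self _).trans (hK (x, z, z'))).trans (h5 z')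
    rw [integral_add' (integrable_const _) (i3.add (integrable_const _)),
      integral_add' i3 (integrable_const _)] at this
    simp only [integral_const, probReal_univ, one_smul] at this
    exact this.trans_eq (by rw [integral_const_mul]; ring)
  have H : Hyp K (Wf e t κ) (Ff e t κ K⁻¹) (Gf e t κ)
      (fun x y => (Bv e t κ K x y ⬝ᵥ Bv e t κ K x y) ^ 2)
      fun p => C * K⁻¹ ^ 2 * I * exp (c * ‖p.1‖) * exp (c * ‖p.2‖) :=
    ⟨K0, by unfold Wf; fun_prop, iW, by unfold Ff; fun_prop, Wf_le e t hκ, mG, G0, gG,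
      sq_le e t κ K, by fun_prop, fun p => by positivity,
      fun x z => le_trans (le_add_of_nonneg_right (add_nonneg
        (integral_nonneg fun _ => G0 _ _) (by positivity))) (key x z),
      fun x z => le_trans (le_add_of_nonneg_left (G0 _ _)) (key x z)⟩
  refine H.chain mf hf l0 l1 (by positivity) (le_of_eq ?_) j
  have e1 : ∀ x : ι → ℝ, ∫⁻ z, ENNReal.ofReal (C * K⁻¹ ^ 2 * I * exp (c * ‖x‖) * exp (c * ‖z‖)) ∂gv ι
      = ENNReal.ofReal (C * K⁻¹ ^ 2 * I * I * exp (c * ‖x‖)) := fun x => by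
    rw [← ofReal_integral_eq_lintegral_ofReal (i1.const_mul _) (.of_forall fun z => by positivity),
      integral_const_mul, mul_right_comm]
  simp only [e1]
  rw [← ofReal_integral_eq_lintegral_ofReal (i2.const_mul _) (.of_forall fun z => by positivity),
    integral_const_mul]
  congr 1
  ring

end Kl17

open Kl17 in
theorem klStmt : KlStmt := by
  intro n η t κ R ε _ hκ hε
  obtain ⟨C, C0, h⟩ := main (fun k : Fin n => η k) t hκ
  have l0 : 0 < min 1 (ε / 2) := by positivity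
  filter_upwards [h, eventually_gt_atTop 0,
    eventually_ge_atTop (4 * (R * C) / (min 1 (ε / 2) * (ε / 2)))] with K hK K0 h1 j hj v hv
  refine le_of_mul_le_mul_left ((hK v hv.1 hv.2 _ l0 (min_le_left _ _) j).trans ?_) l0
  rw [div_le_iff₀ (by positivity)] at h1
  have h2 : 4 * (j * (C * K⁻¹ ^ 2)) ≤ min 1 (ε / 2) * (ε / 2) := by
    refine le_of_mul_le_mul_left (le_trans ?_ h1) K0
    calc K * (4 * (j * (C * K⁻¹ ^ 2))) = 4 * (j * (C * K⁻¹)) := by field_simp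
      _ ≤ 4 * (R * K * (C * K⁻¹)) := by gcongr
      _ = _ := by field_simp
  nlinarith [min_le_right 1 (ε / 2)]

end Crest.Agent.T157.Cq

end
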