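import Crest.Agent.T157.ChainSp_22
import Crest.Agent.T157.Eig_84

/-!
# Row 157, part C (helper67): finite lemmas for MASS and CRUDE
-/

set_option autoImplicit false

noncomputable section

namespace Crest.Agent.T157.Cq.M67

open MeasureTheory ProbabilityTheory Matrix Finset Real
open Crest.Agent.T157.Chain22 Crest.Agent.T157.Eig

section fin
variable {Ω ι κ : Type*} [Fintype Ω] [Fintype ι] [Fintype κ] {p : Ω → ℝ}

/-- Jensen for the exponential -/
theorem jen (hp : IsP p) (f : Ω → ℝ) : exp (∑ x, p x * f x) ≤ ∑ x, p x * exp (f x) := by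
  set m := ∑ x, p x * f x with hm
  have h1 : ∀ x, exp m * (p x * (1 - m) + p x * f x) ≤ p x * exp (f x) := fun x => by
    have h := add_one_le_exp (f x - m)
    have e : exp (f x) = exp m * exp (f x - m) := by rw [← exp_add]; congr 1; ring
    have h2 := mul_le_mul_of_nonneg_left h (mul_nonneg (hp.nn x) (exp_pos m).le)
    rw [e]; nlinarith
  refine le_trans (le_of_eq ?_) (sum_le_sum fun x _ => h1 x)
  rw [← mul_sum, sum_add_distrib, ← sum_mul, hp.sum1, ← hm]; ring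

/-- two-replica exponential moment -/
def XX (p : Ω → ℝ) (φ : Ω → ι → ℝ) (θ : ℝ) : ℝ :=
  ∑ x, p x * ∑ y, p y * exp (θ * (φ x ⬝ᵥ φ y))

/-- linear forms -/
theorem lin (hp : IsP p) (φ : Ω → ι → ℝ) {θ G : ℝ} (hθ : 0 < θ) (hG : XX p φ θ ≤ exp (2 * G))
    (u : ι → ℝ) : ∑ x, p x * exp (u ⬝ᵥ φ x) ≤ exp (G + u ⬝ᵥ u / (2 * θ)) := by
  set Z := ∑ x, p x * exp (u ⬝ᵥ φ x) with hZ
  have Z0 : 0 < Z := (exp_pos _).trans_le (jen hp _)
  set q : Ω → ℝ := fun x => p x * exp (u ⬝ᵥ φ x) / Z with hq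
  have qP : IsP q := ⟨fun x => div_nonneg (mul_nonneg (hp.nn x) (exp_pos _).le) Z0.le, by
    simp only [hq]; rw [← sum_div, ← hZ, div_self Z0.ne']⟩
  set m : ι → ℝ := ∑ x, q x • φ x with hm
  have dm : ∀ a : ι → ℝ, ∑ x, q x * (a ⬝ᵥ φ x) = a ⬝ᵥ m := fun a => by
    rw [hm, dotProduct_sum]
    exact sum_congr rfl fun x _ => by rw [dotProduct_smul, smul_eq_mul]
  have h1 : ∀ x, Z * exp ((θ • φ x - u) ⬝ᵥ m) ≤ ∑ y, p y * exp (θ * (φ x ⬝ᵥ φ y)) := fun x => by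
    rw [← dm]
    refine (mul_le_mul_of_nonneg_left (jen qP _) Z0.le).trans (le_of_eq ?_)
    rw [mul_sum]
    refine sum_congr rfl fun y _ => ?_
    simp only [hq, sub_dotProduct, smul_dotProduct, smul_eq_mul, exp_sub]
    field_simp
  have h2 : Z * (Z * exp ((θ • m - u) ⬝ᵥ m - u ⬝ᵥ m)) ≤ XX p φ θ := by
    refine le_trans ?_ (sum_le_sum fun x _ => mul_le_mul_of_nonneg_left (h1 x) (hp.nn x))
    have e : (θ • m - u) ⬝ᵥ m - u ⬝ᵥ m = ∑ x, q x * ((θ • m - u) ⬝ᵥ φ x - u ⬝ᵥ m) := by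
      simp only [mul_sub, sum_sub_distrib, dm, ← sum_mul, qP.sum1, one_mul]
    rw [e]
    refine (mul_le_mul_of_nonneg_left (mul_le_mul_of_nonneg_left (jen qP _) Z0.le) Z0.le).trans
      (le_of_eq ?_)
    rw [mul_sum, mul_sum]
    refine sum_congr rfl fun x _ => ?_
    simp only [hq, sub_dotProduct, smul_dotProduct, smul_eq_mul, exp_sub, dotProduct_comm m (φ x)]
    field_simp
  have h3 : -(u ⬝ᵥ u / θ) ≤ (θ • m - u) ⬝ᵥ m - u ⬝ᵥ m := by
    have h := sum_nonneg fun i (_ : i ∈ univ) => mul_self_nonneg ((θ • m - u) i)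
    change 0 ≤ (θ • m - u) ⬝ᵥ (θ • m - u) at h
    simp only [sub_dotProduct, dotProduct_sub, smul_dotProduct, dotProduct_smul, smul_eq_mul,
      dotProduct_comm m u] at h ⊢
    rw [neg_le, ← sub_nonneg, ← mul_nonneg_iff_of_pos_left hθ]
    refine h.trans (le_of_eq ?_)
    field_simp; ring
  have h4 : Z * (Z * exp (-(u ⬝ᵥ u / θ))) ≤ exp (2 * G) :=
    le_trans (by gcongr) (h2.trans hG)
  refine (pow_le_pow_iff_left₀ Z0.le (exp_pos _).le two_ne_zero).1 ?_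
  have h5 := mul_le_mul_of_nonneg_right h4 (exp_pos (u ⬝ᵥ u / θ)).le
  rw [mul_assoc, mul_assoc, ← exp_add, neg_add_cancel, exp_zero, mul_one, ← exp_add] at h5
  rw [sq, sq, ← exp_add]
  refine h5.trans (le_of_eq ?_)
  congr 1; field_simp; ring

theorem int_sq {a : ℝ} (h0 : 0 ≤ a) (ha : a ≤ 1 / 2) :
    Integrable (fun h : ℝ => exp (a * h ^ 2 / 2)) (gaussianReal 0 1) ∧
      ∫ h, exp (a * h ^ 2 / 2) ∂gaussianReal 0 1 ≤ exp a := by
  have hb : 0 < (1 - a) / 2 := by linarith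
  have e : ∀ h : ℝ, gaussianPDFReal 0 1 h * exp (a * h ^ 2 / 2) =
      (√(2 * π))⁻¹ * exp (-((1 - a) / 2) * h ^ 2) := fun h => by
    simp only [gaussianPDFReal, NNReal.coe_one, mul_one, sub_zero, mul_assoc, ← exp_add]
    congr 2; ring
  constructor
  · rw [gaussianReal_of_var_ne_zero _ one_ne_zero, integrable_withDensity_iff_integrable_smul'
      (by fun_prop) (by simp [gaussianPDF])]
    simp only [toReal_gaussianPDF, smul_eq_mul, e]
    exact (integrable_exp_neg_mul_sq hb).const_mul _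
  · rw [integral_gaussianReal_eq_integral_smul one_ne_zero]
    simp only [smul_eq_mul, e]
    have h2 : 0 < √(2 * π) := by positivity
    rw [integral_const_mul, integral_gaussian, show π / ((1 - a) / 2) = 2 * π * (1 - a)⁻¹ by
      field_simp, sqrt_mul (show 0 ≤ 2 * π by positivity) (1 - a)⁻¹, ← mul_assoc, inv_mul_cancel₀ h2.ne', one_mul,
      sqrt_le_left (exp_pos _).le, sq, ← exp_add, inv_le_iff_one_le_mul₀ (by linarith)]
    have h3 := add_one_le_exp (a + a)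
    nlinarith [mul_le_mul_of_nonneg_right h3 (show 0 ≤ 1 - a by linarith)]

theorem int_lin (a : κ → ℝ) :
    Integrable (fun ξ : κ → ℝ => exp (∑ k, a k * ξ k)) (Measure.pi fun _ => gaussianReal 0 1) ∧
      ∫ ξ : κ → ℝ, exp (∑ k, a k * ξ k) ∂(Measure.pi fun _ => gaussianReal 0 1) =
        exp (∑ k, a k ^ 2 / 2) := by
  simp only [exp_sum]
  refine ⟨Integrable.fintype_prod (f := fun k x => exp (a k * x)) fun k =>
    integrable_exp_mul_gaussianReal _, ?_⟩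
  rw [integral_fintype_prod_eq_prod (fun k x => exp (a k * x))]
  refine prod_congr rfl fun k _ => ?_
  have := congrFun (mgf_fun_id_gaussianReal (μ := 0) (v := 1)) (a k)
  simpa [mgf] using this

theorem int_quad {a : κ → ℝ} (h0 : ∀ k, 0 ≤ a k) (ha : ∀ k, a k ≤ 1 / 2) :
    Integrable (fun ξ : κ → ℝ => exp (∑ k, a k * ξ k ^ 2 / 2))
      (Measure.pi fun _ => gaussianReal 0 1) ∧
      ∫ ξ : κ → ℝ, exp (∑ k, a k * ξ k ^ 2 / 2) ∂(Measure.pi fun _ => gaussianReal 0 1) ≤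
        exp (∑ k, a k) := by
  simp only [exp_sum]
  refine ⟨Integrable.fintype_prod (f := fun k x => exp (a k * x ^ 2 / 2)) fun k =>
    (int_sq (h0 k) (ha k)).1, ?_⟩
  rw [integral_fintype_prod_eq_prod (fun k x => exp (a k * x ^ 2 / 2))]
  exact prod_le_prod (fun k _ => integral_nonneg fun x => (exp_pos _).le) fun k _ =>
    (int_sq (h0 k) (ha k)).2

/-- quadratic forms, diagonal words -/
theorem quad [DecidableEq κ] (hp : IsP p) (φ : Ω → ι → ℝ) {θ G : ℝ} (hθ : 0 < θ)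
    (hG : XX p φ θ ≤ exp (2 * G)) (v : κ → ι → ℝ)
    (hv : ∀ k l, v k ⬝ᵥ v l = if k = l then 1 else 0) {d : κ → ℝ} (h0 : ∀ k, 0 ≤ d k)
    (h1 : ∀ k, d k ≤ 1) :
    ∑ x, p x * exp (θ / 4 * ∑ k, d k * (v k ⬝ᵥ φ x) ^ 2) ≤ exp (G + (∑ k, d k) / 2) := by
  set s : κ → ℝ := fun k => √(θ * d k / 2) with hs
  have s2 : ∀ k, s k ^ 2 = θ * d k / 2 := fun k => sq_sqrt (by have := h0 k; positivity)
  have e1 : ∀ x, exp (θ / 4 * ∑ k, d k * (v k ⬝ᵥ φ x) ^ 2) =
      ∫ ξ : κ → ℝ, exp (∑ k, (s k * (v k ⬝ᵥ φ x)) * ξ k)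
        ∂(Measure.pi fun _ => gaussianReal 0 1) := fun x => by
    rw [(int_lin _).2, mul_sum]
    congr 1
    exact sum_congr rfl fun k _ => by rw [mul_pow, s2]; ring
  have q := int_quad (a := fun k => d k / 2) (fun k => by have := h0 k; positivity)
    fun k => by have := h1 k; linarith
  simp only [e1, ← integral_const_mul]
  rw [← integral_finsetSum _ fun x _ => (int_lin _).1.const_mul _, exp_add, sum_div]
  refine le_trans ?_ (mul_le_mul_of_nonneg_left q.2 (exp_pos G).le)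
  rw [← integral_const_mul]
  refine integral_mono (integrable_finsetSum _ fun x _ => (int_lin _).1.const_mul _)
    (q.1.const_mul _) fun ξ => ?_
  have h := lin hp φ hθ hG (∑ k, (s k * ξ k) • v k)
  have e2 : ∀ x, (∑ k, (s k * ξ k) • v k) ⬝ᵥ φ x = ∑ k, (s k * (v k ⬝ᵥ φ x)) * ξ k := fun x => by
    rw [sum_dotProduct]
    exact sum_congr rfl fun k _ => by rw [smul_dotProduct, smul_eq_mul]; ring
  have e3 : (∑ k, (s k * ξ k) • v k) ⬝ᵥ (∑ k, (s k * ξ k) • v k) / (2 * θ) =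
      ∑ k, d k / 2 * ξ k ^ 2 / 2 := by
    rw [sum_dotProduct, sum_div]
    refine sum_congr rfl fun k _ => ?_
    simp only [dotProduct_sum, smul_dotProduct, dotProduct_smul, smul_eq_mul, hv, mul_ite, mul_one,
      mul_zero, sum_ite_eq, mem_univ, if_true]
    rw [show s k * ξ k * (s k * ξ k) = s k ^ 2 * ξ k ^ 2 by ring, s2]
    field_simp
  simp only [e2, e3, exp_add] at h
  exact h

/-- quadratic forms -/
theorem quadF [DecidableEq ι] (hp : IsP p) (φ : Ω → ι → ℝ) {θ G : ℝ} (hθ : 0 < θ)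
    (hG : XX p φ θ ≤ exp (2 * G)) {F : Matrix ι ι ℝ} (h0 : F.PosSemidef)
    (h1 : (1 - F).PosSemidef) :
    ∑ x, p x * exp (θ / 4 * (φ x ⬝ᵥ F *ᵥ φ x)) ≤ exp (G + F.trace / 2) := by
  have hF := h0.1
  have h := quad (κ := Fin (Fintype.card ι)) hp φ hθ hG (fun k => vec F k)
    (fun k l => by rw [vec_dot hF k.2 l.2]; simp only [Fin.val_inj]) (d := fun k => lam F k)
    (fun k => by
      rw [← quad_vec hF k.2]
      simpa using h0.dotProduct_mulVec_nonneg (vec F k))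
    (fun k => by
      have := h1.dotProduct_mulVec_nonneg (vec F k)
      rw [star_trivial, sub_mulVec, one_mulVec, dotProduct_sub, quad_vec hF k.2,
        vec_dot_self hF k.2] at this
      linarith)
  rw [trace_eq hF, sum_range]
  refine le_trans (le_of_eq (sum_congr rfl fun x _ => ?_)) h
  rw [quad_eq hF, sum_range]
  simp only [sq]

/-- change of measure -/
theorem chg (hp : IsP p) (hp0 : ∀ x, 0 < p x) {ν : Ω → ℝ} (hν : IsP ν) {H G : ℝ}
    (hH : ∑ x, ν x ^ 2 / p x ≤ exp H) (f : Ω → ℝ) (hG : ∑ x, p x * exp (f x) ≤ exp G) :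
    ∑ x, ν x * f x ≤ H + G := by
  have h1 := jen hν fun x => f x / 2
  have h2 := hp.ip_sq_le (fun x => ν x / p x) fun x => exp (f x / 2)
  have e1 : ip p (fun x => ν x / p x) (fun x => exp (f x / 2)) = ∑ x, ν x * exp (f x / 2) :=
    sum_congr rfl fun x _ => by have := hp0 x; field_simp
  have e2 : ip p (fun x => ν x / p x) (fun x => ν x / p x) = ∑ x, ν x ^ 2 / p x :=
    sum_congr rfl fun x _ => by have := hp0 x; field_simp
  have e3 : ip p (fun x => exp (f x / 2)) (fun x => exp (f x / 2)) = ∑ x, p x * exp (f x) :=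
    sum_congr rfl fun x _ => by rw [← exp_add, add_halves]
  rw [e1, e2, e3] at h2
  have h3 := (pow_le_pow_left₀ (exp_pos _).le h1 2).trans (h2.trans (mul_le_mul hH hG
    (sum_nonneg fun x _ => mul_nonneg (hp.nn x) (exp_pos _).le) (exp_pos _).le))
  rw [sq, ← exp_add, ← exp_add, exp_le_exp, ← sum_add_distrib] at h3
  refine le_trans (le_of_eq (sum_congr rfl fun x _ => ?_)) h3
  ring

/-- **MASS**, abstract form -/
theorem mass [DecidableEq ι] (hp : IsP p) (hp0 : ∀ x, 0 < p x) (φ : Ω → ι → ℝ) {B : ℝ}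
    (hB : ∀ θ : ℝ, XX p φ θ ≤ B * exp (B * |θ| ^ (3 / 2 : ℝ))) {F : Matrix ι ι ℝ}
    (h0 : F.PosSemidef) (h1 : (1 - F).PosSemidef) {ν : Ω → ℝ} (hν : IsP ν) {H : ℝ} (H0 : 0 ≤ H)
    (hH : ∑ x, ν x ^ 2 / p x ≤ exp H) :
    ∑ x, ν x * (φ x ⬝ᵥ F *ᵥ φ x) ≤ 4 * (1 + |B|) * (1 + H + F.trace) ^ (1 / 3 : ℝ) := by
  have t0 : 0 ≤ F.trace := h0.trace_nonneg
  set S := 1 + H + F.trace with hS
  have S1 : 1 ≤ S := by linarith
  have S0 : 0 < S := by linarith
  set θ := S ^ (2 / 3 : ℝ) with hθ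
  have θ0 : 0 < θ := rpow_pos_of_pos S0 _
  have e1 : |θ| ^ (3 / 2 : ℝ) = S := by
    rw [abs_of_pos θ0, hθ, ← rpow_mul S0.le]; norm_num
  have e2 : S = θ * S ^ (1 / 3 : ℝ) := by
    rw [hθ, ← rpow_add S0]; norm_num
  have B0 := abs_nonneg B
  have B1 := le_abs_self B
  have hG : XX p φ θ ≤ exp (2 * (|B| * S)) := by
    refine (hB θ).trans ?_
    rw [e1, two_mul, exp_add]
    refine mul_le_mul ?_ (exp_le_exp.2 (by nlinarith)) (exp_pos _).le (exp_pos _).le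
    have := add_one_le_exp (|B| * S)
    nlinarith
  have h := chg hp hp0 hν hH _ (quadF hp φ θ0 hG h0 h1)
  have e3 : ∑ x, ν x * (θ / 4 * (φ x ⬝ᵥ F *ᵥ φ x)) = θ / 4 * ∑ x, ν x * (φ x ⬝ᵥ F *ᵥ φ x) := by
    rw [mul_sum]; exact sum_congr rfl fun x _ => by ring
  rw [e3] at h
  refine le_of_mul_le_mul_left (h.trans ?_) (show 0 < θ / 4 by positivity)
  have : θ / 4 * (4 * (1 + |B|) * S ^ (1 / 3 : ℝ)) = (1 + |B|) * (θ * S ^ (1 / 3 : ℝ)) := by ring
  rw [this, ← e2]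
  nlinarith

/-- the `χ²` norm of the discrete flow is bounded by the continuous kernel -/
theorem chi [DecidableEq Ω] (c : RC Ω) (hc : c.PSD) {μ : Ω → ℝ} (hμ : IsP μ) (i : ℕ) {E : ℝ}
    (h : ∀ x y, c.H (2 * i) x y ≤ E * c.π y) : ∑ y, (μ ᵥ* c.P ^ i) y ^ 2 / c.π y ≤ E := by
  set ρ : Ω → ℝ := fun x => μ x / c.π x with hρ
  have hm : ∀ x, c.π x * ρ x = μ x := fun x => by have := c.pos x; simp only [hρ]; field_simp
  have ρ0 : ∀ x, 0 ≤ ρ x := fun x => div_nonneg (hμ.nn x) (c.pos x).le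
  have e1 : ∀ y, (μ ᵥ* c.P ^ i) y = c.π y * ((c.P ^ i) *ᵥ ρ) y := fun y => by
    simp only [vecMul, mulVec, dotProduct, mul_sum]
    refine sum_congr rfl fun x _ => ?_
    rw [← hm, ← mul_assoc, ← c.pow_rev]; ring
  have e2 : ∑ y, (μ ᵥ* c.P ^ i) y ^ 2 / c.π y = ip c.π ρ ((c.P ^ (2 * i)) *ᵥ ρ) := by
    have := (c.pow i).ip_P_symm ρ ((c.P ^ i) *ᵥ ρ)
    rw [RC.pow_π, RC.pow_P, mulVec_mulVec, ← pow_add, ← two_mul] at this
    rw [this]
    refine sum_congr rfl fun y _ => ?_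
    have := c.pos y
    rw [e1]; field_simp
  have h1 : ip c.π ρ ((c.P ^ (2 * i)) *ᵥ ρ) ≤ ip c.π ρ (c.H (2 * i) *ᵥ ρ) := by
    rw [c.ip_pow_spec, c.ip_H_spec]
    refine sum_le_sum fun j _ => mul_le_mul_of_nonneg_right ?_ (mul_self_nonneg _)
    have h2 := add_one_le_exp (-(1 - c.ev j))
    refine (pow_le_pow_left₀ (hc.ev_nonneg j) (show c.ev j ≤ _ by linarith) _).trans
      (le_of_eq ?_)
    rw [← exp_nat_mul]; congr 1; push_cast; ring
  have h3 : ∀ x, (c.H (2 * i) *ᵥ ρ) x ≤ E := fun x => by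
    refine (sum_le_sum fun y _ => mul_le_mul_of_nonneg_right (h x y) (ρ0 y)).trans (le_of_eq ?_)
    simp only [mul_assoc, hm, ← mul_sum, hμ.sum1, mul_one]
  rw [e2]
  refine h1.trans ?_
  have e3 : ip c.π ρ (c.H (2 * i) *ᵥ ρ) = mean μ (c.H (2 * i) *ᵥ ρ) :=
    sum_congr rfl fun x _ => by rw [← mul_assoc, hm]
  rw [e3, ← hμ.mean_const E]
  exact hμ.mean_mono h3

end fin

theorem sum_pow_le {γ : ℝ} (h0 : 0 ≤ γ) (h1 : γ < 1) (M : ℕ) :
    ∑ i ∈ range M, ((i : ℝ) + 1) ^ (-γ) ≤ (M : ℝ) ^ (1 - γ) / (1 - γ) := by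
  have g : 0 < 1 - γ := by linarith
  rw [le_div_iff₀ g]
  induction M with
  | zero => simp [zero_rpow g.ne']
  | succ M ih =>
    rw [sum_range_succ, add_mul]
    have M1 : (0 : ℝ) < M + 1 := by positivity
    have h := rpow_one_add_le_one_add_mul_self (s := -((M : ℝ) + 1)⁻¹)
      (by rw [neg_le_neg_iff]; exact inv_le_one_of_one_le₀ (by linarith [Nat.cast_nonneg (α := ℝ) M]))
      g.le (show 1 - γ ≤ 1 by linarith)
    have e : (M : ℝ) = (M + 1) * (1 + -((M : ℝ) + 1)⁻¹) := by field_simp; ring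
    have e0 : 0 ≤ 1 + -((M : ℝ) + 1)⁻¹ := by
      have : ((M : ℝ) + 1)⁻¹ ≤ 1 := inv_le_one_of_one_le₀ (by linarith [Nat.cast_nonneg (α := ℝ) M])
      linarith
    have e2 : (M : ℝ) ^ (1 - γ) = ((M : ℝ) + 1) ^ (1 - γ) * (1 + -((M : ℝ) + 1)⁻¹) ^ (1 - γ) := by
      rw [← mul_rpow M1.le e0, ← e]
    have e3 : ((M : ℝ) + 1) ^ (-γ) = ((M : ℝ) + 1) ^ (1 - γ) * ((M : ℝ) + 1)⁻¹ := by
      rw [← rpow_neg_one, ← rpow_add M1]; congr 1; ring
    have h4 := mul_le_mul_of_nonneg_left h (rpow_nonneg M1.le (1 - γ))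
    push_cast
    rw [e3]
    nlinarith

end Crest.Agent.T157.Cq.M67

end
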