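import Crest.Agent.T157.CqDef_72
import Crest.Agent.T157.CqMassA_67
import Crest.Agent.T157.ChainHB_22
import Crest.Agent.T157.StLnk_10
import Crest.Agent.T157.GoeT_48

/-!
# Row 157, part C (helper67): `MassStmt` and `CrGlue`
-/

set_option autoImplicit false

noncomputable section

namespace Crest.Agent.T157.Cq

open MeasureTheory ProbabilityTheory Matrix Filter Topology Finset Real
open Crest.ProbabilityR.SpinGlassDynamics Crest.Agent.T157.E Crest.Agent.T157.Eig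
open Crest.Agent.T157.St Crest.Agent.T157.Ed
open Crest.Agent.T157.Soft (Pn unif ch IsCyl)
open Crest.Agent.T157.Q1 (Down DownStmt LdB)

/-- **MASS** -/
theorem massStmt : MassStmt := fun B => ⟨4 * (1 + |B|), fun n W F ν H _ hB h0 h1 hν H0 hH => by
  have hw := Lnk10.ising_pos W
  refine M67.mass (Chain22.isP_prob' hw) (Chain22.prob_pos' hw) (hat n) (fun θ => ?_) h0 h1 hν H0 hH
  have := hB θ
  simp only [Xk, Lnk10.integral_muW] at this
  exact this⟩

namespace M67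

variable {n : ℕ}

theorem Ph_iter (hn : 0 < n) {w : Cube n → ℝ} (hw : ∀ x, 0 < w x) (i : ℕ) (V : Cube n → ℝ) :
    (Ph w)^[i] V = ((Chain22.hbRC hn hw).P ^ i) *ᵥ V := by
  induction i with
  | zero => simp
  | succ i ih =>
    rw [Function.iterate_succ_apply', ih, pow_succ', ← mulVec_mulVec, Chain22.hbRC_mulVec]
    funext x
    simp only [Ph, one_div, Pi.smul_apply, Finset.sum_apply, smul_eq_mul]

theorem um_mulVec (K : Matrix (Cube n) (Cube n) ℝ) (V : Cube n → ℝ) :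
    um (K *ᵥ V) = ∑ y, (unif n ᵥ* K) y * V y :=
  dotProduct_mulVec (unif n) K V

theorem isP_flow {Ω : Type*} [Fintype Ω] (c : Chain22.RC Ω) {μ : Ω → ℝ} (hμ : Chain22.IsP μ) :
    Chain22.IsP (μ ᵥ* c.P) :=
  ⟨fun y => sum_nonneg fun x _ => mul_nonneg (hμ.nn x) (c.nn x y), by
    simp only [vecMul, dotProduct]
    rw [sum_comm]
    simp only [← mul_sum, c.row, mul_one, hμ.sum1]⟩

theorem prob_W (g : Pair n → ℝ) (d : Fin n → ℝ) :
    prob (ising (Wmat n g d) 0) = prob (gibbsWeight n 1 g) := by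
  have h1 := GoeT.prob_ising_Wmat 1 g d
  rwa [one_smul] at h1

theorem Ph_W (g : Pair n → ℝ) (d : Fin n → ℝ) :
    Ph (ising (Wmat n g d) 0) = Ph (gibbsWeight n 1 g) := by
  funext f x
  rw [Ph, Ph, ← GoeT.siteM_prob (GoeT.sum_ising_ne _ _), prob_W,
    GoeT.siteM_prob (GoeT.sum_gibbs_ne 1 g)]

theorem qf_le (hn : 0 < n) {F : Mat n} (h1 : (1 - F).PosSemidef) (x : Cube n) : qf F x ≤ n := by
  have := h1.dotProduct_mulVec_nonneg (hat n x)
  rw [star_trivial, sub_mulVec, one_mulVec, dotProduct_sub] at this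
  have s1 : 1 ≤ sx n := one_le_rpow (by exact_mod_cast hn) (by norm_num)
  have s2 : (sx n ^ 2)⁻¹ ≤ 1 := inv_le_one_of_one_le₀ (one_le_pow₀ s1)
  have s0 : 0 ≤ (sx n ^ 2)⁻¹ := by positivity
  have e : hat n x ⬝ᵥ hat n x = (sx n ^ 2)⁻¹ * ((sx n ^ 2)⁻¹ * n) := by
    rw [hat, smul_dotProduct, dotProduct_smul, sv_dot_self, smul_eq_mul, smul_eq_mul]
  have n0 : (0 : ℝ) ≤ n := Nat.cast_nonneg n
  have : hat n x ⬝ᵥ hat n x ≤ n := by
    rw [e]; exact (mul_le_of_le_one_left (by positivity) s2).trans (mul_le_of_le_one_left n0 s2)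
  unfold qf
  linarith

/-- one term of the occupation functional -/
theorem term (hn : 0 < n) {D a β H₀ : ℝ} (ha : 0 < a) (hβ : 0 < β) (hH : 0 < H₀)
    {g : Pair n → ℝ} (hD : Down n g a β H₀) {V : Cube n → ℝ} {T : ℝ} (T0 : 0 ≤ T)
    (hm : ∀ (ν : Cube n → ℝ) (H : ℝ), Chain22.IsP ν → 0 ≤ H →
      ∑ x, ν x ^ 2 / prob (gibbsWeight n 1 g) x ≤ exp H →
        ∑ x, ν x * V x ≤ D * (1 + H + T) ^ (1 / 3 : ℝ)) (i : ℕ) :
    um ((Ph (gibbsWeight n 1 g))^[i + 1] V) ≤ |D| * ((1 + H₀) * (1 + T) ^ (1 / 3 : ℝ) +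
      (β * (n * tau n)) ^ (1 / (3 * a)) * ((i : ℝ) + 1) ^ (-(1 / (3 * a)))) := by
  have hw := gibbsWeight_pos 1 g
  have n0 : (0 : ℝ) < n := by exact_mod_cast hn
  have t0 : 0 < tau n := rpow_pos_of_pos n0 _
  set c := Chain22.hbRC hn hw with hc
  set t : ℝ := 2 * ((i + 1 : ℕ) : ℝ) / (n * tau n) with ht
  have tp : 0 < t := by positivity
  set s : ℝ := (β / t) ^ (1 / a) with hs
  have sp : 0 < s := by positivity
  have k1 : β * (H₀ + s) ^ (-a) ≤ t := by
    have h1 : (H₀ + s) ^ (-a) ≤ s ^ (-a) :=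
      rpow_le_rpow_of_nonpos sp (by linarith) (by linarith)
    have h2 : s ^ (-a) = t / β := by
      rw [hs, ← rpow_mul (by positivity), show 1 / a * -a = -1 by field_simp, rpow_neg_one, inv_div]
    refine (mul_le_mul_of_nonneg_left h1 hβ.le).trans (le_of_eq ?_)
    rw [h2]; field_simp
  have k2 : ∀ x y, c.H (2 * ((i + 1 : ℕ) : ℝ)) x y ≤ exp (H₀ + s) * c.π y := fun x y => by
    have h := hD (H₀ + s) t (by linarith) k1 x y
    rw [ctKernel_eq, Chain22.hbCt_eq hn hw] at h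
    have e : n * (t * Soft.N23 n) = 2 * ((i + 1 : ℕ) : ℝ) := by
      change n * (t * tau n) = _
      rw [ht]; field_simp
    rwa [e] at h
  have k3 := hm _ (H₀ + s) (isP_flow (c.pow (i + 1)) Soft.isP_unif) (by positivity)
    (chi c (Chain22.hbRC_psd hn hw) Soft.isP_unif (i + 1) k2)
  rw [Ph_iter hn hw, um_mulVec]
  refine k3.trans ((mul_le_mul_of_nonneg_right (le_abs_self D) (by positivity)).trans
    (mul_le_mul_of_nonneg_left ?_ (abs_nonneg D)))
  have k4 := rpow_add_le_add_rpow (a := 1 + H₀ + T) (b := s) (p := 1 / 3) (by positivity) sp.le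
    (by norm_num) (by norm_num)
  rw [show 1 + (H₀ + s) + T = 1 + H₀ + T + s by ring]
  refine k4.trans (add_le_add ?_ ?_)
  · have h1 : (1 + H₀ + T) ^ (1 / 3 : ℝ) ≤ ((1 + H₀) * (1 + T)) ^ (1 / 3 : ℝ) :=
      rpow_le_rpow (by positivity) (by nlinarith) (by norm_num)
    rw [mul_rpow (by positivity) (by positivity)] at h1
    refine h1.trans (mul_le_mul_of_nonneg_right ?_ (by positivity))
    exact rpow_le_self_of_one_le (by linarith) (by norm_num)
  · rw [hs, ← rpow_mul (by positivity), show 1 / a * (1 / 3) = 1 / (3 * a) by field_simp,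
      rpow_neg (by positivity), ← inv_rpow (by positivity),
      ← mul_rpow (by positivity) (by positivity)]
    refine rpow_le_rpow (by positivity) ?_ (by positivity)
    rw [ht]
    push_cast
    have : β / (2 * ((i : ℝ) + 1) / (n * tau n)) = β * (n * tau n) * ((i : ℝ) + 1)⁻¹ / 2 := by
      field_simp
    rw [this]
    exact half_le_self (by positivity)

end M67

/-- **CRUDE** -/
theorem crGlue : CrGlue := fun hM B a β H₀ ha hβ hH => by
  obtain ⟨D, hD⟩ := hM B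
  have a0 : 0 < a := by linarith
  set γ : ℝ := 1 / (3 * a) with hγ
  have γ0 : 0 < γ := by positivity
  have γ1 : γ < 1 := by rw [hγ, div_lt_one (by positivity)]; linarith
  have g0 : 0 < 1 - γ := by linarith
  refine ⟨1 + 2 * |D| * (1 + H₀) + 2 * |D| * β ^ γ / (1 - γ), fun ε ε0 ε1 => ?_⟩
  have hτ : Tendsto tau atTop atTop :=
    (tendsto_rpow_atTop (by norm_num)).comp tendsto_natCast_atTop_atTop
  filter_upwards [eventually_gt_atTop 0, hτ.eventually_ge_atTop (ε ^ (1 - γ))⁻¹] with n hn hτ g d F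
    hDn hB h0 h1
  have n0 : (0 : ℝ) < n := by exact_mod_cast hn
  have t0 : 0 < tau n := rpow_pos_of_pos n0 _
  have T0 : 0 ≤ F.trace := h0.trace_nonneg
  have e0 : 0 < ε ^ (1 - γ) := rpow_pos_of_pos ε0 _
  have D0 := abs_nonneg D
  set N : ℝ := n * tau n with hN
  have N0 : 0 < N := by positivity
  set A : ℝ := (1 + F.trace) ^ (1 / 3 : ℝ) with hA
  have A0 : 0 ≤ A := by positivity
  have k := M67.term hn a0 hβ hH hDn T0 (V := qf F) (D := D) fun ν H hν H0 h =>
    hD n (Wmat n g d) F ν H hn (by rwa [Lnk10.muW_Wmat]) h0 h1 hν H0 (by rwa [M67.prob_W])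
  have k0 : um (qf F) ≤ n := by
    have := Soft.isP_unif.mean_mono (M67.qf_le hn h1)
    rwa [Soft.isP_unif.mean_const] at this
  have M1 : (Mst n ε : ℝ) ≤ 2 * ε * N := Nat.floor_le (by positivity)
  set M := Mst n ε with hM'
  have s1 : ∑ i ∈ range M, um ((Ph (gibbsWeight n 1 g))^[i] (qf F)) ≤
      n + ∑ i ∈ range M, |D| * ((1 + H₀) * A + (β * N) ^ γ * ((i : ℝ) + 1) ^ (-γ)) := by
    rcases M with _ | m
    · simp
    · rw [sum_range_succ', sum_range_succ, add_comm]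
      refine add_le_add k0 ((sum_le_sum fun i _ => k i).trans (le_add_of_nonneg_right ?_))
      positivity
  have s2 : ∑ i ∈ range M, |D| * ((1 + H₀) * A + (β * N) ^ γ * ((i : ℝ) + 1) ^ (-γ)) ≤
      |D| * (2 * ε * N * ((1 + H₀) * A) + β ^ γ * (2 * ε ^ (1 - γ) * N) / (1 - γ)) := by
    rw [← mul_sum, sum_add_distrib, sum_const, card_range, nsmul_eq_mul, ← mul_sum]
    refine mul_le_mul_of_nonneg_left (add_le_add (by gcongr) ?_) D0
    refine (mul_le_mul_of_nonneg_left (M67.sum_pow_le γ0.le γ1 M) (by positivity)).trans ?_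
    rw [← mul_div_assoc]
    refine div_le_div_of_nonneg_right ?_ g0.le
    have h2 : (M : ℝ) ^ (1 - γ) ≤ (2 * ε * N) ^ (1 - γ) :=
      rpow_le_rpow (Nat.cast_nonneg M) M1 g0.le
    have h3 : (2 : ℝ) ^ (1 - γ) ≤ 2 := rpow_le_self_of_one_le one_le_two (by linarith)
    have h4 : N ^ γ * N ^ (1 - γ) = N := by rw [← rpow_add N0]; simp
    rw [mul_rpow (by positivity) N0.le, mul_rpow (by positivity) ε0.le] at h2
    rw [mul_rpow hβ.le N0.le, mul_assoc]
    refine mul_le_mul_of_nonneg_left ?_ (by positivity)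
    calc N ^ γ * (M : ℝ) ^ (1 - γ) ≤ N ^ γ * (2 * ε ^ (1 - γ) * N ^ (1 - γ)) :=
          mul_le_mul_of_nonneg_left (h2.trans (by gcongr)) (by positivity)
      _ = 2 * ε ^ (1 - γ) * (N ^ γ * N ^ (1 - γ)) := by ring
      _ = _ := by rw [h4]
  have s3 : (n : ℝ) ≤ N * ε ^ (1 - γ) := by
    rw [hN, mul_assoc]
    refine le_mul_of_one_le_right n0.le ?_
    rwa [inv_le_iff_one_le_mul₀' e0, mul_comm] at hτ
  rw [occ, M67.Ph_W, ← hN, ← hM', inv_mul_le_iff₀ N0]
  refine s1.trans ((add_le_add s3 s2).trans ?_)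
  have b0 : 0 ≤ 2 * |D| * β ^ γ / (1 - γ) := by positivity
  have b1 : 0 ≤ 2 * |D| * (1 + H₀) := by positivity
  have e : N * ε ^ (1 - γ) + |D| * (2 * ε * N * ((1 + H₀) * A) +
      β ^ γ * (2 * ε ^ (1 - γ) * N) / (1 - γ)) = N * ((1 + 2 * |D| * β ^ γ / (1 - γ)) *
        ε ^ (1 - γ) + 2 * |D| * (1 + H₀) * (ε * A)) := by field_simp; ring
  rw [e]
  refine mul_le_mul_of_nonneg_left ?_ N0.le
  have : 0 ≤ ε * A := by positivity
  nlinarith [mul_nonneg b1 e0.le, mul_nonneg b0 this]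

/-- **CRUDE**, no hypothesis -/
theorem crStmt : CrStmt := crGlue massStmt

end Crest.Agent.T157.Cq

end
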