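import Crest.Agent.T157.CqDef_72
import Crest.Agent.T157.StFin_85

/-!
# Row 157, part C: tools for `MgGlue` (helper4)
-/

set_option autoImplicit false

noncomputable section

namespace Crest.Agent.T157.Cq.Mg4

open MeasureTheory ProbabilityTheory Matrix Filter Topology Finset Real
open Crest.ProbabilityR.SpinGlassDynamics Crest.Agent.T157.E Crest.Agent.T157.Eig
open Crest.Agent.T157.St Crest.Agent.T157.Ed
open Crest.Agent.T157.Soft (Pn ch)
open Crest.Agent.T157.Q1 (Down)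

lemma cut_nonneg (u : ℝ) : 0 ≤ cut u := smoothTransition.nonneg _
lemma cut_le_one (u : ℝ) : cut u ≤ 1 := smoothTransition.le_one _
lemma cut_one {u : ℝ} (h : u ≤ 1) : cut u = 1 := smoothTransition.one_of_one_le (by linarith)
lemma cut_zero {u : ℝ} (h : 2 ≤ u) : cut u = 0 := smoothTransition.zero_of_nonpos (by linarith)
lemma continuous_cut : Continuous cut :=
  smoothTransition.continuous.comp (continuous_const.sub continuous_id)

/-- powers of an expression -/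
def pw (e : SE) : ℕ → SE
  | 0 => .const 1
  | j + 1 => .mul e (pw e j)

lemma pw_adm {e : SE} (h : e.Adm) : ∀ j, (pw e j).Adm
  | 0 => trivial
  | j + 1 => ⟨h, pw_adm h j⟩

lemma pw_sz (e : SE) : ∀ j : ℕ, (pw e j).sz = 2 + j * (e.sz + 1)
  | 0 => by simp [pw, SE.sz]; norm_num
  | j + 1 => by simp only [pw, SE.sz, pw_sz e j]; push_cast; ring

section mk
variable {ι : Type*} [Fintype ι]

lemma pw_ev (μ : Measure (ι → ℝ)) (v : (ι → ℝ) → ℝ) (e : SE) :
    ∀ j : ℕ, (pw e j).ev μ v = fun x => e.ev μ v x ^ j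
  | 0 => by funext x; simp [pw, SE.ev]
  | j + 1 => by funext x; simp only [pw, SE.ev, pw_ev μ v e j]; ring

lemma continuous_quad (M : Matrix ι ι ℝ) : Continuous fun x : ι → ℝ => x ⬝ᵥ M *ᵥ x := by
  unfold dotProduct mulVec dotProduct
  fun_prop

lemma measurable_mark (M : Matrix ι ι ℝ) (l : ℝ) :
    Measurable fun x : ι → ℝ => cut (l * (x ⬝ᵥ M *ᵥ x)) :=
  (continuous_cut.comp (continuous_const.mul (continuous_quad M))).measurable

variable {ν : Measure (ι → ℝ)} [IsProbabilityMeasure ν]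

lemma int_mark (M : Matrix ι ι ℝ) (l : ℝ) :
    Integrable (fun x : ι → ℝ => cut (l * (x ⬝ᵥ M *ᵥ x))) ν :=
  Fin85.int_bdd (measurable_mark M l) (A := 1) fun x => by
    rw [abs_of_nonneg (cut_nonneg _)]; exact cut_le_one _

omit [IsProbabilityMeasure ν] in
lemma mk_one (M : Matrix ι ι ℝ) (l : ℝ) : mk ν M l 1 = ∫ x, cut (l * (x ⬝ᵥ M *ᵥ x)) ∂ν := by
  simp [mk]

lemma mk_one_le (M : Matrix ι ι ℝ) (l : ℝ) : mk ν M l 1 ≤ 1 := by
  rw [mk_one]
  exact (le_abs_self _).trans (Fin85.abs_int_le fun x => by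
    rw [abs_of_nonneg (cut_nonneg _)]; exact cut_le_one _)

lemma real_le_mk (M : Matrix ι ι ℝ) (l : ℝ) :
    ν.real {x | l * (x ⬝ᵥ M *ᵥ x) ≤ 1} ≤ mk ν M l 1 := by
  have hS : MeasurableSet {x : ι → ℝ | l * (x ⬝ᵥ M *ᵥ x) ≤ 1} :=
    measurableSet_le (continuous_const.mul (continuous_quad M)).measurable measurable_const
  rw [mk_one, ← integral_indicator_one hS]
  refine integral_mono ((integrable_const _).indicator hS) (int_mark M l) fun x => ?_
  by_cases h : x ∈ {x : ι → ℝ | l * (x ⬝ᵥ M *ᵥ x) ≤ 1}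
  · rw [Set.indicator_of_mem h]; exact (cut_one h).ge
  · rw [Set.indicator_of_notMem h]; exact cut_nonneg _

lemma abs_mk_le (M : Matrix ι ι ℝ) (l : ℝ) {G : (ι → ℝ) → ℝ} {S : Set (ι → ℝ)}
    (hS : MeasurableSet S) {a b : ℝ} (ha : 0 ≤ a) (hb : ∀ x, |G x| ≤ b)
    (h : ∀ x, x ∉ S → l * (x ⬝ᵥ M *ᵥ x) < 2 → |G x| ≤ a) :
    |mk ν M l G| ≤ a * mk ν M l 1 + b * ν.real S := by
  have i1 : Integrable (S.indicator (1 : (ι → ℝ) → ℝ)) ν := (integrable_const _).indicator hS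
  rw [mk_one, ← integral_indicator_one hS, ← integral_const_mul, ← integral_const_mul,
    ← integral_add ((int_mark M l).const_mul a) (i1.const_mul b), mk, ← Real.norm_eq_abs]
  refine norm_integral_le_of_norm_le (((int_mark M l).const_mul a).add (i1.const_mul b))
    (.of_forall fun x => ?_)
  have c0 := cut_nonneg (l * (x ⬝ᵥ M *ᵥ x))
  have c1 := cut_le_one (l * (x ⬝ᵥ M *ᵥ x))
  rw [Real.norm_eq_abs, abs_mul, abs_of_nonneg c0]
  by_cases hx : x ∈ S
  · rw [Set.indicator_of_mem hx, Pi.one_apply]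
    nlinarith [hb x, abs_nonneg (G x), mul_nonneg ha c0]
  · rw [Set.indicator_of_notMem hx, mul_zero, add_zero]
    rcases lt_or_ge (l * (x ⬝ᵥ M *ᵥ x)) 2 with h2 | h2
    · rw [mul_comm]; exact mul_le_mul_of_nonneg_right (h x hx h2) c0
    · simp [cut_zero h2]

/-- the reference mean on the soft sphere -/
lemma pi_ref (M : Matrix ι ι ℝ) {F : (ι → ℝ) → ℝ} (hF : B1 F) {z l ε m : ℝ} (hz : |z| ≤ 1)
    (hε : 0 < ε) (h1 : m ≤ ν.real {x | l * (x ⬝ᵥ M *ᵥ x) ≤ 1})
    (h2 : ν.real {x | l * (x ⬝ᵥ M *ᵥ x) ≤ 2 ∧ ε < |F x - z|} ≤ ε * m) :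
    m ≤ mk ν M l 1 ∧ |mk ν M l fun x => F x + -z| ≤ 3 * ε * mk ν M l 1 := by
  have hm := h1.trans (real_le_mk M l)
  refine ⟨hm, ?_⟩
  have hS : MeasurableSet {x : ι → ℝ | l * (x ⬝ᵥ M *ᵥ x) ≤ 2 ∧ ε < |F x - z|} :=
    (measurableSet_le (continuous_const.mul (continuous_quad M)).measurable measurable_const).inter
      (measurableSet_lt measurable_const (hF.1.sub_const z).abs)
  have := abs_mk_le (ν := ν) M l (G := fun x => F x + -z) hS (b := 2) hε.le
    (fun x => (abs_add_le _ _).trans (by rw [abs_neg]; linarith [hF.2 x]))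
    fun x hx hl => not_lt.1 fun hc => hx ⟨hl.le, by rwa [sub_eq_add_neg]⟩
  nlinarith [mul_le_mul_of_nonneg_left hm hε.le]

/-- the high moment on the soft sphere -/
lemma pi_mom (M : Matrix ι ι ℝ) {F : (ι → ℝ) → ℝ} (hF : B1 F) {z a ε q : ℝ} (hz : |z| ≤ 1)
    (hε : 0 < ε) (ha : 0 < a) (j : ℕ)
    (h2 : ν.real {x | x ⬝ᵥ M *ᵥ x ≤ a ∧ ε < |F x - z|} ≤ q) :
    mk ν M (2 / a) (fun x => (F x + -z) ^ j) ≤ ε ^ j + 2 ^ j * q := by
  have hS : MeasurableSet {x : ι → ℝ | x ⬝ᵥ M *ᵥ x ≤ a ∧ ε < |F x - z|} :=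
    (measurableSet_le (continuous_quad M).measurable measurable_const).inter
      (measurableSet_lt measurable_const (hF.1.sub_const z).abs)
  have := abs_mk_le (ν := ν) M (2 / a) (G := fun x => (F x + -z) ^ j) hS (b := 2 ^ j)
    (a := ε ^ j) (by positivity)
    (fun x => by
      rw [abs_pow]
      exact pow_le_pow_left₀ (abs_nonneg _)
        ((abs_add_le _ _).trans (by rw [abs_neg]; linarith [hF.2 x])) j)
    fun x hx hl => by
      rw [abs_pow]
      refine pow_le_pow_left₀ (abs_nonneg _) (not_lt.1 fun hc => hx ⟨?_, by rwa [sub_eq_add_neg]⟩) j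
      rw [div_mul_eq_mul_div, div_lt_iff₀ ha] at hl
      linarith
  have e1 := mul_le_mul_of_nonneg_left (mk_one_le (ν := ν) M (2 / a)) (show 0 ≤ ε ^ j by positivity)
  have e2 := mul_le_mul_of_nonneg_left h2 (show (0 : ℝ) ≤ 2 ^ j by positivity)
  linarith [le_abs_self (mk ν M (2 / a) fun x => (F x + -z) ^ j)]

end mk

section fin
open Crest.Agent.T157.Chain22 (IsP RC)
variable {Ω : Type*} [Fintype Ω]

lemma real_dm {ι : Type*} [Fintype ι] {w : Ω → ℝ} (hw : ∀ x, 0 ≤ w x) (φ : Ω → ι → ℝ)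
    (S : Set (ι → ℝ)) : (dm w φ).real S = ∑ x, prob w x * Ent.ind (fun x => φ x ∈ S) x := by
  rw [Measure.real, dm, Measure.coe_finsetSum, Finset.sum_apply, ENNReal.toReal_sum fun x _ => by
    rw [Measure.smul_apply, smul_eq_mul]
    exact ENNReal.mul_ne_top ENNReal.ofReal_ne_top (measure_ne_top _ _)]
  refine sum_congr rfl fun x _ => ?_
  rw [Measure.smul_apply, smul_eq_mul, ENNReal.toReal_mul,
    ENNReal.toReal_ofReal (Lnk10.prob_nonneg hw x), Measure.dirac_apply]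
  by_cases h : φ x ∈ S <;> simp [Ent.ind, h]

/-- the final estimate on a finite space -/
lemma core {q : Ω → ℝ} (hq : IsP q) {χ κ U V D : Ω → ℝ} {S : Ω → Prop} {ε δ z m R : ℝ} {p : ℕ}
    (hε : 0 < ε) (hm : 0 < m) (hχ0 : ∀ x, 0 ≤ χ x) (hχ1 : ∀ x, χ x ≤ 1) (hκ : ∀ x, 0 ≤ κ x)
    (hκS : ∀ x, S x → κ x = 1) (hm₁ : m ≤ ∑ x, q x * χ x) (hD : ∀ x, |U x - V x - D x| ≤ ε)
    (δ0 : 0 ≤ δ) (hδ : ∑ x, q x * D x ^ 2 ≤ δ ^ 2) (hδm : δ ≤ ε * m)
    (h1 : |∑ x, q x * (χ x * (V x - z))| ≤ 4 * ε * ∑ x, q x * χ x)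
    (h2 : ∑ x, q x * (κ x * (V x - z) ^ (2 * p)) ≤ R) :
    ∑ x, q x * Ent.ind (fun x => S x ∧
      10 * ε < |U x - (∑ y, q y * (χ y * U y)) / ∑ y, q y * χ y|) x ≤
      R / (2 * ε) ^ (2 * p) + δ ^ 2 / ε ^ 2 := by
  set M := ∑ y, q y * χ y with hM
  have M0 : 0 < M := hm.trans_le hm₁
  have a1 : |∑ x, q x * (χ x * (U x - V x - D x))| ≤ ε * M := by
    rw [hM, mul_sum]
    refine (abs_sum_le_sum_abs _ _).trans (sum_le_sum fun x _ => ?_)
    rw [abs_mul, abs_mul, abs_of_nonneg (hq.nn x), abs_of_nonneg (hχ0 x)]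
    nlinarith [mul_le_mul_of_nonneg_left (hD x) (mul_nonneg (hq.nn x) (hχ0 x))]
  have a2 : |∑ x, q x * (χ x * D x)| ≤ δ := by
    refine abs_le_of_sq_le_sq' ?_ δ0 |> abs_le.2
    refine (hq.mean_sq_le fun x => χ x * D x).trans (le_trans (sum_le_sum fun x _ => ?_) hδ)
    refine mul_le_mul_of_nonneg_left ?_ (hq.nn x)
    nlinarith [mul_le_mul_of_nonneg_right (show χ x * χ x ≤ 1 by nlinarith [hχ0 x, hχ1 x])
      (sq_nonneg (D x))]
  have a3 : |(∑ y, q y * (χ y * U y)) / M - z| ≤ 6 * ε := by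
    have e : (∑ y, q y * (χ y * U y)) / M - z = (∑ x, q x * (χ x * (V x - z)) +
        ∑ x, q x * (χ x * (U x - V x - D x)) + ∑ x, q x * (χ x * D x)) / M := by
      rw [eq_div_iff M0.ne', sub_mul, div_mul_cancel₀ _ M0.ne', hM, mul_sum, ← sum_sub_distrib,
        ← sum_add_distrib, ← sum_add_distrib]
      exact sum_congr rfl fun x _ => by ring
    rw [e, abs_div, abs_of_pos M0, div_le_iff₀ M0]
    refine (abs_add_three _ _ _).trans ?_
    nlinarith [mul_le_mul_of_nonneg_left hm₁ hε.le]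
  have P0 : 0 < (2 * ε) ^ (2 * p) := by positivity
  calc _ ≤ ∑ x, (q x * (κ x * (V x - z) ^ (2 * p)) / (2 * ε) ^ (2 * p) +
        q x * D x ^ 2 / ε ^ 2) := sum_le_sum fun x _ => by
        rw [mul_div_assoc (q x), mul_div_assoc (q x), ← mul_add]
        refine mul_le_mul_of_nonneg_left ?_ (hq.nn x)
        have n1 : 0 ≤ κ x * (V x - z) ^ (2 * p) / (2 * ε) ^ (2 * p) :=
          div_nonneg (mul_nonneg (hκ x) (by rw [pow_mul]; positivity)) P0.le
        have n2 : 0 ≤ D x ^ 2 / ε ^ 2 := by positivity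
        unfold Ent.ind
        split_ifs with h
        · rcases le_or_gt ε |D x| with h3 | h3
          · have : 1 ≤ D x ^ 2 / ε ^ 2 := by
              rw [le_div_iff₀ (by positivity), one_mul, ← sq_abs (D x)]
              exact pow_le_pow_left₀ hε.le h3 2
            linarith
          · have h4 : 2 * ε ≤ |V x - z| := by
              have b1 := abs_sub_le (U x) z ((∑ y, q y * (χ y * U y)) / M)
              have b2 : |U x - z| ≤ |U x - V x - D x| + |D x| + |V x - z| := by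
                refine le_trans (le_of_eq ?_) (abs_add_three _ _ _)
                congr 1; ring
              rw [abs_sub_comm z] at b1
              linarith [h.2, hD x]
            have : 1 ≤ κ x * (V x - z) ^ (2 * p) / (2 * ε) ^ (2 * p) := by
              rw [le_div_iff₀ P0, one_mul, hκS x h.1, one_mul, pow_mul (V x - z), ← sq_abs,
                ← pow_mul]
              exact pow_le_pow_left₀ (by positivity) h4 _
            linarith
        · linarith
    _ ≤ _ := by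
        rw [sum_add_distrib, ← sum_div, ← sum_div]
        gcongr

variable {ι : Type*} [Nonempty Ω] [DecidableEq Ω] [Fintype ι] [DecidableEq ι]
  {φ : Ω → ι → ℝ} {w : Ω → ℝ} {s : ℝ}

/-- the Poissonised static chain is the heat flow of `stRC` -/
lemma Qs_dm (hw : ∀ x, 0 < w x) (hs : 0 ≤ s) (c : ℝ) (f : (ι → ℝ) → ℝ) (x : Ω) :
    Qs s c (dm w φ) f (φ x) = ((Sg.stRC φ hw hs).H c *ᵥ fun x => f (φ x)) x := by
  have key : ∀ (j : ℕ) (x : Ω), (Tk s (dm w φ))^[j] f (φ x) =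
      ((Sg.stRC φ hw hs).P ^ j *ᵥ fun x => f (φ x)) x := fun j => by
    induction j with
    | zero => intro x; simp
    | succ j ih =>
      intro x
      rw [Function.iterate_succ_apply', Sg.Tk_dm hw hs, pow_succ', ← mulVec_mulVec]
      congr 2
      exact funext ih
  rw [← ((Sg.stRC φ hw hs).hasSum_H_mulVec c _ x).tsum_eq, Qs]
  exact tsum_congr fun j => by rw [key]

end fin

variable {n : ℕ}

/-- a pointwise bound of the kernel -/
lemma abs_Pn_le {g : Pair n → ℝ} (hn : 0 < n) {a β H₀ H t : ℝ} (h : Down n g a β H₀) (hH : H₀ ≤ H)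
    (ht : β * H ^ (-a) ≤ t) (t0 : 0 ≤ t) (u : Cube n → ℝ) (x : Cube n) :
    |((ch hn g).H (Soft.tau n t) *ᵥ u) x| ≤
      exp H * ∑ y, prob (gibbsWeight n 1 g) y * |u y| := by
  rw [mul_sum]
  refine (abs_sum_le_sum_abs _ _).trans (sum_le_sum fun y _ => ?_)
  have h0 : 0 ≤ (ch hn g).H (Soft.tau n t) x y := (ch hn g).H_nn
    (mul_nonneg (Nat.cast_nonneg n) (mul_nonneg t0 (Soft.N23_pos hn).le)) x y
  rw [abs_mul, abs_of_nonneg h0, ← mul_assoc, ← Soft.ctKernel_eq_H hn]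
  exact mul_le_mul_of_nonneg_right (h H t hH ht x y) (abs_nonneg _)

lemma fd_psd (η : ℕ → ℝ) : (fd n η).PosSemidef :=
  PosSemidef.diagonal fun k => by positivity

lemma trace_fd {L w C : ℝ} (hw : L < w) : ∃ Z : ℝ, ∀ (n : ℕ) (η : ℕ → ℝ) (t : ℝ),
    Gd n η t L w C → (fd n η).trace ≤ Z := by
  obtain ⟨K, hK⟩ := (Fin85.tail one_pos).exists
  refine ⟨K + 2 * (1 + w ^ 2) * 256 ^ 2, fun n η t h => ?_⟩
  rw [fd, trace_diagonal, ← sum_add_sum_compl (univ.filter fun k : Fin n => (k : ℕ) < K)]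
  refine add_le_add ?_ ?_
  · refine (sum_le_card_nsmul _ _ 1 fun k _ => ?_).trans ?_
    · rw [div_le_one (by positivity)]; nlinarith [sq_nonneg (η k)]
    · rw [nsmul_eq_mul, mul_one, Nat.cast_le]
      refine le_trans (card_le_card_of_injOn (t := range K) (fun k => (k : ℕ)) (fun k hk => ?_)
        fun a _ b _ e => Fin.ext e) (card_range K).le
      simpa using hk
  · rw [Fin85.sum_compl n K fun k => 1 / (η k ^ 2 + 1)]
    refine le_trans (sum_le_sum (g := fun k => 2 * (1 + w ^ 2) * 256 ^ 2 * Fin85.uk k ^ 2)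
      fun k hk => ?_) ?_
    · obtain ⟨-, g1, g2⟩ := Fin85.gd_bd h hw (mem_Ico.1 hk).2
      have g3 : (1 / (w + η k)) ^ 2 ≤ (256 * Fin85.uk k) ^ 2 :=
        pow_le_pow_left₀ (by positivity) g2 2
      have g4 : 1 / (η k ^ 2 + 1) ≤ 2 * (1 + w ^ 2) * (1 / (w + η k)) ^ 2 := by
        rw [div_pow, one_pow, mul_one_div, div_le_div_iff₀ (by positivity) (by positivity)]
        nlinarith [sq_nonneg (w - η k), sq_nonneg (w * η k)]
      nlinarith [mul_le_mul_of_nonneg_left g3 (show 0 ≤ 2 * (1 + w ^ 2) by positivity)]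
    · rw [← mul_sum]
      exact (mul_le_mul_of_nonneg_left (hK n) (by positivity)).trans_eq (mul_one _)

/-- the mark in the eigenbasis -/
lemma quad_fl {W O : Mat n} (hO : ∀ i k, O i k = vec W k i) (x : Fin n → ℝ) :
    x ⬝ᵥ fl n 1 W *ᵥ x = (Oᵀ *ᵥ x) ⬝ᵥ fd n (Lam n W) *ᵥ (Oᵀ *ᵥ x) := by
  have e : fl n 1 W = O * fd n (Lam n W) * Oᵀ := by
    ext i j
    rw [fl, fnK_apply, Fintype.card_fin, sum_range, mul_apply]
    refine sum_congr rfl fun k _ => ?_
    rw [fd, mul_diagonal, transpose_apply, hO, hO, Lam]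
    simp only [RCLike.ofReal_real_eq_id, id]
    ring
  rw [e, ← mulVec_mulVec, ← mulVec_mulVec, dotProduct_mulVec, ← mulVec_transpose]

lemma whp_Lam : Top.Whp GOE fun n W => W.IsHermitian → ∀ k, Lam n W k ≤ 10 * tau n := by
  have h1 : Top.Whp GOE fun _ W => opn W ≤ 3 := by
    refine Top.whp_of_real_le (a := fun n => 2 * exp (-(n * 1 ^ 2 / 4))) ?_ (.of_forall fun n => ?_)
    · simpa using (tendsto_exp_neg_atTop_nhds_zero.comp ((tendsto_natCast_atTop_atTop (R := ℝ)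
        ).atTop_div_const (r := 4) four_pos)).const_mul 2
    · refine le_trans (measureReal_mono (fun W hW => ?_) (measure_ne_top _ _))
        (Nrm.goe_opn_tail_n (n := n) zero_le_one)
      simp only [Set.mem_ofPred_eq, not_le] at hW ⊢
      linarith
  refine h1.imp fun n W hW hh k => ?_
  have := (abs_le.1 ((abs_lam_le hh k).trans hW)).1
  unfold Lam
  nlinarith [tau_nonneg n]

/-- flip symmetry kills the off-diagonal second moments -/
lemma sm_offdiag {μ : Measure (Fin n → ℝ)}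
    (h : ∀ k, μ.map (fun x => Function.update x k (-x k)) = μ) {i j : Fin n} (hij : i ≠ j) :
    sm μ i j = 0 := by
  have m : Measurable fun x : Fin n → ℝ => Function.update x i (-x i) :=
    measurable_update'.comp (measurable_id.prodMk (measurable_pi_apply i).neg)
  have e : sm μ i j = -sm μ i j := by
    unfold sm
    conv_lhs => rw [← h i]
    rw [integral_map m.aemeasurable (by fun_prop), ← integral_neg]
    congr 1
    funext x
    rw [Function.update_self, Function.update_of_ne hij.symm]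
    ring
  linarith

/-- small tail of the second moments -/
lemma sm_tail {L w C B δ : ℝ} (hw : L < w) (hB : 0 ≤ B) (hδ : 0 < δ) : ∃ m : ℕ,
    ∀ (n : ℕ) (η : ℕ → ℝ) (t : ℝ) (μ ν : Measure (Fin n → ℝ)), Gd n η t L w C →
    (∀ k, ν.map (fun x => Function.update x k (-x k)) = ν) →
    (∀ k : Fin n, ∫ x, x k ^ 2 ∂ν ≤ B / (w + η k)) →
    ∑ i, ∑ j, (sm μ i j - sm ν i j) ^ 2 ≤ δ / 4 →
    ∑ i ∈ (univ.filter fun k : Fin n => (k : ℕ) < m)ᶜ,
      ∑ j ∈ (univ.filter fun k : Fin n => (k : ℕ) < m)ᶜ, sm μ i j ^ 2 ≤ δ := by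
  obtain ⟨m, hm⟩ := (Fin85.tail (e := δ / 4 / ((256 * B) ^ 2 + 1)) (by positivity)).exists
  refine ⟨m, fun n η t μ ν h hf hc hd => ?_⟩
  set s := (univ.filter fun k : Fin n => (k : ℕ) < m)ᶜ with hs
  have a1 : ∑ i ∈ s, ∑ j ∈ s, (sm μ i j - sm ν i j) ^ 2 ≤ δ / 4 :=
    le_trans ((sum_le_sum fun i _ => sum_le_sum_of_subset_of_nonneg (subset_univ _)
      fun _ _ _ => sq_nonneg _).trans (sum_le_sum_of_subset_of_nonneg (subset_univ _)
        fun _ _ _ => by positivity)) hd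
  have a2 : ∑ i ∈ s, ∑ j ∈ s, sm ν i j ^ 2 ≤ δ / 4 := by
    have b1 : ∀ i ∈ s, ∑ j ∈ s, sm ν i j ^ 2 ≤ (256 * B) ^ 2 * Fin85.uk i ^ 2 := fun i hi => by
      rw [sum_eq_single_of_mem i hi fun j _ hj => by rw [sm_offdiag hf hj.symm]; ring]
      obtain ⟨-, g1, g2⟩ := Fin85.gd_bd h hw i.2
      have e : sm ν i i = ∫ x, x i ^ 2 ∂ν := by simp only [sm, sq]
      rw [e, ← mul_pow]
      refine pow_le_pow_left₀ (integral_nonneg fun x => sq_nonneg _) ((hc i).trans ?_) 2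
      rw [div_eq_mul_one_div]
      nlinarith [mul_le_mul_of_nonneg_left g2 hB]
    refine (sum_le_sum b1).trans ?_
    rw [← mul_sum, hs, Fin85.sum_compl n m fun k => Fin85.uk k ^ 2]
    have b2 := hm n
    rw [le_div_iff₀ (by positivity)] at b2
    nlinarith [show 0 ≤ ∑ k ∈ Ico m n, Fin85.uk k ^ 2 by positivity]
  calc _ ≤ ∑ i ∈ s, ∑ j ∈ s, (2 * (sm μ i j - sm ν i j) ^ 2 + 2 * sm ν i j ^ 2) :=
        sum_le_sum fun i _ => sum_le_sum fun j _ => by
          nlinarith [sq_nonneg (sm μ i j - 2 * sm ν i j)]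
    _ ≤ δ := by
        simp only [sum_add_distrib, ← mul_sum]
        linarith

end Crest.Agent.T157.Cq.Mg4

end
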