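import Crest.Agent.T157.CqMgA_4

/-!
# Row 157, part C: `MgGlue` from the static statements (helper4)
-/

set_option autoImplicit false

noncomputable section

namespace Crest.Agent.T157.Cq.Mg4

open MeasureTheory ProbabilityTheory Matrix Filter Topology Finset Real
open Crest.ProbabilityR.SpinGlassDynamics Crest.Agent.T157.E Crest.Agent.T157.Eig
open Crest.Agent.T157.St Crest.Agent.T157.Ed
open Crest.Agent.T157.Tr (Off Om PM)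
open Crest.Agent.T157.Soft (Pn ch)
open Crest.Agent.T157.Q1 (Down)

/-- transfer of the merging estimates -/
lemma static (hB : BdStmt) {ι : Type} [Fintype ι] {μ ν : Measure (ι → ℝ)}
    [hν : IsProbabilityMeasure ν] (M : Matrix ι ι ℝ) {v : (ι → ℝ) → ℝ} (hv : B1 v)
    {Z K c z l a ε ε' m q : ℝ} {j : ℕ} (hK : 0 < K) (hc : 0 ≤ c) (hz : |z| ≤ 1) (hε : 0 < ε)
    (hε1 : ε ≤ 1 / 2) (ha : 0 < a) (hl : 0 ≤ l) (hlZ : l ≤ Z) (haZ : 2 / a ≤ Z)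
    (hZ : 2 + (j + 1) * (K + c + 6) ≤ Z) (hm : 0 < m) (hε' : ε' ≤ ε * m / 8)
    (hT : ∀ (l : ℝ) (e : SE), 0 ≤ l → l ≤ Z → e.Adm → e.sz ≤ Z →
      |mk μ M l (e.ev μ v) - mk ν M l (e.ev ν v)| ≤ ε')
    (h1 : m ≤ ν.real {x | l * (x ⬝ᵥ M *ᵥ x) ≤ 1})
    (h2 : ν.real {x | l * (x ⬝ᵥ M *ᵥ x) ≤ 2 ∧ ε < |Qs K c ν v x - z|} ≤ ε * m)
    (h3 : ν.real {x | x ⬝ᵥ M *ᵥ x ≤ a ∧ ε < |Qs K c ν v x - z|} ≤ q) :
    |mk μ M l fun x => Qs K c μ v x + -z| ≤ 4 * ε * mk μ M l 1 ∧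
      mk μ M (2 / a) (fun x => (Qs K c μ v x + -z) ^ j) ≤ ε ^ j + 2 ^ j * q + ε' := by
  have hF : B1 (Qs K c ν v) := (hB ι ν hν).2 v hv (.Q K c .var) ⟨hK, hc, trivial⟩
  set e : SE := .add (.Q K c .var) (.const (-z)) with he
  have e1 : e.Adm := ⟨⟨hK, hc, trivial⟩, trivial⟩
  have e2 : e.sz ≤ K + c + 5 := by simp only [he, SE.sz, abs_neg]; linarith
  have j0 : (0 : ℝ) ≤ j := Nat.cast_nonneg j
  have p0 : 0 ≤ j * (K + c + 6) := by positivity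
  have t1 : |mk μ M l 1 - mk ν M l 1| ≤ ε' :=
    hT l (.const 1) hl hlZ trivial (by simp only [SE.sz, abs_one]; linarith)
  have t2 : |mk μ M l (fun x => Qs K c μ v x + -z) - mk ν M l fun x => Qs K c ν v x + -z| ≤ ε' :=
    hT l e hl hlZ e1 (by linarith)
  have t3 := hT (2 / a) (pw e j) (by positivity) haZ (pw_adm e1 j) (by
    rw [pw_sz]; nlinarith [mul_le_mul_of_nonneg_left e2 j0])
  rw [pw_ev, pw_ev] at t3
  obtain ⟨p1, p2⟩ := pi_ref M hF hz hε h1 h2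
  have p3 := pi_mom M hF hz hε ha j h3
  refine ⟨?_, (sub_le_iff_le_add'.1 (abs_le.1 t3).2).trans (add_le_add p3 le_rfl)⟩
  have b1 := abs_sub_abs_le_abs_sub (mk μ M l fun x => Qs K c μ v x + -z)
    (mk ν M l fun x => Qs K c ν v x + -z)
  have b2 := (abs_le.1 t1).1
  have b3 : ε * m ≤ 1 / 2 * m := mul_le_mul_of_nonneg_right hε1 hm.le
  have b4 : ε * m ≤ ε * (2 * mk μ M l 1) := mul_le_mul_of_nonneg_left (by linarith) hε.le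
  have b5 : ε * mk ν M l 1 ≤ ε * (mk μ M l 1 + ε') := mul_le_mul_of_nonneg_left (by linarith) hε.le
  have b6 : ε * ε' ≤ 1 / 2 * ε' := mul_le_mul_of_nonneg_right hε1 ((abs_nonneg _).trans t1)
  have b7 : 0 < ε * m := by positivity
  linarith

variable {n : ℕ}

lemma mk_muG {W O : Mat n} (hv : ∀ i k, O i k = vec W k i) (g : Pair n → ℝ) (l : ℝ)
    (f : (Fin n → ℝ) → ℝ) : mk (muG n g) (fl n 1 W) l f = ∑ x, prob (gibbsWeight n 1 g) x *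
      (cut (l * Xd n (Lam n W) (Oᵀ *ᵥ hat n x)) * f (hat n x)) := by
  rw [mk, Lnk10.integral_muG]
  simp only [quad_fl hv]
  rfl

lemma integral_rot (O : Mat n) (g : Pair n → ℝ) (F : (Fin n → ℝ) → ℝ) :
    ∫ x, F x ∂(muG n g).map (fun x => Oᵀ *ᵥ x) =
      ∑ x, prob (gibbsWeight n 1 g) x * F (Oᵀ *ᵥ hat n x) := by
  rw [muG, Lnk10.map_dm _ _ (Lnk10.measurable_mulVec Oᵀ),
    Lnk10.integral_dm fun x => (gibbsWeight_pos 1 g x).le]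
  rfl

lemma mk_rot {W O : Mat n} (hv : ∀ i k, O i k = vec W k i) (g : Pair n → ℝ) (l : ℝ) :
    mk (muG n g) (fl n 1 W) l 1 = mk ((muG n g).map fun x => Oᵀ *ᵥ x) (fd n (Lam n W)) l 1 := by
  rw [mk_muG hv, mk, integral_rot]
  rfl

/-- the estimate on the cube -/
lemma det (hB : BdStmt) (hI : IsoStmt) (hn : 0 < n) {g : Pair n → ℝ} {W O : Mat n}
    (hO : Oᵀ * O = 1) (hv : ∀ i k, O i k = vec W k i) {μ : Measure (Fin n → ℝ)}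
    (hμ : μ = (muG n g).map fun x => Oᵀ *ᵥ x) {ψ v : (Fin n → ℝ) → ℝ} (hψ : B1 ψ) (hv1 : B1 v)
    {K K₁ c t e E ε δ m l a z R : ℝ} {p : ℕ} (hK : 0 < K) (hK₁ : 0 < K₁) (hc : 0 ≤ c) (hε : 0 < ε)
    (hm : 0 < m) (ha : 0 < a) (δ0 : 0 ≤ δ) (hδ : δ ≤ ε * m) (E0 : 0 ≤ E) (hE : E * e ≤ ε)
    (hL1 : ∫ x, |Tk K₁ μ (fun y => ψ (O *ᵥ y)) x - v x| ∂μ ≤ e)
    (hP : ∀ u x, |((ch hn g).H t *ᵥ u) x| ≤ E * ∑ y, prob (gibbsWeight n 1 g) y * |u y|)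
    (hS : ∀ h : Unit → Cube n → ℝ, Sg.Sup h 4 → Sg.nv (ch hn g).π (Sg.HV (ch hn g) t h -
      Sg.HV (Sg.stRC (hat n) (gibbsWeight_pos 1 g) hK.le) c h) ≤ δ)
    (h0 : m ≤ mk μ (fd n (Lam n W)) l 1)
    (h1 : |mk μ (fd n (Lam n W)) l fun x => Qs K c μ v x + -z| ≤
      4 * ε * mk μ (fd n (Lam n W)) l 1)
    (h2 : mk μ (fd n (Lam n W)) (2 / a) (fun x => (Qs K c μ v x + -z) ^ (2 * p)) ≤ R)
    {u : (Fin n → ℝ) → ℝ} (hu : u = Qs K c (muG n g) (Tk K₁ (muG n g) ψ)) :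
    (muG n g).real {x | x ⬝ᵥ fl n 1 W *ᵥ x ≤ a / 2 ∧
      10 * ε < |u x - mk (muG n g) (fl n 1 W) l u / mk (muG n g) (fl n 1 W) l 1|} ≤
      R / (2 * ε) ^ (2 * p) + δ ^ 2 / ε ^ 2 := by
  have hw := gibbsWeight_pos (n := n) 1 g
  have cG : Cp (muG n g) := Lnk10.cp_dm hw _
  have hO' : O * Oᵀ = 1 := mul_eq_one_comm.1 hO
  have hO'' : Oᵀᵀ * Oᵀ = 1 := by rwa [transpose_transpose]
  have hψ' : B1 fun y => ψ (O *ᵥ y) := ⟨hψ.1.comp (Lnk10.measurable_mulVec O), fun _ => hψ.2 _⟩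
  have i1 : ∀ x, Tk K₁ μ (fun y => ψ (O *ᵥ y)) (Oᵀ *ᵥ x) = Tk K₁ (muG n g) ψ x := fun x => by
    have := hI _ _ Oᵀ hO'' _ cG _ hψ' (.T K₁ .var) ⟨hK₁, trivial⟩ x
    simpa only [SE.ev, mulVec_mulVec, hO', one_mulVec, ← hμ] using this
  set d := Sg.stRC (hat n) hw hK.le with hd
  set V : Cube n → ℝ := fun x => Tk K₁ (muG n g) ψ (hat n x) with hV
  set V₀ : Cube n → ℝ := fun x => v (Oᵀ *ᵥ hat n x) with hV₀
  have i2 : ∀ x, Qs K c μ v (Oᵀ *ᵥ hat n x) = (d.H c *ᵥ V₀) x := fun x => by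
    have := hI _ _ Oᵀ hO'' _ cG _ hv1 (.Q K c .var) ⟨hK, hc, trivial⟩ (hat n x)
    simp only [SE.ev, ← hμ] at this
    rw [this]
    exact Qs_dm hw hK.le c _ x
  have i3 : ∀ x, u (hat n x) = (d.H c *ᵥ V) x := fun x => by
    rw [hu]; exact Qs_dm hw hK.le c _ x
  have b1 : ∀ x, |V x| ≤ 1 := fun x =>
    ((hB _ _ cG.prob).2 ψ hψ (.T K₁ .var) ⟨hK₁, trivial⟩).2 (hat n x)
  have b2 : ∑ y, prob (gibbsWeight n 1 g) y * |(V - V₀) y| ≤ e := by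
    rw [hμ, integral_rot, ← hμ] at hL1
    simp only [i1] at hL1
    exact hL1
  have b3 := hS (fun _ => V - V₀) fun x => by
    have : |(V - V₀) x| ≤ 2 := (abs_sub _ _).trans (by linarith [b1 x, hv1.2 (Oᵀ *ᵥ hat n x)])
    simp only [univ_unique, sum_const, card_singleton, one_smul]
    nlinarith [abs_nonneg ((V - V₀) x), sq_abs ((V - V₀) x)]
  have b4 := pow_le_pow_left₀ (Sg.nv_nonneg _) b3 2
  rw [Sg.nv_sq (ch hn g).isP, Sg.ipV_self_eq] at b4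
  rw [hμ, mk, integral_rot] at h0 h2
  rw [hμ, mk, mk, integral_rot, integral_rot] at h1
  simp only [← hμ, i2, Pi.one_apply, mul_one, ← sub_eq_add_neg] at h0 h1 h2
  rw [mk_muG hv, mk_muG hv, muG, real_dm fun x => (hw x).le]
  simp only [Set.mem_ofPred_eq, Pi.one_apply, mul_one, i3, quad_fl hv]
  refine core (ch hn g).isP (D := fun x => (d.H c *ᵥ (V - V₀)) x - ((ch hn g).H t *ᵥ (V - V₀)) x)
    hε hm (fun _ => cut_nonneg _) (fun _ => cut_le_one _) (fun _ => cut_nonneg _)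
    (fun x hx => cut_one ?_) h0 (fun x => ?_) δ0 (le_trans (le_of_eq ?_) b4) hδ h1 h2
  · rw [div_mul_eq_mul_div, div_le_one ha]; linarith
  · rw [mulVec_sub (d.H c), Pi.sub_apply, sub_sub_cancel]
    exact (hP _ x).trans ((mul_le_mul_of_nonneg_left b2 E0).trans hE)
  · refine sum_congr rfl fun x _ => ?_
    simp only [univ_unique, sum_const, card_singleton, one_smul, Pi.sub_apply, Sg.HV]
    ring

lemma numer {ε H ε' δ : ℝ} (hε : 0 < ε) (hε1 : ε ≤ 1 / 2) (hH : 1 ≤ H) {p : ℕ}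
    (hp : p = ⌈H⌉₊ + 1) (h1 : ε' ≤ (2 * ε) ^ (2 * p) * exp (-H) / 4) (δ0 : 0 ≤ δ)
    (h2 : δ ≤ ε * exp (-H) / 2) :
    (ε ^ (2 * p) + 2 ^ (2 * p) * exp (-((3 - 6 * log ε) * H)) + ε') / (2 * ε) ^ (2 * p) +
      δ ^ 2 / ε ^ 2 ≤ exp (-H) := by
  have P0 : 0 < (2 * ε) ^ (2 * p) := by positivity
  have x0 := exp_pos (-H)
  have x1 : exp (-H) ≤ 1 := exp_le_one_iff.2 (by linarith)
  have a1 : 4 ≤ 2 ^ (2 * p) * exp (-H) := by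
    have : exp H ≤ 4 ^ ⌈H⌉₊ := by
      refine (exp_le_exp.2 (Nat.le_ceil H)).trans ?_
      rw [← exp_one_pow]
      exact pow_le_pow_left₀ (exp_pos 1).le (by linarith [exp_one_lt_d9]) _
    rw [exp_neg, ← div_eq_mul_inv, le_div_iff₀ (exp_pos H), pow_mul, hp, pow_succ _ ⌈H⌉₊]
    norm_num
    linarith
  have a2 : 4 * exp (-((3 - 6 * log ε) * H)) ≤ ε ^ (2 * p) * exp (-H) := by
    have l0 : log ε ≤ 0 := log_nonpos hε.le (by linarith)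
    have p1 : (p : ℝ) ≤ 3 * H := by
      rw [hp]; push_cast; linarith [(Nat.ceil_lt_add_one (show 0 ≤ H by linarith)).le]
    have f : (4 : ℝ) ≤ exp (2 * H) := by
      rw [two_mul, exp_add]
      nlinarith [add_one_le_exp H]
    rw [← exp_log (show 0 < ε ^ (2 * p) by positivity), log_pow, ← exp_add]
    refine (mul_le_mul_of_nonneg_right f (exp_pos _).le).trans ?_
    rw [← exp_add, exp_le_exp]
    push_cast
    nlinarith [mul_le_mul_of_nonpos_right p1 l0]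
  have a3 : δ ^ 2 / ε ^ 2 ≤ exp (-H) / 4 := by
    rw [div_le_iff₀ (by positivity)]
    nlinarith [pow_le_pow_left₀ δ0 h2 2, mul_le_mul_of_nonneg_left x1
      (show 0 ≤ ε ^ 2 * exp (-H) by positivity)]
  have a4 : (ε ^ (2 * p) + 2 ^ (2 * p) * exp (-((3 - 6 * log ε) * H)) + ε') / (2 * ε) ^ (2 * p) ≤
      3 / 4 * exp (-H) := by
    rw [div_le_iff₀ P0]
    rw [mul_pow] at h1 ⊢
    nlinarith [mul_le_mul_of_nonneg_left a1 (show 0 ≤ ε ^ (2 * p) by positivity),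
      mul_le_mul_of_nonneg_left a2 (show (0 : ℝ) ≤ 2 ^ (2 * p) by positivity)]
  linarith

/-- the rotated cube law is close to the sphere in the eigenbasis -/
lemma D2_rot (hIs : IsomStmt) {μ ν : Measure (Fin n → ℝ)} (hμ : Cp μ) (hν : Cp ν) {O : Mat n}
    (hO : Oᵀ * O = 1) (θ : ℝ) : Cp (μ.map fun x => Oᵀ *ᵥ x) ∧
    D2 θ (μ.map fun x => Oᵀ *ᵥ x) ν = D2 θ μ (ν.map fun x => O *ᵥ x) := by
  have hO'' : Oᵀᵀ * Oᵀ = 1 := by rw [transpose_transpose]; exact mul_eq_one_comm.1 hO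
  have c1 := (hIs _ _ O hO ν ν hν hν).1
  have e : (ν.map fun x => O *ᵥ x).map (fun x => Oᵀ *ᵥ x) = ν := by
    rw [Measure.map_map (Lnk10.measurable_mulVec _) (Lnk10.measurable_mulVec _)]
    simp only [Function.comp_def, mulVec_mulVec, hO, one_mulVec, Measure.map_id']
  refine ⟨(hIs _ _ Oᵀ hO'' μ μ hμ hμ).1, ?_⟩
  conv_lhs => rw [← e]
  unfold D2
  rw [(hIs _ _ Oᵀ hO'' μ μ hμ hμ).2.1, (hIs _ _ Oᵀ hO'' μ _ hμ c1).2.1,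
    (hIs _ _ Oᵀ hO'' _ _ c1 c1).2.1]

theorem mg_of (hG : GoodStmt) (hMg : MgfStmt) (hCo : CoordStmt) (hCl : CloseStmt) (hLn : LnkStmt)
    (hIs : IsomStmt) (hM : MmdStmt) : MgGlue := by
  intro k a hk ha hB hScl hI hCy hSo hPi hI12 hDn η ε hη hε
  obtain ⟨ε₁, e0, e1, e2⟩ : ∃ ε₁ : ℝ, 0 < ε₁ ∧ ε₁ ≤ 1 / 2 ∧ 10 * ε₁ ≤ η :=
    ⟨min (1 / 2) (η / 10), by positivity, min_le_left _ _, by linarith [min_le_right (1 / 2) (η / 10)]⟩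
  have ε5 : 0 < ε / 5 := by positivity
  obtain ⟨C, -, hG⟩ := hG
  obtain ⟨L, w₁, hL, hG⟩ := hG (ε / 5) ε5
  obtain ⟨w₂, hSo⟩ := hSo L C hL
  obtain ⟨w₃, hPi⟩ := hPi L C hL
  obtain ⟨w₄, hMg⟩ := hMg L C hL
  obtain ⟨w₅, hw₅, hCo⟩ := hCo L C 0 0 hL
  obtain ⟨w, u1, u2, u3, u4, u5⟩ : ∃ w, w₁ ≤ w ∧ w₂ ≤ w ∧ w₃ ≤ w ∧ w₄ ≤ w ∧ w₅ ≤ w :=
    ((eventually_ge_atTop w₁).and ((eventually_ge_atTop w₂).and ((eventually_ge_atTop w₃).and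
      ((eventually_ge_atTop w₄).and (eventually_ge_atTop w₅))))).exists
  have hLw : L < w := by linarith
  obtain ⟨B, hMg⟩ := hMg w u4
  obtain ⟨Bc, δ₀, hBc, -, hCo⟩ := hCo w u5
  obtain ⟨β, H₀, -, -, hDn⟩ := hDn (ε / 5) ε5
  obtain ⟨τ₀, hτ₀, hPi⟩ := hPi w u3 ε₁ e0
  obtain ⟨Z₀, hZ₀⟩ := trace_fd (C := C) hLw
  refine ⟨τ₀ / k, by positivity, fun τ hτ hτ' K₁ hK₁ => ?_⟩
  obtain ⟨H₁, hH₁, hH₁'⟩ : ∃ H₁, H₀ ≤ H₁ ∧ β * H₁ ^ (-a) ≤ τ / 2 := by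
    have := ((tendsto_rpow_neg_atTop ha).const_mul β).eventually
      (ge_mem_nhds (show β * 0 < τ / 2 by linarith))
    exact ((eventually_ge_atTop H₀).and this).exists
  set Bt : ℝ → ℝ := fun θ => (√(B * exp (B * |θ| ^ (3 / 2 : ℝ))) + 1) ^ 2 with hBt
  obtain ⟨δc, hδc, hCy⟩ := hCy K₁ (Bt (8 * K₁)) (exp (-H₁) * ε₁) hK₁ (by positivity)
  obtain ⟨m, hm⟩ := sm_tail (C := C) hLw hBc hδc
  obtain ⟨l₁, m₁, c, hl₁, hm₁, hc, hPi⟩ := hPi (k * τ) (by positivity)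
    (by rwa [le_div_iff₀' hk] at hτ') m K₁ hK₁
  have hA : 1 ≤ 3 - 6 * log ε₁ := by linarith [log_nonpos e0.le (show ε₁ ≤ 1 by linarith)]
  set A := 3 - 6 * log ε₁ with hA'
  have A0 : 0 < A := by linarith
  refine ⟨l₁, m₁ / 2, c * A ^ (-(1 / 3) : ℝ) / 2, hl₁, by positivity, by positivity,
    fun H hH => ?_⟩
  have H0 : 0 < H := by linarith
  obtain ⟨K₀, hK₀, hPi⟩ := hPi (A * H) (by nlinarith)
  obtain ⟨p, hp⟩ : ∃ p, p = ⌈H⌉₊ + 1 := ⟨_, rfl⟩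
  obtain ⟨δ, d0, d1, d2⟩ : ∃ δ : ℝ, 0 < δ ∧ δ ≤ ε₁ * (m₁ / 2) ∧ δ ≤ ε₁ * exp (-H) / 2 :=
    ⟨min _ _, by positivity, min_le_left _ _, min_le_right _ _⟩
  obtain ⟨e, he, hs2⟩ := Sg.s2.{0, 0} (t₁ := τ / 2) (t₂ := τ) (δ := δ / 2) (by positivity)
    (by positivity)
  obtain ⟨K₀', -, hI12⟩ := hI12 e (ε / 5) he ε5
  refine ⟨max K₀ K₀', lt_max_of_lt_left hK₀, fun K hK => ?_⟩
  have K0 : 0 < K := hK₀.trans_le ((le_max_left _ _).trans hK)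
  set b := c * (A * H) ^ (-(1 / 3) : ℝ) with hb
  have b0 : 0 < b := by positivity
  have hb' : c * A ^ (-(1 / 3) : ℝ) / 2 * H ^ (-(1 / 3) : ℝ) = b / 2 := by
    rw [hb, mul_rpow A0.le H0.le]; ring
  obtain ⟨Z, z1, z2, z3, z4, z5⟩ : ∃ Z, Z₀ ≤ Z ∧ l₁ ≤ Z ∧ 2 / b ≤ Z ∧ K₁ ≤ Z ∧
      2 + (((2 * p : ℕ) : ℝ) + 1) * (K + k * K * τ + 6) ≤ Z :=
    ((eventually_ge_atTop _).and ((eventually_ge_atTop _).and ((eventually_ge_atTop _).and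
      ((eventually_ge_atTop _).and (eventually_ge_atTop _))))).exists
  obtain ⟨ε', f0, f1, f2⟩ : ∃ ε' : ℝ, 0 < ε' ∧ ε' ≤ ε₁ * m₁ / 8 ∧
      ε' ≤ (2 * ε₁) ^ (2 * p) * exp (-H) / 4 :=
    ⟨min _ _, by positivity, min_le_left _ _, min_le_right _ _⟩
  obtain ⟨θ, hθ, hScl⟩ := hScl Z ε' f0
  obtain ⟨δs, hδs, hScl⟩ := hScl (Bt θ)
  obtain ⟨ρ, r0, r1, r2, r3⟩ : ∃ ρ : ℝ, 0 < ρ ∧ ρ ≤ 1 ∧ ρ ≤ δs / 4 ∧ ρ ≤ δc / 16 :=
    ⟨min 1 (min _ _), by positivity, min_le_left _ _, (min_le_right _ _).trans (min_le_left _ _),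
      (min_le_right _ _).trans (min_le_right _ _)⟩
  have E1 : Off GOE (ε / 5) fun n W => W.IsHermitian ∧ Gd n (Lam n W) (sx n ^ 2) L w C := hG w u1
  have E2 := Tr.off_of_whp whp_Lam ε5
  have E3 := Tr.off_of_whp (hCl.2 (θ + 8 * K₁ + 1) ρ (by positivity) r0) ε5
  have E4 : Off disorderLaw (ε / 5) fun n g => Down n g a β H₀ := hDn
  have E5 := hI12 K ((le_max_right _ _).trans hK)
  have E := ((E1.and E2 ε5.le ε5.le).and E3 (by positivity) ε5.le).goe.and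
    (E4.and E5 ε5.le ε5.le).fst (by positivity) (by positivity)
  refine (E.le (le_of_eq (by ring))).mono ?_
  filter_upwards [hMg, hCo, hPi K ((le_max_left _ _).trans hK), hSo w u2 θ ρ hθ r0,
    eventually_ge_atTop 1] with n hMg hCo hPi hSo hn q hq
  obtain ⟨⟨⟨⟨hh, hg⟩, hlam⟩, hd⟩, hdn, hi⟩ := hq
  obtain ⟨l1, l2, l3, l4, -⟩ := hLn n hn
  have n0 : 0 < n := hn
  have ht : 0 < sx n ^ 2 := pow_pos (sx_pos hn) 2
  have gb : Gb n (Lam n (Wp q)) L w C := ⟨hg, fun j _ => hlam hh j⟩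
  obtain ⟨O, hO, hv, hO'⟩ := l4 (Wp q) hh
  obtain ⟨cD, fD⟩ := l2 (Lam n (Wp q)) _ ht
  obtain ⟨cP, dP⟩ := hSo _ gb
  obtain ⟨p1, p2⟩ := hPi _ gb
  have cG : Cp (muG n q.1) := l3 q.1 q.2 ▸ (l1 _).1
  obtain ⟨μ, hμ⟩ : ∃ μ, μ = (muG n q.1).map fun x => Oᵀ *ᵥ x := ⟨_, rfl⟩
  obtain ⟨cμ, dμ⟩ := D2_rot hIs cG cD hO (θ + 8 * K₁ + 1)
  rw [← hO', ← hμ] at dμ
  rw [← hμ] at cμ
  rw [l3, ← dμ] at hd
  have dm : ∀ θ', 0 ≤ θ' → θ' ≤ θ + 8 * K₁ + 1 →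
      D2 θ' μ (nuD n (Lam n (Wp q)) (sx n ^ 2)) ≤ ρ := fun θ' h0 h1 =>
    (hM _ _ _ _ cμ cD cD _ _ h0 h1).2.1.trans hd
  have x1 : Xk θ μ μ ≤ Bt θ :=
    Apx22.Xk_le hM cμ cD hθ (hMg _ _ ht hg θ) ((dm θ hθ (by linarith)).trans r1)
  have x2 : Xk (8 * K₁) μ μ ≤ Bt (8 * K₁) := Apx22.Xk_le hM cμ cD (by positivity)
    (hMg _ _ ht hg _) ((dm _ (by positivity) (by linarith)).trans r1)
  have x3 : Xk θ (piB n (Lam n (Wp q))) (piB n (Lam n (Wp q))) ≤ Bt θ :=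
    Apx22.Xk_le hM cP cD hθ (hMg _ _ ht hg θ) (by
      rw [(hM _ _ _ _ cP cD cD θ θ hθ le_rfl).2.2.1]; exact dP.trans r1)
  have x4 : D2 θ μ (piB n (Lam n (Wp q))) ≤ δs := by
    have t1 := (hM _ _ _ _ cμ cD cP θ θ hθ le_rfl).2.2.2.2.2.1
    have t2 := (hM _ _ _ _ cμ cP cP θ θ hθ le_rfl).1
    have t3 := sqrt_le_sqrt (dm θ hθ (by linarith))
    have t4 := sqrt_le_sqrt dP
    have t5 := pow_le_pow_left₀ (sqrt_nonneg _) (t1.trans (add_le_add t3 t4)) 2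
    rw [sq_sqrt t2] at t5
    nlinarith [sq_sqrt r0.le]
  have x5 := hm n _ _ μ _ hg fD (fun j => (hCo _ _ ht hg j).1) (by
    have t1 := (hM _ _ _ _ cμ cD cD 1 1 zero_le_one le_rfl).2.2.2.2.2.2.2
    have t2 := dm 1 zero_le_one (by linarith)
    linarith)
  have hT := fun (φ : (Fin n → ℝ) → ℝ) (hφ : B1 φ) (l : ℝ) (e : SE) h0 h1 h2 h3 =>
    hScl _ μ _ cμ cP x1 x3 x4 (fd n (Lam n (Wp q))) l K₁ φ e (fd_psd _)
      ((hZ₀ _ _ _ hg).trans z1) h0 h1 hK₁ z4 hφ h2 h3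
  have := cP.prob
  have y0 : m₁ / 2 ≤ mk μ (fd n (Lam n (Wp q))) l₁ 1 := by
    have t1 : |mk μ (fd n (Lam n (Wp q))) l₁ 1 -
        mk (piB n (Lam n (Wp q))) (fd n (Lam n (Wp q))) l₁ 1| ≤ ε' :=
      hT (fun _ => 0) ⟨measurable_const, by simp⟩ l₁ (.const 1) hl₁.le z2 trivial (by
        have : 0 ≤ ((2 * p : ℕ) : ℝ) * (K + k * K * τ + 6) := by positivity
        have : 0 ≤ k * K * τ := by positivity
        simp only [SE.sz, abs_one]; linarith)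
    have t2 := p1.trans (real_le_mk (fd n (Lam n (Wp q))) l₁)
    nlinarith [(abs_le.1 t1).1, mul_le_mul_of_nonneg_right e1 hm₁.le]
  refine ⟨by rw [mk_rot hv, ← hμ]; exact y0, fun ψ hψ r hr u hu => ?_⟩
  have r0 : 0 < r := lt_of_lt_of_le (by positivity) hr.1
  obtain ⟨φ, hφ, hφk, hφ1⟩ := hCy _ μ _ cμ x2 x5 (fun y => ψ (O *ᵥ y))
    ⟨hψ.1.comp (Lnk10.measurable_mulVec O), fun _ => hψ.2 _⟩
  obtain ⟨z, hz, q1, q2⟩ := p2 φ hφ hφk (k * r)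
    ⟨by nlinarith [mul_le_mul_of_nonneg_left hr.1 hk.le], mul_le_mul_of_nonneg_left hr.2 hk.le⟩
  rw [show K * (k * r) = k * K * r by ring] at q1 q2
  have hv1 : B1 (Sm K₁ φ) := (hB _ μ cμ.prob).1 K₁ φ hK₁ hφ
  have c0 : 0 ≤ k * K * r := by positivity
  obtain ⟨s1, s2⟩ := static hB (μ := μ) (fd n (Lam n (Wp q))) hv1 (j := 2 * p) K0 c0 hz e0 e1 b0
    hl₁.le z2 z3 (le_trans (by gcongr; exact hr.2) z5) hm₁ f1 (hT φ hφ) p1 q1 q2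
  have key := det hB hI n0 hO hv hμ hψ hv1 (t := Soft.tau n r) (E := exp H₁) K0 hK₁ c0 e0
    (by positivity) b0 d0.le d1 (exp_pos _).le
    (by rw [← mul_assoc, ← exp_add, add_neg_cancel, exp_zero, one_mul]) hφ1
    (abs_Pn_le n0 hdn hH₁ (hH₁'.trans hr.1) r0.le) (fun h hh => by
      have := hs2 _ Unit (ch n0 q.1) (Sg.stRC (hat n) (gibbsWeight_pos 1 q.1) K0.le) rfl _ _
        (Soft.tau_pos n0 one_pos).le (by positivity) (hi n0 K0.le Unit).1 (hi n0 K0.le Unit).2 r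
        hr.1 hr.2 h 4 hh
      rw [show Soft.tau n 1 * r = Soft.tau n r by simp only [Soft.tau]; ring,
        show √(4 : ℝ) = 2 by rw [show (4 : ℝ) = 2 ^ 2 by norm_num, sqrt_sq zero_le_two]] at this
      linarith) y0 s1 s2 hu
  have := cG.prob
  refine le_trans (measureReal_mono (fun x hx => ?_) (measure_ne_top _ _))
    (key.trans (numer e0 e1 hH hp f2 d0.le d2))
  exact ⟨hb' ▸ hx.1, e2.trans_lt hx.2⟩

end Crest.Agent.T157.Cq.Mg4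

end
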