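import Crest.Agent.T157.CqMgB_4
import Crest.Agent.T157.StAll_87

/-!
# Row 157, part C: `MgGlue` (helper4)
-/

set_option autoImplicit false

namespace Crest.Agent.T157.Cq

open Crest.Agent.T157.St

/-- **merging on the cube from merging on the soft sphere** -/
theorem mgGlue : MgGlue :=
  Mg4.mg_of All.goodStmt All.mgfStmt All.coordStmt All.closeStmt All.lnkStmt isomStmt mmdStmt

end Crest.Agent.T157.Cq
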