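import Crest.Agent.T157.CqDef_72
import Crest.Agent.T157.RecA_77
import Crest.Agent.T157.ChainPoi_22

/-!
# Row 157, part C (helper58): merging on the soft sphere, `PiGlue`
-/

set_option autoImplicit false
set_option linter.unusedSectionVars false

noncomputable section

namespace Crest.Agent.T157.Cq

open MeasureTheory ProbabilityTheory Matrix Filter Topology Finset Real
open Crest.Agent.T157.E Crest.Agent.T157.St Crest.Agent.T157.Ed
open Crest.Agent.T157.Sp (piD)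
open Crest.Agent.T157.Chain22 (poi poi_nonneg hasSum_poi hasSum_poi_var)

namespace Pi58

section gauss
variable {ι : Type*} [Fintype ι] [DecidableEq ι]

lemma abs_int_le {X : Type*} [MeasurableSpace X] (μ : Measure X) [IsProbabilityMeasure μ]
    {F : X → ℝ} (h : ∀ x, |F x| ≤ 1) : |∫ z, F z ∂μ| ≤ 1 := by
  simpa using norm_integral_le_of_norm_le_const (μ := μ) (f := F) (C := 1) (.of_forall h)

lemma shift_le {F : (ι → ℝ) → ℝ} (hF : B1 F) (h : ι → ℝ) :
    |∫ z, F (h + z) ∂gv ι - ∫ z, F z ∂gv ι| ≤ 2 * ∑ i, |h i| := by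
  set s := ∑ i, |h i| with hs
  have s0 : 0 ≤ s := by positivity
  rcases le_total 1 s with h1 | h1
  · have a := abs_int_le (gv ι) (F := fun z => F (h + z)) fun z => hF.2 _
    have b := abs_int_le (gv ι) hF.2
    exact (abs_sub _ _).trans (by linarith)
  have hh : h ⬝ᵥ h ≤ s ^ 2 := by
    rw [sq, hs, Finset.sum_mul]
    refine Finset.sum_le_sum fun i _ => ?_
    rw [← abs_mul_abs_self]
    exact mul_le_mul_of_nonneg_left
      (Finset.single_le_sum (f := fun i => |h i|) (fun _ _ => abs_nonneg _) (mem_univ i))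
      (abs_nonneg _)
  have h0 : 0 ≤ h ⬝ᵥ h := Finset.sum_nonneg fun i _ => mul_self_nonneg _
  have mF : SL.MG F := .of_bdd hF.1 1 hF.2
  have me := Rec.mg_eh h
  have e1 : ∫ z, F (h + z) ∂gv ι - ∫ z, F z ∂gv ι = ∫ z, F z * (Rec.eh h z - 1) ∂gv ι := by
    rw [Rec.int_shift, ← integral_sub (mF.mul me).int mF.int]
    simp only [mul_sub, mul_one]
  have e2 : ∫ z, (Rec.eh h z - 1) ^ 2 ∂gv ι = exp (h ⬝ᵥ h) - 1 := by
    have : ∀ z, (Rec.eh h z - 1) ^ 2 = Rec.eh h z * Rec.eh h z - 2 * Rec.eh h z + 1 := fun z => by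
      ring
    simp only [this]
    rw [integral_add ((me.mul me).sub (me.const_mul 2)).int (integrable_const _),
      integral_sub (me.mul me).int (me.const_mul 2).int, integral_const_mul, Rec.int_eh_mul,
      Rec.int_eh]
    simp
    ring
  have e3 : ∫ z, F z ^ 2 ∂gv ι ≤ 1 := (le_abs_self _).trans (abs_int_le _ fun z => by
    rw [abs_pow]; exact pow_le_one₀ (abs_nonneg _) (hF.2 z))
  have e4 := Rec.int_mul_sq_le mF (me.sub (.const 1))
  have e5 := Real.abs_exp_sub_one_le (x := h ⬝ᵥ h) (by rw [abs_of_nonneg h0]; nlinarith)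
  rw [abs_of_nonneg h0] at e5
  have e6 := (le_abs_self _).trans e5
  have e7 : 0 ≤ exp (h ⬝ᵥ h) - 1 := by linarith [Real.add_one_le_exp (h ⬝ᵥ h)]
  rw [e1]
  refine abs_le_of_sq_le_sq' ?_ (by positivity) |> abs_le.2
  refine e4.trans ?_
  rw [e2]
  nlinarith [Rec.int_sq_nonneg F]

lemma sm_lip {K : ℝ} (hK : 0 < K) {φ : (ι → ℝ) → ℝ} (hφ : B1 φ) (s : Finset ι)
    (hs : ∀ y, φ y = φ (keep s y)) (x y : ι → ℝ) :
    |Sm K φ x - Sm K φ y| ≤ 2 * √K * ∑ k ∈ s, |x k - y k| := by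
  have h1 := shift_le (F := fun z => φ (K • y + √K • z)) ⟨hφ.1.comp (by fun_prop), fun z => hφ.2 _⟩
    (keep s (√K • (x - y)))
  have e : ∀ z, φ (K • y + √K • (keep s (√K • (x - y)) + z)) = φ (K • x + √K • z) := fun z => by
    rw [hs, hs (K • x + √K • z)]
    congr 1
    funext k
    by_cases hk : k ∈ s
    · simp only [keep, hk, if_true, Pi.add_apply, Pi.smul_apply, Pi.sub_apply, smul_eq_mul]
      linear_combination (x k - y k) * Real.mul_self_sqrt hK.le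
    · simp [keep, hk]
  simp only [e] at h1
  refine h1.trans (le_of_eq ?_)
  rw [mul_assoc, Finset.mul_sum s, ← Finset.sum_subset (Finset.subset_univ s)
    (fun k _ hk => by simp [keep, hk])]
  congr 1
  refine Finset.sum_congr rfl fun k hk => ?_
  simp [keep, hk, abs_mul, abs_of_nonneg (Real.sqrt_nonneg K)]

end gauss

lemma b1_Us {n : ℕ} (η : ℕ → ℝ) (t κ h : ℝ) {v : (Fin n → ℝ) → ℝ} (hv : B1 v) :
    B1 (Us n η t κ h v) := by
  refine ⟨(StronglyMeasurable.integral_prod_right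
    (f := fun x ξ => v (Fs n η t κ h x + √(2 * h) • ξ)) (hv.1.comp ?_).stronglyMeasurable).measurable,
    fun x => abs_int_le _ fun ξ => hv.2 _⟩
  unfold Fs
  fun_prop

lemma b1_iter {ι : Type*} [Fintype ι] {U : ((ι → ℝ) → ℝ) → (ι → ℝ) → ℝ}
    (hU : ∀ v, B1 v → B1 (U v)) {v : (ι → ℝ) → ℝ} (hv : B1 v) (j : ℕ) : B1 (U^[j] v) := by
  induction j with
  | zero => exact hv
  | succ j ih => rw [Function.iterate_succ_apply']; exact hU _ ih

lemma B1.int_sub {ι : Type*} [Fintype ι] {u v : (ι → ℝ) → ℝ} (hu : B1 u) (hv : B1 v)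
    (μ : Measure (ι → ℝ)) [IsFiniteMeasure μ] : Integrable (fun x => |u x - v x|) μ :=
  (integrable_const (2 : ℝ)).mono' (hu.1.sub hv.1).abs.aestronglyMeasurable (.of_forall fun x => by
    rw [Real.norm_eq_abs, abs_abs]
    exact (abs_sub _ _).trans (by linarith [hu.2 x, hv.2 x]))

section cond
variable {X : Type*} [MeasurableSpace X] {μ : Measure X} [IsProbabilityMeasure μ] {A : Set X}
  {p : ℝ}

lemma half_le (hA : MeasurableSet A) (h : μ.real Aᶜ ≤ p) : 1 - p ≤ μ.real A := by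
  rw [probReal_compl_eq_one_sub hA] at h; linarith

lemma cond_prob (hA : MeasurableSet A) (h : μ.real Aᶜ ≤ p) (hp : p ≤ 1 / 2) :
    IsProbabilityMeasure μ[|A] := cond_isProbabilityMeasure fun e => by
  have := half_le hA h
  rw [Measure.real, e] at this
  simp at this
  linarith

lemma cond_real (hA : MeasurableSet A) (S : Set X) :
    (μ[|A]).real S = (μ.real A)⁻¹ * μ.real (A ∩ S) := by
  simp only [Measure.real, cond_apply hA, ENNReal.toReal_mul, ENNReal.toReal_inv]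

lemma cond_le (hA : MeasurableSet A) (h : μ.real Aᶜ ≤ p) (hp : p ≤ 1 / 2) (S : Set X) :
    (μ[|A]).real S ≤ 2 * μ.real S := by
  rw [cond_real hA]
  refine mul_le_mul ?_ (measureReal_mono Set.inter_subset_right) measureReal_nonneg zero_le_two
  have := half_le hA h
  rw [inv_le_comm₀ (by linarith) two_pos]
  linarith

lemma le_cond (hA : MeasurableSet A) (h : μ.real Aᶜ ≤ p) (hp : p ≤ 1 / 2) (S : Set X) :
    μ.real S - p ≤ (μ[|A]).real S := by
  rw [cond_real hA]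
  have h1 := half_le hA h
  have h2 : μ.real S ≤ μ.real (A ∩ S) + μ.real Aᶜ :=
    (measureReal_mono fun x hx => by by_cases hx' : x ∈ A <;> simp [hx, hx']).trans
      (measureReal_union_le _ _)
  have h3 : 1 ≤ (μ.real A)⁻¹ := (one_le_inv₀ (by linarith)).2 measureReal_le_one
  nlinarith [measureReal_nonneg (μ := μ) (s := A ∩ S)]

lemma int_cond_le (hA : MeasurableSet A) (h : μ.real Aᶜ ≤ p) (hp : p ≤ 1 / 2) {g : X → ℝ}
    (h0 : ∀ x, 0 ≤ g x) (hg : Integrable g μ) : ∫ x, g x ∂μ[|A] ≤ 2 * ∫ x, g x ∂μ := by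
  rw [ProbabilityTheory.cond, integral_smul_measure, smul_eq_mul, ENNReal.toReal_inv]
  refine mul_le_mul ?_ (setIntegral_le_integral hg (.of_forall h0))
    (integral_nonneg h0) zero_le_two
  have := half_le hA h
  change (μ.real A)⁻¹ ≤ 2
  rw [inv_le_comm₀ (by linarith) two_pos]
  linarith

lemma markov {g u : X → ℝ} (h0 : ∀ x, 0 ≤ g x) (hg : Integrable g μ) {z ε : ℝ} (hε : 0 < ε)
    {S B : X → Prop} (hS : ∀ᵐ x ∂μ, S x → ¬ B x → |u x - z| ≤ g x + ε / 2) :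
    μ.real {x | S x ∧ ε < |u x - z|} ≤ μ.real {x | B x} + 2 / ε * ∫ x, g x ∂μ := by
  have h1 := mul_meas_ge_le_integral_of_nonneg (.of_forall h0) hg (ε / 2)
  have h2 : μ.real {x | S x ∧ ε < |u x - z|} ≤ μ.real ({x | B x} ∪ {x | ε / 2 ≤ g x}) := by
    refine ENNReal.toReal_mono (measure_ne_top _ _) (measure_mono_ae ?_)
    filter_upwards [hS] with x hx hx'
    by_cases hb : B x
    · exact Or.inl hb
    · exact Or.inr (show ε / 2 ≤ g x by linarith [hx hx'.1 hb, hx'.2])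
  refine h2.trans ((measureReal_union_le _ _).trans (add_le_add le_rfl ?_))
  rw [div_mul_eq_mul_div, le_div_iff₀ hε]
  linarith

end cond

/-- the typical values of a Poisson variable -/
def Fl (l : ℝ) : Finset ℕ := (range (⌈2 * l⌉₊ + 1)).filter fun j => |(j : ℝ) - l| ≤ l / 2

lemma mem_Fl {l : ℝ} {j : ℕ} : j ∈ Fl l ↔ |(j : ℝ) - l| ≤ l / 2 := by
  rw [Fl, mem_filter, mem_range, and_iff_right_iff_imp]
  intro h
  have h1 := abs_le.1 h
  have h2 := abs_nonneg ((j : ℝ) - l)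
  have : (j : ℝ) ≤ ⌈2 * l⌉₊ := le_trans (by linarith) (Nat.le_ceil _)
  exact Nat.lt_succ_of_le (by exact_mod_cast this)

lemma mix_le {l : ℝ} (hl : 0 ≤ l) {b : ℕ → ℝ} (hb : ∀ j, |b j| ≤ 1) : |∑' j, poi l j * b j| ≤ 1 :=
  tsum_of_norm_bounded (f := fun j => poi l j * b j) (hasSum_poi l) fun j => by
    rw [Real.norm_eq_abs, abs_mul, abs_of_nonneg (poi_nonneg hl j)]
    exact mul_le_of_le_one_right (poi_nonneg hl j) (hb j)

lemma mix_sum {l : ℝ} (hl : 0 ≤ l) {b : ℕ → ℝ} (hb : ∀ j, |b j| ≤ 1) :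
    Summable fun j => poi l j * b j :=
  (hasSum_poi l).summable.of_norm_bounded fun j => by
    rw [Real.norm_eq_abs, abs_mul, abs_of_nonneg (poi_nonneg hl j)]
    exact mul_le_of_le_one_right (poi_nonneg hl j) (hb j)

lemma mix_sub {l e : ℝ} (hl : 0 < l) (he : 0 ≤ e) {a b d : ℕ → ℝ} (ha : ∀ j, |a j| ≤ 1)
    (hb : ∀ j, |b j| ≤ 1) (h : ∀ j ∈ Fl l, |a j - b j| ≤ d j + e) :
    |∑' j, poi l j * a j - ∑' j, poi l j * b j| ≤ ∑ j ∈ Fl l, poi l j * d j + e + 8 / l := by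
  rw [← (mix_sum hl.le ha).tsum_sub (mix_sum hl.le hb)]
  have h1 : HasSum (fun j => if j ∈ Fl l then poi l j * d j else 0) (∑ j ∈ Fl l, poi l j * d j) := by
    have := hasSum_sum_of_ne_finset_zero (L := SummationFilter.unconditional ℕ) (s := Fl l)
      (f := fun j => if j ∈ Fl l then poi l j * d j else 0) fun j hj => if_neg hj
    rwa [Finset.sum_congr rfl fun j hj => if_pos hj] at this
  have h2 := (h1.add ((hasSum_poi l).mul_right e)).add ((hasSum_poi_var l).mul_left (8 / l ^ 2))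
  rw [one_mul, show 8 / l ^ 2 * l = 8 / l by field_simp] at h2
  refine tsum_of_norm_bounded (f := fun j => poi l j * a j - poi l j * b j) h2 fun j => ?_
  have p0 := poi_nonneg hl.le j
  rw [Real.norm_eq_abs, ← mul_sub, abs_mul, abs_of_nonneg p0]
  split_ifs with hj
  · have := mul_le_mul_of_nonneg_left (h j hj) p0
    have : 0 ≤ 8 / l ^ 2 * (poi l j * ((j : ℝ) - l) ^ 2) := by positivity
    linarith
  · rw [mem_Fl, not_le] at hj
    have h3 : (l / 2) ^ 2 ≤ ((j : ℝ) - l) ^ 2 := by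
      rw [← sq_abs ((j : ℝ) - l)]; exact pow_le_pow_left₀ (by positivity) hj.le 2
    have h4 : |a j - b j| ≤ 8 / l ^ 2 * ((j : ℝ) - l) ^ 2 := by
      refine ((abs_sub _ _).trans (by linarith [ha j, hb j] : _ ≤ (2 : ℝ))).trans ?_
      rw [div_mul_eq_mul_div, le_div_iff₀ (by positivity)]
      nlinarith
    have := mul_le_mul_of_nonneg_left h4 p0
    have : 0 ≤ poi l j * e := by positivity
    nlinarith

lemma sum_Fl_le {l e : ℝ} (hl : 0 ≤ l) (he : 0 ≤ e) {d : ℕ → ℝ} (h : ∀ j ∈ Fl l, d j ≤ e) :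
    ∑ j ∈ Fl l, poi l j * d j ≤ e := by
  have h1 : ∑ j ∈ Fl l, poi l j ≤ 1 := sum_le_hasSum _ (fun j _ => poi_nonneg hl j) (hasSum_poi l)
  refine (Finset.sum_le_sum fun j hj => mul_le_mul_of_nonneg_left (h j hj) (poi_nonneg hl j)).trans ?_
  rw [← Finset.sum_mul]
  exact mul_le_of_le_one_left he h1

lemma rp1 {s : ℝ} (hs : 0 < s) : ((s ^ 2)⁻¹) ^ (-(3 / 2) : ℝ) = s ^ 3 := by
  rw [Real.inv_rpow (by positivity), Real.rpow_neg (by positivity), inv_inv, ← Real.rpow_natCast,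
    ← Real.rpow_mul hs.le, ← Real.rpow_natCast]
  norm_num

lemma rp2 {E s : ℝ} (hE : 0 ≤ E) (hs : 0 < s) :
    (s ^ 3 * E) ^ (-(1 / 3) : ℝ) = s⁻¹ * E ^ (-(1 / 3) : ℝ) := by
  rw [Real.mul_rpow (by positivity) hE, ← Real.rpow_natCast, ← Real.rpow_mul hs.le,
    ← Real.rpow_neg_one]
  norm_num

end Pi58

set_option maxHeartbeats 1000000 in
open Pi58 in
/-- **merging on the soft sphere** -/
theorem piGlue : PiGlue := by
  intro hBd hTv hSt hDi hKl hOs L C hL
  obtain ⟨w1, h1⟩ := hSt L C hL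
  obtain ⟨w2, h2⟩ := hDi L C hL
  refine ⟨max (max w1 w2) (2 * L + 1), fun w hw ε hε => ?_⟩
  obtain ⟨D, s1, s2, s3⟩ := h1 w ((le_max_left _ _).trans ((le_max_left _ _).trans hw))
  replace h2 := h2 w ((le_max_right _ _).trans ((le_max_left _ _).trans hw))
  obtain ⟨τ₀, hτ₀, h3⟩ := hOs L C w (ε / 4) hL ((le_max_right _ _).trans hw) (by positivity)
  refine ⟨τ₀, hτ₀, fun τ hτ hττ m K₁ hK₁ => ?_⟩
  obtain ⟨ρ, δ, hρ, hδ, h4⟩ := h3 τ hτ hττ m (2 * √K₁)
  obtain ⟨c₀, hc₀, s1⟩ := s1 ρ hρ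
  set E : ℝ := |D| + (1 + |log (8 / ε)|) with hE
  have E1 : 1 ≤ E := by have := abs_nonneg D; have := abs_nonneg (log (8 / ε)); linarith
  set E' : ℝ := E ^ (-(1 / 3) : ℝ) with hE'
  have E0 : 0 < E' := Real.rpow_pos_of_pos (by linarith) _
  set s : ℝ := max 1 (2 / (δ * c₀ * E')) with hs
  have hs1 : 1 ≤ s := le_max_left _ _
  have hs0 : 0 < s := by linarith
  have hs2 : 2 ≤ s * (δ * c₀ * E') := (div_le_iff₀ (by positivity)).1 (le_max_right _ _)
  have hs3 : 1 ≤ s ^ 3 := one_le_pow₀ hs1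
  set m₁ : ℝ := exp (-(|D| * s ^ 3)) / 2 with hm₁
  have m0 : 0 < m₁ := by positivity
  have hH₁ : 2 * exp (-(s ^ 3 * E)) ≤ ε * m₁ / 2 := by
    have a1 : exp (-(s ^ 3 * E)) ≤ exp (-(|D| * s ^ 3)) * exp (-log (8 / ε)) := by
      rw [← exp_add, exp_le_exp, hE]
      nlinarith [le_abs_self (log (8 / ε)), abs_nonneg (log (8 / ε))]
    rw [exp_neg (log _), exp_log (by positivity), inv_div] at a1
    rw [hm₁]
    linarith
  refine ⟨s ^ 2, m₁, δ * c₀ / 2, by positivity, m0, by positivity, fun H hH => ?_⟩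
  have hH₂ : 2 * exp (-(2 ^ 3 * H)) ≤ exp (-H) / 2 := by
    have a1 : exp (-(2 ^ 3 * H)) = exp (-H) * (exp (7 * H))⁻¹ := by
      rw [← exp_neg, ← exp_add]; congr 1; ring
    have a2 : (exp (7 * H))⁻¹ ≤ 4⁻¹ :=
      inv_anti₀ (by norm_num) (by linarith [Real.add_one_le_exp (7 * H)])
    nlinarith [exp_pos (-H)]
  set θ : ℝ := min (ε * m₁ / 2) (exp (-H) / 2) with hθ
  have θ0 : 0 < θ := lt_min (by positivity) (by positivity)
  set γ : ℝ := ε * θ / 12 with hγ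
  have γ0 : 0 < γ := by positivity
  obtain ⟨K₀, hK₀, h2⟩ := h2 (τ / 2) τ γ (by positivity) γ0
  refine ⟨K₀, hK₀, fun K hK => ?_⟩
  have K0 : 0 < K := hK₀.trans_le hK
  set p : ℝ := min (γ / (4 * K * τ)) (min m₁ (1 / 2)) with hp
  have p0 : 0 < p := lt_min (by positivity) (lt_min m0 one_half_pos)
  have p1 : p * (4 * K * τ) ≤ γ := (le_div_iff₀ (by positivity)).1 (min_le_left _ _)
  have p2 : p ≤ m₁ := (min_le_right _ _).trans (min_le_left _ _)
  have p3 : p ≤ 1 / 2 := (min_le_right _ _).trans (min_le_right _ _)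
  set a₁ : ℝ := c₀ * (s ^ 3 * E) ^ (-(1 / 3) : ℝ) with ha₁
  set a₂ : ℝ := c₀ * (2 ^ 3 * H) ^ (-(1 / 3) : ℝ) with ha₂
  have a10 : 0 < a₁ := mul_pos hc₀ (Real.rpow_pos_of_pos (by positivity) _)
  have a20 : 0 < a₂ := mul_pos hc₀ (Real.rpow_pos_of_pos (by positivity) _)
  filter_upwards [h2 K hK, s1 (s ^ 3 * E) (by nlinarith), s1 (2 ^ 3 * H) (by linarith),
    s2 (s ^ 2)⁻¹ (by positivity) (inv_le_one_of_one_le₀ (one_le_pow₀ hs1)), s3 p p0,
    h4 (min a₁ a₂) (lt_min a10 a20), eventually_ge_atTop 1]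
    with n d1 t1 t2 t3 t4 o1 hn η hη
  obtain ⟨hP, t4⟩ := t4 η hη
  have hn0 : (0 : ℝ) < n := by exact_mod_cast hn
  have hA : MeasurableSet {x : Fin n → ℝ | x ⬝ᵥ x ≤ 2 * sx n ^ 2} :=
    measurableSet_le (by unfold dotProduct; fun_prop) measurable_const
  have hPB : IsProbabilityMeasure (piB n η) := cond_prob hA t4 p3
  refine ⟨?_, fun φ hφ hcyl r hr => ?_⟩
  · have b1 := le_cond hA t4 p3 {x | s ^ 2 * Xd n η x ≤ 1}
    have b2 := t3 η hη
    rw [rp1 hs0] at b2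
    have b3 : {x | Xd n η x ≤ (s ^ 2)⁻¹} = {x | s ^ 2 * Xd n η x ≤ 1} := by
      ext x
      simp only [Set.mem_ofPred_eq]
      rw [← one_div, le_div_iff₀ (by positivity), mul_comm]
    have b4 : exp (-(|D| * s ^ 3)) ≤ exp (-(D * s ^ 3)) :=
      exp_le_exp.2 (by nlinarith [le_abs_self D])
    rw [b3] at b2
    refine le_trans ?_ b1
    linarith
  have r0 : 0 < r := by linarith [hr.1]
  obtain ⟨K', ⟨⟨d2, k1⟩, o2⟩, K1⟩ := ((((d1 η hη).and (hKl n η (sx n ^ 2) ((n : ℝ) ^ 2) (2 * τ) γ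
    (by unfold sx; positivity) (by positivity) γ0)).and
    (tendsto_inv_atTop_nhdsGT_zero.eventually (o1 η hη))).and
    (eventually_ge_atTop (64 / (τ * ε)))).exists
  have K'0 : 0 < K' := lt_of_lt_of_le (by positivity) K1
  set v := Sm K₁ φ with hv
  have bv : B1 v := (hBd _ _ hP).1 K₁ φ hK₁ hφ
  have cv : Cyl m (2 * √K₁) v := ⟨bv, sm_lip hK₁ hφ _ hcyl⟩
  have bT : ∀ j, B1 ((Tk K' (piS n η))^[j] v) :=
    b1_iter (fun u hu => (hBd _ _ hP).2 u hu (.T K' .var) ⟨K'0, trivial⟩) bv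
  have bU : ∀ j, B1 ((Us n η (sx n ^ 2) ((n : ℝ) ^ 2) K'⁻¹)^[j] v) :=
    b1_iter (fun u hu => b1_Us _ _ _ _ hu) bv
  have bS : B1 (Qs K (K * r) (piS n η) v) :=
    (hBd _ _ hP).2 v bv (.Q K (K * r) .var) ⟨K0, by positivity, trivial⟩
  have bS' : B1 (Qs K' (K' * r) (piS n η) v) :=
    (hBd _ _ hP).2 v bv (.Q K' (K' * r) .var) ⟨K'0, by positivity, trivial⟩
  have bB : B1 (Qs K (K * r) (piB n η) v) :=
    (hBd _ _ hPB).2 v bv (.Q K (K * r) .var) ⟨K0, by positivity, trivial⟩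
  have l0 : 0 < K' * r := by positivity
  have hF : ∀ j ∈ Fl (K' * r), τ / 4 ≤ j * K'⁻¹ ∧ j * K'⁻¹ ≤ 2 * τ := fun j hj => by
    have := abs_le.1 (mem_Fl.1 hj)
    rw [← div_eq_mul_inv, le_div_iff₀ K'0, div_le_iff₀ K'0]
    constructor <;> nlinarith [hr.1, hr.2]
  let g3 : (Fin n → ℝ) → ℝ := fun x => ∑ j ∈ Fl (K' * r), poi (K' * r) j *
    |(Tk K' (piS n η))^[j] v x - (Us n η (sx n ^ 2) ((n : ℝ) ^ 2) K'⁻¹)^[j] v x|
  have i3 : ∀ (μ : Measure (Fin n → ℝ)) [IsFiniteMeasure μ], Integrable g3 μ := fun μ _ =>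
    integrable_finsetSum _ fun j _ => (B1.int_sub (bT j) (bU j) μ).const_mul _
  have n3 : ∀ x, 0 ≤ g3 x := fun x =>
    Finset.sum_nonneg fun j _ => mul_nonneg (poi_nonneg l0.le j) (abs_nonneg _)
  have j3 : ∫ x, g3 x ∂piS n η ≤ γ := by
    rw [integral_finsetSum _ fun j _ => (B1.int_sub (bT j) (bU j) _).const_mul _]
    simp only [integral_const_mul]
    refine sum_Fl_le l0.le γ0.le fun j hj => k1 j ?_ v bv
    have := (hF j hj).2
    rwa [← div_eq_mul_inv, div_le_iff₀ K'0] at this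
  obtain ⟨z, hz1, hz⟩ : ∃ z : ℝ, |z| ≤ 1 ∧ ∀ x, Nice n η ρ δ (min a₁ a₂) x →
      |Qs K' (K' * r) (piS n η) v x - z| ≤ g3 x + ε / 2 := by
    by_cases hex : ∃ y, Nice n η ρ δ (min a₁ a₂) y
    · obtain ⟨y, hy⟩ := hex
      refine ⟨_, mix_le l0.le fun j => (bU j).2 y, fun x hx => ?_⟩
      refine (mix_sub (e := ε / 4) l0 (by positivity) (fun j => (bT j).2 x) (fun j => (bU j).2 y)
        fun j hj => (abs_sub_le _ _ _).trans (add_le_add le_rfl
          (o2 v cv x y hx hy j (hF j hj).1 (hF j hj).2))).trans ?_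
      have : 8 / (K' * r) ≤ ε / 4 := by
        rw [div_le_iff₀ (by positivity)] at K1
        rw [div_le_iff₀ l0]
        nlinarith [mul_le_mul_of_nonneg_left hr.1 (mul_pos K'0 hε).le]
      linarith
    · exact ⟨0, by simp, fun x hx => absurd ⟨x, hx⟩ hex⟩
  let g : (Fin n → ℝ) → ℝ := fun x =>
    |Qs K (K * r) (piS n η) v x - Qs K (K * r) (piB n η) v x| +
      (|Qs K (K * r) (piS n η) v x - Qs K' (K' * r) (piS n η) v x| + g3 x)
  have ig : Integrable g (piB n η) := (B1.int_sub bS bB _).add ((B1.int_sub bS bS' _).add (i3 _))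
  have ng : ∀ x, 0 ≤ g x := fun x => add_nonneg (abs_nonneg _) (add_nonneg (abs_nonneg _) (n3 x))
  have jg : 2 / ε * ∫ x, g x ∂piB n η ≤ θ := by
    have b1 := hTv _ _ _ p K (K * r) hP hA t4 p3 K0 (by positivity) v bv
    have b2 := int_cond_le hA t4 p3 (fun x => abs_nonneg _) (B1.int_sub bS bS' (piS n η))
    have b3 := int_cond_le hA t4 p3 n3 (i3 _)
    have b4 := d2 K₁ φ hK₁ hφ r hr
    have b5 : 8 * (K * r) * p ≤ 2 * γ := by
      nlinarith [mul_le_mul_of_nonneg_left hr.2 (mul_pos K0 p0).le]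
    have b6 : ∫ x, g x ∂piB n η ≤ 6 * γ := by
      have e1 := integral_add (B1.int_sub bS bB (piB n η)) ((B1.int_sub bS bS' (piB n η)).add (i3 _))
      have e2 := integral_add (B1.int_sub bS bS' (piB n η)) (i3 _)
      refine (e1.trans (congrArg (_ + ·) e2)).trans_le ?_
      refine (add_le_add (b1.trans b5) (add_le_add (b2.trans (mul_le_mul_of_nonneg_left b4
        zero_le_two)) (b3.trans (mul_le_mul_of_nonneg_left j3 zero_le_two)))).trans_eq (by ring)
    rw [div_mul_eq_mul_div, div_le_iff₀ hε]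
    rw [hγ] at b6
    linarith
  have key : ∀ (S : (Fin n → ℝ) → Prop) (a : ℝ), min a₁ a₂ ≤ a → (∀ x, S x → Xd n η x ≤ δ * a) →
      (piB n η).real {x | S x ∧ ε < |Qs K (K * r) (piB n η) v x - z|} ≤
        2 * (piS n η).real {x | Aq n η ρ x < a} + θ := fun S a ha hS => by
    refine (markov (B := fun x => Aq n η ρ x < a) ng ig hε ?_).trans
      (add_le_add (cond_le hA t4 p3 _) jg)
    filter_upwards [ae_cond_mem (μ := piS n η) hA] with x hx hx1 hx2
    rw [not_lt] at hx2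
    have b1 := hz x ⟨(hS x hx1).trans (mul_le_mul_of_nonneg_left hx2 hδ.le), ha.trans hx2, hx⟩
    have b2 := abs_sub_le (Qs K (K * r) (piB n η) v x) (Qs K (K * r) (piS n η) v x) z
    have b3 := abs_sub_le (Qs K (K * r) (piS n η) v x) (Qs K' (K' * r) (piS n η) v x) z
    rw [abs_sub_comm (Qs K (K * r) (piB n η) v x) (Qs K (K * r) (piS n η) v x)] at b2
    simp only [g]
    linarith
  refine ⟨z, hz1, (key _ a₁ (min_le_left _ _) fun x hx => ?_).trans ?_,
    (key _ a₂ (min_le_right _ _) fun x hx => ?_).trans ?_⟩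
  · rw [ha₁, rp2 (by linarith) hs0, ← hE']
    have b1 : s ^ 2 * Xd n η x ≤ s ^ 2 * (δ * (c₀ * (s⁻¹ * E'))) :=
      hx.trans (hs2.trans (le_of_eq (by field_simp)))
    exact le_of_mul_le_mul_left b1 (by positivity)
  · have b1 : (piS n η).real {x | Aq n η ρ x < a₁} ≤ exp (-(s ^ 3 * E)) := t1 η hη
    have b2 : θ ≤ ε * m₁ / 2 := min_le_left _ _
    exact (add_le_add ((mul_le_mul_of_nonneg_left b1 zero_le_two).trans hH₁) b2).trans_eq
      (add_halves _)
  · rw [ha₂, rp2 (by linarith) two_pos]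
    exact hx.trans (le_of_eq (by ring))
  · have b1 : (piS n η).real {x | Aq n η ρ x < a₂} ≤ exp (-(2 ^ 3 * H)) := t2 η hη
    have b2 : θ ≤ exp (-H) / 2 := min_le_right _ _
    exact (add_le_add ((mul_le_mul_of_nonneg_left b1 zero_le_two).trans hH₂) b2).trans_eq
      (add_halves _)

end Crest.Agent.T157.Cq
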