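import Crest.Agent.T157.CqDef_72

/-!
# Row 157, part C: the round, deterministic part (helper7)

Calculus of the rotation `rot`, and the consequence `kill_geo` of `KillStmt`.
-/

set_option autoImplicit false

noncomputable section

namespace Crest.Agent.T157.Cq.Rd7

open MeasureTheory Matrix Filter Topology Finset Real
open Crest.Agent.T157.E Crest.Agent.T157.Eig Crest.Agent.T157.St Crest.Agent.T157.Ed

variable {n : ℕ} {a b : Fin n → ℝ}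

/-- derivative of the rotation -/
def rd (a b : Fin n → ℝ) (s : ℝ) : Mat n :=
  (-sin s) • (vecMulVec a a + vecMulVec b b) + cos s • (vecMulVec b a - vecMulVec a b)

lemma vv (u v y : Fin n → ℝ) : vecMulVec u v *ᵥ y = (v ⬝ᵥ y) • u := by
  ext i; simp [mulVec, dotProduct, vecMulVec_apply, mul_sum, mul_comm, mul_left_comm]

lemma rot_mulVec (a b : Fin n → ℝ) (s : ℝ) (y : Fin n → ℝ) : rot a b s *ᵥ y =
    y + ((cos s - 1) * (a ⬝ᵥ y) - sin s * (b ⬝ᵥ y)) • a +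
      ((cos s - 1) * (b ⬝ᵥ y) + sin s * (a ⬝ᵥ y)) • b := by
  simp only [rot, add_mulVec, sub_mulVec, smul_mulVec, one_mulVec, vv]
  module

lemma rot_tr (a b : Fin n → ℝ) (s : ℝ) : (rot a b s)ᵀ = rot a b (-s) := by
  simp only [rot, transpose_add, transpose_sub, transpose_smul, transpose_one, transpose_vecMulVec,
    cos_neg, sin_neg]
  module

lemma rot_zero (a b : Fin n → ℝ) : rot a b 0 = 1 := by simp [rot]

lemma rd_mulVec (a b : Fin n → ℝ) (s : ℝ) (y : Fin n → ℝ) : rd a b s *ᵥ y =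
    (-sin s * (a ⬝ᵥ y) - cos s * (b ⬝ᵥ y)) • a + (-sin s * (b ⬝ᵥ y) + cos s * (a ⬝ᵥ y)) • b := by
  simp only [rd, add_mulVec, sub_mulVec, smul_mulVec, vv]
  module

lemma rd_tr_mulVec (a b : Fin n → ℝ) (s : ℝ) (y : Fin n → ℝ) : (rd a b s)ᵀ *ᵥ y =
    (-sin s * (a ⬝ᵥ y) + cos s * (b ⬝ᵥ y)) • a + (-sin s * (b ⬝ᵥ y) - cos s * (a ⬝ᵥ y)) • b := by
  simp only [rd, transpose_add, transpose_sub, transpose_smul, transpose_vecMulVec, add_mulVec,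
    sub_mulVec, smul_mulVec, vv]
  module

lemma hasDerivAt_rot (a b : Fin n → ℝ) (s : ℝ) (i j : Fin n) :
    HasDerivAt (fun s => rot a b s i j) (rd a b s i j) s := by
  simp only [rot, rd, Matrix.add_apply, Matrix.smul_apply, smul_eq_mul]
  have h1 := (((hasDerivAt_cos s).sub_const 1).mul_const
    ((vecMulVec a a + vecMulVec b b) i j)).const_add ((1 : Mat n) i j)
  exact h1.add ((hasDerivAt_sin s).mul_const _)

/-- orthonormal pair -/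
structure ON (a b : Fin n → ℝ) : Prop where
  aa : a ⬝ᵥ a = 1
  bb : b ⬝ᵥ b = 1
  ab : a ⬝ᵥ b = 0

lemma ON.nsq (h : ON a b) (y : Fin n → ℝ) (p q : ℝ) :
    (y + p • a + q • b) ⬝ᵥ (y + p • a + q • b) =
      y ⬝ᵥ y + 2 * p * (a ⬝ᵥ y) + 2 * q * (b ⬝ᵥ y) + p ^ 2 + q ^ 2 := by
  simp only [add_dotProduct, dotProduct_add, smul_dotProduct, dotProduct_smul, smul_eq_mul, h.aa,
    h.bb, h.ab, dotProduct_comm y a, dotProduct_comm y b, dotProduct_comm b a]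
  ring

lemma ON.nsq0 (h : ON a b) (p q : ℝ) : (p • a + q • b) ⬝ᵥ (p • a + q • b) = p ^ 2 + q ^ 2 := by
  simpa using h.nsq 0 p q

lemma ON.rot_nsq (h : ON a b) (s : ℝ) (y : Fin n → ℝ) :
    (rot a b s *ᵥ y) ⬝ᵥ (rot a b s *ᵥ y) = y ⬝ᵥ y := by
  rw [rot_mulVec, h.nsq]
  have := sin_sq_add_cos_sq s
  linear_combination ((a ⬝ᵥ y) ^ 2 + (b ⬝ᵥ y) ^ 2) * this

lemma ON.rot_orth (h : ON a b) (s : ℝ) : rot a b s * (rot a b s)ᵀ = 1 := by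
  have : ∀ y, (rot a b s * (rot a b s)ᵀ) *ᵥ y = y := fun y => by
    rw [← mulVec_mulVec, rot_tr, rot_mulVec, rot_mulVec]
    simp only [dotProduct_add, dotProduct_smul, smul_eq_mul, h.aa, h.bb, h.ab, dotProduct_comm b a,
      cos_neg, sin_neg]
    have := sin_sq_add_cos_sq s
    ext i
    simp only [Pi.add_apply, Pi.smul_apply, smul_eq_mul]
    linear_combination ((a ⬝ᵥ y) * a i + (b ⬝ᵥ y) * b i) * this
  ext i j
  have h1 := congrFun (this (Pi.single j 1)) i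
  rw [mulVec_single_one] at h1
  simpa [one_apply, Pi.single_apply] using h1

lemma dsq_le (u v : Fin n → ℝ) : (u ⬝ᵥ v) ^ 2 ≤ (u ⬝ᵥ u) * (v ⬝ᵥ v) := by
  simpa only [dotProduct, sq] using sum_mul_sq_le_sq_mul_sq univ u v

lemma ns_nonneg (u : Fin n → ℝ) : 0 ≤ u ⬝ᵥ u := sum_nonneg fun _ _ => mul_self_nonneg _

lemma ns_add_le (u v : Fin n → ℝ) : (u + v) ⬝ᵥ (u + v) ≤ 2 * (u ⬝ᵥ u) + 2 * (v ⬝ᵥ v) := by
  have := ns_nonneg (u - v)
  simp only [add_dotProduct, dotProduct_add, sub_dotProduct, dotProduct_sub,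
    dotProduct_comm v u] at this ⊢
  linarith

lemma dot_symm {H : Mat n} (hH : Hᵀ = H) (u v : Fin n → ℝ) : u ⬝ᵥ H *ᵥ v = (H *ᵥ u) ⬝ᵥ v := by
  rw [dotProduct_mulVec, ← mulVec_transpose, hH]

/-- derivative of the conjugate -/
def Nm (a b : Fin n → ℝ) (H : Mat n) (s : ℝ) : Mat n :=
  rd a b s * H * (rot a b s)ᵀ + rot a b s * H * (rd a b s)ᵀ

lemma hasDerivAt_conj (a b : Fin n → ℝ) (H : Mat n) (s : ℝ) (i j : Fin n) :
    HasDerivAt (fun s => (rot a b s * H * (rot a b s)ᵀ) i j) (Nm a b H s i j) s := by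
  simp only [Nm, Matrix.add_apply, mul_apply, transpose_apply, ← sum_add_distrib]
  refine HasDerivAt.fun_sum fun l _ => ?_
  exact (HasDerivAt.fun_sum fun k _ => (hasDerivAt_rot a b s i k).mul_const (H k l)).mul
    (hasDerivAt_rot a b s j l)

lemma ON.Nm_le (h : ON a b) {H : Mat n} (hH : Hᵀ = H) {Λ : ℝ}
    (hΛ : (H *ᵥ a) ⬝ᵥ (H *ᵥ a) + (H *ᵥ b) ⬝ᵥ (H *ᵥ b) ≤ Λ) (s : ℝ) (x : Fin n → ℝ) :
    (Nm a b H s *ᵥ x) ⬝ᵥ (Nm a b H s *ᵥ x) ≤ 4 * ((H *ᵥ a) ⬝ᵥ x) ^ 2 + 4 * ((H *ᵥ b) ⬝ᵥ x) ^ 2 +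
      20 * Λ * ((a ⬝ᵥ x) ^ 2 + (b ⬝ᵥ x) ^ 2) := by
  have sc := sin_sq_add_cos_sq s
  have c1 := neg_one_le_cos s
  set α := a ⬝ᵥ x
  set β := b ⬝ᵥ x
  set A := (H *ᵥ a) ⬝ᵥ (H *ᵥ a)
  set B := (H *ᵥ b) ⬝ᵥ (H *ᵥ b)
  have A0 : 0 ≤ A := ns_nonneg _
  have B0 : 0 ≤ B := ns_nonneg _
  have S0 : 0 ≤ α ^ 2 + β ^ 2 := by positivity
  obtain ⟨d, hd, hdd⟩ : ∃ d, (rot a b s)ᵀ *ᵥ x = x + d ∧ d ⬝ᵥ d ≤ 4 * (α ^ 2 + β ^ 2) := by
    refine ⟨_, by rw [rot_tr, rot_mulVec, add_assoc], ?_⟩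
    rw [h.nsq0, cos_neg, sin_neg]
    have : ((cos s - 1) * α - -sin s * β) ^ 2 + ((cos s - 1) * β + -sin s * α) ^ 2 =
        (2 - 2 * cos s) * (α ^ 2 + β ^ 2) := by linear_combination (α ^ 2 + β ^ 2) * sc
    rw [this]
    exact mul_le_mul_of_nonneg_right (by linarith) S0
  have k : ∀ u : Fin n → ℝ, (u ⬝ᵥ (x + d)) ^ 2 ≤
      2 * (u ⬝ᵥ x) ^ 2 + 8 * (u ⬝ᵥ u) * (α ^ 2 + β ^ 2) := fun u => by
    rw [dotProduct_add]
    have h1 := (dsq_le u d).trans (mul_le_mul_of_nonneg_left hdd (ns_nonneg u))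
    nlinarith [sq_nonneg (u ⬝ᵥ x - u ⬝ᵥ d)]
  have e1 : ((rd a b s * H * (rot a b s)ᵀ) *ᵥ x) ⬝ᵥ ((rd a b s * H * (rot a b s)ᵀ) *ᵥ x) =
      ((H *ᵥ a) ⬝ᵥ (x + d)) ^ 2 + ((H *ᵥ b) ⬝ᵥ (x + d)) ^ 2 := by
    rw [← mulVec_mulVec, ← mulVec_mulVec, hd, rd_mulVec, h.nsq0, dot_symm hH, dot_symm hH]
    linear_combination (((H *ᵥ a) ⬝ᵥ (x + d)) ^ 2 + ((H *ᵥ b) ⬝ᵥ (x + d)) ^ 2) * sc
  have e2 : ((rot a b s * H * (rd a b s)ᵀ) *ᵥ x) ⬝ᵥ ((rot a b s * H * (rd a b s)ᵀ) *ᵥ x) ≤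
      2 * (A + B) * (α ^ 2 + β ^ 2) := by
    rw [← mulVec_mulVec, ← mulVec_mulVec, h.rot_nsq, rd_tr_mulVec, mulVec_add, mulVec_smul,
      mulVec_smul]
    refine (ns_add_le _ _).trans ?_
    simp only [smul_dotProduct, dotProduct_smul, smul_eq_mul]
    set p := -sin s * α + cos s * β
    set q := -sin s * β - cos s * α
    have : p ^ 2 + q ^ 2 = α ^ 2 + β ^ 2 := by
      simp only [p, q]; linear_combination (α ^ 2 + β ^ 2) * sc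
    rw [← this]
    nlinarith [mul_nonneg A0 (sq_nonneg q), mul_nonneg B0 (sq_nonneg p)]
  rw [Nm, add_mulVec]
  refine (ns_add_le _ _).trans ?_
  rw [e1]
  have k1 := k (H *ᵥ a)
  have k2 := k (H *ᵥ b)
  nlinarith [mul_le_mul_of_nonneg_right hΛ S0]

lemma ON.Nm_diag (h : ON a b) {H : Mat n} (hH : Hᵀ = H) {Λ : ℝ}
    (hΛ : (H *ᵥ a) ⬝ᵥ (H *ᵥ a) + (H *ᵥ b) ⬝ᵥ (H *ᵥ b) ≤ Λ) (s : ℝ) :
    ∑ i, Nm a b H s i i ^ 2 ≤ 44 * Λ := by
  have k : ∀ i, Nm a b H s i i ^ 2 ≤ 4 * ((H *ᵥ a) i * (H *ᵥ a) i) + 4 * ((H *ᵥ b) i * (H *ᵥ b) i) +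
      20 * Λ * (a i * a i + b i * b i) := fun i => by
    have h1 := h.Nm_le hH hΛ s (Pi.single i 1)
    simp only [dotProduct_single, mul_one, mulVec_single_one] at h1
    have h2 : Nm a b H s i i ^ 2 ≤ (Nm a b H s).col i ⬝ᵥ (Nm a b H s).col i := by
      rw [sq]
      exact single_le_sum (f := fun k => (Nm a b H s).col i k * (Nm a b H s).col i k)
        (fun k _ => mul_self_nonneg _) (mem_univ i)
    simpa only [sq] using h2.trans h1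
  refine (sum_le_sum fun i _ => k i).trans ?_
  simp only [sum_add_distrib, ← mul_sum]
  have h1 := h.aa
  have h2 := h.bb
  simp only [dotProduct] at h1 h2 hΛ
  rw [h1, h2]
  linarith

/-- the conclusion of `KillStmt` -/
def Kill (D : ℝ) : Prop := ∀ (n : ℕ) (ε θ : ℝ) (W W' : ℝ → Mat n) (V V' : Cube n → ℝ), 1 ≤ n →
  0 < ε → ε ≤ 1 → 0 ≤ θ → (∀ s i j, HasDerivAt (fun s => W s i j) (W' s i j) s) →
  (∀ s, (W s).IsHermitian) → (∀ x, 0 ≤ V x) → (∀ x, 0 ≤ V' x) →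
  (∀ s ∈ Set.Icc 0 (π / 2), ∀ x,
    tau n * ∑ i, ((W' s *ᵥ sv x) i - W' s i i * sv x i) ^ 2 ≤ θ * (V x + 1)) →
  |kap (W (π / 2)) ε (V + V') - kap (W 0) ε (V + V')| ≤ D * √θ

/-- `Ĥ = τ (2 - W)` -/
def Hm (n : ℕ) (W : Mat n) : Mat n := tau n • ((2 : ℝ) • (1 : Mat n) - W)

lemma Hm_tr {W : Mat n} (hW : W.IsHermitian) : (Hm n W)ᵀ = Hm n W := by
  have : Wᵀ = W := by simpa using hW.eq
  simp [Hm, transpose_sub, this]

theorem kill_geo {D : ℝ} (hK : Kill D) (hn : 1 ≤ n) {ε θ Λ : ℝ} (hε : 0 < ε) (hε1 : ε ≤ 1)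
    (hθ : 0 ≤ θ) {W : Mat n} (hW : W.IsHermitian) (h : ON a b)
    (hΛ : (Hm n W *ᵥ a) ⬝ᵥ (Hm n W *ᵥ a) + (Hm n W *ᵥ b) ⬝ᵥ (Hm n W *ᵥ b) ≤ Λ)
    (hτ : 88 * Λ ≤ θ * tau n) {V V' : Cube n → ℝ} (hV : ∀ x, 0 ≤ V x) (hV' : ∀ x, 0 ≤ V' x)
    (hb : ∀ x, 8 * sl (Hm n W *ᵥ a) x + 8 * sl (Hm n W *ᵥ b) x + 40 * Λ * (sl a x + sl b x) ≤
      θ * V x) :
    kap (rot a b (π / 2) * W * (rot a b (π / 2))ᵀ) ε (V + V') ≤ kap W ε (V + V') + D * √θ := by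
  have t0 := tau_pos hn
  have s0 := sx_pos hn
  have hH := Hm_tr hW
  set H := Hm n W with hHd
  have hWH : W = (2 : ℝ) • (1 : Mat n) - (tau n)⁻¹ • H := by
    rw [hHd, Hm, smul_smul, inv_mul_cancel₀ t0.ne', one_smul, sub_sub_cancel]
  have key := hK n ε θ (fun s => (2 : ℝ) • (1 : Mat n) - (tau n)⁻¹ • (rot a b s * H * (rot a b s)ᵀ))
    (fun s => -(tau n)⁻¹ • Nm a b H s) V V' hn hε hε1 hθ (fun s i j => ?_) (fun s => ?_) hV hV'
    fun s _ x => ?_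
  · simp only [rot_zero, transpose_one, Matrix.one_mul, Matrix.mul_one, ← hWH] at key
    have : rot a b (π / 2) * W * (rot a b (π / 2))ᵀ = (2 : ℝ) • (1 : Mat n) -
        (tau n)⁻¹ • (rot a b (π / 2) * H * (rot a b (π / 2))ᵀ) := by
      rw [hWH, Matrix.mul_sub, Matrix.sub_mul, Matrix.mul_smul, Matrix.mul_smul, Matrix.smul_mul,
        Matrix.smul_mul, Matrix.mul_one, h.rot_orth]
    rw [this]
    linarith [(abs_le.1 key).2]
  · simp only [Matrix.sub_apply, Matrix.smul_apply, smul_eq_mul, neg_mul]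
    exact ((hasDerivAt_conj a b H s i j).const_mul _).const_sub _
  · rw [IsHermitian, conjTranspose_eq_transpose_of_trivial]
    simp only [transpose_sub, transpose_smul, transpose_one, transpose_mul, transpose_transpose, hH,
      Matrix.mul_assoc]
  · have hs : sv x = sx n ^ 2 • hat n x := by
      rw [hat, smul_smul, mul_inv_cancel₀ (by positivity), one_smul]
    have h1 := h.Nm_le hH hΛ s (hat n x)
    have h2 := h.Nm_diag hH hΛ s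
    set N := Nm a b H s
    have h3 : ∀ i, (((-(tau n)⁻¹ • N) *ᵥ sv x) i - (-(tau n)⁻¹ • N) i i * sv x i) ^ 2 ≤
        (tau n)⁻¹ * (2 * ((N *ᵥ hat n x) i * (N *ᵥ hat n x) i) + 2 * (tau n)⁻¹ * N i i ^ 2) :=
      fun i => by
      have e1 : sv x i ^ 2 = 1 := spin_sq _
      have e2 : ((-(tau n)⁻¹ • N) *ᵥ sv x) i = -(tau n)⁻¹ * (sx n ^ 2 * (N *ᵥ hat n x) i) := by
        rw [hs, smul_mulVec, mulVec_smul]; rfl
      have e3 : (tau n)⁻¹ * (sx n ^ 2) ^ 2 = 1 := by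
        rw [tau_eq, ← pow_mul, inv_mul_cancel₀ (by positivity)]
      rw [e2, Matrix.smul_apply, smul_eq_mul]
      set t := (tau n)⁻¹
      set y := (N *ᵥ hat n x) i
      have e4 : t * (2 * (y * y) + 2 * t * N i i ^ 2) =
          2 * (t * (sx n ^ 2 * y)) ^ 2 + 2 * (t * N i i * sv x i) ^ 2 := by
        linear_combination (-2 * t * y ^ 2) * e3 - 2 * t ^ 2 * N i i ^ 2 * e1
      rw [e4]
      nlinarith [sq_nonneg (t * (sx n ^ 2 * y) + t * N i i * sv x i)]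
    refine (mul_le_mul_of_nonneg_left (sum_le_sum fun i _ => h3 i) t0.le).trans ?_
    rw [← mul_sum, ← mul_assoc, mul_inv_cancel₀ t0.ne', one_mul, sum_add_distrib, ← mul_sum,
      ← mul_sum]
    have h4 : (tau n)⁻¹ * ∑ i, N i i ^ 2 ≤ θ / 2 := by
      rw [inv_mul_le_iff₀ t0]; linarith
    have h5 := hb x
    simp only [sl] at h5
    simp only [dotProduct] at h1 h5
    linarith

end Crest.Agent.T157.Cq.Rd7

end
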