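import Crest.Agent.T157.CqRdA_7

/-!
# Row 157, part C: the round, Gaussian tools and the pointwise inequality (helper7)
-/

set_option autoImplicit false

noncomputable section

namespace Crest.Agent.T157.Cq.Rd7

open MeasureTheory ProbabilityTheory Matrix Filter Topology Finset Real
open Crest.Agent.T157.E Crest.Agent.T157.Eig Crest.Agent.T157.St Crest.Agent.T157.Ed
open Crest.Agent.T157.Cond (unitv len len_sq unitv_dot unitv_cases len_smul_unitv CF CF_gv)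
open Crest.Agent.T157.Tr (Om)

variable {n : ℕ}

/-! ### Gaussian vectors -/

lemma map_unit {e : Fin n → ℝ} (he : e ⬝ᵥ e = 1) :
    (gv (Fin n)).map (fun x => e ⬝ᵥ x) = gaussianReal 0 1 := by
  have hm : Measurable fun x : Fin n → ℝ => e ⬝ᵥ x := by fun_prop
  refine Measure.ext_of_charFun (funext fun t => ?_)
  have h1 := CF_gv (t • e)
  rw [charFun_gaussianReal, charFun_apply_real, integral_map hm.aemeasurable (by fun_prop)]
  simp only [CF, smul_dotProduct, dotProduct_smul, he, smul_eq_mul] at h1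
  convert h1 using 2
  · push_cast; rfl
  · push_cast; simp; ring

lemma mp_unit {e : Fin n → ℝ} (he : e ⬝ᵥ e = 1) :
    MeasurePreserving (fun x => e ⬝ᵥ x) (gv (Fin n)) (gaussianReal 0 1) :=
  ⟨by fun_prop, map_unit he⟩

lemma dot_sq_eq (v x : Fin n → ℝ) : (v ⬝ᵥ x) ^ 2 = v ⬝ᵥ v * (unitv v ⬝ᵥ x) ^ 2 := by
  rw [← len_sq, ← mul_pow, ← smul_eq_mul, ← smul_dotProduct, len_smul_unitv]

lemma int_dot_sq (v : Fin n → ℝ) : Integrable (fun x => (v ⬝ᵥ x) ^ 2) (gv (Fin n)) ∧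
    ∫ x, (v ⬝ᵥ x) ^ 2 ∂gv (Fin n) = v ⬝ᵥ v := by
  rcases eq_or_ne v 0 with rfl | hv
  · simp
  have h := mp_unit (unitv_dot hv)
  simp only [dot_sq_eq v]
  refine ⟨(((memLp_id_gaussianReal (μ := 0) (v := 1) 2).comp_measurePreserving
    h).integrable_sq).const_mul _, ?_⟩
  have h2 : ∫ t, t ^ 2 ∂gaussianReal 0 1 = 1 := by
    have h3 := variance_fun_id_gaussianReal (μ := 0) (v := 1)
    rw [variance_eq_integral aemeasurable_id'] at h3
    simpa using h3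
  rw [← h.map_eq, integral_map h.measurable.aemeasurable (by fun_prop)] at h2
  rw [integral_const_mul, h2, mul_one]

lemma markov {α : Type*} [MeasurableSpace α] {μ : Measure α} [IsFiniteMeasure μ] {X : α → ℝ}
    (hX : Integrable X μ) (h0 : ∀ x, 0 ≤ X x) {t M : ℝ} (ht : ∫ x, X x ∂μ ≤ t) (hM : 0 < M) :
    μ {x | M * t < X x} ≤ ENNReal.ofReal M⁻¹ := by
  have i0 : 0 ≤ ∫ x, X x ∂μ := integral_nonneg h0
  rcases (i0.trans ht).eq_or_lt with rfl | t0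
  · have := (integral_eq_zero_iff_of_nonneg h0 hX).1 (le_antisymm ht i0)
    refine le_of_eq_of_le (measure_mono_null (fun x hx => ?_) (ae_iff.1 this)) zero_le
    rw [Set.mem_ofPred_eq, mul_zero] at hx
    exact hx.ne'
  · have h := mul_meas_ge_le_integral_of_nonneg (ae_of_all _ h0) hX (M * t)
    refine (measure_mono (t := {x | M * t ≤ X x}) fun x (hx : M * t < X x) => hx.le).trans ?_
    rw [← ofReal_measureReal]
    refine ENNReal.ofReal_le_ofReal ?_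
    rw [← one_div, le_div_iff₀ hM]
    nlinarith

lemma ns_mulVec (F : Mat n) (x : Fin n → ℝ) :
    (F *ᵥ x) ⬝ᵥ (F *ᵥ x) = ∑ i, (F i ⬝ᵥ x) ^ 2 := by simp only [dotProduct, mulVec, sq]

lemma tr_mul_tr (F : Mat n) : (F * Fᵀ).trace = ∑ i, F i ⬝ᵥ F i := by
  simp only [trace, diag_apply, mul_apply, transpose_apply, dotProduct]

lemma markov_dot (v : Fin n → ℝ) {t M : ℝ} (ht : v ⬝ᵥ v ≤ t) (hM : 0 < M) :
    gv (Fin n) {x | M * t < (v ⬝ᵥ x) ^ 2} ≤ ENNReal.ofReal M⁻¹ :=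
  markov (int_dot_sq v).1 (fun _ => sq_nonneg _) ((int_dot_sq v).2.trans_le ht) hM

lemma markov_vec (F : Mat n) {M : ℝ} (hM : 0 < M) :
    gv (Fin n) {x | M * (F * Fᵀ).trace < (F *ᵥ x) ⬝ᵥ (F *ᵥ x)} ≤ ENNReal.ofReal M⁻¹ := by
  simp only [ns_mulVec]
  refine markov (integrable_finsetSum _ fun i _ => (int_dot_sq _).1)
    (fun _ => sum_nonneg fun _ _ => sq_nonneg _) (le_of_eq ?_) hM
  rw [tr_mul_tr]
  exact (integral_finsetSum _ fun i _ => (int_dot_sq (F i)).1).trans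
    (sum_congr rfl fun i _ => (int_dot_sq _).2)

lemma int_exp_sq {c : ℝ} (hc : 0 < c) : ∫ t, exp (-c * t ^ 2) ∂gaussianReal 0 1 ≤ √(π / c) := by
  rw [integral_gaussianReal_eq_integral_smul one_ne_zero, ← integral_gaussian]
  refine integral_mono_of_nonneg (ae_of_all _ fun t => mul_nonneg (gaussianPDFReal_nonneg _ _ _)
    (exp_pos _).le) (integrable_exp_neg_mul_sq hc) (ae_of_all _ fun t => ?_)
  refine mul_le_of_le_one_left (exp_pos _).le ?_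
  rw [gaussianPDFReal]
  refine mul_le_one₀ (inv_le_one_of_one_le₀ (one_le_sqrt.2 ?_)) (exp_pos _).le (exp_le_one_iff.2 ?_)
  · have := pi_gt_three; push_cast; linarith
  · exact div_nonpos_of_nonpos_of_nonneg (neg_nonpos.2 (sq_nonneg _)) (by positivity)

lemma small_ball {z : ℝ} (hz : 0 < z) (F : Mat n) :
    gv (Fin n) {x | (F *ᵥ x) ⬝ᵥ (F *ᵥ x) < z ^ 2 / 36 * (F * Fᵀ).trace} ≤ ENNReal.ofReal z := by
  set m := (F * Fᵀ).trace with hm
  have m0 : 0 ≤ m := by rw [hm, tr_mul_tr]; exact sum_nonneg fun i _ => ns_nonneg _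
  rcases m0.eq_or_lt with h | m0
  · rw [← h, mul_zero]
    simp [(ns_nonneg _).not_gt]
  set c := 36 / z ^ 2 with hc
  have c0 : 0 < c := by positivity
  set X : (Fin n → ℝ) → ℝ := fun x => ∑ i, F i ⬝ᵥ F i / m * exp (-c * (unitv (F i) ⬝ᵥ x) ^ 2)
  have w0 : ∀ i, 0 ≤ F i ⬝ᵥ F i / m := fun i => div_nonneg (ns_nonneg _) m0.le
  have w1 : ∑ i, F i ⬝ᵥ F i / m = 1 := by rw [← sum_div, ← tr_mul_tr, div_self m0.ne']
  have I : ∀ i, Integrable (fun x => exp (-c * (unitv (F i) ⬝ᵥ x) ^ 2)) (gv (Fin n)) := fun i =>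
    .of_bound (Measurable.aestronglyMeasurable (by fun_prop)) 1 (ae_of_all _ fun x => by
      rw [norm_eq_abs, abs_of_pos (exp_pos _), exp_le_one_iff]
      nlinarith [sq_nonneg (unitv (F i) ⬝ᵥ x)])
  have hI : ∫ x, X x ∂gv (Fin n) ≤ z / 3 := by
    rw [integral_finsetSum _ fun i _ => (I i).const_mul _, ← one_mul (z / 3), ← w1, sum_mul]
    refine sum_le_sum fun i _ => ?_
    rw [integral_const_mul]
    rcases eq_or_ne (F i) 0 with h | h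
    · simp [h]
    refine mul_le_mul_of_nonneg_left ?_ (w0 i)
    have h1 := mp_unit (unitv_dot h)
    have h2 := int_exp_sq c0
    rw [← h1.map_eq, integral_map h1.measurable.aemeasurable (by fun_prop)] at h2
    refine h2.trans (sqrt_le_iff.2 ⟨by positivity, ?_⟩)
    rw [hc, div_div_eq_mul_div]
    nlinarith [pi_le_four, sq_nonneg z]
  have := markov (integrable_finsetSum _ fun i _ => (I i).const_mul _)
    (fun x => sum_nonneg fun i _ => mul_nonneg (w0 i) (exp_pos _).le) hI (inv_pos.2 hz)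
  rw [inv_inv] at this
  refine le_trans (measure_mono fun x hx => ?_) this
  rw [Set.mem_ofPred_eq] at hx ⊢
  have h1 := convexOn_exp.map_sum_le (t := univ) (p := fun i => -c * (unitv (F i) ⬝ᵥ x) ^ 2)
    (fun i _ => w0 i) w1 fun _ _ => trivial
  simp only [smul_eq_mul] at h1
  refine lt_of_lt_of_le ?_ h1
  have h2 : ∑ i, F i ⬝ᵥ F i / m * (-c * (unitv (F i) ⬝ᵥ x) ^ 2) =
      -(c / m * ((F *ᵥ x) ⬝ᵥ (F *ᵥ x))) := by
    rw [ns_mulVec, mul_sum, ← sum_neg_distrib]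
    exact sum_congr rfl fun i _ => by rw [dot_sq_eq (F i)]; ring
  have h3 : c / m * ((F *ᵥ x) ⬝ᵥ (F *ᵥ x)) ≤ 1 := by
    refine (mul_le_mul_of_nonneg_left hx.le (by positivity)).trans (le_of_eq ?_)
    rw [hc]; field_simp
  rw [h2]
  refine lt_of_lt_of_le ?_ (exp_le_exp.2 (neg_le_neg h3))
  rw [show z⁻¹ * (z / 3) = 3⁻¹ by field_simp, exp_neg]
  exact inv_strictAnti₀ (exp_pos _) exp_one_lt_three

/-! ### product sets -/

lemma prod_le {α β : Type*} [MeasurableSpace α] [MeasurableSpace β] {μ : Measure α} {ν : Measure β}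
    [IsProbabilityMeasure μ] [SFinite ν] {S : Set (α × β)} (hS : MeasurableSet S) {c : ENNReal}
    (h : ∀ x, ν (Prod.mk x ⁻¹' S) ≤ c) : μ.prod ν S ≤ c := by
  rw [Measure.prod_apply hS]
  simpa using lintegral_mono (μ := μ) h

lemma prod_le' {α β : Type*} [MeasurableSpace α] [MeasurableSpace β] {μ : Measure α}
    {ν : Measure β} [SFinite μ] [IsProbabilityMeasure ν] {S : Set (α × β)} (hS : MeasurableSet S)
    {c : ENNReal} (h : ∀ y, μ ((fun x => (x, y)) ⁻¹' S) ≤ c) : μ.prod ν S ≤ c := by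
  rw [Measure.prod_apply_symm hS]
  simpa using lintegral_mono (μ := ν) h

/-- sample space of the swap -/
abbrev QS (n : ℕ) : Type := Om n × (Fin n → ℝ) × (Fin n → ℝ)
/-- its law -/
abbrev QQ (b : Bool) (n : ℕ) : Measure (QS n) := (PB b n).prod ((gv (Fin n)).prod (gv (Fin n)))

lemma bad_fst {b : Bool} {S : Set (QS n)} (hS : MeasurableSet S) {c : ENNReal}
    (h : ∀ p y, gv (Fin n) {x | (p, x, y) ∈ S} ≤ c) : QQ b n S ≤ c :=
  prod_le hS fun p => prod_le' (measurable_prodMk_left hS) (h p)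

lemma bad_snd {b : Bool} {S : Set (QS n)} (hS : MeasurableSet S) {c : ENNReal}
    (h : ∀ p x, gv (Fin n) {y | (p, x, y) ∈ S} ≤ c) : QQ b n S ≤ c :=
  prod_le hS fun p => prod_le (measurable_prodMk_left hS) (h p)

/-! ### the cutoff -/

lemma exists_om {x₀ x₁ y₁ M : ℝ} (hx : 0 < x₀) (hM : 0 < M) : ∃ ω : (Fin 3 → ℝ) → ℝ,
    ContDiff ℝ (⊤ : ℕ∞) ω ∧ HasCompactSupport ω ∧
    tsupport ω ⊆ {q | 0 < q 0 ∧ q 2 ^ 2 < q 0 * q 1} ∧ (∀ q, |ω q| ≤ 1) ∧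
    ∀ u v w : ℝ, x₀ ≤ u → u ≤ x₁ → 2 * M ≤ v → v ≤ y₁ → w ^ 2 ≤ M * u → ω ![u, v, w] = 1 := by
  set K : Set (Fin 3 → ℝ) := {q | x₀ ≤ q 0 ∧ q 0 ≤ x₁ ∧ 2 * M ≤ q 1 ∧ q 1 ≤ y₁ ∧ q 2 ^ 2 ≤ M * q 0}
  have hc : IsClosed K := (isClosed_le (by fun_prop) (by fun_prop)).and <|
    (isClosed_le (by fun_prop) (by fun_prop)).and <| (isClosed_le (by fun_prop) (by fun_prop)).and <|
    (isClosed_le (by fun_prop) (by fun_prop)).and (isClosed_le (by fun_prop) (by fun_prop))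
  have hK : IsCompact K := by
    refine (isCompact_Icc (a := ![x₀, 2 * M, -(M * x₁ + 1)]) (b := ![x₁, y₁, M * x₁ + 1])).of_isClosed_subset
      hc fun q ⟨h1, h2, h3, h4, h5⟩ => ?_
    have h6 : q 2 ^ 2 ≤ M * x₁ := h5.trans (mul_le_mul_of_nonneg_left h2 hM.le)
    constructor <;> intro i <;> fin_cases i <;> simp <;> nlinarith [sq_nonneg (q 2 - 1), sq_nonneg (q 2 + 1)]
  have hU : IsOpen {q : Fin 3 → ℝ | 0 < q 0 ∧ q 2 ^ 2 < q 0 * q 1} :=
    (isOpen_lt (by fun_prop) (by fun_prop)).and (isOpen_lt (by fun_prop) (by fun_prop))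
  obtain ⟨O, hO, h1, h2, h3⟩ := exists_open_between_and_isCompact_closure hK hU
    fun q ⟨h1, _, h3, _, h5⟩ => ⟨by linarith, by nlinarith⟩
  obtain ⟨f, f0, f1, f2⟩ := exists_contMDiffMap_zero_one_of_isClosed (n := ⊤)
    (modelWithCornersSelf ℝ (Fin 3 → ℝ)) hO.isClosed_compl hc (Set.disjoint_compl_left_iff_subset.2 h1)
  have hs : tsupport f ⊆ closure O := closure_mono fun q hq => by
    by_contra h; exact hq (f0 h)
  refine ⟨f, f.contMDiff.contDiff, h3.of_isClosed_subset isClosed_closure hs, hs.trans h2,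
    fun q => abs_le.2 ⟨by linarith [(f2 q).1], (f2 q).2⟩, fun u v w a1 a2 a3 a4 a5 => f1 ?_⟩
  exact ⟨a1, a2, a3, a4, a5⟩

/-! ### killing probabilities -/

section kap
variable (hk : KapStmt) (hn : 1 ≤ n) {ε : ℝ} (hε : 0 < ε) (W : Mat n) {V V' : Cube n → ℝ}
include hk hn hε

lemma k0 (h : ∀ x, 0 ≤ V x) : 0 ≤ kap W ε V := ((hk n W ε hn hε).1 V V h h).1
lemma k1 (h : ∀ x, 0 ≤ V x) : kap W ε V ≤ 1 := ((hk n W ε hn hε).1 V V h h).2.1
lemma kadd (h : ∀ x, 0 ≤ V x) (h' : ∀ x, 0 ≤ V' x) :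
    kap W ε (V + V') ≤ kap W ε V + kap W ε V' := ((hk n W ε hn hε).1 V V' h h').2.2.2.2
lemma kmono (h : ∀ x, 0 ≤ V x) (h' : ∀ x, V x ≤ V' x) : kap W ε V ≤ kap W ε V' := by
  simpa using ((hk n W ε hn hε).1 V (V' - V) h fun x => sub_nonneg.2 (h' x)).2.2.2.1

end kap

lemma sl0 (a : Fin n → ℝ) (x : Cube n) : 0 ≤ sl a x := sq_nonneg _

lemma csl {c : ℝ} (hc : 0 ≤ c) (a : Fin n → ℝ) (x : Cube n) : 0 ≤ c * sl a x :=
  mul_nonneg hc (sl0 a x)

/-- **the pointwise inequality** -/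
theorem core (hk : KapStmt) {D : ℝ} (hK : Kill D) (hn : 1 ≤ n) {ε θ s Λ A B M : ℝ} (hε : 0 < ε)
    (hε1 : ε ≤ 1) (hθ : 0 < θ) (hs : 0 ≤ s) (hΛ : 0 ≤ Λ) (hA : 0 < A) (hM : 0 < M) (hB : M ≤ B)
    {W : Mat n} (hW : W.IsHermitian) {a b : Fin n → ℝ} (ha : A ≤ a ⬝ᵥ a) (hb : 2 * B ≤ b ⬝ᵥ b)
    (hab : (a ⬝ᵥ b) ^ 2 ≤ M * (a ⬝ᵥ a)) (hHa : (Hm n W *ᵥ a) ⬝ᵥ (Hm n W *ᵥ a) ≤ Λ * A)
    (hHb : (Hm n W *ᵥ b) ⬝ᵥ (Hm n W *ᵥ b) ≤ Λ * B) (hτ : 440 * Λ ≤ θ * tau n) :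
    kap W ε (fun x => s * sl (unitv a) x) ≤ swp ε s W a b + D * √θ +
      (kap W ε (fun x => 24 / (θ * A) * sl (Hm n W *ᵥ a) x) +
      kap W ε (fun x => 16 / (θ * B) * sl (Hm n W *ᵥ b) x) +
      kap W ε (fun x => 600 * Λ / (θ * A) * sl a x) + kap W ε (fun x => 400 * Λ / (θ * B) * sl b x) +
      (kap W ε (fun x => 2 * s * M / (A * B) * sl a x) + kap W ε fun x => 2 * s / B * sl b x)) := by
  have B0 : 0 < B := hM.trans_le hB
  have a0 : 0 < a ⬝ᵥ a := hA.trans_le ha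
  set r := (a ⬝ᵥ b) / (a ⬝ᵥ a) with hr
  set c := b - r • a with hc
  have hr2 : r ^ 2 ≤ M / A := by
    rw [hr, div_pow, div_le_div_iff₀ (by positivity) hA]
    nlinarith [mul_le_mul_of_nonneg_left ha (sq_nonneg (a ⬝ᵥ b)), mul_le_mul_of_nonneg_right hab a0.le]
  have hac : a ⬝ᵥ c = 0 := by
    rw [hc, dotProduct_sub, dotProduct_smul, smul_eq_mul, hr, div_mul_cancel₀ _ a0.ne', sub_self]
  have hcc : B ≤ c ⬝ᵥ c := by
    have e : c ⬝ᵥ c = b ⬝ᵥ b - (a ⬝ᵥ b) ^ 2 / (a ⬝ᵥ a) := by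
      nth_rewrite 1 [hc]
      rw [sub_dotProduct, smul_dotProduct, hac, smul_zero, sub_zero, hc, dotProduct_sub,
        dotProduct_smul, smul_eq_mul, hr, dotProduct_comm b a]
      ring
    have : (a ⬝ᵥ b) ^ 2 / (a ⬝ᵥ a) ≤ M := (div_le_iff₀ a0).2 hab
    linarith
  have hon : ON (unitv a) (prp a b) :=
    ⟨unitv_dot fun h => by simp [h] at a0, unitv_dot fun h : c = 0 => by
      rw [h, dotProduct_zero] at hcc; linarith, by
      rw [prp, unitv, unitv, smul_dotProduct, dotProduct_smul, ← hr, ← hc, hac]; simp⟩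
  have i1 : (len a)⁻¹ ^ 2 ≤ A⁻¹ := by rw [inv_pow, len_sq]; exact inv_anti₀ hA ha
  have i2 : (len c)⁻¹ ^ 2 ≤ B⁻¹ := by rw [inv_pow, len_sq]; exact inv_anti₀ B0 hcc
  have hMB : M / A * B⁻¹ ≤ A⁻¹ := by
    rw [div_mul_eq_mul_div, div_le_iff₀ hA, inv_mul_cancel₀ hA.ne', mul_inv_le_iff₀ B0, one_mul]
    exact hB
  have j1 : ∀ u : ℝ, ((len a)⁻¹ * u) ^ 2 ≤ A⁻¹ * u ^ 2 := fun u => by
    rw [mul_pow]; exact mul_le_mul_of_nonneg_right i1 (sq_nonneg _)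
  have j2 : ∀ u v : ℝ, ((len c)⁻¹ * (v - r * u)) ^ 2 ≤
      2 * B⁻¹ * v ^ 2 + 2 * (M / A * B⁻¹) * u ^ 2 := fun u v => by
    rw [mul_pow]
    have h1 : (v - r * u) ^ 2 ≤ 2 * v ^ 2 + 2 * (M / A) * u ^ 2 := by
      nlinarith [sq_nonneg (v + r * u), mul_le_mul_of_nonneg_right hr2 (sq_nonneg u)]
    refine (mul_le_mul i2 h1 (sq_nonneg _) (by positivity)).trans (le_of_eq (by ring))
  have j3 : ∀ u v : ℝ, ((len c)⁻¹ * (v - r * u)) ^ 2 ≤ 2 * B⁻¹ * v ^ 2 + 2 * A⁻¹ * u ^ 2 :=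
    fun u v => (j2 u v).trans (by nlinarith [mul_le_mul_of_nonneg_right hMB (sq_nonneg u)])
  set H := Hm n W
  have e1 : H *ᵥ unitv a = (len a)⁻¹ • H *ᵥ a := mulVec_smul _ _ _
  have e2 : H *ᵥ prp a b = (len c)⁻¹ • (H *ᵥ b - r • H *ᵥ a) := by
    rw [prp, unitv, mulVec_smul, mulVec_sub, mulVec_smul]
  have hL : (H *ᵥ unitv a) ⬝ᵥ (H *ᵥ unitv a) + (H *ᵥ prp a b) ⬝ᵥ (H *ᵥ prp a b) ≤ 5 * Λ := by
    have q1 : (H *ᵥ unitv a) ⬝ᵥ (H *ᵥ unitv a) ≤ A⁻¹ * ((H *ᵥ a) ⬝ᵥ (H *ᵥ a)) := by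
      rw [e1, dotProduct, dotProduct, mul_sum]
      exact sum_le_sum fun i _ => by simpa only [sq] using! j1 ((H *ᵥ a) i)
    have q2 : (H *ᵥ prp a b) ⬝ᵥ (H *ᵥ prp a b) ≤
        2 * B⁻¹ * ((H *ᵥ b) ⬝ᵥ (H *ᵥ b)) + 2 * A⁻¹ * ((H *ᵥ a) ⬝ᵥ (H *ᵥ a)) := by
      rw [e2, dotProduct, dotProduct, dotProduct, mul_sum, mul_sum, ← sum_add_distrib]
      exact sum_le_sum fun i _ => by simpa only [sq] using! j3 ((H *ᵥ a) i) ((H *ᵥ b) i)
    have q3 : A⁻¹ * ((H *ᵥ a) ⬝ᵥ (H *ᵥ a)) ≤ Λ := by rw [inv_mul_le_iff₀ hA]; linarith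
    have q4 : B⁻¹ * ((H *ᵥ b) ⬝ᵥ (H *ᵥ b)) ≤ Λ := by rw [inv_mul_le_iff₀ B0]; linarith
    linarith
  have s1 : ∀ x, sl (unitv a) x ≤ A⁻¹ * sl a x := fun x => by
    rw [sl, unitv, smul_dotProduct]; exact j1 _
  have s2 : ∀ x, sl (prp a b) x ≤ 2 * B⁻¹ * sl b x + 2 * (M / A * B⁻¹) * sl a x := fun x => by
    rw [sl, prp, unitv, smul_dotProduct, sub_dotProduct, smul_dotProduct]; exact j2 _ _
  have s3 : ∀ x, sl (H *ᵥ unitv a) x ≤ A⁻¹ * sl (H *ᵥ a) x := fun x => by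
    rw [sl, e1, smul_dotProduct]; exact j1 _
  have s4 : ∀ x, sl (H *ᵥ prp a b) x ≤ 2 * B⁻¹ * sl (H *ᵥ b) x + 2 * A⁻¹ * sl (H *ᵥ a) x :=
    fun x => by rw [sl, e2, smul_dotProduct, sub_dotProduct, smul_dotProduct]; exact j3 _ _
  have p1 := csl (c := 24 / (θ * A)) (by positivity) (H *ᵥ a)
  have p2 := csl (c := 16 / (θ * B)) (by positivity) (H *ᵥ b)
  have p3 := csl (c := 600 * Λ / (θ * A)) (by positivity) a
  have p4 := csl (c := 400 * Λ / (θ * B)) (by positivity) b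
  have p5 := csl (c := 2 * s * M / (A * B)) (by positivity) a
  have p6 := csl (c := 2 * s / B) (by positivity) b
  have p12 := fun x => add_nonneg (p1 x) (p2 x)
  have p13 := fun x => add_nonneg (p12 x) (p3 x)
  have p14 := fun x => add_nonneg (p13 x) (p4 x)
  have p0 := csl hs (prp a b)
  have key := kill_geo hK hn hε hε1 hθ.le hW hon hL (by linarith) p14 p0 fun x => by
    have t1 := s1 x
    have t2 := (s2 x).trans (add_le_add le_rfl (mul_le_mul_of_nonneg_right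
      (mul_le_mul_of_nonneg_left hMB zero_le_two) (sl0 a x)))
    have t3 := mul_le_mul_of_nonneg_left (add_le_add t1 t2) hΛ
    have : θ * (24 / (θ * A) * sl (H *ᵥ a) x + 16 / (θ * B) * sl (H *ᵥ b) x +
        600 * Λ / (θ * A) * sl a x + 400 * Λ / (θ * B) * sl b x) =
        24 * (A⁻¹ * sl (H *ᵥ a) x) + 16 * (B⁻¹ * sl (H *ᵥ b) x) + 600 * (Λ * (A⁻¹ * sl a x)) +
          400 * (Λ * (B⁻¹ * sl b x)) := by field_simp
    rw [this]
    linarith [s3 x, s4 x]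
  have u1 := kmono hk hn hε (rot (unitv a) (prp a b) (π / 2) * W * (rot (unitv a) (prp a b) (π / 2))ᵀ)
    p0 fun x => le_add_of_nonneg_left (p14 x)
  have u2 := kadd hk hn hε W p14 p0
  have u3 := kadd hk hn hε W p13 p4
  have u4 := kadd hk hn hε W p12 p3
  have u5 := kadd hk hn hε W p1 p2
  have u6 := (kmono hk hn hε W p0 (V' := (fun x => 2 * s * M / (A * B) * sl a x) +
    fun x => 2 * s / B * sl b x) fun x => (mul_le_mul_of_nonneg_left (s2 x) hs).trans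
      (le_of_eq (by simp only [Pi.add_apply]; field_simp; ring))).trans (kadd hk hn hε W p5 p6)
  simp only [Pi.add_def] at key u1 u2 u3 u4 u5
  rw [swp]
  linarith

end Crest.Agent.T157.Cq.Rd7

end
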