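import Crest.Agent.T157.CqDef_72
import Crest.Agent.T157.StLnk_10

/-!
# Row 157, part C (helper59): spectral windows, `Cq.P0Glue` and `Cq.Q3Glue`
-/

set_option autoImplicit false

noncomputable section

namespace Crest.Agent.T157.Cq

open MeasureTheory ProbabilityTheory Matrix Filter Topology Finset Real
open Crest.ProbabilityR.SpinGlassDynamics Crest.Agent.T157.E Crest.Agent.T157.Eig
open Crest.Agent.T157.St Crest.Agent.T157.Ed
open Crest.Agent.T157.Tr (Off Om PM)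
open Crest.Agent.T157.Soft (Pn unif)
open Crest.Agent.T157.Q1 (Down DownStmt LdB)

namespace Win59

variable {n : ℕ}

/-! ### the window functions -/

/-- the scalar window function -/
def fw (l t : ℝ) : ℝ := l ^ 2 / (t ^ 2 + l ^ 2)

lemma fw_nonneg (l t : ℝ) : 0 ≤ fw l t := by unfold fw; positivity

lemma fw_le_one (l t : ℝ) : fw l t ≤ 1 :=
  div_le_one_of_le₀ (by nlinarith [sq_nonneg t]) (by positivity)

lemma half_le_fw {l t : ℝ} (hl : 0 < l) (h : t ^ 2 ≤ l ^ 2) : 1 / 2 ≤ fw l t := by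
  rw [fw, div_le_div_iff₀ two_pos (by positivity)]
  linarith

lemma fw_le_div {l l' t : ℝ} (hl' : 0 < l') (h : l' ^ 2 ≤ t ^ 2) : fw l t ≤ l ^ 2 / l' ^ 2 :=
  div_le_div_of_nonneg_left (sq_nonneg l) (by positivity) (by nlinarith [sq_nonneg l])

lemma fw_tail {l L t : ℝ} (hL : 0 < L) (h : L ^ 2 ≤ t ^ 2) :
    fw l t ≤ 2 * (l ^ 2 / L ^ 2) * fw L t := by
  have ht : 0 < t ^ 2 := lt_of_lt_of_le (by positivity) h
  have h1 : fw l t ≤ l ^ 2 / t ^ 2 :=
    div_le_div_of_nonneg_left (sq_nonneg l) ht (by nlinarith [sq_nonneg l])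
  have h2 : L ^ 2 / (2 * t ^ 2) ≤ fw L t :=
    div_le_div_of_nonneg_left (sq_nonneg L) (by positivity) (by linarith)
  calc fw l t ≤ l ^ 2 / t ^ 2 := h1
    _ = 2 * (l ^ 2 / L ^ 2) * (L ^ 2 / (2 * t ^ 2)) := by field_simp
    _ ≤ _ := by gcongr

/-- the window decomposition -/
lemma fw_dec {l : ℕ → ℝ} (hl : ∀ j, 0 < l j) (J : ℕ) (t : ℝ) :
    fw (l 0) t ≤ ∑ j ∈ range J, 4 * (l 0 ^ 2 / l j ^ 2) * (fw (l (j + 1)) t * fw (l (j + 1)) t) +
      2 * (l 0 ^ 2 / l J ^ 2) * fw (l J) t := by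
  have hn : ∀ j, 0 ≤ 4 * (l 0 ^ 2 / l j ^ 2) * (fw (l (j + 1)) t * fw (l (j + 1)) t) := fun j => by
    have := fw_nonneg (l (j + 1)) t
    positivity
  have key : ∀ J, t ^ 2 ≤ l J ^ 2 → J ≠ 0 → fw (l 0) t ≤
      ∑ j ∈ range J, 4 * (l 0 ^ 2 / l j ^ 2) * (fw (l (j + 1)) t * fw (l (j + 1)) t) := by
    intro J
    induction J with
    | zero => exact fun _ h => absurd rfl h
    | succ J ih =>
      intro h _
      rw [sum_range_succ]
      have h2 := half_le_fw (hl (J + 1)) h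
      have h4 : 1 ≤ 4 * (fw (l (J + 1)) t * fw (l (J + 1)) t) := by nlinarith
      have h5 : fw (l 0) t ≤ l 0 ^ 2 / l J ^ 2 →
          fw (l 0) t ≤ 4 * (l 0 ^ 2 / l J ^ 2) * (fw (l (J + 1)) t * fw (l (J + 1)) t) := fun h => by
        have h0 : 0 ≤ l 0 ^ 2 / l J ^ 2 := by positivity
        nlinarith
      have hs := sum_nonneg fun j (_ : j ∈ range J) => hn j
      rcases eq_or_ne J 0 with rfl | hJ
      · have := h5 (by rw [div_self (pow_pos (hl 0) 2).ne']; exact fw_le_one _ _)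
        linarith
      · rcases le_total (t ^ 2) (l J ^ 2) with h6 | h6
        · linarith [ih h6 hJ, hn J]
        · linarith [h5 (fw_le_div (hl J) h6)]
  have hs := sum_nonneg fun j (_ : j ∈ range J) => hn j
  have ht : 0 ≤ 2 * (l 0 ^ 2 / l J ^ 2) * fw (l J) t := by
    have := fw_nonneg (l J) t
    positivity
  rcases eq_or_ne J 0 with rfl | hJ
  · rw [div_self (pow_pos (hl 0) 2).ne']
    linarith [fw_nonneg (l 0) t]
  · rcases le_total (t ^ 2) (l J ^ 2) with h | h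
    · linarith [key J h hJ]
    · linarith [fw_tail (l := l 0) (hl J) h]

lemma fl_eq (l : ℝ) (W : Mat n) : fl n l W = fnK (fun x => fw l (tau n * (2 - x))) W := rfl

lemma fl_sq {W : Mat n} (hW : W.IsHermitian) (l : ℝ) : fl n l W * fl n l W =
    fnK (fun x => fw l (tau n * (2 - x)) * fw l (tau n * (2 - x))) W := fnK_mul hW _ _

lemma fnK_psd {f : ℝ → ℝ} (h : ∀ x, 0 ≤ f x) (W : Mat n) : (fnK f W).PosSemidef := by
  refine PosSemidef.of_dotProduct_mulVec_nonneg (fnK_herm f W) fun x => ?_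
  rw [star_trivial, quad_fnK]
  exact sum_nonneg fun k _ => mul_nonneg (h _) (mul_self_nonneg _)

lemma one_sub_psd {W : Mat n} (hW : W.IsHermitian) {f : ℝ → ℝ} (h : ∀ x, f x ≤ 1) :
    (1 - fnK f W).PosSemidef := by
  rw [← fnK_one (K := ℝ) hW, ← fnK_sub]
  exact fnK_psd (fun x => sub_nonneg.2 (h x)) W

lemma fl_psd (l : ℝ) (W : Mat n) : (fl n l W).PosSemidef := fnK_psd (fun _ => fw_nonneg _ _) W

lemma one_sub_fl_psd {W : Mat n} (hW : W.IsHermitian) (l : ℝ) : (1 - fl n l W).PosSemidef :=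
  one_sub_psd hW fun _ => fw_le_one _ _

lemma fl_sq_psd {W : Mat n} (hW : W.IsHermitian) (l : ℝ) : (fl n l W * fl n l W).PosSemidef := by
  rw [fl_sq hW]
  exact fnK_psd (fun _ => mul_self_nonneg _) W

lemma one_sub_fl_sq_psd {W : Mat n} (hW : W.IsHermitian) (l : ℝ) :
    (1 - fl n l W * fl n l W).PosSemidef := by
  rw [fl_sq hW]
  exact one_sub_psd hW fun _ => mul_le_one₀ (fw_le_one _ _) (fw_nonneg _ _) (fw_le_one _ _)

lemma trace_fl_sq_le {W : Mat n} (hW : W.IsHermitian) (l : ℝ) :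
    (fl n l W * fl n l W).trace ≤ (fl n l W).trace := by
  rw [fl_sq hW, fl_eq, trace_fnK hW, trace_fnK hW]
  exact sum_le_sum fun k _ => mul_le_of_le_one_right (fw_nonneg _ _) (fw_le_one _ _)

lemma qf_nonneg {M : Mat n} (h : M.PosSemidef) (x : Cube n) : 0 ≤ qf M x := by
  simpa only [star_trivial, qf] using h.dotProduct_mulVec_nonneg (hat n x)

lemma qf_dec {W : Mat n} (hW : W.IsHermitian) {l : ℕ → ℝ} (hl : ∀ j, 0 < l j) (J : ℕ)
    (x : Cube n) : qf (fl n (l 0) W) x ≤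
      ∑ j ∈ range J, 4 * (l 0 ^ 2 / l j ^ 2) * qf (fl n (l (j + 1)) W * fl n (l (j + 1)) W) x +
        2 * (l 0 ^ 2 / l J ^ 2) * qf (fl n (l J) W) x := by
  simp only [fl_sq hW]
  simp only [qf, fl_eq, quad_fnK, mul_sum]
  rw [sum_comm, ← sum_add_distrib]
  refine sum_le_sum fun k _ => ?_
  have := mul_le_mul_of_nonneg_right (fw_dec hl J (tau n * (2 - lam W k)))
    (mul_self_nonneg (vec W k ⬝ᵥ hat n x))
  rw [add_mul, sum_mul] at this
  simpa only [mul_assoc] using this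

/-! ### the killing probability -/

lemma occ_smul (W : Mat n) (ε c : ℝ) (V : Cube n → ℝ) :
    occ W ε (fun x => c * V x) = c * occ W ε V := by
  have h1 : ∀ f : Cube n → ℝ, Ph (ising W 0) (fun x => c * f x) = fun x => c * Ph (ising W 0) f x :=
    fun f => funext fun x => by
      simp only [Ph, siteM, mul_sum]
      exact sum_congr rfl fun l _ => by ring
  have h2 : ∀ (i : ℕ) (f : Cube n → ℝ), (Ph (ising W 0))^[i] (fun x => c * f x) =
      fun x => c * (Ph (ising W 0))^[i] f x := fun i => by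
    induction i with
    | zero => exact fun _ => rfl
    | succ i ih => exact fun f => by rw [Function.iterate_succ_apply, h1, ih]; rfl
  simp only [occ, h2, um, mul_sum]
  exact sum_congr rfl fun i _ => sum_congr rfl fun x _ => by ring

section kap
variable (hk : KapStmt) (hn : 1 ≤ n) (W : Mat n) {ε : ℝ} (hε : 0 < ε)
include hk hn hε

lemma kap_nonneg {V : Cube n → ℝ} (hV : ∀ x, 0 ≤ V x) : 0 ≤ kap W ε V :=
  ((hk n W ε hn hε).1 V V hV hV).1

lemma kap_le_one {V : Cube n → ℝ} (hV : ∀ x, 0 ≤ V x) : kap W ε V ≤ 1 :=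
  ((hk n W ε hn hε).1 V V hV hV).2.1

lemma kap_le_occ {V : Cube n → ℝ} (hV : ∀ x, 0 ≤ V x) : kap W ε V ≤ occ W ε V :=
  ((hk n W ε hn hε).1 V V hV hV).2.2.1

lemma kap_mono {V V' : Cube n → ℝ} (hV : ∀ x, 0 ≤ V x) (h : ∀ x, V x ≤ V' x) :
    kap W ε V ≤ kap W ε V' := by
  have := ((hk n W ε hn hε).1 V (V' - V) hV fun x => sub_nonneg.2 (h x)).2.2.2.1
  rwa [add_sub_cancel] at this

lemma kap_add {V V' : Cube n → ℝ} (hV : ∀ x, 0 ≤ V x) (hV' : ∀ x, 0 ≤ V' x) :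
    kap W ε (fun x => V x + V' x) ≤ kap W ε V + kap W ε V' :=
  ((hk n W ε hn hε).1 V V' hV hV').2.2.2.2

lemma kap_sum {V : ℕ → Cube n → ℝ} (hV : ∀ j x, 0 ≤ V j x) {V' : Cube n → ℝ} (hV' : ∀ x, 0 ≤ V' x)
    (J : ℕ) : kap W ε (fun x => ∑ j ∈ range J, V j x + V' x) ≤
      ∑ j ∈ range J, kap W ε (V j) + kap W ε V' := by
  induction J with
  | zero => simp
  | succ J ih =>
    have := kap_add hk hn W hε (V := V J) (V' := fun x => ∑ j ∈ range J, V j x + V' x) (hV J)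
      fun x => add_nonneg (sum_nonneg fun j _ => hV j x) (hV' x)
    simp only [sum_range_succ]
    have e : (fun x => ∑ j ∈ range J, V j x + V J x + V' x) =
        fun x => V J x + (∑ j ∈ range J, V j x + V' x) := funext fun x => by ring
    rw [e]
    linarith

end kap

lemma meas_kap (hm : MsStmt) (ε c : ℝ) {M : Om n → Mat n} (hM : Measurable M) :
    Measurable fun p : Om n => kap (Wp p) ε fun x => c * qf (M p) x := by
  have h := (hm n ε 1).2.measurable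
  refine h.comp (f := fun p : Om n => (Wp p, fun x => c * qf (M p) x))
    (Cond.measurable_Wmat.prodMk (measurable_pi_lambda _ fun x => Measurable.const_mul ?_ c))
  have : ∀ i j, Measurable fun p => M p i j := fun i j =>
    (measurable_pi_apply j).comp ((measurable_pi_apply i).comp hM)
  simp only [qf, dotProduct, mulVec]
  fun_prop

lemma meas_fl (hm : MsStmt) (l : ℝ) : Measurable fun p : Om n => fl n l (Wp p) :=
  (hm n 1 l).1.comp Cond.measurable_Wmat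

lemma meas_fl_sq (hm : MsStmt) (l : ℝ) :
    Measurable fun p : Om n => fl n l (Wp p) * fl n l (Wp p) := by
  have : ∀ i j, Measurable fun p : Om n => fl n l (Wp p) i j := fun i j =>
    (measurable_pi_apply j).comp ((measurable_pi_apply i).comp (meas_fl hm l))
  refine measurable_pi_lambda _ fun i => measurable_pi_lambda _ fun j => ?_
  simp only [Matrix.mul_apply]
  fun_prop

/-! ### probability tools -/

section prob
variable {X : Type*} [MeasurableSpace X] {μ : Measure X} [IsProbabilityMeasure μ] {f : X → ℝ}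

omit [IsProbabilityMeasure μ] in
lemma bad_mono {P Q : X → Prop} {e : ENNReal} (h : μ {x | ¬ P x} ≤ e) (hPQ : ∀ x, P x → Q x) :
    μ {x | ¬ Q x} ≤ e :=
  le_trans (measure_mono (t := {x | ¬ P x}) fun x hx hp => hx (hPQ x hp)) h

lemma int_le_of_bad (hf : Measurable f) (h0 : ∀ x, 0 ≤ f x) (h1 : ∀ x, f x ≤ 1) {c e : ℝ}
    (hc : 0 ≤ c) (he : 0 ≤ e) (h : μ {x | ¬ f x ≤ c} ≤ ENNReal.ofReal e) :
    ∫ x, f x ∂μ ≤ c + e := by
  have hS : MeasurableSet {x | ¬ f x ≤ c} := (measurableSet_le hf measurable_const).compl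
  have hi : Integrable (fun x => c + {x | ¬ f x ≤ c}.indicator (fun _ => (1 : ℝ)) x) μ :=
    (integrable_const c).add ((integrable_const _).indicator hS)
  refine (integral_mono_of_nonneg (ae_of_all _ h0) hi (ae_of_all _ fun x => ?_)).trans ?_
  · by_cases hx : f x ≤ c
    · exact hx.trans (le_add_of_nonneg_right (Set.indicator_nonneg (fun _ _ => zero_le_one) _))
    · simp only [Set.indicator_of_mem (show x ∈ {x | ¬ f x ≤ c} from hx)]
      linarith [h1 x]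
  · rw [integral_add (integrable_const c) ((integrable_const _).indicator hS),
      integral_indicator_const _ hS]
    have := ENNReal.toReal_le_of_le_ofReal he h
    simpa [Measure.real] using this

lemma bad_le_of_int (hf : Measurable f) (h0 : ∀ x, 0 ≤ f x) (h1 : ∀ x, f x ≤ 1) {c z : ℝ}
    (hc : 0 < c) (h : ∫ x, f x ∂μ ≤ z) : μ {x | ¬ f x ≤ c} ≤ ENNReal.ofReal (z / c) := by
  have hi : Integrable f μ := (integrable_const (1 : ℝ)).mono' hf.aestronglyMeasurable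
    (ae_of_all _ fun x => by rw [Real.norm_of_nonneg (h0 x)]; exact h1 x)
  have h2 := mul_meas_ge_le_integral_of_nonneg (ae_of_all _ h0) hi c
  have h3 : μ.real {x | c ≤ f x} ≤ z / c := by
    rw [le_div_iff₀' hc]; exact h2.trans h
  refine (measure_mono (t := {x | c ≤ f x}) fun x hx => (not_le.1 hx).le).trans ?_
  rw [← ofReal_measureReal]
  exact ENNReal.ofReal_le_ofReal h3

end prob

lemma Xth_eq (g : Pair n → ℝ) (θ : ℝ) : Soft.Xth n g θ = Xk θ (muG n g) (muG n g) := by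
  have h : ∀ x y : Cube n, hat n x ⬝ᵥ hat n y = (Soft.N23 n)⁻¹ * (sv x ⬝ᵥ sv y) := fun x y => by
    rw [hat, hat, smul_dotProduct, dotProduct_smul, smul_eq_mul, smul_eq_mul, ← mul_assoc,
      ← mul_inv, ← pow_add]
    exact congrArg (fun t => t⁻¹ * (sv x ⬝ᵥ sv y)) (Ed.tau_eq n).symm
  simp only [Xk, Lnk10.integral_muG, mean, Soft.Xth, h, Finset.mul_sum, mul_assoc, gibbsProb_eq]

lemma mgf_off {b : Bool} (h : LdB b) {e : ℝ} (he : 0 < e) :
    ∃ B : ℝ, Off (couplingLaw b) e fun n g => Mgf (muG n g) B := by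
  obtain ⟨B, hB⟩ := h e he
  refine ⟨B, hB.mono fun n hn => le_trans (measure_mono fun g hg => ?_) hn⟩
  simp only [Set.mem_ofPred_eq, Mgf, not_forall, not_le] at hg ⊢
  obtain ⟨θ, hθ⟩ := hg
  refine ⟨|θ|, abs_nonneg _, ?_⟩
  rw [← Xth_eq] at hθ
  rcases abs_choice θ with h | h
  · rw [h] at hθ ⊢; exact hθ
  · rw [h, Soft.Xth_neg]; rw [h] at hθ; exact hθ

/-- the crude bound on the good event -/
theorem crude {b : Bool} {a : ℝ} (ha : 1 / 3 < a) (hc : CrStmt) (hs : SpecStmt b)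
    (hd : DownStmt b a) (hl : LdB b) {e : ℝ} (he : 0 < e) : ∃ D : ℝ, 0 ≤ D ∧ ∀ ε l₁ : ℝ, 0 < ε →
      ε ≤ 1 → Off (PB b) e fun n p => ∀ l ∈ Set.Icc 1 l₁, ∀ F : Mat n, F.PosSemidef →
        (1 - F).PosSemidef → F.trace ≤ (fl n l (Wp p)).trace →
        occ (Wp p) ε (qf F) ≤ D * (ε ^ (1 - 1 / (3 * a)) + ε * l ^ (1 / 2 : ℝ)) := by
  have he3 : 0 < e / 3 := by positivity
  obtain ⟨β, H₀, hβ, hH, h1⟩ := hd _ he3
  obtain ⟨B, h2⟩ := mgf_off hl he3
  obtain ⟨c, D₁, -, h3⟩ := hs _ he3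
  obtain ⟨D, h4⟩ := hc B a β H₀ ha hβ hH
  refine ⟨|D| * (1 + |D₁|), by positivity, fun ε l₁ hε hε1 => ?_⟩
  have h1' : Off (couplingLaw b) (e / 3) fun n g => Down n g a β H₀ := h1
  have h5 := ((h1'.and h2 he3.le he3.le).fst (ν := fun n => gv (Fin n))).and (h3 l₁)
    (by positivity) he3.le
  refine (h5.mono ?_).le (by linarith)
  filter_upwards [h4 ε hε hε1] with n hn p hp l hl F hF hF1 ht
  have hl0 : 0 < l := lt_of_lt_of_le one_pos hl.1
  have h6 : (1 + F.trace) ^ (1 / 3 : ℝ) ≤ (1 + |D₁|) * l ^ (1 / 2 : ℝ) := by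
    have h7 : 1 ≤ l ^ (3 / 2 : ℝ) := one_le_rpow hl.1 (by norm_num)
    have h8 : 1 + F.trace ≤ (1 + |D₁|) * l ^ (3 / 2 : ℝ) := by
      have := (hp.2 l hl).2
      have := mul_le_mul_of_nonneg_right (le_abs_self D₁) (zero_le_one.trans h7)
      nlinarith
    have h9 : (1 + |D₁|) ^ (1 / 3 : ℝ) ≤ 1 + |D₁| :=
      rpow_le_self_of_one_le (le_add_of_nonneg_right (abs_nonneg _)) (by norm_num)
    calc (1 + F.trace) ^ (1 / 3 : ℝ) ≤ ((1 + |D₁|) * l ^ (3 / 2 : ℝ)) ^ (1 / 3 : ℝ) :=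
          rpow_le_rpow (by linarith [hF.trace_nonneg]) h8 (by norm_num)
      _ = (1 + |D₁|) ^ (1 / 3 : ℝ) * l ^ (1 / 2 : ℝ) := by
          rw [mul_rpow (by positivity) (by positivity), ← rpow_mul hl0.le]; norm_num
      _ ≤ _ := by gcongr
  have h7 : 0 ≤ (1 + F.trace) ^ (1 / 3 : ℝ) := rpow_nonneg (by linarith [hF.trace_nonneg]) _
  have h8 : 0 ≤ ε ^ (1 - 1 / (3 * a)) := by positivity
  calc occ (Wp p) ε (qf F) ≤ D * (ε ^ (1 - 1 / (3 * a)) + ε * (1 + F.trace) ^ (1 / 3 : ℝ)) :=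
        hn p.1 p.2 F hp.1.1 hp.1.2 hF hF1
    _ ≤ |D| * (ε ^ (1 - 1 / (3 * a)) + ε * (1 + F.trace) ^ (1 / 3 : ℝ)) :=
        mul_le_mul_of_nonneg_right (le_abs_self D) (by positivity)
    _ ≤ |D| * ((1 + |D₁|) * ε ^ (1 - 1 / (3 * a)) + ε * ((1 + |D₁|) * l ^ (1 / 2 : ℝ))) := by
        gcongr
        exact le_mul_of_one_le_left h8 (le_add_of_nonneg_right (abs_nonneg _))
    _ = _ := by ring

lemma ev_pow {s C z : ℝ} (hs : 0 < s) (hz : 0 < z) : ∀ᶠ ε : ℝ in 𝓝[>] 0, C * ε ^ s ≤ z := by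
  have h : Tendsto (fun ε : ℝ => C * ε ^ s) (𝓝[>] 0) (𝓝 (C * 0 ^ s)) :=
    (((continuousAt_rpow_const 0 s (Or.inr hs.le)).tendsto).mono_left nhdsWithin_le_nhds).const_mul C
  rw [zero_rpow hs.ne', mul_zero] at h
  exact h.eventually (ge_mem_nhds hz)

lemma ev_Ioc : ∀ᶠ ε : ℝ in 𝓝[>] 0, 0 < ε ∧ ε ≤ 1 := Ioc_mem_nhdsGT one_pos

lemma kap_crude (hk : KapStmt) (hn : 1 ≤ n) {W F : Mat n} (hF : F.PosSemidef)
    {ε D u γ σ c g : ℝ} (hε : 0 < ε) (hε1 : ε ≤ 1) (hD : 0 ≤ D) (hc : 0 ≤ c)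
    (h : occ W ε (qf F) ≤ D * (ε ^ (1 - u) + ε * (ε ^ (-γ)) ^ (1 / 2 : ℝ)))
    (h1 : g ≤ σ + (1 - u)) (h2 : g ≤ σ + (1 - γ / 2)) :
    kap W ε (fun x => c * ε ^ σ * qf F x) ≤ 2 * c * D * ε ^ g := by
  have hs : 0 ≤ c * ε ^ σ := by positivity
  refine (kap_le_occ hk hn W hε fun x => mul_nonneg hs (qf_nonneg hF x)).trans ?_
  rw [occ_smul]
  have e1 : ε ^ σ * ε ^ (1 - u) ≤ ε ^ g := by
    rw [← rpow_add hε]; exact rpow_le_rpow_of_exponent_ge hε hε1 h1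
  have e2 : ε ^ σ * (ε * (ε ^ (-γ)) ^ (1 / 2 : ℝ)) ≤ ε ^ g := by
    rw [← rpow_mul hε.le, mul_comm ε, ← rpow_add_one hε.ne', ← rpow_add hε]
    exact rpow_le_rpow_of_exponent_ge hε hε1 (by linarith)
  calc c * ε ^ σ * occ W ε (qf F)
      ≤ c * ε ^ σ * (D * (ε ^ (1 - u) + ε * (ε ^ (-γ)) ^ (1 / 2 : ℝ))) :=
        mul_le_mul_of_nonneg_left h hs
    _ = c * D * (ε ^ σ * ε ^ (1 - u) + ε ^ σ * (ε * (ε ^ (-γ)) ^ (1 / 2 : ℝ))) := by ring
    _ ≤ c * D * (ε ^ g + ε ^ g) := by gcongr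
    _ = _ := by ring

lemma int_kap (hk : KapStmt) (hm : MsStmt) (hn : 1 ≤ n) (b : Bool) {ε c : ℝ} (hε : 0 < ε)
    (hc : 0 ≤ c) {M : Om n → Mat n} (hM : Measurable M) (hP : ∀ p, (M p).PosSemidef) :
    Integrable (fun p : Om n => kap (Wp p) ε fun x => c * qf (M p) x) (PB b n) :=
  (integrable_const (1 : ℝ)).mono' (meas_kap hm ε c hM).aestronglyMeasurable
    (ae_of_all _ fun p => by
      have h0 : ∀ x, 0 ≤ c * qf (M p) x := fun x => mul_nonneg hc (qf_nonneg (hP p) x)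
      rw [Real.norm_of_nonneg (kap_nonneg hk hn _ hε h0)]
      exact kap_le_one hk hn _ hε h0)

/-- the crude bound in the mean -/
theorem crude_int {b : Bool} {a : ℝ} (ha : 1 / 3 < a) (hk : KapStmt) (hm : MsStmt) (hc : CrStmt)
    (hs : SpecStmt b) (hd : DownStmt b a) (hl : LdB b) {γ σ c z : ℝ} (hγ : 0 ≤ γ) (hc0 : 0 ≤ c)
    (hz : 0 < z) (h1 : 0 < σ + (1 - 1 / (3 * a))) (h2 : 0 < σ + (1 - γ / 2))
    {M : ℝ → ∀ n, Om n → Mat n} (hM : ∀ ε n, Measurable (M ε n))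
    (hP : ∀ ε n p, (M ε n p).PosSemidef ∧ (1 - M ε n p).PosSemidef ∧
      (M ε n p).trace ≤ (fl n (ε ^ (-γ)) (Wp p)).trace) :
    ∀ᶠ ε in 𝓝[>] (0 : ℝ), ∀ᶠ n in atTop,
      ∫ p, kap (Wp p) ε (fun x => c * ε ^ σ * qf (M ε n p) x) ∂PB b n ≤ z := by
  obtain ⟨D, hD, h⟩ := crude ha hc hs hd hl (half_pos hz)
  filter_upwards [ev_Ioc, ev_pow (C := 2 * c * D) (lt_min h1 h2) (half_pos hz)] with ε hε h3
  filter_upwards [h ε (ε ^ (-γ)) hε.1 hε.2, eventually_ge_atTop 1] with n hn hn1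
  have hs0 : 0 ≤ c * ε ^ σ := mul_nonneg hc0 (rpow_nonneg hε.1.le _)
  have h0 : ∀ p x, 0 ≤ c * ε ^ σ * qf (M ε n p) x := fun p x =>
    mul_nonneg hs0 (qf_nonneg (hP ε n p).1 x)
  refine (int_le_of_bad (meas_kap hm ε _ (hM ε n)) (fun p => kap_nonneg hk hn1 _ hε.1 (h0 p))
    (fun p => kap_le_one hk hn1 _ hε.1 (h0 p)) (half_pos hz).le (half_pos hz).le
    (bad_mono hn fun p hg => ?_)).trans_eq (add_halves z)
  have hl1 : 1 ≤ ε ^ (-γ) := one_le_rpow_of_pos_of_le_one_of_nonpos hε.1 hε.2 (neg_nonpos.2 hγ)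
  exact (kap_crude hk hn1 (hP ε n p).1 hε.1 hε.2 hD hc0
    (hg _ ⟨hl1, le_rfl⟩ _ (hP ε n p).1 (hP ε n p).2.1 (hP ε n p).2.2) (min_le_left _ _)
    (min_le_right _ _)).trans h3

/-- **the windows of `U`** -/
theorem uwin {b : Bool} {a β : ℝ} (ha : 1 / 3 < a) (hβ : β ≤ 2 / (3 * a)) (hk : KapStmt)
    (hm : MsStmt) (hc : CrStmt) (hs : SpecStmt b) (hd : DownStmt b a) (hl : LdB b)
    (hp : PStmt b a β) (γ g z : ℝ) (hγ : 0 ≤ γ) (hγβ : γ ≤ β) (hg : 0 < g) (hz : 0 < z) :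
    ∀ᶠ ε in 𝓝[>] (0 : ℝ), ∀ᶠ n in atTop,
      ∫ p, kap (Wp p) ε (fun x => ε ^ (g - 1 + 1 / (3 * a) - 3 / 2 * (β - γ)) *
        qf (fl n (ε ^ (-γ)) (Wp p)) x) ∂PB b n ≤ z := by
  obtain ⟨J, hJ⟩ := exists_nat_gt (9 / 2 * (β - γ) / g)
  have hΔ : 0 ≤ β - γ := sub_nonneg.2 hγβ
  have hJ0 : (0 : ℝ) < J := lt_of_le_of_lt (by positivity) hJ
  set d : ℝ := (β - γ) / J with hd'
  have hd0 : 0 ≤ d := by positivity
  have hdJ : J * d = β - γ := by rw [hd']; field_simp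
  have hdg : 3 / 2 * d ≤ g / 3 := by
    rw [div_lt_iff₀ hg] at hJ
    rw [hd', ← mul_div_assoc, div_le_iff₀ hJ0]
    linarith
  set σ : ℝ := g - 1 + 1 / (3 * a) - 3 / 2 * (β - γ) with hσ
  have hu : 2 / (3 * a) = 2 * (1 / (3 * a)) := by ring
  have H1 : ∀ j ∈ range J, ∀ᶠ ε in 𝓝[>] (0 : ℝ), ∀ᶠ n in atTop,
      ∫ p, kap (Wp p) ε (fun x =>
        ε ^ (g / 3 - 1 + 1 / (3 * a) - 3 / 2 * (β - (γ + ((j + 1 : ℕ) : ℝ) * d))) *
        qf (fl n (ε ^ (-(γ + ((j + 1 : ℕ) : ℝ) * d))) (Wp p) *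
          fl n (ε ^ (-(γ + ((j + 1 : ℕ) : ℝ) * d))) (Wp p)) x) ∂PB b n ≤ z / 2 / J := by
    intro j hj
    have : ((j + 1 : ℕ) : ℝ) ≤ J := Nat.cast_le.2 (mem_range.1 hj)
    exact hp _ _ _ (by positivity) (by nlinarith) (by positivity) (by positivity)
  have H2 := crude_int ha hk hm hc hs hd hl (γ := γ + J * d) (σ := σ + 2 * (β - γ)) (c := 2)
    (by positivity) zero_le_two (half_pos hz) (by linarith) (by linarith)
    (M := fun ε n p => fl n (ε ^ (-(γ + J * d))) (Wp p)) (fun ε n => meas_fl hm _)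
    fun ε n p => ⟨fl_psd _ _, one_sub_fl_psd (Wmat_isHermitian _ _) _, le_rfl⟩
  filter_upwards [ev_Ioc, ev_pow (C := 4) (s := g / 3) (by positivity) one_pos,
    (eventually_all_finset _).2 H1, H2] with ε hε h4 h1 h2
  filter_upwards [(eventually_all_finset _).2 h1, h2, eventually_ge_atTop 1] with n h1 h2 hn
  have hp0 : ∀ s : ℝ, 0 < ε ^ s := fun s => rpow_pos_of_pos hε.1 s
  have hH : ∀ p : Om n, (Wp p).IsHermitian := fun p => Wmat_isHermitian _ _
  have hrat : ∀ j : ℕ, (ε ^ (-(γ + ((0 : ℕ) : ℝ) * d))) ^ 2 / (ε ^ (-(γ + j * d))) ^ 2 =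
      ε ^ (2 * (j * d)) := fun j => by
    rw [← rpow_natCast, ← rpow_natCast, ← rpow_mul hε.1.le, ← rpow_mul hε.1.le, ← rpow_sub hε.1]
    congr 1; push_cast; ring
  have i1 := fun j : ℕ => int_kap hk hm hn b hε.1
    (hp0 (g / 3 - 1 + 1 / (3 * a) - 3 / 2 * (β - (γ + ((j + 1 : ℕ) : ℝ) * d)))).le
    (meas_fl_sq hm (ε ^ (-(γ + ((j + 1 : ℕ) : ℝ) * d)))) fun p => fl_sq_psd (hH p) _
  have i2 := int_kap hk hm hn b hε.1 (mul_pos two_pos (hp0 (σ + 2 * (β - γ)))).le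
    (meas_fl hm (ε ^ (-(γ + J * d)))) fun p => fl_psd _ _
  refine (integral_mono (int_kap hk hm hn b hε.1 (hp0 σ).le (meas_fl hm _) fun p => fl_psd _ _)
    ((integrable_finsetSum (range J) fun j _ => i1 j).add i2) fun p => ?_).trans ?_
  · refine le_trans (kap_mono hk hn _ hε.1
      (fun x => mul_nonneg (hp0 σ).le (qf_nonneg (fl_psd _ _) x)) fun x => ?_)
      (kap_sum hk hn _ hε.1 (fun j x => mul_nonneg (hp0 _).le (qf_nonneg (fl_sq_psd (hH p) _) x))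
        (fun x => mul_nonneg (mul_pos two_pos (hp0 _)).le (qf_nonneg (fl_psd _ _) x)) J)
    have h5 := qf_dec (hH p) (l := fun j : ℕ => ε ^ (-(γ + j * d))) (fun j => hp0 _) J x
    simp only [hrat] at h5
    rw [Nat.cast_zero, zero_mul, add_zero] at h5
    refine (mul_le_mul_of_nonneg_left h5 (hp0 σ).le).trans ?_
    rw [mul_add, mul_sum]
    refine add_le_add (sum_le_sum fun j _ => ?_) (le_of_eq ?_)
    · rw [← mul_assoc]
      refine mul_le_mul_of_nonneg_right ?_ (qf_nonneg (fl_sq_psd (hH p) _) x)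
      have hj : (0 : ℝ) ≤ j * d := by positivity
      calc ε ^ σ * (4 * ε ^ (2 * (j * d))) = 4 * ε ^ (σ + 2 * (j * d)) := by
            rw [rpow_add hε.1]; ring
        _ ≤ 4 * ε ^ (g / 3 +
            (g / 3 - 1 + 1 / (3 * a) - 3 / 2 * (β - (γ + ((j + 1 : ℕ) : ℝ) * d)))) := by
            refine mul_le_mul_of_nonneg_left (rpow_le_rpow_of_exponent_ge hε.1 hε.2 ?_) (by norm_num)
            push_cast
            linarith
        _ ≤ _ := by
            rw [rpow_add hε.1, ← mul_assoc]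
            exact mul_le_of_le_one_left (hp0 _).le h4
    · rw [hdJ, rpow_add hε.1 σ]; ring
  · rw [Pi.add_def, integral_add (integrable_finsetSum (range J) fun j _ => i1 j) i2,
      integral_finsetSum _ fun j _ => i1 j]
    have := sum_le_sum h1
    rw [sum_const, card_range, nsmul_eq_mul, mul_div_cancel₀ _ hJ0.ne'] at this
    linarith

end Win59

open Win59

theorem p0Glue : P0Glue := by
  intro b a ha hk hm hc hs hd hl γ g z h0 h1 hg hz
  obtain rfl : γ = 0 := le_antisymm h1 h0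
  have hu : 0 < 1 / (3 * a) := by positivity
  have h := crude_int ha hk hm hc hs hd hl (γ := 0) (σ := g - 1 + 1 / (3 * a) - 3 / 2 * (0 - 0))
    (c := 1) le_rfl zero_le_one hz (by linarith) (by linarith)
    (M := fun ε n p => fl n (ε ^ (-(0 : ℝ))) (Wp p) * fl n (ε ^ (-(0 : ℝ))) (Wp p))
    (fun ε n => meas_fl_sq hm _) fun ε n p => ⟨fl_sq_psd (Wmat_isHermitian _ _) _,
      one_sub_fl_sq_psd (Wmat_isHermitian _ _) _, trace_fl_sq_le (Wmat_isHermitian _ _) _⟩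
  simpa only [one_mul] using h

theorem q3Glue : Q3Glue := by
  intro b a β ha hβ hβ' hk hm hc hs hd hl hp
  have hu : 0 < 1 / (3 * a) := by positivity
  have h49 : 4 / (9 * a) = 4 / 3 * (1 / (3 * a)) := by field_simp; norm_num
  set δ : ℝ := (3 / 2 * β - 2 * (1 / (3 * a))) / 3 with hδ
  have hδ0 : 0 < δ := by rw [hδ]; linarith
  refine ⟨1 / (3 * a) + δ, by linarith, fun η hη => ?_⟩
  have hlim : Tendsto (fun n : ℕ => (n : ℝ) * tau n) atTop atTop :=
    tendsto_natCast_atTop_atTop.atTop_mul_atTop₀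
      ((tendsto_rpow_atTop (by norm_num)).comp tendsto_natCast_atTop_atTop)
  filter_upwards [ev_Ioc, ev_pow (C := 8 / η) hδ0 one_pos, uwin ha hβ' hk hm hc hs hd hl hp 0 δ
    (η / 32 * η) le_rfl (by linarith) hδ0 (by positivity)] with ε hε h4 h1
  filter_upwards [h1, eventually_ge_atTop 1,
    (hlim.const_mul_atTop hε.1).eventually_ge_atTop (max 4 (64 / η))] with n h1 hn h2
  have hp0 : ∀ s : ℝ, 0 < ε ^ s := fun s => rpow_pos_of_pos hε.1 s
  rw [neg_zero, rpow_zero] at h1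
  have h0 : ∀ (p : Om n) x, 0 ≤ qf (fl n 1 (Wp p)) x := fun p => qf_nonneg (fl_psd _ _)
  have h3 := bad_le_of_int (meas_kap hm ε _ (meas_fl hm 1))
    (fun p => kap_nonneg hk hn _ hε.1 fun x => mul_nonneg (hp0 _).le (h0 p x))
    (fun p => kap_le_one hk hn _ hε.1 fun x => mul_nonneg (hp0 _).le (h0 p x))
    (c := η / 32) (by positivity) h1
  rw [mul_div_cancel_left₀ _ (by positivity)] at h3
  refine bad_mono h3 fun p hg => ?_
  have hT : 0 < η / 8 * ε ^ (1 + (1 / (3 * a) + δ)) := mul_pos (by positivity) (hp0 _)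
  obtain ⟨r, hr, h5⟩ := (hk n (Wp p) ε hn hε.1).2.2 p.1 p.2 _ _ _ rfl (h0 p) hT
    (hp0 (1 / (3 * a) + δ)) ((le_max_left _ _).trans h2)
  refine ⟨r, hr, h5.trans ?_⟩
  have h6 : kap (Wp p) ε (fun x => qf (fl n 1 (Wp p)) x / (η / 8 * ε ^ (1 + (1 / (3 * a) + δ)))) ≤
      η / 32 := by
    refine (kap_mono hk hn _ hε.1 (fun x => div_nonneg (h0 p x) hT.le) fun x => ?_).trans hg
    rw [div_eq_inv_mul]
    refine mul_le_mul_of_nonneg_right ?_ (h0 p x)
    calc (η / 8 * ε ^ (1 + (1 / (3 * a) + δ)))⁻¹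
        = 8 / η * ε ^ δ * ε ^ (δ - 1 + 1 / (3 * a) - 3 / 2 * (β - 0)) := by
          rw [mul_inv, ← rpow_neg hε.1.le, mul_assoc, ← rpow_add hε.1, inv_div]
          congr 2
          linarith
      _ ≤ _ := mul_le_of_le_one_left (hp0 _).le h4
  have h7 : 2 * (η / 8 * ε ^ (1 + (1 / (3 * a) + δ))) / (ε * ε ^ (1 / (3 * a) + δ)) = η / 4 := by
    have := (hp0 (1 / (3 * a) + δ)).ne'
    have := hε.1.ne'
    rw [rpow_add hε.1 1, rpow_one]
    generalize ε ^ (1 / (3 * a) + δ) = w at *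
    field_simp
    norm_num
  have h8 : 16 / (ε * (n * tau n)) ≤ η / 4 := by
    have h9 := (le_max_right _ _).trans h2
    rw [div_le_iff₀ hη] at h9
    rw [div_le_iff₀ (by linarith [(le_max_left _ _).trans h2])]
    linarith
  rw [h7]
  linarith

end Crest.Agent.T157.Cq
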