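import Crest.Agent.T157.CqRdB_7
import Crest.Agent.T157.CqWin_59

/-!
# Row 157, part C: the round (helper7)

`Cq.roundGlue : RoundGlue`.
-/

set_option autoImplicit false

noncomputable section

namespace Crest.Agent.T157.Cq

open MeasureTheory ProbabilityTheory Matrix Filter Topology Finset Real
open Crest.Agent.T157.E Crest.Agent.T157.Eig Crest.Agent.T157.St Crest.Agent.T157.Ed
open Crest.Agent.T157.Cond (unitv measurable_Wmat)
open Crest.Agent.T157.Tr (Om)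
open Crest.Agent.T157.Q1 (DownStmt LdB)
open Win59

namespace Rd7

variable {n : ℕ}

/-! ### spectral calculus -/

lemma fl_tr (l : ℝ) (W : Mat n) : (fl n l W)ᵀ = fl n l W := by
  unfold fl; ext i j; rw [transpose_apply, fnK_symm]

lemma Hm_eq {W : Mat n} (hW : W.IsHermitian) : Hm n W = fnK (fun x => tau n * (2 - x)) W := by
  have h : fnK (fun x : ℝ => x) W = W := by simpa using fnK_id (K := ℝ) hW
  rw [fnK_smul, fnK_sub, fnK_const hW, h, Hm]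

lemma sq_le {W : Mat n} (hW : W.IsHermitian) {φ : ℝ → ℝ} {k l : ℝ}
    (h : ∀ x, φ x * φ x ≤ k * fw l (tau n * (2 - x))) :
    (∀ x, qf (fnK φ W * (fnK φ W)ᵀ) x ≤ k * qf (fl n l W) x) ∧
      (fnK φ W * (fnK φ W)ᵀ).trace ≤ k * (fl n l W).trace := by
  have e : (fnK φ W)ᵀ = fnK φ W := by ext i j; exact fnK_symm (K := ℝ) _ W j i
  rw [e, fnK_mul hW, fl_eq, trace_fnK hW, trace_fnK hW, mul_sum]
  refine ⟨fun x => ?_, sum_le_sum fun _ _ => h _⟩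
  simp only [qf, quad_fnK, mul_sum, ← mul_assoc k]
  exact sum_le_sum fun _ _ => mul_le_mul_of_nonneg_right (h _) (mul_self_nonneg _)

lemma fl_le {W : Mat n} (hW : W.IsHermitian) (l : ℝ) (x : Cube n) :
    qf (fl n l W * (fl n l W)ᵀ) x ≤ qf (fl n l W) x := by
  simpa only [one_mul] using! (sq_le hW (k := 1) (l := l) fun x =>
    (mul_le_of_le_one_right (fw_nonneg l _) (fw_le_one l _)).trans_eq (one_mul _).symm).1 x

lemma Hfl_le {W : Mat n} (hW : W.IsHermitian) {l : ℝ} (hl : 0 < l) :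
    (∀ x, qf (Hm n W * fl n l W * (Hm n W * fl n l W)ᵀ) x ≤ l ^ 2 * qf (fl n l W) x) ∧
      (Hm n W * fl n l W * (Hm n W * fl n l W)ᵀ).trace ≤ l ^ 2 * (fl n l W).trace := by
  have e : Hm n W * fl n l W = fnK (fun x => tau n * (2 - x) * fw l (tau n * (2 - x))) W := by
    rw [Hm_eq hW, fl_eq, fnK_mul hW]
  rw [e]
  refine sq_le hW fun x => ?_
  set t := tau n * (2 - x)
  have : t ^ 2 * fw l t ≤ l ^ 2 := by
    rw [fw, ← mul_div_assoc, div_le_iff₀ (by positivity)]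
    nlinarith [sq_nonneg (l ^ 2)]
  nlinarith [mul_le_mul_of_nonneg_right this (fw_nonneg l t)]

lemma fl_vec {W : Mat n} (hW : W.IsHermitian) (l : ℝ) (a : Fin n → ℝ) :
    (fl n l W *ᵥ a) ⬝ᵥ (fl n l W *ᵥ a) ≤ a ⬝ᵥ a := by
  rw [← dot_symm (fl_tr l W), mulVec_mulVec]
  have := (one_sub_fl_sq_psd hW l).dotProduct_mulVec_nonneg a
  rw [star_trivial, sub_mulVec, one_mulVec, dotProduct_sub] at this
  linarith

/-! ### measurability and Fubini -/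

lemma meas_k (hm : MsStmt) {α : Type*} [MeasurableSpace α] {W : α → Mat n} {v : α → Fin n → ℝ}
    (hW : Measurable W) (hv : Measurable v) (ε c : ℝ) :
    Measurable fun q => kap (W q) ε fun x => c * sl (v q) x :=
  (hm n ε 1).2.measurable.comp (f := fun q => (W q, fun x => c * sl (v q) x))
    (hW.prodMk (measurable_pi_lambda _ fun x => by unfold sl; fun_prop))

lemma meas_swp (hm : MsStmt) {α : Type*} [MeasurableSpace α] {W : α → Mat n}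
    {a b : α → Fin n → ℝ} (hW : Measurable W) (ha : Measurable a) (hb : Measurable b) (ε s : ℝ) :
    Measurable fun q => swp ε s (W q) (a q) (b q) := by
  have h1 : Measurable fun q => prp (a q) (b q) := by unfold prp; fun_prop
  have h2 : Measurable fun q => rot (unitv (a q)) (prp (a q) (b q)) (π / 2) := by
    unfold rot; fun_prop
  exact (meas_k hm hW (by fun_prop) ε s).sub (meas_k hm (by fun_prop) h1 ε s)

lemma meas_H : Measurable fun p : Om n => Hm n (Wp p) := by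
  have := measurable_Wmat (n := n)
  unfold Hm; fun_prop

section fub
variable (hk : KapStmt) (hm : MsStmt) (hn : 1 ≤ n) (b : Bool) {ε : ℝ} (hε : 0 < ε)
  {pr : (Fin n → ℝ) × (Fin n → ℝ) → Fin n → ℝ}
  (hpr : MeasurePreserving pr ((gv (Fin n)).prod (gv (Fin n))) (gv (Fin n)))
  {F : Om n → Mat n} (hF : Measurable F) {c : ℝ} (hc : 0 ≤ c)
include hk hm hn hε hpr hF hc

lemma fub : Integrable (fun q : QS n => kap (Wp q.1) ε fun x => c * sl (F q.1 *ᵥ pr q.2) x) (QQ b n) ∧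
    Integrable (fun p => ∫ ξ, kap (Wp p) ε (fun x => c * sl (F p *ᵥ ξ) x) ∂gv (Fin n)) (PB b n) ∧
    ∫ q, kap (Wp q.1) ε (fun x => c * sl (F q.1 *ᵥ pr q.2) x) ∂QQ b n =
      ∫ p, ∫ ξ, kap (Wp p) ε (fun x => c * sl (F p *ᵥ ξ) x) ∂gv (Fin n) ∂PB b n := by
  have h := (MeasurePreserving.id (PB b n)).prod hpr
  have m : Measurable fun q : Om n × (Fin n → ℝ) =>
      kap (Wp q.1) ε fun x => c * sl (F q.1 *ᵥ q.2) x :=
    meas_k hm (measurable_Wmat.comp measurable_fst) (by fun_prop) ε c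
  have I : Integrable _ ((PB b n).prod (gv (Fin n))) := .of_bound m.aestronglyMeasurable 1
    (ae_of_all _ fun q => by
      rw [norm_of_nonneg (k0 hk hn hε _ (csl hc _))]; exact k1 hk hn hε _ (csl hc _))
  refine ⟨h.integrable_comp_of_integrable I, I.integral_prod_left, ?_⟩
  rw [← integral_prod _ I, ← h.map_eq, integral_map h.measurable.aemeasurable m.aestronglyMeasurable]
  rfl

lemma term {c' l z : ℝ} (hc' : 0 ≤ c')
    (h : ∀ p x, c * qf (F p * (F p)ᵀ) x ≤ c' * qf (fl n l (Wp p)) x)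
    (hz : ∫ p, kap (Wp p) ε (fun x => c' * qf (fl n l (Wp p)) x) ∂PB b n ≤ z) :
    ∫ q, kap (Wp q.1) ε (fun x => c * sl (F q.1 *ᵥ pr q.2) x) ∂QQ b n ≤ z := by
  obtain ⟨-, I, e⟩ := fub hk hm hn b hε hpr hF hc
  rw [e]
  refine (integral_mono I (int_kap hk hm hn b hε hc' (meas_fl hm l) fun p => fl_psd l _)
    fun p => ?_).trans hz
  refine (((hk n _ ε hn hε).2.1 (F p) c hc).1).trans (kmono hk hn hε _ (fun x => ?_) (h p))
  refine mul_nonneg hc (qf_nonneg ?_ x)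
  simpa using posSemidef_self_mul_conjTranspose (F p)

end fub

/-! ### the round for fixed parameters -/

/-- spectral part of the good event -/
def Sp (c D₁ l' l P' P : ℝ) (W : Mat n) : Prop :=
  (c * P' ≤ (fl n l' W * fl n l' W).trace ∧ (fl n l' W).trace ≤ D₁ * P') ∧
    c * P ≤ (fl n l W * fl n l W).trace ∧ (fl n l W).trace ≤ D₁ * P

/-- upper tail -/
def Up (z : ℝ) (F : Mat n) (x : Fin n → ℝ) : Prop := (F *ᵥ x) ⬝ᵥ (F *ᵥ x) ≤ z⁻¹ * (F * Fᵀ).trace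
/-- lower tail -/
def Lo (z : ℝ) (F : Mat n) (x : Fin n → ℝ) : Prop :=
  z ^ 2 / 36 * (F * Fᵀ).trace ≤ (F *ᵥ x) ⬝ᵥ (F *ᵥ x)
/-- the cross term -/
def Cx (z : ℝ) (a a' : Fin n → ℝ) : Prop := (a ⬝ᵥ a') ^ 2 ≤ z⁻¹ * (a ⬝ᵥ a)

lemma up_le (b : Bool) {z : ℝ} (hz : 0 < z) {F : Om n → Mat n} (hF : Measurable F) :
    QQ b n {q | ¬ Up z (F q.1) q.2.1} ≤ ENNReal.ofReal z ∧
      QQ b n {q | ¬ Up z (F q.1) q.2.2} ≤ ENNReal.ofReal z := by
  have zz : ENNReal.ofReal z⁻¹⁻¹ = ENNReal.ofReal z := by rw [inv_inv]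
  simp only [Up, not_le]
  have h := fun p => (markov_vec (F p) (inv_pos.2 hz)).trans_eq zz
  exact ⟨bad_fst (measurableSet_lt (by fun_prop) (by fun_prop)) fun p _ => h p,
    bad_snd (measurableSet_lt (by fun_prop) (by fun_prop)) fun p _ => h p⟩

lemma lo_le (b : Bool) {z : ℝ} (hz : 0 < z) {F : Om n → Mat n} (hF : Measurable F) :
    QQ b n {q | ¬ Lo z (F q.1) q.2.1} ≤ ENNReal.ofReal z ∧
      QQ b n {q | ¬ Lo z (F q.1) q.2.2} ≤ ENNReal.ofReal z := by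
  simp only [Lo, not_le]
  exact ⟨bad_fst (measurableSet_lt (by fun_prop) (by fun_prop)) fun p _ => small_ball hz (F p),
    bad_snd (measurableSet_lt (by fun_prop) (by fun_prop)) fun p _ => small_ball hz (F p)⟩

lemma cx_le (b : Bool) {z : ℝ} (hz : 0 < z) {F F' : Om n → Mat n} (hF : Measurable F)
    (hF' : Measurable F') (h1 : ∀ p, (F' p)ᵀ = F' p)
    (h2 : ∀ p a, (F' p *ᵥ a) ⬝ᵥ (F' p *ᵥ a) ≤ a ⬝ᵥ a) :
    QQ b n {q | ¬ Cx z (F q.1 *ᵥ q.2.1) (F' q.1 *ᵥ q.2.2)} ≤ ENNReal.ofReal z := by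
  have zz : ENNReal.ofReal z⁻¹⁻¹ = ENNReal.ofReal z := by rw [inv_inv]
  simp only [Cx, not_le]
  refine bad_snd (measurableSet_lt (by fun_prop) (by fun_prop)) fun p x => ?_
  simp only [Set.mem_ofPred_eq, dot_symm (h1 p)]
  exact (markov_dot _ (h2 p _) (inv_pos.2 hz)).trans_eq zz

/-- the good event -/
def Good (z c D₁ l' l P' P : ℝ) (W : Mat n) (x y : Fin n → ℝ) : Prop :=
  Sp c D₁ l' l P' P W ∧ Up z (fl n l' W) x ∧ Lo z (fl n l' W) x ∧ Up z (Hm n W * fl n l' W) x ∧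
    Up z (fl n l W) y ∧ Lo z (fl n l W) y ∧ Up z (Hm n W * fl n l W) y ∧
    Cx z (fl n l' W *ᵥ x) (fl n l W *ᵥ y)

lemma bad_set (hm : MsStmt) (b : Bool) {z c D₁ l' l P' P : ℝ} (hz : 0 < z)
    (hS : PB b n {p | ¬ Sp c D₁ l' l P' P (Wp p)} ≤ ENNReal.ofReal z) :
    ∃ S : Set (QS n), MeasurableSet S ∧ (QQ b n).real S ≤ 8 * z ∧
      ∀ q ∉ S, Good z c D₁ l' l P' P (Wp q.1) q.2.1 q.2.2 := by
  have f1 := meas_fl (n := n) hm l'
  have f2 := meas_fl (n := n) hm l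
  have f3 := (meas_H (n := n)).t157_mul f1
  have f4 := (meas_H (n := n)).t157_mul f2
  have b0 : QQ b n {q | ¬ Sp c D₁ l' l P' P (Wp q.1)} ≤ ENNReal.ofReal z :=
    ((measurePreserving_fst (μ := PB b n)).measure_preimage_le _).trans hS
  have ad : ∀ {s t : QS n → Prop} {x y : ENNReal}, QQ b n {q | ¬ s q} ≤ x →
      QQ b n {q | ¬ t q} ≤ y → QQ b n {q | ¬ (s q ∧ t q)} ≤ x + y := fun h h' =>
    (measure_mono fun q hq => not_and_or.1 hq).trans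
      ((measure_union_le _ _).trans (add_le_add h h'))
  have h := ad b0 (ad (up_le b hz f1).1 (ad (lo_le b hz f1).1 (ad (up_le b hz f3).1
    (ad (up_le b hz f2).2 (ad (lo_le b hz f2).2 (ad (up_le b hz f4).2
      (cx_le b hz f1 f2 (fun _ => fl_tr _ _) fun _ => fl_vec (Wmat_isHermitian _ _) l)))))))
  refine ⟨toMeasurable (QQ b n) {q | ¬ Good z c D₁ l' l P' P (Wp q.1) q.2.1 q.2.2},
    measurableSet_toMeasurable _ _, ?_, fun q hq => ?_⟩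
  · rw [Measure.real, measure_toMeasurable]
    refine ENNReal.toReal_le_of_le_ofReal (by positivity) (h.trans (le_of_eq ?_))
    rw [ENNReal.ofReal_mul (by norm_num), ENNReal.ofReal_ofNat]; ring
  · by_contra h'
    exact hq (subset_toMeasurable _ _ h')

lemma ptw (hk : KapStmt) {D : ℝ} (hK : Kill D) (hn : 1 ≤ n)
    {ε θ s z c D₁ l' l P' P A B Λ s₁ : ℝ} (hε : 0 < ε) (hε1 : ε ≤ 1) (hθ : 0 < θ) (hs : 0 ≤ s)
    (hz : 0 < z) (hc : 0 < c) (hD₁ : 0 ≤ D₁) (hl' : 0 < l') (hl : l' ≤ l) (hP' : 0 < P')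
    (hP : 0 < P) (hA : A = z ^ 2 / 36 * c * P') (hB : B = z ^ 2 / 36 * c * P / 2)
    (hΛ : Λ = 2 * z⁻¹ * D₁ / (z ^ 2 / 36 * c) * l ^ 2) (hs₁ : s₁ = s * (z⁻¹ * (D₁ * P')))
    (hMB : z⁻¹ ≤ B) (hτ : 440 * Λ ≤ θ * tau n) (hD : D * √θ ≤ z) {ω : (Fin 3 → ℝ) → ℝ}
    (ω2 : ∀ u v w : ℝ, A ≤ u → u ≤ z⁻¹ * (D₁ * P') → 2 * z⁻¹ ≤ v → v ≤ z⁻¹ * (D₁ * P) →
      w ^ 2 ≤ z⁻¹ * u → ω ![u, v, w] = 1) {W : Mat n} (hW : W.IsHermitian) {x y : Fin n → ℝ}
    (h : Good z c D₁ l' l P' P W x y) :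
    kap W ε (fun σ => s * sl (fl n l' W *ᵥ x) σ) ≤
      ω ![(fl n l' W *ᵥ x) ⬝ᵥ (fl n l' W *ᵥ x), (fl n l W *ᵥ y) ⬝ᵥ (fl n l W *ᵥ y),
        (fl n l' W *ᵥ x) ⬝ᵥ (fl n l W *ᵥ y)] * swp ε s₁ W (fl n l' W *ᵥ x) (fl n l W *ᵥ y) + z +
      (kap W ε (fun σ => 24 / (θ * A) * sl ((Hm n W * fl n l' W) *ᵥ x) σ) +
      kap W ε (fun σ => 16 / (θ * B) * sl ((Hm n W * fl n l W) *ᵥ y) σ) +
      kap W ε (fun σ => 600 * Λ / (θ * A) * sl (fl n l' W *ᵥ x) σ) +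
      kap W ε (fun σ => 400 * Λ / (θ * B) * sl (fl n l W *ᵥ y) σ) +
      (kap W ε (fun σ => 2 * s₁ * z⁻¹ / (A * B) * sl (fl n l' W *ᵥ x) σ) +
        kap W ε fun σ => 2 * s₁ / B * sl (fl n l W *ᵥ y) σ)) := by
  have l0 : 0 < l := hl'.trans_le hl
  have A0 : 0 < A := by rw [hA]; positivity
  have Λ0 : 0 ≤ Λ := by rw [hΛ]; positivity
  have s10 : 0 ≤ s₁ := by rw [hs₁]; positivity
  have M0 : 0 < z⁻¹ := inv_pos.2 hz
  obtain ⟨⟨⟨g1, g2⟩, g3, g4⟩, q1, q2, q3, q4, q5, q6, q7⟩ := h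
  unfold Up at q1 q3 q4 q6
  unfold Lo at q2 q5
  rw [fl_tr] at q1 q2 q4 q5
  have r1 := q1.trans (mul_le_mul_of_nonneg_left ((trace_fl_sq_le hW _).trans g2) M0.le)
  have r4 := q4.trans (mul_le_mul_of_nonneg_left ((trace_fl_sq_le hW _).trans g4) M0.le)
  have r2 : A ≤ _ := (hA.trans (mul_assoc _ _ _)).le.trans
    ((mul_le_mul_of_nonneg_left g1 (by positivity)).trans q2)
  have r5 : 2 * B ≤ _ := (show 2 * B = z ^ 2 / 36 * (c * P) by rw [hB]; ring).le.trans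
    ((mul_le_mul_of_nonneg_left g3 (by positivity)).trans q5)
  have r3 := q3.trans (mul_le_mul_of_nonneg_left ((Hfl_le hW hl').2.trans
    (mul_le_mul (pow_le_pow_left₀ hl'.le hl 2) g2 (fl_psd _ _).trace_nonneg (sq_nonneg _))) M0.le)
  have r6 := q6.trans (mul_le_mul_of_nonneg_left ((Hfl_le hW l0).2.trans
    (mul_le_mul_of_nonneg_left g4 (sq_nonneg _))) M0.le)
  have h := core hk hK hn hε hε1 hθ s10 Λ0 A0 M0 hMB hW r2 r5 q7
    (by
      rw [mulVec_mulVec]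
      refine r3.trans ?_
      have : Λ * A = 2 * (z⁻¹ * (l ^ 2 * (D₁ * P'))) := by rw [hΛ, hA]; field_simp
      have h0 : 0 ≤ z⁻¹ * (l ^ 2 * (D₁ * P')) := by positivity
      linarith)
    (by
      rw [mulVec_mulVec]
      exact r6.trans (le_of_eq (by rw [hΛ, hB]; field_simp))) hτ
  have h2 := kmono hk hn hε W (csl hs (fl n l' W *ᵥ x))
    (V' := fun σ => s₁ * sl (unitv (fl n l' W *ᵥ x)) σ) fun σ => by
      rw [sl, dot_sq_eq, hs₁, mul_assoc]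
      exact mul_le_mul_of_nonneg_left (mul_le_mul_of_nonneg_right r1 (sq_nonneg _)) hs
  rw [ω2 _ _ _ r2 r1 (by linarith) r4 q7, one_mul]
  simp only [mulVec_mulVec] at h
  linarith

lemma int_sum {α : Type*} [MeasurableSpace α] {μ : Measure α} [IsProbabilityMeasure μ]
    {f G f1 f2 f3 f4 f5 f6 : α → ℝ} {z : ℝ} {S : Set α} (hz : 0 ≤ z) (hS : MeasurableSet S)
    (hSz : μ.real S ≤ 8 * z) (I0 : Integrable f μ) (IG : Integrable G μ) (I1 : Integrable f1 μ)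
    (I2 : Integrable f2 μ) (I3 : Integrable f3 μ) (I4 : Integrable f4 μ) (I5 : Integrable f5 μ)
    (I6 : Integrable f6 μ) (b0 : ∀ q, f q ≤ 1) (bG : ∀ q, |G q| ≤ 1) (b1 : ∀ q, 0 ≤ f1 q)
    (b2 : ∀ q, 0 ≤ f2 q) (b3 : ∀ q, 0 ≤ f3 q) (b4 : ∀ q, 0 ≤ f4 q) (b5 : ∀ q, 0 ≤ f5 q)
    (b6 : ∀ q, 0 ≤ f6 q) (UG : ∫ q, G q ∂μ ≤ z) (U1 : ∫ q, f1 q ∂μ ≤ z) (U2 : ∫ q, f2 q ∂μ ≤ z)
    (U3 : ∫ q, f3 q ∂μ ≤ z) (U4 : ∫ q, f4 q ∂μ ≤ z) (U5 : ∫ q, f5 q ∂μ ≤ z) (U6 : ∫ q, f6 q ∂μ ≤ z)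
    (h : ∀ q ∉ S, f q ≤ G q + z + (f1 q + f2 q + f3 q + f4 q + (f5 q + f6 q))) :
    ∫ q, f q ∂μ ≤ 24 * z := by
  have IS : Integrable (S.indicator fun _ => (2 : ℝ)) μ := (integrable_const _).indicator hS
  have pt := integral_mono I0 (((IG.add (integrable_const z)).add
    ((((I1.add I2).add I3).add I4).add (I5.add I6))).add IS) fun q => by
    simp only [Pi.add_apply]
    by_cases hq : q ∈ S
    · rw [Set.indicator_of_mem hq]
      linarith [b0 q, (abs_le.1 (bG q)).1, b1 q, b2 q, b3 q, b4 q, b5 q, b6 q]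
    · rw [Set.indicator_of_notMem hq, add_zero]; exact h q hq
  rw [integral_add' _ IS, integral_add', integral_add' IG (integrable_const z), integral_add',
    integral_add' _ I4, integral_add' _ I3, integral_add' I1 I2, integral_add' I5 I6,
    integral_indicator_const _ hS, integral_const, probReal_univ] at pt
  · simp only [smul_eq_mul] at pt
    linarith
  · exact I1.add I2
  · exact (I1.add I2).add I3
  · exact ((I1.add I2).add I3).add I4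
  · exact I5.add I6
  · exact IG.add (integrable_const z)
  · exact (((I1.add I2).add I3).add I4).add (I5.add I6)
  · exact (IG.add (integrable_const z)).add ((((I1.add I2).add I3).add I4).add (I5.add I6))

lemma swp_le (hk : KapStmt) (hn : 1 ≤ n) {ε s : ℝ} (hε : 0 < ε) (hs : 0 ≤ s) (W : Mat n)
    (a a' : Fin n → ℝ) : |swp ε s W a a'| ≤ 1 := by
  rw [swp, abs_le]
  constructor <;> linarith [k0 hk hn hε W (csl hs (unitv a)), k1 hk hn hε W (csl hs (unitv a)),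
    k0 hk hn hε (rot (unitv a) (prp a a') (π / 2) * W * (rot (unitv a) (prp a a') (π / 2))ᵀ)
      (csl hs (prp a a')),
    k1 hk hn hε (rot (unitv a) (prp a a') (π / 2) * W * (rot (unitv a) (prp a a') (π / 2))ᵀ)
      (csl hs (prp a a'))]

lemma meas_G (hm : MsStmt) {ω : (Fin 3 → ℝ) → ℝ} (ω0 : Continuous ω) {F F' : Om n → Mat n}
    (hF : Measurable F) (hF' : Measurable F') (ε s : ℝ) :
    Measurable fun q : QS n => ω ![(F q.1 *ᵥ q.2.1) ⬝ᵥ (F q.1 *ᵥ q.2.1),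
      (F' q.1 *ᵥ q.2.2) ⬝ᵥ (F' q.1 *ᵥ q.2.2), (F q.1 *ᵥ q.2.1) ⬝ᵥ (F' q.1 *ᵥ q.2.2)] *
        swp ε s (Wp q.1) (F q.1 *ᵥ q.2.1) (F' q.1 *ᵥ q.2.2) := by
  refine (ω0.measurable.comp (measurable_pi_lambda _ fun i => ?_)).mul
    (meas_swp hm (measurable_Wmat.comp measurable_fst) (by fun_prop) (by fun_prop) ε s)
  fin_cases i <;> simp only [Fin.zero_eta, Fin.mk_one, Fin.reduceFinMk, cons_val_zero,
    cons_val_one, Matrix.cons_val] <;> fun_prop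

theorem fixed (hk : KapStmt) (hm : MsStmt) {D : ℝ} (hK : Kill D) (hn : 1 ≤ n) (b : Bool)
    {ε θ s z c D₁ l' l P' P A B Λ s₁ : ℝ} (hε : 0 < ε) (hε1 : ε ≤ 1) (hθ : 0 < θ) (hs : 0 ≤ s)
    (hz : 0 < z) (hc : 0 < c) (hD₁ : 0 ≤ D₁) (hl' : 0 < l') (hl : l' ≤ l) (hP' : 0 < P')
    (hP : 0 < P) (hA : A = z ^ 2 / 36 * c * P') (hB : B = z ^ 2 / 36 * c * P / 2)
    (hΛ : Λ = 2 * z⁻¹ * D₁ / (z ^ 2 / 36 * c) * l ^ 2) (hs₁ : s₁ = s * (z⁻¹ * (D₁ * P')))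
    (hMB : z⁻¹ ≤ B) (hτ : 440 * Λ ≤ θ * tau n) (hD : D * √θ ≤ z)
    (hS : PB b n {p | ¬ Sp c D₁ l' l P' P (Wp p)} ≤ ENNReal.ofReal z)
    {ω : (Fin 3 → ℝ) → ℝ} (ω0 : Continuous ω) (ω1 : ∀ q, |ω q| ≤ 1)
    (ω2 : ∀ u v w : ℝ, A ≤ u → u ≤ z⁻¹ * (D₁ * P') → 2 * z⁻¹ ≤ v → v ≤ z⁻¹ * (D₁ * P) →
      w ^ 2 ≤ z⁻¹ * u → ω ![u, v, w] = 1)
    (hsw : ∫ q : QS n, ω ![(fl n l' (Wp q.1) *ᵥ q.2.1) ⬝ᵥ (fl n l' (Wp q.1) *ᵥ q.2.1),
          (fl n l (Wp q.1) *ᵥ q.2.2) ⬝ᵥ (fl n l (Wp q.1) *ᵥ q.2.2),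
          (fl n l' (Wp q.1) *ᵥ q.2.1) ⬝ᵥ (fl n l (Wp q.1) *ᵥ q.2.2)] *
        swp ε s₁ (Wp q.1) (fl n l' (Wp q.1) *ᵥ q.2.1) (fl n l (Wp q.1) *ᵥ q.2.2) ∂QQ b n ≤ z)
    (T1 : ∫ p, kap (Wp p) ε (fun x => 24 / (θ * A) * l' ^ 2 * qf (fl n l' (Wp p)) x) ∂PB b n ≤ z)
    (T2 : ∫ p, kap (Wp p) ε (fun x => 16 / (θ * B) * l ^ 2 * qf (fl n l (Wp p)) x) ∂PB b n ≤ z)
    (T3 : ∫ p, kap (Wp p) ε (fun x => 600 * Λ / (θ * A) * qf (fl n l' (Wp p)) x) ∂PB b n ≤ z)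
    (T4 : ∫ p, kap (Wp p) ε (fun x => 400 * Λ / (θ * B) * qf (fl n l (Wp p)) x) ∂PB b n ≤ z)
    (T5 : ∫ p, kap (Wp p) ε (fun x => 2 * s₁ * z⁻¹ / (A * B) * qf (fl n l' (Wp p)) x) ∂PB b n ≤ z)
    (T6 : ∫ p, kap (Wp p) ε (fun x => 2 * s₁ / B * qf (fl n l (Wp p)) x) ∂PB b n ≤ z) :
    ∫ p, kap (Wp p) ε (fun x => z * s * qf (fl n l' (Wp p) * fl n l' (Wp p)) x) ∂PB b n ≤
      52 * z := by
  have l0 : 0 < l := hl'.trans_le hl
  have A0 : 0 < A := by rw [hA]; positivity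
  have B0 : 0 < B := by rw [hB]; positivity
  have Λ0 : 0 ≤ Λ := by rw [hΛ]; positivity
  have s10 : 0 ≤ s₁ := by rw [hs₁]; positivity
  have hW : ∀ p : Om n, (Wp p).IsHermitian := fun p => Wmat_isHermitian _ _
  have p1 : MeasurePreserving Prod.fst ((gv (Fin n)).prod (gv (Fin n))) (gv (Fin n)) :=
    measurePreserving_fst
  have p2 : MeasurePreserving Prod.snd ((gv (Fin n)).prod (gv (Fin n))) (gv (Fin n)) :=
    measurePreserving_snd
  have f1 := meas_fl (n := n) hm l'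
  have f2 := meas_fl (n := n) hm l
  have f3 := (meas_H (n := n)).t157_mul f1
  have f4 := (meas_H (n := n)).t157_mul f2
  have c1 : 0 ≤ 24 / (θ * A) := by positivity
  have c2 : 0 ≤ 16 / (θ * B) := by positivity
  have c3 : 0 ≤ 600 * Λ / (θ * A) := by positivity
  have c4 : 0 ≤ 400 * Λ / (θ * B) := by positivity
  have c5 : 0 ≤ 2 * s₁ * z⁻¹ / (A * B) := by positivity
  have c6 : 0 ≤ 2 * s₁ / B := by positivity
  have U1 := term hk hm hn b hε p1 f3 c1 (mul_nonneg c1 (sq_nonneg _)) (fun p x =>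
    (mul_le_mul_of_nonneg_left ((Hfl_le (hW p) hl').1 x) c1).trans_eq (mul_assoc _ _ _).symm) T1
  have U2 := term hk hm hn b hε p2 f4 c2 (mul_nonneg c2 (sq_nonneg _)) (fun p x =>
    (mul_le_mul_of_nonneg_left ((Hfl_le (hW p) l0).1 x) c2).trans_eq (mul_assoc _ _ _).symm) T2
  have U3 := term hk hm hn b hε p1 f1 c3 c3
    (fun p x => mul_le_mul_of_nonneg_left (fl_le (hW p) _ x) c3) T3
  have U4 := term hk hm hn b hε p2 f2 c4 c4
    (fun p x => mul_le_mul_of_nonneg_left (fl_le (hW p) _ x) c4) T4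
  have U5 := term hk hm hn b hε p1 f1 c5 c5
    (fun p x => mul_le_mul_of_nonneg_left (fl_le (hW p) _ x) c5) T5
  have U6 := term hk hm hn b hε p2 f2 c6 c6
    (fun p x => mul_le_mul_of_nonneg_left (fl_le (hW p) _ x) c6) T6
  obtain ⟨I0, J0, e0⟩ := fub hk hm hn b hε p1 f1 hs
  obtain ⟨S, hSm, hSz, hSg⟩ := bad_set hm b hz hS
  have G1 := fun (q : QS n) r a a' => (abs_mul (ω r) _).le.trans
    (mul_le_one₀ (ω1 _) (abs_nonneg _) (swp_le hk hn hε s10 (Wp q.1) a a'))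
  have pt := int_sum hz.le hSm hSz I0
    (.of_bound (meas_G hm ω0 f1 f2 ε s₁).aestronglyMeasurable 1 (ae_of_all _ fun q => G1 q _ _ _))
    (fub hk hm hn b hε p1 f3 c1).1 (fub hk hm hn b hε p2 f4 c2).1 (fub hk hm hn b hε p1 f1 c3).1
    (fub hk hm hn b hε p2 f2 c4).1 (fub hk hm hn b hε p1 f1 c5).1 (fub hk hm hn b hε p2 f2 c6).1
    (fun q => k1 hk hn hε _ (csl hs _)) (fun q => G1 q _ _ _) (fun q => k0 hk hn hε _ (csl c1 _))
    (fun q => k0 hk hn hε _ (csl c2 _)) (fun q => k0 hk hn hε _ (csl c3 _))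
    (fun q => k0 hk hn hε _ (csl c4 _)) (fun q => k0 hk hn hε _ (csl c5 _))
    (fun q => k0 hk hn hε _ (csl c6 _)) hsw U1 U2 U3 U4 U5 U6 fun q hq =>
      ptw hk hK hn hε hε1 hθ hs hz hc hD₁ hl' hl hP' hP hA hB hΛ hs₁ hMB hτ hD ω2 (hW q.1) (hSg q hq)
  rw [e0] at pt
  have h := integral_mono (μ := PB b n) (int_kap hk hm hn b hε (mul_nonneg hz.le hs)
    (meas_fl_sq hm l') fun p => fl_sq_psd (hW p) l') ((integrable_const (4 * z)).add
      (J0.const_mul 2)) fun p => by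
    simpa only [fl_tr] using! ((hk n _ ε hn hε).2.1 (fl n l' (Wp p)) s hs).2 z hz.le
  rw [integral_add' (integrable_const _) (J0.const_mul 2), integral_const, probReal_univ,
    integral_const_mul, smul_eq_mul] at h
  linarith

/-! ### levels -/

/-- the window `ε^{-γ}` is invisible at the killing rate `ε^σ` -/
def SU (b : Bool) (γ σ : ℝ) : Prop := ∀ c z : ℝ, 0 ≤ c → 0 < z → ∀ᶠ ε in 𝓝[>] (0 : ℝ),
  ∀ᶠ n in atTop, ∫ p, kap (Wp p) ε (fun x => c * ε ^ σ * qf (fl n (ε ^ (-γ)) (Wp p)) x) ∂PB b n ≤ z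

section su
variable {b : Bool} {a β γ σ : ℝ} (ha : 1 / 3 < a) (hk : KapStmt) (hm : MsStmt) (hc : CrStmt)
  (hs : SpecStmt b) (hd : DownStmt b a) (hl : LdB b) (h0 : 0 ≤ γ) (h1 : γ ≤ 2 * (1 / (3 * a)))
include ha hk hm hc hs hd hl h0 h1

lemma su_cr (h : 1 / (3 * a) - 1 < σ) : SU b γ σ := fun _ _ hc0 hz =>
  crude_int ha hk hm hc hs hd hl h0 hc0 hz (by linarith) (by linarith)
    (fun _ _ => meas_fl hm _) fun _ _ _ =>
      ⟨fl_psd _ _, one_sub_fl_psd (Wmat_isHermitian _ _) _, le_rfl⟩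

lemma su_win (hβ : β ≤ 2 / (3 * a)) (hp : PStmt b a β)
    (h : 1 / (3 * a) - 1 - 3 / 2 * (β - γ) < σ) : SU b γ σ := by
  rcases le_total β γ with h2 | h2
  · exact su_cr ha hk hm hc hs hd hl h0 h1 (by linarith)
  intro c z hc0 hz
  set g := (σ - (1 / (3 * a) - 1 - 3 / 2 * (β - γ))) / 2 with hg
  have g0 : 0 < g := by rw [hg]; linarith
  filter_upwards [uwin ha hβ hk hm hc hs hd hl hp γ g z h0 h2 g0 hz, ev_Ioc,
    ev_pow (C := c) g0 one_pos] with ε h3 hε h4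
  filter_upwards [h3, eventually_ge_atTop 1] with n h5 hn
  have e0 := fun t => rpow_nonneg hε.1.le t
  have p0 := fun (p : Om n) x => qf_nonneg (fl_psd (ε ^ (-γ)) (Wp p)) x
  refine (integral_mono (int_kap hk hm hn b hε.1 (mul_nonneg hc0 (e0 _)) (meas_fl hm _)
    fun p => fl_psd _ _) (int_kap hk hm hn b hε.1 (e0 _) (meas_fl hm _) fun p => fl_psd _ _)
    fun p => kmono hk hn hε.1 _ (fun x => mul_nonneg (mul_nonneg hc0 (e0 _)) (p0 p x))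
      fun x => mul_le_mul_of_nonneg_right ?_ (p0 p x)).trans h5
  rw [show σ = g + (g - 1 + 1 / (3 * a) - 3 / 2 * (β - γ)) by rw [hg]; ring, rpow_add hε.1,
    ← mul_assoc]
  exact mul_le_of_le_one_left (e0 _) h4

end su

lemma ediv {ε r s t u : ℝ} (hε : 0 < ε) (h : r + t + u = s) : ε ^ r = ε ^ s / (ε ^ t * ε ^ u) := by
  rw [← h, rpow_add hε, rpow_add hε]; field_simp

end Rd7

open Rd7

theorem roundGlue : RoundGlue := by
  intro b a β β' ha h0 hβ hβ' hlt hk hm hc ⟨D, hK⟩ hs hsw hd hl hp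
  rcases hβ.eq_or_lt with rfl | hβ1
  · exact hp
  intro γ g z' hγ hγβ hg hz'
  have e2 : 2 / (3 * a) = 2 * (1 / (3 * a)) := by ring
  have hβ2 := hβ.trans hβ'
  rw [e2] at hβ'
  set u := 1 / (3 * a) with hu
  set z := z' / 52 with hz''
  have hz : 0 < z := by positivity
  set m := (1 - u + 3 / 2 * β - 2 * β') / 2 with hm'
  have m0 : 0 < m := by rw [hm']; linarith
  have β0 : 0 < β' := h0.trans_lt hβ1
  obtain ⟨c, D₀, c0, hS⟩ := hs z hz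
  set D₁ := |D₀|
  have D0 : 0 ≤ D₁ := abs_nonneg _
  set d := z ^ 2 / 36 * c with hd'
  have d0 : 0 < d := by positivity
  have W1 := fun σ => su_win (σ := σ) ha hk hm hc hs hd hl hγ (hγβ.trans hβ') hβ2 hp
  have W2 := fun σ => su_win (σ := σ) ha hk hm hc hs hd hl β0.le hβ' hβ2 hp
  filter_upwards [ev_Ioc, ev_pow (C := D) (half_pos m0) hz,
    ev_pow (C := z⁻¹) (s := 3 / 2 * β') (by positivity) (half_pos d0),
    W1 (-m - γ / 2) (by rw [hm']; linarith) (24 / d) z (by positivity) hz,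
    W2 (-m - β' / 2) (by rw [hm']; linarith) (32 / d) z (by positivity) hz,
    W1 (-m - 2 * β' + 3 / 2 * γ) (by rw [hm']; linarith) (600 * (2 * z⁻¹ * D₁ / d) / d) z
      (by positivity) hz,
    W2 (-m - β' / 2) (by rw [hm']; linarith) (800 * (2 * z⁻¹ * D₁ / d) / d) z (by positivity) hz,
    su_cr (σ := g - 1 + u + 3 / 2 * γ) ha hk hm hc hs hd hl hγ (hγβ.trans hβ') (by linarith)
      (4 * z⁻¹ ^ 3 * D₁ / d ^ 2) z (by positivity) hz,
    su_cr (σ := g - 1 + u) ha hk hm hc hs hd hl β0.le hβ' (by linarith)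
      (4 * z⁻¹ ^ 2 * D₁ / d) z (by positivity) hz] with ε ⟨hε, hε1⟩ k1 k2 T1 T2 T3 T4 T5 T6
  have E0 := fun t => rpow_pos_of_pos hε t
  have l1 : 1 ≤ ε ^ (-γ) := one_le_rpow_of_pos_of_le_one_of_nonpos hε hε1 (by linarith)
  have l2 : ε ^ (-γ) ≤ ε ^ (-β') := rpow_le_rpow_of_exponent_ge hε hε1 (by linarith)
  have q1 : ∀ t : ℝ, (ε ^ (-t)) ^ (3 / 2 : ℝ) = ε ^ (-(3 / 2 * t)) := fun t => by
    rw [← rpow_mul hε.le]; congr 1; ring
  have q2 : ∀ t : ℝ, (ε ^ (-t)) ^ 2 = ε ^ (-(2 * t)) := fun t => by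
    rw [← rpow_natCast, ← rpow_mul hε.le]; congr 1; push_cast; ring
  set s := ε ^ (g - 1 + u - 3 / 2 * (β' - γ)) with hs'
  obtain ⟨ω, o1, o2, o3, o4, o5⟩ := exists_om (x₀ := d * ε ^ (-(3 / 2 * γ)))
    (x₁ := z⁻¹ * (D₁ * ε ^ (-(3 / 2 * γ)))) (y₁ := z⁻¹ * (D₁ * ε ^ (-(3 / 2 * β'))))
    (mul_pos d0 (E0 _)) (inv_pos.2 hz)
  have t0 : Tendsto tau atTop atTop :=
    (tendsto_rpow_atTop (by norm_num)).comp tendsto_natCast_atTop_atTop
  have s0 : 0 < s := E0 _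
  have hsw' := (hsw ε (s / z * (z⁻¹ * (D₁ * ε ^ (-(3 / 2 * γ))))) _ _ hε hε1
    (by have := E0 (-(3 / 2 * γ)); positivity) (l1.trans l2) l1 ω o1 o2 o3).eventually
      (ge_mem_nhds hz)
  filter_upwards [T1, T2, T3, T4, T5, T6, hS (ε ^ (-β')), hsw', eventually_ge_atTop 1,
    (t0.const_mul_atTop (E0 m)).eventually_ge_atTop
      (440 * (2 * z⁻¹ * D₁ / d * (ε ^ (-β')) ^ 2))] with n T1 T2 T3 T4 T5 T6 hS hsw hn hτ
  have key := fixed hk hm hK hn b (θ := ε ^ m) (s := s / z) hε hε1 (E0 _) (by positivity) hz c0 D0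
    (E0 _) l2 (E0 (-(3 / 2 * γ))) (E0 (-(3 / 2 * β'))) rfl rfl rfl rfl ?_ hτ ?_
    (bad_mono hS fun p h => ?_) o1.continuous o4 o5 hsw ?_ ?_ ?_ ?_ ?_ ?_
  · rw [mul_div_cancel₀ _ hz.ne'] at key
    exact key.trans (le_of_eq (by rw [hz'']; ring))
  · rw [rpow_neg hε.le, ← hd', mul_div_right_comm, le_mul_inv_iff₀ (E0 _)]
    exact k2
  · rwa [sqrt_eq_rpow, ← rpow_mul hε.le, mul_one_div]
  · have h1 := h _ ⟨l1, l2⟩
    have h2 := h _ ⟨l1.trans l2, le_rfl⟩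
    rw [q1] at h1 h2
    exact ⟨⟨h1.1, h1.2.trans (mul_le_mul_of_nonneg_right (le_abs_self _) (E0 _).le)⟩, h2.1,
      h2.2.trans (mul_le_mul_of_nonneg_right (le_abs_self _) (E0 _).le)⟩
  · convert T1 using 5
    rw [q2, ediv (r := -m - γ / 2) (s := -(2 * γ)) (t := m) (u := -(3 / 2 * γ)) hε (by ring), ← hd']
    field_simp
  · convert T2 using 5
    rw [q2, ediv (r := -m - β' / 2) (s := -(2 * β')) (t := m) (u := -(3 / 2 * β')) hε (by ring),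
      ← hd']
    field_simp
    ring
  · convert T3 using 5
    rw [q2, ediv (r := -m - 2 * β' + 3 / 2 * γ) (s := -(2 * β')) (t := m) (u := -(3 / 2 * γ)) hε
      (by ring), ← hd']
    field_simp
  · convert T4 using 5
    rw [q2, ediv (r := -m - β' / 2) (s := -(2 * β')) (t := m) (u := -(3 / 2 * β')) hε (by ring),
      ← hd']
    field_simp
    ring
  · convert T5 using 5
    rw [ediv (r := g - 1 + u + 3 / 2 * γ) (s := g - 1 + u - 3 / 2 * (β' - γ)) (t := 0)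
      (u := -(3 / 2 * β')) hε (by ring), ← hd', ← hs', rpow_zero]
    have := E0 (-(3 / 2 * γ))
    have := E0 (-(3 / 2 * β'))
    field_simp
    ring
  · convert T6 using 5
    rw [ediv (r := g - 1 + u) (s := g - 1 + u - 3 / 2 * (β' - γ)) (t := 3 / 2 * γ)
      (u := -(3 / 2 * β')) hε (by ring), ← hd', ← hs', rpow_neg hε.le (3 / 2 * γ)]
    have := E0 (3 / 2 * γ)
    have := E0 (-(3 / 2 * β'))
    field_simp
    ring

end Crest.Agent.T157.Cq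

end
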