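import Crest.Agent.T157.EntD_34
import Crest.Agent.T157.ChainDec_22

/-!
# Row 157, part C (helper63): from entropy levels to the spectral profile and to kernel bounds
-/

set_option autoImplicit false
set_option linter.unusedSectionVars false

namespace Crest.Agent.T157.Q1

open Finset Matrix Chain22 Crest.Agent.T157.Ent Real

variable {Ω : Type*} [Fintype Ω] (c : RC Ω)

/-- small-set Poincaré inequality at the level `H` -/
def SPc (H lam : ℝ) : Prop := ∀ g : Ω → ℝ, (∀ x, 0 ≤ g x) →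
  (∀ x, g x ^ 2 ≤ exp (2 * H) * mean c.π fun x => g x ^ 2) →
  mean c.π (ind fun x => 0 < g x) ≤ exp (-H) → lam * mean c.π (fun x => g x ^ 2) ≤ c.D g g

/-- spectral profile -/
def Prof (H S : ℝ) : Prop := ∀ g : Ω → ℝ, (∀ x, 0 ≤ g x) →
  mean c.π (ind fun x => 0 < g x) ≤ exp (-H) → mean c.π (fun x => g x ^ 2) ≤ S * c.D g g

variable {c} {H S lam : ℝ}

theorem prof_triv (h : ∀ x, exp (-H) < c.π x) (hS : 0 ≤ S) : Prof c H S := fun f hf hs => by
  have hz : ∀ x, f x = 0 := fun x => by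
    by_contra hx
    have h1 : c.π x * ind (fun x => 0 < f x) x ≤ mean c.π (ind fun x => 0 < f x) :=
      single_le_sum (f := fun y => c.π y * ind (fun x => 0 < f x) y)
        (fun y _ => mul_nonneg (c.pos y).le (ind_nonneg _ _)) (mem_univ x)
    rw [ind_pos (p := fun x => 0 < f x) (lt_of_le_of_ne (hf x) (Ne.symm hx)), mul_one] at h1
    linarith [h x]
  have := mul_nonneg hS (c.D_nonneg f)
  simpa [hz, c.isP.mean_const] using this

theorem prof_step (h1 : SPc c H lam) (hl : 0 < lam) (h2 : Prof c (2 * H) S) (hS : 0 ≤ S)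
    (hH : 0 ≤ H) : Prof c H (lam⁻¹ + S) := fun f hf hs => by
  obtain ⟨x₀, q1, q2⟩ := exists_quantile c.isP f (exp_pos (-(2 * H))).le
    (exp_le_one_iff.2 (by linarith))
  set τ := f x₀ with hτ
  have hτ0 : 0 ≤ τ := hf x₀
  set g : Ω → ℝ := fun x => min (f x) τ with hg
  set u : Ω → ℝ := fun x => max (f x - τ) 0 with hu
  have g0 : ∀ x, 0 ≤ g x := fun x => le_min (hf x) hτ0
  have e1 := h1 g g0 (fun x => by
      have b1 : g x ^ 2 ≤ τ ^ 2 := pow_le_pow_left₀ (g0 x) (min_le_right _ _) 2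
      have b2 : τ ^ 2 * mean c.π (ind fun x => τ ≤ f x) ≤ mean c.π fun x => g x ^ 2 := by
        rw [← mean_const_mul]
        refine c.isP.mean_mono fun y => ?_
        by_cases hy : τ ≤ f y
        · rw [ind_pos (p := fun x => τ ≤ f x) hy, mul_one, hg]; simp only [min_eq_right hy, le_refl]
        · rw [ind_neg (p := fun x => τ ≤ f x) hy, mul_zero]; exact sq_nonneg _
      have b3 := mul_le_mul_of_nonneg_left ((mul_le_mul_of_nonneg_left q2 (sq_nonneg τ)).trans b2)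
        (exp_pos (2 * H)).le
      rw [mul_left_comm, ← exp_add, add_neg_cancel, exp_zero, mul_one] at b3
      exact b1.trans b3)
    (le_trans (c.isP.mean_mono (ind_mono fun x hx => hx.trans_le (min_le_left _ _))) hs)
  have e2 := h2 u (fun x => le_max_right _ _)
    (le_trans (c.isP.mean_mono (ind_mono fun x hx => by
      rcases lt_max_iff.1 hx with h | h
      · linarith
      · exact absurd h (lt_irrefl _))) q1)
  have e3 : c.D g g + c.D u u ≤ c.D f f := D_split fun x y => min_max_sq _ _ _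
  have hfg : ∀ x, f x = g x + u x := fun x => by
    simp only [hg, hu]
    rcases le_total (f x) τ with h | h
    · rw [min_eq_left h, max_eq_right (by linarith), add_zero]
    · rw [min_eq_right h, max_eq_left (by linarith)]; ring
  have e4 : mean c.π (fun x => f x ^ 2) = mean c.π (fun x => g x ^ 2) +
      2 * ip c.π g u + mean c.π (fun x => u x ^ 2) := by
    rw [ip_eq_mean, ← mean_const_mul, ← mean_add', ← mean_add']
    exact mean_congr fun x => by rw [hfg x]; ring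
  have e5 : ip c.π g u ^ 2 ≤ mean c.π (fun x => g x ^ 2) * mean c.π (fun x => u x ^ 2) := by
    simpa only [ip_eq_mean c.π g g, ip_eq_mean c.π u u, ← sq] using c.isP.ip_sq_le g u
  have p1 := c.D_nonneg g
  have p2 := c.D_nonneg u
  have p3 : 0 ≤ mean c.π (fun x => u x ^ 2) := c.isP.mean_nonneg fun x => sq_nonneg _
  have p4 := inv_pos.2 hl
  have e0 : mean c.π (fun x => g x ^ 2) ≤ lam⁻¹ * c.D g g := by rwa [le_inv_mul_iff₀ hl]
  have e6 : ip c.π g u ≤ (lam⁻¹ * c.D u u + S * c.D g g) / 2 := by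
    refine (abs_le_of_sq_le_sq' (e5.trans ?_) (by positivity)).2
    refine (mul_le_mul e0 e2 p3 (by positivity)).trans ?_
    nlinarith [sq_nonneg (lam⁻¹ * c.D u u - S * c.D g g)]
  nlinarith [mul_le_mul_of_nonneg_left e3 (by positivity : 0 ≤ lam⁻¹ + S)]

theorem exists_level (c : RC Ω) : ∃ J : ℕ, ∀ x, exp (-(2 : ℝ) ^ J) < c.π x := by
  have h : ∀ x, ∀ᶠ J : ℕ in Filter.atTop, exp (-(2 : ℝ) ^ J) < c.π x := fun x =>
    (tendsto_exp_neg_atTop_nhds_zero.comp (tendsto_pow_atTop_atTop_of_one_lt one_lt_two)).eventually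
      (gt_mem_nhds (c.pos x))
  exact (Filter.eventually_all.2 h).exists

theorem prof_of_levels {lam S : ℕ → ℝ} {j₀ : ℕ} (h : ∀ j, j₀ ≤ j → SPc c (2 ^ j) (lam j))
    (hl : ∀ j, 0 < lam j) (hS0 : ∀ j, 0 ≤ S j) (hS : ∀ j, (lam j)⁻¹ + S (j + 1) ≤ S j) :
    ∀ j, j₀ ≤ j → Prof c (2 ^ j) (S j) := by
  obtain ⟨J, hJ⟩ := exists_level c
  have key : ∀ k j, j₀ ≤ j → J ≤ j + k → Prof c (2 ^ j) (S j) := fun k => by
    induction k with
    | zero => exact fun j _ h2 => prof_triv (fun x => lt_of_le_of_lt (exp_le_exp.2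
        (neg_le_neg (pow_le_pow_right₀ one_le_two h2))) (hJ x)) (hS0 j)
    | succ k ih =>
      intro j h1 h2 g hg hs
      have := prof_step (h j h1) (hl j) (by
        rw [← pow_succ']; exact ih (j + 1) (by omega) (by omega)) (hS0 (j + 1)) (by positivity) g hg hs
      exact this.trans (mul_le_mul_of_nonneg_right (hS j) (c.D_nonneg g))
  exact fun j hj => key J j hj (by omega)

/-- the Goel–Montenegro–Tetali truncation -/
theorem Prof.gmt (h : Prof c H S) (hS : 0 ≤ S) {f : Ω → ℝ} (hf : ∀ x, 0 ≤ f x)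
    (h1 : mean c.π f ≤ 1) (hb : 4 * exp H ≤ ip c.π f f) : ip c.π f f ≤ 2 * S * c.D f f := by
  have hτ := exp_pos H
  have e1 := h (fun x => max (f x - exp H) 0) (fun x => le_max_right _ _) (by
    refine (c.isP.mean_mono (g := fun x => exp (-H) * f x) fun x => ?_).trans ?_
    · by_cases hx : 0 < max (f x - exp H) 0
      · rw [ind_pos (p := fun x => 0 < max (f x - exp H) 0) hx, exp_neg, le_inv_mul_iff₀ hτ]
        rcases lt_max_iff.1 hx with h | h
        · linarith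
        · exact absurd h (lt_irrefl _)
      · rw [ind_neg (p := fun x => 0 < max (f x - exp H) 0) hx]
        exact mul_nonneg (exp_pos _).le (hf x)
    · rw [mean_const_mul]; exact mul_le_of_le_one_right (exp_pos _).le h1)
  have e2 := c.D_le_of_abs (f := fun x => max (f x - exp H) 0) (g := f) fun x y => by
    simpa using abs_max_sub_max_le_abs (f x - exp H) (f y - exp H) 0
  have e3 : ip c.π f f - 2 * exp H * mean c.π f ≤ mean c.π fun x => max (f x - exp H) 0 ^ 2 := by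
    rw [ip_eq_mean, ← mean_const_mul, ← mean_sub']
    refine c.isP.mean_mono fun x => ?_
    rcases le_total (f x) (exp H) with h | h
    · rw [max_eq_right (by linarith)]; nlinarith [hf x]
    · rw [max_eq_left (by linarith)]; nlinarith
  nlinarith [mul_le_mul_of_nonneg_left e2 hS, mul_le_mul_of_nonneg_left h1 hτ.le]

variable [DecidableEq Ω]

theorem hasDerivAt_sq (c : RC Ω) (f : Ω → ℝ) (s : ℝ) :
    HasDerivAt (fun s => ip c.π (c.H s *ᵥ f) (c.H s *ᵥ f))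
      (-(2 * c.D (c.H s *ᵥ f) (c.H s *ᵥ f))) s := by
  have e0 : (fun s => ip c.π (c.H s *ᵥ f) (c.H s *ᵥ f)) = fun s => ip c.π f (c.H (2 * s) *ᵥ f) := by
    funext s
    rw [two_mul, c.H_add, ← mulVec_mulVec, c.ip_H_symm s f]
  rw [e0]
  refine HasDerivAt.congr_deriv ((c.hasDerivAt_ip_H f f (2 * s)).comp s
    ((hasDerivAt_id s).const_mul 2)) ?_
  have e1 := c.D_H_spec 0 (2 * s) f f
  rw [c.H_zero, one_mulVec, zero_add] at e1
  rw [e1, c.D_H_spec, two_mul s]; ring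

theorem sq_anti (c : RC Ω) (f : Ω → ℝ) : Antitone fun s => ip c.π (c.H s *ᵥ f) (c.H s *ᵥ f) :=
  antitone_of_deriv_nonpos (fun s => (hasDerivAt_sq c f s).differentiableAt) fun s => by
    rw [(hasDerivAt_sq c f s).deriv]; linarith [c.D_nonneg (c.H s *ᵥ f)]

theorem Prof.decay (h : Prof c H S) (hS : 0 < S) {f : Ω → ℝ} (hf : ∀ x, 0 ≤ f x)
    (h1 : mean c.π f ≤ 1) {t : ℝ} (ht : 0 ≤ t) : ip c.π (c.H t *ᵥ f) (c.H t *ᵥ f) ≤
      max (4 * exp H) (exp (-(t / S)) * ip c.π f f) := by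
  rcases le_total (ip c.π (c.H t *ᵥ f) (c.H t *ᵥ f)) (4 * exp H) with hc | hc
  · exact hc.trans (le_max_left _ _)
  refine le_trans ?_ (le_max_right _ _)
  have hd := fun s => ((hasDerivAt_id' s).div_const S).exp.mul (hasDerivAt_sq c f s)
  have anti := antitoneOn_of_hasDerivWithinAt_nonpos (convex_Icc 0 t)
    (fun s _ => (hd s).continuousAt.continuousWithinAt) (fun s _ => (hd s).hasDerivWithinAt)
    (fun s hs => by
      have hs' := interior_subset hs
      have e := h.gmt hS.le (c.H_nonneg hs'.1 hf) (by rwa [c.mean_H]) (hc.trans (sq_anti c f hs'.2))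
      have e2 : 1 / S * ip c.π (c.H s *ᵥ f) (c.H s *ᵥ f) ≤ 2 * c.D (c.H s *ᵥ f) (c.H s *ᵥ f) := by
        rw [one_div, inv_mul_le_iff₀ hS]; linarith
      nlinarith [mul_le_mul_of_nonneg_left e2 (exp_pos (s / S)).le])
    (Set.left_mem_Icc.2 ht) (Set.right_mem_Icc.2 ht) ht
  simp only [Pi.mul_apply, zero_div, exp_zero, one_mul, c.H_zero, one_mulVec] at anti
  rwa [exp_neg, le_inv_mul_iff₀ (exp_pos _)]

theorem four_le (H : ℝ) : 4 * exp H ≤ exp (H + 2) := by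
  rw [exp_add, mul_comm, show (2 : ℝ) = 1 + 1 by norm_num, exp_add]
  refine mul_le_mul_of_nonneg_left ?_ (exp_pos _).le
  nlinarith [add_one_le_exp (1 : ℝ)]

theorem down_aux {S U : ℕ → ℝ} {j₀ : ℕ} (h : ∀ j, j₀ ≤ j → Prof c (2 ^ j) (S j))
    (hS : ∀ j, 0 < S j) (hU0 : ∀ j, 0 ≤ U j) (hU : ∀ j, 2 ^ j * S j + U (j + 1) ≤ U j)
    {f : Ω → ℝ} (hf : ∀ x, 0 ≤ f x) (h1 : mean c.π f ≤ 1) (k : ℕ) : ∀ j, j₀ ≤ j →
      ip c.π f f ≤ exp (2 ^ (j + k) + 2) →
      ip c.π (c.H (U j) *ᵥ f) (c.H (U j) *ᵥ f) ≤ exp (2 ^ j + 2) := by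
  induction k with
  | zero =>
    intro j _ h2
    have := sq_anti c f (hU0 j)
    simp only [c.H_zero, one_mulVec] at this
    exact this.trans h2
  | succ k ih =>
    intro j hj h2
    have e1 := ih (j + 1) (by omega) (by rwa [add_right_comm, add_assoc])
    have p1 : 0 ≤ 2 ^ j * S j := mul_nonneg (by positivity) (hS j).le
    have e2 := (h j hj).decay (hS j) (c.H_nonneg (hU0 (j + 1)) hf) (by rwa [c.mean_H]) p1
    rw [mulVec_mulVec, ← c.H_add] at e2
    refine ((sq_anti c f (hU j)).trans e2).trans (max_le (four_le _) ?_)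
    refine (mul_le_mul_of_nonneg_left e1 (exp_pos _).le).trans (le_of_eq ?_)
    rw [← exp_add, mul_div_assoc, div_self (hS j).ne', pow_succ]
    congr 1; ring

/-- **every start reaches the level `2^j` at time `U j`** -/
theorem down_sq {S U : ℕ → ℝ} {j₀ : ℕ} (h : ∀ j, j₀ ≤ j → Prof c (2 ^ j) (S j))
    (hS : ∀ j, 0 < S j) (hU0 : ∀ j, 0 ≤ U j) (hU : ∀ j, 2 ^ j * S j + U (j + 1) ≤ U j)
    {f : Ω → ℝ} (hf : ∀ x, 0 ≤ f x) (h1 : mean c.π f ≤ 1) {j : ℕ} (hj : j₀ ≤ j) {t : ℝ}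
    (ht : U j ≤ t) : ip c.π (c.H t *ᵥ f) (c.H t *ᵥ f) ≤ exp (2 ^ j + 2) := by
  obtain ⟨k, hk⟩ := pow_unbounded_of_one_lt (ip c.π f f) (one_lt_two (α := ℝ))
  refine (sq_anti c f ht).trans (down_aux h hS hU0 hU hf h1 k j hj ?_)
  have : (2 : ℝ) ^ k ≤ 2 ^ (j + k) := pow_le_pow_right₀ one_le_two (by omega)
  linarith [add_one_le_exp ((2 : ℝ) ^ (j + k) + 2)]

theorem down_ker {S U : ℕ → ℝ} {j₀ : ℕ} (h : ∀ j, j₀ ≤ j → Prof c (2 ^ j) (S j))
    (hS : ∀ j, 0 < S j) (hU0 : ∀ j, 0 ≤ U j) (hU : ∀ j, 2 ^ j * S j + U (j + 1) ≤ U j)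
    {j : ℕ} (hj : j₀ ≤ j) {t : ℝ} (ht : 2 * U j ≤ t) (x y : Ω) :
    c.H t x y ≤ exp (2 ^ j + 2) * c.π y := by
  have e := fun z => down_sq h hS hU0 hU (c.del_nonneg z) (c.mean_del z).le hj (t := t / 2)
    (by linarith)
  have e1 : ip c.π (c.H (t / 2) *ᵥ c.del y) (c.H (t / 2) *ᵥ c.del x) = c.H t x y / c.π y := by
    rw [c.ip_H_symm, mulVec_mulVec, ← c.H_add, add_halves, c.ip_del]
    simp [mulVec, dotProduct, RC.del, div_eq_mul_inv]
  have e2 := (c.isP.ip_sq_le (c.H (t / 2) *ᵥ c.del y) (c.H (t / 2) *ᵥ c.del x)).trans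
    (mul_le_mul (e y) (e x) (c.isP.ip_self_nonneg _) (exp_pos _).le)
  rw [e1, ← sq] at e2
  rw [← div_le_iff₀ (c.pos y)]
  exact (abs_le_of_sq_le_sq' e2 (exp_pos _).le).2

/-- power-law levels -/
theorem down_pow {a β : ℝ} (ha : 0 < a) (hβ : 0 < β) {j₀ : ℕ}
    (h : ∀ j, j₀ ≤ j → SPc c (2 ^ j) (((2 : ℝ) ^ j) ^ (1 + a) / β)) {H t : ℝ}
    (hH : 2 ^ (j₀ + 2) ≤ H) (ht : 4 * 4 ^ a / (1 - 2 ^ (-a)) * β * H ^ (-a) ≤ t) (x y : Ω) :
    c.H t x y ≤ exp H * c.π y := by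
  have q1 : (2 : ℝ) ^ (-a) < 1 := rpow_lt_one_of_one_lt_of_neg one_lt_two (by linarith)
  have q0 : (0 : ℝ) < 2 ^ (-a) := by positivity
  have p2 : ∀ j : ℕ, (0 : ℝ) < 2 ^ j := fun j => by positivity
  have s1 : ∀ j : ℕ, ((2 : ℝ) ^ (j + 1)) ^ (-a) = 2 ^ (-a) * ((2 : ℝ) ^ j) ^ (-a) := fun j => by
    rw [pow_succ', mul_rpow two_pos.le (p2 j).le]
  have s2 : ∀ j : ℕ, (((2 : ℝ) ^ j) ^ (1 + a) / β)⁻¹ = β * ((2 : ℝ) ^ j) ^ (-a) / 2 ^ j := fun j => by
    rw [rpow_add (p2 j), rpow_one, rpow_neg (p2 j).le]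
    have := rpow_pos_of_pos (p2 j) a
    field_simp
  have P := prof_of_levels (S := fun j => 2 * (β * ((2 : ℝ) ^ j) ^ (-a) / 2 ^ j)) h
    (fun j => by positivity) (fun j => by positivity) fun j => by
      rw [s2, s1, pow_succ']
      have : 0 < β * ((2 : ℝ) ^ j) ^ (-a) / 2 ^ j := by positivity
      calc _ = (1 + 2 ^ (-a)) * (β * ((2 : ℝ) ^ j) ^ (-a) / 2 ^ j) := by field_simp
        _ ≤ _ := by nlinarith
  have hH0 : 0 < H := (p2 _).trans_le hH
  obtain ⟨m, hm1, hm2⟩ := exists_nat_pow_near (x := H) (y := 2)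
    ((one_le_pow₀ one_le_two).trans hH) one_lt_two
  have hm : j₀ + 2 ≤ m := by
    by_contra hc
    have : (2 : ℝ) ^ (m + 1) ≤ 2 ^ (j₀ + 2) := pow_le_pow_right₀ one_le_two (by omega)
    linarith
  obtain ⟨j, rfl⟩ : ∃ j, m = j + 1 := ⟨m - 1, by omega⟩
  have d0 : 0 < 1 - (2 : ℝ) ^ (-a) := by linarith
  refine (down_ker (U := fun j => 2 * β * ((2 : ℝ) ^ j) ^ (-a) / (1 - 2 ^ (-a))) P
    (fun j => by positivity) (fun j => by positivity) (fun j => le_of_eq ?_) (j := j) (by omega)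
    (le_trans ?_ ht) x y).trans (mul_le_mul_of_nonneg_right (exp_le_exp.2 ?_) (c.pos y).le)
  · rw [s1]; field_simp; ring
  · have e1 : ((2 : ℝ) ^ j) ^ (-a) ≤ (H / 4) ^ (-a) :=
      rpow_le_rpow_of_nonpos (by positivity) (by rw [pow_succ, pow_succ] at hm2; linarith)
        (by linarith)
    rw [div_rpow hH0.le (by norm_num), rpow_neg (by norm_num : (0 : ℝ) ≤ 4), div_inv_eq_mul] at e1
    calc _ = 4 / (1 - 2 ^ (-a)) * β * ((2 : ℝ) ^ j) ^ (-a) := by ring
      _ ≤ 4 / (1 - 2 ^ (-a)) * β * (H ^ (-a) * 4 ^ a) := by gcongr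
      _ = _ := by ring
  · have : (2 : ℝ) ^ 1 ≤ 2 ^ j := pow_le_pow_right₀ one_le_two (by omega)
    rw [pow_succ] at hm1
    linarith

/-- a pointwise bound of the density bounds the relative entropy -/
theorem kl_le_of_le {ν μ : Ω → ℝ} (hν : IsP ν) (hμ : ∀ x, 0 < μ x) {H : ℝ}
    (h : ∀ x, ν x ≤ exp H * μ x) : kl ν μ ≤ H := by
  rw [← hν.mean_const H]
  refine sum_le_sum fun x _ => ?_
  rcases (hν.nn x).eq_or_lt with e | e
  · rw [← e]; simp
  · refine mul_le_mul_of_nonneg_left ?_ e.le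
    rw [log_le_iff_le_exp (div_pos e (hμ x)), div_le_iff₀ (hμ x)]
    exact h x

end Crest.Agent.T157.Q1
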