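import Crest.Agent.T157.Q1B_63
import Crest.Agent.T157.Q1A_63

/-!
# Row 157, part C (helper63): one entropy level
-/

set_option autoImplicit false
set_option linter.unusedSectionVars false

noncomputable section

namespace Crest.Agent.T157.Q1

open MeasureTheory ProbabilityTheory Filter Topology Set Real Matrix
open Crest.Agent.T157.SL Crest.Agent.T157.E Crest.Agent.T157.Tr

variable {Ω : Type*} [Fintype Ω] {ι : Type} [Fintype ι] [DecidableEq ι] {φ : Ω → ι → ℝ}
  {u w f g : Ω → ℝ} {I : Set ℝ} {s t T : ℝ}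

/-! ### static inequalities -/

theorem dot_le_of_unit {b : ι → ℝ} {Q : ℝ} (h : ∀ z, z ⬝ᵥ z ≤ 1 → z ⬝ᵥ b ≤ Q) : b ⬝ᵥ b ≤ Q ^ 2 := by
  rcases (dot_self_nonneg b).eq_or_lt with e | e
  · rw [← e]; exact sq_nonneg Q
  have h1 := sqrt_pos.2 e
  have h2 := mul_self_sqrt e.le
  have := h ((√(b ⬝ᵥ b))⁻¹ • b) (by
    rw [smul_dotProduct, dotProduct_smul, smul_eq_mul, smul_eq_mul, ← mul_assoc, ← mul_inv, h2,
      inv_mul_cancel₀ e.ne'])
  rw [smul_dotProduct, smul_eq_mul, inv_mul_le_iff₀ h1] at this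
  nlinarith [sq_nonneg (√(b ⬝ᵥ b) - Q)]

theorem dot_le_of_sq {a b : ι → ℝ} {A B : ℝ} (hA : 0 ≤ A) (hB : 0 ≤ B) (ha : a ⬝ᵥ a ≤ A ^ 2)
    (hb : b ⬝ᵥ b ≤ B ^ 2) : a ⬝ᵥ b ≤ A * B := by
  have := Finset.sum_mul_sq_le_sq_mul_sq Finset.univ a b
  simp only [sq (a _), sq (b _)] at this
  refine (abs_le_of_sq_le_sq' (this.trans ?_) (mul_nonneg hA hB)).2
  rw [mul_pow]
  exact mul_le_mul ha hb (dot_self_nonneg b) (sq_nonneg A)

theorem covV_le_diam (hu : Wt u) {R : ℝ} (hR : 0 ≤ R)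
    (hD : ∀ x x', (φ x - φ x') ⬝ᵥ (φ x - φ x') ≤ R ^ 2) (hf : ∀ x, 0 ≤ f x) :
    covV u f φ ⬝ᵥ covV u f φ ≤ (R * mean u f) ^ 2 := by
  refine dot_le_of_unit fun z hz => ?_
  rw [covV_dot, hu.cov_eq', mul_comm R, ← mean_mul_const]
  refine hu.mean_mono fun x => mul_le_mul_of_nonneg_left ?_ (hf x)
  rw [sub_le_comm]
  refine hu.le_mean fun x' => ?_
  rw [sub_le_comm, ← dotProduct_sub]
  simpa using dot_le_of_sq zero_le_one hR (by simpa using hz) (hD x x')

/-- exponential moment of the unit linear forms -/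
def SubE (φ : Ω → ι → ℝ) (u : Ω → ℝ) (G : ℝ) : Prop := ∀ z : ι → ℝ, z ⬝ᵥ z ≤ 1 →
  mean u (fun x => exp (z ⬝ᵥ (φ x - meanV u φ))) ≤ exp G

theorem SubE.cov_le {G : ℝ} (h : SubE φ u G) (hu : Wt u) (g : Ω → ℝ) :
    covV u g φ ⬝ᵥ covV u g φ ≤ 4 * exp G * var u g := by
  have p := hu.var_nonneg g
  rw [← sq_sqrt (by positivity : 0 ≤ 4 * exp G * var u g)]
  refine dot_le_of_unit fun z hz => le_sqrt_of_sq_le ?_
  rw [covV_dot, mul_comm]
  refine (hu.cov_sq_le _ _).trans (mul_le_mul_of_nonneg_left ?_ p)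
  have h1 := h z hz
  have h2 := h (-z) (by simpa using hz)
  refine le_trans (hu.mean_mono (g := fun x => 2 * exp (z ⬝ᵥ (φ x - meanV u φ)) +
    2 * exp (-z ⬝ᵥ (φ x - meanV u φ))) fun x => ?_) (by
      rw [mean_add, mean_const_mul, mean_const_mul]; linarith)
  rw [← meanV_dot, ← dotProduct_sub, neg_dotProduct]
  set l := z ⬝ᵥ (φ x - meanV u φ)
  rcases le_total 0 l with hl | hl
  · linarith [quadratic_le_exp_of_nonneg hl, exp_pos (-l)]
  · nlinarith [quadratic_le_exp_of_nonneg (neg_nonneg.2 hl), exp_pos l]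

theorem SubE.cov_le' {G M : ℝ} (h : SubE φ u G) (hu : Wt u) (hf : ∀ x, 0 ≤ f x)
    (hM : ∀ x, f x ≤ M) (R : ℝ) :
    covV u f φ ⬝ᵥ covV u f φ ≤ (R * mean u f + M * exp (G - R)) ^ 2 := by
  refine dot_le_of_unit fun z hz => ?_
  obtain ⟨x, -⟩ := hu.exists_pos
  have M0 := (hf x).trans (hM x)
  rw [covV_dot, hu.cov_eq']
  refine le_trans (hu.mean_mono (g := fun x => R * f x + M * exp (-R) *
    exp (z ⬝ᵥ (φ x - meanV u φ))) fun x => ?_) ?_
  · rw [← meanV_dot, ← dotProduct_sub, mul_assoc, ← exp_add]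
    set l := z ⬝ᵥ (φ x - meanV u φ)
    nlinarith [mul_le_mul_of_nonneg_left (add_one_le_exp (-R + l)) (hf x), hf x,
      mul_le_mul_of_nonneg_right (hM x) (exp_pos (-R + l)).le]
  · rw [mean_add, mean_const_mul, mean_const_mul, sub_eq_neg_add, exp_add, mul_assoc]
    exact add_le_add le_rfl (mul_le_mul_of_nonneg_left (mul_le_mul_of_nonneg_left (h z hz)
      (exp_pos _).le) M0)

theorem centred_le (hu : Wt u) {M : ℝ} (hM : ∀ x, g x ^ 2 ≤ M) (x : Ω) :
    (g x - mean u g) ^ 2 ≤ 4 * M := by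
  have h1 : mean u g ^ 2 ≤ M := (hu.isP.mean_sq_le g).trans
    (hu.mean_le (f := fun x => g x * g x) fun x => by simpa only [sq] using hM x)
  nlinarith [hM x, sq_nonneg (g x + mean u g)]

/-- the functional at the terminal time -/
theorem SubE.nf_le {G M c R : ℝ} (h : SubE φ u G) (hu : Wt u) (hM : ∀ x, g x ^ 2 ≤ M)
    (hc : 0 ≤ c) (hR : 0 ≤ R) :
    √(mean u (fun x => g x ^ 2) ^ 2 + c ^ 2 * (covV u (fun x => g x ^ 2) φ ⬝ᵥ
      covV u (fun x => g x ^ 2) φ)) ≤ mean u (fun x => g x ^ 2) + 8 * exp G * c ^ 2 * var u g +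
        c * (R * var u g + 4 * M * exp (G - R)) := by
  obtain ⟨x, -⟩ := hu.exists_pos
  have M0 := (sq_nonneg _).trans (hM x)
  have e : covV u (fun x => g x ^ 2) φ = (2 * mean u g) • covV u g φ +
      covV u (fun x => (g x - mean u g) ^ 2) φ := by
    funext i
    simp only [covV, hu.cov_eq', Pi.add_apply, Pi.smul_apply, smul_eq_mul]
    have : mean u (fun x => mean u g ^ 2 * (φ x i - mean u fun x => φ x i)) = 0 := by
      rw [mean_const_mul, mean_sub, hu.mean_const, sub_self, mul_zero]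
    rw [← mean_const_mul _ _ (2 * mean u g), ← mean_add, ← add_zero (mean u _), ← this, ← mean_add]
    congr 1; funext x; ring
  have b1 := h.cov_le hu g
  have b2 := h.cov_le' hu (f := fun x => (g x - mean u g) ^ 2) (fun x => sq_nonneg _)
    (centred_le hu hM) R
  change _ ≤ (R * var u g + _) ^ 2 at b2
  have b3 : mean u g ^ 2 ≤ mean u fun x => g x ^ 2 := by
    simp only [sq (g _)]; exact hu.isP.mean_sq_le g
  have p := hu.var_nonneg g
  set m := mean u fun x => g x ^ 2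
  set P := 8 * exp G * c ^ 2 * var u g with hP
  set Q := R * var u g + 4 * M * exp (G - R) with hQ
  set a := (2 * mean u g) • covV u g φ with ha
  set b := covV u (fun x => (g x - mean u g) ^ 2) φ
  have m0 : 0 ≤ m := (sq_nonneg _).trans b3
  have P0 : 0 ≤ P := by positivity
  have Q0 : 0 ≤ Q := by positivity
  have a1 : c ^ 2 * (a ⬝ᵥ a) ≤ 2 * m * P := by
    rw [ha, smul_dotProduct, dotProduct_smul, smul_eq_mul, smul_eq_mul]
    have := mul_le_mul_of_nonneg_left (mul_le_mul b3 b1 (dot_self_nonneg _) m0) (sq_nonneg c)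
    nlinarith
  have a2 : (c • a) ⬝ᵥ b ≤ (m + P) * Q := dot_le_of_sq (by positivity) Q0 (by
    rw [smul_dotProduct, dotProduct_smul, smul_eq_mul, smul_eq_mul]; nlinarith) b2
  rw [smul_dotProduct, smul_eq_mul] at a2
  rw [sqrt_le_left (by positivity), e, add_dotProduct, dotProduct_add, dotProduct_add,
    dotProduct_comm b a]
  nlinarith [mul_le_mul_of_nonneg_left a2 hc, mul_le_mul_of_nonneg_left b2 (sq_nonneg c),
    sq_nonneg P]

theorem ent_sq_le (hu : Wt u) {A : ℝ} (hM : ∀ x, g x ^ 2 ≤ exp A) :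
    ent u (fun x => g x ^ 2) ≤ (A + 3) * var u g + 1 := by
  have h1 : ent u (fun x => g x ^ 2) ≤ ent u (fun x => (g x - mean u g) ^ 2) + 2 * var u g :=
    Ent.rothaus hu.isP g
  have h2 : mean u (fun x => (g x - mean u g) ^ 2 * log ((g x - mean u g) ^ 2)) ≤
      var u g * (A + 2) := by
    change _ ≤ mean u (fun x => (g x - mean u g) ^ 2) * _
    rw [← mean_mul_const]
    refine hu.mean_mono fun x => ?_
    rcases (sq_nonneg (g x - mean u g)).eq_or_lt with e | e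
    · rw [← e]; simp
    · exact mul_le_mul_of_nonneg_left ((log_le_iff_le_exp e).2
        ((centred_le hu hM x).trans (four_le A))) e.le
  have h3 : var u g - 1 ≤ var u g * log (var u g) := self_sub_one_le_mul_log (hu.var_nonneg g)
  have h4 : ent u (fun x => (g x - mean u g) ^ 2) = mean u (fun x => (g x - mean u g) ^ 2 *
    log ((g x - mean u g) ^ 2)) - var u g * log (var u g) := rfl
  linarith

/-! ### the window -/

theorem Nf_mono {c c' : ℝ} (h : c ^ 2 ≤ c' ^ 2) (p : Pt ι) : Nf φ w f c p ≤ Nf φ w f c' p :=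
  sqrt_le_sqrt (add_le_add le_rfl (mul_le_mul_of_nonneg_right h (dot_self_nonneg _)))

theorem mg_Nf (hw : Wt w) (c t : ℝ) : MG fun y => Nf φ w f c (t, y) :=
  (eg_Nf (I := univ) (c := fun _ => c) hw (EG.const c)).mg (mem_univ t)

theorem transport_HA (hw : Wt w) (hf : ∀ x, 0 ≤ f x) (h0 : 0 < mean w f) {e p : ℝ → ℝ} {ρ M E : ℝ}
    (h : HA φ w e p s T ρ) (hst : s ≤ T) (hM : ∀ x, f x ≤ M)
    (hE : exp (∫ r in s..T, e r / r) ≤ E) (c : ℝ) :
    ex φ w (Nf φ w f c) s ≤ ex φ w (Nf φ w f (c * (T / s) * E)) T +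
      c ^ 2 * E ^ 2 * M / s ^ 2 * ρ ^ 2 := by
  have s0 := h.pos
  obtain ⟨x, -⟩ := hw.exists_pos
  have M0 := (hf x).trans (hM x)
  have pr := prim hst h.c2
  have cE : ∀ r ∈ Icc s T, (c * (r / s) * exp (∫ q in s..r, e q / q)) ^ 2 ≤
      (c * (r / s) * E) ^ 2 := fun r hr => by
    rw [mul_pow, mul_pow _ E]
    exact mul_le_mul_of_nonneg_left (pow_le_pow_left₀ (exp_pos _).le
      ((exp_le_exp.2 (h.eps_le le_rfl le_rfl hr.1 hr.2 le_rfl)).trans hE) 2) (sq_nonneg _)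
  have mχ : ∀ r, MG fun y => 1 - ig φ w e (r, y) := fun r => (MG.const 1).sub (mg_ig hw e r)
  have := transport (φ := φ) hw hf h0 s0.le hst
    (c := fun r => c * (r / s) * exp (∫ q in s..r, e q / q)) (k := fun r => (1 + e r) / r)
    (ε := fun r => c ^ 2 * E ^ 2 * M / s ^ 2 * p r) (χ := fun q => 1 - ig φ w e q)
    ((continuousOn_const.mul (continuousOn_id.div_const s)).mul pr.1.rexp)
    ((continuousOn_const.add h.cε).div continuousOn_id fun r hr => (s0.trans_le hr.1).ne')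
    (continuousOn_const.mul h.cp)
    (fun r hr => ((((hasDerivAt_id' r).div_const s).const_mul c).mul (pr.2 r hr).exp).congr_deriv (by
      have := (s0.trans hr.1).ne'
      field_simp))
    (fun r hr => div_nonneg (by linarith [h.ε0 r hr]) (s0.le.trans hr.1))
    (fun r hr => mul_nonneg (by positivity) (h.p0 hw hr)) mχ (fun q => sub_nonneg.2 (ig_le_one q))
    (fun q hq hχ z => by
      have q0 := s0.trans hq.1
      rcases ig_cases (φ := φ) (w := w) (ε := e) q with h1 | h1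
      · have := (quad_X_le (φ := φ) (w := w) (p := q) z).trans
          (mul_le_mul_of_nonneg_right h1.1 (dot_self_nonneg z))
        rw [Xp, smul_mulVec, dotProduct_smul, smul_eq_mul] at this
        rwa [div_mul_eq_mul_div, le_div_iff₀' q0]
      · rw [h1.2, sub_zero] at hχ; exact absurd hχ (lt_irrefl _))
    fun r hr => by
      have r0 := s0.trans hr.1
      have hr' := Ioo_subset_Icc_self hr
      have q0 : ∀ y, 0 ≤ (1 - ig φ w e (r, y)) * (vv φ w f (r, y) ⬝ᵥ covMat (pw φ w (r, y)) φ *ᵥ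
          vv φ w f (r, y) / mean (pw φ w (r, y)) f) := fun y => mul_nonneg (sub_nonneg.2 (ig_le_one _))
        (div_nonneg ((hw.post φ r y).covMat_quad_nonneg φ _) ((hw.post φ r y).mean_nonneg hf))
      refine (mul_le_mul_of_nonneg_right (cE r hr') (ex_nonneg hw q0)).trans ?_
      rw [show (c * (r / s) * E) ^ 2 = c ^ 2 * E ^ 2 / s ^ 2 * r ^ 2 by ring, mul_assoc,
        show c ^ 2 * E ^ 2 * M / s ^ 2 * p r = c ^ 2 * E ^ 2 / s ^ 2 * (M * p r) by ring]
      refine mul_le_mul_of_nonneg_left (le_trans ?_ (mul_le_mul_of_nonneg_left (h.le r hr') M0))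
        (by positivity)
      rw [pb, ← ex_const_mul, ← ex_const_mul]
      refine ex_mono hw (((mχ r).mul (((eg_dot (fun j => eg_vv hw f j) fun j =>
        eg_dot (fun l => eg_cov hw _ _) fun l => eg_vv hw f l).mul (eg_inv_mean (φ := φ)
          (Metric.isBounded_Icc r r) hw hf h0)).mg (left_mem_Icc.2 le_rfl))).const_mul _)
        (((mχ r).mul ((((EG.const 1).add (eg_nx (a := r) (b := r) hw)).pow 3).mg
          (left_mem_Icc.2 le_rfl))).const_mul _) fun y => ?_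
      rw [mul_left_comm, mul_left_comm M]
      refine mul_le_mul_of_nonneg_left ?_ (sub_nonneg.2 (ig_le_one _))
      have u0 := hw.mean_post_pos hf h0 φ r y
      have b1 := quad_X_le (φ := φ) (w := w) (p := (r, y)) (vv φ w f (r, y))
      rw [Xp, smul_mulVec, dotProduct_smul, smul_eq_mul] at b1
      have b2 := vv_sq_le (φ := φ) (p := (r, y)) hw r0 f
      have b3 : var (pw φ w (r, y)) f ≤ M * mean (pw φ w (r, y)) f := by
        rw [← mean_const_mul]
        exact ((hw.post φ r y).var_le_mean f 0).trans ((hw.post φ r y).mean_mono fun x => by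
          nlinarith [hf x, hM x])
      have n0 := nx_nonneg (φ := φ) (w := w) (r, y)
      rw [← mul_div_assoc, div_le_iff₀ u0]
      have b4 := mul_le_mul_of_nonneg_left b1 r0.le
      have b5 := mul_le_mul_of_nonneg_left (b2.trans (mul_le_mul_of_nonneg_left b3 n0)) n0
      have b6 : nx φ w (r, y) * nx φ w (r, y) ≤ (1 + nx φ w (r, y)) ^ 3 := by
        nlinarith [mul_nonneg n0 (mul_nonneg n0 n0)]
      simp only at b4 b5
      nlinarith [mul_le_mul_of_nonneg_left b6 (mul_nonneg M0 u0.le)]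
  simp only [intervalIntegral.integral_same, exp_zero, div_self s0.ne', mul_one,
    intervalIntegral.integral_const_mul] at this
  refine this.trans (add_le_add (ex_mono hw (mg_Nf hw _ T) (mg_Nf hw _ T) fun y =>
    Nf_mono (cE T (right_mem_Icc.2 hst)) _) (mul_le_mul_of_nonneg_left (h.int_p_le hw hst)
      (by positivity)))

theorem start_le (hw : Wt w) (hf : ∀ x, 0 ≤ f x) (h0 : 0 < mean w f) {R : ℝ} (hR : 0 < R)
    (hD : ∀ x x', (φ x - φ x') ⬝ᵥ (φ x - φ x') ≤ R ^ 2) (hs : 0 ≤ s) :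
    mean w f + 2 / 3 * R⁻¹ ^ 2 * J2 φ w f s ≤ ex φ w (Nf φ w f R⁻¹) s := by
  have m := (eg_entD (φ := φ) (Metric.isBounded_Icc s s) hw hf h0).mg (left_mem_Icc.2 le_rfl)
  rw [← ex_mean (φ := φ) hw hs f, J2, ← ex_const_mul, ← ex_add ((eg_mean hw f).mg (mem_univ s))
    (m.const_mul _)]
  refine ex_mono hw (((eg_mean hw f).mg (mem_univ s)).add (m.const_mul _)) (mg_Nf hw _ s)
    fun y => le_sqrt_of_sq_le ?_
  have u0 := hw.mean_post_pos hf h0 φ s y
  have h1 := covV_le_diam (hw.post φ s y) hR.le hD hf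
  have h2 := dot_self_nonneg (covV (post φ w s y) f φ)
  unfold vv
  simp only [pw] at u0 h1 ⊢
  set m := mean (post φ w s y) f
  set q := covV (post φ w s y) f φ ⬝ᵥ covV (post φ w s y) f φ
  have e : ∃ z, 0 ≤ z ∧ z ≤ m ∧ R⁻¹ ^ 2 * q = z * m := ⟨R⁻¹ ^ 2 * q / m, by positivity, by
    rw [div_le_iff₀ u0, inv_pow, inv_mul_le_iff₀ (by positivity)]; nlinarith, by field_simp⟩
  obtain ⟨z, z0, z1, z2⟩ := e
  have : 2 / 3 * R⁻¹ ^ 2 * (q / (2 * m)) = z / 3 := by
    rw [show 2 / 3 * R⁻¹ ^ 2 * (q / (2 * m)) = R⁻¹ ^ 2 * q / (3 * m) by ring, z2]; field_simp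
  rw [this, z2]
  nlinarith

theorem end_le (hw : Wt w) (hT : 0 ≤ T) {R₀ M G δ V c R : ℝ} (hR₀ : 0 ≤ R₀)
    (hD : ∀ x x', (φ x - φ x') ⬝ᵥ (φ x - φ x') ≤ R₀ ^ 2) (hM : ∀ x, g x ^ 2 ≤ M)
    (hV : ex φ w (fun p => var (pw φ w p) g) T ≤ V) {A : Set (ι → ℝ)} (hA : MeasurableSet A)
    (hδ : (law φ w T).real A ≤ δ) (hs : ∀ y ∉ A, SubE φ (post φ w T y) G) (hc : 0 ≤ c)
    (hR : 0 ≤ R) : ex φ w (Nf φ w (fun x => g x ^ 2) c) T ≤ mean w (fun x => g x ^ 2) +
      8 * exp G * c ^ 2 * V + c * (R * V + 4 * M * exp (G - R) + R₀ * M * δ) := by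
  obtain ⟨x, -⟩ := hw.exists_pos
  have M0 := (sq_nonneg _).trans (hM x)
  have m1 := (eg_mean (φ := φ) hw fun x => g x ^ 2).mg (mem_univ T)
  have m2 := ((eg_var (φ := φ) hw g).const_mul (8 * exp G * c ^ 2 + c * R)).mg (mem_univ T)
  have m3 := (MG.const (c * (R₀ * M))).indicator hA
  have := ex_mono (φ := φ) (G := Nf φ w (fun x => g x ^ 2) c) (H := fun p =>
    mean (pw φ w p) (fun x => g x ^ 2) + (8 * exp G * c ^ 2 + c * R) * var (pw φ w p) g +
      c * (4 * M * exp (G - R)) + A.indicator (fun _ => c * (R₀ * M)) p.2) hw (mg_Nf hw c T)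
    (((m1.add m2).add (.const _)).add m3) fun y => by
      have hu := hw.post φ T y
      by_cases hy : y ∈ A
      · have h1 := covV_le_diam hu hR₀ hD (f := fun x => g x ^ 2) fun x => sq_nonneg _
        have h2 := hu.mean_nonneg (f := fun x => g x ^ 2) fun x => sq_nonneg _
        have h3 := hu.mean_le hM
        have h4 := hu.var_nonneg g
        have : Nf φ w (fun x => g x ^ 2) c (T, y) ≤
            mean (post φ w T y) (fun x => g x ^ 2) + c * (R₀ * M) := by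
          rw [Nf, sqrt_le_left (by positivity)]
          have h5 := h1.trans (pow_le_pow_left₀ (by positivity)
            (mul_le_mul_of_nonneg_left h3 hR₀) 2)
          have h6 : 0 ≤ mean (post φ w T y) (fun x => g x ^ 2) * (c * (R₀ * M)) := by positivity
          unfold vv
          nlinarith [mul_le_mul_of_nonneg_left h5 (sq_nonneg c)]
        simp only [indicator_of_mem hy]
        have p1 : 0 ≤ (8 * exp G * c ^ 2 + c * R) * var (post φ w T y) g := by positivity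
        have p2 : 0 ≤ c * (4 * M * exp (G - R)) := by positivity
        linarith
      · simp only [indicator_of_notMem hy]
        exact ((hs y hy).nf_le hu hM hc hR).trans (le_of_eq (by ring))
  rw [ex_add ((m1.add m2).add (.const _)) m3, ex_add (m1.add m2) (.const _), ex_add m1 m2,
    ex_const hw, ex_const_mul, ex_mean hw hT] at this
  have e : ex φ w (fun p => A.indicator (fun _ => c * (R₀ * M)) p.2) T =
      c * (R₀ * M) * (law φ w T).real A := by
    rw [law_real hw hA, ← mean_const_mul]; exact slE_indicator hA fun _ => c * (R₀ * M)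
  rw [e] at this
  nlinarith [mul_le_mul_of_nonneg_left hV (by positivity : 0 ≤ 8 * exp G * c ^ 2 + c * R),
    mul_le_mul_of_nonneg_left hδ (by positivity : 0 ≤ c * (R₀ * M))]

theorem ent_drop (hw : Wt w) (hf : ∀ x, 0 ≤ f x) (h0 : 0 < mean w f) (hs : 0 ≤ s) (hst : s ≤ t)
    {Ψ ψ : ℝ → ℝ} (hΨ : ContinuousOn Ψ (Icc s t)) (dΨ : ∀ r ∈ Ioo s t, HasDerivAt Ψ (ψ r) r)
    (h : ∀ r ∈ Ioo s t, J2 φ w f r ≤ ψ r) :
    ex φ w (fun p => ent (pw φ w p) f) s + Ψ s ≤ ex φ w (fun p => ent (pw φ w p) f) t + Ψ t := by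
  simpa using gron0 (K := fun _ => 0) (κ := fun _ => 0) hst (eg_ent (φ := φ) hw f).continuousOn_ex
    continuousOn_const hΨ (fun r hr => hasDerivAt_ex_ent hw hf h0 (hs.trans_lt hr.1))
    (fun r _ => hasDerivAt_const r _) dΨ fun r hr => by
      have := h r hr
      unfold J2 at this
      simp only [exp_zero, zero_mul, add_zero, one_mul]
      linarith

/-- transport of the functional from `s` to `T` with a loss `E` and an error `η` -/
def Tp (φ : Ω → ι → ℝ) (w f : Ω → ℝ) (s T E η : ℝ) : Prop := ∀ c : ℝ,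
  ex φ w (Nf φ w f c) s ≤ ex φ w (Nf φ w f (c * (T / s) * E)) T + c ^ 2 * η / s ^ 2

theorem Tp.trans {r E E' η η' : ℝ} (h : Tp φ w f s r E η) (h' : Tp φ w f r T E' η') (hr : r ≠ 0) :
    Tp φ w f s T (E * E') (η + E ^ 2 * η') := fun c => by
  have h1 := h c
  have h2 := h' (c * (r / s) * E)
  rw [show c * (r / s) * E * (T / r) * E' = c * (T / s) * (E * E') by field_simp,
    show (c * (r / s) * E) ^ 2 * η' / r ^ 2 = c ^ 2 * (E ^ 2 * η') / s ^ 2 by field_simp] at h2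
  rw [mul_add, add_div]
  linarith

theorem Tp.mono (hw : Wt w) {E E' η η' : ℝ} (h : Tp φ w f s T E η) (hE : E ^ 2 ≤ E' ^ 2)
    (hη : η ≤ η') : Tp φ w f s T E' η' := fun c =>
  (h c).trans (add_le_add (ex_mono hw (mg_Nf hw _ T) (mg_Nf hw _ T) fun y => Nf_mono (by
    rw [mul_pow, mul_pow _ E']; exact mul_le_mul_of_nonneg_left hE (sq_nonneg _)) _) (by gcongr))

theorem tp_of_HA (hw : Wt w) (hf : ∀ x, 0 ≤ f x) (h0 : 0 < mean w f) {e p : ℝ → ℝ} {ρ M E r : ℝ}
    (h : HA φ w e p s T ρ) (hM : ∀ x, f x ≤ M) (hE : exp (∫ r in s..T, e r / r) ≤ E)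
    (hr : r ∈ Icc s T) : Tp φ w f r T E (E ^ 2 * M * ρ ^ 2) := fun c =>
  (transport_HA hw hf h0 (h.mono hr.1 hr.2 le_rfl) hr.2 hM
    ((exp_le_exp.2 (h.eps_le le_rfl hr.1 hr.2 le_rfl le_rfl)).trans hE) c).trans_eq (by ring)

/-- the bad moments from the probability of the bad event -/
theorem pb_le (hw : Wt w) {e : ℝ → ℝ} {r K : ℝ} (m : ℕ) (hK : ∀ y, nx φ w (r, y) ≤ K) :
    pb φ w e m r ≤ (1 + K) ^ m * (law φ w r).real {y | 1 + e r < nx φ w (r, y)} := by
  have hA : MeasurableSet {y | 1 + e r < nx φ w (r, y)} :=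
    measurableSet_lt measurable_const (mg_nx hw r).meas
  rw [law_real hw hA, ← mean_const_mul, ← slE_indicator hA fun _ => (1 + K) ^ m]
  refine slE_mono hw (.of_mg fun _ => ((MG.const 1).sub (mg_ig hw e r)).mul
    ((((EG.const 1).add (eg_nx (a := r) (b := r) hw)).pow m).mg (left_mem_Icc.2 le_rfl)))
    (.of_mg fun _ => (MG.const _).indicator hA) fun _ y => ?_
  have n0 := nx_nonneg (φ := φ) (w := w) (r, y)
  rcases ig_cases (φ := φ) (w := w) (ε := e) (r, y) with h | h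
  · rw [h.2, sub_self, zero_mul]
    exact indicator_nonneg (fun _ _ => pow_nonneg (by linarith [hK y]) m) y
  · rw [h.2, sub_zero, one_mul, indicator_of_mem (by exact h.1)]
    exact pow_le_pow_left₀ (by linarith) (by linarith [hK y]) m

/-- the end stage from the entropy production at time `T` -/
theorem end_le_J2 (hw : Wt w) (hf : ∀ x, 0 ≤ f x) (h0 : 0 < mean w f) (hT : 0 ≤ T) (c : ℝ) :
    ex φ w (Nf φ w f c) T ≤ mean w f + c ^ 2 * J2 φ w f T := by
  have m := (eg_entD (φ := φ) (Metric.isBounded_Icc T T) hw hf h0).mg (left_mem_Icc.2 le_rfl)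
  rw [← ex_mean (φ := φ) hw hT f, J2, ← ex_const_mul, ← ex_add ((eg_mean hw f).mg (mem_univ T))
    (m.const_mul _)]
  refine ex_mono hw (mg_Nf hw _ T) (((eg_mean hw f).mg (mem_univ T)).add (m.const_mul _))
    fun y => ?_
  have u0 := hw.mean_post_pos hf h0 φ T y
  have h2 := dot_self_nonneg (covV (post φ w T y) f φ)
  rw [Nf, sqrt_le_left (by simp only [pw]; positivity)]
  unfold vv
  simp only [pw]
  set m := mean (post φ w T y) f
  set q := covV (post φ w T y) f φ ⬝ᵥ covV (post φ w T y) f φ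
  have : c ^ 2 * q = 2 * m * (c ^ 2 * (q / (2 * m))) := by field_simp
  nlinarith [sq_nonneg (c ^ 2 * (q / (2 * m)))]

theorem early_ent (hw : Wt w) (hf : ∀ x, 0 ≤ f x) (h1 : mean w f = 1) {H : ℝ} (hH : 0 ≤ H)
    (hM : ∀ x, f x ≤ exp (2 * H)) (t0 : 0 < t) (hX : XX φ w (65 * t) ≤ exp H) :
    ent w f ≤ ex φ w (fun p => ent (pw φ w p) f) t + H / 4 := by
  have a1 := ent_drop (φ := φ) hw hf (h1 ▸ one_pos) le_rfl t0.le (Ψ := fun r => H / (4 * t) * r)
    (ψ := fun _ => H / (4 * t)) (by fun_prop)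
    (fun r _ => ((hasDerivAt_id' r).const_mul _).congr_deriv (mul_one _)) fun r hr => by
      refine (early hw hf h1 (by linarith) hH hM hX hr.1.le (by linarith [hr.2])).trans ?_
      rw [div_le_div_iff₀ (by linarith [hr.2]) (by positivity)]
      nlinarith [mul_le_mul_of_nonneg_left hr.2.le hH]
  rw [ex_pw_zero hw fun u => ent u f] at a1
  have e1 : H / (4 * t) * t = H / 4 := by field_simp
  linarith

/-- **the window, generic form** -/
theorem window (hw : Wt w) (hf : ∀ x, 0 ≤ f x) (h0 : 0 < mean w f) {R₀ E η P Q L : ℝ} (hR₀ : 0 < R₀)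
    (hD : ∀ x x', (φ x - φ x') ⬝ᵥ (φ x - φ x') ≤ R₀ ^ 2) (t0 : 0 < t) (htT : t ≤ T) (E0 : 0 ≤ E)
    (η0 : 0 ≤ η) (P0 : 0 ≤ P) (Q0 : 0 ≤ Q) (h : ∀ r ∈ Ioo t T, Tp φ w f r T E η)
    (hend : ∀ c, 0 ≤ c → ex φ w (Nf φ w f c) T ≤ mean w f + P * c ^ 2 + c * Q)
    (hL : log (T / t) ≤ L) : ex φ w (fun p => ent (pw φ w p) f) t ≤
      ex φ w (fun p => ent (pw φ w p) f) T + 3 / 2 * (E ^ 2 * T ^ 2 * P + η) / t +
        3 / 2 * R₀ * T * E * Q * L := by
  have T0 := t0.trans_le htT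
  set α := 3 / 2 * (E ^ 2 * T ^ 2 * P + η) with hα
  set β := 3 / 2 * R₀ * T * E * Q with hβ
  have a2 := ent_drop (φ := φ) hw hf h0 t0.le htT (Ψ := fun r => β * log r - α * r⁻¹)
    (ψ := fun r => β * r⁻¹ + α * r⁻¹ ^ 2)
    ((continuousOn_const.mul (continuousOn_id.log fun r hr => (t0.trans_le hr.1).ne')).sub
      (continuousOn_const.mul (continuousOn_id.inv₀ fun r hr => (t0.trans_le hr.1).ne')))
    (fun r hr => (((hasDerivAt_log (t0.trans hr.1).ne').const_mul β).sub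
      ((hasDerivAt_inv (t0.trans hr.1).ne').const_mul α)).congr_deriv (by ring)) fun r hr => by
      have r0 := t0.trans hr.1
      have b1 := start_le hw hf h0 hR₀ hD r0.le
      have b2 := h r hr R₀⁻¹
      have b3 := hend (R₀⁻¹ * (T / r) * E) (by positivity)
      have b4 : 2 / 3 * R₀⁻¹ ^ 2 * J2 φ w f r ≤ 2 / 3 * R₀⁻¹ ^ 2 * (β * r⁻¹ + α * r⁻¹ ^ 2) := by
        refine le_trans (b := P * (R₀⁻¹ * (T / r) * E) ^ 2 + R₀⁻¹ * (T / r) * E * Q +
          R₀⁻¹ ^ 2 * η / r ^ 2) (by linarith) (le_of_eq ?_)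
        rw [hα, hβ]; field_simp; ring
      exact le_of_mul_le_mul_left b4 (by positivity)
  rw [log_div T0.ne' t0.ne'] at hL
  have b1 := mul_le_mul_of_nonneg_left hL (by positivity : 0 ≤ β)
  have b2 : 0 ≤ α * T⁻¹ := by positivity
  rw [div_eq_mul_inv α]
  linarith

/-- **one level** -/
theorem level (hw : Wt w) {R₀ H G δ V R E L ρ : ℝ} {e p : ℝ → ℝ} (hR₀ : 0 < R₀)
    (hD : ∀ x x', (φ x - φ x') ⬝ᵥ (φ x - φ x') ≤ R₀ ^ 2) (hH : 0 ≤ H)
    (g1 : mean w (fun x => g x ^ 2) = 1) (hM : ∀ x, g x ^ 2 ≤ exp (2 * H))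
    (hent : H ≤ ent w fun x => g x ^ 2) (hX : XX φ w (65 * t) ≤ exp H)
    (h : HA φ w e p t T ρ) (htT : t ≤ T) (hE : exp (∫ r in t..T, e r / r) ≤ E)
    (hV : ex φ w (fun p => var (pw φ w p) g) T ≤ V) {A : Set (ι → ℝ)} (hA : MeasurableSet A)
    (hδ : (law φ w T).real A ≤ δ) (hs : ∀ y ∉ A, SubE φ (post φ w T y) G) (hR : 0 ≤ R)
    (hL : log (T / t) ≤ L) :
    3 / 4 * H ≤ 1 + (2 * H + 3) * V + 3 / 2 * E ^ 2 * (8 * exp G * T ^ 2 * V + exp (2 * H) * ρ ^ 2) / t +
      3 / 2 * R₀ * T * E * (R * V + 4 * exp (2 * H) * exp (G - R) + R₀ * exp (2 * H) * δ) * L := by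
  have t0 := h.pos
  have T0 := t0.trans_le htT
  have f0 : ∀ x, 0 ≤ g x ^ 2 := fun x => sq_nonneg _
  have h0 : 0 < mean w fun x => g x ^ 2 := g1 ▸ one_pos
  have V0 : 0 ≤ V := (ex_nonneg hw fun y => (hw.post φ T y).var_nonneg g).trans hV
  have δ0 : 0 ≤ δ := measureReal_nonneg.trans hδ
  have E0 : 0 < E := (exp_pos _).trans_le hE
  have a1 := early_ent hw f0 g1 hH hM t0 hX
  have a2 := window hw f0 h0 hR₀ hD t0 htT E0.le (by positivity) (P := 8 * exp G * V)
    (Q := R * V + 4 * exp (2 * H) * exp (G - R) + R₀ * exp (2 * H) * δ) (by positivity)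
    (by positivity) (fun r hr => tp_of_HA hw f0 h0 h hM hE (Ioo_subset_Icc_self hr))
    (fun c hc => (end_le hw T0.le hR₀.le hD hM hV hA hδ hs hc hR).trans_eq (by ring)) hL
  have a3 : ex φ w (fun p => ent (pw φ w p) fun x => g x ^ 2) T ≤ (2 * H + 3) * V + 1 := by
    have m := ((eg_var (φ := φ) hw g).const_mul (2 * H + 3)).mg (mem_univ T)
    refine (ex_mono (H := fun p => (2 * H + 3) * var (pw φ w p) g + 1) hw
      ((eg_ent hw _).mg (mem_univ T)) (m.add (.const 1)) fun y => ent_sq_le (hw.post φ T y) hM).trans ?_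
    rw [ex_add m (.const 1), ex_const hw, ex_const_mul]
    exact add_le_add (mul_le_mul_of_nonneg_left hV (by linarith)) le_rfl
  rw [show 3 / 2 * E ^ 2 * (8 * exp G * T ^ 2 * V + exp (2 * H) * ρ ^ 2) =
    3 / 2 * (E ^ 2 * T ^ 2 * (8 * exp G * V) + E ^ 2 * exp (2 * H) * ρ ^ 2) by ring]
  linarith

end Crest.Agent.T157.Q1

end
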