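import Crest.Agent.T157.Q1Def_63
import Crest.Agent.T157.Q1C_63
import Crest.Agent.T157.EntE_34

/-!
# Row 157, part C (helper63): coming down from infinity, the glue
-/

set_option autoImplicit false

noncomputable section

namespace Crest.Agent.T157.Q1

open MeasureTheory Filter Topology Set Matrix Real
open Crest.ProbabilityR.SpinGlassDynamics
open Crest.Agent.T157 Crest.Agent.T157.E Crest.Agent.T157.SL Crest.Agent.T157.Soft

variable {n : ℕ} {w : Cube n → ℝ}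

theorem SP.mono {H lam lam' : ℝ} (h : SP w H lam) (hw : Wt w) (hl : lam' ≤ lam) : SP w H lam' :=
  fun g h0 h1 h2 => (mul_le_mul_of_nonneg_right hl (hw.mean_nonneg fun _ => sq_nonneg _)).trans
    (h g h0 h1 h2)

theorem dir_mul (w f : Cube n → ℝ) (a : ℝ) : dir w (fun x => a * f x) = a ^ 2 * dir w f := by
  simp only [dir, siteM, Finset.mul_sum]
  exact Finset.sum_congr rfl fun i _ => Finset.sum_congr rfl fun x _ => by ring

/-- it is enough to test normalised functions -/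
theorem SP.of_norm {H lam : ℝ} (hw : ∀ x, 0 < w x) (h : ∀ g : Cube n → ℝ,
    mean w (fun x => g x ^ 2) = 1 → (∀ x, g x ^ 2 ≤ exp (2 * H)) →
    H ≤ ent w (fun x => g x ^ 2) → lam ≤ dir w g) : SP w H lam := fun g h0 h1 h2 => by
  have hW := Wt.of_pos hw
  rcases (hW.mean_nonneg (f := fun x => g x ^ 2) fun x => sq_nonneg _).eq_or_lt with e | e
  · rw [← e, mul_zero]; exact Ent.dir_nonneg hw g
  set m := mean w fun x => g x ^ 2 with hm
  have e1 : (√m)⁻¹ ^ 2 = m⁻¹ := by rw [inv_pow, sq_sqrt e.le]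
  have e2 : mean w (fun x => ((√m)⁻¹ * g x) ^ 2) = 1 := by
    simp only [mul_pow, e1, mean_const_mul, ← hm, inv_mul_cancel₀ e.ne']
  have := h (fun x => (√m)⁻¹ * g x) e2 (fun x => by
    rw [mul_pow, e1, inv_mul_le_iff₀' e]; exact h1 x) (by
    have := Ent.ent_ge_of_supp hW.isP (f := fun x => ((√m)⁻¹ * g x) ^ 2) (fun x => sq_nonneg _)
      (p := fun x => 0 < g x) (fun x hx => lt_of_le_of_ne (h0 x) fun h => hx (by simp [← h])) h2
    rw [one_div, log_inv, log_exp, neg_neg] at this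
    change H * mean w _ ≤ _ at this
    rwa [e2, mul_one] at this)
  rwa [dir_mul, e1, le_inv_mul_iff₀' e] at this

theorem Term.mono {T G G' δ : ℝ} (h : Term w T G δ) (hw : ∀ x, 0 < w x) (hG : G ≤ G') :
    Term w T G' δ :=
  ⟨fun g M hM => (h.var g M hM).trans (add_le_add (mul_le_mul_of_nonneg_right hG
    (Ent.dir_nonneg hw g)) le_rfl), h.sub.imp fun _ hA => ⟨hA.1, hA.2.1, fun y hy u hu =>
      (hA.2.2 y hy u hu).trans (exp_le_exp.2 hG)⟩⟩

theorem Win.mono {c T C C' a H : ℝ} (h : Win w c T C a H) (hC : C ≤ C') (hH : 0 ≤ H) :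
    Win w c T C' a H := by
  obtain ⟨e, p, ρ, h1, h2, h3⟩ := h
  exact ⟨e, p, ρ, h1, h2, h3.trans (mul_le_mul_of_nonneg_right hC (rpow_nonneg hH _))⟩

theorem num {H X G C T c E t D z δ M q ρ s m N h γ : ℝ} (hc : 0 < c) (hT : 0 < T) (hC : 1 ≤ C)
    (hG : 1 ≤ G) (hH : 8 + 6 * C ≤ H) (hX : H ≤ X) (hGX : G ≤ X) (hXm : X ≤ m) (s1 : 1 ≤ s)
    (sm : s ≤ m) (N0 : 0 < N) (Nm : N ≤ m) (h0 : 0 < h) (h1 : h ≤ 1) (p6 : 1 ≤ h * X) (γ0 : 0 < γ)
    (E0 : 0 < E) (E1 : E ≤ C * X) (E4 : E ^ 2 / t ≤ C / c * h * N) (D0 : 0 ≤ D) (z0 : 0 < z)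
    (δ0 : 0 ≤ δ * M) (q0 : 0 ≤ M * q) (q1 : δ * M ≤ z) (q2 : M * q ≤ z)
    (q3 : E ^ 2 * (M * ρ ^ 2) / t ≤ C)
    (q4 : (5 + 12 * γ * T ^ 2 * C / c + 30 * T * C) * m ^ 4 * z ≤ 1)
    (h4 : (5 * G + 12 * T * C * G) * (s * X ^ 4) ≤ N)
    (key : 3 / 4 * H ≤ 1 + (2 * H + 3) * (G * D + δ * M) +
      3 / 2 * E ^ 2 * (8 * γ * T ^ 2 * (G * D + δ * M) + M * ρ ^ 2) / t + 3 / 2 * (2 * s) * T * E *
        ((G + 3 * X) * (G * D + δ * M) + 4 * M * q + 2 * s * M * δ) * X) :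
    H ≤ D * ((24 * γ * T ^ 2 * G * C / c + 2) * N) * h := by
  have X1 : 1 ≤ X := by linarith
  have m1 : 1 ≤ m := by linarith
  have n4 : m ≤ m ^ 4 := le_self_pow₀ m1 (by norm_num)
  have GD : 0 ≤ G * D := by positivity
  have r1 : (2 * H + 3) * (G * D + δ * M) ≤ 5 * G * X * D + 5 * m ^ 4 * z := by
    calc _ ≤ 5 * X * (G * D + z) :=
          mul_le_mul (by linarith) (by linarith) (by linarith) (by linarith)
      _ = 5 * G * X * D + 5 * X * z := by ring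
      _ ≤ _ := by gcongr; linarith
  have E5 : E ^ 2 / t ≤ C / c * 1 * m ^ 4 := E4.trans (by gcongr; linarith)
  have r2 : 3 / 2 * E ^ 2 * (8 * γ * T ^ 2 * (G * D + δ * M) + M * ρ ^ 2) / t ≤
      12 * γ * T ^ 2 * G * C / c * (h * N) * D + 12 * γ * T ^ 2 * C / c * m ^ 4 * z + 3 / 2 * C := by
    have b1 := mul_le_mul_of_nonneg_right E4 GD
    have b2 := mul_le_mul E5 q1 δ0 (by positivity)
    calc _ = 12 * γ * T ^ 2 * (E ^ 2 / t * (G * D)) + 12 * γ * T ^ 2 * (E ^ 2 / t * (δ * M)) +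
          3 / 2 * (E ^ 2 * (M * ρ ^ 2) / t) := by ring
      _ ≤ 12 * γ * T ^ 2 * (C / c * h * N * (G * D)) +
          12 * γ * T ^ 2 * (C / c * 1 * m ^ 4 * z) + 3 / 2 * C := by gcongr
      _ = _ := by ring
  have r3 : 3 / 2 * (2 * s) * T * E * ((G + 3 * X) * (G * D + δ * M) + 4 * M * q + 2 * s * M * δ) *
      X ≤ 12 * T * C * G * (s * X ^ 3) * D + 30 * T * C * m ^ 4 * z := by
    have b1 : (G + 3 * X) * (G * D) ≤ 4 * X * (G * D) := mul_le_mul_of_nonneg_right (by linarith) GD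
    have b2 : (G + 3 * X) * (δ * M) ≤ 4 * m * z := mul_le_mul (by linarith) q1 δ0 (by linarith)
    have b3 : M * q ≤ m * z := q2.trans (le_mul_of_one_le_left z0.le m1)
    have b4 : s * (δ * M) ≤ m * z := mul_le_mul sm q1 δ0 (by linarith)
    have b5 : E ≤ C * m := E1.trans (by gcongr)
    have b6 : 0 ≤ (G + 3 * X) * (δ * M) := by positivity
    calc _ = 3 * s * T * E * X * ((G + 3 * X) * (G * D)) + 3 * s * T * E * X *
          ((G + 3 * X) * (δ * M) + 4 * (M * q) + 2 * (s * (δ * M))) := by ring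
      _ ≤ 3 * s * T * (C * X) * X * (4 * X * (G * D)) + 3 * m * T * (C * m) * m *
          (4 * m * z + 4 * (m * z) + 2 * (m * z)) := by gcongr
      _ = _ := by ring
  have r4 : 5 * G * X + 12 * T * C * G * (s * X ^ 3) ≤ h * N := by
    have b1 : X ≤ s * X ^ 3 := (le_self_pow₀ X1 (by norm_num)).trans
      (le_mul_of_one_le_left (by positivity) s1)
    calc _ ≤ 5 * G * (s * X ^ 3) + 12 * T * C * G * (s * X ^ 3) := by gcongr
      _ = (5 * G + 12 * T * C * G) * (s * X ^ 3) * 1 := by ring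
      _ ≤ (5 * G + 12 * T * C * G) * (s * X ^ 3) * (h * X) := by gcongr
      _ = h * ((5 * G + 12 * T * C * G) * (s * X ^ 4)) := by ring
      _ ≤ _ := by gcongr
  have r5 := mul_le_mul_of_nonneg_right r4 D0
  calc H ≤ 2 * (12 * γ * T ^ 2 * G * C / c * (h * N) * D + h * N * D) := by linarith
    _ = _ := by ring

/-- one level on the cube; `X` bounds the level -/
theorem sp_level (hw : ∀ x, 0 < w x) {c T C a H G X : ℝ} (hc : 0 < c) (hT : 0 < T) (hC : 1 ≤ C)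
    (ha : 0 < a) (ha' : a ≤ 2 / 3) (hG : 1 ≤ G) (hH : 8 + 6 * C ≤ H) (hX : H ≤ X) (hGX : G ≤ X)
    (hXn : X ≤ n) (h1 : c * X ≤ T * N23 n) (h2 : T * n / c ≤ exp X)
    (h3 : (5 + 12 * exp G * T ^ 2 * C / c + 30 * T * C) * n ^ 4 ≤ exp X)
    (h4 : (5 * G + 12 * T * C * G) * (√n * X ^ 4) ≤ N23 n)
    (hW : Win w c T C a H) (hE : Term w T G (exp (-(4 * X))))
    (hL : XX sv w (65 * ts n c H) ≤ exp H) :
    SP w H (H ^ (1 + a) / ((24 * exp G * T ^ 2 * G * C / c + 2) * N23 n)) := by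
  have H1 : 1 ≤ H := by linarith
  have H0 : 0 < H := by linarith
  have X1 : 1 ≤ X := by linarith
  have n1 : (1 : ℝ) ≤ n := by linarith
  have n0 : 0 < n := by exact_mod_cast (by linarith : (0 : ℝ) < n)
  have N0 := N23_pos n0
  have Nn : N23 n ≤ n := rpow_le_self_of_one_le n1 (by norm_num)
  have sn : √n ≤ n := by rw [sqrt_le_left (by linarith)]; nlinarith
  have s1 : 1 ≤ √n := by rwa [one_le_sqrt]
  obtain ⟨e, p, ρ, w1, w2, w3⟩ := hW
  obtain ⟨A, a1, a2, a3⟩ := hE.sub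
  have p1 : 1 ≤ H ^ (2 / 3 : ℝ) := one_le_rpow H1 (by norm_num)
  have p2 : H ^ (2 / 3 : ℝ) ≤ H := rpow_le_self_of_one_le H1 (by norm_num)
  have p3 : H ^ (2 / 3 - a) ≤ H := rpow_le_self_of_one_le H1 (by linarith)
  have p4 : H ^ (-a) ≤ 1 := rpow_le_one_of_one_le_of_nonpos H1 (by linarith)
  have p5 : 0 < H ^ (-a) := by positivity
  have p6 : 1 ≤ H ^ (-a) * X := by
    rw [rpow_neg H0.le, le_inv_mul_iff₀ (by positivity), mul_one]
    exact (rpow_le_self_of_one_le H1 (by linarith)).trans hX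
  have t0 := w1.pos
  set t := ts n c H with ht
  set E := exp (∫ u in t..T, e u / u) with hE'
  have E0 : 0 < E := exp_pos _
  have E2 : E ^ 2 ≤ C * H ^ (2 / 3 - a) := by rwa [hE', ← exp_nat_mul, Nat.cast_ofNat]
  have E3 : E ^ 2 ≤ C * H := E2.trans (by gcongr)
  have E1 : E ≤ C * X := by
    refine (abs_le_of_sq_le_sq' (E3.trans ?_) (by positivity)).2
    have : 1 ≤ C * X := one_le_mul_of_one_le_of_one_le hC X1
    nlinarith [mul_le_mul_of_nonneg_left hX (by linarith : 0 ≤ C)]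
  have E4 : E ^ 2 / t ≤ C / c * H ^ (-a) * N23 n := by
    rw [div_le_iff₀ t0, ht, ts]
    refine E2.trans (le_of_eq ?_)
    rw [sub_eq_add_neg, rpow_add H0]; field_simp
  have tT : t ≤ T := by
    rw [ht, ts, div_le_iff₀ N0]; exact le_trans (by gcongr; linarith) h1
  have hl : log (T / t) ≤ X := by
    rw [log_le_iff_le_exp (by positivity)]
    refine le_trans ?_ h2
    rw [ht, ts, div_div_eq_mul_div, div_le_div_iff₀ (by positivity) hc]
    have := mul_le_mul Nn (le_mul_of_one_le_right hc.le p1) hc.le (by linarith)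
    nlinarith
  refine SP.of_norm hw fun g g1 g2 g3 => ?_
  have D0 := Ent.dir_nonneg hw g
  have key := level (φ := sv) (Wt.of_pos hw) (R₀ := 2 * √n) (R := G + 3 * X) (by positivity)
    (fun x x' => by rw [mul_pow, sq_sqrt (by linarith)]; linarith [sv_diam x x']) H0.le g1 g2 g3 hL
    w1 tT le_rfl (hE.var g _ g2) a1 a2 a3 (by linarith) hl
  have q3 : E ^ 2 * (exp (2 * H) * ρ ^ 2) / t ≤ C := by
    rw [div_le_iff₀ t0]
    have b1 : exp (2 * H) * ρ ^ 2 ≤ exp (-H) * t := by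
      refine (mul_le_mul_of_nonneg_left w2 (exp_pos _).le).trans (le_of_eq ?_)
      rw [← mul_assoc, ← exp_add]; congr 2; ring
    have b2 : H * exp (-H) ≤ 1 := by
      rw [Real.exp_neg, mul_inv_le_iff₀ (exp_pos _)]; linarith [add_one_le_exp H]
    calc _ ≤ C * H * (exp (-H) * t) := by gcongr
      _ = C * (H * exp (-H)) * t := by ring
      _ ≤ C * 1 * t := by gcongr
      _ = _ := by ring
  have := num hc hT hC hG hH hX hGX hXn s1 sn N0 Nn p5 p4 p6 (exp_pos G) E0 E1 E4 D0 (exp_pos (-X))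
    (by positivity) (by positivity) (by rw [← exp_add]; exact exp_le_exp.2 (by linarith))
    (by rw [← exp_add]; exact exp_le_exp.2 (by linarith)) q3
    (by rwa [Real.exp_neg, mul_inv_le_iff₀ (exp_pos _), one_mul]) h4 key
  have e1 : H ^ (1 + a) * H ^ (-a) = H := by rw [← rpow_add H0]; simp
  rw [div_le_iff₀ (by positivity)]
  refine le_of_mul_le_mul_right ?_ p5
  rwa [e1]

theorem ev_pow {α β : ℝ} (h : α < β) (K : ℝ) : ∀ᶠ n : ℕ in atTop, K * (n : ℝ) ^ α ≤ (n : ℝ) ^ β := by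
  filter_upwards [((tendsto_rpow_atTop (sub_pos.2 h)).comp tendsto_natCast_atTop_atTop).eventually_ge_atTop
    K, eventually_gt_atTop 0] with n h1 h2
  have : (0 : ℝ) < n := by exact_mod_cast h2
  rw [← sub_add_cancel β α, rpow_add this]
  exact mul_le_mul_of_nonneg_right h1 (by positivity)

theorem ev_exp {κ : ℝ} (h : 0 < κ) (K : ℝ) :
    ∀ᶠ n : ℕ in atTop, K * (n : ℝ) ^ 4 ≤ exp ((n : ℝ) ^ κ) := by
  have h1 := ((tendsto_exp_div_rpow_atTop (4 / κ)).comp ((tendsto_rpow_atTop h).comp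
    tendsto_natCast_atTop_atTop)).eventually_ge_atTop K
  filter_upwards [h1, eventually_gt_atTop 0] with n h1 h2
  have : (0 : ℝ) < n := by exact_mod_cast h2
  simp only [Function.comp_apply] at h1
  rwa [← rpow_mul this.le, mul_div_cancel₀ _ h.ne', le_div_iff₀ (by positivity),
    show (4 : ℝ) = (4 : ℕ) by norm_num, rpow_natCast] at h1

theorem XX_eq (g : Pair n → ℝ) (θ : ℝ) :
    XX sv (gibbsWeight n 1 g) (θ / N23 n) = Xth n g θ := by
  simp only [XX, Xth, mean, Finset.mul_sum, gibbsProb_eq, mul_assoc, div_eq_mul_inv]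

theorem un {X : Type*} [MeasurableSpace X] {μ : Measure X} {S₁ S₂ : Set X} {ε₁ ε₂ : ℝ}
    (h₁ : μ S₁ ≤ ENNReal.ofReal ε₁) (h₂ : μ S₂ ≤ ENNReal.ofReal ε₂) (hε₁ : 0 ≤ ε₁) (hε₂ : 0 ≤ ε₂) :
    μ (S₁ ∪ S₂) ≤ ENNReal.ofReal (ε₁ + ε₂) :=
  measure_le_of_union h₁ h₂ hε₁ hε₂ fun _ hx h => hx.resolve_left h

/-- **all levels** -/
theorem spStmt_of {b : Bool} {a κ T : ℝ} (ha : 0 < a) (ha' : a ≤ 2 / 3) (hκ : 0 < κ)
    (hκ' : κ ≤ 1 / 30) (hT : 0 < T) (h1 : AStar b a κ T) (h2 : TermStmt b κ T) (h3 : LdB b)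
    (h4 : LevCrit b a κ) : SPStmt b a := fun ε hε => by
  obtain ⟨B, hB⟩ := h3 (ε / 4) (by positivity)
  obtain ⟨G, hG⟩ := h2 (ε / 4) (by positivity)
  set B' := max B 1 with hB'
  have B1 : 1 ≤ B' := le_max_right _ _
  set c := (65 * (2 * B'))⁻¹ with hc
  have c0 : 0 < c := by positivity
  obtain ⟨C, j₀, hC⟩ := h1 c (ε / 4) c0 (by positivity)
  set G' := max G 1
  set C' := max C 1
  have G1 : 1 ≤ G' := le_max_right _ _
  have C1 : 1 ≤ C' := le_max_right _ _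
  obtain ⟨j₁, hj₁⟩ := pow_unbounded_of_one_lt (8 + 6 * C' + 2 * B') (one_lt_two (α := ℝ))
  have β0 : 0 ≤ 24 * exp G' * T ^ 2 * G' * C' / c := by positivity
  refine ⟨24 * exp G' * T ^ 2 * G' * C' / c + 2, max j₀ j₁, by positivity, ?_⟩
  filter_upwards [hB, hG, hC, Top.whp_iff.1 h4 (ε / 4) (by positivity), eventually_gt_atTop 0,
    ev_pow hκ G', ev_pow (by linarith : κ < 1) 1, ev_pow (by linarith : κ < 2 / 3) (c / T),
    ev_exp hκ (T / c), ev_exp hκ (5 + 12 * exp G' * T ^ 2 * C' / c + 30 * T * C'),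
    ev_pow (by linarith : 1 / 2 + κ * 4 < 2 / 3) (5 * G' + 12 * T * C' * G')]
    with n k1 k2 k3 k4 n0 v1 v2 v3 v4 v5 v6
  have nR : (1 : ℝ) ≤ n := by exact_mod_cast n0
  have k := un (un k1 k2 (by positivity) (by positivity)) (un k3 k4 (by positivity) (by positivity))
    (by positivity) (by positivity)
  rw [show ε / 4 + ε / 4 + (ε / 4 + ε / 4) = ε by ring] at k
  refine le_trans (measure_mono fun g ⟨j, hj, hg⟩ => ?_) k
  by_contra hc'
  simp only [mem_union, mem_ofPred_eq, not_or, not_exists, not_and, not_not, not_lt] at hc'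
  obtain ⟨⟨m1, m2⟩, m3, m4⟩ := hc'
  have hw := gibbsWeight_pos (n := n) 1 g
  have N0 := N23_pos n0
  have J1 : 8 + 6 * C' + 2 * B' ≤ (2 : ℝ) ^ j :=
    hj₁.le.trans (pow_le_pow_right₀ one_le_two ((le_max_right _ _).trans hj))
  have J0 : (0 : ℝ) < 2 ^ j := by positivity
  refine hg ?_
  rcases le_total ((n : ℝ) ^ κ) (2 ^ j) with hH | hH
  · exact (m4 j hH).mono (Wt.of_pos hw) (by gcongr; nlinarith)
  rw [rpow_zero, mul_one] at v1
  rw [one_mul, rpow_one] at v2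
  refine sp_level hw c0 hT C1 ha ha' G1 (by linarith) hH v1 v2 ?_ ?_ v5 ?_
    ((m3 j ((le_max_left _ _).trans hj) hH).mono (le_max_left _ _) J0.le)
    (m2.mono hw (le_max_left _ _)) ?_
  · rwa [div_mul_eq_mul_div, div_le_iff₀' hT] at v3
  · refine le_trans ?_ v4
    rw [mul_div_right_comm]
    exact mul_le_mul_of_nonneg_left (le_self_pow₀ nR (by norm_num)) (by positivity)
  · rwa [rpow_add (by linarith), ← sqrt_eq_rpow, rpow_mul (by linarith),
      show (4 : ℝ) = (4 : ℕ) by norm_num, rpow_natCast] at v6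
  · rw [ts, ← mul_div_assoc, XX_eq]
    refine (m1 _ (by positivity)).trans ?_
    have e1 : (65 * (c * ((2 : ℝ) ^ j) ^ (2 / 3 : ℝ))) ^ (3 / 2 : ℝ) ≤ (2 * B')⁻¹ * 2 ^ j := by
      rw [← mul_assoc, mul_rpow (by positivity) (by positivity), ← rpow_mul J0.le,
        show 65 * c = (2 * B')⁻¹ by rw [hc]; field_simp, show (2 / 3 * (3 / 2) : ℝ) = 1 by norm_num,
        rpow_one]
      exact mul_le_mul_of_nonneg_right (rpow_le_self_of_le_one (by positivity)
        (inv_le_one_of_one_le₀ (by linarith)) (by norm_num)) J0.le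
    have e2 : B * (65 * (c * ((2 : ℝ) ^ j) ^ (2 / 3 : ℝ))) ^ (3 / 2 : ℝ) ≤ 2 ^ j / 2 :=
      (mul_le_mul (show B ≤ B' from le_max_left B 1) e1 (by positivity) (by linarith)).trans
        (le_of_eq (by field_simp))
    refine le_trans (mul_le_mul ((show B ≤ B' from le_max_left B 1).trans
      (by linarith [add_one_le_exp ((2 : ℝ) ^ j / 2)])) (exp_le_exp.2 e2) (exp_pos _).le
      (exp_pos ((2 : ℝ) ^ j / 2)).le) ?_
    rw [← exp_add, add_halves]

/-- deterministic form: levels give the kernel bound -/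
theorem down_of_sp (hn : 0 < n) (g : Pair n → ℝ) {a β : ℝ} (ha : 0 < a) (hβ : 0 < β) {j₀ : ℕ}
    (h : ∀ j, j₀ ≤ j → SP (gibbsWeight n 1 g) (2 ^ j) (((2 : ℝ) ^ j) ^ (1 + a) / (β * N23 n))) :
    Down n g a (4 * 4 ^ a / (1 - 2 ^ (-a)) * β) (2 ^ (j₀ + 2)) := fun H t hH ht x y => by
  have n0 : (0 : ℝ) < n := by exact_mod_cast hn
  have N0 := N23_pos hn
  rw [ctKernel_eq_H hn]
  refine down_pow (c := ch hn g) (β := β * N23 n * n) ha (by positivity) (fun j hj f h0 h1 h2 => ?_)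
    hH ?_ x y
  · have := h j hj f h0 h1 h2
    rw [← dirichletForm_eq, dir_eq hn] at this
    rw [← div_div, div_mul_eq_mul_div, div_le_iff₀' n0]
    exact this
  · have := mul_le_mul_of_nonneg_left ht (mul_pos N0 n0).le
    rw [tau_eq]; linarith

theorem downStmt_of {b : Bool} {a : ℝ} (ha : 0 < a) (h : SPStmt b a) : DownStmt b a := fun ε hε => by
  obtain ⟨β, j₀, hβ, h⟩ := h ε hε
  have q1 : (2 : ℝ) ^ (-a) < 1 := rpow_lt_one_of_one_lt_of_neg one_lt_two (by linarith)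
  have q2 : 0 < 1 - (2 : ℝ) ^ (-a) := by linarith
  refine ⟨4 * 4 ^ a / (1 - 2 ^ (-a)) * β, 2 ^ (j₀ + 2), by positivity, by positivity, ?_⟩
  filter_upwards [h, eventually_gt_atTop 0] with n h1 hn
  refine le_trans (measure_mono fun g hg => ?_) h1
  by_contra hc
  simp only [mem_ofPred_eq, not_exists, not_and, not_not] at hc
  exact hg (down_of_sp hn g ha hβ hc)

theorem Down.kl (hn : 0 < n) {g : Pair n → ℝ} {a β H₀ H t : ℝ} (h : Down n g a β H₀) (hH : H₀ ≤ H)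
    (ht : β * H ^ (-a) ≤ t) (ht0 : 0 ≤ t) (x : Cube n) : klRow n g t x ≤ H := by
  refine kl_le_of_le ?_ (fun y => Chain22.prob_pos' (gibbsWeight_pos 1 g) y) (h H t hH ht x)
  rw [ctKernel_eq_H hn]
  exact ((ch hn g).heat _ (mul_nonneg (Nat.cast_nonneg n) (mul_nonneg ht0 (N23_pos hn).le))).isP_row x

theorem q1e_of_down {a : ℝ} (ha : 0 < a) (h : ∀ b, DownStmt b a) : Q1EStmt := fun b t ε ht hε => by
  obtain ⟨β, H₀, hβ, h0, h⟩ := h b ε hε
  obtain ⟨H, h1, h2⟩ := ((eventually_ge_atTop H₀).and (((tendsto_rpow_neg_atTop ha).const_mul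
    β).eventually (ge_mem_nhds (by simpa using ht)))).exists
  refine ⟨H, ?_⟩
  filter_upwards [h, eventually_gt_atTop 0] with n h3 hn
  refine le_trans (measure_mono ?_) h3
  exact fun g ⟨x, hx⟩ hg => not_le.2 hx (Down.kl hn hg h1 h2 ht.le x)

/-- **`Q1E` from static inputs** -/
theorem q1e_of {a κ T : ℝ} (ha : 0 < a) (ha' : a ≤ 2 / 3) (hκ : 0 < κ) (hκ' : κ ≤ 1 / 30)
    (hT : 0 < T) (h1 : ∀ b, AStar b a κ T) (h2 : ∀ b, TermStmt b κ T) (h3 : ∀ b, LdB b)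
    (h4 : ∀ b, LevCrit b a κ) : Q1EStmt :=
  q1e_of_down ha fun b => downStmt_of ha (spStmt_of ha ha' hκ hκ' hT (h1 b) (h2 b) (h3 b) (h4 b))

theorem ld2_of (h : ∀ b, LdB b) : LD2Stmt := fun b θ ε hθ hε => by
  obtain ⟨B, hB⟩ := h b ε hε
  refine ⟨B * exp (B * θ ^ (3 / 2 : ℝ)), hB.mono fun n hn => le_trans (measure_mono ?_) hn⟩
  exact fun g hg => ⟨θ, hθ.le, hg⟩

end Crest.Agent.T157.Q1

end
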