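import Crest.Agent.T157.SgC_90

/-!
# Row 157, part C: truncation-free static replacement (helper90)

`EM`: exponential moment of the squared length of a vector function.  `s2_mom`: the semigroup
comparison for functions with a fourth moment.  `BB_static'`, `master`.
-/

set_option autoImplicit false

noncomputable section

namespace Crest.Agent.T157.Sg

open Finset Matrix
open Crest.Agent.T157.Chain22 Crest.Agent.T157.Soft Crest.Agent.T157.Ent

variable {Ω ι : Type*} [Fintype Ω] [Fintype ι]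

/-- squared length -/
def sq2 (a : ι → Ω → ℝ) (x : Ω) : ℝ := ∑ i, a i x ^ 2

/-- exponential moment -/
def EM (π F : Ω → ℝ) (l : ℝ) : ℝ := mean π fun x => Real.exp (l * F x)

omit [Fintype Ω] in
lemma sq2_nonneg (a : ι → Ω → ℝ) (x : Ω) : 0 ≤ sq2 a x := by unfold sq2; positivity

lemma EM_mono {π F G : Ω → ℝ} (hπ : IsP π) {l l' : ℝ} (h0 : 0 ≤ l) (hl : l ≤ l')
    (hG : ∀ x, 0 ≤ G x) (h : ∀ x, F x ≤ G x) : EM π F l ≤ EM π G l' :=
  hπ.mean_mono fun x => Real.exp_le_exp.2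
    ((mul_le_mul_of_nonneg_left (h x) h0).trans (mul_le_mul_of_nonneg_right hl (hG x)))

lemma EM_P_le (d : RC Ω) {F G : Ω → ℝ} {l : ℝ} (hl : 0 ≤ l) (h : ∀ x, G x ≤ (d.P *ᵥ F) x) :
    EM d.π G l ≤ EM d.π F l := by
  refine le_trans (d.isP.mean_mono fun x => ?_) (d.mean_P fun x => Real.exp (l * F x)).le
  have h1 := mean_le_log_mean_exp (d.isP_row x) fun y => l * F y
  rw [mean_const_mul, Real.le_log_iff_exp_le (mean_exp_pos (d.isP_row x) _)] at h1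
  exact (Real.exp_le_exp.2 (mul_le_mul_of_nonneg_left (h x) hl)).trans h1

lemma sq2_P_le (d : RC Ω) (a : ι → Ω → ℝ) (x : Ω) :
    sq2 (fun i => d.P *ᵥ a i) x ≤ (d.P *ᵥ sq2 a) x := by
  refine (sum_le_sum fun i _ => (d.isP_row x).mean_sq_le (a i)).trans (le_of_eq ?_)
  exact ipV_self_eq (π := d.P x) a

lemma abs_P_le (d : RC Ω) (f : Ω → ℝ) (x : Ω) : |(d.P *ᵥ f) x| ≤ (d.P *ᵥ fun y => |f y|) x :=
  (abs_sum_le_sum_abs _ _).trans (le_of_eq (sum_congr rfl fun y _ => by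
    rw [abs_mul, abs_of_nonneg (d.nn x y)]))

lemma exp_half (p q : ℝ) : Real.exp ((p + q) / 2) ≤ (Real.exp p + Real.exp q) / 2 := by
  have e : ∀ u : ℝ, Real.exp u = Real.exp (u / 2) ^ 2 := fun u => by
    rw [← Real.exp_nat_mul]; congr 1; push_cast; ring
  rw [add_div, Real.exp_add, e p, e q]
  nlinarith [sq_nonneg (Real.exp (p / 2) - Real.exp (q / 2))]

lemma EM_half {π F G K : Ω → ℝ} (hπ : IsP π) {l Z : ℝ} (hl : 0 ≤ l) (hF : EM π F l ≤ Z)
    (hG : EM π G l ≤ Z) (h : ∀ x, K x ≤ (F x + G x) / 2) : EM π K l ≤ Z := by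
  have : EM π K l ≤ mean π fun x => 1 / 2 * Real.exp (l * F x) + 1 / 2 * Real.exp (l * G x) :=
    hπ.mean_mono fun x => by
      have := exp_half (l * F x) (l * G x)
      have h2 : l * K x ≤ (l * F x + l * G x) / 2 := by
        nlinarith [mul_le_mul_of_nonneg_left (h x) hl]
      linarith [Real.exp_le_exp.2 h2]
  rw [mean_add', mean_const_mul, mean_const_mul] at this
  unfold EM at hF hG
  linarith

lemma mean_pow_le {π F : Ω → ℝ} (hπ : IsP π) (hF : ∀ x, 0 ≤ F x) {l : ℝ} (hl : 1 ≤ l) (k : ℕ) :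
    mean π (fun x => F x ^ k) ≤ k.factorial * EM π F l := by
  refine le_trans ?_ (mul_le_mul_of_nonneg_left (EM_mono hπ zero_le_one hl hF fun _ => le_rfl)
    (Nat.cast_nonneg _))
  rw [EM, ← mean_const_mul]
  refine hπ.mean_mono fun x => ?_
  have := Real.pow_div_factorial_le_exp _ (hF x) k
  rwa [div_le_iff₀' (by positivity), ← one_mul (F x), one_mul (F x), ← one_mul (F x),
    one_mul (F x), ← one_mul (F x), mul_pow, one_pow, one_mul (F x ^ k)] at this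

omit [Fintype Ω] in
lemma abs_dot_le_half (a b : ι → Ω → ℝ) (x : Ω) :
    |∑ i, a i x * b i x| ≤ (sq2 a x + sq2 b x) / 2 := by
  refine (abs_sum_le_sum_abs _ _).trans ?_
  rw [sq2, sq2, ← sum_add_distrib, sum_div]
  refine sum_le_sum fun i _ => ?_
  rw [abs_mul]
  nlinarith [sq_nonneg (|a i x| - |b i x|), sq_abs (a i x), sq_abs (b i x)]

/-- cut-off of a vector function -/
def cut (L : ℝ) (a : ι → Ω → ℝ) : ι → Ω → ℝ := fun i x => if sq2 a x ≤ L then a i x else 0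

omit [Fintype Ω] in
lemma sup_cut {L : ℝ} (hL : 0 ≤ L) (a : ι → Ω → ℝ) : Sup (cut L a) L := fun x => by
  unfold cut
  split_ifs with h
  · exact h
  · simpa using hL

lemma nv_sub_cut {π : Ω → ℝ} (hπ : IsP π) {L M : ℝ} (hL : 0 < L) {a : ι → Ω → ℝ}
    (hM : mean π (fun x => sq2 a x ^ 2) ≤ M) : nv π (a - cut L a) ≤ √(M / L) := by
  refine Real.sqrt_le_sqrt ?_
  rw [ipV_self_eq, le_div_iff₀' hL, ← mean_const_mul]
  refine le_trans (hπ.mean_mono fun x => ?_) hM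
  simp only [Pi.sub_apply, cut]
  split_ifs with h
  · simpa using sq_nonneg _
  · simp only [sub_zero]
    rw [sq]
    exact mul_le_mul_of_nonneg_right (not_le.1 h).le (sq2_nonneg a x)

variable [DecidableEq Ω] {c d : RC Ω} {ν : Ω → ℝ}

lemma nv_HV_sub_le (hπ : d.π = c.π) {t t' : ℝ} (ht : 0 ≤ t) (ht' : 0 ≤ t') (a b : ι → Ω → ℝ) :
    nv c.π (HV c t a - HV d t' a) ≤ nv c.π (HV c t b - HV d t' b) + 2 * nv c.π (a - b) := by
  have h1 := nv_tri c.isP (HV c t a) (HV c t b) (HV d t' a)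
  have h2 := nv_tri c.isP (HV c t b) (HV d t' b) (HV d t' a)
  have h3 := nv_HV_le c ht (a - b)
  have h4 := nv_HV_le d ht' (b - a)
  rw [HV_sub] at h3 h4
  rw [hπ, nv_sub_comm b a] at h4
  linarith

lemma EM_HV_le (c : RC Ω) {t l : ℝ} (ht : 0 ≤ t) (hl : 0 ≤ l) (a : ι → Ω → ℝ) :
    EM c.π (sq2 (HV c t a)) l ≤ EM c.π (sq2 a) l :=
  EM_P_le (c.heat t ht) hl (sq2_P_le (c.heat t ht) a)

lemma EM_H_le (c : RC Ω) {t l : ℝ} (ht : 0 ≤ t) (hl : 0 ≤ l) (f : Ω → ℝ) :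
    EM c.π (fun x => |(c.H t *ᵥ f) x|) l ≤ EM c.π (fun x => |f x|) l :=
  EM_P_le (c.heat t ht) hl (abs_P_le (c.heat t ht) f)

lemma EM_Gt_le (c : RC Ω) {t l : ℝ} (ht : 0 ≤ t) (hl : 0 ≤ l) (a : ι → Ω → ℝ) :
    EM c.π (fun x => |Gt c a t x|) l ≤ EM c.π (sq2 a) l :=
  EM_half c.isP hl le_rfl (EM_HV_le c ht hl a) fun x => by
    rw [Gt_eq]; exact abs_dot_le_half _ _ x

lemma Gt_sub_le' (hπ : d.π = c.π) {a : ι → Ω → ℝ} {t t' l Z δ M : ℝ} (ht : 0 ≤ t) (ht' : 0 ≤ t')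
    (hl : 1 ≤ l) (hZ : EM c.π (sq2 a) l ≤ Z) (hM : 0 < M)
    (h : nv c.π (HV c t a - HV d t' a) ≤ δ) :
    ip c.π (Gt c a t - Gt d a t') (Gt c a t - Gt d a t') ≤ M * δ ^ 2 + 24 * Z / M := by
  have h1 : ipV c.π (HV c t a - HV d t' a) (HV c t a - HV d t' a) ≤ δ ^ 2 := by
    rw [← nv_sq c.isP]; exact pow_le_pow_left₀ (nv_nonneg _) h 2
  have l0 : 0 ≤ l := by linarith
  have m : ∀ b : ι → Ω → ℝ, EM c.π (sq2 b) l ≤ Z → mean c.π (fun x => sq2 b x ^ 3) ≤ 6 * Z :=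
    fun b hb => (mean_pow_le c.isP (sq2_nonneg b) hl 3).trans (by
      norm_num [Nat.factorial]; exact hb)
  have m1 := m a hZ
  have m2 := m _ ((EM_HV_le c ht l0 a).trans hZ)
  have m3 := m (HV d t' a) (by rw [← hπ] at hZ ⊢; exact (EM_HV_le d ht' l0 a).trans hZ)
  rw [ipV_self_eq] at h1
  have key : ip c.π (Gt c a t - Gt d a t') (Gt c a t - Gt d a t') ≤ mean c.π fun x =>
      M * (∑ i, (HV c t a - HV d t' a) i x ^ 2) + 1 / M * (8 / 3 * sq2 a x ^ 3 +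
        (2 / 3 * sq2 (HV c t a) x ^ 3 + 2 / 3 * sq2 (HV d t' a) x ^ 3)) := by
    refine c.isP.mean_mono (f := fun x => _ * _) fun x => ?_
    rw [Pi.sub_apply, Gt_eq, Gt_eq, ← sum_sub_distrib, ← sq]
    simp only [← mul_sub]
    refine (abs_dot_le (u := fun i => a i x) (v := fun i => (HV c t a - HV d t' a) i x)
      (A := sq2 a x) le_rfl le_rfl).trans ?_
    set D := ∑ i, (HV c t a - HV d t' a) i x ^ 2 with hD
    set A := sq2 a x
    set U := sq2 (HV c t a) x with hU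
    set V := sq2 (HV d t' a) x with hV
    have A0 : 0 ≤ A := sq2_nonneg _ _
    have U0 : 0 ≤ U := sq2_nonneg _ _
    have V0 : 0 ≤ V := sq2_nonneg _ _
    have D0 : 0 ≤ D := by positivity
    have D1 : D ≤ 2 * U + 2 * V := by
      rw [hD, hU, hV, sq2, sq2, mul_sum, mul_sum, ← sum_add_distrib]
      refine sum_le_sum fun i _ => ?_
      simp only [Pi.sub_apply]
      nlinarith [sq_nonneg (HV c t a i x + HV d t' a i x)]
    have y : ∀ u : ℝ, 0 ≤ u → A ^ 2 * u ≤ 2 / 3 * A ^ 3 + 1 / 3 * u ^ 3 := fun u hu => by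
      nlinarith [mul_nonneg (sq_nonneg (A - u)) (show 0 ≤ 2 * A + u by positivity)]
    have e1 : A ≤ M + 1 / M * A ^ 2 := by
      have : 1 / M * (A - M) ^ 2 = 1 / M * A ^ 2 - 2 * A + M := by field_simp; ring
      have h0 : 0 ≤ 1 / M * (A - M) ^ 2 := by positivity
      linarith
    have e2 : A ^ 2 * D ≤ 8 / 3 * A ^ 3 + (2 / 3 * U ^ 3 + 2 / 3 * V ^ 3) := by
      nlinarith [y U U0, y V V0, mul_le_mul_of_nonneg_left D1 (sq_nonneg A)]
    have e3 := mul_le_mul_of_nonneg_left e2 (show 0 ≤ 1 / M by positivity)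
    nlinarith [mul_le_mul_of_nonneg_right e1 D0]
  simp only [mean_add', mean_const_mul] at key
  have e4 : 1 / M * (8 / 3 * mean c.π (fun x => sq2 a x ^ 3) +
      (2 / 3 * mean c.π (fun x => sq2 (HV c t a) x ^ 3) +
        2 / 3 * mean c.π fun x => sq2 (HV d t' a) x ^ 3)) ≤ 24 * Z / M := by
    rw [one_div, inv_mul_eq_div]
    gcongr
    linarith
  linarith [mul_le_mul_of_nonneg_left h1 hM.le]

/-- **quench autocorrelation, features with exponential moments** -/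
theorem BB_static' (hπ : d.π = c.π) {b C s t s' t' θ l Z M δ₁ δ₂ : ℝ} (h : EC c b C) (hb : 0 ≤ b)
    (hν : IsP ν) (hs : b ≤ s) (ht : 0 ≤ t) (hs' : 0 ≤ s') (ht' : 0 ≤ t') (hθ : 0 < θ)
    (hl : 1 ≤ l) (hl' : 4 * θ ≤ l) {a : ι → Ω → ℝ} (hZ : EM c.π (sq2 a) l ≤ Z) (hM : 0 < M)
    (hδ₂ : 0 ≤ δ₂) (h1 : nv c.π (HV c t a - HV d t' a) ≤ δ₁)
    (h2 : nv c.π (HV c (s - b) (fun _ : Unit => Gt d a t') -
      HV d s' fun _ : Unit => Gt d a t') ≤ δ₂) :
    |BB c a ν s t - mean (ν ᵥ* c.H b) (d.H s' *ᵥ Gt d a t')| ≤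
      2 * C / θ + (√(M * δ₁ ^ 2 + 24 * Z / M) + δ₂) * √Z := by
  have hac := fun ρ : Ω → ℝ => AC.of_pos ρ c.pos
  have l0 : 0 ≤ l := by linarith
  have g1 := (EM_Gt_le c ht l0 a).trans hZ
  have g2 : EM c.π (fun x => |Gt d a t' x|) l ≤ Z := by
    rw [← hπ] at hZ ⊢; exact (EM_Gt_le d ht' l0 a).trans hZ
  have dif : ∀ F G : Ω → ℝ, EM c.π (fun x => |F x|) l ≤ Z → EM c.π (fun x => |G x|) l ≤ Z →
      mean c.π (fun x => Real.exp (2 * θ * |(F - G) x|)) ≤ Z := fun F G hF hG => by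
    refine le_trans (c.isP.mean_mono fun x => Real.exp_le_exp.2 ?_)
      (EM_half (K := fun x => |(F - G) x| / 2) c.isP l0 hF hG fun x => by
        rw [Pi.sub_apply]; linarith [abs_sub (F x) (G x)])
    nlinarith [mul_le_mul_of_nonneg_right hl' (abs_nonneg ((F - G) x))]
  have hZ0 : 0 ≤ Z := (mean_exp_pos c.isP _).le.trans hZ
  have k1 := small_of_kl (isP_vecMul (c := c) hν (hb.trans hs)) c.isP (hac _)
    ((h.mono hb hs).kl_le (hb.trans hs) hν) hθ (Real.sqrt_nonneg _)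
    ((Gt_sub_le' hπ ht ht' hl hZ hM h1).trans_eq (Real.sq_sqrt (by positivity)).symm)
    (dif _ _ g1 g2)
  have h3 : ip c.π (c.H (s - b) *ᵥ Gt d a t' - d.H s' *ᵥ Gt d a t')
      (c.H (s - b) *ᵥ Gt d a t' - d.H s' *ᵥ Gt d a t') ≤ δ₂ ^ 2 := by
    have := pow_le_pow_left₀ (nv_nonneg _) h2 2
    rw [nv_sq c.isP] at this
    simpa [ipV, HV] using this
  have k2 := small_of_kl (isP_vecMul (c := c) hν hb) c.isP (hac _) (h.kl_le hb hν) hθ hδ₂ h3
    (dif _ _ ((EM_H_le c (sub_nonneg.2 hs) l0 _).trans g2)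
      (by rw [← hπ] at g2 ⊢; exact (EM_H_le d hs' l0 _).trans g2))
  have e1 : mean (ν ᵥ* c.H b) (c.H (s - b) *ᵥ Gt d a t') = mean (ν ᵥ* c.H s) (Gt d a t') := by
    rw [← mean_vecMul, vecMul_vecMul, ← c.H_add, add_sub_cancel]
  rw [mean_sub] at k1 k2
  rw [e1] at k2
  have e2 : BB c a ν s t = mean (ν ᵥ* c.H s) (Gt c a t) := rfl
  rw [e2]
  refine (abs_sub_le _ _ _).trans ((add_le_add k1 k2).trans (le_of_eq (by ring)))

lemma AA_eq_ipV (c : RC Ω) (a : ι → Ω → ℝ) (t : ℝ) : AA c a t = ipV c.π a (HV c t a) := rfl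

theorem AA_static' (hπ : d.π = c.π) (a : ι → Ω → ℝ) (t t' : ℝ) :
    |AA c a t - AA d a t'| ≤ nv c.π a * nv c.π (HV c t a - HV d t' a) := by
  rw [AA_eq_ipV, AA_eq_ipV, hπ, ← ipV_sub_right]
  exact abs_ipV_le c.isP _ _

end Crest.Agent.T157.Sg

namespace Crest.Agent.T157.Sg

open Finset Matrix Filter Topology
open Crest.Agent.T157.Chain22 Crest.Agent.T157.Soft Crest.Agent.T157.Ent

/-- both form inequalities, for all finite index sets -/
def I12 {Ω : Type*} [Fintype Ω] (c d : RC Ω) (a b e : ℝ) : Prop :=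
  ∀ (κ : Type) [Fintype κ], I1 κ c d a b e ∧ I2 κ c d a b e

/-- **(S2) for functions with a fourth moment** -/
theorem s2_mom {t₁ t₂ δ : ℝ} (M : ℝ) (h₁ : 0 < t₁) (hδ : 0 < δ) : ∃ e : ℝ, 0 < e ∧
    ∀ (Ω : Type) [Fintype Ω] [DecidableEq Ω] (c d : RC Ω), d.π = c.π →
      ∀ a b : ℝ, 0 ≤ a → 0 ≤ b → I12 c d a b e →
      ∀ t, t₁ ≤ t → t ≤ t₂ → ∀ (ι : Type) [Fintype ι] (h : ι → Ω → ℝ),
        mean c.π (fun x => sq2 h x ^ 2) ≤ M → nv c.π (HV c (a * t) h - HV d (b * t) h) ≤ δ := by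
  set L := 16 * (|M| + 1) / δ ^ 2 with hL
  have L0 : 0 < L := by positivity
  obtain ⟨e, he, H⟩ := s2.{0, 0} (t₂ := t₂) (δ := δ / (2 * √L)) h₁ (by positivity)
  refine ⟨e, he, fun Ω _ _ c d hπ a b ha hb hI t ht1 ht2 ι _ h hM => ?_⟩
  have ht : 0 ≤ t := h₁.le.trans ht1
  have h2 := H Ω ι c d hπ a b ha hb (hI ι).1 (hI ι).2 t ht1 ht2 _ L (sup_cut L0.le h)
  have h3 := nv_HV_sub_le hπ (mul_nonneg ha ht) (mul_nonneg hb ht) h (cut L h)
  have h4 := nv_sub_cut c.isP L0 hM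
  have h5 : √(M / L) ≤ δ / 4 := by
    refine Real.sqrt_le_iff.2 ⟨by positivity, ?_⟩
    rw [div_le_iff₀ L0, hL]
    have : (δ / 4) ^ 2 * (16 * (|M| + 1) / δ ^ 2) = |M| + 1 := by field_simp; ring
    linarith [le_abs_self M]
  have h6 : δ / (2 * √L) * √L = δ / 2 := by field_simp
  linarith

/-- stretched exponential bound of all exponential moments of the overlap -/
def MgC {Ω ι : Type*} [Fintype Ω] [Fintype ι] (c : RC Ω) (a : ι → Ω → ℝ) (B : ℝ) : Prop :=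
  ∀ θ : ℝ, 0 ≤ θ → XX c a θ ≤ B * Real.exp (B * θ ^ (3 / 2 : ℝ))

/-- the bound in `MgC` -/
def mB (B θ : ℝ) : ℝ := B * Real.exp (B * θ ^ (3 / 2 : ℝ))

lemma tendsto_log_mB {B : ℝ} (hB : 0 < B) :
    Tendsto (fun s : ℝ => 2 * Real.log (mB B (2 * s)) / s ^ 2) atTop (𝓝 0) := by
  have h1 : Tendsto (fun s : ℝ => 2 * Real.log B * s ^ (-(2 : ℝ)) +
      2 * B * 2 ^ (3 / 2 : ℝ) * s ^ (-(1 / 2 : ℝ))) atTop (𝓝 0) := by
    simpa using ((tendsto_rpow_neg_atTop (y := 2) two_pos).const_mul (2 * Real.log B)).add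
      ((tendsto_rpow_neg_atTop (y := 1 / 2) (by norm_num)).const_mul (2 * B * 2 ^ (3 / 2 : ℝ)))
  refine h1.congr' ((eventually_gt_atTop 0).mono fun s hs => ?_)
  have e1 : s ^ (-(2 : ℝ)) = 1 / s ^ 2 := by rw [Real.rpow_neg hs.le, Real.rpow_two, one_div]
  have e2 : s ^ (-(1 / 2 : ℝ)) = s ^ (3 / 2 : ℝ) / s ^ 2 := by
    rw [← Real.rpow_two, ← Real.rpow_sub hs]; norm_num
  simp only [mB]
  rw [Real.log_mul hB.ne' (Real.exp_pos _).ne', Real.log_exp, Real.mul_rpow zero_le_two hs.le,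
    e1, e2]
  ring

/-- **master lemma of the static replacement**: `b = T' a`, `Ψ = b · Q b` -/
theorem master (C : ℝ) {B η : ℝ} (hB : 0 < B) (hη : 0 < η) : ∀ᶠ K' in atTop, ∃ δ M : ℝ, 0 < δ ∧
    ∀ (Ω ι : Type) [Fintype Ω] [Nonempty Ω] [DecidableEq Ω] [Fintype ι] [DecidableEq ι]
      (φ : Ω → ι → ℝ) (w : Ω → ℝ) (hw : ∀ x, 0 < w x) (hK : 0 ≤ K') (c d : RC Ω),
      c.π = E.prob w → d.π = E.prob w → MgC c (ft φ) B →
      ∀ b : ι → Ω → ℝ, b = (fun i => (stRC φ hw hK).P *ᵥ ft φ i) →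
      mean c.π (fun x => sq2 b x ^ 2) ≤ M ∧
      ∀ t', 0 ≤ t' → mean c.π (fun x => sq2 (fun _ : Unit => Gt d b t') x ^ 2) ≤ M ∧
      ∀ b₀ t, 0 ≤ b₀ → b₀ ≤ t → EC c b₀ C → nv c.π (HV c t b - HV d t' b) ≤ δ →
        |AA c (ft φ) t - AA d b t'| ≤ η ∧
        ∀ ν b₁ s s', IsP ν → b₀ ≤ b₁ → b₁ ≤ s → 0 ≤ s' →
          nv c.π (HV c (s - b₁) (fun _ : Unit => Gt d b t') -
            HV d s' fun _ : Unit => Gt d b t') ≤ δ →
          |BB c (ft φ) ν s t - mean (ν ᵥ* c.H b₁) (d.H s' *ᵥ Gt d b t')| ≤ η := by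
  set θ : ℝ := 8 * (|C| + 1) / η with hθ
  have θ0 : 0 < θ := by positivity
  have hC : 2 * C / θ ≤ η / 4 := by
    rw [div_le_iff₀ θ0, hθ]
    have : η / 4 * (8 * (|C| + 1) / η) = 2 * (|C| + 1) := by field_simp; ring
    linarith [le_abs_self C]
  set l : ℝ := max 1 (4 * θ) with hl
  have l1 : 1 ≤ l := le_max_left _ _
  have mpos : ∀ u, 0 < mB B u := fun u => mul_pos hB (Real.exp_pos _)
  have hk : Tendsto (fun s : ℝ => √(4 * √(2 * mB B 1) * √(2 * Real.log (mB B (2 * s)) / s ^ 2)) *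
      √(mB B (4 * θ))) atTop (𝓝 0) := by
    simpa using (((tendsto_log_mB hB).sqrt.const_mul (4 * √(2 * mB B 1))).sqrt).mul_const
      √(mB B (4 * θ))
  filter_upwards [hk.eventually (gt_mem_nhds (show 0 < η / 4 by positivity)),
    eventually_gt_atTop 0] with K' hK' K0
  set Z := mB B (K' + 2 * l) with hZ
  have Z0 : 0 < Z := mpos _
  set ρ := η / (8 * (√Z + 1)) with hρ
  have ρ0 : 0 < ρ := by positivity
  have hρZ : 2 * ρ * √Z ≤ η / 4 := by
    have : 2 * ρ * (√Z + 1) = η / 4 := by rw [hρ]; field_simp; ring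
    nlinarith
  set M := 48 * Z / ρ ^ 2 with hM
  have M0 : 0 < M := by positivity
  refine ⟨min ρ (ρ / √(2 * M)), 24 * Z, by positivity,
    fun Ω ι _ _ _ _ _ φ w hw hK c d hc hd hX b hb => ?_⟩
  have hπ : d.π = c.π := hd.trans hc.symm
  have l0 : 0 ≤ l := by linarith
  have hE : EM c.π (sq2 b) l ≤ Z := by
    rw [hb]
    exact (exp_sq_stRC_le hw hK hc l0).trans (hX _ (by positivity))
  refine ⟨(mean_pow_le c.isP (sq2_nonneg b) l1 2).trans (by
    norm_num [Nat.factorial]; linarith), fun t' ht' => ⟨?_, fun b₀ t hb₀ ht hEC h1 => ?_⟩⟩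
  · have g2 : EM c.π (fun x => |Gt d b t' x|) l ≤ Z := by
      rw [← hπ] at hE ⊢; exact (EM_Gt_le d ht' l0 b).trans hE
    have := mean_pow_le c.isP (fun x => abs_nonneg (Gt d b t' x)) l1 4
    norm_num [Nat.factorial] at this
    refine le_trans (le_of_eq (mean_congr fun x => ?_)) (this.trans (by linarith))
    rw [show (4 : ℕ) = 2 * 2 from rfl, pow_mul, sq_abs]
    simp [sq2]
  have x1 : XX c (ft φ) (4 * θ) ≤ mB B (4 * θ) := hX _ (by positivity)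
  have x2 : XX c b (4 * θ) ≤ mB B (4 * θ) := by
    rw [hb]
    exact ((subK_self (stRC φ hw hK)).XX_le hc.symm _ (by positivity)).trans x1
  have x3 : KK c.π (ft φ) b ≤
      √(4 * √(2 * mB B 1) * √(2 * Real.log (mB B (2 * K')) / K' ^ 2)) ^ 2 := by
    rw [Real.sq_sqrt (by positivity), hb]
    refine (KK_stRC_le hw hK hc K0).trans ?_
    have p : 0 < XX c (ft φ) (2 * K') := by rw [XX_eq]; exact mean_exp_pos (isP_prd c.isP) _
    have y1 : XX c (ft φ) 1 ≤ mB B 1 := hX _ zero_le_one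
    have y2 : XX c (ft φ) (2 * K') ≤ mB B (2 * K') := hX _ (by positivity)
    gcongr
  refine ⟨?_, fun ν b₁ s s' hν hb₁ hs hs' h2 => ?_⟩
  · have a1 := AA_sub hEC hb₀ ht θ0 (Real.sqrt_nonneg _) x1 x2 x3
    have a2 := AA_static' hπ b t t'
    have a3 : nv c.π b ≤ √Z := by
      refine Real.sqrt_le_sqrt ?_
      rw [ipV_self_eq]
      have := mean_pow_le c.isP (sq2_nonneg b) l1 1
      simp only [pow_one, Nat.factorial_one, Nat.cast_one, one_mul] at this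
      exact this.trans hE
    have a4 := mul_le_mul a3 (h1.trans (min_le_left _ _)) (nv_nonneg _) (Real.sqrt_nonneg _)
    have a5 := abs_sub_le (AA c (ft φ) t) (AA c b t) (AA d b t')
    nlinarith [mul_nonneg ρ0.le (Real.sqrt_nonneg Z)]
  · have a1 := BB_sub hEC hb₀ hν (hb₁.trans hs) ht θ0 (Real.sqrt_nonneg _) x1 x2 x3
    have a2 := BB_static' hπ (hEC.mono hb₀ hb₁) (hb₀.trans hb₁) hν hs (hb₀.trans ht) hs' ht' θ0
      l1 (le_max_right _ _) hE M0 ρ0.le (h1.trans (min_le_right _ _)) (h2.trans (min_le_left _ _))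
    have a3 : √(M * (ρ / √(2 * M)) ^ 2 + 24 * Z / M) = ρ := by
      rw [div_pow, Real.sq_sqrt (by positivity), hM, ← Real.sqrt_sq ρ0.le, Real.sq_sqrt
        (sq_nonneg ρ)]
      congr 1
      field_simp
      ring
    rw [a3] at a2
    have a5 := abs_sub_le (BB c (ft φ) ν s t) (BB c b ν s t)
      (mean (ν ᵥ* c.H b₁) (d.H s' *ᵥ Gt d b t'))
    linarith

end Crest.Agent.T157.Sg

end
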