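import Crest.Agent.T157.UnC_81
import Crest.Agent.T157.SgD_90

/-!
# Row 157, part C: universality through a complex entry, D (helper81)

The static chain under a complex change of one coupling; averaged tilt bounds.
-/

set_option autoImplicit false
set_option linter.unusedSectionVars false

noncomputable section

namespace Crest.Agent.T157.Un

open MeasureTheory Metric Finset Matrix Filter Topology
open scoped ComplexConjugate
open Crest.ProbabilityR.SpinGlassDynamics Crest.Agent.T157.E Crest.Agent.T157.SL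

/-- a bounded holomorphic family has a holomorphic integral -/
lemma diffOn_integral {Z : Type*} [MeasurableSpace Z] (μ : Measure Z) [IsFiniteMeasure μ]
    {F : ℂ → Z → ℂ} {R C : ℝ} (hd : ∀ ζ, DifferentiableOn ℂ (fun z => F z ζ) (ball 0 R))
    (hm : ∀ z, Measurable (F z)) (hb : ∀ z ∈ ball (0 : ℂ) R, ∀ ζ, ‖F z ζ‖ ≤ C) :
    DifferentiableOn ℂ (fun z => ∫ ζ, F z ζ ∂μ) (ball 0 R) := by
  intro z₀ hz₀
  obtain ⟨ε, hε, hsub⟩ := Metric.mem_nhds_iff.1 (isOpen_ball.mem_nhds hz₀)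
  have hs : ∀ z ∈ ball z₀ (ε / 2), ball z (ε / 2) ⊆ ball (0 : ℂ) R := fun z hz w hw =>
    hsub (by rw [mem_ball] at *; linarith [dist_triangle w z z₀])
  have hda : ∀ ζ, ∀ z ∈ ball z₀ (ε / 2), HasDerivAt (fun z => F z ζ) (deriv (fun z => F z ζ) z) z :=
    fun ζ z hz => ((hd ζ).differentiableAt
      (isOpen_ball.mem_nhds (hs z hz (mem_ball_self (half_pos hε))))).hasDerivAt
  have hmeas : Measurable fun ζ => deriv (fun z => F z ζ) z₀ :=
    measurable_of_tendsto_metrizable' (𝓝[≠] (0 : ℂ))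
      (f := fun t ζ => t⁻¹ • (F (z₀ + t) ζ - F z₀ ζ))
      (fun t => ((hm (z₀ + t)).sub (hm z₀)).const_smul t⁻¹)
      (tendsto_pi_nhds.2 fun ζ => (hda ζ z₀ (mem_ball_self (half_pos hε))).tendsto_slope_zero)
  refine (hasDerivAt_integral_of_dominated_loc_of_deriv_le (μ := μ) (F := F)
    (F' := fun z ζ => deriv (fun z => F z ζ) z) (bound := fun _ => 2 * C / (ε / 2))
    (ball_mem_nhds z₀ (half_pos hε)) (.of_forall fun z => (hm z).aestronglyMeasurable)
    (Integrable.of_bound (hm z₀).aestronglyMeasurable C (.of_forall (hb z₀ hz₀)))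
    hmeas.aestronglyMeasurable (.of_forall fun ζ z hz => ?_) (integrable_const _)
    (.of_forall fun ζ z hz => hda ζ z hz)).2.differentiableAt.differentiableWithinAt
  refine Complex.norm_deriv_le_div_of_mapsTo_ball ((hd ζ).mono (hs z hz)) (fun w hw => ?_)
    (half_pos hε)
  rw [mem_closedBall, dist_eq_norm]
  linarith [norm_sub_le (F w ζ) (F z ζ), hb w (hs z hz hw) ζ,
    hb z (hs z hz (mem_ball_self (half_pos hε))) ζ]

lemma norm_int_sq_le {Z : Type*} [MeasurableSpace Z] (μ : Measure Z) [IsProbabilityMeasure μ]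
    {f : Z → ℂ} {b : Z → ℝ} (hb : Measurable b) {M : ℝ} (hM : ∀ ζ, |b ζ| ≤ M)
    (h : ∀ ζ, ‖f ζ‖ ≤ b ζ) : ‖∫ ζ, f ζ ∂μ‖ ^ 2 ≤ ∫ ζ, b ζ ^ 2 ∂μ := by
  have i1 : Integrable b μ := int_bdd hb hM
  have i2 : Integrable (fun ζ => b ζ ^ 2) μ := int_bdd (hb.pow_const 2) (M := M ^ 2) fun ζ => by
    rw [abs_pow]; gcongr; exact hM ζ
  have h1 := norm_integral_le_of_norm_le i1 (.of_forall h)
  refine (pow_le_pow_left₀ (norm_nonneg _) h1 2).trans ?_
  set m := ∫ ζ, b ζ ∂μ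
  have h2 := integral_mono ((i1.const_mul (2 * m)).sub (integrable_const (m ^ 2))) i2
    fun ζ => by simp only [Pi.sub_apply]; nlinarith [sq_nonneg (b ζ - m)]
  rw [integral_sub' (i1.const_mul _) (integrable_const _), integral_const_mul] at h2
  simp only [integral_const, probReal_univ, smul_eq_mul, one_mul] at h2
  nlinarith

section fin
variable {Ω : Type*} [Fintype Ω] [Nonempty Ω] {w : Ω → ℝ}

/-- mean over two independent replicas -/
def m2 (w : Ω → ℝ) (F : Ω → Ω → ℝ) : ℝ := ∑ x, ∑ y, prob w x * prob w y * F x y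

lemma m2_mono (hw : ∀ x, 0 < w x) {F G : Ω → Ω → ℝ} (h : ∀ x y, F x y ≤ G x y) : m2 w F ≤ m2 w G :=
  sum_le_sum fun x _ => sum_le_sum fun y _ =>
    mul_le_mul_of_nonneg_left (h x y) (mul_nonneg (prob_nn hw x) (prob_nn hw y))

lemma m2_add (F G : Ω → Ω → ℝ) : m2 w (fun x y => F x y + G x y) = m2 w F + m2 w G := by
  simp only [m2, mul_add, sum_add_distrib]

lemma m2_const_mul (c : ℝ) (F : Ω → Ω → ℝ) : m2 w (fun x y => c * F x y) = c * m2 w F := by
  simp only [m2, mul_sum]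
  exact sum_congr rfl fun _ _ => sum_congr rfl fun _ _ => by ring

lemma m2_mul (f g : Ω → ℝ) : m2 w (fun x y => f x * g y) = mean w f * mean w g := by
  simp only [m2, mean, sum_mul_sum]
  exact sum_congr rfl fun _ _ => sum_congr rfl fun _ _ => by ring

lemma mean_one (hw : ∀ x, 0 < w x) : mean w (fun _ => 1) = 1 := by simp [mean, sum_prob hw]

lemma m2_left (hw : ∀ x, 0 < w x) (f : Ω → ℝ) : m2 w (fun x _ => f x) = mean w f := by
  simpa [mean_one hw] using m2_mul (w := w) f fun _ => 1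

lemma m2_right (hw : ∀ x, 0 < w x) (f : Ω → ℝ) : m2 w (fun _ y => f y) = mean w f := by
  simpa [mean_one hw] using m2_mul (w := w) (fun _ => 1) f

lemma m2_const (hw : ∀ x, 0 < w x) (c : ℝ) : m2 w (fun _ _ => c) = c := by
  rw [m2_left hw fun _ => c]; exact (Wt.of_pos hw).mean_const c

lemma m2_nonneg (hw : ∀ x, 0 < w x) {F : Ω → Ω → ℝ} (h : ∀ x y, 0 ≤ F x y) : 0 ≤ m2 w F :=
  (m2_const hw 0).ge.trans (m2_mono hw h)

lemma m2_eq_mean (F : Ω → Ω → ℝ) : m2 w F = mean w fun x => mean w (F x) := by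
  simp only [m2, mean, mul_sum, mul_assoc]

lemma m2_sq_le (hw : ∀ x, 0 < w x) (F : Ω → Ω → ℝ) : m2 w F ^ 2 ≤ m2 w fun x y => F x y ^ 2 := by
  have h := m2_mono hw (F := fun x y => 2 * m2 w F * F x y + -(m2 w F ^ 2))
    (G := fun x y => F x y ^ 2) fun x y => by nlinarith [sq_nonneg (F x y - m2 w F)]
  rw [m2_add, m2_const_mul, m2_const hw] at h
  nlinarith

lemma mean_pow_le (hw : ∀ x, 0 < w x) {f : Ω → ℝ} (hf : ∀ x, 0 ≤ f x) (k : ℕ) :
    mean w f ^ k ≤ mean w fun x => f x ^ k :=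
  Real.pow_arith_mean_le_arith_mean_pow univ (prob w) f (fun x _ => prob_nn hw x) (sum_prob hw)
    (fun x _ => hf x) k

lemma m2_pow_le (hw : ∀ x, 0 < w x) {F : Ω → Ω → ℝ} (hF : ∀ x y, 0 ≤ F x y) (k : ℕ) :
    m2 w F ^ k ≤ m2 w fun x y => F x y ^ k := by
  rw [m2_eq_mean, m2_eq_mean]
  exact (mean_pow_le hw (fun x => (Wt.of_pos hw).mean_nonneg (hF x)) k).trans
    ((Wt.of_pos hw).mean_mono fun x => mean_pow_le hw (hF x) k)

lemma abs_m2_le (hw : ∀ x, 0 < w x) (F : Ω → Ω → ℝ) : |m2 w F| ≤ ∑ x, ∑ y, |F x y| := by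
  have p1 : ∀ x, prob w x ≤ 1 := (Chain22.isP_prob' hw).le_one
  refine (abs_sum_le_sum_abs _ _).trans (sum_le_sum fun x _ =>
    (abs_sum_le_sum_abs _ _).trans (sum_le_sum fun y _ => ?_))
  rw [abs_mul, abs_of_nonneg (mul_nonneg (prob_nn hw x) (prob_nn hw y))]
  exact mul_le_of_le_one_left (abs_nonneg _) (mul_le_one₀ (p1 x) (prob_nn hw y) (p1 y))

lemma abs_mean_le' (hw : ∀ x, 0 < w x) (f : Ω → ℝ) : |mean w f| ≤ ∑ x, |f x| :=
  (Chain22.isP_prob' hw).abs_mean_le fun x => single_le_sum (f := fun x => |f x|)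
    (fun _ _ => abs_nonneg _) (mem_univ x)

lemma sum_mean_sq {ι : Type*} [Fintype ι] (u : ι → Ω → ℝ) :
    ∑ i, mean w (u i) ^ 2 = m2 w fun x y => ∑ i, u i x * u i y := by
  simp only [sq, ← m2_mul]
  simp only [m2, mul_sum]
  rw [sum_comm]
  exact sum_congr rfl fun x _ => sum_comm

/-- the bound of the tilt formula -/
def tl (w χ f : Ω → ℝ) : ℝ := |mean w fun x => χ x * f x| + |mean w χ| * |mean w f|

lemma tl_nonneg (χ f : Ω → ℝ) : 0 ≤ tl w χ f := by unfold tl; positivity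

lemma abs_tl_le (hw : ∀ x, 0 < w x) {χ : Ω → ℝ} (h : Sgn χ) (f : Ω → ℝ) :
    |tl w χ f| ≤ 2 * ∑ x, |f x| := by
  rw [abs_of_nonneg (tl_nonneg χ f), tl]
  have h1 := abs_mean_le' hw fun x => χ x * f x
  simp only [abs_mul, h.abs, one_mul] at h1
  have h2 : |mean w χ| ≤ 1 := (Chain22.isP_prob' hw).abs_mean_le fun x => (h.abs x).le
  nlinarith [abs_mean_le' hw f, abs_nonneg (mean w f), abs_nonneg (mean w χ)]

/-- Gram bound for the complex mean of a real vector -/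
lemma gram_le {ι : Type*} [Fintype ι] {k : Ω → ℂ} (hw : ∀ x, 0 < w x) {c : ℝ}
    (hk : ∀ x, ‖k x‖ ≤ c * prob w x) (a : ι → Ω → ℝ) :
    ∑ i, ‖∑ x, k x * a i x‖ ^ 2 ≤ c ^ 2 * m2 w fun x y => |∑ i, a i x * a i y| := by
  have e : ((∑ i, ‖∑ x, k x * a i x‖ ^ 2 : ℝ) : ℂ) =
      ∑ x, ∑ y, k x * conj (k y) * ((∑ i, a i x * a i y : ℝ) : ℂ) := by
    push_cast
    simp only [← Complex.mul_conj', map_sum, map_mul, Complex.conj_ofReal, sum_mul_sum]
    simp only [mul_sum]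
    rw [sum_comm]
    refine sum_congr rfl fun x _ => ?_
    rw [sum_comm]
    exact sum_congr rfl fun y _ => sum_congr rfl fun i _ => by ring
  have h0 : 0 ≤ ∑ i, ‖∑ x, k x * a i x‖ ^ 2 := by positivity
  rw [← Real.norm_of_nonneg h0, ← Complex.norm_real, e, m2, mul_sum]
  refine (norm_sum_le _ _).trans (sum_le_sum fun x _ => ?_)
  rw [mul_sum]
  refine (norm_sum_le _ _).trans (sum_le_sum fun y _ => ?_)
  rw [norm_mul, norm_mul, Complex.norm_conj, Complex.norm_real, Real.norm_eq_abs]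
  calc _ ≤ c * prob w x * (c * prob w y) * |∑ i, a i x * a i y| := by
        gcongr
        exacts [(norm_nonneg _).trans (hk x), hk x, hk y]
    _ = _ := by ring

end fin

variable {n : ℕ} {ι : Type*} [Fintype ι]

/-- **averaged tilt bound** -/
lemma sum_tl_le {w : Cube n → ℝ} (hw : ∀ x, 0 < w x) (u : ι → Cube n → ℝ)
    {γ : Cube n → Cube n → ℝ} (hγ : ∀ x y, |∑ i, u i x * u i y| ≤ γ x y) {lam : ℝ} (hl : 0 < lam) :
    ∑ e : Pair n, ∑ i, tl w (chi e) (u i) ^ 2 ≤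
      2 * m2 w fun x y => lam * γ x y ^ 2 + lam⁻¹ * (sv x ⬝ᵥ sv y) ^ 4 := by
  have amgm : ∀ a b : ℝ, 2 * (a * b) ≤ lam * a ^ 2 + lam⁻¹ * b ^ 2 := fun a b => by
    have h := mul_nonneg (inv_pos.2 hl).le (sq_nonneg (lam * a - b))
    have e : lam⁻¹ * (lam * a - b) ^ 2 = lam * a ^ 2 + lam⁻¹ * b ^ 2 - 2 * (a * b) := by
      field_simp; ring
    linarith
  have h1 : ∑ e : Pair n, ∑ i, (mean w fun x => chi e x * u i x) ^ 2 ≤
      m2 w fun x y => γ x y * (sv x ⬝ᵥ sv y) ^ 2 :=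
    (sum_cov_le w u).trans (m2_mono hw fun x y =>
      mul_le_mul_of_nonneg_right ((le_abs_self _).trans (hγ x y)) (sq_nonneg _))
  have h2 : ∑ e : Pair n, mean w (chi e) ^ 2 ≤ m2 w fun x y => (sv x ⬝ᵥ sv y) ^ 2 := by
    simpa [m2] using sum_cov_le (ι := Unit) w fun _ _ => 1
  have h3 : ∑ i, mean w (u i) ^ 2 ≤ m2 w γ := by
    rw [sum_mean_sq]; exact m2_mono hw fun x y => (le_abs_self _).trans (hγ x y)
  have h4 : ∑ e : Pair n, ∑ i, tl w (chi e) (u i) ^ 2 ≤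
      2 * ∑ e : Pair n, ∑ i, (mean w fun x => chi e x * u i x) ^ 2 +
        2 * ((∑ i, mean w (u i) ^ 2) * ∑ e : Pair n, mean w (chi e) ^ 2) := by
    rw [mul_comm (∑ i, _), sum_mul_sum]
    simp only [mul_sum, ← sum_add_distrib]
    refine sum_le_sum fun e _ => sum_le_sum fun i _ => ?_
    rw [tl, ← sq_abs (mean w fun x => _), ← sq_abs (mean w (chi e)), ← sq_abs (mean w (u i))]
    nlinarith [sq_nonneg (|mean w fun x => chi e x * u i x| - |mean w (chi e)| * |mean w (u i)|)]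
  have h5 := m2_mono hw fun x y => amgm (γ x y) ((sv x ⬝ᵥ sv y) ^ 2)
  rw [m2_const_mul] at h5
  have h6 := amgm (m2 w γ) (m2 w fun x y => (sv x ⬝ᵥ sv y) ^ 2)
  have h7 := mul_le_mul_of_nonneg_left (m2_sq_le hw γ) hl.le
  have h8 := mul_le_mul_of_nonneg_left (m2_sq_le hw fun x y => (sv x ⬝ᵥ sv y) ^ 2) (inv_pos.2 hl).le
  have h9 := mul_le_mul h3 h2 (by positivity) ((by positivity : 0 ≤ ∑ i, mean w (u i) ^ 2).trans h3)
  simp only [← pow_mul, m2_add, m2_const_mul] at h5 h8 ⊢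
  norm_num at h5 h8
  linarith

/-! ### the static chain -/

section chan
variable {κ : Type*} [Fintype κ] [DecidableEq κ] (φ : Cube n → κ → ℝ) (s : ℝ)

/-- posterior weight for the start `x` and the noise `ζ` -/
def po (w : Cube n → ℝ) (x : Cube n) (ζ : κ → ℝ) : Cube n → ℝ := post φ w s (s • φ x + √s • ζ)

/-- the static kernel -/
def k0 (w : Cube n → ℝ) : Matrix (Cube n) (Cube n) ℝ := Sg.stQ φ w s fun _ => 1

/-- the static kernel of the complex weight -/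
def kc (w χ : Cube n → ℝ) (z : ℂ) (x y : Cube n) : ℂ := ∫ ζ, pc (cw (po φ s w x ζ) χ z) y ∂gv κ

/-- mean over two replicas of the posterior -/
def E2 (w : Cube n → ℝ) (F : Cube n → Cube n → ℝ) (x : Cube n) : ℝ :=
  ∫ ζ, m2 (po φ s w x ζ) F ∂gv κ

variable {φ s} {w χ : Cube n → ℝ} {z : ℂ}

lemma po_pos (hw : ∀ x, 0 < w x) (x : Cube n) (ζ : κ → ℝ) (y : Cube n) : 0 < po φ s w x ζ y :=
  mul_pos (hw y) (Real.exp_pos _)

lemma meas_po (x y : Cube n) : Measurable fun ζ => po φ s w x ζ y := by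
  simp only [po, post, dotProduct]; fun_prop

lemma meas_prob_po (x y : Cube n) : Measurable fun ζ => prob (po φ s w x ζ) y :=
  (meas_po x y).div (measurable_sum _ fun y _ => meas_po x y)

lemma meas_mean_po (x : Cube n) (f : Cube n → ℝ) : Measurable fun ζ => mean (po φ s w x ζ) f :=
  measurable_sum _ fun y _ => (meas_prob_po x y).mul_const _

lemma meas_m2_po (x : Cube n) (F : Cube n → Cube n → ℝ) :
    Measurable fun ζ => m2 (po φ s w x ζ) F :=
  measurable_sum _ fun y _ => measurable_sum _ fun y' _ =>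
    ((meas_prob_po x y).mul (meas_prob_po x y')).mul_const _

lemma meas_tl_po (x : Cube n) (f : Cube n → ℝ) : Measurable fun ζ => tl (po φ s w x ζ) χ f :=
  (meas_mean_po x _).abs.add ((meas_mean_po x _).abs.mul (meas_mean_po x _).abs)

lemma meas_pc_po (x y : Cube n) (z : ℂ) : Measurable fun ζ => pc (cw (po φ s w x ζ) χ z) y := by
  have h : ∀ y, Measurable fun ζ => cw (po φ s w x ζ) χ z y := fun y =>
    (Complex.measurable_ofReal.comp (meas_po x y)).mul_const _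
  exact (h y).div (measurable_sum _ fun y _ => h y)

lemma int_m2_po (hw : ∀ x, 0 < w x) (x : Cube n) (F : Cube n → Cube n → ℝ) :
    Integrable (fun ζ => m2 (po φ s w x ζ) F) (gv κ) :=
  int_bdd (meas_m2_po x F) fun ζ => abs_m2_le (po_pos hw x ζ) F

lemma abs_prob_le {Ω : Type*} [Fintype Ω] [Nonempty Ω] {w : Ω → ℝ} (hw : ∀ x, 0 < w x) (x : Ω) :
    |prob w x| ≤ 1 := by
  rw [abs_of_nonneg (prob_nn hw x)]; exact (Chain22.isP_prob' hw).le_one x

lemma int_prob_po (hw : ∀ x, 0 < w x) (x y : Cube n) :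
    Integrable (fun ζ => prob (po φ s w x ζ) y) (gv κ) :=
  int_bdd (meas_prob_po x y) fun ζ => abs_prob_le (po_pos hw x ζ) y

lemma k0_eq (x y : Cube n) : k0 φ s w x y = ∫ ζ, prob (po φ s w x ζ) y ∂gv κ := by
  simp only [k0, Sg.stQ, Rec.Pm, one_mul, po]

lemma k0_mulVec (hw : ∀ x, 0 < w x) (f : Cube n → ℝ) (x : Cube n) :
    (k0 φ s w *ᵥ f) x = ∫ ζ, mean (po φ s w x ζ) f ∂gv κ := by
  simp only [mulVec, dotProduct, k0_eq, mean, ← integral_mul_const]
  rw [integral_finsetSum _ fun y _ => (int_prob_po hw x y).mul_const _]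

lemma po_rw (t : ℝ) (x : Cube n) (ζ : κ → ℝ) : po φ s (rw w χ t) x ζ = rw (po φ s w x ζ) χ t := by
  funext y; simp only [po, post, rw]; ring

lemma norm_pc_po (hw : ∀ x, 0 < w x) (h : Sgn χ) (hz : z ∈ ball (0 : ℂ) (1 / 4)) (x y : Cube n)
    (ζ : κ → ℝ) : ‖pc (cw (po φ s w x ζ) χ z) y‖ ≤ 3 :=
  (norm_pc (po_pos hw x ζ) h hz y).trans
    (by linarith [(Chain22.isP_prob' (po_pos (φ := φ) (s := s) hw x ζ)).le_one y])

lemma int_pc_po (hw : ∀ x, 0 < w x) (h : Sgn χ) (hz : z ∈ ball (0 : ℂ) (1 / 4)) (x y : Cube n) :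
    Integrable (fun ζ => pc (cw (po φ s w x ζ) χ z) y) (gv κ) :=
  Integrable.of_bound (meas_pc_po x y z).aestronglyMeasurable 3
    (.of_forall (norm_pc_po hw h hz x y))

lemma ex_kc (hw : ∀ x, 0 < w x) (h : Sgn χ) (x y : Cube n) :
    Ex (1 / 4) (fun t => k0 φ s (rw w χ t) x y) fun z => kc φ s w χ z x y :=
  ⟨diffOn_integral _ (fun ζ => (ex_pc (po_pos hw x ζ) h y).diff) (meas_pc_po x y)
    fun _ hz => norm_pc_po hw h hz x y, fun t ht => by
      rw [k0_eq, ← integral_complex_ofReal, kc]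
      congr 1; funext ζ
      rw [po_rw]; exact (ex_pc (po_pos hw x ζ) h y).eq t ht⟩

lemma kc_zero (x y : Cube n) : kc φ s w χ 0 x y = k0 φ s w x y := by
  simp only [kc, pc_zero, k0_eq, integral_complex_ofReal]

lemma norm_kc (hw : ∀ x, 0 < w x) (h : Sgn χ) (hz : z ∈ ball (0 : ℂ) (1 / 4)) (x y : Cube n) :
    ‖kc φ s w χ z x y‖ ≤ 3 * k0 φ s w x y := by
  rw [k0_eq, ← integral_const_mul]
  exact norm_integral_le_of_norm_le ((int_prob_po hw x y).const_mul 3)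
    (.of_forall fun ζ => norm_pc (po_pos hw x ζ) h hz y)

lemma k0_nn (hw : ∀ x, 0 < w x) (x y : Cube n) : 0 ≤ k0 φ s w x y := by
  rw [k0_eq]; exact integral_nonneg fun ζ => prob_nn (po_pos hw x ζ) y

lemma k0_row (hw : ∀ x, 0 < w x) (x : Cube n) : ∑ y, k0 φ s w x y = 1 := by
  simp only [k0_eq]
  rw [← integral_finsetSum _ fun y _ => int_prob_po hw x y]
  simp [fun ζ => sum_prob (po_pos (φ := φ) (s := s) hw x ζ)]

lemma kc_sum (hw : ∀ x, 0 < w x) (h : Sgn χ) (hz : z ∈ ball (0 : ℂ) (1 / 4)) (x : Cube n)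
    (f : Cube n → ℂ) :
    ∑ y, kc φ s w χ z x y * f y = ∫ ζ, ∑ y, pc (cw (po φ s w x ζ) χ z) y * f y ∂gv κ := by
  rw [integral_finsetSum _ fun y _ => (int_pc_po hw h hz x y).mul_const _]
  simp only [kc, integral_mul_const]

/-- Jensen for the complex kernel -/
lemma kc_jensen (hw : ∀ x, 0 < w x) (h : Sgn χ) (hz : z ∈ ball (0 : ℂ) (1 / 4)) (x : Cube n)
    (V : ι → Cube n → ℂ) : ∑ i, ‖∑ y, kc φ s w χ z x y * V i y‖ ^ 2 ≤
      9 * (k0 φ s w *ᵥ fun y => ∑ i, ‖V i y‖ ^ 2) x := by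
  refine (sum_le_sum fun i _ => norm_sum_sq_le (k0_nn hw x) (k0_row hw x) (norm_kc hw h hz x)
    (V i)).trans (le_of_eq ?_)
  simp only [mulVec, dotProduct, mul_sum]
  rw [sum_comm]; norm_num

/-- Gram bound for the complex kernel -/
lemma kc_gram (hw : ∀ x, 0 < w x) (h : Sgn χ) (hz : z ∈ ball (0 : ℂ) (1 / 4)) (x : Cube n)
    (a : ι → Cube n → ℝ) : ∑ i, ‖∑ y, kc φ s w χ z x y * a i y‖ ^ 2 ≤
      9 * E2 φ s w (fun y y' => |∑ i, a i y * a i y'|) x := by
  have hm : ∀ i, Measurable fun ζ => ‖∑ y, pc (cw (po φ s w x ζ) χ z) y * a i y‖ := fun i =>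
    (measurable_sum _ fun y _ => (meas_pc_po x y z).mul_const _).norm
  have hb : ∀ i ζ, |‖∑ y, pc (cw (po φ s w x ζ) χ z) y * a i y‖| ≤ ∑ y, 3 * ‖(a i y : ℂ)‖ := by
    intro i ζ
    rw [abs_norm]
    refine (norm_sum_le _ _).trans (sum_le_sum fun y _ => ?_)
    rw [norm_mul]; gcongr; exact norm_pc_po hw h hz x y ζ
  have i2 : ∀ i, Integrable (fun ζ => ‖∑ y, pc (cw (po φ s w x ζ) χ z) y * a i y‖ ^ 2) (gv κ) :=
    fun i => int_bdd ((hm i).pow_const 2) (M := (∑ y, 3 * ‖(a i y : ℂ)‖) ^ 2) fun ζ => by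
      rw [abs_pow]; gcongr; exact hb i ζ
  simp only [kc_sum hw h hz]
  refine (sum_le_sum fun i _ => norm_int_sq_le _ (hm i) (hb i) fun _ => le_rfl).trans ?_
  rw [← integral_finsetSum _ fun i _ => i2 i, E2, ← integral_const_mul]
  refine integral_mono (integrable_finsetSum _ fun i _ => i2 i) ((int_m2_po hw x _).const_mul 9)
    fun ζ => (gram_le (po_pos hw x ζ) (norm_pc (po_pos hw x ζ) h hz) a).trans_eq (by norm_num)

/-- the oscillation of the kernel on a real vector -/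
def cv (φ : Cube n → κ → ℝ) (s : ℝ) (w χ : Cube n → ℝ) (u : ι → Cube n → ℝ) (x : Cube n) : ℝ :=
  ∑ i, ∫ ζ, tl (po φ s w x ζ) χ (u i) ^ 2 ∂gv κ

lemma int_tl_sq (hw : ∀ x, 0 < w x) (h : Sgn χ) (x : Cube n) (f : Cube n → ℝ) :
    Integrable (fun ζ => tl (po φ s w x ζ) χ f ^ 2) (gv κ) :=
  int_bdd ((meas_tl_po x f).pow_const 2) (M := (2 * ∑ x, |f x|) ^ 2) fun ζ => by
    rw [abs_pow]; gcongr; exact abs_tl_le (po_pos hw x ζ) h f

lemma kc_tilt (hw : ∀ x, 0 < w x) (h : Sgn χ) (hz : z ∈ ball (0 : ℂ) (1 / 4)) (x : Cube n)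
    (u : ι → Cube n → ℝ) : ∑ i, ‖∑ y, kc φ s w χ z x y * u i y - ∑ y, kc φ s w χ 0 x y * u i y‖ ^ 2 ≤
      cv φ s w χ u x := by
  refine sum_le_sum fun i _ => ?_
  have z0 : (0 : ℂ) ∈ ball (0 : ℂ) (1 / 4) := mem_ball_self (by norm_num)
  rw [kc_sum hw h hz, kc_sum hw h z0, ← integral_sub
    (integrable_finsetSum _ fun y _ => (int_pc_po hw h hz x y).mul_const _)
    (integrable_finsetSum _ fun y _ => (int_pc_po hw h z0 x y).mul_const _)]
  refine norm_int_sq_le _ (meas_tl_po x (u i)) (fun ζ => abs_tl_le (po_pos hw x ζ) h (u i))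
    fun ζ => le_of_eq_of_le ?_ (tilt_le (po_pos hw x ζ) h hz (u i))
  simp [pc_zero, mean]

lemma sum_cv_le (hw : ∀ x, 0 < w x) (u : ι → Cube n → ℝ) {γ : Cube n → Cube n → ℝ}
    (hγ : ∀ x y, |∑ i, u i x * u i y| ≤ γ x y) {lam : ℝ} (hl : 0 < lam) (x : Cube n) :
    ∑ e : Pair n, cv φ s w (chi e) u x ≤
      2 * E2 φ s w (fun y y' => lam * γ y y' ^ 2 + lam⁻¹ * (sv y ⬝ᵥ sv y') ^ 4) x := by
  have i1 := fun (e : Pair n) i => int_tl_sq (φ := φ) (s := s) hw (sgn_chi e) x (u i)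
  simp only [cv, ← integral_finsetSum _ fun i _ => i1 _ i]
  rw [← integral_finsetSum _ fun e _ => integrable_finsetSum _ fun i _ => i1 e i, E2,
    ← integral_const_mul]
  exact integral_mono (integrable_finsetSum _ fun e _ => integrable_finsetSum _ fun i _ => i1 e i)
    ((int_m2_po hw x _).const_mul 2) fun ζ => sum_tl_le (po_pos hw x ζ) u hγ hl

lemma E2_mono (hw : ∀ x, 0 < w x) {F G : Cube n → Cube n → ℝ} (h : ∀ x y, F x y ≤ G x y)
    (x : Cube n) : E2 φ s w F x ≤ E2 φ s w G x :=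
  integral_mono (int_m2_po hw x _) (int_m2_po hw x _) fun ζ => m2_mono (po_pos hw x ζ) h

lemma E2_nonneg (hw : ∀ x, 0 < w x) {F : Cube n → Cube n → ℝ} (h : ∀ x y, 0 ≤ F x y)
    (x : Cube n) : 0 ≤ E2 φ s w F x := integral_nonneg fun ζ => m2_nonneg (po_pos hw x ζ) h

lemma E2_add (hw : ∀ x, 0 < w x) (F G : Cube n → Cube n → ℝ) (x : Cube n) :
    E2 φ s w (fun a b => F a b + G a b) x = E2 φ s w F x + E2 φ s w G x := by
  simp only [E2, m2_add]; exact integral_add (int_m2_po hw x _) (int_m2_po hw x _)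

lemma E2_const_mul (c : ℝ) (F : Cube n → Cube n → ℝ) (x : Cube n) :
    E2 φ s w (fun a b => c * F a b) x = c * E2 φ s w F x := by
  simp only [E2, m2_const_mul, integral_const_mul]

lemma E2_left (hw : ∀ x, 0 < w x) (f : Cube n → ℝ) (x : Cube n) :
    E2 φ s w (fun a _ => f a) x = (k0 φ s w *ᵥ f) x := by
  simp only [E2, k0_mulVec hw, fun ζ => m2_left (po_pos (φ := φ) (s := s) hw x ζ) f]

lemma E2_right (hw : ∀ x, 0 < w x) (f : Cube n → ℝ) (x : Cube n) :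
    E2 φ s w (fun _ b => f b) x = (k0 φ s w *ᵥ f) x := by
  simp only [E2, k0_mulVec hw, fun ζ => m2_right (po_pos (φ := φ) (s := s) hw x ζ) f]

lemma E2_pow_le (hw : ∀ x, 0 < w x) {F : Cube n → Cube n → ℝ} (hF : ∀ x y, 0 ≤ F x y) (k : ℕ)
    (x : Cube n) : E2 φ s w F x ^ k ≤ E2 φ s w (fun a b => F a b ^ k) x := by
  have ik : Integrable (fun ζ => m2 (po φ s w x ζ) F ^ k) (gv κ) :=
    int_bdd ((meas_m2_po x F).pow_const k) (M := (∑ a, ∑ b, |F a b|) ^ k) fun ζ => by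
      rw [abs_pow]; gcongr; exact abs_m2_le (po_pos hw x ζ) F
  refine le_trans ?_ (integral_mono ik (int_m2_po hw x _) fun ζ => m2_pow_le (po_pos hw x ζ) hF k)
  exact (convexOn_pow k).map_integral_le (continuousOn_pow k) isClosed_Ici
    (.of_forall fun ζ => m2_nonneg (po_pos hw x ζ) hF) (int_m2_po hw x F) ik

lemma mean_k0 (hw : ∀ x, 0 < w x) (hs : 0 ≤ s) (f : Cube n → ℝ) :
    mean w (k0 φ s w *ᵥ f) = mean w f := (Sg.stRC φ hw hs).mean_P f

lemma k0_pow_le (hw : ∀ x, 0 < w x) {f : Cube n → ℝ} (hf : ∀ x, 0 ≤ f x) (k : ℕ) (x : Cube n) :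
    (k0 φ s w *ᵥ f) x ^ k ≤ (k0 φ s w *ᵥ fun y => f y ^ k) x :=
  Real.pow_arith_mean_le_arith_mean_pow univ (k0 φ s w x) f (fun y _ => k0_nn hw x y) (k0_row hw x)
    (fun y _ => hf y) k

/-- two replicas of the posterior are controlled by two independent replicas -/
lemma mean_E2_le (hw : ∀ x, 0 < w x) (hs : 0 ≤ s) (F : Cube n → Cube n → ℝ) :
    mean w (E2 φ s w F) ≤ 1 + m2 w fun x y => F x y ^ 2 * Real.exp (s * (φ x ⬝ᵥ φ y)) := by
  have hS := Chain22.sum_w_pos hw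
  have pp : ∀ ζ x, 0 < post φ w s (√s • ζ) x := fun ζ x => mul_pos (hw x) (Real.exp_pos _)
  have e1 : mean w (E2 φ s w F) = slE φ w s fun _ y => m2 (post φ w s y) F := rfl
  have si : SInt φ s fun (_ : Cube n) y => m2 (post φ w s y) F := fun x => int_m2_po hw x F
  have ee : ∀ ζ x, post φ w s (√s • ζ) x = w x * Rec.eh (√s • φ x) ζ := fun ζ x => post_sqrt hs ζ x
  have i1 : ∀ x, Integrable (fun ζ => w x * Rec.eh (√s • φ x) ζ) (Gs κ) := fun x =>
    (Rec.mg_eh _).int.const_mul _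
  have i2 : ∀ x y, Integrable (fun ζ => prob w x * w y * F x y ^ 2 *
      (Rec.eh (√s • φ x) ζ * Rec.eh (√s • φ y) ζ)) (Gs κ) := fun x y =>
    ((Rec.mg_eh _).mul (Rec.mg_eh _)).int.const_mul _
  rw [e1, slE_eq_ref' hs si, div_le_iff₀ hS]
  refine (integral_mono (integrable_finsetSum _ fun x _ => si.post hs w x)
    (((integrable_const (∑ x, w x)).add (integrable_finsetSum univ fun x _ =>
      integrable_finsetSum univ fun y _ => i2 x y))) fun ζ => ?_).trans (le_of_eq ?_)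
  · simp only [Pi.add_apply, ← sum_mul]
    set A := ∑ x, post φ w s (√s • ζ) x with hA
    have hA0 : 0 < A := Chain22.sum_w_pos (pp ζ)
    have h1 := m2_sq_le (pp ζ) F
    have h2 : ∑ x, ∑ y, prob w x * w y * F x y ^ 2 * (Rec.eh (√s • φ x) ζ * Rec.eh (√s • φ y) ζ) =
        A ^ 2 / (∑ x, w x) * m2 (post φ w s (√s • ζ)) fun x y => F x y ^ 2 := by
      simp only [m2, mul_sum, prob, ← hA]
      refine sum_congr rfl fun x _ => sum_congr rfl fun y _ => ?_
      rw [ee, ee]; field_simp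
    rw [h2]
    have h3 : A ^ 2 / (∑ x, w x) * m2 (post φ w s (√s • ζ)) F ^ 2 ≤
        A ^ 2 / (∑ x, w x) * m2 (post φ w s (√s • ζ)) fun x y => F x y ^ 2 := by gcongr
    have h4 : 0 ≤ (A * m2 (post φ w s (√s • ζ)) F - ∑ x, w x) ^ 2 / ∑ x, w x := by positivity
    have h5 : (A * m2 (post φ w s (√s • ζ)) F - ∑ x, w x) ^ 2 / ∑ x, w x =
        A ^ 2 / (∑ x, w x) * m2 (post φ w s (√s • ζ)) F ^ 2 -
          2 * (A * m2 (post φ w s (√s • ζ)) F) + ∑ x, w x := by field_simp; ring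
    have h6 : 0 ≤ A ^ 2 / (∑ x, w x) * m2 (post φ w s (√s • ζ)) F ^ 2 := by positivity
    linarith
  · rw [integral_add' (integrable_const _) (integrable_finsetSum univ fun x _ =>
      integrable_finsetSum univ fun y _ => i2 x y), integral_finsetSum _ fun x _ =>
      integrable_finsetSum univ fun y _ => i2 x y]
    simp only [integral_finsetSum _ fun y _ => i2 _ y, integral_const_mul, Rec.int_eh_mul,
      Rec.dot_sqrt hs, integral_const, probReal_univ, smul_eq_mul, one_mul, add_mul, m2, sum_mul]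
    congr 1
    refine sum_congr rfl fun x _ => sum_congr rfl fun y _ => ?_
    simp only [prob]; field_simp

end chan

end Crest.Agent.T157.Un

end
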