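import Crest.Agent.T157.CqDef_72
import Crest.Agent.T157.UnD_81
import Crest.Agent.T157.Q1_63

/-!
# Row 157, part C: reduction of `A_n`, `B_n` to the bounded static function `psiS` (helper87)
-/

set_option autoImplicit false
set_option linter.unusedSectionVars false

noncomputable section

namespace Crest.Agent.T157.Cq.Red

open MeasureTheory Matrix Filter Topology Finset Real
open Crest.ProbabilityR.SpinGlassDynamics Crest.Agent.T157.E
open Crest.Agent.T157.St Crest.Agent.T157.Ed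
open Crest.Agent.T157.Tr (Off)
open Crest.Agent.T157.Soft (Pn unif ch An Bn rr Gt AA BB XX EC an N23)
open Crest.Agent.T157.Q1 (Down DownStmt LdB)
open Crest.Agent.T157.Chain22 (RC ip IsP)
open Crest.Agent.T157.Sg (stRC ft nv ipV HV MgC mB)

section fin
variable {Ω ι : Type*} [Fintype Ω] [Nonempty Ω] [DecidableEq Ω] [Fintype ι] [DecidableEq ι]
  {φ : Ω → ι → ℝ} {w : Ω → ℝ} (hw : ∀ x, 0 < w x) {K : ℝ} (hK : 0 ≤ K)

lemma Tk_fun (f : (ι → ℝ) → ℝ) :
    (fun x => Tk K (dm w φ) f (φ x)) = (stRC φ hw hK).P *ᵥ fun x => f (φ x) :=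
  funext fun x => Sg.Tk_dm hw hK f x

lemma iter_fun (f : (ι → ℝ) → ℝ) (j : ℕ) :
    (fun x => (Tk K (dm w φ))^[j] f (φ x)) = (stRC φ hw hK).P ^ j *ᵥ fun x => f (φ x) := by
  induction j with
  | zero => simp
  | succ j ih => rw [Function.iterate_succ_apply', Tk_fun hw hK, ih, pow_succ', mulVec_mulVec]

/-- the Poissonised static chain is the heat flow of `stRC` -/
lemma Qs_fun (c : ℝ) (f : (ι → ℝ) → ℝ) :
    (fun x => Qs K c (dm w φ) f (φ x)) = (stRC φ hw hK).H c *ᵥ fun x => f (φ x) := by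
  funext x
  rw [← ((stRC φ hw hK).hasSum_H_mulVec c _ x).tsum_eq, Qs]
  exact tsum_congr fun j => by rw [← iter_fun hw hK]

end fin

section lam
variable {Ω ι : Type*} [Fintype Ω] [DecidableEq Ω] [Fintype ι]

/-- diagonal of a smoothed kernel -/
def Lm (d d' : RC Ω) (c : ℝ) (F : Ω → Ω → ℝ) (x : Ω) : ℝ :=
  ∑ a, d'.P x a * (d.H c *ᵥ (d'.P *ᵥ F a)) x

variable (d d' : RC Ω) {c : ℝ}

lemma Lm_eq (F : Ω → Ω → ℝ) (x : Ω) :
    Lm d d' c F x = ∑ a, ∑ y, ∑ a', d'.P x a * d.H c x y * d'.P y a' * F a a' := by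
  simp only [Lm, mulVec, dotProduct, mul_sum, mul_assoc]

lemma Lm_rr (f : ι → Ω → ℝ) : Lm d d' c (rr f) = Gt d (fun i => d'.P *ᵥ f i) c := by
  funext x
  rw [Lm_eq, Gt, sum_comm]
  refine sum_congr rfl fun y _ => ?_
  rw [Sg.rr_mulVec, Fintype.sum_prod_type, mul_sum]
  refine sum_congr rfl fun a _ => ?_
  rw [mul_sum]
  exact sum_congr rfl fun a' _ => by ring

lemma abs_Lm_sub (hc : 0 ≤ c) {F G E : Ω → Ω → ℝ} {r : ℝ} (h : ∀ a a', |F a a' - G a a'| ≤ r * E a a')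
    (x : Ω) : |Lm d d' c F x - Lm d d' c G x| ≤ r * Lm d d' c E x := by
  simp only [Lm_eq, ← sum_sub_distrib, ← mul_sub, mul_sum]
  refine (abs_sum_le_sum_abs _ _).trans (sum_le_sum fun a _ => (abs_sum_le_sum_abs _ _).trans
    (sum_le_sum fun y _ => (abs_sum_le_sum_abs _ _).trans (sum_le_sum fun a' _ => ?_)))
  have h0 : 0 ≤ d'.P x a * d.H c x y * d'.P y a' :=
    mul_nonneg (mul_nonneg (d'.nn _ _) (d.H_nn hc _ _)) (d'.nn _ _)
  rw [abs_mul, abs_of_nonneg h0, mul_left_comm]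
  exact mul_le_mul_of_nonneg_left (h a a') h0

lemma mean_Lm_rr (hπ : d'.π = d.π) (hp : d'.PSD) (hc : 0 ≤ c) (f : ι → Ω → ℝ) :
    Chain22.mean d.π (Lm d d' c (rr f)) ≤ ∑ i, ip d.π (f i) (d'.P *ᵥ f i) := by
  rw [Lm_rr, ← Soft.AA_eq]
  refine sum_le_sum fun i _ => (Soft.ip_H_le_self _ hc).trans ?_
  rw [← hπ]
  exact hp.ip_P_P_le _

omit [Fintype Ω] [DecidableEq Ω] in
lemma rr_sq (a : ι → Ω → ℝ) (x y : Ω) :
    rr (fun (p : ι × ι) x => a p.1 x * a p.2 x) x y = rr a x y ^ 2 := by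
  simp only [rr, sq, sum_mul_sum, Fintype.sum_prod_type]
  exact sum_congr rfl fun i _ => sum_congr rfl fun j _ => by ring

end lam

lemma abs_sub_sin (v : ℝ) : |v - sin v| ≤ 2 * v ^ 2 := by
  wlog hv : 0 ≤ v generalizing v
  · have := this (-v) (by linarith)
    rwa [sin_neg, neg_sub_neg, abs_sub_comm, neg_sq] at this
  rw [abs_of_nonneg (sub_nonneg.2 (sin_le hv))]
  rcases hv.eq_or_lt with rfl | h0
  · simp
  rcases le_total v 1 with h1 | h1
  · nlinarith [sin_gt_sub_cube h0, mul_nonneg (sq_nonneg v) (sub_nonneg.2 h1)]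
  · nlinarith [neg_one_le_sin v]

lemma abs_sub_Lsin {L : ℝ} (hL : 0 < L) (u : ℝ) : |u - L * sin (u / L)| ≤ 2 / L * u ^ 2 := by
  have e : u - L * sin (u / L) = L * (u / L - sin (u / L)) := by field_simp
  rw [e, abs_mul, abs_of_pos hL]
  refine (mul_le_mul_of_nonneg_left (abs_sub_sin _) hL.le).trans (le_of_eq ?_)
  field_simp

variable {n : ℕ}

/-- the static chain of the cube in hatted units -/
abbrev dK (g : Pair n → ℝ) {K : ℝ} (hK : 0 ≤ K) : RC (Cube n) :=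
  stRC (hat n) (gibbsWeight_pos 1 g) hK

lemma an_eq_ft (n : ℕ) : an n = ft (hat n) := by
  funext i x
  simp only [an, ft, hat, sx_pow, Pi.smul_apply, smul_eq_mul, sv]
  norm_num

lemma rr_hat (x y : Cube n) : rr (ft (hat n)) x y = hat n x ⬝ᵥ hat n y := rfl

lemma psi_fun (g : Pair n → ℝ) {K K' : ℝ} (hK : 0 ≤ K) (hK' : 0 ≤ K') (L c : ℝ) :
    (fun x => psiS (muG n g) L K' K c (hat n x)) =
      Lm (dK g hK) (dK g hK') c fun a a' => L * sin (rr (ft (hat n)) a a' / L) := by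
  funext x
  rw [psiS, muG, Sg.Tk_dm (gibbsWeight_pos 1 g) hK']
  refine sum_congr rfl fun a _ => ?_
  have h1 := congrFun (Qs_fun (φ := hat n) (gibbsWeight_pos 1 g) hK c
    (Tk K' (dm (gibbsWeight n 1 g) (hat n)) fun a' => L * sin (hat n a ⬝ᵥ a' / L))) x
  rw [Tk_fun (gibbsWeight_pos 1 g) hK'] at h1
  exact congrArg (fun u => (dK g hK').P x a * u) h1

lemma sum_ip_sq_le (hn : 0 < n) (g : Pair n → ℝ) {K' : ℝ} (hK' : 0 ≤ K') :
    ∑ p : Fin n × Fin n, ip (prob (gibbsWeight n 1 g)) (fun x => hat n x p.1 * hat n x p.2)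
      ((dK g hK').P *ᵥ fun x => hat n x p.1 * hat n x p.2) ≤
      1 + 24 * XX (ch hn g) (ft (hat n)) (K' + 1) := by
  have hw := gibbsWeight_pos (n := n) 1 g
  have hW := SL.Wt.of_pos hw
  have h1 := Un.mean_E2_le (φ := hat n) hw hK' fun x y => rr (ft (hat n)) x y ^ 2
  have e1 : mean (gibbsWeight n 1 g) (Un.E2 (hat n) K' (gibbsWeight n 1 g)
      fun x y => rr (ft (hat n)) x y ^ 2) = slE (hat n) (gibbsWeight n 1 g) K' fun _ y =>
        Un.m2 (post (hat n) (gibbsWeight n 1 g) K' y) fun x y => rr (ft (hat n)) x y ^ 2 := rfl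
  simp only [Sg.ip_stRC hw hK']
  rw [← SL.slE_sum _ fun p _ => .of_mg fun _ => (Rec.mg_pm hW K' _).mul (Rec.mg_pm hW K' _)]
  simp only [← sq, Un.sum_mean_sq]
  refine le_trans (le_of_eq ?_) ((e1 ▸ h1).trans (add_le_add le_rfl ?_))
  · congr 1
    funext _ y
    congr 1
    funext x x'
    exact rr_sq (ft (hat n)) x x'
  rw [XX, mul_sum]
  refine sum_le_sum fun x _ => ?_
  rw [mul_sum]
  refine sum_le_sum fun y _ => ?_
  rw [mul_left_comm (24 : ℝ)]
  refine mul_le_mul_of_nonneg_left ?_ (mul_nonneg (hW.prob_nonneg x) (hW.prob_nonneg y))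
  have h2 := Real.pow_div_factorial_le_exp _ (abs_nonneg (rr (ft (hat n)) x y)) 4
  rw [show (4 : ℕ) = 2 * 2 from rfl, pow_mul, sq_abs] at h2
  norm_num [Nat.factorial] at h2
  rw [add_mul, one_mul, exp_add, mul_comm (exp _), ← mul_assoc]
  refine mul_le_mul (by linarith) (exp_le_exp.2 (mul_le_mul_of_nonneg_left (le_abs_self _) hK'))
    (exp_pos _).le (by positivity)

/-- `L¹` distance of `b · Q b` and of its bounded version -/
lemma l1_le (hn : 0 < n) (g : Pair n → ℝ) {K K' L c : ℝ} (hK : 0 ≤ K) (hK' : 0 ≤ K') (hL : 0 < L)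
    (hc : 0 ≤ c) : Chain22.mean (ch hn g).π (fun x =>
      |Gt (dK g hK) (fun i => (dK g hK').P *ᵥ ft (hat n) i) c x -
        psiS (muG n g) L K' K c (hat n x)|) ≤
      2 / L * (1 + 24 * XX (ch hn g) (ft (hat n)) (K' + 1)) := by
  have h1 := mean_Lm_rr (dK g hK) (dK g hK') rfl (Sg.stRC_psd _ hK') hc
    fun (p : Fin n × Fin n) x => ft (hat n) p.1 x * ft (hat n) p.2 x
  refine le_trans ?_ (mul_le_mul_of_nonneg_left (h1.trans (sum_ip_sq_le hn g hK')) (by positivity))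
  rw [← Ent.mean_const_mul]
  refine (ch hn g).isP.mean_mono fun x => ?_
  rw [← Lm_rr, congrFun (psi_fun g hK hK' L c) x]
  exact abs_Lm_sub _ _ hc (fun a a' => by rw [rr_sq]; exact abs_sub_Lsin hL _) x

lemma sg1_eq (hn : 0 < n) (g : Pair n → ℝ) {K : ℝ} (hK : 0 ≤ K) (c r : ℝ) (f : (Fin n → ℝ) → ℝ) :
    Sg1 n g K c r f = ip (ch hn g).π
      ((ch hn g).H (Soft.tau n r) *ᵥ (fun x => f (hat n x)) - (dK g hK).H c *ᵥ fun x => f (hat n x))
      ((ch hn g).H (Soft.tau n r) *ᵥ (fun x => f (hat n x)) -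
        (dK g hK).H c *ᵥ fun x => f (hat n x)) := by
  rw [Sg1, Soft.Pn_eq hn, ← Qs_fun (gibbsWeight_pos 1 g) hK]
  simp only [sq]
  rfl

lemma mgc_of (hn : 0 < n) {g : Pair n → ℝ} {B : ℝ}
    (h : ¬ ∃ θ : ℝ, 0 ≤ θ ∧ B * exp (B * θ ^ (3 / 2 : ℝ)) < Soft.Xth n g θ) :
    MgC (ch hn g) (ft (hat n)) (2 * |B| + 1) := fun θ hθ => by
  have h1 := not_lt.1 fun h' => h ⟨θ, hθ, h'⟩
  have h2 := Soft.XX_le hn g θ
  rw [an_eq_ft] at h2
  have h3 : B * exp (B * θ ^ (3 / 2 : ℝ)) ≤ |B| * exp ((2 * |B| + 1) * θ ^ (3 / 2 : ℝ)) :=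
    mul_le_mul (le_abs_self B) (exp_le_exp.2 (mul_le_mul_of_nonneg_right
      (by linarith [le_abs_self B, abs_nonneg B]) (by positivity))) (exp_pos _).le (abs_nonneg B)
  nlinarith [exp_pos ((2 * |B| + 1) * θ ^ (3 / 2 : ℝ))]

lemma um_Pn (hn : 0 < n) (g : Pair n → ℝ) (s : ℝ) (f : Cube n → ℝ) :
    um (Pn n g s f) = Chain22.mean (unif n ᵥ* (ch hn g).H (Soft.tau n s)) f := by
  rw [Sg.mean_vecMul, Soft.Pn_eq hn]; rfl

/-- the law at time `s` is dominated -/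
lemma down_le (hn : 0 < n) {g : Pair n → ℝ} {a β H₀ H s : ℝ} (h : Down n g a β H₀) (hH : H₀ ≤ H)
    (hs : β * H ^ (-a) ≤ s) {ν : Cube n → ℝ} (hν : IsP ν) (y : Cube n) :
    (ν ᵥ* (ch hn g).H (Soft.tau n s)) y ≤ exp H * (ch hn g).π y := by
  have := hν.mean_mono (f := fun x => (ch hn g).H (Soft.tau n s) x y)
    (g := fun _ => exp H * (ch hn g).π y) fun x => by
      rw [← Soft.ctKernel_eq_H hn]; exact h H s hH hs x y
  rwa [hν.mean_const] at this

lemma mean_le_of_dom {Ω : Type*} [Fintype Ω] {ν p f : Ω → ℝ} {M : ℝ} (hν : IsP ν)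
    (h : ∀ y, ν y ≤ M * p y) : |Chain22.mean ν f| ≤ M * Chain22.mean p fun x => |f x| := by
  rw [Chain22.mean, Chain22.mean, mul_sum]
  refine (abs_sum_le_sum_abs _ _).trans (sum_le_sum fun x _ => ?_)
  rw [abs_mul, abs_of_nonneg (hν.nn x), ← mul_assoc]
  exact mul_le_mul_of_nonneg_right (h x) (abs_nonneg _)

/-- **reduction to a bounded static function** -/
theorem red {b : Bool} {k a : ℝ} (hk : 0 < k) (ha : 0 < a) (h1 : SgStmt b k) (h2 : DownStmt b a)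
    (h3 : LdB b) {s t η ε : ℝ} (hs : 0 < s) (ht : 0 < t) (hη : 0 < η) (hε : 0 < ε) :
    ∀ᶠ K' in atTop, ∀ᶠ L in atTop, ∀ᶠ K in atTop, Off (couplingLaw b) ε fun n g =>
      |An n g t - ∫ x, psiS (muG n g) L K' K (k * K * t) x ∂muG n g| ≤ η ∧
      |Bn n g s t - um (Pn n g s fun x => psiS (muG n g) L K' K (k * K * t) (hat n x))| ≤ η := by
  have e3 : 0 < ε / 3 := by positivity
  obtain ⟨β, H₀, hβ, hH₀, hD⟩ := h2 _ e3
  obtain ⟨B, hB⟩ := h3 _ e3
  have m0 : 0 < min s t := lt_min hs ht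
  obtain ⟨H, H1, H2⟩ := ((eventually_ge_atTop H₀).and (((tendsto_rpow_neg_atTop ha).const_mul
    β).eventually (ge_mem_nhds (show β * 0 < min s t by simpa using m0)))).exists
  have B0 : 0 < 2 * |B| + 1 := by positivity
  filter_upwards [Sg.master H B0 (half_pos hη), eventually_gt_atTop 0] with K' ⟨δ, M, δ0, hM⟩ K0
  have tL : Tendsto (fun L : ℝ => exp H * (2 / L * (1 + 24 * mB (2 * |B| + 1) (K' + 1)))) atTop
      (𝓝 0) := by
    simpa using ((tendsto_id.const_div_atTop (2 : ℝ)).mul_const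
      (1 + 24 * mB (2 * |B| + 1) (K' + 1))).const_mul (exp H)
  filter_upwards [tL.eventually (ge_mem_nhds (half_pos hη)), eventually_gt_atTop 0] with L hL L0
  obtain ⟨K₀, K₀0, hS⟩ := h1 t t 0 K' (δ ^ 2) (ε / 3) ht K0 (by positivity) e3
  filter_upwards [eventually_ge_atTop K₀] with K hK
  have hK0 : 0 ≤ K := K₀0.le.trans hK
  have o1 : Off (couplingLaw b) (ε / 3) fun n g => Down n g a β H₀ := hD
  have o2 : Off (couplingLaw b) (ε / 3) fun n g =>
      ¬ ∃ θ : ℝ, 0 ≤ θ ∧ B * exp (B * θ ^ (3 / 2 : ℝ)) < Soft.Xth n g θ := by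
    simpa only [Off, not_not] using hB
  refine (((o1.and o2 e3.le e3.le).and (hS K hK [] (by simp)) (by positivity) e3.le).le
    (le_of_eq (by ring))).mono ?_
  filter_upwards [eventually_gt_atTop 0] with n hn g ⟨⟨g1, g2⟩, g3⟩
  have c0 : 0 ≤ k * K * t := by positivity
  have hX := mgc_of hn g2
  have hEC : EC (ch hn g) (Soft.tau n (min s t)) H :=
    Soft.ec_of hn (not_exists.2 fun x => not_lt.2 (Q1.Down.kl hn g1 H1 H2 m0.le x))
  have hnv : nv (ch hn g).π (HV (ch hn g) (Soft.tau n t) (fun i => (dK g K0.le).P *ᵥ ft (hat n) i) -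
      HV (dK g hK0) (k * K * t) fun i => (dK g K0.le).P *ᵥ ft (hat n) i) ≤ δ := by
    refine Sg.nv_le_of_sq δ0.le (le_trans (le_of_eq ?_) (g3 t ⟨le_rfl, le_rfl⟩).2)
    refine sum_congr rfl fun i _ => ?_
    rw [sg1_eq hn g hK0, muG, Tk_fun (gibbsWeight_pos 1 g) K0.le]
    rfl
  obtain ⟨a1, a2⟩ := (((hM _ _ (hat n) _ (gibbsWeight_pos 1 g) K0.le (ch hn g) (dK g hK0) rfl rfl hX _
    rfl).2 _ c0).2 _ _ (Soft.tau_pos hn m0).le (Soft.tau_le hn (min_le_right _ _)) hEC hnv)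
  have a3 := a2 (unif n) _ _ 0 Soft.isP_unif (Soft.tau_le hn (min_le_left _ _)) le_rfl le_rfl (by
    simp [sub_self, HV, RC.H_zero, nv, ipV, ip, δ0.le])
  have l1 := (l1_le hn g hK0 K0.le L0 c0).trans (mul_le_mul_of_nonneg_left (add_le_add le_rfl
    (mul_le_mul_of_nonneg_left (hX (K' + 1) (by positivity)) (by norm_num))) (by positivity))
  have H0 : 1 ≤ exp H := one_le_exp (hH₀.le.trans H1)
  have b1 := mean_le_of_dom (f := Gt (dK g hK0) (fun i => (dK g K0.le).P *ᵥ ft (hat n) i) (k * K * t) -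
    fun x => psiS (muG n g) L K' K (k * K * t) (hat n x)) (ch hn g).isP (p := (ch hn g).π) (M := exp H)
    fun y => le_mul_of_one_le_left ((ch hn g).pos y).le H0
  have b2 := mean_le_of_dom (f := Gt (dK g hK0) (fun i => (dK g K0.le).P *ᵥ ft (hat n) i) (k * K * t) -
    fun x => psiS (muG n g) L K' K (k * K * t) (hat n x))
    (Soft.isP_vecMul (c := ch hn g) Soft.isP_unif (Soft.tau_pos hn hs).le)
    (down_le hn g1 H1 (H2.trans (min_le_left _ _)) Soft.isP_unif)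
  have b3 := (mul_le_mul_of_nonneg_left l1 (exp_pos H).le).trans hL
  rw [Chain22.mean_sub] at b1 b2
  rw [Soft.AA_eq (c := dK g hK0)] at a1
  rw [RC.H_zero, one_mulVec] at a3
  rw [Soft.An_eq_AA hn, Soft.Bn_eq_BB hn, an_eq_ft, Lnk10.integral_muG, um_Pn hn]
  exact ⟨(abs_sub_le _ _ _).trans ((add_le_add a1 (b1.trans b3)).trans_eq (add_halves η)),
    (abs_sub_le _ _ _).trans ((add_le_add a3 (b2.trans b3)).trans_eq (add_halves η))⟩

end Crest.Agent.T157.Cq.Red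

end
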