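import Crest.Agent.T157.StA_87

/-!
# Row 157, part C4 (A), second file: the chain at the level of the outputs (helper87)

`Ay K h x = E h(K x + √K z)`, `Qy K K' μ h = pm K μ (Ay K' h)`, `Ch`; exponential moments of the
posterior mean; `L¹` comparison of the chains of two laws; `phiContStmt`.
-/

set_option autoImplicit false
set_option linter.unusedSectionVars false

noncomputable section

namespace Crest.Agent.T157.St.A87

open MeasureTheory ProbabilityTheory Matrix Filter Topology Finset Real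
open Crest.Agent.T157.E Crest.Agent.T157.Cond Crest.Agent.T157.SL Crest.Agent.T157.Rec

variable {ι : Type*} [Fintype ι] [DecidableEq ι] {μ ν : Measure (ι → ℝ)} {K K' : ℝ}
  {F G f g h h' : (ι → ℝ) → ℝ} {J : Type*} [Fintype J]

/-- bounded measurable -/
structure Bm (h : (ι → ℝ) → ℝ) : Prop where
  meas : Measurable h
  bd : ∃ C : ℝ, ∀ y, |h y| ≤ C

namespace Bm
lemma mg (a : Bm h) : MG h := a.bd.elim fun C hC => MG.of_bdd a.meas C hC
lemma bs (a : Bm h) : Bs μ h := a.bd.elim fun _ hC => Bs.of_bdd a.meas hC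
lemma const (c : ℝ) : Bm fun _ : ι → ℝ => c := ⟨measurable_const, |c|, fun _ => le_rfl⟩
lemma mul (a : Bm h) (b : Bm h') : Bm fun y => h y * h' y := by
  obtain ⟨C, h1⟩ := a.bd
  obtain ⟨C', h1'⟩ := b.bd
  refine ⟨a.meas.mul b.meas, C * C', fun y => ?_⟩
  rw [abs_mul]; exact mul_le_mul (h1 y) (h1' y) (abs_nonneg _) ((abs_nonneg _).trans (h1 y))
lemma add (a : Bm h) (b : Bm h') : Bm fun y => h y + h' y := by
  obtain ⟨C, h1⟩ := a.bd
  obtain ⟨C', h1'⟩ := b.bd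
  exact ⟨a.meas.add b.meas, C + C', fun y => (abs_add_le _ _).trans (add_le_add (h1 y) (h1' y))⟩
lemma const_mul (c : ℝ) (a : Bm h) : Bm fun y => c * h y := (const c).mul a
lemma sub (a : Bm h) (b : Bm h') : Bm fun y => h y - h' y := by
  simpa [sub_eq_add_neg] using a.add (b.const_mul (-1))
lemma sq (a : Bm h) : Bm fun y => h y ^ 2 := by simpa only [_root_.sq] using a.mul a
lemma sum {L : Type*} (s : Finset L) {h : L → (ι → ℝ) → ℝ} (a : ∀ j ∈ s, Bm (h j)) :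
    Bm fun x => ∑ j ∈ s, h j x := by
  classical
  induction s using Finset.induction_on with
  | empty => simpa using const 0
  | insert k s hk ih =>
    simpa [Finset.sum_insert hk] using (a k (by simp)).add (ih fun j hj => a j (by simp [hj]))
lemma indicator (a : Bm h) {A : Set (ι → ℝ)} (hA : MeasurableSet A) : Bm (A.indicator h) := by
  obtain ⟨C, h1⟩ := a.bd
  exact ⟨a.meas.indicator hA, C, fun y => le_trans
    (by simpa only [Real.norm_eq_abs] using norm_indicator_le_norm_self h y) (h1 y)⟩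
lemma len {h : J → (ι → ℝ) → ℝ} (a : ∀ j, Bm (h j)) : Bm fun y => len fun j => h j y := by
  obtain ⟨C, h1⟩ := (sum univ fun j _ => (a j).mul (a j)).bd
  refine ⟨Measurable.t157_len (measurable_pi_lambda _ fun j => (a j).meas), √C, fun y => ?_⟩
  rw [abs_of_nonneg (len_nonneg _)]
  exact Real.sqrt_le_sqrt ((le_abs_self _).trans (h1 y))
end Bm

lemma bm_pm (hμ : Cp μ) (hK : 0 ≤ K) (hf : Bs μ f) : Bm (pm K μ f) :=
  hf.bd.elim fun C hC => ⟨measurable_pm hμ hf.meas, C, abs_pm_le hμ hK hC.2⟩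

lemma bm_mf (hμ : Cp μ) (hK : 0 ≤ K) (i : ι) : Bm fun y => mf K μ y i :=
  bm_pm hμ hK (Bs.coord hμ i)

lemma abs_dot_le (u w : J → ℝ) : |u ⬝ᵥ w| ≤ len u * len w := by
  rw [len, len, ← Real.sqrt_mul (Cond.dot_self_nonneg u)]
  refine Real.abs_le_sqrt ?_
  simpa only [dotProduct, sq] using Finset.sum_mul_sq_le_sq_mul_sq univ u w

lemma len_unitv_le (u : J → ℝ) : len (unitv u) ≤ 1 := by
  rcases unitv_cases u with h | h
  · rw [len, h, Real.sqrt_one]
  · rw [h, len_eq_zero.2 rfl]; exact zero_le_one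

lemma abs_unit_dot_le (u w : J → ℝ) : |unitv u ⬝ᵥ w| ≤ len w :=
  (abs_dot_le _ _).trans (mul_le_of_le_one_left (len_nonneg _) (len_unitv_le u))

lemma len_le {w : J → ℝ} {b : ℝ} (hb : 0 ≤ b) (h : ∑ j, w j ^ 2 ≤ b ^ 2) : len w ≤ b :=
  Real.sqrt_le_iff.2 ⟨hb, by simpa only [dotProduct, sq] using h⟩

lemma len_eq (w : J → ℝ) : len w = √(∑ j, w j ^ 2) := by simp only [len, dotProduct, sq]

/-! ### posterior means -/

lemma pm_const (hμ : Cp μ) (hK : 0 ≤ K) (c : ℝ) (y : ι → ℝ) : pm K μ (fun _ => c) y = c := by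
  rw [pm_eq, Un_const, mul_div_cancel_right₀ _ (Mf_pos hμ hK y).ne']

lemma pm_mono (hμ : Cp μ) (hK : 0 ≤ K) (hf : Bs μ f) (hg : Bs μ g) (e : ∀ᵐ x ∂μ, f x ≤ g x)
    (y : ι → ℝ) : pm K μ f y ≤ pm K μ g y :=
  div_le_div_of_nonneg_right (Un_mono hμ hK hf hg e y) (Mf_pos hμ hK y).le

lemma pm_sub (hμ : Cp μ) (hK : 0 ≤ K) (hf : Bs μ f) (hg : Bs μ g) (y : ι → ℝ) :
    pm K μ (fun x => f x - g x) y = pm K μ f y - pm K μ g y := by
  simp only [pm_eq, Un_sub hμ hK hf hg, sub_div]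

lemma pm_add (hμ : Cp μ) (hK : 0 ≤ K) (hf : Bs μ f) (hg : Bs μ g) (y : ι → ℝ) :
    pm K μ (fun x => f x + g x) y = pm K μ f y + pm K μ g y := by
  simp only [pm_eq, Un_add hμ hK hf hg, add_div]

lemma pm_const_mul (c : ℝ) (y : ι → ℝ) : pm K μ (fun x => c * f x) y = c * pm K μ f y := by
  simp only [pm_eq, Un_const_mul, mul_div_assoc]

lemma pm_sum (hμ : Cp μ) (hK : 0 ≤ K) {L : Type*} (s : Finset L) {f : L → (ι → ℝ) → ℝ}
    (a : ∀ j ∈ s, Bs μ (f j)) (y : ι → ℝ) :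
    pm K μ (fun x => ∑ j ∈ s, f j x) y = ∑ j ∈ s, pm K μ (f j) y := by
  simp only [pm_eq, Un_sum hμ hK s a, Finset.sum_div]

lemma pm_sq_le (hμ : Cp μ) (hK : 0 ≤ K) (hf : Bs μ f) (y : ι → ℝ) :
    pm K μ f y ^ 2 ≤ pm K μ (fun x => f x ^ 2) y := by
  set a := pm K μ f y with ha
  have := pm_mono hμ hK ((hf.const_mul (2 * a)).sub (.const (a ^ 2)))
    (by simpa only [sq] using hf.mul hf : Bs μ fun x => f x ^ 2)
    (.of_forall fun x => by nlinarith [sq_nonneg (f x - a)]) y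
  rw [pm_sub hμ hK (hf.const_mul _) (.const _), pm_const_mul, pm_const hμ hK] at this
  linarith

/-- Jensen for the exponential of a linear form -/
lemma exp_le_pm (hμ : Cp μ) (hK : 0 ≤ K) (u y : ι → ℝ) :
    exp (u ⬝ᵥ mf K μ y) ≤ pm K μ (fun x => exp (u ⬝ᵥ x)) y := by
  set a := u ⬝ᵥ mf K μ y with ha
  have hl : Bs μ fun x => u ⬝ᵥ x := Bs.sum univ fun i _ => (Bs.coord hμ i).const_mul (u i)
  have e1 : pm K μ (fun x => u ⬝ᵥ x) y = a := by
    rw [ha, dotProduct]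
    refine (pm_sum hμ hK univ (fun i _ => (Bs.coord hμ i).const_mul (u i)) y).trans ?_
    simp only [pm_const_mul, mf]
  have := pm_mono hμ hK (((hl.sub (.const a)).add (.const 1)).const_mul (exp a))
    (Bs.of_mg hμ (by simpa using mg_exp_dot 1 u) : Bs μ fun x => exp (u ⬝ᵥ x))
    (.of_forall fun x => by
      have := mul_le_mul_of_nonneg_left (add_one_le_exp (u ⬝ᵥ x - a)) (exp_pos a).le
      rwa [← exp_add, add_sub_cancel] at this) y
  rw [pm_const_mul, pm_add hμ hK (hl.sub (.const a)) (.const 1), pm_sub hμ hK hl (.const a),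
    pm_const hμ hK, pm_const hμ hK, e1] at this
  simpa using this

/-- squared length of the posterior mean -/
def Sq (K : ℝ) (μ : Measure (ι → ℝ)) (y : ι → ℝ) : ℝ := ∑ i, mf K μ y i ^ 2

lemma Sq_nonneg (y : ι → ℝ) : 0 ≤ Sq K μ y := Finset.sum_nonneg fun _ _ => sq_nonneg _

lemma bm_Sq (hμ : Cp μ) (hK : 0 ≤ K) : Bm (Sq K μ) := Bm.sum _ fun i _ => (bm_mf hμ hK i).sq

lemma bm_exp_Sq (hμ : Cp μ) (hK : 0 ≤ K) (c : ℝ) : Bm fun y => exp (c * Sq K μ y) := by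
  obtain ⟨C, hC⟩ := ((bm_Sq hμ hK).const_mul c).bd
  exact ⟨(measurable_const.mul (bm_Sq hμ hK).meas).exp, exp C, fun y => by
    rw [abs_of_pos (exp_pos _)]; exact exp_le_exp.2 ((le_abs_self _).trans (hC y))⟩

lemma sq_exp_le (hμ : Cp μ) (hK : 0 ≤ K) (hK' : 0 ≤ K') (y : ι → ℝ) :
    Mf K μ y ^ 2 * exp (K' * Sq K μ y) ≤ IK K' fun y' => Mf (K + K') μ (y + y') ^ 2 := by
  have hs := add_nonneg hK hK'
  set m := mf K μ y with hm
  have e0 : m ⬝ᵥ m = Sq K μ y := by simp only [Sq, dotProduct, sq, hm]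
  have h1 := IK_cs (K := K') (mg_shift (mg_Mf hμ hs) y) (mg_ew hK' m)
  have h2 : IK K' (fun y' => ew K' y' m ^ 2) = exp (K' * Sq K μ y) := by
    simp only [sq]; rw [IK_ew_ew hK', e0]
  have h3 : IK K' (fun y' => Mf (K + K') μ (y + y') * ew K' y' m) =
      Un K μ (fun x => exp ((K' • m) ⬝ᵥ x)) y := by
    rw [Mf_eq, swap hμ hs (.const 1) (mg_ew hK' m) y K', Un]
    simp only [ew_add, mul_assoc, IK_const_mul, IK_ew_ew hK', one_mul, smul_dotProduct,
      smul_eq_mul, dotProduct_comm m]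
    simp only [mul_comm]
  have h4 := exp_le_pm hμ hK (K' • m) y
  rw [← hm, smul_dotProduct, e0, smul_eq_mul] at h4
  rw [h2, h3, Un_eq hμ hK] at h1
  have h5 := Mf_pos hμ hK y
  have h6 := exp_pos (K' * Sq K μ y)
  have h7 : (Mf K μ y * exp (K' * Sq K μ y)) ^ 2 ≤
      (Mf K μ y * pm K μ (fun x => exp ((K' • m) ⬝ᵥ x)) y) ^ 2 := by gcongr
  refine le_of_mul_le_mul_right ?_ h6
  nlinarith

/-- **exponential moment of the posterior mean** -/
theorem exp_mom (hμ : Cp μ) (hK : 0 ≤ K) (hK' : 0 ≤ K') :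
    IK K (fun y => Mf K μ y * exp (K' / 2 * Sq K μ y)) ≤ Xk (K + K') μ μ := by
  have hs := add_nonneg hK hK'
  have m := mg_IK (mg_sq (mg_Mf hμ hs)) K'
  have h1 := IK_mono (K := K) ((mg_Mf hμ hK).mul (bm_exp_Sq hμ hK (K' / 2)).mg)
    (((MG.const 1).add m).const_mul (1 / 2)) fun y => by
      have h := sq_exp_le hμ hK hK' y
      have e : exp (K' * Sq K μ y) = exp (K' / 2 * Sq K μ y) ^ 2 := by
        rw [← exp_nat_mul]; congr 1; push_cast; ring
      rw [e, ← mul_pow] at h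
      nlinarith [sq_nonneg (Mf K μ y * exp (K' / 2 * Sq K μ y) - 1)]
  rw [IK_const_mul, IK_add (.const 1) m, IK_const, IK_IK hK hK' (mg_sq (mg_Mf hμ hs)),
    ← Xk_eq hμ hs] at h1
  linarith [one_le_Xk hμ hs]

lemma mom2 (hμ : Cp μ) (hK : 0 < K) {B : ℝ} (hB : Xk (K + K) μ μ ≤ B) :
    IK K (fun y => Mf K μ y * Sq K μ y) ≤ 2 * B / K := by
  rw [le_div_iff₀ hK, mul_comm, ← IK_const_mul]
  refine le_trans ?_ (mul_le_mul_of_nonneg_left ((exp_mom hμ hK.le hK.le).trans hB) zero_le_two)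
  rw [← IK_const_mul]
  refine IK_mono (((mg_Mf hμ hK.le).mul (bm_Sq hμ hK.le).mg).const_mul _)
    (((mg_Mf hμ hK.le).mul (bm_exp_Sq hμ hK.le _).mg).const_mul _) fun y => ?_
  nlinarith [add_one_le_exp (K / 2 * Sq K μ y), Mf_pos hμ hK.le y]

lemma mom4 (hμ : Cp μ) (hK : 0 < K) {B : ℝ} (hB : Xk (K + K) μ μ ≤ B) :
    IK K (fun y => Mf K μ y * Sq K μ y ^ 2) ≤ 8 * B / K ^ 2 := by
  rw [le_div_iff₀ (by positivity), mul_comm, ← IK_const_mul]
  refine le_trans ?_ (mul_le_mul_of_nonneg_left ((exp_mom hμ hK.le hK.le).trans hB)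
    (by norm_num : (0 : ℝ) ≤ 8))
  rw [← IK_const_mul]
  refine IK_mono (((mg_Mf hμ hK.le).mul (bm_Sq hμ hK.le).sq.mg).const_mul _)
    (((mg_Mf hμ hK.le).mul (bm_exp_Sq hμ hK.le _).mg).const_mul _) fun y => ?_
  have h0 : 0 ≤ K / 2 * Sq K μ y := mul_nonneg (half_pos hK).le (Sq_nonneg y)
  have := Real.quadratic_le_exp_of_nonneg h0
  nlinarith [Mf_pos hμ hK.le y]

/-! ### the chain -/

/-- conditional expectation given the input -/
def Ay (K : ℝ) (h : (ι → ℝ) → ℝ) (x : ι → ℝ) : ℝ := ∫ z, h (K • x + √K • z) ∂gv ι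

/-- transition operator between the outputs -/
def Qy (K K' : ℝ) (μ : Measure (ι → ℝ)) (h : (ι → ℝ) → ℝ) : (ι → ℝ) → ℝ := pm K μ (Ay K' h)

lemma Tk_eq : Tk K μ f = Ay K (pm K μ f) := rfl

lemma intA (a : MG h) (K : ℝ) (x : ι → ℝ) : Integrable (fun z => h (K • x + √K • z)) (gv ι) :=
  (a.affine _ _).int

lemma measurable_Ay (a : Measurable h) : Measurable (Ay K h) :=
  (StronglyMeasurable.integral_prod_right (f := fun x z => h (K • x + √K • z))
    (a.comp (by fun_prop)).stronglyMeasurable).measurable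

lemma abs_Ay_le {C : ℝ} (a : ∀ y, |h y| ≤ C) (x : ι → ℝ) : |Ay K h x| ≤ C := by
  simpa [Ay] using norm_integral_le_of_norm_le_const (μ := gv ι) (f := fun z => h (K • x + √K • z))
    (C := C) (.of_forall fun z => a _)

lemma bm_Ay (a : Bm h) : Bm (Ay K h) :=
  a.bd.elim fun C hC => ⟨measurable_Ay a.meas, C, abs_Ay_le hC⟩

lemma bm_Tk (hμ : Cp μ) (hK : 0 ≤ K) (hf : Bs μ f) : Bm (Tk K μ f) := bm_Ay (bm_pm hμ hK hf)

lemma bm_Qy (hμ : Cp μ) (hK : 0 ≤ K) (a : Bm h) : Bm (Qy K K' μ h) := bm_pm hμ hK (bm_Ay a).bs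

lemma Ay_sub (a : MG h) (b : MG h') : Ay K (fun y => h y - h' y) = fun x => Ay K h x - Ay K h' x :=
  funext fun x => integral_sub (intA a K x) (intA b K x)

lemma Ay_mono (a : MG h) (b : MG h') (e : ∀ y, h y ≤ h' y) (x : ι → ℝ) : Ay K h x ≤ Ay K h' x :=
  integral_mono (intA a K x) (intA b K x) fun _ => e _

lemma Ay_const (c : ℝ) : Ay K (fun _ : ι → ℝ => c) = fun _ => c := by funext x; simp [Ay]

lemma Ay_sum {L : Type*} (s : Finset L) {h : L → (ι → ℝ) → ℝ} (a : ∀ j ∈ s, MG (h j)) (x : ι → ℝ) :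
    Ay K (fun y => ∑ j ∈ s, h j y) x = ∑ j ∈ s, Ay K (h j) x :=
  integral_finsetSum _ fun j hj => intA (a j hj) K x

lemma Ay_sq_le (a : MG h) (x : ι → ℝ) : Ay K h x ^ 2 ≤ Ay K (fun y => h y ^ 2) x :=
  int_sq_le (a.affine _ _)

lemma Qy_sub (hμ : Cp μ) (hK : 0 ≤ K) (a : Bm h) (b : Bm h') :
    Qy K K' μ (fun y => h y - h' y) = fun y => Qy K K' μ h y - Qy K K' μ h' y := by
  funext y; rw [Qy, Ay_sub a.mg b.mg, pm_sub hμ hK (bm_Ay a).bs (bm_Ay b).bs]; rfl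

lemma Qy_mono (hμ : Cp μ) (hK : 0 ≤ K) (a : Bm h) (b : Bm h') (e : ∀ y, h y ≤ h' y) (y : ι → ℝ) :
    Qy K K' μ h y ≤ Qy K K' μ h' y :=
  pm_mono hμ hK (bm_Ay a).bs (bm_Ay b).bs (.of_forall (Ay_mono a.mg b.mg e)) y

lemma Qy_const (hμ : Cp μ) (hK : 0 ≤ K) (c : ℝ) (y : ι → ℝ) : Qy K K' μ (fun _ => c) y = c := by
  rw [Qy, Ay_const, pm_const hμ hK]

lemma Qy_sum_sq_le (hμ : Cp μ) (hK : 0 ≤ K) {h : J → (ι → ℝ) → ℝ} (a : ∀ j, Bm (h j)) (y : ι → ℝ) :
    ∑ j, Qy K K' μ (h j) y ^ 2 ≤ Qy K K' μ (fun y => ∑ j, h j y ^ 2) y := by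
  refine (Finset.sum_le_sum fun j _ => pm_sq_le hμ hK (bm_Ay (K := K') (a j)).bs y).trans ?_
  rw [← pm_sum hμ hK univ fun j _ => (bm_Ay (K := K') (a j)).sq.bs]
  refine pm_mono hμ hK (Bm.sum _ fun j _ => (bm_Ay (a j)).sq).bs
    (bm_Ay (Bm.sum _ fun j _ => (a j).sq)).bs (.of_forall fun x => ?_) y
  rw [Ay_sum _ fun j _ => (a j).sq.mg]
  exact Finset.sum_le_sum fun j _ => Ay_sq_le (a j).mg x

/-- kernel form of the transition operator -/
lemma Mf_mul_Qy (hμ : Cp μ) (hK : 0 ≤ K) (hK' : 0 ≤ K') (a : MG h) (y : ι → ℝ) :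
    Mf K μ y * Qy K K' μ h y = IK K' fun y' => Mf (K + K') μ (y + y') * h y' := by
  rw [Qy, ← Un_eq hμ hK, Mf_eq, swap hμ (add_nonneg hK hK') (.const 1) a y K', Un]
  simp only [ew_add, mul_assoc, IK_const_mul, one_mul]
  congr 1; ext x
  rw [mul_comm, Ay, ← cmK hK']
  simp only [mul_comm]

/-- stationarity -/
lemma IK_Mf_Qy (hμ : Cp μ) (hK : 0 ≤ K) (hK' : 0 ≤ K') (a : Bm h) :
    IK K (fun y => Mf K μ y * Qy K K' μ h y) = IK K' fun y => Mf K' μ y * h y := by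
  have := bayes hμ hK' (.const 1) a.mg
  simp only [one_mul, ← Mf_eq] at this
  simp only [Qy, ← Un_eq hμ hK]
  rw [← this]
  exact IK_Un hμ hK (bm_Ay a).bs

/-- one step of the `L¹` comparison -/
lemma step_le (hμ : Cp μ) (hν : Cp ν) (hK : 0 ≤ K) (hK' : 0 ≤ K') {h h' : J → (ι → ℝ) → ℝ}
    (a : ∀ j, Bm (h j)) (a' : ∀ j, Bm (h' j)) {b : ℝ} (hb : 0 ≤ b)
    (hh : ∀ y, ∑ j, h j y ^ 2 ≤ b ^ 2) :
    IK K (fun y => Mf K ν y * len fun j => Qy K K' μ (h j) y - Qy K K' ν (h' j) y) ≤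
      IK K' (fun y => Mf K' ν y * len fun j => h j y - h' j y) + 2 * b * √(D2 (K + K') μ ν) := by
  have hs := add_nonneg hK hK'
  have hl := Bm.len fun j => (a j).sub (a' j)
  have mD := ((mg_Mf hμ hs).sub (mg_Mf hν hs)).abs
  have mD0 := ((mg_Mf hμ hK).sub (mg_Mf hν hK)).abs
  have key : ∀ y, (Mf K ν y * len fun j => Qy K K' μ (h j) y - Qy K K' ν (h' j) y) ≤
      b * |Mf K μ y - Mf K ν y| + b * IK K' (fun y' => |Mf (K + K') μ (y + y') -
        Mf (K + K') ν (y + y')|) + Mf K ν y * Qy K K' ν (fun y => len fun j => h j y - h' j y) y := by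
    intro y
    set u := unitv fun j => Qy K K' μ (h j) y - Qy K K' ν (h' j) y with hu
    have m1 := mg_shift (mg_Mf hμ hs) y
    have m2 := mg_shift (mg_Mf hν hs) y
    have b1 : Bm fun y' => ∑ j, u j * h j y' := Bm.sum _ fun j _ => (a j).const_mul _
    have b2 : Bm fun y' => ∑ j, u j * h' j y' := Bm.sum _ fun j _ => (a' j).const_mul _
    have lin : ∀ {ρ : Measure (ι → ℝ)} (hρ : Cp ρ) {k : J → (ι → ℝ) → ℝ} (c : ∀ j, Bm (k j)),
        Mf K ρ y * ∑ j, u j * Qy K K' ρ (k j) y =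
          IK K' fun y' => Mf (K + K') ρ (y + y') * ∑ j, u j * k j y' := fun {ρ} hρ {k} c => by
      simp only [Finset.mul_sum, mul_left_comm _ (u _)]
      rw [IK_sum _ fun j _ => ((mg_shift (mg_Mf hρ hs) y).mul (c j).mg).const_mul _]
      simp only [IK_const_mul, Mf_mul_Qy hρ hK hK' (c _).mg]
    have e1 : |∑ j, u j * Qy K K' μ (h j) y| ≤ b :=
      (abs_unit_dot_le _ fun j => Qy K K' μ (h j) y).trans (len_le hb
        ((Qy_sum_sq_le hμ hK a y).trans ((Qy_mono hμ hK (Bm.sum _ fun j _ => (a j).sq)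
          (.const _) hh y).trans_eq (Qy_const hμ hK _ y))))
    have e2 : (len fun j => Qy K K' μ (h j) y - Qy K K' ν (h' j) y) =
        ∑ j, u j * Qy K K' μ (h j) y - ∑ j, u j * Qy K K' ν (h' j) y := by
      rw [← unitv_dot_self, ← hu, ← Finset.sum_sub_distrib]
      simp only [dotProduct, mul_sub]
    have e3 : IK K' (fun y' => Mf (K + K') μ (y + y') * ∑ j, u j * h j y') -
        IK K' (fun y' => Mf (K + K') ν (y + y') * ∑ j, u j * h' j y') ≤
        b * IK K' (fun y' => |Mf (K + K') μ (y + y') - Mf (K + K') ν (y + y')|) +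
          IK K' fun y' => Mf (K + K') ν (y + y') * len fun j => h j y' - h' j y' := by
      rw [← IK_sub (m1.mul b1.mg) (m2.mul b2.mg), ← IK_const_mul,
        ← IK_add ((m1.sub m2).abs.const_mul b) (m2.mul hl.mg)]
      refine IK_mono ((m1.mul b1.mg).sub (m2.mul b2.mg))
        (((m1.sub m2).abs.const_mul b).add (m2.mul hl.mg)) fun y' => ?_
      have f1 : |∑ j, u j * h j y'| ≤ b :=
        (abs_unit_dot_le _ fun j => h j y').trans (len_le hb (hh y'))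
      have f2 : ∑ j, u j * h j y' - ∑ j, u j * h' j y' ≤ len fun j => h j y' - h' j y' := by
        refine le_trans (le_of_eq ?_) ((le_abs_self _).trans (abs_unit_dot_le
          (fun j => Qy K K' μ (h j) y - Qy K K' ν (h' j) y) fun j => h j y' - h' j y'))
        rw [← hu, ← Finset.sum_sub_distrib]
        simp only [dotProduct, mul_sub]
      have f3 := mul_le_mul_of_nonneg_left f2 (Mf_pos hν hs (y + y')).le
      have f4 : (Mf (K + K') μ (y + y') - Mf (K + K') ν (y + y')) * ∑ j, u j * h j y' ≤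
          b * |Mf (K + K') μ (y + y') - Mf (K + K') ν (y + y')| := by
        refine (le_abs_self _).trans ?_
        rw [abs_mul, mul_comm]
        exact mul_le_mul_of_nonneg_right f1 (abs_nonneg _)
      linarith
    have e4 : (Mf K ν y - Mf K μ y) * ∑ j, u j * Qy K K' μ (h j) y ≤ b * |Mf K μ y - Mf K ν y| := by
      refine (le_abs_self _).trans ?_
      rw [abs_mul, mul_comm, abs_sub_comm]
      exact mul_le_mul_of_nonneg_right e1 (abs_nonneg _)
    rw [← lin hμ a, ← lin hν a', ← Mf_mul_Qy hν hK hK' hl.mg] at e3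
    rw [e2]
    linarith
  have m3 := (mg_Mf hν hK).mul (bm_Qy (K' := K') hν hK hl).mg
  have := IK_mono (K := K) ((mg_Mf hν hK).mul (Bm.len fun j => (bm_Qy hμ hK (a j)).sub
    (bm_Qy hν hK (a' j))).mg) (((mD0.const_mul b).add ((mg_IK mD K').const_mul b)).add m3) key
  rw [IK_add ((mD0.const_mul b).add ((mg_IK mD K').const_mul b)) m3,
    IK_add (mD0.const_mul b) ((mg_IK mD K').const_mul b), IK_const_mul, IK_const_mul,
    IK_IK hK hK' mD, IK_Mf_Qy hν hK hK' hl] at this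
  have g1 := IK_abs_le_sqrt (K := K) ((mg_Mf hμ hK).sub (mg_Mf hν hK))
  have g2 := IK_abs_le_sqrt (K := K + K') ((mg_Mf hμ hs).sub (mg_Mf hν hs))
  rw [← D2_eq hμ hν hK] at g1
  rw [← D2_eq hμ hν hs] at g2
  have g3 := Real.sqrt_le_sqrt (D2_mono hμ hν hK (le_add_of_nonneg_right hK'))
  nlinarith

/-- the chain of transition operators -/
def Ch (μ : Measure (ι → ℝ)) : ℝ → List ℝ → ((ι → ℝ) → ℝ) → (ι → ℝ) → ℝ
  | _, [], h => h
  | K, K' :: Ks, h => Qy K K' μ (Ch μ K' Ks h)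

/-- the last level -/
def lst : ℝ → List ℝ → ℝ
  | K, [] => K
  | _, K' :: Ks => lst K' Ks

lemma lst_mem (K : ℝ) (Ks : List ℝ) : lst K Ks ∈ K :: Ks := by
  induction Ks generalizing K with
  | nil => simp [lst]
  | cons K' Ks ih => exact List.mem_cons_of_mem _ (ih K')

variable {Ks : List ℝ}

lemma bm_Ch (hμ : Cp μ) (hK : ∀ k ∈ K :: Ks, 0 ≤ k) (a : Bm h) : Bm (Ch μ K Ks h) := by
  induction Ks generalizing K with
  | nil => exact a
  | cons K' Ks ih => exact bm_Qy hμ (hK K (by simp)) (ih fun k hk => hK k (List.mem_cons_of_mem _ hk))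

lemma Ch_sub (hμ : Cp μ) (hK : ∀ k ∈ K :: Ks, 0 ≤ k) (a : Bm h) (b : Bm h') :
    Ch μ K Ks (fun y => h y - h' y) = fun y => Ch μ K Ks h y - Ch μ K Ks h' y := by
  induction Ks generalizing K with
  | nil => rfl
  | cons K' Ks ih =>
    have hk : ∀ k ∈ K' :: Ks, 0 ≤ k := fun k hk => hK k (List.mem_cons_of_mem _ hk)
    simp only [Ch]
    rw [ih hk, Qy_sub hμ (hK K (by simp)) (bm_Ch hμ hk a) (bm_Ch hμ hk b)]

lemma Ch_sup (hμ : Cp μ) (hK : ∀ k ∈ K :: Ks, 0 ≤ k) {h : J → (ι → ℝ) → ℝ} (a : ∀ j, Bm (h j))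
    {c : ℝ} (hh : ∀ y, ∑ j, h j y ^ 2 ≤ c) (y : ι → ℝ) : ∑ j, Ch μ K Ks (h j) y ^ 2 ≤ c := by
  induction Ks generalizing K y with
  | nil => exact hh y
  | cons K' Ks ih =>
    have hk : ∀ k ∈ K' :: Ks, 0 ≤ k := fun k hk => hK k (List.mem_cons_of_mem _ hk)
    have h0 := hK K (by simp)
    exact (Qy_sum_sq_le hμ h0 (fun j => bm_Ch hμ hk (a j)) y).trans ((Qy_mono hμ h0
      (Bm.sum _ fun j _ => (bm_Ch hμ hk (a j)).sq) (.const _) (ih hk) y).trans_eq
      (Qy_const hμ h0 _ y))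

lemma Ch_L2 (hμ : Cp μ) (hK : ∀ k ∈ K :: Ks, 0 ≤ k) {h : J → (ι → ℝ) → ℝ} (a : ∀ j, Bm (h j)) :
    IK K (fun y => Mf K μ y * ∑ j, Ch μ K Ks (h j) y ^ 2) ≤
      IK (lst K Ks) fun y => Mf (lst K Ks) μ y * ∑ j, h j y ^ 2 := by
  induction Ks generalizing K with
  | nil => exact le_rfl
  | cons K' Ks ih =>
    have hk : ∀ k ∈ K' :: Ks, 0 ≤ k := fun k hk => hK k (List.mem_cons_of_mem _ hk)
    have h0 := hK K (by simp)
    have b := Bm.sum univ fun j _ => (bm_Ch hμ hk (a j)).sq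
    refine le_trans ?_ (ih hk)
    rw [← IK_Mf_Qy hμ h0 (hk K' (by simp)) b]
    exact IK_mono ((mg_Mf hμ h0).mul (Bm.sum _ fun j _ => (bm_Ch hμ hK (a j)).sq).mg)
      ((mg_Mf hμ h0).mul (bm_Qy hμ h0 b).mg) fun y => mul_le_mul_of_nonneg_left
        (Qy_sum_sq_le hμ h0 (fun j => bm_Ch hμ hk (a j)) y) (Mf_pos hμ h0 y).le

/-- **`L¹` comparison of the chains of two laws** -/
theorem Ch_L1 (hμ : Cp μ) (hν : Cp ν) {θ : ℝ} (hK : ∀ k ∈ K :: Ks, 0 ≤ k ∧ 2 * k ≤ θ)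
    {h h' : J → (ι → ℝ) → ℝ} (a : ∀ j, Bm (h j)) (a' : ∀ j, Bm (h' j)) {b : ℝ} (hb : 0 ≤ b)
    (hh : ∀ y, ∑ j, h j y ^ 2 ≤ b ^ 2) :
    IK K (fun y => Mf K ν y * len fun j => Ch μ K Ks (h j) y - Ch ν K Ks (h' j) y) ≤
      IK (lst K Ks) (fun y => Mf (lst K Ks) ν y * len fun j => h j y - h' j y) +
        Ks.length * (2 * b * √(D2 θ μ ν)) := by
  induction Ks generalizing K with
  | nil => simp [Ch, lst]
  | cons K' Ks ih =>
    have hk : ∀ k ∈ K' :: Ks, 0 ≤ k ∧ 2 * k ≤ θ := fun k hk => hK k (List.mem_cons_of_mem _ hk)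
    have hk' : ∀ k ∈ K' :: Ks, 0 ≤ k := fun k h => (hk k h).1
    have h0 := hK K (by simp)
    have h1 := hk K' (by simp)
    have := step_le hμ hν h0.1 h1.1 (fun j => bm_Ch hμ hk' (a j)) (fun j => bm_Ch hν hk' (a' j)) hb
      (Ch_sup hμ hk' a hh)
    have g := Real.sqrt_le_sqrt (D2_mono hμ hν (add_nonneg h0.1 h1.1)
      (by linarith [h0.2, h1.2] : K + K' ≤ θ))
    have := ih hk
    simp only [Ch, lst, List.length_cons]
    push_cast
    nlinarith

lemma bs_Tl (hμ : Cp μ) (hK : ∀ k ∈ Ks, 0 ≤ k) (hf : Bs μ f) : Bs μ (Tl μ Ks f) := by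
  induction Ks with
  | nil => exact hf
  | cons K' Ks ih =>
    exact (bm_Tk hμ (hK K' (by simp)) (ih fun k hk => hK k (List.mem_cons_of_mem _ hk))).bs

lemma pm_Tl (K : ℝ) (Ks : List ℝ) : pm K μ (Tl μ Ks f) = Ch μ K Ks (pm (lst K Ks) μ f) := by
  induction Ks generalizing K with
  | nil => rfl
  | cons K' Ks ih => simp only [Ch, lst, ← ih K']; rfl

/-- the chain functional at the level of the outputs -/
theorem PhiL_eq (hμ : Cp μ) (hK : ∀ k ∈ K :: Ks, 0 ≤ k) : PhiL μ (K :: Ks) =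
    IK K fun y => Mf K μ y * ∑ i, mf K μ y i * Ch μ K Ks (fun y => mf (lst K Ks) μ y i) y := by
  have h0 := hK K (by simp)
  have hl := hK _ (lst_mem K Ks)
  simp only [Finset.mul_sum]
  rw [IK_sum _ fun i _ => (mg_Mf hμ h0).mul ((bm_mf hμ h0 i).mul
    (bm_Ch hμ hK (bm_mf hμ hl i))).mg, PhiL]
  refine Finset.sum_congr rfl fun i _ => ?_
  have := bayes hμ h0 (Bs.coord hμ i) (bm_Ch hμ hK (bm_mf hμ hl i)).mg
  simp only [Un_eq hμ h0, mul_assoc] at this
  refine Eq.trans ?_ this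
  have e := pm_Tl (μ := μ) (f := fun x => x i) K Ks
  simp only [mf, ← e]
  rfl

/-! ### truncation -/

/-- the set where both posterior means are bounded -/
def Ab (K b : ℝ) (μ ν : Measure (ι → ℝ)) : Set (ι → ℝ) := {y | Sq K μ y ≤ b ^ 2 ∧ Sq K ν y ≤ b ^ 2}

lemma Ab_comm (b : ℝ) : Ab K b μ ν = Ab K b ν μ := by ext y; exact and_comm

lemma measurableSet_Ab (hμ : Cp μ) (hν : Cp ν) (hK : 0 ≤ K) (b : ℝ) : MeasurableSet (Ab K b μ ν) :=
  (measurableSet_le (bm_Sq hμ hK).meas measurable_const).inter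
    (measurableSet_le (bm_Sq hν hK).meas measurable_const)

/-- truncated posterior mean -/
def tr (K : ℝ) (A : Set (ι → ℝ)) (μ : Measure (ι → ℝ)) (i : ι) : (ι → ℝ) → ℝ :=
  A.indicator fun y => mf K μ y i

lemma bm_tr (hμ : Cp μ) (hK : 0 ≤ K) {A : Set (ι → ℝ)} (hA : MeasurableSet A) (i : ι) :
    Bm (tr K A μ i) := (bm_mf hμ hK i).indicator hA

lemma tr_sq_le (b : ℝ) (y : ι → ℝ) : ∑ i, tr K (Ab K b μ ν) μ i y ^ 2 ≤ b ^ 2 := by
  by_cases hy : y ∈ Ab K b μ ν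
  · simpa [tr, hy, Sq] using hy.1
  · simp [tr, hy, sq_nonneg]

lemma tr_sq_le' (A : Set (ι → ℝ)) (y : ι → ℝ) : ∑ i, tr K A μ i y ^ 2 ≤ Sq K μ y := by
  by_cases hy : y ∈ A
  · simp [tr, hy, Sq]
  · simp [tr, hy, Sq_nonneg]

lemma tail_le (hμ : Cp μ) (hν : Cp ν) (hK : 0 < K) {B D a b : ℝ} (hB : Xk (K + K) μ μ ≤ B)
    (hB' : Xk (K + K) ν ν ≤ B) (hD : √(D2 K μ ν) ≤ D) (ha : 0 < a) (hb : 0 < b) :
    IK K (fun y => Mf K μ y * ∑ i, (mf K μ y i - tr K (Ab K b μ ν) μ i y) ^ 2) ≤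
      a * (4 * B / K / b ^ 2 + D) + 8 * B / K ^ 2 / a := by
  have m1 := (mg_Mf hμ hK.le).mul (bm_Sq hμ hK.le).mg
  have m2 := (mg_Mf hν hK.le).mul (bm_Sq hν hK.le).mg
  have m3 := ((mg_Mf hμ hK.le).sub (mg_Mf hν hK.le)).abs
  have m4 := (mg_Mf hμ hK.le).mul (bm_Sq hμ hK.le).sq.mg
  have := IK_mono (K := K) ((mg_Mf hμ hK.le).mul (Bm.sum univ fun i _ => ((bm_mf hμ hK.le i).sub
    (bm_tr hμ hK.le (measurableSet_Ab hμ hν hK.le b) i)).sq).mg)
    (((((m1.add m2).const_mul (1 / b ^ 2)).add m3).const_mul a).add (m4.const_mul (1 / a)))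
    fun y => by
      have p1 := Mf_pos hμ hK.le y
      have p2 := Mf_pos hν hK.le y
      have s1 := Sq_nonneg (K := K) (μ := μ) y
      have s2 := Sq_nonneg (K := K) (μ := ν) y
      by_cases hy : y ∈ Ab K b μ ν
      · simp only [tr, Set.indicator_of_mem hy, sub_self]
        simp only [ne_eq, OfNat.ofNat_ne_zero, not_false_eq_true, zero_pow, sum_const_zero, mul_zero]
        positivity
      · simp only [tr, Set.indicator_of_notMem hy, sub_zero]
        change Mf K μ y * Sq K μ y ≤ _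
        have h1 : Mf K μ y ≤ 1 / b ^ 2 * (Mf K μ y * Sq K μ y + Mf K ν y * Sq K ν y) +
            |Mf K μ y - Mf K ν y| := by
          rw [one_div_mul_eq_div]
          rcases not_and_or.1 hy with h | h
          · refine le_add_of_le_of_nonneg ?_ (abs_nonneg _)
            rw [le_div_iff₀ (by positivity)]
            nlinarith [not_le.1 h, mul_nonneg p2.le s2]
          · have : Mf K ν y ≤ (Mf K μ y * Sq K μ y + Mf K ν y * Sq K ν y) / b ^ 2 := by
              rw [le_div_iff₀ (by positivity)]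
              nlinarith [not_le.1 h, mul_nonneg p1.le s1]
            linarith [le_abs_self (Mf K μ y - Mf K ν y)]
        have h2 : Sq K μ y ≤ a + 1 / a * Sq K μ y ^ 2 := by
          rw [one_div_mul_eq_div, ← sub_le_iff_le_add', le_div_iff₀ ha]
          nlinarith [sq_nonneg (Sq K μ y - a)]
        nlinarith [mul_le_mul_of_nonneg_left h1 ha.le, mul_le_mul_of_nonneg_left h2 p1.le]
  rw [IK_add ((((m1.add m2).const_mul _).add m3).const_mul a) (m4.const_mul _), IK_const_mul,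
    IK_add ((m1.add m2).const_mul _) m3, IK_const_mul, IK_add m1 m2, IK_const_mul] at this
  have g1 := IK_abs_le_sqrt (K := K) ((mg_Mf hμ hK.le).sub (mg_Mf hν hK.le))
  rw [← D2_eq hμ hν hK.le] at g1
  refine this.trans (add_le_add (mul_le_mul_of_nonneg_left (add_le_add ?_ (g1.trans hD)) ha.le) ?_)
  · rw [one_div_mul_eq_div]
    gcongr
    have := add_le_add (mom2 hμ hK hB) (mom2 hν hK hB')
    exact this.trans_eq (by ring)
  · rw [one_div_mul_eq_div]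
    gcongr
    exact mom4 hμ hK hB

lemma tr_close (hμ : Cp μ) (hν : Cp ν) (hK : 0 < K) {D b : ℝ} (hD : √(D2 (K + K) μ ν) ≤ D)
    (hb : 0 ≤ b) :
    IK K (fun y => Mf K ν y * len fun i => tr K (Ab K b μ ν) μ i y - tr K (Ab K b μ ν) ν i y) ≤
      D / √K + b * D := by
  have hA := measurableSet_Ab hμ hν hK.le b
  have mG : ∀ i, MG fun y => Un K μ (fun x => x i) y - Un K ν (fun x => x i) y := fun i =>
    (mg_Un hμ hK.le (Bs.coord hμ i)).sub (mg_Un hν hK.le (Bs.coord hν i))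
  have mS := MG.sum univ fun i _ => mg_sq (mG i)
  have mL : MG fun y => len fun i => Un K μ (fun x => x i) y - Un K ν (fun x => x i) y := by
    refine ((MG.const 1).add mS).of_le (Measurable.t157_len
      (measurable_pi_lambda _ fun i => (mG i).meas)) fun y => ?_
    rw [abs_of_nonneg (len_nonneg _), len_eq]
    refine le_trans ?_ (le_abs_self _)
    have h0 : 0 ≤ ∑ i, (Un K μ (fun x => x i) y - Un K ν (fun x => x i) y) ^ 2 :=
      Finset.sum_nonneg fun _ _ => sq_nonneg _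
    exact Real.sqrt_le_iff.2 ⟨by positivity, by nlinarith⟩
  have m3 := ((mg_Mf hμ hK.le).sub (mg_Mf hν hK.le)).abs
  have := IK_mono (K := K) ((mg_Mf hν hK.le).mul (Bm.len fun i => (bm_tr hμ hK.le hA i).sub
    (bm_tr hν hK.le hA i)).mg) (mL.add (m3.const_mul b)) fun y => by
      by_cases hy : y ∈ Ab K b μ ν
      · simp only [tr, Set.indicator_of_mem hy]
        set u := unitv fun i => mf K μ y i - mf K ν y i with hu
        have e1 := (le_abs_self _).trans (abs_unit_dot_le (fun i => mf K μ y i - mf K ν y i)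
          fun i => Un K μ (fun x => x i) y - Un K ν (fun x => x i) y)
        have e2 := (abs_unit_dot_le (fun i => mf K μ y i - mf K ν y i) (mf K μ y)).trans
          (len_le hb hy.1)
        have e4 : (Mf K ν y - Mf K μ y) * (u ⬝ᵥ mf K μ y) ≤ b * |Mf K μ y - Mf K ν y| := by
          refine (le_abs_self _).trans ?_
          rw [abs_mul, mul_comm, abs_sub_comm]
          exact mul_le_mul_of_nonneg_right e2 (abs_nonneg _)
        refine le_trans (le_of_eq ?_) (add_le_add e1 e4)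
        rw [← unitv_dot_self, ← hu]
        simp only [dotProduct, Finset.mul_sum, ← Finset.sum_add_distrib, Un_eq hμ hK.le,
          Un_eq hν hK.le, mf]
        exact Finset.sum_congr rfl fun i _ => by ring
      · simp only [tr, Set.indicator_of_notMem hy, sub_self]
        rw [show (fun _ : ι => (0 : ℝ)) = 0 from rfl, len_eq_zero.2 rfl, mul_zero]
        exact add_nonneg (len_nonneg _) (mul_nonneg hb (abs_nonneg _))
  rw [IK_add mL (m3.const_mul b), IK_const_mul] at this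
  have g1 := IK_abs_le_sqrt (K := K) ((mg_Mf hμ hK.le).sub (mg_Mf hν hK.le))
  rw [← D2_eq hμ hν hK.le] at g1
  have g3 := Real.sqrt_le_sqrt (D2_mono hμ hν hK.le (le_add_of_nonneg_right hK.le))
  refine this.trans (add_le_add ?_ (mul_le_mul_of_nonneg_left (g1.trans (g3.trans hD)) hb))
  have g2 := IK_sq_le (K := K) mL
  simp only [len_sq, dotProduct, ← sq] at g2
  have g4 := grad_le_D2 hμ hν hK.le hK
  rw [le_div_iff₀ (sqrt_pos.2 hK)]
  refine le_trans (Real.le_sqrt_of_sq_le ?_) hD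
  rw [mul_pow, sq_sqrt hK.le]
  nlinarith

lemma abs_pair_le (hμ : Cp μ) (hK : 0 ≤ K) {p q : J → (ι → ℝ) → ℝ} (a : ∀ j, Bm (p j))
    (b : ∀ j, Bm (q j)) {l : ℝ} (hl : 0 < l) :
    |IK K fun y => Mf K μ y * ∑ j, p j y * q j y| ≤
      (IK K fun y => Mf K μ y * ∑ j, p j y ^ 2) / l + l * IK K fun y => Mf K μ y * ∑ j, q j y ^ 2 := by
  have m1 := (mg_Mf hμ hK).mul (Bm.sum univ fun j _ => (a j).sq).mg
  have m2 := (mg_Mf hμ hK).mul (Bm.sum univ fun j _ => (b j).sq).mg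
  rw [← one_div_mul_eq_div, ← IK_const_mul, ← IK_const_mul,
    ← IK_add (m1.const_mul _) (m2.const_mul _)]
  refine abs_IK_le ((m1.const_mul _).add (m2.const_mul _)) fun y => ?_
  rw [abs_mul, abs_of_pos (Mf_pos hμ hK y), mul_left_comm (1 / l), mul_left_comm l, ← mul_add]
  refine mul_le_mul_of_nonneg_left ((Finset.abs_sum_le_sum_abs _ _).trans ?_) (Mf_pos hμ hK y).le
  rw [Finset.mul_sum, Finset.mul_sum, ← Finset.sum_add_distrib]
  refine Finset.sum_le_sum fun j _ => ?_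
  rw [abs_mul, ← sq_abs (p j y), ← sq_abs (q j y), one_div_mul_eq_div, ← sub_le_iff_le_add,
    le_div_iff₀ hl]
  nlinarith [sq_nonneg (|p j y| - l * |q j y|), mul_nonneg (abs_nonneg (p j y))
    (mul_nonneg hl.le (abs_nonneg (q j y)))]

/-- the truncated chain functional -/
def Pt (μ : Measure (ι → ℝ)) (K : ℝ) (Ks : List ℝ) (A A' : Set (ι → ℝ)) : ℝ :=
  IK K fun y => Mf K μ y * ∑ i, tr K A μ i y * Ch μ K Ks (tr (lst K Ks) A' μ i) y

lemma phi_trunc (hμ : Cp μ) (hK : ∀ k ∈ K :: Ks, 0 ≤ k) {A A' : Set (ι → ℝ)}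
    (hA : MeasurableSet A) (hA' : MeasurableSet A') {c E l : ℝ} (hl : 0 < l)
    (c1 : IK K (fun y => Mf K μ y * Sq K μ y) ≤ c)
    (c2 : IK (lst K Ks) (fun y => Mf (lst K Ks) μ y * Sq (lst K Ks) μ y) ≤ c)
    (E1 : IK K (fun y => Mf K μ y * ∑ i, (mf K μ y i - tr K A μ i y) ^ 2) ≤ E)
    (E2 : IK (lst K Ks) (fun y => Mf (lst K Ks) μ y *
      ∑ i, (mf (lst K Ks) μ y i - tr (lst K Ks) A' μ i y) ^ 2) ≤ E) :
    |PhiL μ (K :: Ks) - Pt μ K Ks A A'| ≤ 2 * (E / l + l * c) := by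
  have h0 := hK K (by simp)
  have hr := hK _ (lst_mem K Ks)
  have b1 := bm_mf hμ h0
  have b2 := bm_mf hμ hr
  have t1 := bm_tr hμ h0 hA
  have t2 := bm_tr hμ hr hA'
  have p1 := abs_pair_le hμ h0 (fun i => (b1 i).sub (t1 i)) (fun i => bm_Ch hμ hK (b2 i)) hl
  have p2 := abs_pair_le hμ h0 (fun i => bm_Ch hμ hK ((b2 i).sub (t2 i))) t1 hl
  have q1 := (Ch_L2 hμ hK b2).trans c2
  have q2 := (Ch_L2 hμ hK fun i => (b2 i).sub (t2 i)).trans E2
  have q3 := (IK_mono (K := K) ((mg_Mf hμ h0).mul (Bm.sum univ fun i _ => (t1 i).sq).mg)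
    ((mg_Mf hμ h0).mul (bm_Sq hμ h0).mg) fun y =>
      mul_le_mul_of_nonneg_left (tr_sq_le' A y) (Mf_pos hμ h0 y).le).trans c1
  have e : PhiL μ (K :: Ks) - Pt μ K Ks A A' =
      (IK K fun y => Mf K μ y * ∑ i, (mf K μ y i - tr K A μ i y) *
        Ch μ K Ks (fun y => mf (lst K Ks) μ y i) y) +
      IK K fun y => Mf K μ y * ∑ i, Ch μ K Ks
        (fun y => mf (lst K Ks) μ y i - tr (lst K Ks) A' μ i y) y * tr K A μ i y := by
    rw [PhiL_eq hμ hK, Pt, ← IK_sub ((mg_Mf hμ h0).mul (Bm.sum _ fun i _ => (b1 i).mul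
      (bm_Ch hμ hK (b2 i))).mg) ((mg_Mf hμ h0).mul (Bm.sum _ fun i _ => (t1 i).mul
      (bm_Ch hμ hK (t2 i))).mg), ← IK_add ((mg_Mf hμ h0).mul (Bm.sum _ fun i _ =>
      ((b1 i).sub (t1 i)).mul (bm_Ch hμ hK (b2 i))).mg) ((mg_Mf hμ h0).mul (Bm.sum _ fun i _ =>
      (bm_Ch hμ hK ((b2 i).sub (t2 i))).mul (t1 i)).mg)]
    refine IK_congr fun y => ?_
    rw [← mul_sub, ← mul_add, ← Finset.sum_sub_distrib, ← Finset.sum_add_distrib]
    congr 1
    refine Finset.sum_congr rfl fun i _ => ?_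
    rw [Ch_sub hμ hK (b2 i) (t2 i)]
    ring
  rw [e]
  refine (abs_add_le _ _).trans ((add_le_add p1 p2).trans ?_)
  have := div_le_div_of_nonneg_right E1 hl.le
  have := div_le_div_of_nonneg_right q2 hl.le
  have := mul_le_mul_of_nonneg_left q1 hl.le
  have := mul_le_mul_of_nonneg_left q3 hl.le
  linarith

lemma pt_close (hμ : Cp μ) (hν : Cp ν) {θ : ℝ} (hK : ∀ k ∈ K :: Ks, 0 < k ∧ 2 * k ≤ θ)
    {D b : ℝ} (hD : √(D2 θ μ ν) ≤ D) (hb : 0 ≤ b) :
    |Pt μ K Ks (Ab K b μ ν) (Ab (lst K Ks) b μ ν) - Pt ν K Ks (Ab K b μ ν) (Ab (lst K Ks) b μ ν)| ≤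
      b ^ 2 * D + b * (D / √K + b * D) +
        b * (D / √(lst K Ks) + b * D + Ks.length * (2 * b * D)) := by
  have h0 := hK K (by simp)
  have hr := hK _ (lst_mem K Ks)
  have hk : ∀ k ∈ K :: Ks, 0 ≤ k := fun k h => (hK k h).1.le
  have hA := measurableSet_Ab hμ hν h0.1.le b
  have hA' := measurableSet_Ab hμ hν hr.1.le b
  have hDk : ∀ k, 0 ≤ k → k ≤ θ → √(D2 k μ ν) ≤ D := fun k a c =>
    (Real.sqrt_le_sqrt (D2_mono hμ hν a c)).trans hD
  have t1 := bm_tr hμ h0.1.le hA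
  have t1' := bm_tr hν h0.1.le hA
  have t2 := bm_tr hμ hr.1.le hA'
  have t2' := bm_tr hν hr.1.le hA'
  have c1 := fun i => bm_Ch hμ hk (t2 i)
  have c2 := fun i => bm_Ch hν hk (t2' i)
  have p1 := tr_close hμ hν h0.1 (hDk _ (by linarith [h0.1]) (by linarith [h0.2])) hb
  have p2 := tr_close hμ hν hr.1 (hDk _ (by linarith [hr.1]) (by linarith [hr.2])) hb
  have p3 := Ch_L1 hμ hν (fun k h => ⟨(hK k h).1.le, (hK k h).2⟩) t2 t2' hb (tr_sq_le b)
  have p4 := IK_abs_le_sqrt (K := K) ((mg_Mf hμ h0.1.le).sub (mg_Mf hν h0.1.le))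
  rw [← D2_eq hμ hν h0.1.le] at p4
  have p5 := p4.trans (hDk _ h0.1.le (by linarith [h0.1, h0.2]))
  have m0 := ((mg_Mf hμ h0.1.le).sub (mg_Mf hν h0.1.le)).abs
  have m1 := (mg_Mf hν h0.1.le).mul (Bm.len fun i => (t1 i).sub (t1' i)).mg
  have m2 := (mg_Mf hν h0.1.le).mul (Bm.len fun i => (c1 i).sub (c2 i)).mg
  rw [Pt, Pt, ← IK_sub ((mg_Mf hμ h0.1.le).mul (Bm.sum _ fun i _ => (t1 i).mul (c1 i)).mg)
    ((mg_Mf hν h0.1.le).mul (Bm.sum _ fun i _ => (t1' i).mul (c2 i)).mg)]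
  refine (abs_IK_le (((m0.const_mul (b ^ 2)).add (m1.const_mul b)).add (m2.const_mul b))
    fun y => ?_).trans ?_
  · set p : ι → ℝ := fun i => tr K (Ab K b μ ν) μ i y
    set p' : ι → ℝ := fun i => tr K (Ab K b μ ν) ν i y
    set q : ι → ℝ := fun i => Ch μ K Ks (tr (lst K Ks) (Ab (lst K Ks) b μ ν) μ i) y
    set q' : ι → ℝ := fun i => Ch ν K Ks (tr (lst K Ks) (Ab (lst K Ks) b μ ν) ν i) y
    have l1 : len p ≤ b := len_le hb (tr_sq_le b y)
    have l2 : len p' ≤ b := len_le hb (by simpa only [p', Ab_comm (μ := μ)] using tr_sq_le b y)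
    have l3 : len q ≤ b := len_le hb (Ch_sup hμ hk t2 (tr_sq_le b) y)
    have e : Mf K μ y * ∑ i, p i * q i - Mf K ν y * ∑ i, p' i * q' i =
        (Mf K μ y - Mf K ν y) * (p ⬝ᵥ q) + Mf K ν y * ((fun i => p i - p' i) ⬝ᵥ q) +
          Mf K ν y * (p' ⬝ᵥ fun i => q i - q' i) := by
      simp only [dotProduct, sub_mul, mul_sub, Finset.sum_sub_distrib]; ring
    have M0 := Mf_pos hν h0.1.le y
    have f1 := (abs_dot_le p q).trans (mul_le_mul l1 l3 (len_nonneg _) hb)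
    have f2 := (abs_dot_le (fun i => p i - p' i) q).trans
      (mul_le_mul_of_nonneg_left l3 (len_nonneg _))
    have f3 := (abs_dot_le p' fun i => q i - q' i).trans
      (mul_le_mul_of_nonneg_right l2 (len_nonneg _))
    change |Mf K μ y * ∑ i, p i * q i - Mf K ν y * ∑ i, p' i * q' i| ≤ _
    rw [e]
    refine (abs_add_le _ _).trans (add_le_add ((abs_add_le _ _).trans (add_le_add ?_ ?_)) ?_)
    · rw [abs_mul, mul_comm, sq]; exact mul_le_mul_of_nonneg_right f1 (abs_nonneg _)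
    · rw [abs_mul, abs_of_pos M0, mul_left_comm, mul_comm b]
      exact mul_le_mul_of_nonneg_left f2 M0.le
    · rw [abs_mul, abs_of_pos M0, mul_left_comm]
      exact mul_le_mul_of_nonneg_left f3 M0.le
  · rw [IK_add ((m0.const_mul _).add (m1.const_mul b)) (m2.const_mul b),
      IK_add (m0.const_mul _) (m1.const_mul b), IK_const_mul, IK_const_mul, IK_const_mul]
    have : (Ks.length : ℝ) * (2 * b * √(D2 θ μ ν)) ≤ Ks.length * (2 * b * D) := by gcongr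
    gcongr
    linarith

end Crest.Agent.T157.St.A87

namespace Crest.Agent.T157.St
open A87 Real

theorem phiContStmt : PhiContStmt := by
  intro Ks θ B₀ ε hKs hθ hε
  obtain ⟨K, Ks, rfl⟩ := List.exists_cons_of_ne_nil hKs.1
  have hK : ∀ k ∈ K :: Ks, 0 < k ∧ 2 * k ≤ θ := fun k h => ⟨hKs.2 k h, hθ k h⟩
  have h0 := hK K (by simp)
  have hr := hK _ (lst_mem K Ks)
  obtain ⟨k, hk, k1, k2⟩ : ∃ k : ℝ, 0 < k ∧ k ≤ K ∧ k ≤ lst K Ks :=
    ⟨min K (lst K Ks), lt_min h0.1 hr.1, min_le_left _ _, min_le_right _ _⟩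
  obtain ⟨B, hB, hB0⟩ : ∃ B : ℝ, 0 < B ∧ B₀ ≤ B := ⟨max B₀ 1, by positivity, le_max_left _ _⟩
  set l := ε * k / (32 * B) with hl
  have l0 : 0 < l := by positivity
  set e := ε * l / 8 with he
  have e0 : 0 < e := by positivity
  set a := 24 * B / k ^ 2 / e with ha
  have a0 : 0 < a := by positivity
  set b := √(12 * a * B / k / e) with hb
  have b0 : 0 < b := by positivity
  have b2 : b ^ 2 = 12 * a * B / k / e := sq_sqrt (by positivity)
  set c := (3 + 2 * Ks.length) * b ^ 2 + 2 * b / √k with hc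
  have c0 : 0 < c := by positivity
  set D := min (e / (3 * a)) (ε / 4 / c) with hD
  have D0 : 0 < D := by positivity
  refine ⟨D ^ 2, by positivity, fun ι _ μ ν hμ hν h1 h2 h3 => ?_⟩
  classical
  have hD' : √(D2 θ μ ν) ≤ D := Real.sqrt_le_iff.2 ⟨D0.le, h3⟩
  have hE : ∀ {μ ν : MeasureTheory.Measure (ι → ℝ)}, Cp μ → Cp ν → Xk θ μ μ ≤ B₀ → Xk θ ν ν ≤ B₀ →
      √(D2 θ μ ν) ≤ D → ∀ j, k ≤ j → 2 * j ≤ θ →
      IK j (fun y => Mf j μ y * Sq j μ y) ≤ 2 * B / k ∧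
      IK j (fun y => Mf j μ y * ∑ i, (mf j μ y i - tr j (Ab j b μ ν) μ i y) ^ 2) ≤ e := by
    intro μ ν hμ hν h1 h2 h3 j j1 j2
    have j0 := hk.trans_le j1
    have x1 := (Xk_mono hμ (by linarith) (by linarith : j + j ≤ θ)).trans (h1.trans hB0)
    have x2 := (Xk_mono hν (by linarith) (by linarith : j + j ≤ θ)).trans (h2.trans hB0)
    refine ⟨(mom2 hμ j0 x1).trans (by gcongr), (tail_le hμ hν j0 x1 x2
      ((Real.sqrt_le_sqrt (D2_mono hμ hν j0.le (by linarith))).trans h3) a0 b0).trans ?_⟩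
    have y1 : a * (4 * B / j / b ^ 2) ≤ e / 3 := by
      refine le_trans (by gcongr : _ ≤ a * (4 * B / k / b ^ 2)) (le_of_eq ?_)
      rw [b2]; field_simp; ring
    have y2 : a * D ≤ e / 3 := by
      refine le_trans (by gcongr; exact min_le_left _ _ : _ ≤ a * (e / (3 * a))) (le_of_eq ?_)
      field_simp
    have y3 : 8 * B / j ^ 2 / a ≤ e / 3 := by
      refine le_trans (by gcongr : _ ≤ 8 * B / k ^ 2 / a) (le_of_eq ?_)
      rw [ha]; field_simp; ring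
    linarith [mul_add a (4 * B / j / b ^ 2) D]
  have hk' : ∀ j ∈ K :: Ks, 0 ≤ j := fun j h => (hK j h).1.le
  have hD'' : √(D2 θ ν μ) ≤ D := by
    rwa [← (mmdStmt ι μ ν ν hμ hν hν θ θ (by linarith [h0.1, h0.2]) le_rfl).2.2.1]
  have s1 := phi_trunc hμ hk' (measurableSet_Ab hμ hν h0.1.le b) (measurableSet_Ab hμ hν hr.1.le b)
    l0 (hE hμ hν h1 h2 hD' K k1 h0.2).1 (hE hμ hν h1 h2 hD' _ k2 hr.2).1
    (hE hμ hν h1 h2 hD' K k1 h0.2).2 (hE hμ hν h1 h2 hD' _ k2 hr.2).2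
  have s2 := phi_trunc hν hk' (measurableSet_Ab hν hμ h0.1.le b) (measurableSet_Ab hν hμ hr.1.le b)
    l0 (hE hν hμ h2 h1 hD'' K k1 h0.2).1 (hE hν hμ h2 h1 hD'' _ k2 hr.2).1
    (hE hν hμ h2 h1 hD'' K k1 h0.2).2 (hE hν hμ h2 h1 hD'' _ k2 hr.2).2
  rw [Ab_comm (μ := ν), Ab_comm (μ := ν)] at s2
  have s3 := pt_close hμ hν hK hD' b0.le
  have z1 : 2 * (e / l + l * (2 * B / k)) = 3 * ε / 8 := by rw [he, hl]; field_simp; ring
  have z2 : b ^ 2 * D + b * (D / √K + b * D) +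
      b * (D / √(lst K Ks) + b * D + Ks.length * (2 * b * D)) ≤ ε / 4 := by
    have w1 : D / √K ≤ D / √k := by gcongr
    have w2 : D / √(lst K Ks) ≤ D / √k := by gcongr
    have w3 : c * D ≤ ε / 4 := by
      refine le_trans (by gcongr; exact min_le_right _ _ : _ ≤ c * (ε / 4 / c)) (le_of_eq ?_)
      field_simp
    have w4 : c * D = b ^ 2 * D + b * (D / √k + b * D) +
        b * (D / √k + b * D + Ks.length * (2 * b * D)) := by rw [hc]; ring
    refine le_trans ?_ (w4 ▸ w3)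
    gcongr
  rw [z1] at s1 s2
  rw [abs_le] at s1 s2 s3 ⊢
  constructor <;> linarith [s1.1, s1.2, s2.1, s2.2, s3.1, s3.2]

end Crest.Agent.T157.St

end
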