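import Crest.Agent.T157.CqDef_72
import Crest.Agent.T157.StB_87
import Crest.Agent.T157.ChainPoi_22

/-!
# Row 157, part C: continuity of the scalars, first file (helper80)

Markov operators `MK`, the class `Cl` of smoothed observables, the defect `Df` of two operators.
-/

set_option autoImplicit false
set_option linter.unusedSectionVars false

noncomputable section

namespace Crest.Agent.T157.Cq.S80

open MeasureTheory ProbabilityTheory Matrix Filter Topology Finset Real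
open Crest.Agent.T157.E Crest.Agent.T157.Cond Crest.Agent.T157.SL Crest.Agent.T157.Rec
open Crest.Agent.T157.St Crest.Agent.T157.St.A87

/-- operators on functions -/
abbrev Op (ι : Type*) := ((ι → ℝ) → ℝ) → (ι → ℝ) → ℝ

variable {ι : Type*} [Fintype ι] [DecidableEq ι] {μ ν : Measure (ι → ℝ)} {K K' k k' c B B' C : ℝ}
  {f g h : (ι → ℝ) → ℝ} {T U : Op ι}

/-- measurable and bounded by `C` -/
structure Bd (C : ℝ) (f : (ι → ℝ) → ℝ) : Prop where
  meas : Measurable f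
  le : ∀ x, |f x| ≤ C

lemma Bd.bm (h : Bd C f) : Bm f := ⟨h.meas, C, h.le⟩
lemma Bd.nonneg (h : Bd C f) : 0 ≤ C := (abs_nonneg _).trans (h.le 0)
lemma Bd.mono (h : Bd C f) (e : C ≤ B) : Bd B f := ⟨h.meas, fun x => (h.le x).trans e⟩
lemma Bd.const (a : ℝ) : Bd |a| fun _ : ι → ℝ => a := ⟨measurable_const, fun _ => le_rfl⟩
lemma Bd.add (a : Bd B f) (b : Bd C g) : Bd (B + C) fun x => f x + g x :=
  ⟨a.meas.add b.meas, fun x => (abs_add_le _ _).trans (add_le_add (a.le x) (b.le x))⟩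
lemma Bd.mul (a : Bd B f) (b : Bd C g) : Bd (B * C) fun x => f x * g x :=
  ⟨a.meas.mul b.meas, fun x => by
    rw [abs_mul]; exact mul_le_mul (a.le x) (b.le x) (abs_nonneg _) a.nonneg⟩

lemma bm_abs (a : Bm f) : Bm fun x => |f x| :=
  a.bd.elim fun C hC => ⟨a.meas.abs, C, fun x => (abs_abs _).trans_le (hC x)⟩

lemma int_bd {α : Type*} [MeasurableSpace α] {F : α → ℝ} (hm : Measurable F) (hb : ∀ a, |F a| ≤ C)
    (ρ : Measure α) [IsFiniteMeasure ρ] : Integrable F ρ :=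
  Integrable.of_bound hm.aestronglyMeasurable C (.of_forall hb)

lemma int_bm (a : Bm f) (ρ : Measure (ι → ℝ)) [IsFiniteMeasure ρ] : Integrable f ρ :=
  a.bd.elim fun _ hC => int_bd a.meas hC ρ

lemma abs_int_le {α : Type*} [MeasurableSpace α] {F : α → ℝ} (hb : ∀ a, |F a| ≤ C)
    (ρ : Measure α) [IsProbabilityMeasure ρ] : |∫ a, F a ∂ρ| ≤ C := by
  simpa using norm_integral_le_of_norm_le_const (μ := ρ) (f := F) (C := C) (.of_forall hb)

/-- given by a Markov kernel on bounded functions -/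
def MK (T : Op ι) : Prop := ∃ κ : Kernel (ι → ℝ) (ι → ℝ), IsMarkovKernel κ ∧
  ∀ f, Bm f → ∀ x, T f x = ∫ y, f y ∂κ x

namespace MK

lemma bd (hT : MK T) (a : Bd C f) : Bd C (T f) := by
  obtain ⟨κ, _, e⟩ := hT
  rw [funext (e f a.bm)]
  exact ⟨a.meas.stronglyMeasurable.integral_kernel.measurable, fun x => abs_int_le a.le _⟩

lemma bm (hT : MK T) (a : Bm f) : Bm (T f) := a.bd.elim fun _ hC => (hT.bd ⟨a.meas, hC⟩).bm

lemma meas2 (hT : MK T) {α : Type*} [MeasurableSpace α] {F : α → (ι → ℝ) → ℝ}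
    (hF : Measurable fun p : α × (ι → ℝ) => F p.1 p.2) (hb : ∀ a x, |F a x| ≤ C) :
    Measurable fun p : α × (ι → ℝ) => T (F p.1) p.2 := by
  obtain ⟨κ, _, e⟩ := hT
  have : (fun p : α × (ι → ℝ) => T (F p.1) p.2) = fun p => ∫ y, F p.1 y ∂(κ.prodMkLeft α) p :=
    funext fun p => e _ ⟨hF.comp (measurable_const.prodMk measurable_id), C, hb _⟩ _
  rw [this]
  exact (StronglyMeasurable.integral_kernel_prod_right (κ := κ.prodMkLeft α)
    (f := fun p y => F p.1 y)
    (hF.comp (measurable_fst.fst.prodMk measurable_snd)).stronglyMeasurable).measurable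

lemma comp (hT : MK T) (hU : MK U) : MK fun f => T (U f) := by
  have hU' := hU
  obtain ⟨κ, _, e⟩ := hT
  obtain ⟨η, _, e'⟩ := hU
  refine ⟨η ∘ₖ κ, inferInstance, fun f a x => ?_⟩
  beta_reduce
  rw [e _ (hU'.bm a), Kernel.integral_comp (int_bm a _)]
  simp only [e' f a]

lemma id : MK fun f : (ι → ℝ) → ℝ => f :=
  ⟨Kernel.id, inferInstance, fun f a x => by
    rw [Kernel.id_apply, integral_dirac' _ _ a.meas.stronglyMeasurable]⟩

lemma iter (hT : MK T) (j : ℕ) : MK T^[j] := by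
  induction j with
  | zero => exact id
  | succ j ih => rw [Function.iterate_succ']; exact hT.comp ih

lemma swap (hT : MK T) (hU : MK U) {F : (ι → ℝ) → (ι → ℝ) → ℝ}
    (hF : Measurable fun p : (ι → ℝ) × (ι → ℝ) => F p.1 p.2) (hb : ∀ a x, |F a x| ≤ C)
    (x y : ι → ℝ) : U (fun a => T (F a) x) y = T (fun b => U (fun a => F a b) y) x := by
  have m1 : Measurable fun a => T (F a) x :=
    (hT.meas2 hF hb).comp (measurable_id.prodMk measurable_const)
  have m2 : Measurable fun b => U (fun a => F a b) y :=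
    (hU.meas2 (F := fun b a => F a b) (hF.comp measurable_swap) fun b a => hb a b).comp
      (measurable_id.prodMk measurable_const)
  have b1 : ∀ a, Bd C (F a) := fun a => ⟨hF.comp (measurable_const.prodMk measurable_id), hb a⟩
  have b2 : ∀ b, Bd C fun a => F a b := fun b =>
    ⟨hF.comp (measurable_id.prodMk measurable_const), fun a => hb a b⟩
  have c1 : Bm fun a => T (F a) x := ⟨m1, C, fun a => (hT.bd (b1 a)).le x⟩
  have c2 : Bm fun b => U (fun a => F a b) y := ⟨m2, C, fun b => (hU.bd (b2 b)).le y⟩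
  obtain ⟨κ, _, e⟩ := hT
  obtain ⟨η, _, e'⟩ := hU
  rw [e' _ c1, e _ c2]
  simp only [fun a => e _ (b1 a).bm, fun b => e' _ (b2 b).bm]
  exact integral_integral_swap (int_bd hF (fun p => hb p.1 p.2) _)

lemma abs_sub_le (hT : MK T) (a : Bm f) (b : Bm g) (d : Bm h) (e : ∀ x, |f x - g x| ≤ h x)
    (x : ι → ℝ) : |T f x - T g x| ≤ T h x := by
  obtain ⟨κ, _, e'⟩ := hT
  rw [e' f a, e' g b, e' h d, ← integral_sub (int_bm a _) (int_bm b _)]
  exact norm_integral_le_of_norm_le (f := fun y => f y - g y) (int_bm d _) (.of_forall e)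

lemma add (hT : MK T) (a : Bm f) (b : Bm g) (x : ι → ℝ) :
    T (fun y => f y + g y) x = T f x + T g x := by
  obtain ⟨κ, _, e'⟩ := hT
  rw [e' _ (a.add b), e' f a, e' g b, integral_add (int_bm a _) (int_bm b _)]

lemma const_mul (hT : MK T) (a : Bm f) (c : ℝ) (x : ι → ℝ) :
    T (fun y => c * f y) x = c * T f x := by
  obtain ⟨κ, _, e'⟩ := hT
  rw [e' _ (a.const_mul c), e' f a, integral_const_mul]

lemma const (hT : MK T) (c : ℝ) (x : ι → ℝ) : T (fun _ => c) x = c := by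
  obtain ⟨κ, _, e'⟩ := hT
  rw [e' _ (.const c)]; simp

lemma nonneg (hT : MK T) (a : Bm f) (e : ∀ x, 0 ≤ f x) (x : ι → ℝ) : 0 ≤ T f x := by
  obtain ⟨κ, _, e'⟩ := hT
  rw [e' f a]; exact integral_nonneg e

/-- mixtures -/
lemma mix {α : Type*} [MeasurableSpace α] (ρ : Measure α) [IsProbabilityMeasure ρ]
    (η : Kernel ((ι → ℝ) × α) (ι → ℝ)) [IsMarkovKernel η]
    (e : ∀ f, Bm f → ∀ x, T f x = ∫ a, ∫ y, f y ∂η (x, a) ∂ρ) : MK T := by
  refine ⟨η ∘ₖ (Kernel.id ×ₖ Kernel.const _ ρ), inferInstance, fun f a x => ?_⟩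
  rw [e f a, Kernel.integral_comp (int_bm a _), Kernel.prod_apply, Kernel.id_apply,
    Kernel.const_apply, Measure.dirac_prod, integral_map (by fun_prop)
      a.meas.stronglyMeasurable.integral_kernel.aestronglyMeasurable]

end MK

lemma mkA (K : ℝ) : MK (Ay K : Op ι) :=
  MK.mix (gv ι) (Kernel.deterministic (fun p : (ι → ℝ) × (ι → ℝ) => K • p.1 + √K • p.2)
    (by fun_prop)) fun f a x => by
      simp only [Kernel.integral_deterministic' _ a.meas.stronglyMeasurable]; rfl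

lemma mkP (hμ : Cp μ) (hK : 0 ≤ K) : MK (pm K μ : Op ι) := by
  have := hμ.prob
  have m : Measurable (Function.uncurry fun y x : ι → ℝ => (ew K y x / Mf K μ y).toNNReal) :=
    ((measurable_ew K measurable_fst measurable_snd).div
      ((measurable_Mf hμ).comp measurable_fst)).real_toNNReal
  have e : ∀ (f : (ι → ℝ) → ℝ) y, ∫ x, f x ∂(Kernel.const _ μ).withDensity
      (fun y x : ι → ℝ => ((ew K y x / Mf K μ y).toNNReal : ENNReal)) y = pm K μ f y := fun f y => by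
    rw [Kernel.integral_withDensity m, Kernel.const_apply, pm, ← integral_div]
    refine integral_congr_ae (.of_forall fun x => ?_)
    simp only [NNReal.smul_def, smul_eq_mul]
    rw [Real.coe_toNNReal _ (div_pos (ew_pos _ _ _) (Mf_pos hμ hK y)).le]
    ring
  refine ⟨_, ⟨fun y => ⟨?_⟩⟩, fun f _ y => (e f y).symm⟩
  have h1 := e (fun _ => 1) y
  rw [pm_const hμ hK, integral_const, smul_eq_mul, mul_one, measureReal_def] at h1
  exact (ENNReal.toReal_eq_one_iff _).1 h1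

lemma mkT (hμ : Cp μ) (hK : 0 ≤ K) : MK (Tk K μ : Op ι) := (mkA K).comp (mkP hμ hK)

/-- the Poisson law -/
abbrev Pc (c : ℝ) : Measure ℕ := poissonMeasure c.toNNReal

lemma int_Pc (hc : 0 ≤ c) (a : ℕ → ℝ) : ∫ j, a j ∂Pc c = ∑' j, Chain22.poi c j * a j := by
  rw [integral_poissonMeasure, Real.coe_toNNReal _ hc]; rfl

lemma Qs_eq (hc : 0 ≤ c) (x : ι → ℝ) : Qs K c μ f x = ∫ j, (Tk K μ)^[j] f x ∂Pc c :=
  (int_Pc hc _).symm

lemma int_cast (hc : 0 ≤ c) : Integrable (fun j : ℕ => (j : ℝ)) (Pc c) := by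
  rw [integrable_poissonMeasure_iff, Real.coe_toNNReal _ hc]
  simpa only [Real.norm_natCast, Chain22.poi] using (Chain22.hasSum_poi_id c).summable

lemma mean_Pc (hc : 0 ≤ c) : ∫ j, (j : ℝ) ∂Pc c = c := by
  rw [int_Pc hc]; exact (Chain22.hasSum_poi_id c).tsum_eq

lemma mkQ (hμ : Cp μ) (hK : 0 ≤ K) (hc : 0 ≤ c) : MK (Qs K c μ : Op ι) := by
  choose κ h1 h2 using fun j => (mkT hμ hK).iter j
  let η : Kernel ((ι → ℝ) × ℕ) (ι → ℝ) :=
    ⟨fun p => κ p.2 p.1, measurable_from_prod_countable_left fun j => (κ j).measurable⟩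
  have : IsMarkovKernel η := ⟨fun p => (h1 p.2).1 p.1⟩
  exact MK.mix (Pc c) η fun f a x => by
    rw [Qs_eq hc]; simp only [h2 _ f a]; rfl

/-! ### stationarity -/

/-- `ν` is stationary -/
def Sta (ν : Measure (ι → ℝ)) (T : Op ι) : Prop := ∀ f, Bm f → ∫ x, T f x ∂ν = ∫ x, f x ∂ν

lemma int_Ay (hν : Cp ν) (hK : 0 ≤ K) (a : MG h) :
    ∫ x, Ay K h x ∂ν = IK K fun y => Mf K ν y * h y := by
  have := bayes hν hK (.const 1) a
  simpa only [one_mul, ← Mf_eq, Ay] using this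

lemma staT (hν : Cp ν) (hK : 0 ≤ K) : Sta ν (Tk K ν) := fun f a => by
  rw [Tk_eq, int_Ay hν hK (mg_pm hν hK a.bs), ← IK_Un hν hK a.bs]
  exact IK_congr fun y => (Un_eq hν hK y).symm

lemma Sta.iter (hT : MK T) (s : Sta ν T) (j : ℕ) : Sta ν T^[j] := fun f a => by
  induction j with
  | zero => rfl
  | succ j ih => rw [Function.iterate_succ_apply', s _ ((hT.iter j).bm a), ih]

lemma meas_nat {F : ℕ → (ι → ℝ) → ℝ} (a : ∀ j, Measurable (F j)) :
    Measurable fun p : (ι → ℝ) × ℕ => F p.2 p.1 := measurable_from_prod_countable_left a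

lemma staQ (hν : Cp ν) (hK : 0 ≤ K) (hc : 0 ≤ c) : Sta ν (Qs K c ν) := fun f a => by
  have := hν.prob
  obtain ⟨C, hC⟩ := a.bd
  have b := fun j => ((mkT hν hK).iter j).bd ⟨a.meas, hC⟩
  simp only [Qs_eq hc]
  rw [integral_integral_swap (int_bd (meas_nat fun j => (b j).meas) (fun p => (b p.2).le p.1) _)]
  simp only [(staT hν hK).iter (mkT hν hK) _ f a]
  simp

/-! ### the class -/

/-- pointwise distance of the unnormalised posterior means -/
def dd (μ ν : Measure (ι → ℝ)) (K : ℝ) (g g' : (ι → ℝ) → ℝ) (w : ι → ℝ) : ℝ :=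
  |Un K μ g w - Un K ν g' w|

lemma mg_dd (hμ : Cp μ) (hν : Cp ν) (hK : 0 ≤ K) (a : Bm g) (b : Bm h) : MG (dd μ ν K g h) :=
  ((mg_Un hμ hK a.bs).sub (mg_Un hν hK b.bs)).abs

/-- observables which behave like a smoothing of level `k` of a function bounded by `B` -/
structure Cl (μ ν : Measure (ι → ℝ)) (k B : ℝ) (f : (ι → ℝ) → ℝ) : Prop where
  bd : Bd B f
  le : ∀ K, 0 ≤ K → ∀ g g', Bm g → Bm g' → ∀ w,
    dd μ ν K (fun x => f x * g x) (fun x => f x * g' x) w ≤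
      B * IK k fun y => dd μ ν (K + k) g g' (w + y)

namespace Cl

lemma const (a : ℝ) : Cl μ ν 0 |a| fun _ => a :=
  ⟨.const a, fun K _ g g' _ _ w => by
    simp only [dd, Un_const_mul, IK_zero, add_zero, ← mul_sub, abs_mul, le_refl]⟩

lemma monoB (a : Cl μ ν k B f) (e : B ≤ B') : Cl μ ν k B' f :=
  ⟨a.bd.mono e, fun K hK g g' b b' w => (a.le K hK g g' b b' w).trans
    (mul_le_mul_of_nonneg_right e (IK_nonneg fun _ => abs_nonneg _))⟩

lemma add (hμ : Cp μ) (hν : Cp ν) (a : Cl μ ν k B f) (b : Cl μ ν k B' h) :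
    Cl μ ν k (B + B') fun x => f x + h x :=
  ⟨a.bd.add b.bd, fun K hK g g' d d' w => by
    rw [add_mul]
    refine le_trans ?_ (add_le_add (a.le K hK g g' d d' w) (b.le K hK g g' d d' w))
    simp only [dd, add_mul, Un_add hμ hK (a.bd.bm.mul d).bs (b.bd.bm.mul d).bs,
      Un_add hν hK (a.bd.bm.mul d').bs (b.bd.bm.mul d').bs, add_sub_add_comm]
    exact abs_add_le _ _⟩

lemma IK2 (hμ : Cp μ) (hν : Cp ν) (hK : 0 ≤ K) (hk : 0 ≤ k) (hk' : 0 ≤ k') {g' : (ι → ℝ) → ℝ}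
    (d : Bm g) (d' : Bm g') (w : ι → ℝ) :
    (MG fun y => IK k' fun y' => dd μ ν (K + k + k') g g' (w + y + y')) ∧
    IK k (fun y => IK k' fun y' => dd μ ν (K + k + k') g g' (w + y + y')) =
      IK (k + k') fun y => dd μ ν (K + (k + k')) g g' (w + y) := by
  have m := mg_shift (mg_dd hμ hν (by positivity : 0 ≤ K + (k + k')) d d') w
  simp only [add_assoc]
  exact ⟨mg_IK m k', IK_IK hk hk' m⟩

lemma mul (hμ : Cp μ) (hν : Cp ν) (hk : 0 ≤ k) (hk' : 0 ≤ k') (a : Cl μ ν k B f)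
    (b : Cl μ ν k' B' h) : Cl μ ν (k + k') (B * B') fun x => f x * h x :=
  ⟨a.bd.mul b.bd, fun K hK g g' d d' w => by
    obtain ⟨m, e⟩ := IK2 hμ hν hK hk hk' d d' w
    simp only [mul_assoc]
    refine (a.le K hK _ _ (b.bd.bm.mul d) (b.bd.bm.mul d') w).trans
      (mul_le_mul_of_nonneg_left ?_ a.bd.nonneg)
    rw [← e, ← IK_const_mul]
    exact IK_mono (mg_shift (mg_dd hμ hν (add_nonneg hK hk) (b.bd.bm.mul d) (b.bd.bm.mul d')) w)
      (m.const_mul _) fun y => b.le _ (add_nonneg hK hk) g g' d d' _⟩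

lemma un_diag (hμ : Cp μ) (hK : 0 ≤ K) (hK' : 0 ≤ K') {Ψ : (ι → ℝ) → (ι → ℝ) → ℝ}
    (hΨ : Measurable fun p : (ι → ℝ) × (ι → ℝ) => Ψ p.1 p.2) (hb : ∀ y x, |Ψ y x| ≤ B)
    (d : Bm g) (w : ι → ℝ) :
    (MG fun y => Un (K + K') μ (fun x => Ψ y x * g x) (w + y)) ∧
    Un K μ (fun x => Ay K' (fun y => Ψ y x) x * g x) w =
      IK K' fun y => Un (K + K') μ (fun x => Ψ y x * g x) (w + y) := by
  have := hμ.prob
  have hs := add_nonneg hK hK'
  obtain ⟨C, hC⟩ := d.bd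
  have hB : 0 ≤ B := (abs_nonneg _).trans (hb 0 0)
  have b : ∀ y x, |Ψ y x * g x| ≤ B * C := fun y x => by
    rw [abs_mul]; exact mul_le_mul (hb y x) (hC x) (abs_nonneg _) hB
  constructor
  · refine ((mg_shift (mg_Mf hμ hs) w).const_mul (B * C)).of_le ?_ fun y =>
      (abs_Un_le hμ hs (.of_forall (b y)) _).trans (le_abs_self _)
    exact (StronglyMeasurable.integral_prod_right
      (f := fun y x => Ψ y x * g x * ew (K + K') (w + y) x)
      ((hΨ.mul (d.meas.comp measurable_snd)).mul (measurable_ew _ (by fun_prop)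
        measurable_snd)).stronglyMeasurable).measurable
  · have hi : Integrable (fun p : (ι → ℝ) × (ι → ℝ) =>
        Ψ (√K' • p.2) p.1 * g p.1 * ew (K + K') (w + √K' • p.2) p.1) (μ.prod (gv ι)) := by
      refine ((int_prod hμ hs (.const (B * C)) (.const 1) w √K')).mono'
        (((hΨ.comp (by fun_prop : Measurable fun p : (ι → ℝ) × (ι → ℝ) => (√K' • p.2, p.1))).mul
          (d.meas.comp measurable_fst)).mul (measurable_ew _ (by fun_prop)
          measurable_fst)).aestronglyMeasurable (.of_forall fun p => ?_)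
      rw [Real.norm_eq_abs, abs_mul, abs_of_pos (ew_pos _ _ _), mul_one]
      exact mul_le_mul_of_nonneg_right (b _ _) (ew_pos _ _ _).le
    have := integral_integral_swap
      (f := fun x z => Ψ (√K' • z) x * g x * ew (K + K') (w + √K' • z) x) hi
    refine Eq.trans ?_ this
    refine integral_congr_ae (.of_forall fun x => ?_)
    have e1 : Ay K' (fun y => Ψ y x) x = _ := (cmK hK' x fun y => Ψ y x).symm
    simp only [e1, IK, ew_add, ← integral_mul_const]
    exact integral_congr_ae (.of_forall fun z => by simp only; ring)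

/-- a parameter is fed with an output of the channel -/
lemma diag (hμ : Cp μ) (hν : Cp ν) (hK' : 0 ≤ K') (hk : 0 ≤ k) {Ψ : (ι → ℝ) → (ι → ℝ) → ℝ}
    (hΨ : Measurable fun p : (ι → ℝ) × (ι → ℝ) => Ψ p.1 p.2) (a : ∀ y, Cl μ ν k B (Ψ y)) :
    Cl μ ν (K' + k) B fun x => Ay K' (fun y => Ψ y x) x := by
  have hb : ∀ y x, |Ψ y x| ≤ B := fun y => (a y).bd.le
  refine ⟨⟨((mkA K').meas2 (F := fun x y => Ψ y x) (hΨ.comp measurable_swap)
    fun x y => hb y x).comp (measurable_id.prodMk measurable_id),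
    fun x => abs_Ay_le (fun y => hb y x) x⟩, fun K hK g g' d d' w => ?_⟩
  obtain ⟨m1, e1⟩ := un_diag hμ hK hK' hΨ hb d w
  obtain ⟨m2, e2⟩ := un_diag hν hK hK' hΨ hb d' w
  obtain ⟨m, e⟩ := IK2 hμ hν hK hK' hk d d' w
  rw [dd, e1, e2, ← IK_sub m1 m2, ← e, ← IK_const_mul]
  exact abs_IK_le (m.const_mul _) fun y => (a y).le _ (add_nonneg hK hK') g g' d d' _

lemma mono (hμ : Cp μ) (hν : Cp ν) (hk : 0 ≤ k) (a : Cl μ ν k B f) (e : k ≤ k') :
    Cl μ ν k' B f := by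
  have := diag hμ hν (sub_nonneg.2 e) hk (Ψ := fun _ => f) (a.bd.meas.comp measurable_snd)
    fun _ => a
  simpa only [sub_add_cancel, Ay_const] using this

lemma ay (hμ : Cp μ) (hν : Cp ν) (hK : 0 ≤ K) (a : Bd B f) : Cl μ ν K B (Ay K f) := by
  have := diag hμ hν hK le_rfl (Ψ := fun y _ => f y) (a.meas.comp measurable_fst)
    fun y => (const (f y)).monoB (a.le y)
  simpa only [add_zero] using this

lemma iter (hμ : Cp μ) (hν : Cp ν) (hK : 0 ≤ K) (e : K ≤ k) (a : Cl μ ν k B f) (j : ℕ) :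
    Cl μ ν k B ((Tk K μ)^[j] f) := by
  cases j with
  | zero => exact a
  | succ j =>
    rw [Function.iterate_succ_apply']
    exact (ay hμ hν hK ((mkP hμ hK).bd (((mkT hμ hK).iter j).bd a.bd))).mono hμ hν hK e

lemma un_mix (hμ : Cp μ) (hK : 0 ≤ K) {F : ℕ → (ι → ℝ) → ℝ} (a : ∀ j, Bd B (F j)) (d : Bm g)
    (ρ : Measure ℕ) [IsProbabilityMeasure ρ] (w : ι → ℝ) :
    Integrable (fun j => Un K μ (fun x => F j x * g x) w) ρ ∧
    Un K μ (fun x => (∫ j, F j x ∂ρ) * g x) w = ∫ j, Un K μ (fun x => F j x * g x) w ∂ρ := by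
  have := hμ.prob
  have hi : Integrable (fun p : (ι → ℝ) × ℕ => F p.2 p.1 * (g p.1 * ew K w p.1)) (μ.prod ρ) :=
    (((d.bs.mul (Bs.ew hμ hK w)).int hμ).comp_fst ρ).bdd_mul (c := B)
      (meas_nat fun j => (a j).meas).aestronglyMeasurable (.of_forall fun p => (a p.2).le p.1)
  simp only [Un, mul_assoc, ← integral_mul_const]
  exact ⟨hi.integral_prod_right, integral_integral_swap hi⟩

lemma qs (hμ : Cp μ) (hν : Cp ν) (hK : 0 ≤ K) (hc : 0 ≤ c) (e : K ≤ k) (a : Cl μ ν k B f) :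
    Cl μ ν k B (Qs K c μ f) := by
  refine ⟨(mkQ hμ hK hc).bd a.bd, fun K₀ h0 g g' d d' w => ?_⟩
  have b := a.iter hμ hν hK e
  obtain ⟨m1, e1⟩ := un_mix hμ h0 (fun j => (b j).bd) d (Pc c) w
  obtain ⟨m2, e2⟩ := un_mix hν h0 (fun j => (b j).bd) d' (Pc c) w
  simp only [Qs_eq hc]
  rw [dd, e1, e2, ← integral_sub m1 m2]
  exact abs_int_le (fun j => (b j).le K₀ h0 g g' d d' w) _

end Cl

lemma IK_dd_one (hμ : Cp μ) (hν : Cp ν) (hK : 0 ≤ K) :
    IK K (dd μ ν K (fun _ => 1) fun _ => 1) ≤ √(D2 K μ ν) := by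
  rw [D2_eq hμ hν hK]
  have := IK_abs_le_sqrt (K := K) ((mg_Mf hμ hK).sub (mg_Mf hν hK))
  simp only [Mf_eq] at this ⊢
  exact this

lemma Cl.int_le (hμ : Cp μ) (hν : Cp ν) (hk : 0 ≤ k) (a : Cl μ ν k B f) :
    |∫ x, f x ∂μ - ∫ x, f x ∂ν| ≤ B * √(D2 k μ ν) := by
  have := a.le 0 le_rfl _ _ (.const 1) (.const 1) 0
  simp only [dd, Un_zero, mul_one, zero_add] at this
  exact this.trans (mul_le_mul_of_nonneg_left (IK_dd_one hμ hν hk) a.bd.nonneg)

/-! ### the defect -/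

/-- the two operators are close on the class, uniformly -/
def Df (μ ν : Measure (ι → ℝ)) (T U : Op ι) (k η : ℝ) : Prop :=
  ∃ δ, Bd 2 δ ∧ ∫ x, δ x ∂ν ≤ η ∧ ∀ B f, Cl μ ν k B f → ∀ x, |T f x - U f x| ≤ B * δ x

lemma bd_min (hm : Measurable f) (h0 : ∀ x, 0 ≤ f x) : Bd 2 fun x => min 2 (f x) :=
  ⟨measurable_const.min hm, fun x => by
    rw [abs_of_nonneg (le_min zero_le_two (h0 x))]; exact min_le_left _ _⟩

lemma le_mul_min {a b d t : ℝ} (ha : |a| ≤ B) (hb : |b| ≤ B) (h : |a - b| ≤ B * d) (ht : d ≤ t) :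
    |a - b| ≤ B * min 2 t := by
  have hB : 0 ≤ B := (abs_nonneg _).trans ha
  rw [mul_min_of_nonneg _ _ hB]
  exact le_min ((abs_sub _ _).trans (by linarith)) (h.trans (mul_le_mul_of_nonneg_left ht hB))

lemma dfT (hμ : Cp μ) (hν : Cp ν) (hK : 0 ≤ K) (hk : 0 ≤ k) :
    Df μ ν (Tk K μ) (Tk K ν) k (2 * √(D2 (K + k) μ ν)) := by
  have hs := add_nonneg hK hk
  have m0 := mg_dd hμ hν hK (.const 1) (.const 1)
  have m1 := mg_dd hμ hν hs (.const 1) (.const 1)
  have m2 := m0.add (mg_IK m1 k)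
  set W : (ι → ℝ) → ℝ := fun y => dd μ ν K (fun _ => 1) (fun _ => 1) y +
    IK k fun y' => dd μ ν (K + k) (fun _ => 1) (fun _ => 1) (y + y') with hW
  have W0 : ∀ y, 0 ≤ W y := fun y => add_nonneg (abs_nonneg _) (IK_nonneg fun _ => abs_nonneg _)
  have b : Bd 2 fun y => min 2 (W y / Mf K ν y) :=
    bd_min (m2.meas.div (measurable_Mf hν)) fun y => div_nonneg (W0 y) (Mf_pos hν hK y).le
  refine ⟨_, (mkA K).bd b, ?_, fun B f a x => ?_⟩
  · rw [int_Ay hν hK b.bm.mg]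
    refine (IK_mono ((mg_Mf hν hK).mul b.bm.mg) m2 fun y => ?_).trans ?_
    · refine (mul_le_mul_of_nonneg_left (min_le_right _ _) (Mf_pos hν hK y).le).trans_eq ?_
      rw [mul_div_cancel₀ _ (Mf_pos hν hK y).ne']
    · rw [IK_add m0 (mg_IK m1 k), IK_IK hK hk m1, two_mul]
      exact add_le_add ((IK_dd_one hμ hν hK).trans (Real.sqrt_le_sqrt
        (D2_mono hμ hν hK (le_add_of_nonneg_right hk)))) (IK_dd_one hμ hν hs)
  · rw [← (mkA K).const_mul b.bm]
    have p1 := (mkP hμ hK).bd a.bd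
    have p2 := (mkP hν hK).bd a.bd
    refine (mkA K).abs_sub_le p1.bm p2.bm (b.bm.const_mul B) (fun y => ?_) x
    refine le_mul_min (p1.le y) (p2.le y) ?_ le_rfl
    have h1 := a.le K hK _ _ (.const 1) (.const 1) y
    have M0 := Mf_pos hν hK y
    rw [← mul_div_assoc, le_div_iff₀ M0, hW, mul_add]
    refine le_trans ?_ (add_le_add le_rfl h1)
    simp only [dd, mul_one, Un_eq hμ hK, Un_eq hν hK, pm_const hμ hK, pm_const hν hK]
    have e : (pm K μ f y - pm K ν f y) * Mf K ν y = -(pm K μ f y * (Mf K μ y - Mf K ν y)) +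
        (Mf K μ y * pm K μ f y - Mf K ν y * pm K ν f y) := by ring
    rw [← abs_of_pos M0, ← abs_mul, abs_of_pos M0, e]
    refine (abs_add_le _ _).trans (add_le_add ?_ le_rfl)
    rw [abs_neg, abs_mul]
    exact mul_le_mul_of_nonneg_right (p1.le y) (abs_nonneg _)

lemma Df.mono {η η' : ℝ} (a : Df μ ν T U k η) (e : η ≤ η') : Df μ ν T U k η' :=
  a.imp fun _ h => ⟨h.1, h.2.1.trans e, h.2.2⟩

lemma dfI (hμ : Cp μ) (hν : Cp ν) (hK : 0 ≤ K) (e : K ≤ k) {η : ℝ}
    (a : Df μ ν (Tk K μ) (Tk K ν) k η) (j : ℕ) :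
    Df μ ν (Tk K μ)^[j] (Tk K ν)^[j] k (j * η) := by
  have := hν.prob
  obtain ⟨δ, d1, d2, d3⟩ := a
  induction j with
  | zero => exact ⟨fun _ => 0, (Bd.const 0).mono (by simp), by simp, fun B f _ x => by simp⟩
  | succ j ih =>
    obtain ⟨γ, g1, g2, g3⟩ := ih
    have t := mkT hν hK
    have b1 := bm_abs d1.bm
    have b2 := t.bm (bm_abs g1.bm)
    have nn : ∀ {T U : Op ι} {δ : (ι → ℝ) → ℝ},
        (∀ B f, Cl μ ν k B f → ∀ x, |T f x - U f x| ≤ B * δ x) → ∀ x, 0 ≤ δ x :=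
      fun {T U δ} h x => by
        have := (abs_nonneg _).trans (h _ _ ((Cl.const 1).mono hμ hν le_rfl (hK.trans e)) x)
        simpa using this
    have b : Bd 2 fun x => min 2 (δ x + Tk K ν γ x) :=
      bd_min (d1.meas.add (t.bd g1).meas) fun x => add_nonneg (nn d3 x) (t.nonneg g1.bm (nn g3) x)
    refine ⟨_, b, ?_, fun B f a x => ?_⟩
    · refine (integral_mono (int_bm b.bm _) (int_bm (d1.bm.add (t.bm g1.bm)) _)
        fun x => min_le_right _ _).trans ?_
      rw [integral_add (int_bm d1.bm _) (int_bm (t.bm g1.bm) _), staT hν hK _ g1.bm]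
      push_cast; linarith
    · refine le_mul_min ((((mkT hμ hK).iter _).bd a.bd).le x) (((t.iter _).bd a.bd).le x) ?_ le_rfl
      rw [Function.iterate_succ_apply', Function.iterate_succ_apply', mul_add,
        ← t.const_mul g1.bm]
      exact (abs_sub_le _ _ _).trans (add_le_add (d3 B _ (a.iter hμ hν hK e j) x)
        (t.abs_sub_le (((mkT hμ hK).iter _).bm a.bd.bm) ((t.iter _).bm a.bd.bm)
          (g1.bm.const_mul B) (g3 B f a) x))

lemma dfQ (hμ : Cp μ) (hν : Cp ν) (hK : 0 ≤ K) (hc : 0 ≤ c) (e : K ≤ k) :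
    Df μ ν (Qs K c μ) (Qs K c ν) k (c * (2 * √(D2 (K + k) μ ν))) := by
  have := hν.prob
  choose δ d1 d2 d3 using dfI hμ hν hK e (dfT hμ hν hK (hK.trans e))
  have m := meas_nat fun j => (d1 j).meas
  have hi := int_bd m (fun p => (d1 p.2).le p.1) (ν.prod (Pc c))
  refine ⟨fun x => ∫ j, δ j x ∂Pc c, ⟨(StronglyMeasurable.integral_prod_right
    (f := fun x j => δ j x) m.stronglyMeasurable).measurable,
    fun x => abs_int_le (fun j => (d1 j).le x) _⟩, ?_, fun B f a x => ?_⟩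
  · rw [integral_integral_swap hi]
    refine (integral_mono hi.integral_prod_right ((int_cast hc).mul_const _) d2).trans_eq ?_
    rw [integral_mul_const, mean_Pc hc]
  · have i1 := int_bd (.of_discrete) (fun j => (((mkT hμ hK).iter j).bd a.bd).le x) (Pc c)
    have i2 := int_bd (.of_discrete) (fun j => (((mkT hν hK).iter j).bd a.bd).le x) (Pc c)
    rw [Qs_eq hc, Qs_eq hc, ← integral_sub i1 i2, ← integral_const_mul]
    exact norm_integral_le_of_norm_le (f := fun j => (Tk K μ)^[j] f x - (Tk K ν)^[j] f x)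
      ((int_bd (.of_discrete) (fun j => (d1 j).le x) _).const_mul B)
      (.of_forall fun j => d3 j B f a x)

/-- `L¹(ν)` distance -/
def Rel (ν : Measure (ι → ℝ)) (f g : (ι → ℝ) → ℝ) : ℝ := ∫ x, |f x - g x| ∂ν

lemma Df.rel (hν : Cp ν) {η : ℝ} (d : Df μ ν T U k η) (hT : MK T) (hU : MK U) (s : Sta ν U)
    (a : Cl μ ν k B f) (b : Bm g) : Rel ν (T f) (U g) ≤ B * η + Rel ν f g := by
  have := hν.prob
  obtain ⟨δ, d1, d2, d3⟩ := d
  have b1 := bm_abs (a.bd.bm.sub b)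
  refine (integral_mono (int_bm (bm_abs ((hT.bm a.bd.bm).sub (hU.bm b))) _)
    (int_bm ((d1.bm.const_mul B).add (hU.bm b1)) _) fun x => (abs_sub_le _ _ _).trans
      (add_le_add (d3 B f a x) (hU.abs_sub_le a.bd.bm b b1 (fun _ => le_rfl) x))).trans ?_
  rw [integral_add (int_bm (d1.bm.const_mul B) _) (int_bm (hU.bm b1) _), s _ b1, integral_const_mul]
  exact add_le_add (mul_le_mul_of_nonneg_left d2 a.bd.nonneg) le_rfl

end Crest.Agent.T157.Cq.S80

end
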