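import Crest.Agent.T157.CqScA_80

/-!
# Row 157, part C: continuity of the scalars, second file (helper80): the observable `psiS`
-/

set_option autoImplicit false
set_option linter.unusedSectionVars false

noncomputable section

namespace Crest.Agent.T157.Cq.S80

open MeasureTheory ProbabilityTheory Matrix Filter Topology Finset Real
open Crest.Agent.T157.E Crest.Agent.T157.Cond Crest.Agent.T157.SL Crest.Agent.T157.Rec
open Crest.Agent.T157.St Crest.Agent.T157.St.A87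

variable {ι : Type*} [Fintype ι] [DecidableEq ι] {μ ν ρ : Measure (ι → ℝ)} {K K' s c L R C : ℝ}
  {f g h : (ι → ℝ) → ℝ}

lemma int_cexp (a : ι → ℝ) :
    Integrable (fun z : ι → ℝ => Complex.exp ((a ⬝ᵥ z : ℝ) * Complex.I)) (gv ι) :=
  Integrable.of_bound (Continuous.aestronglyMeasurable (by unfold dotProduct; fun_prop)) 1
    (.of_forall fun z => (Complex.norm_exp_ofReal_mul_I _).le)

lemma int_cos (a : ι → ℝ) : ∫ z, cos (a ⬝ᵥ z) ∂gv ι = exp (-(a ⬝ᵥ a) / 2) := by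
  have h := congrArg Complex.re (CF_gv a)
  have e := integral_re (𝕜 := ℂ) (int_cexp a)
  simp only [RCLike.re_to_complex, Complex.exp_ofReal_mul_I_re] at e
  rw [e]
  refine h.trans ?_
  rw [← Complex.exp_ofReal_re]; push_cast; rfl

lemma int_sin (a : ι → ℝ) : ∫ z, sin (a ⬝ᵥ z) ∂gv ι = 0 := by
  have h := congrArg Complex.im (CF_gv a)
  have e := integral_im (𝕜 := ℂ) (int_cexp a)
  simp only [RCLike.im_to_complex, Complex.exp_ofReal_mul_I_im] at e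
  rw [e]
  refine h.trans ?_
  rw [← Complex.exp_ofReal_im (-(a ⬝ᵥ a) / 2)]; push_cast; rfl

lemma icos (a : ι → ℝ) : Integrable (fun z : ι → ℝ => cos (a ⬝ᵥ z)) (gv ι) :=
  int_bd (by unfold dotProduct; fun_prop) (fun _ => abs_cos_le_one _) _

lemma isin (a : ι → ℝ) : Integrable (fun z : ι → ℝ => sin (a ⬝ᵥ z)) (gv ι) :=
  int_bd (by unfold dotProduct; fun_prop) (fun _ => abs_sin_le_one _) _

lemma int_sin_shift (hs : 0 ≤ s) (a a' : ι → ℝ) :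
    ∫ z, sin ((s • a + √s • z) ⬝ᵥ a') ∂gv ι = sin (s * (a ⬝ᵥ a')) * exp (-(s / 2 * (a' ⬝ᵥ a'))) := by
  have e : ∀ z : ι → ℝ, sin ((s • a + √s • z) ⬝ᵥ a') = sin (s * (a ⬝ᵥ a')) * cos ((√s • a') ⬝ᵥ z) +
      cos (s * (a ⬝ᵥ a')) * sin ((√s • a') ⬝ᵥ z) := fun z => by
    rw [add_dotProduct, sin_add]
    simp only [smul_dotProduct, smul_eq_mul, dotProduct_comm z]
  simp only [e]
  rw [integral_add ((icos _).const_mul _) ((isin _).const_mul _), integral_const_mul,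
    integral_const_mul, int_cos, int_sin, dot_sqrt hs, mul_zero, add_zero]
  congr 2; ring

lemma int_sin_sin (hs : 0 ≤ s) (a a' : ι → ℝ) :
    ∫ z, sin ((√s • z) ⬝ᵥ a') * sin ((√s • z) ⬝ᵥ a) ∂gv ι ≤
      exp (s * (a ⬝ᵥ a') - s / 2 * (a ⬝ᵥ a) - s / 2 * (a' ⬝ᵥ a')) := by
  have e : ∀ z : ι → ℝ, sin ((√s • z) ⬝ᵥ a') * sin ((√s • z) ⬝ᵥ a) =
      1 / 2 * (cos ((√s • (a - a')) ⬝ᵥ z) - cos ((√s • (a + a')) ⬝ᵥ z)) := fun z => by
    simp only [smul_dotProduct, smul_eq_mul, dotProduct_comm z, sub_dotProduct, add_dotProduct,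
      mul_sub, mul_add, cos_sub, cos_add]
    ring
  simp only [e]
  rw [integral_const_mul, integral_sub (icos _) (icos _), int_cos, int_cos, dot_sqrt hs,
    dot_sqrt hs]
  have e2 : -(s * ((a - a') ⬝ᵥ (a - a'))) / 2 =
      s * (a ⬝ᵥ a') - s / 2 * (a ⬝ᵥ a) - s / 2 * (a' ⬝ᵥ a') := by
    rw [sub_dotProduct, dotProduct_sub, dotProduct_sub, dotProduct_comm a' a]; ring
  rw [e2]
  linarith [exp_pos (-(s * ((a + a') ⬝ᵥ (a + a'))) / 2),
    exp_pos (s * (a ⬝ᵥ a') - s / 2 * (a ⬝ᵥ a) - s / 2 * (a' ⬝ᵥ a'))]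

lemma swapS (hρ : Cp ρ) (hg : Bs ρ g) {Φ : (ι → ℝ) → (ι → ℝ) → ℝ}
    (hΦ : Measurable fun p : (ι → ℝ) × (ι → ℝ) => Φ p.1 p.2) (hb : ∀ z a, |Φ z a| ≤ C) :
    ∫ z, ∫ a, g a * Φ z a ∂ρ ∂gv ι = ∫ a, g a * ∫ z, Φ z a ∂gv ι ∂ρ := by
  have := hρ.prob
  simp only [← integral_const_mul]
  exact integral_integral_swap (((hg.int hρ).comp_snd (gv ι)).mul_bdd (c := C)
    hΦ.aestronglyMeasurable (.of_forall fun p => hb _ _))

lemma bs_expsq (hρ : Cp ρ) (hs : 0 ≤ s) : Bs ρ fun a => exp (s / 2 * (a ⬝ᵥ a)) := by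
  obtain ⟨r, hr⟩ := hρ.bdd
  refine ⟨by unfold dotProduct; fun_prop, exp (s / 2 * r), (exp_pos _).le, hr.mono fun a ha => ?_⟩
  rw [abs_of_pos (exp_pos _)]; gcongr

/-- dual features -/
def Ga (ρ : Measure (ι → ℝ)) (g : (ι → ℝ) → ℝ) (y : ι → ℝ) : ℝ := ∫ a, g a * sin (y ⬝ᵥ a) ∂ρ

lemma bm_Ga (hρ : Cp ρ) (hg : Bs ρ g) : Bm (Ga ρ g) := by
  have := hρ.prob
  refine ⟨(StronglyMeasurable.integral_prod_right (f := fun y a => g a * sin (y ⬝ᵥ a))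
    ((hg.meas.comp measurable_snd).mul (by unfold dotProduct; fun_prop)).stronglyMeasurable
    ).measurable, ∫ a, |g a| ∂ρ, fun y => ?_⟩
  refine norm_integral_le_of_norm_le (f := fun a => g a * sin (y ⬝ᵥ a)) (hg.int hρ).abs
    (.of_forall fun a => ?_)
  rw [Real.norm_eq_abs, abs_mul]
  exact mul_le_of_le_one_right (abs_nonneg _) (abs_sin_le_one _)

lemma Ay_Ga (hρ : Cp ρ) (hs : 0 ≤ s) (hh : Bs ρ h) (a : ι → ℝ) :
    Ay s (Ga ρ fun a => h a * exp (s / 2 * (a ⬝ᵥ a))) a = ∫ a', sin (s * (a ⬝ᵥ a')) * h a' ∂ρ := by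
  have := swapS hρ (hh.mul (bs_expsq hρ hs)) (Φ := fun z a' => sin ((s • a + √s • z) ⬝ᵥ a'))
    (by unfold dotProduct; fun_prop) fun _ _ => abs_sin_le_one _
  refine this.trans (integral_congr_ae (.of_forall fun a' => ?_))
  simp only [int_sin_shift hs]
  rw [exp_neg]; field_simp

lemma IK_Ga_sq (hρ : Cp ρ) (hs : 0 ≤ s) (hh : Bs ρ h) (h0 : ∀ a, 0 ≤ h a) :
    IK s (fun y => Ga ρ (fun a => h a * exp (s / 2 * (a ⬝ᵥ a))) y ^ 2) ≤
      IK s fun y => Un s ρ h y ^ 2 := by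
  have := hρ.prob
  have hg := hh.mul (bs_expsq hρ hs)
  set g : (ι → ℝ) → ℝ := fun a => h a * exp (s / 2 * (a ⬝ᵥ a)) with eg
  have g0 : ∀ a, 0 ≤ g a := fun a => mul_nonneg (h0 a) (exp_pos _).le
  obtain ⟨m, C, hC⟩ := bm_Ga hρ hg
  have m1 : Measurable fun p : (ι → ℝ) × (ι → ℝ) => sin ((√s • p.1) ⬝ᵥ p.2) * Ga ρ g (√s • p.1) :=
    Measurable.mul (by unfold dotProduct; fun_prop) (m.comp (by fun_prop))
  have b1 : ∀ z a : ι → ℝ, |sin ((√s • z) ⬝ᵥ a) * Ga ρ g (√s • z)| ≤ C := fun z a => by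
    rw [abs_mul]
    exact (mul_le_of_le_one_left (abs_nonneg _) (abs_sin_le_one _)).trans (hC _)
  have e1 := swapS hρ hg (Φ := fun z a => sin ((√s • z) ⬝ᵥ a) * Ga ρ g (√s • z)) m1 b1
  have e2 : IK s (fun y => Ga ρ g y ^ 2) =
      ∫ z, ∫ a, g a * (sin ((√s • z) ⬝ᵥ a) * Ga ρ g (√s • z)) ∂ρ ∂gv ι := by
    simp only [IK, sq, ← mul_assoc, integral_mul_const]; rfl
  simp only [sq (Un s ρ h _)]
  rw [e2, e1, IK_Un_Un hρ hρ hs hh hh]
  have i1 : Bs ρ fun a => ∫ z, sin ((√s • z) ⬝ᵥ a) * Ga ρ g (√s • z) ∂gv ι :=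
    Bs.of_bdd (StronglyMeasurable.integral_prod_left (f := fun z a =>
      sin ((√s • z) ⬝ᵥ a) * Ga ρ g (√s • z)) m1.stronglyMeasurable).measurable
      fun a => abs_int_le (fun z => b1 z a) _
  have i2 : Bs ρ fun a => ∫ a', h a' * exp (s * (a ⬝ᵥ a')) ∂ρ := by
    have := Bs.of_mg hρ (mg_smul (mg_Un (K := 0) hρ le_rfl hh) s)
    simpa only [Un, ew, zero_div, zero_mul, sub_zero, smul_dotProduct, smul_eq_mul] using this
  refine integral_mono ((hg.mul i1).int hρ) ((hh.mul i2).int hρ) fun a => ?_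
  have e3 := swapS hρ hg (Φ := fun z a' => sin ((√s • z) ⬝ᵥ a') * sin ((√s • z) ⬝ᵥ a)) (C := 1)
    (by unfold dotProduct; fun_prop) fun z a' => by
      rw [abs_mul]; exact mul_le_one₀ (abs_sin_le_one _) (abs_nonneg _) (abs_sin_le_one _)
  have e4 : ∫ z, sin ((√s • z) ⬝ᵥ a) * Ga ρ g (√s • z) ∂gv ι =
      ∫ z, ∫ a', g a' * (sin ((√s • z) ⬝ᵥ a') * sin ((√s • z) ⬝ᵥ a)) ∂ρ ∂gv ι := by
    simp only [← mul_assoc, integral_mul_const, mul_comm (sin ((√s • _) ⬝ᵥ a))]; rfl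
  have i3 : Bs ρ fun a' => ∫ z, sin ((√s • z) ⬝ᵥ a') * sin ((√s • z) ⬝ᵥ a) ∂gv ι :=
    Bs.of_bdd (C := 1) (StronglyMeasurable.integral_prod_left (f := fun z a' =>
      sin ((√s • z) ⬝ᵥ a') * sin ((√s • z) ⬝ᵥ a))
      (Measurable.stronglyMeasurable (by unfold Function.uncurry dotProduct; fun_prop))).measurable
      fun a' => abs_int_le (fun z => by
        rw [abs_mul]; exact mul_le_one₀ (abs_sin_le_one _) (abs_nonneg _) (abs_sin_le_one _)) _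
  have i4 := hh.mul (Bs.of_mg hρ (mg_exp_dot s a))
  simp only
  rw [e4, e3, ← integral_const_mul, ← integral_const_mul]
  refine integral_mono (((hg.mul i3).int hρ).const_mul _) ((i4.int hρ).const_mul _) fun a' => ?_
  refine (mul_le_mul_of_nonneg_left (mul_le_mul_of_nonneg_left (int_sin_sin hs a a') (g0 a'))
    (g0 a)).trans_eq ?_
  simp only [eg, exp_sub]; field_simp

/-- bilinear estimate of the sine -/
lemma sin_le (hμ : Cp μ) (hν : Cp ν) (hρ : Cp ρ) (hs : 0 ≤ s) (hf : Bs μ f) (hg : Bs ν g)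
    (hh : Bs ρ h) (h0 : ∀ a, 0 ≤ h a) :
    |∫ a, f a * ∫ a', sin (s * (a ⬝ᵥ a')) * h a' ∂ρ ∂μ -
        ∫ a, g a * ∫ a', sin (s * (a ⬝ᵥ a')) * h a' ∂ρ ∂ν| ≤
      √(IK s fun y => (Un s μ f y - Un s ν g y) ^ 2) * √(IK s fun y => Un s ρ h y ^ 2) := by
  have m := (bm_Ga hρ (hh.mul (bs_expsq hρ hs))).mg
  have m1 := mg_Un hμ hs hf
  have m2 := mg_Un hν hs hg
  simp only [← Ay_Ga hρ hs hh, Ay]
  rw [bayes hμ hs hf m, bayes hν hs hg m, ← IK_sub (m1.mul m) (m2.mul m),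
    ← Real.sqrt_mul (IK_nonneg fun _ => sq_nonneg _)]
  simp only [← sub_mul]
  exact Real.abs_le_sqrt ((IK_cs (m1.sub m2) m).trans (mul_le_mul_of_nonneg_left
    (IK_Ga_sq hρ hs hh h0) (IK_nonneg fun _ => sq_nonneg _)))

/-- the sine averaged over two posteriors -/
def Sg (K s : ℝ) (μ ρ : Measure (ι → ℝ)) (y b : ι → ℝ) : ℝ :=
  pm K μ (fun a => pm K ρ (fun a' => sin (s * (a ⬝ᵥ a'))) b) y

lemma meas_sin (s : ℝ) : Measurable fun p : (ι → ℝ) × (ι → ℝ) => sin (s * (p.1 ⬝ᵥ p.2)) := by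
  unfold dotProduct; fun_prop

lemma meas_in (hρ : Cp ρ) (hK : 0 ≤ K) : Measurable fun p : (ι → ℝ) × (ι → ℝ) =>
    pm K ρ (fun a' => sin (s * (p.1 ⬝ᵥ a'))) p.2 :=
  (mkP hρ hK).meas2 (F := fun a a' => sin (s * (a ⬝ᵥ a'))) (meas_sin s) fun _ _ => abs_sin_le_one _

lemma in_le (hρ : Cp ρ) (hK : 0 ≤ K) (a b : ι → ℝ) :
    |pm K ρ (fun a' => sin (s * (a ⬝ᵥ a'))) b| ≤ 1 :=
  abs_pm_le hρ hK (.of_forall fun _ => abs_sin_le_one _) b

lemma mswap {α β : Type*} [MeasurableSpace α] [MeasurableSpace β] (F : α → β → ℝ)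
    (h : Measurable fun p : α × β => F p.1 p.2) : Measurable fun p : β × α => F p.2 p.1 :=
  h.comp measurable_swap

lemma mfst {α β : Type*} [MeasurableSpace α] [MeasurableSpace β] (F : α → β → ℝ)
    (h : Measurable fun p : α × β => F p.1 p.2) (b : β) : Measurable fun a => F a b :=
  h.comp (measurable_id.prodMk measurable_const)

lemma msnd {α β : Type*} [MeasurableSpace α] [MeasurableSpace β] (F : α → β → ℝ)
    (h : Measurable fun p : α × β => F p.1 p.2) (a : α) : Measurable fun b => F a b :=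
  h.comp (measurable_const.prodMk measurable_id)

lemma meas_Sg (hμ : Cp μ) (hρ : Cp ρ) (hK : 0 ≤ K) :
    Measurable fun p : (ι → ℝ) × (ι → ℝ) => Sg K s μ ρ p.1 p.2 :=
  mswap (fun b y => Sg K s μ ρ y b)
    ((mkP hμ hK).meas2 (F := fun b a => pm K ρ (fun a' => sin (s * (a ⬝ᵥ a'))) b)
      (mswap (fun a b => pm K ρ (fun a' => sin (s * (a ⬝ᵥ a'))) b) (meas_in hρ hK))
      fun b a => in_le hρ hK a b)

lemma Sg_le (hμ : Cp μ) (hρ : Cp ρ) (hK : 0 ≤ K) (y b : ι → ℝ) : |Sg K s μ ρ y b| ≤ 1 :=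
  abs_pm_le hμ hK (.of_forall fun a => in_le hρ hK a b) y

lemma Sg_comm (hμ : Cp μ) (hρ : Cp ρ) (hK : 0 ≤ K) (y b : ι → ℝ) :
    Sg K s μ ρ y b = Sg K s ρ μ b y := by
  rw [Sg, (mkP hρ hK).swap (mkP hμ hK) (F := fun a a' => sin (s * (a ⬝ᵥ a'))) (meas_sin s)
    (fun _ _ => abs_sin_le_one _) b y, Sg]
  simp only [dotProduct_comm]

lemma Un_ew (y y' : ι → ℝ) : Un s μ (ew K y) y' = Mf (K + s) μ (y + y') := by
  simp only [Un, Mf, ew_add]

/-- norm of the unnormalised posterior -/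
def Nn (K s : ℝ) (μ : Measure (ι → ℝ)) (y : ι → ℝ) : ℝ :=
  √(IK s fun y' => Mf (K + s) μ (y + y') ^ 2)

/-- distance of the unnormalised posteriors -/
def En (K s : ℝ) (μ ν : Measure (ι → ℝ)) (y : ι → ℝ) : ℝ :=
  √(IK s fun y' => (Mf (K + s) μ (y + y') - Mf (K + s) ν (y + y')) ^ 2)

lemma Sg_sub (hμ : Cp μ) (hν : Cp ν) (hρ : Cp ρ) (hK : 0 ≤ K) (hs : 0 ≤ s) (y b : ι → ℝ) :
    |Sg K s μ ρ y b - Sg K s ν ρ y b| ≤
      (|Mf K μ y - Mf K ν y| + En K s μ ν y * (Nn K s ρ b / Mf K ρ b)) / Mf K ν y := by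
  have h := sin_le hμ hν hρ hs (Bs.ew hμ hK y) (Bs.ew hν hK y) (Bs.ew hρ hK b)
    fun _ => (ew_pos _ _ _).le
  simp only [Un_ew] at h
  have M0 := Mf_pos hν hK y
  have M1 := Mf_pos hρ hK b
  have e : ∀ {μ : Measure (ι → ℝ)}, Cp μ → ∫ a, ew K y a * ∫ a', sin (s * (a ⬝ᵥ a')) * ew K b a' ∂ρ ∂μ =
      Mf K μ y * Sg K s μ ρ y b * Mf K ρ b := fun {μ} hμ => by
    rw [Sg, ← Un_eq hμ hK, Un, ← integral_mul_const]
    refine integral_congr_ae (.of_forall fun a => ?_)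
    simp only [pm]; field_simp
  rw [e hμ, e hν, ← sub_mul, abs_mul, abs_of_pos M1, ← le_div_iff₀ M1, mul_div_assoc] at h
  rw [le_div_iff₀ M0]
  refine le_trans ?_ (add_le_add le_rfl h)
  have e2 : (Sg K s μ ρ y b - Sg K s ν ρ y b) * Mf K ν y = -(Sg K s μ ρ y b *
      (Mf K μ y - Mf K ν y)) + (Mf K μ y * Sg K s μ ρ y b - Mf K ν y * Sg K s ν ρ y b) := by ring
  rw [← abs_of_pos M0, ← abs_mul, abs_of_pos M0, e2]
  refine (abs_add_le _ _).trans (add_le_add ?_ le_rfl)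
  rw [abs_neg, abs_mul]
  exact mul_le_of_le_one_left (abs_nonneg _) (Sg_le hμ hρ hK y b)

/-- the majorant -/
def Wm (K s R : ℝ) (μ ν : Measure (ι → ℝ)) (y : ι → ℝ) : ℝ :=
  R * En K s μ ν y + 4 * |Mf K μ y - Mf K ν y| + 4 / R * Nn K s μ y + 2 / R * Nn K s ν y

lemma Wm_nonneg (hR : 0 < R) (y : ι → ℝ) : 0 ≤ Wm K s R μ ν y := by
  unfold Wm En Nn; positivity

lemma Sg_diff (hμ : Cp μ) (hν : Cp ν) (hK : 0 ≤ K) (hs : 0 ≤ s) (hR : 0 < R) (y b : ι → ℝ) :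
    |Sg K s μ μ y b - Sg K s ν ν y b| ≤
      min 2 (Wm K s R μ ν y / Mf K ν y) + min 2 (Wm K s R μ ν b / Mf K ν b) := by
  have M0 := Mf_pos hν hK
  have M1 := Mf_pos hμ hK
  have p : ∀ y, 0 ≤ min 2 (Wm K s R μ ν y / Mf K ν y) := fun y =>
    le_min zero_le_two (div_nonneg (Wm_nonneg hR y) (M0 y).le)
  have t : |Sg K s μ μ y b - Sg K s ν ν y b| ≤ 2 :=
    (abs_sub _ _).trans (by linarith [Sg_le (s := s) hμ hμ hK y b, Sg_le (s := s) hν hν hK y b])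
  rcases le_total 2 (Wm K s R μ ν y / Mf K ν y) with h1 | h1
  · rw [min_eq_left h1]; linarith [p b]
  rcases le_total 2 (Wm K s R μ ν b / Mf K ν b) with h2 | h2
  · rw [min_eq_left h2]; linarith [p y]
  rw [min_eq_right h1, min_eq_right h2]
  have key : ∀ y, Wm K s R μ ν y / Mf K ν y ≤ 2 →
      Nn K s μ y / Mf K μ y ≤ R ∧ Nn K s ν y / Mf K ν y ≤ R := fun y h => by
    rw [div_le_iff₀ (M0 y), Wm] at h
    have a1 : 0 ≤ R * En K s μ ν y := by unfold En; positivity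
    have a2 : 0 ≤ 4 / R * Nn K s μ y := by unfold Nn; positivity
    have a3 : 0 ≤ 2 / R * Nn K s ν y := by unfold Nn; positivity
    have a4 := abs_nonneg (Mf K μ y - Mf K ν y)
    have a5 := neg_abs_le (Mf K μ y - Mf K ν y)
    have b1 : 4 / R * Nn K s μ y ≤ 4 * Mf K μ y := by linarith
    have b2 : 2 / R * Nn K s ν y ≤ 2 * Mf K ν y := by linarith
    rw [div_mul_eq_mul_div, div_le_iff₀ hR] at b1 b2
    rw [div_le_iff₀ (M1 y), div_le_iff₀ (M0 y)]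
    constructor <;> linarith
  have fin : ∀ y r, r ≤ R → (|Mf K μ y - Mf K ν y| + En K s μ ν y * r) / Mf K ν y ≤
      Wm K s R μ ν y / Mf K ν y := fun y r h => by
    refine div_le_div_of_nonneg_right ?_ (M0 y).le
    have a1 : En K s μ ν y * r ≤ En K s μ ν y * R := mul_le_mul_of_nonneg_left h (sqrt_nonneg _)
    have a2 : 0 ≤ 4 / R * Nn K s μ y := by unfold Nn; positivity
    have a3 : 0 ≤ 2 / R * Nn K s ν y := by unfold Nn; positivity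
    have a4 := abs_nonneg (Mf K μ y - Mf K ν y)
    rw [Wm]; linarith
  refine (abs_sub_le _ (Sg K s ν μ y b) _).trans (add_le_add
    ((Sg_sub hμ hν hμ hK hs y b).trans (fin _ _ (key b h2).1)) ?_)
  rw [Sg_comm hν hμ hK, Sg_comm hν hν hK]
  exact (Sg_sub hμ hν hν hK hs b y).trans (fin _ _ (key y h1).2)

lemma mg_root {F : (ι → ℝ) → ℝ} (m : MG F) (hK : 0 ≤ K) (hs : 0 ≤ s) :
    (MG fun y => √(IK s fun y' => F (y + y') ^ 2)) ∧
      IK K (fun y => √(IK s fun y' => F (y + y') ^ 2)) ≤ √(IK (K + s) fun y => F y ^ 2) := by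
  have m1 := mg_IK (mg_sq m) s
  have n : ∀ y, 0 ≤ IK s fun y' => F (y + y') ^ 2 := fun y => IK_nonneg fun _ => sq_nonneg _
  have m2 : MG fun y => √(IK s fun y' => F (y + y') ^ 2) := by
    refine ((MG.const 1).add m1).of_le m1.meas.sqrt fun y => ?_
    rw [abs_of_nonneg (sqrt_nonneg _)]
    refine le_trans ?_ (le_abs_self _)
    have := n y
    exact Real.sqrt_le_iff.2 ⟨by positivity, by nlinarith⟩
  refine ⟨m2, Real.le_sqrt_of_sq_le ((IK_sq_le m2).trans_eq ?_)⟩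
  simp only [sq_sqrt (n _)]
  exact IK_IK hK hs (mg_sq m)

lemma Wm_int (hμ : Cp μ) (hν : Cp ν) (hK : 0 ≤ K) (hs : 0 ≤ s) (hR : 0 < R) {D X : ℝ}
    (hD : √(D2 (K + s) μ ν) ≤ D) (x1 : √(Xk (K + s) μ μ) ≤ X) (x2 : √(Xk (K + s) ν ν) ≤ X) :
    MG (Wm K s R μ ν) ∧ IK K (Wm K s R μ ν) ≤ (R + 4) * D + 6 / R * X := by
  have hs' := add_nonneg hK hs
  obtain ⟨m1, e1⟩ := mg_root ((mg_Mf hμ hs').sub (mg_Mf hν hs')) hK hs
  obtain ⟨m2, e2⟩ := mg_root (mg_Mf hμ hs') hK hs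
  obtain ⟨m3, e3⟩ := mg_root (mg_Mf hν hs') hK hs
  have m4 := ((mg_Mf hμ hK).sub (mg_Mf hν hK)).abs
  have e4 := IK_abs_le_sqrt (K := K) ((mg_Mf hμ hK).sub (mg_Mf hν hK))
  rw [← D2_eq hμ hν hs'] at e1
  rw [← Xk_eq hμ hs'] at e2
  rw [← Xk_eq hν hs'] at e3
  rw [← D2_eq hμ hν hK] at e4
  have e5 := Real.sqrt_le_sqrt (D2_mono hμ hν hK (le_add_of_nonneg_right hs))
  refine ⟨(((m1.const_mul R).add (m4.const_mul 4)).add (m2.const_mul _)).add (m3.const_mul _), ?_⟩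
  unfold Wm En Nn
  rw [IK_add (((m1.const_mul R).add (m4.const_mul 4)).add (m2.const_mul _)) (m3.const_mul _),
    IK_add ((m1.const_mul R).add (m4.const_mul 4)) (m2.const_mul _),
    IK_add (m1.const_mul R) (m4.const_mul 4), IK_const_mul, IK_const_mul, IK_const_mul,
    IK_const_mul]
  have f1 := mul_le_mul_of_nonneg_left (e1.trans hD) hR.le
  have f2 := mul_le_mul_of_nonneg_left (e2.trans x1) (by positivity : 0 ≤ 4 / R)
  have f3 := mul_le_mul_of_nonneg_left (e3.trans x2) (by positivity : 0 ≤ 2 / R)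
  have f4 : 6 / R * X = 4 / R * X + 2 / R * X := by ring
  linarith

/-! ### the observable -/

/-- the observable with the first output as a parameter -/
def Ps (μ : Measure (ι → ℝ)) (L K' K c : ℝ) (y : ι → ℝ) : (ι → ℝ) → ℝ :=
  Qs K c μ (Ay K' fun b => L * Sg K' L⁻¹ μ μ y b)

lemma bd_LS (hμ : Cp μ) (hK' : 0 ≤ K') (hL : 0 ≤ L) (y : ι → ℝ) :
    Bd L fun b => L * Sg K' s μ μ y b :=
  ⟨(msnd (Sg K' s μ μ) (meas_Sg hμ hμ hK') y).const_mul L, fun b => by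
    rw [abs_mul, abs_of_nonneg hL]; exact mul_le_of_le_one_right hL (Sg_le hμ hμ hK' y b)⟩

lemma psi_eq (hμ : Cp μ) (hL : 0 ≤ L) (hK' : 0 ≤ K') (hK : 0 ≤ K) (hc : 0 ≤ c) :
    psiS μ L K' K c = fun x => Ay K' (fun y => Ps μ L K' K c y x) x := by
  funext x
  rw [psiS, Tk_eq]
  congr 1
  funext y
  have := ((mkQ hμ hK hc).comp (mkA K')).swap (mkP hμ hK') (C := L)
    (F := fun a b => L * pm K' μ (fun a' => sin (L⁻¹ * (a ⬝ᵥ a'))) b)
    ((meas_in hμ hK').const_mul L) (fun a b => by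
      rw [abs_mul, abs_of_nonneg hL]; exact mul_le_of_le_one_right hL (in_le hμ hK' a b)) x y
  simp only [pm_const_mul] at this
  refine Eq.trans ?_ this
  simp only [Tk_eq, div_eq_inv_mul, funext (pm_const_mul L)]

lemma meas_Ps (hμ : Cp μ) (hL : 0 ≤ L) (hK' : 0 ≤ K') (hK : 0 ≤ K) (hc : 0 ≤ c) :
    Measurable fun p : (ι → ℝ) × (ι → ℝ) => Ps μ L K' K c p.1 p.2 :=
  ((mkQ hμ hK hc).comp (mkA K')).meas2 (F := fun y b => L * Sg K' L⁻¹ μ μ y b)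
    ((meas_Sg hμ hμ hK').const_mul L) fun y => (bd_LS hμ hK' hL y).le

lemma cl_in (hμ : Cp μ) (hν : Cp ν) (hL : 0 ≤ L) (hK' : 0 ≤ K') (hK : 0 ≤ K) (y : ι → ℝ) :
    Cl μ ν (K' + K) L (Ay K' fun b => L * Sg K' s μ μ y b) :=
  (Cl.ay hμ hν hK' (bd_LS hμ hK' hL y)).mono hμ hν hK' (le_add_of_nonneg_right hK)

lemma cl_psi (hμ : Cp μ) (hν : Cp ν) (hL : 0 ≤ L) (hK' : 0 ≤ K') (hK : 0 ≤ K) (hc : 0 ≤ c) :
    Cl μ ν (K' + (K' + K)) L (psiS μ L K' K c) := by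
  rw [psi_eq hμ hL hK' hK hc]
  exact Cl.diag hμ hν hK' (add_nonneg hK' hK) (meas_Ps hμ hL hK' hK hc) fun y =>
    (cl_in hμ hν hL hK' hK y).qs hμ hν hK hc (le_add_of_nonneg_left hK')

lemma rel_psi (hμ : Cp μ) (hν : Cp ν) (hL : 0 ≤ L) (hK' : 0 ≤ K') (hK : 0 ≤ K) (hc : 0 ≤ c)
    (hR : 0 < R) {D X : ℝ} (hD : √(D2 (K' + L⁻¹) μ ν) ≤ D) (hD' : √(D2 (K + (K' + K)) μ ν) ≤ D)
    (x1 : √(Xk (K' + L⁻¹) μ μ) ≤ X) (x2 : √(Xk (K' + L⁻¹) ν ν) ≤ X) :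
    Rel ν (psiS μ L K' K c) (psiS ν L K' K c) ≤
      L * (c * (2 * D) + 2 * ((R + 4) * D + 6 / R * X)) := by
  have := hν.prob
  have hs : 0 ≤ L⁻¹ := inv_nonneg.2 hL
  obtain ⟨m, e⟩ := Wm_int hμ hν hK' hs hR hD x1 x2
  obtain ⟨δ, d1, d2, d3⟩ := dfQ hμ hν hK hc (le_add_of_nonneg_left hK' : K ≤ K' + K)
  have b := (bd_min (f := fun y => Wm K' L⁻¹ R μ ν y / Mf K' ν y) (m.meas.div (measurable_Mf hν))
    fun y => div_nonneg (Wm_nonneg hR y) (Mf_pos hν hK' y).le).bm.const_mul L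
  set u : (ι → ℝ) → ℝ := fun y => L * min 2 (Wm K' L⁻¹ R μ ν y / Mf K' ν y) with hu
  have t := (mkQ hν hK hc).comp (mkA K')
  have iu : ∫ x, Ay K' u x ∂ν ≤ L * ((R + 4) * D + 6 / R * X) := by
    rw [int_Ay hν hK' b.mg]
    refine le_trans ?_ (mul_le_mul_of_nonneg_left e hL)
    rw [← IK_const_mul]
    refine IK_mono ((mg_Mf hν hK').mul b.mg) (m.const_mul L) fun y => ?_
    rw [hu, mul_left_comm]
    refine mul_le_mul_of_nonneg_left ((mul_le_mul_of_nonneg_left (min_le_right _ _)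
      (Mf_pos hν hK' y).le).trans_eq ?_) hL
    rw [mul_div_cancel₀ _ (Mf_pos hν hK' y).ne']
  have bP : ∀ {μ : Measure (ι → ℝ)}, Cp μ → ∀ x, Bm fun y => Ps μ L K' K c y x := fun {μ} hμ x =>
    ⟨mfst (Ps μ L K' K c) (meas_Ps hμ hL hK' hK hc) x, L, fun y =>
      (((mkQ hμ hK hc).comp (mkA K')).bd (bd_LS hμ hK' hL y)).le x⟩
  have key : ∀ x, |psiS μ L K' K c x - psiS ν L K' K c x| ≤
      L * δ x + Qs K c ν (Ay K' u) x + Ay K' u x := fun x => by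
    rw [psi_eq hμ hL hK' hK hc, psi_eq hν hL hK' hK hc]
    refine ((mkA K').abs_sub_le (bP hμ x) (bP hν x)
      ((Bm.const (L * δ x + Qs K c ν (Ay K' u) x)).add b) (fun y => ?_) x).trans_eq ?_
    · refine (abs_sub_le _ _ _).trans ((add_le_add (d3 L _ (cl_in hμ hν hL hK' hK y) x)
        (t.abs_sub_le (bd_LS hμ hK' hL y).bm (bd_LS hν hK' hL y).bm ((Bm.const (u y)).add b)
          (fun a => ?_) x)).trans_eq ?_)
      · rw [← mul_sub, abs_mul, abs_of_nonneg hL, hu, ← mul_add]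
        exact mul_le_mul_of_nonneg_left (Sg_diff hμ hν hK' hs hR y a) hL
      · have e1 := t.add (Bm.const (u y)) b x
        have e2 := t.const (u y) x
        rw [e1, e2]; ring
    · rw [(mkA K').add (.const _) b, (mkA K').const]
  have i1 := int_bm (d1.bm.const_mul L) ν
  have i2 := int_bm ((mkQ hν hK hc).bm (bm_Ay (K := K') b)) ν
  have i3 := int_bm (bm_Ay (K := K') b) ν
  refine (integral_mono (int_bm (bm_abs ((cl_psi hμ hν hL hK' hK hc).bd.bm.sub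
    (cl_psi hν hν hL hK' hK hc).bd.bm)) ν) ((i1.add i2).add i3) key).trans ?_
  have i12 : Integrable (fun x => L * δ x + Qs K c ν (Ay K' u) x) ν := i1.add i2
  simp only [Pi.add_apply]
  rw [integral_add i12 i3, integral_add i1 i2, staQ hν hK hc _ (bm_Ay b), integral_const_mul]
  have := mul_le_mul_of_nonneg_left (d2.trans (mul_le_mul_of_nonneg_left
    (mul_le_mul_of_nonneg_left hD' zero_le_two) hc)) hL
  linarith

end Crest.Agent.T157.Cq.S80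

end
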