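import Crest.Agent.T157.CqScB_80

/-!
# Row 157, part C: continuity of the scalars in the kernel discrepancy (helper80): `sclGlue`
-/

set_option autoImplicit false
set_option linter.unusedSectionVars false

noncomputable section

namespace Crest.Agent.T157.Cq.S80

open MeasureTheory ProbabilityTheory Matrix Filter Topology Finset Real
open Crest.Agent.T157.E Crest.Agent.T157.Cond Crest.Agent.T157.SL Crest.Agent.T157.Rec
open Crest.Agent.T157.St Crest.Agent.T157.St.A87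

variable {ι : Type*} [Fintype ι] [DecidableEq ι] {μ ν : Measure (ι → ℝ)} {P Y D X R η B C : ℝ}
  {f g v : (ι → ℝ) → ℝ}

/-! ### the mark -/

lemma cont_cut : Continuous cut := by unfold cut; fun_prop

lemma abs_cut (u : ℝ) : |cut u| ≤ 1 := by
  rw [cut, abs_of_nonneg (smoothTransition.nonneg _)]; exact smoothTransition.le_one _

lemma cut_sub (u w : ℝ) : |cut u - cut w| ≤ 1 := by
  have := smoothTransition.nonneg (2 - u)
  have := smoothTransition.nonneg (2 - w)
  have := smoothTransition.le_one (2 - u)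
  have := smoothTransition.le_one (2 - w)
  unfold cut
  exact abs_le.2 ⟨by linarith, by linarith⟩

lemma cut_zero {u : ℝ} (h : 2 ≤ u) : cut u = 0 := smoothTransition.zero_of_nonpos (by linarith)

lemma cut_near {ε : ℝ} (hε : 0 < ε) : ∃ C, 0 ≤ C ∧ ∀ a s r : ℝ, 0 ≤ a → 0 ≤ r →
    (∀ t, 0 ≤ t ^ 2 * a + t * s + r) → |cut a - cut (a + s + r)| ≤ ε + C * r := by
  obtain ⟨δ, d0, hδ⟩ := Metric.uniformContinuousOn_iff.1
    ((isCompact_Icc (a := (0 : ℝ)) (b := 6)).uniformContinuousOn_of_continuous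
      cont_cut.continuousOn) ε hε
  obtain ⟨u, u0, u1, u2⟩ : ∃ u : ℝ, 0 < u ∧ 10 * u ≤ δ ∧ 10 * u ≤ 1 :=
    ⟨min δ 1 / 10, by positivity, by linarith [min_le_left δ 1], by linarith [min_le_right δ 1]⟩
  refine ⟨(1 + u⁻¹) / u, by positivity, fun a s r ha hr h => ?_⟩
  rcases le_or_gt 1 ((1 + u⁻¹) / u * r) with h1 | h1
  · linarith [cut_sub a (a + s + r)]
  refine le_trans ?_ (le_add_of_nonneg_right (by positivity))
  rw [div_mul_eq_mul_div, div_lt_one u0, add_mul, one_mul] at h1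
  have e : r = u * (u⁻¹ * r) := by field_simp
  have p0 : 0 ≤ u⁻¹ * r := by positivity
  generalize u⁻¹ * r = p at *
  have b0 := h 1
  have b1 : 0 ≤ u * a + s + p := le_of_mul_le_mul_left (by have := h u; nlinarith) u0
  have b2 : 0 ≤ u * a - s + p := le_of_mul_le_mul_left (by have := h (-u); nlinarith) u0
  have b3 : u * a ≤ a / 10 := by nlinarith
  rcases le_or_gt a 5 with h5 | h5
  · have b4 : u * a ≤ 5 * u := by nlinarith
    refine (hδ a ⟨ha, by linarith⟩ _ ⟨by linarith, by linarith⟩ ?_).le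
    rw [Real.dist_eq, abs_lt]
    constructor <;> linarith
  · rw [cut_zero (by linarith), cut_zero (by linarith), sub_zero, abs_zero]; exact hε.le

lemma mg_q (M : Matrix ι ι ℝ) : MG fun z : ι → ℝ => z ⬝ᵥ M *ᵥ z :=
  MG.sum _ fun i _ => (mg_coord i).mul (MG.sum _ fun j _ => (mg_coord j).const_mul _)

lemma int_q (M : Matrix ι ι ℝ) : ∫ z, z ⬝ᵥ M *ᵥ z ∂gv ι = M.trace := by
  have e : ∀ z : ι → ℝ, z ⬝ᵥ M *ᵥ z = ∑ i, ∑ j, M i j * (z i * z j) := fun z => by
    simp only [mulVec, dotProduct, mul_sum, mul_left_comm]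
  have m := fun i j : ι => ((mg_coord i).mul (mg_coord j)).const_mul (M i j)
  simp only [e]
  rw [integral_finsetSum _ fun i _ => (MG.sum _ fun j _ => m i j).int]
  refine sum_congr rfl fun i _ => ?_
  rw [integral_finsetSum _ fun j _ => (m i j).int]
  simp only [integral_const_mul, int_coord_mul]
  simp

lemma bd_cut (M : Matrix ι ι ℝ) (l t : ℝ) :
    Bd 1 fun y : ι → ℝ => cut (l * ((t • y) ⬝ᵥ M *ᵥ (t • y))) :=
  ⟨(cont_cut.comp (by unfold mulVec dotProduct; fun_prop)).measurable, fun _ => abs_cut _⟩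

lemma mark (Z : ℝ) {ε : ℝ} (hε : 0 < ε) : ∃ K, 0 < K ∧
    ∀ (ι : Type) [Fintype ι] [DecidableEq ι] (M : Matrix ι ι ℝ) (l : ℝ), M.PosSemidef →
      M.trace ≤ Z → 0 ≤ l → l ≤ Z → ∃ ψ, Bd 1 ψ ∧
        ∀ x : ι → ℝ, |cut (l * (x ⬝ᵥ M *ᵥ x)) - Ay K ψ x| ≤ ε := by
  obtain ⟨C, C0, hC⟩ := cut_near (half_pos hε)
  obtain ⟨K, K0, hK⟩ : ∃ K : ℝ, 0 < K ∧ C * (K⁻¹ * Z ^ 2) ≤ ε / 2 := by
    refine ⟨C * Z ^ 2 / (ε / 2) + 1, by positivity, ?_⟩
    rw [mul_left_comm, inv_mul_le_iff₀ (by positivity), add_mul, div_mul_cancel₀ _ (by positivity)]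
    linarith
  refine ⟨K, K0, fun ι _ _ M l hM ht l0 l1 => ⟨_, bd_cut M l K⁻¹, fun x => ?_⟩⟩
  have q0 : ∀ y : ι → ℝ, 0 ≤ l * (y ⬝ᵥ M *ᵥ y) := fun y =>
    mul_nonneg l0 (by simpa using hM.dotProduct_mulVec_nonneg y)
  have key : ∀ z : ι → ℝ, |cut (l * (x ⬝ᵥ M *ᵥ x)) - cut (l * ((K⁻¹ • (K • x + √K • z)) ⬝ᵥ
      M *ᵥ (K⁻¹ • (K • x + √K • z))))| ≤ ε / 2 + C * (K⁻¹ * l) * (z ⬝ᵥ M *ᵥ z) := fun z => by
    have e : K⁻¹ • (K • x + √K • z) = x + (K⁻¹ * √K) • z := by
      rw [smul_add, smul_smul, smul_smul, inv_mul_cancel₀ K0.ne', one_smul]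
    have e2 : K⁻¹ * √K * (K⁻¹ * √K) = K⁻¹ := by
      rw [mul_mul_mul_comm, mul_self_sqrt K0.le, mul_assoc, inv_mul_cancel₀ K0.ne', mul_one]
    rw [e]
    set w := (K⁻¹ * √K) • z with hw
    have := hC _ (l * (x ⬝ᵥ M *ᵥ w + w ⬝ᵥ M *ᵥ x)) _ (q0 x) (q0 w) fun t =>
      (q0 (t • x + w)).trans_eq (by
        simp only [mulVec_add, mulVec_smul, add_dotProduct, dotProduct_add, smul_dotProduct,
          dotProduct_smul, smul_eq_mul]; ring)
    convert this using 2
    · simp only [mulVec_add, add_dotProduct, dotProduct_add]; ring_nf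
    · rw [hw, mulVec_smul, smul_dotProduct, dotProduct_smul, smul_eq_mul, smul_eq_mul,
        ← mul_assoc (K⁻¹ * √K), e2]; ring
  have i1 : Integrable (fun z : ι → ℝ => cut (l * ((K⁻¹ • (K • x + √K • z)) ⬝ᵥ
      M *ᵥ (K⁻¹ • (K • x + √K • z))))) (gv ι) := int_bd ((bd_cut M l K⁻¹).meas.comp
    (by fun_prop : Measurable fun z : ι → ℝ => K • x + √K • z)) (fun _ => abs_cut _) (gv ι)
  have i2 := (mg_q M).int.const_mul (C * (K⁻¹ * l))
  have e0 : cut (l * (x ⬝ᵥ M *ᵥ x)) = ∫ _, cut (l * (x ⬝ᵥ M *ᵥ x)) ∂gv ι := by simp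
  rw [e0, Ay, ← integral_sub (integrable_const _) i1]
  refine (abs_integral_le_integral_abs.trans (integral_mono ((integrable_const _).sub i1).abs
    ((integrable_const (ε / 2)).add i2) key)).trans ?_
  simp only [Pi.add_apply]
  rw [integral_add (integrable_const _) i2, integral_const_mul, int_q]
  have h1 : l * M.trace ≤ Z ^ 2 := by nlinarith
  have h2 := mul_le_mul_of_nonneg_left (mul_le_mul_of_nonneg_left h1 (inv_nonneg.2 K0.le)) C0
  simp only [integral_const, probReal_univ, smul_eq_mul, one_mul, mul_assoc]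
  linarith

/-! ### expressions -/

lemma one_le_sz : ∀ e : SE, e.Adm → 1 ≤ e.sz
  | .var, _ => le_rfl
  | .psi _ _ _ _, h => by obtain ⟨a, b, c, d⟩ := h; simp only [SE.sz]; linarith
  | .const a, _ => le_add_of_nonneg_left (abs_nonneg a)
  | .add e e', h => by simp only [SE.sz]; linarith [one_le_sz e h.1, one_le_sz e' h.2]
  | .mul e e', h => by simp only [SE.sz]; linarith [one_le_sz e h.1, one_le_sz e' h.2]
  | .T K e, h => by simp only [SE.sz]; linarith [one_le_sz e h.2, h.1]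
  | .Q K c e, h => by simp only [SE.sz]; linarith [one_le_sz e h.2.2, h.1, h.2.1]

lemma two_exp {a b s : ℝ} (ha : a + 1 ≤ s) (hb : b + 1 ≤ s) : exp a + exp b ≤ exp s := by
  have h1 := exp_le_exp.2 (le_sub_iff_add_le.2 ha)
  have h2 := exp_le_exp.2 (le_sub_iff_add_le.2 hb)
  have h3 := mul_le_mul_of_nonneg_right (add_one_le_exp 1) (exp_pos (s - 1)).le
  rw [← exp_add, add_sub_cancel] at h3
  linarith

lemma le_exp {a s : ℝ} (h : a ≤ s) : a ≤ exp s := by linarith [add_one_le_exp s]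

lemma mul_le_exp {a b s t : ℝ} (ha : a ≤ exp s) (hb : b ≤ exp t) (h0 : 0 ≤ b) :
    a * b ≤ exp (s + t) := (mul_le_mul ha hb h0 (exp_pos _).le).trans_eq (exp_add _ _).symm

lemma ev_cl (hμ : Cp μ) (hν : Cp ν) (hP : 2 ≤ P) (hv : Cl μ ν P 1 v) :
    ∀ e : SE, e.Adm → Cl μ ν (P * e.sz) (exp e.sz) (e.ev μ v)
  | .var, _ => by simpa only [SE.sz, SE.ev, mul_one] using hv.monoB (le_exp le_rfl)
  | .psi L K' K c, h => by
    obtain ⟨a, b, c, d⟩ := h
    exact ((cl_psi hμ hν (by linarith) b.le c.le d).mono hμ hν (by positivity)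
      (by simp only [SE.sz]; nlinarith)).monoB (le_exp (by simp only [SE.sz]; linarith))
  | .const a, _ => ((Cl.const a).mono hμ hν le_rfl (by simp only [SE.sz]; positivity)).monoB
      (le_exp (le_add_of_nonneg_right zero_le_one))
  | .add e e', h => by
    have a := one_le_sz e h.1
    have b := one_le_sz e' h.2
    exact (((ev_cl hμ hν hP hv e h.1).mono hμ hν (by positivity)
      (by simp only [SE.sz]; nlinarith)).add hμ hν ((ev_cl hμ hν hP hv e' h.2).mono hμ hν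
      (by positivity) (by simp only [SE.sz]; nlinarith))).monoB
      (two_exp (by simp only [SE.sz]; linarith) (by simp only [SE.sz]; linarith))
  | .mul e e', h => by
    have a := one_le_sz e h.1
    have b := one_le_sz e' h.2
    exact (((ev_cl hμ hν hP hv e h.1).mul hμ hν (by positivity) (by positivity)
      (ev_cl hμ hν hP hv e' h.2)).mono hμ hν (by positivity)
      (by simp only [SE.sz]; nlinarith)).monoB ((exp_add _ _).ge.trans
      (exp_le_exp.2 (le_add_of_nonneg_right zero_le_one)))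
  | .T K e, h => by
    have a := one_le_sz e h.2
    have b := h.1
    exact ((Cl.ay hμ hν b.le ((mkP hμ b.le).bd (ev_cl hμ hν hP hv e h.2).bd)).mono hμ hν b.le
      (by simp only [SE.sz]; nlinarith)).monoB (exp_le_exp.2 (by simp only [SE.sz]; linarith))
  | .Q K c e, h => by
    have a := one_le_sz e h.2.2
    have b := h.1
    have d := h.2.1
    exact (((ev_cl hμ hν hP hv e h.2.2).mono hμ hν (by positivity)
      (by simp only [SE.sz]; nlinarith)).qs hμ hν b.le d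
      (by simp only [SE.sz]; nlinarith)).monoB (exp_le_exp.2 (by simp only [SE.sz]; linarith))

lemma rel_self : Rel ν f f = 0 := by simp [Rel]

lemma rel_le (hν : Cp ν) {f' g' h h' : (ι → ℝ) → ℝ} (a : Bm f) (a' : Bm f') (b : Bm g) (b' : Bm g')
    (d : Bm h) (d' : Bm h') (e : ∀ x, |h x - h' x| ≤ B * |f x - f' x| + C * |g x - g' x|) :
    Rel ν h h' ≤ B * Rel ν f f' + C * Rel ν g g' := by
  have := hν.prob
  have i1 := (int_bm (bm_abs (a.sub a')) ν).const_mul B
  have i2 := (int_bm (bm_abs (b.sub b')) ν).const_mul C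
  refine (integral_mono (int_bm (bm_abs (d.sub d')) ν) (i1.add i2) e).trans_eq ?_
  simp only [Pi.add_apply]
  rw [integral_add i1 i2, integral_const_mul, integral_const_mul]; rfl

lemma ev_rel (hμ : Cp μ) (hν : Cp ν) (hP : 2 ≤ P) (hv : Cl μ ν P 1 v) (hv' : Cl ν ν P 1 v)
    (hR : 0 < R) (hD : ∀ t, 0 ≤ t → t ≤ P * Y + Y + 1 → √(D2 t μ ν) ≤ D)
    (x1 : ∀ t, 0 ≤ t → t ≤ Y + 1 → √(Xk t μ μ) ≤ X) (x2 : ∀ t, 0 ≤ t → t ≤ Y + 1 → √(Xk t ν ν) ≤ X)
    (h0 : 0 ≤ η) (h1 : D ≤ η) (h2 : 2 * ((R + 4) * D + 6 / R * X) ≤ η) :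
    ∀ e : SE, e.Adm → e.sz ≤ Y → Rel ν (e.ev μ v) (e.ev ν v) ≤ exp (3 * e.sz) * η
  | .var, _, _ => rel_self.trans_le (by positivity)
  | .const a, _, _ => rel_self.trans_le (by positivity)
  | .psi L K' K c, h, s => by
    obtain ⟨a, b, c', d⟩ := h
    simp only [SE.sz] at s ⊢
    have l0 : 0 ≤ L := by linarith
    have l1 := inv_le_one_of_one_le₀ a
    have l2 := add_nonneg b.le (inv_nonneg.2 l0)
    have y0 : 2 * Y ≤ P * Y := by nlinarith
    refine (rel_psi hμ hν l0 b.le c'.le d hR (hD _ l2 (by linarith))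
      (hD _ (by positivity) (by linarith)) (x1 _ l2 (by linarith)) (x2 _ l2 (by linarith))).trans ?_
    have e1 : c * (2 * D) ≤ c * (2 * η) := by gcongr
    have e2 := (mul_le_exp (le_exp (le_refl L)) (add_one_le_exp (2 * c)) (by positivity)).trans
      (exp_le_exp.2 (by linarith : L + 2 * c ≤ 3 * (L + K' + K + c + 1)))
    refine le_trans ?_ (mul_le_mul_of_nonneg_right e2 h0)
    rw [mul_assoc]
    exact mul_le_mul_of_nonneg_left (by linarith) l0
  | .add e e', h, s => by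
    have a := one_le_sz e h.1
    have b := one_le_sz e' h.2
    simp only [SE.sz] at s ⊢
    have r1 := ev_rel hμ hν hP hv hv' hR hD x1 x2 h0 h1 h2 e h.1 (by linarith)
    have r2 := ev_rel hμ hν hP hv hv' hR hD x1 x2 h0 h1 h2 e' h.2 (by linarith)
    have c1 := (ev_cl hμ hν hP hv e h.1).bd.bm
    have c2 := (ev_cl hμ hν hP hv e' h.2).bd.bm
    have c3 := (ev_cl hν hν hP hv' e h.1).bd.bm
    have c4 := (ev_cl hν hν hP hv' e' h.2).bd.bm
    refine (rel_le hν (B := 1) (C := 1) c1 c3 c2 c4 (c1.add c2) (c3.add c4) fun x => ?_).trans ?_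
    · rw [one_mul, one_mul, add_sub_add_comm]; exact abs_add_le _ _
    · have := mul_le_mul_of_nonneg_right (two_exp (s := 3 * (e.sz + e'.sz + 1))
        (a := 3 * e.sz) (b := 3 * e'.sz) (by linarith) (by linarith)) h0
      linarith
  | .mul e e', h, s => by
    have a := one_le_sz e h.1
    have b := one_le_sz e' h.2
    simp only [SE.sz] at s ⊢
    have r1 := ev_rel hμ hν hP hv hv' hR hD x1 x2 h0 h1 h2 e h.1 (by linarith)
    have r2 := ev_rel hμ hν hP hv hv' hR hD x1 x2 h0 h1 h2 e' h.2 (by linarith)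
    have c1 := (ev_cl hμ hν hP hv e h.1).bd
    have c2 := (ev_cl hμ hν hP hv e' h.2).bd
    have c3 := (ev_cl hν hν hP hv' e h.1).bd
    have c4 := (ev_cl hν hν hP hv' e' h.2).bd
    refine (rel_le hν (B := exp e'.sz) (C := exp e.sz) c1.bm c3.bm c2.bm c4.bm (c1.bm.mul c2.bm)
      (c3.bm.mul c4.bm) fun x => ?_).trans ?_
    · have : e.ev μ v x * e'.ev μ v x - e.ev ν v x * e'.ev ν v x = e'.ev μ v x *
          (e.ev μ v x - e.ev ν v x) + e.ev ν v x * (e'.ev μ v x - e'.ev ν v x) := by ring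
      rw [this]
      refine (abs_add_le _ _).trans ?_
      rw [abs_mul, abs_mul]
      exact add_le_add (mul_le_mul_of_nonneg_right (c2.le x) (abs_nonneg _))
        (mul_le_mul_of_nonneg_right (c3.le x) (abs_nonneg _))
    · have := mul_le_mul_of_nonneg_right (two_exp (s := 3 * (e.sz + e'.sz + 1))
        (a := e'.sz + 3 * e.sz) (b := e.sz + 3 * e'.sz) (by linarith) (by linarith)) h0
      have t1 := mul_le_mul_of_nonneg_left r1 (exp_pos e'.sz).le
      have t2 := mul_le_mul_of_nonneg_left r2 (exp_pos e.sz).le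
      rw [exp_add, exp_add] at this
      linarith
  | .T K e, h, s => by
    have a := one_le_sz e h.2
    have b := h.1
    simp only [SE.sz] at s ⊢
    have r1 := ev_rel hμ hν hP hv hv' hR hD x1 x2 h0 h1 h2 e h.2 (by linarith)
    have k0 : 0 ≤ P * e.sz := by positivity
    have d := (hD (K + P * e.sz) (by positivity) (by nlinarith)).trans h1
    refine (((dfT hμ hν b.le k0).mono (mul_le_mul_of_nonneg_left d zero_le_two)).rel hν
      (mkT hμ b.le) (mkT hν b.le) (staT hν b.le) (ev_cl hμ hν hP hv e h.2)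
      (ev_cl hν hν hP hv' e h.2).bd.bm).trans ?_
    have := mul_le_mul_of_nonneg_right (two_exp (s := 3 * (K + e.sz + 1))
      (a := e.sz + 2) (b := 3 * e.sz) (by linarith) (by linarith)) h0
    have t1 := mul_le_mul_of_nonneg_right (mul_le_exp (le_refl (exp e.sz)) (le_exp (le_refl 2))
      zero_le_two) h0
    linarith
  | .Q K c e, h, s => by
    have a := one_le_sz e h.2.2
    have b := h.1
    have c0 := h.2.1
    simp only [SE.sz] at s ⊢
    have r1 := ev_rel hμ hν hP hv hv' hR hD x1 x2 h0 h1 h2 e h.2.2 (by linarith)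
    have d := (hD (K + P * (K + e.sz)) (by positivity) (by nlinarith)).trans h1
    refine (((dfQ hμ hν b.le c0 (k := P * (K + e.sz)) (by nlinarith)).mono
      (mul_le_mul_of_nonneg_left (mul_le_mul_of_nonneg_left d zero_le_two) c0)).rel hν
      (mkQ hμ b.le c0) (mkQ hν b.le c0) (staQ hν b.le c0) ((ev_cl hμ hν hP hv e h.2.2).mono hμ hν
      (by positivity) (by nlinarith)) (ev_cl hν hν hP hv' e h.2.2).bd.bm).trans ?_
    have := mul_le_mul_of_nonneg_right (two_exp (s := 3 * (K + c + e.sz + 1))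
      (a := e.sz + 2 * c) (b := 3 * e.sz) (by linarith) (by linarith)) h0
    have t1 := mul_le_mul_of_nonneg_right (mul_le_exp (le_refl (exp e.sz))
      (le_exp (le_refl (2 * c))) (by positivity)) h0
    linarith

lemma int_near {m a : (ι → ℝ) → ℝ} (hν : Cp ν) (bm : Bm m) (ba : Bm a) (bf : Bd C f)
    (h : ∀ x, |m x - a x| ≤ η) : |∫ x, m x * f x ∂ν - ∫ x, a x * f x ∂ν| ≤ C * η := by
  have := hν.prob
  rw [← integral_sub (int_bm (bm.mul bf.bm) _) (int_bm (ba.mul bf.bm) _)]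
  refine abs_int_le (fun x => ?_) _
  rw [← sub_mul, abs_mul, mul_comm]
  exact mul_le_mul (bf.le x) (h x) (abs_nonneg _) bf.nonneg

lemma int_rel {m : (ι → ℝ) → ℝ} (hν : Cp ν) (bm : Bd 1 m) (bf : Bm f) (bg : Bm g) :
    |∫ x, m x * f x ∂ν - ∫ x, m x * g x ∂ν| ≤ Rel ν f g := by
  have := hν.prob
  rw [← integral_sub (int_bm (bm.bm.mul bf) _) (int_bm (bm.bm.mul bg) _)]
  refine norm_integral_le_of_norm_le (f := fun x => m x * f x - m x * g x)
    (int_bm (bm_abs (bf.sub bg)) ν) (.of_forall fun x => ?_)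
  rw [Real.norm_eq_abs, ← mul_sub, abs_mul]
  exact mul_le_of_le_one_left (abs_nonneg _) (bm.le x)

theorem scl : SclStmt := by
  intro Z ε hε
  classical
  obtain ⟨η, h0, hη⟩ : ∃ η : ℝ, 0 < η ∧ exp (3 * |Z|) * η = ε / 4 :=
    ⟨ε / 4 / exp (3 * |Z|), by positivity, by field_simp⟩
  obtain ⟨K, K0, hK⟩ := mark Z h0
  have z0 := abs_nonneg Z
  have z1 := le_abs_self Z
  set Y := |Z|
  refine ⟨K + ((Y + 2) * Y + Y + 1), by positivity, fun B => ?_⟩
  set R := 24 * √B / η + 1 with hR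
  have R0 : 0 < R := by positivity
  set D := η / (4 * (R + 4)) with hD
  have D0 : 0 < D := by positivity
  have d1 : (R + 4) * D = η / 4 := by rw [hD]; field_simp
  have d2 : 6 / R * √B ≤ η / 4 := by
    rw [div_mul_eq_mul_div, div_le_iff₀ R0, hR, mul_add, div_mul_div_comm, mul_comm 4,
      mul_div_mul_left _ _ h0.ne']
    linarith
  have d3 : D ≤ η := by nlinarith
  refine ⟨D ^ 2, by positivity, fun ι _ μ ν hμ hν x1 x2 hd M l K₁ φ e hM ht l0 l1 k0 k1 hφ he s => ?_⟩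
  obtain ⟨ψ, b, hψ⟩ := hK ι M l hM ht l0 l1
  have hP : 2 ≤ Y + 2 := by linarith
  have yy : 0 ≤ (Y + 2) * Y := by positivity
  have hv : ∀ {μ : Measure (ι → ℝ)}, Cp μ → Cl μ ν (Y + 2) 1 (Sm K₁ φ) := fun hμ =>
    (Cl.ay hμ hν k0.le ⟨hφ.1, hφ.2⟩).mono hμ hν k0.le (by linarith)
  have hD' : ∀ t, 0 ≤ t → t ≤ K + ((Y + 2) * Y + Y + 1) → √(D2 t μ ν) ≤ D := fun t t0 t1 =>
    sqrt_le_iff.2 ⟨D0.le, (D2_mono hμ hν t0 t1).trans hd⟩
  have r := ev_rel hμ hν hP (hv hμ) (hv hν) R0 (Y := Y) (fun t t0 t1 => hD' t t0 (by linarith))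
    (fun t t0 t1 => sqrt_le_sqrt ((Xk_mono hμ t0 (by linarith)).trans x1))
    (fun t t0 t1 => sqrt_le_sqrt ((Xk_mono hν t0 (by linarith)).trans x2)) h0.le d3 (by linarith)
    e he (s.trans z1)
  have s1 := one_le_sz e he
  have c1 := ev_cl hμ hν hP (hv hμ) e he
  have c2 := ev_cl hν hν hP (hv hν) e he
  have bc : Bd 1 fun x : ι → ℝ => cut (l * (x ⬝ᵥ M *ᵥ x)) := by
    simpa only [one_smul] using bd_cut M l 1
  have ba := ((mkA K).bd b).bm
  have t1 := int_near hμ bc.bm ba c1.bd hψ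
  have t2 := ((Cl.ay hμ hν K0.le b).mul hμ hν K0.le (by positivity) c1).int_le hμ hν
    (by positivity)
  have t3 := int_near hν bc.bm ba c1.bd hψ
  have t4 := int_rel hν bc c1.bd.bm c2.bd.bm
  have u1 := mul_le_mul_of_nonneg_left ((hD' (K + (Y + 2) * e.sz) (by positivity)
    (by nlinarith)).trans d3) (exp_pos e.sz).le
  have u2 := mul_le_mul_of_nonneg_right (exp_le_exp.2 (by linarith : e.sz ≤ 3 * Y)) h0.le
  have u3 := mul_le_mul_of_nonneg_right (exp_le_exp.2 (by linarith : 3 * e.sz ≤ 3 * Y)) h0.le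
  rw [abs_le] at t1 t2 t3 t4 ⊢
  unfold mk
  constructor <;> linarith [t1.1, t1.2, t2.1, t2.2, t3.1, t3.2, t4.1, t4.2]

end Crest.Agent.T157.Cq.S80

namespace Crest.Agent.T157.Cq

theorem sclStmt : SclStmt := S80.scl

theorem sclGlue : SclGlue := fun _ => S80.scl

end Crest.Agent.T157.Cq

end
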