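import Crest.Agent.T157.CqI12_6

/-!
# Row 157, part C: (SG) for Gaussian couplings (helper6)

`Q1.LdB false` is `Q1.ldB_gauss` (file `Q1G_63`).
-/

set_option autoImplicit false

namespace Crest.Agent.T157.Cq

theorem sgGlue_of (h : Q1.LdB false) : SgGlue := fun _ hk hB hI => Sg6.sg_of hk hB h hI

end Crest.Agent.T157.Cq
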