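import Crest.Agent.T157.CqEv_79

/-!
# Row 157, part C: the semigroup comparison for coin couplings (helper79)
-/

set_option autoImplicit false

noncomputable section

namespace Crest.Agent.T157.Cq.Ev79

open MeasureTheory Finset Matrix Filter Topology
open Crest.ProbabilityR.SpinGlassDynamics Crest.Agent.T157.E
open Crest.Agent.T157.Sg (sq2 ipV nv)
open Crest.Agent.T157.St (hat muG Tk)
open Crest.Agent.T157.Tr (Off)
open Crest.Agent.T157.Un

variable {ι : ℕ → Type} [∀ n, Fintype (ι n)] {u : VF ι} {K σ : ℝ}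

/-- distance between the heat flow and the static flow -/
def DD (hK : 0 ≤ K) (σ : ℝ) (u : VF ι) (r : ℝ) : Fam := nS (HS r u - QS (chn_hat hK) (σ * r) u)

lemma DD_ap (hK : 0 ≤ K) (hσ : 0 ≤ σ) (h : La u) {r : ℝ} (hr : 0 ≤ r) :
    Ap fun n g => DD hK σ u r n g ^ 2 := by
  have a := (h.H hr).sub (h.Q (chn_hat hK) (mul_nonneg hσ hr))
  exact (a.ip a).congr (.of_forall fun n g => (ipS_self n g).symm)

lemma DD_time (hK : 0 ≤ K) (hσ : 0 ≤ σ) (u : VF ι) {n : ℕ} (hn : 0 < n) (g : Pair n → ℝ)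
    {r r' r₁ : ℝ} (h0 : 0 < r₁) (hr : r₁ ≤ r) (hr' : r₁ ≤ r') :
    DD hK σ u r n g ≤ DD hK σ u r' n g + |r - r'| * (2 / r₁ * nS u n g) := by
  have a1 : nv (prob (gw n g)) (HS r u n g - HS r' u n g) ≤ |r - r'| / r₁ * nS u n g := by
    rw [HS_eq hn, HS_eq hn, Soft.tau_eq, Soft.tau_eq]
    exact nv_HV_time (Soft.ch hn g) (by positivity) h0 hr hr' _
  have a2 : nv (prob (gw n g)) (QS (chn_hat hK) (σ * r') u n g - QS (chn_hat hK) (σ * r) u n g) ≤
      |r' - r| / r₁ * nS u n g := nv_HV_time (stc (chn_hat hK) n g) hσ h0 hr' hr _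
  have a3 := Sg.nv_tri (isP g) (HS r u n g) (HS r' u n g) (QS (chn_hat hK) (σ * r) u n g)
  have a4 := Sg.nv_tri (isP g) (HS r' u n g) (QS (chn_hat hK) (σ * r') u n g)
    (QS (chn_hat hK) (σ * r) u n g)
  rw [abs_sub_comm] at a2
  have e : |r - r'| * (2 / r₁ * nS u n g) = |r - r'| / r₁ * nS u n g + |r - r'| / r₁ * nS u n g := by
    ring
  simp only [DD, nS, Pi.sub_apply] at *
  linarith

lemma sg1_sum (hK : 0 ≤ K) (σ r : ℝ) (f : ∀ n, (Pair n → ℝ) → ι n → (Fin n → ℝ) → ℝ) (n : ℕ)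
    (g : Pair n → ℝ) : ∑ i, Sg1 n g K (σ * r) r (f n g i) =
      DD hK σ (fun n g i x => f n g i (hat n x)) r n g ^ 2 := by
  rw [DD, nS, Sg.nv_sq (isP g), ipV]
  refine sum_congr rfl fun i _ => ?_
  simp only [Sg1, muG, Top72.Qs_dm (gw_pos g) hK, sq]
  rfl

lemma sg1_ev (hK : 0 ≤ K) (σ r : ℝ) (e : SE) (n : ℕ) (g : Pair n → ℝ) :
    Sg1 n g K (σ * r) r (e.ev (muG n g) 0) = DD hK σ (EV e) r n g ^ 2 := by
  have := sg1_sum (ι := fun _ => Unit) hK σ r (fun n g _ => e.ev (muG n g) 0) n g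
  rwa [Fintype.sum_unique] at this

/-- **(SG) passes from Gaussian couplings to coins** -/
theorem sg_coin {k : ℝ} (hk : 0 < k) (h : SgStmt false k) (b : Bool) : SgStmt b k :=
  fun r₁ r₂ B K' δ ε hr hK' hδ hε => by
  classical
  obtain ⟨K₀, K0, hK₀⟩ := h r₁ r₂ B K' (δ / 9) (ε / 8) hr hK' (by positivity) (by positivity)
  refine ⟨K₀, K0, fun K hK S hS => ?_⟩
  have k0 : 0 ≤ K := K0.le.trans hK
  have s0 : 0 ≤ k * K := by positivity
  have l1 : La (TH K') := (th_pc hK'.le).lc.la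
  have l2 : ∀ e : {e // e ∈ S}, La (EV e.1) := fun e => (ev_pa _ (hS _ e.2).1).la
  have e1 : ∀ r n g, ∑ i, Sg1 n g K (k * K * r) r (Tk K' (muG n g) fun x => x i) =
      DD k0 (k * K) (TH K') r n g ^ 2 := fun r n g =>
    sg1_sum (ι := Fin) k0 _ r (fun n g i => Tk K' (muG n g) fun x => x i) n g
  have c0 : 0 ≤ 2 / r₁ := by positivity
  have n0 : ∀ n g, 0 ≤ ∑ e : {e // e ∈ S}, nS (EV e.1) n g := fun n g =>
    sum_nonneg fun _ _ => Sg.nv_nonneg _
  refine (grid (I := Option {e // e ∈ S}) (r₁ := r₁) (r₂ := r₂)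
    (D := fun o r => o.elim (DD k0 (k * K) (TH K') r) fun e => DD k0 (k * K) (EV e.1) r)
    (M := fun n g => 2 / r₁ * (nS (TH K') n g + ∑ e : {e // e ∈ S}, nS (EV e.1) n g)) hδ hε
    ?_ ?_ (fun b => (Tight.const _).mul ((l1.tight b).add (tight_sum _ fun e _ => (l2 e).tight b))
      (fun _ _ => c0) fun n g => add_nonneg (Sg.nv_nonneg _) (n0 n g)) ?_
    ((hK₀ K hK S hS).imp fun n g a r hr' o => ?_) b).imp fun n g a r hr' => ⟨fun e he => ?_, ?_⟩
  · rintro (_ | e) r hr'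
    exacts [DD_ap k0 s0 l1 (hr.le.trans hr'.1), DD_ap k0 s0 (l2 e) (hr.le.trans hr'.1)]
  · rintro (_ | e) r n g <;> exact Sg.nv_nonneg _
  · filter_upwards [eventually_gt_atTop 0] with n hn g o r h1 r' h2
    rcases o with _ | e
    · refine (DD_time k0 s0 _ hn g hr h1.1 h2.1).trans (add_le_add le_rfl ?_)
      exact mul_le_mul_of_nonneg_left (mul_le_mul_of_nonneg_left (le_add_of_nonneg_right (n0 n g)) c0)
        (abs_nonneg _)
    · refine (DD_time k0 s0 _ hn g hr h1.1 h2.1).trans (add_le_add le_rfl ?_)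
      refine mul_le_mul_of_nonneg_left (mul_le_mul_of_nonneg_left (le_add_of_nonneg_of_le
        (Sg.nv_nonneg _) ?_) c0) (abs_nonneg _)
      exact single_le_sum (f := fun e : {e // e ∈ S} => nS (EV e.1) n g)
        (fun _ _ => Sg.nv_nonneg _) (mem_univ e)
  · rcases o with _ | e
    · exact (e1 r n g).ge.trans (a r hr').2
    · exact (sg1_ev k0 _ r e.1 n g).ge.trans ((a r hr').1 e.1 e.2)
  · exact (sg1_ev k0 _ r e n g).trans_le (a r hr' (some ⟨e, he⟩))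
  · exact (e1 r n g).trans_le (a r hr' none)

end Crest.Agent.T157.Cq.Ev79

namespace Crest.Agent.T157.Cq

theorem sgCoin_of (h : SgGlue) : SgCoin := fun k hk hB hI => Ev79.sg_coin hk (h k hk hB hI) true

end Crest.Agent.T157.Cq

end
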