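import Crest.Agent.T157.StSph_38

/-!
# Row 157, part C (helper44): soft sphere versus sphere, generic lemmas
-/

set_option autoImplicit false

noncomputable section

namespace Crest.Agent.T157.Cq.Soft44

open MeasureTheory ProbabilityTheory Matrix Filter Topology Finset Real Set
open scoped ENNReal
open Crest.Agent.T157.E Crest.Agent.T157.Cond Crest.Agent.T157.St Crest.Agent.T157.St.Sph38

variable {ι : Type} [Fintype ι]

/-- radial projection on the sphere `|x|² = t` -/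
def sp (t : ℝ) (x : ι → ℝ) : ι → ℝ := √t • unitv x
/-- the energy -/
def Q (η x : ι → ℝ) : ℝ := -(1 / 2) * ∑ k, η k * x k ^ 2
/-- radial integral -/
def cH (ι : Type) [Fintype ι] (H : ℝ → ℝ≥0∞) : ℝ≥0∞ :=
  ∫⁻ r in Ioi (0 : ℝ), ENNReal.ofReal (kap ι * r ^ (Fintype.card ι - 1)) * H (r ^ 2)
/-- the kernel integral -/
def XL (θ : ℝ) (μ ν : Measure (ι → ℝ)) : ℝ≥0∞ :=
  ∫⁻ x, ∫⁻ x', ENNReal.ofReal (exp (θ * (x ⬝ᵥ x'))) ∂ν ∂μ

@[fun_prop] lemma meas_sp (t : ℝ) : Measurable (sp (ι := ι) t) := meas_unit _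
@[fun_prop] lemma meas_Q (η : ι → ℝ) : Measurable (Q η) := by unfold Q; fun_prop

lemma fac [Nonempty ι] (t : ℝ) {H : ℝ → ℝ≥0∞} {G : (ι → ℝ) → ℝ≥0∞} (hH : Measurable H)
    (hG : Measurable G) : ∫⁻ x, H (x ⬝ᵥ x) * G (sp t x) = cH ι H * ∫⁻ x, G x ∂sphR ι √t := by
  rw [lintegral_polar (by fun_prop), cH, ← lintegral_mul_const _ (by fun_prop), lintegral_sphR _ hG]
  refine setLIntegral_congr_fun measurableSet_Ioi fun r hr => ?_
  rw [mul_assoc]
  congr 1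
  rw [← lintegral_const_mul _ (by fun_prop)]
  refine lintegral_congr_ae ((sphR_ae (ι := ι) 1).mono fun x hx => ?_)
  rw [one_pow] at hx
  simp only [sp]
  rw [dot_smul, hx, mul_one, unitv_smul hr hx]

lemma Q_smul (η x : ι → ℝ) (r : ℝ) : Q η (r • x) = r ^ 2 * Q η x := by
  simp only [Q, Pi.smul_apply, smul_eq_mul, mul_pow, mul_sum]
  exact sum_congr rfl fun k _ => by ring

lemma unit_le (x : ι → ℝ) : unitv x ⬝ᵥ unitv x ≤ 1 := by
  rcases unitv_cases x with h | h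
  · exact h.le
  · simp [h]

lemma Q_cmp {η : ι → ℝ} {M t : ℝ} (hM0 : 0 ≤ M) (hM : ∀ k, |η k| ≤ M) (ht : 0 ≤ t) (x : ι → ℝ) :
    |Q η x - Q η (sp t x)| ≤ M / 2 * |x ⬝ᵥ x - t| := by
  have h1 : |Q η (unitv x)| ≤ M / 2 := by
    rw [Q, abs_mul, abs_neg, abs_of_pos (by norm_num : (0 : ℝ) < 1 / 2)]
    have : |∑ k, η k * unitv x k ^ 2| ≤ M * (unitv x ⬝ᵥ unitv x) := by
      rw [dotProduct, mul_sum]
      refine (abs_sum_le_sum_abs _ _).trans (sum_le_sum fun k _ => ?_)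
      rw [abs_mul, abs_sq, sq]
      exact mul_le_mul_of_nonneg_right (hM k) (mul_self_nonneg _)
    nlinarith [unit_le x]
  conv_lhs => rw [← len_smul_unitv x, sp, len_smul_unitv x, ← len_smul_unitv x]
  rw [Q_smul, len_smul_unitv, Q_smul, len_sq, sq_sqrt ht, ← sub_mul, abs_mul, mul_comm]
  exact mul_le_mul_of_nonneg_right h1 (abs_nonneg _)

lemma dot_le_half (x y : ι → ℝ) : |x ⬝ᵥ y| ≤ (x ⬝ᵥ x + y ⬝ᵥ y) / 2 := by
  have h1 := dot_self_nonneg (x - y)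
  have h2 := dot_self_nonneg (x + y)
  simp only [sub_dotProduct, dotProduct_sub, add_dotProduct, dotProduct_add,
    dotProduct_comm y x] at h1 h2
  rw [abs_le]; constructor <;> linarith

lemma dot_cmp {t δ : ℝ} (ht : 0 ≤ t) {x y : ι → ℝ} (hx : |x ⬝ᵥ x - t| ≤ δ)
    (hy : |y ⬝ᵥ y - t| ≤ δ) : |x ⬝ᵥ y - sp t x ⬝ᵥ sp t y| ≤ δ := by
  have h1 : |unitv x ⬝ᵥ unitv y| ≤ 1 :=
    (dot_le_half _ _).trans (by linarith [unit_le x, unit_le y])
  have e : x ⬝ᵥ y - sp t x ⬝ᵥ sp t y = (len x * len y - t) * (unitv x ⬝ᵥ unitv y) := by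
    have e1 : x ⬝ᵥ y = (len x • unitv x) ⬝ᵥ (len y • unitv y) := by
      rw [len_smul_unitv, len_smul_unitv]
    rw [e1, sp, sp]
    simp only [smul_dotProduct, dotProduct_smul, smul_eq_mul]
    have := mul_self_sqrt ht
    linear_combination (-(unitv x ⬝ᵥ unitv y)) * this
  have h2 : |len x * len y - t| ≤ δ := by
    rw [← len_sq, abs_le] at hx hy
    have a := len_nonneg x
    have b := len_nonneg y
    rw [abs_le]
    constructor
    · rcases le_total (len x) (len y) with h | h <;> nlinarith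
    · nlinarith [sq_nonneg (len x - len y)]
  rw [e, abs_mul]
  exact (mul_le_of_le_one_right (abs_nonneg _) h1).trans h2

lemma sp_self {t : ℝ} {y : ι → ℝ} (hy : y ⬝ᵥ y = t) : sp t y = y := by
  rw [sp, ← hy]; exact len_smul_unitv y

lemma XL_le {θ R : ℝ} (hθ : 0 ≤ θ) {μ ν : Measure (ι → ℝ)} [IsProbabilityMeasure μ]
    [IsProbabilityMeasure ν] (hμ : ∀ᵐ x ∂μ, x ⬝ᵥ x ≤ R) (hν : ∀ᵐ x ∂ν, x ⬝ᵥ x ≤ R) :
    XL θ μ ν ≠ ∞ ∧ Xk θ μ ν = (XL θ μ ν).toReal := by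
  have h1 : ∀ᵐ x ∂μ, ∫⁻ x', ENNReal.ofReal (exp (θ * (x ⬝ᵥ x'))) ∂ν ≤
      ENNReal.ofReal (exp (θ * R)) := hμ.mono fun x hx => by
    refine (lintegral_mono_ae (g := fun _ => ENNReal.ofReal (exp (θ * R)))
      (hν.mono fun y hy => ?_)).trans_eq (by simp)
    have := (le_abs_self _).trans (dot_le_half x y)
    gcongr
    linarith
  refine ⟨ne_top_of_le_ne_top (ENNReal.ofReal_ne_top (r := exp (θ * R)))
    ((lintegral_mono_ae h1).trans_eq (by simp)), ?_⟩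
  rw [Xk, XL, ← integral_toReal (Measurable.lintegral_prod_right (by fun_prop)).aemeasurable
    (h1.mono fun x hx => hx.trans_lt ENNReal.ofReal_lt_top)]
  refine integral_congr_ae (.of_forall fun x => ?_)
  exact integral_eq_lintegral_of_nonneg_ae (.of_forall fun y => (exp_pos _).le)
    (Measurable.aestronglyMeasurable (by fun_prop))

/-- the window -/
def Wn (t δ : ℝ) : Set (ι → ℝ) := {x | |x ⬝ᵥ x - t| ≤ δ}

lemma meas_Wn (t δ : ℝ) : MeasurableSet (Wn (ι := ι) t δ) :=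
  measurableSet_le (by fun_prop) measurable_const

lemma ker_up {θ t δ : ℝ} (hθ : 0 ≤ θ) (ht : 0 ≤ t) {ϖ ν : Measure (ι → ℝ)} [IsProbabilityMeasure ϖ]
    [IsProbabilityMeasure ν] (hϖ : ∀ᵐ x ∂ϖ, x ⬝ᵥ x ≤ 2 * t) {A : ℝ≥0∞}
    (h : ∀ G : (ι → ℝ) → ℝ≥0∞, Measurable G → ∫⁻ x in Wn t δ, G (sp t x) ∂ϖ ≤ A * ∫⁻ x, G x ∂ν) :
    XL θ ϖ ϖ ≤ ENNReal.ofReal (exp (θ * δ)) * A * A * XL θ ν ν +
      2 * ϖ (Wn t δ)ᶜ * ENNReal.ofReal (exp (θ * (2 * t))) := by
  set c := ENNReal.ofReal (exp (θ * (2 * t)))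
  set e := ENNReal.ofReal (exp (θ * δ))
  have b : ∀ x y : ι → ℝ, x ⬝ᵥ x ≤ 2 * t → y ⬝ᵥ y ≤ 2 * t →
      ENNReal.ofReal (exp (θ * (x ⬝ᵥ y))) ≤ c := fun x y hx hy => by
    have := (le_abs_self _).trans (dot_le_half x y)
    simp only [c]
    gcongr
    linarith
  let g : (ι → ℝ) → ℝ≥0∞ := fun y => ∫⁻ y', ENNReal.ofReal (exp (θ * (y ⬝ᵥ y'))) ∂ν
  have mg : Measurable g := Measurable.lintegral_prod_right (by fun_prop)
  have h1 : ∀ x ∈ Wn t δ, x ⬝ᵥ x ≤ 2 * t → ∫⁻ x', ENNReal.ofReal (exp (θ * (x ⬝ᵥ x'))) ∂ϖ ≤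
      e * A * g (sp t x) + ϖ (Wn t δ)ᶜ * c := fun x hx hx2 => by
    rw [← lintegral_add_compl _ (meas_Wn t δ)]
    refine add_le_add ?_ ?_
    · refine (setLIntegral_mono' (meas_Wn t δ) (g := fun y => e *
        ENNReal.ofReal (exp (θ * (sp t x ⬝ᵥ sp t y)))) fun y hy => ?_).trans ?_
      · rw [← ENNReal.ofReal_mul (exp_pos _).le, ← exp_add, ← mul_add]
        have := (le_abs_self _).trans (dot_cmp ht hx hy)
        gcongr
        linarith
      · rw [lintegral_const_mul _ (by fun_prop), mul_assoc]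
        exact mul_le_mul_right (h (fun y => ENNReal.ofReal (exp (θ * (sp t x ⬝ᵥ y))))
          (by fun_prop)) _
    · refine (lintegral_mono_ae (ae_restrict_of_ae (hϖ.mono fun y hy => b x y hx2 hy))).trans_eq ?_
      rw [setLIntegral_const, mul_comm]
  rw [XL, ← lintegral_add_compl _ (meas_Wn t δ), two_mul, add_mul, ← add_assoc]
  refine add_le_add ?_ ?_
  · refine (lintegral_mono_ae (g := fun x => e * A * g (sp t x) + ϖ (Wn t δ)ᶜ * c) ?_).trans ?_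
    · filter_upwards [ae_restrict_of_ae hϖ, ae_restrict_mem (meas_Wn t δ)] with x h2 h3
      exact h1 x h3 h2
    · rw [lintegral_add_right _ measurable_const, lintegral_const_mul _ (by fun_prop),
        setLIntegral_const, mul_assoc (e * A)]
      exact add_le_add (mul_le_mul_right (h g mg) _) (mul_le_of_le_one_right' prob_le_one)
  · refine (lintegral_mono_ae (g := fun _ => c) (ae_restrict_of_ae (hϖ.mono fun x hx => ?_))).trans_eq
      (by rw [setLIntegral_const, mul_comm])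
    exact (lintegral_mono_ae (hϖ.mono fun y hy => b x y hx hy)).trans_eq (by simp)

lemma ker_lo {θ t δ : ℝ} (hθ : 0 ≤ θ) (ht : 0 ≤ t) (hδ : 0 ≤ δ) {ϖ ν : Measure (ι → ℝ)}
    [IsProbabilityMeasure ν] (hν : ∀ᵐ x ∂ν, x ⬝ᵥ x = t) {a : ℝ≥0∞}
    (h : ∀ G : (ι → ℝ) → ℝ≥0∞, Measurable G → a * ∫⁻ x, G x ∂ν ≤ ∫⁻ x in Wn t δ, G (sp t x) ∂ϖ) :
    ENNReal.ofReal (exp (-(θ * δ))) * a * XL θ ν ν ≤ XL θ ν ϖ := by
  rw [XL, XL, ← lintegral_const_mul _ (Measurable.lintegral_prod_right (by fun_prop))]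
  refine lintegral_mono_ae (hν.mono fun y hy => ?_)
  rw [mul_assoc]
  refine (mul_le_mul_right (h _ (by fun_prop)) _).trans ?_
  rw [← lintegral_const_mul _ (by fun_prop)]
  refine (setLIntegral_mono' (meas_Wn t δ) fun x hx => ?_).trans (setLIntegral_le_lintegral _ _)
  rw [← ENNReal.ofReal_mul (exp_pos _).le, ← exp_add, ← mul_neg, ← mul_add]
  have := (neg_le_abs _).trans (dot_cmp ht (x := y) (by rwa [hy, sub_self, abs_zero]) hx)
  rw [sp_self hy] at this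
  gcongr
  linarith

/-- the radial penalty -/
def hp (κ t q : ℝ) : ℝ≥0∞ := ENNReal.ofReal (exp (-(κ / 8 * (q - t) ^ 2)))
/-- radial weight of the window -/
def HW (κ t δ : ℝ) : ℝ → ℝ≥0∞ := {q | |q - t| ≤ δ}.indicator (hp κ t)
/-- radial weight of the tail -/
def HT (κ t δ M : ℝ) : ℝ → ℝ≥0∞ := {q | δ < |q - t| ∧ q ≤ 2 * t}.indicator fun q =>
  hp κ t q * ENNReal.ofReal (exp (M / 2 * |q - t|))

@[fun_prop] lemma meas_hp (κ t : ℝ) : Measurable (hp κ t) := by unfold hp; fun_prop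
@[fun_prop] lemma meas_HW (κ t δ : ℝ) : Measurable (HW κ t δ) :=
  (meas_hp κ t).indicator (measurableSet_le (by fun_prop) measurable_const)
@[fun_prop] lemma meas_HT (κ t δ M : ℝ) : Measurable (HT κ t δ M) :=
  Measurable.indicator (by fun_prop) (MeasurableSet.inter (s₁ := {q : ℝ | δ < |q - t|})
    (s₂ := {q : ℝ | q ≤ 2 * t}) (measurableSet_lt measurable_const (by fun_prop))
    (measurableSet_le measurable_id measurable_const))

lemma cT_le [Nonempty ι] {κ s δ M : ℝ} (hs : 0 < s) (hκ : 0 ≤ κ) (hδ : 0 ≤ δ)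
    (h : (M + Fintype.card ι / s ^ 2) / 2 ≤ κ * δ / 16) :
    cH ι (HT κ (s ^ 2) δ M) ≤ ENNReal.ofReal (kap ι * s ^ (Fintype.card ι - 1)) *
      ENNReal.ofReal (exp (-(κ * δ ^ 2 / 16)) * (2 * s)) := by
  have k0 := (kap_pos (ι := ι)).le
  rw [ENNReal.ofReal_mul (exp_pos _).le, ← mul_assoc]
  refine (setLIntegral_mono' measurableSet_Ioi (g := (Icc 0 (2 * s)).indicator fun _ =>
    ENNReal.ofReal (kap ι * s ^ (Fintype.card ι - 1)) * ENNReal.ofReal (exp (-(κ * δ ^ 2 / 16))))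
    fun r hr => ?_).trans ((setLIntegral_le_lintegral _ _).trans_eq ?_)
  swap
  · rw [lintegral_indicator_const measurableSet_Icc, Real.volume_Icc, sub_zero]
  have r0 : 0 < r := hr
  by_cases hq : r ^ 2 ∈ {q | δ < |q - s ^ 2| ∧ q ≤ 2 * s ^ 2}
  swap
  · rw [HT, indicator_of_notMem hq, mul_zero]; exact zero_le
  rw [HT, indicator_of_mem hq, indicator_of_mem (show r ∈ Icc 0 (2 * s) from
    ⟨r0.le, by nlinarith [hq.2]⟩), hp, ← ENNReal.ofReal_mul (exp_pos _).le,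
    ← ENNReal.ofReal_mul (by positivity), ← ENNReal.ofReal_mul (by positivity), ← exp_add]
  refine ENNReal.ofReal_le_ofReal ?_
  set d := |r ^ 2 - s ^ 2| with hd
  have d1 : δ < d := hq.1
  have h1 : r ≤ s * exp (d / (2 * s ^ 2)) := by
    refine (pow_le_pow_iff_left₀ r0.le (by positivity) two_ne_zero).1 ?_
    rw [mul_pow, ← exp_nat_mul]
    have h2 := add_one_le_exp (((2 : ℕ) : ℝ) * (d / (2 * s ^ 2)))
    have h3 : s ^ 2 * (((2 : ℕ) : ℝ) * (d / (2 * s ^ 2)) + 1) = d + s ^ 2 := by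
      push_cast; field_simp
    have h4 := le_abs_self (r ^ 2 - s ^ 2)
    nlinarith [mul_le_mul_of_nonneg_left h2 (sq_nonneg s)]
  have h5 : r ^ (Fintype.card ι - 1) ≤
      s ^ (Fintype.card ι - 1) * exp (Fintype.card ι / s ^ 2 / 2 * d) := by
    refine (pow_le_pow_left₀ r0.le h1 _).trans ?_
    rw [mul_pow, ← exp_nat_mul]
    have : ((Fintype.card ι - 1 : ℕ) : ℝ) ≤ Fintype.card ι := by exact_mod_cast Nat.sub_le _ _
    have d0 : 0 ≤ d := abs_nonneg _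
    refine mul_le_mul_of_nonneg_left (exp_le_exp.2 ?_) (by positivity)
    calc _ ≤ Fintype.card ι * (d / (2 * s ^ 2)) := by gcongr
      _ = _ := by field_simp
  calc _ ≤ kap ι * (s ^ (Fintype.card ι - 1) * exp (Fintype.card ι / s ^ 2 / 2 * d)) *
        exp (-(κ / 8 * (r ^ 2 - s ^ 2) ^ 2) + M / 2 * d) := by gcongr
    _ ≤ _ := by
      rw [← mul_assoc, mul_assoc, ← exp_add, ← sq_abs (r ^ 2 - s ^ 2), ← hd]
      gcongr
      have a1 := mul_le_mul_of_nonneg_right h (hδ.trans d1.le)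
      have a2 : κ * (δ * d) ≤ κ * d ^ 2 := by gcongr; nlinarith
      have a3 : κ * δ ^ 2 ≤ κ * d ^ 2 := by gcongr
      linarith

lemma cW_ge [Nonempty ι] {κ s δ l : ℝ} (hs : 0 < s) (hκ : 0 ≤ κ) (hl : 0 < l) (hls : l ≤ s)
    (h1 : 3 * s * l ≤ δ) (h2 : κ * (3 * s * l) ^ 2 ≤ 8) :
    ENNReal.ofReal (kap ι * s ^ (Fintype.card ι - 1)) * ENNReal.ofReal (exp (-1) * l) ≤
      cH ι (HW κ (s ^ 2) δ) := by
  have k0 := (kap_pos (ι := ι)).le
  rw [ENNReal.ofReal_mul (exp_pos _).le, ← mul_assoc]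
  refine le_trans ?_ (lintegral_mono_set (s := Icc s (s + l)) fun r hr => hs.trans_le hr.1)
  refine le_trans (le_of_eq ?_) (setLIntegral_mono' measurableSet_Icc (f := fun _ =>
    ENNReal.ofReal (kap ι * s ^ (Fintype.card ι - 1)) * ENNReal.ofReal (exp (-1))) fun r hr => ?_)
  · rw [setLIntegral_const, Real.volume_Icc, add_sub_cancel_left]
  have a0 : 0 ≤ r ^ 2 - s ^ 2 := by nlinarith [hr.1]
  have a1 : r ^ 2 - s ^ 2 ≤ 3 * s * l := by nlinarith [hr.1, hr.2]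
  rw [HW, indicator_of_mem (show r ^ 2 ∈ {q | |q - s ^ 2| ≤ δ} from
    (abs_of_nonneg a0).trans_le (a1.trans h1)), hp]
  have a2 : κ * (r ^ 2 - s ^ 2) ^ 2 ≤ κ * (3 * s * l) ^ 2 := by gcongr
  have := hr.1
  gcongr
  linarith

/-- comparison of the angular laws -/
lemma cmp [Nonempty ι] {η : ι → ℝ} {M t κ δ : ℝ} (hM0 : 0 ≤ M) (hM : ∀ k, |η k| ≤ M) (ht : 0 ≤ t)
    (hδ : δ ≤ t) {ϖ ν : Measure (ι → ℝ)} [IsProbabilityMeasure ϖ] [IsProbabilityMeasure ν]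
    {a b p : ℝ≥0∞}
    (hϖ : ∀ F : (ι → ℝ) → ℝ≥0∞, Measurable F → ∫⁻ x, F x ∂ϖ = a * ∫⁻ x in {x | x ⬝ᵥ x ≤ 2 * t},
      hp κ t (x ⬝ᵥ x) * ENNReal.ofReal (exp (Q η x)) * F x)
    (hν : ∀ G : (ι → ℝ) → ℝ≥0∞, Measurable G → ∫⁻ x, G x ∂ν =
      b * ∫⁻ x, ENNReal.ofReal (exp (Q η x)) * G x ∂sphR ι √t)
    (hT : cH ι (HT κ t δ M) ≤ p * cH ι (HW κ t δ)) :
    ϖ (Wn t δ)ᶜ ≤ p * ENNReal.ofReal (exp (M / 2 * δ)) ∧ ∀ G : (ι → ℝ) → ℝ≥0∞, Measurable G →
      ∫⁻ x in Wn t δ, G (sp t x) ∂ϖ ≤ ENNReal.ofReal (exp (M * δ)) * ∫⁻ x, G x ∂ν ∧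
      ENNReal.ofReal (exp (-(M * δ))) * ϖ (Wn t δ) * ∫⁻ x, G x ∂ν ≤
        ∫⁻ x in Wn t δ, G (sp t x) ∂ϖ := by
  set e := ENNReal.ofReal (exp (M / 2 * δ)) with he
  set e' := ENNReal.ofReal (exp (-(M / 2 * δ))) with he'
  have ee : e' * e = 1 := by
    rw [← ENNReal.ofReal_mul (exp_pos _).le, ← exp_add, neg_add_cancel, exp_zero, ENNReal.ofReal_one]
  have mB : MeasurableSet {x : ι → ℝ | x ⬝ᵥ x ≤ 2 * t} :=
    measurableSet_le (by fun_prop) measurable_const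
  set J1 := ∫⁻ x, ENNReal.ofReal (exp (Q η x)) * 1 ∂sphR ι √t with hJ1
  have j1 : b * J1 = 1 := by rw [← hν _ measurable_const]; simp
  have hJ : ∀ G : (ι → ℝ) → ℝ≥0∞, Measurable G →
      ∫⁻ x, ENNReal.ofReal (exp (Q η x)) * G x ∂sphR ι √t = J1 * ∫⁻ x, G x ∂ν := fun G hG => by
    rw [hν G hG, ← mul_assoc, mul_comm J1, j1, one_mul]
  set k := a * cH ι (HW κ t δ) * J1 with hk
  have hW : ∀ G : (ι → ℝ) → ℝ≥0∞, Measurable G → ∫⁻ x in Wn t δ, G (sp t x) ∂ϖ =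
      a * ∫⁻ x, HW κ t δ (x ⬝ᵥ x) * (ENNReal.ofReal (exp (Q η x)) * G (sp t x)) := fun G hG => by
    rw [← lintegral_indicator (meas_Wn t δ), hϖ _ (Measurable.indicator (by fun_prop) (meas_Wn t δ)),
      ← lintegral_indicator mB]
    congr 1
    refine lintegral_congr fun x => ?_
    by_cases hx : x ∈ Wn t δ
    · have hx' : |x ⬝ᵥ x - t| ≤ δ := hx
      rw [indicator_of_mem (show x ∈ {x : ι → ℝ | x ⬝ᵥ x ≤ 2 * t} from by
        have := le_abs_self (x ⬝ᵥ x - t); show x ⬝ᵥ x ≤ 2 * t; linarith), indicator_of_mem hx,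
        HW, indicator_of_mem (show x ⬝ᵥ x ∈ {q | |q - t| ≤ δ} from hx'), mul_assoc]
    · rw [HW, indicator_of_notMem (show x ⬝ᵥ x ∉ {q | |q - t| ≤ δ} from hx), zero_mul]
      simp [indicator, hx]
  have key : ∀ G : (ι → ℝ) → ℝ≥0∞, Measurable G →
      ∫⁻ x in Wn t δ, G (sp t x) ∂ϖ ≤ e * k * ∫⁻ x, G x ∂ν ∧
      e' * k * ∫⁻ x, G x ∂ν ≤ ∫⁻ x in Wn t δ, G (sp t x) ∂ϖ := fun G hG => by
    have f := fac t (meas_HW κ t δ) (G := fun x => ENNReal.ofReal (exp (Q η x)) * G x) (by fun_prop)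
    have g : ∀ c : ℝ≥0∞, c * k * ∫⁻ x, G x ∂ν = a * ∫⁻ x, HW κ t δ (x ⬝ᵥ x) *
        (c * ENNReal.ofReal (exp (Q η (sp t x))) * G (sp t x)) := fun c => by
      simp only [mul_assoc, mul_left_comm _ c]
      rw [lintegral_const_mul _ (by fun_prop), f, hJ G hG, hk]
      ring
    have q : ∀ x : ι → ℝ, x ⬝ᵥ x ∈ {q | |q - t| ≤ δ} → |Q η x - Q η (sp t x)| ≤ M / 2 * δ :=
      fun x hx => (Q_cmp hM0 hM ht x).trans (mul_le_mul_of_nonneg_left hx (by positivity))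
    rw [g, g, hW G hG]
    constructor <;> refine mul_le_mul_right (lintegral_mono fun x => ?_) _ <;>
      by_cases hx : x ⬝ᵥ x ∈ {q | |q - t| ≤ δ}
    · have := abs_le.1 (q x hx)
      simp only [he]
      rw [← ENNReal.ofReal_mul (exp_pos _).le, ← exp_add]
      gcongr; linarith
    · simp [HW, indicator_of_notMem hx]
    · have := abs_le.1 (q x hx)
      simp only [he']
      rw [← ENNReal.ofReal_mul (exp_pos _).le, ← exp_add]
      gcongr; linarith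
    · simp [HW, indicator_of_notMem hx]
  obtain ⟨k1, k2⟩ := key (fun _ => 1) measurable_const
  simp only [lintegral_const, measure_univ, mul_one, Measure.restrict_apply MeasurableSet.univ,
    univ_inter, one_mul] at k1 k2
  have k3 : k ≤ e := by
    calc k = e * (e' * k) := by rw [← mul_assoc, mul_comm e, ee, one_mul]
      _ ≤ e * 1 := mul_le_mul_right (k2.trans prob_le_one) _
      _ = e := mul_one e
  have k4 : e' * ϖ (Wn t δ) ≤ k := by
    calc _ ≤ e' * (e * k) := mul_le_mul_right k1 _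
      _ = k := by rw [← mul_assoc, ee, one_mul]
  refine ⟨?_, fun G hG => ⟨(key G hG).1.trans (mul_le_mul_left ?_ _),
    le_trans (mul_le_mul_left ?_ _) (key G hG).2⟩⟩
  · have f := fac t (meas_HT κ t δ M) (G := fun x => ENNReal.ofReal (exp (Q η x)) * 1) (by fun_prop)
    rw [← lintegral_indicator_one (meas_Wn t δ).compl,
      hϖ _ (measurable_one.indicator (meas_Wn t δ).compl), ← lintegral_indicator mB]
    calc _ ≤ a * (cH ι (HT κ t δ M) * J1) := by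
          rw [← f]
          refine mul_le_mul_right (lintegral_mono fun x => ?_) _
          by_cases h1 : x ∈ {x : ι → ℝ | x ⬝ᵥ x ≤ 2 * t}
          swap
          · rw [indicator_of_notMem h1]; exact zero_le
          by_cases h2 : x ∈ (Wn t δ)ᶜ
          swap
          · rw [indicator_of_mem h1, indicator_of_notMem h2, mul_zero]; exact zero_le
          have := abs_le.1 (Q_cmp hM0 hM ht x)
          rw [indicator_of_mem h1, indicator_of_mem h2, HT, indicator_of_mem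
            (show x ⬝ᵥ x ∈ {q | δ < |q - t| ∧ q ≤ 2 * t} from ⟨not_le.1 h2, h1⟩), Pi.one_apply,
            mul_one, mul_one, mul_assoc, ← ENNReal.ofReal_mul (exp_pos _).le, ← exp_add]
          gcongr; linarith
      _ ≤ a * (p * cH ι (HW κ t δ) * J1) := by gcongr
      _ = p * k := by rw [hk]; ring
      _ ≤ _ := mul_le_mul_right k3 _
  · refine (mul_le_mul_right k3 _).trans_eq ?_
    rw [← ENNReal.ofReal_mul (exp_pos _).le, ← exp_add]; congr 2; ring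
  · refine le_trans (le_of_eq ?_) (mul_le_mul_right k4 _)
    rw [← mul_assoc, ← ENNReal.ofReal_mul (exp_pos _).le, ← exp_add]; congr 3; ring

end Crest.Agent.T157.Cq.Soft44

end
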