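import Crest.Agent.T157.CqDef_72
import Crest.Agent.T157.CqSoftA_44
import Crest.Agent.T157.StAll_87

/-!
# Row 157, part C (helper44): `Cq.SoftGlue`
-/

set_option autoImplicit false

noncomputable section

namespace Crest.Agent.T157.Cq

open MeasureTheory ProbabilityTheory Matrix Filter Topology Finset Real Set
open scoped ENNReal
open Crest.Agent.T157.E Crest.Agent.T157.Cond Crest.Agent.T157.St Crest.Agent.T157.St.Sph38
open Crest.Agent.T157.Ed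
open Crest.Agent.T157.Sp (piD)

namespace Soft44

variable {ι : Type} [Fintype ι]

lemma D2_le {θ t δ γ p B : ℝ} (hθ : 0 ≤ θ) (ht : 0 ≤ t) (hδ : 0 ≤ δ) (hγ : 0 ≤ γ) (hp : 0 ≤ p)
    (hu : θ * δ + 2 * γ ≤ 1) {ϖ ν : Measure (ι → ℝ)} [IsProbabilityMeasure ϖ]
    [IsProbabilityMeasure ν] (hν : ∀ᵐ x ∂ν, x ⬝ᵥ x = t) (hϖ : ∀ᵐ x ∂ϖ, x ⬝ᵥ x ≤ 2 * t)
    (hB : Xk θ ν ν ≤ B) (h0 : ϖ (Wn t δ)ᶜ ≤ ENNReal.ofReal p)
    (h : ∀ G : (ι → ℝ) → ℝ≥0∞, Measurable G →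
      ∫⁻ x in Wn t δ, G (sp t x) ∂ϖ ≤ ENNReal.ofReal (exp γ) * ∫⁻ x, G x ∂ν ∧
      ENNReal.ofReal (exp (-γ)) * ϖ (Wn t δ) * ∫⁻ x, G x ∂ν ≤ ∫⁻ x in Wn t δ, G (sp t x) ∂ϖ) :
    D2 θ ν ϖ ≤ B * (4 * (θ * δ + 2 * γ) + 2 * p) + 2 * p * exp (θ * (2 * t)) := by
  have hν' : ∀ᵐ x ∂ν, x ⬝ᵥ x ≤ 2 * t := hν.mono fun x hx => by linarith
  obtain ⟨a1, a2⟩ := XL_le hθ hν' hν'
  obtain ⟨b1, b2⟩ := XL_le hθ hν' hϖ
  obtain ⟨-, c2⟩ := XL_le hθ hϖ hϖ
  have u := ker_up hθ ht hϖ fun G hG => (h G hG).1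
  have l := ker_lo hθ ht hδ hν fun G hG => (h G hG).2
  have q0 : ϖ.real (Wn t δ)ᶜ ≤ p := ENNReal.toReal_le_of_le_ofReal hp h0
  have q1 : 1 - p ≤ ϖ.real (Wn t δ) := by
    rw [probReal_compl_eq_one_sub (meas_Wn t δ)] at q0; linarith
  have u' := ENNReal.toReal_mono (by finiteness) u
  have l' := ENNReal.toReal_mono b1 l
  rw [ENNReal.toReal_add (by finiteness) (by finiteness)] at u'
  simp only [ENNReal.toReal_mul, ENNReal.toReal_ofReal (exp_pos _).le, ENNReal.toReal_ofNat] at u' l'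
  rw [← measureReal_def] at u' l'
  rw [D2, b2, c2]
  rw [← a2] at u' l'
  set X := Xk θ ν ν
  have X0 : 0 ≤ X := by rw [a2]; exact ENNReal.toReal_nonneg
  set v := θ * δ + 2 * γ with hv
  have v0 : 0 ≤ v := by positivity
  have e1 : exp (θ * δ) * exp γ * exp γ ≤ 1 + 2 * v := by
    rw [← exp_add, ← exp_add, show θ * δ + γ + γ = v by rw [hv]; ring]
    have := abs_le.1 (abs_exp_sub_one_le (x := v) (by rwa [abs_of_nonneg v0]))
    rw [abs_of_nonneg v0] at this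
    linarith [this.2]
  have e2 : 1 - v - p ≤ exp (-(θ * δ)) * (exp (-γ) * ϖ.real (Wn t δ)) := by
    rw [← mul_assoc, ← exp_add]
    have f1 := add_one_le_exp (-(θ * δ) + -γ)
    have f2 : (1 - v) * (1 - p) ≤ (1 - v) * ϖ.real (Wn t δ) := by gcongr
    have f3 : (1 - v) * ϖ.real (Wn t δ) ≤ exp (-(θ * δ) + -γ) * ϖ.real (Wn t δ) :=
      mul_le_mul_of_nonneg_right (by linarith) measureReal_nonneg
    nlinarith [mul_nonneg v0 hp]
  have e3 := mul_le_mul_of_nonneg_right e1 X0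
  have e4 := mul_le_mul_of_nonneg_right e2 X0
  have e5 := mul_le_mul_of_nonneg_right q0 (exp_pos (θ * (2 * t))).le
  have e6 : X * (4 * v + 2 * p) ≤ B * (4 * v + 2 * p) := by gcongr
  linarith

lemma rep_pi (n : ℕ) (η : ℕ → ℝ) : ∃ a : ℝ≥0∞, ∀ F : (Fin n → ℝ) → ℝ≥0∞, Measurable F →
    ∫⁻ x, F x ∂piB n η = a * ∫⁻ x in {x : Fin n → ℝ | x ⬝ᵥ x ≤ 2 * sx n ^ 2},
      hp ((n : ℝ) ^ 2) (sx n ^ 2) (x ⬝ᵥ x) * ENNReal.ofReal (exp (Q (fun k : Fin n => η k) x)) * F x := by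
  set z := ∫ x : Fin n → ℝ, exp (-(1 / 2) * ∑ k : Fin n, η k * x k ^ 2 -
    (n : ℝ) ^ 2 / 8 * (x ⬝ᵥ x - sx n ^ 2) ^ 2) with hz
  have z0 : 0 ≤ z⁻¹ := inv_nonneg.2 (integral_nonneg fun _ => (exp_pos _).le)
  refine ⟨(piS n η {x | x ⬝ᵥ x ≤ 2 * sx n ^ 2})⁻¹ * ENNReal.ofReal z⁻¹, fun F hF => ?_⟩
  rw [piB, ProbabilityTheory.cond, lintegral_smul_measure, smul_eq_mul, mul_assoc]
  congr 1
  rw [piS, piD, setLIntegral_tilted, ← lintegral_const_mul _ (by fun_prop)]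
  refine lintegral_congr fun x => ?_
  rw [← hz, ← mul_assoc, hp, ← ENNReal.ofReal_mul (exp_pos _).le, ← ENNReal.ofReal_mul z0,
    ← exp_add, div_eq_inv_mul, Q]
  congr 4
  ring

lemma rep_nu (n : ℕ) (η : ℕ → ℝ) (t : ℝ) : ∃ b : ℝ≥0∞, ∀ G : (Fin n → ℝ) → ℝ≥0∞, Measurable G →
    ∫⁻ x, G x ∂nuD n η t =
      b * ∫⁻ x, ENNReal.ofReal (exp (Q (fun k : Fin n => η k) x)) * G x ∂sphR (Fin n) √t := by
  set z := ∫ x, exp (-(1 / 2) * ∑ k : Fin n, η k * x k ^ 2) ∂sphR (Fin n) √t with hz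
  have z0 : 0 ≤ z⁻¹ := inv_nonneg.2 (integral_nonneg fun _ => (exp_pos _).le)
  refine ⟨ENNReal.ofReal z⁻¹, fun G hG => ?_⟩
  rw [nuD, lintegral_tilted, ← lintegral_const_mul _ (by fun_prop)]
  refine lintegral_congr fun x => ?_
  rw [← hz, ← mul_assoc, ← ENNReal.ofReal_mul z0, div_eq_inv_mul, Q]

lemma tail (a c : ℝ) (ha : 0 < a) :
    Tendsto (fun s : ℝ => s ^ 8 * exp (-(a * s ^ 4) + c * s ^ 2)) atTop (𝓝 0) := by
  refine squeeze_zero' ((eventually_ge_atTop 0).mono fun s hs => by positivity) ?_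
    (tendsto_pow_mul_exp_neg_atTop_nhds_zero 8)
  filter_upwards [eventually_ge_atTop 1, eventually_ge_atTop ((|c| + 1) / a)] with s h1 h2
  have h3 : |c| + 1 ≤ a * s ^ 2 := by
    rw [div_le_iff₀ ha] at h2
    nlinarith [mul_nonneg ha.le (mul_nonneg (zero_le_one.trans h1) (sub_nonneg.2 h1))]
  have h4 := mul_le_mul_of_nonneg_right h3 (sq_nonneg s)
  have h5 := mul_le_mul_of_nonneg_right (le_abs_self c) (sq_nonneg s)
  gcongr
  nlinarith

end Soft44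

open Soft44

set_option maxHeartbeats 1600000 in
theorem softGlue : SoftGlue := by
  intro hS L C hL
  obtain ⟨w₁, H1⟩ := hS L C hL
  obtain ⟨w₂, H2⟩ := All.mgfStmt L C hL
  refine ⟨max w₁ w₂, fun w hw θ ε hθ hε => ?_⟩
  obtain ⟨D, -, -, H1⟩ := H1 w (le_of_max_le_left hw)
  obtain ⟨B₀, H2⟩ := H2 w (le_of_max_le_right hw)
  set B := max (B₀ * exp (B₀ * |θ| ^ (3 / 2 : ℝ))) 1 with hB
  have B1 : 1 ≤ B := le_max_right _ _
  set a := min 1 (ε / (8 * B)) / (θ + 22) with ha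
  have m0 : 0 < min 1 (ε / (8 * B)) := lt_min one_pos (by positivity)
  have a0 : 0 < a := by positivity
  have a1 : (θ + 22) * a = min 1 (ε / (8 * B)) := by rw [ha]; field_simp
  have a2 : (θ + 22) * a ≤ 1 := a1.trans_le (min_le_left _ _)
  have a3 : B * (4 * ((θ + 22) * a)) ≤ ε / 2 := by
    have : (θ + 22) * a ≤ ε / (8 * B) := a1.trans_le (min_le_right _ _)
    rw [le_div_iff₀ (by positivity)] at this
    linarith
  have T := ((tail (a ^ 2 / 16) (2 * θ) (by positivity)).const_mul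
    (4 * B * (6 * exp 1 * exp 1))).comp tendsto_sx
  rw [mul_zero] at T
  filter_upwards [H1 (1 / 2) (by norm_num), H2, eventually_ge_atTop 1,
    T.eventually_le_const (half_pos hε), tendsto_sx.eventually_ge_atTop (L + 96 / a)]
    with n h1 h2 hn h3 h4 η G
  have : Nonempty (Fin n) := ⟨⟨0, hn⟩⟩
  obtain ⟨_, h1⟩ := h1 η G
  set s := sx n with hs
  have s1 : 1 ≤ s := one_le_sx hn
  have s0 : 0 < s := by linarith
  have s6 : s ^ 6 = n := sx_pow_six n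
  have t0 : 0 < s ^ 2 := by positivity
  have s2 : s ≤ s ^ 2 := by nlinarith
  have s4 : s ^ 2 ≤ s ^ 4 := pow_le_pow_right₀ s1 (by norm_num)
  have as : 96 ≤ a * s := by
    have : 96 / a ≤ s := by linarith
    rwa [div_le_iff₀' a0] at this
  have sL : L ≤ s := by have : 0 < 96 / a := by positivity
                        linarith
  have mB : MeasurableSet {x : Fin n → ℝ | x ⬝ᵥ x ≤ 2 * s ^ 2} :=
    measurableSet_le (by fun_prop) measurable_const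
  have hP : IsProbabilityMeasure (piB n η) := cond_isProbabilityMeasure fun h0 => by
    rw [probReal_compl_eq_one_sub mB, measureReal_def, h0] at h1
    norm_num at h1
  have hae : ∀ᵐ x ∂piB n η, x ⬝ᵥ x ≤ 2 * s ^ 2 := ae_cond_mem mB
  refine ⟨⟨hP, _, hae⟩, ?_⟩
  have hν := ((All.lnkStmt n hn).2.1 η (s ^ 2) t0).1.prob
  have hν2 : ∀ᵐ x ∂nuD n η (s ^ 2), x ⬝ᵥ x = s ^ 2 := by
    have := sphR_ae (ι := Fin n) √(s ^ 2)
    rw [sq_sqrt t0.le] at this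
    exact (tilted_absolutelyContinuous _ _).ae_le this
  obtain ⟨a', ha'⟩ := rep_pi n η
  obtain ⟨b', hb'⟩ := rep_nu n η (s ^ 2)
  set δ := a / s ^ 4 with hδ
  have δ0 : 0 < δ := by positivity
  have δa : δ ≤ a := div_le_self a0.le (one_le_pow₀ s1)
  have aa : a ≤ 1 / 22 := by nlinarith [mul_nonneg hθ a0.le]
  have hM : ∀ k : Fin n, |η k| ≤ 11 * s ^ 4 := fun k => by
    have g1 := G.1.lo k k.2
    have g2 := G.2 k k.2
    have g3 : 0 ≤ ((k : ℕ) + 1 : ℝ) ^ (2 / 3 : ℝ) / 256 := by positivity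
    rw [tau_eq] at g2
    rw [abs_le]; constructor <;> nlinarith
  have Mδ : 11 * s ^ 4 * δ = 11 * a := by rw [hδ]; field_simp
  have c1 := cT_le (ι := Fin n) (κ := (n : ℝ) ^ 2) (M := 11 * s ^ 4) s0 (by positivity) δ0.le (by
    rw [Fintype.card_fin, ← s6, hδ]
    have e1 : (11 * s ^ 4 + s ^ 6 / s ^ 2) / 2 = 6 * s ^ 4 := by field_simp; ring
    have e2 : (s ^ 6) ^ 2 * (a / s ^ 4) / 16 = a * s ^ 4 * s ^ 4 / 16 := by field_simp
    have e3 : a * s ≤ a * s ^ 4 := by gcongr; linarith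
    rw [e1, e2]
    nlinarith [mul_le_mul_of_nonneg_right (as.trans e3) (pow_pos s0 4).le])
  have l3 : 3 * s * (1 / (3 * s ^ 7)) = 1 / s ^ 6 := by field_simp
  have c2 := cW_ge (ι := Fin n) (κ := (n : ℝ) ^ 2) (δ := δ) (l := 1 / (3 * s ^ 7)) s0
    (by positivity) (by positivity)
    ((div_le_one (by positivity)).2 (by nlinarith [one_le_pow₀ (n := 7) s1]) |>.trans s1)
    (by
      rw [l3, hδ, div_le_div_iff₀ (by positivity) (by positivity)]
      have : 1 ≤ a * s ^ 2 := by nlinarith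
      nlinarith [mul_le_mul_of_nonneg_right this (pow_pos s0 4).le])
    (by rw [l3, ← s6]; field_simp; norm_num)
  set p := 6 * exp 1 * (s ^ 8 * exp (-(a ^ 2 / 16 * s ^ 4))) with hp'
  have p0 : 0 ≤ p := by positivity
  have c3 : cH (Fin n) (HT ((n : ℝ) ^ 2) (s ^ 2) δ (11 * s ^ 4)) ≤
      ENNReal.ofReal p * cH (Fin n) (HW ((n : ℝ) ^ 2) (s ^ 2) δ) := by
    refine c1.trans (le_trans (le_of_eq ?_) (mul_le_mul_right c2 _))
    rw [mul_left_comm (ENNReal.ofReal p), ← ENNReal.ofReal_mul p0]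
    congr 2
    rw [hp', ← s6, hδ, exp_neg 1, show (s ^ 6) ^ 2 * (a / s ^ 4) ^ 2 / 16 = a ^ 2 / 16 * s ^ 4 by
      field_simp]
    field_simp
    ring
  obtain ⟨d1, d2⟩ := cmp (η := fun k : Fin n => η k) (by positivity) hM t0.le
    (by nlinarith) ha' hb' c3
  rw [Mδ] at d2
  have d3 : piB n η (Wn (s ^ 2) δ)ᶜ ≤ ENNReal.ofReal (p * exp 1) := by
    refine d1.trans ?_
    rw [ENNReal.ofReal_mul p0]
    gcongr
    linarith
  have θδ : θ * δ ≤ θ * a := by gcongr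
  have key := D2_le (γ := 11 * a) (B := B) hθ t0.le δ0.le (by positivity) (by positivity)
    (by linarith) hν2 hae ((h2 η _ t0 G.1 θ).trans (le_max_left _ _)) d3 d2
  set E := exp (θ * (2 * s ^ 2)) with hE
  have E1 : 1 ≤ E := one_le_exp (by positivity)
  have h5 : 4 * B * (p * exp 1 * E) ≤ ε / 2 := by
    refine le_trans (le_of_eq ?_) h3
    simp only [Function.comp, ← hs]
    rw [exp_add, hp', hE, show θ * (2 * s ^ 2) = 2 * θ * s ^ 2 by ring]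
    ring
  have q0 : 0 ≤ p * exp 1 := by positivity
  have h6 : B * (p * exp 1) ≤ B * (p * exp 1 * E) :=
    mul_le_mul_of_nonneg_left (le_mul_of_one_le_right q0 E1) (by linarith)
  have h7 : p * exp 1 * E ≤ B * (p * exp 1 * E) := le_mul_of_one_le_left (by positivity) B1
  have h8 : B * (θ * δ) ≤ B * (θ * a) := by gcongr
  linarith

end Crest.Agent.T157.Cq

end
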