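import Crest.Agent.T157.EdAll_88

/-!
# Row 157, part C: the edge of `Wmat` (couplings of either law, Gaussian diagonal) (helper39)

`swapM`, `univM` (any matched dominated laws), `headW` (two-sided rough rigidity of the first `K`
eigenvalues with a constant independent of `K`), `tailW` (lower bound of all the others).
-/

set_option autoImplicit false

noncomputable section

namespace Crest.Agent.T157.Sp39

open MeasureTheory ProbabilityTheory Matrix Filter Topology Finset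
open Crest.ProbabilityR.SpinGlassDynamics Crest.Agent.T157.E Crest.Agent.T157.Eig
open Crest.Agent.T157.Cond Crest.Agent.T157.Ed

open Sw50 in
/-- Lindeberg replacement for the power sums, any dominated entry laws with matched moments
(the proof is that of `Ed.swapGlue`) -/
theorem swapM (μ : ∀ n, Ix n → Measure ℝ) [∀ n p, IsProbabilityMeasure (μ n p)]
    (hd : ∀ n p, Dom (μ n p))
    (hm : ∀ n p i, i < kk p → ∫ t, t ^ i ∂μ n p = ∫ t, t ^ i ∂gaussianReal 0 1)
    (r : ℕ) (G : (Fin r → ℝ) → ℝ) (C : ℝ) (hG : ContDiff ℝ 4 G)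
    (hC : ∀ i, i ≤ 4 → ∀ y, ‖iteratedFDeriv ℝ i G y‖ ≤ C) :
    Tendsto (fun n => ∫ y, G (ptr n r (Wy n y)) ∂Measure.pi (μ n) - ∫ W, G (ptr n r W) ∂GOE n)
      atTop (𝓝 0) := by
  obtain ⟨hL1, -, hL3, -⟩ := linkStmt
  have hMb := All.mbStmt
  have hDer := derStmt
  have hLind := EdLind.lindStmt
  obtain ⟨Cm, hCm, hMb⟩ := hMb 8 (4 * (r + 1))
  obtain ⟨Cd, hCd, hDer⟩ := hDer
  obtain ⟨Cl, hCl, hLind⟩ := hLind
  have hC0 : 0 ≤ C := (norm_nonneg _).trans (hC 0 (by norm_num) 0)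
  set K : ℝ := 24 * (C + 1) * (Cd + 1) ^ 4 with hK
  have hK0 : 0 < K := by positivity
  set S : ℝ := Real.sqrt (1 + 4 * Cm ^ 8) with hS
  have hS0 : 0 < S := Real.sqrt_pos.2 (by positivity)
  have hlim : Tendsto (fun n => Cl * (K * S * (2 * ww n))) atTop (𝓝 0) := by
    have := ((tendsto_ww.const_mul 2).const_mul (K * S)).const_mul Cl
    simpa using this
  refine squeeze_zero_norm' ?_ hlim
  filter_upwards [hMb, Ed.tendsto_tau.eventually_ge_atTop 1, eventually_ge_atTop 1] with n hM hτ hn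
  have hn0 : (0 : ℝ) < n := by exact_mod_cast hn
  set N : ℕ := 2 * ⌈tau n⌉₊ with hN
  have hN1 : 1 ≤ N := by
    have : 0 < ⌈tau n⌉₊ := Nat.ceil_pos.2 (by linarith)
    omega
  have hN1' : (1 : ℝ) ≤ N := by exact_mod_cast hN1
  have hN4 : (N : ℝ) ≤ 4 * tau n := by
    have := (Nat.ceil_lt_add_one (by linarith : 0 ≤ tau n)).le
    rw [hN]; push_cast; linarith
  have hw0 : 0 < ww n := Real.rpow_pos_of_pos (by rw [← hN]; linarith) _
  have hw1 : ww n ≤ 1 := Real.rpow_le_one_of_one_le_of_nonpos (by rw [← hN]; exact hN1')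
    (by norm_num)
  have hw4 : ww n ^ 4 = (N : ℝ) ^ (-(1 / 4) : ℝ) := by
    unfold ww
    rw [← hN, ← Real.rpow_natCast, ← Real.rpow_mul (by linarith)]
    norm_num
  set Mx : ℕ := (r + 1) * N with hMx
  have hMxT : (Mx : ℝ) ≤ 4 * (r + 1) * tau n := by
    rw [hMx]; push_cast
    have : (0 : ℝ) ≤ r + 1 := by positivity
    nlinarith
  set e : ℝ := 1 / Real.sqrt n with he
  have he0 : 0 < e := by have := Real.sqrt_pos.2 hn0; positivity
  have hcG : Continuous fun W : Mat n => G (ptr n r W) := hG.continuous.comp (continuous_ptr r)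
  have hcF : Continuous fun y : Ix n → ℝ => G (ptr n r (Wy n y)) := hcG.comp continuous_Wy
  have e2 : ∫ W, G (ptr n r W) ∂GOE n =
      ∫ y, G (ptr n r (Wy n y)) ∂Measure.pi fun _ : Ix n => gaussianReal 0 1 := by
    rw [← hL1, integral_map continuous_Wy.measurable.aemeasurable hcG.aestronglyMeasurable]
  have hk : ∀ p : Ix n, 1 ≤ kk p ∧ kk p ≤ 4 := by
    rintro (p | p) <;> simp [kk]
  have hshift : ∀ (p : Ix n) (y : Ix n → ℝ),
      (fun t => G (ptr n r (Wy n (Function.update y p t)))) =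
      fun t => (fun s : ℝ => G fun j : Fin r =>
        ((Ym 1 (Wy n y) + s • Ed p) ^ (((j : ℕ) + 2) * N)).trace) (t - y p) := by
    intro p y
    funext t
    show G _ = G _
    congr 1
    funext j
    simp only [ptr, Ym_update, hN]
  have hcd : ∀ (p : Ix n) (y : Ix n → ℝ), ContDiff ℝ 4 fun s : ℝ => G fun j : Fin r =>
      ((Ym 1 (Wy n y) + s • Ed p) ^ (((j : ℕ) + 2) * N)).trace := fun p y =>
    hG.comp (contDiff_pi.2 fun j => contDiff_trace _ _ _)
  have main := hLind (Ix n) (μ n) (fun _ => gaussianReal 0 1) (hd n) (fun _ => hL3)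
    (fun y => G (ptr n r (Wy n y))) C kk
    (fun p y => K * (e * ww n) ^ kk p * Real.sqrt (Z8 Mx p y))
    (fun p => K * S * (e * ww n) ^ kk p) hcF.measurable
    (fun y => by simpa using hC 0 (by norm_num) (ptr n r (Wy n y))) hk ?_ ?_ ?_ ?_ ?_ ?_
  · rw [e2, Real.norm_eq_abs]
    refine main.trans (mul_le_mul_of_nonneg_left ?_ hCl)
    rw [← mul_sum]
    exact mul_le_mul_of_nonneg_left (sum_pow_kk hn hw0.le hw1) (by positivity)
  · exact hm n
  · intro p y
    rw [hshift]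
    exact (hcd p y).comp (contDiff_id.sub contDiff_const)
  · intro p
    exact (continuous_const.mul (continuous_Z8 Mx p).sqrt).measurable
  · intro p y
    have hsh := congrFun (iteratedDeriv_comp_sub_const (n := kk p) (f := fun s : ℝ => G fun j : Fin r =>
        ((Ym 1 (Wy n y) + s • Ed p) ^ (((j : ℕ) + 2) * N)).trace) (s := y p)) (y p)
    rw [sub_self] at hsh
    rw [hshift, hsh]
    have hZ1 := one_le_Zr Mx p y
    have hb := comp_bound hG hC (fun (j : Fin r) (s : ℝ) =>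
        ((Ym 1 (Wy n y) + s • Ed p) ^ (((j : ℕ) + 2) * N)).trace)
      (fun j => contDiff_trace _ _ _) (D := Cd * e * Zr Mx p y * ww n) (by positivity)
      (fun j i hi1 hi4 => by
        have hM1 : N ≤ ((j : ℕ) + 2) * N := Nat.le_mul_of_pos_left _ (by omega)
        have hM2 : ((j : ℕ) + 2) * N ≤ Mx := Nat.mul_le_mul_right _ (by omega)
        have h := hDer n (Ym 1 (Wy n y)) (Ed p) (iA p) (iB p) e (Zr Mx p y) (((j : ℕ) + 2) * N) i
          (Ym_symm y) (Ed_supp p) (Ed_le p) (hN1.trans hM1) hi1 hi4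
          (fun b hb c hc => diag_le Mx p y (hb.trans hM2) hc)
        refine h.trans ?_
        rw [mul_pow _ (ww n)]
        refine mul_le_mul_of_nonneg_left ?_ (by positivity)
        calc ((((j : ℕ) + 2) * N : ℕ) : ℝ) ^ (-(1 / 4) : ℝ) ≤ (N : ℝ) ^ (-(1 / 4) : ℝ) :=
              Real.rpow_le_rpow_of_nonpos (by linarith) (by exact_mod_cast hM1) (by norm_num)
          _ = ww n ^ 4 := hw4.symm
          _ ≤ ww n ^ i := pow_le_pow_of_le_one hw0.le hw1 hi4) (kk p) (hk p).2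
    refine hb.trans ?_
    have h1 : Cd ^ kk p ≤ (Cd + 1) ^ 4 :=
      (pow_le_pow_left₀ hCd (by linarith) _).trans (pow_le_pow_right₀ (by linarith) (hk p).2)
    have h2 := Zr_pow_le Mx p y (hk p).2
    calc 24 * C * (Cd * e * Zr Mx p y * ww n) ^ kk p
        = 24 * C * Cd ^ kk p * (e * ww n) ^ kk p * Zr Mx p y ^ kk p := by
          simp only [mul_pow]; ring
      _ ≤ 24 * (C + 1) * (Cd + 1) ^ 4 * (e * ww n) ^ kk p * Real.sqrt (Z8 Mx p y) := by
          gcongr
          linarith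
  · intro p; positivity
  · intro p ξ _ hξ
    obtain ⟨hi, hle⟩ := integral_Z8_le Mx p (Measure.pi ξ) Cm (fun a ha c => by
      have h := (hM ξ hξ 1 (by simp) a (le_trans (by exact_mod_cast ha) hMxT)).1
        (Pi.single c 1) (by simp)
      simpa [mulVec_single_one, single_one_dotProduct] using h)
    have hZ0 : ∀ y, 0 ≤ Z8 Mx p y := fun y => by linarith [one_le_Z8 Mx p y]
    have e3 : ∀ y, (K * (e * ww n) ^ kk p * Real.sqrt (Z8 Mx p y)) ^ 2 =
        (K * (e * ww n) ^ kk p) ^ 2 * Z8 Mx p y := fun y => by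
      rw [mul_pow, Real.sq_sqrt (hZ0 y)]
    simp only [e3]
    rw [← ofReal_integral_eq_lintegral_ofReal (hi.const_mul _)
      (Eventually.of_forall fun y => mul_nonneg (sq_nonneg _) (hZ0 y)), integral_const_mul]
    refine ENNReal.ofReal_le_ofReal ?_
    have e4 : (K * S * (e * ww n) ^ kk p) ^ 2 = (K * (e * ww n) ^ kk p) ^ 2 * (1 + 4 * Cm ^ 8) := by
      rw [← Real.sq_sqrt (by positivity : 0 ≤ 1 + 4 * Cm ^ 8), ← hS]; ring
    rw [e4]
    exact mul_le_mul_of_nonneg_left hle (sq_nonneg _)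

/-- universality of the edge for all matched dominated laws -/
theorem univM (μ : ∀ n, Ix n → Measure ℝ) [∀ n p, IsProbabilityMeasure (μ n p)]
    (hd : ∀ n p, Dom (μ n p))
    (hm : ∀ n p i, i < Sw50.kk p → ∫ t, t ^ i ∂μ n p = ∫ t, t ^ i ∂gaussianReal 0 1)
    (K : ℕ) (F : (Fin K → ℝ) → ℝ) (hF : Continuous F) (hc : HasCompactSupport F) :
    Tendsto (fun n => ∫ W, F (LamV n K W) ∂(Measure.pi (μ n)).map (Wy n) -
      ∫ W, F (LamV n K W) ∂GOE n) atTop (𝓝 0) := by
  obtain ⟨l1, -, l3, -⟩ := linkStmt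
  rw [Metric.tendsto_nhds]
  intro ε hε
  obtain ⟨r, G, C, hG, hC, hap⟩ :=
    EdUniv.prob_approx All.mbStmt swStmt hF hc (ε := ε / 4) (by positivity)
  filter_upwards [hap, Metric.tendsto_nhds.1 (swapM μ hd hm r G C hG hC) (ε / 4) (by positivity)]
    with n h1 h2
  have m2 : Measurable fun W : Mat n => G (ptr n r W) :=
    (hG.continuous.comp (EdUniv.continuous_ptr n r)).measurable
  have a1 := h1 (μ n) (hd n)
  have a2 := h1 (fun _ => gaussianReal 0 1) fun _ => l3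
  rw [integral_map (f := fun W : Mat n => G (ptr n r W)) (EdUniv.measurable_Wy n).aemeasurable
    m2.aestronglyMeasurable] at a1
  rw [l1 n] at a2
  rw [Real.dist_eq, sub_zero] at h2 ⊢
  rw [abs_le] at a1 a2
  rw [abs_lt] at h2 ⊢
  constructor <;> linarith [a1.1, a1.2, a2.1, a2.2, h2.1, h2.2]

/-- entry laws of `Wmat` -/
def lawW (b : Bool) (n : ℕ) : Ix n → Measure ℝ :=
  Sum.elim (fun _ => entryLaw b) fun _ => gaussianReal 0 1

instance (b : Bool) (n : ℕ) (p : Ix n) : IsProbabilityMeasure (lawW b n p) := by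
  cases p <;> simp only [lawW, Sum.elim_inl, Sum.elim_inr] <;> infer_instance

/-- couplings of either law and a Gaussian diagonal -/
abbrev PW (b : Bool) (n : ℕ) : Measure ((Pair n → ℝ) × (Fin n → ℝ)) :=
  (couplingLaw b n).prod (gv (Fin n))

/-- the law of the matrix -/
abbrev LW (b : Bool) (n : ℕ) : Measure (Mat n) := (PW b n).map fun p => Wmat n p.1 p.2

lemma map_lawW (b : Bool) (n : ℕ) : (Measure.pi (lawW b n)).map (Wy n) = LW b n := by
  rw [Mba36.map_Wy n (lawW b n)]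
  simp only [lawW, Sum.elim_inl, Sum.elim_inr]
  rw [← couplingLaw_eq]

lemma dom_lawW (b : Bool) (n : ℕ) (p : Ix n) : Dom (lawW b n p) := by
  cases p
  · exact Mba36.dom_entry b
  · exact Mba36.dom_gauss

lemma match_lawW (b : Bool) (n : ℕ) (p : Ix n) (i : ℕ) (hi : i < Sw50.kk p) :
    ∫ t, t ^ i ∂lawW b n p = ∫ t, t ^ i ∂gaussianReal 0 1 := by
  cases p
  · exact Mba36.entry_match b hi
  · rfl

instance (b : Bool) (n : ℕ) : IsProbabilityMeasure (LW b n) :=
  Measure.isProbabilityMeasure_map measurable_Wmat.aemeasurable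

/-- **universality of the edge of `Wmat`** -/
theorem univW (b : Bool) (K : ℕ) (F : (Fin K → ℝ) → ℝ) (hF : Continuous F)
    (hc : HasCompactSupport F) :
    Tendsto (fun n => ∫ W, F (LamV n K W) ∂LW b n - ∫ W, F (LamV n K W) ∂GOE n) atTop (𝓝 0) := by
  simpa only [map_lawW] using univM (lawW b) (dom_lawW b) (match_lawW b) K F hF hc

lemma pre_le (b : Bool) (n : ℕ) (s : Set (Mat n)) :
    PW b n {p | Wmat n p.1 p.2 ∈ s} ≤ LW b n s :=
  Measure.le_map_apply measurable_Wmat.aemeasurable s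

lemma real_le_one_sub {X : Type*} [MeasurableSpace X] (μ : Measure X) [IsProbabilityMeasure μ]
    {f : X → ℝ} (hf : Measurable f) (h : ∀ x, f x ∈ Set.Icc (0 : ℝ) 1) {A : Set X}
    (hA : MeasurableSet A) :
    ((∀ x ∈ A, f x = 0) → μ.real A ≤ 1 - ∫ x, f x ∂μ) ∧
      ((∀ x, x ∉ A → f x = 1) → 1 - ∫ x, f x ∂μ ≤ μ.real A) := by
  have hi : Integrable f μ := Integrable.of_bound hf.aestronglyMeasurable 1
    (.of_forall fun x => by rw [Real.norm_eq_abs, abs_of_nonneg (h x).1]; exact (h x).2)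
  have e : 1 - ∫ x, f x ∂μ = ∫ x, (1 - f x) ∂μ := by
    rw [integral_sub (integrable_const _) hi]; simp
  have hj : Integrable (A.indicator (1 : X → ℝ)) μ := (integrable_const (1 : ℝ)).indicator hA
  rw [e, ← integral_indicator_one hA]
  refine ⟨fun h0 => integral_mono hj ((integrable_const _).sub hi) fun x => ?_,
    fun h1 => integral_mono ((integrable_const _).sub hi) hj fun x => ?_⟩
  · by_cases hx : x ∈ A
    · simp [hx, h0 x hx]
    · simpa [hx] using (h x).2
  · by_cases hx : x ∈ A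
    · simpa [hx] using (h x).1
    · simp [hx, h1 x hx]

/-- two-sided rough rigidity of the first `K` eigenvalues -/
def Head (n K : ℕ) (L : ℝ) (W : Mat n) : Prop := ∀ k : ℕ, k < K →
  ((k : ℝ) + 1) ^ (2 / 3 : ℝ) / 256 - L ≤ Lam n W k ∧
    Lam n W k ≤ 60 * ((k : ℝ) + 1) ^ (2 / 3 : ℝ) + L

lemma head_of_kap {n K : ℕ} (hn : 8 * K ≤ n) {W : Mat n} {L : ℝ} (h : kapL n (lam W) ≤ L) :
    Head n K L W := fun k hk => by
  have h1 := (le_ciSup (f := fun k : Fin n =>
    max ((((k : ℕ) : ℝ) + 1) ^ (2 / 3 : ℝ) / 256 - tau n * (2 - lam W k))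
    (if 8 * ((k : ℕ) + 1) ≤ n then tau n * (2 - lam W k) - 60 * (((k : ℕ) : ℝ) + 1) ^ (2 / 3 : ℝ)
      else 0)) (Finite.bddAbove_range _) ⟨k, by omega⟩).trans h
  rw [max_le_iff, if_pos (by simp only; omega)] at h1
  obtain ⟨h2, h3⟩ := h1
  simp only at h2 h3
  rw [Lam]
  constructor <;> linarith

/-- **rough rigidity of the first `K` eigenvalues, constant independent of `K`** -/
theorem headW (b : Bool) {ε : ℝ} (hε : 0 < ε) : ∃ L : ℝ, 0 ≤ L ∧ ∀ K : ℕ, ∀ᶠ n in atTop,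
    PW b n {p | ¬ Head n K L (Wmat n p.1 p.2)} ≤ ENNReal.ofReal ε := by
  obtain ⟨C, hC⟩ := All.edgeTStmt 1 zero_le_one
  obtain ⟨L, hL, h⟩ := top_markov (fun n => GOE n) (fun n W => kapL n (lam W))
    (fun n => (measurable_kapL n).comp Ed.measurable_lam) hC (half_pos hε)
  refine ⟨L + 1, by positivity, fun K => ?_⟩
  set a : Fin K → ℝ := fun k => (((k : ℕ) : ℝ) + 1) ^ (2 / 3 : ℝ) / 256 - L with ha
  set c : Fin K → ℝ := fun k => 60 * (((k : ℕ) : ℝ) + 1) ^ (2 / 3 : ℝ) + L with hc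
  set U : Set (Fin K → ℝ) := Set.univ.pi fun k => Set.Ioo (a k - 1) (c k + 1) with hU
  have hUo : IsOpen U := isOpen_set_pi Set.finite_univ fun _ _ => isOpen_Ioo
  obtain ⟨F, F1, F0, Fc, F01⟩ := exists_continuous_one_zero_of_isCompact
    (isCompact_Icc (a := a) (b := c)) hUo.isClosed_compl
    (Set.disjoint_left.2 fun y hy hy' => hy' fun k _ =>
      ⟨by linarith [hy.1 k], by linarith [hy.2 k]⟩)
  filter_upwards [h, Metric.tendsto_nhds.1 (univW b K F F.continuous Fc) (ε / 2) (half_pos hε),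
    eventually_ge_atTop (8 * K)] with n h1 h2 h8
  have mF : Measurable fun W : Mat n => F (LamV n K W) :=
    F.continuous.measurable.comp (measurable_LamV n K)
  have k1 := (real_le_one_sub (LW b n) mF (fun W => F01 _)
    ((measurable_LamV n K) hUo.isClosed_compl.measurableSet)).1 fun W hW => F0 hW
  have k2 := (real_le_one_sub (GOE n) mF (fun W => F01 _)
    (A := {W | L < kapL n (lam W)})
    (measurableSet_lt measurable_const ((measurable_kapL n).comp Ed.measurable_lam))).2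
    fun W hW => F1 ⟨fun k => (head_of_kap h8 (not_lt.1 hW) k k.2).1,
      fun k => (head_of_kap h8 (not_lt.1 hW) k k.2).2⟩
  have k3 : (GOE n).real {W | L < kapL n (lam W)} ≤ ε / 2 :=
    ENNReal.toReal_le_of_le_ofReal (half_pos hε).le h1
  rw [Real.dist_eq, sub_zero, abs_lt] at h2
  refine le_trans (measure_mono fun p hp => ?_) ((pre_le b n (LamV n K ⁻¹' Uᶜ)).trans ?_)
  · intro hu
    refine hp fun k hk => ?_
    have := hu ⟨k, hk⟩ (Set.mem_univ _)
    simp only [ha, hc, LamV, Set.mem_Ioo] at this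
    constructor <;> linarith [this.1, this.2]
  · rw [← ofReal_measureReal]
    exact ENNReal.ofReal_le_ofReal (by linarith [h2.1])

/-- one eigenvalue is rarely too low -/
lemma low_one (b : Bool) : ∃ C : ℝ, 0 ≤ C ∧ ∀ᶠ n in atTop, ∀ k : ℕ, k < n →
    (PW b n).real {p | Lam n (Wmat n p.1 p.2) k < ((k : ℝ) + 1) ^ (3 / 5 : ℝ)} ≤
      C * (((k : ℝ) + 1) ^ 2)⁻¹ := by
  obtain ⟨C, c0, hC⟩ := All.mbStmt 20 1
  refine ⟨(2 * C) ^ 20, by positivity, ?_⟩
  filter_upwards [hC, eventually_ge_atTop 1] with n hC hn k hk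
  have t0 := tau_pos hn
  have n0 : (0 : ℝ) < n := by exact_mod_cast hn
  have k1 : (1 : ℝ) ≤ (k : ℝ) + 1 := by linarith [(Nat.cast_nonneg k : (0 : ℝ) ≤ k)]
  have k0 : (0 : ℝ) < (k : ℝ) + 1 := by linarith
  set x : ℝ := ((k : ℝ) + 1) ^ (3 / 5 : ℝ) with hx
  have x1 : 1 ≤ x := Real.one_le_rpow k1 (by norm_num)
  have x0 : 0 < x := by linarith
  have xt : x ≤ tau n := by
    have h1 : (k : ℝ) + 1 ≤ n := by exact_mod_cast hk
    exact (Real.rpow_le_rpow k0.le h1 (by norm_num)).trans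
      (Real.rpow_le_rpow_of_exponent_le (k1.trans h1) (by norm_num))
  obtain ⟨h1, h2⟩ := (hC (lawW b n) (dom_lawW b n) 1 (by simp) ⌊tau n / x⌋₊
    ((Nat.floor_le (by positivity)).trans (by rw [one_mul]; exact div_le_self t0.le x1))).2
  set T : Mat n → ℝ := fun W => (Ym 1 W ^ (2 * ⌊tau n / x⌋₊)).trace ^ 20 with hT
  have mT : Measurable T := ((EdUniv.continuous_trace_Ym n 1 _).pow 20).measurable
  have h3 := mul_meas_ge_le_integral_of_nonneg
    (ae_of_all _ fun y => (by decide : Even 20).pow_nonneg _) h1 ((((k : ℝ) + 1) / 2) ^ 20)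
  have h4 : (PW b n).real {p | Lam n (Wmat n p.1 p.2) k < x} ≤
      (Measure.pi (lawW b n)).real {y | (((k : ℝ) + 1) / 2) ^ 20 ≤ T (Wy n y)} := by
    have e : (Measure.pi (lawW b n)).real {y | (((k : ℝ) + 1) / 2) ^ 20 ≤ T (Wy n y)} =
        (PW b n).real {p | (((k : ℝ) + 1) / 2) ^ 20 ≤ T (Wmat n p.1 p.2)} := by
      have ms : MeasurableSet {W : Mat n | (((k : ℝ) + 1) / 2) ^ 20 ≤ T W} :=
        measurableSet_le measurable_const mT
      have e1 := Measure.map_apply (μ := Measure.pi (lawW b n)) (EdUniv.measurable_Wy n) ms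
      have e2 := Measure.map_apply (μ := PW b n) measurable_Wmat ms
      rw [map_lawW, e2] at e1
      exact (congrArg ENNReal.toReal e1).symm
    rw [e]
    refine measureReal_mono fun p hp => ?_
    have hW := Wmat_isHermitian p.1 p.2
    have h5 : k < cnt (Wmat n p.1 p.2) (2 - x / tau n) := by
      refine (lt_cnt_iff hW).2 ⟨by simpa using hk, ?_⟩
      have hp' : tau n * (2 - lam (Wmat n p.1 p.2) k) < x := hp
      have : 2 - lam (Wmat n p.1 p.2) k ≤ x / tau n := by rw [le_div_iff₀ t0]; linarith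
      linarith
    have h6 := EdMbc.cnt_le_trace hW hn x0 xt
    have h7 : (k : ℝ) + 1 ≤ cnt (Wmat n p.1 p.2) (2 - x / tau n) := by exact_mod_cast h5
    show (((k : ℝ) + 1) / 2) ^ 20 ≤ (Ym 1 (Wmat n p.1 p.2) ^ (2 * ⌊tau n / x⌋₊)).trace ^ 20
    exact pow_le_pow_left₀ (by positivity) (by linarith) 20
  have h5 : C * n * (1 + (⌊tau n / x⌋₊ : ℝ)) ^ (-(3 / 2) : ℝ) ≤ C * x ^ (3 / 2 : ℝ) := by
    have h3 := Real.rpow_le_rpow_of_nonpos (z := -(3 / 2)) (by positivity)
      ((Nat.lt_floor_add_one (tau n / x)).le.trans_eq (add_comm _ _)) (by norm_num)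
    rw [Real.div_rpow t0.le x0.le, EdMbc.tau_rpow, Real.rpow_neg x0.le, div_inv_eq_mul,
      le_inv_mul_iff₀ n0] at h3
    nlinarith [mul_le_mul_of_nonneg_left h3 c0]
  have h6 : (x ^ (3 / 2 : ℝ)) ^ 20 = ((k : ℝ) + 1) ^ 18 := by
    rw [hx, ← Real.rpow_mul k0.le, ← Real.rpow_natCast, ← Real.rpow_mul k0.le,
      ← Real.rpow_natCast]
    norm_num
  have h7 := (mul_le_mul_of_nonneg_left h4 (by positivity : 0 ≤ (((k : ℝ) + 1) / 2) ^ 20)).trans
    (h3.trans (h2.trans (pow_le_pow_left₀ (by have := EdMbc.rho_pos ⌊tau n / x⌋₊; positivity)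
      h5 20)))
  rw [mul_pow, h6] at h7
  refine le_of_mul_le_mul_left (h7.trans (le_of_eq ?_))
    (by positivity : 0 < (((k : ℝ) + 1) / 2) ^ 20)
  field_simp

/-- lower bound of the eigenvalues beyond `K` -/
def Tail (n K : ℕ) (W : Mat n) : Prop := ∀ k : ℕ, K < k → k < n →
  ((k : ℝ) + 1) ^ (3 / 5 : ℝ) ≤ Lam n W k

theorem tailW (b : Bool) {ε : ℝ} (hε : 0 < ε) : ∃ K : ℕ, ∀ᶠ n in atTop,
    PW b n {p | ¬ Tail n K (Wmat n p.1 p.2)} ≤ ENNReal.ofReal ε := by
  obtain ⟨C, c0, hC⟩ := low_one b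
  obtain ⟨K, hK⟩ := exists_nat_ge (2 * C / ε)
  refine ⟨K, hC.mono fun n hn => ?_⟩
  have h1 : {p : (Pair n → ℝ) × (Fin n → ℝ) | ¬ Tail n K (Wmat n p.1 p.2)} ⊆
      ⋃ k ∈ Ioo K n, {p | Lam n (Wmat n p.1 p.2) k < ((k : ℝ) + 1) ^ (3 / 5 : ℝ)} := by
    intro p hp
    simp only [Tail, Set.mem_ofPred_eq, not_forall, not_le] at hp
    obtain ⟨k, h1, h2, h3⟩ := hp
    exact Set.mem_biUnion (Finset.mem_coe.2 (mem_Ioo.2 ⟨h1, h2⟩)) h3
  rw [← ofReal_measureReal]
  refine ENNReal.ofReal_le_ofReal ((measureReal_mono h1 (measure_ne_top _ _)).trans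
    ((measureReal_biUnion_finset_le _ _).trans ?_))
  have h2 : ∀ k ∈ Ioo K n, (PW b n).real
      {p | Lam n (Wmat n p.1 p.2) k < ((k : ℝ) + 1) ^ (3 / 5 : ℝ)} ≤ C * ((k : ℝ) ^ 2)⁻¹ := by
    intro k hk
    have k0 : (0 : ℝ) < k := by exact_mod_cast (Nat.zero_le K).trans_lt (mem_Ioo.1 hk).1
    refine (hn k (mem_Ioo.1 hk).2).trans ?_
    gcongr
    linarith
  refine (sum_le_sum h2).trans ?_
  rw [← mul_sum]
  refine (mul_le_mul_of_nonneg_left (sum_Ioo_inv_sq_le K n) c0).trans ?_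
  rw [div_le_iff₀ hε] at hK
  rw [← mul_div_assoc, div_le_iff₀ (by positivity)]
  nlinarith

end Crest.Agent.T157.Sp39

end
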