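import Crest.Agent.T157.CqDef_72
import Crest.Agent.T157.CqSpA_39

/-!
# Row 157, part C: the spectral mass of the windows, both laws (helper39)

`Cq.specStmt b : SpecStmt b`.
-/

set_option autoImplicit false

noncomputable section

namespace Crest.Agent.T157.Sp39

open MeasureTheory ProbabilityTheory Matrix Filter Topology Finset Real
open Crest.ProbabilityR.SpinGlassDynamics Crest.Agent.T157.E Crest.Agent.T157.Eig
open Crest.Agent.T157.Ed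
open Crest.Agent.T157.Tr (Off)

/-- the summable profile -/
def zz (j : ℕ) : ℝ := 1 / (1 + ((j : ℝ) ^ (2 / 3 : ℝ)) ^ 2)

lemma zz_nonneg (j : ℕ) : 0 ≤ zz j := by unfold zz; positivity

lemma zz_summable : Summable zz := by
  have h := (Real.summable_nat_rpow_inv (p := 4 / 3)).2 (by norm_num)
  refine (summable_nat_add_iff 1).1 (Summable.of_nonneg_of_le (fun j => zz_nonneg _)
    (fun j => ?_) ((summable_nat_add_iff 1).2 h))
  have j0 : (0 : ℝ) < ((j + 1 : ℕ) : ℝ) := by positivity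
  have e : (((j + 1 : ℕ) : ℝ) ^ (2 / 3 : ℝ)) ^ 2 = ((j + 1 : ℕ) : ℝ) ^ (4 / 3 : ℝ) := by
    rw [← Real.rpow_natCast, ← Real.rpow_mul j0.le]; norm_num
  rw [zz, e, one_div]
  exact inv_anti₀ (by positivity) (by linarith)

/-- one term of the trace -/
lemma term_le {l L η u : ℝ} (hl : 1 ≤ l) (_hL : 0 ≤ L) (hu : 0 ≤ u) (h : u * l / 256 - L ≤ η) :
    l ^ 2 / (η ^ 2 + l ^ 2) ≤ 512 ^ 2 * (1 + L ^ 2) * (1 / (1 + u ^ 2)) := by
  have l0 : 0 < l := by linarith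
  rw [mul_one_div, div_le_div_iff₀ (by positivity) (by positivity)]
  rcases le_total u (512 * L) with h1 | h1
  · have h2 : u ^ 2 ≤ (512 * L) ^ 2 := pow_le_pow_left₀ hu h1 2
    have h3 : 1 + u ^ 2 ≤ 512 ^ 2 * (1 + L ^ 2) := by nlinarith
    calc l ^ 2 * (1 + u ^ 2) ≤ l ^ 2 * (512 ^ 2 * (1 + L ^ 2)) := by gcongr
      _ ≤ (η ^ 2 + l ^ 2) * (512 ^ 2 * (1 + L ^ 2)) := by gcongr; nlinarith [sq_nonneg η]
      _ = _ := by ring
  · have h2 : u * l ≤ 512 * η := by nlinarith [mul_le_mul_of_nonneg_left hl hu]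
    have h3 : (u * l) ^ 2 ≤ (512 * η) ^ 2 := pow_le_pow_left₀ (by positivity) h2 2
    have h4 : l ^ 2 * (1 + u ^ 2) ≤ 512 ^ 2 * (η ^ 2 + l ^ 2) := by nlinarith [sq_nonneg l]
    refine h4.trans ?_
    have : 0 ≤ 512 ^ 2 * L ^ 2 * (η ^ 2 + l ^ 2) := by positivity
    nlinarith

lemma rpow_back {l : ℝ} (hl : 0 ≤ l) : (l ^ (3 / 2 : ℝ)) ^ (2 / 3 : ℝ) = l := by
  rw [← Real.rpow_mul hl]; norm_num

/-- the head of the trace -/
lemma head_le {l L : ℝ} (hl : 1 ≤ l) (hL : 0 ≤ L) (K : ℕ) (η : ℕ → ℝ)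
    (h : ∀ k, k < K → ((k : ℝ) + 1) ^ (2 / 3 : ℝ) / 256 - L ≤ η k) :
    ∑ k ∈ range K, l ^ 2 / (η k ^ 2 + l ^ 2) ≤
      512 ^ 2 * (1 + L ^ 2) * (2 * ∑' j, zz j) * l ^ (3 / 2 : ℝ) := by
  have l0 : 0 < l := by linarith
  have m1 : 1 ≤ l ^ (3 / 2 : ℝ) := Real.one_le_rpow hl (by norm_num)
  set M := ⌈l ^ (3 / 2 : ℝ)⌉₊ with hM
  have M1 : l ^ (3 / 2 : ℝ) ≤ M := Nat.le_ceil _
  have M2 : (M : ℝ) ≤ 2 * l ^ (3 / 2 : ℝ) := by
    linarith [Nat.ceil_lt_add_one (a := l ^ (3 / 2 : ℝ)) (by linarith)]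
  have M0 : 0 < M := Nat.ceil_pos.2 (by linarith)
  have h1 : ∀ k ∈ range K, l ^ 2 / (η k ^ 2 + l ^ 2) ≤ 512 ^ 2 * (1 + L ^ 2) * zz (k / M) := by
    intro k hk
    refine term_le hl hL (by positivity) (le_trans ?_ (h k (mem_range.1 hk)))
    have h2 : ((k / M : ℕ) : ℝ) * l ^ (3 / 2 : ℝ) ≤ (k : ℝ) + 1 := by
      have h3 : ((k / M : ℕ) : ℝ) * M ≤ k := by exact_mod_cast Nat.div_mul_le_self k M
      nlinarith [mul_le_mul_of_nonneg_left M1 (Nat.cast_nonneg (α := ℝ) (k / M))]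
    have h4 := Real.rpow_le_rpow (by positivity) h2 (by norm_num : (0 : ℝ) ≤ 2 / 3)
    rw [Real.mul_rpow (by positivity) (by positivity), rpow_back l0.le] at h4
    linarith
  refine (sum_le_sum h1).trans ?_
  rw [← mul_sum, mul_assoc (512 ^ 2 * (1 + L ^ 2))]
  refine mul_le_mul_of_nonneg_left ?_ (by positivity)
  have h5 : ∑ k ∈ range K, zz (k / M) ≤ M * ∑ j ∈ range K, zz j := by
    rw [← sum_fiberwise_of_maps_to (s := range K) (t := range K) (g := fun k => k / M)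
      (fun k hk => mem_range.2 ((Nat.div_le_self k M).trans_lt (mem_range.1 hk))), mul_sum]
    refine sum_le_sum fun j _ => ?_
    rw [sum_congr rfl (g := fun _ => zz j) fun k hk => by rw [(mem_filter.1 hk).2], sum_const,
      nsmul_eq_mul]
    refine mul_le_mul_of_nonneg_right ?_ (zz_nonneg j)
    have h6 : (range K).filter (fun k => k / M = j) ⊆ Ico (j * M) (j * M + M) := by
      intro k hk
      have h7 := (mem_filter.1 hk).2
      rw [mem_Ico, ← h7]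
      exact ⟨Nat.div_mul_le_self k M, Nat.lt_div_mul_add M0⟩
    have h8 := card_le_card h6
    rw [Nat.card_Ico, Nat.add_sub_cancel_left] at h8
    exact_mod_cast h8
  have h9 := zz_summable.sum_le_tsum (range K) fun j _ => zz_nonneg j
  have h10 : 0 ≤ ∑ j ∈ range K, zz j := sum_nonneg fun j _ => zz_nonneg j
  calc ∑ k ∈ range K, zz (k / M) ≤ M * ∑ j ∈ range K, zz j := h5
    _ ≤ 2 * l ^ (3 / 2 : ℝ) * ∑' j, zz j := by gcongr
    _ = _ := by ring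

/-- the tail of the trace -/
lemma tail_small (l₁ : ℝ) : ∀ᶠ K : ℕ in atTop, ∀ (n : ℕ) (l : ℝ) (η : ℕ → ℝ), 1 ≤ l → l ≤ l₁ →
    (∀ k, K ≤ k → k < n → ((k : ℝ) + 1) ^ (3 / 5 : ℝ) ≤ η k) →
    ∑ k ∈ Ico K n, l ^ 2 / (η k ^ 2 + l ^ 2) ≤ 1 := by
  set f : ℕ → ℝ := fun k => (((k : ℝ) + 1) ^ (6 / 5 : ℝ))⁻¹ with hf
  have hs : Summable f := by
    have h := (Real.summable_nat_rpow_inv (p := 6 / 5)).2 (by norm_num)
    simpa using (summable_nat_add_iff 1).2 h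
  have ht := (tendsto_sum_nat_add f).const_mul (l₁ ^ 2)
  rw [mul_zero] at ht
  filter_upwards [ht.eventually (ge_mem_nhds one_pos)] with K hK n l η hl hl₁ h
  refine le_trans ?_ hK
  have h1 : ∀ k ∈ Ico K n, l ^ 2 / (η k ^ 2 + l ^ 2) ≤ l₁ ^ 2 * f k := by
    intro k hk
    have k0 : (0 : ℝ) < (k : ℝ) + 1 := by positivity
    have h2 := pow_le_pow_left₀ (by positivity) (h k (mem_Ico.1 hk).1 (mem_Ico.1 hk).2) 2
    rw [← Real.rpow_natCast, ← Real.rpow_mul k0.le,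
      show (3 / 5 : ℝ) * ((2 : ℕ) : ℝ) = 6 / 5 by norm_num] at h2
    rw [hf, ← div_eq_mul_inv]
    exact div_le_div₀ (by positivity) (pow_le_pow_left₀ (by linarith) hl₁ 2) (by positivity)
      (by nlinarith)
  refine (sum_le_sum h1).trans ?_
  rw [← mul_sum, sum_Ico_eq_sum_range]
  refine mul_le_mul_of_nonneg_left ?_ (sq_nonneg _)
  simp only [add_comm K]
  exact ((summable_nat_add_iff K).2 hs).sum_le_tsum _ fun k _ => by rw [hf]; positivity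

/-- the lower bound -/
lemma low_le {l L : ℝ} (hl : 1 ≤ l) (hL : 0 ≤ L) {K n : ℕ} (hK : l ^ (3 / 2 : ℝ) ≤ K) (hn : K ≤ n)
    (η : ℕ → ℝ) (h : ∀ k, k < K → ((k : ℝ) + 1) ^ (2 / 3 : ℝ) / 256 - L ≤ η k ∧
      η k ≤ 60 * ((k : ℝ) + 1) ^ (2 / 3 : ℝ) + L) :
    (1 / ((60 + L) ^ 2 + 1)) ^ 2 / 2 * l ^ (3 / 2 : ℝ) ≤
      ∑ k ∈ range n, l ^ 2 / (η k ^ 2 + l ^ 2) * (l ^ 2 / (η k ^ 2 + l ^ 2)) := by
  have l0 : 0 < l := by linarith
  have m1 : 1 ≤ l ^ (3 / 2 : ℝ) := Real.one_le_rpow hl (by norm_num)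
  set m := ⌊l ^ (3 / 2 : ℝ)⌋₊ with hm
  have a1 : (m : ℝ) ≤ l ^ (3 / 2 : ℝ) := Nat.floor_le (by linarith)
  have a2 : l ^ (3 / 2 : ℝ) < m + 1 := Nat.lt_floor_add_one _
  have a3 : (1 : ℝ) ≤ m := by exact_mod_cast Nat.le_floor (by simpa using m1)
  have a4 : m ≤ K := by exact_mod_cast a1.trans hK
  have h1 : ∀ k ∈ range m, (1 / ((60 + L) ^ 2 + 1)) ^ 2 ≤
      l ^ 2 / (η k ^ 2 + l ^ 2) * (l ^ 2 / (η k ^ 2 + l ^ 2)) := by
    intro k hk
    have hk' : (k : ℝ) + 1 ≤ m := by exact_mod_cast mem_range.1 hk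
    have h2 := Real.rpow_le_rpow (by positivity) (hk'.trans a1) (by norm_num : (0 : ℝ) ≤ 2 / 3)
    rw [rpow_back l0.le] at h2
    obtain ⟨h3, h4⟩ := h k ((mem_range.1 hk).trans_le a4)
    have h5 : 0 ≤ ((k : ℝ) + 1) ^ (2 / 3 : ℝ) := by positivity
    have h6 : L ≤ L * l := le_mul_of_one_le_right hL hl
    have h7 : η k ^ 2 ≤ ((60 + L) * l) ^ 2 := sq_le_sq' (by nlinarith) (by nlinarith)
    rw [← sq]
    refine pow_le_pow_left₀ (by positivity) ?_ 2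
    rw [div_le_div_iff₀ (by positivity) (by positivity)]
    nlinarith
  refine le_trans ?_ (sum_le_sum_of_subset_of_nonneg (range_subset_range.2 (a4.trans hn))
    fun k _ _ => mul_self_nonneg _)
  refine le_trans ?_ (sum_le_sum h1)
  rw [sum_const, card_range, nsmul_eq_mul]
  have : 0 ≤ (1 / ((60 + L) ^ 2 + 1)) ^ 2 := by positivity
  nlinarith

lemma trace_fl {n : ℕ} {W : Mat n} (hW : W.IsHermitian) (l : ℝ) :
    (Cq.fl n l W).trace = ∑ k ∈ range n, l ^ 2 / (Lam n W k ^ 2 + l ^ 2) := by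
  rw [Cq.fl, trace_fnK hW, Fintype.card_fin]; rfl

lemma trace_fl_sq {n : ℕ} {W : Mat n} (hW : W.IsHermitian) (l : ℝ) :
    (Cq.fl n l W * Cq.fl n l W).trace =
      ∑ k ∈ range n, l ^ 2 / (Lam n W k ^ 2 + l ^ 2) * (l ^ 2 / (Lam n W k ^ 2 + l ^ 2)) := by
  rw [Cq.fl, fnK_mul hW, trace_fnK hW, Fintype.card_fin]; rfl

end Crest.Agent.T157.Sp39

namespace Crest.Agent.T157.Cq

open MeasureTheory Filter Finset Crest.Agent.T157.E Crest.Agent.T157.Ed Crest.Agent.T157.Sp39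

/-- **the spectral mass of the windows** -/
theorem specStmt (b : Bool) : SpecStmt b := fun ε hε => by
  obtain ⟨L, hL, hH⟩ := headW b (half_pos hε)
  obtain ⟨K₀, hT⟩ := tailW b (half_pos hε)
  refine ⟨(1 / ((60 + L) ^ 2 + 1)) ^ 2 / 2, 512 ^ 2 * (1 + L ^ 2) * (2 * ∑' j, zz j) + 1,
    by positivity, fun l₁ => ?_⟩
  obtain ⟨K, hK1, hK2, hK3⟩ := ((tail_small l₁).and ((eventually_gt_atTop K₀).and
    (tendsto_natCast_atTop_atTop.eventually_ge_atTop (l₁ ^ (3 / 2 : ℝ))))).exists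
  have h := Tr.Off.and (μ := PB b) (P := fun n p => Head n K L (Wp p))
    (Q := fun n p => Tail n K₀ (Wp p)) (hH K) hT (half_pos hε).le (half_pos hε).le
  rw [add_halves] at h
  refine h.mono ((eventually_ge_atTop K).mono fun n hn p hp l hl => ?_)
  have hW : (Wp p).IsHermitian := Wmat_isHermitian p.1 p.2
  have m1 : 1 ≤ l ^ (3 / 2 : ℝ) := Real.one_le_rpow hl.1 (by norm_num)
  rw [trace_fl_sq hW, trace_fl hW]
  refine ⟨low_le hl.1 hL ((Real.rpow_le_rpow (by linarith [hl.1]) hl.2 (by norm_num)).trans hK3)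
    hn _ hp.1, ?_⟩
  rw [← sum_range_add_sum_Ico _ hn, add_mul, one_mul]
  exact add_le_add (head_le hl.1 hL K _ fun k hk => (hp.1 k hk).1)
    ((hK1 n l _ hl.1 hl.2 fun k hk hk' => hp.2 k (hK2.trans_le hk) hk').trans m1)

end Crest.Agent.T157.Cq

end
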