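import Crest.Agent.T157.CqDef_72
import Crest.Agent.T157.SpDom_15
import Crest.Agent.T157.SpLow_15

/-!
# Row 157, part C: statics of the soft sphere, `Cq.StatGlue` (helper62)
-/

set_option autoImplicit false

noncomputable section

namespace Crest.Agent.T157.Cq

open MeasureTheory ProbabilityTheory Matrix Filter Topology Finset Real
open scoped ENNReal NNReal
open Crest.Agent.T157.E Crest.Agent.T157.St Crest.Agent.T157.St.Mgf32 Crest.Agent.T157.Ed
open Crest.Agent.T157.St.Den90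
open Crest.Agent.T157.Sp (piD DomM DomStmt)
open Crest.Agent.T157.Sp.Dom15 Crest.Agent.T157.Sp.Low15

namespace Stat62

section gen
variable {ι : Type} [Fintype ι] [DecidableEq ι]

/-- lower tail of a block of Gaussian coordinates -/
theorem low_tail {c : ι → ℝ} (S : Finset ι) {b : ℝ} (hb : 0 < b) (hc : ∀ k ∈ S, b ≤ c k) :
    (gs 0 c).real {x | ∑ k ∈ S, x k ^ 2 ≤ S.card * b / 8} ≤ exp (-(S.card / 2 : ℝ)) := by
  let H : (ι → ℝ) → ℝ := fun y => ∏ k ∈ S, exp (-(4 / b * y k ^ 2))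
  have hb4 : 0 ≤ 4 / b := by positivity
  have hHc : Continuous H := by fun_prop
  have hH0 : ∀ y, 0 ≤ H y := fun y => prod_nonneg fun k _ => (exp_pos _).le
  have hH1 : ∀ y, ‖H y‖ ≤ 1 := fun y => by
    rw [Real.norm_of_nonneg (hH0 y)]
    exact prod_le_one (fun k _ => (exp_pos _).le) fun k _ => (le_abs_self _).trans (ex_le hb4 _)
  have hHi : Integrable H (gs 0 c) :=
    Integrable.of_bound hHc.aestronglyMeasurable 1 (ae_of_all _ hH1)
  have hA : MeasurableSet {x : ι → ℝ | ∑ k ∈ S, x k ^ 2 ≤ S.card * b / 8} :=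
    measurableSet_le (by fun_prop) measurable_const
  have h4 : (gs 0 c).real {x | ∑ k ∈ S, x k ^ 2 ≤ S.card * b / 8} ≤
      ∫ y, exp (S.card / 2) * H y ∂gs 0 c := by
    rw [← integral_indicator_one hA]
    refine integral_mono ((integrable_const 1).indicator hA) (hHi.const_mul _) fun y => ?_
    by_cases hy : y ∈ {x : ι → ℝ | ∑ k ∈ S, x k ^ 2 ≤ S.card * b / 8}
    · rw [Set.indicator_of_mem hy]
      simp only [H, Pi.one_apply]
      rw [← exp_sum, ← exp_add, one_le_exp_iff, sum_neg_distrib, ← mul_sum]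
      have h1 := mul_le_mul_of_nonneg_left (show ∑ k ∈ S, y k ^ 2 ≤ S.card * b / 8 from hy) hb4
      have h2 : 4 / b * (S.card * b / 8) = S.card / 2 := by field_simp; ring
      linarith
    · rw [Set.indicator_of_notMem hy]
      exact mul_nonneg (exp_pos _).le (hH0 y)
  have h5 : ∫ y, H y ∂gs 0 c ≤ exp (-(S.card : ℝ)) := by
    rw [gs, int_prod _ S fun _ y => exp (-(4 / b * y ^ 2))]
    calc ∏ k ∈ S, ∫ a, exp (-(4 / b * a ^ 2)) ∂gaussianReal ((0 : ι → ℝ) k) (c k).toNNReal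
        ≤ ∏ _k ∈ S, exp (-1) := by
          refine prod_le_prod (fun k _ => integral_nonneg fun a => (exp_pos _).le) fun k hk => ?_
          rw [Pi.zero_apply, lap (hb.le.trans (hc k hk)) hb4, Real.exp_neg]
          refine inv_anti₀ (exp_pos _) (Real.le_sqrt_of_sq_le ?_)
          have h1 : 4 ≤ 4 / b * c k := by
            rw [div_mul_eq_mul_div, le_div_iff₀ hb]; linarith [hc k hk]
          have h2 := exp_one_lt_three
          nlinarith [exp_pos 1]
      _ = _ := by rw [prod_const, ← exp_nat_mul]; congr 1; ring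
  rw [integral_const_mul] at h4
  refine h4.trans ((mul_le_mul_of_nonneg_left h5 (exp_pos _).le).trans_eq ?_)
  rw [← exp_add]; congr 1; ring

omit [DecidableEq ι] in
/-- Markov's inequality for a diagonal quadratic form -/
theorem markov {c d : ι → ℝ} (hc : ∀ k, 0 < c k) (hd : ∀ k, 0 ≤ d k) (S : Finset ι) {r : ℝ}
    (hr : 0 < r) : (gs 0 c).real {x | r ≤ ∑ k ∈ S, d k * x k ^ 2} ≤ (∑ k, d k * c k) / r := by
  have hmp : ∀ l, MeasurePreserving (fun x : ι → ℝ => x l) (gs 0 c)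
      (gaussianReal ((0 : ι → ℝ) l) (c l).toNNReal) := fun l => measurePreserving_eval _ l
  have hi : ∀ l, Integrable (fun x : ι → ℝ => d l * x l ^ 2) (gs 0 c) := fun l =>
    (((memLp_sq _).comp_measurePreserving (hmp l)).integrable (by simp)).const_mul _
  have hE : ∫ x, ∑ l ∈ S, d l * x l ^ 2 ∂gs 0 c = ∑ l ∈ S, d l * c l := by
    rw [integral_finsetSum _ fun l _ => hi l]
    refine Finset.sum_congr rfl fun l _ => ?_
    have := (hmp l).hasLaw.integral_comp (f := fun x : ℝ => x ^ 2) (by fun_prop)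
    simp only [Function.comp_def] at this
    rw [integral_const_mul, this, Pi.zero_apply, int_sq, Real.coe_toNNReal _ (hc l).le]
  have h := mul_meas_ge_le_integral_of_nonneg (μ := gs 0 c)
    (f := fun x => ∑ l ∈ S, d l * x l ^ 2)
    (ae_of_all _ fun x => sum_nonneg fun l _ => mul_nonneg (hd l) (sq_nonneg _))
    (integrable_finsetSum _ fun l _ => hi l) r
  rw [hE] at h
  rw [le_div_iff₀ hr, mul_comm]
  exact h.trans (sum_le_sum_of_subset_of_nonneg (subset_univ _) fun k _ _ =>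
    mul_nonneg (hd k) (hc k).le)

omit [DecidableEq ι] in
theorem int_exp (c : ι → ℝ) {κ : ℝ} (hκ : 0 ≤ κ) (s : ℝ) :
    Integrable (fun x : ι → ℝ => exp (-(κ / 8) * (x ⬝ᵥ x - s) ^ 2)) (gs 0 c) := by
  have := Sph38.continuous_dot (ι := ι)
  refine Integrable.of_bound (Continuous.aestronglyMeasurable (by fun_prop)) 1
    (ae_of_all _ fun x => ?_)
  rw [Real.norm_of_nonneg (exp_pos _).le]
  exact exp_le_one_iff.2
    (mul_nonpos_of_nonpos_of_nonneg (neg_nonpos.2 (by positivity)) (sq_nonneg _))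

/-- upper bound of the normalisation -/
theorem Z_le {a : ι → ℝ} (ha : ∀ k, 0 < a k) {i j : ι} (hij : i ≠ j) {ε : ℝ} (hε : 0 < ε) (s : ℝ) :
    ∫ x, exp (-((ε ^ 2)⁻¹ / 8) * (x ⬝ᵥ x - s) ^ 2) ∂gs 0 (fun k => 1 / a k) ≤
      (∑' m, wt m) * √(a i * a j) * ε := by
  have h := num_le ha hij le_rfl hε s (G := fun _ => 1) measurable_const fun _ _ _ => rfl
  simp only [mul_one, lintegral_const, measure_univ] at h
  have hZ0 : 0 ≤ ∑' m, wt m := tsum_nonneg wt_nonneg
  rw [← ofReal_integral_eq_lintegral_ofReal (int_exp _ (by positivity) s)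
    (ae_of_all _ fun x => (exp_pos _).le)] at h
  exact (ENNReal.ofReal_le_ofReal_iff (by positivity)).1 h

/-- lower bound of the numerator -/
theorem N_ge {a : ι → ℝ} (ha : ∀ k, 0 < a k) {i j : ι} (hij : i ≠ j) {ε s M b : ℝ} (hε : 0 < ε)
    (hε1 : ε ≤ 1) (hM : 0 ≤ M) (hi : a i ≤ b) (hj : a j ≤ b) {F E : Set (ι → ℝ)}
    (hF : MeasurableSet F) (hE : MeasurableSet E)
    (hinv : ∀ x u v, Function.update (Function.update x i u) j v ∈ F ↔ x ∈ F)
    (hF2 : ∀ x ∈ F, s - M ≤ x ⬝ᵥ x - x i ^ 2 - x j ^ 2 ∧ x ⬝ᵥ x - x i ^ 2 - x j ^ 2 ≤ s)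
    (hp : 1 / 2 ≤ (gs 0 fun k => 1 / a k).real F) (hFE : F ∩ shell s ε ⊆ E) :
    exp (-(1 / 8)) / 4 * exp (-((M + 1) * b / 2)) * √(a i * a j) * ε ≤
      ∫ x in E, exp (-((ε ^ 2)⁻¹ / 8) * (x ⬝ᵥ x - s) ^ 2) ∂gs 0 (fun k => 1 / a k) := by
  have hb : 0 < b := (ha i).trans_le hi
  have h := (twoStmt ι 0 (fun k => 1 / a k) (fun k => one_div_pos.2 (ha k)) i j hij
    (F.indicator 1) (measurable_one.indicator hF) (fun x u v => by
      by_cases hx : x ∈ F
      · rw [Set.indicator_of_mem hx, Set.indicator_of_mem ((hinv x u v).2 hx)]; rfl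
      · rw [Set.indicator_of_notMem hx, Set.indicator_of_notMem fun h => hx ((hinv x u v).1 h)])
    s ε hε.le).2 rfl rfl M
  rw [lintegral_indicator_one hF, lintegral_indicator_one hF, Measure.restrict_apply hF,
    Measure.restrict_apply hF, Set.inter_eq_left.2 (show F ⊆ {x | s - M ≤ x ⬝ᵥ x - x i ^ 2 - x j ^ 2 ∧
      x ⬝ᵥ x - x i ^ 2 - x j ^ 2 ≤ s} from hF2), two_c (ha i) (ha j)] at h
  have h1 : √(a i * a j) / 2 * ε * exp (-((M + 1) * b / 2)) * (1 / 2) ≤
      (gs 0 fun k => 1 / a k).real (F ∩ shell s ε) := by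
    have h2 : (M + ε) / (2 * min (1 / a i) (1 / a j)) ≤ (M + 1) * b / 2 := by
      have h3 : 1 / b ≤ min (1 / a i) (1 / a j) :=
        le_min (one_div_le_one_div_of_le (ha i) hi) (one_div_le_one_div_of_le (ha j) hj)
      calc _ ≤ (M + 1) / (2 * (1 / b)) := by gcongr
        _ = _ := by field_simp
    refine (ENNReal.ofReal_le_iff_le_toReal (measure_ne_top _ _)).1 (le_trans ?_ h)
    rw [ENNReal.ofReal_mul (by positivity)]
    refine mul_le_mul' (ENNReal.ofReal_le_ofReal (by gcongr)) ?_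
    exact (ENNReal.ofReal_le_iff_le_toReal (measure_ne_top _ _)).2 hp
  have hint := int_exp (fun k => 1 / a k) (κ := (ε ^ 2)⁻¹) (by positivity) s
  have hm : MeasurableSet (F ∩ shell s ε) := hF.inter (meas_shell _ _)
  calc _ = exp (-(1 / 8)) * (√(a i * a j) / 2 * ε * exp (-((M + 1) * b / 2)) * (1 / 2)) := by ring
    _ ≤ exp (-(1 / 8)) * (gs 0 fun k => 1 / a k).real (F ∩ shell s ε) := by gcongr
    _ = ∫ _x in F ∩ shell s ε, exp (-(1 / 8)) ∂gs 0 (fun k => 1 / a k) := by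
        rw [setIntegral_const, smul_eq_mul, mul_comm]
    _ ≤ ∫ x in F ∩ shell s ε, exp (-((ε ^ 2)⁻¹ / 8) * (x ⬝ᵥ x - s) ^ 2)
          ∂gs 0 (fun k => 1 / a k) := by
        refine setIntegral_mono_on (integrable_const _).integrableOn hint.integrableOn hm
          fun x hx => exp_le_exp.2 ?_
        obtain ⟨-, h3, h4⟩ := hx
        have h5 : (x ⬝ᵥ x - s) ^ 2 ≤ ε ^ 2 := sq_le_sq' (by linarith) (by linarith)
        have h6 : (ε ^ 2)⁻¹ * (x ⬝ᵥ x - s) ^ 2 ≤ 1 := by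
          rw [inv_mul_le_iff₀ (by positivity)]; linarith
        linarith
    _ ≤ _ := setIntegral_mono_set hint.integrableOn (ae_of_all _ fun x => (exp_pos _).le)
        hFE.eventuallyLE

end gen

/-- the soft sphere as a tilted Gaussian law -/
theorem piD_real {n : ℕ} {η : ℕ → ℝ} (t : ℝ) {κ u : ℝ} (hκ : 0 < κ) (ha : ∀ k : Fin n, 0 < u + η k)
    {E : Set (Fin n → ℝ)} (hE : MeasurableSet E) :
    (piD n η t κ).real E =
      (∫ x in E, exp (-(κ / 8) * (x ⬝ᵥ x - (t + 2 * u / κ)) ^ 2) ∂gs 0 (cw n η u)) /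
        ∫ x, exp (-(κ / 8) * (x ⬝ᵥ x - (t + 2 * u / κ)) ^ 2) ∂gs 0 (cw n η u) := by
  obtain ⟨hint, hgs⟩ := gs_tilted (c := cw n η u) fun k => one_div_pos.2 (ha k)
  have hpi : piD n η t κ =
      (gs 0 (cw n η u)).tilted fun x => -(κ / 8) * (x ⬝ᵥ x - (t + 2 * u / κ)) ^ 2 := by
    rw [hgs, tilted_tilted hint, piD, ← tilted_add_const _ _ (-(u * t / 2 + u ^ 2 / (2 * κ)))]
    congr 1
    funext x
    have h1 : ∑ k, x k ^ 2 / cw n η u k = u * (x ⬝ᵥ x) + ∑ k : Fin n, η k * x k ^ 2 := by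
      rw [dotProduct, mul_sum, ← sum_add_distrib]
      refine sum_congr rfl fun k _ => ?_
      rw [cw, div_div_eq_mul_div, div_one]; ring
    simp only [Pi.add_apply]
    rw [h1]
    field_simp
    ring
  rw [hpi, measureReal_def, tilted_apply_eq_ofReal_integral' _ hE, integral_div,
    ENNReal.toReal_ofReal (div_nonneg (integral_nonneg fun x => (exp_pos _).le)
      (integral_nonneg fun x => (exp_pos _).le))]

/-- the sum of the squared lower bounds -/
def S0 : ℝ := ∑' k : ℕ, (256 / ((k : ℝ) + 1) ^ (2 / 3 : ℝ)) ^ 2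

theorem sum_le_S0 (n : ℕ) : ∑ l : Fin n, (256 / ((l : ℝ) + 1) ^ (2 / 3 : ℝ)) ^ 2 ≤ S0 :=
  (Fin.sum_univ_eq_sum_range (fun k : ℕ => (256 / ((k : ℝ) + 1) ^ (2 / 3 : ℝ)) ^ 2) n).trans_le
    (summ.sum_le_tsum _ fun _ _ => sq_nonneg _)

theorem S0_nonneg : 0 ≤ S0 := tsum_nonneg fun _ => sq_nonneg _

theorem Xd_eq (n : ℕ) (η : ℕ → ℝ) (x : Fin n → ℝ) :
    Xd n η x = ∑ k : Fin n, 1 / (η k ^ 2 + 1) * x k ^ 2 := by
  simp only [Xd, fd, dotProduct, mulVec_diagonal]
  exact sum_congr rfl fun k _ => by ring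

theorem sum_d {n : ℕ} {η : ℕ → ℝ} {t L w C : ℝ} (G : Gd n η t L w C) (hL : 0 ≤ L) :
    ∑ k : Fin n, 1 / (η k ^ 2 + 1) ≤ 2 * (L + 1) ^ 2 * S0 := by
  refine le_trans ?_ (mul_le_mul_of_nonneg_left (sum_le_S0 n) (by positivity))
  rw [mul_sum]
  refine sum_le_sum fun k _ => ?_
  have h1 := G.lo k k.2
  set y := ((k : ℝ) + 1) ^ (2 / 3 : ℝ) with hy
  have hy0 : 0 < y := by positivity
  have h2 : y / 256 ≤ (L + 1) * (|η k| + 1) := by
    nlinarith [le_abs_self (η k), abs_nonneg (η k), mul_nonneg hL (abs_nonneg (η k))]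
  have h3 : (y / 256) ^ 2 ≤ (L + 1) ^ 2 * (2 * (η k ^ 2 + 1)) := by
    refine (pow_le_pow_left₀ (by positivity) h2 2).trans ?_
    rw [mul_pow]
    refine mul_le_mul_of_nonneg_left ?_ (sq_nonneg _)
    nlinarith [sq_abs (η k), sq_nonneg (|η k| - 1)]
  rw [div_le_iff₀ (by positivity)]
  calc (1 : ℝ) = (y / 256) ^ 2 * (256 / y) ^ 2 := by field_simp
    _ ≤ (L + 1) ^ 2 * (2 * (η k ^ 2 + 1)) * (256 / y) ^ 2 := by gcongr
    _ = _ := by ring

/-- two modes at height `u` -/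
theorem modes {L u : ℝ} (hL : 0 ≤ L) (hu : 2 * L + 1 ≤ u) : ∃ m : ℕ, ∀ k : ℕ, m ≤ k → k ≤ m + 1 →
    u ≤ ((k : ℝ) + 1) ^ (2 / 3 : ℝ) / 256 - L ∧
      u + (60 * ((k : ℝ) + 1) ^ (2 / 3 : ℝ) + L) ≤ 10 ^ 5 * u := by
  set y := 256 * (u + L) with hy
  have hy1 : 1 ≤ y := by linarith
  have hP : 1 ≤ y ^ (3 / 2 : ℝ) := one_le_rpow hy1 (by norm_num)
  have e : (y ^ (3 / 2 : ℝ)) ^ (2 / 3 : ℝ) = y := by
    rw [← rpow_mul (by linarith)]; norm_num
  refine ⟨⌈y ^ (3 / 2 : ℝ)⌉₊, fun k h1 h2 => ⟨?_, ?_⟩⟩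
  · have h3 : y ^ (3 / 2 : ℝ) ≤ (k : ℝ) + 1 := by
      have : ((⌈y ^ (3 / 2 : ℝ)⌉₊ : ℕ) : ℝ) ≤ k := by exact_mod_cast h1
      linarith [Nat.le_ceil (y ^ (3 / 2 : ℝ))]
    have h4 := rpow_le_rpow (by linarith) h3 (show (0 : ℝ) ≤ 2 / 3 by norm_num)
    rw [e] at h4
    linarith
  · have h3 : (k : ℝ) + 1 ≤ 4 * y ^ (3 / 2 : ℝ) := by
      have : (k : ℝ) ≤ (⌈y ^ (3 / 2 : ℝ)⌉₊ : ℕ) + 1 := by exact_mod_cast h2
      linarith [Nat.ceil_lt_add_one (show 0 ≤ y ^ (3 / 2 : ℝ) by linarith)]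
    have h4 := rpow_le_rpow (by positivity) h3 (show (0 : ℝ) ≤ 2 / 3 by norm_num)
    rw [mul_rpow (by norm_num) (by linarith), e] at h4
    have h5 : (4 : ℝ) ^ (2 / 3 : ℝ) ≤ 4 := by
      have := rpow_le_rpow_of_exponent_le (x := 4) (by norm_num) (show (2 / 3 : ℝ) ≤ 1 by norm_num)
      rwa [rpow_one] at this
    have h6 : (4 : ℝ) ^ (2 / 3 : ℝ) * y ≤ 4 * y := by gcongr
    linarith

theorem rpow32 {a : ℝ} (ha : 0 < a) : a ^ (-(3 / 2) : ℝ) = (a * √a)⁻¹ := by
  rw [rpow_neg ha.le, show (3 / 2 : ℝ) = 1 + 1 / 2 by norm_num, rpow_add ha, rpow_one,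
    sqrt_eq_rpow]

set_option maxHeartbeats 1600000 in
/-- the change of measure -/
theorem key {L C w : ℝ} (hL : 0 ≤ L) (w1 : 2 * L + 1 ≤ w) (w3 : 64 * k4 * S0 ≤ w) :
    ∃ A D : ℝ, 0 < A ∧ 0 ≤ D ∧ ∀ a : ℝ, 0 < a → a ≤ 1 → ∀ᶠ n : ℕ in atTop, ∀ (η : ℕ → ℝ) (t : ℝ),
      Gd n η t L w C → ∃ R : ℝ, 1 ≤ R ∧ (∀ k : Fin n, 0 < A / a + η k) ∧
        exp (-(D * a ^ (-(3 / 2) : ℝ))) * R * (n : ℝ)⁻¹ ≤ ∫ x in {x | Xd n η x ≤ a},
          exp (-((n : ℝ) ^ 2 / 8) * (x ⬝ᵥ x - (t + 2 * (A / a) / (n : ℝ) ^ 2)) ^ 2)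
            ∂gs 0 (cw n η (A / a)) ∧
        ∫ x, exp (-((n : ℝ) ^ 2 / 8) * (x ⬝ᵥ x - (t + 2 * (A / a) / (n : ℝ) ^ 2)) ^ 2)
            ∂gs 0 (cw n η (A / a)) ≤ (∑' m, wt m) * R * (n : ℝ)⁻¹ := by
  have hS := S0_nonneg
  have w0 : 0 < w := by linarith
  set A := w + 16 * (2 * (L + 1) ^ 2 * S0) + 2 * (|C| + 5) with hA
  have hZ0 : 0 ≤ 2 * (L + 1) ^ 2 * S0 := by positivity
  have hC0 : 0 ≤ |C| := abs_nonneg C
  have hA0 : 0 < A := by linarith
  refine ⟨A, (|C| + 5) * 10 ^ 5 / 2 * (A * √A) + 4, hA0, by positivity, fun a ha ha1 => ?_⟩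
  set u := A / a with hu
  have huA : A ≤ u := by rw [hu, le_div_iff₀ ha]; nlinarith
  have hua : u * a = A := by rw [hu]; field_simp
  have huw : w ≤ u := by linarith
  have hu1 : 1 ≤ u := by linarith
  have hu0 : 0 < u := by linarith
  obtain ⟨m, hm⟩ := modes hL (w1.trans huw)
  filter_upwards [eventually_ge_atTop (8 * (m + 2)),
    (tendsto_natCast_atTop_atTop (R := ℝ)).eventually_ge_atTop (2 * u)] with n hn hnu η t G
  have hn1 : (1 : ℝ) ≤ n := by linarith
  have hn0 : (0 : ℝ) < n := by linarith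
  let i : Fin n := ⟨m, by omega⟩
  let j : Fin n := ⟨m + 1, by omega⟩
  have hij : i ≠ j := by simp [i, j, Fin.ext_iff]
  have hp : ∀ l : Fin n, 0 < ((l : ℝ) + 1) ^ (2 / 3 : ℝ) / 256 := fun l => by positivity
  have hlo : ∀ l : Fin n, ((l : ℝ) + 1) ^ (2 / 3 : ℝ) / 256 - L ≤ η l := fun l => G.lo l l.2
  have hpos : ∀ l : Fin n, 0 < u + η l := fun l => by linarith [hp l, hlo l]
  have hposw : ∀ l : Fin n, 0 < w + η l := fun l => by linarith [hp l, hlo l]
  have hi1 : u ≤ η i := (hm m le_rfl (by omega)).1.trans (hlo i)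
  have hj1 : u ≤ η j := (hm (m + 1) (by omega) le_rfl).1.trans (hlo j)
  have hi2 : u + η i ≤ 10 ^ 5 * u :=
    le_trans (by linarith [G.hi m (by omega)]) (hm m le_rfl (by omega)).2
  have hj2 : u + η j ≤ 10 ^ 5 * u :=
    le_trans (by linarith [G.hi (m + 1) (by omega)]) (hm (m + 1) (by omega) le_rfl).2
  have hε : (0 : ℝ) < (n : ℝ)⁻¹ := by positivity
  have hε1 : (n : ℝ)⁻¹ ≤ 1 := inv_le_one_of_one_le₀ hn1
  have hε2 : (((n : ℝ)⁻¹) ^ 2)⁻¹ = (n : ℝ) ^ 2 := by rw [inv_pow, inv_inv]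
  set s := t + 2 * u / (n : ℝ) ^ 2 with hs
  have hs0 : t ≤ s := le_add_of_nonneg_right (by positivity)
  have hs1 : s ≤ t + 1 := by
    have : 2 * u / (n : ℝ) ^ 2 ≤ 1 := by
      rw [div_le_one (by positivity), sq]; exact hnu.trans (le_mul_of_one_le_left hn0.le hn1)
    linarith
  refine ⟨√((u + η i) * (u + η j)), one_le_sqrt.2 (one_le_mul_of_one_le_of_one_le (by linarith) (by linarith)), hpos, ?_, ?_⟩
  swap
  · have h := Z_le (a := fun k : Fin n => u + η k) hpos hij hε s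
    rw [hε2] at h
    exact h
  set c := cw n η u with hc
  have hc0 : ∀ l, 0 < c l := fun l => one_div_pos.2 (hpos l)
  set S := ((univ : Finset (Fin n)).erase i).erase j with hSd
  have split : ∀ f : Fin n → ℝ, ∑ l, f l = f i + f j + ∑ l ∈ S, f l := fun f => by
    rw [← Finset.add_sum_erase _ _ (mem_univ i),
      ← Finset.add_sum_erase (univ.erase i) _ (a := j) (by simp [hij.symm]), add_assoc]
  set d : Fin n → ℝ := fun k => 1 / (η k ^ 2 + 1) with hd
  have hd0 : ∀ k, 0 ≤ d k := fun k => by positivity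
  have hsw : 0 < √w := sqrt_pos.2 w0
  have hsu : 1 ≤ √u := one_le_sqrt.2 hu1
  have hswu : √w ≤ √u := sqrt_le_sqrt huw
  have hsuu : √u ≤ u := sqrt_le_iff.2 ⟨hu0.le, by rw [sq]; exact le_mul_of_one_le_left hu0.le hu1⟩
  set F1 : Set (Fin n → ℝ) := {x | a / 2 ≤ ∑ k ∈ S, d k * x k ^ 2} with hF1
  set F2 : Set (Fin n → ℝ) := {x | √w / 4 ≤ |∑ l ∈ S, x l ^ 2 - ∑ l ∈ S, c l|} with hF2
  have m1 : MeasurableSet F1 := measurableSet_le measurable_const (by fun_prop)
  have m2 : MeasurableSet F2 := measurableSet_le measurable_const (by fun_prop)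
  have p1 : (gs 0 c).real F1 ≤ 1 / 4 := by
    refine (markov hc0 hd0 S (half_pos ha)).trans ?_
    have h1 : ∑ k, d k * c k ≤ 2 * (L + 1) ^ 2 * S0 * (2 / u) := by
      refine le_trans ?_ (mul_le_mul_of_nonneg_right (sum_d G hL) (by positivity))
      rw [sum_mul]
      refine sum_le_sum fun k _ => mul_le_mul_of_nonneg_left ?_ (hd0 k)
      rw [hc, cw, div_le_div_iff₀ (hpos k) hu0]
      linarith [hp k, hlo k]
    rw [div_le_iff₀ (half_pos ha)]
    refine h1.trans ?_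
    rw [← mul_div_assoc, div_le_iff₀ hu0, show 1 / 4 * (a / 2) * u = u * a / 8 by ring, hua]
    linarith
  have p2 : (gs 0 c).real F2 ≤ 1 / 4 := by
    have hsq : ∑ l, c l ^ 2 ≤ S0 := by
      refine le_trans (sum_le_sum fun l _ => pow_le_pow_left₀ (hc0 l).le ?_ 2) (sum_le_S0 n)
      rw [← one_div_div]
      exact one_div_le_one_div_of_le (hp l) (by linarith [hlo l])
    refine ENNReal.toReal_le_of_le_ofReal (by norm_num)
      ((cheb c hc0 S (r := √w / 4) (by positivity)).trans (ENNReal.ofReal_le_ofReal ?_))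
    rw [div_pow, Real.sq_sqrt w0.le, div_le_iff₀ (by positivity)]
    have := mul_le_mul_of_nonneg_left hsq k4_nonneg
    linarith
  have p3 : 1 / 2 ≤ (gs 0 c).real (F1 ∪ F2)ᶜ := by
    rw [probReal_compl_eq_one_sub (m1.union m2)]
    linarith [measureReal_union_le (μ := gs 0 c) F1 F2]
  have hsumc : ∑ l, c l = Sr n η t u + t := by
    rw [Sr, sub_add_cancel]
    exact Fin.sum_univ_eq_sum_range (fun k => 1 / (u + η k)) n
  have hup : ∑ l, c l ≤ t - √w / 2 := by
    have h1 : ∑ l, c l ≤ ∑ l : Fin n, 1 / (w + η l) :=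
      sum_le_sum fun l _ => one_div_le_one_div_of_le (hposw l) (by linarith)
    have h2 := G.up
    rw [Sr, ← Fin.sum_univ_eq_sum_range (fun k => 1 / (w + η k)) n] at h2
    linarith
  have hdn : t - |C| * √u ≤ ∑ l, c l := by
    have h1 := G.dn u huw
    have h2 : C * √u ≤ |C| * √u := mul_le_mul_of_nonneg_right (le_abs_self C) (by linarith)
    linarith
  have ci : c i ≤ 1 := (div_le_one (hpos i)).2 (by linarith)
  have cj : c j ≤ 1 := (div_le_one (hpos j)).2 (by linarith)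
  have dot : ∀ x : Fin n → ℝ, x ⬝ᵥ x = x i ^ 2 + x j ^ 2 + ∑ l ∈ S, x l ^ 2 := fun x => by
    rw [← split fun l => x l ^ 2]
    exact Finset.sum_congr rfl fun l _ => (sq _).symm
  have hF : ∀ x ∈ (F1 ∪ F2)ᶜ, s - (|C| + 4) * √u ≤ x ⬝ᵥ x - x i ^ 2 - x j ^ 2 ∧
      x ⬝ᵥ x - x i ^ 2 - x j ^ 2 ≤ s := fun x hx => by
    have h1 : x ∉ F2 := fun h => hx (Or.inr h)
    simp only [hF2, Set.mem_ofPred_eq, not_le] at h1
    obtain ⟨y1, y2⟩ := abs_lt.1 h1
    have e := split c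
    rw [dot x]
    constructor
    · linarith
    · linarith [hc0 i, hc0 j]
  have hE : MeasurableSet {x : Fin n → ℝ | Xd n η x ≤ a} := by
    simp only [Xd_eq]
    exact measurableSet_le (by fun_prop) measurable_const
  have h := N_ge (a := fun k : Fin n => u + η k) hpos hij (s := s) (M := (|C| + 4) * √u) hε hε1
    (by positivity) hi2 hj2 (m1.union m2).compl hE (fun x v v' => by
      have e : ∀ l ∈ S, Function.update (Function.update x i v) j v' l = x l := fun l hl => by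
        rw [Function.update_of_ne (mem_erase.1 hl).1,
          Function.update_of_ne (mem_erase.1 (mem_erase.1 hl).2).1]
      have e1 : ∑ l ∈ S, d l * Function.update (Function.update x i v) j v' l ^ 2 =
        ∑ l ∈ S, d l * x l ^ 2 := sum_congr rfl fun l hl => by rw [e l hl]
      have e2 : ∑ l ∈ S, Function.update (Function.update x i v) j v' l ^ 2 =
        ∑ l ∈ S, x l ^ 2 := sum_congr rfl fun l hl => by rw [e l hl]
      simp only [hF1, hF2, Set.mem_compl_iff, Set.mem_union, Set.mem_ofPred_eq, e1, e2])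
    hF p3 (by
      rintro x ⟨hx, -, h2⟩
      have h1 : x ∉ F1 := fun h => hx (Or.inl h)
      simp only [hF1, Set.mem_ofPred_eq, not_le] at h1
      have h3 := (hF x hx).1
      have h4 : x i ^ 2 + x j ^ 2 ≤ (|C| + 5) * u := by
        have := mul_le_mul_of_nonneg_left hsuu (show 0 ≤ |C| + 4 by positivity)
        linarith
      have h5 : ∀ k : Fin n, u ≤ η k → d k ≤ 1 / u ^ 2 := fun k hk =>
        one_div_le_one_div_of_le (by positivity)
          ((pow_le_pow_left₀ hu0.le hk 2).trans (le_add_of_nonneg_right zero_le_one))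
      have h6 : d i * x i ^ 2 + d j * x j ^ 2 ≤ 1 / u ^ 2 * ((|C| + 5) * u) := by
        have a1 := mul_le_mul_of_nonneg_right (h5 i hi1) (sq_nonneg (x i))
        have a2 := mul_le_mul_of_nonneg_right (h5 j hj1) (sq_nonneg (x j))
        have a3 := mul_le_mul_of_nonneg_left h4 (show 0 ≤ 1 / u ^ 2 by positivity)
        linarith
      have h7 : 1 / u ^ 2 * ((|C| + 5) * u) ≤ a / 2 := by
        rw [show 1 / u ^ 2 * ((|C| + 5) * u) = (|C| + 5) / u by field_simp, div_le_iff₀ hu0]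
        linarith
      show Xd n η x ≤ a
      rw [Xd_eq, split fun k => 1 / (η k ^ 2 + 1) * x k ^ 2]
      simp only [hd] at h1 h6
      linarith)
  rw [hε2] at h
  refine le_trans ?_ h
  have hr : u * √u = A * √A * a ^ (-(3 / 2) : ℝ) := by
    have := sqrt_pos.2 ha
    rw [rpow32 ha, hu, sqrt_div hA0.le]
    field_simp
  have hr1 : 1 ≤ a ^ (-(3 / 2) : ℝ) := one_le_rpow_of_pos_of_le_one_of_nonpos ha ha1 (by norm_num)
  have h8 : exp (-4) ≤ exp (-(1 / 8)) / 4 := by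
    rw [le_div_iff₀ (by norm_num), show (-(1 / 8) : ℝ) = -4 + 31 / 8 by norm_num, exp_add]
    exact mul_le_mul_of_nonneg_left (by linarith [add_one_le_exp (31 / 8 : ℝ)]) (exp_pos _).le
  gcongr
  refine le_trans ?_ (mul_le_mul_of_nonneg_right h8 (exp_pos _).le)
  rw [← exp_add, exp_le_exp]
  have h9 : ((|C| + 4) * √u + 1) * (10 ^ 5 * u) / 2 ≤ (|C| + 5) * 10 ^ 5 / 2 * (u * √u) := by
    have : (|C| + 4) * √u + 1 ≤ (|C| + 5) * √u := by linarith
    calc _ ≤ (|C| + 5) * √u * (10 ^ 5 * u) / 2 := by gcongr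
      _ = _ := by ring
  rw [hr] at h9
  linarith

end Stat62

open Stat62

theorem statGlue : StatGlue := by
  intro hD L C hL
  obtain ⟨w₂, hw₂, H⟩ := hD L C hL
  refine ⟨max w₂ (64 * k4 * S0), fun w hw => ?_⟩
  have w1 : 2 * L + 1 ≤ w := hw₂.trans ((le_max_left _ _).trans hw)
  have w0 : 0 < w := by linarith
  obtain ⟨B, hB, H⟩ := H w ((le_max_left _ _).trans hw)
  obtain ⟨A, D, hA, hD0, K⟩ := key (C := C) hL w1 ((le_max_right _ _).trans hw)
  have hZ0 : 0 ≤ ∑' m, wt m := tsum_nonneg wt_nonneg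
  refine ⟨D + ∑' m, wt m, fun ρ hρ => ?_, fun a ha ha1 => ?_, fun ε hε => ?_⟩
  · set A1 := w + 60 + L with hA1
    set A2 := ρ⁻¹ + 60 + L with hA2
    set Kc := 2 * |log B| + 5 with hK
    have hρ' : 0 < ρ⁻¹ := by positivity
    have hlB := abs_nonneg (log B)
    have a1 : 0 < A1 := by linarith
    have a2 : 0 < A2 := by linarith
    have k1 : 1 ≤ Kc := by linarith
    refine ⟨1 / (16 * A1 * A2 * Kc), by positivity, fun Hh hH => ?_⟩
    set m := ⌈2 * Hh + 2 * |log B|⌉₊ with hm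
    have m1 : 2 * Hh + 2 * |log B| ≤ m := Nat.le_ceil _
    have m2 : (m : ℝ) < 2 * Hh + 2 * |log B| + 1 := Nat.ceil_lt_add_one (by linarith)
    have m3 : (m : ℝ) + 2 ≤ Kc * Hh := by rw [hK]; nlinarith
    have m4 : (2 : ℝ) ≤ m := by linarith
    filter_upwards [H, eventually_ge_atTop (8 * (m + 2))] with n H hn η G
    have hn0 : 0 < n := by omega
    have ht : 0 < sx n ^ 2 := pow_pos (sx_pos hn0) 2
    have hn1 : (1 : ℝ) ≤ (n : ℝ) ^ 2 := one_le_pow₀ (by exact_mod_cast hn0)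
    obtain ⟨hP, hM, -⟩ := (H η _ ht G.1 ⟨0, by omega⟩ ⟨1, by omega⟩ rfl rfl).2 _ hn1
    set S : Finset (Fin n) := (Ico 2 (m + 2)).attachFin fun k hk => by
      have := (mem_Ico.1 hk).2; omega with hS
    have hcard : S.card = m := by rw [hS, card_attachFin, Nat.card_Ico]; omega
    have hmem : ∀ k ∈ S, 2 ≤ (k : ℕ) ∧ (k : ℕ) < m + 2 := fun k hk =>
      mem_Ico.1 ((mem_attachFin _).1 hk)
    set y := ((m : ℝ) + 2) ^ (2 / 3 : ℝ) with hy
    have y1 : 1 ≤ y := one_le_rpow (by linarith) (by norm_num)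
    have hη : ∀ k ∈ S, |η k| ≤ 60 * y + L := fun k hk => by
      have h1 := G.1.lo k k.2
      have h2 := G.1.hi k (by have := (hmem k hk).2; omega)
      have h3 : ((k : ℕ) : ℝ) + 1 ≤ m + 2 := by exact_mod_cast (hmem k hk).2
      have h4 := rpow_le_rpow (by positivity) h3 (show (0 : ℝ) ≤ 2 / 3 by norm_num)
      have h5 : 0 < (((k : ℕ) : ℝ) + 1) ^ (2 / 3 : ℝ) / 256 := by positivity
      exact abs_le.2 ⟨by linarith, by linarith⟩
    have hb : 0 < 1 / (A1 * y) := by positivity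
    have hT := low_tail (c := cw n η w) S hb fun k hk => by
      refine one_div_le_one_div_of_le (a_pos G.1 hL w1 le_rfl k) ?_
      have := (abs_le.1 (hη k hk)).2
      rw [hA1]; nlinarith
    rw [hcard] at hT
    set T : Set (Fin n → ℝ) := {x | ∑ k ∈ S, x k ^ 2 ≤ m * (1 / (A1 * y)) / 8} with hTd
    have hTm : MeasurableSet T := measurableSet_le (by fun_prop) measurable_const
    have h1 := hM (T.indicator 1) (measurable_one.indicator hTm) fun x u v => by
      have e : ∑ k ∈ S, Function.update (Function.update x ⟨0, by omega⟩ u) ⟨1, by omega⟩ v k ^ 2 =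
          ∑ k ∈ S, x k ^ 2 := sum_congr rfl fun k hk => by
        have := (hmem k hk).1
        rw [Function.update_of_ne (by simp only [ne_eq, Fin.ext_iff]; omega),
          Function.update_of_ne (by simp only [ne_eq, Fin.ext_iff]; omega)]
      simp only [Set.indicator, hTd, Set.mem_ofPred_eq, e, Pi.one_apply]
    rw [lintegral_indicator_one hTm, lintegral_indicator_one hTm, ← ofReal_measureReal,
      ← ofReal_measureReal (μ := gs 0 (cw n η w)), ← ENNReal.ofReal_mul hB.le,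
      ENNReal.ofReal_le_ofReal_iff (by positivity)] at h1
    have hsub : {x | Aq n η ρ x < 1 / (16 * A1 * A2 * Kc) * Hh ^ (-(1 / 3) : ℝ)} ⊆ T := by
      intro x hx
      have h2 : (∑ k ∈ S, x k ^ 2) / (A2 * y) ≤ Aq n η ρ x := by
        rw [sum_div]
        refine le_trans (sum_le_sum fun k hk => ?_) (sum_le_sum_of_subset_of_nonneg
          (subset_univ S) fun k _ _ => by positivity)
        refine div_le_div_of_nonneg_left (sq_nonneg _) (by positivity) ?_
        have := hη k hk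
        rw [hA2]; nlinarith
      have z0 : 0 < Hh ^ (1 / 3 : ℝ) := by positivity
      have h3 : y * y ≤ 2 * m * (Kc * Hh ^ (1 / 3 : ℝ)) := by
        have e : y * y = ((m : ℝ) + 2) * ((m : ℝ) + 2) ^ (1 / 3 : ℝ) := by
          rw [hy, ← rpow_add (by linarith), show (2 / 3 + 2 / 3 : ℝ) = 1 + 1 / 3 by norm_num,
            rpow_add (by linarith), rpow_one]
        have h4 := rpow_le_rpow (by positivity) m3 (show (0 : ℝ) ≤ 1 / 3 by norm_num)
        rw [mul_rpow (by linarith) (by linarith)] at h4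
        have h5 : Kc ^ (1 / 3 : ℝ) ≤ Kc := by
          have := rpow_le_rpow_of_exponent_le k1 (show (1 / 3 : ℝ) ≤ 1 by norm_num)
          rwa [rpow_one] at this
        rw [e]
        exact mul_le_mul (by linarith) (h4.trans (by gcongr)) (by positivity) (by positivity)
      have h6 := h2.trans (le_of_lt hx)
      rw [rpow_neg (by linarith), div_le_iff₀ (by positivity)] at h6
      refine h6.trans ?_
      rw [show 1 / (16 * A1 * A2 * Kc) * (Hh ^ (1 / 3 : ℝ))⁻¹ * (A2 * y) =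
          y * y / (16 * (A1 * y) * (Kc * Hh ^ (1 / 3 : ℝ))) by field_simp,
        div_le_iff₀ (by positivity)]
      refine h3.trans (le_of_eq ?_)
      field_simp
      norm_num
    refine (measureReal_mono hsub).trans (h1.trans ?_)
    refine (mul_le_mul_of_nonneg_left hT hB.le).trans ?_
    rw [← exp_log hB, ← exp_add, exp_le_exp]
    linarith [le_abs_self (log B)]
  · filter_upwards [K a ha ha1, eventually_gt_atTop 0] with n K hn η G
    obtain ⟨R, hR, hp, h1, h2⟩ := K η _ G.1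
    have hn0 : (0 : ℝ) < n := by exact_mod_cast hn
    have hE : MeasurableSet {x : Fin n → ℝ | Xd n η x ≤ a} := by
      simp only [Xd_eq]
      exact measurableSet_le (by fun_prop) measurable_const
    have h3 := h1.trans (setIntegral_le_integral (int_exp _ (by positivity) _)
      (ae_of_all _ fun x => (exp_pos _).le))
    have h0 : 0 < exp (-(D * a ^ (-(3 / 2) : ℝ))) * R * (n : ℝ)⁻¹ := by positivity
    rw [piS, piD_real _ (by positivity) hp hE, le_div_iff₀ (h0.trans_le h3)]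
    refine le_trans ?_ h1
    refine (mul_le_mul_of_nonneg_left h2 (exp_pos _).le).trans ?_
    have hr1 : 1 ≤ a ^ (-(3 / 2) : ℝ) :=
      one_le_rpow_of_pos_of_le_one_of_nonpos ha ha1 (by norm_num)
    have h4 : ∑' m, wt m ≤ exp ((∑' m, wt m) * a ^ (-(3 / 2) : ℝ)) := by
      nlinarith [add_one_le_exp ((∑' m, wt m) * a ^ (-(3 / 2) : ℝ))]
    rw [← mul_assoc, ← mul_assoc]
    gcongr
    refine (mul_le_mul_of_nonneg_left h4 (exp_pos _).le).trans_eq ?_
    rw [← exp_add]; congr 1; ring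
  · filter_upwards [H, K 1 one_pos le_rfl, eventually_ge_atTop 2,
      (tendsto_natCast_atTop_atTop (R := ℝ)).eventually_ge_atTop (2 * A),
      (tendsto_natCast_atTop_atTop (R := ℝ)).eventually_ge_atTop (8 * exp D / ε),
      ((tendsto_pow_atTop two_ne_zero).comp tendsto_sx).eventually_ge_atTop 2]
      with n H K hn hnA hnε hnt η G
    have hn0 : 0 < n := by omega
    have ht : 0 < sx n ^ 2 := pow_pos (sx_pos hn0) 2
    have hn1 : (1 : ℝ) ≤ n := by exact_mod_cast hn0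
    refine ⟨((H η _ ht G.1 ⟨0, by omega⟩ ⟨1, by omega⟩ rfl rfl).2 _ (one_le_pow₀ hn1)).1, ?_⟩
    obtain ⟨R, hR, hp, h1, -⟩ := K η _ G.1
    have hE : MeasurableSet {x : Fin n → ℝ | x ⬝ᵥ x ≤ 2 * sx n ^ 2}ᶜ :=
      (measurableSet_le (Sph38.continuous_dot (ι := Fin n)).measurable measurable_const).compl
    have hint := int_exp (cw n η (A / 1)) (κ := (n : ℝ) ^ 2) (by positivity)
      (sx n ^ 2 + 2 * (A / 1) / (n : ℝ) ^ 2)
    have h3 := h1.trans (setIntegral_le_integral hint (ae_of_all _ fun x => (exp_pos _).le))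
    rw [one_rpow, mul_one] at h3
    have h0 : 0 < exp (-D) * R * (n : ℝ)⁻¹ := by positivity
    rw [piS, piD_real _ (by positivity) hp hE, div_le_iff₀ (h0.trans_le h3)]
    refine le_trans ?_ (mul_le_mul_of_nonneg_left h3 hε.le)
    calc _ ≤ ∫ _x in {x : Fin n → ℝ | x ⬝ᵥ x ≤ 2 * sx n ^ 2}ᶜ, 8 / (n : ℝ) ^ 2
            ∂gs 0 (cw n η (A / 1)) := by
          refine setIntegral_mono_on hint.integrableOn (integrable_const _).integrableOn hE
            fun x hx => ?_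
          simp only [Set.mem_compl_iff, Set.mem_ofPred_eq, not_le] at hx
          have h4 : 2 * (A / 1) / (n : ℝ) ^ 2 ≤ 1 := by
            rw [div_le_one (by positivity)]; nlinarith
          have h5 : (2 : ℝ) ≤ sx n ^ 2 := hnt
          have h6 : 1 ≤ (x ⬝ᵥ x - (sx n ^ 2 + 2 * (A / 1) / (n : ℝ) ^ 2)) ^ 2 :=
            one_le_pow₀ (by linarith)
          have h7 : 0 < (n : ℝ) ^ 2 / 8 := by positivity
          calc _ ≤ exp (-((n : ℝ) ^ 2 / 8)) := exp_le_exp.2 (by nlinarith)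
            _ ≤ ((n : ℝ) ^ 2 / 8)⁻¹ := by
                rw [Real.exp_neg]
                exact inv_anti₀ h7 (by linarith [add_one_le_exp ((n : ℝ) ^ 2 / 8)])
            _ = _ := by rw [inv_div]
      _ ≤ 8 / (n : ℝ) ^ 2 := by
          rw [setIntegral_const, smul_eq_mul]
          exact mul_le_of_le_one_left (by positivity) measureReal_le_one
      _ ≤ ε * (exp (-D) * 1 * (n : ℝ)⁻¹) := by
          rw [div_le_iff₀ hε] at hnε
          rw [Real.exp_neg, div_le_iff₀ (by positivity),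
            show ε * ((exp D)⁻¹ * 1 * (n : ℝ)⁻¹) * (n : ℝ) ^ 2 = n * ε / exp D by field_simp,
            le_div_iff₀ (exp_pos _)]
          exact hnε
      _ ≤ _ := by gcongr

/-- **(3f)** statics of the soft sphere -/
theorem statStmt : StatStmt := statGlue Sp.domStmt

end Crest.Agent.T157.Cq

end
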