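import Crest.Agent.T157.CqDef_72
import Crest.Agent.T157.CondB_53
import Crest.Agent.T157.StSph_38
import Crest.Agent.R164.HaarCpl

/-!
# Row 157, part C (helper44): the swap identity for Gaussian couplings
-/

set_option autoImplicit false

noncomputable section

namespace Crest.Agent.T157.Cq

open MeasureTheory ProbabilityTheory Matrix Filter Topology Real
open Crest.ProbabilityR.SpinGlassDynamics Crest.Agent.T157.E Crest.Agent.T157.Eig
open Crest.Agent.T157.St Crest.Agent.T157.Ed Crest.Agent.T157.Cond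
open Crest.Agent.T157.Tr (Om)

namespace Swap44

theorem avg_abs {X G : Type*} [MeasurableSpace X] [MeasurableSpace G] (μ : Measure X)
    (ν : Measure G) [IsProbabilityMeasure μ] [IsProbabilityMeasure ν] (act : G → X → X)
    (hact : Measurable fun q : X × G => act q.2 q.1)
    (hmp : ∀ᵐ g ∂ν, MeasurePreserving (act g) μ μ) {F : X → ℝ} (hF : Measurable F) {C : ℝ}
    (bF : ∀ x, |F x| ≤ C) : ∫ x, F x ∂μ = ∫ x, ∫ g, F (act g x) ∂ν ∂μ := by
  have hi : Integrable (Function.uncurry fun x g => F (act g x)) (μ.prod ν) :=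
    (integrable_const C).mono' (hF.comp hact).aestronglyMeasurable (.of_forall fun q => bF _)
  have h : ∀ᵐ g ∂ν, ∫ x, F (act g x) ∂μ = ∫ x, F x ∂μ := hmp.mono fun g hg => by
    conv_rhs => rw [← hg.map_eq]
    rw [integral_map hg.measurable.aemeasurable hF.aestronglyMeasurable]
  rw [integral_integral_swap hi, integral_congr_ae h, integral_const, probReal_univ, one_smul]

variable {n : ℕ}

/-- the denominator of `fl` -/
def den (n : ℕ) (l : ℝ) (W : Mat n) : Mat n :=
  (tau n • ((2 : ℝ) • (1 : Mat n) - W)) * (tau n • ((2 : ℝ) • (1 : Mat n) - W)) + l ^ 2 • (1 : Mat n)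

lemma den_eq {W : Mat n} (hW : W.IsHermitian) (l : ℝ) :
    den n l W = fnK (fun x => (tau n * (2 - x)) ^ 2 + l ^ 2) W := by
  have h : tau n • ((2 : ℝ) • (1 : Mat n) - W) = fnK (fun x => tau n * (2 - x)) W := by
    rw [fnK_smul, fnK_sub, fnK_const hW, fnK_id_real hW]
  rw [den, h, fnK_mul hW, fnK_add, fnK_const hW]
  simp only [sq]

lemma fl_eq {W : Mat n} (hW : W.IsHermitian) {l : ℝ} (hl : l ≠ 0) :
    fl n l W = l ^ 2 • (den n l W)⁻¹ := by
  rw [den_eq hW, fnK_inv hW fun k _ => by positivity, ← fnK_smul]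
  rfl

lemma fnK_zero {W : Mat n} (hW : ¬ W.IsHermitian) (f : ℝ → ℝ) : fnK f W = 0 := by
  ext i j
  have h : ∀ k, Eig.vec W k = 0 := fun k => dif_neg fun h => hW h.1
  simp [fnK_apply, h]

lemma fl_conj {O : Mat n} (hO : Oᵀ * O = 1) {l : ℝ} (hl : l ≠ 0) (W : Mat n) :
    fl n l (O * W * Oᵀ) = O * fl n l W * Oᵀ := by
  have hO' : O * Oᵀ = 1 := mul_eq_one_comm.1 hO
  have c : ∀ X : Mat n, Oᵀ * (O * X) = X := fun X => by rw [← Matrix.mul_assoc, hO, Matrix.one_mul]
  by_cases hW : W.IsHermitian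
  · have hW' : (O * W * Oᵀ).IsHermitian := by
      rw [herm_iff] at hW ⊢
      simp only [transpose_mul, transpose_transpose, hW, Matrix.mul_assoc]
    have e : den n l (O * W * Oᵀ) = O * den n l W * Oᵀ := by
      have : (2 : ℝ) • (1 : Mat n) - O * W * Oᵀ = O * ((2 : ℝ) • (1 : Mat n) - W) * Oᵀ := by
        rw [Matrix.mul_sub, Matrix.sub_mul, Matrix.mul_smul, Matrix.smul_mul, Matrix.mul_one, hO']
      rw [den, den, this]
      simp only [Matrix.mul_add, Matrix.add_mul, Matrix.mul_smul, Matrix.smul_mul, Matrix.mul_one,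
        hO', Matrix.mul_assoc, c]
    rw [fl_eq hW hl, fl_eq hW' hl, e, Matrix.mul_inv_rev, Matrix.mul_inv_rev,
      inv_eq_left_inv hO', inv_eq_left_inv hO, Matrix.mul_smul, Matrix.smul_mul, Matrix.mul_assoc]
  · have hW' : ¬ (O * W * Oᵀ).IsHermitian := fun h => hW <| by
      rw [herm_iff] at h ⊢
      have := congrArg (fun X => Oᵀ * X * O) h
      simpa only [transpose_mul, transpose_transpose, Matrix.mul_assoc, c, hO, Matrix.mul_one]
        using this
    rw [fl, fl, fnK_zero hW, fnK_zero hW', Matrix.mul_zero, Matrix.zero_mul]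

lemma dot_orth {O : Mat n} (hO : Oᵀ * O = 1) (a b : Fin n → ℝ) : O *ᵥ a ⬝ᵥ O *ᵥ b = a ⬝ᵥ b := by
  rw [dotProduct_mulVec, ← vecMul_transpose, vecMul_vecMul, ← mulVec_transpose, transpose_mul,
    transpose_transpose, hO, one_mulVec]

lemma unitv_orth {O : Mat n} (hO : Oᵀ * O = 1) (a : Fin n → ℝ) : unitv (O *ᵥ a) = O *ᵥ unitv a := by
  rw [unitv, unitv, len, len, dot_orth hO, mulVec_smul]

lemma prp_orth {O : Mat n} (hO : Oᵀ * O = 1) (a b : Fin n → ℝ) :
    prp (O *ᵥ a) (O *ᵥ b) = O *ᵥ prp a b := by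
  rw [prp, prp, dot_orth hO, dot_orth hO, ← unitv_orth hO, mulVec_sub, mulVec_smul]

lemma vmv_conj (O : Mat n) (a b : Fin n → ℝ) :
    vecMulVec (O *ᵥ a) (O *ᵥ b) = O * vecMulVec a b * Oᵀ := by
  rw [mul_vecMulVec, vecMulVec_mul, vecMul_transpose]

lemma rot_orth {O : Mat n} (hO : Oᵀ * O = 1) (a b : Fin n → ℝ) (s : ℝ) :
    rot (O *ᵥ a) (O *ᵥ b) s = O * rot a b s * Oᵀ := by
  have hO' : O * Oᵀ = 1 := mul_eq_one_comm.1 hO
  simp only [rot, vmv_conj, Matrix.mul_add, Matrix.add_mul, Matrix.mul_smul, Matrix.smul_mul,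
    Matrix.mul_sub, Matrix.sub_mul, Matrix.mul_one, hO']

lemma rot_half (a b : Fin n → ℝ) : rot a b (π / 2) =
    1 - vecMulVec a a - vecMulVec b b + vecMulVec b a - vecMulVec a b := by
  rw [rot, cos_pi_div_two, sin_pi_div_two, zero_sub, neg_one_smul, one_smul]
  abel

lemma rot_mulVec {a b : Fin n → ℝ} (ha : a ⬝ᵥ a = 1) (hab : a ⬝ᵥ b = 0) :
    rot a b (π / 2) *ᵥ a = b := by
  have hba : b ⬝ᵥ a = 0 := by rwa [dotProduct_comm]
  simp [rot_half, add_mulVec, sub_mulVec, vecMulVec_mulVec, ha, hba]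

lemma rot_mem {a b : Fin n → ℝ} (ha : a ⬝ᵥ a = 1) (hb : b ⬝ᵥ b = 1) (hab : a ⬝ᵥ b = 0) :
    (rot a b (π / 2))ᵀ * rot a b (π / 2) = 1 := by
  have hba : b ⬝ᵥ a = 0 := by rwa [dotProduct_comm]
  simp only [rot_half, transpose_add, transpose_sub, transpose_one, transpose_vecMulVec,
    Matrix.mul_add, Matrix.add_mul, Matrix.mul_sub, Matrix.sub_mul, Matrix.mul_one, Matrix.one_mul,
    vecMulVec_mul_vecMulVec, ha, hb, hab, hba, one_smul, zero_smul, vecMulVec_zero]
  abel

lemma frame {a b : Fin n → ℝ} (h0 : 0 < a ⬝ᵥ a) (h1 : (a ⬝ᵥ b) ^ 2 < a ⬝ᵥ a * b ⬝ᵥ b) :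
    unitv a ⬝ᵥ unitv a = 1 ∧ prp a b ⬝ᵥ prp a b = 1 ∧ unitv a ⬝ᵥ prp a b = 0 := by
  have o : a ⬝ᵥ (b - ((a ⬝ᵥ b) / (a ⬝ᵥ a)) • a) = 0 := by
    rw [dotProduct_sub, dotProduct_smul, smul_eq_mul, div_mul_cancel₀ _ h0.ne', sub_self]
  refine ⟨unitv_dot fun h => by simp [h] at h0, unitv_dot fun h => ?_, ?_⟩
  · have := congrArg (fun v => v ⬝ᵥ b) h
    simp only [sub_dotProduct, smul_dotProduct, smul_eq_mul, zero_dotProduct] at this
    have e : a ⬝ᵥ a * b ⬝ᵥ b = (a ⬝ᵥ b) ^ 2 := by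
      rw [sub_eq_zero.1 this]; field_simp
    linarith
  · rw [prp, unitv, unitv, smul_dotProduct, dotProduct_smul, o, smul_zero, smul_zero]

/-- the sample space -/
abbrev XX (n : ℕ) : Type := Mat n × (Fin n → ℝ) × (Fin n → ℝ)
/-- the action of a matrix -/
def act (O : R164.Haar.Mat (Fin n)) (x : XX n) : XX n :=
  (Matrix.of O * x.1 * (Matrix.of O)ᵀ, Matrix.of O *ᵥ x.2.1, Matrix.of O *ᵥ x.2.2)
def va (l : ℝ) (x : XX n) : Fin n → ℝ := fl n l x.1 *ᵥ x.2.1
def vb (l : ℝ) (x : XX n) : Fin n → ℝ := fl n l x.1 *ᵥ x.2.2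
def om (ω : (Fin 3 → ℝ) → ℝ) (l l' : ℝ) (x : XX n) : ℝ :=
  ω ![va l' x ⬝ᵥ va l' x, vb l x ⬝ᵥ vb l x, va l' x ⬝ᵥ vb l x]
def RR (l l' : ℝ) (x : XX n) : Mat n := rot (unitv (va l' x)) (prp (va l' x) (vb l x)) (π / 2)
def FF (ω : (Fin 3 → ℝ) → ℝ) (ε s l l' : ℝ) (x : XX n) : ℝ :=
  om ω l l' x * kap x.1 ε fun y => s * sl (unitv (va l' x)) y
def SS (ω : (Fin 3 → ℝ) → ℝ) (ε s l l' : ℝ) (x : XX n) : ℝ :=
  om ω l l' x * kap (RR l l' x * x.1 * (RR l l' x)ᵀ) ε fun y => s * sl (prp (va l' x) (vb l x)) y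

section orth
variable {O : R164.Haar.Mat (Fin n)} {l l' : ℝ}

lemma va_act (hO : (Matrix.of O)ᵀ * Matrix.of O = 1) (hl : l ≠ 0) (x : XX n) :
    va l (act O x) = Matrix.of O *ᵥ va l x := by
  simp only [va, act, fl_conj hO hl]
  simp only [mulVec_mulVec, Matrix.mul_assoc, hO, Matrix.mul_one]

lemma vb_act (hO : (Matrix.of O)ᵀ * Matrix.of O = 1) (hl : l ≠ 0) (x : XX n) :
    vb l (act O x) = Matrix.of O *ᵥ vb l x := by
  simp only [vb, act, fl_conj hO hl]
  simp only [mulVec_mulVec, Matrix.mul_assoc, hO, Matrix.mul_one]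

lemma om_act (hO : (Matrix.of O)ᵀ * Matrix.of O = 1) (hl : l ≠ 0) (hl' : l' ≠ 0)
    (ω : (Fin 3 → ℝ) → ℝ) (x : XX n) : om ω l l' (act O x) = om ω l l' x := by
  simp only [om, va_act hO hl', vb_act hO hl, dot_orth hO]

lemma SS_act (hO : (Matrix.of O)ᵀ * Matrix.of O = 1) (hl : l ≠ 0) (hl' : l' ≠ 0)
    (ω : (Fin 3 → ℝ) → ℝ) (ε s : ℝ) (x : XX n) (hR : (RR l l' x)ᵀ * RR l l' x = 1)
    (hv : RR l l' x *ᵥ unitv (va l' x) = prp (va l' x) (vb l x)) :
    SS ω ε s l l' (act O x) = FF ω ε s l l' (act (R164.Haar.rmul (RR l l' x) O) x) := by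
  have e : Matrix.of (R164.Haar.rmul (RR l l' x) O) = Matrix.of O * RR l l' x := rfl
  have c : ∀ X : Mat n, (Matrix.of O)ᵀ * (Matrix.of O * X) = X := fun X => by
    rw [← Matrix.mul_assoc, hO, Matrix.one_mul]
  have hO2 : (Matrix.of (R164.Haar.rmul (RR l l' x) O))ᵀ *
      Matrix.of (R164.Haar.rmul (RR l l' x) O) = 1 := by
    rw [e, transpose_mul, Matrix.mul_assoc, c, hR]
  have r : RR l l' (act O x) = Matrix.of O * RR l l' x * (Matrix.of O)ᵀ := by
    rw [RR, va_act hO hl', vb_act hO hl, unitv_orth hO, prp_orth hO, rot_orth hO, RR]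
  rw [SS, FF, om_act hO hl hl', om_act hO2 hl hl', r, va_act hO hl', vb_act hO hl, prp_orth hO,
    va_act hO2 hl', unitv_orth hO2, e, ← mulVec_mulVec, hv]
  simp only [act, e, transpose_mul, transpose_transpose, Matrix.mul_assoc, c]

end orth

lemma meas_act : Measurable fun q : XX n × R164.Haar.Mat (Fin n) => act q.2 q.1 := by
  have h : Measurable fun q : XX n × R164.Haar.Mat (Fin n) => (Matrix.of q.2 : Mat n) :=
    measurable_mat_iff.2 fun i j => by
      simp only [Matrix.of_apply]; fun_prop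
  exact ((h.t157_mul measurable_fst.fst).t157_mul h.t157_transpose).prodMk
    ((h.t157_mulVec measurable_fst.snd.fst).prodMk (h.t157_mulVec measurable_fst.snd.snd))

lemma mp_act {O : R164.Haar.Mat (Fin n)} (hO : (Matrix.of O)ᵀ * Matrix.of O = 1) :
    MeasurePreserving (act O) ((GOE n).prod ((gv (Fin n)).prod (gv (Fin n))))
      ((GOE n).prod ((gv (Fin n)).prod (gv (Fin n)))) := by
  have h1 : MeasurePreserving (fun W : Mat n => Matrix.of O * W * (Matrix.of O)ᵀ) (GOE n) (GOE n) :=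
    ⟨by fun_prop, goe_conj (1 / √n) (Matrix.of O) (mul_eq_one_comm.1 hO)⟩
  have h2 : MeasurePreserving (fun v => Matrix.of O *ᵥ v) (gv (Fin n)) (gv (Fin n)) :=
    ⟨by fun_prop, Sph38.map_gv_orth hO⟩
  exact h1.prod (h2.prod h2)

lemma meas_kap (m : MsStmt) {X : Type*} [MeasurableSpace X] (ε s : ℝ) {W : X → Mat n}
    {a : X → Fin n → ℝ} (hW : Measurable W) (ha : Measurable a) :
    Measurable fun x => kap (W x) ε fun y => s * sl (a x) y := by
  have h : Measurable fun x => (fun y => s * sl (a x) y : Cube n → ℝ) :=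
    measurable_pi_lambda _ fun y => by unfold sl; fun_prop
  have hc : Continuous fun q : (Fin n → Fin n → ℝ) × (Cube n → ℝ) => kap (Matrix.of q.1) ε q.2 :=
    (m n ε 0).2
  have : OpensMeasurableSpace ((Fin n → Fin n → ℝ) × (Cube n → ℝ)) := Prod.opensMeasurableSpace
  have hk := hc.measurable
  have hW' : Measurable fun x => (fun i j => W x i j : Fin n → Fin n → ℝ) :=
    measurable_pi_lambda _ fun i => measurable_pi_lambda _ fun j => hW.t157_entry i j
  have := hk.comp (hW'.prodMk h)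
  exact this

theorem swap_eq (k : KapStmt) (m : MsStmt) (hn : 1 ≤ n) {ε s l l' : ℝ} (hε : 0 < ε) (hs : 0 ≤ s)
    (hl : l ≠ 0) (hl' : l' ≠ 0) {ω : (Fin 3 → ℝ) → ℝ} (hω : Continuous ω)
    (hc : HasCompactSupport ω) (hsup : tsupport ω ⊆ {q | 0 < q 0 ∧ q 2 ^ 2 < q 0 * q 1}) :
    ∫ x, FF ω ε s l l' x - SS ω ε s l l' x
      ∂(GOE n).prod ((gv (Fin n)).prod (gv (Fin n))) = 0 ∧
    Measurable fun x : XX n => FF ω ε s l l' x - SS ω ε s l l' x := by
  obtain ⟨C, hC⟩ := hω.bounded_above_of_compact_support hc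
  obtain ⟨ν, _, hν⟩ := R164.Haar.exists_haar n
  have ma : Measurable (va (n := n) l') :=
    ((m n ε l').1.comp measurable_fst).t157_mulVec measurable_snd.fst
  have mb : Measurable (vb (n := n) l) :=
    ((m n ε l).1.comp measurable_fst).t157_mulVec measurable_snd.snd
  have mo : Measurable (om (n := n) ω l l') := hω.measurable.comp <|
    measurable_pi_lambda _ fun i => by
      fin_cases i
      · exact ma.t157_dot ma
      · exact mb.t157_dot mb
      · exact ma.t157_dot mb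
  have mp : Measurable fun x : XX n => prp (va l' x) (vb l x) := by unfold prp; fun_prop
  have mR : Measurable (RR (n := n) l l') := by
    have h1 := ma.t157_unitv
    unfold RR rot
    fun_prop
  have mF : Measurable (FF (n := n) ω ε s l l') :=
    mo.mul (meas_kap m ε s measurable_fst ma.t157_unitv)
  have mS : Measurable (SS (n := n) ω ε s l l') :=
    mo.mul (meas_kap m ε s ((mR.t157_mul measurable_fst).t157_mul mR.t157_transpose) mp)
  have bk : ∀ (x : XX n) (W : Mat n) (a : Fin n → ℝ),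
      |om ω l l' x * kap W ε fun y => s * sl a y| ≤ C := fun x W a => by
    have h0 : ∀ y, 0 ≤ s * sl a y := fun y => mul_nonneg hs (sq_nonneg _)
    obtain ⟨h1, h2, -⟩ := (k n W ε hn hε).1 _ _ h0 h0
    rw [abs_mul, abs_of_nonneg h1]
    exact (mul_le_of_le_one_right (abs_nonneg _) h2).trans (hC _)
  have ho : ∀ᵐ O ∂ν, (Matrix.of O)ᵀ * Matrix.of O = 1 :=
    hν.mem.mono fun O hO => (Matrix.mem_orthogonalGroup_iff' _ _).1 hO
  have hmp := ho.mono fun O hO => mp_act hO
  refine ⟨?_, mF.sub mS⟩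
  rw [integral_sub ((integrable_const C).mono' mF.aestronglyMeasurable (.of_forall fun x => bk x _ _))
    ((integrable_const C).mono' mS.aestronglyMeasurable (.of_forall fun x => bk x _ _)),
    avg_abs _ ν act meas_act hmp mF fun x => bk x _ _,
    avg_abs _ ν act meas_act hmp mS fun x => bk x _ _, sub_eq_zero]
  refine integral_congr_ae (.of_forall fun x => ?_)
  by_cases h0 : om ω l l' x = 0
  · refine integral_congr_ae (ho.mono fun O hO => ?_)
    simp only [FF, SS, om_act hO hl hl', h0, zero_mul]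
  · obtain ⟨h1, h2, h3⟩ := frame (a := va l' x) (b := vb l x)
      (hsup (subset_tsupport _ h0)).1 (hsup (subset_tsupport _ h0)).2
    have hR := rot_mem h1 h2 h3
    have m1 := (meas_act (n := n)).comp (measurable_prodMk_left (x := x))
    have mm : Measurable fun O : R164.Haar.Mat (Fin n) => FF ω ε s l l' (act O x) := mF.comp m1
    have e := hν.integral_rmul (O := RR l l' x) ((Matrix.mem_orthogonalGroup_iff' _ _).2 hR) _
      mm.aestronglyMeasurable
    refine e.symm.trans (integral_congr_ae (ho.mono fun O hO => ?_))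
    exact (SS_act hO hl hl' ω ε s x hR (rot_mulVec h1 h3)).symm

end Swap44

open Swap44

/-- **SWAP**, Gaussian couplings: the integral vanishes for every `n ≥ 1` -/
theorem swapG_of (k : KapStmt) (m : MsStmt) : SwapStmt false := by
  intro ε s l l' hε _ hs hl hl' ω hω hc hsup
  refine tendsto_const_nhds.congr' ((eventually_ge_atTop 1).mono fun n hn => ?_)
  obtain ⟨h1, h2⟩ := swap_eq k m hn hε hs (l := l) (l' := l') (by linarith) (by linarith)
    hω.continuous hc hsup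
  have mp : MeasurePreserving (Prod.map (fun p : Om n => Wp p) id)
      ((PB false n).prod ((gv (Fin n)).prod (gv (Fin n))))
      ((GOE n).prod ((gv (Fin n)).prod (gv (Fin n)))) := mp_Wmat.prod (MeasurePreserving.id _)
  rw [← mp.map_eq, integral_map mp.measurable.aemeasurable h2.aestronglyMeasurable] at h1
  refine h1.symm.trans (integral_congr_ae (.of_forall fun q => ?_))
  simp only [FF, SS, swp, mul_sub]
  rfl

end Crest.Agent.T157.Cq

end
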