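import Crest.Agent.T157.CqTopA_72

/-!
# Row 157, part C: transfer between the laws, Cauchy argument, merging step (helper72)
-/

set_option autoImplicit false

noncomputable section

namespace Crest.Agent.T157.Cq.Top72

open MeasureTheory Matrix Finset Real Filter Topology
open Crest.ProbabilityR.SpinGlassDynamics Crest.Agent.T157.E
open Crest.Agent.T157.St (muG hat dm)
open Crest.Agent.T157.Tr (Off Om PM)
open Crest.Agent.T157.Soft (IsCyl Pn unif ch ABn IAB)
open Crest.Agent.T157.Q1 (Down DownStmt)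

/-- **a property of finitely many scalars passes, with a slack, to the other law** -/
theorem transfer (hm : ScMeas) (hu : UtStmt) (s : Finset IS) (A : Set (IS → ℝ)) {δ ε : ℝ}
    (hδ : 0 < δ) (hε : 0 < ε) (h : Off (PB false) ε fun n p => sc n p ∈ A) (b : Bool) :
    Off (PB b) (2 * ε) fun n p => ∃ y ∈ A, ∀ i ∈ s, |sc n p i - y i| ≤ δ := by
  cases b
  · exact (h.imp fun n p hp => ⟨_, hp, fun i _ => by simpa using hδ.le⟩).le (by linarith)
  rcases A.eq_empty_or_nonempty with rfl | hA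
  · obtain ⟨n, hn⟩ := h.exists
    simp only [Set.mem_empty_iff_false, not_false_eq_true, Set.ofPred_true, measure_univ] at hn
    exact .of_forall fun n => prob_le_one.trans (hn.trans (ENNReal.ofReal_le_ofReal (by linarith)))
  let res : (IS → ℝ) → s → ℝ := fun x i => x i
  let φ : (IS → ℝ) → ℝ := fun x => min 1 (Metric.infDist (res x) (res '' A) / δ)
  have φ0 : ∀ x, 0 ≤ φ x := fun x => le_min zero_le_one (div_nonneg Metric.infDist_nonneg hδ.le)
  have φ1 : ∀ x, φ x ≤ 1 := fun x => min_le_left _ _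
  have hφ : IsCyl φ := by
    refine ⟨s, max 1 δ⁻¹, by positivity, fun x => ?_, fun x y => ?_⟩
    · rw [abs_of_nonneg (φ0 x)]; exact (φ1 x).trans (le_max_left _ _)
    · refine (abs_min_sub_min_le_max _ _ _ _).trans ?_
      have d1 : dist (res x) (res y) ≤ ∑ i ∈ s, |x i - y i| :=
        (dist_pi_le_iff (by positivity)).2 fun i =>
          single_le_sum (f := fun i => |x i - y i|) (fun _ _ => abs_nonneg _) i.2
      have d2 := (Metric.lipschitz_infDist_pt (res '' A)).dist_le_mul (res x) (res y)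
      rw [Real.dist_eq, NNReal.coe_one, one_mul] at d2
      rw [sub_self, abs_zero, max_eq_right (abs_nonneg _), ← sub_div, abs_div, abs_of_pos hδ,
        div_eq_inv_mul]
      exact mul_le_mul (le_max_right _ _) (d2.trans d1) (abs_nonneg _) (by positivity)
  have mφ : ∀ n, Measurable fun p => φ (sc n p) := fun n =>
    hφ.measurable.comp (measurable_pi_lambda _ (hm n))
  have iφ : ∀ b n, Integrable (fun p => φ (sc n p)) (PB b n) := fun b n =>
    (integrable_const (1 : ℝ)).mono' (mφ n).aestronglyMeasurable (.of_forall fun p => by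
      rw [Real.norm_eq_abs, abs_of_nonneg (φ0 _)]; exact φ1 _)
  filter_upwards [h, (hu φ hφ).eventually (gt_mem_nhds hε)] with n h1 h2
  have S : MeasurableSet {p | 0 < φ (sc n p)} := measurableSet_lt measurable_const (mφ n)
  have k1 : ∫ p, φ (sc n p) ∂PB false n ≤ ε := by
    have a1 : ∫ p, φ (sc n p) ∂PB false n ≤
        ∫ p, Set.indicator {p | 0 < φ (sc n p)} (fun _ => (1 : ℝ)) p ∂PB false n :=
      integral_mono (iφ _ n) ((integrable_const _).indicator S) fun p => by
        by_cases hp : 0 < φ (sc n p)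
        · rw [Set.indicator_of_mem (by exact hp)]; exact φ1 _
        · rw [Set.indicator_of_notMem (by exact hp)]; exact not_lt.1 hp
    rw [integral_indicator S, setIntegral_const, smul_eq_mul, mul_one] at a1
    refine a1.trans (ENNReal.toReal_le_of_le_ofReal hε.le (le_trans (measure_mono ?_) h1))
    intro p hp hp'
    have : φ (sc n p) = 0 := by
      simp only [φ, Metric.infDist_zero_of_mem (Set.mem_image_of_mem res hp'), zero_div]
      exact min_eq_right zero_le_one
    exact (ne_of_gt hp) this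
  have k2 := mul_meas_ge_le_integral_of_nonneg (μ := PB true n) (.of_forall fun p => φ0 (sc n p))
    (iφ true n) 1
  rw [one_mul] at k2
  refine le_trans (measure_mono (t := {p | 1 ≤ φ (sc n p)}) fun p hp => ?_) ?_
  · refine le_min le_rfl ((one_le_div hδ).2 (not_lt.1 fun hlt => hp ?_))
    obtain ⟨_, ⟨y, hy, rfl⟩, hd⟩ := (Metric.infDist_lt_iff (hA.image res)).1 hlt
    exact ⟨y, hy, fun i hi => ((dist_le_pi_dist (res (sc n p)) (res y) ⟨i, hi⟩).trans hd.le)⟩
  · rw [← ENNReal.ofReal_toReal (measure_ne_top (PB true n) _)]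
    exact ENNReal.ofReal_le_ofReal (k2.trans (by linarith))

/-- Lipschitz functions of finitely many coordinates -/
def LipC {I : Type*} (Ψ : (I → ℝ) → ℝ) : Prop :=
  ∃ (s : Finset I) (K : ℝ), 0 ≤ K ∧ ∀ x y, |Ψ x - Ψ y| ≤ K * ∑ i ∈ s, |x i - y i|

lemma cyl_comp {I J : Type*} {ψ : (I → ℝ) → ℝ} (hψ : IsCyl ψ) {Ψ : I → (J → ℝ) → ℝ}
    (h : ∀ i, LipC (Ψ i)) : IsCyl fun x => ψ fun i => Ψ i x := by
  classical
  obtain ⟨u, K, hK, hb, hl⟩ := hψ
  choose t L hL h using h
  set W : ℝ := ∑ i ∈ u, L i with hW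
  have hW0 : 0 ≤ W := sum_nonneg fun i _ => hL i
  refine ⟨u.biUnion t, K * (1 + W), by positivity, fun x => (hb _).trans ?_,
    fun x y => (hl _ _).trans ?_⟩
  · exact le_mul_of_one_le_right hK (le_add_of_nonneg_right hW0)
  set S := ∑ α ∈ u.biUnion t, |x α - y α| with hS
  have hS0 : 0 ≤ S := by positivity
  have key : ∑ i ∈ u, |Ψ i x - Ψ i y| ≤ W * S := by
    rw [hW, sum_mul]
    refine sum_le_sum fun i hi => (h i x y).trans (mul_le_mul_of_nonneg_left ?_ (hL i))
    exact sum_le_sum_of_subset_of_nonneg (subset_biUnion_of_mem t hi) fun _ _ _ => abs_nonneg _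
  rw [mul_assoc]
  refine mul_le_mul_of_nonneg_left (key.trans ?_) hK
  nlinarith

lemma LipC.meas {I : Type*} {Ψ : (I → ℝ) → ℝ} (h : LipC Ψ) : Measurable Ψ := by
  have key : ∀ N : ℕ, Measurable fun x => max (-(N : ℝ)) (min N (Ψ x)) := fun N => by
    obtain ⟨s, K, hK, h⟩ := h
    refine IsCyl.measurable ⟨s, max K N, by positivity, fun x => ?_, fun x y => ?_⟩
    · refine le_trans (abs_le.2 ⟨le_max_left _ _, max_le ?_ (min_le_left _ _)⟩) (le_max_right _ _)
      linarith [(N.cast_nonneg : (0 : ℝ) ≤ N)]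
    · refine (abs_max_sub_max_le_max _ _ _ _).trans ?_
      rw [sub_self, abs_zero, max_eq_right (abs_nonneg _)]
      refine (abs_min_sub_min_le_max _ _ _ _).trans ?_
      rw [sub_self, abs_zero, max_eq_right (abs_nonneg _)]
      exact (h x y).trans (mul_le_mul_of_nonneg_right (le_max_left _ _) (by positivity))
  refine measurable_of_tendsto_metrizable key (tendsto_pi_nhds.2 fun x => ?_)
  refine tendsto_const_nhds.congr' ?_
  filter_upwards [tendsto_natCast_atTop_atTop.eventually_ge_atTop |Ψ x|] with N hN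
  rw [min_eq_right (abs_le.1 hN).2, max_eq_right (abs_le.1 hN).1]

/-- **the Cauchy argument** -/
theorem conv_of_lip (hm : ScMeas) (hc : CvStmt) (hu : UtStmt)
    (h : ∀ (i : IAB) (ε : ℝ), 0 < ε → ∃ Ψ : (IS → ℝ) → ℝ, LipC Ψ ∧
      ∀ b, Off (PB b) ε fun n p => |ABn n p.1 i - Ψ (sc n p)| ≤ ε) : Soft.ABFddStmt := by
  intro φ hφ
  have key := Soft.cyl_conv_of_approx (Ω := Om) PB (fun n p => ABn n p.1)
    (fun n i => (Soft.measurable_ABn n i).comp measurable_fst) (fun s ε hε => ?_) φ hφ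
  · obtain ⟨L, hL⟩ := key
    refine ⟨L, fun b => (hL b).congr fun n => ?_⟩
    have m : Measurable fun g => φ (ABn n g) :=
      hφ.measurable.comp (measurable_pi_lambda _ (Soft.measurable_ABn n))
    rw [← integral_map measurable_fst.aemeasurable m.aestronglyMeasurable,
      (measurePreserving_fst (μ := couplingLaw b n) (ν := gv (Fin n))).map_eq]
  set η : ℝ := ε / (s.card + 1) with hη
  have hη0 : 0 < η := by positivity
  have hηε : η ≤ ε := div_le_self hε.le (by linarith [(Nat.cast_nonneg s.card : (0 : ℝ) ≤ _)])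
  choose Ψ hΨ hP using fun i => h i η hη0
  refine ⟨fun _ n p i => Ψ i (sc n p),
    fun _ n i => (hΨ i).meas.comp (measurable_pi_lambda _ (hm n)), fun b => ?_, fun ψ hψ => ?_⟩
  · filter_upwards [(eventually_all_finset s).2 fun i _ => hP i b] with n hn
    calc PB b n {p | ∃ i ∈ s, ε < |ABn n p.1 i - Ψ i (sc n p)|}
        ≤ PB b n (⋃ i ∈ s, {p | ¬ |ABn n p.1 i - Ψ i (sc n p)| ≤ η}) := by
          refine measure_mono fun p ⟨i, hi, h⟩ => ?_
          exact Set.mem_biUnion hi (not_le.2 (hηε.trans_lt h))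
      _ ≤ ∑ i ∈ s, PB b n {p | ¬ |ABn n p.1 i - Ψ i (sc n p)| ≤ η} := measure_biUnion_finset_le _ _
      _ ≤ ∑ _i ∈ s, ENNReal.ofReal η := sum_le_sum hn
      _ = ENNReal.ofReal (s.card * η) := by
          rw [sum_const, nsmul_eq_mul, ENNReal.ofReal_mul (Nat.cast_nonneg _),
            ENNReal.ofReal_natCast]
      _ ≤ ENNReal.ofReal ε := by
          refine ENNReal.ofReal_le_ofReal ?_
          rw [hη, mul_div_assoc', div_le_iff₀ (by positivity)]
          nlinarith
  · obtain ⟨L, hL⟩ := hc _ (cyl_comp hψ hΨ)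
    refine ⟨L, fun b => ?_⟩
    cases b
    · exact hL
    · simpa using (hu _ (cyl_comp hψ hΨ)).add hL

/-- the clipped ratio -/
def rat (m u v : ℝ) : ℝ := max (-1) (min 1 u) / max v m

lemma lipC_rat {I : Type*} {m : ℝ} (hm : 0 < m) (L : ℝ) (i j : I) :
    LipC fun x : I → ℝ => L * rat m (x i) (x j) := by
  classical
  refine ⟨{i, j}, |L| * (1 / m + 1 / m ^ 2), by positivity, fun x y => ?_⟩
  rw [← mul_sub, abs_mul, mul_assoc]
  refine mul_le_mul_of_nonneg_left ?_ (abs_nonneg L)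
  set S := ∑ k ∈ ({i, j} : Finset I), |x k - y k|
  have h1 : |x i - y i| ≤ S :=
    single_le_sum (f := fun k => |x k - y k|) (fun _ _ => abs_nonneg _) (by simp)
  have h2 : |x j - y j| ≤ S :=
    single_le_sum (f := fun k => |x k - y k|) (fun _ _ => abs_nonneg _) (by simp)
  unfold rat
  have a1 : |max (-1) (min 1 (x i)) - max (-1) (min 1 (y i))| ≤ S := by
    refine (abs_max_sub_max_le_max _ _ _ _).trans ?_
    rw [sub_self, abs_zero, max_eq_right (abs_nonneg _)]
    refine (abs_min_sub_min_le_max _ _ _ _).trans ?_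
    rwa [sub_self, abs_zero, max_eq_right (abs_nonneg _)]
  have a2 : |max (y j) m - max (x j) m| ≤ S := by
    refine (abs_max_sub_max_le_max _ _ _ _).trans ?_
    rwa [sub_self, abs_zero, max_eq_left (abs_nonneg _), abs_sub_comm]
  have a3 : |max (-1 : ℝ) (min 1 (y i))| ≤ 1 :=
    abs_le.2 ⟨le_max_left _ _, max_le (by norm_num) (min_le_left _ _)⟩
  have p1 : m ≤ max (x j) m := le_max_right _ _
  have p2 : m ≤ max (y j) m := le_max_right _ _
  generalize max (-1) (min 1 (x i)) = a at *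
  generalize max (-1) (min 1 (y i)) = a' at *
  generalize max (x j) m = c at *
  generalize max (y j) m = c' at *
  have c0 : 0 < c := hm.trans_le p1
  have c1 : 0 < c' := hm.trans_le p2
  have S0 : 0 ≤ S := (abs_nonneg _).trans a1
  have e : a / c - a' / c' = (a - a') / c + a' * ((c' - c) / (c * c')) := by field_simp; ring
  rw [e, add_mul]
  refine (abs_add_le _ _).trans (add_le_add ?_ ?_)
  · rw [abs_div, abs_of_pos c0, one_div_mul_eq_div]; gcongr
  · rw [abs_mul, abs_div, abs_of_pos (mul_pos c0 c1), one_div_mul_eq_div, sq]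
    refine (mul_le_of_le_one_left (by positivity) a3).trans ?_
    gcongr

lemma rat_close {m u v z η : ℝ} (hm : 0 < m) (hv : m ≤ v) (hu : |u| ≤ 1) (h : |u - z * v| ≤ η * v) :
    |z - rat m u v| ≤ η := by
  have v0 : 0 < v := hm.trans_le hv
  rw [rat, min_eq_right (abs_le.1 hu).2, max_eq_right (abs_le.1 hu).1, max_eq_left hv,
    abs_sub_comm, div_sub' v0.ne', abs_div, abs_of_pos v0, div_le_iff₀ v0, mul_comm v z]
  exact h

/-! ### coming down from infinity -/

/-- the level reached at time `t` -/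
def hf (a β H₀ t : ℝ) : ℝ := max H₀ ((β / t) ^ (1 / a))

lemma down_mono {n : ℕ} {g : Pair n → ℝ} {a β β' H₀ H₀' : ℝ} (h : Down n g a β H₀) (h0 : 0 < H₀')
    (h1 : β ≤ β') (h2 : H₀ ≤ H₀') : Down n g a β' H₀' := fun H t hH ht =>
  h H t (h2.trans hH) (le_trans (mul_le_mul_of_nonneg_right h1
    (rpow_nonneg (h0.le.trans hH) _)) ht)

lemma down_both {a ε : ℝ} (h : ∀ b, DownStmt b a) (hε : 0 < ε) : ∃ β H₀ : ℝ, 0 < β ∧ 0 < H₀ ∧
    ∀ b, Off (couplingLaw b) ε fun n g => Down n g a β H₀ := by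
  choose β H₀ h1 h2 h3 using fun b => h b ε hε
  have p : 0 < max (H₀ false) (H₀ true) := lt_max_of_lt_left (h2 _)
  refine ⟨max (β false) (β true), _, lt_max_of_lt_left (h1 _), p, fun b =>
    Off.imp (h3 b) fun n g hg => down_mono hg p ?_ ?_⟩ <;> cases b <;> simp

lemma down_dom {n : ℕ} (hn : 0 < n) {g : Pair n → ℝ} {a β H₀ t t' : ℝ} (ha : 0 < a) (hβ : 0 < β)
    (h : Down n g a β H₀) (ht : 0 < t) (htt : t ≤ t') (y : Cube n) :
    (unif n ᵥ* (ch hn g).H (Soft.tau n t')) y ≤ exp (hf a β H₀ t) * (ch hn g).π y := by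
  have h1 : β * hf a β H₀ t ^ (-a) ≤ t' := by
    have q : 0 < β / t := div_pos hβ ht
    have k : hf a β H₀ t ^ (-a) ≤ ((β / t) ^ (1 / a)) ^ (-a) :=
      rpow_le_rpow_of_nonpos (rpow_pos_of_pos q _) (le_max_right _ _) (by linarith)
    rw [← rpow_mul q.le, show 1 / a * -a = -1 by field_simp, rpow_neg_one, inv_div] at k
    refine le_trans (mul_le_mul_of_nonneg_left k hβ.le) (le_trans (le_of_eq ?_) htt)
    field_simp
  have h2 := fun x => h _ _ (le_max_left _ _) h1 x y
  rw [Soft.ctKernel_eq_H hn] at h2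
  have := Soft.isP_unif.mean_mono (f := fun x => (ch hn g).H (Soft.tau n t') x y) h2
  rwa [Soft.isP_unif.mean_const] at this

lemma small_time {a γ c A B : ℝ} (ha : 0 < a) (hγ : 1 / (3 * a) < γ) (hc : 0 < c) :
    ∀ᶠ ω in 𝓝[>] (0 : ℝ), ∀ H : ℝ, 0 < H → H ≤ A + B * ω ^ (-(1 / a)) →
      2 * ω ^ γ ≤ c * H ^ (-(1 / 3) : ℝ) := by
  have g1 : 0 < 3 * γ - 1 / a := by
    have : 1 / a = 3 * (1 / (3 * a)) := by field_simp
    linarith
  have g0 : 0 < 3 * γ := by linarith [one_div_pos.2 ha]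
  have t : ∀ e : ℝ, 0 < e → Tendsto (fun ω : ℝ => ω ^ e) (𝓝[>] 0) (𝓝 0) := fun e he => by
    have := (continuousAt_rpow_const 0 e (.inr he.le)).tendsto
    rw [zero_rpow he.ne'] at this
    exact this.mono_left nhdsWithin_le_nhds
  have t2 : Tendsto (fun ω : ℝ => 8 / c ^ 3 * (A * ω ^ (3 * γ) + B * ω ^ (3 * γ - 1 / a))) (𝓝[>] 0)
      (𝓝 0) := by
    simpa using (((t _ g0).const_mul A).add ((t _ g1).const_mul B)).const_mul (8 / c ^ 3)
  filter_upwards [t2.eventually (gt_mem_nhds one_pos), self_mem_nhdsWithin] with ω h1 h0 H H0 hH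
  have h0 : 0 < ω := h0
  have e1 : ω ^ (3 * γ) = (ω ^ γ) ^ 3 := by rw [mul_comm, rpow_mul h0.le]; norm_cast
  have e2 : ω ^ (3 * γ - 1 / a) = (ω ^ γ) ^ 3 * ω ^ (-(1 / a)) := by
    rw [sub_eq_add_neg, rpow_add h0, e1]
  have x0 : 0 < ω ^ γ := rpow_pos_of_pos h0 γ
  rw [e1, e2] at h1
  have k : (2 * ω ^ γ / c) ^ 3 ≤ H⁻¹ := by
    rw [← one_div, le_div_iff₀ H0]
    have : (2 * ω ^ γ / c) ^ 3 * H ≤ (2 * ω ^ γ / c) ^ 3 * (A + B * ω ^ (-(1 / a))) := by gcongr
    refine this.trans (le_trans (le_of_eq ?_) h1.le)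
    ring
  have k2 := rpow_le_rpow (by positivity) k (show (0 : ℝ) ≤ 1 / 3 by norm_num)
  rw [← rpow_natCast, ← rpow_mul (by positivity), inv_rpow H0.le, ← rpow_neg H0.le] at k2
  norm_num at k2
  rw [div_le_iff₀ hc, mul_comm _ c] at k2
  convert k2 using 3

end Crest.Agent.T157.Cq.Top72

end
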