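import Crest.Agent.T157.CqTopB_72

/-!
# Row 157, part C: the merging step for both laws (helper72)
-/

set_option autoImplicit false

noncomputable section

namespace Crest.Agent.T157.Cq.Top72

open MeasureTheory Matrix Finset Real Filter Topology
open Crest.ProbabilityR.SpinGlassDynamics Crest.Agent.T157.E
open Crest.Agent.T157.St (muG hat dm Tk)
open Crest.Agent.T157.St.Lnk10 (integral_muG)
open Crest.Agent.T157.Tr (Off Om PM)
open Crest.Agent.T157.Soft (IsCyl Pn unif ch ABn IAB)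
open Crest.Agent.T157.Q1 (Down DownStmt)

lemma cut_nonneg (u : ℝ) : 0 ≤ cut u := smoothTransition.nonneg _
lemma cut_le_one (u : ℝ) : cut u ≤ 1 := smoothTransition.le_one _
lemma cut_one {u : ℝ} (h : u ≤ 1) : cut u = 1 := smoothTransition.one_of_one_le (by linarith)
lemma cut_zero {u : ℝ} (h : 2 ≤ u) : cut u = 0 := smoothTransition.zero_of_nonpos (by linarith)

/-- powers -/
def pw (e : SE) : ℕ → SE
  | 0 => .const 1
  | j + 1 => .mul (pw e j) e

lemma pw_adm {e : SE} (h : e.Adm) : ∀ j, (pw e j).Adm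
  | 0 => trivial
  | j + 1 => ⟨pw_adm h j, h⟩

lemma pw_ev {ι : Type*} [Fintype ι] (μ : Measure (ι → ℝ)) (v : (ι → ℝ) → ℝ) (e : SE) (x : ι → ℝ) :
    ∀ j, (pw e j).ev μ v x = e.ev μ v x ^ j
  | 0 => (pow_zero _).symm
  | j + 1 => by rw [pow_succ, ← pw_ev μ v e x j]; rfl

variable {n : ℕ}

lemma isP_w (g : Pair n → ℝ) : Chain22.IsP (prob (gibbsWeight n 1 g)) :=
  ⟨(SL.Wt.of_pos (gibbsWeight_pos 1 g)).prob_nonneg, (SL.Wt.of_pos (gibbsWeight_pos 1 g)).sum_prob⟩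

lemma mk_eq (g : Pair n → ℝ) (M : Matrix (Fin n) (Fin n) ℝ) (l : ℝ) (f : (Fin n → ℝ) → ℝ) :
    mk (muG n g) M l f =
      Chain22.mean (prob (gibbsWeight n 1 g)) fun x => cut (l * qf M x) * f (hat n x) :=
  integral_muG g _

lemma real_muG (g : Pair n → ℝ) {S : Set (Fin n → ℝ)} (hS : MeasurableSet S) :
    (muG n g).real S = Chain22.mean (prob (gibbsWeight n 1 g)) (Ent.ind fun x => hat n x ∈ S) := by
  rw [← integral_indicator_one hS, integral_muG]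
  refine sum_congr rfl fun x _ => ?_
  simp only [Set.indicator, Ent.ind, Pi.one_apply]

lemma abs_mk_le (g : Pair n → ℝ) (M : Matrix (Fin n) (Fin n) ℝ) (l : ℝ) {f : (Fin n → ℝ) → ℝ} (h : ∀ x, |f x| ≤ 1) :
    |mk (muG n g) M l f| ≤ mk (muG n g) M l 1 ∧ mk (muG n g) M l 1 ≤ 1 := by
  simp only [mk_eq]
  refine ⟨abs_le.2 ⟨?_, (isP_w g).mean_mono fun x =>
    mul_le_mul_of_nonneg_left (abs_le.1 (h _)).2 (cut_nonneg _)⟩,
    ((isP_w g).mean_mono fun x => ?_).trans_eq ((isP_w g).mean_const 1)⟩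
  · rw [neg_le_iff_add_nonneg, ← Chain22.mean_add]
    refine (isP_w g).mean_nonneg fun x => ?_
    simp only [Pi.add_apply, Pi.one_apply]
    nlinarith [cut_nonneg (l * qf M x), (abs_le.1 (h (hat n x))).1]
  · simpa using cut_le_one _

/-- upper bound of the marked moment -/
lemma mk_pow_le (g : Pair n → ℝ) (M : Matrix (Fin n) (Fin n) ℝ) {x₀ x₁ η c z m : ℝ} {u : (Fin n → ℝ) → ℝ} (p : ℕ)
    (hu : B1 u) (hz : |z| ≤ 1) (hx : 0 < x₀) (hx' : 2 * x₀ ≤ x₁) (hη : 0 ≤ η) (hc : |c - z| ≤ η)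
    (h : (muG n g).real {x | x ⬝ᵥ M *ᵥ x ≤ x₁ ∧ η < |u x - c|} ≤ m) :
    mk (muG n g) M x₀⁻¹ (fun x => (u x + -z) ^ (2 * p)) ≤ (2 * η) ^ (2 * p) + 2 ^ (2 * p) * m := by
  have hS : MeasurableSet {x : Fin n → ℝ | x ⬝ᵥ M *ᵥ x ≤ x₁ ∧ η < |u x - c|} :=
    (measurableSet_le (f := fun x : Fin n → ℝ => x ⬝ᵥ M *ᵥ x) (by fun_prop) measurable_const).inter
      (measurableSet_lt measurable_const (hu.1.sub_const c).abs)
  rw [real_muG g hS] at h
  rw [mk_eq]
  refine le_trans ((isP_w g).mean_mono (g := (fun _ => (2 * η) ^ (2 * p)) + (2 : ℝ) ^ (2 * p) •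
    Ent.ind fun x => hat n x ∈ {x | x ⬝ᵥ M *ᵥ x ≤ x₁ ∧ η < |u x - c|}) fun x => ?_) ?_
  · have e : (u (hat n x) + -z) ^ (2 * p) = |u (hat n x) - z| ^ (2 * p) := by
      rw [pow_mul, pow_mul, sq_abs, sub_eq_add_neg]
    have k := mul_le_of_le_one_left (pow_nonneg (abs_nonneg (u (hat n x) - z)) (2 * p))
      (cut_le_one (x₀⁻¹ * qf M x))
    simp only [Pi.add_apply, Pi.smul_apply, smul_eq_mul, Ent.ind, e, Set.mem_ofPred_eq]
    split_ifs with hx2
    · have : |u (hat n x) - z| ≤ 2 := by linarith [abs_sub (u (hat n x)) z, hu.2 (hat n x)]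
      have := pow_le_pow_left₀ (abs_nonneg _) this (2 * p)
      linarith [pow_nonneg (show 0 ≤ 2 * η by linarith) (2 * p)]
    · rw [mul_zero, add_zero]
      rcases not_and_or.1 hx2 with h1 | h1
      · rw [cut_zero, zero_mul]
        · positivity
        · rw [le_inv_mul_iff₀ hx]; unfold qf; linarith [not_le.1 h1]
      · refine k.trans (pow_le_pow_left₀ (abs_nonneg _) ?_ _)
        linarith [abs_sub_le (u (hat n x)) c z, not_lt.1 h1]
  · rw [Chain22.mean_add, Chain22.mean_smul, (isP_w g).mean_const]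
    gcongr

/-- Chebyshev -/
lemma ind_le_mk (g : Pair n → ℝ) (M : Matrix (Fin n) (Fin n) ℝ) {x₀ η z : ℝ} (u : (Fin n → ℝ) → ℝ) (p : ℕ)
    (hx : 0 < x₀) (hη : 0 ≤ η) :
    η ^ (2 * p) * Chain22.mean (prob (gibbsWeight n 1 g))
      (Ent.ind fun y => ¬ x₀ < qf M y ∧ η < |u (hat n y) - z|) ≤
      mk (muG n g) M x₀⁻¹ fun x => (u x + -z) ^ (2 * p) := by
  rw [mk_eq, ← Chain22.mean_smul]
  refine (isP_w g).mean_mono fun x => ?_
  have e : (u (hat n x) + -z) ^ (2 * p) = |u (hat n x) - z| ^ (2 * p) := by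
    rw [pow_mul, pow_mul, sq_abs, sub_eq_add_neg]
  simp only [Pi.smul_apply, smul_eq_mul, Ent.ind, e]
  split_ifs with h
  · rw [cut_one, one_mul, mul_one]
    · exact pow_le_pow_left₀ hη h.2.le _
    · rw [inv_mul_le_iff₀ hx]; linarith [not_lt.1 h.1]
  · rw [mul_zero]; exact mul_nonneg (cut_nonneg _) (by positivity)

/-- the smoothed observable -/
def vE (k K K₁ r : ℝ) (e : SE) : SE := .T K₁ (.Q K (k * K * r) e)
/-- its static flow -/
def uE (k K K₁ r τ : ℝ) (e : SE) : SE := .Q K (k * K * τ) (vE k K K₁ r e)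

lemma hf_le {a β H₀ ω : ℝ} (hβ : 0 < β) (hH : 0 < H₀) (hω : 0 < ω) :
    hf a β H₀ (ω / 2) ≤ H₀ + (2 * β) ^ (1 / a) * ω ^ (-(1 / a)) := by
  have e : (β / (ω / 2)) ^ (1 / a) = (2 * β) ^ (1 / a) * ω ^ (-(1 / a)) := by
    rw [rpow_neg hω.le, ← div_eq_mul_inv, ← div_rpow (by positivity) hω.le]
    congr 1; field_simp
  rw [hf, e]
  exact max_le (le_add_of_nonneg_right (by positivity)) (le_add_of_nonneg_left hH.le)

lemma slack {η m δ z u v u' v' : ℝ} (hη : 0 < η) (hη1 : η ≤ 1 / 4) (hm : 0 < m)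
    (hδ : δ ≤ η * m / 6) (hz : |z| ≤ 1) (h1 : m ≤ v') (h2 : |u' - z * v'| ≤ η * v')
    (h3 : |v - v'| ≤ δ) (h4 : |u - u'| ≤ δ) : m / 2 ≤ v ∧ |u - z * v| ≤ 2 * η * v := by
  have a1 : |z * (v - v')| ≤ δ := by
    rw [abs_mul]; exact (mul_le_of_le_one_left (abs_nonneg _) hz).trans h3
  have δ0 := (abs_nonneg _).trans h3
  rw [abs_le] at *
  have hv : m / 2 ≤ v := by nlinarith [h3.1]
  have a4 : η * v' ≤ η * v + δ := by nlinarith [h3.1]
  have a5 : η * (m / 2) ≤ η * v := by gcongr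
  exact ⟨hv, by nlinarith [a1.1, a1.2, h4.1, h2.1], by nlinarith [a1.1, a1.2, h4.2, h2.2]⟩

set_option maxHeartbeats 1000000 in
/-- **the quenched mean of a static observable is close to a marked ratio** -/
theorem merge {k a s η ε : ℝ} (hk : 0 < k) (ha : 0 < a) (bd : BdStmt) (hm : ScMeas) (hu : UtStmt)
    (sg : ∀ b, SgStmt b k) (ts : TsStmt k) (mg : MgG k) (dn : ∀ b, DownStmt b a)
    (q3 : ∀ b, Q3Stmt b a) (hs : 0 < s) (hη : 0 < η) (hη1 : η ≤ 1 / 4) (hε : 0 < ε) (e : ℝ → SE)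
    (he : ∀ K, 0 < K → (e K).Adm ∧ (e K).bd ≤ 1) :
    ∃ τ K₁ l₁ m₁ : ℝ, 0 < τ ∧ τ ≤ s / 2 ∧ 0 < K₁ ∧ 0 < l₁ ∧ 0 < m₁ ∧ ∀ᶠ K in atTop, ∀ b,
      Off (PB b) (7 * ε) fun n p =>
        |um (Pn n p.1 s fun x => (e K).ev (muG n p.1) 0 (hat n x)) -
          rat m₁ (mk (muG n p.1) (fl n 1 (Wp p)) l₁ ((uE k K K₁ (s - τ) τ (e K)).ev (muG n p.1) 0))
            (mk (muG n p.1) (fl n 1 (Wp p)) l₁ 1)| ≤ 18 * η := by
  classical
  obtain ⟨β, H₀, hβ, hH₀, hdn⟩ := down_both dn hε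
  obtain ⟨τ₀, hτ₀, hmg⟩ := mg η ε hη hε
  set τ := min τ₀ (s / 2) with hτ
  have τ0 : 0 < τ := lt_min hτ₀ (by positivity)
  have τs : τ ≤ s / 2 := min_le_right _ _
  have Ege : ∀ t, 1 ≤ exp (hf a β H₀ t) := fun t => one_le_exp (hH₀.le.trans (le_max_left _ _))
  set E₀ := exp (hf a β H₀ (s / 2))
  set E₁ := exp (hf a β H₀ τ) with hE₁
  have E10 : 0 < E₁ := exp_pos _
  set δ₁ := η / E₁ with hδ₁
  have δ10 : 0 < δ₁ := by positivity
  obtain ⟨K₁, Ka, hK₁, hKa, hts⟩ := ts (s / 2) (δ₁ ^ 2 / 2) ε (by positivity) (by positivity) hε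
  obtain ⟨l₁, m₁, c, hl₁, hm₁, hc, hmg⟩ := hmg τ τ0 (min_le_left _ _) K₁ hK₁
  choose γ hγ hq3 using q3
  set lam := -Real.log η with hlam
  have lam1 : 1 ≤ lam := by
    rw [hlam, le_neg, log_le_iff_le_exp hη]
    refine hη1.trans ?_
    rw [exp_neg, one_div]
    exact inv_anti₀ (exp_pos 1) (by linarith [exp_one_lt_d9])
  have eη : exp (-lam) = η := by rw [hlam, neg_neg, exp_log hη]
  set γ' := min (γ false) (γ true)
  have γ1 : ∀ b, γ' ≤ γ b := fun b => by cases b <;> simp [γ']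
  have t1 : Tendsto (fun ω : ℝ => ω / (s / 2) * (2 * E₀ ^ 2)) (𝓝[>] 0) (𝓝 0) := by
    have : Continuous fun ω : ℝ => ω / (s / 2) * (2 * E₀ ^ 2) := by fun_prop
    simpa using (this.tendsto 0).mono_left (nhdsWithin_le_nhds (s := Set.Ioi 0))
  obtain ⟨ω, ⟨⟨⟨hq, hω1⟩, hω2⟩, hω3⟩, ω0⟩ := (((((eventually_all.2 fun b =>
    hq3 b (min η ε) (lt_min hη hε)).and (t1.eventually (gt_mem_nhds hη))).and
    (small_time (A := 2 * lam * (H₀ + lam + 1)) (B := 2 * lam * (2 * β) ^ (1 / a)) ha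
      (lt_min (hγ false) (hγ true)) hc)).and
    ((eventually_lt_nhds one_pos).filter_mono nhdsWithin_le_nhds)).and
      self_mem_nhdsWithin).exists
  have ω0 : 0 < ω := ω0
  set h₂ := hf a β H₀ (ω / 2) with hh₂
  have h20 : 0 < h₂ := hH₀.trans_le (le_max_left _ _)
  set E₂ := exp h₂ with hE₂
  have E20 : 0 < E₂ := exp_pos _
  set p := ⌈h₂ + lam⌉₊ with hp
  have p1 : h₂ + lam ≤ p := Nat.le_ceil _
  have p2 : (p : ℝ) < h₂ + lam + 1 := Nat.ceil_lt_add_one (by positivity)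
  set H := 2 * lam * p with hH
  have H1 : 1 ≤ H := by nlinarith
  set x₀ := ω ^ γ' with hx₀
  have x0 : 0 < x₀ := rpow_pos_of_pos ω0 _
  have x1 : 2 * x₀ ≤ c * H ^ (-(1 / 3) : ℝ) := hω2 H (by linarith) (by
    have := hf_le (a := a) hβ hH₀ ω0
    rw [mul_assoc (2 * lam), ← mul_add]
    exact mul_le_mul_of_nonneg_left (by linarith) (by positivity))
  have eH : exp (-H) = η ^ (2 * p) := by
    rw [← eη, ← exp_nat_mul]; congr 1; push_cast; ring
  have ep : (2 * η) ^ (2 * p) * E₂ ≤ (4 * η) ^ (2 * p) * η := by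
    have a1 : exp (p : ℝ) ≤ 2 ^ (2 * p) := by
      rw [pow_mul, ← mul_one (p : ℝ), exp_nat_mul]
      exact pow_le_pow_left₀ (exp_pos 1).le (by linarith [exp_one_lt_d9]) p
    have a2 : E₂ ≤ exp (p : ℝ) * η := by
      rw [← eη, ← exp_add]; exact exp_le_exp.2 (by linarith)
    rw [show 4 * η = 2 * η * 2 by ring, mul_pow (2 * η), mul_assoc]
    exact mul_le_mul_of_nonneg_left (a2.trans (mul_le_mul_of_nonneg_right a1 hη.le)) (by positivity)
  obtain ⟨Kb, hKb, hmg⟩ := hmg H H1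
  set δ₃ := η / E₂ with hδ₃
  have δ30 : 0 < δ₃ := by positivity
  choose Kc hKc hsg using fun b => sg b τ s 1 1 (min (δ₁ ^ 2) (δ₃ ^ 2)) ε τ0 one_pos
    (by positivity) hε
  obtain ⟨Z, hZ1, hZ2, hZ3⟩ := finite_cover_balls_of_compact (isCompact_Icc (a := (-1 : ℝ)) (b := 1)) hη
  refine ⟨τ, K₁, l₁, m₁ / 2, τ0, τs, hK₁, hl₁, by positivity, ?_⟩
  filter_upwards [eventually_ge_atTop Ka, eventually_ge_atTop Kb,
    eventually_all.2 fun b => eventually_ge_atTop (Kc b)] with K k1 k2 k3 b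
  have K0 : 0 < K := hKa.trans_le k1
  obtain ⟨ea, eb⟩ := he K K0
  have sτ : s / 2 ≤ s - τ := by linarith
  have fa : (SE.Q K (k * K * (s - τ)) (e K)).Adm :=
    ⟨K0, mul_nonneg (by positivity) (by linarith), ea⟩
  have va : (vE k K K₁ (s - τ) (e K)).Adm := ⟨hK₁, fa⟩
  have ua : (uE k K K₁ (s - τ) τ (e K)).Adm := ⟨K0, by positivity, va⟩
  have b1 : ∀ {n : ℕ} (g : Pair n → ℝ) (e' : SE), e'.Adm → e'.bd ≤ 1 → B1 (e'.ev (muG n g) 0) :=
    fun {n} g e' h1 h2 => by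
      have := (bd (Fin n) (muG n g) (St.Lnk10.isProb_dm (gibbsWeight_pos 1 g) _)).2 0
        ⟨measurable_const, fun _ => by simp⟩ e' h1
      exact ⟨this.1, fun x => (this.2 x).trans h2⟩
  set fE := SE.Q K (k * K * (s - τ)) (e K)
  set v := vE k K K₁ (s - τ) (e K)
  set u := uE k K K₁ (s - τ) τ (e K)
  let iD : IS := (⟨0, le_rfl⟩, ⟨pw (.add fE (.mul (.const (-1)) v)) 2, pw_adm (e := .add _ (.mul (.const _) _)) ⟨fa, trivial, va⟩ _⟩)
  let i1 : IS := (⟨l₁, hl₁.le⟩, ⟨.const 1, trivial⟩)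
  let iU : IS := (⟨l₁, hl₁.le⟩, ⟨u, ua⟩)
  let iZ : ℝ → IS := fun z => (⟨x₀⁻¹, by positivity⟩,
    ⟨pw (.add u (.const (-z))) (2 * p), pw_adm (e := .add _ (.const _)) ⟨ua, trivial⟩ _⟩)
  have eD : ∀ {n : ℕ} (q : Om n), sc n q iD =
      ∫ x, (fE.ev (muG n q.1) 0 x - v.ev (muG n q.1) 0 x) ^ 2 ∂muG n q.1 := fun q => by
    simp only [sc, iD, mk, zero_mul, cut_one zero_le_one, one_mul, pw_ev, SE.ev]
    congr 1; funext x; ring
  have eZ : ∀ {n : ℕ} (q : Om n) z, sc n q (iZ z) = mk (muG n q.1) (fl n 1 (Wp q)) x₀⁻¹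
      fun x => (u.ev (muG n q.1) 0 x + -z) ^ (2 * p) := fun q z => by
    simp only [sc, iZ]
    congr 1; funext x; rw [pw_ev]; rfl
  let A : Set (IS → ℝ) := {y | y iD ≤ δ₁ ^ 2 / 2 ∧ m₁ ≤ y i1 ∧ ∃ z ∈ Z,
    |y iU - z * y i1| ≤ η * y i1 ∧ y (iZ z) ≤ 2 * (2 * η) ^ (2 * p)}
  have hA : Off (PB false) (ε + ε) fun n q => sc n q ∈ A := by
    refine ((Off.fst (ν := fun n => gv (Fin n)) (hts K k1)).and (hmg K k2) hε.le hε.le).imp ?_
    rintro n q ⟨h1, h2, h3⟩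
    refine ⟨?_, h2, ?_⟩
    · rw [eD]
      exact h1 _ (b1 _ _ ea eb) _ (mul_le_mul_of_nonneg_left sτ (by positivity))
    · have h4 := h3 _ (b1 q.1 fE fa eb) τ ⟨by linarith, le_rfl⟩ _ rfl
      have ub := b1 q.1 u ua eb
      have h5 := (abs_mk_le q.1 (fl n 1 (Wp q)) l₁ ub.2).1
      have y0 : 0 < mk (muG n q.1) (fl n 1 (Wp q)) l₁ 1 := hm₁.trans_le h2
      obtain ⟨z, hz, hz'⟩ := Set.mem_iUnion₂.1 (hZ3 (show mk (muG n q.1) (fl n 1 (Wp q)) l₁
        (u.ev (muG n q.1) 0) / mk (muG n q.1) (fl n 1 (Wp q)) l₁ 1 ∈ Set.Icc (-1 : ℝ) 1 from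
          abs_le.1 (by rw [abs_div, abs_of_pos y0, div_le_one y0]; exact h5)))
      rw [Metric.mem_ball, Real.dist_eq] at hz'
      refine ⟨z, hz, ?_, ?_⟩
      · rw [div_sub' y0.ne', abs_div, abs_of_pos y0, div_lt_iff₀ y0, mul_comm _ z] at hz'
        exact hz'.le
      · rw [eZ]
        refine (mk_pow_le q.1 _ p ub (abs_le.2 (hZ1 hz)) x0 x1 hη.le hz'.le h4).trans ?_
        rw [eH, ← mul_pow]; linarith
  set δ := min (min (δ₁ ^ 2 / 2) (η * m₁ / 6)) ((2 * η) ^ (2 * p)) with hδ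
  have δa : δ ≤ δ₁ ^ 2 / 2 := (min_le_left _ _).trans (min_le_left _ _)
  have δb : δ ≤ η * m₁ / 6 := (min_le_left _ _).trans (min_le_right _ _)
  have δc : δ ≤ (2 * η) ^ (2 * p) := min_le_right _ _
  have δ0 : 0 < δ := by positivity
  have hT := transfer hm hu (insert iD (insert i1 (insert iU (hZ2.toFinset.image iZ)))) A δ0
    (by positivity) hA b
  have hS := hsg b K (k3 b) [e K, v] (by
    intro e' he'
    simp only [List.mem_cons, List.not_mem_nil, or_false] at he'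
    rcases he' with rfl | rfl
    exacts [⟨ea, eb⟩, ⟨va, eb⟩])
  have all := ((Off.fst (ν := fun n => gv (Fin n)) ((hdn b).and hS hε.le hε.le)).and
    ((hq b).le (min_le_right _ _)) (by positivity) hε.le).and hT (by positivity) (by positivity)
  refine (all.le (by linarith)).mono ((eventually_gt_atTop 0).mono fun n hn q => ?_)
  rintro ⟨⟨⟨d, hs1⟩, r, ⟨r1, r2⟩, hr⟩, y, ⟨y1, y2, z, hz, y3, y4⟩, hy⟩
  have c1 := abs_le.1 (hy iD (by simp))
  have c2 := abs_le.1 (hy i1 (by simp))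
  have c3 := abs_le.1 (hy iU (by simp))
  have c4 := abs_le.1 (hy (iZ z) (by
    simp only [mem_insert, mem_image, Set.Finite.mem_toFinset]
    exact .inr (.inr (.inr ⟨z, hz, rfl⟩))))
  have z1 := abs_le.2 (hZ1 hz)
  have ub := b1 q.1 u ua eb
  have r0 : 0 < r := by linarith
  have tt : ∀ x y : ℝ, Soft.tau n (x + y) = Soft.tau n x + Soft.tau n y := fun x y => by ring
  have ts' : Soft.tau n (s - τ) = Soft.tau n s - Soft.tau n τ := by ring
  have key := core (c := ch hn q.1) Soft.isP_unif (b := Soft.tau n (s / 2)) (s := Soft.tau n s)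
    (τ := Soft.tau n τ) (r := Soft.tau n r) (E₀ := E₀) (E₁ := E₁) (E₂ := E₂) (δ₁ := δ₁) (δ₂ := δ₁)
    (δ₃ := δ₃) (η := 4 * η) (z := z) (q := η) (m := 3 * η / E₂)
    (e := fun x => (e K).ev (muG n q.1) 0 (hat n x)) (f := fun x => fE.ev (muG n q.1) 0 (hat n x))
    (v := fun x => v.ev (muG n q.1) 0 (hat n x)) (u := fun x => u.ev (muG n q.1) 0 (hat n x))
    (A := fun x => x₀ < qf (fl n 1 (Wp q)) x) (Soft.tau_pos hn (by positivity))
    (le_of_eq (by ring)) (Soft.tau_pos hn τ0).le (Soft.tau_pos hn r0).le (Ege _) E10.le E20.le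
    δ10.le δ10.le δ30.le (by positivity) (down_dom hn ha hβ d (by positivity) le_rfl)
    (fun y => by rw [← tt]; exact down_dom hn ha hβ d τ0 (by linarith) y)
    (down_dom hn ha hβ d (by positivity) r1) (fun x => (b1 q.1 _ ea eb).2 _) (fun x => ub.2 _) z1
    (by
      have := ((hs1 (s - τ) ⟨by linarith, by linarith⟩).1 (e K) (by simp)).trans (min_le_left _ _)
      rw [Sg1, Soft.Pn_eq hn, ts'] at this
      exact this)
    (by
      have := eD q
      rw [integral_muG] at this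
      exact this.symm.le.trans (by linarith [c1.2]))
    (by
      have := ((hs1 τ ⟨le_rfl, by linarith⟩).1 v (by simp)).trans (min_le_right _ _)
      rw [Sg1, Soft.Pn_eq hn] at this
      exact this)
    (by
      rw [Sg.mean_vecMul]
      rw [Soft.Pn_eq hn] at hr
      refine le_trans (Soft.isP_unif.mean_mono fun x => (Soft.isP_H (c := ch hn q.1)
        (Soft.tau_pos hn r0).le x).mean_mono fun y => ?_) (hr.trans (min_le_left _ _))
      have := rpow_le_rpow_of_exponent_ge ω0 hω3.le (γ1 b)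
      simp only [Ent.ind]
      split_ifs with h1 h2
      · exact le_rfl
      · exact absurd (this.trans_lt h1) h2
      · exact zero_le_one
      · exact le_rfl)
    (by
      have a1 := ind_le_mk q.1 (fl n 1 (Wp q)) (z := z) (u.ev (muG n q.1) 0) p x0
        (show 0 ≤ 4 * η by positivity)
      rw [← eZ] at a1
      have a0 : 0 < (4 * η) ^ (2 * p) := by positivity
      rw [le_div_iff₀ E20]
      refine le_of_mul_le_mul_left ?_ a0
      have a2 := mul_le_mul_of_nonneg_right (a1.trans (show sc n q (iZ z) ≤ 3 * (2 * η) ^ (2 * p) by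
        linarith [c4.2])) E20.le
      rw [← mul_assoc]
      exact a2.trans (by linarith))
  have e1 : Soft.tau n r / Soft.tau n (s / 2) = r / (s / 2) := by
    have := Soft.N23_pos hn
    have : (0 : ℝ) < n := by exact_mod_cast hn
    field_simp
  have e2 : r / (s / 2) * (2 * E₀ ^ 2) ≤ ω / (s / 2) * (2 * E₀ ^ 2) := by gcongr
  have e3 : E₁ * δ₁ = η := by rw [hδ₁]; field_simp
  have e4 : E₂ * δ₃ = η := by rw [hδ₃]; field_simp
  have e5 : E₂ * (3 * η / E₂) = 3 * η := by field_simp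
  rw [e1, e3, e4, e5, Sg.mean_vecMul, ← Soft.Pn_eq hn] at key
  have m1 := abs_mk_le q.1 (fl n 1 (Wp q)) l₁ ub.2
  obtain ⟨hv, hw⟩ := slack hη hη1 hm₁ δb z1 y2 y3 (abs_le.2 c2) (abs_le.2 c3)
  have k2 := rat_close (by positivity) hv (m1.1.trans m1.2) hw
  exact (abs_sub_le _ z _).trans ((add_le_add key k2).trans (by linarith))

end Crest.Agent.T157.Cq.Top72

end
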