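import Crest.Agent.T157.CqTopC_72
import Crest.Agent.T157.CqRed_87

/-!
# Row 157, part C: `TopGlue` (helper72)
-/

set_option autoImplicit false

noncomputable section

namespace Crest.Agent.T157.Cq

open MeasureTheory Matrix Finset Real Filter Topology
open Crest.ProbabilityR.SpinGlassDynamics Crest.Agent.T157.E
open Crest.Agent.T157.St (muG hat)
open Crest.Agent.T157.Tr (Off Om PM)
open Crest.Agent.T157.Soft (Pn unif ABn)
open Top72

theorem topGlue : TopGlue := by
  intro k a hk ha bd hm hc hu sg ts mg dn ld q3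
  refine conv_of_lip hm hc hu fun i ε hε => ?_
  have par : ∀ s t : ℝ, 0 < s → 0 < t → ∃ K' L : ℝ, 0 < K' ∧ 1 ≤ L ∧ ∀ᶠ K in atTop, ∀ b,
      Off (couplingLaw b) (ε / 2) fun n g =>
        |Soft.An n g t - ∫ x, psiS (muG n g) L K' K (k * K * t) x ∂muG n g| ≤ ε / 2 ∧
        |Soft.Bn n g s t - um (Pn n g s fun x => psiS (muG n g) L K' K (k * K * t) (hat n x))| ≤
          ε / 2 := fun s t hs ht => by
    obtain ⟨K', h1, h2⟩ := ((eventually_gt_atTop 0).and (eventually_all.2 fun b =>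
      Red.red hk ha (sg b) (dn b) (ld b) hs ht (half_pos hε) (half_pos hε))).exists
    obtain ⟨L, h3, h4⟩ := ((eventually_ge_atTop 1).and (eventually_all.2 h2)).exists
    exact ⟨K', L, h1, h3, eventually_all.2 h4⟩
  rcases i with t | ⟨s, t⟩
  · obtain ⟨K', L, h1, h2, h3⟩ := par 1 t one_pos t.2
    obtain ⟨K, K0, h4⟩ := ((eventually_gt_atTop 0).and h3).exists
    have t0 : (0 : ℝ) < t := t.2
    refine ⟨fun x => x (⟨0, le_rfl⟩, ⟨.psi L K' K (k * K * t), h2, h1, K0, by positivity⟩),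
      ⟨{_}, 1, zero_le_one, fun x y => by rw [sum_singleton, one_mul]⟩, fun b => ?_⟩
    refine ((Off.fst (ν := fun n => gv (Fin n)) (h4 b)).le (by linarith)).imp fun n p hp => ?_
    simp only [sc, mk, zero_mul, cut_one zero_le_one, one_mul, SE.ev]
    exact hp.1.trans (by linarith)
  · have s0 : (0 : ℝ) < s := s.2
    have t0 : (0 : ℝ) < t := t.2
    obtain ⟨K', L, h1, h2, h3⟩ := par s t s0 t0
    have L0 : 0 < L := by linarith
    set η := min (1 / 4) (ε / (36 * L)) with hη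
    have η0 : 0 < η := by positivity
    have η1 : 18 * η * L ≤ ε / 2 := by
      have := (le_div_iff₀ (by positivity)).1 (min_le_right (1 / 4) (ε / (36 * L)))
      linarith
    have ad : ∀ K, 0 < K → (SE.mul (.const L⁻¹) (.psi L K' K (k * K * t))).Adm ∧
        (SE.mul (.const L⁻¹) (.psi L K' K (k * K * t))).bd ≤ 1 := fun K K0 =>
      ⟨⟨trivial, h2, h1, K0, by positivity⟩, by
        simp only [SE.bd]; rw [abs_of_pos (inv_pos.2 L0), inv_mul_cancel₀ L0.ne']⟩
    obtain ⟨τ, K₁, l₁, m₁, τ0, τs, hK₁, hl₁, hm₁, h5⟩ := merge (ε := ε / 14) hk ha bd hm hu sg ts mg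
      dn q3 s0 η0 (min_le_left _ _) (by positivity) _ ad
    obtain ⟨K, ⟨K0, h4⟩, h6⟩ := (((eventually_gt_atTop 0).and h3).and h5).exists
    have ua : (uE k K K₁ (s - τ) τ (.mul (.const L⁻¹) (.psi L K' K (k * K * t)))).Adm :=
      ⟨K0, by positivity, hK₁, K0, mul_nonneg (by positivity) (by linarith), (ad K K0).1⟩
    refine ⟨_, lipC_rat hm₁ L (⟨l₁, hl₁.le⟩, ⟨_, ua⟩) (⟨l₁, hl₁.le⟩, ⟨.const 1, trivial⟩),
      fun b => ?_⟩
    refine (((Off.fst (ν := fun n => gv (Fin n)) (h4 b)).and (h6 b) (by positivity)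
      (by positivity)).le (by linarith)).imp fun n p hp => ?_
    obtain ⟨⟨-, a1⟩, a2⟩ := hp
    have e : um (Pn n p.1 s fun x => psiS (muG n p.1) L K' K (k * K * t) (hat n x)) =
        L * um (Pn n p.1 s fun x => (SE.mul (.const L⁻¹) (.psi L K' K (k * K * t))).ev
          (muG n p.1) 0 (hat n x)) := by
      simp only [um, Pn, SE.ev, mul_sum]
      refine sum_congr rfl fun x _ => sum_congr rfl fun y _ => ?_
      field_simp
    have a3 := mul_le_mul_of_nonneg_left a2 L0.le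
    rw [← abs_of_pos L0, ← abs_mul, abs_of_pos L0, mul_sub, ← e] at a3
    exact (abs_sub_le _ _ _).trans ((add_le_add a1 a3).trans (by linarith))

end Crest.Agent.T157.Cq

end
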