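import Crest.Agent.T157.CqDef_72
import Crest.Agent.T157.StB_87
import Crest.Agent.T157.ChainPoi_22

/-!
# Row 157, part C: the static chain of a conditioned law (`TvStmt`)

The lemmas of the namespace `Tv37` hold for every probability law (no compact support).
-/

set_option autoImplicit false
set_option linter.unusedSectionVars false

noncomputable section

namespace Crest.Agent.T157.Cq

open MeasureTheory ProbabilityTheory Matrix Filter Topology Finset Real
open Crest.Agent.T157.E Crest.Agent.T157.St Crest.Agent.T157.St.A87 Crest.Agent.T157.SL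

namespace Tv37

variable {ι : Type*} [Fintype ι] [DecidableEq ι] {μ : Measure (ι → ℝ)} {K : ℝ}
  {f g h h' k F : (ι → ℝ) → ℝ} {A : Set (ι → ℝ)}

lemma ew_le' (hK : 0 < K) (y x : ι → ℝ) : ew K y x ≤ exp (y ⬝ᵥ y / (2 * K)) := by
  refine exp_le_exp.mpr ?_
  have h : 0 ≤ (y - K • x) ⬝ᵥ (y - K • x) := Finset.sum_nonneg fun i _ => mul_self_nonneg _
  simp only [sub_dotProduct, dotProduct_sub, smul_dotProduct, dotProduct_smul, smul_eq_mul,
    dotProduct_comm x y] at h
  rw [le_div_iff₀ (by positivity)]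
  nlinarith

lemma bm_int [IsFiniteMeasure μ] (hf : Bm f) : Integrable f μ := by
  obtain ⟨C, h⟩ := hf.bd
  exact Integrable.of_bound hf.meas.aestronglyMeasurable C (.of_forall h)

lemma bm_abs (hf : Bm f) : Bm fun x => |f x| :=
  ⟨hf.meas.abs, hf.bd.imp fun _ h x => by simpa using h x⟩

lemma bm_ew (hK : 0 < K) (y : ι → ℝ) : Bm (ew K y) :=
  ⟨measurable_ew K measurable_const measurable_id, _, fun x => by
    rw [abs_of_pos (ew_pos _ _ _)]
    exact ew_le' hK y x⟩

lemma _root_.Crest.Agent.T157.Cq.B1.bm (hf : B1 f) : Bm f := ⟨hf.1, 1, hf.2⟩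

lemma Mf_pos' [IsProbabilityMeasure μ] (hK : 0 < K) (y : ι → ℝ) : 0 < Mf K μ y :=
  integral_exp_pos (bm_int (bm_ew hK y))

lemma abs_Un_le' [IsFiniteMeasure μ] (hK : 0 < K) (hg : Bm g) (e : ∀ x, |f x| ≤ g x) (y : ι → ℝ) :
    |Un K μ f y| ≤ Un K μ g y := by
  refine norm_integral_le_of_norm_le (f := fun x => f x * ew K y x) (bm_int (hg.mul (bm_ew hK y)))
    (.of_forall fun x => ?_)
  rw [Real.norm_eq_abs, abs_mul, abs_of_pos (ew_pos _ _ _)]
  exact mul_le_mul_of_nonneg_right (e x) (ew_pos _ _ _).le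

lemma abs_pm_le' [IsProbabilityMeasure μ] (hK : 0 < K) (hg : Bm g) (e : ∀ x, |f x| ≤ g x)
    (y : ι → ℝ) : |pm K μ f y| ≤ pm K μ g y := by
  rw [pm_eq, pm_eq, abs_div, abs_of_pos (Mf_pos' hK y)]
  exact div_le_div_of_nonneg_right (abs_Un_le' hK hg e y) (Mf_pos' hK y).le

lemma pm_const' [IsProbabilityMeasure μ] (hK : 0 < K) (c : ℝ) (y : ι → ℝ) :
    pm K μ (fun _ => c) y = c := by
  rw [pm_eq, Un_const, mul_div_cancel_right₀ _ (Mf_pos' hK y).ne']

lemma pm_sub' [IsFiniteMeasure μ] (hK : 0 < K) (hf : Bm f) (hg : Bm g) (y : ι → ℝ) :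
    pm K μ (fun x => f x - g x) y = pm K μ f y - pm K μ g y := by
  simp only [pm, sub_mul]
  rw [integral_sub (bm_int (hf.mul (bm_ew hK y))) (bm_int (hg.mul (bm_ew hK y))), sub_div]

lemma measurable_Un' [SFinite μ] (hf : Measurable f) : Measurable (Un K μ f) :=
  (StronglyMeasurable.integral_prod_right (f := fun y x => f x * ew K y x)
    ((hf.comp measurable_snd).mul (measurable_ew K measurable_fst measurable_snd)).stronglyMeasurable
    ).measurable

lemma measurable_pm' [SFinite μ] (hf : Measurable f) : Measurable (pm K μ f) :=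
  (measurable_Un' hf).div (by rw [Mf_eq]; exact measurable_Un' measurable_const)

lemma bm_pm' [IsProbabilityMeasure μ] (hK : 0 < K) (hf : Bm f) : Bm (pm K μ f) :=
  ⟨measurable_pm' hf.meas, hf.bd.imp fun C h y =>
    (abs_pm_le' hK (Bm.const C) h y).trans_eq (pm_const' hK C y)⟩

lemma bm_Tk' [IsProbabilityMeasure μ] (hK : 0 < K) (hf : Bm f) : Bm (Tk K μ f) :=
  bm_Ay (bm_pm' hK hf)

lemma b1_Tk [IsProbabilityMeasure μ] (hK : 0 < K) (hf : B1 f) : B1 (Tk K μ f) :=
  ⟨(bm_Tk' hK hf.bm).meas, abs_Ay_le fun y =>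
    (abs_pm_le' hK (Bm.const 1) hf.2 y).trans_eq (pm_const' hK 1 y)⟩

lemma b1_iter [IsProbabilityMeasure μ] (hK : 0 < K) (hf : B1 f) (j : ℕ) : B1 ((Tk K μ)^[j] f) := by
  induction j with
  | zero => exact hf
  | succ j ih => rw [Function.iterate_succ_apply']; exact b1_Tk hK ih

lemma int_joint [IsFiniteMeasure μ] (hK : 0 ≤ K) :
    Integrable (fun p : (ι → ℝ) × (ι → ℝ) => ew K (√K • p.2) p.1) (μ.prod (gv ι)) := by
  refine (integrable_prod_iff (measurable_ew K (by fun_prop) measurable_fst).aestronglyMeasurable).mpr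
    ⟨.of_forall fun x => intK (mg_ew hK x) K, ?_⟩
  refine (integrable_const 1).congr (.of_forall fun x => ?_)
  simp only [Real.norm_eq_abs, abs_of_pos (ew_pos _ _ _)]
  exact (IK_ew hK x).symm

theorem bayes' [IsFiniteMeasure μ] (hK : 0 ≤ K) (hf : Bm f) (hF : Bm F) :
    ∫ x, f x * Ay K F x ∂μ = IK K fun y => Un K μ f y * F y := by
  have e : ∀ x, f x * Ay K F x = ∫ z, f x * ew K (√K • z) x * F (√K • z) ∂gv ι := fun x => by
    rw [Ay, ← cmK hK, IK, ← integral_const_mul]
    congr 1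
    funext z
    ring
  simp only [e, IK, Un, ← integral_mul_const]
  refine integral_integral_swap ?_
  obtain ⟨C, hC⟩ := hf.bd
  obtain ⟨C', hC'⟩ := hF.bd
  refine ((int_joint hK).const_mul (C * C')).mono' (((hf.meas.comp measurable_fst).mul
    (measurable_ew K (by fun_prop) measurable_fst)).mul
    (hF.meas.comp (by fun_prop))).aestronglyMeasurable (.of_forall fun p => ?_)
  simp only [Function.uncurry, Real.norm_eq_abs, abs_mul, abs_of_pos (ew_pos _ _ _)]
  rw [mul_right_comm]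
  exact mul_le_mul_of_nonneg_right (mul_le_mul (hC _) (hC' _) (abs_nonneg _)
    ((abs_nonneg _).trans (hC p.1))) (ew_pos _ _ _).le

/-- stationarity -/
theorem stat [IsProbabilityMeasure μ] (hK : 0 < K) (hf : Bm f) :
    ∫ x, Tk K μ f x ∂μ = ∫ x, f x ∂μ := by
  have h1 := bayes' (μ := μ) hK.le (Bm.const 1) (bm_pm' (μ := μ) hK hf)
  have h2 := bayes' (μ := μ) hK.le hf (Bm.const 1)
  simp only [Ay_const, mul_one, one_mul] at h1 h2
  rw [Tk_eq, h1, h2]
  refine IK_congr fun y => ?_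
  rw [← Mf_eq, pm_eq, mul_div_cancel₀ _ (Mf_pos' hK y).ne']

lemma abs_Ay_sub_le (a : Bm h) (b : Bm h') (c : Bm k) (e : ∀ y, |h y - h' y| ≤ k y) (x : ι → ℝ) :
    |Ay K h x - Ay K h' x| ≤ Ay K k x := by
  rw [Ay, Ay, ← integral_sub (intA a.mg K x) (intA b.mg K x)]
  exact norm_integral_le_of_norm_le (f := fun z => h (K • x + √K • z) - h' (K • x + √K • z))
    (intA c.mg K x) (.of_forall fun z => e _)

/-- contraction -/
theorem contr [IsProbabilityMeasure μ] (hK : 0 < K) (hf : Bm f) (hg : Bm g) :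
    ∫ x, |Tk K μ f x - Tk K μ g x| ∂μ ≤ ∫ x, |f x - g x| ∂μ := by
  have a := bm_abs (hf.sub hg)
  rw [← stat hK a]
  refine integral_mono_of_nonneg (.of_forall fun x => abs_nonneg _) (bm_int (bm_Tk' hK a))
    (.of_forall fun x => abs_Ay_sub_le (bm_pm' hK hf) (bm_pm' hK hg) (bm_pm' hK a) (fun y => ?_) x)
  rw [← pm_sub' hK hf hg]
  exact abs_pm_le' hK a (fun _ => le_rfl) y

lemma integral_cond (μ : Measure (ι → ℝ)) (A : Set (ι → ℝ)) (f : (ι → ℝ) → ℝ) :
    ∫ x, f x ∂μ[|A] = (μ.real A)⁻¹ * ∫ x in A, f x ∂μ := by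
  rw [ProbabilityTheory.cond, integral_smul_measure, ENNReal.toReal_inv, smul_eq_mul, Measure.real]

lemma Un_split [IsFiniteMeasure μ] (hK : 0 < K) (hA : MeasurableSet A) (hq : 0 < μ.real A)
    (hg : Bm g) (y : ι → ℝ) :
    Un K μ g y = μ.real A * Un K (μ[|A]) g y + Un K μ (Aᶜ.indicator g) y := by
  simp only [Un, ← Set.indicator_mul_left]
  rw [integral_cond, mul_inv_cancel_left₀ hq.ne', integral_indicator hA.compl,
    integral_add_compl hA (bm_int (hg.mul (bm_ew hK y)))]

lemma alg {q N M b β : ℝ} (hq : 0 < q) (hM : 0 < M) (hN : |N| ≤ M) (hb : |b| ≤ β) :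
    |(q * N + b) / (q * M + β) - N / M| ≤ 2 * (β / (q * M + β)) := by
  have h0 : 0 ≤ β := (abs_nonneg _).trans hb
  have h1 : 0 < q * M + β := by positivity
  have h2 : (q * N + b) / (q * M + β) - N / M = (b - β * (N / M)) / (q * M + β) := by
    field_simp
    ring
  have h3 : |N / M| ≤ 1 := by rwa [abs_div, abs_of_pos hM, div_le_one hM]
  rw [h2, abs_div, abs_of_pos h1, ← mul_div_assoc 2]
  refine div_le_div_of_nonneg_right ((abs_sub _ _).trans ?_) h1.le
  rw [abs_mul, abs_of_nonneg h0]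
  nlinarith

lemma prob_cond (hq : 0 < μ.real A) [IsFiniteMeasure μ] : IsProbabilityMeasure (μ[|A]) :=
  cond_isProbabilityMeasure fun h => by simp [Measure.real, h] at hq

lemma half_le [IsProbabilityMeasure μ] (hA : MeasurableSet A) {p : ℝ} (hp : μ.real Aᶜ ≤ p)
    (hp' : p ≤ 1 / 2) : 1 / 2 ≤ μ.real A := by
  have := probReal_add_probReal_compl (μ := μ) hA
  linarith

/-- one step -/
theorem step [IsProbabilityMeasure μ] (hK : 0 < K) (hA : MeasurableSet A) {p : ℝ}
    (hp : μ.real Aᶜ ≤ p) (hp' : p ≤ 1 / 2) (hg : B1 g) :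
    ∫ x, |Tk K μ g x - Tk K (μ[|A]) g x| ∂μ[|A] ≤ 4 * p := by
  have h2 := half_le hA hp hp'
  have hq : 0 < μ.real A := by linarith
  have := prob_cond hq
  have a : Bm (Aᶜ.indicator fun _ : ι → ℝ => (1 : ℝ)) := (Bm.const 1).indicator hA.compl
  have b := bm_pm' (μ := μ) hK a
  have e : ∀ x, |Tk K μ g x - Tk K (μ[|A]) g x| ≤ 2 * Tk K μ (Aᶜ.indicator fun _ => 1) x := by
    intro x
    refine (abs_Ay_sub_le (bm_pm' hK hg.bm) (bm_pm' hK hg.bm) (b.const_mul 2)
      (fun y => ?_) x).trans_eq (integral_const_mul _ _)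
    rw [pm_eq, pm_eq, pm_eq, Mf_eq K μ, Un_split hK hA hq hg.bm, Un_split hK hA hq (Bm.const 1),
      ← Mf_eq]
    refine alg hq (Mf_pos' hK y) ?_ (abs_Un_le' hK a (fun x => ?_) y)
    · rw [Mf_eq]
      exact abs_Un_le' hK (Bm.const 1) hg.2 y
    · by_cases hx : x ∈ Aᶜ <;> simp [hx, hg.2 x]
  have c := (bm_Tk' (μ := μ) hK a).const_mul 2
  refine (integral_mono_of_nonneg (.of_forall fun x => abs_nonneg _) (bm_int c)
    (.of_forall e)).trans ?_
  have h3 := setIntegral_le_integral (s := A) (bm_int (μ := μ) c)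
    (.of_forall fun x => (abs_nonneg _).trans (e x))
  rw [integral_const_mul, integral_const_mul, stat hK a, integral_indicator hA.compl] at h3
  simp only [integral_const, MeasurableSet.univ, measureReal_restrict_apply, Set.univ_inter,
    smul_eq_mul, mul_one] at h3
  rw [integral_cond, integral_const_mul, inv_mul_le_iff₀ hq]
  have h4 : 0 ≤ p := measureReal_nonneg.trans hp
  nlinarith

theorem steps [IsProbabilityMeasure μ] (hK : 0 < K) (hA : MeasurableSet A) {p : ℝ}
    (hp : μ.real Aᶜ ≤ p) (hp' : p ≤ 1 / 2) (hf : B1 f) (j : ℕ) :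
    ∫ x, |(Tk K μ)^[j] f x - (Tk K (μ[|A]))^[j] f x| ∂μ[|A] ≤ 4 * p * j := by
  have h2 := half_le hA hp hp'
  have := prob_cond (μ := μ) (A := A) (by linarith)
  induction j with
  | zero => simp
  | succ j ih =>
    have a := b1_iter (μ := μ) hK hf j
    have b := b1_iter (μ := μ[|A]) hK hf j
    have i1 := bm_int (μ := μ[|A]) (bm_abs ((bm_Tk' (μ := μ) hK a.bm).sub
      (bm_Tk' (μ := μ[|A]) hK a.bm)))
    have i2 := bm_int (μ := μ[|A]) (bm_abs ((bm_Tk' (μ := μ[|A]) hK a.bm).sub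
      (bm_Tk' (μ := μ[|A]) hK b.bm)))
    simp only [Function.iterate_succ_apply']
    refine (integral_mono_of_nonneg (.of_forall fun x => abs_nonneg _) (i1.add i2)
      (.of_forall fun x => abs_sub_le _ _ _)).trans ?_
    have h3 := step hK hA hp hp' a
    have h4 := contr (μ := μ[|A]) hK a.bm b.bm
    simp only [Pi.add_apply]
    rw [integral_add i1 i2]
    push_cast
    linarith

omit [DecidableEq ι] in
/-- Poisson mixtures -/
theorem poi_le {ν : Measure (ι → ℝ)} [IsFiniteMeasure ν] {c : ℝ} (hc : 0 ≤ c)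
    {u v : ℕ → (ι → ℝ) → ℝ} (hu : ∀ j, B1 (u j)) (hv : ∀ j, B1 (v j)) {a : ℕ → ℝ} {s : ℝ}
    (ha : ∀ j, ∫ x, |u j x - v j x| ∂ν ≤ a j) (hs : HasSum (fun j => Chain22.poi c j * a j) s) :
    ∫ x, |∑' j, Chain22.poi c j * u j x - ∑' j, Chain22.poi c j * v j x| ∂ν ≤ s := by
  have p0 := Chain22.poi_nonneg hc
  have sm : ∀ {w : ℕ → ℝ} {C : ℝ}, (∀ j, |w j| ≤ C) → Summable fun j => Chain22.poi c j * w j :=
    fun {w C} hw => ((Chain22.hasSum_poi c).summable.mul_right C).of_norm_bounded fun j => by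
      rw [Real.norm_eq_abs, abs_mul, abs_of_nonneg (p0 j)]
      exact mul_le_mul_of_nonneg_left (hw j) (p0 j)
  have d2 : ∀ j x, |(|u j x - v j x|)| ≤ 2 := fun j x => by
    rw [abs_abs]
    linarith [abs_sub (u j x) (v j x), (hu j).2 x, (hv j).2 x]
  have ms : ∀ j, Measurable fun x => Chain22.poi c j * |u j x - v j x| :=
    fun j => ((hu j).1.sub (hv j).1).abs.const_mul _
  have bd : ∀ j x, ‖Chain22.poi c j * |u j x - v j x|‖ ≤ Chain22.poi c j * 2 := fun j x => by
    rw [Real.norm_eq_abs, abs_mul, abs_of_nonneg (p0 j)]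
    exact mul_le_mul_of_nonneg_left (d2 j x) (p0 j)
  have s2 := (Chain22.hasSum_poi c).mul_right 2
  have h1 := hasSum_integral_of_dominated_convergence (μ := ν) (fun j _ => Chain22.poi c j * 2)
    (fun j => (ms j).aestronglyMeasurable) (fun j => .of_forall (bd j))
    (.of_forall fun _ => s2.summable) (integrable_const _)
    (.of_forall fun x => (sm fun j => d2 j x).hasSum)
  have h2 : Integrable (fun x => ∑' j, Chain22.poi c j * |u j x - v j x|) ν :=
    Integrable.of_bound (aestronglyMeasurable_of_tendsto_ae atTop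
      (fun n => (Finset.measurable_sum (range n) fun j _ => ms j).aestronglyMeasurable)
      (.of_forall fun x => (sm fun j => d2 j x).hasSum.tendsto_sum_nat)) (1 * 2)
      (.of_forall fun x => tsum_of_norm_bounded s2 fun j => bd j x)
  refine (integral_mono_of_nonneg (.of_forall fun x => abs_nonneg _) h2
    (.of_forall fun x => ?_)).trans (hasSum_le (fun j => ?_) h1 hs)
  · simp only
    rw [← (sm fun j => (hu j).2 x).tsum_sub (sm fun j => (hv j).2 x)]
    refine tsum_of_norm_bounded (f := fun j => Chain22.poi c j * u j x - Chain22.poi c j * v j x)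
      (sm fun j => d2 j x).hasSum fun j => ?_
    rw [← mul_sub, Real.norm_eq_abs, abs_mul, abs_of_nonneg (p0 j)]
  · rw [integral_const_mul]
    exact mul_le_mul_of_nonneg_left (ha j) (p0 j)

end Tv37

open Tv37 in
/-- **leaf TV** -/
theorem tvStmt : TvStmt := by
  intro ι _ μ A p K c hμ hA hp hp' hK hc f hf
  classical
  have h2 := half_le hA hp hp'
  have := prob_cond (μ := μ) (A := A) (by linarith)
  have h4 : 0 ≤ p := measureReal_nonneg.trans hp
  have hs : HasSum (fun j : ℕ => Chain22.poi c j * (4 * p * j)) (4 * p * c) := by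
    simpa only [mul_left_comm (4 * p)] using (Chain22.hasSum_poi_id c).mul_left (4 * p)
  refine (poi_le hc (b1_iter hK hf) (b1_iter hK hf) (steps hK hA hp hp' hf) hs).trans ?_
  nlinarith [mul_nonneg hc h4]

end Crest.Agent.T157.Cq
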