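import Crest.Agent.T157.CqDef_72
import Crest.Agent.T157.UnE_81
import Crest.Agent.T157.StAll_87

/-!
# Row 157, part C: universality of the scalars, A (helper75)

Bounded functionals which are holomorphic in each coupling on a disc whose radius may depend on
the sample (`AnR`), and the class `Cl` of static observables; every admissible `SE.ev` is in `Cl`.
-/

set_option autoImplicit false
set_option linter.unusedSectionVars false

noncomputable section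

namespace Crest.Agent.T157.Cq.Ut75

open MeasureTheory Metric Finset Matrix Filter Topology
open Crest.ProbabilityR.SpinGlassDynamics Crest.Agent.T157.E Crest.Agent.T157.SL
open Crest.Agent.T157.Un Crest.Agent.T157.St
open Crest.Agent.T157.Soft (N23)
open Crest.Agent.T157.Chain22 (poi)

/-- holomorphic extension with a bound and an oscillation bound -/
def Lo (r : ℝ) (q : ℝ → ℝ) (B K : ℝ) : Prop :=
  ∃ F, Ex r q F ∧ ∀ z ∈ ball (0 : ℂ) r, ‖F z‖ ≤ B ∧ ‖F z - F 0‖ ≤ K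

namespace Lo
variable {r r' B B' K K' : ℝ} {q q' : ℝ → ℝ}

lemma mono (h : Lo r q B K) (hr : r' ≤ r) (hB : B ≤ B') (hK : K ≤ K') : Lo r' q B' K' := by
  obtain ⟨F, h1, h2⟩ := h
  exact ⟨F, h1.mono hr, fun z hz => ⟨(h2 z (ball_subset_ball hr hz)).1.trans hB,
    (h2 z (ball_subset_ball hr hz)).2.trans hK⟩⟩

lemma const (r a : ℝ) : Lo r (fun _ => a) |a| 0 := ⟨_, Ex.const r a, fun _ _ => by simp⟩

lemma add (h : Lo r q B K) (h' : Lo r q' B' K') : Lo r (fun t => q t + q' t) (B + B') (K + K') := by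
  obtain ⟨F, h1, h2⟩ := h
  obtain ⟨F', h1', h2'⟩ := h'
  refine ⟨_, h1.add h1', fun z hz =>
    ⟨(norm_add_le _ _).trans (add_le_add (h2 z hz).1 (h2' z hz).1), ?_⟩⟩
  rw [add_sub_add_comm]
  exact (norm_add_le _ _).trans (add_le_add (h2 z hz).2 (h2' z hz).2)

lemma mul (h : Lo r q B K) (h' : Lo r q' B' K') :
    Lo r (fun t => q t * q' t) (B * B') (K * B' + B * K') := by
  obtain ⟨F, h1, h2⟩ := h
  obtain ⟨F', h1', h2'⟩ := h'
  refine ⟨_, h1.mul h1', fun z hz => ?_⟩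
  have z0 : (0 : ℂ) ∈ ball (0 : ℂ) r := mem_ball_self (pos_of_mem_ball hz)
  have p := (norm_nonneg _).trans (h2 z hz).1
  refine ⟨by rw [norm_mul]; exact mul_le_mul (h2 z hz).1 (h2' z hz).1 (norm_nonneg _) p, ?_⟩
  rw [show F z * F' z - F 0 * F' 0 = (F z - F 0) * F' z + F 0 * (F' z - F' 0) by ring]
  refine (norm_add_le _ _).trans ?_
  rw [norm_mul, norm_mul]
  exact add_le_add (mul_le_mul (h2 z hz).2 (h2' z hz).1 (norm_nonneg _)
    ((norm_nonneg _).trans (h2 z hz).2)) (mul_le_mul (h2 0 z0).1 (h2' z hz).2 (norm_nonneg _) p)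

/-- averaging with a holomorphic kernel -/
lemma ker {Ω : Type*} [Fintype Ω] [Nonempty Ω] {p : ℝ → Ω → ℝ} {p0 : Ω → ℝ} {k : ℂ → Ω → ℂ}
    {q : Ω → ℝ → ℝ} {K : Ω → ℝ} {c : ℝ} (h0 : ∀ a, 0 ≤ p0 a) (h1 : ∑ a, p0 a = 1)
    (hk : ∀ a, Ex r (fun t => p t a) fun z => k z a)
    (hn : ∀ z ∈ ball (0 : ℂ) r, ∀ a, ‖k z a‖ ≤ 3 * p0 a)
    (hc : ∀ z ∈ ball (0 : ℂ) r, ‖∑ a, k z a * q a 0 - ∑ a, k 0 a * q a 0‖ ^ 2 ≤ c)
    (h : ∀ a, Lo r (q a) B (K a)) :
    Lo r (fun t => ∑ a, p t a * q a t) (3 * B) √(18 * ∑ a, p0 a * K a ^ 2 + 2 * c) := by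
  choose F hF hb using h
  refine ⟨_, Ex.sum _ fun a _ => (hk a).mul (hF a), fun z hz => ⟨?_, ?_⟩⟩
  · refine (norm_sum_le _ _).trans ?_
    calc _ ≤ ∑ a, 3 * p0 a * B := sum_le_sum fun a _ => by
          rw [norm_mul]
          exact mul_le_mul (hn z hz a) (hb a z hz).1 (norm_nonneg _) (by have := h0 a; positivity)
      _ = _ := by rw [← sum_mul, ← mul_sum, h1, mul_one]
  · refine Real.le_sqrt_of_sq_le ?_
    have hr := pos_of_mem_ball hz
    have e : ∑ a, k z a * F a z - ∑ a, k 0 a * F a 0 =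
        ∑ a, k z a * (F a z - F a 0) + (∑ a, k z a * q a 0 - ∑ a, k 0 a * q a 0) := by
      simp only [(hF _).zero hr, mul_sub, sum_sub_distrib]; ring
    have a1 := norm_sum_sq_le h0 h1 (hn z hz) fun a => F a z - F a 0
    have a2 : ∑ a, p0 a * ‖F a z - F a 0‖ ^ 2 ≤ ∑ a, p0 a * K a ^ 2 := sum_le_sum fun a _ =>
      mul_le_mul_of_nonneg_left (pow_le_pow_left₀ (norm_nonneg _) (hb a z hz).2 2) (h0 a)
    have a3 := hc z hz
    rw [e]
    set A := ∑ a, k z a * (F a z - F a 0)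
    set C := ∑ a, k z a * q a 0 - ∑ a, k 0 a * q a 0
    have a4 := pow_le_pow_left₀ (norm_nonneg _) (norm_add_le A C) 2
    nlinarith [sq_nonneg (‖A‖ - ‖C‖)]

/-- convex series -/
lemma tsum {p : ℕ → ℝ} {q : ℕ → ℝ → ℝ} {B K : ℕ → ℝ} {b k : ℝ} (h0 : ∀ j, 0 ≤ p j)
    (h1 : HasSum p 1) (hB : HasSum (fun j => p j * B j) b)
    (hK : HasSum (fun j => p j * K j ^ 2) k) (h : ∀ j, Lo r (q j) (B j) (K j)) :
    Lo r (fun t => ∑' j, p j * q j t) b √k := by
  choose F hF hb using h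
  have nb : ∀ j, ∀ z ∈ ball (0 : ℂ) r, ‖(p j : ℂ) * F j z‖ ≤ p j * B j := fun j z hz => by
    rw [norm_mul, Complex.norm_real, Real.norm_of_nonneg (h0 j)]
    exact mul_le_mul_of_nonneg_left (hb j z hz).1 (h0 j)
  have sm : ∀ z ∈ ball (0 : ℂ) r, Summable fun j => (p j : ℂ) * F j z := fun z hz =>
    .of_norm_bounded hB.summable fun j => nb j z hz
  refine ⟨fun z => ∑' j, (p j : ℂ) * F j z, ⟨Complex.differentiableOn_tsum_of_summable_norm
    hB.summable (fun j => (hF j).diff.const_mul _) isOpen_ball nb, fun t ht => ?_⟩,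
    fun z hz => ⟨tsum_of_norm_bounded hB fun j => nb j z hz, ?_⟩⟩
  · simp only [(hF _).eq t ht, Complex.ofReal_tsum, Complex.ofReal_mul]
  · have z0 : (0 : ℂ) ∈ ball (0 : ℂ) r := mem_ball_self (pos_of_mem_ball hz)
    have s1 : Summable fun j => p j * ‖F j z - F j 0‖ :=
      .of_nonneg_of_le (fun j => mul_nonneg (h0 j) (norm_nonneg _)) (fun j => by
        have := norm_sub_le (F j z) (F j 0)
        nlinarith [(hb j z hz).1, (hb j 0 z0).1, h0 j]) (hB.summable.mul_left 2)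
    beta_reduce
    rw [← (sm z hz).tsum_sub (sm 0 z0)]
    refine (tsum_of_norm_bounded s1.hasSum fun j => ?_).trans (Real.le_sqrt_of_sq_le ?_)
    · rw [← mul_sub, norm_mul, Complex.norm_real, Real.norm_of_nonneg (h0 j)]
    set m := ∑' j, p j * ‖F j z - F j 0‖
    have := hasSum_le (fun j => ?_) ((s1.hasSum.mul_left (2 * m)).sub (h1.mul_left (m ^ 2))) hK
    · linarith
    have a := pow_le_pow_left₀ (norm_nonneg _) (hb j z hz).2 2
    nlinarith [mul_nonneg (h0 j) (sq_nonneg (‖F j z - F j 0‖ - m)),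
      mul_le_mul_of_nonneg_left a (h0 j)]

end Lo

section fixed
variable {ι : Type*} [Fintype ι] [DecidableEq ι]

/-- bounded, holomorphic in each entry on a disc of variable radius, small mean oscillation -/
def AnR (ρ : (ι → ℝ) → ι → ℝ) (s : ℝ) (Q : (ι → ℝ) → ℝ) (B : ℝ) (G : (ι → ℝ) → ℝ) : Prop :=
  ∀ g, |Q g| ≤ B ∧ ∃ K : ι → ℝ, ∑ e, K e ^ 2 ≤ s ^ 4 * G g ∧
    ∀ e, Lo (ρ g e) (fun t => Q (sh s g e t)) B (K e)

variable {ρ ρ' : (ι → ℝ) → ι → ℝ} {s B B' : ℝ} {Q Q' G G' : (ι → ℝ) → ℝ}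

lemma anR_iff {r : ℝ} : AnR (fun _ _ => r) s Q B G ↔ AnS r s Q (fun _ => B) G := Iff.rfl

namespace AnR

lemma bnn (h : AnR ρ s Q B G) : 0 ≤ B := (abs_nonneg _).trans (h 0).1

lemma gnn (h : AnR ρ s Q B G) (hs : 0 < s) (g : ι → ℝ) : 0 ≤ G g := by
  obtain ⟨-, K, hK, -⟩ := h g
  exact nonneg_of_mul_nonneg_right ((by positivity : 0 ≤ ∑ e, K e ^ 2).trans hK) (by positivity)

lemma mono (h : AnR ρ s Q B G) (hρ : ∀ g e, ρ' g e ≤ ρ g e) (hB : B ≤ B') (hG : ∀ g, G g ≤ G' g) :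
    AnR ρ' s Q B' G' := fun g => by
  obtain ⟨h0, K, hK, hF⟩ := h g
  exact ⟨h0.trans hB, K, hK.trans (by gcongr; exact hG g),
    fun e => (hF e).mono (hρ g e) hB le_rfl⟩

lemma const (ρ : (ι → ℝ) → ι → ℝ) (s a : ℝ) : AnR ρ s (fun _ => a) |a| fun _ => 0 := fun _ =>
  ⟨le_rfl, 0, by simp, fun _ => Lo.const _ a⟩

lemma add (h : AnR ρ s Q B G) (h' : AnR ρ s Q' B' G') :
    AnR ρ s (fun g => Q g + Q' g) (B + B') fun g => 2 * G g + 2 * G' g := fun g => by
  obtain ⟨h0, K, hK, hF⟩ := h g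
  obtain ⟨h0', K', hK', hF'⟩ := h' g
  refine ⟨(abs_add_le _ _).trans (add_le_add h0 h0'), fun e => K e + K' e, ?_,
    fun e => (hF e).add (hF' e)⟩
  calc _ ≤ ∑ e, (2 * K e ^ 2 + 2 * K' e ^ 2) :=
        sum_le_sum fun e _ => by nlinarith [sq_nonneg (K e - K' e)]
    _ ≤ _ := by rw [sum_add_distrib, ← mul_sum, ← mul_sum]; linarith

lemma mul (h : AnR ρ s Q B G) (h' : AnR ρ s Q' B' G') :
    AnR ρ s (fun g => Q g * Q' g) (B * B') fun g => 2 * B' ^ 2 * G g + 2 * B ^ 2 * G' g := fun g => by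
  obtain ⟨h0, K, hK, hF⟩ := h g
  obtain ⟨h0', K', hK', hF'⟩ := h' g
  refine ⟨by rw [abs_mul]; exact mul_le_mul h0 h0' (abs_nonneg _) h.bnn,
    fun e => K e * B' + B * K' e, ?_, fun e => (hF e).mul (hF' e)⟩
  calc _ ≤ ∑ e, (2 * B' ^ 2 * K e ^ 2 + 2 * B ^ 2 * K' e ^ 2) :=
        sum_le_sum fun e _ => by nlinarith [sq_nonneg (K e * B' - B * K' e)]
    _ ≤ 2 * B' ^ 2 * (s ^ 4 * G g) + 2 * B ^ 2 * (s ^ 4 * G' g) := by
        rw [sum_add_distrib, ← mul_sum, ← mul_sum]; gcongr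
    _ = _ := by ring

lemma tsum {p : ℕ → ℝ} {Q G : ℕ → (ι → ℝ) → ℝ} {B : ℕ → ℝ} {b : ℝ} (h0 : ∀ j, 0 ≤ p j)
    (h1 : HasSum p 1) (hB : HasSum (fun j => p j * B j) b)
    (hG : ∀ g, HasSum (fun j => p j * G j g) (G' g)) (h : ∀ j, AnR ρ s (Q j) (B j) (G j)) :
    AnR ρ s (fun g => ∑' j, p j * Q j g) b G' := fun g => by
  choose a0 K hK hF using fun j => h j g
  have sK : ∀ e, Summable fun j => p j * K j e ^ 2 := fun e =>
    .of_nonneg_of_le (fun j => mul_nonneg (h0 j) (sq_nonneg _)) (fun j => by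
      have := (single_le_sum (f := fun e => K j e ^ 2) (fun _ _ => sq_nonneg _) (mem_univ e)).trans
        (hK j)
      nlinarith [mul_le_mul_of_nonneg_left this (h0 j)]) ((hG g).summable.mul_left (s ^ 4))
  refine ⟨tsum_of_norm_bounded (f := fun j => p j * Q j g) hB fun j => ?_,
    fun e => √(∑' j, p j * K j e ^ 2), ?_, fun e => Lo.tsum h0 h1 hB (sK e).hasSum fun j => hF j e⟩
  · rw [norm_mul, Real.norm_of_nonneg (h0 j)]
    exact mul_le_mul_of_nonneg_left (a0 j) (h0 j)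
  · have e1 : ∀ e, √(∑' j, p j * K j e ^ 2) ^ 2 = ∑' j, p j * K j e ^ 2 := fun e =>
      Real.sq_sqrt (tsum_nonneg fun j => mul_nonneg (h0 j) (sq_nonneg _))
    simp only [e1]
    refine hasSum_le (fun j => ?_) (hasSum_sum fun e (_ : e ∈ univ) => (sK e).hasSum)
      ((hG g).mul_left (s ^ 4))
    rw [← mul_sum]
    nlinarith [mul_le_mul_of_nonneg_left (hK j) (h0 j)]

end AnR

end fixed

variable {n : ℕ} {ρ : (Pair n → ℝ) → Pair n → ℝ} {B : ℝ}

lemma abs_ker_le {Ω : Type*} [Fintype Ω] {p f : Ω → ℝ} (h0 : ∀ a, 0 ≤ p a) (h1 : ∑ a, p a = 1)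
    (hf : ∀ a, |f a| ≤ B) : |∑ a, p a * f a| ≤ B := (⟨h0, h1⟩ : Chain22.IsP p).abs_mean_le hf

lemma sum_ker_le {ι Ω : Type*} [Fintype ι] [Fintype Ω] {p G : Ω → ℝ} {K : Ω → ι → ℝ} {c : ι → ℝ}
    {S D : ℝ} (h0 : ∀ a, 0 ≤ p a) (hc0 : ∀ e, 0 ≤ c e) (hK : ∀ a, ∑ e, K a e ^ 2 ≤ S * G a)
    (hc : ∑ e, c e ≤ S * D) :
    ∑ e, √(18 * ∑ a, p a * K a e ^ 2 + 2 * c e) ^ 2 ≤ S * (18 * ∑ a, p a * G a + 2 * D) := by
  have e1 : ∀ e, √(18 * ∑ a, p a * K a e ^ 2 + 2 * c e) ^ 2 =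
      18 * ∑ a, p a * K a e ^ 2 + 2 * c e := fun e => Real.sq_sqrt (by
    have := hc0 e
    have := sum_nonneg fun a (_ : a ∈ univ) => mul_nonneg (h0 a) (sq_nonneg (K a e))
    positivity)
  have a1 : ∑ e, ∑ a, p a * K a e ^ 2 ≤ S * ∑ a, p a * G a := by
    rw [sum_comm, mul_sum]
    refine sum_le_sum fun a _ => ?_
    rw [← mul_sum]
    nlinarith [mul_le_mul_of_nonneg_left (hK a) (h0 a)]
  simp only [e1, sum_add_distrib, ← mul_sum]
  nlinarith

lemma abs_unit_le {u : Cube n → ℝ} (hu : ∀ a, |u a| ≤ B) (x y : Cube n) :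
    |∑ _i : Unit, u x * u y| ≤ B ^ 2 := by
  rw [univ_unique, sum_singleton, abs_mul, sq]
  exact mul_le_mul (hu x) (hu y) (abs_nonneg _) ((abs_nonneg _).trans (hu x))

/-- Gibbs means -/
lemma AnR.mean (hn : 0 < n) (hρ : ∀ g e, ρ g e ≤ 1 / 4) {F G : Cube n → (Pair n → ℝ) → ℝ}
    (h : ∀ a, AnR ρ √(n : ℝ) (F a) B (G a)) :
    AnR ρ √(n : ℝ) (fun g => mean (gw n g) fun a => F a g) (3 * B) fun g =>
      18 * mean (gw n g) (fun a => G a g) +
        2 * ((2 * B ^ 4 + 2 * m2 (gw n g) fun x y => Rh n x y ^ 4) * (N23 n)⁻¹) := fun g => by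
  choose a0 K hK hF using fun a => h a g
  have hB := (h fun _ => true).bnn
  refine ⟨(abs_ker_le (prob_nn (gw_pos g)) (sum_prob (gw_pos g)) a0).trans (by linarith),
    fun e => √(18 * ∑ a, prob (gw n g) a * K a e ^ 2 +
      2 * tl (gw n g) (chi e) (fun a => F a g) ^ 2),
    sum_ker_le (prob_nn (gw_pos g)) (fun _ => sq_nonneg _) hK ?_, fun e => ?_⟩
  · have a1 := sum_tl_le (ι := Unit) (gw_pos g) (fun _ a => F a g) (abs_unit_le a0)
      (pow_pos (Soft.N23_pos hn) 2)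
    simp only [lam_eq hn, m2_const_mul, m2_add, m2_const (gw_pos g), univ_unique,
      sum_singleton] at a1
    rw [mul_comm _ (N23 n)⁻¹, ← mul_assoc, ← N_sq hn]
    linarith
  · have := Lo.ker (p := fun t => prob (rw (gw n g) (chi e) t))
      (k := fun z => pc (Un.cw (gw n g) (chi e) z)) (prob_nn (gw_pos g)) (sum_prob (gw_pos g))
      (fun a => (ex_pc (gw_pos g) (sgn_chi e) a).mono (hρ g e))
      (fun z hz => norm_pc (gw_pos g) (sgn_chi e) (ball_subset_ball (hρ g e) hz))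
      (c := tl (gw n g) (chi e) (fun a => F a g) ^ 2) (fun z hz => ?_) fun a => hF a e
    · simpa only [E.mean, gw, gibbs_sh hn] using this
    refine pow_le_pow_left₀ (norm_nonneg _) (le_of_eq_of_le ?_ (tilt_le (gw_pos g) (sgn_chi e)
      (ball_subset_ball (hρ g e) hz) fun a => F a g)) 2
    simp [pc_zero, E.mean, sh_zero]

/-- one step of the static chain -/
lemma AnR.step (hn : 0 < n) (hρ : ∀ g e, ρ g e ≤ 1 / 4) (K : ℝ) (x : Cube n)
    {F G : Cube n → (Pair n → ℝ) → ℝ} (h : ∀ a, AnR ρ √(n : ℝ) (F a) B (G a)) :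
    AnR ρ √(n : ℝ) (fun g => ∑ a, k0 (hat n) K (gw n g) x a * F a g) (3 * B) fun g =>
      18 * ∑ a, k0 (hat n) K (gw n g) x a * G a g + 2 * ((2 * B ^ 4 +
        2 * E2 (hat n) K (gw n g) (fun y y' => Rh n y y' ^ 4) x) * (N23 n)⁻¹) := fun g => by
  choose a0 L hL hF using fun a => h a g
  have hB := (h fun _ => true).bnn
  refine ⟨(abs_ker_le (k0_nn (gw_pos g) x) (k0_row (gw_pos g) x) a0).trans (by linarith),
    fun e => √(18 * ∑ a, k0 (hat n) K (gw n g) x a * L a e ^ 2 +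
      2 * cv (hat n) K (gw n g) (chi e) (fun (_ : Unit) a => F a g) x),
    sum_ker_le (k0_nn (gw_pos g) x) (fun _ => sum_nonneg fun _ _ =>
      integral_nonneg fun _ => sq_nonneg _) hL ?_, fun e => ?_⟩
  · have a1 := sum_cv_le' (φ := hat n) (s := K) hn (gw_pos g) (fun (_ : Unit) a => F a g)
      (abs_unit_le a0) x
    have a2 : E2 (hat n) K (gw n g) (fun _ _ => (B ^ 2) ^ 2) x = B ^ 4 := by
      simp only [E2, fun ζ => m2_const (po_pos (φ := hat n) (s := K) (gw_pos g) x ζ)]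
      simp; ring
    rw [a2] at a1
    rwa [mul_comm _ (N23 n)⁻¹, ← mul_assoc, ← N_sq hn]
  · have := Lo.ker (p := fun t => k0 (hat n) K (rw (gw n g) (chi e) t) x)
      (k := fun z => kc (hat n) K (gw n g) (chi e) z x) (k0_nn (gw_pos g) x) (k0_row (gw_pos g) x)
      (fun a => (ex_kc (gw_pos g) (sgn_chi e) x a).mono (hρ g e))
      (fun z hz => norm_kc (gw_pos g) (sgn_chi e) (ball_subset_ball (hρ g e) hz) x)
      (c := cv (hat n) K (gw n g) (chi e) (fun (_ : Unit) a => F a g) x) (fun z hz => ?_)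
      fun a => hF a e
    · simpa only [gw, gibbs_sh hn] using this
    simpa only [sh_zero, univ_unique, sum_singleton] using kc_tilt (φ := hat n) (s := K) (gw_pos g)
      (sgn_chi e) (ball_subset_ball (hρ g e) hz) x fun (_ : Unit) a => F a g

/-! ### static observables at a fixed size -/

lemma Tk_hat {K : ℝ} (hK : 0 ≤ K) (g : Pair n → ℝ) (f : (Fin n → ℝ) → ℝ) (x : Cube n) :
    Tk K (muG n g) f (hat n x) = ∑ a, k0 (hat n) K (gw n g) x a * f (hat n a) :=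
  Sg.Tk_dm (gw_pos g) hK f x

/-- families of static observables -/
def ClF (n : ℕ) {A : Type} (f : A → (Pair n → ℝ) → (Fin n → ℝ) → ℝ) (B : ℝ)
    (Γ : (Pair n → ℝ) → ℝ) : Prop := ∃ G : (Pair n → ℝ) → Cube n → ℝ, (∀ g x, 0 ≤ G g x) ∧
  (∀ g, mean (gw n g) (G g) ≤ Γ g) ∧
  ∀ a x, AnR (fun _ _ => 1 / 4) √(n : ℝ) (fun g => f a g (hat n x)) B fun g => G g x

/-- the exponential moment of the overlap -/
def XT (θ : ℝ) : Fam := fun n g => m2 (gw n g) fun x y => Real.exp (θ * Rh n x y)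
/-- a majorant of the overlap terms -/
def YT (K : ℝ) : Fam := fun n g => 1 + 40320 * (XT (K + 1) n g + XT (-(K + 1)) n g)

lemma XT_nn (θ : ℝ) (g : Pair n → ℝ) : 0 ≤ XT θ n g :=
  m2_nonneg (gw_pos g) fun _ _ => (Real.exp_pos _).le

lemma YT_nn (K : ℝ) (g : Pair n → ℝ) : 0 ≤ YT K n g := by
  have := XT_nn (K + 1) g
  have := XT_nn (-(K + 1)) g
  unfold YT; positivity

lemma pow8_le {K : ℝ} (hK : 0 ≤ K) (R : ℝ) : (R ^ 4) ^ 2 * Real.exp (K * R) ≤
    40320 * (Real.exp ((K + 1) * R) + Real.exp (-(K + 1) * R)) := by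
  have h1 := Real.pow_div_factorial_le_exp |R| (abs_nonneg R) 8
  rw [div_le_iff₀ (by positivity), ← abs_pow, abs_of_nonneg (by positivity)] at h1
  have h2 : Real.exp (K * R) ≤ Real.exp (K * |R|) := by gcongr; exact le_abs_self R
  have h3 : Real.exp |R| * Real.exp (K * |R|) ≤
      Real.exp ((K + 1) * R) + Real.exp (-(K + 1) * R) := by
    rw [← Real.exp_add]
    rcases abs_cases R with h | h <;> rw [h.1]
    · exact le_add_of_le_of_nonneg (le_of_eq (by ring_nf)) (Real.exp_pos _).le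
    · exact le_add_of_nonneg_of_le (Real.exp_pos _).le (le_of_eq (by ring_nf))
  calc _ ≤ (Real.exp |R| * 40320) * Real.exp (K * |R|) := by
        rw [← pow_mul]; gcongr; exact h1.trans_eq (by norm_num [Nat.factorial])
    _ ≤ _ := by nlinarith

lemma mean_E2_Rh {K : ℝ} (hK : 0 ≤ K) (g : Pair n → ℝ) :
    mean (gw n g) (E2 (hat n) K (gw n g) fun y y' => Rh n y y' ^ 4) ≤ YT K n g := by
  refine (mean_E2_le (gw_pos g) hK _).trans ?_
  simp only [YT, XT, ← m2_add, ← m2_const_mul, St.All.hat_dot_hat]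
  exact add_le_add le_rfl (m2_mono (gw_pos g) fun x y => pow8_le hK _)

lemma m2_Rh_le (g : Pair n → ℝ) : (m2 (gw n g) fun x y => Rh n x y ^ 4) ≤ YT 0 n g := by
  have := m2_mono (gw_pos g) (F := fun x y => Rh n x y ^ 4) (G := fun x y => 1 + 40320 *
    (Real.exp ((0 + 1) * Rh n x y) + Real.exp (-(0 + 1) * Rh n x y))) fun x y => by
    have := pow8_le le_rfl (Rh n x y)
    rw [zero_mul, Real.exp_zero] at this
    nlinarith [sq_nonneg (Rh n x y ^ 4 - 1)]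
  rwa [m2_add, m2_const (gw_pos g), m2_const_mul, m2_add] at this

/-- the error of one step -/
def DT (K B : ℝ) : Fam := fun n g => (4 * B ^ 4 + 4 * YT K n g) * (N23 n)⁻¹

lemma DT_nn (K B : ℝ) (g : Pair n → ℝ) : 0 ≤ DT K B n g := by
  have := YT_nn K g
  have : 0 ≤ N23 n := by positivity
  unfold DT; positivity

namespace ClF
variable {A : Type} {f f' : A → (Pair n → ℝ) → (Fin n → ℝ) → ℝ} {B' : ℝ} {Γ Γ' : (Pair n → ℝ) → ℝ}

lemma nn (h : ClF n f B Γ) (g : Pair n → ℝ) : 0 ≤ Γ g := by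
  obtain ⟨G, h0, h1, -⟩ := h
  exact ((gwt g).mean_nonneg (h0 g)).trans (h1 g)

lemma mono (h : ClF n f B Γ) (hΓ : ∀ g, Γ g ≤ Γ' g) : ClF n f B Γ' := by
  obtain ⟨G, h0, h1, h2⟩ := h
  exact ⟨G, h0, fun g => (h1 g).trans (hΓ g), h2⟩

lemma const (v : A → (Fin n → ℝ) → ℝ) (hv : ∀ a x, |v a x| ≤ B) :
    ClF n (fun a _ => v a) B fun _ => 0 :=
  ⟨0, fun _ _ => le_rfl, fun _ => by simp [E.mean], fun a x =>
    (AnR.const _ _ _).mono (fun _ _ => le_rfl) (hv a _) fun _ => le_rfl⟩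

lemma add (h : ClF n f B Γ) (h' : ClF n f' B' Γ') :
    ClF n (fun a g x => f a g x + f' a g x) (B + B') fun g => 2 * Γ g + 2 * Γ' g := by
  obtain ⟨G, h0, h1, h2⟩ := h
  obtain ⟨G', h0', h1', h2'⟩ := h'
  refine ⟨_, fun g x => ?_, fun g => ?_, fun a x => (h2 a x).add (h2' a x)⟩
  · have := h0 g x; have := h0' g x; positivity
  · rw [mean_add, mean_const_mul, mean_const_mul]; linarith [h1 g, h1' g]

lemma mul (h : ClF n f B Γ) (h' : ClF n f' B' Γ') : ClF n (fun a g x => f a g x * f' a g x) (B * B')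
    fun g => 2 * B' ^ 2 * Γ g + 2 * B ^ 2 * Γ' g := by
  obtain ⟨G, h0, h1, h2⟩ := h
  obtain ⟨G', h0', h1', h2'⟩ := h'
  refine ⟨_, fun g x => ?_, fun g => ?_, fun a x => (h2 a x).mul (h2' a x)⟩
  · have := h0 g x; have := h0' g x; positivity
  · rw [mean_add, mean_const_mul, mean_const_mul]
    exact add_le_add (mul_le_mul_of_nonneg_left (h1 g) (by positivity))
      (mul_le_mul_of_nonneg_left (h1' g) (by positivity))

lemma aux (hn : 0 < n) {K : ℝ} (hK : 0 ≤ K) (g : Pair n → ℝ) {u : Cube n → ℝ} {γ : ℝ}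
    (h0 : ∀ x, 0 ≤ u x) (h : mean (gw n g) u ≤ γ) :
    (∀ x, 0 ≤ 18 * u x + 2 * ((2 * B ^ 4 +
        2 * E2 (hat n) K (gw n g) (fun y y' => Rh n y y' ^ 4) x) * (N23 n)⁻¹)) ∧
    mean (gw n g) (fun x => 18 * u x + 2 * ((2 * B ^ 4 +
        2 * E2 (hat n) K (gw n g) (fun y y' => Rh n y y' ^ 4) x) * (N23 n)⁻¹)) ≤
      18 * γ + DT K B n g := by
  have hN := Soft.N23_pos hn
  refine ⟨fun x => ?_, ?_⟩
  · have := h0 x
    have := E2_nonneg (φ := hat n) (s := K) (gw_pos g) (F := fun y y' => Rh n y y' ^ 4)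
      (fun _ _ => by positivity) x
    positivity
  · simp only [mul_comm _ (N23 n)⁻¹, mean_add, mean_const_mul, (gwt g).mean_const, DT]
    have := mul_le_mul_of_nonneg_left (mean_E2_Rh hK g) (inv_pos.2 hN).le
    linarith

lemma T (hn : 0 < n) {K : ℝ} (hK : 0 ≤ K) (h : ClF n f B Γ) :
    ClF n (fun a g => Tk K (muG n g) (f a g)) (3 * B) fun g => 18 * Γ g + DT K B n g := by
  obtain ⟨G, h0, h1, h2⟩ := h
  have key := fun g => aux (B := B) hn hK g (k0_nonneg (φ := hat n) (s := K) (gw_pos g) (h0 g))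
    ((mean_k0 (gw_pos g) hK (G g)).trans_le (h1 g))
  refine ⟨_, fun g => (key g).1, fun g => (key g).2, fun a x => ?_⟩
  simp only [Tk_hat hK]
  exact AnR.step hn (fun _ _ => le_rfl) K x (h2 a)

/-- the two-point step -/
lemma diag (hn : 0 < n) {K : ℝ} (hK : 0 ≤ K) {F : (Fin n → ℝ) → (Pair n → ℝ) → (Fin n → ℝ) → ℝ}
    (h : ClF n F B Γ) : ClF n (fun (_ : A) g x => Tk K (muG n g) (fun a => F a g x) x) (3 * B)
      fun g => 18 * Γ g + DT K B n g := by
  obtain ⟨G, h0, h1, h2⟩ := h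
  have key := fun g => aux (B := B) hn hK g (h0 g) (h1 g)
  refine ⟨_, fun g => (key g).1, fun g => (key g).2, fun a x => ?_⟩
  simpa only [Tk_hat hK, ← sum_mul, k0_row (gw_pos _), one_mul] using
    AnR.step hn (fun _ _ => le_rfl) K x fun b => h2 (hat n b) x

lemma iter (hn : 0 < n) {K : ℝ} (hK : 0 ≤ K) (h : ClF n f B Γ) (j : ℕ) :
    ClF n (fun a g => (Tk K (muG n g))^[j] (f a g)) (3 ^ j * B)
      fun g => 81 ^ j * (Γ g + DT K B n g) := by
  induction j with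
  | zero => simpa using h.mono fun g => le_add_of_nonneg_right (DT_nn K B g)
  | succ j ih =>
    have := (ih.T hn hK).mono (Γ' := fun g => 81 ^ (j + 1) * (Γ g + DT K B n g)) fun g => by
      have a1 : DT K (3 ^ j * B) n g ≤ 81 ^ j * DT K B n g := by
        have := YT_nn K g
        have := Soft.N23_pos hn
        have p : (1 : ℝ) ≤ 81 ^ j := one_le_pow₀ (by norm_num)
        have e : ((3 : ℝ) ^ j * B) ^ 4 = 81 ^ j * B ^ 4 := by
          rw [mul_pow, ← pow_mul, mul_comm j, pow_mul]; norm_num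
        rw [DT, DT, e, ← mul_assoc ((81 : ℝ) ^ j) (_ + _)]
        gcongr
        nlinarith
      have a2 := mul_nonneg (by positivity : (0 : ℝ) ≤ 81 ^ j) (h.nn g)
      have a3 := mul_nonneg (by positivity : (0 : ℝ) ≤ 81 ^ j) (DT_nn K B g)
      rw [pow_succ]; nlinarith
    simpa only [Function.iterate_succ_apply', pow_succ', mul_assoc] using this

lemma Q (hn : 0 < n) {K c : ℝ} (hK : 0 ≤ K) (hc : 0 ≤ c) (h : ClF n f B Γ) :
    ClF n (fun a g => Qs K c (muG n g) (f a g)) (Real.exp (2 * c) * B)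
      fun g => Real.exp (80 * c) * (Γ g + DT K B n g) := by
  choose G h0 h1 h2 using h.iter hn hK
  have p0 := Chain22.poi_nonneg hc
  have s1 : ∀ g, HasSum (fun j => poi c j * (81 ^ j * (Γ g + DT K B n g)))
      (Real.exp (80 * c) * (Γ g + DT K B n g)) := fun g => by
    have := (Chain22.hasSum_poi_pow c 81).mul_right (Γ g + DT K B n g)
    simpa only [mul_assoc, show -(c * (1 - 81)) = 80 * c by ring] using this
  have s2 : ∀ g x, Summable fun j => poi c j * G j g x := fun g x => by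
    have pp := Chain22.prob_pos' (gw_pos g) x
    refine .of_nonneg_of_le (fun j => mul_nonneg (p0 j) (h0 j g x)) (fun j => ?_)
      ((s1 g).summable.mul_left (prob (gw n g) x)⁻¹)
    have := (single_le_sum (f := fun x => prob (gw n g) x * G j g x)
      (fun y _ => mul_nonneg (prob_nn (gw_pos g) y) (h0 j g y)) (mem_univ x)).trans (h1 j g)
    rw [le_inv_mul_iff₀ pp, mul_left_comm]
    exact mul_le_mul_of_nonneg_left this (p0 j)
  refine ⟨fun g x => ∑' j, poi c j * G j g x,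
    fun g x => tsum_nonneg fun j => mul_nonneg (p0 j) (h0 j g x), fun g => ?_, fun a x =>
    AnR.tsum p0 (Chain22.hasSum_poi c) ?_ (fun g => (s2 g x).hasSum) fun j => h2 j a x⟩
  · refine hasSum_le (fun j => ?_) (hasSum_sum fun x (_ : x ∈ univ) =>
      (s2 g x).hasSum.mul_left (prob (gw n g) x)) (s1 g)
    simp only [mul_left_comm _ (poi c j), ← mul_sum]
    exact mul_le_mul_of_nonneg_left (h1 j g) (p0 j)
  · have := (Chain22.hasSum_poi_pow c 3).mul_right B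
    simpa only [mul_assoc, show -(c * (1 - 3)) = 2 * c by ring] using this

end ClF

/-! ### sequences -/

lemma meas_gw (x : Cube n) : Measurable fun g => gw n g x := by
  unfold gw gibbsWeight; fun_prop

lemma meas_prob (x : Cube n) : Measurable fun g => prob (gw n g) x :=
  (meas_gw x).div (measurable_sum _ fun y _ => meas_gw y)

lemma tt_XT (θ : ℝ) : Tt (XT θ) := by
  refine ⟨⟨fun n => measurable_sum _ fun x _ => measurable_sum _ fun y _ =>
    ((meas_prob x).mul (meas_prob y)).mul_const _, fun _ => XT_nn θ, 1 / 4, 9, by norm_num,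
    by norm_num, (eventually_gt_atTop 0).mono fun n hn => (anS_m2 hn
      (fun _ _ => (Real.exp_pos _).le) fun x y => ?_).pm⟩, St.All.ld2_gauss θ⟩
  rw [Rh, Rh, dotProduct_comm]

lemma tt_YT (K : ℝ) : Tt (YT K) :=
  (Tt.const zero_le_one).add ((Tt.const (by norm_num)).mul ((tt_XT _).add (tt_XT _)))

lemma nl_invN : Nl fun n _ => (N23 n)⁻¹ :=
  .of_tendsto (fun n => by positivity) (tendsto_inv_atTop_zero.comp
    ((tendsto_rpow_atTop (by norm_num)).comp tendsto_natCast_atTop_atTop))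

lemma nl_DT (K B : ℝ) : Nl (DT K B) :=
  ((Tt.const (by positivity)).add ((Tt.const (by norm_num)).mul (tt_YT K))).mul_nl nl_invN

/-- **the class of static observables** -/
def Cl {A : ℕ → Type} (f : ∀ n, A n → (Pair n → ℝ) → (Fin n → ℝ) → ℝ) : Prop :=
  ∃ (B : ℝ) (Γ : Fam), Nl Γ ∧ ∀ᶠ n : ℕ in atTop, ClF n (f n) B (Γ n)

namespace Cl
variable {A : ℕ → Type} {f f' : ∀ n, A n → (Pair n → ℝ) → (Fin n → ℝ) → ℝ}

lemma const (v : ∀ n, A n → (Fin n → ℝ) → ℝ) {B : ℝ} (hv : ∀ n a x, |v n a x| ≤ B) :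
    Cl fun n a _ => v n a := ⟨B, _, .zero, .of_forall fun n => .const _ (hv n)⟩

lemma add (h : Cl f) (h' : Cl f') : Cl fun n a g x => f n a g x + f' n a g x := by
  obtain ⟨B, Γ, h1, h2⟩ := h
  obtain ⟨B', Γ', h1', h2'⟩ := h'
  exact ⟨_, _, (h1.const_mul zero_le_two).add (h1'.const_mul zero_le_two),
    (h2.and h2').mono fun n a => a.1.add a.2⟩

lemma mul (h : Cl f) (h' : Cl f') : Cl fun n a g x => f n a g x * f' n a g x := by
  obtain ⟨B, Γ, h1, h2⟩ := h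
  obtain ⟨B', Γ', h1', h2'⟩ := h'
  exact ⟨_, _, (h1.const_mul (by positivity)).add (h1'.const_mul (by positivity)),
    (h2.and h2').mono fun n a => a.1.mul a.2⟩

lemma T {K : ℝ} (hK : 0 ≤ K) (h : Cl f) : Cl fun n a g => Tk K (muG n g) (f n a g) := by
  obtain ⟨B, Γ, h1, h2⟩ := h
  exact ⟨_, _, (h1.const_mul (by norm_num)).add (nl_DT K B),
    (h2.and (eventually_gt_atTop 0)).mono fun n a => a.1.T a.2 hK⟩

lemma diag {K : ℝ} (hK : 0 ≤ K) {F : ∀ n, (Fin n → ℝ) → (Pair n → ℝ) → (Fin n → ℝ) → ℝ} (h : Cl F) :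
    Cl fun n (_ : A n) g x => Tk K (muG n g) (fun a => F n a g x) x := by
  obtain ⟨B, Γ, h1, h2⟩ := h
  exact ⟨_, _, (h1.const_mul (by norm_num)).add (nl_DT K B),
    (h2.and (eventually_gt_atTop 0)).mono fun n a => a.1.diag a.2 hK⟩

lemma Q {K c : ℝ} (hK : 0 ≤ K) (hc : 0 ≤ c) (h : Cl f) :
    Cl fun n a g => Qs K c (muG n g) (f n a g) := by
  obtain ⟨B, Γ, h1, h2⟩ := h
  exact ⟨_, _, (h1.add (nl_DT K B)).const_mul (Real.exp_pos _).le,
    (h2.and (eventually_gt_atTop 0)).mono fun n a => a.1.Q a.2 hK hc⟩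

lemma psi {L K' K c : ℝ} (hK' : 0 ≤ K') (hK : 0 ≤ K) (hc : 0 ≤ c) :
    Cl fun n (_ : A n) g => psiS (muG n g) L K' K c :=
  diag hK' (((const (fun n (a : Fin n → ℝ) a' => L * Real.sin (a ⬝ᵥ a' / L)) (B := |L|)
    fun _ _ _ => by
      rw [abs_mul]; exact mul_le_of_le_one_right (abs_nonneg _) (Real.abs_sin_le_one _)).T hK').Q
        hK hc)

end Cl

/-- **admissible expressions are in the class** -/
theorem cl_ev {A : ℕ → Type} {v : ∀ n, A n → (Pair n → ℝ) → (Fin n → ℝ) → ℝ} (hv : Cl v) :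
    ∀ e : SE, e.Adm → Cl fun n a g => e.ev (muG n g) (v n a g)
  | .var, _ => hv
  | .psi _ _ _ _, h => Cl.psi h.2.1.le h.2.2.1.le h.2.2.2
  | .const a, _ => Cl.const (fun _ _ _ => a) fun _ _ _ => le_rfl
  | .add e e', h => (cl_ev hv e h.1).add (cl_ev hv e' h.2)
  | .mul e e', h => (cl_ev hv e h.1).mul (cl_ev hv e' h.2)
  | .T _ e, h => (cl_ev hv e h.2).T h.1.le
  | .Q _ _ e, h => (cl_ev hv e h.2.2).Q h.1.le h.2.1

/-- the form used for the coins -/
theorem ev_anS (e : SE) (he : e.Adm) : ∃ (B : ℝ) (Γ : Fam), Nl Γ ∧ ∀ᶠ n : ℕ in atTop,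
    ∃ G : (Pair n → ℝ) → Cube n → ℝ, (∀ g x, 0 ≤ G g x) ∧ (∀ g, mean (gw n g) (G g) ≤ Γ n g) ∧
      ∀ x, AnS (1 / 4) √(n : ℝ) (fun g => e.ev (muG n g) 0 (hat n x)) (fun _ => B)
        fun g => G g x := by
  obtain ⟨B, Γ, h1, h2⟩ := cl_ev (A := fun _ => Unit)
    (Cl.const (fun _ _ => 0) (B := 0) fun _ _ _ => by simp) e he
  exact ⟨B, Γ, h1, h2.mono fun n ⟨G, a, b, c⟩ => ⟨G, a, b, c ()⟩⟩

end Crest.Agent.T157.Cq.Ut75

end
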