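import Crest.Agent.T157.CqUtA_75

/-!
# Row 157, part C: universality of the scalars, B (helper75)

The mark `1 / (1 + x · ((N (2 - W))² + 1)⁻¹ x)` under a complex change of one entry of `W`.
-/

set_option autoImplicit false
set_option linter.unusedSectionVars false

noncomputable section

namespace Crest.Agent.T157.Cq.Ut75

open Metric Finset Matrix
open Crest.Agent.T157.Eig Crest.Agent.T157.Un

/-- the scalar resolvent -/
def rc (N σ x : ℝ) : ℂ := ((N * (2 - x) : ℝ) + σ * Complex.I)⁻¹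
/-- its modulus -/
def hh (N x : ℝ) : ℝ := (√((N * (2 - x)) ^ 2 + 1))⁻¹
/-- its squared modulus -/
def ff (N x : ℝ) : ℝ := ((N * (2 - x)) ^ 2 + 1)⁻¹

lemma hh_nn (N x : ℝ) : 0 ≤ hh N x := by unfold hh; positivity
lemma ff_nn (N x : ℝ) : 0 ≤ ff N x := by unfold ff; positivity
lemma hh_sq (N x : ℝ) : hh N x ^ 2 = ff N x := by
  rw [hh, inv_pow, Real.sq_sqrt (by positivity), ff]

lemma den_ne {σ : ℝ} (hσ : σ ^ 2 = 1) (u : ℝ) : (u : ℂ) + σ * Complex.I ≠ 0 := fun h => by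
  have := congrArg Complex.im h
  simp only [Complex.add_im, Complex.ofReal_im, Complex.mul_im, Complex.ofReal_re, Complex.I_im,
    Complex.I_re, mul_one, mul_zero, add_zero, zero_add, Complex.zero_im] at this
  simp [this] at hσ

lemma norm_rc {σ : ℝ} (hσ : σ ^ 2 = 1) (N x : ℝ) : ‖rc N σ x‖ = hh N x := by
  rw [rc, norm_inv, Complex.norm_add_mul_I, hσ, hh]

lemma rc_mul (N x : ℝ) : rc N 1 x * rc N (-1) x = ff N x := by
  rw [rc, rc, ← mul_inv, ff]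
  push_cast
  congr 1
  linear_combination (-1 : ℂ) * Complex.I_sq

/-- the `2 × 2` system -/
lemma two_le {p q q' u v : ℂ} {m : ℝ} (hp : ‖p‖ ≤ 1 / 8) (hq : ‖q‖ ≤ 1 / 8) (hq' : ‖q'‖ ≤ 1 / 8)
    (hu : ‖u‖ ≤ m) (hv : ‖v‖ ≤ m) :
    (1 - p) ^ 2 - q * q' ≠ 0 ∧ ‖((1 - p) * u + q * v) / ((1 - p) ^ 2 - q * q')‖ ≤ 2 * m := by
  have hm := (norm_nonneg _).trans hu
  have a1 : 7 / 8 ≤ ‖1 - p‖ := by have := norm_sub_norm_le 1 p; rw [norm_one] at this; linarith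
  have a2 : ‖1 - p‖ ≤ 9 / 8 := by have := norm_sub_le 1 p; rw [norm_one] at this; linarith
  have a3 : 3 / 4 ≤ ‖(1 - p) ^ 2 - q * q'‖ := by
    have := norm_sub_norm_le ((1 - p) ^ 2) (q * q')
    rw [norm_pow, norm_mul] at this
    nlinarith [mul_le_mul hq hq' (norm_nonneg _) (by norm_num)]
  refine ⟨norm_pos_iff.1 (by linarith), ?_⟩
  rw [norm_div, div_le_iff₀ (by linarith)]
  have := norm_add_le ((1 - p) * u) (q * v)
  rw [norm_mul, norm_mul] at this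
  nlinarith [mul_le_mul a2 hu (norm_nonneg _) (by norm_num),
    mul_le_mul hq hv (norm_nonneg _) (by norm_num)]

/-- the inverse of `1 + X` under a small relative perturbation -/
lemma inv_le {X δ : ℝ} {Y : ℂ} (hX : 0 ≤ X) (hδ0 : 0 ≤ δ) (hδ : δ ≤ 1 / 4)
    (h : ‖Y - X‖ ≤ 2 * δ * (1 + X)) :
    1 + Y ≠ 0 ∧ ‖1 / (1 + Y)‖ ≤ 2 ∧ ‖1 / (1 + Y) - 1 / (1 + X)‖ ≤ 4 * δ := by
  have a0 : ‖(1 : ℂ) + X‖ = 1 + X := by
    rw [← Complex.ofReal_one, ← Complex.ofReal_add, Complex.norm_real,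
      Real.norm_of_nonneg (by positivity)]
  have a1 : (1 + X) / 2 ≤ ‖1 + Y‖ := by
    have := norm_sub_norm_le ((1 : ℂ) + X) (1 + Y)
    rw [a0, add_sub_add_left_eq_sub, norm_sub_rev] at this
    nlinarith
  have a2 : 0 < ‖1 + Y‖ := lt_of_lt_of_le (by positivity) a1
  have n1 : 1 + Y ≠ 0 := norm_pos_iff.1 a2
  have n0 : (1 : ℂ) + X ≠ 0 := norm_pos_iff.1 (by rw [a0]; positivity)
  refine ⟨n1, ?_, ?_⟩
  · rw [norm_div, norm_one, div_le_iff₀ a2]; linarith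
  · rw [div_sub_div _ _ n1 n0, norm_div, norm_mul, a0, div_le_iff₀ (by positivity),
      show 1 * ((1 : ℂ) + X) - (1 + Y) * 1 = -(Y - X) by ring, norm_neg]
    refine h.trans ?_
    nlinarith [mul_nonneg (mul_nonneg hδ0 (by positivity : 0 ≤ 1 + X))
      (by linarith : 0 ≤ 2 * ‖1 + Y‖ - 1)]

variable {ι : Type*} [Fintype ι] [DecidableEq ι] {W : Matrix ι ι ℝ}

/-- a real vector as a complex one -/
def cv' (u : ι → ℝ) : ι → ℂ := fun i => u i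

lemma cv'_single (i : ι) : cv' (Pi.single i 1) = Pi.single i 1 := by
  funext c; by_cases h : c = i <;> simp [cv', h]

lemma bil_cs (r : ℝ → ℂ) (A : Matrix ι ι ℝ) (p q : ι → ℝ) :
    ‖cv' p ⬝ᵥ fnK r A *ᵥ cv' q‖ ^ 2 ≤
      (p ⬝ᵥ fnK (fun x => ‖r x‖) A *ᵥ p) * (q ⬝ᵥ fnK (fun x => ‖r x‖) A *ᵥ q) := by
  unfold cv'
  rw [quad_fnK, quad_fnK]
  erw [bil_fnK]
  refine (pow_le_pow_left₀ (norm_nonneg _) (norm_sum_le _ _) 2).trans
    (sum_sq_le_sum_mul_sum_of_sq_le_mul _ (fun _ _ => mul_nonneg (norm_nonneg _) (mul_self_nonneg _))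
      (fun _ _ => mul_nonneg (norm_nonneg _) (mul_self_nonneg _)) fun k _ => le_of_eq ?_)
  rw [norm_mul, mul_pow, RCLike.norm_ofReal, sq_abs]; ring

lemma quad_nn {f : ℝ → ℝ} (hf : ∀ x, 0 ≤ f x) (A : Matrix ι ι ℝ) (p : ι → ℝ) :
    0 ≤ p ⬝ᵥ fnK f A *ᵥ p := by
  rw [quad_fnK]; exact sum_nonneg fun _ _ => mul_nonneg (hf _) (mul_self_nonneg _)

lemma quad_mono {f g : ℝ → ℝ} (h : ∀ x, f x ≤ g x) (A : Matrix ι ι ℝ) (p : ι → ℝ) :
    p ⬝ᵥ fnK f A *ᵥ p ≤ p ⬝ᵥ fnK g A *ᵥ p := by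
  rw [quad_fnK, quad_fnK]
  exact sum_le_sum fun _ _ => mul_le_mul_of_nonneg_right (h _) (mul_self_nonneg _)

lemma quad_cs {f : ℝ → ℝ} (hf : ∀ x, 0 ≤ f x) (A : Matrix ι ι ℝ) (p q : ι → ℝ) :
    (p ⬝ᵥ fnK f A *ᵥ q) ^ 2 ≤ (p ⬝ᵥ fnK f A *ᵥ p) * (q ⬝ᵥ fnK f A *ᵥ q) := by
  simp only [quad_fnK]
  exact sum_sq_le_sum_mul_sum_of_sq_le_mul _ (fun _ _ => mul_nonneg (hf _) (mul_self_nonneg _))
    (fun _ _ => mul_nonneg (hf _) (mul_self_nonneg _)) fun k _ => le_of_eq (by ring)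

lemma quad_hh (hW : W.IsHermitian) (N : ℝ) (x : ι → ℝ) :
    (x ⬝ᵥ fnK (hh N) W *ᵥ x) ^ 2 ≤ (x ⬝ᵥ x) * (x ⬝ᵥ fnK (ff N) W *ᵥ x) := by
  rw [quad_fnK, quad_fnK, dot_eq hW x x]
  exact sum_sq_le_sum_mul_sum_of_sq_le_mul _ (fun _ _ => mul_self_nonneg _)
    (fun _ _ => mul_nonneg (ff_nn _ _) (mul_self_nonneg _)) fun k _ =>
      le_of_eq (by rw [← hh_sq]; ring)

lemma quad_single {K : Type*} [CommRing K] (M : Matrix ι ι K) (a b : ι) :
    Pi.single a 1 ⬝ᵥ M *ᵥ Pi.single b 1 = M a b := by simp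

lemma bil_real (f : ℝ → ℝ) (A : Matrix ι ι ℝ) (p q : ι → ℝ) :
    cv' p ⬝ᵥ fnK (fun x => (f x : ℂ)) A *ᵥ cv' q = (p ⬝ᵥ fnK f A *ᵥ q : ℝ) := by
  unfold cv'
  rw [quad_fnK]
  erw [bil_fnK]
  push_cast; rfl

lemma dot_rc (hW : W.IsHermitian) (N : ℝ) (p q : ι → ℂ) :
    (fnK (rc N 1) W *ᵥ p) ⬝ᵥ (fnK (rc N (-1)) W *ᵥ q) =
      p ⬝ᵥ fnK (fun x => (ff N x : ℂ)) W *ᵥ q := by
  have : (fnK (rc N 1) W)ᵀ = fnK (rc N 1) W := by ext a b; exact fnK_symm _ _ _ _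
  rw [← this, mulVec_transpose, ← dotProduct_mulVec, mulVec_mulVec, fnK_mul hW]
  simp only [rc_mul]

/-- solution of the `2 × 2` system -/
def al (R : Matrix ι ι ℂ) (u : ι → ℂ) (i j : ι) (ζ : ℂ) : ℂ :=
  ((1 - ζ * R i j) * u i + ζ * R i i * u j) / ((1 - ζ * R i j) ^ 2 - ζ * R i i * (ζ * R j j))

/-- the symmetric elementary matrix -/
def Eij (i j : ι) : Matrix ι ι ℝ := single i j 1 + single j i 1

lemma Eij_herm (i j : ι) : (Eij i j).IsHermitian := by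
  rw [herm_iff]; simp [Eij, add_comm]

lemma H_eq {A : Matrix ι ι ℝ} (hA : A.IsHermitian) (N σ : ℝ) :
    fnK (fun x => ((N * (2 - x) : ℝ) : ℂ) + σ * Complex.I) A =
      (2 * N + σ * Complex.I : ℂ) • (1 : Matrix ι ι ℂ) - (N : ℂ) • A.map fun x => (x : ℂ) := by
  have := fnK_id (K := ℂ) hA
  erw [← fnK_const hA, ← this, ← fnK_smul, ← fnK_sub]
  congr 1; funext x; push_cast
  change _ = _ - (N : ℂ) * (x : ℂ)
  ring

lemma solve (hW : W.IsHermitian) {σ : ℝ} (hσ : σ ^ 2 = 1) (N t : ℝ) (i j : ι) (x : ι → ℂ)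
    {R : Matrix ι ι ℂ} (hR : R = fnK (rc N σ) W) {ζ : ℂ} (hζ : ζ = t * N)
    (hD : (1 - ζ * R i j) ^ 2 - ζ * R i i * (ζ * R j j) ≠ 0) :
    fnK (rc N σ) (W + t • Eij i j) *ᵥ x = R *ᵥ (x + (ζ * al R (R *ᵥ x) j i ζ) • Pi.single i 1 +
      (ζ * al R (R *ᵥ x) i j ζ) • Pi.single j 1) := by
  have hW' : (W + t • Eij i j).IsHermitian := hW.add (herm_smul (Eij_herm i j) t)
  have inv : ∀ {A : Matrix ι ι ℝ}, A.IsHermitian →
      fnK (rc N σ) A * fnK (fun x => ((N * (2 - x) : ℝ) : ℂ) + σ * Complex.I) A = 1 := fun hA => by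
    rw [fnK_mul hA, ← fnK_one hA]
    exact fnK_congr fun k _ => inv_mul_cancel₀ (den_ne hσ _)
  have sy : R j i = R i j := by rw [hR]; exact fnK_symm _ _ _ _
  have two : ∀ p q q' u v : ℂ, (1 - p) ^ 2 - q * q' ≠ 0 →
      u + q * (((1 - p) * v + q' * u) / ((1 - p) ^ 2 - q' * q)) +
        p * (((1 - p) * u + q * v) / ((1 - p) ^ 2 - q * q')) =
      ((1 - p) * u + q * v) / ((1 - p) ^ 2 - q * q') := fun p q q' u v h => by
    rw [mul_comm q' q]; field_simp; ring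
  set a := R *ᵥ (x + (ζ * al R (R *ᵥ x) j i ζ) • Pi.single i 1 +
      (ζ * al R (R *ᵥ x) i j ζ) • Pi.single j 1) with ha
  have ac : ∀ c, a c = (R *ᵥ x) c + ζ * al R (R *ᵥ x) j i ζ * R c i +
      ζ * al R (R *ᵥ x) i j ζ * R c j := fun c => by
    simp [ha, mulVec_add, mulVec_smul]
  have ai : a i = al R (R *ᵥ x) i j ζ := by
    rw [ac, al, al, sy]; linear_combination two _ _ _ ((R *ᵥ x) i) ((R *ᵥ x) j) hD
  have aj : a j = al R (R *ᵥ x) j i ζ := by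
    rw [ac, al, al, sy]
    linear_combination two _ _ _ ((R *ᵥ x) j) ((R *ᵥ x) i) (by rwa [mul_comm (ζ * R i i)] at hD)
  have e1 : fnK (fun x => ((N * (2 - x) : ℝ) : ℂ) + σ * Complex.I) (W + t • Eij i j) =
      fnK (fun x => ((N * (2 - x) : ℝ) : ℂ) + σ * Complex.I) W -
        ζ • (single i j 1 + single j i 1) := by
    rw [H_eq hW', H_eq hW, hζ]
    ext a b
    simp only [Eij, Matrix.sub_apply, Matrix.smul_apply, map_apply, Matrix.add_apply, smul_eq_mul,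
      single_apply]
    push_cast
    split_ifs <;> simp <;> ring
  have e2 : fnK (fun x => ((N * (2 - x) : ℝ) : ℂ) + σ * Complex.I) (W + t • Eij i j) *ᵥ a = x := by
    rw [e1, sub_mulVec, smul_mulVec, add_mulVec, single_mulVec, single_mulVec, ai, aj, ha,
      mulVec_mulVec, hR, mul_eq_one_comm.1 (inv hW), one_mulVec]
    funext c
    simp only [Pi.sub_apply, Pi.add_apply, Pi.smul_apply, smul_eq_mul, Pi.single_apply,
      Function.update_apply, Pi.zero_apply]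
    split_ifs <;> ring
  rw [← e2, mulVec_mulVec, inv hW', one_mulVec]

/-- the perturbed quadratic form -/
def Xz (F : Matrix ι ι ℝ) (x : ι → ℝ) (i j : ι) (a b a' b' : ℂ) : ℂ :=
  (x ⬝ᵥ F *ᵥ x : ℝ) + (b + b') * ((F *ᵥ x) i : ℝ) + (a + a') * ((F *ᵥ x) j : ℝ) +
    b * b' * F i i + (b * a' + a * b') * F i j + a * a' * F j j

lemma Xz_eq (f : ℝ → ℝ) (x : ι → ℝ) (i j : ι) (a b a' b' : ℂ) :
    (cv' x + b • Pi.single i 1 + a • Pi.single j 1) ⬝ᵥ fnK (fun y => (f y : ℂ)) W *ᵥ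
      (cv' x + b' • Pi.single i 1 + a' • Pi.single j 1) = Xz (fnK f W) x i j a b a' b' := by
  have sy : ∀ c, x ⬝ᵥ fnK f W *ᵥ Pi.single c 1 = (fnK f W *ᵥ x) c := fun c => by
    rw [← single_one_dotProduct c (fnK f W *ᵥ x), quad_fnK, quad_fnK]
    simp only [mul_comm (vec W _ ⬝ᵥ x)]
  simp only [← cv'_single, add_dotProduct, mulVec_add, dotProduct_add, smul_dotProduct, mulVec_smul,
    dotProduct_smul, bil_real, smul_eq_mul, sy, quad_single]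
  simp only [single_one_dotProduct, Xz, fnK_symm f W j i]
  ring

lemma Xz_le {F : Matrix ι ι ℝ} {x : ι → ℝ} {i j : ι} {a b a' b' : ℂ} {μ ψ ξ : ℝ} (ha : ‖a‖ ≤ μ)
    (hb : ‖b‖ ≤ μ) (ha' : ‖a'‖ ≤ μ) (hb' : ‖b'‖ ≤ μ) (h1 : |(F *ᵥ x) i| ≤ ψ * ξ)
    (h2 : |(F *ᵥ x) j| ≤ ψ * ξ) (h3 : |F i i| ≤ ψ ^ 2) (h4 : |F i j| ≤ ψ ^ 2) (h5 : |F j j| ≤ ψ ^ 2) :
    ‖Xz F x i j a b a' b' - (x ⬝ᵥ F *ᵥ x : ℝ)‖ ≤ 2 * (2 * μ * ψ) * ξ + (2 * μ * ψ) ^ 2 := by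
  have hμ := (norm_nonneg _).trans ha
  have k1 : ∀ {u : ℂ} {y A B : ℝ}, ‖u‖ ≤ A → |y| ≤ B → ‖u * y‖ ≤ A * B := fun h h' => by
    rw [norm_mul, Complex.norm_real, Real.norm_eq_abs]
    exact mul_le_mul h h' (abs_nonneg _) ((norm_nonneg _).trans h)
  have k2 : ∀ {u v : ℂ}, ‖u‖ ≤ μ → ‖v‖ ≤ μ → ‖u * v‖ ≤ μ * μ := fun h h' => by
    rw [norm_mul]; exact mul_le_mul h h' (norm_nonneg _) hμ
  rw [Xz, show ∀ X A B C D E : ℂ, X + A + B + C + D + E - X = A + B + C + D + E by intros; ring]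
  refine (norm_add_le_of_le (norm_add_le_of_le (norm_add_le_of_le (norm_add_le_of_le
    (k1 (norm_add_le_of_le hb hb') h1) (k1 (norm_add_le_of_le ha ha') h2)) (k1 (k2 hb hb') h3))
    (k1 (norm_add_le_of_le (k2 hb ha') (k2 ha hb')) h4)) (k1 (k2 ha ha') h5)).trans (le_of_eq ?_)
  ring

lemma Xz_diff {F : Matrix ι ι ℝ} {x : ι → ℝ} {i j : ι} {a b a' b' : ℂ → ℂ} {S : Set ℂ}
    (ha : DifferentiableOn ℂ a S) (hb : DifferentiableOn ℂ b S) (ha' : DifferentiableOn ℂ a' S)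
    (hb' : DifferentiableOn ℂ b' S) :
    DifferentiableOn ℂ (fun z => Xz F x i j (a z) (b z) (a' z) (b' z)) S := by
  unfold Xz; fun_prop

/-- **the mark** -/
theorem lo_mark (hW : W.IsHermitian) {N s Z P δ : ℝ} (hN : 0 < N) (hs : 0 ≤ s) (hZ : 0 < Z)
    (hP : 0 ≤ P) (hδ0 : 0 < δ) (hδ : δ ≤ 1 / 4) (hδ' : s * P ≤ 4 * N * δ ^ 2) (i j : ι) {x : ι → ℝ}
    (hx : x ⬝ᵥ x ≤ s ^ 2) (h1 : ∀ c, c = i ∨ c = j → N * fnK (hh N) W c c ≤ Z)
    (h2 : ∀ c, c = i ∨ c = j → N ^ 2 * fnK (ff N) W c c ≤ Z * P) :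
    Lo (1 / (8 * Z)) (fun t => 1 / (1 + x ⬝ᵥ fnK (ff N) (W + t • Eij i j) *ᵥ x)) 2 (4 * δ) := by
  set X := x ⬝ᵥ fnK (ff N) W *ᵥ x with hX
  have X0 : 0 ≤ X := quad_nn (ff_nn N) W x
  set ξ := √X
  have ξ0 : 0 ≤ ξ := Real.sqrt_nonneg _
  have ξ2 : ξ ^ 2 = X := Real.sq_sqrt X0
  set m := √(Z / N * (s * ξ))
  have m2 : m ^ 2 = Z / N * (s * ξ) := Real.sq_sqrt (by positivity)
  set ψ := √(Z * P / N ^ 2)
  have ψ2 : ψ ^ 2 = Z * P / N ^ 2 := Real.sq_sqrt (by positivity)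
  have d0 : ∀ {f : ℝ → ℝ}, (∀ y, 0 ≤ f y) → ∀ c, 0 ≤ fnK f W c c := fun hf c => by
    simpa using quad_nn hf W (Pi.single c 1)
  have g1 : ∀ c, c = i ∨ c = j → fnK (hh N) W c c ≤ Z / N := fun c hc => by
    rw [le_div_iff₀' hN]; exact h1 c hc
  have g2 : ∀ c, c = i ∨ c = j → fnK (ff N) W c c ≤ ψ ^ 2 := fun c hc => by
    rw [ψ2, le_div_iff₀' (by positivity)]; exact h2 c hc
  have g3 : x ⬝ᵥ fnK (hh N) W *ᵥ x ≤ s * ξ := le_of_pow_le_pow_left₀ two_ne_zero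
    (by positivity) ((quad_hh hW N x).trans (by rw [mul_pow, ξ2]; gcongr))
  have r1 : ∀ {σ : ℝ}, σ ^ 2 = 1 → ∀ c d, c = i ∨ c = j → d = i ∨ d = j →
      ∀ z ∈ ball (0 : ℂ) (1 / (8 * Z)), ‖z * N * fnK (rc N σ) W c d‖ ≤ 1 / 8 := by
    intro σ hσ c d hc hd z hz
    have a := bil_cs (rc N σ) W (Pi.single c 1) (Pi.single d 1)
    simp only [cv'_single, quad_single, norm_rc hσ] at a
    have b : ‖fnK (rc N σ) W c d‖ ≤ Z / N := le_of_pow_le_pow_left₀ two_ne_zero (by positivity)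
      (a.trans (by rw [sq]; exact mul_le_mul (g1 c hc) (g1 d hd) (d0 (hh_nn N) d) (by positivity)))
    rw [norm_mul, norm_mul, Complex.norm_real, Real.norm_of_nonneg hN.le]
    calc _ ≤ 1 / (8 * Z) * N * (Z / N) := by gcongr; exact (mem_ball_zero_iff.1 hz).le
      _ = _ := by field_simp
  have r2 : ∀ {σ : ℝ}, σ ^ 2 = 1 → ∀ c, c = i ∨ c = j → ‖(fnK (rc N σ) W *ᵥ cv' x) c‖ ≤ m := by
    intro σ hσ c hc
    have a := bil_cs (rc N σ) W (Pi.single c 1) x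
    simp only [cv'_single, norm_rc hσ, single_one_dotProduct, mulVec_single_one, col_apply] at a
    exact Real.le_sqrt_of_sq_le (a.trans (mul_le_mul (g1 c hc) g3 (quad_nn (hh_nn N) W x)
      (by positivity)))
  have r3 : ∀ {σ : ℝ}, σ ^ 2 = 1 → ∀ c d, c = i ∨ c = j → d = i ∨ d = j →
      ∀ z ∈ ball (0 : ℂ) (1 / (8 * Z)), (1 - z * N * fnK (rc N σ) W c d) ^ 2 -
        z * N * fnK (rc N σ) W c c * (z * N * fnK (rc N σ) W d d) ≠ 0 ∧
        ‖al (fnK (rc N σ) W) (fnK (rc N σ) W *ᵥ cv' x) c d (z * N)‖ ≤ 2 * m :=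
    fun hσ c d hc hd z hz => two_le (r1 hσ c d hc hd z hz) (r1 hσ c c hc hc z hz)
      (r1 hσ d d hd hd z hz) (r2 hσ c hc) (r2 hσ d hd)
  let A : ℝ → ι → ι → ℂ → ℂ := fun σ c d z =>
    z * N * al (fnK (rc N σ) W) (fnK (rc N σ) W *ᵥ cv' x) c d (z * N)
  have hA : ∀ {σ : ℝ}, σ ^ 2 = 1 → ∀ c d, c = i ∨ c = j → d = i ∨ d = j →
      DifferentiableOn ℂ (A σ c d) (ball 0 (1 / (8 * Z))) ∧
      ∀ z ∈ ball (0 : ℂ) (1 / (8 * Z)), ‖A σ c d z‖ ≤ 1 / (8 * Z) * N * (2 * m) := by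
    intro σ hσ c d hc hd
    refine ⟨DifferentiableOn.mul (by fun_prop) (DifferentiableOn.div (by fun_prop) (by fun_prop)
      fun z hz => (r3 hσ c d hc hd z hz).1), fun z hz => ?_⟩
    rw [norm_mul, norm_mul, Complex.norm_real, Real.norm_of_nonneg hN.le]
    gcongr
    exacts [(mem_ball_zero_iff.1 hz).le, (r3 hσ c d hc hd z hz).2]
  have p1 : (1 : ℝ) ^ 2 = 1 := by norm_num
  have p2 : (-1 : ℝ) ^ 2 = 1 := by norm_num
  have li : i = i ∨ i = j := .inl rfl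
  have lj : j = i ∨ j = j := .inr rfl
  let Y : ℂ → ℂ := fun z =>
    Xz (fnK (ff N) W) x i j (A 1 i j z) (A 1 j i z) (A (-1) i j z) (A (-1) j i z)
  have f1 : ∀ c, c = i ∨ c = j → |(fnK (ff N) W *ᵥ x) c| ≤ ψ * ξ := fun c hc => by
    have a := quad_cs (ff_nn N) W (Pi.single c 1) x
    simp only [single_one_dotProduct, mulVec_single_one, col_apply] at a
    exact abs_le_of_sq_le_sq' (a.trans (by rw [mul_pow, ξ2]; gcongr; exact g2 c hc))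
      (by positivity) |> abs_le.2
  have f2 : ∀ c d, c = i ∨ c = j → d = i ∨ d = j → |fnK (ff N) W c d| ≤ ψ ^ 2 := fun c d hc hd => by
    have a := quad_cs (ff_nn N) W (Pi.single c 1) (Pi.single d 1)
    simp only [quad_single] at a
    exact abs_le_of_sq_le_sq' (a.trans (by
      rw [sq (ψ ^ 2)]; exact mul_le_mul (g2 c hc) (g2 d hd) (d0 (ff_nn N) d) (by positivity)))
      (by positivity) |> abs_le.2
  have key : ∀ z ∈ ball (0 : ℂ) (1 / (8 * Z)), ‖Y z - X‖ ≤ 2 * δ * (1 + X) := fun z hz => by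
    refine (Xz_le ((hA p1 i j li lj).2 z hz) ((hA p1 j i lj li).2 z hz) ((hA p2 i j li lj).2 z hz)
      ((hA p2 j i lj li).2 z hz) (f1 i li) (f1 j lj) (f2 i i li li) (f2 i j li lj)
      (f2 j j lj lj)).trans ?_
    set y := 2 * (1 / (8 * Z) * N * (2 * m)) * ψ with hy
    have y2 : y ^ 2 ≤ δ ^ 2 * ξ := by
      have : y ^ 2 = s * P / (4 * N) * ξ := by
        simp only [hy, mul_pow, m2, ψ2]; field_simp; ring
      rw [this]; gcongr
      rw [div_le_iff₀ (by positivity)]; linarith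
    have y3 : δ * (2 * y * ξ) ≤ δ * (δ * ξ + δ * ξ ^ 2) := by nlinarith [sq_nonneg (y - δ * ξ)]
    have y4 := le_of_mul_le_mul_left y3 hδ0
    have y5 : δ ^ 2 * ξ ≤ δ * ξ := by nlinarith [mul_nonneg hδ0.le ξ0]
    nlinarith [mul_nonneg hδ0.le (sq_nonneg (ξ - 1))]
  have Y0 : Y 0 = X := by simp [Y, Xz, A, hX]
  refine ⟨fun z => 1 / (1 + Y z), ⟨(differentiableOn_const _).div ((differentiableOn_const _).add ?_)
    fun z hz => (inv_le X0 hδ0.le hδ (key z hz)).1, fun t ht => ?_⟩, fun z hz => ?_⟩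
  · exact Xz_diff (hA p1 i j li lj).1 (hA p1 j i lj li).1 (hA p2 i j li lj).1 (hA p2 j i lj li).1
  · have hz := mem_ball_real ht
    have hW' : (W + t • Eij i j).IsHermitian := hW.add (herm_smul (Eij_herm i j) t)
    have e := dot_rc hW' N (cv' x) (cv' x)
    rw [bil_real, solve hW p1 N t i j _ rfl rfl (r3 p1 i j li lj _ hz).1,
      solve hW p2 N t i j _ rfl rfl (r3 p2 i j li lj _ hz).1, dot_rc hW, Xz_eq] at e
    push_cast
    rw [← e]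
  · beta_reduce; rw [Y0]; exact (inv_le X0 hδ0.le hδ (key z hz)).2

/-! ### domination by powers of `(2 + W) / 4` -/

lemma geom_ge {q η : ℝ} (hq : 0 ≤ q) (hη : 0 ≤ η) (h : 1 - η ≤ q) (k : ℕ) :
    k / (1 + k * η) ≤ ∑ a ∈ range k, q ^ a := by
  induction k with
  | zero => simp
  | succ k ih =>
    rw [geom_sum_succ]
    have p : 0 < 1 + k * η := by positivity
    have a1 := mul_le_mul_of_nonneg_left ih hq
    have a2 := mul_le_mul_of_nonneg_right h (by positivity : 0 ≤ k / (1 + k * η))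
    have a3 : (1 - η) * (k / (1 + k * η)) + 1 = (k + 1) / (1 + k * η) := by field_simp; ring
    have a4 : ((k : ℝ) + 1) / (1 + (k + 1) * η) ≤ (k + 1) / (1 + k * η) := by gcongr; linarith
    push_cast
    linarith

lemma hh_le {N : ℝ} {k : ℕ} (hN : 0 < N) (hk : N ≤ k) (x : ℝ) :
    N * hh N x ≤ 2 * ∑ a ∈ range k, ((2 + x) / 4) ^ (2 * a) := by
  have a0 := abs_nonneg (2 - x)
  have a1 := geom_ge (q := ((2 + x) / 4) ^ 2) (η := |2 - x| / 2) (sq_nonneg _) (by positivity)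
    (by nlinarith [le_abs_self (2 - x), sq_nonneg (2 - x)]) k
  simp only [← pow_mul] at a1
  have a2 : N / (1 + N * |2 - x|) ≤ k / (1 + k * (|2 - x| / 2)) := by
    rw [div_le_div_iff₀ (by positivity) (by positivity)]
    nlinarith [mul_nonneg (mul_nonneg hN.le (Nat.cast_nonneg (α := ℝ) k)) a0]
  have a3 : (1 + N * |2 - x|) / 2 ≤ √((N * (2 - x)) ^ 2 + 1) := Real.le_sqrt_of_sq_le (by
    rw [mul_pow, ← sq_abs (2 - x), ← mul_pow]; nlinarith [sq_nonneg (N * |2 - x| - 1)])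
  calc N * hh N x ≤ N / ((1 + N * |2 - x|) / 2) := by rw [hh, ← div_eq_mul_inv]; gcongr
    _ = 2 * (N / (1 + N * |2 - x|)) := by field_simp
    _ ≤ _ := by linarith

lemma ff_le {N : ℝ} {k : ℕ} (hN : 0 < N) (hk : N ≤ k) (x : ℝ) :
    N ^ 2 * ff N x ≤ 4 * ∑ a ∈ range k, ∑ b ∈ range k, ((2 + x) / 4) ^ (2 * (a + b)) := by
  have := pow_le_pow_left₀ (mul_nonneg hN.le (hh_nn N x)) (hh_le hN hk x) 2
  rw [mul_pow, hh_sq, mul_pow, sq (∑ a ∈ _, _), sum_mul_sum] at this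
  simpa only [mul_add, pow_add, show (2 : ℝ) ^ 2 = 4 by norm_num] using this

open Ed in
lemma fnK_Ym {n : ℕ} {W : Mat n} (hW : W.IsHermitian) (p : ℕ) :
    fnK (fun x => ((2 + x) / 4) ^ p) W = Ym 1 W ^ p := by
  induction p with
  | zero => simpa using fnK_one (K := ℝ) hW
  | succ p ih =>
    have : fnK (fun x => (2 + x) / 4) W = Ym 1 W := by
      have e := fnK_smul (A := W) (1 / 4 : ℝ) fun x : ℝ => 2 + x
      rw [fnK_add, fnK_const hW, fnK_id_real hW] at e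
      rw [Ym, one_smul, ← e]
      congr 1; funext x; ring
    rw [pow_succ, ← ih, ← this, fnK_mul hW]
    simp only [pow_succ]

lemma diag_le {f : ℝ → ℝ} {a b : ℝ} {κ : Type*} {s : Finset κ} {g : κ → ℝ → ℝ}
    (h : ∀ x, a * f x ≤ b * ∑ k ∈ s, g k x) (c : ι) :
    a * fnK f W c c ≤ b * ∑ k ∈ s, fnK (g k) W c c := by
  simp only [fnK_apply, mul_sum]
  rw [sum_comm]
  refine sum_le_sum fun l _ => ?_
  simp only [← mul_assoc, ← sum_mul]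
  rw [← mul_sum]
  exact mul_le_mul_of_nonneg_right (h _) (mul_self_nonneg _)

end Crest.Agent.T157.Cq.Ut75

end
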