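import Crest.Agent.T157.CqUtB_75

/-!
# Row 157, part C: universality of the scalars, C (helper75)

The comparison theorem with a random radius, the radius of the mark and its moments.
-/

set_option autoImplicit false
set_option linter.unusedSectionVars false

noncomputable section

namespace Crest.Agent.T157.Cq.Ut75

open MeasureTheory ProbabilityTheory Metric Finset Matrix Filter Topology
open Crest.ProbabilityR.SpinGlassDynamics Crest.Agent.T157.E Crest.Agent.T157.Eig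
open Crest.Agent.T157.Un Crest.Agent.T157.St Crest.Agent.T157.Ed
open Crest.Agent.T157.Tr (Om)

section cmp
variable {ι κ : Type*} [Fintype ι] [DecidableEq ι] [Fintype κ] [DecidableEq κ]

/-- the oscillation of a bounded functional may be capped -/
lemma AnR.cap {ρ : (ι → ℝ) → ι → ℝ} {s M : ℝ} {Q G : (ι → ℝ) → ℝ} (h : AnR ρ s Q M G)
    (hc : (Fintype.card ι : ℝ) ≤ s ^ 4) (hG : ∀ g, 0 ≤ G g) :
    AnR ρ s Q M fun g => (1 + 4 * M ^ 2) * (G g / (1 + G g)) := fun g => by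
  obtain ⟨h0, K, hK, hF⟩ := h g
  have hM := (abs_nonneg _).trans h0
  have hg := hG g
  refine ⟨h0, fun e => min |K e| (2 * M), ?_, fun e => ?_⟩
  · have m0 : ∀ e, 0 ≤ min |K e| (2 * M) := fun e => le_min (abs_nonneg _) (by positivity)
    have h1 : ∑ e, min |K e| (2 * M) ^ 2 ≤ s ^ 4 * G g :=
      (sum_le_sum fun e _ => by
        rw [← sq_abs (K e)]; exact pow_le_pow_left₀ (m0 e) (min_le_left _ _) 2).trans hK
    have h2 : ∑ e, min |K e| (2 * M) ^ 2 ≤ s ^ 4 * (4 * M ^ 2) := by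
      refine (sum_le_sum fun e _ => pow_le_pow_left₀ (m0 e) (min_le_right _ _) 2).trans ?_
      rw [sum_const, card_univ, nsmul_eq_mul, mul_pow]
      norm_num
      gcongr
    beta_reduce
    rw [← mul_div_assoc, ← mul_div_assoc, le_div_iff₀ (by positivity)]
    nlinarith [mul_le_mul_of_nonneg_right h2 hg]
  obtain ⟨F, h1, h2⟩ := hF e
  refine ⟨F, h1, fun z hz => ⟨(h2 z hz).1, le_min ((h2 z hz).2.trans (le_abs_self _)) ?_⟩⟩
  linarith [norm_sub_le (F z) (F 0), (h2 z hz).1, (h2 0 (mem_ball_self (pos_of_mem_ball hz))).1]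

/-- hybrid law with additional Gaussian entries -/
abbrev hy (κ : Type*) [Fintype κ] (σ : ι → Bool) : Measure (ι ⊕ κ → ℝ) :=
  hyb (Sum.elim σ fun _ => false)

/-- **universality with a random radius** -/
theorem univ_rad {Q G : (ι ⊕ κ → ℝ) → ℝ} {Z V : ι → (ι ⊕ κ → ℝ) → ℝ} {r s M η C : ℝ} (hr : 0 < r)
    (hs : 0 < s) (hη : 0 < η) (hC : 0 ≤ C) (hc : (Fintype.card ι : ℝ) ≤ s ^ 4) (hQ : Measurable Q)
    (hM : ∀ y, |Q y| ≤ M) (hZ : ∀ e y, 1 ≤ Z e y ∧ |y (.inl e)| ≤ Z e y ∧ Z e y ^ 16 ≤ V e y)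
    (h : ∀ y, ∃ K : ι → ℝ, ∑ e, K e ^ 2 ≤ s ^ 4 * G y ∧
      ∀ e, Lo (r / Z e y) (fun t => Q (sh s y (.inl e) t)) M (K e))
    (hG : ∀ σ, Integrable G (hy κ σ) ∧ ∫ y, G y ∂hy κ σ ≤ η ^ 2)
    (hV : ∀ σ e, Integrable (V e) (hy κ σ) ∧ ∫ y, V e y ∂hy κ σ ≤ C) :
    |∫ y, Q y ∂hy κ (fun _ => true) - ∫ y, Q y ∂hy κ fun _ => false| ≤
      64 * (1 + 9 * m8 ^ 2 * C) / r ^ 4 * η + 1024 * M * m8 * C / (s ^ 4 * r ^ 8) := by
  have hM0 : 0 ≤ M := (abs_nonneg _).trans (hM 0)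
  have h8 := one_le_m8
  have hsr : 0 < s * r := mul_pos hs hr
  let Δ : ι → (ι ⊕ κ → ℝ) → ℝ := fun e y =>
    |∫ x, Q (Function.update y (.inl e) x) ∂entryLaw true -
      ∫ x, Q (Function.update y (.inl e) x) ∂entryLaw false|
  have hΔ : ∀ σ e, Integrable (Δ e) (hy κ σ) := fun σ e =>
    ((hyb_update hQ hM _ (.inl e) true).2.sub (hyb_update hQ hM _ (.inl e) false).2).abs
  refine mix_le (fun σ => ∫ y, Q y ∂hy κ σ) (fun σ e => ∫ y, Δ e y ∂hy κ σ) (fun σ e => ?_)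
    fun σ => ?_
  · simp only [hy, ← Sum.update_elim_inl]
    rw [(hyb_update hQ hM _ (.inl e) true).1, (hyb_update hQ hM _ (.inl e) false).1,
      ← integral_sub (hyb_update hQ hM _ (.inl e) true).2 (hyb_update hQ hM _ (.inl e) false).2]
    exact abs_integral_le_integral_abs
  set A := 64 * η * (9 * m8 ^ 2) / (s * r) ^ 4 + 1024 * M * m8 / (s * r) ^ 8 with hA
  have hA0 : 0 ≤ A := by positivity
  have i1 : ∀ e, Integrable (fun y => A * V e y) (hy κ σ) := fun e => (hV σ e).1.const_mul _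
  have key : ∀ y, ∑ e, Δ e y ≤ 64 / (r ^ 4 * η) * G y + ∑ e, A * V e y := fun y => by
    obtain ⟨K, hK, hF⟩ := h y
    have h1 : ∀ e, Δ e y ≤ 64 / ((s * r) ^ 4 * η) * K e ^ 2 + A * V e y := fun e => by
      obtain ⟨F, hF, hz⟩ := hF e
      obtain ⟨z1, z2, z3⟩ := hZ e y
      set z := Z e y
      have z0 : 0 < z := by linarith
      have hρ : 0 < r / z := by positivity
      have K0 : 0 ≤ K e := (norm_nonneg _).trans (hz 0 (mem_ball_self hρ)).2
      refine (one_entry (φ := fun x => Q (Function.update y (.inl e) x)) (x₀ := y (.inl e))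
        (hQ.comp (measurable_update y)) (fun _ => hM _) hρ hs hF fun w hw => (hz w hw).2).trans ?_
      have p4 : 1 ≤ z ^ 4 := one_le_pow₀ z1
      have p8 : 1 ≤ z ^ 8 := one_le_pow₀ z1
      have a4 : y (.inl e) ^ 4 ≤ z ^ 4 := by
        rw [← Even.pow_abs (by decide)]; exact pow_le_pow_left₀ (abs_nonneg _) z2 4
      have a8 : y (.inl e) ^ 8 ≤ z ^ 8 := by
        rw [← Even.pow_abs (by decide)]; exact pow_le_pow_left₀ (abs_nonneg _) z2 8
      have b4 : 2 * m8 + y (.inl e) ^ 4 ≤ 3 * m8 * z ^ 4 := by nlinarith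
      have b8 : m8 + y (.inl e) ^ 8 ≤ 2 * m8 * z ^ 8 := by nlinarith
      have h2 : 2 * (K e * (3 * m8 * z ^ 8)) ≤ K e ^ 2 / η + η * (9 * m8 ^ 2 * z ^ 16) := by
        have h3 : 0 ≤ (K e - η * (3 * m8 * z ^ 8)) ^ 2 / η := by positivity
        have h4 : (K e - η * (3 * m8 * z ^ 8)) ^ 2 / η = K e ^ 2 / η -
            2 * (K e * (3 * m8 * z ^ 8)) + η * (9 * m8 ^ 2 * z ^ 16) := by field_simp; ring
        linarith
      calc _ ≤ 128 * K e * (3 * m8 * z ^ 4) / (s * (r / z)) ^ 4 +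
            512 * M * (2 * m8 * z ^ 8) / (s * (r / z)) ^ 8 := by gcongr
        _ = 64 / (s * r) ^ 4 * (2 * (K e * (3 * m8 * z ^ 8))) +
            1024 * M * m8 / (s * r) ^ 8 * z ^ 16 := by field_simp; ring
        _ ≤ 64 / (s * r) ^ 4 * (K e ^ 2 / η + η * (9 * m8 ^ 2 * z ^ 16)) +
            1024 * M * m8 / (s * r) ^ 8 * z ^ 16 := by gcongr
        _ = 64 / ((s * r) ^ 4 * η) * K e ^ 2 + A * z ^ 16 := by rw [hA]; field_simp; ring
        _ ≤ _ := by gcongr
    refine (sum_le_sum fun e _ => h1 e).trans ?_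
    rw [sum_add_distrib, ← mul_sum]
    gcongr ?_ + _
    calc _ ≤ 64 / ((s * r) ^ 4 * η) * (s ^ 4 * G y) := by gcongr
      _ = _ := by field_simp
  rw [← integral_finsetSum _ fun e _ => hΔ σ e]
  refine (integral_mono (integrable_finsetSum _ fun e _ => hΔ σ e)
    (((hG σ).1.const_mul _).add (integrable_finsetSum _ fun e _ => i1 e)) key).trans ?_
  rw [integral_add' ((hG σ).1.const_mul _) (integrable_finsetSum _ fun e _ => i1 e),
    integral_const_mul, integral_finsetSum _ fun e _ => i1 e]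
  have h3 : ∑ e : ι, ∫ y, A * V e y ∂hy κ σ ≤ s ^ 4 * (A * C) := by
    refine (sum_le_sum fun e _ => (integral_const_mul _ _).trans_le
      (mul_le_mul_of_nonneg_left (hV σ e).2 hA0)).trans ?_
    rw [sum_const, card_univ, nsmul_eq_mul]
    gcongr
  have h4 : s ^ 4 * (A * C) = 64 * (9 * m8 ^ 2 * C) / r ^ 4 * η +
      1024 * M * m8 * C / (s ^ 4 * r ^ 8) := by rw [hA]; field_simp
  have h5 : 64 / (r ^ 4 * η) * ∫ y, G y ∂hy κ σ ≤ 64 / r ^ 4 * η :=
    (mul_le_mul_of_nonneg_left (hG σ).2 (by positivity)).trans_eq (by field_simp)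
  have h7 : 64 * (1 + 9 * m8 ^ 2 * C) / r ^ 4 * η =
      64 / r ^ 4 * η + 64 * (9 * m8 ^ 2 * C) / r ^ 4 * η := by ring
  linarith

/-- splitting of an entry array -/
def spl (y : ι ⊕ κ → ℝ) : (ι → ℝ) × (κ → ℝ) := (fun p => y (.inl p), fun i => y (.inr i))

lemma mp_spl (σ : ι → Bool) : MeasurePreserving spl (hy κ σ) ((hyb σ).prod (gv κ)) :=
  measurePreserving_sumPiEquivProdPi (X := fun _ : ι ⊕ κ => ℝ)
    fun p => entryLaw (Sum.elim σ (fun _ => false) p)

lemma spl_sh (s : ℝ) (y : ι ⊕ κ → ℝ) (e : ι) (t : ℝ) :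
    spl (sh s y (.inl e) t) = (sh s (spl y).1 e t, (spl y).2) := by
  refine Prod.ext (funext fun p => ?_) (funext fun i => ?_)
  · by_cases h : p = e <;> simp [spl, sh, h]
  · simp [spl, sh]

end cmp

/-! ### the radius of the mark -/

variable {n : ℕ}

/-- the number of powers -/
def kn (n : ℕ) : ℕ := ⌈tau n⌉₊
/-- weighted diagonal entries -/
def Vm (W : Mat n) (c : Fin n) : ℝ := ∑ b ∈ range (2 * kn n),
  ((1 + (b : ℝ)) ^ (11 / 8 : ℝ) * (Ym 1 W ^ (2 * b)) c c) ^ 16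
/-- the sixteenth power of the inverse radius -/
def Vr (e : Pair n) (p : Om n) : ℝ := 1 + p.1 e ^ 16 + Vm (Wp p) e.1.1 + Vm (Wp p) e.1.2
/-- the inverse radius -/
def Zr (e : Pair n) (p : Om n) : ℝ := Vr e p ^ (1 / 16 : ℝ)

lemma Vm_nn (W : Mat n) (c : Fin n) : 0 ≤ Vm W c := sum_nonneg fun _ _ => by positivity

lemma le_Zr (e : Pair n) (p : Om n) {a : ℝ} (h : a ^ 16 ≤ Vr e p) : |a| ≤ Zr e p := by
  have : |a| = (a ^ 16) ^ (1 / 16 : ℝ) := by
    rw [← Even.pow_abs (by decide), one_div, show (16 : ℝ) = (16 : ℕ) by norm_num,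
      Real.pow_rpow_inv_natCast (abs_nonneg a) (by norm_num)]
  rw [this]
  exact Real.rpow_le_rpow (by positivity) h (by norm_num)

lemma Zr_spec (e : Pair n) (p : Om n) : 1 ≤ Zr e p ∧ |p.1 e| ≤ Zr e p ∧ Zr e p ^ 16 ≤ Vr e p := by
  have a := Vm_nn (Wp p) e.1.1
  have b := Vm_nn (Wp p) e.1.2
  have c : 0 ≤ p.1 e ^ 16 := by positivity
  refine ⟨by simpa using le_Zr e p (a := 1) (by unfold Vr; linarith),
    le_Zr e p (by unfold Vr; linarith), le_of_eq ?_⟩
  rw [Zr, one_div, show (16 : ℝ) = (16 : ℕ) by norm_num,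
    Real.rpow_inv_natCast_pow (by unfold Vr; linarith) (by norm_num)]

lemma diag_Zr (e : Pair n) (p : Om n) {c : Fin n} (hc : c = e.1.1 ∨ c = e.1.2) {b : ℕ}
    (hb : b < 2 * kn n) : (Ym 1 (Wp p) ^ (2 * b)) c c ≤ Zr e p * (1 + (b : ℝ)) ^ (-(11 / 8) : ℝ) := by
  have b0 : (0 : ℝ) < 1 + b := by positivity
  have h1 := single_le_sum (f := fun b : ℕ =>
    ((1 + (b : ℝ)) ^ (11 / 8 : ℝ) * (Ym 1 (Wp p) ^ (2 * b)) c c) ^ 16)
    (fun _ _ => by positivity) (mem_range.2 hb)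
  have h2 : Vm (Wp p) c ≤ Vr e p := by
    have a := Vm_nn (Wp p) e.1.1
    have b := Vm_nn (Wp p) e.1.2
    have c : 0 ≤ p.1 e ^ 16 := by positivity
    unfold Vr
    rcases hc with rfl | rfl <;> linarith
  rw [Real.rpow_neg b0.le, ← div_eq_mul_inv, le_div_iff₀' (Real.rpow_pos_of_pos b0 _)]
  exact (le_abs_self _).trans (le_Zr e p (h1.trans h2))

/-- the summable weights -/
def ws (b : ℕ) : ℝ := (1 + (b : ℝ)) ^ (-(33 / 32) : ℝ)
/-- their sum -/
def S0 : ℝ := 1 + ∑' b, ws b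

lemma ws_nn (b : ℕ) : 0 ≤ ws b := by unfold ws; positivity

lemma one_le_S0 : 1 ≤ S0 := le_add_of_nonneg_right (tsum_nonneg ws_nn)

lemma sum_ws (k : ℕ) : ∑ b ∈ range k, ws b ≤ S0 := by
  have h : Summable ws := ((summable_nat_add_iff 1).2 (Real.summable_nat_rpow.2
    (by norm_num : (-(33 / 32) : ℝ) < -1))).congr fun b => by simp [ws, add_comm]
  exact (h.sum_le_tsum _ fun b _ => ws_nn b).trans (le_add_of_nonneg_left zero_le_one)

lemma w_le (b : ℕ) : (1 + (b : ℝ)) ^ (-(11 / 8) : ℝ) ≤ ws b :=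
  Real.rpow_le_rpow_of_exponent_le (by simp) (by norm_num)

lemma w_le2 {a b m : ℕ} (h : a + b < m) :
    (1 + ((a + b : ℕ) : ℝ)) ^ (-(11 / 8) : ℝ) ≤ (m : ℝ) ^ (11 / 16 : ℝ) * (ws a * ws b) := by
  have p : (0 : ℝ) < 1 + (a + b : ℕ) := by positivity
  have e : (-(11 / 8) : ℝ) = 11 / 16 + (-(33 / 32) + -(33 / 32)) := by norm_num
  have q : ∀ c : ℕ, c ≤ a + b → (1 + ((a + b : ℕ) : ℝ)) ^ (-(33 / 32) : ℝ) ≤ ws c := fun c hc =>
    Real.rpow_le_rpow_of_nonpos (by positivity) (by exact_mod_cast Nat.add_le_add_left hc 1)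
      (by norm_num)
  rw [e, Real.rpow_add p, Real.rpow_add p]
  refine mul_le_mul (Real.rpow_le_rpow p.le ?_ (by norm_num)) (mul_le_mul (q a (by omega))
    (q b (by omega)) (by positivity) (ws_nn a)) (by positivity) (by positivity)
  exact_mod_cast (by omega : 1 + (a + b) ≤ m)

/-- the mark -/
def wm (n : ℕ) (x : Cube n) (p : Om n) : ℝ := 1 / (1 + hat n x ⬝ᵥ fl n 1 (Wp p) *ᵥ hat n x)
/-- the deterministic part of the radius -/
def r0 : ℝ := 1 / (32 * S0 ^ 2)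
/-- the radius -/
def rho (n : ℕ) (d : Fin n → ℝ) (g : Pair n → ℝ) (e : Pair n) : ℝ := r0 / Zr e (g, d)
/-- the size of the oscillation of the mark -/
def dl (n : ℕ) : ℝ := sx n ^ (-(1 / 8) : ℝ)

lemma r0_pos : 0 < r0 := by have := one_le_S0; unfold r0; positivity

lemma rho_le (d : Fin n → ℝ) (g : Pair n → ℝ) (e : Pair n) : rho n d g e ≤ 1 / 4 := by
  refine (div_le_self r0_pos.le (Zr_spec e _).1).trans ?_
  have := one_le_S0
  rw [r0]; gcongr; nlinarith

lemma tendsto_dl : Tendsto dl atTop (𝓝 0) := (tendsto_rpow_neg_atTop (by norm_num)).comp tendsto_sx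

lemma fl_one (W : Mat n) : fl n 1 W = fnK (ff (tau n)) W := by
  unfold fl ff; simp

lemma Wmat_sh (hn : 0 < n) (g : Pair n → ℝ) (d : Fin n → ℝ) (e : Pair n) (t : ℝ) :
    Wmat n (sh √(n : ℝ) g e t) d = Wmat n g d + t • Eij e.1.1 e.1.2 := by
  have hs : √(n : ℝ) ≠ 0 := (Real.sqrt_pos.2 (by exact_mod_cast hn)).ne'
  obtain ⟨⟨i, j⟩, hij⟩ := e
  have key : ∀ a b (h : a < b), sh √(n : ℝ) g ⟨(i, j), hij⟩ t ⟨(a, b), h⟩ / √(n : ℝ) =
      g ⟨(a, b), h⟩ / √(n : ℝ) + t * if i = a ∧ j = b then 1 else 0 := fun a b h => by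
    split_ifs with h'
    · obtain ⟨rfl, rfl⟩ := h'
      simp only [sh, Function.update_self]; field_simp
    · rw [sh, Function.update_of_ne (fun e => h' (by
        simp only [Subtype.mk.injEq, Prod.mk.injEq] at e; exact ⟨e.1.symm, e.2.symm⟩))]
      simp
  ext a b
  simp only [Wmat, Jmat, Eij, Matrix.add_apply, Matrix.smul_apply, single_apply, smul_eq_mul]
  dsimp only at hij
  rcases lt_trichotomy a b with h | h | h
  · rw [dif_pos h, dif_pos h, key, if_neg (c := j = a ∧ i = b) (by omega)]; ring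
  · subst h
    rw [dif_neg (lt_irrefl _), dif_neg (lt_irrefl _), dif_neg (lt_irrefl _), dif_neg (lt_irrefl _),
      if_neg (by omega), if_neg (by omega)]; ring
  · rw [dif_neg h.not_gt, dif_pos h, dif_neg h.not_gt, dif_pos h, key,
      if_neg (c := i = a ∧ j = b) (by omega)]
    simp only [and_comm (a := j = a)]; ring

lemma kn_le (hn : 1 ≤ n) : (kn n : ℝ) ≤ 2 * tau n := by
  linarith [Nat.ceil_lt_add_one (tau_nonneg n), one_le_tau hn, show (kn n : ℝ) = ⌈tau n⌉₊ from rfl]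

lemma wm_mem (x : Cube n) (p : Om n) : wm n x p ∈ Set.Ioc (0 : ℝ) 1 := by
  have := quad_nn (ff_nn (tau n)) (Wp p) (hat n x)
  rw [wm, fl_one]
  exact ⟨by positivity, (div_le_one (by positivity)).2 (by linarith)⟩

theorem anR_mark (hn : 1 ≤ n) (hδ : dl n ≤ 1 / 4) (d : Fin n → ℝ) (x : Cube n) :
    AnR (rho n d) √(n : ℝ) (fun g => wm n x (g, d)) 2 fun _ => 16 * dl n ^ 2 := fun g => by
  have hs := sx_pos hn
  have hτ := tau_pos hn
  have hS := one_le_S0
  refine ⟨by rw [abs_of_pos (wm_mem x _).1]; linarith [(wm_mem x (g, d)).2], fun _ => 4 * dl n, ?_,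
    fun e => ?_⟩
  · rw [sum_const, card_univ, nsmul_eq_mul, mul_pow]
    norm_num
    gcongr
    exact card_pair n
  have hZ := (Zr_spec e (g, d)).1
  have hW : (Wp (g, d)).IsHermitian := Wmat_isHermitian _ _
  have := lo_mark hW (Z := 4 * S0 ^ 2 * Zr e (g, d)) (P := ((2 * kn n : ℕ) : ℝ) ^ (11 / 16 : ℝ)) hτ
    hs.le (by positivity) (by positivity) (Real.rpow_pos_of_pos hs _) hδ ?_ e.1.1 e.1.2
    (St.Z43.hat_dot hn x).le (fun c hc => ?_) fun c hc => ?_
  · rw [show rho n d g e = 1 / (8 * (4 * S0 ^ 2 * Zr e (g, d))) by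
      rw [rho, r0]; field_simp; norm_num]
    simpa only [wm, fl_one, Wp, Wmat_sh hn, dl] using this
  · have a1 : ((2 * kn n : ℕ) : ℝ) ^ (11 / 16 : ℝ) ≤ 4 * sx n ^ (11 / 4 : ℝ) := by
      refine (Real.rpow_le_rpow (by positivity) (z := 11 / 16) (y := 4 * sx n ^ 4) (by
        push_cast; linarith [kn_le hn, tau_eq n]) (by norm_num)).trans ?_
      rw [Real.mul_rpow (by norm_num) (by positivity), ← Real.rpow_natCast, ← Real.rpow_mul hs.le]
      norm_num
      gcongr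
      exact Real.rpow_le_self_of_one_le (by norm_num) (by norm_num)
    have a2 : tau n * (sx n ^ (-(1 / 8) : ℝ)) ^ 2 = sx n * sx n ^ (11 / 4 : ℝ) := by
      rw [tau_eq, ← Real.rpow_natCast, ← Real.rpow_natCast, ← Real.rpow_mul hs.le,
        ← Real.rpow_add hs, mul_comm (sx n), ← Real.rpow_add_one hs.ne']
      norm_num
    nlinarith [mul_le_mul_of_nonneg_left a1 hs.le]
  · refine (diag_le (hh_le hτ (Nat.le_ceil _)) c).trans ?_
    simp only [fnK_Ym hW]
    have a := sum_le_sum fun a (ha : a ∈ range (kn n)) =>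
      (diag_Zr e (g, d) hc (b := a) (by have := mem_range.1 ha; omega)).trans
        (mul_le_mul_of_nonneg_left (w_le a) (by linarith))
    rw [← mul_sum] at a
    have b := mul_le_mul_of_nonneg_left (sum_ws (kn n)) (by linarith : 0 ≤ Zr e (g, d))
    change 2 * ∑ a ∈ range (kn n), _ ≤ _
    nlinarith [mul_nonneg (by linarith : 0 ≤ Zr e (g, d)) (by nlinarith : 0 ≤ 2 * S0 ^ 2 - S0)]
  · have a0 := diag_le (W := Wp (g, d)) (s := range (kn n) ×ˢ range (kn n))
      (g := fun q x => ((2 + x) / 4) ^ (2 * (q.1 + q.2)))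
      (fun x => by simpa only [sum_product] using ff_le (k := kn n) hτ (Nat.le_ceil _) x) c
    refine a0.trans ?_
    simp only [fnK_Ym hW]
    have a := sum_le_sum fun q (hq : q ∈ range (kn n) ×ˢ range (kn n)) => by
      have h : q.1 + q.2 < 2 * kn n := by
        simp only [mem_product, mem_range] at hq; omega
      exact (diag_Zr e (g, d) hc h).trans (mul_le_mul_of_nonneg_left (w_le2 h) (by linarith))
    rw [← mul_sum, ← mul_sum, sum_product (f := fun q => ws q.1 * ws q.2), ← sum_mul_sum] at a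
    have b := mul_self_le_mul_self (sum_nonneg fun b _ => ws_nn b) (sum_ws (kn n))
    have c := mul_le_mul_of_nonneg_left b (by positivity :
      0 ≤ Zr e (g, d) * ((2 * kn n : ℕ) : ℝ) ^ (11 / 16 : ℝ))
    nlinarith

/-- **moments of the inverse radius** -/
theorem int_Vr : ∃ C : ℝ, 0 ≤ C ∧ ∀ᶠ n : ℕ in atTop, ∀ (σ : Pair n → Bool) (e : Pair n),
    Integrable (fun y => Vr e (spl y)) (hy (Fin n) σ) ∧ ∫ y, Vr e (spl y) ∂hy (Fin n) σ ≤ C := by
  obtain ⟨C, hC, h⟩ := Ed.All.mbStmt 16 4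
  set m := ∫ t : ℝ, t ^ 16 ∂gaussianReal 0 1
  have m0 : 0 ≤ m := integral_nonneg fun _ => by positivity
  refine ⟨1 + m + 2 * C ^ 16 + 2 * C ^ 16, by positivity, ?_⟩
  filter_upwards [h, eventually_ge_atTop 1] with n h hn σ e
  have h1 : ∀ c : Fin n, Integrable (fun y => Vm (Wp (spl y)) c) (hy (Fin n) σ) ∧
      ∫ y, Vm (Wp (spl y)) c ∂hy (Fin n) σ ≤ 2 * C ^ 16 := fun c => by
    have a : ∀ b ∈ range (2 * kn n), Integrable (fun y => ((1 + (b : ℝ)) ^ (11 / 8 : ℝ) *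
        (Ym 1 (Wp (spl y)) ^ (2 * b)) c c) ^ 16) (hy (Fin n) σ) ∧ ∫ y, ((1 + (b : ℝ)) ^ (11 / 8 : ℝ) *
        (Ym 1 (Wp (spl y)) ^ (2 * b)) c c) ^ 16 ∂hy (Fin n) σ ≤ C ^ 16 * ((1 + (b : ℝ)) ^ 2)⁻¹ := by
      intro b hb
      have b0 : (0 : ℝ) < 1 + b := by positivity
      have hb' : (b : ℝ) ≤ 2 * kn n := by exact_mod_cast (mem_range.1 hb).le
      have a1 := (h (fun p => entryLaw (Sum.elim σ (fun _ => false) p))
        (fun _ => Mba36.dom_entry _) 1 (by simp) b (by linarith [kn_le hn])).1 (Pi.single c 1)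
        (by simp)
      simp only [quad_single] at a1
      simp only [mul_pow, integral_const_mul]
      refine ⟨a1.1.const_mul _, (mul_le_mul_of_nonneg_left a1.2 (by positivity)).trans_eq ?_⟩
      rw [mul_pow, ← Real.rpow_natCast, ← Real.rpow_natCast ((1 + (b : ℝ)) ^ (-(3 / 2) : ℝ)),
        ← Real.rpow_mul b0.le, ← Real.rpow_mul b0.le, mul_left_comm, ← Real.rpow_add b0,
        ← Real.rpow_natCast (1 + (b : ℝ)) 2, ← Real.rpow_neg b0.le]
      norm_num
    refine ⟨integrable_finsetSum _ fun b hb => (a b hb).1, ?_⟩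
    simp only [Vm]
    rw [integral_finsetSum _ fun b hb => (a b hb).1]
    refine (sum_le_sum fun b hb => (a b hb).2).trans ?_
    rw [← mul_sum, mul_comm (2 : ℝ)]
    gcongr
    exact (Sw50.sum_inv_sq_le _).trans (sub_le_self _ (by positivity))
  have mp := measurePreserving_eval (fun p => entryLaw (Sum.elim σ (fun _ : Fin n => false) p))
    (.inl e)
  have h2 : Integrable (fun y : Ix n → ℝ => y (.inl e) ^ 16) (hy (Fin n) σ) :=
    mp.integrable_comp_of_integrable (int_pow _ 16)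
  have h3 : ∫ y : Ix n → ℝ, y (.inl e) ^ 16 ∂hy (Fin n) σ ≤ m := by
    refine le_of_eq_of_le ?_ ((le_abs_self _).trans ((Mba36.dom_entry (σ e)).le 16))
    have := mp.map_eq
    simp only [Sum.elim_inl] at this
    rw [← this, integral_map (measurable_pi_apply _).aemeasurable (by fun_prop)]
    rfl
  have i1 : Integrable (fun y : Ix n → ℝ => 1 + y (.inl e) ^ 16) (hy (Fin n) σ) :=
    (integrable_const _).add h2
  have i2 : Integrable (fun y : Ix n → ℝ => 1 + y (.inl e) ^ 16 + Vm (Wp (spl y)) e.1.1)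
      (hy (Fin n) σ) := i1.add (h1 e.1.1).1
  refine ⟨i2.add (h1 e.1.2).1, ?_⟩
  change ∫ y, ((1 + y (.inl e) ^ 16) + Vm (Wp (spl y)) e.1.1 + Vm (Wp (spl y)) e.1.2) ∂_ ≤ _
  rw [integral_add i2 (h1 e.1.2).1, integral_add i1 (h1 e.1.1).1,
    integral_add (integrable_const _) h2]
  simp only [integral_const, probReal_univ, smul_eq_mul, one_mul]
  linarith [(h1 e.1.1).2, (h1 e.1.2).2]

end Crest.Agent.T157.Cq.Ut75

end
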