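import Crest.Agent.T157.CqUtC_75
import Crest.Agent.T157.UnF_81

/-!
# Row 157, part C: universality of the marked scalars (helper75)

`Cq.utGlue : UtGlue`.
-/

set_option autoImplicit false
set_option linter.unusedSectionVars false

noncomputable section

namespace Crest.Agent.T157.Cq

open MeasureTheory ProbabilityTheory Metric Finset Matrix Filter Topology
open Crest.ProbabilityR.SpinGlassDynamics Crest.Agent.T157.E Crest.Agent.T157.Eig
open Crest.Agent.T157.Un Crest.Agent.T157.St Crest.Agent.T157.Ed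
open Crest.Agent.T157.Tr (Om)
open Crest.Agent.T157.Soft (IsCyl)

namespace Ut75

/-- bounded functionals of the couplings and the diagonal, holomorphic on the random disc -/
structure Bz (Q : ∀ n, Om n → ℝ) : Prop where
  meas : ∀ n, Measurable (Q n)
  ex : ∃ (B : ℝ) (Γ : Fam), Nl Γ ∧
    ∀ᶠ n : ℕ in atTop, ∀ d, AnR (rho n d) √(n : ℝ) (fun g => Q n (g, d)) B (Γ n)

namespace Bz
variable {Q Q' : ∀ n, Om n → ℝ}

lemma const (a : ℝ) : Bz fun _ _ => a :=
  ⟨fun _ => measurable_const, _, _, .zero, .of_forall fun _ _ => AnR.const _ _ a⟩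

lemma mul (h : Bz Q) (h' : Bz Q') : Bz fun n p => Q n p * Q' n p := by
  obtain ⟨B, Γ, h1, h2⟩ := h.ex
  obtain ⟨B', Γ', h1', h2'⟩ := h'.ex
  exact ⟨fun n => (h.meas n).mul (h'.meas n), _, _,
    (h1.const_mul (by positivity)).add (h1'.const_mul (by positivity)),
    (h2.and h2').mono fun n a d => (a.1 d).mul (a.2 d)⟩

/-- **universality** -/
theorem univ (h : Bz Q) :
    Tendsto (fun n => ∫ p, Q n p ∂PB true n - ∫ p, Q n p ∂PB false n) atTop (𝓝 0) := by
  obtain ⟨M, Γ, hG, h2⟩ := h.ex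
  obtain ⟨C, hC, hV⟩ := int_Vr
  rw [Metric.tendsto_nhds]
  intro ε hε
  have hr := r0_pos
  set D := 64 * (1 + 9 * m8 ^ 2 * C) / r0 ^ 4 with hD
  have hD0 : 0 < D := by positivity
  have hη : 0 < ε / (2 * D) := by positivity
  have hM : 0 < 1 + 4 * M ^ 2 := by positivity
  filter_upwards [h2, hV, hG.po.null_hyb hG.nu (div_pos (pow_pos hη 2) hM),
    tendsto_sqrt.eventually_gt_atTop 0,
    (tendsto_err (1024 * M * m8 * C) r0).eventually (gt_mem_nhds (half_pos hε))]
    with n a1 a5 a2 a3 a4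
  have mG : Measurable fun p : Om n => (1 + 4 * M ^ 2) * (Γ n p.1 / (1 + Γ n p.1)) :=
    ((hG.po.meas_ratio 1 n).comp measurable_fst).const_mul _
  have tr : ∀ (σ : Pair n → Bool) {F : Om n → ℝ}, Measurable F →
      ∫ y, F (spl y) ∂hy (Fin n) σ = ∫ p, F p ∂(hyb σ).prod (gv (Fin n)) := fun σ F hF => by
    rw [← (mp_spl σ).map_eq, integral_map (mp_spl σ).measurable.aemeasurable
      hF.aestronglyMeasurable]
  have := univ_rad (Q := fun y => Q n (spl y)) (Z := fun e y => Zr e (spl y))
    (V := fun e y => Vr e (spl y))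
    (G := fun y => (1 + 4 * M ^ 2) * (Γ n (spl y).1 / (1 + Γ n (spl y).1))) hr a3 hη hC
    (card_pair n) ((h.meas n).comp (mp_spl fun _ => true).measurable)
    (fun y => (a1 (spl y).2 (spl y).1).1) (fun e y => Zr_spec e (spl y)) (fun y => by
      obtain ⟨-, K, k1, k2⟩ := (a1 (spl y).2).cap (card_pair n) (hG.po.nn n) (spl y).1
      exact ⟨K, k1, fun e => by simp only [spl_sh]; exact k2 e⟩) (fun σ => ⟨?_, ?_⟩) a5
  · rw [tr _ (h.meas n), tr _ (h.meas n), hyb_const, hyb_const, ← hD,
      show D * (ε / (2 * D)) = ε / 2 by field_simp] at this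
    rw [Real.dist_eq, sub_zero]
    linarith
  · exact (int_bdd ((hG.po.meas_ratio 1 n).comp (measurable_fst.comp (mp_spl σ).measurable))
      fun y => hG.po.abs_ratio one_pos n _).const_mul _
  · rw [tr σ mG, integral_fun_fst fun g => (1 + 4 * M ^ 2) * (Γ n g / (1 + Γ n g)),
      integral_const_mul, probReal_univ, one_smul, ← le_div_iff₀' hM]
    exact a2 σ

lemma prod {I : Type*} {Y : ∀ n, Om n → I → ℝ} (h : ∀ i, Bz fun n p => Y n p i) (l : List I) :
    Bz fun n p => (l.map fun i => 1 / 4 * Y n p i).prod := by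
  induction l with
  | nil => simpa using const 1
  | cons i l ih => simpa only [List.map_cons, List.prod_cons] using ((const _).mul (h i)).mul ih

/-- **universality of cylinder functionals** -/
theorem cyl {I : Type*} {Y : ∀ n, Om n → I → ℝ} (h : ∀ i, Bz fun n p => Y n p i)
    (φ : (I → ℝ) → ℝ) (hφ : IsCyl φ) :
    Tendsto (fun n => ∫ p, φ (Y n p) ∂PB true n - ∫ p, φ (Y n p) ∂PB false n) atTop (𝓝 0) := by
  choose B Γ _ hB using fun i => (h i).ex
  have B0 : ∀ i, 0 < |B i| + 1 := fun i => by positivity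
  have hX : ∀ i, Bz fun n p => (|B i| + 1)⁻¹ * Y n p i := fun i => (const _).mul (h i)
  have zb : ∀ i, ∀ᶠ n : ℕ in atTop, ∀ p, |(|B i| + 1)⁻¹ * Y n p i| ≤ 2 := fun i =>
    (hB i).mono fun n a p => by
      rw [abs_mul, abs_of_pos (inv_pos.2 (B0 i)), inv_mul_le_iff₀ (B0 i)]
      linarith [(a p.2 p.1).1, le_abs_self (B i), abs_nonneg (B i)]
  let q : ℝ → ℝ := fun x => x / (2 + max |x| 2)
  have qp : ∀ x : ℝ, 0 < 2 + max |x| 2 := fun x => by positivity
  have hq : Continuous q := continuous_id.div (by fun_prop) fun x => (qp x).ne'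
  have hqb : ∀ x, |q x| ≤ 1 := fun x => by
    rw [abs_div, abs_of_pos (qp x), div_le_one (qp x)]; linarith [le_max_left |x| 2]
  have hinj : Function.Injective q := by
    refine StrictMono.injective fun x y hxy => ?_
    rw [div_lt_div_iff₀ (qp x) (qp y)]
    rcases le_total |x| 2 with a | a <;> rcases le_total |y| 2 with b | b <;>
      simp only [max_eq_right, max_eq_left, a, b] <;>
      rcases abs_cases x with c | c <;> rcases abs_cases y with d | d <;>
      nlinarith [c.1, c.2, d.1, d.2]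
  have := Soft.cyl_diff_of_mon (P := PB) (X := fun n p i => (|B i| + 1)⁻¹ * Y n p i) hq hinj hqb
    (fun n i => (hX i).meas n) (fun b i ε _ => ⟨2, ?_⟩) true false (fun l => ?_)
    (fun z => φ fun i => (|B i| + 1) * z i) ?_
  · simpa only [mul_inv_cancel_left₀ (B0 _).ne'] using this
  · filter_upwards [zb i] with n a
    simp only [(a _).not_gt, Set.ofPred_false, measure_empty, zero_le]
  · refine (prod hX l).univ.congr' ?_
    filter_upwards [(eventually_all_finite l.finite_toSet).2 fun i _ => zb i] with n a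
    have e : ∀ p, (l.map fun i => 1 / 4 * ((|B i| + 1)⁻¹ * Y n p i)).prod =
        Soft.mon q l fun i => (|B i| + 1)⁻¹ * Y n p i := fun p => by
      unfold Soft.mon
      congr 1
      refine List.map_congr_left fun i hi => ?_
      simp only [q, max_eq_right (a i hi p)]; ring
    simp only [e]
  · obtain ⟨s, K, h0, h1, h2⟩ := hφ
    have S0 : 0 ≤ ∑ i ∈ s, (|B i| + 1) := sum_nonneg fun i _ => (B0 i).le
    refine ⟨s, K * (1 + ∑ i ∈ s, (|B i| + 1)), by positivity, fun x => (h1 _).trans (by nlinarith),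
      fun x y => (h2 _ _).trans ?_⟩
    rw [mul_assoc, mul_sum s _ (1 + _)]
    refine mul_le_mul_of_nonneg_left (sum_le_sum fun i hi => ?_) h0
    rw [← mul_sub, abs_mul, abs_of_pos (B0 i)]
    refine mul_le_mul_of_nonneg_right ?_ (abs_nonneg _)
    linarith [single_le_sum (f := fun i => |B i| + 1) (fun i _ => (B0 i).le) hi]

end Bz

lemma anR_poly (p : Polynomial ℝ) : ∃ B c : ℝ, 0 ≤ c ∧ ∀ (n : ℕ) (ρ : (Pair n → ℝ) → Pair n → ℝ)
    (s : ℝ) (Q : (Pair n → ℝ) → ℝ) (γ : ℝ), 0 ≤ γ → AnR ρ s Q 2 (fun _ => γ) →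
      AnR ρ s (fun g => p.eval (Q g)) B fun _ => c * γ := by
  induction p using Polynomial.induction_on with
  | C a => exact ⟨|a|, 0, le_rfl, fun n ρ s Q γ _ _ => by simpa using AnR.const ρ s a⟩
  | add p q hp hq =>
    obtain ⟨B, c, h0, h⟩ := hp
    obtain ⟨B', c', h0', h'⟩ := hq
    exact ⟨B + B', 2 * c + 2 * c', by positivity, fun n ρ s Q γ a b => by
      simpa only [Polynomial.eval_add, add_mul, mul_assoc] using
        (h n ρ s Q γ a b).add (h' n ρ s Q γ a b)⟩
  | monomial k a ih =>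
    obtain ⟨B, c, h0, h⟩ := ih
    exact ⟨B * 2, 2 * 2 ^ 2 * c + 2 * B ^ 2, by positivity, fun n ρ s Q γ a b => by
      simpa only [pow_succ Polynomial.X, ← mul_assoc, Polynomial.eval_mul, Polynomial.eval_X,
        add_mul] using (h n ρ s Q γ a b).mul b⟩

/-! ### measurability -/

variable {n : ℕ}

lemma ms_T {K : ℝ} (hK : 0 ≤ K) {f : (Pair n → ℝ) → (Fin n → ℝ) → ℝ}
    (h : ∀ x, Measurable fun g => f g (hat n x)) (x : Cube n) :
    Measurable fun g => Tk K (muG n g) (f g) (hat n x) := by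
  simp only [Tk_hat hK]
  exact measurable_sum _ fun a _ => (meas_k0 _ K x a).mul (h a)

lemma ms_Q {K : ℝ} (hK : 0 ≤ K) (c : ℝ) {f : (Pair n → ℝ) → (Fin n → ℝ) → ℝ}
    (h : ∀ x, Measurable fun g => f g (hat n x)) (x : Cube n) :
    Measurable fun g => Qs K c (muG n g) (f g) (hat n x) := by
  have key : ∀ (j : ℕ) x, Measurable fun g => (Tk K (muG n g))^[j] (f g) (hat n x) := fun j => by
    induction j with
    | zero => exact h
    | succ j ih => simpa only [Function.iterate_succ_apply'] using ms_T hK ih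
  exact Measurable.tsum fun j => (key j x).const_mul _

lemma ms_psi (L : ℝ) {K' K : ℝ} (h' : 0 ≤ K') (h : 0 ≤ K) (c : ℝ) (x : Cube n) :
    Measurable fun g => psiS (muG n g) L K' K c (hat n x) :=
  ms_T h' (f := fun g a => Qs K c (muG n g) (Tk K' (muG n g) fun a' => L * Real.sin (a ⬝ᵥ a' / L))
    (hat n x)) (fun y => ms_Q h c (f := fun g => Tk K' (muG n g) fun a' =>
      L * Real.sin (hat n y ⬝ᵥ a' / L)) (ms_T h' (f := fun _ a' => L * Real.sin (hat n y ⬝ᵥ a' / L))
        fun _ => measurable_const) x) x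

lemma ms_ev (e : SE) : e.Adm → ∀ x, Measurable fun g => e.ev (muG n g) 0 (hat n x) := by
  induction e with
  | var => exact fun _ _ => measurable_const
  | psi L K' K c => exact fun h => ms_psi L h.2.1.le h.2.2.1.le c
  | const a => exact fun _ _ => measurable_const
  | add e e' a b => exact fun h x => (a h.1 x).add (b h.2 x)
  | mul e e' a b => exact fun h x => (a h.1 x).mul (b h.2 x)
  | T K e a => exact fun h => ms_T h.1.le (f := fun g => e.ev (muG n g) 0) (a h.2)
  | Q K c e a => exact fun h => ms_Q h.1.le c (f := fun g => e.ev (muG n g) 0) (a h.2.2)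

lemma ff_inv {W : Mat n} (hW : W.IsHermitian) (N : ℝ) :
    fnK (ff N) W = ((N • ((2 : ℝ) • 1 - W)) * (N • ((2 : ℝ) • 1 - W)) + 1)⁻¹ := by
  have e := fnK_smul (A := W) N fun x : ℝ => 2 - x
  rw [fnK_sub, fnK_const hW, fnK_id_real hW] at e
  rw [← e, fnK_mul hW, ← fnK_one hW, ← fnK_add, fnK_inv hW fun _ _ =>
    (add_pos_of_nonneg_of_pos (mul_self_nonneg _) one_pos).ne']
  simp only [← sq]; rfl

lemma ms_wm (x : Cube n) : Measurable (wm n x) := by
  have c1 : Continuous fun p : Om n => (tau n • ((2 : ℝ) • 1 - Wp p)) *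
      (tau n • ((2 : ℝ) • 1 - Wp p)) + (1 : Mat n) := by
    have : Continuous fun p : Om n => Wp p :=
      (continuous_Wy n).comp (f := fun p : Om n => Sum.elim p.1 p.2)
        (continuous_pi fun i => by cases i <;> simp only [Sum.elim_inl, Sum.elim_inr] <;> fun_prop)
    fun_prop
  have c2 := c1.matrix_det.measurable.inv
  have c3 : Measurable fun p : Om n => hat n x ⬝ᵥ ((tau n • ((2 : ℝ) • 1 - Wp p)) *
      (tau n • ((2 : ℝ) • 1 - Wp p)) + (1 : Mat n)).adjugate *ᵥ hat n x :=
    (continuous_const.dotProduct (c1.matrix_adjugate.matrix_mulVec continuous_const)).measurable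
  have := measurable_const (a := (1 : ℝ)).div ((c2.mul c3).const_add 1)
  convert this using 1
  funext p
  rw [wm, fl_one, ff_inv (Wmat_isHermitian _ _), Matrix.inv_def, smul_mulVec, dotProduct_smul,
    Ring.inverse_eq_inv', smul_eq_mul]
  rfl

/-- scalars with a polynomial mark -/
def sp (q : Polynomial ℝ) (e : SE) (n : ℕ) (p : Om n) : ℝ :=
  mean (gw n p.1) fun x => q.eval (wm n x p) * e.ev (muG n p.1) 0 (hat n x)

theorem bz_sp (q : Polynomial ℝ) (e : SE) (he : e.Adm) : Bz (sp q e) := by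
  obtain ⟨B, Γ, h1, h2⟩ := ev_anS e he
  obtain ⟨B', c, c0, hq⟩ := anR_poly q
  have nd : Nl fun n _ => c * (16 * dl n ^ 2) := .of_tendsto (fun _ => by positivity)
    (by simpa using ((tendsto_dl.pow 2).const_mul 16).const_mul c)
  refine ⟨fun n => measurable_sum _ fun x _ => ((meas_prob x).comp measurable_fst).mul
    ((q.continuous.measurable.comp (ms_wm x)).mul ((ms_ev e he x).comp measurable_fst)),
    3 * (B' * B), _, (((nd.const_mul (a := 2 * B ^ 2) (by positivity)).add
      (h1.const_mul (a := 2 * B' ^ 2) (by positivity))).const_mul (a := 18) (by norm_num)).add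
      (nl_DT 0 (B' * B)), ?_⟩
  filter_upwards [h2, eventually_ge_atTop 1, tendsto_dl.eventually (ge_mem_nhds
    (by norm_num : (0 : ℝ) < 1 / 4))] with n ⟨G, g0, g1, g2⟩ hn hδ d
  refine (AnR.mean hn (rho_le d) fun x => (hq n _ _ _ _ (by positivity) (anR_mark hn hδ d x)).mul
    ((anR_iff.2 (g2 x)).mono (rho_le d) le_rfl fun _ => le_rfl)).mono (fun _ _ => le_rfl) le_rfl
    fun g => ?_
  rw [SL.mean_add, (gwt g).mean_const, SL.mean_const_mul, DT]
  have a1 := mul_le_mul_of_nonneg_left (g1 g) (by positivity : 0 ≤ 2 * B' ^ 2)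
  have a2 := mul_le_mul_of_nonneg_right (m2_Rh_le g) (by positivity : 0 ≤ (Soft.N23 n)⁻¹)
  linarith

/-- the cutoff is a continuous function of `1 / (1 + u)` -/
lemma exists_poly {l ε : ℝ} (hl : 0 ≤ l) (hε : 0 < ε) : ∃ q : Polynomial ℝ, ∀ u : ℝ, 0 ≤ u →
    |cut (l * u) - q.eval (1 / (1 + u))| ≤ ε := by
  have p : 0 < l / (l + 2) ∨ l = 0 := hl.eq_or_lt.symm.imp (fun h => by positivity) Eq.symm
  rcases p with p | rfl
  · have hc : Continuous fun w : ℝ => cut (l * (1 / max w (l / (l + 2)) - 1)) := by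
      have : Continuous fun w : ℝ => 1 / max w (l / (l + 2)) :=
        continuous_const.div (by fun_prop) fun w => (p.trans_le (le_max_right _ _)).ne'
      exact Real.smoothTransition.continuous.comp (by fun_prop)
    obtain ⟨q, hq⟩ := exists_polynomial_near_of_continuousOn 0 1 _ hc.continuousOn ε hε
    refine ⟨q, fun u hu => ?_⟩
    have := hq (1 / (1 + u)) ⟨by positivity, (div_le_one (by positivity)).2 (by linarith)⟩
    rw [abs_sub_comm]
    refine le_of_eq_of_le ?_ this.le
    congr 2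
    have l0 : 0 < l := by
      by_contra h
      rw [le_antisymm (not_lt.1 h) hl] at p; simp at p
    rcases le_total (l / (l + 2)) (1 / (1 + u)) with h | h
    · rw [max_eq_left h]; congr 2; field_simp; ring
    · rw [max_eq_right h, div_le_div_iff₀ (by positivity) (by positivity)] at *
      rw [cut, cut, Real.smoothTransition.zero_of_nonpos (by nlinarith),
        Real.smoothTransition.zero_of_nonpos (le_of_eq (by field_simp; ring))]
  · exact ⟨1, fun u _ => by simp [cut, Real.smoothTransition.one_of_one_le, hε.le]⟩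

end Ut75

open Ut75 in
/-- **universality of the scalars** -/
theorem utGlue : UtGlue := fun hB hS φ hφ => by
  rw [Metric.tendsto_nhds]
  intro ε hε
  have mφ := hφ.measurable
  obtain ⟨s, K, h0, h1, h2⟩ := id hφ
  set L := ∑ i ∈ s, |i.2.1.bd|
  have L0 : 0 ≤ L := sum_nonneg fun _ _ => abs_nonneg _
  have hd : 0 < ε / (4 * (K * L + 1)) := by positivity
  choose q hq using fun i : IS => exists_poly i.1.2 hd
  have hY := fun i : IS => bz_sp (q i) i.2.1 i.2.2
  have key : ∀ b n, |∫ p, φ (sc n p) ∂PB b n - ∫ p, φ (fun i => sp (q i) i.2.1 n p) ∂PB b n| ≤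
      ε / 4 + 2 * K * 0 := fun b n => by
    refine Soft.abs_integral_sub_le _
      (mφ.comp (measurable_pi_lambda _ (hS n))).aestronglyMeasurable
      (mφ.comp (measurable_pi_lambda _ fun i => (hY i).meas n)).aestronglyMeasurable h0
      (by positivity) le_rfl (fun _ => h1 _) (fun _ => h1 _) (S := ∅) (by simp)
      fun p _ => (h2 _ _).trans ?_
    have a : ∀ i : IS, |sc n p i - sp (q i) i.2.1 n p| ≤ ε / (4 * (K * L + 1)) * |i.2.1.bd| := by
      intro i
      have := Lnk10.isProb_dm (gw_pos p.1) (hat n)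
      have b := (hB _ (muG n p.1) this).2 0 ⟨measurable_const, by simp⟩ i.2.1 i.2.2
      rw [sc, mk, muG, Lnk10.integral_dm fun x => (gw_pos p.1 x).le, sp, ← SL.mean_sub]
      refine abs_ker_le (prob_nn (gw_pos p.1)) (sum_prob (gw_pos p.1)) fun x => ?_
      rw [muG, ← sub_mul, abs_mul]
      refine mul_le_mul (hq i _ ?_) ((b.2 _).trans (le_abs_self _)) (abs_nonneg _) hd.le
      rw [fl_one]; exact quad_nn (ff_nn _) _ _
    refine (mul_le_mul_of_nonneg_left (sum_le_sum fun i _ => a i) h0).trans ?_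
    rw [← mul_sum, mul_left_comm, div_mul_eq_mul_div, div_le_div_iff₀ (by positivity) (by norm_num)]
    nlinarith
  filter_upwards [Metric.tendsto_nhds.1 (Bz.cyl (Y := fun n p i => sp (q i) i.2.1 n p) hY φ hφ)
    (ε / 2) (half_pos hε)] with n hn
  have k0 := abs_le.1 (key false n)
  have k1 := abs_le.1 (key true n)
  rw [Real.dist_eq, sub_zero, abs_lt] at hn ⊢
  constructor <;> linarith [k0.1, k0.2, k1.1, k1.2, hn.1, hn.2]

end Crest.Agent.T157.Cq

end
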