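import Crest.Agent.T157.PlC_37
import Crest.Agent.T157.ConcT_16
import Crest.Agent.R146.Lind1_878

/-!
# Row 157, part E: the planted model, D (helper37)

Lower tails of `Z / E Z` for both coupling laws, second moments, transfers in both directions.
-/

set_option autoImplicit false
set_option linter.unusedSectionVars false

noncomputable section

namespace Crest.Agent.T157.Pl

open MeasureTheory ProbabilityTheory Matrix Real Set Filter Topology
open Crest.ProbabilityR.SpinGlassDynamics Crest.Agent.T157.E Crest.Agent.T157.SL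

/-! ### one-sided replacement -/

theorem swap_le {ι : Type*} [Fintype ι] [DecidableEq ι] {μ ν : Measure ℝ} [IsProbabilityMeasure μ]
    [IsProbabilityMeasure ν] (hμ : Integrable (fun t : ℝ => t) μ) (hν : Integrable (fun t : ℝ => t) ν)
    {F : (ι → ℝ) → ℝ} (hF : Measurable F) (K : ℝ) (hK : ∀ x, |F x| ≤ K * (1 + ∑ i, |x i|)) (ε : ι → ℝ)
    (h : ∀ i x, ∫ t, F (Function.update x i t) ∂μ ≤ ∫ t, F (Function.update x i t) ∂ν + ε i) :
    ∫ x, F x ∂(Measure.pi fun _ : ι => μ) ≤ ∫ x, F x ∂(Measure.pi fun _ : ι => ν) + ∑ i, ε i := by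
  let H : Finset ι → ι → Measure ℝ := fun S i => if i ∈ S then μ else ν
  have hHp : ∀ S i, IsProbabilityMeasure (H S i) := fun S i => by
    simp only [H]; split_ifs <;> infer_instance
  have hFi : ∀ S, Integrable F (Measure.pi (H S)) := fun S =>
    R146L878.integrable_of_growth (H S) (fun i => by simp only [H]; split_ifs; exacts [hμ, hν]) F hF K hK
  have main : ∀ S : Finset ι, ∫ x, F x ∂(Measure.pi (H S)) ≤
      ∫ x, F x ∂(Measure.pi fun _ : ι => ν) + ∑ i ∈ S, ε i := fun S => by
    induction S using Finset.induction_on with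
    | empty => simp [H]
    | insert i S hi ih =>
      have e1 : H (insert i S) = Function.update (H S) i μ := by
        funext j
        rcases eq_or_ne j i with rfl | hj
        · simp [H]
        · simp [H, hj]
      have e2 : H S = Function.update (H S) i ν := by
        funext j
        rcases eq_or_ne j i with rfl | hj
        · simp [H, hi]
        · simp [Function.update_of_ne hj]
      obtain ⟨i1, j1⟩ := R146L878.integral_update (H S) i μ F hF (by rw [← e1]; exact hFi _)
      obtain ⟨i2, j2⟩ := R146L878.integral_update (H S) i ν F hF (by rw [← e2]; exact hFi _)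
      rw [← e1] at i1
      rw [← e2] at i2
      have := integral_mono j1 (j2.add (integrable_const (ε i))) (h i)
      rw [integral_add' j2 (integrable_const _), ← i1, ← i2] at this
      simp only [integral_const, probReal_univ, smul_eq_mul, one_mul] at this
      rw [Finset.sum_insert hi]
      linarith
  simpa [H] using main Finset.univ

lemma integrable_id_entry (b : Bool) : Integrable (fun t : ℝ => t) (entryLaw b) := by
  cases b
  exacts [R339.Guerra.integrable_id_γ, integrable_coin _]

/-- one coordinate: Gaussian against `±1` -/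
lemma log_two_exp_le {A B θ : ℝ} (hA : 0 ≤ A) (hB : 0 ≤ B) (hAB : 0 < A + B) (hθ : θ ^ 2 ≤ 1 / 2)
    (hI : Integrable (fun t => log (A * exp (θ * t) + B * exp (-(θ * t)))) (entryLaw false)) :
    ∫ t, log (A * exp (θ * t) + B * exp (-(θ * t))) ∂entryLaw false ≤
      ∫ t, log (A * exp (θ * t) + B * exp (-(θ * t))) ∂entryLaw true + θ ^ 4 := by
  set φ : ℝ → ℝ := fun t => log (A * exp (θ * t) + B * exp (-(θ * t))) with hφ
  have pos : ∀ t, 0 < A * exp (θ * t) + B * exp (-(θ * t)) := fun t => by
    rcases hA.eq_or_lt with rfl | h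
    · rw [zero_add] at hAB; positivity
    · positivity
  set P : ℝ → ℝ := fun t => A ^ 2 + B ^ 2 + A * B * (exp (2 * θ * t) + exp (-(2 * θ) * t)) with hP
  have e : ∀ t, (A * exp (θ * t) + B * exp (-(θ * t))) * (A * exp (θ * -t) + B * exp (-(θ * -t))) =
      P t := fun t => by
    have h1 : exp (θ * t) * exp (-(θ * t)) = 1 := by rw [← exp_add]; simp
    have h2 : exp (2 * θ * t) = exp (θ * t) ^ 2 := by rw [← exp_nat_mul]; congr 1; ring
    have h3 : exp (-(2 * θ) * t) = exp (-(θ * t)) ^ 2 := by rw [← exp_nat_mul]; congr 1; ring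
    simp only [hP, mul_neg, neg_neg, h2, h3]
    linear_combination (A ^ 2 + B ^ 2) * h1
  have e' : ∀ t, φ t + φ (-t) = log (P t) := fun t => by
    rw [← e, log_mul (pos _).ne' (pos _).ne']
  have P0 : ∀ t, 0 < P t := fun t => e t ▸ mul_pos (pos _) (pos _)
  have mp : MeasurePreserving (fun t : ℝ => -t) (entryLaw false) (entryLaw false) :=
    ⟨measurable_neg, entry_map_neg false⟩
  have hI' : Integrable (fun t => φ (-t)) (entryLaw false) := mp.integrable_comp_of_integrable hI
  have i1 := integrable_exp_entry false (2 * θ)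
  have i2 := integrable_exp_entry false (-(2 * θ))
  have iP : Integrable P (entryLaw false) := (integrable_const _).add ((i1.add i2).const_mul _)
  have EP : ∫ t, P t ∂entryLaw false = A ^ 2 + B ^ 2 + A * B * (2 * exp (2 * θ ^ 2)) := by
    simp only [hP]
    rw [integral_add (integrable_const _) ((i1.fun_add i2).const_mul _), integral_const_mul,
      integral_add i1 i2, integral_exp_entry, integral_exp_entry, M_neg, M_false]
    simp only [integral_const, probReal_univ, smul_eq_mul, one_mul]
    rw [show (2 * θ) ^ 2 / 2 = 2 * θ ^ 2 by ring]; ring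
  have h1 := integral_mono (hI.add hI') ((iP.div_const (P 1)).add (integrable_const (log (P 1) - 1)))
    fun t => by
      have := log_le_sub_one_of_pos (div_pos (P0 t) (P0 1))
      rw [log_div (P0 t).ne' (P0 1).ne'] at this
      simp only [Pi.add_apply, e']
      linarith [e' t]
  rw [integral_add' hI hI', R339.Guerra.mp_int mp hI.1, integral_add' (iP.div_const _)
    (integrable_const _), integral_div, EP] at h1
  simp only [integral_const, probReal_univ, smul_eq_mul, one_mul] at h1
  rw [entryLaw_true, integral_coin, e']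
  have h2 : 2 + 4 * θ ^ 2 ≤ exp (2 * θ * 1) + exp (-(2 * θ) * 1) := by
    have := cosh_eq (2 * θ)
    have h3 : 1 + (2 * θ) ^ 2 / 2 ≤ cosh (2 * θ) := by
      have h0 : |θ| ≤ |sinh θ| := by
        rw [abs_sinh]; exact self_le_sinh_iff.2 (abs_nonneg θ)
      rw [cosh_two_mul, cosh_sq']
      nlinarith [sq_le_sq.2 h0]
    simp only [mul_one]
    linarith
  have h3 : exp (2 * θ ^ 2) ≤ 1 + 2 * θ ^ 2 + 4 * θ ^ 4 := by
    have := (abs_le.1 (abs_exp_sub_one_sub_id_le (x := 2 * θ ^ 2)
      (by rw [abs_of_nonneg (by positivity)]; linarith))).2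
    nlinarith
  have h4 : (A ^ 2 + B ^ 2 + A * B * (2 * exp (2 * θ ^ 2))) / P 1 ≤ 1 + 2 * θ ^ 4 := by
    rw [div_le_iff₀ (P0 1)]
    have hab := mul_nonneg hA hB
    have h5 : 4 * (A * B) ≤ P 1 := by
      simp only [hP]; nlinarith [sq_nonneg (A - B), mul_le_mul_of_nonneg_left h2 hab, sq_nonneg θ]
    have h6 : A ^ 2 + B ^ 2 + A * B * (2 + 4 * θ ^ 2) ≤ P 1 := by
      simp only [hP]; nlinarith [mul_le_mul_of_nonneg_left h2 hab]
    nlinarith [mul_le_mul_of_nonneg_left h3 hab, mul_le_mul_of_nonneg_left h5 (by positivity : 0 ≤ θ ^ 4)]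
  linarith

variable {n : ℕ}

lemma abs_log_Z_le (β : ℝ) (g : Pair n → ℝ) :
    |log (Zw (gibbsWeight n β g))| ≤ (n * log 2 + |th n β|) * (1 + ∑ p, |g p|) := by
  have h := abs_log_sum_le (wt_one (Ω := Cube n)) (E := fun x => g ⬝ᵥ th n β • tau x)
    (S := |th n β| * ∑ p, |g p|) fun x => by
      rw [dotProduct_smul, smul_eq_mul, abs_mul]
      refine mul_le_mul_of_nonneg_left ((Finset.abs_sum_le_sum_abs _ _).trans_eq
        (Finset.sum_congr rfl fun p _ => ?_)) (abs_nonneg _)
      rcases isSign_tau x p with e | e <;> simp [e]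
  simp only [one_mul, ← gibbsWeight_eq, Finset.sum_const, Finset.card_univ, nsmul_eq_mul, mul_one,
    card_cube, log_pow] at h
  have h2 : (0 : ℝ) ≤ n * log 2 := mul_nonneg (Nat.cast_nonneg n) (log_nonneg one_le_two)
  have h3 : 0 ≤ ∑ p, |g p| := Finset.sum_nonneg fun _ _ => abs_nonneg _
  have := abs_sub_abs_le_abs_sub (log (Zw (gibbsWeight n β g))) (n * log 2)
  rw [abs_of_nonneg h2] at this
  simp only [Zw] at this ⊢
  nlinarith [abs_nonneg (th n β), mul_nonneg h2 h3]

lemma continuous_log_Z (β : ℝ) : Continuous fun g => log (Zw (gibbsWeight n β g)) :=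
  (continuous_Z β).log fun g => (Z_pos β g).ne'

lemma integrable_log_Z' (b : Bool) (β : ℝ) :
    Integrable (fun g => log (Zw (gibbsWeight n β g))) (couplingLaw b n) := by
  rw [couplingLaw_eq]
  exact R146L878.integrable_of_growth _ (fun _ => integrable_id_entry b) _
    (continuous_log_Z β).measurable _ (abs_log_Z_le β)

lemma integrable_log_LR (b : Bool) (β : ℝ) :
    Integrable (fun g => log (LR b n β g)) (couplingLaw b n) := by
  simp only [log_LR]; exact (integrable_log_Z' b β).sub (integrable_const _)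

lemma DD_eq (b : Bool) (n : ℕ) (β : ℝ) :
    DD b n β = log (EZ b n β) - ∫ g, log (Zw (gibbsWeight n β g)) ∂couplingLaw b n := by
  simp only [DD, log_LR]
  rw [integral_sub (integrable_log_Z' b β) (integrable_const _)]
  simp

lemma Z_update (β : ℝ) (g : Pair n → ℝ) (p : Pair n) : ∃ A B : ℝ, 0 ≤ A ∧ 0 ≤ B ∧ 0 < A + B ∧ ∀ t,
    Zw (gibbsWeight n β (Function.update g p t)) =
      A * exp (th n β * t) + B * exp (-(th n β * t)) := by
  have e : ∀ t x, gibbsWeight n β (Function.update g p t) x =
      gibbsWeight n β (Function.update g p 0) x * exp (th n β * t * tau x p) := fun t x => by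
    have : Function.update g p t = Function.update g p 0 + Pi.single p t := by
      funext q; rcases eq_or_ne q p with rfl | h <;> simp [*]
    rw [gibbsWeight_eq, gibbsWeight_eq, ← exp_add, this, add_dotProduct, single_dotProduct]
    simp only [Pi.smul_apply, smul_eq_mul]
    ring_nf
  refine ⟨∑ x with tau x p = 1, gibbsWeight n β (Function.update g p 0) x,
    ∑ x with ¬tau x p = 1, gibbsWeight n β (Function.update g p 0) x,
    Finset.sum_nonneg fun _ _ => (gibbsWeight_pos _ _ _).le,
    Finset.sum_nonneg fun _ _ => (gibbsWeight_pos _ _ _).le, ?_, fun t => ?_⟩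
  · rw [Finset.sum_filter_add_sum_filter_not]; exact Z_pos _ _
  · rw [Zw, ← Finset.sum_filter_add_sum_filter_not Finset.univ fun x => tau x p = 1,
      Finset.sum_mul, Finset.sum_mul]
    congr 1
    · exact Finset.sum_congr rfl fun x hx => by rw [e, (Finset.mem_filter.1 hx).2, mul_one]
    · exact Finset.sum_congr rfl fun x hx => by
        rw [e, (isSign_tau x p).resolve_left (Finset.mem_filter.1 hx).2, mul_neg_one]

theorem integral_log_Z_false_le {β : ℝ} (h : β ^ 2 ≤ 1) :
    ∫ g, log (Zw (gibbsWeight n β g)) ∂couplingLaw false n ≤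
      ∫ g, log (Zw (gibbsWeight n β g)) ∂couplingLaw true n + 1 / 2 := by
  rw [couplingLaw_eq, couplingLaw_eq]
  refine (swap_le (integrable_id_entry false) (integrable_id_entry true)
    (continuous_log_Z β).measurable _ (abs_log_Z_le β) (fun _ => th n β ^ 4) fun p g => ?_).trans ?_
  · obtain ⟨A, B, hA, hB, hAB, e⟩ := Z_update β g p
    have hn : (2 : ℝ) ≤ n := by
      have := p.2
      have := p.1.2.2
      exact_mod_cast (show 2 ≤ n by omega)
    simp only [e]
    refine log_two_exp_le hA hB hAB (by rw [th_sq, div_le_iff₀ (by linarith)]; linarith) ?_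
    simp only [← e]
    refine (((integrable_const (1 + ∑ q, |g q|)).add (integrable_id_entry false).abs).const_mul
      (n * log 2 + |th n β|)).mono' ((continuous_log_Z β).comp (by fun_prop)).aestronglyMeasurable
        (.of_forall fun t => (abs_log_Z_le β _).trans ?_)
    refine mul_le_mul_of_nonneg_left ?_ (by positivity)
    rw [Pi.add_apply, add_assoc, add_le_add_iff_left]
    refine (Finset.sum_le_sum (g := fun q => |g q| + if q = p then |t| else 0) fun q _ => ?_).trans
      (by simp [Finset.sum_add_distrib])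
    rcases eq_or_ne q p with rfl | h <;> simp [*]
  · rw [add_le_add_iff_left, Finset.sum_const, Finset.card_univ, nsmul_eq_mul, card_pair,
      show th n β ^ 4 = (th n β ^ 2) ^ 2 by ring, th_sq]
    rcases Nat.eq_zero_or_pos n with rfl | hn
    · simp
    have hn' : (0 : ℝ) < n := Nat.cast_pos.2 hn
    have h4 : (β ^ 2) ^ 2 ≤ 1 := pow_le_one₀ (sq_nonneg _) h
    rw [div_pow, div_mul_div_comm, div_le_div_iff₀ (by positivity) two_pos]
    nlinarith [mul_le_mul_of_nonneg_left h4 (sq_nonneg (n : ℝ)), mul_nonneg hn'.le (sq_nonneg (β ^ 2))]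

lemma EZ_le (b : Bool) (n : ℕ) (β : ℝ) : EZ b n β ≤ EZ false n β := by
  unfold EZ
  gcongr
  exacts [(M_pos _ _).le, M_le _ _]

theorem DD_le_false (b : Bool) (n : ℕ) {β : ℝ} (h : β ^ 2 ≤ 1) : DD b n β ≤ DD false n β + 1 / 2 := by
  cases b
  · linarith
  · rw [DD_eq, DD_eq]
    linarith [integral_log_Z_false_le (n := n) h, log_le_log (EZ_pos true n β) (EZ_le true n β)]

theorem DD_le (b : Bool) (n : ℕ) {β : ℝ} (h0 : 0 ≤ β) (h1 : β < 1) :
    DD b n β ≤ log (2 / (1 - β ^ 2)) ^ 2 / 4 + 1 / 2 := by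
  linarith [DD_le_false b n (pow_le_one₀ h0 h1.le : β ^ 2 ≤ 1), DD_false_le n h0 h1]

theorem DD_le_crit (b : Bool) (n : ℕ) {β : ℝ} (h0 : 0 ≤ β) (h1 : β ≤ 1) :
    DD b n β ≤ log (2 * n) ^ 2 / 4 + 3 / 4 := by
  linarith [DD_le_false b n (pow_le_one₀ h0 h1 : β ^ 2 ≤ 1), DD_false_le_crit n h0 h1]

/-! ### lower tails -/

theorem tail_LR (b : Bool) (β : ℝ) {A : ℝ} (hA : 1 < A) :
    (couplingLaw b n).real {g | LR b n β g < exp (-A)} ≤ DD b n β / (A - 1) := by
  have hI : Integrable (fun g => LR b n β g - 1 - log (LR b n β g)) (couplingLaw b n) :=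
    ((integrable_LR b β).sub (integrable_const 1)).sub (integrable_log_LR b β)
  have h := mul_meas_ge_le_integral_of_nonneg (.of_forall fun g =>
    sub_nonneg.2 (log_le_sub_one_of_pos (LR_pos b β g))) hI (A - 1)
  have i1 : Integrable (fun g => LR b n β g - 1) (couplingLaw b n) :=
    (integrable_LR b β).sub (integrable_const 1)
  rw [integral_sub i1 (integrable_log_LR b β),
    integral_sub (integrable_LR b β) (integrable_const 1), integral_LR] at h
  rw [le_div_iff₀' (by linarith)]
  refine le_trans (mul_le_mul_of_nonneg_left (measureReal_mono fun g hg => ?_) (by linarith))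
    (h.trans_eq (by simp [DD]))
  have := (log_lt_iff_lt_exp (LR_pos b β g)).2 hg
  have := LR_pos b β g
  simp only [mem_ofPred_eq]
  linarith

lemma DD_nonneg (b : Bool) (n : ℕ) (β : ℝ) : 0 ≤ DD b n β := by
  have := tail_LR (n := n) b β one_lt_two
  linarith [measureReal_nonneg (μ := couplingLaw b n) (s := {g | LR b n β g < exp (-2)})]

/-- high temperature: `Z / E Z` is tight away from `0`, uniformly in `n` -/
theorem tight_LR (b : Bool) {β : ℝ} (h0 : 0 ≤ β) (h1 : β < 1) {ε : ℝ} (hε : 0 < ε) :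
    ∃ η > 0, ∀ n, (couplingLaw b n).real {g | LR b n β g < η} ≤ ε := by
  set C := log (2 / (1 - β ^ 2)) ^ 2 / 4 + 1 / 2
  have hC : 0 < C := by positivity
  refine ⟨exp (-(C / ε + 1)), exp_pos _, fun n => (tail_LR b β (by
    linarith [div_pos hC hε])).trans ?_⟩
  rw [add_sub_cancel_right, div_le_iff₀ (div_pos hC hε), mul_div_cancel₀ _ hε.ne']
  exact DD_le b n h0 h1

theorem tendsto_LR_lt (b : Bool) {β : ℝ} (h0 : 0 ≤ β) (h1 : β < 1) {η : ℕ → ℝ}
    (hη : Tendsto η atTop (𝓝 0)) :
    Tendsto (fun n => (couplingLaw b n).real {g | LR b n β g < η n}) atTop (𝓝 0) := by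
  refine tendsto_order.2 ⟨fun a ha => .of_forall fun n => ha.trans_le measureReal_nonneg,
    fun ε hε => ?_⟩
  obtain ⟨η0, h2, h3⟩ := tight_LR b h0 h1 (half_pos hε)
  filter_upwards [(tendsto_order.1 hη).2 η0 h2] with n hn
  exact ((measureReal_mono fun g hg => lt_trans hg hn).trans (h3 n)).trans_lt (half_lt_self hε)

/-- up to the critical temperature: `Z / E Z ≥ exp (-A n)` as soon as `log² n = o (A n)` -/
theorem tendsto_LR_lt_exp (b : Bool) {β : ℝ} (h0 : 0 ≤ β) (h1 : β ≤ 1) {A : ℕ → ℝ}
    (hA : Tendsto (fun n => A n / log n ^ 2) atTop atTop) :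
    Tendsto (fun n => (couplingLaw b n).real {g | LR b n β g < exp (-A n)}) atTop (𝓝 0) := by
  refine squeeze_zero' (.of_forall fun _ => measureReal_nonneg) ?_
    (hA.inv_tendsto_atTop.const_mul 4 |>.trans_eq (by simp))
  filter_upwards [hA.eventually_ge_atTop 2, eventually_ge_atTop 3] with n h2 h3
  have hn : (3 : ℝ) ≤ n := by exact_mod_cast h3
  have hl : 1 ≤ log (n : ℝ) := by
    rw [le_log_iff_exp_le (by linarith)]; linarith [exp_one_lt_d9]
  have hl2 : 1 ≤ log (n : ℝ) ^ 2 := one_le_pow₀ hl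
  rw [le_div_iff₀ (by positivity)] at h2
  refine (tail_LR b β (by linarith)).trans ?_
  have h4 : log (2 * n : ℝ) ≤ 2 * log n := by
    rw [log_mul two_ne_zero (by linarith)]; linarith [log_le_log two_pos (by linarith : (2 : ℝ) ≤ n)]
  have h5 : log (2 * n : ℝ) ^ 2 ≤ (2 * log n) ^ 2 :=
    pow_le_pow_left₀ (log_nonneg (by linarith)) h4 2
  have h6 := DD_le_crit b n h0 h1
  rw [Pi.inv_apply, inv_div, ← mul_div_assoc, div_le_div_iff₀ (by linarith) (by linarith)]
  nlinarith [DD_nonneg b n β]

theorem tendsto_LR_lt_rpow (b : Bool) {β : ℝ} (h0 : 0 ≤ β) (h1 : β ≤ 1) {c : ℝ} (hc : 0 < c) :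
    Tendsto (fun n : ℕ => (couplingLaw b n).real {g | LR b n β g < exp (-(n : ℝ) ^ c)}) atTop (𝓝 0) := by
  refine tendsto_LR_lt_exp b h0 h1 ?_
  have h := ((isLittleO_log_rpow_rpow_atTop 2 hc).tendsto_div_nhds_zero).comp
    tendsto_natCast_atTop_atTop
  have h2 : Tendsto (fun n : ℕ => log n ^ (2 : ℝ) / (n : ℝ) ^ c) atTop (𝓝[>] 0) := by
    refine tendsto_nhdsWithin_iff.2 ⟨h, ?_⟩
    filter_upwards [eventually_ge_atTop 2] with n hn
    have : (1 : ℝ) < n := by exact_mod_cast hn
    exact div_pos (rpow_pos_of_pos (log_pos this) _) (by positivity)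
  refine h2.inv_tendsto_nhdsGT_zero.congr fun n => ?_
  simp

end Crest.Agent.T157.Pl

end
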