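import Crest.Agent.T157.Soft_45
import Crest.Agent.T157.LlAll_91
import Crest.Agent.T157.PlD_37
import Crest.Agent.T157.TopA_50

/-!
# Row 157, part A: the slow observable at criticality, unconditionally (helper45)
-/

set_option autoImplicit false

namespace Crest.Agent.T157.Soft45

theorem lrTail : LRTail := fun _ hc => Pl.tendsto_LR_lt_rpow false zero_le_one le_rfl hc

theorem softCritAll : Top.SoftCrit := softCrit Ll.mscApi Ll.All.isoStmt Ll.instApi lrTail

theorem slowCrit : Top.SlowCrit := TopA.gSlow softCritAll

end Crest.Agent.T157.Soft45
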