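import Crest.Agent.T157.StDef_87

/-!
# Row 157, part C4: two modes bound the shell probability (`TwoStmt`) (helper90)
-/

set_option autoImplicit false

noncomputable section

namespace Crest.Agent.T157.St.Two90

open MeasureTheory ProbabilityTheory Matrix Filter Topology Finset Real
open scoped ENNReal NNReal

lemma vol_cdisc (u : ℝ) :
    (volume : Measure (ℝ × ℝ)) {p | p.1 ^ 2 + p.2 ^ 2 ≤ u} = ENNReal.ofReal (π * u) := by
  rcases lt_or_ge u 0 with hu | hu
  · have : {p : ℝ × ℝ | p.1 ^ 2 + p.2 ^ 2 ≤ u} = ∅ := by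
      ext p
      simp only [Set.mem_ofPred_eq, Set.mem_empty_iff_false, iff_false, not_le]
      nlinarith [sq_nonneg p.1, sq_nonneg p.2]
    rw [this, measure_empty, ENNReal.ofReal_of_nonpos (by nlinarith [pi_pos])]
  · have hm : MeasurableSet {p : ℝ × ℝ | p.1 ^ 2 + p.2 ^ 2 ≤ u} :=
      measurableSet_le (by fun_prop) (by fun_prop)
    rw [← Complex.volume_preserving_equiv_real_prod.measure_preimage hm.nullMeasurableSet]
    have : Complex.measurableEquivRealProd ⁻¹' {p : ℝ × ℝ | p.1 ^ 2 + p.2 ^ 2 ≤ u} =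
        Metric.closedBall 0 √u := by
      ext z
      simp only [Set.mem_preimage, Complex.measurableEquivRealProd_apply, Set.mem_ofPred_eq,
        mem_closedBall_zero_iff]
      rw [Real.le_sqrt (norm_nonneg z) hu, Complex.sq_norm, Complex.normSq_apply]
      constructor <;> intro h <;> nlinarith
    rw [this, Complex.volume_closedBall, ← ENNReal.ofReal_pow (sqrt_nonneg u), sq_sqrt hu,
      mul_comm π u, ENNReal.ofReal_mul hu, ← NNReal.coe_real_pi, ENNReal.ofReal_coe_nnreal]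

lemma vol_odisc {u : ℝ} (hu : 0 ≤ u) :
    (volume : Measure (ℝ × ℝ)) {p | p.1 ^ 2 + p.2 ^ 2 < u} = ENNReal.ofReal (π * u) := by
  have hm : MeasurableSet {p : ℝ × ℝ | p.1 ^ 2 + p.2 ^ 2 < u} :=
    measurableSet_lt (by fun_prop) (by fun_prop)
  rw [← Complex.volume_preserving_equiv_real_prod.measure_preimage hm.nullMeasurableSet]
  have : Complex.measurableEquivRealProd ⁻¹' {p : ℝ × ℝ | p.1 ^ 2 + p.2 ^ 2 < u} =
      Metric.ball 0 √u := by
    ext z
    simp only [Set.mem_preimage, Complex.measurableEquivRealProd_apply, Set.mem_ofPred_eq,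
      mem_ball_zero_iff]
    rw [Real.lt_sqrt (norm_nonneg z), Complex.sq_norm, Complex.normSq_apply]
    constructor <;> intro h <;> nlinarith
  rw [this, Complex.volume_ball, ← ENNReal.ofReal_pow (sqrt_nonneg u), sq_sqrt hu,
    mul_comm π u, ENNReal.ofReal_mul hu, ← NNReal.coe_real_pi, ENNReal.ofReal_coe_nnreal]

/-- planar annulus -/
def ann (s ε : ℝ) : Set (ℝ × ℝ) := {p | s ≤ p.1 ^ 2 + p.2 ^ 2 ∧ p.1 ^ 2 + p.2 ^ 2 ≤ s + ε}

lemma ms_ann (s ε : ℝ) : MeasurableSet (ann s ε) := by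
  have : Measurable fun p : ℝ × ℝ => p.1 ^ 2 + p.2 ^ 2 := by fun_prop
  exact (measurableSet_le measurable_const this).inter (measurableSet_le this measurable_const)

lemma vol_ann_eq {s ε : ℝ} (hs : 0 ≤ s) (hε : 0 ≤ ε) :
    volume (ann s ε) = ENNReal.ofReal (π * ε) := by
  have e : ann s ε = {p : ℝ × ℝ | p.1 ^ 2 + p.2 ^ 2 ≤ s + ε} \ {p | p.1 ^ 2 + p.2 ^ 2 < s} := by
    ext p
    simp only [ann, Set.mem_ofPred_eq, Set.mem_sdiff, not_lt]
    tauto
  have hm : MeasurableSet {p : ℝ × ℝ | p.1 ^ 2 + p.2 ^ 2 < s} :=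
    measurableSet_lt (by fun_prop) (by fun_prop)
  rw [e, measure_sdiff _ hm.nullMeasurableSet, vol_cdisc, vol_odisc hs,
    ← ENNReal.ofReal_sub _ (by positivity)]
  · congr 1; ring
  · rw [vol_odisc hs]; exact ENNReal.ofReal_ne_top
  · intro p hp
    simp only [Set.mem_ofPred_eq] at hp ⊢
    linarith

lemma vol_ann_le (s : ℝ) {ε : ℝ} (hε : 0 ≤ ε) :
    volume (ann s ε) ≤ ENNReal.ofReal (π * ε) := by
  rcases le_total 0 s with hs | hs
  · exact (vol_ann_eq hs hε).le
  · calc volume (ann s ε) ≤ (volume : Measure (ℝ × ℝ)) {p | p.1 ^ 2 + p.2 ^ 2 ≤ ε} :=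
          measure_mono fun p hp => by
            have := hp.2
            simp only [Set.mem_ofPred_eq]
            linarith
      _ = _ := vol_cdisc ε

lemma gauss2 (m₁ m₂ : ℝ) {c₁ c₂ : ℝ} (h₁ : 0 < c₁) (h₂ : 0 < c₂) {S : Set (ℝ × ℝ)}
    (hS : MeasurableSet S) :
    ((gaussianReal m₁ c₁.toNNReal).prod (gaussianReal m₂ c₂.toNNReal)) S =
      ∫⁻ p in S, gaussianPDF m₁ c₁.toNNReal p.1 * gaussianPDF m₂ c₂.toNNReal p.2 := by
  rw [gaussianReal_of_var_ne_zero _ (by simpa using h₁),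
    gaussianReal_of_var_ne_zero _ (by simpa using h₂),
    prod_withDensity (measurable_gaussianPDF _ _) (measurable_gaussianPDF _ _),
    withDensity_apply _ hS]
  rfl

lemma pdf2 (m₁ m₂ : ℝ) {c₁ c₂ : ℝ} (h₁ : 0 < c₁) (h₂ : 0 < c₂) (a b : ℝ) :
    gaussianPDF m₁ c₁.toNNReal a * gaussianPDF m₂ c₂.toNNReal b =
      ENNReal.ofReal ((2 * π * √(c₁ * c₂))⁻¹ *
        exp (-((a - m₁) ^ 2 / (2 * c₁) + (b - m₂) ^ 2 / (2 * c₂)))) := by
  unfold gaussianPDF
  rw [← ENNReal.ofReal_mul (gaussianPDFReal_nonneg _ _ _)]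
  congr 1
  unfold gaussianPDFReal
  rw [Real.coe_toNNReal _ h₁.le, Real.coe_toNNReal _ h₂.le]
  have e : √(2 * π * c₁) * √(2 * π * c₂) = 2 * π * √(c₁ * c₂) := by
    rw [← Real.sqrt_mul (by positivity),
      show 2 * π * c₁ * (2 * π * c₂) = (2 * π) ^ 2 * (c₁ * c₂) by ring,
      Real.sqrt_mul (by positivity), Real.sqrt_sq (by positivity)]
  rw [← e, neg_add, Real.exp_add, mul_inv, neg_div, neg_div]
  ring

lemma ann_up (m₁ m₂ : ℝ) {c₁ c₂ : ℝ} (h₁ : 0 < c₁) (h₂ : 0 < c₂) (s : ℝ) {ε : ℝ} (hε : 0 ≤ ε) :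
    ((gaussianReal m₁ c₁.toNNReal).prod (gaussianReal m₂ c₂.toNNReal)) (ann s ε) ≤
      ENNReal.ofReal (ε / (2 * √(c₁ * c₂))) := by
  have hq : 0 < √(c₁ * c₂) := by positivity
  rw [gauss2 _ _ h₁ h₂ (ms_ann s ε)]
  calc _ ≤ ∫⁻ _p in ann s ε, ENNReal.ofReal ((2 * π * √(c₁ * c₂))⁻¹) := by
        refine lintegral_mono fun p => ?_
        rw [pdf2 _ _ h₁ h₂]
        refine ENNReal.ofReal_le_ofReal ?_
        refine mul_le_of_le_one_right (by positivity) ?_
        rw [Real.exp_le_one_iff, neg_nonpos]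
        positivity
    _ = ENNReal.ofReal ((2 * π * √(c₁ * c₂))⁻¹) * volume (ann s ε) := setLIntegral_const _ _
    _ ≤ ENNReal.ofReal ((2 * π * √(c₁ * c₂))⁻¹) * ENNReal.ofReal (π * ε) := by
        gcongr; exact vol_ann_le s hε
    _ = _ := by
        rw [← ENNReal.ofReal_mul (by positivity)]
        congr 1
        field_simp

lemma ann_lo {c₁ c₂ : ℝ} (h₁ : 0 < c₁) (h₂ : 0 < c₂) {s ε M : ℝ} (hs : 0 ≤ s) (hM : s ≤ M)
    (hε : 0 ≤ ε) :
    ENNReal.ofReal (ε / (2 * √(c₁ * c₂)) * exp (-((M + ε) / (2 * min c₁ c₂)))) ≤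
      ((gaussianReal 0 c₁.toNNReal).prod (gaussianReal 0 c₂.toNNReal)) (ann s ε) := by
  have hq : 0 < √(c₁ * c₂) := by positivity
  have hm : 0 < min c₁ c₂ := lt_min h₁ h₂
  rw [gauss2 _ _ h₁ h₂ (ms_ann s ε)]
  calc _ = ENNReal.ofReal ((2 * π * √(c₁ * c₂))⁻¹ * exp (-((M + ε) / (2 * min c₁ c₂)))) *
          volume (ann s ε) := by
        rw [vol_ann_eq hs hε, ← ENNReal.ofReal_mul (by positivity)]
        congr 1
        field_simp
    _ = ∫⁻ _p in ann s ε,
          ENNReal.ofReal ((2 * π * √(c₁ * c₂))⁻¹ * exp (-((M + ε) / (2 * min c₁ c₂)))) :=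
        (setLIntegral_const _ _).symm
    _ ≤ _ := by
        refine setLIntegral_mono' (ms_ann s ε) fun p hp => ?_
        rw [pdf2 _ _ h₁ h₂]
        refine ENNReal.ofReal_le_ofReal ?_
        refine mul_le_mul_of_nonneg_left (Real.exp_le_exp.2 (neg_le_neg ?_)) (by positivity)
        have a1 : (p.1 - 0) ^ 2 / (2 * c₁) ≤ p.1 ^ 2 / (2 * min c₁ c₂) := by
          rw [sub_zero]; gcongr; exact min_le_left _ _
        have a2 : (p.2 - 0) ^ 2 / (2 * c₂) ≤ p.2 ^ 2 / (2 * min c₁ c₂) := by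
          rw [sub_zero]; gcongr; exact min_le_right _ _
        have a3 : (p.1 ^ 2 + p.2 ^ 2) / (2 * min c₁ c₂) ≤ (M + ε) / (2 * min c₁ c₂) := by
          gcongr ?_ / _
          linarith [hp.2]
        rw [add_div] at a3
        linarith

variable {ι : Type} [Fintype ι] [DecidableEq ι]

lemma dot_update (x : ι → ℝ) (i : ι) (a : ℝ) :
    Function.update x i a ⬝ᵥ Function.update x i a = x ⬝ᵥ x - x i ^ 2 + a ^ 2 := by
  unfold dotProduct
  rw [← Finset.add_sum_erase _ _ (mem_univ i), ← Finset.add_sum_erase _ (fun k => x k * x k)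
    (mem_univ i), Function.update_self]
  have : ∑ k ∈ univ.erase i, Function.update x i a k * Function.update x i a k =
      ∑ k ∈ univ.erase i, x k * x k :=
    Finset.sum_congr rfl fun k hk => by rw [Function.update_of_ne (ne_of_mem_erase hk)]
  rw [this]; ring

lemma dot_update2 (x : ι → ℝ) {i j : ι} (h : i ≠ j) (a b : ℝ) :
    Function.update (Function.update x i a) j b ⬝ᵥ Function.update (Function.update x i a) j b =
      x ⬝ᵥ x - x i ^ 2 - x j ^ 2 + (a ^ 2 + b ^ 2) := by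
  rw [dot_update, dot_update, Function.update_of_ne h.symm]; ring

omit [Fintype ι] in
lemma marg2 (μ : ι → Measure ℝ) [∀ k, SigmaFinite (μ k)] {i j : ι} (h : i ≠ j)
    {f : (ι → ℝ) → ℝ≥0∞} (hf : Measurable f) (x : ι → ℝ) :
    (∫⋯∫⁻_({i, j} : Finset ι), f ∂μ) x =
      ∫⁻ p, f (Function.update (Function.update x i p.1) j p.2) ∂(μ i).prod (μ j) := by
  rw [lmarginal_insert _ hf (by simpa using h), lmarginal_singleton, lintegral_prod]
  refine (hf.comp ?_).aemeasurable
  fun_prop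

omit [DecidableEq ι] in
lemma ms_shell (s ε : ℝ) : MeasurableSet (shell s ε : Set (ι → ℝ)) := by
  have : Measurable fun x : ι → ℝ => x ⬝ᵥ x := by unfold dotProduct; fun_prop
  exact (measurableSet_le measurable_const this).inter (measurableSet_le this measurable_const)

lemma marg_shell (μ : ι → Measure ℝ) [∀ k, SigmaFinite (μ k)] {i j : ι} (h : i ≠ j)
    {G : (ι → ℝ) → ℝ≥0∞} (hG : Measurable G)
    (hi : ∀ x a b, G (Function.update (Function.update x i a) j b) = G x) (s ε : ℝ) (x : ι → ℝ) :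
    (∫⋯∫⁻_({i, j} : Finset ι), (shell s ε).indicator G ∂μ) x =
      G x * ((μ i).prod (μ j)) (ann (s - (x ⬝ᵥ x - x i ^ 2 - x j ^ 2)) ε) := by
  rw [marg2 μ h (hG.indicator (ms_shell s ε)), ← lintegral_indicator_one (ms_ann _ _),
    ← lintegral_const_mul _ (measurable_one.indicator (ms_ann _ _))]
  refine lintegral_congr fun p => ?_
  have e : Function.update (Function.update x i p.1) j p.2 ∈ (shell s ε : Set (ι → ℝ)) ↔
      p ∈ ann (s - (x ⬝ᵥ x - x i ^ 2 - x j ^ 2)) ε := by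
    simp only [shell, ann, Set.mem_ofPred_eq, dot_update2 x h]
    constructor <;> rintro ⟨h1, h2⟩ <;> constructor <;> linarith
  by_cases hp : p ∈ ann (s - (x ⬝ᵥ x - x i ^ 2 - x j ^ 2)) ε
  · rw [Set.indicator_of_mem (e.2 hp), Set.indicator_of_mem hp, hi]; simp
  · rw [Set.indicator_of_notMem (fun h' => hp (e.1 h')), Set.indicator_of_notMem hp, mul_zero]

omit [Fintype ι] in
lemma marg_inv (μ : ι → Measure ℝ) [∀ k, IsProbabilityMeasure (μ k)] {i j : ι} (h : i ≠ j)
    {G : (ι → ℝ) → ℝ≥0∞} (hG : Measurable G)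
    (hi : ∀ x a b, G (Function.update (Function.update x i a) j b) = G x) (x : ι → ℝ) :
    (∫⋯∫⁻_({i, j} : Finset ι), G ∂μ) x = G x := by
  rw [marg2 μ h hG]
  simp [hi]

end Crest.Agent.T157.St.Two90

namespace Crest.Agent.T157.St

open MeasureTheory ProbabilityTheory Matrix Filter Topology Finset Real
open scoped ENNReal NNReal
open Two90

theorem twoStmt : TwoStmt := by
  intro ι _ _ m c hc i j hij G hG hi s ε hε
  refine ⟨?_, fun hmi hmj M => ?_⟩
  · rw [← lintegral_indicator (ms_shell s ε), ← lintegral_const_mul _ hG]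
    refine lintegral_le_of_lmarginal_le {i, j} (hG.indicator (ms_shell s ε))
      (hG.const_mul _) fun x => ?_
    rw [marg_shell _ hij hG hi, marg_inv _ hij (hG.const_mul _) fun x a b => by rw [hi],
      mul_comm]
    gcongr
    exact ann_up _ _ (hc i) (hc j) _ hε
  · have hd : Measurable fun x : ι → ℝ => x ⬝ᵥ x - x i ^ 2 - x j ^ 2 := by
      unfold dotProduct; fun_prop
    have hS : MeasurableSet {x : ι → ℝ | s - M ≤ x ⬝ᵥ x - x i ^ 2 - x j ^ 2 ∧
        x ⬝ᵥ x - x i ^ 2 - x j ^ 2 ≤ s} :=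
      (measurableSet_le measurable_const hd).inter (measurableSet_le hd measurable_const)
    rw [← lintegral_indicator (ms_shell s ε), ← lintegral_indicator hS,
      ← lintegral_const_mul _ (hG.indicator hS)]
    refine lintegral_le_of_lmarginal_le {i, j} ((hG.indicator hS).const_mul _)
      (hG.indicator (ms_shell s ε)) fun x => ?_
    rw [marg_shell _ hij hG hi, marg_inv _ hij ((hG.indicator hS).const_mul _) fun x a b => ?_]
    · by_cases hx : x ∈ {x : ι → ℝ | s - M ≤ x ⬝ᵥ x - x i ^ 2 - x j ^ 2 ∧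
          x ⬝ᵥ x - x i ^ 2 - x j ^ 2 ≤ s}
      · rw [Set.indicator_of_mem hx, mul_comm, hmi, hmj]
        gcongr
        exact ann_lo (hc i) (hc j) (by linarith [hx.2]) (by linarith [hx.1]) hε
      · rw [Set.indicator_of_notMem hx, mul_zero]; exact zero_le
    · congr 1
      have e : Function.update (Function.update x i a) j b ⬝ᵥ
          Function.update (Function.update x i a) j b -
          Function.update (Function.update x i a) j b i ^ 2 -
          Function.update (Function.update x i a) j b j ^ 2 = x ⬝ᵥ x - x i ^ 2 - x j ^ 2 := by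
        rw [dot_update2 x hij, Function.update_self, Function.update_of_ne hij,
          Function.update_self]
        ring
      by_cases hx : x ∈ {x : ι → ℝ | s - M ≤ x ⬝ᵥ x - x i ^ 2 - x j ^ 2 ∧
          x ⬝ᵥ x - x i ^ 2 - x j ^ 2 ≤ s}
      · rw [Set.indicator_of_mem hx, Set.indicator_of_mem, hi]
        simpa only [Set.mem_ofPred_eq, e] using hx
      · rw [Set.indicator_of_notMem hx, Set.indicator_of_notMem]
        simpa only [Set.mem_ofPred_eq, e] using hx

end Crest.Agent.T157.St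

end
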