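import Crest.Agent.T157.WpDef_93
import Crest.Agent.T157.StMgf_32
import Crest.Agent.T157.StShell_38
import Crest.Agent.T157.StTwo_90

/-!
# Row 157, part C (helper44): one-coordinate charts of the sphere, `Wp.chartStmt`
-/

set_option autoImplicit false

noncomputable section

namespace Crest.Agent.T157.Wp

open MeasureTheory ProbabilityTheory Matrix Filter Topology Finset Real
open scoped ENNReal
open Crest.Agent.T157.E Crest.Agent.T157.St

namespace Ch44

variable {ι : Type} [Fintype ι] [DecidableEq ι]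

theorem mp_upd (μ : ι → Measure ℝ) [∀ k, IsProbabilityMeasure (μ k)] (j : ι) :
    MeasurePreserving (fun p : (ι → ℝ) × ℝ => Function.update p.1 j p.2)
      ((Measure.pi μ).prod (μ j)) (Measure.pi μ) := by
  have hm : Measurable (fun p : (ι → ℝ) × ℝ => Function.update p.1 j p.2) := measurable_update'
  refine ⟨hm, (Measure.pi_eq fun s hs => ?_).symm⟩
  rw [Measure.map_apply hm (MeasurableSet.univ_pi hs)]
  have : (fun p : (ι → ℝ) × ℝ => Function.update p.1 j p.2) ⁻¹' (Set.univ.pi s) =
      (Set.univ.pi (Function.update s j Set.univ)) ×ˢ (s j) := by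
    ext ⟨g, t⟩
    simp only [Set.mem_preimage, Set.mem_pi, Set.mem_univ, true_implies, Set.mem_prod]
    constructor
    · intro h
      refine ⟨fun i => ?_, by simpa using h j⟩
      by_cases hi : i = j
      · subst hi; simp
      · simpa [Function.update_of_ne hi] using h i
    · rintro ⟨h1, h2⟩ i
      by_cases hi : i = j
      · subst hi; simpa using h2
      · simpa [Function.update_of_ne hi] using h1 i
  rw [this, Measure.prod_prod, Measure.pi_pi]
  rw [← Finset.mul_prod_erase Finset.univ (fun i => μ i (s i)) (Finset.mem_univ j),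
    ← Finset.mul_prod_erase Finset.univ (fun i => μ i (Function.update s j Set.univ i))
      (Finset.mem_univ j), Function.update_self, measure_univ, one_mul, mul_comm]
  congr 1
  exact Finset.prod_congr rfl fun i hi => by rw [Function.update_of_ne (ne_of_mem_erase hi)]

theorem pdf_bd (v : NNReal) (s : ℝ) : gaussianPDFReal 0 v s ≤ (√(2 * π * v))⁻¹ := by
  unfold gaussianPDFReal
  refine mul_le_of_le_one_right (by positivity) (exp_le_one_iff.2 ?_)
  exact div_nonpos_of_nonpos_of_nonneg (neg_nonpos.2 (sq_nonneg _)) (by positivity)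

theorem one_lim {ψ : ℝ → ℝ} (hψ : Continuous ψ) {a : ℝ} (ha : 0 < a) (h0 : ∀ s ≤ a, ψ s = 0)
    (q : ℝ) : Tendsto (fun ε => (∫ s in √q..√(q + ε), ψ s) / ε) (𝓝[>] 0)
      (𝓝 (ψ √q / (2 * √q))) := by
  rcases le_or_gt q 0 with hq | hq
  · rw [sqrt_eq_zero'.2 hq, mul_zero, div_zero]
    refine tendsto_const_nhds.congr' ?_
    filter_upwards [Ioo_mem_nhdsGT (by positivity : 0 < a ^ 2)] with ε hε
    have h1 : √(q + ε) ≤ a := sqrt_le_iff.2 ⟨ha.le, by linarith [hε.2]⟩
    rw [intervalIntegral.integral_congr (g := fun _ => 0) fun s hs => h0 s ?_]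
    · simp
    · rw [Set.uIcc_of_le (sqrt_nonneg _)] at hs
      exact hs.2.trans h1
  · have h1 : HasDerivAt (fun ε : ℝ => √(q + ε)) (1 / (2 * √(q + 0))) 0 :=
      ((hasDerivAt_id' (0 : ℝ)).const_add q).sqrt (by linarith)
    have h2 : HasDerivAt (fun v => ∫ s in √q..v, ψ s) (ψ √(q + 0)) √(q + 0) :=
      (hψ.integral_hasStrictDerivAt _ _).hasDerivAt
    have h3 := (h2.comp 0 h1).tendsto_slope_zero_right
    simp only [add_zero, zero_add, Function.comp, intervalIntegral.integral_same, sub_zero,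
      smul_eq_mul] at h3
    rw [mul_one_div] at h3
    exact h3.congr fun ε => by rw [div_eq_inv_mul]

theorem one_bd {ψ : ℝ → ℝ} {a M : ℝ} (ha : 0 < a) (hM : 0 ≤ M) (h0 : ∀ s ≤ a, ψ s = 0)
    (hb : ∀ s, |ψ s| ≤ M) (q : ℝ) {ε : ℝ} (hε : 0 < ε) :
    |(∫ s in √q..√(q + ε), ψ s) / ε| ≤ M / a := by
  have hle : √q ≤ √(q + ε) := sqrt_le_sqrt (by linarith)
  rcases le_or_gt √(q + ε) a with h | h
  · rw [intervalIntegral.integral_congr (g := fun _ => 0) fun s hs => h0 s ?_]
    · simp only [intervalIntegral.integral_zero, zero_div, abs_zero]; positivity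
    · rw [Set.uIcc_of_le hle] at hs
      exact hs.2.trans h
  · have h1 := intervalIntegral.norm_integral_le_of_norm_le_const (a := √q) (b := √(q + ε))
      (f := ψ) (C := M) fun s _ => hb s
    rw [Real.norm_eq_abs, abs_of_nonneg (sub_nonneg.2 hle)] at h1
    have h2 : √(q + ε) ^ 2 = q + ε := sq_sqrt (sqrt_pos.1 (ha.trans h)).le
    have h3 : q ≤ √q ^ 2 := by rw [sq_sqrt']; exact le_max_left _ _
    have h4 : (√(q + ε) - √q) * a ≤ ε := by
      nlinarith [mul_le_mul_of_nonneg_left (h.le.trans (le_add_of_nonneg_right (sqrt_nonneg q)))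
        (sub_nonneg.2 hle)]
    rw [abs_div, abs_of_pos hε, div_le_div_iff₀ hε ha]
    nlinarith [mul_le_mul_of_nonneg_right h1 ha.le, mul_le_mul_of_nonneg_left h4 hM]

theorem inner_eq {F : (ι → ℝ) → ℝ} {i : ι} {a : ℝ} (ha : 0 < a) (h0 : ∀ x, x i ≤ a → F x = 0)
    {v : NNReal} (hv : v ≠ 0) (t : ℝ) {ε : ℝ} (hε : 0 < ε) (b : ι → ℝ) :
    ∫ s, (shell t ε).indicator F (Function.update b i s) ∂gaussianReal 0 v =
      ∫ s in √(qq t i b)..√(qq t i b + ε), gaussianPDFReal 0 v s * F (Function.update b i s) := by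
  rw [integral_gaussianReal_eq_integral_smul hv,
    intervalIntegral.integral_of_le (sqrt_le_sqrt (by linarith)), ← integral_Icc_eq_integral_Ioc,
    ← integral_indicator measurableSet_Icc]
  refine integral_congr_ae (.of_forall fun s => ?_)
  rcases le_or_gt s a with h | h
  · have h1 : F (Function.update b i s) = 0 := h0 _ (by simpa using h)
    simp [Set.indicator, h1]
  · have hs : 0 < s := ha.trans h
    have e : Function.update b i s ∈ (shell t ε : Set (ι → ℝ)) ↔
        s ∈ Set.Icc √(qq t i b) √(qq t i b + ε) := by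
      rw [Set.mem_Icc, sqrt_le_left hs.le, le_sqrt' hs]
      simp only [shell, Set.mem_ofPred_eq, Two90.dot_update, qq]
      constructor <;> rintro ⟨h1, h2⟩ <;> constructor <;> linarith
    by_cases hp : s ∈ Set.Icc √(qq t i b) √(qq t i b + ε)
    · simp only [Set.indicator_of_mem (e.2 hp), Set.indicator_of_mem hp, smul_eq_mul]
    · simp only [Set.indicator_of_notMem (fun h' => hp (e.1 h')), Set.indicator_of_notMem hp,
        smul_zero]

/-- the density in the chart -/
def rho (v : NNReal) (t : ℝ) (i : ι) (b : ι → ℝ) : ℝ :=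
  gaussianPDFReal 0 v √(qq t i b) / (2 * √(qq t i b))

theorem lim {c : ι → ℝ} (hc : ∀ k, 0 < c k) {F : (ι → ℝ) → ℝ} (hF : Continuous F) {M : ℝ}
    (hM : ∀ x, |F x| ≤ M) {i : ι} {a : ℝ} (ha : 0 < a) (h0 : ∀ x, x i ≤ a → F x = 0) (t : ℝ) :
    Tendsto (fun ε => (∫ x in shell t ε, F x ∂gs 0 c) / ε) (𝓝[>] 0)
      (𝓝 (∫ b, rho (c i).toNNReal t i b * F (lift t i b) ∂gs 0 c)) := by
  have hv : (c i).toNNReal ≠ 0 := by simpa using hc i
  have hM0 : 0 ≤ M := (abs_nonneg _).trans (hM 0)
  have mp := mp_upd (fun k => gaussianReal ((0 : ι → ℝ) k) (c k).toNNReal) i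
  have hI : ∀ ε, Integrable (fun p : (ι → ℝ) × ℝ => (shell t ε).indicator F
      (Function.update p.1 i p.2)) ((gs 0 c).prod (gaussianReal 0 (c i).toNNReal)) := fun ε =>
    mp.integrable_comp_of_integrable (g := (shell t ε).indicator F)
      ((Integrable.of_bound hF.aestronglyMeasurable M (.of_forall hM)).indicator
        (Two90.ms_shell t ε))
  have e1 : ∀ ε, ∫ x in shell t ε, F x ∂gs 0 c = ∫ b, ∫ s, (shell t ε).indicator F
      (Function.update b i s) ∂gaussianReal 0 (c i).toNNReal ∂gs 0 c := fun ε => by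
    rw [← integral_prod _ (hI ε), ← integral_indicator (Two90.ms_shell t ε)]
    have := integral_map (μ := (gs 0 c).prod (gaussianReal 0 (c i).toNNReal))
      mp.measurable.aemeasurable (f := (shell t ε).indicator F)
      (hF.measurable.indicator (Two90.ms_shell t ε)).aestronglyMeasurable
    rw [← this]
    exact congrArg (fun μ => ∫ x, (shell t ε).indicator F x ∂μ) mp.map_eq.symm
  simp only [e1, ← integral_div (μ := gs 0 c)]
  have hψ : ∀ b : ι → ℝ, Continuous fun s =>
      gaussianPDFReal 0 (c i).toNNReal s * F (Function.update b i s) := fun b => by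
    refine Continuous.mul ?_ (hF.comp (continuous_const.update i continuous_id))
    unfold gaussianPDFReal; fun_prop
  have hz : ∀ b : ι → ℝ, ∀ s ≤ a,
      gaussianPDFReal 0 (c i).toNNReal s * F (Function.update b i s) = 0 := fun b s hs => by
    rw [h0 _ (by simpa using hs), mul_zero]
  refine tendsto_integral_filter_of_dominated_convergence
    (fun _ => (√(2 * π * (c i).toNNReal))⁻¹ * M / a) (.of_forall fun ε => ?_) ?_
    (integrable_const _) (.of_forall fun b => ?_)
  · exact ((hI ε).integral_prod_left.div_const ε).aestronglyMeasurable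
  · filter_upwards [self_mem_nhdsWithin] with ε hε
    refine .of_forall fun b => ?_
    rw [inner_eq ha h0 hv t hε]
    refine one_bd ha (by positivity) (hz b) (fun s => ?_) _ hε
    rw [abs_mul, abs_of_nonneg (gaussianPDFReal_nonneg _ _ _)]
    exact mul_le_mul (pdf_bd _ _) (hM _) (abs_nonneg _) (by positivity)
  · have h1 := one_lim (hψ b) ha (hz b) (qq t i b)
    rw [mul_div_right_comm] at h1
    refine h1.congr' ?_
    filter_upwards [self_mem_nhdsWithin] with ε hε
    rw [inner_eq ha h0 hv t hε]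

/-- the cut-off -/
def chi (r s : ℝ) : ℝ := min 1 (max 0 (2 * s / r - 1))

theorem chi_cont (r : ℝ) : Continuous (chi r) := by unfold chi; fun_prop
theorem chi_nonneg (r s : ℝ) : 0 ≤ chi r s := le_min zero_le_one (le_max_left _ _)
theorem chi_le (r s : ℝ) : chi r s ≤ 1 := min_le_left _ _
theorem chi_zero {r s : ℝ} (hr : 0 < r) (h : s ≤ r / 2) : chi r s = 0 := by
  have : 2 * s / r ≤ 1 := by rw [div_le_one hr]; linarith
  rw [chi, max_eq_left (by linarith), min_eq_right zero_le_one]
theorem chi_one {r s : ℝ} (hr : 0 < r) (h : r ≤ s) : chi r s = 1 := by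
  have : 2 ≤ 2 * s / r := by rw [le_div_iff₀ hr]; linarith
  exact min_eq_left (le_max_of_le_right (by linarith))

theorem cont_qq (t : ℝ) (i : ι) : Continuous (qq t i : (ι → ℝ) → ℝ) := by
  unfold qq dotProduct; fun_prop

theorem cont_lift (t : ℝ) (i : ι) : Continuous (lift t i : (ι → ℝ) → ι → ℝ) :=
  continuous_id.update i (cont_qq t i).sqrt

theorem meas_rho (v : NNReal) (t : ℝ) (i : ι) : Measurable (rho v t i) :=
  ((measurable_gaussianPDFReal 0 v).comp (cont_qq t i).sqrt.measurable).div
    ((cont_qq t i).sqrt.measurable.const_mul 2)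

theorem rho_nonneg (v : NNReal) (t : ℝ) (i : ι) (b : ι → ℝ) : 0 ≤ rho v t i b :=
  div_nonneg (gaussianPDFReal_nonneg _ _ _) (by positivity)

theorem chart {c : ι → ℝ} (hc : ∀ k, 0 < c k) {ν : Measure (ι → ℝ)} [IsFiniteMeasure ν] {t Z : ℝ}
    (hZ : 0 < Z) (h : ∀ F : (ι → ℝ) → ℝ, Continuous F →
      Tendsto (fun ε => (∫ x in shell t ε, F x ∂gs 0 c) / ε) (𝓝[>] 0) (𝓝 (Z * ∫ x, F x ∂ν)))
    (i : ι) {r : ℝ} (hr : 0 < r) {Φ : (ι → ℝ) → ℝ≥0∞} (hΦ : Measurable Φ) :
    ENNReal.ofReal Z * ∫⁻ x in {x | r ≤ x i}, Φ x ∂ν =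
      ∫⁻ b in {b | r ≤ √(qq t i b)}, Φ (lift t i b) * ENNReal.ofReal (rho (c i).toNNReal t i b)
        ∂gs 0 c := by
  have hli : ∀ b : ι → ℝ, lift t i b i = √(qq t i b) := fun b => Function.update_self _ _ _
  have m1 : Measurable fun x : ι → ℝ => ENNReal.ofReal (Z * chi r (x i)) :=
    (((chi_cont r).comp (continuous_apply i)).measurable.const_mul Z).ennreal_ofReal
  have m2 : Measurable fun b : ι → ℝ =>
      ENNReal.ofReal (rho (c i).toNNReal t i b * chi r √(qq t i b)) :=
    ((meas_rho _ t i).mul ((chi_cont r).comp (cont_qq t i).sqrt).measurable).ennreal_ofReal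
  have ml := (cont_lift t i).measurable
  have : IsFiniteMeasure (ν.withDensity fun x => ENNReal.ofReal (Z * chi r (x i))) :=
    isFiniteMeasure_withDensity_ofReal (HasFiniteIntegral.of_bounded (C := Z) (.of_forall fun x => by
      rw [Real.norm_eq_abs, abs_of_nonneg (mul_nonneg hZ.le (chi_nonneg _ _))]
      exact mul_le_of_le_one_right hZ.le (chi_le _ _)))
  have : IsFiniteMeasure ((gs 0 c).withDensity fun b =>
      ENNReal.ofReal (rho (c i).toNNReal t i b * chi r √(qq t i b))) :=
    isFiniteMeasure_withDensity_ofReal (HasFiniteIntegral.of_bounded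
      (C := (√(2 * π * (c i).toNNReal))⁻¹ / r) (.of_forall fun b => by
      rw [Real.norm_eq_abs, abs_of_nonneg (mul_nonneg (rho_nonneg _ _ _ _) (chi_nonneg _ _))]
      rcases le_or_gt √(qq t i b) (r / 2) with h1 | h1
      · rw [chi_zero hr h1, mul_zero]; positivity
      · exact (mul_le_of_le_one_right (rho_nonneg _ _ _ _) (chi_le _ _)).trans
          (div_le_div₀ (by positivity) (pdf_bd _ _) hr (by linarith))))
  have key : (ν.withDensity fun x => ENNReal.ofReal (Z * chi r (x i))) =
      ((gs 0 c).withDensity fun b =>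
        ENNReal.ofReal (rho (c i).toNNReal t i b * chi r √(qq t i b))).map (lift t i) := by
    refine ext_of_forall_integral_eq_of_IsFiniteMeasure fun f => ?_
    rw [integral_map ml.aemeasurable f.continuous.aestronglyMeasurable,
      integral_withDensity_eq_integral_toReal_smul m1 (.of_forall fun _ => ENNReal.ofReal_lt_top),
      integral_withDensity_eq_integral_toReal_smul m2 (.of_forall fun _ => ENNReal.ofReal_lt_top)]
    have hF : Continuous fun x : ι → ℝ => chi r (x i) * f x :=
      ((chi_cont r).comp (continuous_apply i)).mul f.continuous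
    have h1 := tendsto_nhds_unique (h _ hF) (lim hc hF (M := ‖f‖) (fun x => by
      rw [abs_mul, abs_of_nonneg (chi_nonneg _ _)]
      exact (mul_le_of_le_one_left (abs_nonneg _) (chi_le _ _)).trans (f.norm_coe_le_norm x))
      (i := i) (half_pos hr) (fun x hx => by rw [chi_zero hr hx, zero_mul]) t)
    simp only [ENNReal.toReal_ofReal (mul_nonneg hZ.le (chi_nonneg _ _)),
      ENNReal.toReal_ofReal (mul_nonneg (rho_nonneg _ _ _ _) (chi_nonneg _ _)), smul_eq_mul,
      mul_assoc]
    rw [integral_const_mul, h1]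
    simp only [hli]
  have hA : MeasurableSet {x : ι → ℝ | r ≤ x i} :=
    measurableSet_le measurable_const (measurable_pi_apply i)
  have hB : MeasurableSet {b : ι → ℝ | r ≤ √(qq t i b)} :=
    measurableSet_le measurable_const (cont_qq t i).sqrt.measurable
  have h2 := congrArg (fun μ => ∫⁻ x, {x : ι → ℝ | r ≤ x i}.indicator Φ x ∂μ) key
  rw [lintegral_map (hΦ.indicator hA) ml, lintegral_withDensity_eq_lintegral_mul _ m1
    (hΦ.indicator hA), lintegral_withDensity_eq_lintegral_mul _ m2
    (f := _) (g := fun b => {x : ι → ℝ | r ≤ x i}.indicator Φ (lift t i b))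
    ((hΦ.indicator hA).comp ml)] at h2
  rw [← lintegral_const_mul _ hΦ, ← lintegral_indicator hA, ← lintegral_indicator hB]
  refine Eq.trans (lintegral_congr fun x => ?_) (h2.trans (lintegral_congr fun b => ?_))
  · by_cases hx : r ≤ x i
    · simp [Set.indicator, hx, chi_one hr hx]
    · simp [Set.indicator, hx]
  · by_cases hb : r ≤ √(qq t i b)
    · simp [Set.indicator, hli, hb, chi_one hr hb, mul_comm]
    · simp [Set.indicator, hli, hb]

end Ch44

theorem chartStmt : ChartStmt := by
  intro ι _ _ _ a w t ht ha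
  obtain ⟨κ, hκ, H⟩ := Mgf32.exists_sh (ι := ι) shellStmt ht
  have hae : ∀ᵐ x ∂sphR ι √t, x ⬝ᵥ x = t := by
    simpa only [sq_sqrt ht.le] using Sph38.sphR_ae (ι := ι) √t
  have hJ : 0 < Mgf32.J (sphR ι √t) (fun k => w + a k) fun _ => 1 := by
    unfold Mgf32.J
    simp only [one_mul]
    exact integral_exp_pos (Mgf32.intg hae (by fun_prop))
  have hP : 0 < ∏ k, √(w + a k) := Finset.prod_pos fun k _ => sqrt_pos.2 (ha k)
  have h2 : ∀ F : (ι → ℝ) → ℝ, Continuous F →
      Tendsto (fun ε => (∫ x in shell t ε, F x ∂gs 0 fun k => 1 / (w + a k)) / ε) (𝓝[>] 0)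
        (𝓝 (κ * (∏ k, √(w + a k)) * Mgf32.J (sphR ι √t) (fun k => w + a k) (fun _ => 1) *
          ∫ x, F x ∂nuA a t)) := fun F hF => by
    have := H _ ha F hF
    rw [nuA, Mgf32.tilt_eq hae a w, mul_assoc (κ * _), mul_div_cancel₀ _ hJ.ne']
    exact this
  refine ⟨_, by positivity, h2, fun i r hr Φ hΦ => ?_⟩
  have : IsFiniteMeasure (nuA a t) := by unfold nuA; infer_instance
  exact Ch44.chart (fun k => one_div_pos.2 (ha k)) (by positivity) h2 i hr hΦ

end Crest.Agent.T157.Wp

end
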