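import Crest.Agent.T157.WpDef_93

/-!
Row 157, part C (helper46): `Wp.LocStmt`, the local Poincaré inequality in a chart, by rotation.
-/

set_option autoImplicit false

noncomputable section

namespace Crest.Agent.T157.Wp

open MeasureTheory ProbabilityTheory Matrix Finset Real
open scoped ENNReal NNReal
open Crest.Agent.T157.St

namespace Loc46

variable {ι : Type} [Fintype ι]

instance (m c : ι → ℝ) : IsProbabilityMeasure (gs m c) := by unfold gs; infer_instance

/-- rotation of a pair -/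
def rot (θ : ℝ) (p : (ι → ℝ) × (ι → ℝ)) : (ι → ℝ) × (ι → ℝ) :=
  (cos θ • p.1 + sin θ • p.2, -sin θ • p.1 + cos θ • p.2)

theorem mp_rot1 (v : ℝ≥0) (θ : ℝ) : MeasurePreserving (ContinuousLinearMap.rotation θ)
    ((gaussianReal 0 v).prod (gaussianReal 0 v)) ((gaussianReal 0 v).prod (gaussianReal 0 v)) :=
  ⟨by fun_prop, IsGaussian.map_rotation_eq_self (by simp) θ⟩

theorem mp_rot (c : ι → ℝ) (θ : ℝ) :
    MeasurePreserving (rot θ) ((gs 0 c).prod (gs 0 c)) ((gs 0 c).prod (gs 0 c)) := by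
  have e := measurePreserving_arrowProdEquivProdArrow ℝ ℝ ι
    (fun k => gaussianReal 0 (c k).toNNReal) fun k => gaussianReal 0 (c k).toNNReal
  exact (e.comp (measurePreserving_pi _ _ fun k => mp_rot1 (c k).toNNReal θ)).comp e.symm

theorem lint_sq {c : ι → ℝ} (hc : ∀ k, 0 < c k) (l : ι → ℝ) :
    ∫⁻ b, ENNReal.ofReal ((l ⬝ᵥ b) ^ 2) ∂gs 0 c = ENNReal.ofReal (∑ k, c k * l k ^ 2) := by
  have h1 : ∀ k, MemLp (fun x : ℝ => l k * x) 2 (gaussianReal 0 (c k).toNNReal) := fun k =>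
    (memLp_id_gaussianReal 2).const_mul _
  have h2 := variance_sum_pi h1
  have h3 : ∀ k, MemLp (fun b : ι → ℝ => l k * b k) 2 (gs 0 c) := fun k =>
    (h1 k).comp_measurePreserving (measurePreserving_eval
      (fun k => gaussianReal 0 (c k).toNNReal) k)
  have h4 : MemLp (fun b : ι → ℝ => l ⬝ᵥ b) 2 (gs 0 c) := memLp_finsetSum _ fun k _ => h3 k
  have h5 : ∫ b, l ⬝ᵥ b ∂gs 0 c = 0 := by
    simp only [dotProduct]
    rw [integral_finsetSum _ fun k _ => (h3 k).integrable one_le_two]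
    refine sum_eq_zero fun k _ => ?_
    rw [integral_const_mul]
    have := integral_comp_eval (μ := fun k => gaussianReal 0 (c k).toNNReal) (i := k)
      (f := fun x : ℝ => x) (by fun_prop)
    rw [integral_id_gaussianReal] at this
    exact mul_eq_zero_of_right _ this
  rw [← ofReal_integral_eq_lintegral_ofReal h4.integrable_sq (.of_forall fun _ => sq_nonneg _),
    ← variance_of_integral_eq_zero h4.aestronglyMeasurable.aemeasurable h5]
  congr 1
  refine Eq.trans ?_ (h2.trans (sum_congr rfl fun k _ => ?_))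
  · congr 1
    funext b
    simp [dotProduct]
  · rw [variance_const_mul, variance_fun_id_gaussianReal, Real.coe_toNNReal _ (hc k).le, mul_comm]

theorem sq_ftc {φ φ' : ℝ → ℝ} (hd : ∀ θ, HasDerivAt φ (φ' θ) θ) (hc : Continuous φ') {L : ℝ}
    (hL : 0 < L) : ENNReal.ofReal ((φ 0 - φ L) ^ 2) ≤
      ENNReal.ofReal L * ∫⁻ θ in Set.Ioc 0 L, ENNReal.ofReal (φ' θ ^ 2) := by
  have h1 := intervalIntegral.integral_eq_sub_of_hasDerivAt (a := 0) (b := L)
    (fun θ _ => hd θ) (hc.intervalIntegrable _ _)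
  have i2 : IntervalIntegrable (fun θ => φ' θ ^ 2) volume 0 L :=
    (hc.pow 2).intervalIntegrable _ _
  set A := φ L - φ 0 with hA
  have h2 : 0 ≤ ∫ θ in (0 : ℝ)..L, (φ' θ ^ 2 - 2 * (A / L) * φ' θ + (A / L) ^ 2) :=
    intervalIntegral.integral_nonneg hL.le fun θ _ => by nlinarith [sq_nonneg (φ' θ - A / L)]
  rw [intervalIntegral.integral_add (i2.sub ((hc.intervalIntegrable _ _).const_mul _))
    intervalIntegrable_const, intervalIntegral.integral_sub i2
    ((hc.intervalIntegrable _ _).const_mul _), intervalIntegral.integral_const_mul, h1,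
    intervalIntegral.integral_const, smul_eq_mul, sub_zero] at h2
  rw [← ofReal_integral_eq_lintegral_ofReal i2.1 (.of_forall fun _ => sq_nonneg _),
    ← intervalIntegral.integral_of_le hL.le, ← ENNReal.ofReal_mul hL.le]
  refine ENNReal.ofReal_le_ofReal ?_
  have h3 := mul_nonneg hL.le h2
  have h4 : L * ((∫ θ in (0 : ℝ)..L, φ' θ ^ 2) - 2 * (A / L) * A + L * (A / L) ^ 2) =
      L * (∫ θ in (0 : ℝ)..L, φ' θ ^ 2) - A ^ 2 := by field_simp; ring
  rw [h4] at h3
  rw [show (φ 0 - φ L) ^ 2 = A ^ 2 by rw [hA]; ring]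
  linarith

variable [DecidableEq ι]

theorem qq_eq (t : ℝ) (i : ι) (b : ι → ℝ) : qq t i b = t - ∑ k ∈ univ.erase i, b k ^ 2 := by
  rw [qq, dotProduct, ← add_sum_erase _ _ (mem_univ i)]
  simp only [sq]
  ring

/-- the scalar product off the coordinate `i` -/
def DD (i : ι) (b b' : ι → ℝ) : ℝ := Function.update b i 0 ⬝ᵥ b'

theorem dot_upd (i : ι) (b b' : ι → ℝ) (x : ℝ) :
    b' ⬝ᵥ Function.update b i x = b' i * x + ∑ k ∈ univ.erase i, b' k * b k := by
  rw [dotProduct, ← add_sum_erase _ _ (mem_univ i), Function.update_self]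
  congr 1
  exact sum_congr rfl fun k hk => by rw [Function.update_of_ne (ne_of_mem_erase hk)]

theorem DD_eq (i : ι) (b b' : ι → ℝ) : DD i b b' = ∑ k ∈ univ.erase i, b k * b' k := by
  rw [DD, dotProduct_comm, dot_upd, mul_zero, zero_add]
  simp only [mul_comm]

theorem sum_upd (c : ι → ℝ) (i : ι) (b : ι → ℝ) :
    ∑ k, c k * Function.update b i 0 k ^ 2 = UU c i b := by
  rw [UU, ← add_sum_erase _ _ (mem_univ i), Function.update_self]
  simp only [ne_eq, OfNat.ofNat_ne_zero, not_false_eq_true, zero_pow, mul_zero, zero_add]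
  exact sum_congr rfl fun k hk => by rw [Function.update_of_ne (ne_of_mem_erase hk)]

omit [DecidableEq ι] in
theorem cont_qq (t : ℝ) (i : ι) : Continuous (qq t i : (ι → ℝ) → ℝ) := by
  unfold qq dotProduct; fun_prop

theorem cont_lift (t : ℝ) (i : ι) : Continuous (lift t i : (ι → ℝ) → ι → ℝ) :=
  continuous_id.update i (cont_qq t i).sqrt

theorem meas_GG (c : ι → ℝ) (t : ℝ) (i : ι) (r R ρ : ℝ) : MeasurableSet (GG c t i r R ρ) := by
  have h1 := cont_qq t i
  have h2 : Continuous (UU c i : (ι → ℝ) → ℝ) := by unfold UU; fun_prop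
  exact ((isClosed_le continuous_const h1).inter ((isClosed_le h1 continuous_const).inter
    (isClosed_le h2 continuous_const))).measurableSet

/-- pairs joined by an arc inside the larger good region -/
def EE (c : ι → ℝ) (t : ℝ) (i : ι) (r R ρ : ℝ) : Set ((ι → ℝ) × (ι → ℝ)) :=
  {p | p.1 ∈ GG c t i r R ρ ∧ p.2 ∈ GG c t i r R ρ ∧ |DD i p.1 p.2| ≤ r / 2}

theorem meas_EE (c : ι → ℝ) (t : ℝ) (i : ι) (r R ρ : ℝ) : MeasurableSet (EE c t i r R ρ) := by
  have h : Continuous fun p : (ι → ℝ) × (ι → ℝ) => |DD i p.1 p.2| := by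
    simp only [DD_eq]; fun_prop
  exact (measurable_fst (meas_GG c t i r R ρ)).inter ((measurable_snd (meas_GG c t i r R ρ)).inter
    (isClosed_le h continuous_const).measurableSet)

variable {c : ι → ℝ} {t r R ρ : ℝ} {i : ι} {F : (ι → ℝ) → ℝ} {V : (ι → ℝ) → ι → ℝ}

theorem rot_mem (hc : ∀ k, 0 < c k) {p : (ι → ℝ) × (ι → ℝ)} (hp : p ∈ EE c t i r R ρ) (θ : ℝ) :
    (rot θ p).1 ∈ GG c t i (r / 2) (R + r / 2) (2 * ρ) := by
  obtain ⟨⟨a1, a2, a3⟩, ⟨b1, b2, b3⟩, d⟩ := hp
  have cs := cos_sq_add_sin_sq θ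
  have e : qq t i (rot θ p).1 = cos θ ^ 2 * qq t i p.1 + sin θ ^ 2 * qq t i p.2 -
      2 * sin θ * cos θ * DD i p.1 p.2 := by
    have : ∀ k, (rot θ p).1 k ^ 2 = cos θ ^ 2 * p.1 k ^ 2 + sin θ ^ 2 * p.2 k ^ 2 +
        2 * sin θ * cos θ * (p.1 k * p.2 k) := fun k => by
      simp only [rot, Pi.add_apply, Pi.smul_apply, smul_eq_mul]; ring
    simp only [qq_eq, DD_eq, this, sum_add_distrib, ← mul_sum]
    linear_combination (-t) * cs
  have h1 : |2 * sin θ * cos θ * DD i p.1 p.2| ≤ r / 2 := by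
    rw [abs_mul, ← sin_two_mul]
    exact (mul_le_of_le_one_left (abs_nonneg _) (abs_sin_le_one _)).trans d
  obtain ⟨h2, h3⟩ := abs_le.1 h1
  have c0 := sq_nonneg (cos θ)
  have s0 := sq_nonneg (sin θ)
  refine ⟨?_, ?_, ?_⟩
  · rw [e]; nlinarith [mul_le_mul_of_nonneg_left a1 c0, mul_le_mul_of_nonneg_left b1 s0]
  · rw [e]; nlinarith [mul_le_mul_of_nonneg_left a2 c0, mul_le_mul_of_nonneg_left b2 s0]
  · refine le_trans ?_ (by linarith : UU c i p.1 + UU c i p.2 ≤ 2 * ρ)
    simp only [UU, ← sum_add_distrib, ← mul_add]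
    refine sum_le_sum fun k _ => mul_le_mul_of_nonneg_left ?_ (hc k).le
    simp only [rot, Pi.add_apply, Pi.smul_apply, smul_eq_mul]
    nlinarith [sq_nonneg (sin θ * p.1 k - cos θ * p.2 k)]

/-- the gradient in the chart -/
def LL (V : (ι → ℝ) → ι → ℝ) (t : ℝ) (i : ι) (b : ι → ℝ) : ι → ℝ :=
  Function.update (fun k => V (lift t i b) k - b k * (V (lift t i b) i / √(qq t i b))) i 0

theorem LL_dot (b b' : ι → ℝ) : LL V t i b ⬝ᵥ b' = ∑ k ∈ univ.erase i,
    (V (lift t i b) k - b k * (V (lift t i b) i / √(qq t i b))) * b' k := DD_eq i _ b'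

theorem der_path (h : HG F V) (p : (ι → ℝ) × (ι → ℝ)) (θ : ℝ) (hq : 0 < qq t i (rot θ p).1) :
    HasDerivAt (fun s => F (lift t i (rot s p).1)) (LL V t i (rot θ p).1 ⬝ᵥ (rot θ p).2) θ := by
  have d1 : ∀ k, HasDerivAt (fun s => (rot s p).1 k) ((rot θ p).2 k) θ := fun k =>
    ((hasDerivAt_cos θ).mul_const (p.1 k)).add ((hasDerivAt_sin θ).mul_const (p.2 k))
  have d2 : HasDerivAt (fun s => qq t i (rot s p).1)
      (-∑ k ∈ univ.erase i, 2 * (rot θ p).1 k * (rot θ p).2 k) θ := by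
    simp only [qq_eq]
    refine HasDerivAt.const_sub t (HasDerivAt.fun_sum fun k _ => ?_)
    simpa using (d1 k).fun_pow 2
  have d3 : HasDerivAt (fun s => lift t i (rot s p).1) (Function.update (rot θ p).2 i
      ((-∑ k ∈ univ.erase i, 2 * (rot θ p).1 k * (rot θ p).2 k) / (2 * √(qq t i (rot θ p).1)))) θ := by
    refine hasDerivAt_pi.2 fun k => ?_
    by_cases hk : k = i
    · subst hk
      simp only [lift, Function.update_self]
      exact d2.sqrt hq.ne'
    · simp only [lift, Function.update_of_ne hk]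
      exact d1 k
  refine (h.der _ _ θ d3).congr_deriv ?_
  rw [dot_upd, LL_dot]
  simp only [sub_mul, sum_sub_distrib, mul_right_comm _ (_ / _), ← sum_mul]
  simp only [mul_assoc, ← mul_sum]
  have := (sqrt_pos.2 hq).ne'
  field_simp
  ring

/-- the squared speed, on the larger good region -/
def KK (V : (ι → ℝ) → ι → ℝ) (c : ι → ℝ) (t : ℝ) (i : ι) (r R ρ : ℝ)
    (p : (ι → ℝ) × (ι → ℝ)) : ℝ≥0∞ :=
  (GG c t i (r / 2) (R + r / 2) (2 * ρ)).indicator (fun _ => 1) p.1 *
    ENNReal.ofReal ((LL V t i p.1 ⬝ᵥ p.2) ^ 2)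

theorem meas_KK (h : HG F V) : Measurable (KK V c t i r R ρ) := by
  have h1 : ∀ k, Measurable fun b : ι → ℝ => V (lift t i b) k := fun k =>
    ((continuous_apply k).comp (h.cV.comp (cont_lift t i))).measurable
  have h2 := (cont_qq t i).measurable
  refine ((measurable_const.indicator (meas_GG _ _ _ _ _ _)).comp measurable_fst).mul ?_
  simp only [LL_dot]
  refine ENNReal.measurable_ofReal.comp (Measurable.pow_const (Finset.measurable_sum _
    fun k _ => ?_) 2)
  exact (((h1 k).sub ((measurable_pi_apply k).mul ((h1 i).div h2.sqrt))).comp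
    measurable_fst).mul ((measurable_pi_apply k).comp measurable_snd)

theorem path_le (hc : ∀ k, 0 < c k) (hr : 0 < r) (h : HG F V) {p : (ι → ℝ) × (ι → ℝ)}
    (hp : p ∈ EE c t i r R ρ) : ENNReal.ofReal ((F (lift t i p.1) - F (lift t i p.2)) ^ 2) ≤
      ENNReal.ofReal (π / 2) * ∫⁻ θ in Set.Ioc 0 (π / 2), KK V c t i r R ρ (rot θ p) := by
  have hq : ∀ θ, 0 < qq t i (rot θ p).1 := fun θ => (half_pos hr).trans_le (rot_mem hc hp θ).1
  have c0 : Continuous fun θ => rot θ p := by unfold rot; fun_prop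
  have c1 : ∀ k, Continuous fun θ => V (lift t i (rot θ p).1) k := fun k =>
    (continuous_apply k).comp (h.cV.comp ((cont_lift t i).comp c0.fst))
  have c2 : Continuous fun θ => LL V t i (rot θ p).1 ⬝ᵥ (rot θ p).2 := by
    simp only [LL_dot]
    refine continuous_finsetSum _ fun k _ => ((c1 k).sub (((continuous_apply k).comp c0.fst).mul
      ((c1 i).div ((cont_qq t i).comp c0.fst).sqrt fun θ => (sqrt_pos.2 (hq θ)).ne'))).mul
      ((continuous_apply k).comp c0.snd)
  have h1 := sq_ftc (fun θ => der_path h p θ (hq θ)) c2 (half_pos pi_pos)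
  have e0 : (rot 0 p).1 = p.1 := by simp [rot]
  have e1 : (rot (π / 2) p).1 = p.2 := by simp [rot]
  simp only [e0, e1] at h1
  simpa only [KK, Set.indicator_of_mem (rot_mem hc hp _), one_mul] using h1

theorem lint_KK (hc : ∀ k, 0 < c k) (hc1 : ∀ k, c k ≤ 1) (hr : 0 < r) (hρ : 0 ≤ ρ) (h : HG F V) :
    ∫⁻ p, KK V c t i r R ρ p ∂(gs 0 c).prod (gs 0 c) ≤ ENNReal.ofReal (2 * (1 + 4 * ρ / r)) *
      ∫⁻ b in GG c t i (r / 2) (R + r / 2) (2 * ρ),
        ENNReal.ofReal (V (lift t i b) ⬝ᵥ V (lift t i b)) ∂gs 0 c := by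
  rw [lintegral_prod _ (meas_KK h).aemeasurable,
    ← lintegral_const_mul' _ _ ENNReal.ofReal_ne_top, ← lintegral_indicator (meas_GG _ _ _ _ _ _)]
  refine lintegral_mono fun b => ?_
  by_cases hb : b ∈ GG c t i (r / 2) (R + r / 2) (2 * ρ)
  · simp only [KK, Set.indicator_of_mem hb, one_mul]
    rw [lint_sq hc, ← ENNReal.ofReal_mul (by positivity), LL, sum_upd]
    refine ENNReal.ofReal_le_ofReal ?_
    have hq : 0 < qq t i b := (half_pos hr).trans_le hb.1
    set v := V (lift t i b) with hv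
    have h1 : UU c i (fun k => v k - b k * (v i / √(qq t i b))) ≤
        2 * ∑ k ∈ univ.erase i, v k * v k + 2 * (v i / √(qq t i b)) ^ 2 * UU c i b := by
      simp only [UU, mul_sum, ← sum_add_distrib]
      refine sum_le_sum fun k _ => ?_
      have a1 := mul_le_mul_of_nonneg_right (hc1 k) (sq_nonneg (v k))
      have a2 := mul_nonneg (hc k).le (sq_nonneg (v k + b k * (v i / √(qq t i b))))
      nlinarith
    have h2 : (v i / √(qq t i b)) ^ 2 * UU c i b ≤ v i * v i * (4 * ρ / r) := by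
      rw [div_pow, sq_sqrt hq.le, div_mul_eq_mul_div, mul_div_assoc, sq]
      refine mul_le_mul_of_nonneg_left ?_ (mul_self_nonneg _)
      rw [div_le_div_iff₀ hq hr]
      have a1 := mul_le_mul_of_nonneg_right hb.2.2 hr.le
      have a2 := mul_le_mul_of_nonneg_left hb.1 hρ
      linarith
    have h3 : v ⬝ᵥ v = v i * v i + ∑ k ∈ univ.erase i, v k * v k := by
      rw [dotProduct, ← add_sum_erase _ _ (mem_univ i)]
    have h4 : 0 ≤ ∑ k ∈ univ.erase i, v k * v k := sum_nonneg fun _ _ => mul_self_nonneg _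
    have h5 : 0 ≤ 4 * ρ / r := by positivity
    rw [h3]
    nlinarith [mul_self_nonneg (v i), mul_nonneg h5 h4]
  · simp [KK, Set.indicator_of_notMem hb]

/-- the squared increment on `EE` -/
def HH (F : (ι → ℝ) → ℝ) (c : ι → ℝ) (t : ℝ) (i : ι) (r R ρ : ℝ) :
    (ι → ℝ) × (ι → ℝ) → ℝ≥0∞ :=
  (EE c t i r R ρ).indicator fun p => ENNReal.ofReal ((F (lift t i p.1) - F (lift t i p.2)) ^ 2)

theorem meas_HH (h : HG F V) : Measurable (HH F c t i r R ρ) := by
  have h1 := h.cF.comp (cont_lift t i)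
  exact (ENNReal.measurable_ofReal.comp (((h1.comp continuous_fst).sub
    (h1.comp continuous_snd)).pow 2).measurable).indicator (meas_EE _ _ _ _ _ _)

theorem lint_HH (hc : ∀ k, 0 < c k) (hr : 0 < r) (h : HG F V) :
    ∫⁻ p, HH F c t i r R ρ p ∂(gs 0 c).prod (gs 0 c) ≤
      ENNReal.ofReal 4 * ∫⁻ p, KK V c t i r R ρ p ∂(gs 0 c).prod (gs 0 c) := by
  have c0 : Continuous fun x : ((ι → ℝ) × (ι → ℝ)) × ℝ => rot x.2 x.1 := by unfold rot; fun_prop
  calc _ ≤ ∫⁻ p, ENNReal.ofReal (π / 2) * ∫⁻ θ in Set.Ioc 0 (π / 2), KK V c t i r R ρ (rot θ p)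
        ∂volume ∂(gs 0 c).prod (gs 0 c) := lintegral_mono fun p => by
        by_cases hp : p ∈ EE c t i r R ρ
        · rw [HH, Set.indicator_of_mem hp]; exact path_le hc hr h hp
        · rw [HH, Set.indicator_of_notMem hp]; exact zero_le
    _ = ENNReal.ofReal (π / 2) * (ENNReal.ofReal (π / 2) *
          ∫⁻ p, KK V c t i r R ρ p ∂(gs 0 c).prod (gs 0 c)) := by
        rw [lintegral_const_mul' _ _ ENNReal.ofReal_ne_top, lintegral_lintegral_swap
          (f := fun p θ => KK V c t i r R ρ (rot θ p))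
          ((meas_KK h).comp c0.measurable).aemeasurable]
        simp only [(mp_rot c _).lintegral_comp (meas_KK h)]
        rw [setLIntegral_const, Real.volume_Ioc, sub_zero, mul_comm (∫⁻ p, _ ∂_)]
    _ ≤ _ := by
        rw [← mul_assoc, ← ENNReal.ofReal_mul (by positivity)]
        gcongr
        nlinarith [pi_le_four, pi_pos]

theorem cheb (hc : ∀ k, 0 < c k) (hr : 0 < r) (h32 : 32 * ρ ≤ r ^ 2) {b : ι → ℝ}
    (hb : b ∈ GG c t i r R ρ) : gs 0 c {b' | r / 2 < |DD i b b'|} ≤ ENNReal.ofReal (1 / 8) := by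
  have hm : Measurable fun b' : ι → ℝ => ENNReal.ofReal ((Function.update b i 0 ⬝ᵥ b') ^ 2) := by
    unfold dotProduct; fun_prop
  have h1 := meas_ge_le_lintegral_div (μ := gs 0 c) hm.aemeasurable
    (ε := ENNReal.ofReal ((r / 2) ^ 2)) (by simpa using hr.ne') ENNReal.ofReal_ne_top
  rw [lint_sq hc, sum_upd, ← ENNReal.ofReal_div_of_pos (by positivity)] at h1
  refine (measure_mono fun b' hb' => ?_).trans (h1.trans (ENNReal.ofReal_le_ofReal ?_))
  · refine ENNReal.ofReal_le_ofReal ?_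
    rw [← sq_abs (_ ⬝ᵥ _)]
    exact pow_le_pow_left₀ (by positivity) (le_of_lt hb') 2
  · rw [div_le_iff₀ (by positivity)]
    linarith [hb.2.2]

theorem two_step (hc : ∀ k, 0 < c k) (hr : 0 < r) (h32 : 32 * ρ ≤ r ^ 2)
    (hG : gs 0 c (GG c t i r R ρ)ᶜ ≤ ENNReal.ofReal (1 / 4)) (h : HG F V) {b b'' : ι → ℝ}
    (hb : b ∈ GG c t i r R ρ) (hb'' : b'' ∈ GG c t i r R ρ) :
    ENNReal.ofReal ((F (lift t i b) - F (lift t i b'')) ^ 2) ≤
      4 * (∫⁻ b', HH F c t i r R ρ (b, b') ∂gs 0 c + ∫⁻ b', HH F c t i r R ρ (b'', b') ∂gs 0 c) := by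
  set A : Set (ι → ℝ) := {b' | (b, b') ∈ EE c t i r R ρ ∧ (b'', b') ∈ EE c t i r R ρ} with hA
  have h1 : gs 0 c Aᶜ ≤ 2⁻¹ := by
    have hs : Aᶜ ⊆ (GG c t i r R ρ)ᶜ ∪ ({b' | r / 2 < |DD i b b'|} ∪ {b' | r / 2 < |DD i b'' b'|}) := by
      intro b' hb'
      by_contra hn
      simp only [Set.mem_union, Set.mem_compl_iff, Set.mem_ofPred_eq, not_or, not_not,
        not_lt] at hn
      exact hb' ⟨⟨hb, hn.1, hn.2.1⟩, hb'', hn.1, hn.2.2⟩
    refine (measure_mono hs).trans ((measure_union_le _ _).trans ((add_le_add hG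
      ((measure_union_le _ _).trans (add_le_add (cheb hc hr h32 hb) (cheb hc hr h32 hb'')))).trans
      (le_of_eq ?_)))
    rw [← ENNReal.ofReal_add (by norm_num) (by norm_num), ← ENNReal.ofReal_add (by norm_num)
      (by norm_num), show (1 / 4 + (1 / 8 + 1 / 8) : ℝ) = 2⁻¹ by norm_num,
      ENNReal.ofReal_inv_of_pos two_pos, ENNReal.ofReal_ofNat]
  have h2 : 2⁻¹ ≤ gs 0 c A := by
    have := (measure_univ_le_add_compl (μ := gs 0 c) A).trans (add_le_add le_rfl h1)
    rw [measure_univ, ← ENNReal.inv_two_add_inv_two] at this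
    exact (ENNReal.add_le_add_iff_right (by simp)).1 this
  have m1 : ∀ x, Measurable fun b' => HH F c t i r R ρ (x, b') := fun x =>
    (meas_HH h).comp measurable_prodMk_left
  have h3 : ENNReal.ofReal ((F (lift t i b) - F (lift t i b'')) ^ 2) * gs 0 c A ≤
      2 * (∫⁻ b', HH F c t i r R ρ (b, b') ∂gs 0 c + ∫⁻ b', HH F c t i r R ρ (b'', b') ∂gs 0 c) := by
    rw [← setLIntegral_const, ← lintegral_add_left (m1 b), ← lintegral_const_mul' _ _ (by simp)]
    refine (setLIntegral_mono (((m1 b).add (m1 b'')).const_mul 2) fun b' hb' => ?_).trans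
      (setLIntegral_le_lintegral _ _)
    rw [Pi.add_apply, HH, Set.indicator_of_mem hb'.1, Set.indicator_of_mem hb'.2,
      ← ENNReal.ofReal_add (sq_nonneg _) (sq_nonneg _), ← ENNReal.ofReal_ofNat,
      ← ENNReal.ofReal_mul (by norm_num)]
    refine ENNReal.ofReal_le_ofReal ?_
    nlinarith [sq_nonneg (F (lift t i b) + F (lift t i b'') - 2 * F (lift t i b'))]
  calc _ = 2 * (ENNReal.ofReal ((F (lift t i b) - F (lift t i b'')) ^ 2) * 2⁻¹) := by
        rw [mul_left_comm, ENNReal.mul_inv_cancel (by simp) (by simp), mul_one]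
    _ ≤ 2 * (2 * _) := mul_le_mul_right ((mul_le_mul_right h2 _).trans h3) _
    _ = _ := by rw [← mul_assoc]; norm_num

end Loc46

open Loc46 in
theorem locStmt : LocStmt := by
  intro ι _ _ c t i r R ρ hc hc1 hr hρ h32 hG F V h
  have hm : Measurable fun b => ∫⁻ b', HH F c t i r R ρ (b, b') ∂gs 0 c :=
    (meas_HH h).lintegral_prod_right'
  have h0 : gs 0 c (GG c t i r R ρ) ≠ 0 := by
    intro h0
    have := (measure_univ_le_add_compl (μ := gs 0 c) (GG c t i r R ρ)).trans (add_le_add h0.le hG)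
    rw [measure_univ, zero_add, ← ENNReal.ofReal_one,
      ENNReal.ofReal_le_ofReal_iff (by norm_num)] at this
    norm_num at this
  obtain ⟨b'', hb'', h1⟩ := exists_le_setLAverage h0 (measure_ne_top _ _) hm.aemeasurable
  rw [setLAverage_eq, ENNReal.le_div_iff_mul_le (Or.inl h0) (Or.inl (measure_ne_top _ _))] at h1
  refine ⟨F (lift t i b''), h.bdd _, ?_⟩
  have h2 : ∫⁻ b in GG c t i r R ρ, ∫⁻ b', HH F c t i r R ρ (b, b') ∂gs 0 c ∂gs 0 c ≤
      ∫⁻ p, HH F c t i r R ρ p ∂(gs 0 c).prod (gs 0 c) := by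
    rw [lintegral_prod _ (meas_HH h).aemeasurable]
    exact setLIntegral_le_lintegral _ _
  have h3 := h2.trans ((lint_HH hc hr h).trans (mul_le_mul_right (lint_KK hc hc1 hr hρ h) _))
  refine (setLIntegral_mono' (meas_GG _ _ _ _ _ _) fun b hb =>
    two_step hc hr h32 hG h hb hb'').trans ?_
  rw [lintegral_const_mul _ (hm.add_const _), lintegral_add_right _ measurable_const,
    setLIntegral_const]
  refine (mul_le_mul_right (add_le_add h3 (h1.trans h3)) _).trans (le_of_eq ?_)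
  rw [← two_mul, ← mul_assoc, ← mul_assoc, ← mul_assoc, ← ENNReal.ofReal_ofNat 4,
    ← ENNReal.ofReal_ofNat 2, ← ENNReal.ofReal_mul (by norm_num), ← ENNReal.ofReal_mul (by norm_num),
    ← ENNReal.ofReal_mul (by norm_num)]
  congr 2
  ring

end Crest.Agent.T157.Wp

end
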