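import Crest.Agent.T157.WpDef_93
import Crest.Agent.T157.StMgf_32
import Crest.Agent.T157.StDen_90
import Crest.Agent.T157.StShell_38

/-!
# Row 157, part C: the charts carry the mass (`Wp.MassStmt`) (helper84)
-/

set_option autoImplicit false

noncomputable section

namespace Crest.Agent.T157.Wp

open MeasureTheory ProbabilityTheory Matrix Filter Topology Finset Real
open scoped ENNReal
open Crest.Agent.T157.St Crest.Agent.T157.St.Mgf32

namespace Mass84

/-- the dominating sequence -/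
def bb (k : ℕ) : ℝ := 256 / ((k : ℝ) + 1) ^ (2 / 3 : ℝ)

lemma bb_pos (k : ℕ) : 0 < bb k := by unfold bb; positivity

lemma summ_bb : Summable fun k => bb k ^ 2 := Den90.summ

lemma summ_min {v : ℝ} (hv : 0 ≤ v) : Summable fun k => min v (bb k) * bb k :=
  summ_bb.of_nonneg_of_le (fun k => mul_nonneg (le_min hv (bb_pos k).le) (bb_pos k).le)
    fun k => by rw [sq]; exact mul_le_mul_of_nonneg_right (min_le_right _ _) (bb_pos k).le

lemma exists_v {σ : ℝ} (hσ : 0 < σ) : ∃ v : ℝ, 0 < v ∧ ∑' k, min v (bb k) * bb k ≤ σ := by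
  have h : Tendsto (fun v : ℝ => ∑' k, min v (bb k) * bb k) (𝓝[>] 0) (𝓝 (∑' _ : ℕ, (0 : ℝ))) := by
    refine tendsto_tsum_of_dominated_convergence (bound := fun k => bb k ^ 2) summ_bb
      (fun k => ?_) ?_
    · have hc : Continuous fun v : ℝ => min v (bb k) * bb k := by fun_prop
      have := hc.tendsto 0
      rw [min_eq_left (bb_pos k).le, zero_mul] at this
      exact this.mono_left nhdsWithin_le_nhds
    · filter_upwards [self_mem_nhdsWithin] with v hv k
      have hv' : (0 : ℝ) < v := hv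
      rw [Real.norm_of_nonneg (mul_nonneg (le_min hv'.le (bb_pos k).le) (bb_pos k).le), sq]
      exact mul_le_mul_of_nonneg_right (min_le_right _ _) (bb_pos k).le
  rw [tsum_zero] at h
  obtain ⟨v, h1, h2⟩ := ((h.eventually (ge_mem_nhds hσ)).and self_mem_nhdsWithin).exists
  exact ⟨v, h2, h1⟩

lemma markov {α : Type*} [MeasurableSpace α] {μ : Measure α} [IsFiniteMeasure μ] {f : α → ℝ}
    (h0 : ∀ x, 0 ≤ f x) (hi : Integrable f μ) {a b : ℝ} (ha : 0 < a) (hb : ∫ x, f x ∂μ ≤ a * b) :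
    μ {x | a ≤ f x} ≤ ENNReal.ofReal b := by
  have h := (mul_meas_ge_le_integral_of_nonneg (.of_forall h0) hi a).trans hb
  have h2 : μ.real {x | a ≤ f x} ≤ b := le_of_mul_le_mul_left h ha
  rw [← ofReal_measureReal]
  exact ENNReal.ofReal_le_ofReal h2

/-- the continuous cutoff -/
def cut (s u : ℝ) : ℝ := min 1 (max 0 (2 - |u| / s))

lemma cut_nonneg (s u : ℝ) : 0 ≤ cut s u := le_min zero_le_one (le_max_left _ _)

lemma cont_cut (s : ℝ) : Continuous (cut s) := by unfold cut; fun_prop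

lemma cut_one {s u : ℝ} (hs : 0 < s) (h : u ^ 2 < s ^ 2) : 1 ≤ cut s u := by
  have h1 : |u| ≤ s := abs_le_of_sq_le_sq' h.le hs.le |> fun h => abs_le.2 h
  have h2 : |u| / s ≤ 1 := (div_le_one hs).2 h1
  exact le_min le_rfl (le_max_of_le_right (by linarith))

lemma lint_cut {s a : ℝ} (hs : 0 < s) (ha : 1 ≤ a) :
    ∫⁻ u, ENNReal.ofReal (cut s u) ∂gaussianReal 0 (1 / a).toNNReal ≤
      ENNReal.ofReal (4 * s * a) := by
  have ha0 : 0 < a := by linarith
  have hv : (1 / a).toNNReal ≠ 0 := by simp [ha0]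
  calc _ ≤ ∫⁻ u, (Set.Icc (-(2 * s)) (2 * s)).indicator 1 u ∂gaussianReal 0 (1 / a).toNNReal := by
        refine lintegral_mono fun u => ?_
        by_cases hu : u ∈ Set.Icc (-(2 * s)) (2 * s)
        · rw [Set.indicator_of_mem hu]
          exact ENNReal.ofReal_le_one.2 (min_le_left _ _)
        · rw [Set.indicator_of_notMem hu]
          have h1 : 2 * s ≤ |u| := by
            by_contra h
            exact hu (abs_le.1 (not_le.1 h).le)
          have h2 : 2 ≤ |u| / s := (le_div_iff₀ hs).2 h1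
          have : cut s u = 0 := by
            unfold cut
            rw [max_eq_left (by linarith), min_eq_right zero_le_one]
          simp [this]
    _ = ∫⁻ u in Set.Icc (-(2 * s)) (2 * s), gaussianPDF 0 (1 / a).toNNReal u := by
        rw [lintegral_indicator_one measurableSet_Icc, gaussianReal_apply _ hv]
    _ ≤ ∫⁻ _ in Set.Icc (-(2 * s)) (2 * s), ENNReal.ofReal a := by
        refine lintegral_mono fun u => ENNReal.ofReal_le_ofReal ?_
        unfold gaussianPDFReal
        rw [Real.coe_toNNReal _ (by positivity)]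
        have h1 : exp (-(u - 0) ^ 2 / (2 * (1 / a))) ≤ 1 :=
          exp_le_one_iff.2 (div_nonpos_of_nonpos_of_nonneg (neg_nonpos.2 (sq_nonneg _))
            (by positivity))
        have h2 : (√(2 * π * (1 / a)))⁻¹ ≤ a := by
          refine (inv_le_comm₀ (by positivity) ha0).2 (le_sqrt_of_sq_le ?_)
          have h3 : a⁻¹ ≤ 1 := inv_le_one_of_one_le₀ ha
          have h4 : 0 < a⁻¹ := inv_pos.2 ha0
          rw [one_div]
          nlinarith [pi_gt_three]
        calc _ ≤ (√(2 * π * (1 / a)))⁻¹ * 1 := by gcongr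
          _ ≤ a := by rw [mul_one]; exact h2
    _ = _ := by
        rw [setLIntegral_const, Real.volume_Icc, ← ENNReal.ofReal_mul ha0.le]
        congr 1; ring

lemma up_cut {ι : Type} [Fintype ι] [DecidableEq ι] {S : Measure (ι → ℝ)} {t κ : ℝ}
    (h : Sh S t κ) {a : ι → ℝ} (ha : ∀ k, 0 < a k)
    {i j k : ι} (hij : i ≠ j) (hi : k ≠ i) (hj : k ≠ j) (hk : 1 ≤ a k) {s : ℝ} (hs : 0 < s) :
    κ * (∏ k, √(a k)) * J S a (fun x => cut s (x k)) ≤ √(a i * a j) / 2 * (4 * s * a k) := by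
  have hc1 : Continuous fun x : ι → ℝ => cut s (x k) := (cont_cut s).comp (continuous_apply k)
  refine h.up ha hc1 fun ε hε => ?_
  have hc : ∀ k, 0 < 1 / a k := fun k => one_div_pos.2 (ha k)
  have h1 := (twoStmt ι 0 (fun k => 1 / a k) hc i j hij (fun x => ENNReal.ofReal (cut s (x k)))
    (ENNReal.measurable_ofReal.comp hc1.measurable)
    (fun x u v => by simp [Function.update_of_ne hi, Function.update_of_ne hj]) t ε hε.le).1
  have h2 : ∫⁻ x, ENNReal.ofReal (cut s (x k)) ∂gs 0 (fun k => 1 / a k) ≤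
      ENNReal.ofReal (4 * s * a k) := by
    have h3 := (measurePreserving_eval (fun l : ι =>
      gaussianReal ((0 : ι → ℝ) l) (1 / a l).toNNReal) k).lintegral_comp
      (f := fun u : ℝ => ENNReal.ofReal (cut s u))
      (ENNReal.measurable_ofReal.comp (cont_cut s).measurable)
    exact h3.trans_le (lint_cut hs hk)
  have h4 := h1.trans (mul_le_mul_right h2 _)
  rw [two_c (ha i) (ha j), ← ENNReal.ofReal_mul (by positivity)] at h4
  rw [integral_eq_lintegral_of_nonneg_ae (.of_forall fun x => cut_nonneg _ _)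
    hc1.aestronglyMeasurable]
  have := ha k
  refine (ENNReal.toReal_le_of_le_ofReal (by positivity) h4).trans_eq (by ring)

lemma qq_eq {ι : Type*} [Fintype ι] [DecidableEq ι] (t : ℝ) (i : ι) (b : ι → ℝ) :
    qq t i b = t - ∑ l ∈ univ.erase i, b l ^ 2 := by
  unfold qq
  rw [dotProduct, ← add_sum_erase _ _ (mem_univ i)]
  simp only [sq]; ring

lemma UU_nonneg {ι : Type*} [Fintype ι] [DecidableEq ι] {c : ι → ℝ} (hc : ∀ k, 0 < c k) (i : ι)
    (b : ι → ℝ) : 0 ≤ UU c i b := sum_nonneg fun k _ => mul_nonneg (hc k).le (sq_nonneg _)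

lemma int_UU {ι : Type*} [Fintype ι] [DecidableEq ι] {c : ι → ℝ} (hc : ∀ k, 0 < c k) (i : ι)
    {μ : Measure (ι → ℝ)} (hi : ∀ k, Integrable (fun x : ι → ℝ => x k ^ 2) μ) {m : ι → ℝ}
    (hm : ∀ k, ∫ x, x k ^ 2 ∂μ ≤ m k) :
    Integrable (UU c i) μ ∧ ∫ x, UU c i x ∂μ ≤ ∑ k, c k * m k := by
  have h0 : ∀ k, 0 ≤ m k := fun k => (integral_nonneg fun x => sq_nonneg _).trans (hm k)
  refine ⟨integrable_finsetSum _ fun k _ => (hi k).const_mul _, ?_⟩
  unfold UU
  rw [integral_finsetSum _ fun k _ => (hi k).const_mul _]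
  refine le_trans (sum_le_sum fun k _ => ?_) (sum_le_sum_of_subset_of_nonneg (subset_univ _)
    fun k _ _ => mul_nonneg (hc k).le (h0 k))
  rw [integral_const_mul]
  exact mul_le_mul_of_nonneg_left (hm k) (hc k).le

end Mass84

open Mass84

theorem massStmt : MassStmt := by
  intro L C w₁ κ hL hκ
  obtain ⟨w₂, hw₂, HD⟩ := denStmt L C 0 0 hL
  obtain ⟨w₃, -, HC⟩ := coordGlue sphStmt shellStmt twoStmt denStmt L C 0 0 hL
  set w₀ := max w₁ (max w₂ w₃) with hw₀
  have a1 : w₁ ≤ w₀ := le_max_left _ _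
  have a2 : w₂ ≤ w₀ := (le_max_left _ _).trans (le_max_right _ _)
  have a3 : w₃ ≤ w₀ := (le_max_right _ _).trans (le_max_right _ _)
  obtain ⟨δ, hδ, HD⟩ := HD w₀ a2
  obtain ⟨B, δ', hB, -, HC⟩ := HC w₀ a3
  have a4 : 2 * L + 1 ≤ w₀ := hw₂.trans a2
  set M := w₀ + (180 + L) with hM
  have hM0 : 0 < M := by linarith
  set s := min 1 (κ * δ / (6 * M ^ 2)) with hs
  have s0 : 0 < s := lt_min one_pos (by positivity)
  have s1 : s ≤ 1 := min_le_left _ _
  have s2 : s * (6 * M ^ 2) ≤ κ * δ := (le_div_iff₀ (by positivity)).1 (min_le_right _ _)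
  set ρ := (s ^ 2) ^ 2 / 32 with hρ
  have ρ0 : 0 < ρ := by positivity
  have k0 := Den90.k4_nonneg
  set σ := min (κ * ρ / (3 * (B + 1))) (min (ρ / 8) (1 / (8 * (Den90.k4 + 1)))) with hσ
  have σ0 : 0 < σ := lt_min (by positivity) (lt_min (by positivity) (by positivity))
  have σ1 : σ * (3 * (B + 1)) ≤ κ * ρ := (le_div_iff₀ (by positivity)).1 (min_le_left _ _)
  have σ2 : σ ≤ ρ / 8 := (min_le_right _ _).trans (min_le_left _ _)
  have σ3 : σ * (8 * (Den90.k4 + 1)) ≤ 1 :=
    (le_div_iff₀ (by positivity)).1 ((min_le_right _ _).trans (min_le_right _ _))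
  obtain ⟨v, v0, hv⟩ := exists_v σ0
  set w := w₀ + 16 + 1 / v with hw
  have v1 : 0 < 1 / v := by positivity
  have hsw : 4 ≤ √w := le_sqrt_of_sq_le (by linarith)
  have hCw : 0 ≤ |C| * √w := by positivity
  have hBκ : 0 ≤ 3 * B / κ := by positivity
  set R := |C| * √w + 2 + 3 * B / κ with hR
  have ss : s ^ 2 ≤ 1 := by nlinarith
  refine ⟨w₀, w, s ^ 2, R, ρ, a1, by linarith, by positivity, by linarith, ρ0.le,
    by rw [hρ]; linarith, ?_⟩
  filter_upwards [HD, HC, eventually_ge_atTop 24] with n HD HC hn η t ht G0 G i hi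
  have : Nonempty (Fin n) := ⟨⟨0, by omega⟩⟩
  have hp : ∀ l : Fin n, 0 < ((l : ℝ) + 1) ^ (2 / 3 : ℝ) / 256 := fun l => by positivity
  have hlo : ∀ l : Fin n, ((l : ℝ) + 1) ^ (2 / 3 : ℝ) / 256 + 1 ≤ w₀ + η l := fun l => by
    have := G.lo l l.2
    linarith
  have ha : ∀ l : Fin n, 0 < w₀ + η l := fun l => by linarith [hlo l, hp l]
  have hc : ∀ l, 0 < cw n η w l := fun l => one_div_pos.2 (by linarith [ha l])
  have hb0 : ∀ l : Fin n, 1 / (w₀ + η l) ≤ bb l := fun l => by
    unfold bb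
    rw [← one_div_div (((l : ℝ) + 1) ^ (2 / 3 : ℝ)) 256]
    exact one_div_le_one_div_of_le (hp l) (by linarith [hlo l])
  have hb1 : ∀ l : Fin n, cw n η w l ≤ bb l := fun l =>
    (one_div_le_one_div_of_le (ha l) (by linarith)).trans (hb0 l)
  have hb2 : ∀ l : Fin n, cw n η w l ≤ min v (bb l) := fun l => le_min (by
    have := one_div_le_one_div_of_le v1 (show 1 / v ≤ w + η l by linarith [ha l])
    rwa [one_div_one_div] at this) (hb1 l)
  have hsum : ∑ l : Fin n, cw n η w l * bb l ≤ σ := by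
    calc _ ≤ ∑ l : Fin n, min v (bb l) * bb l :=
          sum_le_sum fun l _ => mul_le_mul_of_nonneg_right (hb2 l) (bb_pos l).le
      _ = ∑ k ∈ range n, min v (bb k) * bb k :=
          Fin.sum_univ_eq_sum_range (fun k : ℕ => min v (bb k) * bb k) n
      _ ≤ _ := ((summ_min v0.le).sum_le_tsum _ fun k _ =>
          mul_nonneg (le_min v0.le (bb_pos k).le) (bb_pos k).le).trans hv
  constructor
  · obtain ⟨κ', hκ', sh⟩ := exists_sh (ι := Fin n) shellStmt ht
    obtain ⟨hpr, hae, -⟩ := (sphStmt (Fin n)).1 √t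
    rw [sq_sqrt ht.le] at hae
    have hae' : ∀ᵐ x ∂nuD n η t, x ⬝ᵥ x = t := (tilted_absolutelyContinuous _ _).ae_le hae
    have : IsFiniteMeasure (nuD n η t) := by unfold nuD; infer_instance
    obtain ⟨j, k, hjk, hj, hk, hj2, hk2⟩ := exists_two hn i
    have hs' : √((w₀ + η j) * (w₀ + η k)) ≤ M :=
      sqrt_mul_le (ha k).le (by linarith [eta_le G hn hj2]) (by linarith [eta_le G hn hk2])
    have hP : 0 < κ' * ∏ k : Fin n, √(w₀ + η k) :=
      mul_pos hκ' (prod_pos fun k _ => sqrt_pos.2 (ha k))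
    have hden : δ ≤ κ' * (∏ k : Fin n, √(w₀ + η k)) * J (sphR (Fin n) √t) (fun k => w₀ + η k)
        fun _ => 1 := low_set sh ha continuous_const (fun _ => zero_le_one) (fun _ => le_rfl)
      MeasurableSet.univ (fun _ _ => rfl) fun ε h1 h2 => by
        rw [Set.inter_univ]; exact (HD η t G0 ε h1 h2).1
    have hc1 : Continuous fun x : Fin n → ℝ => cut s (x i) :=
      (cont_cut s).comp (continuous_apply i)
    have e1 : ∫ x, cut s (x i) ∂nuD n η t ≤ 1 * (κ / 3) := by
      rw [nuD, tilt_eq hae (fun k => η k) w₀]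
      have hi0 := ha i
      have hiM : w₀ + η i ≤ M := by linarith [eta_le G hn (show (i : ℕ) ≤ 2 by omega)]
      refine (ratio_le hP hδ (by positivity)
        (up_cut sh ha hjk hj hk (by linarith [hlo i, hp i]) s0) hden).trans ?_
      calc _ ≤ M / 2 * (4 * s * M) / δ := by gcongr
        _ ≤ _ := by rw [div_le_iff₀ hδ]; nlinarith
    have m1 := markov (fun x : Fin n → ℝ => cut_nonneg s (x i)) (intg hae' hc1) one_pos e1
    have hi2 : ∀ k, Integrable (fun x : Fin n → ℝ => x k ^ 2) (nuD n η t) :=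
      fun k => intg hae' (by fun_prop)
    have e2 : ∫ x, x i ^ 2 ∂nuD n η t ≤ R * (κ / 3) := by
      refine (HC η t ht G0 i).1.trans ((div_le_self hB (by linarith [hlo i, hp i])).trans ?_)
      have : 3 * B / κ * (κ / 3) = B := by field_simp
      nlinarith
    have m2 := markov (fun x : Fin n → ℝ => sq_nonneg (x i)) (hi2 i) (by linarith) e2
    obtain ⟨u1, u2⟩ := int_UU hc i hi2 (m := fun k => B * bb k) fun k =>
      (HC η t ht G0 k).1.trans (by
        rw [div_eq_mul_one_div]; exact mul_le_mul_of_nonneg_left (hb0 k) hB)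
    have e3 : ∫ x, UU (cw n η w) i x ∂nuD n η t ≤ ρ * (κ / 3) := by
      refine u2.trans ?_
      have : ∑ k : Fin n, cw n η w k * (B * bb k) = B * ∑ k : Fin n, cw n η w k * bb k := by
        rw [mul_sum]; exact sum_congr rfl fun k _ => by ring
      rw [this]
      nlinarith [mul_le_mul_of_nonneg_left hsum hB]
    have m3 := markov (UU_nonneg hc i) u1 ρ0 e3
    have hsub : (GG (cw n η w) t i (s ^ 2) R ρ)ᶜ ≤ᵐ[nuD n η t]
        (({x | 1 ≤ cut s (x i)} ∪ {x | R ≤ x i ^ 2} ∪ {x | ρ ≤ UU (cw n η w) i x} :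
          Set (Fin n → ℝ))) := by
      filter_upwards [hae'] with x hx hG
      have hq : qq t i x = x i ^ 2 := by unfold qq; rw [hx]; ring
      by_contra hn'
      have hn2 : ¬ (1 ≤ cut s (x i) ∨ R ≤ x i ^ 2) ∧ ¬ ρ ≤ UU (cw n η w) i x := not_or.1 hn'
      refine hG ⟨?_, ?_, (not_le.1 hn2.2).le⟩
      · rw [hq]; by_contra h
        exact hn2.1 (Or.inl (cut_one s0 (not_le.1 h)))
      · rw [hq]; by_contra h
        exact hn2.1 (Or.inr (not_le.1 h).le)
    refine (measure_mono_ae hsub).trans ((measure_union_le _ _).trans ((add_le_add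
      ((measure_union_le _ _).trans (add_le_add m1 m2)) m3).trans (le_of_eq ?_)))
    rw [← ENNReal.ofReal_add (by positivity) (by positivity),
      ← ENNReal.ofReal_add (by positivity) (by positivity)]
    congr 1; ring
  · have hmp : ∀ l, MeasurePreserving (fun x : Fin n → ℝ => x l) (gs 0 (cw n η w))
        (gaussianReal ((0 : Fin n → ℝ) l) (cw n η w l).toNNReal) :=
      fun l => measurePreserving_eval _ l
    have hi2 : ∀ k, Integrable (fun x : Fin n → ℝ => x k ^ 2) (gs 0 (cw n η w)) := fun k =>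
      ((Den90.memLp_sq _).comp_measurePreserving (hmp k)).integrable (by simp)
    obtain ⟨u1, u2⟩ := int_UU hc i hi2 (m := fun k => bb k) fun k => by
      have := (hmp k).hasLaw.integral_comp (f := fun x : ℝ => x ^ 2) (by fun_prop)
      simp only [Function.comp_def] at this
      rw [this, Pi.zero_apply, Den90.int_sq, Real.coe_toNNReal _ (hc k).le]
      exact hb1 k
    have m3 := markov (UU_nonneg hc i) u1 ρ0 (b := 1 / 8) (u2.trans (hsum.trans (by linarith)))
    have m4 := Den90.cheb (cw n η w) hc (univ.erase i) one_pos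
    have hsq : ∑ l, cw n η w l ^ 2 ≤ σ := le_trans (sum_le_sum fun l _ => by
      rw [sq]; exact mul_le_mul_of_nonneg_left (hb1 l) (hc l).le) hsum
    have m5 : Den90.k4 * (∑ l, cw n η w l ^ 2) / 1 ^ 2 ≤ 1 / 8 := by
      have := mul_le_mul_of_nonneg_left hsq k0
      nlinarith
    have hS : ∑ l, cw n η w l = ∑ k ∈ range n, 1 / (w + η k) :=
      Fin.sum_univ_eq_sum_range (fun k => 1 / (w + η k)) n
    have hS' : ∑ l ∈ univ.erase i, cw n η w l = ∑ k ∈ range n, 1 / (w + η k) - cw n η w i := by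
      rw [← hS, ← add_sum_erase _ _ (mem_univ i)]; ring
    have hup := G.up
    have hdn := G.dn w le_rfl
    unfold Sr at hup hdn
    have hC : C * √w ≤ |C| * √w := mul_le_mul_of_nonneg_right (le_abs_self C) (sqrt_nonneg _)
    have hci : cw n η w i ≤ 1 :=
      (div_le_one (by linarith [ha i])).2 (by linarith [hlo i, hp i])
    have hsub : (GG (cw n η w) t i (s ^ 2) R ρ)ᶜ ⊆
        {x | 1 ≤ |∑ l ∈ univ.erase i, x l ^ 2 - ∑ l ∈ univ.erase i, cw n η w l|} ∪
          {x | ρ ≤ UU (cw n η w) i x} := by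
      intro x hG
      by_contra hn'
      have hn2 : ¬ 1 ≤ |∑ l ∈ univ.erase i, x l ^ 2 - ∑ l ∈ univ.erase i, cw n η w l| ∧
        ¬ ρ ≤ UU (cw n η w) i x := not_or.1 hn'
      obtain ⟨b1, b2⟩ := abs_lt.1 (not_le.1 hn2.1)
      have := hc i
      refine hG ⟨?_, ?_, (not_le.1 hn2.2).le⟩ <;> rw [qq_eq] <;> linarith
    refine (measure_mono hsub).trans ((measure_union_le _ _).trans ((add_le_add
      (m4.trans (ENNReal.ofReal_le_ofReal m5)) m3).trans (le_of_eq ?_)))
    rw [← ENNReal.ofReal_add (by positivity) (by positivity)]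
    congr 1; ring

end Crest.Agent.T157.Wp

end
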