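import Crest.Agent.T157.WpDef_93
import Crest.Agent.T157.StLnk_10
import Crest.Agent.T157.StDen_90
import Crest.Agent.T157.StSph_38
import Crest.Agent.T157.StFin_85

/-!
# Row 157, part C: `SphWPGlue` (helper85): three charts give the weak Poincaré inequality
-/

set_option autoImplicit false

noncomputable section

namespace Crest.Agent.T157.Wp

open MeasureTheory ProbabilityTheory Matrix Filter Topology Finset Real
open scoped ENNReal
open Crest.Agent.T157.E Crest.Agent.T157.St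

namespace Sph85

/-! ### patching -/

section patch
variable {α : Type*} [MeasurableSpace α] {ν : Measure α} [IsProbabilityMeasure ν] {F : α → ℝ}

lemma sq_le_four {a m : ℝ} (ha : |a| ≤ 1) (hm : |m| ≤ 1) : (a - m) ^ 2 ≤ 4 := by
  have h1 := abs_le.1 ha
  have h2 := abs_le.1 hm
  nlinarith

lemma int_sq (hF : Measurable F) (hb : ∀ x, |F x| ≤ 1) {m : ℝ} (hm : |m| ≤ 1) :
    Integrable (fun x => (F x - m) ^ 2) ν :=
  Fin85.int_bdd ((hF.sub_const m).pow_const 2) (A := 4) fun x => by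
    rw [abs_of_nonneg (sq_nonneg _)]; exact sq_le_four (hb x) hm

lemma mean_close (hF : Measurable F) (hb : ∀ x, |F x| ≤ 1) {m m' X : ℝ} (hm : |m| ≤ 1)
    (hm' : |m'| ≤ 1) {A A' : Set α} (h8 : 1 / 8 ≤ ν.real (A ∩ A'))
    (h1 : ∫ x in A, (F x - m) ^ 2 ∂ν ≤ X) (h2 : ∫ x in A', (F x - m') ^ 2 ∂ν ≤ X) :
    (m - m') ^ 2 ≤ 32 * X := by
  have i1 := int_sq (ν := ν) hF hb hm
  have i2 := int_sq (ν := ν) hF hb hm'
  have a1 : ∫ x in A ∩ A', (F x - m) ^ 2 ∂ν ≤ X :=
    (setIntegral_mono_set i1.integrableOn (ae_of_all _ fun _ => sq_nonneg _)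
      Set.inter_subset_left.eventuallyLE).trans h1
  have a2 : ∫ x in A ∩ A', (F x - m') ^ 2 ∂ν ≤ X :=
    (setIntegral_mono_set i2.integrableOn (ae_of_all _ fun _ => sq_nonneg _)
      Set.inter_subset_right.eventuallyLE).trans h2
  have a3 : ∫ _ in A ∩ A', (m - m') ^ 2 ∂ν ≤
      ∫ x in A ∩ A', (2 * (F x - m) ^ 2 + 2 * (F x - m') ^ 2) ∂ν :=
    integral_mono (integrable_const _)
      ((i1.const_mul 2).add (i2.const_mul 2)).integrableOn fun x => by
        simp only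
        nlinarith [sq_nonneg (2 * F x - m - m')]
  rw [setIntegral_const, smul_eq_mul, integral_add (i1.const_mul 2).integrableOn
    (i2.const_mul 2).integrableOn, integral_const_mul, integral_const_mul] at a3
  nlinarith [sq_nonneg (m - m')]

lemma patch (hF : Measurable F) (hb : ∀ x, |F x| ≤ 1) {m m' m₁ X κ : ℝ} (hm : |m| ≤ 1)
    (hm' : |m'| ≤ 1) (hm₁ : |m₁| ≤ 1) {A A' A₁ N : Set α} (mA : MeasurableSet A)
    (mA' : MeasurableSet A') (mN : MeasurableSet N) (cov : ∀ᵐ x ∂ν, x ∈ A ∨ x ∈ A' ∨ x ∈ N)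
    (hN : ν.real N ≤ κ) (h8 : 1 / 8 ≤ ν.real (A ∩ A₁)) (h8' : 1 / 8 ≤ ν.real (A' ∩ A₁))
    (h1 : ∫ x in A, (F x - m) ^ 2 ∂ν ≤ X) (h2 : ∫ x in A', (F x - m') ^ 2 ∂ν ≤ X)
    (h3 : ∫ x in A₁, (F x - m₁) ^ 2 ∂ν ≤ X) :
    ∫ x, (F x - m) ^ 2 ∂ν ≤ 259 * X + 4 * κ := by
  have i1 := int_sq (ν := ν) hF hb hm
  have i2 := int_sq (ν := ν) hF hb hm'
  have c1 := mean_close hF hb hm hm₁ h8 h1 h3
  have c2 := mean_close hF hb hm' hm₁ h8' h2 h3
  have c3 : (m - m') ^ 2 ≤ 128 * X := by nlinarith [sq_nonneg (m + m' - 2 * m₁)]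
  have j1 : Integrable (A.indicator fun x => (F x - m) ^ 2) ν := i1.indicator mA
  have j2 : Integrable (A'.indicator fun x => (F x - m') ^ 2) ν := i2.indicator mA'
  have j3 : Integrable (N.indicator fun _ => (4 : ℝ)) ν := (integrable_const _).indicator mN
  have j4 : Integrable (fun x => A.indicator (fun x => (F x - m) ^ 2) x +
      2 * A'.indicator (fun x => (F x - m') ^ 2) x) ν := j1.add (j2.const_mul 2)
  have j5 : Integrable (fun x => A.indicator (fun x => (F x - m) ^ 2) x +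
      2 * A'.indicator (fun x => (F x - m') ^ 2) x + N.indicator (fun _ => (4 : ℝ)) x) ν :=
    j4.add j3
  calc _ ≤ ∫ x, (A.indicator (fun x => (F x - m) ^ 2) x +
        2 * A'.indicator (fun x => (F x - m') ^ 2) x + N.indicator (fun _ => (4 : ℝ)) x +
        2 * (m - m') ^ 2) ∂ν := by
        refine integral_mono_ae i1 (j5.add (integrable_const _)) ?_
        filter_upwards [cov] with x hx
        have n1 : 0 ≤ A.indicator (fun x => (F x - m) ^ 2) x :=
          Set.indicator_nonneg (fun _ _ => sq_nonneg _) _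
        have n2 : 0 ≤ A'.indicator (fun x => (F x - m') ^ 2) x :=
          Set.indicator_nonneg (fun _ _ => sq_nonneg _) _
        have n3 : 0 ≤ N.indicator (fun _ => (4 : ℝ)) x :=
          Set.indicator_nonneg (fun _ _ => by norm_num) _
        have n4 := sq_nonneg (m - m')
        rcases hx with h | h | h
        · rw [Set.indicator_of_mem h]; linarith
        · rw [Set.indicator_of_mem h]; nlinarith [sq_nonneg (F x - 2 * m' + m)]
        · rw [Set.indicator_of_mem h (fun _ => (4 : ℝ))]; linarith [sq_le_four (hb x) hm]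
    _ ≤ _ := by
        rw [integral_add j5 (integrable_const _), integral_add j4 j3,
          integral_add j1 (j2.const_mul 2), integral_const_mul, integral_indicator mA,
          integral_indicator mA', integral_indicator mN, setIntegral_const, integral_const]
        simp only [smul_eq_mul, probReal_univ, one_mul]
        linarith

end patch

/-! ### flips -/

section flip
variable {ι : Type*} [Fintype ι] [DecidableEq ι]

/-- sign change of one coordinate -/
def fl (i : ι) (x : ι → ℝ) : ι → ℝ := Function.update x i (-x i)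

omit [Fintype ι] in
lemma fl_sq (i : ι) (x : ι → ℝ) (k : ι) : fl i x k ^ 2 = x k ^ 2 := by
  by_cases h : k = i
  · subst h; simp [fl]
  · simp [fl, h]

omit [Fintype ι] in
lemma continuous_fl (i : ι) : Continuous (fl i) :=
  continuous_id.update i (continuous_apply i).neg

lemma fl_dot (i : ι) (x y : ι → ℝ) : x ⬝ᵥ fl i y = fl i x ⬝ᵥ y := by
  refine sum_congr rfl fun k _ => ?_
  by_cases h : k = i
  · subst h; simp [fl]
  · simp [fl, h]

lemma fl_self (i : ι) (x : ι → ℝ) : fl i x ⬝ᵥ fl i x = x ⬝ᵥ x :=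
  sum_congr rfl fun k _ => by rw [← sq, ← sq, fl_sq]

lemma GG_fl (c : ι → ℝ) (t : ℝ) (i j : ι) (r R ρ : ℝ) (x : ι → ℝ) :
    fl j x ∈ GG c t i r R ρ ↔ x ∈ GG c t i r R ρ := by
  simp only [GG, qq, UU, Set.mem_ofPred_eq, fl_self, fl_sq]

lemma HG_fl {F : (ι → ℝ) → ℝ} {V : (ι → ℝ) → ι → ℝ} (h : HG F V) (i : ι) :
    HG (fun x => F (fl i x)) fun x => fl i (V (fl i x)) where
  bdd _ := h.bdd _
  cF := h.cF.comp (continuous_fl i)
  cV := (continuous_fl i).comp (h.cV.comp (continuous_fl i))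
  der x x' θ hx := by
    rw [← fl_dot]
    refine h.der (fun s => fl i (x s)) (fl i x') θ (hasDerivAt_pi.2 fun k => ?_)
    have hk := hasDerivAt_pi.1 hx k
    by_cases e : k = i
    · subst e; simpa [fl] using hk.fun_neg
    · simpa [fl, e] using hk

lemma qq_lift (t : ℝ) (i : ι) (b : ι → ℝ) : qq t i (lift t i b) = qq t i b := by
  have h : lift t i b ⬝ᵥ lift t i b - lift t i b i ^ 2 = b ⬝ᵥ b - b i ^ 2 := by
    unfold dotProduct
    rw [← add_sum_erase _ _ (mem_univ i), ← add_sum_erase _ (fun k => b k * b k) (mem_univ i),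
      sum_congr rfl (g := fun k => b k * b k) fun k hk => by
        rw [lift, Function.update_of_ne (ne_of_mem_erase hk)]]
    ring
  rw [qq, h, qq]

lemma GG_lift (c : ι → ℝ) (t : ℝ) (i : ι) (r R ρ : ℝ) (b : ι → ℝ) :
    lift t i b ∈ GG c t i r R ρ ↔ b ∈ GG c t i r R ρ := by
  have : UU c i (lift t i b) = UU c i b :=
    sum_congr rfl fun k hk => by rw [lift, Function.update_of_ne (ne_of_mem_erase hk)]
  simp only [GG, Set.mem_ofPred_eq, qq_lift, this]

omit [DecidableEq ι] in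
lemma continuous_qq (t : ℝ) (i : ι) : Continuous (qq t i) := by
  unfold qq dotProduct; fun_prop

lemma continuous_lift (t : ℝ) (i : ι) : Continuous (lift t i) :=
  continuous_id.update i (continuous_qq t i).sqrt

lemma ms_GG (c : ι → ℝ) (t : ℝ) (i : ι) (r R ρ : ℝ) : MeasurableSet (GG c t i r R ρ) := by
  have h1 := (continuous_qq t i).measurable
  have h2 : Measurable (UU c i) := by unfold UU; fun_prop
  exact (measurableSet_le measurable_const h1).inter
    ((measurableSet_le h1 measurable_const).inter (measurableSet_le h2 measurable_const))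

lemma half {ν : Measure (ι → ℝ)} [IsProbabilityMeasure ν] {i : ι} (hν : ν.map (fl i) = ν)
    {S : Set (ι → ℝ)} (mS : MeasurableSet S) (hS : ∀ x, fl i x ∈ S ↔ x ∈ S)
    (h0 : ∀ᵐ x ∂ν, x ∈ S → x i ≠ 0) :
    ν.real S / 2 ≤ ν.real (S ∩ {x | 0 < x i}) ∧ ν.real S / 2 ≤ ν.real (S ∩ {x | x i < 0}) := by
  have mP : MeasurableSet (S ∩ {x | 0 < x i}) :=
    mS.inter (measurableSet_lt measurable_const (measurable_pi_apply i))
  have e : ν.real (S ∩ {x | x i < 0}) = ν.real (S ∩ {x | 0 < x i}) := by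
    conv_rhs => rw [← hν, map_measureReal_apply (continuous_fl i).measurable mP]
    congr 1
    ext x
    simp only [Set.mem_inter_iff, Set.mem_ofPred_eq, Set.mem_preimage, hS]
    simp [fl]
  have h : ν.real S ≤ ν.real (S ∩ {x | 0 < x i}) + ν.real (S ∩ {x | x i < 0}) := by
    refine le_trans ?_ (measureReal_union_le _ _)
    refine ENNReal.toReal_mono (measure_ne_top _ _) (measure_mono_ae ?_)
    filter_upwards [h0] with x hx hs
    rcases lt_or_gt_of_ne (hx hs) with h | h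
    · exact Or.inr ⟨hs, h⟩
    · exact Or.inl ⟨hs, h⟩
  constructor <;> linarith

end flip

/-! ### one chart -/

lemma pdf_le {c c0 : ℝ} (h0 : 0 < c0) (h : c0 ≤ c) (x : ℝ) :
    gaussianPDFReal 0 c.toNNReal x ≤ (√(2 * π * c0))⁻¹ := by
  rw [gaussianPDFReal, Real.coe_toNNReal _ (h0.le.trans h)]
  have h1 : (√(2 * π * c))⁻¹ ≤ (√(2 * π * c0))⁻¹ :=
    inv_anti₀ (by positivity) (sqrt_le_sqrt (by gcongr))
  have hc : 0 < c := h0.trans_le h
  have h2 : exp (-(x - 0) ^ 2 / (2 * c)) ≤ 1 :=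
    exp_le_one_iff.2 (div_nonpos_of_nonpos_of_nonneg (neg_nonpos.2 (sq_nonneg _)) (by positivity))
  calc _ ≤ (√(2 * π * c0))⁻¹ * 1 := mul_le_mul h1 h2 (exp_pos _).le (by positivity)
    _ = _ := mul_one _

lemma le_pdf {c c0 q R : ℝ} (h0 : 0 < c0) (h : c0 ≤ c) (h1 : c ≤ 1) (hq : 0 ≤ q) (hR : q ≤ R) :
    (√(2 * π))⁻¹ * exp (-R / (2 * c0)) ≤ gaussianPDFReal 0 c.toNNReal √q := by
  rw [gaussianPDFReal, Real.coe_toNNReal _ (h0.le.trans h), sub_zero, sq_sqrt hq]
  have hc : 0 < c := h0.trans_le h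
  refine mul_le_mul (inv_anti₀ (by positivity) (sqrt_le_sqrt ?_)) (exp_le_exp.2 ?_)
    (exp_pos _).le (by positivity)
  · exact mul_le_of_le_one_right (by positivity) h1
  · rw [neg_div, neg_div, neg_le_neg_iff]
    exact div_le_div₀ (hq.trans hR) hR (by positivity) (by linarith)

/-- the constant of one chart -/
def b0 (c0 r R ρ d Zm : ℝ) : ℝ :=
  (√(2 * π * c0))⁻¹ / (2 * √r) * (64 * (1 + 4 * ρ / r)) * Zm /
    (d * ((√(2 * π))⁻¹ * exp (-(R + r / 2) / (2 * c0)) / (2 * √(R + r / 2))))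

lemma chart {ι : Type} [Fintype ι] [DecidableEq ι] (hL : LocStmt) {ν : Measure (ι → ℝ)}
    (hν : Cp ν) {c : ι → ℝ} {t r R ρ c0 d Z Zm : ℝ} {i : ι} (hs : ∀ᵐ x ∂ν, x ⬝ᵥ x = t)
    (h0 : 0 < c0) (hc : ∀ k, 0 < c k) (hc1 : ∀ k, c k ≤ 1) (hi : c0 ≤ c i) (hr : 0 < r)
    (hR : r ≤ R) (hρ : 0 ≤ ρ) (h32 : 32 * ρ ≤ r ^ 2) (hd : 0 < d) (hZ : d ≤ Z) (hZm : Z ≤ Zm)
    (hγ : gs 0 c (GG c t i r R ρ)ᶜ ≤ ENNReal.ofReal (1 / 4))
    (hch : ∀ r : ℝ, 0 < r → ∀ Φ : (ι → ℝ) → ℝ≥0∞, Measurable Φ →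
      ENNReal.ofReal Z * ∫⁻ x in {x | r ≤ x i}, Φ x ∂ν =
        ∫⁻ b in {b | r ≤ √(qq t i b)}, Φ (lift t i b) * ENNReal.ofReal
          (gaussianPDFReal 0 (c i).toNNReal √(qq t i b) / (2 * √(qq t i b))) ∂gs 0 c)
    {F : (ι → ℝ) → ℝ} {V : (ι → ℝ) → ι → ℝ} (h : HG F V) : ∃ m : ℝ, |m| ≤ 1 ∧
      ∫ x in GG c t i r R ρ ∩ {x | 0 < x i}, (F x - m) ^ 2 ∂ν ≤
        b0 c0 r R ρ d Zm * ∫ x, V x ⬝ᵥ V x ∂ν := by
  have := hν.prob
  obtain ⟨m, hm, hloc⟩ := hL ι c t i r R ρ hc hc1 hr hρ h32 hγ F V h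
  refine ⟨m, hm, ?_⟩
  set c1 := (√(2 * π * c0))⁻¹ / (2 * √r) with hc1'
  set c2 := (√(2 * π))⁻¹ * exp (-(R + r / 2) / (2 * c0)) / (2 * √(R + r / 2)) with hc2'
  set K := 64 * (1 + 4 * ρ / r) with hK
  have hRr : 0 < R + r / 2 := by linarith
  have p1 : 0 ≤ c1 := by positivity
  have p2 : 0 < c2 := by positivity
  have pK : 0 ≤ K := by positivity
  have pZ : 0 ≤ Zm := by linarith
  have mG := ms_GG c t i r R ρ
  have mG' := ms_GG c t i (r / 2) (R + r / 2) (2 * ρ)
  have mP : MeasurableSet (GG c t i r R ρ ∩ {x | 0 < x i}) :=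
    mG.inter (measurableSet_lt measurable_const (measurable_pi_apply i))
  have mΦ : Measurable fun x => ENNReal.ofReal ((F x - m) ^ 2) :=
    ((h.cF.measurable.sub_const m).pow_const 2).ennreal_ofReal
  have cVV : Continuous fun x => V x ⬝ᵥ V x := by
    have := h.cV; unfold dotProduct; fun_prop
  have nVV : ∀ x, 0 ≤ V x ⬝ᵥ V x := fun x => sum_nonneg fun k _ => mul_self_nonneg _
  have mS : ∀ u : ℝ, MeasurableSet {x : ι → ℝ | u ≤ x i} := fun u =>
    measurableSet_le measurable_const (measurable_pi_apply i)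
  have mS' : ∀ u : ℝ, MeasurableSet {b : ι → ℝ | u ≤ √(qq t i b)} := fun u =>
    measurableSet_le measurable_const (continuous_qq t i).sqrt.measurable
  -- upper step
  have u1 : ∫⁻ x in GG c t i r R ρ ∩ {x | 0 < x i}, ENNReal.ofReal ((F x - m) ^ 2) ∂ν ≤
      ∫⁻ x in {x | √r ≤ x i},
        (GG c t i r R ρ).indicator (fun x => ENNReal.ofReal ((F x - m) ^ 2)) x ∂ν := by
    rw [← lintegral_indicator mP, ← lintegral_indicator (mS _)]
    refine lintegral_mono_ae ?_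
    filter_upwards [hs] with x hx
    by_cases hA : x ∈ GG c t i r R ρ ∩ {x | 0 < x i}
    · have h1 : r ≤ x i ^ 2 := by
        have := hA.1.1
        rw [qq, hx] at this
        linarith
      have h2 : x ∈ {x : ι → ℝ | √r ≤ x i} := sqrt_le_iff.2 ⟨le_of_lt hA.2, h1⟩
      rw [Set.indicator_of_mem hA, Set.indicator_of_mem h2, Set.indicator_of_mem hA.1]
    · rw [Set.indicator_of_notMem hA]; exact zero_le
  have u2 : ENNReal.ofReal Z * ∫⁻ x in {x | √r ≤ x i},
        (GG c t i r R ρ).indicator (fun x => ENNReal.ofReal ((F x - m) ^ 2)) x ∂ν ≤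
      ENNReal.ofReal c1 *
        ∫⁻ b in GG c t i r R ρ, ENNReal.ofReal ((F (lift t i b) - m) ^ 2) ∂gs 0 c := by
    rw [hch _ (sqrt_pos.2 hr) _ (mΦ.indicator mG), ← lintegral_indicator (mS' _),
      ← lintegral_indicator mG, ← lintegral_const_mul' _ _ ENNReal.ofReal_ne_top]
    refine lintegral_mono fun b => ?_
    by_cases hb : b ∈ {b : ι → ℝ | √r ≤ √(qq t i b)}
    · rw [Set.indicator_of_mem hb]
      by_cases hG : b ∈ GG c t i r R ρ
      · rw [Set.indicator_of_mem hG, Set.indicator_of_mem ((GG_lift c t i r R ρ b).2 hG), mul_comm]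
        refine mul_le_mul_left (ENNReal.ofReal_le_ofReal ?_) _
        exact div_le_div₀ (by positivity) (pdf_le h0 hi _) (by positivity)
          (mul_le_mul_of_nonneg_left hb zero_le_two)
      · rw [Set.indicator_of_notMem (fun h' => hG ((GG_lift c t i r R ρ b).1 h')), zero_mul]
        exact zero_le
    · rw [Set.indicator_of_notMem hb]; exact zero_le
  -- lower step
  have d1 : ENNReal.ofReal c2 * ∫⁻ b in GG c t i (r / 2) (R + r / 2) (2 * ρ),
        ENNReal.ofReal (V (lift t i b) ⬝ᵥ V (lift t i b)) ∂gs 0 c ≤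
      ENNReal.ofReal Z * ∫⁻ x in {x | √(r / 2) ≤ x i}, ENNReal.ofReal (V x ⬝ᵥ V x) ∂ν := by
    rw [hch _ (sqrt_pos.2 (by linarith)) _ cVV.measurable.ennreal_ofReal,
      ← lintegral_indicator (mS' _), ← lintegral_indicator mG',
      ← lintegral_const_mul' _ _ ENNReal.ofReal_ne_top]
    refine lintegral_mono fun b => ?_
    by_cases hG : b ∈ GG c t i (r / 2) (R + r / 2) (2 * ρ)
    · have hb : b ∈ {b : ι → ℝ | √(r / 2) ≤ √(qq t i b)} := sqrt_le_sqrt hG.1
      have hq : 0 < qq t i b := lt_of_lt_of_le (by linarith) hG.1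
      rw [Set.indicator_of_mem hG, Set.indicator_of_mem hb, mul_comm]
      refine mul_le_mul_right (ENNReal.ofReal_le_ofReal ?_) _
      exact div_le_div₀ (gaussianPDFReal_nonneg _ _ _) (le_pdf h0 hi (hc1 i) hq.le hG.2.1)
        (by positivity) (mul_le_mul_of_nonneg_left (sqrt_le_sqrt hG.2.1) zero_le_two)
    · rw [Set.indicator_of_notMem hG, mul_zero]; exact zero_le
  have e1 : ∫⁻ x in GG c t i r R ρ ∩ {x | 0 < x i}, ENNReal.ofReal ((F x - m) ^ 2) ∂ν =
      ENNReal.ofReal (∫ x in GG c t i r R ρ ∩ {x | 0 < x i}, (F x - m) ^ 2 ∂ν) :=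
    (ofReal_integral_eq_lintegral_ofReal (int_sq h.cF.measurable h.bdd hm).integrableOn
      (ae_of_all _ fun _ => sq_nonneg _)).symm
  have e2 : ∫⁻ x, ENNReal.ofReal (V x ⬝ᵥ V x) ∂ν = ENNReal.ofReal (∫ x, V x ⬝ᵥ V x ∂ν) :=
    (ofReal_integral_eq_lintegral_ofReal (Lnk10.integrable_cp hν cVV) (ae_of_all _ nVV)).symm
  set I := ∫ x in GG c t i r R ρ ∩ {x | 0 < x i}, (F x - m) ^ 2 ∂ν
  set W := ∫ x, V x ⬝ᵥ V x ∂ν
  have pW : 0 ≤ W := integral_nonneg nVV
  set J := ∫⁻ b in GG c t i (r / 2) (R + r / 2) (2 * ρ),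
    ENNReal.ofReal (V (lift t i b) ⬝ᵥ V (lift t i b)) ∂gs 0 c
  have f1 : ENNReal.ofReal d * ENNReal.ofReal I ≤ ENNReal.ofReal c1 * (ENNReal.ofReal K * J) := by
    rw [← e1]
    exact (mul_le_mul' (ENNReal.ofReal_le_ofReal hZ) u1).trans
      (u2.trans (mul_le_mul_right hloc _))
  have f2 : ENNReal.ofReal c2 * J ≤ ENNReal.ofReal Zm * ENNReal.ofReal W := by
    rw [← e2]
    exact d1.trans (mul_le_mul' (ENNReal.ofReal_le_ofReal hZm) (setLIntegral_le_lintegral _ _))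
  have f3 : ENNReal.ofReal (c2 * (d * I)) ≤ ENNReal.ofReal (c1 * (K * (Zm * W))) := by
    rw [ENNReal.ofReal_mul p2.le, ENNReal.ofReal_mul hd.le, ENNReal.ofReal_mul p1,
      ENNReal.ofReal_mul pK, ENNReal.ofReal_mul pZ]
    calc _ ≤ ENNReal.ofReal c2 * (ENNReal.ofReal c1 * (ENNReal.ofReal K * J)) :=
          mul_le_mul_right f1 _
      _ = ENNReal.ofReal c1 * (ENNReal.ofReal K * (ENNReal.ofReal c2 * J)) := by ring
      _ ≤ _ := mul_le_mul_right (mul_le_mul_right f2 _) _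
  rw [ENNReal.ofReal_le_ofReal_iff (by positivity)] at f3
  rw [b0, ← hc1', ← hc2', ← hK, div_mul_eq_mul_div, le_div_iff₀ (by positivity)]
  linarith

end Sph85

open Sph85

theorem sphWPGlue : SphWPGlue := by
  intro hC hL hM L C w₁ κ hL0 hκ
  obtain ⟨w₂, hw₂, hD⟩ := denStmt L C 0 0 hL0
  set κ' := min (κ / 4) (1 / 4) with hκ'
  have hκ0 : 0 < κ' := lt_min (by positivity) (by norm_num)
  obtain ⟨w₀, w, r, R, ρ, hw₀, hw, hr, hR, hρ, h32, hM⟩ := hM L C (max w₁ w₂) κ' hL0 hκ0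
  have hw2 : w₂ ≤ w := (le_max_right _ _).trans hw
  obtain ⟨d, hd, hD⟩ := hD w hw2
  have hLw : L < w := by linarith
  set c0 := 1 / (w + (60 * ((2 : ℕ) : ℝ) + L)) with hc0
  have pc0 : 0 < c0 := one_div_pos.2 (by push_cast; linarith)
  have hRr : 0 < R + r / 2 := by linarith
  have pb : 0 ≤ b0 c0 r R ρ d (1 / (2 * c0)) := by unfold b0; positivity
  refine ⟨w₀, w, 259 * b0 c0 r R ρ d (1 / (2 * c0)), (le_max_left _ _).trans hw₀,
    (le_max_left _ _).trans hw, by positivity, ?_⟩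
  filter_upwards [hM, hD, eventually_ge_atTop 16] with n hM hD hn η t ht hG0 hG F V hF
  set i0 : Fin n := ⟨0, by omega⟩
  set i1 : Fin n := ⟨1, by omega⟩
  have hne : i0 ≠ i1 := fun h => by simpa [i0, i1] using congrArg Fin.val h
  have : Nonempty (Fin n) := ⟨i0⟩
  obtain ⟨cp, flip⟩ := (lnkGlue sphStmt n (by omega)).2.1 η t ht
  have := cp.prob
  have pos : ∀ k : Fin n, 0 < w + η k := fun k => (Fin85.gd_bd hG hLw k.2).2.1
  have hc : ∀ k, 0 < cw n η w k := fun k => one_div_pos.2 (pos k)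
  have hc1 : ∀ k, cw n η w k ≤ 1 := fun k => by
    have := (Fin85.gd_bd hG hLw k.2).1
    rw [cw, div_le_one (pos k)]; linarith
  have hci : ∀ i : Fin n, (i : ℕ) ≤ 1 → c0 ≤ cw n η w i := fun i hi =>
    one_div_le_one_div_of_le (pos i) (by linarith [Fin85.gd_hi hG (K := 2) (k := i) (by omega) hn])
  obtain ⟨Z, -, hZ1, hZ2⟩ := hC (Fin n) (fun k => η k) w t ht pos
  have lim := hZ1 (fun _ => 1) continuous_const
  rw [← nuD_eq] at lim hZ2
  simp only [integral_const, probReal_univ, smul_eq_mul, mul_one, measureReal_restrict_apply,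
    MeasurableSet.univ, Set.univ_inter] at lim
  have hZd : d ≤ Z := by
    refine ge_of_tendsto lim ?_
    filter_upwards [Ioc_mem_nhdsGT (zero_lt_one' ℝ)] with ε hε
    rw [le_div_iff₀ hε.1]
    exact (hD η t hG ε hε.1 hε.2).1
  have hZm : Z ≤ 1 / (2 * c0) := by
    refine le_of_tendsto lim ?_
    filter_upwards [self_mem_nhdsWithin] with ε hε
    have hε' : 0 < ε := hε
    have h := (twoStmt (Fin n) 0 (cw n η w) hc i0 i1 hne (fun _ => 1) measurable_const
      (fun _ _ _ => rfl) t ε hε'.le).1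
    simp only [lintegral_const, measure_univ, mul_one, one_mul, MeasurableSet.univ,
      Measure.restrict_apply, Set.univ_inter] at h
    have h2 := ENNReal.toReal_le_of_le_ofReal (by positivity) h
    have h3 : c0 ≤ √(cw n η w i0 * cw n η w i1) :=
      le_sqrt_of_sq_le (by
        rw [sq]; exact mul_le_mul (hci i0 (by simp [i0])) (hci i1 le_rfl) pc0.le (hc i0).le)
    rw [div_le_iff₀ hε']
    refine le_trans h2 ?_
    rw [one_div, inv_mul_eq_div]
    exact div_le_div_of_nonneg_left hε'.le (by positivity) (by linarith)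
  have hs : ∀ᵐ x ∂nuD n η t, x ⬝ᵥ x = t := by
    have h := ((sphStmt (Fin n)).1 √t).2.1
    rw [sq_sqrt ht.le] at h
    exact (tilted_absolutelyContinuous _ _).ae_le h
  obtain ⟨M0, N0⟩ := hM η t ht hG0 hG i0 (by simp [i0])
  obtain ⟨M1, N1⟩ := hM η t ht hG0 hG i1 le_rfl
  obtain ⟨m, hm, h1⟩ := chart hL cp hs pc0 hc hc1 (hci i0 (by simp [i0])) hr hR hρ h32 hd hZd hZm
    N0 (hZ2 i0) hF
  obtain ⟨m', hm', h2⟩ := chart hL cp hs pc0 hc hc1 (hci i0 (by simp [i0])) hr hR hρ h32 hd hZd hZm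
    N0 (hZ2 i0) (HG_fl hF i0)
  obtain ⟨m₁, hm₁, h3⟩ := chart hL cp hs pc0 hc hc1 (hci i1 le_rfl) hr hR hρ h32 hd hZd hZm
    N1 (hZ2 i1) hF
  refine ⟨m, hm, ?_⟩
  set G0 := GG (cw n η w) t i0 r R ρ
  set G1 := GG (cw n η w) t i1 r R ρ
  have mG0 : MeasurableSet G0 := ms_GG _ _ _ _ _ _
  have mG1 : MeasurableSet G1 := ms_GG _ _ _ _ _ _
  have mp : ∀ i : Fin n, MeasurableSet {x : Fin n → ℝ | 0 < x i} := fun i =>
    measurableSet_lt measurable_const (measurable_pi_apply i)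
  have mn : ∀ i : Fin n, MeasurableSet {x : Fin n → ℝ | x i < 0} := fun i =>
    measurableSet_lt (measurable_pi_apply i) measurable_const
  have fl0 : (nuD n η t).map (fl i0) = nuD n η t := flip i0
  have fl1 : (nuD n η t).map (fl i1) = nuD n η t := flip i1
  have cVV : Continuous fun x => V x ⬝ᵥ V x := by
    have := hF.cV; unfold dotProduct; fun_prop
  have e1 : ∫ x, fl i0 (V (fl i0 x)) ⬝ᵥ fl i0 (V (fl i0 x)) ∂nuD n η t =
      ∫ x, V x ⬝ᵥ V x ∂nuD n η t := by
    conv_rhs => rw [← fl0, integral_map (continuous_fl i0).measurable.aemeasurable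
      cVV.aestronglyMeasurable]
    simp only [fl_self]
  have e2 : ∫ x in G0 ∩ {x | 0 < x i0}, (F (fl i0 x) - m') ^ 2 ∂nuD n η t =
      ∫ x in G0 ∩ {x | x i0 < 0}, (F x - m') ^ 2 ∂nuD n η t := by
    have cF : Continuous fun x => (F x - m') ^ 2 := (hF.cF.sub continuous_const).pow 2
    conv_rhs => rw [← fl0, setIntegral_map (mG0.inter (mn i0)) cF.aestronglyMeasurable
      (continuous_fl i0).measurable.aemeasurable]
    congr 2
    ext x
    simp only [Set.mem_inter_iff, Set.mem_ofPred_eq, Set.mem_preimage, G0, GG_fl]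
    simp [fl]
  rw [e1, e2] at h2
  have nz : ∀ i : Fin n, ∀ᵐ x ∂nuD n η t, x ∈ GG (cw n η w) t i r R ρ → x i ≠ 0 := fun i => by
    filter_upwards [hs] with x hx hG h0
    have := hG.1
    rw [qq, hx, h0] at this
    linarith
  have r0 : (nuD n η t).real G0ᶜ ≤ κ' := ENNReal.toReal_le_of_le_ofReal hκ0.le M0
  have r1 : (nuD n η t).real G1ᶜ ≤ κ' := ENNReal.toReal_le_of_le_ofReal hκ0.le M1
  have hB : 1 / 2 ≤ (nuD n η t).real (G0 ∩ G1) := by
    have a1 := measureReal_add_measureReal_compl (μ := nuD n η t) (mG0.inter mG1)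
    have a2 : (nuD n η t).real (G0 ∩ G1)ᶜ ≤ (nuD n η t).real G0ᶜ + (nuD n η t).real G1ᶜ := by
      rw [Set.compl_inter]; exact measureReal_union_le _ _
    have a3 : κ' ≤ 1 / 4 := min_le_right _ _
    rw [probReal_univ] at a1
    linarith
  have q1 := (half fl1 (mG0.inter mG1) (fun x => by simp only [Set.mem_inter_iff, G0, G1, GG_fl])
    ((nz i1).mono fun x hx h => hx h.2)).1
  obtain ⟨q2, q3⟩ := half fl0 ((mG0.inter mG1).inter (mp i1)) (fun x => by
    simp only [Set.mem_inter_iff, G0, G1, GG_fl, Set.mem_ofPred_eq]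
    rw [fl, Function.update_of_ne hne.symm]) ((nz i0).mono fun x hx h => hx h.1.1)
  have s1 : G0 ∩ {x | 0 < x i0} ∩ (G1 ∩ {x | 0 < x i1}) =
      G0 ∩ G1 ∩ {x | 0 < x i1} ∩ {x | 0 < x i0} := by
    ext x; simp only [Set.mem_inter_iff]; tauto
  have s2 : G0 ∩ {x | x i0 < 0} ∩ (G1 ∩ {x | 0 < x i1}) =
      G0 ∩ G1 ∩ {x | 0 < x i1} ∩ {x | x i0 < 0} := by
    ext x; simp only [Set.mem_inter_iff]; tauto
  have key := patch hF.cF.measurable hF.bdd hm hm' hm₁ (mG0.inter (mp i0)) (mG0.inter (mn i0))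
    mG0.compl (by
      filter_upwards [nz i0] with x hx
      by_cases hG : x ∈ G0
      · rcases lt_or_gt_of_ne (hx hG) with h | h
        · exact Or.inr (Or.inl ⟨hG, h⟩)
        · exact Or.inl ⟨hG, h⟩
      · exact Or.inr (Or.inr hG)) r0 (by rw [s1]; linarith) (by rw [s2]; linarith) h1 h2 h3
  have a4 : κ' ≤ κ / 4 := min_le_left _ _
  linarith

end Crest.Agent.T157.Wp

end
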