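import Crest.Agent.T157.WpB_93
import Crest.Agent.T157.WpChart_44
import Crest.Agent.T157.WpLoc_46
import Crest.Agent.T157.WpMass_84
import Crest.Agent.T157.WpSph_85
import Crest.Agent.T157.StAll_87
import Crest.Agent.T157.TrF_64

/-!
# Row 157, part C: the weak Poincaré inequality, assembled (helper93)
-/

set_option autoImplicit false

namespace Crest.Agent.T157.Wp

open Crest.ProbabilityR.SpinGlassDynamics

/-- weak Poincaré inequality of the spherical model -/
theorem sphWPStmt : SphWPStmt := sphWPGlue chartStmt locStmt massStmt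

theorem wp_of_crude (h : CrudeStmt) : Soft.WPStmt :=
  wpGlue St.All.goodStmt St.All.closeStmt sphWPStmt h

theorem wp_of (hA : Tr.AStmt disorderLaw) (hT : Glue.TailStmt) : Soft.WPStmt :=
  wp_of_crude (Tr.crudeStmt_of hA hT)

theorem mix_of (hA : Tr.AStmt disorderLaw) (hT : Glue.TailStmt) : Soft.MixStmt :=
  Soft.mix_of_wp (wp_of hA hT)

end Crest.Agent.T157.Wp
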