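import Crest.Agent.T157.CrB_63
import Crest.Agent.T157.CrD_63
import Crest.Agent.T157.LpAll_17
import Crest.Agent.T157.WpAll_93
import Crest.Agent.T157.SoftAll_45
import Crest.Agent.T157.ChainMix_22

/-!
# Row 157, part A (helper63): `R29` and the descent from infinity from the covariance windows
-/

set_option autoImplicit false

namespace Crest.Agent.T157.Q1

open Crest.ProbabilityR.SpinGlassDynamics

theorem tailStmt : Glue.TailStmt :=
  Glue.tail_of (Glue.sspStmt_of_top LpAll.topLp) Tap.ufStmt TapFrz.frzStmt LpAll.frozStmt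
    LpAll.covStmt

theorem jtStmt : JTStmt := jt_of Tap.ufStmt TapFrz.frzStmt LpAll.frozStmt LpAll.covStmt

/-- the high levels need only the sharp window -/
theorem levCrit (h : W2R) : Crit.LevCrit := levCrit_of h LpAll.topLp tailStmt jtStmt

variable {a κ T : ℝ}

theorem spStmt (ha : 0 < a) (ha' : a < 2 / 3) (hκ : 0 < κ) (hκ' : κ ≤ 1 / 30) (hT : 0 < T)
    (h1 : AStar false a κ T) (h2 : W2R) : SPStmt false a :=
  spStmt_of ha ha'.le hκ hκ' hT h1 (termStmt_gauss tailStmt LpAll.covStmt (by linarith) hT)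
    ldB_gauss (levCrit_gauss (levCrit h2) LpAll.topLp ha' hκ)

/-- **descent from infinity**, Gaussian couplings -/
theorem downStmt (ha : 0 < a) (ha' : a < 2 / 3) (hκ : 0 < κ) (hκ' : κ ≤ 1 / 30) (hT : 0 < T)
    (h1 : AStar false a κ T) (h2 : W2R) : DownStmt false a :=
  downStmt_of ha (spStmt ha ha' hκ hκ' hT h1 h2)

theorem lsiCrit (ha : 0 < a) (ha' : a < 2 / 3) (hκ : 0 < κ) (hκ' : κ ≤ 1 / 30) (hT : 0 < T)
    (h1 : AStar false a κ T) (h2 : W2R) (h3 : Tr.AStmt disorderLaw) : Top.LsiCrit :=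
  lsiCrit_of ha.le (spStmt ha ha' hκ hκ' hT h1 h2) (Wp.wp_of h3 tailStmt)

/-- **S0229 from the three covariance windows** (`w2r_of : Crit.W2SStmt → W2R`) -/
theorem r29 (ha : 0 < a) (ha' : a < 2 / 3) (hκ : 0 < κ) (hκ' : κ ≤ 1 / 30) (hT : 0 < T)
    (h1 : AStar false a κ T) (h2 : W2R) (h3 : Tr.AStmt disorderLaw) : Top.R29 :=
  Chain22.g29 (lsiCrit ha ha' hκ hκ' hT h1 h2 h3) Soft45.slowCrit

end Crest.Agent.T157.Q1
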