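import Crest.Agent.T157.Q1G_63

/-!
# Row 157, part A (helper63): the critical log-Sobolev inequality from the dyadic levels and the
weak Poincaré inequality
-/

set_option autoImplicit false

noncomputable section

namespace Crest.Agent.T157.Q1

open MeasureTheory Filter Topology Set Matrix Real
open Crest.ProbabilityR.SpinGlassDynamics
open Crest.Agent.T157 Crest.Agent.T157.E Crest.Agent.T157.SL Crest.Agent.T157.Soft

variable {n : ℕ} {w : Cube n → ℝ}

theorem lev_of (hn : 0 < n) (hw : ∀ x, 0 < w x) {H b K : ℝ}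
    (h : ∀ g : Cube n → ℝ, (∀ x, 0 ≤ g x) → (∀ x, g x ^ 2 ≤ exp H * mean w fun x => g x ^ 2) →
      mean w (Ent.ind fun x => 0 < g x) ≤ b → H * mean w (fun x => g x ^ 2) ≤ K * dir w g) :
    Ent.Lev (Chain22.hbRC hn hw) (exp (-H)) b (K * n) 0 := fun g g0 g1 g2 => by
  have := Ent.lev_triv (c := Chain22.hbRC hn hw) (exp_pos (-H)) b g g0 g1 g2
  rw [one_div, log_inv, log_exp, neg_neg, zero_mul, zero_add] at this
  rw [zero_mul, add_zero, mul_assoc, ← Chain22.dir_eq_D]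
  exact this.trans (h g g0 (fun x => by
    have := g1 x
    rwa [exp_neg, inv_mul_le_iff₀ (exp_pos H)] at this) g2)

/-- deterministic form -/
theorem lsi_of_sp (hn : 0 < n) (hw : ∀ x, 0 < w x) {K B : ℝ} {j₀ J : ℕ} (hK : 0 < K) (hB : 0 ≤ B)
    (h0 : ∀ x, log (1 / prob w x) < 2 ^ J) (h : ∀ j, j₀ ≤ j → SP w (2 ^ j) (2 ^ j / K))
    (hP : ∀ u : Cube n → ℝ, (∀ x, |u x| ≤ 1) → var w u ≤ B * dir w u + exp (-2 ^ j₀) / 4) :
    Top.Lsi w (10 * (J + 1) * (2 * K + 2 ^ j₀ * 4 * B)) := fun f => by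
  have hW := Wt.of_pos hw
  have := Ent.LSI.of_levels (c := Chain22.hbRC hn hw) (J := J + 1)
    (a := fun j => if j ≤ J then exp (-2 ^ (j₀ + (J - j))) else 1 / 2)
    (K := (2 * K + 2 ^ j₀ * 4 * B) * n) (by positivity) (fun x => ?_) (fun j _ => ?_)
    (if_neg (by omega)) (fun j hj => ?_) f
  · rw [zero_mul, add_zero, ← mul_assoc, mul_assoc _ (n : ℝ), ← Chain22.dir_eq_D] at this
    push_cast at this
    exact this
  · have := h0 x
    rw [one_div, log_inv, neg_lt, lt_log_iff_exp_lt (GoeT.prob_pos hw x)] at this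
    rw [if_pos J.zero_le]
    exact lt_of_le_of_lt (exp_le_exp.2 (neg_le_neg (pow_le_pow_right₀ one_le_two (by omega)))) this
  · split_ifs
    · refine ⟨(exp_pos _).le, (exp_le_exp.2 (neg_le_neg (one_le_pow₀ one_le_two))).trans ?_⟩
      rw [exp_neg, one_div]
      exact inv_anti₀ two_pos (by linarith [add_one_le_exp (1 : ℝ)])
    · norm_num
  rw [if_pos (by omega)]
  refine lev_of hn hw fun g g0 g1 g2 => ?_
  have D0 := Ent.dir_nonneg hw g
  split_ifs at g2 with hJ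
  · have e : j₀ + (J - j) = j₀ + (J - (j + 1)) + 1 := by omega
    rw [e, pow_succ'] at g1 ⊢
    have := h _ (Nat.le_add_right _ _) g g0 g1 g2
    rw [div_mul_eq_mul_div, div_le_iff₀ hK] at this
    have p : 0 ≤ 2 ^ j₀ * 4 * B * dir w g := by positivity
    linarith
  · rw [show j₀ + (J - j) = j₀ by omega] at g1 ⊢
    set m := mean w fun x => g x ^ 2 with hm
    rcases (hW.mean_nonneg (f := fun x => g x ^ 2) fun x => sq_nonneg _).eq_or_lt with e | e
    · rw [hm, ← e, mul_zero]; positivity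
    have q0 : 0 < exp (2 ^ j₀) * m := by positivity
    have e1 : (√(exp (2 ^ j₀) * m))⁻¹ ^ 2 = (exp (2 ^ j₀) * m)⁻¹ := by rw [inv_pow, sq_sqrt q0.le]
    have a1 := hP (fun x => (√(exp (2 ^ j₀) * m))⁻¹ * g x) fun x => by
      rw [← sq_le_one_iff_abs_le_one, mul_pow, e1, inv_mul_le_iff₀ q0, mul_one]; exact g1 x
    have a2 := Ent.var_ge_of_supp hW.isP (fun x => (√(exp (2 ^ j₀) * m))⁻¹ * g x)
      (p := fun x => 0 < g x) (fun x hx => lt_of_le_of_ne (g0 x) fun h => hx (by simp [← h])) g2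
    change _ * mean w _ ≤ var w _ at a2
    simp only [mul_pow, e1, mean_const_mul, ← hm] at a2
    have a3 := mul_le_mul_of_nonneg_left (a2.trans a1) q0.le
    rw [dir_mul, e1, mul_add, mul_left_comm _ (1 - 1 / 2 : ℝ), mul_left_comm _ B,
      mul_inv_cancel_left₀ q0.ne', mul_inv_cancel_left₀ q0.ne', exp_neg,
      show exp (2 ^ j₀) * m * ((exp (2 ^ j₀))⁻¹ / 4) = m / 4 by field_simp] at a3
    have p : 0 ≤ 2 * K * dir w g := by positivity
    nlinarith [mul_le_mul_of_nonneg_left (show m ≤ 4 * (B * dir w g) by linarith)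
      (show (0 : ℝ) ≤ 2 ^ j₀ by positivity)]

theorem ev_log (C : ℝ) {δ : ℝ} (hδ : 0 < δ) :
    ∀ᶠ n : ℕ in atTop, ((Nat.log 2 (19 * n) + 1 : ℕ) + 1 : ℝ) * C ≤ (n : ℝ) ^ δ := by
  have l : Tendsto (fun n : ℕ => (n : ℝ) ^ (δ / 2)) atTop atTop :=
    (tendsto_rpow_atTop (half_pos hδ)).comp tendsto_natCast_atTop_atTop
  filter_upwards [l.eventually_ge_atTop ((2 + 19 ^ (δ / 2) / (δ / 2 * log 2)) * |C|),
    eventually_ge_atTop 1] with n h hn
  have n1 : (1 : ℝ) ≤ n := by exact_mod_cast hn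
  have u1 := one_le_rpow n1 (half_pos hδ).le
  have l2 := log_pos one_lt_two
  set k := Nat.log 2 (19 * n)
  have h1 : ((2 : ℝ) ^ k) ≤ 19 * n := by exact_mod_cast Nat.pow_log_le_self 2 (by omega : 19 * n ≠ 0)
  have h2 : (k : ℝ) ≤ 19 ^ (δ / 2) / (δ / 2 * log 2) * (n : ℝ) ^ (δ / 2) := by
    rw [div_mul_eq_mul_div, le_div_iff₀ (by positivity), ← mul_rpow (by norm_num) (by linarith)]
    refine le_trans ?_ (rpow_le_rpow (by positivity) h1 (half_pos hδ).le)
    rw [rpow_def_of_pos (by positivity), log_pow]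
    linarith [add_one_le_exp (k * log 2 * (δ / 2))]
  rw [show (n : ℝ) ^ δ = (n : ℝ) ^ (δ / 2) * (n : ℝ) ^ (δ / 2) by
    rw [← rpow_add (by linarith), add_halves]]
  push_cast
  calc _ ≤ ((k : ℝ) + 1 + 1) * |C| := mul_le_mul_of_nonneg_left (le_abs_self C) (by positivity)
    _ ≤ (2 + 19 ^ (δ / 2) / (δ / 2 * log 2)) * (n : ℝ) ^ (δ / 2) * |C| := by gcongr; linarith
    _ = (2 + 19 ^ (δ / 2) / (δ / 2 * log 2)) * |C| * (n : ℝ) ^ (δ / 2) := by ring
    _ ≤ _ := by gcongr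

/-- **the critical log-Sobolev inequality** -/
theorem lsiCrit_of {a : ℝ} (ha : 0 ≤ a) (h1 : SPStmt false a) (h2 : WPStmt) : Top.LsiCrit :=
  fun δ hδ => Top.whp_iff.2 fun ε hε => by
  obtain ⟨β, j₀, hβ, h1⟩ := h1 (ε / 3) (by positivity)
  obtain ⟨B, h2⟩ := h2 (exp (-2 ^ j₀) / 4) (ε / 3) (by positivity) (by positivity)
  filter_upwards [h1, h2, Top.whp_iff.1 Chain22.whp_opn' (ε / 3) (by positivity),
    ev_log (10 * (2 * β + 2 ^ j₀ * 4 * |B|)) hδ, eventually_ge_atTop 1] with n e1 e2 e3 e4 hn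
  have t0 : 0 ≤ ε / 3 := by positivity
  refine le_trans (measure_mono fun g hg => ?_) ((un (un e1 e2 t0 t0) e3 (by positivity) t0).trans_eq
    (by congr 1; ring))
  by_contra hc
  simp only [mem_union, mem_ofPred_eq, not_or, not_exists, not_and, not_not, not_lt] at hc
  obtain ⟨⟨c1, c2⟩, c3⟩ := hc
  have hw := gibbsWeight_pos (n := n) 1 g
  have N0 := N23_pos hn
  have := lsi_of_sp hn hw (K := β * N23 n) (B := |B| * N23 n) (J := Nat.log 2 (19 * n) + 1)
    (by positivity) (by positivity) (fun x => (Chain22.log_inv_prob_gibbs_le c3 x).trans_lt (by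
      have : ((19 * n : ℕ) : ℝ) < (2 ^ (Nat.log 2 (19 * n) + 1) : ℕ) := by
        exact_mod_cast Nat.lt_pow_succ_log_self one_lt_two _
      push_cast at this
      rw [abs_one]; linarith))
    (fun j hj => (c1 j hj).mono (.of_pos hw) (div_le_div_of_nonneg_right
      (self_le_rpow_of_one_le (one_le_pow₀ one_le_two) (by linarith)) (by positivity)))
    fun u hu => by
      have := c2 u hu
      rw [dirichletForm_eq, gibbsVar_eq] at this
      nlinarith [mul_le_mul_of_nonneg_right (le_abs_self B) (mul_nonneg N0.le (Ent.dir_nonneg hw u))]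
  refine hg fun f => (this f).trans (mul_le_mul_of_nonneg_right ?_ (Ent.dir_nonneg hw f))
  rw [rpow_add (by exact_mod_cast hn)]
  exact le_of_eq_of_le (by ring) (mul_le_mul_of_nonneg_left e4 N0.le)

end Crest.Agent.T157.Q1

end
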