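import Crest.Agent.T157.TapAlg_29
import Crest.Agent.T157.NrmG_84

/-!
# Row 157, part A: the covariance bound, deterministic part (helper15)

Windows of the localisation for a fixed matrix: `Win`, `Acc`, the backward step and the partial
windows.
-/

set_option autoImplicit false

noncomputable section

namespace Crest.Agent.T157.Tap.Cov15

open MeasureTheory ProbabilityTheory Matrix Filter Set
open Crest.Agent.T157.E Crest.Agent.T157.Eig Crest.Agent.T157.SL

variable {n : ℕ} {J : Mx n} {b c r R K' h0 ρ a M : ℝ} {Γ : V n → ℝ}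

/-! ### small facts -/

lemma ising_pos (J : Mx n) (y : V n) (x : Cube n) : 0 < ising J y x := Real.exp_pos _

lemma wt_ising (J : Mx n) (y : V n) : Wt (ising J y) := Wt.of_pos (ising_pos J y)

lemma tilt0 (J : Mx n) (y : V n) : tilt (ising J 0) y = ising J y := by rw [tilt_ising, zero_add]

lemma nrm_sv (σ : Cube n) : nrm (sv σ) = √n := by rw [nrm, sv_dot_self]

lemma nrm_sub_comm (u v : V n) : nrm (u - v) = nrm (v - u) := by rw [← nrm_neg, neg_sub]

lemma cb_mag {w : Cube n → ℝ} (hw : Wt w) : Cb (mag w) := fun i =>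
  hw.abs_mean_le fun x => (abs_spin (x i)).le

lemma mag_sub_le {w : Cube n → ℝ} (hw : Wt w) (x : V n) : nrm (mag w - th x) ^ 2 ≤ 4 * n := by
  have h := nrm_sub_le (mag w) (th x)
  have h1 := (cb_mag hw).nrm_le
  have h2 := (cb_th x).nrm_le
  have h3 : √(n : ℝ) ^ 2 = n := Real.sq_sqrt (Nat.cast_nonneg n)
  nlinarith [nrm_nonneg (mag w - th x), Real.sqrt_nonneg (n : ℝ)]

lemma gv_tail : (gv (Fin n)).real {g | 2 * √(n : ℝ) ≤ nrm g} ≤ Real.exp (-(n / 2)) := by
  have h := Conc.tail_lip (Conc.elip_en (ι := Fin n)) (Real.sqrt_nonneg (n : ℝ))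
  rw [Real.sq_sqrt (Nat.cast_nonneg n), show -(n : ℝ) / (2 * 1 ^ 2) = -(n / 2) by ring] at h
  refine le_trans (measureReal_mono (fun g hg => ?_) (measure_ne_top _ _)) h
  have h1 := Nrm.integral_nrm_le (ι := Fin n)
  rw [Fintype.card_fin] at h1
  simp only [mem_ofPred_eq, Nrm.en_eq_nrm] at hg ⊢
  linarith

/-- events that need an atypical Gaussian increment -/
lemma law_tail {v : Cube n → ℝ} (hv : Wt v) (t : ℝ) {A : Set (V n)} (hA : MeasurableSet A)
    (h : ∀ (σ : Cube n) (g : V n), nrm g < 2 * √(n : ℝ) → t • sv σ + √t • g ∉ A) :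
    (law sv v t).real A ≤ Real.exp (-(n / 2)) := by
  rw [law_real hv hA]
  refine hv.mean_le fun σ => ?_
  rw [px, map_measureReal_apply (by fun_prop) hA]
  refine le_trans (measureReal_mono (fun g hg => ?_) (measure_ne_top _ _)) gv_tail
  exact not_lt.1 fun hlt => h σ g hlt hg

lemma nrm_path {t R0 : ℝ} (hn : 0 < n) (ht : 0 ≤ t) (ht1 : t ≤ 1) (hR : t ≤ (R0 / 10) ^ 2)
    (hR0 : 0 < R0) (σ : Cube n) {g : V n} (hg : nrm g < 2 * √(n : ℝ)) :
    nrm (t • sv σ + √t • g) < R0 * √n / 2 := by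
  have hs : (0 : ℝ) < √n := Real.sqrt_pos.2 (by exact_mod_cast hn)
  have h1 : √t ≤ R0 / 10 := Real.sqrt_le_iff.2 ⟨by positivity, hR⟩
  have h2 : t ≤ √t := by
    have := Real.mul_self_sqrt ht
    have h3 : √t ≤ 1 := Real.sqrt_le_one.2 ht1
    nlinarith [Real.sqrt_nonneg t]
  refine (nrm_add_le _ _).trans_lt ?_
  rw [nrm_smul, nrm_smul, nrm_sv, abs_of_nonneg ht, abs_of_nonneg (Real.sqrt_nonneg _)]
  have h4 : √t * nrm g ≤ R0 / 10 * (2 * √n) :=
    mul_le_mul h1 hg.le (nrm_nonneg _) (by positivity)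
  have h5 : t * √n ≤ R0 / 10 * √n := mul_le_mul_of_nonneg_right (h2.trans h1) hs.le
  nlinarith [mul_pos hR0 hs]

lemma prob_tilt_le {w : Cube n → ℝ} (hw : Wt w) {v : V n} (hv : nrm v ≤ ρ) (x : Cube n) :
    prob (tilt w v) x ≤ Real.exp (2 * ρ * √n) * prob w x := by
  have hb : ∀ σ : Cube n, |v ⬝ᵥ sv σ| ≤ ρ * √n := fun σ =>
    (abs_dot_le _ _).trans (by rw [nrm_sv]; gcongr)
  have e : prob (tilt w v) x = prob w x * Real.exp (v ⬝ᵥ sv x) /
      mean w fun σ => Real.exp (v ⬝ᵥ sv σ) := prob_mul_weight w _ hw.pos.ne' x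
  have h1 : Real.exp (-(ρ * √n)) ≤ mean w fun σ => Real.exp (v ⬝ᵥ sv σ) :=
    hw.le_mean fun σ => Real.exp_le_exp.2 (abs_le.1 (hb σ)).1
  have h2 : Real.exp (v ⬝ᵥ sv x) ≤ Real.exp (ρ * √n) := Real.exp_le_exp.2 (abs_le.1 (hb x)).2
  have h0 := hw.prob_nonneg x
  rw [e, div_le_iff₀ ((Real.exp_pos _).trans_le h1)]
  calc prob w x * Real.exp (v ⬝ᵥ sv x) ≤ prob w x * Real.exp (ρ * √n) := by gcongr
    _ = Real.exp (2 * ρ * √n) * prob w x * Real.exp (-(ρ * √n)) := by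
        rw [mul_right_comm, ← Real.exp_add, mul_comm]; congr 2; ring
    _ ≤ _ := by gcongr

lemma slE_tilt_le {w : Cube n → ℝ} (hw : Wt w) {v : V n} (hv : nrm v ≤ ρ) (h : ℝ)
    {F : V n → ℝ} (hF : ∀ z, 0 ≤ F z) :
    slE sv (tilt w v) h (fun _ z => F z) ≤ Real.exp (2 * ρ * √n) * slE sv w h fun _ z => F z := by
  simp only [slE, Finset.mul_sum, ← mul_assoc]
  exact Finset.sum_le_sum fun x _ =>
    mul_le_mul_of_nonneg_right (prob_tilt_le hw hv x) (integral_nonneg fun _ => hF _)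

/-- one step of the localisation started from the field `y` -/
def SG (J : Mx n) (h : ℝ) (Γ : V n → ℝ) (y : V n) : ℝ :=
  slE sv (ising J y) h fun _ z => Γ (y + z)

lemma SG_nonneg (h : ℝ) (hΓ : ∀ y, 0 ≤ Γ y) (y : V n) : 0 ≤ SG J h Γ y :=
  slE_nonneg (wt_ising J y) fun _ _ => hΓ _

lemma mg_SG (h : ℝ) (hΓ : MG Γ) : MG (SG J h Γ) := by
  have := mg_mean (φ := sv) (wt_ising J 0) 0
    (F := fun x y => ∫ z, Γ (y + (h • sv x + √h • z)) ∂Gs (Fin n)) fun x => hΓ.conv _ _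
  simp only [mean_post_sv, tilt0] at this
  exact this

lemma slE_SG {s h : ℝ} (hs : 0 ≤ s) (hh : 0 ≤ h) (hΓ : MG Γ) :
    slE sv (ising J 0) s (fun _ y => SG J h Γ y) = slE sv (ising J 0) (s + h) fun _ y => Γ y := by
  rw [markov (wt_ising J 0) hs hh (F := fun _ y => Γ y) fun _ => hΓ]
  congr 1; ext _ y
  simp only [SG, slE, prob_post_sv, tilt0]

lemma slE_ind {s : ℝ} {A : Set (V n)} (hA : MeasurableSet A) (k : ℝ) :
    slE sv (ising J 0) s (fun _ y => A.indicator (fun _ => k) y) =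
      k * (law sv (ising J 0) s).real A := by
  rw [law_real (wt_ising J 0) hA, ← mean_const_mul]
  exact slE_indicator hA fun _ => k

/-- Markov inequality along the localisation -/
lemma law_markov {s : ℝ} (hΓ : MG Γ) (h0 : ∀ y, 0 ≤ Γ y) :
    (law sv (ising J 0) s).real {y | 1 ≤ Γ y} ≤ slE sv (ising J 0) s fun _ y => Γ y := by
  have hm : MeasurableSet {y | 1 ≤ Γ y} := measurableSet_le measurable_const hΓ.meas
  rw [← one_mul ((law sv (ising J 0) s).real _), ← slE_ind hm]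
  refine slE_mono (wt_ising J 0) (.of_mg fun _ => (MG.const 1).indicator hm) (.of_mg fun _ => hΓ)
    fun _ y => ?_
  by_cases hy : y ∈ {y | 1 ≤ Γ y}
  · rw [indicator_of_mem hy]; exact hy
  · rw [indicator_of_notMem hy]; exact h0 y

/-- fields close to the complement of `B` -/
def Nb (B : Set (V n)) (R : ℝ) : Set (V n) := {y | ∃ y', y' ∉ B ∧ nrm (y - y') < R}

lemma isOpen_Nb (B : Set (V n)) (R : ℝ) : IsOpen (Nb B R) := by
  have : Nb B R = ⋃ y' ∈ Bᶜ, {y | nrm (y - y') < R} := by ext y; simp [Nb]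
  rw [this]
  exact isOpen_biUnion fun y' _ =>
    isOpen_lt (continuous_nrm.comp (continuous_id.sub continuous_const)) continuous_const

lemma law_Nb {B : Set (V n)} (hB : MeasurableSet B) {s h R0 : ℝ} (hn : 0 < n) (hs : 0 ≤ s)
    (hh : 0 ≤ h) (h1 : h ≤ 1) (hR : h ≤ (R0 / 10) ^ 2) (hR0 : 0 < R0) :
    (law sv (ising J 0) (s + h)).real (Nb B (R0 * √n))ᶜ ≤
      (law sv (ising J 0) s).real B + Real.exp (-(n / 2)) := by
  have hs' : (0 : ℝ) < √n := Real.sqrt_pos.2 (by exact_mod_cast hn)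
  have hO := (isOpen_Nb B (R0 * √n)).measurableSet.compl
  have mO := (MG.const (ι := Fin n) 1).indicator hO
  have mB := (MG.const (ι := Fin n) 1).indicator hB
  rw [← one_mul ((law sv (ising J 0) (s + h)).real _), ← slE_ind hO, ← slE_SG hs hh mO,
    ← one_mul ((law sv (ising J 0) s).real _), ← slE_ind hB,
    ← (wt_ising J 0).mean_const (Real.exp (-(n / 2))), ← slE_fun (φ := sv) (s := s),
    ← slE_add (.of_mg fun _ => mB) (.of_mg fun _ => MG.const _)]
  refine slE_mono (wt_ising J 0) (.of_mg fun _ => mg_SG h mO)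
    (.of_mg fun _ => mB.add (MG.const _)) fun _ y => ?_
  have hm : MeasurableSet ((fun z => y + z) ⁻¹' (Nb B (R0 * √n))ᶜ) := measurable_const_add y hO
  have e : SG J h ((Nb B (R0 * √n))ᶜ.indicator fun _ => 1) y =
      (law sv (ising J y) h).real ((fun z => y + z) ⁻¹' (Nb B (R0 * √n))ᶜ) := by
    rw [law_real (wt_ising J y) hm]
    have := slE_indicator (φ := sv) (v := ising J y) (s := h) hm fun _ => 1
    simp only [one_mul] at this
    exact this
  rw [e]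
  by_cases hy : y ∈ B
  · rw [indicator_of_mem hy]
    have := isProb_law (φ := sv) (s := h) (wt_ising J y)
    linarith [measureReal_le_one (μ := law sv (ising J y) h)
      (s := (fun z => y + z) ⁻¹' (Nb B (R0 * √n))ᶜ), Real.exp_pos (-((n : ℝ) / 2))]
  · rw [indicator_of_notMem hy, zero_add]
    refine law_tail (wt_ising J y) h hm fun σ g hg hc => hc ⟨y, hy, ?_⟩
    rw [add_sub_cancel_left]
    have := nrm_path hn hh h1 hR hR0 σ hg
    nlinarith [mul_pos hR0 hs']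

/-! ### windows -/

/-- the conclusion of `ExStmt` -/
def Ex (J : Mx n) (b : ℝ) : Prop :=
  (∀ y : V n, ∃ x, Ymap J b x = y) ∧
  ∀ (c r : ℝ) (p0 : V n), 0 < c → GoodB J b c r p0 →
    (∀ x x' : V n, nrm (th x - p0) ≤ r → nrm (th x' - p0) ≤ r →
      c * nrm (th x - th x') ≤ nrm (Ymap J b x - Ymap J b x')) ∧
    ∀ x0 y : V n, nrm (th x0 - p0) + nrm (y - Ymap J b x0) / c < r →
      ∃ x, Ymap J b x = y ∧ nrm (th x - p0) < r

/-- the window lemma for the plain localisation -/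
def Win (J : Mx n) (b c r R K' h0 : ℝ) : Prop :=
  ∀ h ∈ Icc 0 h0, ∀ (y0 p0 : V n) (ψ : V n → ℝ), GoodB J b c r p0 →
    (∀ z : V n, nrm z ≤ 2 * R → ∃ x, nrm (th x - p0) < r ∧ Ymap J b x = y0 + z) →
    MG ψ → (∀ z, 0 ≤ ψ z) →
    (∀ z : V n, nrm z ≤ R → ∀ x, nrm (th x - p0) < r → Ymap J b x = y0 + z →
      nrm (mag (ising J (y0 + z)) - th x) ^ 2 ≤ ψ z) →
    ∀ x0, nrm (th x0 - p0) < r → Ymap J b x0 = y0 →
      nrm (mag (ising J y0) - th x0) ^ 2 ≤
        Real.exp K' * (slE sv (ising J y0) h (fun _ z => ψ z) + 2 * K')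

/-- accuracy of the TAP equations, robust under shifts of the field -/
def Acc (J : Mx n) (b ρ a M : ℝ) (Γ : V n → ℝ) : Prop :=
  ∀ x v x' : V n, nrm v ≤ ρ → Ymap J b x' = Ymap J b x + v → nrm (th x' - th x) ≤ a →
    nrm (mag (ising J (Ymap J b x + v)) - th x') ^ 2 ≤ M + Γ (Ymap J b x)

lemma Acc.mono {M' : ℝ} (h : Acc J b ρ a M Γ) (hM : M ≤ M') : Acc J b ρ a M' Γ :=
  fun x v x' h1 h2 h3 => (h x v x' h1 h2 h3).trans (by linarith)

lemma Ex.sol (hE : Ex J b) (hc : 0 < c) {xc : V n} (hG : GoodB J b c r (th xc)) {y : V n}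
    (hy : nrm (y - Ymap J b xc) < c * r) : ∃ x, Ymap J b x = y ∧ nrm (th x - th xc) < r :=
  (hE.2 c r _ hc hG).2 xc y (by
    rw [sub_self, nrm_zero, zero_add, div_lt_iff₀ hc, mul_comm]; exact hy)

lemma win_core (hE : Ex J b) (hW : Win J b c r R K' h0) (hA : Acc J b ρ a M Γ) (hΓ : MG Γ)
    (h0' : ∀ y, 0 ≤ Γ y) (hM : 0 ≤ M) (hc : 0 < c) (hρ : ρ ≤ c * a) (hr : 3 * R + ρ < c * r)
    (hR : 0 ≤ R) {h : ℝ} (hh : h ∈ Icc 0 h0) {xc y v x' : V n} (hG : GoodB J b c r (th xc))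
    (hy : nrm (y - Ymap J b xc) ≤ R) (hv : nrm v ≤ ρ) (hx : Ymap J b x' = y + v)
    (hx' : nrm (th x' - th xc) < r) :
    nrm (mag (ising J (y + v)) - th x') ^ 2 ≤
      Real.exp K' * (M + Real.exp (2 * ρ * √n) * SG J h Γ y + 2 * K') := by
  have mΓ : MG fun z => Γ (y + z) := by simpa using hΓ.affine y 1
  have hv0 := nrm_nonneg v
  have key := hW h hh (y + v) (th xc) (fun z => M + Γ (y + z)) hG (fun z hz => ?_)
    ((MG.const M).add mΓ) (fun z => add_nonneg hM (h0' _)) (fun z hz x hx1 hx2 => ?_) x' hx' hx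
  · refine key.trans (mul_le_mul_of_nonneg_left ?_ (Real.exp_pos _).le)
    rw [slE_add (.of_mg fun _ => MG.const M) (.of_mg fun _ => mΓ), slE_fun,
      (wt_ising J _).mean_const, ← tilt_ising]
    have := slE_tilt_le (wt_ising J y) hv h (F := fun z => Γ (y + z)) fun z => h0' _
    unfold SG
    linarith
  · obtain ⟨x, h1, h2⟩ := hE.sol hc hG (y := y + v + z) (by
      have e : y + v + z - Ymap J b xc = y - Ymap J b xc + v + z := by abel
      rw [e]
      linarith [nrm_add_le (y - Ymap J b xc + v) z, nrm_add_le (y - Ymap J b xc) v])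
    exact ⟨x, h2, h1⟩
  · obtain ⟨x1, h1, h2⟩ := hE.sol hc hG (y := y + z) (by
      have e : y + z - Ymap J b xc = y - Ymap J b xc + z := by abel
      rw [e]
      linarith [nrm_add_le (y - Ymap J b xc) z])
    have hl := (hE.2 c r _ hc hG).1 x x1 hx1.le h2.le
    rw [hx2, h1, show y + v + z - (y + z) = v by abel] at hl
    have := hA x1 v x hv (by rw [hx2, h1]; abel) (le_of_mul_le_mul_left (hl.trans (hv.trans hρ)) hc)
    rwa [h1, show y + z + v = y + v + z by abel] at this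

/-- the new error function -/
def nextG (J : Mx n) (h L : ℝ) (B : Set (V n)) (Γ : V n → ℝ) (y : V n) : ℝ :=
  B.indicator (fun _ => 4 * (n : ℝ)) y + L * SG J h Γ y

lemma step (hE : Ex J b) (hW : Win J b c r R K' h0) (hA : Acc J b ρ a M Γ) (hΓ : MG Γ)
    (h0' : ∀ y, 0 ≤ Γ y) (hM : 0 ≤ M) (hK : 0 ≤ K') (hc : 0 < c) (hρ : ρ ≤ c * a)
    (hr : 3 * R + ρ < c * r) (ha : a < r) (hR : 0 ≤ R) {h : ℝ} (hh : h ∈ Icc 0 h0)
    {B : Set (V n)} (hB : ∀ x, Ymap J b x ∉ B → GoodB J b c r (th x)) :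
    Acc J b ρ a (Real.exp K' * (M + 2 * K'))
      (nextG J h (Real.exp K' * Real.exp (2 * ρ * √n)) B Γ) := fun x v x' hv hx hxx => by
  have s0 : 0 ≤ Real.exp K' * Real.exp (2 * ρ * √n) * SG J h Γ (Ymap J b x) :=
    mul_nonneg (by positivity) (SG_nonneg h h0' _)
  unfold nextG
  by_cases hy : Ymap J b x ∈ B
  · rw [indicator_of_mem hy]
    have : 0 ≤ Real.exp K' * (M + 2 * K') := by positivity
    linarith [mag_sub_le (wt_ising J (Ymap J b x + v)) x']
  · rw [indicator_of_notMem hy]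
    refine (win_core hE hW hA hΓ h0' hM hc hρ hr hR hh (hB x hy) (by simpa using hR) hv hx
      (hxx.trans_lt ha)).trans (le_of_eq (by ring))

lemma mg_nextG (h L : ℝ) {B : Set (V n)} (hB : MeasurableSet B) (hΓ : MG Γ) :
    MG (nextG J h L B Γ) := ((MG.const _).indicator hB).add ((mg_SG h hΓ).const_mul L)

lemma nextG_nonneg (h : ℝ) {L : ℝ} (hL : 0 ≤ L) (B : Set (V n)) (h0' : ∀ y, 0 ≤ Γ y) (y : V n) :
    0 ≤ nextG J h L B Γ y :=
  add_nonneg (indicator_nonneg (fun _ _ => by positivity) y) (mul_nonneg hL (SG_nonneg h h0' y))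

lemma slE_nextG {s h : ℝ} (hs : 0 ≤ s) (hh : 0 ≤ h) (L : ℝ) {B : Set (V n)} (hB : MeasurableSet B)
    (hΓ : MG Γ) : slE sv (ising J 0) s (fun _ y => nextG J h L B Γ y) =
      4 * n * (law sv (ising J 0) s).real B + L * slE sv (ising J 0) (s + h) fun _ y => Γ y := by
  unfold nextG
  rw [slE_add (.of_mg fun _ => (MG.const _).indicator hB)
    (.of_mg fun _ => (mg_SG h hΓ).const_mul L), slE_ind hB, slE_const_mul, slE_SG hs hh hΓ]

/-- backward induction along the grid `t, t + h, …, t + m h` -/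
lemma chain (hE : Ex J b) (hW : Win J b c r R K' h0) (hA : Acc J b ρ a M Γ) (hΓ : MG Γ)
    (h0' : ∀ y, 0 ≤ Γ y) (hM : 0 ≤ M) (hK : 0 ≤ K') (hc : 0 < c) (hρ0 : 0 ≤ ρ) (hρ : ρ ≤ c * a)
    (hr : 3 * R + ρ < c * r) (ha : a < r) (hR : 0 ≤ R) {h : ℝ} (hh : h ∈ Icc 0 h0)
    {B : Set (V n)} (hBm : MeasurableSet B) (hB : ∀ x, Ymap J b x ∉ B → GoodB J b c r (th x))
    {δ : ℝ} (hδ : 0 ≤ δ) (m : ℕ) : ∀ t : ℝ, 0 ≤ t →
      (slE sv (ising J 0) (t + m * h) fun _ y => Γ y) ≤ 4 * n * δ →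
      (∀ j : ℕ, j < m → (law sv (ising J 0) (t + j * h)).real B ≤ δ) →
      ∃ Γ' : V n → ℝ, MG Γ' ∧ (∀ y, 0 ≤ Γ' y) ∧
        Acc J b ρ a (Real.exp K' ^ m * (M + 2 * K' * m)) Γ' ∧
        (slE sv (ising J 0) t fun _ y => Γ' y) ≤
          (m + 1) * (4 * n * δ) * (Real.exp K' * Real.exp (2 * ρ * √n)) ^ m := by
  induction m with
  | zero =>
    intro t _ h1 _
    exact ⟨Γ, hΓ, h0', by simpa using hA, by simpa using h1⟩
  | succ m ih =>
    intro t ht h1 h2
    obtain ⟨Γ', m1, m2, m3, m4⟩ := ih (t + h) (by linarith [hh.1])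
      (by rwa [show t + h + m * h = t + (m + 1 : ℕ) * h by push_cast; ring]) fun j hj => by
        rw [show t + h + j * h = t + (j + 1 : ℕ) * h by push_cast; ring]
        exact h2 (j + 1) (by omega)
    have q1 : 1 ≤ Real.exp K' := Real.one_le_exp hK
    have q2 : 1 ≤ Real.exp (2 * ρ * √n) := Real.one_le_exp (by positivity)
    set L := Real.exp K' * Real.exp (2 * ρ * √n) with hL
    have L1 : 1 ≤ L := one_le_mul_of_one_le_of_one_le q1 q2
    refine ⟨nextG J h L B Γ', mg_nextG h L hBm m1, nextG_nonneg h (by positivity) B m2,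
      (step hE hW m3 m1 m2 (by positivity) hK hc hρ hr ha hR hh hB).mono ?_, ?_⟩
    · have p1 : 1 ≤ Real.exp K' ^ m := one_le_pow₀ q1
      push_cast
      rw [pow_succ', mul_assoc (Real.exp K')]
      refine mul_le_mul_of_nonneg_left ?_ (Real.exp_pos _).le
      nlinarith [mul_le_mul_of_nonneg_left p1 hK]
    · rw [slE_nextG ht hh.1 L hBm m1]
      have b0 := h2 0 (by omega)
      rw [Nat.cast_zero, zero_mul, add_zero] at b0
      have p1 : 1 ≤ L ^ (m + 1) := one_le_pow₀ L1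
      have p0 : 0 ≤ 4 * (n : ℝ) * δ := by positivity
      have b1 : 4 * (n : ℝ) * (law sv (ising J 0) t).real B ≤ 4 * n * δ * L ^ (m + 1) :=
        (mul_le_mul_of_nonneg_left b0 (by positivity)).trans (le_mul_of_one_le_right p0 p1)
      have b2 := mul_le_mul_of_nonneg_left m4 (zero_le_one.trans L1)
      push_cast
      calc _ ≤ 4 * n * δ * L ^ (m + 1) + L * ((m + 1) * (4 * n * δ) * L ^ m) := add_le_add b1 b2
        _ = _ := by ring

/-- the constant of the covariance bound -/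
def KK (K' M c : ℝ) : ℝ := 2 * Real.exp (2 * √(Real.exp K' * (M + 1 + 2 * K')) + 1 / c)

lemma covOK (hL : LipCovStmt) (hE : Ex J b) (hW : Win J b c r R K' h0) (hA : Acc J b ρ a M Γ)
    (hΓ : MG Γ) (h0' : ∀ y, 0 ≤ Γ y) (hM : 0 ≤ M) (hc : 0 < c) (hρ : ρ ≤ c * a)
    (hr : 3 * R + ρ < c * r) (hR : 0 ≤ R) {h : ℝ} (hh : h ∈ Icc 0 h0) {xc y : V n}
    (hG : GoodB J b c r (th xc)) (hy : nrm (y - Ymap J b xc) ≤ R)
    (hS : Real.exp (2 * ρ * √n) * SG J h Γ y ≤ 1) {ρ' : ℝ} (hρ' : ρ' + 1 ≤ ρ) :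
    CovOK (ising J 0) (KK K' M c) ρ' y := fun v hv => by
  have key : ∀ u : V n, nrm u ≤ ρ → ∃ x, Ymap J b x = y + u ∧ nrm (th x - th xc) < r ∧
      nrm (mag (ising J (y + u)) - th x) ≤ √(Real.exp K' * (M + 1 + 2 * K')) := fun u hu => by
    obtain ⟨x, h1, h2⟩ := hE.sol hc hG (y := y + u) (by
      have e : y + u - Ymap J b xc = y - Ymap J b xc + u := by abel
      rw [e]
      linarith [nrm_add_le (y - Ymap J b xc) u])
    refine ⟨x, h1, h2, Real.le_sqrt_of_sq_le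
      ((win_core hE hW hA hΓ h0' hM hc hρ hr hR hh hG hy hu h1 h2).trans ?_)⟩
    exact mul_le_mul_of_nonneg_left (by linarith) (Real.exp_pos _).le
  rw [tilt0]
  refine hL n _ _ (ising_pos J _) fun u hu => ?_
  obtain ⟨x1, a1, a2, a3⟩ := key v (by linarith)
  obtain ⟨x2, b1, b2, b3⟩ := key (v + u) (by linarith [nrm_add_le v u])
  have hl := (hE.2 c r _ hc hG).1 x2 x1 b2.le a2.le
  rw [a1, b1, show y + (v + u) - (y + v) = u by abel] at hl
  have hl' : nrm (th x2 - th x1) ≤ 1 / c := by rw [le_div_iff₀ hc]; linarith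
  rw [tilt_ising, add_assoc]
  have e : mag (ising J (y + (v + u))) - mag (ising J (y + v)) =
      (mag (ising J (y + (v + u))) - th x2) + (th x2 - th x1) - (mag (ising J (y + v)) - th x1) := by
    abel
  rw [e]
  linarith [nrm_sub_le ((mag (ising J (y + (v + u))) - th x2) + (th x2 - th x1))
    (mag (ising J (y + v)) - th x1), nrm_add_le (mag (ising J (y + (v + u))) - th x2) (th x2 - th x1)]

/-- partial windows -/
lemma partial_win (hL : LipCovStmt) (hE : Ex J b) (hW : Win J b c r R K' h0) (hA : Acc J b ρ a M Γ)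
    (hΓ : MG Γ) (h0' : ∀ y, 0 ≤ Γ y) (hM : 0 ≤ M) (hc : 0 < c) (hρ : ρ ≤ c * a)
    (hr : 3 * R + ρ < c * r) (hR : 0 ≤ R) {h s : ℝ} (hh : h ∈ Icc 0 h0) (hs : 0 ≤ s)
    {O : Set (V n)} (hO : ∀ y ∉ O, ∃ xc, GoodB J b c r (th xc) ∧ nrm (y - Ymap J b xc) ≤ R)
    {ρ' K : ℝ} (hρ' : ρ' + 1 ≤ ρ) (hK : KK K' M c ≤ K) :
    (law sv (ising J 0) s).real {y | ¬ CovOK (ising J 0) K ρ' y} ≤ (law sv (ising J 0) s).real O +
      Real.exp (2 * ρ * √n) * slE sv (ising J 0) (s + h) fun _ y => Γ y := by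
  have := isProb_law (φ := sv) (s := s) (wt_ising J 0)
  have hs' : {y | ¬ CovOK (ising J 0) K ρ' y} ⊆
      O ∪ {y | 1 ≤ Real.exp (2 * ρ * √n) * SG J h Γ y} := fun y hy => by
    by_contra hn
    rw [mem_union, not_or] at hn
    obtain ⟨xc, hG, hx⟩ := hO y hn.1
    refine hy fun v hv u => (covOK hL hE hW hA hΓ h0' hM hc hρ hr hR hh hG hx
      (not_le.1 hn.2).le hρ' v hv u).trans ?_
    exact mul_le_mul_of_nonneg_right hK (by rw [← nrm_sq]; positivity)
  refine (measureReal_mono hs' (measure_ne_top _ _)).trans ((measureReal_union_le _ _).trans ?_)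
  have := law_markov (J := J) (s := s) ((mg_SG (J := J) h hΓ).const_mul (Real.exp (2 * ρ * √n)))
    fun y => mul_nonneg (Real.exp_pos _).le (SG_nonneg h h0' y)
  rw [slE_const_mul, slE_SG hs hh.1 hΓ] at this
  linarith

end Crest.Agent.T157.Tap.Cov15
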