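import Crest.Agent.T157.TrB_64

/-!
# Row 157, part C1 (helper64): pigeonhole, alignment and the sharp bound at one scale
-/

set_option autoImplicit false
set_option linter.unusedSectionVars false

noncomputable section

namespace Crest.Agent.T157.Tr

open MeasureTheory ProbabilityTheory Filter Topology Set Real Matrix
open Crest.Agent.T157.SL Crest.Agent.T157.E Crest.Agent.T157.Pa Crest.Agent.T157.Eig

theorem exp_le_one_add {x : ℝ} (h0 : 0 ≤ x) (h : x ≤ 1 / 2) : exp x ≤ 1 + 2 * x := by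
  refine (exp_bound_div_one_sub_of_interval h0 (by linarith)).trans ?_
  rw [div_le_iff₀ (by linarith)]
  nlinarith

variable {Ω : Type*} [Fintype Ω] {ι : Type} [Fintype ι] [DecidableEq ι] {κ : Type*} [Fintype κ]

theorem al_pt {Y : Matrix ι ι ℝ} (hY : Yᵀ = Y) {c : ℝ} (h0 : ∀ u, 0 ≤ u ⬝ᵥ Y *ᵥ u)
    (h1 : ∀ u, u ⬝ᵥ Y *ᵥ u ≤ c * (u ⬝ᵥ u)) (x u : ι → ℝ) :
    c * ((x - u) ⬝ᵥ (x - u)) ≤ 2 * (c * (x ⬝ᵥ x) + c * (u ⬝ᵥ u) - 2 * (x ⬝ᵥ Y *ᵥ u)) := by
  have a := h0 (x - u)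
  have b := h1 (x + u)
  have e : u ⬝ᵥ Y *ᵥ x = x ⬝ᵥ Y *ᵥ u := by rw [← dot_symm hY, dotProduct_comm]
  simp only [mulVec_sub, mulVec_add, sub_dotProduct, dotProduct_sub, add_dotProduct,
    dotProduct_add, e, dotProduct_comm u x] at a b ⊢
  linarith

theorem al_dd {Y : Matrix ι ι ℝ} (hY : Yᵀ = Y) {c : ℝ} (h0 : ∀ u, 0 ≤ u ⬝ᵥ Y *ᵥ u)
    (h1 : ∀ u, u ⬝ᵥ Y *ᵥ u ≤ c * (u ⬝ᵥ u)) (X U : κ → ι → ℝ) :
    c * dd (X - U) (X - U) ≤ 2 * (c * dd X X + c * dd U U - 2 * dd X (mv Y U)) := by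
  simp only [dd, Finset.mul_sum, ← Finset.sum_add_distrib, ← Finset.sum_sub_distrib]
  exact Finset.sum_le_sum fun a _ => al_pt hY h0 h1 (X a) (U a)

variable {W : BM ι} {Q : Measure W.Ω} {r s t T : ℝ}
variable {φ : Ω → ι → ℝ} {w : Ω → ℝ} {ε p : ℝ → ℝ} {g : κ → Ω → ℝ} {b t0 ρ e M : ℝ}
  {H : W.Ω → κ → ι → ℝ}

theorem dd_Y_le {q : Pt ι} (h0 : 0 ≤ ε q.1) (U : κ → ι → ℝ) :
    dd U (mv (Yp φ w ε q) U) ≤ (1 + ε q.1) * dd U U := by
  rw [dd, dd, Finset.mul_sum]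
  exact Finset.sum_le_sum fun a _ => quad_Y_le h0 (U a)

theorem dd_Y_le_X (hw : Wt w) {q : Pt ι} (hq : 0 ≤ q.1) (U : κ → ι → ℝ) :
    dd U (mv (Yp φ w ε q) U) ≤ dd U (mv (Xp φ w q) U) :=
  Finset.sum_le_sum fun a _ => quad_Y_le_X hw hq (U a)

theorem dd_YY_le (hw : Wt w) {q : Pt ι} (hq : 0 < q.1) (U : κ → ι → ℝ) :
    dd (mv (Yp φ w ε q) U) (mv (Yp φ w ε q) U) ≤ (1 + ε q.1) * dd U (mv (Yp φ w ε q) U) := by
  rw [dd, dd, Finset.mul_sum]
  exact Finset.sum_le_sum fun a _ => Y_sq_le hw hq (U a)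

theorem dd_sub_Y_le (hw : Wt w) {q : Pt ι} (hq : 0 < q.1) (h0 : 0 ≤ ε q.1)
    (U : κ → ι → ℝ) : dd (U - mv (Yp φ w ε q) U) (U - mv (Yp φ w ε q) U) ≤
      ε q.1 ^ 2 * dd U U + ((1 + ε q.1) * dd U U - dd U (mv (Yp φ w ε q) U)) := by
  have a := dd_YY_le (φ := φ) (ε := ε) hw hq U
  have c := dd_Y_le (φ := φ) (w := w) h0 U
  rw [dd_sub_left, dd_sub_right, dd_sub_right, dd_comm (mv _ U) U]
  nlinarith

theorem mg_ind {A : Set (ι → ℝ)} (hA : MeasurableSet A) : MG (A.indicator fun _ => (1 : ℝ)) :=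
  (MG.const 1).indicator hA

theorem int_ind (hw : Wt w) (ht : t ∈ Icc 0 T) {A : Set (ι → ℝ)} (hA : MeasurableSet A) :
    ∫ ω, A.indicator (fun _ => (1 : ℝ)) (W.B t ω) ∂W.Qsl φ w T = (law φ w t).real A := by
  rw [BM.int_sl hw ht (mg_ind hA), ← integral_law hw (mg_ind hA).meas
    (SInt.of_mg fun _ => mg_ind hA)]
  exact integral_indicator_one hA

theorem sum_vv (q : Pt ι) (x u : ι → ℝ) :
    ∑ j, u j * (x ⬝ᵥ vv φ w (fun z => φ z j) q) = x ⬝ᵥ covMat (pw φ w q) φ *ᵥ u := by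
  rw [← dot_symm (covMat_transpose _ _), dotProduct_comm]
  refine Finset.sum_congr rfl fun j _ => ?_
  rw [dotProduct_comm]
  rfl

namespace HA

theorem fv_dd (hw : Wt w) (h : HA φ w ε p s t0 ρ) (hH : TV W s H) :
    W.FV s t0 (fun t ω => dd (TW W φ w ε s H t ω) (TW W φ w ε s H t ω)) fun t ω =>
      2 * t⁻¹ * (dd (TW W φ w ε s H t ω) (mv (Yp φ w ε (t, W.B t ω)) (TW W φ w ε s H t ω)) -
        dd (TW W φ w ε s H t ω) (TW W φ w ε s H t ω)) := by
  refine (BM.FV.sum Finset.univ fun a _ => fv_sq (φ := φ) hw h.pos h.cε h.ε0 (hH a)).congr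
    (fun _ _ _ => rfl) fun t _ ω => ?_
  simp only [dd, ← Finset.sum_sub_distrib, Finset.mul_sum]
  rfl

theorem growth (h : HA φ w ε p s t0 ρ) (hi : ∫ u in s..t0, ε u / u ≤ e) (he4 : e ≤ 1 / 4)
    (h1 : s ≤ r) (h2 : r ≤ t) (h3 : t ≤ t0) : exp (2 * ∫ u in r..t, ε u / u) ≤ 1 + 4 * e := by
  have a := h.eps_le le_rfl h1 h2 h3 le_rfl
  have c := h.eps_nonneg h1 h2 h3
  exact (exp_le_one_add (by linarith) (by linarith)).trans (by linarith)

/-- pigeonhole: a scale at which the transported family is almost an eigenfamily of `Y` -/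
theorem pigeon (hw : Wt w) (h : HA φ w ε p s t0 ρ) (hi : ∫ u in s..t0, ε u / u ≤ e)
    (he4 : e ≤ 1 / 4) (hM : 1 < M) (hMs : M * s ≤ t0) (hQ : W.Nice Q) (hH : TV W s H) :
    ∃ r ∈ Icc s (M * s), (1 + ε r) * II Q (TW W φ w ε s H r) (TW W φ w ε s H r) -
      II Q (TW W φ w ε s H r) (fun ω => mv (Yp φ w ε (r, W.B r ω)) (TW W φ w ε s H r ω)) ≤
        II Q H H / log M := by
  have hs := h.pos
  have hsM : s < M * s := by nlinarith
  have hL : 0 < log M := log_pos hM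
  have hsub : Icc s (M * s) ⊆ Icc s t0 := Icc_subset_Icc le_rfl hMs
  by_contra hc
  push Not at hc
  have f1 := h.fv_dd hw hH
  have f2 := (f1.sm (Q := Q)).expect hQ le_rfl hsM.le hMs
  have f3 := f1.pr.ii_int hQ ⟨le_rfl, hsM.le.trans hMs⟩ ⟨hsM.le, hMs⟩
  have f4 := (f1.ad.continuousOn_int hQ).mono hsub
  set N : ℝ → ℝ := fun u => ∫ ω, dd (TW W φ w ε s H u ω) (TW W φ w ε s H u ω) ∂Q with hN
  set F : ℝ → ℝ := fun t => ∫ ω, 2 * t⁻¹ * (dd (TW W φ w ε s H t ω)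
    (mv (Yp φ w ε (t, W.B t ω)) (TW W φ w ε s H t ω)) -
      dd (TW W φ w ε s H t ω) (TW W φ w ε s H t ω)) ∂Q with hF
  have A0 : 0 ≤ II Q H H := TV.nonneg H
  have c2 := h.c2.mono hsub
  have cinv : ContinuousOn (fun u : ℝ => u⁻¹) (Icc s (M * s)) :=
    continuousOn_id.inv₀ fun u hu => (hs.trans_le hu.1).ne'
  have i1 : IntervalIntegrable (fun u => ε u / u * N u) volume s (M * s) :=
    (c2.mul f4).intervalIntegrable_of_Icc hsM.le
  have i2 : IntervalIntegrable (fun u : ℝ => II Q H H / log M * u⁻¹) volume s (M * s) :=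
    (continuousOn_const.mul cinv).intervalIntegrable_of_Icc hsM.le
  have g1 : 0 < ∫ u in s..M * s, (ε u / u * N u - F u / 2 - II Q H H / log M * u⁻¹) := by
    refine intervalIntegral.intervalIntegral_pos_of_pos_on ((i1.sub (f3.div_const 2)).sub i2)
      (fun u hu => ?_) hsM
    have hu' : u ∈ Icc s (M * s) := ⟨hu.1.le, hu.2.le⟩
    have hu0 : 0 < u := hs.trans hu.1
    have a1 := h.tv_TW hw hH (hsub hu')
    have a2 := a1.mv (tm_Y (φ := φ) (ε := ε) hw hu0.le)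
    have e1 : F u = 2 * u⁻¹ * (II Q (TW W φ w ε s H u)
        (fun ω => mv (Yp φ w ε (u, W.B u ω)) (TW W φ w ε s H u ω)) - N u) := by
      simp only [hF, hN, II]
      rw [integral_const_mul, integral_sub ((a1.dd a2).int hQ) ((a1.dd a1).int hQ)]
    have e2 := mul_pos (sub_pos.2 (hc u hu')) (inv_pos.2 hu0)
    have e3 : II Q (TW W φ w ε s H u) (TW W φ w ε s H u) = N u := rfl
    rw [e3] at e2
    rw [e1, div_eq_mul_inv (ε u)]
    linarith
  rw [intervalIntegral.integral_sub (i1.sub (f3.div_const 2)) i2,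
    intervalIntegral.integral_sub i1 (f3.div_const 2), intervalIntegral.integral_div,
    intervalIntegral.integral_const_mul, integral_inv_of_pos hs (hs.trans hsM),
    mul_div_cancel_right₀ _ hs.ne', div_mul_cancel₀ _ hL.ne', ← f2] at g1
  have g2 : ∫ u in s..M * s, ε u / u * N u ≤ ∫ u in s..M * s, ε u / u * (2 * II Q H H) := by
    refine intervalIntegral.integral_mono_on hsM.le i1
      ((c2.mul continuousOn_const).intervalIntegrable_of_Icc hsM.le) fun u hu => ?_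
    refine mul_le_mul_of_nonneg_left ?_ (div_nonneg (h.ε0 u (hsub hu)) (hs.le.trans hu.1))
    have a1 := h.II_TW_le hw hQ hH le_rfl hu.1 (hsub hu).2
    have a2 := h.growth hi he4 le_rfl hu.1 (hsub hu).2
    rw [TW_start] at a1
    exact a1.trans (mul_le_mul_of_nonneg_right (by linarith) A0)
  rw [intervalIntegral.integral_mul_const] at g2
  have g3 := (h.eps_le le_rfl le_rfl hsM.le hMs le_rfl).trans hi
  have g4 : 0 ≤ N (M * s) := integral_nonneg fun _ => dd_self_nonneg _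
  have g5 : ∫ ω, dd (TW W φ w ε s H s ω) (TW W φ w ε s H s ω) ∂Q = II Q H H := by
    rw [TW_start]; rfl
  rw [g5] at g1
  have g6 := mul_le_mul_of_nonneg_right (g3.trans he4) (mul_nonneg zero_le_two A0)
  simp only [hN] at g4
  linarith

theorem sm_align (hw : Wt w) (h : HA φ w ε p s t0 ρ) (hT : t0 ≤ T) (hH : TV W s H) (h1 : s ≤ r)
    (h2 : r ≤ t0) {U : W.Ω → κ → ι → ℝ} (hU : TV W r U) :
    W.SM (W.Qsl φ w T) r t0 (fun t ω => dd (TW W φ w ε s H t ω) (mv (Xp φ w (t, W.B t ω)) (U ω)))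
      fun t ω => -((1 - ig φ w ε (t, W.B t ω)) * (t⁻¹ * dd (TW W φ w ε s H t ω)
        (mv (Xp φ w (t, W.B t ω)) (mv (Xp φ w (t, W.B t ω)) (U ω))))) := by
  have hQ := BM.nice_sl (W := W) (φ := φ) hw (h.pos.le.trans (h1.trans (h2.trans hT)))
  refine (BM.SM.sum hQ Finset.univ fun a _ => BM.SM.sum hQ Finset.univ fun j _ =>
    ((sm_cons hw h.pos (h1.trans h2) hT h.cε h.ε0 (hH a) fun z => φ z j).mono h1 le_rfl).tm_mul
      (hU a j)).congr (fun t _ ω => ?_) fun t ht ω => ?_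
  · refine Finset.sum_congr rfl fun a _ => ?_
    simp only [dotProduct_smul, smul_eq_mul, mv, Xp, smul_mulVec, ← sum_vv, Finset.mul_sum]
    exact Finset.sum_congr rfl fun j _ => by simp only [TW]; ring
  · have ht0 : t ≠ 0 := (h.pos.trans_le (h1.trans ht.1)).ne'
    simp only [dd, Finset.mul_sum, ← Finset.sum_neg_distrib]
    refine Finset.sum_congr rfl fun a _ => ?_
    simp only [mv, ← dot_symm (Xp_transpose (φ := φ) (w := w) (t, W.B t ω)) (TW W φ w ε s H t ω a)]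
    have e1 := sum_vv (φ := φ) (w := w) (t, W.B t ω)
      (Xp φ w (t, W.B t ω) *ᵥ TW W φ w ε s H t ω a) (U ω a)
    have e2 : (Xp φ w (t, W.B t ω) *ᵥ TW W φ w ε s H t ω a) ⬝ᵥ Xp φ w (t, W.B t ω) *ᵥ U ω a =
        t * ((Xp φ w (t, W.B t ω) *ᵥ TW W φ w ε s H t ω a) ⬝ᵥ
          covMat (pw φ w (t, W.B t ω)) φ *ᵥ U ω a) := by
      nth_rewrite 2 [Xp]
      rw [smul_mulVec, dotProduct_smul, smul_eq_mul]
    rw [e2, ← mul_assoc t⁻¹, inv_mul_cancel₀ ht0, one_mul, ← e1, Finset.mul_sum,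
      ← Finset.sum_neg_distrib]
    refine Finset.sum_congr rfl fun j _ => ?_
    rw [dot_symm (Xp_transpose _)]
    simp only [TW]
    ring

theorem align (hw : Wt w) (h : HA φ w ε p s t0 ρ) (hT : t0 ≤ T) (hH : TV W s H) (h1 : s ≤ r)
    (h2 : r ≤ t0) {c : ℝ} (c0 : 0 ≤ c) (hc : ∀ u ∈ Icc s t0, ∀ ω,
      dd (TW W φ w ε s H u ω) (TW W φ w ε s H u ω) ≤ s * c) :
    II (W.Qsl φ w T) (TW W φ w ε s H r) (fun ω => mv (Yp φ w ε (r, W.B r ω)) (TW W φ w ε s H r ω)) ≤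
      II (W.Qsl φ w T) (TW W φ w ε s H t0)
        (fun ω => mv (Yp φ w ε (t0, W.B t0 ω)) (TW W φ w ε s H r ω)) + 2 * c * ρ ^ 2 := by
  have hs := h.pos
  have hr0 : 0 < r := hs.trans_le h1
  have ht0 : 0 < t0 := hr0.trans_le h2
  have hQ := BM.nice_sl (W := W) (φ := φ) hw (ht0.le.trans hT)
  have hU := h.tv_TW hw hH ⟨h1, h2⟩
  have hsub : Icc r t0 ⊆ Icc s t0 := Icc_subset_Icc h1 le_rfl
  have sc0 : 0 ≤ s * c := mul_nonneg hs.le c0
  have key : ∀ u ∈ Icc r t0, ∀ ω, ∀ (m : ℕ) (Z : κ → ι → ℝ), m ≤ 3 →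
      dd Z Z ≤ (nx φ w (u, W.B u ω) ^ m) ^ 2 * (s * c) →
      (1 - ig φ w ε (u, W.B u ω)) * dd (TW W φ w ε s H u ω) Z ≤
        s * c * ((1 - ig φ w ε (u, W.B u ω)) * (1 + nx φ w (u, W.B u ω)) ^ 3) := by
    intro u hu ω m Z hm hZ
    have n0 := nx_nonneg (φ := φ) (w := w) (u, W.B u ω)
    have b1 := dd_sq_le (TW W φ w ε s H u ω) Z
    have b2 := mul_le_mul (hc u (hsub hu) ω) hZ (dd_self_nonneg _) sc0
    have b3 : dd (TW W φ w ε s H u ω) Z ≤ s * c * nx φ w (u, W.B u ω) ^ m :=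
      (abs_le_of_sq_le_sq' (b1.trans (b2.trans_eq (by ring))) (by positivity)).2
    have b4 : nx φ w (u, W.B u ω) ^ m ≤ (1 + nx φ w (u, W.B u ω)) ^ 3 :=
      (pow_le_pow_left₀ n0 (by linarith) m).trans (pow_le_pow_right₀ (by linarith) hm)
    have b5 := b3.trans (mul_le_mul_of_nonneg_left b4 sc0)
    have b6 := sub_nonneg.2 (ig_le_one (φ := φ) (w := w) (ε := ε) (u, W.B u ω))
    nlinarith [mul_le_mul_of_nonneg_left b5 b6]
  have g1 := (h.sm_align hw hT hH h1 h2 hU).neg.expect_le hQ le_rfl h2 le_rfl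
    (k := fun u => c * p u) ((continuousOn_const.mul (h.cp.mono hsub)).intervalIntegrable_of_Icc h2)
    fun u hu => ?_
  · simp only [integral_neg, intervalIntegral.integral_const_mul] at g1
    have g2 := mul_le_mul_of_nonneg_left ((h.mono h1 h2 le_rfl).int_p_le hw h2) c0
    have a1 := hU.mv (tm_X (φ := φ) hw hr0.le)
    have a2 := hU.mv (tm_Y (φ := φ) (ε := ε) hw hr0.le)
    have g3 : II (W.Qsl φ w T) (TW W φ w ε s H r)
        (fun ω => mv (Yp φ w ε (r, W.B r ω)) (TW W φ w ε s H r ω)) ≤ ∫ ω, dd (TW W φ w ε s H r ω)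
          (mv (Xp φ w (r, W.B r ω)) (TW W φ w ε s H r ω)) ∂W.Qsl φ w T :=
      integral_mono ((hU.dd a2).int hQ) ((hU.dd a1).int hQ) fun ω => dd_Y_le_X hw hr0.le _
    have a3 := h.tv_TW hw hH ⟨h1.trans h2, le_rfl⟩
    have a4 := (hU.mono h2).mv (tm_X (φ := φ) hw ht0.le)
    have a5 := (hU.mono h2).mv (tm_Y (φ := φ) (ε := ε) hw ht0.le)
    have a6 := (tm_pb (W := W) (φ := φ) (ε := ε) hw ht0.le 3).int hQ
    have g4 : ∫ ω, dd (TW W φ w ε s H t0 ω) (mv (Xp φ w (t0, W.B t0 ω)) (TW W φ w ε s H r ω))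
        ∂W.Qsl φ w T ≤ II (W.Qsl φ w T) (TW W φ w ε s H t0)
          (fun ω => mv (Yp φ w ε (t0, W.B t0 ω)) (TW W φ w ε s H r ω)) +
            s * c * pb φ w ε 3 t0 := by
      rw [← int_pb (W := W) hw ⟨ht0.le, hT⟩, II, ← integral_const_mul,
        ← integral_add ((a3.dd a5).int hQ) (a6.const_mul _)]
      refine integral_mono ((a3.dd a4).int hQ) (((a3.dd a5).int hQ).add (a6.const_mul _)) fun ω => ?_
      have k1 := key t0 ⟨h2, le_rfl⟩ ω 1 (mv (Xp φ w (t0, W.B t0 ω)) (TW W φ w ε s H r ω))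
        (by norm_num) ((dd_mv_le _ _).trans (by
          rw [pow_one]; exact mul_le_mul_of_nonneg_left (hc r ⟨h1, h2⟩ ω) (sq_nonneg _)))
      simp only [Yp, mv_smul, dd_smul_right]
      linarith
    have g5 : s * c * pb φ w ε 3 t0 ≤ c * ρ ^ 2 := by
      have k1 := h.le t0 ⟨h1.trans h2, le_rfl⟩
      have k2 := h.sup t0 ⟨h1.trans h2, le_rfl⟩
      have k3 := h.p0 hw ⟨h1.trans h2, le_rfl⟩
      have k4 : s * pb φ w ε 3 t0 ≤ ρ ^ 2 :=
        (mul_le_mul (h1.trans h2) k1 (pb_nonneg hw 3 t0) ht0.le).trans k2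
      nlinarith
    linarith
  · have hu' : u ∈ Icc r t0 := ⟨hu.1.le, hu.2.le⟩
    have hu0 : 0 < u := hr0.trans hu.1
    have a1 := h.tv_TW hw hH (hsub hu')
    have a2 := ((hU.mono hu'.1).mv (tm_X (φ := φ) hw hu0.le)).mv (tm_X (φ := φ) hw hu0.le)
    have a3 := (BM.Tm.const (W := W) (r := u) 1).sub (tm_ig (φ := φ) (ε := ε) hw hu0.le)
    have a6 := (tm_pb (W := W) (φ := φ) (ε := ε) hw hu0.le 3).int hQ
    simp only [neg_neg]
    calc _ ≤ ∫ ω, c * ((1 - ig φ w ε (u, W.B u ω)) * (1 + nx φ w (u, W.B u ω)) ^ 3)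
          ∂W.Qsl φ w T := by
          refine integral_mono ((a3.mul ((BM.Tm.const u⁻¹).mul (a1.dd a2))).int hQ)
            (a6.const_mul _) fun ω => ?_
          have k1 := key u hu' ω 2 (mv (Xp φ w (u, W.B u ω))
            (mv (Xp φ w (u, W.B u ω)) (TW W φ w ε s H r ω))) (by norm_num) (by
              refine (dd_mv_le _ _).trans ((mul_le_mul_of_nonneg_left ((dd_mv_le _ _).trans
                (mul_le_mul_of_nonneg_left (hc r ⟨h1, h2⟩ ω) (sq_nonneg _)))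
                  (sq_nonneg _)).trans_eq ?_)
              unfold nx; ring)
          have k2 := mul_le_mul_of_nonneg_left k1 (inv_pos.2 hu0).le
          have k3 : u⁻¹ * s ≤ 1 := by
            rw [inv_mul_le_iff₀ hu0, mul_one]; exact h1.trans hu'.1
          have k4 : 0 ≤ c * ((1 - ig φ w ε (u, W.B u ω)) * (1 + nx φ w (u, W.B u ω)) ^ 3) := by
            have := nx_nonneg (φ := φ) (w := w) (u, W.B u ω)
            have := sub_nonneg.2 (ig_le_one (φ := φ) (w := w) (ε := ε) (u, W.B u ω))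
            positivity
          have k5 := mul_le_mul_of_nonneg_right k3 k4
          simp only
          nlinarith
      _ = c * pb φ w ε 3 u := by rw [integral_const_mul, int_pb hw ⟨hu0.le, hu'.2.trans hT⟩]
      _ ≤ c * p u := mul_le_mul_of_nonneg_left (h.le u (hsub hu')) c0

end HA

end Crest.Agent.T157.Tr

end
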