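import Crest.Agent.T157.EtDef_81
import Crest.Agent.T157.TapCovA_15
import Crest.Agent.T157.TrC_64
import Crest.Agent.T157.EntA_34

/-!
# Row 157, part C (helper90): the covariance bounds are continuous in the time
-/

set_option autoImplicit false

noncomputable section

namespace Crest.Agent.T157.Et

open MeasureTheory Filter Set Matrix Real Topology
open Crest.Agent.T157.E Crest.Agent.T157.SL Crest.Agent.T157.Eig
open Crest.Agent.T157.Tap (V)
open Crest.Agent.T157.Crit (CovLe CovAt)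
open Crest.Agent.T157.Tap.Cov15

namespace Time90

variable {n : ℕ} {w : Cube n → ℝ} {K ρ : ℝ}

lemma quad_var (w : Cube n → ℝ) (u : V n) : u ⬝ᵥ covM w *ᵥ u = var w fun x => u ⬝ᵥ sv x := by
  rw [covM, covMat_quad, var_eq_cov]

lemma wt_tilt (hw : Wt w) (v : V n) : Wt (tilt w v) :=
  hw.mul_pos (f := fun x => exp (v ⬝ᵥ sv x)) fun _ => exp_pos _

lemma covLe_tilt (hw : Wt w) {v : V n} (hv : nrm v ≤ ρ) {a : ℝ} (ha : exp (2 * ρ * √n) ≤ a)
    (h : CovLe w K) : CovLe (tilt w v) (a * K) := fun u => by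
  have h1 := h u
  rw [quad_var] at h1 ⊢
  have h2 := hw.var_nonneg fun x => u ⬝ᵥ sv x
  refine (Ent.var_le_of_le (wt_tilt hw v).isP (prob_tilt_le hw hv) _).trans
    ((mul_le_mul_of_nonneg_right ha h2).trans ?_)
  rw [mul_assoc]
  exact mul_le_mul_of_nonneg_left h1 ((exp_pos _).le.trans ha)

lemma meas_bad (hw : Wt w) (K : ℝ) : MeasurableSet {y | ¬ CovLe (tilt w y) K} := by
  have e : {y | ¬ CovLe (tilt w y) K} = ⋃ v : V n, {y | K * (v ⬝ᵥ v) <
      cov (pw sv w (0, y)) (fun x => v ⬝ᵥ sv x) fun x => v ⬝ᵥ sv x} := by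
    have : ∀ y : V n, pw sv w (0, y) = tilt w y := fun y => by
      funext x; simp only [pw, post, tilt, zero_div, zero_mul, sub_zero]
    ext y
    simp only [CovLe, not_forall, not_le, mem_ofPred_eq, mem_iUnion, this, quad_var, var_eq_cov]
  rw [e]
  exact (isOpen_iUnion fun v => isOpen_lt continuous_const
    ((Tr.cont_cov hw _ _).comp (continuous_const.prodMk continuous_id))).measurableSet

lemma gv_tail3 : (gv (Fin n)).real {g | 3 * √(n : ℝ) ≤ nrm g} ≤ exp (-(n : ℝ)) := by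
  have s0 := sqrt_nonneg (n : ℝ)
  have h := Conc.tail_lip (Conc.elip_en (ι := Fin n)) (show 0 ≤ 2 * √(n : ℝ) by positivity)
  rw [mul_pow, sq_sqrt (Nat.cast_nonneg n)] at h
  refine le_trans (measureReal_mono (fun g hg => ?_) (measure_ne_top _ _))
    (h.trans (exp_le_exp.2 (by have : (0 : ℝ) ≤ n := Nat.cast_nonneg n; linarith)))
  have h1 := Nrm.integral_nrm_le (ι := Fin n)
  rw [Fintype.card_fin] at h1
  simp only [mem_ofPred_eq, Nrm.en_eq_nrm] at hg ⊢
  linarith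

lemma abs_sqrt_sub {r t e : ℝ} (hr : 0 ≤ r) (ht : 0 ≤ t) (he : 0 ≤ e) (h : |r - t| ≤ e ^ 2) :
    |√r - √t| ≤ e := by
  obtain ⟨h1, h2⟩ := abs_le.1 h
  have a : √r ≤ √t + e := by
    rw [sqrt_le_left (by positivity)]; nlinarith [sq_sqrt ht, sqrt_nonneg t]
  have b : √t ≤ √r + e := by
    rw [sqrt_le_left (by positivity)]; nlinarith [sq_sqrt hr, sqrt_nonneg r]
  rw [abs_le]; constructor <;> linarith

end Time90

open Time90 in
theorem timeStmt : TimeStmt := by
  filter_upwards [eventually_ge_atTop 16] with n hn w hw0 r t K p hr ht hrt h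
  have n16 : (16 : ℝ) ≤ n := by exact_mod_cast hn
  have n0 : (0 : ℝ) < n := by linarith
  have hw : Wt w := Wt.of_pos hw0
  refine le_trans ?_ (add_le_add h le_rfl)
  rw [law_real hw (meas_bad hw _), law_real hw (meas_bad hw _), ← hw.mean_const (exp (-(n : ℝ))),
    ← mean_add]
  refine hw.mean_mono fun σ => ?_
  rw [px, px, map_measureReal_apply (by fun_prop) (meas_bad hw _),
    map_measureReal_apply (by fun_prop) (meas_bad hw _)]
  refine le_trans ?_ (add_le_add le_rfl gv_tail3)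
  refine le_trans (measureReal_mono (fun g hg => ?_) (measure_ne_top _ _)) (measureReal_union_le _ _)
  by_contra hc
  simp only [mem_union, mem_preimage, mem_ofPred_eq, not_or, not_le, not_not] at hc hg
  refine hg ?_
  have e : r • sv σ + √r • g = (t • sv σ + √t • g) + ((r - t) • sv σ + (√r - √t) • g) := by
    module
  have a1 : ((n : ℝ) ^ 8)⁻¹ = (((n : ℝ) ^ 4)⁻¹) ^ 2 := by field_simp
  have a2 : ((n : ℝ) ^ 4)⁻¹ ≤ 1 := inv_le_one_of_one_le₀ (one_le_pow₀ (by linarith))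
  have a3 : 0 < ((n : ℝ) ^ 4)⁻¹ := by positivity
  rw [a1] at hrt
  have b1 : |r - t| ≤ ((n : ℝ) ^ 4)⁻¹ := by nlinarith
  have b2 := abs_sqrt_sub hr ht a3.le hrt
  have s0 := sqrt_nonneg (n : ℝ)
  have hv : nrm ((r - t) • sv σ + (√r - √t) • g) ≤ 4 * √n * ((n : ℝ) ^ 4)⁻¹ := by
    refine (nrm_add_le _ _).trans ?_
    rw [nrm_smul, nrm_smul, nrm_sv]
    nlinarith [mul_le_mul b2 hc.2.le (nrm_nonneg g) a3.le, mul_le_mul_of_nonneg_right b1 s0]
  rw [e, ← tilt_tilt]
  refine covLe_tilt (wt_tilt hw _) hv ?_ hc.1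
  have e2 : 2 * (4 * √n * ((n : ℝ) ^ 4)⁻¹) * √n = 8 / n ^ 3 := by
    rw [show 2 * (4 * √n * ((n : ℝ) ^ 4)⁻¹) * √n = 8 * (√n * √n) * ((n : ℝ) ^ 4)⁻¹ by ring,
      mul_self_sqrt n0.le]
    field_simp
  rw [e2]
  have c1 : 16 * (n : ℝ) ≤ n ^ 3 := by nlinarith [mul_le_mul n16 n16 (by norm_num) n0.le]
  refine (Tr.exp_le_one_add (by positivity) (by rw [div_le_iff₀ (by positivity)]; linarith)).trans ?_
  rw [add_le_add_iff_left, ← mul_div_assoc, ← one_div, div_le_div_iff₀ (by positivity) n0]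
  linarith

end Crest.Agent.T157.Et

end
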