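import Crest.Agent.T157.CtOne_63
import Crest.Agent.T157.EtTime_90

/-!
# Row 157, coin windows (helper63): transfer at all times
-/

set_option autoImplicit false

noncomputable section

namespace Crest.Agent.T157.Cw

open MeasureTheory Matrix Set Function Real Filter Topology
open scoped ENNReal
open Crest.ProbabilityR.SpinGlassDynamics
open Crest.Agent.T157.E Crest.Agent.T157.Crit Crest.Agent.T157.SL
open Crest.Agent.T157.Qe (V Mx)
open Crest.Agent.T157.Top (Whp)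
open Crest.Agent.T157.Ks.St0 (JP PW)

/-- coins with a Gaussian diagonal -/
abbrev CG (n : ℕ) : Measure ((Pair n → ℝ) × V n) := (couplingLaw true n).prod (gv (Fin n))

namespace All63

lemma markov_log {α : Type*} [MeasurableSpace α] {μ : Measure α} [IsProbabilityMeasure μ]
    {Y : α → ℝ} (h0 : ∀ x, 0 < Y x) (h1 : Integrable Y μ) (h2 : Integrable (fun x => log (Y x)) μ)
    (h3 : ∫ x, Y x ∂μ ≤ 1) {A D : ℝ} (hA : 1 < A) (h4 : -∫ x, log (Y x) ∂μ ≤ D) :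
    μ.real {x | ¬ exp (-A) ≤ Y x} ≤ D / (A - 1) := by
  have i1 : Integrable (fun x => Y x - 1) μ := h1.sub (integrable_const 1)
  have h := mul_meas_ge_le_integral_of_nonneg (f := fun x => Y x - 1 - log (Y x)) (.of_forall fun g =>
    sub_nonneg.2 (log_le_sub_one_of_pos (h0 g))) (i1.sub h2) (A - 1)
  rw [integral_sub i1 h2, integral_sub h1 (integrable_const 1)] at h
  rw [le_div_iff₀' (by linarith)]
  refine le_trans (mul_le_mul_of_nonneg_left (measureReal_mono fun g hg => ?_) (by linarith))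
    (h.trans (by simp only [integral_const, probReal_univ, smul_eq_mul, mul_one]; linarith))
  have := (log_lt_iff_lt_exp (h0 g)).2 (not_le.1 hg)
  have := h0 g
  simp only [mem_ofPred_eq]
  linarith

lemma lim_log {c a : ℝ} (hc : 0 < c) (ha : 0 < a) : ∃ u : ℕ → ℝ, Tendsto u atTop (𝓝 0) ∧
    ∀ᶠ n : ℕ in atTop, 1 < a * (n : ℝ) ^ c ∧ 1 / (a * (n : ℝ) ^ c - 1) ≤ u n ∧
      (log (2 * n) ^ 2 / 4 + 3 / 4) / (a * (n : ℝ) ^ c - 1) ≤ u n := by
  have hA := (Pl.tendsto_rpow_div_log_sq hc).const_mul_atTop ha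
  refine ⟨_, hA.inv_tendsto_atTop.const_mul 4 |>.trans_eq (by simp), ?_⟩
  filter_upwards [hA.eventually_ge_atTop 2, eventually_ge_atTop 3] with n h2 h3
  have hn : (3 : ℝ) ≤ n := by exact_mod_cast h3
  have hl : 1 ≤ log (n : ℝ) := by
    rw [le_log_iff_exp_le (by linarith)]; linarith [exp_one_lt_d9]
  have hl2 : 1 ≤ log (n : ℝ) ^ 2 := one_le_pow₀ hl
  rw [← mul_div_assoc, le_div_iff₀ (by positivity)] at h2
  have h4 : log (2 * n : ℝ) ≤ 2 * log n := by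
    rw [log_mul two_ne_zero (by linarith)]; linarith [log_le_log two_pos (by linarith : (2 : ℝ) ≤ n)]
  have h5 : log (2 * n : ℝ) ^ 2 ≤ (2 * log n) ^ 2 :=
    pow_le_pow_left₀ (log_nonneg (by linarith)) h4 2
  refine ⟨by linarith, ?_, ?_⟩ <;>
    rw [Pi.inv_apply, ← mul_div_assoc, inv_div, ← mul_div_assoc,
      div_le_div_iff₀ (by linarith) (by linarith)] <;> nlinarith

/-- lower tail of the partition function for coins -/
lemma lrC {c a : ℝ} (hc : 0 < c) (ha : 0 < a) :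
    Whp CG fun n q => exp (-(a * (n : ℝ) ^ c)) ≤ Pl.LRW n 1 (Wmat n q.1 q.2) := by
  obtain ⟨u, u0, hu⟩ := lim_log hc (half_pos ha)
  have h1 : Whp (couplingLaw true) fun n g => exp (-(a / 2 * (n : ℝ) ^ c)) ≤ Pl.LR false n 1 g := by
    refine Top.whp_of_real_le u0 (hu.mono fun n hn => le_trans ?_ hn.2.2)
    have e : Pl.LR false n 1 = fun g => Pl.LR true n 1 g * (Pl.EZ true n 1 / Pl.EZ false n 1) := by
      funext g
      have := Pl.EZ_pos true n 1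
      simp only [Pl.LR]; field_simp
    refine markov_log (Pl.LR_pos false 1) (e ▸ (Pl.integrable_LR true 1).mul_const _) ?_ ?_ hn.1 ?_
    · simp only [Pl.log_LR]; exact (Pl.integrable_log_Z' true 1).sub (integrable_const _)
    · rw [e, integral_mul_const, Pl.integral_LR, one_mul, div_le_one (Pl.EZ_pos _ _ _)]
      exact Pl.EZ_le _ _ _
    · have a1 := Pl.DD_false_le_crit n zero_le_one le_rfl
      have a2 := Pl.integral_log_Z_false_le (n := n) (β := 1) (by norm_num)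
      rw [Pl.DD_eq] at a1
      simp only [Pl.log_LR]
      rw [integral_sub (Pl.integrable_log_Z' true 1) (integrable_const _)]
      simp only [integral_const, probReal_univ, smul_eq_mul, one_mul]
      linarith
  have h2 : Whp (fun n => gv (Fin n)) fun n d => exp (-(a / 2 * (n : ℝ) ^ c)) ≤
      exp (d ⬝ᵥ fun _ => 1 / 2 * (√2 / √n)) / exp (1 ^ 2 / 4) := by
    refine Top.whp_of_real_le u0 ?_
    filter_upwards [hu, eventually_gt_atTop 0] with n hn n0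
    have hn' : (0 : ℝ) < n := Nat.cast_pos.2 n0
    have i0 := integrable_finsetSum (μ := gv (Fin n)) Finset.univ fun i _ =>
      (R339.Guerra.integrable_coord i).mul_const (1 / 2 * (√2 / √(n : ℝ)))
    refine le_trans (markov_log (μ := gv (Fin n)) (fun _ => by positivity)
      ((Pl.integrable_exp_dot false _).div_const _) ?_ (le_of_eq ?_) hn.1 ?_) hn.2.1
    · simp only [← exp_sub, log_exp]; exact i0.sub (integrable_const _)
    · rw [integral_div]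
      erw [Pl.integral_exp_dot false]
      simp only [Pl.MM_false, dotProduct, Finset.sum_const, Finset.card_univ, Fintype.card_fin,
        nsmul_eq_mul]
      rw [mul_mul_mul_comm, div_mul_div_comm √2, mul_self_sqrt zero_le_two, mul_self_sqrt hn'.le,
        ← exp_sub, exp_eq_one_iff]
      field_simp
      ring
    · simp only [← exp_sub, log_exp, dotProduct]
      rw [integral_sub i0 (integrable_const _), integral_finsetSum _ fun i _ =>
        (R339.Guerra.integrable_coord i).mul_const _]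
      simp only [integral_mul_const, R339.Guerra.integral_coord]
      norm_num
  refine ((h1.comp fun _ => measurePreserving_fst).and (h2.comp fun _ => measurePreserving_snd)).mono ?_
  filter_upwards [eventually_gt_atTop 0] with n n0 q ⟨q1, q2⟩
  rw [Pl.LRW_Wmat n0.ne', show -(a * (n : ℝ) ^ c) = -(a / 2 * n ^ c) + -(a / 2 * n ^ c) by ring,
    exp_add]
  exact mul_le_mul q1 q2 (exp_pos _).le (Pl.LR_pos _ _ _).le

lemma lim (A : ℝ) (m : ℕ) {c : ℝ} (hc : 0 < c) :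
    Tendsto (fun n : ℕ => A * (n : ℝ) ^ m * exp (-(1 / 8 * (n : ℝ) ^ c))) atTop (𝓝 0) := by
  have h1 := ((tendsto_rpow_mul_exp_neg_mul_atTop_nhds_zero (m / c) (1 / 8) (by norm_num)).comp
    ((tendsto_rpow_atTop hc).comp tendsto_natCast_atTop_atTop)).const_mul A
  rw [mul_zero] at h1
  refine h1.congr fun n => ?_
  simp only [Function.comp]
  rw [← rpow_mul (Nat.cast_nonneg n), mul_div_cancel₀ _ hc.ne', rpow_natCast, neg_mul, mul_assoc]

/-- the exponent of the engine is small -/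
lemma aeng_le {C u H κ η t : ℝ} {n k : ℕ} (C0 : 0 < C) (u1 : 1 ≤ u) (uC : 24 * 112 ^ 4 * C ≤ u)
    (hl : 1 + log n ≤ u) (hH : u ^ 100 ≤ H) (η0 : u⁻¹ ≤ η) (η1 : η ≤ 1)
    (κ1 : 1 ≤ κ) (hκ : κ * H * u ^ 100 ≤ n * t) (hk : (k : ℝ) ≤ 4 * u ^ 2) :
    C * Aeng n k (η * κ) t (H / (η * κ)) ((1 + 6 * η) * κ) (u ^ 50) ≤ H / 8 := by
  have u0 : 0 < u := by linarith
  have e0 : 0 < η := (inv_pos.2 u0).trans_le η0
  have e1 : η⁻¹ ≤ u := inv_le_of_inv_le₀ u0 η0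
  have H0 : 0 < H := lt_of_lt_of_le (by positivity) hH
  have t0 : 0 < n * t := lt_of_lt_of_le (by positivity) hκ
  have a1 : (k : ℝ) ^ 2 * ((1 + 6 * η) * κ) / (η * κ) ≤ 112 * u ^ 5 := by
    calc _ = (k : ℝ) ^ 2 * (1 + 6 * η) * η⁻¹ := by field_simp
      _ ≤ (4 * u ^ 2) ^ 2 * 7 * u := by gcongr; linarith
      _ = _ := by ring
  have a2 : (H / (η * κ)) ^ 2 * ((1 + 6 * η) * κ) ^ 3 / (n * t) ≤ 343 * H / u ^ 98 := by
    calc _ = η⁻¹ ^ 2 * (1 + 6 * η) ^ 3 * H * (κ * H * u ^ 100 / (n * t)) / u ^ 100 := by field_simp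
      _ ≤ u ^ 2 * 7 ^ 3 * H * 1 / u ^ 100 := by
          gcongr
          · linarith
          · exact (div_le_one t0).2 hκ
      _ = _ := by field_simp; norm_num
  have p : ∀ {i j : ℕ}, i ≤ j → u ^ i ≤ u ^ j := fun h => pow_le_pow_right₀ u1 h
  have b1 : C * (u * (112 * u ^ 5) ^ 4) ≤ H / 24 := by
    calc _ = 24 * 112 ^ 4 * C * u ^ 21 / 24 := by ring
      _ ≤ u * u ^ 21 / 24 := by gcongr
      _ ≤ _ := by rw [← pow_succ']; gcongr; exact (p (by norm_num)).trans hH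
  have b2 : C * (u * (343 * H / u ^ 98)) ≤ H / 24 := by
    calc _ = 24 * 343 * C / u ^ 97 * (H / 24) := by field_simp
      _ ≤ 1 * (H / 24) := by
          gcongr
          rw [div_le_one (by positivity)]
          have := p (show 1 ≤ 97 by norm_num)
          nlinarith
      _ = _ := one_mul _
  have b3 : C * (u * u ^ 50) ≤ H / 24 := by
    calc _ = 24 * C * u ^ 51 / 24 := by ring
      _ ≤ u * u ^ 51 / 24 := by gcongr; nlinarith
      _ ≤ _ := by rw [← pow_succ']; gcongr; exact (p (by norm_num)).trans hH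
  calc _ ≤ C * (u * ((112 * u ^ 5) ^ 4 + 343 * H / u ^ 98 + u ^ 50)) := by
        unfold Aeng; gcongr
    _ ≤ _ := by rw [mul_add, mul_add, mul_add, mul_add]; linarith

lemma poly_le {u n t β H κ η : ℝ} (n1 : 1 ≤ n) (u1 : 1 ≤ u) (un : u ≤ n) (β1 : 1 ≤ β) (t0 : 0 < t)
    (tβ : t ≤ β) (hH : u ^ 100 ≤ H) (η0 : u⁻¹ ≤ η) (η1 : η ≤ 1) (κ1 : 1 ≤ κ)
    (hκ : κ * H * u ^ 100 ≤ n * t) :
    (1 + H / (η * κ) * (n * (η * κ + t * n))) ^ 4 ≤ 81 * β ^ 8 * n ^ 16 := by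
  have e0 : 0 < η := (inv_pos.2 (by linarith)).trans_le η0
  have e1 : η⁻¹ ≤ n := (inv_le_of_inv_le₀ (by linarith) η0).trans un
  have U1 : 1 ≤ u ^ 100 := one_le_pow₀ u1
  have H1 : 1 ≤ H := U1.trans hH
  have nt : n * t ≤ n * β := by gcongr
  have a0 : κ * H ≤ n * β := (le_mul_of_one_le_right (by positivity) U1).trans (hκ.trans nt)
  have Hn : H ≤ n * β := (le_mul_of_one_le_left (by linarith) κ1).trans a0
  have κn : κ ≤ n * β := (le_mul_of_one_le_right (by linarith) H1).trans a0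
  have a1 : H / (η * κ) ≤ n * β * n := by
    calc _ ≤ H / (η * 1) := by gcongr
      _ = H * η⁻¹ := by rw [mul_one, div_eq_mul_inv]
      _ ≤ _ := by gcongr
  have a2 : η * κ + t * n ≤ 2 * (n * β) := by
    have := mul_le_of_le_one_left (show 0 ≤ κ by linarith) η1
    linarith
  have a3 : 1 ≤ β ^ 2 * n ^ 4 := one_le_mul_of_one_le_of_one_le (one_le_pow₀ β1) (one_le_pow₀ n1)
  calc _ ≤ (β ^ 2 * n ^ 4 + n * β * n * (n * (2 * (n * β)))) ^ 4 := by gcongr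
    _ = _ := by ring

lemma one_le (h1 : EngStmt) (h2 : LmStmt) (h3 : AlgStmt) : ∃ C : ℝ,
    ∀ (n : ℕ) (u t β H κ η : ℝ) (Y : Mx n → ℝ) (S : Set (Mx n)), 1 ≤ n → 1 + log n ≤ u → C ≤ u →
    u ≤ n → 1 ≤ β → 0 < t → t ≤ β → u ^ 100 ≤ H → u⁻¹ ≤ η → η ≤ 1 → 1 ≤ κ →
    κ * H * u ^ 100 ≤ n * t → Measurable Y → (∀ W, Y W ≤ 0) →
    (∀ d, LT (u ^ 50) fun g => Y (Wmat n g d)) →
    JP t n {z | z.1 ∈ S ∧ ¬ CovLe (ising z.1 z.2) (κ / t)} ≤ ENNReal.ofReal (exp (-H)) →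
    PW n {W | W ∉ S ∧ -H ≤ Y W} ≤ ENNReal.ofReal (exp (-H)) →
    CG n {q | exp (-(H / 8)) ≤ Pl.LRW n 1 (Wmat n q.1 q.2) ∧ -(H / 8) ≤ Y (Wmat n q.1 q.2) ∧
        ¬ CovAt (gibbsWeight n 1 q.1) t ((1 + 5 * η) * κ / t) (exp (-(H / 2)))} ≤
      ENNReal.ofReal (324 * β ^ 8 * (n : ℝ) ^ 16 * exp (-(1 / 8 * u ^ 100))) := by
  obtain ⟨C, C0, hC⟩ := one63 h1 h2 h3
  refine ⟨24 * 112 ^ 4 * C, fun n u t β H κ η Y S n1 l1 uC un β1 t0 tβ q1 p2 p3 p4 p5 p6 p7 p8 p9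
    p10 => ?_⟩
  have n1' : (1 : ℝ) ≤ n := by exact_mod_cast n1
  have n0 : (0 : ℝ) < n := by linarith
  have l0 := log_nonneg n1'
  have u1 : 1 ≤ u := by linarith
  have e0 : 0 < η := (inv_pos.2 (by linarith)).trans_le p2
  have e1 : η⁻¹ ≤ u := inv_le_of_inv_le₀ (by linarith) p2
  have H0 : 0 < H := lt_of_lt_of_le (by positivity) q1
  have κ0 : 0 < κ := by linarith
  set k := ⌈2 * log n / η⌉₊ + 2 with hk
  have k1 : 2 * log n / η ≤ k := (Nat.le_ceil _).trans (by rw [hk]; push_cast; linarith)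
  have k0 : (0 : ℝ) < k := by positivity
  have k2 : (k : ℝ) ≤ 4 * u ^ 2 := by
    have a1 := (Nat.ceil_lt_add_one (show 0 ≤ 2 * log n / η by positivity)).le
    have a2 : 2 * log n / η ≤ 2 * (u - 1) * u := by rw [div_eq_mul_inv]; gcongr; linarith
    rw [hk]; push_cast; nlinarith
  have k3 : (n : ℝ) ^ (k : ℝ)⁻¹ ≤ 1 + 2 * (η / 2) := by
    rw [rpow_def_of_pos n0]
    refine le_trans (exp_le_exp.2 ?_) (Tr.exp_le_one_add (by positivity) (by linarith))
    rw [div_le_iff₀ e0] at k1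
    rw [← div_eq_mul_inv, div_le_iff₀ k0]; linarith
  have hA := aeng_le C0 u1 uC l1 q1 p2 p3 p4 p5 k2
  have hF := poly_le n1' u1 un β1 t0 tβ q1 p2 p3 p4 p5
  refine (hC n k (η * κ) t (H / (η * κ)) ((1 + 6 * η) * κ) ((1 + 5 * η) * κ) (u ^ 50)
    H (κ / t) _ _ _ _ _ _ _ _ n1 (by omega) (by positivity) (by gcongr; linarith) t0
    (by positivity) (by positivity) (exp_pos _) p6 p7 p8 ?_ (by gcongr; norm_num)
    (le_of_eq (by field_simp; ring)) p9 p10).trans ?_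
  · rw [mul_div_cancel₀ _ t0.ne']
    calc _ ≤ (1 + 2 * (η / 2)) * (η * κ + κ) := by gcongr
      _ = (1 + 2 * η + η * η) * κ := by ring
      _ ≤ _ := mul_le_mul_of_nonneg_right (by nlinarith) κ0.le
  have a3 : 1 ≤ β ^ 8 * (n : ℝ) ^ 16 := one_le_mul_of_one_le_of_one_le (one_le_pow₀ β1)
      (one_le_pow₀ n1')
  rw [show H / (η * κ) * ((1 + 6 * η) * κ - (1 + 5 * η) * κ) = H by field_simp; ring,
    ← ENNReal.ofReal_add (exp_pos _).le (exp_pos _).le,
    ← ENNReal.ofReal_add (by positivity) (exp_pos _).le, ← ENNReal.ofReal_mul (by positivity),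
    ← ENNReal.ofReal_add (exp_pos _).le (by positivity), ← ENNReal.ofReal_mul (by positivity)]
  refine ENNReal.ofReal_le_ofReal ?_
  calc _ ≤ exp (H / 8 + H / 8 + H / 8) / exp (-(H / 2)) * (β ^ 8 * (n : ℝ) ^ 16 * exp (-H) +
        81 * β ^ 8 * (n : ℝ) ^ 16 * (exp (-H) + exp (-H) + exp (-H))) := by
        gcongr
        exact le_mul_of_one_le_left (exp_pos _).le a3
    _ = 244 * β ^ 8 * (n : ℝ) ^ 16 * (exp (H / 8 + H / 8 + H / 8) / exp (-(H / 2)) *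
        exp (-H)) := by ring
    _ ≤ _ := by
        rw [← exp_sub, ← exp_add]
        gcongr
        · norm_num
        · linarith

end All63

open All63

/-- **transfer at all times** -/
theorem all63 (h1 : EngStmt) (h2 : LmStmt) (h3 : AlgStmt) (a : ℕ → ℝ) (b c : ℝ)
    (H κ η : ℕ → ℝ → ℝ) (Y : ∀ n, ℝ → Mx n → ℝ) (S : ∀ n, ℝ → Set (Mx n)) (hc : 0 < c) (c1 : c ≤ 1)
    (hp : ∀ᶠ n : ℕ in atTop, 0 < a n ∧ ∀ t ∈ Icc (a n) b, (n : ℝ) ^ c ≤ H n t ∧
      (n : ℝ) ^ (-(c / 100)) ≤ η n t ∧ η n t ≤ 1 ∧ 1 ≤ κ n t ∧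
      κ n t * H n t * (n : ℝ) ^ c ≤ n * t ∧ Measurable (Y n t) ∧ (∀ W, Y n t W ≤ 0) ∧
      (∀ d, LT ((n : ℝ) ^ (c / 2)) fun g => Y n t (Wmat n g d)) ∧
      JP t n {z | z.1 ∈ S n t ∧ ¬ CovLe (ising z.1 z.2) (κ n t / t)} ≤
        ENNReal.ofReal (exp (-H n t)) ∧
      PW n {W | W ∉ S n t ∧ -H n t ≤ Y n t W} ≤ ENNReal.ofReal (exp (-H n t)))
    (hY : Whp CG fun n q => ∀ t ∈ Icc (a n) b, -(H n t / 8) ≤ Y n t (Wmat n q.1 q.2)) :
    Whp (couplingLaw true) fun n g => ∀ r ∈ Icc (a n) b, ∃ t ∈ Icc r b,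
      t ≤ r + ((n : ℝ) ^ 8)⁻¹ ∧ CovAt (gibbsWeight n 1 g) r ((1 + 7 * η n t) * κ n t / t)
        (exp (-(H n t / 2)) + exp (-(n : ℝ))) := by
  obtain ⟨C, hC⟩ := one_le h1 h2 h3
  set β := max b 1 with hβ
  have β1 : 1 ≤ β := le_max_right _ _
  set τ : ℕ → ℕ → ℝ := fun n j => b - j * ((n : ℝ) ^ 8)⁻¹ with hτ
  have ut : Tendsto (fun n : ℕ => (n : ℝ) ^ (c / 100)) atTop atTop :=
    (tendsto_rpow_atTop (by positivity)).comp tendsto_natCast_atTop_atTop
  have ul : ∀ᶠ n : ℕ in atTop, 1 + log n ≤ (n : ℝ) ^ (c / 100) := by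
    filter_upwards [ut.eventually_ge_atTop 2, tendsto_natCast_atTop_atTop.eventually
      ((isLittleO_log_rpow_atTop (show 0 < c / 100 by positivity)).bound one_half_pos)] with n a1 a2
    rw [Real.norm_eq_abs, Real.norm_of_nonneg (by positivity)] at a2
    linarith [le_abs_self (log (n : ℝ))]
  have h4 : Whp CG fun n q => ∀ j : ℕ, τ n j ∈ Icc (a n) b →
      exp (-(H n (τ n j) / 8)) ≤ Pl.LRW n 1 (Wmat n q.1 q.2) →
      -(H n (τ n j) / 8) ≤ Y n (τ n j) (Wmat n q.1 q.2) → CovAt (gibbsWeight n 1 q.1) (τ n j)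
        ((1 + 5 * η n (τ n j)) * κ n (τ n j) / τ n j) (exp (-(H n (τ n j) / 2))) := by
    refine Top.whp_iff.2 fun ε hε => ?_
    filter_upwards [hp, eventually_ge_atTop 1, ul, ut.eventually_ge_atTop C,
      (lim (648 * β ^ 9) 24 hc).eventually (ge_mem_nhds hε)] with n hn n1 l1 uC hlim
    have n1' : (1 : ℝ) ≤ n := by exact_mod_cast n1
    have n0 : (0 : ℝ) < n := by linarith
    set u := (n : ℝ) ^ (c / 100) with hu
    have un : u ≤ n := by simpa using rpow_le_rpow_of_exponent_le n1' (show c / 100 ≤ 1 by linarith)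
    have e100 : (n : ℝ) ^ c = u ^ 100 := by
      rw [hu, ← rpow_natCast, ← rpow_mul n0.le]; congr 1; push_cast; ring
    have e50 : (n : ℝ) ^ (c / 2) = u ^ 50 := by
      rw [hu, ← rpow_natCast, ← rpow_mul n0.le]; congr 1; push_cast; ring
    have one : ∀ t ∈ Icc (a n) b, CG n {q | exp (-(H n t / 8)) ≤ Pl.LRW n 1 (Wmat n q.1 q.2) ∧
        -(H n t / 8) ≤ Y n t (Wmat n q.1 q.2) ∧ ¬ CovAt (gibbsWeight n 1 q.1) t
          ((1 + 5 * η n t) * κ n t / t) (exp (-(H n t / 2)))} ≤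
        ENNReal.ofReal (324 * β ^ 8 * (n : ℝ) ^ 16 * exp (-(1 / 8 * (n : ℝ) ^ c))) := fun t ht => by
      obtain ⟨p1, p2, p3, p4, p5, p6, p7, p8, p9, p10⟩ := hn.2 t ht
      rw [rpow_neg n0.le, ← hu] at p2
      rw [e50] at p8
      rw [e100] at p1 p5 ⊢
      exact hC n u t β _ _ _ _ _ n1 l1 uC un β1 (hn.1.trans_le ht.1) (ht.2.trans (le_max_left _ _))
        p1 p2 p3 p4 p5 p6 p7 p8 p9 p10
    refine le_trans (measure_mono (t := ⋃ j ∈ Finset.range (⌊β * (n : ℝ) ^ 8⌋₊ + 1),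
      {q | τ n j ∈ Icc (a n) b ∧ exp (-(H n (τ n j) / 8)) ≤ Pl.LRW n 1 (Wmat n q.1 q.2) ∧
        -(H n (τ n j) / 8) ≤ Y n (τ n j) (Wmat n q.1 q.2) ∧ ¬ CovAt (gibbsWeight n 1 q.1) (τ n j)
          ((1 + 5 * η n (τ n j)) * κ n (τ n j) / τ n j) (exp (-(H n (τ n j) / 2)))})
      fun q hq => ?_) ?_
    · simp only [mem_ofPred_eq, not_forall] at hq
      obtain ⟨j, hj, q1, q2, q3⟩ := hq
      refine mem_iUnion₂.2 ⟨j, Finset.mem_range.2 (Nat.lt_succ_of_le (Nat.le_floor ?_)),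
        hj, q1, q2, q3⟩
      have := hn.1.le.trans hj.1
      simp only [hτ, sub_nonneg] at this
      rw [← div_eq_mul_inv, div_le_iff₀ (by positivity)] at this
      exact this.trans (mul_le_mul_of_nonneg_right (le_max_left _ _) (by positivity))
    refine (measure_biUnion_finset_le _ _).trans ((Finset.sum_le_card_nsmul _ _ (ENNReal.ofReal
      (324 * β ^ 8 * (n : ℝ) ^ 16 * exp (-(1 / 8 * (n : ℝ) ^ c)))) fun j _ => ?_).trans ?_)
    · by_cases hj : τ n j ∈ Icc (a n) b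
      · simpa only [hj, true_and] using one _ hj
      · simp [hj]
    · rw [Finset.card_range, nsmul_eq_mul, ← ENNReal.ofReal_natCast,
        ← ENNReal.ofReal_mul (Nat.cast_nonneg _)]
      refine ENNReal.ofReal_le_ofReal (le_trans ?_ hlim)
      have a1 := Nat.floor_le (a := β * (n : ℝ) ^ 8) (by positivity)
      have a2 : 1 ≤ β * (n : ℝ) ^ 8 := one_le_mul_of_one_le_of_one_le β1 (one_le_pow₀ n1')
      calc _ ≤ (2 * (β * (n : ℝ) ^ 8)) * (324 * β ^ 8 * (n : ℝ) ^ 16 *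
            exp (-(1 / 8 * (n : ℝ) ^ c))) := by gcongr; push_cast; linarith
        _ = _ := by ring
  refine Whp.of_prod_fst (ν := fun n => gv (Fin n))
    (((h4.and hY).and (lrC hc (show (0 : ℝ) < 1 / 8 by norm_num))).mono ?_)
  filter_upwards [hp, Et.timeStmt, eventually_ge_atTop 9] with n hn hT n9 q ⟨⟨q1, q2⟩, q3⟩ r hr
  have n9' : (9 : ℝ) ≤ n := by exact_mod_cast n9
  have n0 : (0 : ℝ) < n := by linarith
  have p4 : (0 : ℝ) < (n : ℝ) ^ 8 := by positivity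
  set j := ⌊(b - r) * (n : ℝ) ^ 8⌋₊
  have j1 : (j : ℝ) * ((n : ℝ) ^ 8)⁻¹ ≤ b - r := by
    rw [← div_eq_mul_inv, div_le_iff₀ p4]
    exact Nat.floor_le (mul_nonneg (sub_nonneg.2 hr.2) p4.le)
  have j2 : b - r ≤ (j + 1 : ℝ) * ((n : ℝ) ^ 8)⁻¹ := by
    rw [← div_eq_mul_inv, le_div_iff₀ p4]
    exact (Nat.lt_floor_add_one _).le
  have j3 : 0 ≤ (j : ℝ) * ((n : ℝ) ^ 8)⁻¹ := by positivity
  have m1 : τ n j ∈ Icc r b := ⟨by simp only [hτ]; linarith, by simp only [hτ]; linarith⟩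
  have m2 : τ n j ∈ Icc (a n) b := ⟨hr.1.trans m1.1, m1.2⟩
  have m3 : τ n j ≤ r + ((n : ℝ) ^ 8)⁻¹ := by simp only [hτ]; linarith
  obtain ⟨p1, p2, p3, p5, -⟩ := hn.2 _ m2
  have r0 := hn.1.trans_le hr.1
  have t0 := r0.trans_le m1.1
  refine ⟨τ n j, m1, m3, Q1.covAt_mono (.of_pos (gibbsWeight_pos 1 q.1)) (hT _
    (gibbsWeight_pos 1 q.1) r _ _ _ r0.le t0.le (abs_le.2 ⟨by linarith, by linarith [m1.1]⟩)
    (q1 j m2 (le_trans (exp_le_exp.2 (by linarith)) q3) (q2 _ m2))) ?_⟩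
  have a1 : 3 * (n : ℝ)⁻¹ ≤ η n (τ n j) := by
    refine le_trans ?_ ((rpow_le_rpow_of_exponent_le (by linarith)
      (show -(1 / 2 : ℝ) ≤ -(c / 100) by linarith)).trans p2)
    rw [rpow_neg n0.le, ← sqrt_eq_rpow, ← div_eq_mul_inv, div_le_iff₀ n0, inv_mul_eq_div,
      div_sqrt, le_sqrt' (by norm_num)]
    linarith
  have a2 : 0 ≤ (n : ℝ)⁻¹ := by positivity
  rw [mul_div_assoc, mul_div_assoc, ← mul_assoc]
  gcongr
  nlinarith

end Crest.Agent.T157.Cw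

end
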