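import Crest.Agent.T157.O7Def_64
import Crest.Agent.T157.TapCovA_15

/-!
# Row 157, block A2, section 7 (helper64): planted to null, all times at once
-/

set_option autoImplicit false

noncomputable section

namespace Crest.Agent.T157.O7

open MeasureTheory Filter Set Matrix Real Topology
open Crest.ProbabilityR.SpinGlassDynamics
open Crest.Agent.T157.E Crest.Agent.T157.SL Crest.Agent.T157.Eig
open Crest.Agent.T157.Tap (Mx V GOE)
open Crest.Agent.T157.Top (Whp)
open Crest.Agent.T157.Ks.St0 (JP PW JP_markov)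
open Crest.Agent.T157.Tap.Cov15

namespace Qu64

variable {n : ℕ} {w : Cube n → ℝ} {W B : Mx n} {k ρ r t : ℝ}

lemma quad_var (w : Cube n → ℝ) (u : V n) : u ⬝ᵥ covM w *ᵥ u = var w fun x => u ⬝ᵥ sv x := by
  rw [covM, covMat_quad, var_eq_cov]

lemma var_tilt (hw : Wt w) {v : V n} (hv : nrm v ≤ ρ) (f : Cube n → ℝ) :
    var (tilt w v) f ≤ exp (2 * ρ * √n) * var w f :=
  Ent.var_le_of_le (hw.mul_pos (f := fun x => exp (v ⬝ᵥ sv x)) fun _ => exp_pos _).isP
    (prob_tilt_le hw hv) f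

lemma cvb_tilt (hw : Wt w) {v : V n} (hv : nrm v ≤ ρ) {a : ℝ} (ha : exp (2 * ρ * √n) ≤ a)
    (h : CvB w B k) : CvB (tilt w v) B (a * k) := fun u => by
  have h1 := h u
  rw [quad_var] at h1 ⊢
  have h2 := hw.var_nonneg fun x => (B *ᵥ u) ⬝ᵥ sv x
  refine (var_tilt hw hv _).trans ((mul_le_mul_of_nonneg_right ha h2).trans ?_)
  rw [mul_assoc]
  exact mul_le_mul_of_nonneg_left h1 ((exp_pos _).le.trans ha)

lemma meas_bad (W B : Mx n) (k : ℝ) : MeasurableSet {y | ¬ CvB (ising W y) B k} := by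
  have e : {y | ¬ CvB (ising W y) B k} = ⋃ v : V n, {y | k * (v ⬝ᵥ v) <
      cov (pw sv (ising W 0) (0, y)) (fun x => (B *ᵥ v) ⬝ᵥ sv x) fun x => (B *ᵥ v) ⬝ᵥ sv x} := by
    have : ∀ y : V n, pw sv (ising W 0) (0, y) = ising W y := fun y => by
      rw [← tilt0 W y]; funext x; simp only [pw, post, tilt, zero_div, zero_mul, sub_zero]
    ext y
    simp only [CvB, not_forall, not_le, mem_ofPred_eq, mem_iUnion, this, quad_var, var_eq_cov]
  rw [e]
  exact (isOpen_iUnion fun v => isOpen_lt continuous_const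
    ((Tr.cont_cov (wt_ising W 0) _ _).comp (continuous_const.prodMk continuous_id))).measurableSet

lemma law_step (hn : 12 ≤ n) (hr : 0 ≤ r) (hrt : r ≤ t) (ht : t ≤ r + ((n : ℝ) ^ 4)⁻¹)
    {S : Set (V n)} (hS : MeasurableSet S) (h : ∀ y, ¬ CvB (ising W y) B k → y ∈ S) :
    (law sv (ising W 0) r).real {y | ¬ CvB (ising W y) B ((1 + 12 / n) * k)} ≤
      (law sv (ising W 0) t).real S + exp (-(n / 2)) := by
  have n12 : (12 : ℝ) ≤ n := by exact_mod_cast hn
  have n0 : (0 : ℝ) < n := by linarith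
  have hw := wt_ising W 0
  rw [law_real hw (meas_bad W B _), law_real hw hS, ← hw.mean_const (exp (-(n / 2))), ← mean_add]
  refine hw.mean_mono fun σ => ?_
  rw [px, px, map_measureReal_apply (by fun_prop) (meas_bad W B _),
    map_measureReal_apply (by fun_prop) hS]
  refine le_trans ?_ (add_le_add le_rfl gv_tail)
  refine le_trans (measureReal_mono (fun g hg => ?_) (measure_ne_top _ _)) (measureReal_union_le _ _)
  by_contra hc
  simp only [mem_union, mem_preimage, mem_ofPred_eq, not_or, not_le] at hc hg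
  have h1 : CvB (ising W (t • sv σ + √t • g)) B k := by
    by_contra h2; exact hc.1 (h _ h2)
  refine hg ?_
  have e : r • sv σ + √r • g = (t • sv σ + √t • g) + -((t - r) • sv σ + (√t - √r) • g) := by
    module
  have a1 : ((n : ℝ) ^ 4)⁻¹ = (((n : ℝ) ^ 2)⁻¹) ^ 2 := by field_simp
  have a2 : ((n : ℝ) ^ 2)⁻¹ ≤ 1 := inv_le_one_of_one_le₀ (by nlinarith)
  have a3 : 0 < ((n : ℝ) ^ 2)⁻¹ := by positivity
  have b1 : t - r ≤ ((n : ℝ) ^ 2)⁻¹ := by nlinarith
  have b2 : √t - √r ≤ ((n : ℝ) ^ 2)⁻¹ := by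
    rw [sub_le_iff_le_add', sqrt_le_left (by positivity)]
    nlinarith [sq_sqrt hr, sqrt_nonneg r]
  have b3 : 0 ≤ √t - √r := sub_nonneg.2 (sqrt_le_sqrt hrt)
  have s0 := sqrt_nonneg (n : ℝ)
  have hv : nrm (-((t - r) • sv σ + (√t - √r) • g)) ≤ 3 * √n * ((n : ℝ) ^ 2)⁻¹ := by
    rw [nrm_neg]
    refine (nrm_add_le _ _).trans ?_
    rw [nrm_smul, nrm_smul, nrm_sv, abs_of_nonneg (sub_nonneg.2 hrt), abs_of_nonneg b3]
    nlinarith [mul_le_mul b2 hc.2.le (nrm_nonneg g) a3.le, mul_le_mul_of_nonneg_right b1 s0]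
  rw [e, ← tilt_ising]
  refine cvb_tilt (wt_ising W _) hv ?_ h1
  have e2 : 2 * (3 * √n * ((n : ℝ) ^ 2)⁻¹) * √n = 6 / n := by
    rw [show 2 * (3 * √n * ((n : ℝ) ^ 2)⁻¹) * √n = 6 * (√n * √n) * ((n : ℝ) ^ 2)⁻¹ by ring,
      mul_self_sqrt n0.le]
    field_simp
  rw [e2]
  refine (Tr.exp_le_one_add (by positivity) (by rw [div_le_iff₀ n0]; linarith)).trans (le_of_eq ?_)
  ring

/-- planted to null -/
lemma null_le (E : Set (Mx n)) (a : ℝ) : GOE n E ≤
    GOE n {W | Pl.LRW n 1 W < exp (-a)} + ENNReal.ofReal (exp a) * PW n E := by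
  have m := measurableSet_toMeasurable (PW n) E
  have m2 : MeasurableSet {W : Mx n | exp (-a) ≤ Pl.LRW n 1 W} :=
    measurableSet_le measurable_const (Pl.measurable_LRW 1)
  have h1 : ENNReal.ofReal (exp (-a)) *
      GOE n (toMeasurable (PW n) E ∩ {W | exp (-a) ≤ Pl.LRW n 1 W}) ≤ PW n E := by
    rw [← measure_toMeasurable E, ← setLIntegral_const]
    refine le_trans ?_ (measure_mono (inter_subset_left (t := {W | exp (-a) ≤ Pl.LRW n 1 W})))
    rw [PW, withDensity_apply _ (by exact m.inter m2)]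
    exact setLIntegral_mono' (m.inter m2) fun W hW => ENNReal.ofReal_le_ofReal hW.2
  refine le_trans (measure_mono fun W hW => ?_) ((measure_union_le _
    (toMeasurable (PW n) E ∩ {W | exp (-a) ≤ Pl.LRW n 1 W})).trans (add_le_add le_rfl
    (le_trans (le_of_eq ?_) (mul_le_mul_right h1 _))))
  · by_cases h : Pl.LRW n 1 W < exp (-a)
    · exact Or.inl h
    · exact Or.inr ⟨subset_toMeasurable _ _ hW, not_lt.1 h⟩
  · rw [← mul_assoc, ← ENNReal.ofReal_mul (exp_pos _).le, ← exp_add, add_neg_cancel, exp_zero,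
      ENNReal.ofReal_one, one_mul]

lemma tend (b : ℝ) {c : ℝ} (hc : 0 < c) :
    Tendsto (fun n : ℕ => (|b| * (n : ℝ) ^ 4 + 2) * exp (-((n : ℝ) ^ c / 4))) atTop (𝓝 0) := by
  have h0 : Tendsto (fun n : ℕ => (n : ℝ) ^ c) atTop atTop :=
    (tendsto_rpow_atTop hc).comp tendsto_natCast_atTop_atTop
  have h1 := ((tendsto_rpow_mul_exp_neg_mul_atTop_nhds_zero (4 / c) (1 / 4) (by norm_num)).comp
    h0).const_mul |b|
  have h2 := (tendsto_exp_neg_atTop_nhds_zero.comp (h0.atTop_div_const (r := 4) four_pos)).const_mul 2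
  have h3 := h1.add h2
  simp only [mul_zero, add_zero] at h3
  refine h3.congr fun n => ?_
  simp only [Function.comp]
  rw [← rpow_mul (Nat.cast_nonneg n), mul_div_cancel₀ _ hc.ne', show (4 : ℝ) = (4 : ℕ) by norm_num,
    rpow_natCast]
  push_cast
  rw [show -(1 / 4) * (n : ℝ) ^ c = -((n : ℝ) ^ c / 4) by ring]
  ring

end Qu64

open Qu64 in
theorem quStmt : QuStmt := by
  rintro a b c H k B hc hH ⟨WW, h1, h2⟩
  set A : ∀ n, ℝ → Set (Mx n × V n) := fun n t =>
    toMeasurable (JP t n) {z | WW n t z.1 ∧ ¬ CvB (ising z.1 z.2) (B n z.1) (k n t)} with hA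
  set τ : ℕ → ℕ → ℝ := fun n j => b - j * ((n : ℝ) ^ 4)⁻¹ with hτ
  have h3 : Whp GOE fun n W => ∀ j : ℕ, τ n j ∈ Icc (a n) b →
      (law sv (ising W 0) (τ n j)).real {y | (W, y) ∈ A n (τ n j)} ≤ exp (-(H n (τ n j) / 2)) := by
    have t1 := Pl.tendsto_LRW_lt_rpow (β := 1) zero_le_one le_rfl (a := 1 / 4) (by norm_num) hc
    refine Top.whp_of_real_le (by simpa using t1.add (tend b hc)) ?_
    filter_upwards [hH, h2, eventually_gt_atTop 0] with n hn hn2 n0
    have n0' : (0 : ℝ) < n := by exact_mod_cast n0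
    have h4 : PW n {W | ¬ ∀ j : ℕ, τ n j ∈ Icc (a n) b → (law sv (ising W 0) (τ n j)).real
        {y | (W, y) ∈ A n (τ n j)} ≤ exp (-(H n (τ n j) / 2))} ≤
        ENNReal.ofReal ((|b| * (n : ℝ) ^ 4 + 2) * exp (-((n : ℝ) ^ c / 2))) := by
      refine le_trans (measure_mono (t := ⋃ j ∈ Finset.range (⌊|b| * (n : ℝ) ^ 4⌋₊ + 1),
        {W | τ n j ∈ Icc (a n) b ∧ ¬ (law sv (ising W 0) (τ n j)).real
          {y | (W, y) ∈ A n (τ n j)} ≤ exp (-(H n (τ n j) / 2))}) fun W hW => ?_) ?_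
      · simp only [mem_ofPred_eq, not_forall] at hW
        obtain ⟨j, hj, hW⟩ := hW
        refine mem_iUnion₂.2 ⟨j, Finset.mem_range.2 (Nat.lt_succ_of_le (Nat.le_floor ?_)), hj, hW⟩
        have := hn.1.trans hj.1
        simp only [hτ, sub_nonneg] at this
        rw [← div_eq_mul_inv, div_le_iff₀ (by positivity)] at this
        exact this.trans (mul_le_mul_of_nonneg_right (le_abs_self b) (by positivity))
      refine (measure_biUnion_finset_le _ _).trans ?_
      refine (Finset.sum_le_card_nsmul _ _ (ENNReal.ofReal (exp (-((n : ℝ) ^ c / 2))))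
        fun j _ => ?_).trans ?_
      · by_cases hj : τ n j ∈ Icc (a n) b
        · simp only [hj, true_and]
          refine (JP_markov (measurableSet_toMeasurable _ _) (exp_pos _)
            ((measure_toMeasurable _).trans_le (hn2 _ hj))).trans (ENNReal.ofReal_le_ofReal ?_)
          rw [← exp_sub]
          exact exp_le_exp.2 (by linarith [hn.2 _ hj])
        · simp [hj]
      · rw [Finset.card_range, nsmul_eq_mul, ← ENNReal.ofReal_natCast,
          ← ENNReal.ofReal_mul (Nat.cast_nonneg _)]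
        refine ENNReal.ofReal_le_ofReal (mul_le_mul_of_nonneg_right ?_ (exp_pos _).le)
        push_cast
        linarith [Nat.floor_le (a := |b| * (n : ℝ) ^ 4) (by positivity)]
    have h5 := (null_le _ (1 / 4 * (n : ℝ) ^ c)).trans
      (add_le_add le_rfl (mul_le_mul_right h4 _))
    rw [← ENNReal.ofReal_mul (exp_pos _).le] at h5
    refine (ENNReal.toReal_mono (by finiteness) h5).trans (le_of_eq ?_)
    rw [ENNReal.toReal_add (by finiteness) (by finiteness), ENNReal.toReal_ofReal (by positivity),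
      mul_left_comm, ← exp_add]
    congr 3
    · simp
    · ring
  refine (h1.and h3).mono ?_
  filter_upwards [hH, eventually_ge_atTop 12] with n hn n12 W ⟨hW, hW'⟩ r hr
  have n0 : (0 : ℝ) < n := by exact_mod_cast (by omega : 0 < n)
  have p4 : (0 : ℝ) < (n : ℝ) ^ 4 := by positivity
  set j := ⌊(b - r) * (n : ℝ) ^ 4⌋₊
  have j1 : (j : ℝ) * ((n : ℝ) ^ 4)⁻¹ ≤ b - r := by
    rw [← div_eq_mul_inv, div_le_iff₀ p4]
    exact Nat.floor_le (mul_nonneg (sub_nonneg.2 hr.2) p4.le)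
  have j2 : b - r ≤ (j + 1 : ℝ) * ((n : ℝ) ^ 4)⁻¹ := by
    rw [← div_eq_mul_inv, le_div_iff₀ p4]
    exact (Nat.lt_floor_add_one _).le
  have j3 : 0 ≤ (j : ℝ) * ((n : ℝ) ^ 4)⁻¹ := by positivity
  have m1 : τ n j ∈ Icc r b := ⟨by simp only [hτ]; linarith, by simp only [hτ]; linarith⟩
  have m2 : τ n j ∈ Icc (a n) b := ⟨hr.1.trans m1.1, m1.2⟩
  have m3 : τ n j ≤ r + ((n : ℝ) ^ 4)⁻¹ := by simp only [hτ]; linarith
  refine ⟨τ n j, m1, m3, (law_step n12 (hn.1.trans hr.1) m1.1 m3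
    (S := {y | (W, y) ∈ A n (τ n j)})
    (measurable_prodMk_left (measurableSet_toMeasurable _ _)) fun y hy => ?_).trans
      (add_le_add (hW' j m2) le_rfl)⟩
  exact subset_toMeasurable _ _ ⟨hW _ m2, hy⟩

end Crest.Agent.T157.O7

end
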