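import Crest.Agent.T157.CwEng_63
import Crest.Agent.T157.O7Qu_64

/-!
# Row 157, coin windows (helper63): transfer at one time
-/

set_option autoImplicit false

noncomputable section

namespace Crest.Agent.T157.Cw

open MeasureTheory Matrix Set Function Real
open scoped ENNReal
open Crest.ProbabilityR.SpinGlassDynamics
open Crest.Agent.T157.E Crest.Agent.T157.Crit Crest.Agent.T157.SL
open Crest.Agent.T157.Qe (V Mx)
open Crest.Agent.T157.Tap (GOE)
open Crest.Agent.T157.Ks.St0 (JP PW pl meas_pl meas_ising LR_prob lint_pl JP_fst)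

variable {n : ℕ}

namespace One63

variable {s : ℝ} {G : Mx n × V n → ℝ≥0∞}

/-- unnormalised joint weight -/
def Tw (s : ℝ) (G : Mx n × V n → ℝ≥0∞) (W : Mx n) : ℝ≥0∞ :=
  ∑ σ : Cube n, ENNReal.ofReal (ising W 0 σ) * ∫⁻ z, G (W, s • sv σ + √s • z) ∂gv (Fin n)

lemma meas_in (hG : Measurable G) (σ : Cube n) :
    Measurable fun W : Mx n => ∫⁻ z, G (W, s • sv σ + √s • z) ∂gv (Fin n) :=
  Measurable.lintegral_prod_right' (f := fun q : Mx n × V n => G (q.1, s • sv σ + √s • q.2))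
    (hG.comp (by fun_prop))

lemma meas_Tw (hG : Measurable G) : Measurable (Tw s G) :=
  Finset.measurable_sum _ fun σ _ => (meas_ising σ).ennreal_ofReal.fun_mul (meas_in hG σ)

lemma Tw_law (hG : Measurable G) (W : Mx n) :
    ENNReal.ofReal (Pl.LRW n 1 W) * ∫⁻ y, G (W, y) ∂law sv (ising W 0) s =
      (2 ^ n : ℝ≥0∞)⁻¹ * (ENNReal.ofReal (exp (n / 4)))⁻¹ * Tw s G W := by
  rw [law, lintegral_finsetSum_measure, Tw, Finset.mul_sum, Finset.mul_sum]
  refine Finset.sum_congr rfl fun σ _ => ?_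
  rw [lintegral_smul_measure, smul_eq_mul, ← mul_assoc, LR_prob, lintegral_map
    (f := fun y => G (W, y)) (hG.comp measurable_prodMk_left) (by fun_prop), mul_assoc]

lemma Tw_goe (hG : Measurable G) :
    (2 ^ n : ℝ≥0∞)⁻¹ * (ENNReal.ofReal (exp (n / 4)))⁻¹ * ∫⁻ W, Tw s G W ∂GOE n =
      ∫⁻ z, G z ∂JP s n := by
  unfold Tw
  rw [lintegral_finsetSum _ fun σ _ => (meas_ising σ).ennreal_ofReal.fun_mul (meas_in hG σ), JP,
    lintegral_smul_measure, lintegral_finsetSum_measure, smul_eq_mul, mul_assoc, Finset.mul_sum]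
  congr 1
  refine Finset.sum_congr rfl fun σ _ => ?_
  rw [lint_pl σ (meas_in hG σ), ← mul_assoc, ENNReal.inv_mul_cancel (by simp [exp_pos])
    ENNReal.ofReal_ne_top, one_mul, lintegral_map hG (meas_pl s σ)]
  exact (lintegral_prod _ (hG.comp (meas_pl s σ)).aemeasurable).symm

lemma Tw_prod (hG : Measurable G) (b : Bool) :
    ∫⁻ q, Tw s G (Wmat n q.1 q.2) ∂(couplingLaw b n).prod (gv (Fin n)) =
      ∑ σ : Cube n, ∫⁻ d, ∫⁻ z, ∫⁻ g, ENNReal.ofReal (ising (Wmat n g d) 0 σ) *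
        G (Wmat n g d, s • sv σ + √s • z) ∂couplingLaw b n ∂gv (Fin n) ∂gv (Fin n) := by
  have mW := Cond.measurable_Wmat (n := n)
  have m : ∀ σ : Cube n, Measurable fun q : (Pair n → ℝ) × V n =>
      ENNReal.ofReal (ising (Wmat n q.1 q.2) 0 σ) *
        ∫⁻ z, G (Wmat n q.1 q.2, s • sv σ + √s • z) ∂gv (Fin n) := fun σ =>
    ((meas_ising σ).ennreal_ofReal.fun_mul (meas_in (s := s) hG σ)).comp mW
  unfold Tw
  rw [lintegral_finsetSum _ fun σ _ => m σ]
  refine Finset.sum_congr rfl fun σ _ => ?_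
  rw [lintegral_prod_symm' _ (m σ)]
  refine lintegral_congr fun d => ?_
  have m1 : Measurable fun g : Pair n → ℝ => Wmat n g d :=
    mW.comp (f := fun g : Pair n → ℝ => (g, d)) (by fun_prop)
  rw [lintegral_lintegral_swap (Measurable.aemeasurable ?_)]
  · exact lintegral_congr fun g => (lintegral_const_mul' _ _ ENNReal.ofReal_ne_top).symm
  · exact (((meas_ising σ).comp (m1.comp measurable_snd)).ennreal_ofReal).fun_mul
      (hG.comp ((m1.comp measurable_snd).prodMk (by fun_prop)))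

lemma covAt_Wmat (g : Pair n → ℝ) (d : V n) (r K p : ℝ) :
    CovAt (ising (Wmat n g d) 0) r K p ↔ CovAt (gibbsWeight n 1 g) r K p := by
  have h := Pl.ising_Wmat 1 g d
  rw [one_smul] at h
  have e : ∀ y, prob (tilt (ising (Wmat n g d) 0) y) = prob (tilt (gibbsWeight n 1 g) y) := fun y => by
    rw [← prob_smul (tilt (gibbsWeight n 1 g) y) (exp_pos (d ⬝ᵥ fun _ => 1 / 2 * (√2 / √n))).ne', h]
    congr 1; funext x; simp only [tilt]; ring
  have e0 := Pl.prob_ising_Wmat 1 g d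
  rw [one_smul] at e0
  simp only [CovAt, CovLe, covM, fun y => GoeT.covMat_congr_prob (e y) sv, law, e0]

end One63

open One63

/-- **transfer at one time** -/
theorem one63 (h1 : EngStmt) (h2 : LmStmt) (h3 : AlgStmt) : ∃ C : ℝ, 0 < C ∧
    ∀ (n k : ℕ) (ε s p l0 l1 B H K K' a b θ : ℝ) (Y : Mx n → ℝ) (S : Set (Mx n)) (δ₁ δ₂ : ℝ≥0∞),
    1 ≤ n → 2 ≤ k → 0 < ε → ε ≤ l0 → 0 < s → 0 ≤ p → 0 ≤ K → 0 < θ → Measurable Y →
    (∀ W, Y W ≤ 0) → (∀ d, LT B fun g => Y (Wmat n g d)) →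
    (n : ℝ) ^ (k : ℝ)⁻¹ * (ε + s * K) ≤ l1 → l1 ≤ l0 → l0 ≤ ε + s * K' →
    JP s n {z | z.1 ∈ S ∧ ¬ CovLe (ising z.1 z.2) K} ≤ δ₁ → PW n {W | W ∉ S ∧ -H ≤ Y W} ≤ δ₂ →
    (couplingLaw true n).prod (gv (Fin n)) {q | exp (-a) ≤ Pl.LRW n 1 (Wmat n q.1 q.2) ∧
        -b ≤ Y (Wmat n q.1 q.2) ∧ ¬ CovAt (gibbsWeight n 1 q.1) s K' θ} ≤
      ENNReal.ofReal (exp (a + b + C * Aeng n k ε s p l0 B) / θ) *
        (ENNReal.ofReal (exp (-(p * (l0 - l1)))) + ENNReal.ofReal ((1 + p * (n * (ε + s * n))) ^ 4) *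
          (δ₁ + δ₂ + ENNReal.ofReal (exp (-H)))) := by
  obtain ⟨C, C0, hE⟩ := h1
  obtain ⟨-, -, cf, mf, f0, fb, -⟩ := h3
  refine ⟨C, C0, fun n k ε s p l0 l1 B H K K' a b θ Y S δ₁ δ₂ hn hk hε hl hs hp hK hθ mY Y0 hY
    l1a l1b l0a d1 d2 => ?_⟩
  have n1 : (1 : ℝ) ≤ n := by exact_mod_cast hn
  set G : Mx n × V n → ℝ≥0∞ := fun z =>
    ENNReal.ofReal (exp (Y z.1) * fE (p * (lm k ε s z.1 z.2 - l0))) with hG
  have mG : Measurable G := ((mY.comp measurable_fst).exp.mul (cf.continuous.measurable.comp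
    (((h2.meas n k ε s).sub_const l0).const_mul p))).ennreal_ofReal
  set c : ℝ≥0∞ := (2 ^ n : ℝ≥0∞)⁻¹ * (ENNReal.ofReal (exp (n / 4)))⁻¹ with hc
  set F := (1 + p * (n * (ε + s * n))) ^ 4 with hF
  have a1 : ∫⁻ q, Tw s G (Wmat n q.1 q.2) ∂(couplingLaw true n).prod (gv (Fin n)) ≤
      Conc.ex (C * Aeng n k ε s p l0 B) * ∫⁻ W, Tw s G W ∂GOE n := by
    rw [← Cond.mp_Wmat.lintegral_comp (meas_Tw mG), show disorderLaw n = couplingLaw false n from rfl,
      Tw_prod mG, Tw_prod mG, Finset.mul_sum]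
    refine Finset.sum_le_sum fun σ _ => ?_
    unfold Conc.ex at hE ⊢
    rw [← lintegral_const_mul' _ _ ENNReal.ofReal_ne_top]
    refine lintegral_mono fun d => ?_
    rw [← lintegral_const_mul' _ _ ENNReal.ofReal_ne_top]
    refine lintegral_mono fun z => ?_
    have := hE n k ε s p l0 B Y σ (s • sv σ + √s • z) d hn hk hε hl hs hp (hY d)
    have ip : ∀ W : Mx n, 0 ≤ ising W 0 σ := fun _ => (exp_pos _).le
    simp only [Psi, mul_assoc (ising _ _ _), ENNReal.ofReal_mul (ip _)] at this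
    exact this
  have fF : ∀ W y, fE (p * (lm k ε s W y - l0)) ≤ F := fun W y => by
    refine (fb _).trans (pow_le_pow_left₀ (by positivity) (add_le_add_right (max_le ?_
      (by positivity)) _) _)
    have e1 := h2.hi n k ε s n W y (by omega) hε hs.le (by positivity) (h2.crude n W y)
    have e2 : (n : ℝ) ^ (k : ℝ)⁻¹ ≤ n := by
      simpa using rpow_le_rpow_of_exponent_le n1 (inv_le_one_of_one_le₀
        (show (1 : ℝ) ≤ k by exact_mod_cast (by omega : 1 ≤ k)))
    refine mul_le_mul_of_nonneg_left ?_ hp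
    have : (n : ℝ) ^ (k : ℝ)⁻¹ * (ε + s * n) ≤ n * (ε + s * n) := by gcongr
    linarith
  have F0 : 0 ≤ F := by positivity
  have a2 : ∫⁻ z, G z ∂JP s n ≤ ENNReal.ofReal (exp (-(p * (l0 - l1)))) + ENNReal.ofReal F *
      (δ₁ + δ₂ + ENNReal.ofReal (exp (-H))) := by
    set A := toMeasurable (JP s n) ({z | z.1 ∈ S ∧ ¬ CovLe (ising z.1 z.2) K} ∪
      {z | z.1 ∈ {W | W ∉ S ∧ -H ≤ Y W}}) with hA
    have mA : MeasurableSet A := measurableSet_toMeasurable _ _
    have b1 : JP s n A ≤ δ₁ + δ₂ := by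
      rw [hA, measure_toMeasurable]
      exact (measure_union_le _ _).trans (add_le_add d1 ((JP_fst _).trans d2))
    calc _ ≤ ∫⁻ z, (ENNReal.ofReal (exp (-(p * (l0 - l1)))) + ENNReal.ofReal F *
          ENNReal.ofReal (exp (-H))) + A.indicator (fun _ => ENNReal.ofReal F) z ∂JP s n := by
          refine lintegral_mono fun z => ?_
          have y1 : exp (Y z.1) ≤ 1 := exp_le_one_iff.2 (Y0 _)
          by_cases hz : z ∈ A
          · rw [indicator_of_mem hz]
            refine le_add_left (ENNReal.ofReal_le_ofReal ?_)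
            exact (mul_le_of_le_one_left (f0 _).le y1).trans (fF _ _)
          have hz' := fun h => hz (subset_toMeasurable _ _ h)
          simp only [mem_union, mem_ofPred_eq, imp_false, not_or, not_and, not_not, not_le] at hz'
          refine le_add_right ?_
          by_cases hS : z.1 ∈ S
          · refine le_add_right (ENNReal.ofReal_le_ofReal
              ((mul_le_of_le_one_left (f0 _).le y1).trans ?_))
            have := h2.hi n k ε s K z.1 z.2 (by omega) hε hs.le hK (hz'.1 hS)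
            refine (mf (show _ ≤ -(p * (l0 - l1)) by nlinarith)).trans (le_of_eq ?_)
            rw [fE, if_pos (by nlinarith)]
          · refine le_add_left ?_
            rw [← ENNReal.ofReal_mul F0, mul_comm F]
            exact ENNReal.ofReal_le_ofReal (mul_le_mul (exp_le_exp.2 (hz'.2 hS).le) (fF _ _)
              (f0 _).le (exp_pos _).le)
      _ ≤ _ := by
          rw [lintegral_add_left measurable_const, lintegral_const, measure_univ, mul_one,
            lintegral_indicator_const mA, mul_add _ (δ₁ + δ₂), add_assoc, add_comm (_ * (δ₁ + δ₂))]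
          gcongr
  have e0 : 0 < exp (-a) * (exp (-b) * θ) := by positivity
  have a3 := meas_ge_le_lintegral_div (μ := (couplingLaw true n).prod (gv (Fin n)))
    (((meas_Tw (s := s) mG).comp Cond.measurable_Wmat).const_mul c).aemeasurable
    (ENNReal.ofReal_pos.2 e0).ne' ENNReal.ofReal_ne_top
  refine le_trans (measure_mono fun q ⟨q1, q2, q3⟩ => ?_) (a3.trans ?_)
  · rw [← covAt_Wmat q.1 q.2, CovAt, not_le] at q3
    rw [mem_ofPred_eq, Function.comp, hc, ← Tw_law mG, ENNReal.ofReal_mul (exp_pos _).le,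
      ENNReal.ofReal_mul (exp_pos _).le]
    refine mul_le_mul' (ENNReal.ofReal_le_ofReal q1) (le_trans ?_ (mul_meas_ge_le_lintegral₀
      (mG.comp measurable_prodMk_left).aemeasurable (ENNReal.ofReal (exp (-b)))))
    refine mul_le_mul_right ((ENNReal.ofReal_le_of_le_toReal q3.le).trans
      (measure_mono fun y hy => ?_)) _
    rw [mem_ofPred_eq, Tap.Cov15.tilt0] at hy
    have := mt (fun h => (h2.lo n k ε s _ y hn (by omega) hε hs.le).2 K' h hs) hy
    refine ENNReal.ofReal_le_ofReal (le_trans ?_ (mul_le_mul (exp_le_exp.2 q2)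
      (mf (show 0 ≤ _ from mul_nonneg hp (by linarith [not_le.1 this]))) (f0 _).le (exp_pos _).le))
    simp [fE]
  · rw [lintegral_const_mul _ ((meas_Tw mG).comp Cond.measurable_Wmat)]
    calc _ ≤ c * (Conc.ex (C * Aeng n k ε s p l0 B) * ∫⁻ W, Tw s G W ∂GOE n) /
          ENNReal.ofReal (exp (-a) * (exp (-b) * θ)) := by gcongr; exact a1
      _ = ENNReal.ofReal (exp (a + b + C * Aeng n k ε s p l0 B) / θ) * ∫⁻ z, G z ∂JP s n := by
          rw [mul_left_comm, hc, Tw_goe mG, Conc.ex, ENNReal.div_eq_inv_mul, ← mul_assoc,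
            ← ENNReal.ofReal_inv_of_pos e0, ← ENNReal.ofReal_mul (by positivity)]
          congr 2
          rw [exp_add, exp_add, Real.exp_neg, Real.exp_neg]; field_simp
      _ ≤ _ := by gcongr

end Crest.Agent.T157.Cw

end
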