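import Crest.Agent.T157.O7Def_64

/-!
# Row 157, block A2, section 7: the leaves `GGlue` and `G3Glue` (helper13)
-/

set_option autoImplicit false

noncomputable section

namespace Crest.Agent.T157.O7

open MeasureTheory Filter Set Matrix Real Topology
open Crest.ProbabilityR.SpinGlassDynamics
open Crest.Agent.T157.E Crest.Agent.T157.SL
open Crest.Agent.T157.Tap (Mx V GOE)
open Crest.Agent.T157.Top (Whp)
open Crest.Agent.T157.Tr (Off)
open Crest.Agent.T157.Crit (CovLe CovAt)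
open Crest.Agent.T157.Soft (N23)

namespace G13

variable {n : ℕ}

lemma covLe_mono {w : Cube n → ℝ} {K K' : ℝ} (h : CovLe w K) (hK : K ≤ K') : CovLe w K' :=
  fun u => (h u).trans (mul_le_mul_of_nonneg_right hK
    (Finset.sum_nonneg fun _ _ => mul_self_nonneg _))

lemma covAt_mono {w : Cube n → ℝ} (hw : ∀ x, 0 < w x) {r K K' p p' : ℝ} (h : CovAt w r K p)
    (hK : K ≤ K') (hp : p ≤ p') : CovAt w r K' p' := by
  have := isProb_law (φ := sv) (s := r) (Wt.of_pos hw)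
  exact le_trans (measureReal_mono (fun y hy hc => hy (covLe_mono hc hK)) (measure_ne_top _ _))
    (le_trans h hp)

lemma covAt_prob {w : Cube n → ℝ} (hw : ∑ y, w y ≠ 0) (r K p : ℝ) :
    CovAt (prob w) r K p ↔ CovAt w r K p := by
  simp only [CovAt, CovLe, law, GoeT.prob_prob' hw, GoeT.covM_tilt_prob hw]

lemma qw_prob {w : Cube n → ℝ} (hw : ∑ y, w y ≠ 0) (a b : ℝ) (k H : ℝ → ℝ) :
    QW (prob w) a b k H ↔ QW w a b k H := by
  simp only [QW, covAt_prob hw]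

lemma ising_pos (W : Mx n) (x : Cube n) : 0 < ising W 0 x := exp_pos _

/-- from the GOE completion to the couplings -/
lemma tr {ε b : ℝ} {a : ℕ → ℝ} {k H : ℕ → ℝ → ℝ}
    (h : Off GOE ε fun n W => QW (ising W 0) (a n) b (k n) (H n)) :
    Off disorderLaw ε fun n g => QW (gibbsWeight n 1 g) (a n) b (k n) (H n) := by
  refine Tr.Off.of_fst (ν := fun n => gv (Fin n)) ((Tr.Off.goe h).imp fun n p hp => ?_)
  have h1 := GoeT.prob_ising_Wmat 1 p.1 p.2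
  rw [one_smul] at h1
  rwa [← qw_prob (GoeT.sum_ising_ne _ _), h1, qw_prob (GoeT.sum_gibbs_ne 1 p.1)] at hp

/-- the quenched window of a joint bound -/
lemma win (qu : QuStmt) {a : ℕ → ℝ} {b c : ℝ} {H k : ℕ → ℝ → ℝ} (hc : 0 < c)
    (hH : ∀ᶠ n : ℕ in atTop, 0 ≤ a n ∧ ∀ t ∈ Icc (a n) b, (n : ℝ) ^ c ≤ H n t)
    (h : JB a b H fun n t W y => CovLe (ising W y) (k n t)) :
    Whp GOE fun n W => ∀ r ∈ Icc (a n) b, ∃ t ∈ Icc r b, t ≤ r + ((n : ℝ) ^ 4)⁻¹ ∧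
      CovAt (ising W 0) r ((1 + 12 / n) * k n t) (exp (-(H n t / 2)) + exp (-(n / 2))) := by
  have e : ∀ (n : ℕ) (w : Cube n → ℝ) (k : ℝ), CvB w 1 k ↔ CovLe w k := fun n w k => by
    simp only [CvB, CovLe, one_mulVec]
  have := qu a b c H k (fun _ _ => 1) hc hH (by simpa only [e] using h)
  simpa only [e, CovAt, tilt_ising, zero_add] using this

lemma N_eq (n : ℕ) : N23 n = (n : ℝ) ^ (2 / 3 : ℝ) := rfl

lemma lo_pos (d : ℝ) (hn : 0 < n) : 0 < lo d n :=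
  div_pos (rpow_pos_of_pos (by exact_mod_cast hn) _) (Soft.N23_pos hn)

lemma Mt_mono {r t : ℝ} (hr : 0 ≤ r) (h : r ≤ t) : Mt n r ≤ Mt n t :=
  mul_le_mul_of_nonneg_left (rpow_le_rpow hr h (by norm_num)) n.cast_nonneg

lemma Mt_lo {d t : ℝ} (hn : 0 < n) (ht : lo d n ≤ t) : (n : ℝ) ^ (3 * d / 2) ≤ Mt n t := by
  have n0 : (0 : ℝ) < n := by exact_mod_cast hn
  refine le_trans (le_of_eq ?_) (Mt_mono (lo_pos d hn).le ht)
  rw [Mt, lo, N_eq, ← rpow_sub n0, ← rpow_mul n0.le]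
  nth_rewrite 2 [← rpow_one (n : ℝ)]
  rw [← rpow_add n0]
  congr 1; ring

lemma ev_pow {c : ℝ} (hc : 0 < c) (A : ℝ) : ∀ᶠ n : ℕ in atTop, A ≤ (n : ℝ) ^ c :=
  ((tendsto_rpow_atTop hc).comp tendsto_natCast_atTop_atTop).eventually_ge_atTop A

lemma ev_sqrt (A : ℝ) : ∀ᶠ n : ℕ in atTop, A ≤ √n := by
  simpa only [sqrt_eq_rpow] using ev_pow (c := 1 / 2) (by norm_num) A

lemma lev {c0 e0 d : ℝ} (hc : 0 < c0) (he : 0 < e0) (hd : 0 < d) (b : ℝ) : ∀ᶠ n : ℕ in atTop,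
    0 ≤ lo d n ∧ ∀ t ∈ Icc (lo d n) b, (n : ℝ) ^ min d (1 / 2) ≤ min (c0 * Mt n t) (e0 * n) := by
  filter_upwards [eventually_gt_atTop 0, ev_pow (half_pos hd) c0⁻¹, ev_sqrt e0⁻¹] with n hn h1 h2
  have n1 : (1 : ℝ) ≤ n := by exact_mod_cast hn
  have n0 : (0 : ℝ) < n := by linarith
  refine ⟨(lo_pos d hn).le, fun t ht => le_min ?_ ?_⟩
  · refine (rpow_le_rpow_of_exponent_le n1 (min_le_left _ _)).trans ?_
    refine le_trans ?_ (mul_le_mul_of_nonneg_left (Mt_lo hn ht.1) hc.le)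
    rw [show 3 * d / 2 = d / 2 + d by ring, rpow_add n0, ← mul_assoc]
    refine le_mul_of_one_le_left (by positivity) ?_
    rwa [inv_le_iff_one_le_mul₀' hc] at h1
  · refine (rpow_le_rpow_of_exponent_le n1 (min_le_right _ _)).trans ?_
    rw [← sqrt_eq_rpow]
    rw [inv_le_iff_one_le_mul₀' he] at h2
    calc √(n : ℝ) ≤ e0 * √n * √n := le_mul_of_one_le_left (sqrt_nonneg _) h2
      _ = e0 * n := by rw [mul_assoc, mul_self_sqrt n0.le]

lemma two_exp {m x y : ℝ} (hx : m + 1 ≤ x) (hy : m + 1 ≤ y) : exp (-x) + exp (-y) ≤ exp (-m) := by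
  have h1 : exp (-x) ≤ exp (-(m + 1)) := exp_le_exp.2 (by linarith)
  have h2 : exp (-y) ≤ exp (-(m + 1)) := exp_le_exp.2 (by linarith)
  have h3 : exp (-m) = exp (-(m + 1)) * exp 1 := by rw [← exp_add]; congr 1; ring
  have h4 : (2 : ℝ) ≤ exp 1 := by linarith [add_one_le_exp (1 : ℝ)]
  have h5 := exp_pos (-(m + 1))
  nlinarith

lemma prb {c0 c1 e0 d : ℝ} (hc : 0 < c0) (h1 : c1 < c0 / 2) (he : 0 < e0) (hd : 0 < d) :
    ∀ᶠ n : ℕ in atTop, ∀ r t, lo d n ≤ r → r ≤ t →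
      exp (-(min (c0 * Mt n t) (e0 * n) / 2)) + exp (-((n : ℝ) / 2)) ≤
        exp (-min (c1 * Mt n r) √n) := by
  have δ0 : 0 < c0 / 2 - c1 := by linarith
  filter_upwards [eventually_gt_atTop 0, ev_pow (c := 3 * d / 2) (by positivity) (c0 / 2 - c1)⁻¹,
    ev_sqrt (4 / e0), ev_sqrt 4] with n hn h2 h3 h4 r t hr ht
  have n0 : (0 : ℝ) < n := by exact_mod_cast hn
  have s2 : √(n : ℝ) * √n = n := mul_self_sqrt n0.le
  have m1 := min_le_left (c1 * Mt n r) √n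
  have m2 := min_le_right (c1 * Mt n r) √n
  have a1 := Mt_lo hn hr
  have a2 : Mt n r ≤ Mt n t := Mt_mono ((lo_pos d hn).le.trans hr) ht
  rw [inv_le_iff_one_le_mul₀' δ0] at h2
  rw [div_le_iff₀' he] at h3
  have a3 : 1 ≤ (c0 / 2 - c1) * Mt n r := h2.trans (mul_le_mul_of_nonneg_left a1 δ0.le)
  have a4 : c0 * Mt n r ≤ c0 * Mt n t := mul_le_mul_of_nonneg_left a2 hc.le
  have a5 : 4 * √(n : ℝ) ≤ e0 * n := by
    calc 4 * √(n : ℝ) ≤ e0 * √n * √n := mul_le_mul_of_nonneg_right h3 (sqrt_nonneg _)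
      _ = e0 * n := by rw [mul_assoc, s2]
  have a6 : 4 * √(n : ℝ) ≤ n := by
    calc 4 * √(n : ℝ) ≤ √n * √n := mul_le_mul_of_nonneg_right h4 (sqrt_nonneg _)
      _ = n := s2
  refine two_exp ?_ (by linarith)
  rw [le_div_iff₀ two_pos]
  exact le_min (by linarith) (by linarith)

/-- gluing of the two windows -/
lemma glue2 {ε d t0 t1 : ℝ} {a a' : ℕ → ℝ} {k k' H H' kk p : ℕ → ℝ → ℝ} (hε : 0 < ε)
    (hE : Off GOE (ε / 2) fun n W => QW (ising W 0) (a n) (lo d n) (k n) (H n))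
    (hJ : Whp GOE fun n W => ∀ r ∈ Icc (lo d n) t0, ∃ t ∈ Icc r t0, t ≤ r + ((n : ℝ) ^ 4)⁻¹ ∧
      CovAt (ising W 0) r (kk n t) (p n t))
    (ht : t1 ≤ t0)
    (h : ∀ᶠ n : ℕ in atTop, a n ≤ a' n ∧ 0 < a' n ∧ ∀ r ∈ Icc (a' n) t1,
      (k n r ≤ k' n r ∧ H' n r ≤ H n r) ∧ (lo d n ≤ r → ∀ t, r ≤ t → t ≤ r + ((n : ℝ) ^ 4)⁻¹ →
        kk n t ≤ k' n r / r ∧ p n t ≤ exp (-H' n r))) :
    Off disorderLaw ε fun n g => QW (gibbsWeight n 1 g) (a' n) t1 (k' n) (H' n) := by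
  refine tr ?_
  have h1 := hE.and (Tr.off_of_whp hJ (half_pos hε)) (half_pos hε).le (half_pos hε).le
  rw [add_halves] at h1
  refine h1.mono (h.mono fun n hn W hW r hr => ?_)
  obtain ⟨h2, h3, h4⟩ := hn
  obtain ⟨h5, h6⟩ := h4 r hr
  have r0 : 0 < r := h3.trans_le hr.1
  rcases le_total r (lo d n) with h7 | h7
  · exact covAt_mono (ising_pos W) (hW.1 r ⟨h2.trans hr.1, h7⟩)
      (div_le_div_of_nonneg_right h5.1 r0.le) (exp_le_exp.2 (neg_le_neg h5.2))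
  · obtain ⟨t, h8, h9, h10⟩ := hW.2 r ⟨h7, hr.2.trans ht⟩
    obtain ⟨h11, h12⟩ := h6 h7 t h8.1 h9
    exact covAt_mono (ising_pos W) h10 h11 h12

lemma a_le (s0 : ℝ) (hn : 0 < n) : s0 / N23 n ≤ max s0 1 / N23 n ∧ 0 < max s0 1 / N23 n :=
  ⟨div_le_div_of_nonneg_right (le_max_left _ _) (Soft.N23_pos hn).le,
    div_pos (lt_max_of_lt_right one_pos) (Soft.N23_pos hn)⟩

lemma fac_le {r t k k' : ℝ} (r0 : 0 < r) (h : r ≤ t) (k0 : 0 ≤ k') (hk : (1 + 12 / (n : ℝ)) * k ≤ k') :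
    (1 + 12 / (n : ℝ)) * (k / t) ≤ k' / r := by
  rw [← mul_div_assoc]
  exact (div_le_div_of_nonneg_right hk (r0.le.trans h)).trans (div_le_div_of_nonneg_left k0 r0 h)

lemma g0 (qu : QuStmt) (j : J0) {d : ℝ} (hd : 0 < d) (e : E0 d) : G0 disorderLaw := by
  intro ε hε L
  obtain ⟨KE, s0, hE⟩ := e (ε / 2) (half_pos hε) L
  obtain ⟨K, hK⟩ := j (2 * |L| + 2)
  obtain ⟨t0, ht0, e0, he0, hJ⟩ := hK d hd
  have c0 : 0 < 2 * |L| + 2 := by positivity
  refine ⟨max KE (13 * |K|), max s0 1, t0, ht0, glue2 (k := fun _ _ => KE) hε hE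
    (win qu (lt_min hd (by norm_num)) (lev c0 he0 hd t0) hJ) le_rfl ?_⟩
  filter_upwards [eventually_gt_atTop 0, prb (c1 := L) c0 (by linarith [le_abs_self L]) he0 hd]
    with n hn hp
  have n1 : (1 : ℝ) ≤ n := by exact_mod_cast hn
  refine ⟨(a_le s0 hn).1, (a_le s0 hn).2, fun r hr => ⟨⟨le_max_left _ _, min_le_left _ _⟩,
    fun h1 t h2 _ => ⟨fac_le ((lo_pos d hn).trans_le h1) h2
      (le_max_of_le_right (by positivity)) (le_max_of_le_right ?_), hp r t h1 h2⟩⟩⟩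
  have : 12 / (n : ℝ) ≤ 12 := div_le_self (by norm_num) n1
  calc (1 + 12 / (n : ℝ)) * K ≤ (1 + 12 / (n : ℝ)) * |K| :=
        mul_le_mul_of_nonneg_left (le_abs_self K) (by positivity)
    _ ≤ 13 * |K| := mul_le_mul_of_nonneg_right (by linarith) (abs_nonneg K)

lemma g1 (qu : QuStmt) (j : J1) {d : ℝ} (hd : 0 < d) (e : E1 d) : G1 disorderLaw := by
  intro ε hε η hη
  obtain ⟨cE, hcE, s0, hE⟩ := e (ε / 2) (half_pos hε) η hη
  obtain ⟨c0, hc0, t0, ht0, e0, he0, hJ⟩ := j (η / 2) (half_pos hη) d hd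
  refine ⟨min cE (c0 / 4), lt_min hcE (by positivity), max s0 1, t0, ht0,
    glue2 (k := fun _ _ => 1 + η) hε hE
    (win qu (lt_min hd (by norm_num)) (lev hc0 he0 hd t0) hJ) le_rfl ?_⟩
  filter_upwards [eventually_gt_atTop 0, prb (c1 := min cE (c0 / 4)) hc0
    ((min_le_right _ _).trans_lt (by linarith)) he0 hd,
    tendsto_natCast_atTop_atTop.eventually_ge_atTop (12 * (1 + η / 2) / (η / 2))] with n hn hp h3
  have n0 : (0 : ℝ) < n := by exact_mod_cast hn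
  refine ⟨(a_le s0 hn).1, (a_le s0 hn).2, fun r hr => ⟨⟨le_rfl, (min_le_left _ _).trans ?_⟩,
    fun h1 t h2 _ => ⟨fac_le ((lo_pos d hn).trans_le h1) h2 (by positivity) ?_, hp r t h1 h2⟩⟩⟩
  · exact mul_le_mul_of_nonneg_right (min_le_left _ _)
      (mul_nonneg n0.le (rpow_nonneg ((a_le s0 hn).2.le.trans hr.1) _))
  · rw [div_le_iff₀ (half_pos hη)] at h3
    have : 12 / (n : ℝ) * (1 + η / 2) ≤ η / 2 := by
      rw [div_mul_eq_mul_div, div_le_iff₀ n0]; linarith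
    linarith

lemma g2 (qu : QuStmt) (j : J2) {d : ℝ} (hd : 0 < d) (e : E2 d) : G2 disorderLaw := by
  intro ε hε
  obtain ⟨cE, hcE, CE, s0, hE⟩ := e (ε / 2) (half_pos hε)
  obtain ⟨c, hc, C, t0, ht0, hJ⟩ := j d hd
  set c' : ℝ := min (min c cE) 1 with hc'
  have c0 : 0 < c' := lt_min (lt_min hc hcE) one_pos
  have c1 : c' ≤ c := (min_le_left _ _).trans (min_le_left _ _)
  have c2 : c' ≤ cE := (min_le_left _ _).trans (min_le_right _ _)
  have c3 : c' ≤ 1 := min_le_right _ _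
  have p2 : (0 : ℝ) < 2 ^ c := by positivity
  refine ⟨c', c0, |CE| + 25 + 13 * (|C| * 2 ^ c), max s0 1, min t0 1, lt_min ht0 one_pos,
    glue2 (k := fun n r => 1 + CE * (N23 n * r) ^ (-cE)) hε hE
    (win qu hc ((eventually_gt_atTop 0).mono fun n hn => ⟨(lo_pos d hn).le, fun _ _ => le_rfl⟩) hJ)
    (min_le_left _ _) ?_⟩
  filter_upwards [eventually_gt_atTop 0, ev_pow (c := c' / 3) (by positivity) 4] with n hn h4
  have n1 : (1 : ℝ) ≤ n := by exact_mod_cast hn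
  have n0 : (0 : ℝ) < n := by linarith
  have N0 := Soft.N23_pos hn
  refine ⟨(a_le s0 hn).1, (a_le s0 hn).2, fun r hr => ?_⟩
  have r0 : 0 < r := (a_le s0 hn).2.trans_le hr.1
  have r1 : r ≤ 1 := hr.2.trans (min_le_right _ _)
  have x1 : 1 ≤ N23 n * r := by
    have := hr.1
    rw [div_le_iff₀' N0] at this
    exact (le_max_right _ _).trans this
  have x2 : N23 n * r ≤ (n : ℝ) ^ (2 / 3 : ℝ) := mul_le_of_le_one_right N0.le r1
  have x0 : 0 < N23 n * r := by positivity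
  have A0 : 0 ≤ r ^ c' := by positivity
  have B0 : 0 ≤ (N23 n * r) ^ (-c') := by positivity
  have aC := abs_nonneg C
  have aE := abs_nonneg CE
  have q0 : 0 ≤ |C| * 2 ^ c := by positivity
  refine ⟨⟨?_, rpow_le_rpow_of_exponent_le x1 c2⟩, fun h1 t h2 h3 => ⟨fac_le r0 h2
    (by positivity) ?_, two_exp (m := (N23 n * r) ^ c') ?_ ?_⟩⟩
  · have b1 : (N23 n * r) ^ (-cE) ≤ (N23 n * r) ^ (-c') :=
      rpow_le_rpow_of_exponent_le x1 (by linarith)
    have b2 : CE * (N23 n * r) ^ (-cE) ≤ |CE| * (N23 n * r) ^ (-c') :=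
      (mul_le_mul_of_nonneg_right (le_abs_self CE) (by positivity)).trans
        (mul_le_mul_of_nonneg_left b1 aE)
    nlinarith [mul_nonneg aE A0, mul_nonneg q0 A0, mul_nonneg q0 B0]
  · have b0 : ((n : ℝ) ^ 4)⁻¹ ≤ r := by
      refine le_trans ?_ h1
      rw [lo, N_eq, ← rpow_sub n0, ← rpow_natCast, ← rpow_neg n0.le]
      exact rpow_le_rpow_of_exponent_le n1 (by push_cast; linarith)
    have b1 : t ^ c ≤ 2 ^ c * r ^ c' := by
      calc t ^ c ≤ (2 * r) ^ c := rpow_le_rpow (r0.le.trans h2) (by linarith) hc.le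
        _ = 2 ^ c * r ^ c := mul_rpow (by norm_num) r0.le
        _ ≤ _ := mul_le_mul_of_nonneg_left (rpow_le_rpow_of_exponent_ge r0 r1 c1) p2.le
    have b2 : (n : ℝ) ^ (-c') ≤ (N23 n * r) ^ (-c') :=
      rpow_le_rpow_of_nonpos x0 (x2.trans ((rpow_le_rpow_of_exponent_le n1 (by norm_num)).trans
        (rpow_one _).le)) (by linarith)
    have b3 : (n : ℝ) ^ (-c) ≤ (N23 n * r) ^ (-c') :=
      (rpow_le_rpow_of_exponent_le n1 (by linarith)).trans b2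
    have b4 : 12 / (n : ℝ) ≤ 12 * (N23 n * r) ^ (-c') := by
      rw [div_eq_mul_inv, ← rpow_neg_one]
      exact mul_le_mul_of_nonneg_left
        ((rpow_le_rpow_of_exponent_le n1 (by linarith)).trans b2) (by norm_num)
    have b5 : 12 / (n : ℝ) ≤ 12 := div_le_self (by norm_num) n1
    have b6 : C * t ^ c ≤ |C| * 2 ^ c * r ^ c' := by
      rw [mul_assoc]
      exact (mul_le_mul_of_nonneg_right (le_abs_self C)
        (rpow_nonneg (r0.le.trans h2) _)).trans (mul_le_mul_of_nonneg_left b1 aC)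
    have b7 : 0 ≤ 12 / (n : ℝ) := by positivity
    have b8 : 0 ≤ |C| * 2 ^ c * r ^ c' + (N23 n * r) ^ (-c') := by positivity
    calc (1 + 12 / (n : ℝ)) * (1 + C * t ^ c + (n : ℝ) ^ (-c))
        ≤ (1 + 12 / (n : ℝ)) * (1 + (|C| * 2 ^ c * r ^ c' + (N23 n * r) ^ (-c'))) :=
          mul_le_mul_of_nonneg_left (by linarith) (by linarith)
      _ ≤ 1 + 12 * (N23 n * r) ^ (-c') + 13 * (|C| * 2 ^ c * r ^ c' + (N23 n * r) ^ (-c')) := by
          nlinarith [mul_le_mul_of_nonneg_right b5 b8]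
      _ ≤ _ := by nlinarith [mul_nonneg aE A0, mul_nonneg aE B0, mul_nonneg q0 B0]
  all_goals
    have b1 : (N23 n * r) ^ c' ≤ (n : ℝ) ^ (2 * c' / 3) := by
      refine (rpow_le_rpow x0.le x2 c0.le).trans (le_of_eq ?_)
      rw [← rpow_mul n0.le]; congr 1; ring
    have b2 : (1 : ℝ) ≤ (n : ℝ) ^ (2 * c' / 3) := one_le_rpow n1 (by positivity)
    have b3 : 4 * (n : ℝ) ^ (2 * c' / 3) ≤ (n : ℝ) ^ c' := by
      calc _ ≤ (n : ℝ) ^ (c' / 3) * (n : ℝ) ^ (2 * c' / 3) :=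
            mul_le_mul_of_nonneg_right h4 (by positivity)
        _ = _ := by rw [← rpow_add n0]; congr 1; ring
    have b4 : (n : ℝ) ^ c' ≤ (n : ℝ) ^ c := rpow_le_rpow_of_exponent_le n1 c1
    have b5 : (n : ℝ) ^ c' ≤ n := (rpow_le_rpow_of_exponent_le n1 c3).trans (rpow_one _).le
    linarith

end G13

open G13

/-- **`GGlue`** -/
theorem gGlue : GGlue := fun qu j0 j1 j2 ⟨_, hd, e0, e1, e2⟩ =>
  ⟨g0 qu j0 hd e0, g1 qu j1 hd e1, g2 qu j2 hd e2⟩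

/-- **`G3Glue`** -/
theorem g3Glue : G3Glue := by
  intro cov T t0 ht0
  obtain ⟨K, ρ, hρ, κ, hκ, h⟩ := cov 1 ⟨one_pos, le_rfl⟩ t0 ht0.le (Or.inr ht0) T
  refine ⟨|K| * |T|, GoeT.transfer 1
    (fun n w => QW w t0 T (fun _ => |K| * |T|) fun _ => √n)
    (fun n w hw => qw_prob (GoeT.sum_pos hw).ne' _ _ _ _) (h.mono ?_)⟩
  filter_upwards [ev_sqrt κ⁻¹] with n hn W hW r hr
  have r0 : 0 < r := ht0.trans_le hr.1
  have := isProb_law (φ := sv) (s := r) (Wt.of_pos (ising_pos ((1 : ℝ) • W)))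
  refine le_trans (le_trans (measureReal_mono ?_ (measure_ne_top _ _)) (hW r hr))
    (exp_le_exp.2 ?_)
  · intro y hy hc
    refine hy ?_
    have h1 : CovLe (tilt (ising ((1 : ℝ) • W) 0) y) K := fun u => by
      simpa only [add_zero] using hc 0 (by rw [Eig.nrm_zero]; positivity) u
    refine covLe_mono h1 ((le_abs_self K).trans ?_)
    rw [le_div_iff₀ r0]
    exact mul_le_mul_of_nonneg_left (hr.2.trans (le_abs_self T)) (abs_nonneg K)
  · rw [inv_le_iff_one_le_mul₀' hκ] at hn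
    have : √(n : ℝ) ≤ κ * n := by
      calc √(n : ℝ) ≤ κ * √n * √n := le_mul_of_one_le_left (sqrt_nonneg _) hn
        _ = κ * n := by rw [mul_assoc, mul_self_sqrt n.cast_nonneg]
    linarith

end Crest.Agent.T157.O7

end
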