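import Crest.Agent.T157.CtAll_63
import Crest.Agent.T157.CpDef_72
import Crest.Agent.T157.LlInst_18
import Crest.Agent.T157.O7G_13

/-!
# Row 157, coin windows (helper63): the quenched windows for coins above the edge
-/

set_option autoImplicit false

noncomputable section

namespace Crest.Agent.T157.Cw

open MeasureTheory Matrix Set Function Real Filter Topology
open scoped ENNReal
open Crest.ProbabilityR.SpinGlassDynamics
open Crest.Agent.T157.E Crest.Agent.T157.Crit Crest.Agent.T157.SL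
open Crest.Agent.T157.Qe (V Mx)
open Crest.Agent.T157.Top (Whp)
open Crest.Agent.T157.Ks.St0 (JP PW PW_le)
open Crest.Agent.T157.O7 (Mt lo QW)
open Crest.Agent.T157.O7.G13

namespace Pen63

lemma ev_mul {a c : ℝ} (ha : 0 < a) (hc : 0 < c) (A : ℝ) :
    ∀ᶠ n : ℕ in atTop, A ≤ a * (n : ℝ) ^ c :=
  (((tendsto_rpow_atTop hc).comp tendsto_natCast_atTop_atTop).const_mul_atTop
    ha).eventually_ge_atTop A

lemma ev_lt {x y : ℝ} (h : x < y) {a : ℝ} (ha : 0 < a) (A : ℝ) :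
    ∀ᶠ n : ℕ in atTop, A * (n : ℝ) ^ x ≤ a * (n : ℝ) ^ y := by
  filter_upwards [ev_mul ha (sub_pos.2 h) A, eventually_gt_atTop 0] with n h1 hn
  have n0 : (0 : ℝ) < n := by exact_mod_cast hn
  calc _ ≤ a * (n : ℝ) ^ (y - x) * (n : ℝ) ^ x := by gcongr
    _ = _ := by rw [mul_assoc, ← rpow_add n0, sub_add_cancel]

lemma ev_log {c : ℝ} (hc : 0 < c) {a : ℝ} (ha : 0 < a) :
    ∀ᶠ n : ℕ in atTop, log n ≤ a * (n : ℝ) ^ c := by
  filter_upwards [tendsto_natCast_atTop_atTop.eventually ((isLittleO_log_rpow_atTop hc).bound ha)]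
    with n h
  rw [Real.norm_eq_abs, Real.norm_of_nonneg (by positivity)] at h
  exact (le_abs_self _).trans h

lemma ev_lo {d τ : ℝ} (hd : d < 2 / 3) (hτ : 0 < τ) : ∀ᶠ n : ℕ in atTop, lo d n ≤ τ := by
  filter_upwards [ev_lt hd hτ 1, eventually_gt_atTop 0] with n h hn
  rw [lo, div_le_iff₀ (Soft.N23_pos hn), N_eq]; linarith

lemma Mt_nn (n : ℕ) {t : ℝ} (ht : 0 ≤ t) : 0 ≤ Mt n t := mul_nonneg n.cast_nonneg (rpow_nonneg ht _)

lemma lt_zero {ι : Type} [Fintype ι] [DecidableEq ι] {B : ℝ} (hB : 0 ≤ B) :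
    LT B fun _ : ι → ℝ => 0 :=
  ⟨measurable_const, fun _ _ => 0, fun _ => measurable_const, fun _ _ => le_rfl,
    fun _ => by simpa using hB, fun _ _ => ⟨contDiff_const, fun j hj => by
      simp [dv, zero_pow (show j ≠ 0 by have := hj.1; omega)]⟩⟩

end Pen63

open Pen63

variable (h1 : EngStmt) (h2 : LmStmt) (h3 : AlgStmt) (hP : Cp.PenStmt) (hF : Cp.FineStmt)
include h1 h2 h3

include hP hF in
/-- transfer on the spectral event -/
theorem pen63 {κ d c : ℝ} (hκ : 0 < κ) (hd : 0 < d) (d1 : d < 2 / 3) (hc : 0 < c) (c1 : c ≤ 1) :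
    ∃ ζ > (0 : ℝ), ∀ (b τ L : ℝ) (e : ℕ → ℝ) (H k η : ℕ → ℝ → ℝ), 0 < τ → τ ≤ 1 →
    (∀ᶠ n : ℕ in atTop, (n : ℝ) ^ (-ζ) ≤ e n ∧ e n ≤ 1 / 4 ∧ ∀ t ∈ Icc (lo d n) b,
      (n : ℝ) ^ c ≤ H n t ∧ (n : ℝ) ^ (-(c / 100)) ≤ η n t ∧ η n t ≤ 1 ∧ 1 ≤ k n t ∧
      k n t * H n t * (n : ℝ) ^ c ≤ n * min t τ ∧ H n t ≤ L * Mt n (min t τ) ∧
      JP t n {z | WW (min t τ) (e n) κ z.1 ∧ ¬ CovLe (ising z.1 z.2) (k n t / t)} ≤
        ENNReal.ofReal (exp (-H n t))) →
    Whp (couplingLaw true) fun n g => ∀ r ∈ Icc (lo d n) b, ∃ t ∈ Icc r b,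
      t ≤ r + ((n : ℝ) ^ 8)⁻¹ ∧ CovAt (gibbsWeight n 1 g) r ((1 + 7 * η n t) * k n t / t)
        (exp (-(H n t / 2)) + exp (-(n : ℝ))) := by
  obtain ⟨ζ, ζ0, a, a0, hP⟩ := hP κ hκ d hd (c / 2) (half_pos hc)
  refine ⟨min ζ (c / 4), by positivity, fun b τ L e H k η τ0 τ1 h => ?_⟩
  let R : ∀ n : ℕ, ℝ → (Mx n → ℝ) → Prop := fun n t Y => Measurable Y ∧ (∀ W, Y W ≤ 0) ∧
    (∀ dd, LT ((n : ℝ) ^ (c / 2)) fun g => Y (Wmat n g dd)) ∧
    (∀ W, Cp.Fine ζ W → -(3 * log n) ≤ Y W) ∧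
    Qe.GOE n {W | ¬ WW (min t τ) (e n) κ W ∧ -(3 * H n t) ≤ Y W} ≤ Conc.ex (-(3 * H n t))
  have hR : ∀ᶠ n : ℕ in atTop, ∀ t ∈ Icc (lo d n) b, R n t (Classical.epsilon (R n t)) := by
    filter_upwards [hP, h, ev_lo d1 τ0, ev_mul a0 (show 0 < c / 4 by positivity) 3,
      ev_pow ζ0 (3 * L), eventually_gt_atTop 0] with n p1 ⟨e1, e2, p2⟩ p3 p4 p5 hn t ht
    obtain ⟨q1, -, -, q4, q5, q6, -⟩ := p2 t ht
    have n1 : (1 : ℝ) ≤ n := by exact_mod_cast hn
    have n0 : (0 : ℝ) < n := by linarith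
    have s1 : lo d n ≤ min t τ := le_min ht.1 p3
    have s0 := (lo_pos d hn).le.trans s1
    have H0 : 0 ≤ H n t := (rpow_nonneg n0.le _).trans q1
    refine Classical.epsilon_spec (p1 _ _ _ s1 ((min_le_right _ _).trans τ1)
      ((rpow_le_rpow_of_exponent_le n1 (neg_le_neg (min_le_left _ _))).trans e1) e2
      (by positivity) ?_ ?_)
    · have b1 : (n : ℝ) ^ (-(c / 4)) ≤ e n :=
        (rpow_le_rpow_of_exponent_le n1 (neg_le_neg (min_le_right _ _))).trans e1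
      have b2 : H n t * (n : ℝ) ^ c ≤ n * min t τ := by
        refine le_trans ?_ q5
        rw [mul_assoc]
        exact le_mul_of_one_le_left (by positivity) q4
      have b3 : 0 ≤ e n := (rpow_nonneg n0.le _).trans b1
      calc 3 * H n t ≤ a * (n : ℝ) ^ (c / 4) * H n t := by gcongr
        _ = a * ((n : ℝ) ^ (-(c / 4))) ^ 3 * (H n t * (n : ℝ) ^ c) := by
            rw [← rpow_natCast, ← rpow_mul n0.le, mul_comm (H n t), ← mul_assoc, mul_assoc a _ (_ ^ c),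
              ← rpow_add n0]
            congr 3; push_cast; ring
        _ ≤ a * e n ^ 3 * (n * min t τ) := by gcongr
        _ = _ := by ring
    · calc 3 * H n t ≤ 3 * L * Mt n (min t τ) := by linarith
        _ ≤ _ := mul_le_mul_of_nonneg_right p5 (Mt_nn n s0)
  refine all63 h1 h2 h3 (lo d) b c H k η (fun n t => Classical.epsilon (R n t))
    (fun n t => {W | WW (min t τ) (e n) κ W}) hc c1 ?_ ?_
  · filter_upwards [hR, h, eventually_ge_atTop 2, ev_log hc (show (0 : ℝ) < 1 / 4 by norm_num)]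
      with n p1 ⟨_, _, p2⟩ hn p3
    have n2 : (2 : ℝ) ≤ n := by exact_mod_cast hn
    refine ⟨lo_pos d (by omega), fun t ht => ?_⟩
    obtain ⟨q1, q2, q3, q4, q5, -, q7⟩ := p2 t ht
    obtain ⟨r1, r2, r3, -, r5⟩ := p1 t ht
    have H0 : 0 ≤ H n t := (rpow_nonneg n.cast_nonneg _).trans q1
    refine ⟨q1, q2, q3, q4, q5.trans (by gcongr; exact min_le_left _ _), r1, r2, r3, q7,
      le_trans (measure_mono fun W hW => ?_) ((PW_le _ (exp_pos (3 * H n t / 2))).trans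
        ((add_le_add (mul_le_mul_right r5 _) le_rfl).trans ?_))⟩
    · exact ⟨hW.1, le_trans (by linarith) hW.2⟩
    rw [Conc.ex, ← ENNReal.ofReal_mul (exp_pos _).le, ← ENNReal.ofReal_add (by positivity)
      (by positivity), ← exp_add, div_eq_mul_inv (_ + 1), ← Real.exp_neg,
      show 3 * H n t / 2 + -(3 * H n t) = -(3 * H n t / 2) by ring, ← one_add_mul,
      show -H n t = H n t / 2 + -(3 * H n t / 2) by ring, exp_add]
    refine ENNReal.ofReal_le_ofReal (mul_le_mul_of_nonneg_right ?_ (exp_pos _).le)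
    calc 1 + ((n : ℝ) + 1) ≤ (n : ℝ) ^ 2 := by nlinarith
      _ = exp (2 * log n) := by rw [two_mul, exp_add, exp_log (by linarith), sq]
      _ ≤ _ := exp_le_exp.2 (by linarith)
  · obtain ⟨x, x0, hx⟩ := (hF ζ ζ0).wmat
    have : Whp CG fun n q => Cp.Fine ζ (Wmat n q.1 q.2) := Top.whp_iff.2 fun ε hε => by
      filter_upwards [hx, (tendsto_exp_neg_atTop_nhds_zero.comp ((tendsto_rpow_atTop x0).comp
        tendsto_natCast_atTop_atTop)).eventually (ge_mem_nhds hε)] with n p1 p2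
      exact (p1 true ()).trans (ENNReal.ofReal_le_ofReal p2)
    refine this.mono ?_
    filter_upwards [hR, h, ev_log hc (show (0 : ℝ) < 1 / 24 by norm_num)] with n p1 ⟨_, _, p2⟩ p3
      q hq t ht
    have := (p1 t ht).2.2.2.1 _ hq
    have := (p2 t ht).1
    linarith

omit h1 h2 h3 in
lemma Pen63.prb {L d d' : ℝ} (hL : 0 < L) (hd : 0 < d) (hd' : 0 < d') (d1 : d' < 1) :
    ∀ᶠ n : ℕ in atTop, ∀ r t, lo d n ≤ r → r ≤ t →
      exp (-(min (L * Mt n t) (4 * (n : ℝ) ^ (1 - d')) / 2)) + exp (-(n : ℝ)) ≤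
        exp (-min (L / 4 * Mt n r) ((n : ℝ) ^ (1 - d'))) := by
  filter_upwards [eventually_gt_atTop 0, ev_mul (show 0 < L / 4 by positivity)
    (show 0 < 3 * d / 2 by positivity) 1, ev_lt (show 1 - d' < 1 by linarith) one_pos 2]
    with n hn p1 p2 r t hr ht
  have n1 : (1 : ℝ) ≤ n := by exact_mod_cast hn
  have a1 := Mt_lo hn hr
  have a2 : Mt n r ≤ Mt n t := Mt_mono ((lo_pos d hn).le.trans hr) ht
  have a3 : 1 ≤ L / 4 * Mt n r := p1.trans (by gcongr)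
  have a4 : L * Mt n r ≤ L * Mt n t := by gcongr
  have a5 : 1 ≤ (n : ℝ) ^ (1 - d') := one_le_rpow n1 (by linarith)
  have m1 := min_le_left (L / 4 * Mt n r) ((n : ℝ) ^ (1 - d'))
  have m2 := min_le_right (L / 4 * Mt n r) ((n : ℝ) ^ (1 - d'))
  rw [rpow_one] at p2
  refine two_exp ?_ (by linarith)
  rw [le_div_iff₀ two_pos]
  exact le_min (by linarith) (by linarith)

include hP hF in
/-- constant tolerance, constant bound -/
theorem qc63 {κ d d' e τ b L K η e0 : ℝ} (hκ : 0 < κ) (hd : 0 < d) (d1 : d < 2 / 3) (hd' : 0 < d')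
    (d2 : d' < 1) (he : 0 < e) (e1 : e ≤ 1 / 4) (τ0 : 0 < τ) (τ1 : τ ≤ 1) (hL : 0 < L) (K1 : 1 ≤ K)
    (η0 : 0 < η) (η1 : η ≤ 1) (he0 : 0 < e0)
    (h : ∀ᶠ n : ℕ in atTop, ∀ t ∈ Icc (lo d n) b,
      JP t n {z | WW (min t τ) e κ z.1 ∧ ¬ CovLe (ising z.1 z.2) (K / t)} ≤
        ENNReal.ofReal (exp (-min (L * Mt n t) (e0 * n)))) :
    Whp (couplingLaw true) fun n g => QW (gibbsWeight n 1 g) (lo d n) b (fun _ => (1 + 7 * η) * K)
      fun r => min (L / 4 * Mt n r) ((n : ℝ) ^ (1 - d')) := by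
  obtain ⟨c, c0, c1, c2, c3⟩ : ∃ c > (0 : ℝ), c ≤ d ∧ c ≤ d' / 4 ∧ c ≤ 1 - d' :=
    ⟨min d (min (d' / 4) (1 - d')), lt_min hd (lt_min (by positivity) (by linarith)),
      min_le_left _ _, (min_le_right _ _).trans (min_le_left _ _),
      (min_le_right _ _).trans (min_le_right _ _)⟩
  obtain ⟨ζ, ζ0, hζ⟩ := pen63 h1 h2 h3 hP hF hκ hd d1 c0 (by linarith)
  have L1 := le_max_right L 1
  refine (hζ b τ (max L 1) (fun _ => e) (fun n t => min (L * Mt n t) (4 * (n : ℝ) ^ (1 - d')))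
    (fun _ _ => K) (fun _ _ => η) τ0 τ1 ?_).mono ?_
  · filter_upwards [h, eventually_gt_atTop 0, ev_lt (neg_lt_zero.2 ζ0) he 1,
      ev_lt (show -(c / 100) < 0 by linarith) η0 1, ev_lt (show c < 3 * d / 2 by linarith) hL 1,
      ev_lt (show 1 - d' < 1 by linarith) he0 4,
      ev_lt (show 1 - d' < 1 by linarith) (rpow_pos_of_pos τ0 (3 / 2)) 4,
      ev_lt (show 3 * c + (1 - d') < 1 by linarith) one_pos (4 * K ^ 3 * max L 1 ^ 2)]
      with n p0 hn p1 p2 p3 p4 p5 p6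
    have n1 : (1 : ℝ) ≤ n := by exact_mod_cast hn
    have n0 : (0 : ℝ) < n := by linarith
    simp only [rpow_zero, rpow_one, one_mul, mul_one] at p1 p2 p3 p4 p5 p6
    refine ⟨p1, e1, fun t ht => ?_⟩
    have t0 := (lo_pos d hn).trans_le ht.1
    have s0 := lt_min t0 τ0
    have m1 := min_le_left (L * Mt n t) (4 * (n : ℝ) ^ (1 - d'))
    have m2 := min_le_right (L * Mt n t) (4 * (n : ℝ) ^ (1 - d'))
    have a0 : (n : ℝ) ^ c ≤ min (L * Mt n t) (4 * (n : ℝ) ^ (1 - d')) := by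
      refine le_min (p3.trans (by gcongr; exact Mt_lo hn ht.1)) ?_
      have := rpow_le_rpow_of_exponent_le n1 c3
      have : 0 ≤ (n : ℝ) ^ (1 - d') := by positivity
      linarith
    set H := min (L * Mt n t) (4 * (n : ℝ) ^ (1 - d'))
    have H0 : 0 ≤ H := (rpow_nonneg n0.le _).trans a0
    have a1 : H ≤ max L 1 * Mt n (min t τ) := by
      rcases le_total t τ with h | h
      · rw [min_eq_left h]
        exact m1.trans (mul_le_mul_of_nonneg_right (le_max_left _ _) (Mt_nn n t0.le))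
      · rw [min_eq_right h]
        exact (m2.trans (p5.trans_eq (mul_comm _ _))).trans
          (le_mul_of_one_le_left (Mt_nn n τ0.le) L1)
    refine ⟨a0, p2, η1, K1, le_of_pow_le_pow_left₀ three_ne_zero (by positivity) ?_, a1,
      (p0 t ht).trans (ENNReal.ofReal_le_ofReal (exp_le_exp.2 (neg_le_neg
        (min_le_min le_rfl p4))))⟩
    have a2 : Mt n (min t τ) ^ 2 = (n : ℝ) ^ 2 * min t τ ^ 3 := by
      rw [Mt, mul_pow, ← rpow_natCast (_ ^ _), ← rpow_mul s0.le, ← rpow_natCast _ 3]; norm_num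
    calc (K * H * (n : ℝ) ^ c) ^ 3 = K ^ 3 * (H ^ 2 * H) * ((n : ℝ) ^ c) ^ 3 := by ring
      _ ≤ K ^ 3 * ((max L 1 * Mt n (min t τ)) ^ 2 * (4 * (n : ℝ) ^ (1 - d'))) *
          ((n : ℝ) ^ c) ^ 3 := by gcongr
      _ = 4 * K ^ 3 * max L 1 ^ 2 * (n : ℝ) ^ (3 * c + (1 - d')) * ((n : ℝ) ^ 2 * min t τ ^ 3) := by
          have : (n : ℝ) ^ (3 * c + (1 - d')) = ((n : ℝ) ^ c) ^ 3 * (n : ℝ) ^ (1 - d') := by
            rw [rpow_add n0, mul_comm 3 c, rpow_mul n0.le, rpow_ofNat]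
          rw [mul_pow, a2, this]; ring
      _ ≤ n * ((n : ℝ) ^ 2 * min t τ ^ 3) := by gcongr
      _ = _ := by ring
  · filter_upwards [prb hL hd hd' d2, eventually_gt_atTop 0] with n p hn g hg r hr
    obtain ⟨t, ht, -, h⟩ := hg r hr
    exact covAt_mono (gibbsWeight_pos 1 g) h (div_le_div_of_nonneg_left (by positivity)
      ((lo_pos d hn).trans_le hr.1) ht.1) (p r t hr.1 ht.1)

/-- macroscopic times -/
theorem q463 {s T K e0 d' : ℝ} (hs : 0 < s) (he0 : 0 < e0) (hd' : 0 < d') (d2 : d' < 1)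
    (h : ∀ᶠ n : ℕ in atTop, ∀ t ∈ Icc s T,
      JP t n {z | ¬ CovLe (ising z.1 z.2) K} ≤ ENNReal.ofReal (exp (-(e0 * n)))) :
    Whp (couplingLaw true) fun n g => QW (gibbsWeight n 1 g) s T
      (fun _ => 8 * max (|K| * |T|) 1) fun _ => (n : ℝ) ^ (1 - d') := by
  obtain ⟨c, c0, c2, c3⟩ : ∃ c > (0 : ℝ), c ≤ d' / 4 ∧ c ≤ 1 - d' :=
    ⟨min (d' / 4) (1 - d'), lt_min (by positivity) (by linarith), min_le_left _ _, min_le_right _ _⟩
  have K1 := le_max_right (|K| * |T|) 1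
  refine (all63 h1 h2 h3 (fun _ => s) T c (fun n _ => 4 * (n : ℝ) ^ (1 - d'))
    (fun _ _ => max (|K| * |T|) 1) (fun _ _ => 1) (fun _ _ _ => 0) (fun _ _ => univ) c0
    (by linarith) ?_ (Top.whp_of_eventually (.of_forall fun n _ _ _ => neg_nonpos.2
      (by positivity)))).mono ?_
  · filter_upwards [h, eventually_gt_atTop 0, ev_lt (show 1 - d' < 1 by linarith) he0 4,
      ev_lt (show 1 - d' + c < 1 by linarith) hs (max (|K| * |T|) 1 * 4)] with n p0 hn p1 p2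
    have n1 : (1 : ℝ) ≤ n := by exact_mod_cast hn
    have n0 : (0 : ℝ) < n := by linarith
    rw [rpow_one] at p1 p2
    refine ⟨hs, fun t ht => ⟨?_, rpow_le_one_of_one_le_of_nonpos n1 (by linarith), le_rfl, K1, ?_,
      measurable_const, fun _ => le_rfl, fun _ => lt_zero (by positivity),
      le_trans (measure_mono fun z hz hc => hz.2 (covLe_mono hc ?_)) ((p0 t ht).trans
        (ENNReal.ofReal_le_ofReal (exp_le_exp.2 (neg_le_neg p1)))), by simp⟩⟩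
    · have := rpow_le_rpow_of_exponent_le n1 c3
      have : 0 ≤ (n : ℝ) ^ (1 - d') := by positivity
      linarith
    · rw [rpow_add n0] at p2
      calc _ ≤ s * n := by linarith
        _ ≤ _ := by rw [mul_comm]; gcongr; exact ht.1
    · rw [le_div_iff₀ (hs.trans_le ht.1)]
      refine le_trans ?_ (le_max_left _ _)
      exact mul_le_mul (le_abs_self _) (ht.2.trans (le_abs_self _)) (hs.le.trans ht.1) (abs_nonneg _)
  · filter_upwards [eventually_gt_atTop 0, ev_lt (show 1 - d' < 1 by linarith) one_pos 2]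
      with n hn p g hg r hr
    have n1 : (1 : ℝ) ≤ n := by exact_mod_cast hn
    have a5 : 1 ≤ (n : ℝ) ^ (1 - d') := one_le_rpow n1 (by linarith)
    rw [rpow_one] at p
    obtain ⟨t, ht, -, h⟩ := hg r hr
    refine covAt_mono (gibbsWeight_pos 1 g) h ?_ (two_exp (by linarith) (by linarith))
    rw [show (1 + 7 * 1 : ℝ) = 8 by norm_num]
    exact div_le_div_of_nonneg_left (by positivity) (hs.trans_le hr.1) ht.1

include hP hF in
/-- power errors -/
theorem q263 {κ d d1 : ℝ} (hκ : 0 < κ) (hd : 0 < d) (d2 : d < 2 / 3) (hd1 : 0 < d1)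
    (h : ∀ ζ > (0 : ℝ), ∃ c > (0 : ℝ), ∃ τ ∈ Ioc (0 : ℝ) 1, ∃ t0 > (0 : ℝ), ∀ᶠ n : ℕ in atTop,
      ∀ t ∈ Icc (lo d n) t0, JP t n {z | WW (min t τ) ((n : ℝ) ^ (-ζ)) κ z.1 ∧
        ¬ CovLe (ising z.1 z.2) ((1 + t ^ c + (n : ℝ) ^ (-c)) / t)} ≤
          ENNReal.ofReal (exp (-(n : ℝ) ^ d1))) :
    ∃ c ∈ Ioc (0 : ℝ) 1, ∃ t0 ∈ Ioc (0 : ℝ) 1, Whp (couplingLaw true) fun n g =>
      QW (gibbsWeight n 1 g) (lo d n) t0 (fun r => 1 + 22 * (r ^ c + (n : ℝ) ^ (-c)))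
        fun _ => (n : ℝ) ^ c := by
  obtain ⟨c, c0, c1, c2, c3⟩ : ∃ c > (0 : ℝ), c ≤ d ∧ c ≤ d1 ∧ c ≤ 1 / 10 :=
    ⟨min d (min d1 (1 / 10)), by positivity, min_le_left _ _,
      (min_le_right _ _).trans (min_le_left _ _), (min_le_right _ _).trans (min_le_right _ _)⟩
  obtain ⟨ζ, ζ0, hζ⟩ := pen63 h1 h2 h3 hP hF hκ hd d2 c0 (by linarith)
  obtain ⟨x, x0, τ, ⟨τ0, τ1⟩, t0, t00, h⟩ := h ζ ζ0
  obtain ⟨y, y0, y1, y2⟩ : ∃ y > (0 : ℝ), y ≤ x ∧ y ≤ c / 100 :=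
    ⟨min x (c / 100), by positivity, min_le_left _ _, min_le_right _ _⟩
  refine ⟨y, ⟨y0, by linarith⟩, min t0 1, ⟨by positivity, min_le_right _ _⟩,
    (hζ (min t0 1) τ 1 (fun n => (n : ℝ) ^ (-ζ)) (fun n _ => (n : ℝ) ^ c)
      (fun n t => 1 + t ^ y + (n : ℝ) ^ (-y)) (fun n _ => (n : ℝ) ^ (-(c / 100))) τ0 τ1 ?_).mono ?_⟩
  · filter_upwards [h, eventually_gt_atTop 0, ev_lt (neg_lt_zero.2 ζ0) (show (0 : ℝ) < 1 / 4 by norm_num) 1,
      ev_lo d2 τ0, ev_lt (show c + c < 1 + (d - 2 / 3) by linarith) one_pos 3] with n p0 hn p1 p2 p3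
    have n1 : (1 : ℝ) ≤ n := by exact_mod_cast hn
    have n0 : (0 : ℝ) < n := by linarith
    refine ⟨le_rfl, by simpa using p1, fun t ht => ?_⟩
    have t0' := (lo_pos d hn).trans_le ht.1
    have t1 := ht.2.trans (min_le_right _ _)
    have s1 : lo d n ≤ min t τ := le_min ht.1 p2
    have a1 : t ^ y ≤ 1 := rpow_le_one t0'.le t1 y0.le
    have a2 : (n : ℝ) ^ (-y) ≤ 1 := rpow_le_one_of_one_le_of_nonpos n1 (by linarith)
    have a3 : 0 ≤ t ^ y := by positivity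
    have a4 : 0 ≤ (n : ℝ) ^ (-y) := by positivity
    refine ⟨le_rfl, le_rfl, rpow_le_one_of_one_le_of_nonpos n1 (by linarith), by linarith, ?_, ?_,
      le_trans (measure_mono ?_)
        ((p0 t ⟨ht.1, ht.2.trans (min_le_left _ _)⟩).trans (ENNReal.ofReal_le_ofReal
          (exp_le_exp.2 (neg_le_neg (rpow_le_rpow_of_exponent_le n1 c2)))))⟩
    · rw [rpow_add n0, rpow_add n0, rpow_one, rpow_sub n0, one_mul] at p3
      calc _ ≤ 3 * (n : ℝ) ^ c * (n : ℝ) ^ c := by gcongr; linarith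
        _ ≤ n * lo d n := by rw [mul_assoc]; exact p3
        _ ≤ _ := by gcongr
    · rw [one_mul]
      exact (rpow_le_rpow_of_exponent_le n1 (by linarith)).trans (Mt_lo hn s1)
    · intro z hz
      refine ⟨hz.1, fun hc => hz.2 (covLe_mono hc ?_)⟩
      have := rpow_le_rpow_of_exponent_ge t0' t1 y1
      have := rpow_le_rpow_of_exponent_le n1 (neg_le_neg y1)
      exact div_le_div_of_nonneg_right (by linarith) t0'.le
  · filter_upwards [eventually_gt_atTop 0, ev_lt (show y < c by linarith) one_pos 4]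
      with n hn p g hg r hr
    have n1 : (1 : ℝ) ≤ n := by exact_mod_cast hn
    have n0 : (0 : ℝ) < n := by linarith
    obtain ⟨t, ht, h8, h⟩ := hg r hr
    have r0 := (lo_pos d hn).trans_le hr.1
    have t1 := ht.2.trans (min_le_right _ _)
    have b0 : 1 ≤ (n : ℝ) ^ y := one_le_rpow n1 y0.le
    have b1 : (n : ℝ) ^ c ≤ n := (rpow_le_rpow_of_exponent_le n1 (by linarith)).trans (rpow_one _).le
    refine covAt_mono (gibbsWeight_pos 1 g) h ((div_le_div_of_nonneg_right ?_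
      (r0.le.trans ht.1)).trans (div_le_div_of_nonneg_left (by positivity) r0 ht.1))
      (two_exp (by linarith) (by linarith))
    have a0 : ((n : ℝ) ^ 8)⁻¹ ≤ r := by
      refine le_trans ?_ hr.1
      rw [lo, N_eq, ← rpow_sub n0, ← rpow_natCast, ← rpow_neg n0.le]
      exact rpow_le_rpow_of_exponent_le n1 (by push_cast; linarith)
    have a1 : t ^ y ≤ 2 * r ^ y := by
      calc t ^ y ≤ (2 * r) ^ y := rpow_le_rpow (r0.le.trans ht.1) (by linarith) y0.le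
        _ = 2 ^ y * r ^ y := mul_rpow (by norm_num) r0.le
        _ ≤ _ := by
            gcongr
            exact (rpow_le_rpow_of_exponent_le one_le_two (by linarith)).trans (rpow_one _).le
    have a2 : t ^ y ≤ 1 := rpow_le_one (r0.le.trans ht.1) t1 y0.le
    have a3 : (n : ℝ) ^ (-y) ≤ 1 := rpow_le_one_of_one_le_of_nonpos n1 (by linarith)
    have a4 : (n : ℝ) ^ (-(c / 100)) ≤ (n : ℝ) ^ (-y) := rpow_le_rpow_of_exponent_le n1 (by linarith)
    have a5 : 0 ≤ (n : ℝ) ^ (-(c / 100)) := by positivity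
    have a6 : 0 ≤ r ^ y := by positivity
    nlinarith

end Crest.Agent.T157.Cw

end
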