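import Crest.Agent.T157.Top_97
import Crest.Agent.T157.ChainHB_22

/-!
# Row 157: cutoff of the product chain (`β = 0`) (helper10)

The heat-bath semigroup of the constant weight is the product of the one-site semigroups:
`P_t(x, y) = ∏ (1 + e^{-t} x_i y_i) / 2`.  Upper bound by the `L²` distance, lower bound by the
Hellinger affinity.
-/

set_option autoImplicit false

noncomputable section

namespace Crest.Agent.T157.Cut0

open Finset Matrix Filter Topology
open Crest.ProbabilityR.SpinGlassDynamics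
open Crest.Agent.T157.E (Cube prob siteM hbCt spin_mul_self)
open Crest.Agent.T157.Chain22

theorem H_eigen {Ω : Type*} [Fintype Ω] [DecidableEq Ω] (c : RC Ω) {f : Ω → ℝ} {a : ℝ}
    (h : c.P *ᵥ f = a • f) (t : ℝ) (x : Ω) :
    (c.H t *ᵥ f) x = Real.exp (-(t * (1 - a))) * f x := by
  have hk : ∀ k : ℕ, (c.P ^ k) *ᵥ f = a ^ k • f := fun k => by
    induction k with
    | zero => simp
    | succ k ih => rw [pow_succ, ← mulVec_mulVec, h, mulVec_smul, ih, smul_smul, pow_succ']
  have h1 := c.hasSum_H_mulVec t f x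
  have h2 := (hasSum_poi_pow t a).mul_right (f x)
  simp only [hk, Pi.smul_apply, smul_eq_mul, ← mul_assoc] at h1
  exact h1.unique h2

variable {n : ℕ}

/-- the constant weight -/
def w0 (n : ℕ) : Cube n → ℝ := fun _ => 1

theorem w0_pos (x : Cube n) : 0 < w0 n x := one_pos

theorem gibbsWeight_zero (g : Pair n → ℝ) : gibbsWeight n 0 g = w0 n := by
  funext x; simp [gibbsWeight, w0]

theorem sum_prod_cube (F : Fin n → Bool → ℝ) :
    ∑ y : Cube n, ∏ i, F i (y i) = ∏ i, (F i true + F i false) := by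
  have := Finset.prod_univ_sum (fun _ : Fin n => (univ : Finset Bool)) F
  rw [Fintype.piFinset_univ] at this
  rw [← this]
  exact prod_congr rfl fun i _ => by simp

theorem prob_w0 (y : Cube n) : prob (w0 n) y = ∏ _i : Fin n, (1 / 2 : ℝ) := by
  simp [prob, w0]

/-- characters of the cube -/
def chi (S : Finset (Fin n)) (x : Cube n) : ℝ := ∏ i ∈ S, spin (x i)

theorem siteM_chi (S : Finset (Fin n)) (i : Fin n) (x : Cube n) :
    siteM (w0 n) (chi S) i x = if i ∈ S then 0 else chi S x := by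
  simp only [siteM, w0, one_mul]
  split_ifs with hi
  · have e : ∀ b, chi S (Function.update x i b) = spin b * ∏ j ∈ S.erase i, spin (x j) := by
      intro b
      rw [chi, ← mul_prod_erase S _ hi, Function.update_self]
      congr 1
      exact prod_congr rfl fun j hj => by rw [Function.update_of_ne (ne_of_mem_erase hj)]
    rw [e, e]; simp [spin]
  · have e : ∀ b, chi S (Function.update x i b) = chi S x := fun b =>
      prod_congr rfl fun j hj => by
        rw [Function.update_of_ne (fun h : j = i => hi (h ▸ hj))]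
    rw [e, e]; ring

theorem P_chi (hn : 0 < n) (S : Finset (Fin n)) :
    (hbRC hn (w0_pos (n := n))).P *ᵥ chi S = (1 - (S.card : ℝ) / n) • chi S := by
  have hn' : (n : ℝ) ≠ 0 := by exact_mod_cast hn.ne'
  rw [hbRC_mulVec]
  funext x
  simp only [Pi.smul_apply, Finset.sum_apply, smul_eq_mul, siteM_chi]
  have : ∑ i : Fin n, (if i ∈ S then 0 else chi S x) =
      ∑ i : Fin n, (chi S x - if i ∈ S then chi S x else 0) :=
    sum_congr rfl fun i _ => by split_ifs <;> simp
  rw [this, sum_sub_distrib, sum_ite_mem, univ_inter]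
  simp only [sum_const, card_univ, Fintype.card_fin, nsmul_eq_mul]
  field_simp

theorem sg_chi (hn : 0 < n) (t : ℝ) (S : Finset (Fin n)) (x : Cube n) :
    ∑ y, hbCt (w0 n) t x y * chi S y = ∏ i ∈ S, (Real.exp (-t) * spin (x i)) := by
  have hn' : (n : ℝ) ≠ 0 := by exact_mod_cast hn.ne'
  have h := H_eigen _ (P_chi hn S) (n * t) x
  rw [← sg_eq hn w0_pos] at h
  rw [prod_mul_distrib, prod_const, ← Real.exp_nat_mul]
  refine h.trans ?_
  rw [chi]
  congr 2
  field_simp
  ring

theorem ind_eq (y z : Cube n) :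
    ∏ i, (1 + spin (y i) * spin (z i)) = if z = y then (2 : ℝ) ^ n else 0 := by
  split_ifs with h
  · subst h
    simp [spin_mul_self, one_add_one_eq_two]
  · obtain ⟨i, hi⟩ := Function.ne_iff.1 h
    refine prod_eq_zero (mem_univ i) ?_
    cases hz : z i <;> cases hy : y i <;> simp_all [spin]

theorem hbCt_w0 (hn : 0 < n) (t : ℝ) (x y : Cube n) :
    hbCt (w0 n) t x y = ∏ i, (1 / 2 * (1 + spin (y i) * (Real.exp (-t) * spin (x i)))) := by
  have h1 : ∑ z, hbCt (w0 n) t x z * ∏ i, (1 + spin (y i) * spin (z i)) =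
      hbCt (w0 n) t x y * 2 ^ n := by
    simp only [ind_eq, mul_ite, mul_zero, sum_ite_eq', mem_univ, if_true]
  have h2 : ∑ z, hbCt (w0 n) t x z * ∏ i, (1 + spin (y i) * spin (z i)) =
      ∏ i, (1 + spin (y i) * (Real.exp (-t) * spin (x i))) := by
    simp only [prod_one_add, mul_sum]
    rw [sum_comm]
    refine sum_congr rfl fun S _ => ?_
    rw [prod_mul_distrib (f := fun i => spin (y i)), ← sg_chi hn, mul_sum]
    refine sum_congr rfl fun z _ => ?_
    rw [prod_mul_distrib, chi]; ring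
  rw [prod_mul_distrib, ← h2, h1, prod_const, card_univ, Fintype.card_fin, one_div, inv_pow]
  field_simp

theorem tv_sq_le (hn : 0 < n) (t : ℝ) (x : Cube n) :
    (2 * tv (hbCt (w0 n) t x) (prob (w0 n))) ^ 2 ≤ Real.exp (n * Real.exp (-t) ^ 2) - 1 := by
  set e := Real.exp (-t)
  set f : Cube n → ℝ := fun y => ∏ i, (1 + spin (y i) * (e * spin (x i))) with hf
  have hP := isP_prob' (w0_pos (n := n))
  have h0 : hbCt (w0 n) t x = fun y => prob (w0 n) y * f y := by
    funext y
    rw [hbCt_w0 hn, prob_w0, hf, ← prod_mul_distrib]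
  have hm : mean (prob (w0 n)) f = 1 := by
    simp only [mean, prob_w0, hf, ← prod_mul_distrib]
    rw [sum_prod_cube fun i b => 1 / 2 * (1 + spin b * (e * spin (x i)))]
    exact prod_eq_one fun i _ => by cases x i <;> simp [spin] <;> ring
  have hi : ip (prob (w0 n)) f f = (1 + e ^ 2) ^ n := by
    simp only [ip, prob_w0, hf, ← prod_mul_distrib]
    rw [sum_prod_cube fun i b => 1 / 2 * ((1 + spin b * (e * spin (x i))) *
      (1 + spin b * (e * spin (x i))))]
    have : ∀ i : Fin n, 1 / 2 * ((1 + spin true * (e * spin (x i))) * (1 + spin true * (e * spin (x i)))) +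
        1 / 2 * ((1 + spin false * (e * spin (x i))) * (1 + spin false * (e * spin (x i)))) =
        1 + e ^ 2 := fun i => by
      cases x i <;> simp [spin] <;> ring
    simp only [this, prod_const, card_univ, Fintype.card_fin]
  rw [h0]
  refine (hP.tv_sq_le_var hm).trans ?_
  rw [hP.var_eq, hm, hi, one_pow, Real.exp_nat_mul]
  have := Real.add_one_le_exp (e ^ 2)
  gcongr
  linarith

theorem one_sub_aff_le_tv {Ω : Type*} [Fintype Ω] {p q : Ω → ℝ} (hp : IsP p) (hq : IsP q) :
    1 - ∑ y, Real.sqrt (p y * q y) ≤ tv p q := by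
  have h : ∀ y, p y + q y - 2 * Real.sqrt (p y * q y) ≤ |p y - q y| := fun y => by
    rcases le_total (p y) (q y) with h | h
    · have : p y ≤ Real.sqrt (p y * q y) :=
        Real.le_sqrt_of_sq_le (by rw [sq]; exact mul_le_mul_of_nonneg_left h (hp.nn y))
      rw [abs_sub_comm, abs_of_nonneg (sub_nonneg.2 h)]; linarith
    · have : q y ≤ Real.sqrt (p y * q y) :=
        Real.le_sqrt_of_sq_le (by rw [sq]; exact mul_le_mul_of_nonneg_right h (hq.nn y))
      rw [abs_of_nonneg (sub_nonneg.2 h)]; linarith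
  have h2 := sum_le_sum fun y (_ : y ∈ univ) => h y
  rw [sum_sub_distrib, sum_add_distrib, hp.sum1, hq.sum1, ← mul_sum] at h2
  unfold tv
  linarith

theorem aff_site {e : ℝ} (h0 : 0 ≤ e) (h1 : e ≤ 1) :
    Real.sqrt (1 / 2 * (1 + e) * (1 / 2)) + Real.sqrt (1 / 2 * (1 - e) * (1 / 2)) ≤
      Real.exp (-(e ^ 2 / 8)) := by
  set a := Real.sqrt (1 / 2 * (1 + e) * (1 / 2))
  set b := Real.sqrt (1 / 2 * (1 - e) * (1 / 2))
  have ha : a ^ 2 = 1 / 2 * (1 + e) * (1 / 2) := Real.sq_sqrt (by positivity)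
  have hb : b ^ 2 = 1 / 2 * (1 - e) * (1 / 2) :=
    Real.sq_sqrt (by have := sub_nonneg.2 h1; positivity)
  have ha0 : 0 ≤ a := Real.sqrt_nonneg _
  have hb0 : 0 ≤ b := Real.sqrt_nonneg _
  have hab : a * b ≤ 1 / 4 - e ^ 2 / 8 := by
    refine abs_le_of_sq_le_sq' ?_ (by nlinarith) |>.2
    rw [mul_pow, ha, hb]
    nlinarith [sq_nonneg (e ^ 2)]
  have h2 : (a + b) ^ 2 ≤ Real.exp (-(e ^ 2 / 8)) ^ 2 := by
    rw [← Real.exp_nat_mul]
    have := Real.add_one_le_exp ((2 : ℕ) * -(e ^ 2 / 8))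
    push_cast at this ⊢
    nlinarith
  exact (abs_le_of_sq_le_sq' h2 (Real.exp_pos _).le).2

theorem tv_ge (hn : 0 < n) {t : ℝ} (ht : 0 ≤ t) :
    1 - Real.exp (-(n * Real.exp (-t) ^ 2 / 8)) ≤
      tv (hbCt (w0 n) t fun _ => true) (prob (w0 n)) := by
  refine le_trans ?_ (one_sub_aff_le_tv (isP_hbCt hn w0_pos ht _) (isP_prob' w0_pos))
  set e := Real.exp (-t) with he
  have h0 : 0 ≤ e := (Real.exp_pos _).le
  have h1 : e ≤ 1 := Real.exp_le_one_iff.2 (by linarith)
  have hs : ∀ y : Cube n, Real.sqrt (hbCt (w0 n) t (fun _ => true) y * prob (w0 n) y) =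
      ∏ i, Real.sqrt (1 / 2 * (1 + spin (y i) * e) * (1 / 2)) := fun y => by
    rw [hbCt_w0 hn, prob_w0, ← prod_mul_distrib, ← Real.sqrt_prod]
    · simp [spin, he]
    · intro i _
      have : 0 ≤ 1 + spin (y i) * e := by cases y i <;> simp [spin] <;> linarith
      positivity
  simp only [hs]
  rw [sum_prod_cube fun _ b => Real.sqrt (1 / 2 * (1 + spin b * e) * (1 / 2)), prod_const,
    card_univ, Fintype.card_fin]
  have h2 := aff_site h0 h1
  have e1 : -(n * e ^ 2 / 8) = n * -(e ^ 2 / 8) := by ring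
  rw [e1, Real.exp_nat_mul]
  have e2 : spin true * e = e := by simp [spin]
  have e3 : 1 + spin false * e = 1 - e := by simp [spin]; ring
  rw [e2, e3]
  gcongr

theorem n_mul_exp_sq (hn : 0 < n) (a : ℝ) :
    (n : ℝ) * Real.exp (-((1 + a) * (Real.log n / (2 * 1)))) ^ 2 =
      Real.exp (-(a * Real.log n)) := by
  have hn' : (0 : ℝ) < n := by exact_mod_cast hn
  rw [← Real.exp_nat_mul]
  nth_rewrite 1 [← Real.exp_log hn']
  rw [← Real.exp_add]
  congr 1
  push_cast
  ring

theorem tendsto_log_nat : Tendsto (fun n : ℕ => Real.log n) atTop atTop :=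
  Real.tendsto_log_atTop.comp tendsto_natCast_atTop_atTop

theorem cutUp : Top.CutUp 0 1 := fun ε hε η hη => by
  refine Top.whp_of_eventually ?_
  have h1 : Tendsto (fun n : ℕ => Real.exp (-(ε * Real.log n))) atTop (𝓝 0) :=
    Real.tendsto_exp_neg_atTop_nhds_zero.comp (tendsto_log_nat.const_mul_atTop hε)
  have h2 : Tendsto (fun n : ℕ => Real.exp (Real.exp (-(ε * Real.log n))) - 1) atTop (𝓝 0) := by
    have := ((Real.continuous_exp.tendsto 0).comp h1).sub_const 1
    simpa [Function.comp_def] using this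
  filter_upwards [eventually_gt_atTop 0,
    h2.eventually (gt_mem_nhds (show (0 : ℝ) < (2 * η) ^ 2 by positivity))] with n hn h g x
  rw [E.stateTV_eq, gibbsWeight_zero, etv_eq]
  have h3 := tv_sq_le hn ((1 + ε) * (Real.log n / (2 * 1))) x
  rw [n_mul_exp_sq hn] at h3
  have h4 := abs_lt_of_sq_lt_sq' (h3.trans_lt h) (by positivity)
  linarith [h4.2]

theorem cutLow : Top.CutLow 0 1 := fun ε hε hε1 η hη => by
  refine Top.whp_of_eventually ?_
  have h1 : Tendsto (fun n : ℕ => Real.exp (ε * Real.log n) / 8) atTop atTop :=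
    (Real.tendsto_exp_atTop.comp (tendsto_log_nat.const_mul_atTop hε)).atTop_div_const
      (by norm_num)
  have h2 : Tendsto (fun n : ℕ => Real.exp (-(Real.exp (ε * Real.log n) / 8))) atTop (𝓝 0) :=
    Real.tendsto_exp_neg_atTop_nhds_zero.comp h1
  filter_upwards [eventually_gt_atTop 0, h2.eventually (gt_mem_nhds hη)] with n hn h g
  refine ⟨fun _ => true, ?_⟩
  rw [E.stateTV_eq, gibbsWeight_zero, etv_eq]
  have ht : 0 ≤ (1 - ε) * (Real.log n / (2 * 1)) :=
    mul_nonneg (by linarith) (div_nonneg (Real.log_natCast_nonneg n) (by norm_num))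
  have h3 := tv_ge hn ht
  have h4 := n_mul_exp_sq hn (-ε)
  rw [← sub_eq_add_neg, neg_mul, neg_neg] at h4
  rw [h4] at h3
  linarith

theorem cut0Stmt : Top.Cut0Stmt := ⟨cutUp, cutLow⟩

end Crest.Agent.T157.Cut0

end
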