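import Crest.Agent.T157.CwDef_8
import Crest.Agent.T157.CwA_63
import Crest.Agent.T157.UnB_81

/-!
# Row 157, coin windows (helper63): the engine
-/

set_option autoImplicit false

noncomputable section

namespace Crest.Agent.T157.Cw

open MeasureTheory Matrix Set Function Real
open Crest.ProbabilityR.SpinGlassDynamics
open Crest.Agent.T157.E Crest.Agent.T157.Un Crest.Agent.T157.Crit
open Crest.Agent.T157.Qe (V Mx)

namespace Eng63

lemma Jt.aff {L : ℝ → ℝ} {x R β p : ℝ} (h : Jt L x R β) (hp : 0 ≤ p) (l0 : ℝ) :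
    Jt (fun t => p * (L t - l0)) x R (p * β) := by
  have e : ∀ j, 0 < j → dv j (fun t => p * (L t - l0)) x = p * dv j L x := fun j hj => by
    rw [dv, iteratedDeriv_const_mul_field]
    simp only [sub_eq_neg_add, iteratedDeriv_const_add hj]
  refine ⟨contDiff_const.mul (h.cd.sub contDiff_const), ?_, ?_, ?_⟩ <;>
    simp only [e 1 one_pos, e 2 two_pos, e 3 three_pos, e 4 four_pos, abs_mul, abs_of_nonneg hp]
  · nlinarith [mul_le_mul_of_nonneg_left h.h2 hp]
  · nlinarith [mul_le_mul_of_nonneg_left h.h3 hp]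
  · nlinarith [mul_le_mul_of_nonneg_left h.h4 hp]

lemma Dm.aff {f : ℝ → ℝ} {x ω b c : ℝ} (hf : ContDiff ℝ 4 f) (h : Dm f x ω 1) (hω : 0 ≤ ω)
    (hb : |b| ≤ c) (a : ℝ) : Dm (fun t => a + (b * t + f t)) x (ω + c) 1 := fun j hj => by
  have c0 : 0 ≤ c := (abs_nonneg _).trans hb
  have := h j hj
  rw [dv, iteratedDeriv_const_add hj.1, iteratedDeriv_fun_add (by fun_prop)
    (hf.of_le (by exact_mod_cast hj.2)).contDiffAt, iteratedDeriv_const_mul_field,
    iteratedDeriv_fun_id, if_neg (by have := hj.1; omega)]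
  split_ifs with h1
  · subst h1
    refine (abs_add_le _ _).trans ?_
    simp only [mul_one, pow_one] at this ⊢
    linarith
  · simp only [mul_zero, zero_add, mul_one] at this ⊢
    exact this.trans (pow_le_pow_left₀ hω (by linarith) _)

lemma card_le (n : ℕ) : (Fintype.card (Pair n) : ℝ) ≤ (n : ℝ) ^ 2 := by
  simpa only [sqrt_pow4] using card_pair n

lemma log_card {n : ℕ} (hn : 1 ≤ n) : 1 + log (Fintype.card (Pair n)) ≤ 2 * (1 + log n) := by
  have n1 : (1 : ℝ) ≤ n := by exact_mod_cast hn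
  have l0 := log_nonneg n1
  rcases Nat.eq_zero_or_pos (Fintype.card (Pair n)) with h | h
  · simp only [h, Nat.cast_zero, log_zero]; linarith
  · have := log_le_log (by exact_mod_cast h) (card_le n)
    rw [log_pow] at this
    push_cast at this
    linarith

end Eng63

open Eng63

/-- **the engine** -/
theorem eng63 {C9 : ℝ} (h5 : TiltStmt) (h6 : JetStmt) (h6' : LmStmt) (h7 : AlgStmt)
    (h9 : LtStmt C9) : EngStmt := by
  obtain ⟨CJ, J1, hJ⟩ := h6
  obtain ⟨CA, A0, cf, -, f0, -, hA⟩ := h7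
  refine ⟨32 * (CA * (16 * CJ ^ 4 + 16 * CJ ^ 2 + 128)), by positivity,
    fun n k ε s p l0 B Y σ y dd hn hk hε hl hs hp ⟨mY, ω, _, ω0, ωB, hω⟩ => ?_⟩
  have n0 : (0 : ℝ) < n := by exact_mod_cast hn
  have sq0 : 0 < √(n : ℝ) := sqrt_pos.2 n0
  have k1 : (1 : ℝ) ≤ k := by exact_mod_cast (by omega : 1 ≤ k)
  have B0 : 0 ≤ B := (Finset.sum_nonneg fun e _ => by have := ω0 e 0; positivity).trans (ωB 0)
  have l0p : 0 < l0 := hε.trans_le hl
  set Q := (k : ℝ) ^ 2 * l0 / ε with hQ
  have kQ : (k : ℝ) ^ 2 ≤ Q := by rw [hQ, le_div_iff₀ hε]; gcongr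
  have kQ' : (k : ℝ) ≤ Q := by nlinarith
  have Q1 : 1 ≤ Q := k1.trans kQ'
  set P := p ^ 2 * l0 ^ 3 / (n * s) with hP
  have P0 : 0 ≤ P := by positivity
  have mW : Measurable fun g : Pair n → ℝ => Wmat n g dd :=
    Cond.measurable_Wmat.comp (f := fun g : Pair n → ℝ => (g, dd)) (by fun_prop)
  have ip : ∀ W : Mx n, 0 < ising W 0 σ := fun _ => exp_pos _
  have key : ∀ (g : Pair n → ℝ) (e : Pair n), (fun x => Psi k ε s p l0 Y σ y
      (Wmat n (update g e x) dd)) = fun x => exp ((log (ising (Wmat n g dd) 0 σ) -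
        g e / √n * chi e σ) + (chi e σ / √n * x + Y (Wmat n (update g e x) dd))) *
          fE (p * (lm k ε s (Wmat n (update g e x) dd) y - l0)) := fun g e => funext fun x => by
    rw [Psi, h5.upd, rw, ← exp_log (ip (Wmat n g dd)), ← exp_add, ← exp_add, log_exp]
    congr 2; ring
  have cF : ∀ (g : Pair n → ℝ) (e : Pair n), ContDiff ℝ 4 fun x => (log (ising (Wmat n g dd) 0 σ) -
      g e / √n * chi e σ) + (chi e σ / √n * x + Y (Wmat n (update g e x) dd)) := fun g e =>
    contDiff_const.add ((contDiff_const.mul contDiff_id).add (hω e g).1)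
  have P0' : ∀ W, 0 ≤ Psi k ε s p l0 Y σ y W := fun W =>
    mul_nonneg (mul_nonneg (ip W).le (exp_pos _).le) (f0 _).le
  rw [← hyb_const, ← hyb_const]
  refine (Cw63.engine'' (B := CA * (16 * CJ ^ 4 + 16 * CJ ^ 2 + 128) * (Q ^ 4 + P + B))
    (Ψ := fun g => Psi k ε s p l0 Y σ y (Wmat n g dd)) ?_ (fun _ => P0' _) (by positivity)
    (fun e g => ?_) fun g => ?_).trans ?_
  · refine Measurable.mul (Measurable.mul ?_ mY.exp) (cf.continuous.measurable.comp
      ((((h6'.meas n k ε s).comp (f := fun g : Pair n → ℝ => (Wmat n g dd, y))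
        (mW.prodMk measurable_const)).sub_const l0).const_mul p))
    have c : Continuous fun W : Mx n => ising W 0 σ := by unfold ising; fun_prop
    exact c.measurable.comp mW
  · rw [key]
    exact (cF g e).exp.mul (cf.comp (Jt.aff (hJ n k ε s g dd y e hk hε hs.le).1 hp l0).cd)
  rotate_left
  · unfold Conc.ex Aeng
    refine mul_le_mul_left (ENNReal.ofReal_le_ofReal (exp_le_exp.2 ?_)) _
    have := log_card hn
    rw [← hQ, ← hP]
    calc _ ≤ 16 * (CA * (16 * CJ ^ 4 + 16 * CJ ^ 2 + 128) * (Q ^ 4 + P + B)) *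
        (2 * (1 + log n)) := by gcongr
      _ = _ := by ring
  set L := lm k ε s (Wmat n g dd) y with hL
  have L0 : 0 < L := hε.trans_le (h6'.lo n k ε s _ y hn (by omega) hε hs.le).1
  have b0 := fun e => (h6'.b01 n k ε s (Wmat n g dd) y e (by omega) hε hs.le).1
  have b1 := fun e => (h6'.b01 n k ε s (Wmat n g dd) y e (by omega) hε hs.le).2
  have alg : ∀ (e : Pair n) (R β : ℝ), 0 ≤ R → 0 ≤ β →
      Jt (fun x => lm k ε s (Wmat n (update g e x) dd) y) (g e) R β →
      -(CA * (R ^ 4 + (p * β / (1 + max (p * (L - l0)) 0)) ^ 2 + (2 * (ω e g + 1 / √n)) ^ 4) *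
        Psi k ε s p l0 Y σ y (Wmat n g dd)) ≤ iteratedDeriv 4 (fun x => Psi k ε s p l0 Y σ y
          (Wmat n (update g e x) dd)) (g e) := fun e R β hR hβ hj => by
    have o0 : 0 ≤ ω e g + 1 / √n := by have := ω0 e g; positivity
    have := hA _ _ (g e) _ R (p * β) (cF g e).exp (by positivity) hR (by positivity)
      (exp_pos _).le (h9.expo _ _ _ (cF g e) o0 (Dm.aff (hω e g).1 (hω e g).2 (ω0 e g)
        (by rw [abs_div, (sgn_chi e).abs, abs_of_pos sq0]) _)) (Jt.aff hj hp l0)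
    have e1 := congrFun (key g e) (g e)
    simp only [update_eq_self] at this e1
    rw [key, e1]
    exact this
  have so : ∑ e : Pair n, (2 * (ω e g + 1 / √n)) ^ 4 ≤ 128 * (B + 1) := by
    have : ∀ e : Pair n, (2 * (ω e g + 1 / √n)) ^ 4 ≤ 128 * (ω e g ^ 4 + 1 / (n : ℝ) ^ 2) :=
      fun e => by
        have := sub_pow4 (ω e g) (-(1 / √n))
        rw [sub_neg_eq_add, Even.neg_pow (by decide), div_pow, one_pow, sqrt_pow4] at this
        rw [mul_pow]; linarith
    refine (Finset.sum_le_sum fun e _ => this e).trans ?_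
    rw [← Finset.mul_sum, Finset.sum_add_distrib, Finset.sum_const, Finset.card_univ, nsmul_eq_mul]
    gcongr
    · exact ωB g
    · rw [mul_one_div, div_le_one (by positivity)]; exact card_le n
  have sc : ∀ a : ℝ, 0 ≤ a → ∑ _e : Pair n, a / (n : ℝ) ^ 2 ≤ a := fun a ha => by
    rw [Finset.sum_const, Finset.card_univ, nsmul_eq_mul, mul_div_assoc',
      div_le_iff₀ (by positivity), mul_comm]
    gcongr; exact card_le n
  have Q4 : 1 ≤ Q ^ 4 := one_le_pow₀ Q1
  have fin : ∀ (R : ℝ) (β : Pair n → ℝ), 0 ≤ R → (∀ e, 0 ≤ β e) → (∀ e,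
      Jt (fun x => lm k ε s (Wmat n (update g e x) dd) y) (g e) R (β e)) →
      R ^ 4 ≤ 16 * CJ ^ 4 * Q ^ 4 / (n : ℝ) ^ 2 →
      ∑ e, (p * β e / (1 + max (p * (L - l0)) 0)) ^ 2 ≤ 16 * CJ ^ 2 * (Q ^ 4 + P) →
      ∃ β : Pair n → ℝ, (∀ e, 0 ≤ β e) ∧ ∑ e, β e ≤ CA * (16 * CJ ^ 4 + 16 * CJ ^ 2 + 128) *
        (Q ^ 4 + P + B) * Psi k ε s p l0 Y σ y (Wmat n g dd) ∧ ∀ e, -β e ≤ iteratedDeriv 4
          (fun x => Psi k ε s p l0 Y σ y (Wmat n (update g e x) dd)) (g e) :=
    fun R β hR hβ hj h1 h2 => by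
      refine ⟨_, fun e => ?_, ?_, fun e => alg e R (β e) hR (hβ e) (hj e)⟩
      · have := P0' (Wmat n g dd); positivity
      rw [← Finset.sum_mul, ← Finset.mul_sum, Finset.sum_add_distrib, Finset.sum_add_distrib,
        mul_assoc CA (16 * CJ ^ 4 + _ + _)]
      have h3 := (Finset.sum_le_sum fun (e : Pair n) (_ : e ∈ Finset.univ) => h1).trans
        (sc _ (by positivity))
      refine mul_le_mul_of_nonneg_right (mul_le_mul_of_nonneg_left ?_ A0.le) (P0' _)
      have : 0 ≤ CJ ^ 4 * (P + B) := by positivity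
      have : 0 ≤ CJ ^ 2 * B := by positivity
      nlinarith
  rcases le_total L (2 * l0) with h | h
  · refine fin _ _ (by positivity) (fun e => by have := b0 e; positivity)
      (fun e => (hJ n k ε s g dd y e hk hε hs.le).1) ?_ ?_
    · rw [← sqrt_pow4 n, show 16 * CJ ^ 4 * Q ^ 4 / √n ^ 4 = (CJ * k ^ 2 * (2 * l0) / (ε * √n)) ^ 4 by
        rw [hQ]; field_simp; norm_num]
      gcongr
    · have : ∀ e, (p * (CJ * bb k ε s (Wmat n g dd) y e * L / n) / (1 + max (p * (L - l0)) 0)) ^ 2 ≤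
          (p * CJ * (2 * l0) / n) ^ 2 * bb k ε s (Wmat n g dd) y e := fun e => by
        have b0 := b0 e
        have b1 := b1 e
        have m := le_max_right (p * (L - l0)) 0
        calc _ ≤ (p * (CJ * bb k ε s (Wmat n g dd) y e * (2 * l0) / n) / 1) ^ 2 := by
              gcongr; linarith
          _ = (p * CJ * (2 * l0) / n) ^ 2 * (bb k ε s (Wmat n g dd) y e * bb k ε s (Wmat n g dd) y e) := by
              ring
          _ ≤ _ := by gcongr; exact mul_le_of_le_one_right b0 b1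
      refine (Finset.sum_le_sum fun e _ => this e).trans ?_
      have hb : ∑ e, bb k ε s (Wmat n g dd) y e ≤ 2 * n * (2 * l0) / s := by
        rw [le_div_iff₀' hs]
        exact (h6'.bsum n k ε s _ y (by omega) hε hs).trans (by gcongr)
      rw [← Finset.mul_sum]
      calc _ ≤ (p * CJ * (2 * l0) / n) ^ 2 * (2 * n * (2 * l0) / s) := by gcongr
        _ = 16 * CJ ^ 2 * P := by rw [hP]; field_simp; norm_num
        _ ≤ _ := by gcongr; linarith
  · refine fin _ (fun _ => CJ * k * L / n) (by positivity) (fun e => by positivity)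
      (fun e => (hJ n k ε s g dd y e hk hε hs.le).2) ?_ ?_
    · rw [div_pow, sqrt_pow4, mul_pow]
      gcongr
      have : 0 ≤ CJ ^ 4 := by positivity
      linarith
    · have : (p * (CJ * k * L / n) / (1 + max (p * (L - l0)) 0)) ^ 2 ≤
          4 * CJ ^ 2 * k ^ 2 / (n : ℝ) ^ 2 := by
        have m := le_max_right (p * (L - l0)) 0
        have m' := le_max_left (p * (L - l0)) 0
        rw [show 4 * CJ ^ 2 * k ^ 2 / (n : ℝ) ^ 2 = (2 * (CJ * k / n)) ^ 2 by ring]
        gcongr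
        rw [div_le_iff₀ (by linarith), show p * (CJ * k * L / n) = CJ * k / n * (p * L) by ring,
          mul_comm 2, mul_assoc]
        refine mul_le_mul_of_nonneg_left ?_ (by positivity)
        nlinarith
      refine ((Finset.sum_le_sum fun e _ => this).trans (sc _ (by positivity))).trans ?_
      have : Q ≤ Q ^ 4 := le_self_pow₀ Q1 (by norm_num)
      have : 0 ≤ CJ ^ 2 := by positivity
      nlinarith

end Crest.Agent.T157.Cw

end
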