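import Crest.Agent.T157.CwDef_8

/-!
# Row 157, part C (helper64): free energies are light functions of the couplings
-/

set_option autoImplicit false

noncomputable section

namespace Crest.Agent.T157.Cw

open MeasureTheory ProbabilityTheory Set Function Filter Topology Real

namespace Lt64

lemma hd {N : ℝ → ℝ} (hN : ContDiff ℝ 4 N) {j : ℕ} (hj : j < 4) (t : ℝ) :
    HasDerivAt (dv j N) (dv (j + 1) N t) t := by
  rw [dv, iteratedDeriv_succ]
  exact (hN.differentiable_iteratedDeriv j (by exact_mod_cast hj) t).hasDerivAt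

/-- logarithmic derivatives -/
lemma dm_log {N : ℝ → ℝ} (hN : ContDiff ℝ 4 N) (h0 : ∀ t, 0 < N t) {x p : ℝ} (hp : 0 ≤ p)
    (h : Dm N x p (N x)) : Dm (fun t => log (N t)) x (3 * p) 1 := by
  set r : ℕ → ℝ → ℝ := fun j t => dv j N t / N t with hr
  have d0 : ∀ t, HasDerivAt N (dv 1 N t) t := fun t => hd hN (j := 0) (by omega) t
  have d : ∀ j < 4, ∀ t, HasDerivAt (r j) (r (j + 1) t - r 1 t * r j t) t := fun j hj t => by
    refine ((hd hN hj t).fun_div (d0 t) (h0 t).ne').congr_deriv ?_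
    have := (h0 t).ne'
    simp only [hr]
    field_simp
  have e1 : iteratedDeriv 1 (fun t => log (N t)) = r 1 := funext fun t => by
    rw [iteratedDeriv_one]; exact ((d0 t).log (h0 t).ne').deriv
  have e2 : iteratedDeriv 2 (fun t => log (N t)) = fun t => r 2 t - r 1 t ^ 2 := funext fun t => by
    rw [iteratedDeriv_succ, e1, (d 1 (by omega) t).deriv, sq]
  have e3 : iteratedDeriv 3 (fun t => log (N t)) = fun t => r 3 t - 3 * (r 1 t * r 2 t) + 2 * r 1 t ^ 3 :=
    funext fun t => by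
      rw [iteratedDeriv_succ, e2]
      refine ((d 2 (by omega) t).fun_sub ((d 1 (by omega) t).fun_pow 2)).deriv.trans ?_
      norm_num; ring
  have e4 : iteratedDeriv 4 (fun t => log (N t)) x = r 4 x - 4 * (r 1 x * r 3 x) - 3 * r 2 x ^ 2 +
      12 * (r 1 x ^ 2 * r 2 x) - 6 * r 1 x ^ 4 := by
    rw [iteratedDeriv_succ, e3]
    refine (((d 3 (by omega) x).fun_sub (((d 1 (by omega) x).fun_mul
      (d 2 (by omega) x)).const_mul 3)).fun_add
      (((d 1 (by omega) x).fun_pow 3).const_mul 2)).deriv.trans ?_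
    norm_num; ring
  have b : ∀ j ∈ Icc 1 4, |r j x| ≤ p ^ j := fun j hj => by
    simp only [hr]
    rw [abs_div, abs_of_pos (h0 x), div_le_iff₀ (h0 x)]
    exact h j hj
  have b1 := b 1 (by simp)
  have b2 := b 2 (by simp)
  have b3 := b 3 (by simp)
  have b4 := b 4 (by simp)
  rw [pow_one] at b1
  have m : ∀ {a c A C : ℝ}, |a| ≤ A → |c| ≤ C → |a * c| ≤ A * C := fun h1 h2 => by
    rw [abs_mul]; exact mul_le_mul h1 h2 (abs_nonneg _) ((abs_nonneg _).trans h1)
  have q : ∀ {a A : ℝ} (k : ℕ), |a| ≤ A → |a ^ k| ≤ A ^ k := fun k h1 => by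
    rw [abs_pow]; exact pow_le_pow_left₀ (abs_nonneg _) h1 k
  intro j hj
  obtain ⟨j1, j4⟩ := hj
  interval_cases j
  · rw [dv, e1]; linarith
  · rw [dv, e2]
    have := abs_le.1 (q 2 b1)
    have := abs_le.1 b2
    have := pow_nonneg hp 2
    refine abs_le.2 ⟨?_, ?_⟩ <;> nlinarith
  · rw [dv, e3]
    have := abs_le.1 (q 3 b1)
    have := abs_le.1 (m b1 b2)
    have := abs_le.1 b3
    have := pow_nonneg hp 3
    refine abs_le.2 ⟨?_, ?_⟩ <;> nlinarith
  · rw [dv, e4]
    have := abs_le.1 (q 4 b1)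
    have := abs_le.1 (m b1 b3)
    have := abs_le.1 (q 2 b2)
    have := abs_le.1 (m (q 2 b1) b2)
    have := abs_le.1 b4
    have := pow_nonneg hp 4
    refine abs_le.2 ⟨?_, ?_⟩ <;> nlinarith

lemma young {a δ : ℝ} (ha : 0 ≤ a) (hδ : 0 < δ) {j : ℕ} (hj : j ∈ Icc 1 4) :
    a ^ j ≤ δ ^ j * (1 - j / 4 + j / 4 * (a ^ 4 / δ ^ 4)) := by
  obtain ⟨u, rfl⟩ : ∃ u, a = δ * u := ⟨a / δ, by field_simp⟩
  have u0 : 0 ≤ u := nonneg_of_mul_nonneg_right ha hδ |> fun h => by nlinarith
  rw [mul_pow, mul_pow, mul_div_cancel_left₀ _ (by positivity)]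
  refine mul_le_mul_of_nonneg_left ?_ (by positivity)
  obtain ⟨j1, j4⟩ := hj
  interval_cases j <;> push_cast
  · nlinarith [sq_nonneg (u ^ 2 - 1), sq_nonneg (u - 1)]
  · nlinarith [sq_nonneg (u ^ 2 - 1)]
  · nlinarith [mul_nonneg (sq_nonneg (u - 1)) (by positivity : 0 ≤ 3 * u ^ 2 + 2 * u + 1)]
  · linarith

lemma le_pow_of {a p : ℝ} {j : ℕ} (h : ∀ δ > p, a ≤ δ ^ j) : a ≤ p ^ j :=
  ge_of_tendsto (x := 𝓝[>] p) (((continuous_pow j).tendsto p).mono_left nhdsWithin_le_nhds)
    (eventually_nhdsWithin_of_forall h)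

lemma rt4 {a : ℝ} (ha : 0 ≤ a) : √(√a) ^ 4 = a := by
  rw [show 4 = 2 * 2 from rfl, pow_mul, sq_sqrt (sqrt_nonneg _), sq_sqrt ha]

variable {X : Type} [MeasurableSpace X]

lemma mom_le (P : Measure X) [IsProbabilityMeasure P] {c : X → ℝ} (hc : Measurable c) {B : ℝ}
    (hB : ∀ᵐ x ∂P, |c x| ≤ B) {j : ℕ} (hj : j ∈ Icc 1 4) :
    |∫ x, c x ^ j ∂P| ≤ √(√(∫ x, c x ^ 4 ∂P)) ^ j := by
  have i : ∀ k : ℕ, Integrable (fun x => c x ^ k) P := fun k =>
    .of_bound (hc.pow_const k).aestronglyMeasurable (B ^ k) (hB.mono fun x h => by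
      rw [Real.norm_eq_abs, abs_pow]; exact pow_le_pow_left₀ (abs_nonneg _) h k)
  refine le_pow_of fun δ hδ => ?_
  have δ0 : 0 < δ := (sqrt_nonneg _).trans_lt hδ
  have h4 : ∫ x, c x ^ 4 ∂P ≤ δ ^ 4 := by
    rw [← rt4 (integral_nonneg fun x => (by positivity : 0 ≤ c x ^ 4))]
    exact pow_le_pow_left₀ (sqrt_nonneg _) hδ.le 4
  calc _ ≤ ∫ x, |c x ^ j| ∂P := abs_integral_le_integral_abs
    _ ≤ ∫ x, δ ^ j * (1 - j / 4 + j / 4 * (c x ^ 4 / δ ^ 4)) ∂P := by
        refine integral_mono (i j).abs (((integrable_const _).add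
          (((i 4).div_const _).const_mul _)).const_mul _) fun x => ?_
        have := young (abs_nonneg (c x)) δ0 hj
        rwa [← abs_pow, Even.pow_abs (by decide : Even 4)] at this
    _ = δ ^ j * (1 - j / 4 + j / 4 * ((∫ x, c x ^ 4 ∂P) / δ ^ 4)) := by
        rw [integral_const_mul, integral_add (integrable_const _) (((i 4).div_const _).const_mul _),
          integral_const_mul, integral_div]
        simp
    _ ≤ δ ^ j := by
        refine mul_le_of_le_one_right (by positivity) ?_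
        have : (∫ x, c x ^ 4 ∂P) / δ ^ 4 ≤ 1 := (div_le_one (by positivity)).2 h4
        nlinarith [(Nat.cast_nonneg j : (0 : ℝ) ≤ j)]

lemma cgf_dm (P : Measure X) [IsProbabilityMeasure P] {c : X → ℝ} (hc : Measurable c) {B : ℝ}
    (hB : ∀ᵐ x ∂P, |c x| ≤ B) : ContDiff ℝ 4 (fun t => log (mgf c P t)) ∧
      Dm (fun t => log (mgf c P t)) 0 (3 * √(√(∫ x, c x ^ 4 ∂P))) 1 := by
  have i : ∀ t, Integrable (fun x => exp (t * c x)) P := fun t =>
    .of_bound (by fun_prop) (exp (|t| * B)) (hB.mono fun x h => by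
      rw [Real.norm_eq_abs, abs_exp, exp_le_exp]
      exact (le_abs_self _).trans ((abs_mul _ _).trans_le
        (mul_le_mul_of_nonneg_left h (abs_nonneg _))))
  have hI : ∀ t, t ∈ interior (integrableExpSet c P) := fun t => by
    rw [show integrableExpSet c P = univ from eq_univ_of_forall i, interior_univ]; trivial
  have cd : ContDiff ℝ 4 (mgf c P) :=
    contDiff_iff_contDiffAt.2 fun t => (analyticAt_mgf (hI t)).contDiffAt
  have h0 : ∀ t, 0 < mgf c P t := fun t => mgf_pos (i t)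
  refine ⟨cd.log fun t => (h0 t).ne', dm_log cd h0 (sqrt_nonneg _) fun j hj => ?_⟩
  rw [dv, iteratedDeriv_mgf_zero (hI 0), mgf_zero, mul_one]
  exact mom_le P hc hB hj

end Lt64

open Lt64 in
/-- the field `det` of `LtStmt` -/
theorem lt_det {C : ℝ} (hC : 81 ≤ C) (ι X : Type) [Fintype ι] [DecidableEq ι] [MeasurableSpace X]
    (ν : Measure X) [IsFiniteMeasure ν] (c : ι → X → ℝ) (B : ℝ) (hν : ν ≠ 0)
    (hc : ∀ e, Measurable (c e)) (hB : ∀ᵐ x ∂ν, ∑ e, c e x ^ 4 ≤ B) :
    LT (C * B) fun g => Real.log (∫ x, Real.exp (∑ e, g e * c e x) ∂ν) := by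
  have : NeZero ν := ⟨hν⟩
  have B0 : 0 ≤ B := by
    obtain ⟨x, hx⟩ := hB.exists
    exact (Finset.sum_nonneg fun e _ => by positivity).trans hx
  have hb : ∀ᵐ x ∂ν, ∀ e, |c e x| ≤ 1 + B := hB.mono fun x hx e => by
    have h1 : c e x ^ 4 ≤ B := (Finset.single_le_sum (f := fun e => c e x ^ 4)
      (fun e _ => by positivity) (Finset.mem_univ e)).trans hx
    refine abs_le.2 ⟨?_, ?_⟩ <;> nlinarith [sq_nonneg (c e x ^ 2 - 1), sq_nonneg (c e x - 1),
      sq_nonneg (c e x + 1)]
  set S : (ι → ℝ) → X → ℝ := fun g x => ∑ e, g e * c e x with hS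
  have mS : Measurable fun p : (ι → ℝ) × X => S p.1 p.2 := by simp only [hS]; fun_prop
  have iS : ∀ g, Integrable (fun x => exp (S g x)) ν := fun g =>
    .of_bound (mS.comp measurable_prodMk_left).exp.aestronglyMeasurable
      (exp (∑ e, |g e| * (1 + B))) (hb.mono fun x h => by
      rw [Real.norm_eq_abs, abs_exp, exp_le_exp]
      exact Finset.sum_le_sum fun e _ => (le_abs_self _).trans ((abs_mul _ _).trans_le
        (mul_le_mul_of_nonneg_left (h e) (abs_nonneg _))))
  have mZ : Measurable fun g => ∫ x, exp (S g x) ∂ν :=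
    (mS.exp.stronglyMeasurable.integral_prod_right' (ν := ν)).measurable
  have hP : ∀ g, IsProbabilityMeasure (ν.tilted (S g)) := fun g => isProbabilityMeasure_tilted (iS g)
  have ac : ∀ g, ν.tilted (S g) ≪ ν := fun g => tilted_absolutelyContinuous _ _
  refine ⟨mZ.log, fun e g => 3 * √(√(∫ x, c e x ^ 4 ∂ν.tilted (S g))), fun e => ?_,
    fun e g => by positivity, fun g => ?_, fun e g => ?_⟩
  · simp only [integral_tilted]
    have : Measurable fun p : (ι → ℝ) × X =>
        (exp (S p.1 p.2) / ∫ x, exp (S p.1 x) ∂ν) • c e p.2 ^ 4 :=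
      (mS.exp.div (mZ.comp measurable_fst)).mul (((hc e).comp measurable_snd).pow_const 4)
    exact (this.stronglyMeasurable.integral_prod_right' (ν := ν)).measurable.sqrt.sqrt.const_mul 3
  · have := hP g
    have i : ∀ e, Integrable (fun x => c e x ^ 4) (ν.tilted (S g)) := fun e =>
      .of_bound ((hc e).pow_const 4).aestronglyMeasurable ((1 + B) ^ 4)
        ((ac g).ae_le (hb.mono fun x h => by
          rw [Real.norm_eq_abs, abs_pow]; exact pow_le_pow_left₀ (abs_nonneg _) (h e) 4))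
    have r4 := fun e => rt4 (a := ∫ x, c e x ^ 4 ∂ν.tilted (S g))
      (integral_nonneg fun x => by positivity)
    simp only [mul_pow, r4]
    rw [← Finset.mul_sum, ← integral_finsetSum _ fun e _ => i e]
    have h1 : ∫ x, ∑ e, c e x ^ 4 ∂ν.tilted (S g) ≤ B := by
      refine (integral_mono_ae (integrable_finsetSum _ fun e _ => i e) (integrable_const B)
        ((ac g).ae_le hB)).trans_eq (by simp)
    nlinarith
  · have := hP g
    obtain ⟨h1, h2⟩ := cgf_dm (ν.tilted (S g)) (hc e) ((ac g).ae_le (hb.mono fun x h => h e))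
    have e0 : (fun x => log (∫ y, exp (S (update g e x) y) ∂ν)) =
        fun x => log (∫ y, exp (S g y) ∂ν) + log (mgf (c e) (ν.tilted (S g)) (x - g e)) := by
      funext x
      have : S g + (fun y => (x - g e) * c e y) = S (update g e x) := funext fun y => by
        have : ∀ i, update g e x i * c i y =
            g i * c i y + if i = e then (x - g e) * c e y else 0 := fun i => by
          by_cases hi : i = e
          · subst hi; simp; ring
          · simp [hi]
        simp [hS, this, Finset.sum_add_distrib]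
      rw [mgf, integral_exp_tilted, this, log_div (integral_exp_pos (iS _)).ne'
        (integral_exp_pos (iS _)).ne']
      ring
    show ContDiff ℝ 4 (fun x => log (∫ y, exp (S (update g e x) y) ∂ν)) ∧
      Dm (fun x => log (∫ y, exp (S (update g e x) y) ∂ν)) _ _ _
    rw [e0]
    refine ⟨contDiff_const.add (h1.comp (contDiff_id.sub contDiff_const)), fun j hj => ?_⟩
    rw [dv, iteratedDeriv_const_add (by have := hj.1; omega),
      iteratedDeriv_comp_sub_const (f := fun t => log (mgf (c e) (ν.tilted (S g)) t))]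
    simpa only [sub_self] using h2 j hj

end Crest.Agent.T157.Cw

end
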