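import Crest.Agent.T157.CwTr_72

/-!
# Row 157, coin windows: tools for the Schatten expansion (helper72)
-/

set_option autoImplicit false

noncomputable section

namespace Crest.Agent.T157.CwSch

open Matrix Finset Metric Filter Topology Crest.Agent.T157.CwTr
open scoped Matrix.Norms.L2Operator

variable {ι : Type*} [Fintype ι] [DecidableEq ι]

/-- quadratic form bounded by `r` -/
def Qb (Y : Matrix ι ι ℝ) (r : ℝ) : Prop := Yᵀ = Y ∧ ∀ x : ι → ℝ, |x ⬝ᵥ Y *ᵥ x| ≤ r * (x ⬝ᵥ x)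

/-- complexification -/
abbrev cx (Y : Matrix ι ι ℝ) : Matrix ι ι ℂ := Y.map ((↑) : ℝ → ℂ)

omit [DecidableEq ι] in
lemma Qb.sq_le {Y : Matrix ι ι ℝ} {r : ℝ} (h : Qb Y r) (hr : 0 < r) (w : ι → ℝ) :
    (Y *ᵥ w) ⬝ᵥ (Y *ᵥ w) ≤ r ^ 2 * (w ⬝ᵥ w) := by
  have sy : ∀ u v : ι → ℝ, u ⬝ᵥ Y *ᵥ v = v ⬝ᵥ Y *ᵥ u := fun u v => by
    rw [dotProduct_mulVec, ← mulVec_transpose, h.1, dotProduct_comm]
  have h1 := (abs_le.1 (h.2 (Y *ᵥ w + r • w))).2
  have h2 := (abs_le.1 (h.2 (Y *ᵥ w - r • w))).1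
  simp only [mulVec_add, mulVec_sub, mulVec_smul, add_dotProduct, dotProduct_add, sub_dotProduct,
    dotProduct_sub, smul_dotProduct, dotProduct_smul, smul_eq_mul] at h1 h2
  rw [sy w (Y *ᵥ w)] at h1 h2
  nlinarith

lemma Qb.row {Y : Matrix ι ι ℝ} {r : ℝ} (h : Qb Y r) (hr : 0 < r) (i : ι) :
    ∑ j, Y i j ^ 2 ≤ r ^ 2 := by
  have := h.sq_le hr (Pi.single i 1)
  simp only [mulVec_single_one, dotProduct_single, Pi.single_eq_same, mul_one] at this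
  refine le_trans (le_of_eq (sum_congr rfl fun j _ => ?_)) this
  have : Y i j = Y j i := by rw [← h.1, transpose_apply, h.1]
  simp [this, sq]

lemma Qb.diag {Y : Matrix ι ι ℝ} {r : ℝ} (h : Qb Y r) (i : ι) : |Y i i| ≤ r := by
  simpa using h.2 (Pi.single i 1)

lemma Qb.cnorm {Y : Matrix ι ι ℝ} {r : ℝ} (h : Qb Y r) (hr : 0 < r) : ‖cx Y‖ ≤ r := by
  rw [l2_opNorm_def]
  refine ContinuousLinearMap.opNorm_le_bound _ hr.le fun x => ?_
  refine (abs_le_of_sq_le_sq' ?_ (by positivity)).2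
  rw [mul_pow, EuclideanSpace.norm_sq_eq, EuclideanSpace.norm_sq_eq]
  have h1 := h.sq_le hr fun j => (x j).re
  have h2 := h.sq_le hr fun j => (x j).im
  have e : ∀ i, ‖∑ j, (Y i j : ℂ) * x j‖ ^ 2 = (Y *ᵥ fun j => (x j).re) i * (Y *ᵥ fun j => (x j).re) i +
      (Y *ᵥ fun j => (x j).im) i * (Y *ᵥ fun j => (x j).im) i := fun i => by
    rw [Complex.sq_norm, Complex.normSq_apply]
    simp [mulVec, dotProduct]
  have e2 : ∑ i, ‖x i‖ ^ 2 = (fun j => (x j).re) ⬝ᵥ (fun j => (x j).re) +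
      (fun j => (x j).im) ⬝ᵥ fun j => (x j).im := by
    simp only [dotProduct, ← sum_add_distrib, Complex.sq_norm, Complex.normSq_apply]
  rw [e2]
  refine le_trans (le_of_eq ?_) ((add_le_add h1 h2).trans (le_of_eq (by ring)))
  simp only [dotProduct, ← sum_add_distrib]
  exact sum_congr rfl fun i _ => e i

lemma Qb.sub {Y : Matrix ι ι ℝ} {r a s : ℝ} (h : Qb Y r) (ha : |a| ≤ s) :
    Qb (Y - a • (1 : Matrix ι ι ℝ)) (r + s) := by
  refine ⟨by simp [h.1], fun x => ?_⟩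
  have h0 : 0 ≤ x ⬝ᵥ x := sum_nonneg fun i _ => mul_self_nonneg _
  rw [sub_mulVec, smul_mulVec, one_mulVec, dotProduct_sub, dotProduct_smul, smul_eq_mul]
  refine (abs_sub _ _).trans ?_
  rw [abs_mul, abs_of_nonneg h0, add_mul]
  exact add_le_add (h.2 x) (mul_le_mul_of_nonneg_right ha h0)

/-- division by `z²` -/
lemma exists_G {H : ℂ → ℂ} {r K : ℝ} (hr : 0 < r) (hd : DifferentiableOn ℂ H (ball 0 r))
    (hb : ∀ z ∈ ball (0 : ℂ) r, ‖H z‖ ≤ K * ‖z‖ ^ 2) :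
    ∃ G : ℂ → ℂ, DifferentiableOn ℂ G (ball 0 r) ∧ (∀ z ∈ ball (0 : ℂ) r, ‖G z‖ ≤ K) ∧
      ∀ z ∈ ball (0 : ℂ) r, H z = z ^ 2 * G z := by
  have hn := ball_mem_nhds (0 : ℂ) hr
  have one : ∀ (H : ℂ → ℂ), DifferentiableOn ℂ H (ball 0 r) → H 0 = 0 →
      DifferentiableOn ℂ (dslope H 0) (ball 0 r) ∧ ∀ z, H z = z * dslope H 0 z := fun H hd h0 =>
    ⟨(Complex.differentiableOn_dslope hn).2 hd, fun z => by
      have := sub_smul_dslope H 0 z
      rw [sub_zero, h0, sub_zero, smul_eq_mul] at this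
      exact this.symm⟩
  have lim : ∀ (G : ℂ → ℂ) (f : ℂ → ℝ), DifferentiableOn ℂ G (ball 0 r) → Continuous f →
      (∀ z ∈ ball (0 : ℂ) r, z ≠ 0 → ‖G z‖ ≤ f z) → ‖G 0‖ ≤ f 0 := fun G f hG hf h =>
    le_of_tendsto_of_tendsto (b := 𝓝[≠] (0 : ℂ))
      ((hG.continuousOn.continuousAt hn).norm.tendsto.mono_left nhdsWithin_le_nhds)
      (hf.continuousAt.tendsto.mono_left nhdsWithin_le_nhds)
      (by filter_upwards [mem_nhdsWithin_of_mem_nhds hn, self_mem_nhdsWithin] with z h1 h2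
          exact h z h1 h2)
  have h0 : H 0 = 0 := by simpa using hb 0 (mem_ball_self hr)
  obtain ⟨d1, e1⟩ := one H hd h0
  have b1 : ∀ z ∈ ball (0 : ℂ) r, z ≠ 0 → ‖dslope H 0 z‖ ≤ K * ‖z‖ := fun z hz h => by
    have := hb z hz
    rw [e1 z, norm_mul] at this
    exact le_of_mul_le_mul_left (this.trans (le_of_eq (by ring))) (norm_pos_iff.2 h)
  have h1 : dslope H 0 0 = 0 := by
    simpa using lim _ (fun z => K * ‖z‖) d1 (by fun_prop) b1
  obtain ⟨d2, e2⟩ := one _ d1 h1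
  have b2 : ∀ z ∈ ball (0 : ℂ) r, z ≠ 0 → ‖dslope (dslope H 0) 0 z‖ ≤ K := fun z hz h => by
    have := b1 z hz h
    rw [e2 z, norm_mul] at this
    exact le_of_mul_le_mul_left (this.trans (le_of_eq (by ring))) (norm_pos_iff.2 h)
  refine ⟨_, d2, fun z hz => ?_, fun z _ => by rw [e1 z, e2 z]; ring⟩
  by_cases h : z = 0
  · subst h; exact lim _ (fun _ => K) d2 continuous_const b2
  · exact b2 z hz h

/-- the normalised perturbation -/
def Yt (Y B : Matrix ι ι ℝ) (a : ℝ) (z : ℂ) : Matrix ι ι ℂ :=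
  (z / (1 + a * z)) • (cx (Y - a • 1) - z • cx B)

/-- the normalised matrix -/
def Nz (μ : ι → ℝ) (Y B : Matrix ι ι ℝ) (a : ℝ) (z : ℂ) : Matrix ι ι ℂ :=
  dg μ + dg (fun i => √(μ i)) * Yt Y B a z * dg fun i => √(μ i)

lemma den {a : ℝ} (ha : |a| ≤ 2) {z : ℂ} (hz : ‖z‖ ≤ 1 / 4) :
    1 / 2 ≤ ‖1 + a * z‖ ∧ ‖1 + a * z‖ ≤ 3 / 2 := by
  have h : ‖(a : ℂ) * z‖ ≤ 1 / 2 := by
    rw [norm_mul, Complex.norm_real, Real.norm_eq_abs]
    nlinarith [abs_nonneg a, norm_nonneg z]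
  have h1 := norm_add_le (1 : ℂ) (a * z)
  have h2 := norm_sub_le (1 + (a : ℂ) * z) (a * z)
  simp only [norm_one, add_sub_cancel_right] at h1 h2
  constructor <;> linarith

lemma frac {a : ℝ} (ha : |a| ≤ 2) {z : ℂ} (hz : ‖z‖ ≤ 1 / 4) : ‖z / (1 + a * z)‖ ≤ 2 * ‖z‖ := by
  have h := (den ha hz).1
  rw [norm_div, div_le_iff₀ (by linarith)]
  nlinarith [norm_nonneg z]

lemma sand (μ : ι → ℝ) (X : Matrix ι ι ℂ) (i j : ι) :
    (dg (fun i => √(μ i)) * X * dg fun i => √(μ i)) i j = (√(μ i) * √(μ j) : ℝ) * X i j := by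
  rw [dg, mul_diagonal, diagonal_mul]; push_cast; ring

/-- the bound of the relative change of the trace -/
lemma dev_le {μ : ι → ℝ} (hμ : ∀ i, 0 ≤ μ i) {Y B : Matrix ι ι ℝ} {a T v b : ℝ} (k : ℕ)
    (hY : Qb Y 2) (hB : Qb B 1) (hB2 : ∀ i, ∑ j, B i j ^ 2 ≤ B i i) (ha : |a| ≤ 2)
    (hT : T = ∑ i, μ i ^ (k + 2)) (haT : a * T = ∑ i, μ i ^ (k + 2) * Y i i)
    (hb : b * T = ∑ i, μ i ^ (k + 2) * B i i)
    (hv : v * T = ∑ i, μ i ^ (k + 2) * ∑ j, (Y - a • (1 : Matrix ι ι ℝ)) i j ^ 2)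
    {z : ℂ} (hz : ‖z‖ ≤ 1 / 25 / (k + 2)) :
    ‖(Nz μ Y B a z ^ (k + 2)).trace - T‖ ≤ 50 * (k + 2) ^ 2 * ‖z‖ ^ 2 * (v * T + b * T) := by
  have k0 : (0 : ℝ) ≤ k := Nat.cast_nonneg k
  have z0 := norm_nonneg z
  have hz' : ‖z‖ * (k + 2) ≤ 1 / 25 := (le_div_iff₀ (by positivity)).1 hz
  have z1 : ‖z‖ ≤ 1 / 4 := by nlinarith
  have hf := frac ha z1
  have hX := hY.sub ha
  set X := Y - a • (1 : Matrix ι ι ℝ) with hXd
  have nY : ‖Yt Y B a z‖ ≤ 10 * ‖z‖ := by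
    rw [Yt, norm_smul]
    have h1 : ‖cx X - z • cx B‖ ≤ 5 := by
      refine (norm_sub_le _ _).trans ?_
      rw [norm_smul]
      have := hX.cnorm (by norm_num)
      have := hB.cnorm one_pos
      nlinarith [norm_nonneg (cx B)]
    exact (mul_le_mul hf h1 (norm_nonneg _) (by positivity)).trans (le_of_eq (by ring))
  have h2 := tr_second hμ (by positivity) (rel (μ := μ) nY) k
  set Z := dg (fun i => √(μ i)) * Yt Y B a z * dg fun i => √(μ i) with hZ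
  have ent : ∀ i j, Yt Y B a z i j = z / (1 + a * z) * (X i j - z * B i j) := fun i j => by
    simp [Yt, hXd]
  have nent : ∀ i j, ‖Yt Y B a z i j‖ ^ 2 ≤ 8 * ‖z‖ ^ 2 * (X i j ^ 2 + B i j ^ 2) := fun i j => by
    rw [ent, norm_mul, mul_pow]
    have h1 : ‖(X i j : ℂ) - z * B i j‖ ≤ |X i j| + |B i j| := by
      refine (norm_sub_le _ _).trans ?_
      rw [norm_mul, Complex.norm_real, Complex.norm_real, Real.norm_eq_abs, Real.norm_eq_abs]
      nlinarith [abs_nonneg (B i j)]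
    have h3 : ‖(X i j : ℂ) - z * B i j‖ ^ 2 ≤ 2 * (X i j ^ 2 + B i j ^ 2) := by
      refine (pow_le_pow_left₀ (norm_nonneg _) h1 2).trans ?_
      nlinarith [sq_abs (X i j), sq_abs (B i j), sq_nonneg (|X i j| - |B i j|)]
    exact (mul_le_mul (pow_le_pow_left₀ (norm_nonneg _) hf 2) h3 (by positivity)
      (by positivity)).trans (le_of_eq (by ring))
  have sX : ∀ i j, X j i = X i j := fun i j => by rw [← hX.1, transpose_apply, hX.1]
  have sB : ∀ i j, B j i = B i j := fun i j => by rw [← hB.1, transpose_apply, hB.1]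
  have hlo : ∀ i, lo μ Z i ≤ μ i ^ 2 * (16 * ‖z‖ ^ 2 * (∑ j, X i j ^ 2 + B i i)) := fun i => by
    have : ∀ j ∈ univ.filter fun j => μ j ≤ μ i, ‖Z i j‖ ^ 2 + ‖Z j i‖ ^ 2 ≤
        μ i ^ 2 * (16 * ‖z‖ ^ 2 * (X i j ^ 2 + B i j ^ 2)) := fun j hj => by
      have hj' := (mem_filter.1 hj).2
      rw [hZ, sand, sand, norm_mul, norm_mul, mul_pow, mul_pow, Complex.norm_real, Complex.norm_real,
        Real.norm_eq_abs, Real.norm_eq_abs, sq_abs, sq_abs, mul_pow, mul_pow, Real.sq_sqrt (hμ i),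
        Real.sq_sqrt (hμ j)]
      have a1 := nent i j
      have a2 := nent j i
      rw [sX, sB] at a2
      have a3 : μ i * μ j ≤ μ i ^ 2 := by nlinarith [hμ i]
      have a4 := mul_le_mul a3 (add_le_add a1 a2) (by positivity) (by positivity)
      nlinarith
    refine (sum_le_sum this).trans ((sum_le_univ_sum_of_nonneg fun j => by positivity).trans ?_)
    rw [← mul_sum, ← mul_sum, sum_add_distrib]
    gcongr
    exact hB2 i
  have hs : ∑ i, μ i ^ k * lo μ Z i ≤ 16 * ‖z‖ ^ 2 * (v * T + b * T) := by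
    rw [hv, hb, ← sum_add_distrib, mul_sum]
    exact sum_le_sum fun i _ => (mul_le_mul_of_nonneg_left (hlo i) (pow_nonneg (hμ i) k)).trans
      (le_of_eq (by ring))
  have vT : 0 ≤ v * T := hv ▸ sum_nonneg fun i _ => mul_nonneg (pow_nonneg (hμ i) _) (by positivity)
  have bT : 0 ≤ b * T := hb ▸ sum_nonneg fun i _ => mul_nonneg (pow_nonneg (hμ i) _)
    (le_trans (by positivity) (hB2 i))
  have h3 : (1 + 10 * ‖z‖) ^ k ≤ 3 := by
    refine (pow_le_pow_left₀ (by positivity) (by simpa [add_comm] using Real.add_one_le_exp (10 * ‖z‖))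
      k).trans ?_
    rw [← Real.exp_nat_mul]
    exact (Real.exp_le_exp.2 (by nlinarith : _ ≤ (1 : ℝ))).trans
      (Real.exp_one_lt_d9.le.trans (by norm_num))
  have h4 : ∑ i, (μ i : ℂ) ^ (k + 1) * Z i i = -(z / (1 + a * z) * z * (b * T : ℝ)) := by
    have e : ∀ i, (μ i : ℂ) ^ (k + 1) * Z i i = z / (1 + a * z) * ((μ i ^ (k + 2) * Y i i : ℝ) -
        a * (μ i ^ (k + 2) : ℝ) - z * (μ i ^ (k + 2) * B i i : ℝ)) := fun i => by
      rw [hZ, sand, Real.mul_self_sqrt (hμ i), ent]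
      simp only [hXd, Matrix.sub_apply, Matrix.smul_apply, one_apply_eq, smul_eq_mul, mul_one]
      push_cast; ring
    rw [sum_congr rfl fun i _ => e i, ← mul_sum, sum_sub_distrib, sum_sub_distrib, ← mul_sum,
      ← mul_sum, ← Complex.ofReal_sum, ← Complex.ofReal_sum, ← Complex.ofReal_sum, ← haT, ← hb, ← hT]
    push_cast; ring
  have h5 : (T : ℂ) = ∑ i, (μ i : ℂ) ^ (k + 2) := by rw [hT]; push_cast; rfl
  rw [h4, ← h5] at h2
  have h6 : ‖((k : ℂ) + 2) * -(z / (1 + a * z) * z * (b * T : ℝ))‖ ≤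
      (k + 2) * (2 * ‖z‖ * ‖z‖ * (b * T)) := by
    rw [norm_mul, norm_neg, norm_mul, norm_mul, Complex.norm_real, Real.norm_of_nonneg bT]
    have : ‖(k : ℂ) + 2‖ = k + 2 := by exact_mod_cast Complex.norm_natCast (k + 2)
    rw [this]
    gcongr
  have h7 := (norm_add_le _ _).trans (add_le_add h2 h6)
  rw [sub_add_cancel] at h7
  refine h7.trans ?_
  have h8 : (k + 2 : ℝ) ^ 2 * (1 + 10 * ‖z‖) ^ k * ∑ i, μ i ^ k * lo μ Z i ≤
      (k + 2) ^ 2 * 3 * (16 * ‖z‖ ^ 2 * (v * T + b * T)) :=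
    mul_le_mul (by gcongr) hs (sum_nonneg fun i _ => mul_nonneg (pow_nonneg (hμ i) _)
      (sum_nonneg fun j _ => by positivity)) (by positivity)
  have h9 : (k + 2 : ℝ) * (‖z‖ ^ 2 * (b * T)) ≤ (k + 2) ^ 2 * (‖z‖ ^ 2 * (v * T + b * T)) :=
    mul_le_mul (by nlinarith) (by gcongr; linarith) (by positivity) (by positivity)
  nlinarith

end Crest.Agent.T157.CwSch

end
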