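import Crest.Agent.T157.CwSchA_72

/-!
# Row 157, coin windows: the Schatten expansion in the eigenbasis (helper72)
-/

set_option autoImplicit false

noncomputable section

namespace Crest.Agent.T157.CwSch

open Matrix Finset Metric Filter Topology Crest.Agent.T157.CwTr
open scoped Matrix.Norms.L2Operator

variable {ι : Type*} [Fintype ι] [DecidableEq ι]

/-- square root of the diagonal matrix -/
def Sq (μ : ι → ℝ) : Matrix ι ι ℝ := diagonal fun i => √(μ i)

/-- real normalised perturbation over `t` -/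
def Wr (Y B : Matrix ι ι ℝ) (a t : ℝ) : Matrix ι ι ℝ := (1 + a * t)⁻¹ • (Y - a • 1 - t • B)

/-- real normalised matrix -/
def Nr (μ : ι → ℝ) (Y B : Matrix ι ι ℝ) (a t : ℝ) : Matrix ι ι ℝ :=
  diagonal μ + Sq μ * (t • Wr Y B a t) * Sq μ

lemma sandr (μ : ι → ℝ) (X : Matrix ι ι ℝ) (i j : ι) :
    (Sq μ * X * Sq μ) i j = √(μ i) * √(μ j) * X i j := by
  rw [Sq, mul_diagonal, diagonal_mul]; ring

lemma Nz_real (μ : ι → ℝ) (Y B : Matrix ι ι ℝ) (a t : ℝ) (k : ℕ) :
    (Nz μ Y B a t ^ k).trace = ((Nr μ Y B a t ^ k).trace : ℝ) := by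
  have : Nz μ Y B a t = Complex.ofRealHom.mapMatrix (Nr μ Y B a t) := by
    ext i j
    rw [Nz, Nr, RingHom.mapMatrix_apply, map_apply, Matrix.add_apply, Matrix.add_apply, sand, sandr]
    simp only [dg, diagonal_apply, Yt, Wr, Matrix.smul_apply, Matrix.sub_apply, map_apply, smul_eq_mul,
      Complex.ofRealHom_eq_coe]
    split_ifs <;> push_cast <;> ring
  rw [this, ← map_pow, RingHom.mapMatrix_apply]
  simp [trace]

lemma diff_tr (μ : ι → ℝ) (Y B : Matrix ι ι ℝ) (a : ℝ) (k : ℕ) {s : Set ℂ}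
    (hs : ∀ z ∈ s, 1 + a * z ≠ 0) : DifferentiableOn ℂ (fun z => (Nz μ Y B a z ^ k).trace) s := by
  have h1 : ∀ i j, DifferentiableOn ℂ (fun z => Nz μ Y B a z i j) s := fun i j => by
    simp only [Nz, Matrix.add_apply, sand, Yt, Matrix.smul_apply, Matrix.sub_apply, smul_eq_mul]
    fun_prop (disch := assumption)
  have h2 : ∀ k i j, DifferentiableOn ℂ (fun z => (Nz μ Y B a z ^ k) i j) s := fun k => by
    induction k with
    | zero => intro i j; simp only [pow_zero]; fun_prop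
    | succ k ih =>
      intro i j
      simp only [pow_succ, mul_apply]
      exact DifferentiableOn.fun_sum fun l _ => (ih i l).mul (h1 l j)
  exact DifferentiableOn.fun_sum fun i _ => h2 k i i

lemma Sq_sq {μ : ι → ℝ} (hμ : ∀ i, 0 ≤ μ i) : Sq μ * Sq μ = diagonal μ := by
  rw [Sq, diagonal_mul_diagonal]
  exact congrArg _ (funext fun i => Real.mul_self_sqrt (hμ i))

lemma scale {μ : ι → ℝ} (hμ : ∀ i, 0 ≤ μ i) (Y B : Matrix ι ι ℝ) {a t : ℝ} (h : 1 + a * t ≠ 0) :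
    Sq μ * (1 + t • Y - t ^ 2 • B) * Sq μ = (1 + a * t) • Nr μ Y B a t := by
  rw [Nr, ← Sq_sq hμ]
  have : (1 + t • Y - t ^ 2 • B) = (1 + a * t) • (1 + t • Wr Y B a t) := by
    rw [Wr, smul_add, smul_comm t, smul_smul, mul_inv_cancel₀ h, one_smul]
    module
  rw [this, mul_smul_comm, smul_mul_assoc, mul_add, add_mul, mul_one]

lemma Nr_psd {μ : ι → ℝ} (hμ : ∀ i, 0 ≤ μ i) {Y B : Matrix ι ι ℝ} {a t : ℝ} (hY : Qb Y 2)
    (hB : Qb B 1) (ha : |a| ≤ 2) (ht : |t| ≤ 1 / 4) : (Nr μ Y B a t).PosSemidef := by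
  have h1 : 1 / 2 ≤ 1 + a * t := by
    have : |a * t| ≤ 1 / 2 := by rw [abs_mul]; nlinarith [abs_nonneg a, abs_nonneg t]
    linarith [(abs_le.1 this).1]
  have h2 : (1 + t • Y - t ^ 2 • B).PosSemidef := by
    refine posSemidef_iff_dotProduct_mulVec.2 ⟨?_, fun x => ?_⟩
    · simp [IsHermitian, hY.1, hB.1]
    · have h0 : 0 ≤ x ⬝ᵥ x := sum_nonneg fun i _ => mul_self_nonneg _
      have a1 := hY.2 x
      have a2 := (abs_le.1 (hB.2 x)).2
      have a3 : |t * (x ⬝ᵥ Y *ᵥ x)| ≤ 1 / 4 * (2 * (x ⬝ᵥ x)) := by rw [abs_mul]; gcongr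
      have a4 : t ^ 2 ≤ 1 / 16 := by nlinarith [abs_nonneg t, sq_abs t]
      simp only [star_trivial, sub_mulVec, add_mulVec, smul_mulVec, one_mulVec, dotProduct_sub,
        dotProduct_add, dotProduct_smul, smul_eq_mul]
      nlinarith [(abs_le.1 a3).1, sq_nonneg t]
  have h3 := h2.conjTranspose_mul_mul_same (Sq μ)
  have h4 : (Sq μ)ᴴ = Sq μ := by simp [Sq]
  rw [h4, scale hμ Y B (a := a) (by linarith)] at h3
  have := h3.smul (inv_nonneg.2 (by linarith : 0 ≤ 1 + a * t))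
  rwa [smul_smul, inv_mul_cancel₀ (by linarith), one_smul] at this

set_option maxHeartbeats 800000 in
/-- the expansion in the eigenbasis -/
theorem core {μ : ι → ℝ} (hμ : ∀ i, 0 ≤ μ i) {Y B : Matrix ι ι ℝ} {a T v b ρ : ℝ} (k : ℕ)
    (hY : Qb Y 2) (hB : Qb B 1) (hB2 : ∀ i, ∑ j, B i j ^ 2 ≤ B i i) (ha : |a| ≤ 2)
    (hT : T = ∑ i, μ i ^ (k + 2)) (T0 : 0 < T) (haT : a * T = ∑ i, μ i ^ (k + 2) * Y i i)
    (hb : b * T = ∑ i, μ i ^ (k + 2) * B i i)
    (hv : v * T = ∑ i, μ i ^ (k + 2) * ∑ j, (Y - a • (1 : Matrix ι ι ℝ)) i j ^ 2)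
    (v0 : 0 ≤ v) (b0 : 0 ≤ b) (hvb : v + b ≤ 5) (hρ : ∀ i j, ρ * μ i ≤ μ j) (ρ0 : 0 ≤ ρ) :
    ∃ (q : ℝ → ℝ) (G : ℂ → ℂ), DifferentiableOn ℂ G (ball 0 (1 / 25 / (k + 2))) ∧
      (∀ t : ℝ, |t| < 1 / 25 / (k + 2) → G t = q t) ∧
      (∀ z ∈ ball (0 : ℂ) (1 / 25 / (k + 2)), ‖G z‖ ≤ 300 * (k + 2) * (v + b)) ∧
      ρ / 2 * v - b ≤ q 0 ∧ ∀ u : ℝ, |u| < 1 / 25 / (k + 2) →
        ((Sq μ * (1 + u • Y - u ^ 2 • B) * Sq μ) ^ (k + 2)).trace ^ ((k : ℝ) + 2)⁻¹ =
          T ^ ((k : ℝ) + 2)⁻¹ * (1 + a * u + u ^ 2 * q u) := by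
  have k0 : (0 : ℝ) ≤ k := Nat.cast_nonneg k
  set r : ℝ := 1 / 25 / (k + 2) with hr
  have r0 : 0 < r := by positivity
  have r1 : r ≤ 1 / 4 := by rw [hr, div_le_iff₀ (by positivity)]; nlinarith
  set K := 50 * (k + 2 : ℝ) ^ 2 * (v + b) with hK
  set D : ℂ → ℂ := fun z => (Nz μ Y B a z ^ (k + 2)).trace / T - 1 with hD
  have zb : ∀ z ∈ ball (0 : ℂ) r, ‖z‖ ≤ r := fun z hz => (mem_ball_zero_iff.1 hz).le
  have Db : ∀ z ∈ ball (0 : ℂ) r, ‖D z‖ ≤ K * ‖z‖ ^ 2 := fun z hz => by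
    have h := dev_le hμ k hY hB hB2 ha hT haT hb hv (zb z hz)
    have T0' : (T : ℂ) ≠ 0 := by exact_mod_cast T0.ne'
    rw [hD]
    simp only
    rw [div_sub_one T0', norm_div, Complex.norm_real, Real.norm_of_nonneg T0.le, div_le_iff₀ T0]
    exact h.trans (le_of_eq (by rw [hK]; ring))
  have Dh : ∀ z ∈ ball (0 : ℂ) r, ‖D z‖ ≤ 1 / 2 := fun z hz => by
    refine (Db z hz).trans ?_
    have h1 : ‖z‖ * (k + 2) ≤ 1 / 25 := (le_div_iff₀ (by positivity)).1 (zb z hz)
    have h2 := pow_le_pow_left₀ (by positivity) h1 2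
    have h3 := mul_le_mul h2 hvb (by positivity) (by positivity)
    rw [hK]; nlinarith
  have dn := fun z hz => den ha ((zb z hz).trans r1)
  have dD : DifferentiableOn ℂ D (ball 0 r) := ((diff_tr μ Y B a (k + 2) fun z hz h => by
    have := (dn z hz).1; rw [h, norm_zero] at this; linarith).div_const _).sub_const _
  set H : ℂ → ℂ := fun z => (1 + a * z) * (Complex.exp (Complex.log (1 + D z) / (k + 2)) - 1) with hH
  have dH : DifferentiableOn ℂ H (ball 0 r) := by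
    refine DifferentiableOn.mul (by fun_prop) (DifferentiableOn.sub_const
      (DifferentiableOn.cexp (DifferentiableOn.div_const
        ((dD.const_add 1).clog fun z hz => ?_) _)) _)
    exact Complex.mem_slitPlane_of_norm_lt_one ((Dh z hz).trans_lt (by norm_num))
  have nk : ‖(k : ℂ) + 2‖ = k + 2 := by exact_mod_cast Complex.norm_natCast (k + 2)
  have Hb : ∀ z ∈ ball (0 : ℂ) r, ‖H z‖ ≤ 300 * (k + 2) * (v + b) * ‖z‖ ^ 2 := fun z hz => by
    have h1 := Complex.norm_log_one_add_half_le_self (Dh z hz)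
    have h2 : ‖Complex.log (1 + D z) / (k + 2)‖ ≤ 3 / 2 * ‖D z‖ / (k + 2) := by
      rw [norm_div, nk]; gcongr
    have h3 := Complex.norm_exp_sub_one_le (h2.trans (by
      rw [div_le_one (by positivity)]; linarith [Dh z hz]))
    have h4 : 3 / 2 * ‖D z‖ / (k + 2) ≤ 75 * (k + 2) * (v + b) * ‖z‖ ^ 2 := by
      rw [div_le_iff₀ (by positivity)]
      have := Db z hz
      rw [hK] at this
      nlinarith
    rw [hH]
    simp only [norm_mul]
    refine (mul_le_mul (dn z hz).2 (h3.trans (mul_le_mul_of_nonneg_left (h2.trans h4) zero_le_two))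
      (norm_nonneg _) (by norm_num)).trans ?_
    have : 0 ≤ (k + 2 : ℝ) * (v + b) * ‖z‖ ^ 2 := by positivity
    nlinarith
  obtain ⟨G, dG, Gb, GH⟩ := exists_G r0 dH Hb
  -- real points
  set d : ℝ → ℝ := fun t => (Nr μ Y B a t ^ (k + 2)).trace / T - 1 with hd
  have mb : ∀ t : ℝ, |t| < r → (t : ℂ) ∈ ball (0 : ℂ) r := fun t ht => by
    simpa [mem_ball_zero_iff] using ht
  have Dd : ∀ t : ℝ, D t = d t := fun t => by rw [hD, hd]; simp only [Nz_real]; push_cast; rfl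
  have dh : ∀ t : ℝ, |t| < r → |d t| ≤ 1 / 2 ∧ |d t| ≤ K * t ^ 2 := fun t ht => by
    have h1 := Dh _ (mb t ht)
    have h2 := Db _ (mb t ht)
    rw [Dd, Complex.norm_real, Real.norm_eq_abs] at h1 h2
    rw [Complex.norm_real, Real.norm_eq_abs, sq_abs] at h2
    exact ⟨h1, h2⟩
  set h : ℝ → ℝ := fun t => (1 + a * t) * (Real.exp (Real.log (1 + d t) / (k + 2)) - 1) with hh
  have Hh : ∀ t : ℝ, |t| < r → H t = h t := fun t ht => by
    have : 0 ≤ 1 + d t := by linarith [(abs_le.1 (dh t ht).1).1]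
    rw [hH, hh]
    simp only [Dd]
    push_cast
    rw [Complex.ofReal_log this]
    push_cast; rfl
  have hq : ∀ t : ℝ, |t| < r → h t = t ^ 2 * (G t).re ∧ 0 = t ^ 2 * (G t).im := fun t ht => by
    have := GH _ (mb t ht)
    rw [Hh t ht, ← Complex.ofReal_pow] at this
    have a1 := congrArg Complex.re this
    have a2 := congrArg Complex.im this
    rw [Complex.re_ofReal_mul, Complex.ofReal_re] at a1
    rw [Complex.im_ofReal_mul, Complex.ofReal_im] at a2
    exact ⟨a1, a2⟩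
  have cG : ContinuousAt (fun t : ℝ => G t) 0 :=
    ContinuousAt.comp (by simpa using dG.continuousOn.continuousAt (ball_mem_nhds _ r0))
      Complex.continuous_ofReal.continuousAt
  have ev : ∀ᶠ t : ℝ in 𝓝[≠] 0, |t| < r ∧ t ≠ 0 := by
    filter_upwards [mem_nhdsWithin_of_mem_nhds (ball_mem_nhds (0 : ℝ) r0), self_mem_nhdsWithin]
      with t h1 h2
    exact ⟨by simpa [mem_ball_zero_iff] using h1, h2⟩
  have den1 : ∀ t : ℝ, |t| < r → 1 / 2 ≤ 1 + a * t := fun t ht => by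
    have : |a * t| ≤ 1 / 2 := by rw [abs_mul]; nlinarith [abs_nonneg a, abs_nonneg t]
    linarith [(abs_le.1 this).1]
  refine ⟨fun t => (G t).re, G, dG, fun t ht => ?_, Gb, ?_, fun u hu => ?_⟩
  · refine Complex.ext rfl ?_
    have im0 : ∀ t : ℝ, |t| < r → t ≠ 0 → (G t).im = 0 := fun t ht h0 =>
      (mul_eq_zero.1 (hq t ht).2.symm).resolve_left (pow_ne_zero 2 h0)
    by_cases h0 : t = 0
    · subst h0
      refine tendsto_nhds_unique (l := 𝓝[≠] (0 : ℝ))
        ((Complex.continuous_im.continuousAt.comp cG).tendsto.mono_left nhdsWithin_le_nhds)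
        (tendsto_const_nhds.congr' ?_)
      filter_upwards [ev] with t ht
      exact (im0 t ht.1 ht.2).symm
    · exact im0 t ht h0
  · set φ : ℝ → ℝ := fun t => (1 + a * t) * ((-((k + 2) * ((1 + a * t)⁻¹ * b)) +
      (k + 1) * (∑ i, μ i ^ k * ∑ j, μ i * μ j * Wr Y B a t i j ^ 2) / T - 2 * K ^ 2 * t ^ 2) / (k + 2))
      with hφ
    have cφ : ContinuousAt φ 0 := by
      simp only [hφ, Wr, Matrix.smul_apply, Matrix.sub_apply, smul_eq_mul]
      fun_prop (disch := simp)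
    have le : φ 0 ≤ (G (0 : ℝ)).re := by
      refine le_of_tendsto_of_tendsto (b := 𝓝[≠] (0 : ℝ)) (cφ.tendsto.mono_left nhdsWithin_le_nhds)
        ((Complex.continuous_re.continuousAt.comp cG).tendsto.mono_left nhdsWithin_le_nhds) ?_
      filter_upwards [ev] with t ht
      have t2 : 0 < t ^ 2 := by have := ht.2; positivity
      refine le_of_mul_le_mul_left ?_ t2
      rw [Function.comp_apply, ← (hq t ht.1).1, hh, hφ]
      have d1 := den1 t ht.1
      have low := tr_low hμ (Nr_psd hμ hY hB ha (ht.1.le.trans r1)) k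
      have e1 : ∑ i, μ i ^ (k + 1) * (Sq μ * (t • Wr Y B a t) * Sq μ) i i =
          -(t ^ 2 * ((1 + a * t)⁻¹ * (b * T))) := by
        have e : ∀ i, μ i ^ (k + 1) * (Sq μ * (t • Wr Y B a t) * Sq μ) i i = t * (1 + a * t)⁻¹ *
            (μ i ^ (k + 2) * Y i i - a * μ i ^ (k + 2) - t * (μ i ^ (k + 2) * B i i)) := fun i => by
          rw [sandr, Real.mul_self_sqrt (hμ i)]
          simp only [Wr, Matrix.sub_apply, Matrix.smul_apply, one_apply_eq, smul_eq_mul]
          ring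
        rw [sum_congr rfl fun i _ => e i, ← mul_sum, sum_sub_distrib, sum_sub_distrib, ← mul_sum,
          ← mul_sum, ← haT, ← hb, ← hT]
        ring
      have e2 : ∑ i, μ i ^ k * ∑ j, (Sq μ * (t • Wr Y B a t) * Sq μ) i j ^ 2 =
          t ^ 2 * ∑ i, μ i ^ k * ∑ j, μ i * μ j * Wr Y B a t i j ^ 2 := by
        rw [mul_sum]
        refine sum_congr rfl fun i _ => ?_
        rw [mul_left_comm, mul_sum _ _ (t ^ 2)]
        refine congrArg _ (sum_congr rfl fun j _ => ?_)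
        rw [sandr, mul_pow, mul_pow, Real.sq_sqrt (hμ i), Real.sq_sqrt (hμ j), Matrix.smul_apply,
          smul_eq_mul]
        ring
      rw [e1, e2, ← hT] at low
      set S := ∑ i, μ i ^ k * ∑ j, μ i * μ j * Wr Y B a t i j ^ 2
      have l1 : t ^ 2 * (-((k + 2) * ((1 + a * t)⁻¹ * b)) + (k + 1) * S / T) ≤ d t := by
        rw [hd]
        simp only
        rw [le_sub_iff_add_le, le_div_iff₀ T0]
        refine le_trans (le_of_eq ?_) low
        field_simp
        ring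
      obtain ⟨g1, g2⟩ := dh t ht.1
      have p1 : 0 < 1 + d t := by linarith [(abs_le.1 g1).1]
      have l2 := Real.one_sub_inv_le_log_of_pos p1
      have l3 : d t - 2 * d t ^ 2 ≤ 1 - (1 + d t)⁻¹ := by
        have : (1 + d t)⁻¹ ≤ 1 - d t + 2 * d t ^ 2 := by
          rw [inv_le_iff_one_le_mul₀ p1]
          nlinarith [(abs_le.1 g1).1, sq_nonneg (d t)]
        linarith
      have l4 : d t ^ 2 ≤ (K * t ^ 2) ^ 2 := by
        rw [← sq_abs]; exact pow_le_pow_left₀ (abs_nonneg _) g2 2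
      have l5 := Real.add_one_le_exp (Real.log (1 + d t) / (k + 2))
      simp only
      rw [mul_left_comm]
      refine mul_le_mul_of_nonneg_left (le_trans ?_ (le_sub_iff_add_le.2 l5)) (by linarith)
      rw [← mul_div_assoc]
      refine div_le_div_of_nonneg_right ?_ (by positivity)
      have l6 : t ^ 2 * (-((k + 2) * ((1 + a * t)⁻¹ * b)) + (k + 1) * S / T - 2 * K ^ 2 * t ^ 2) =
          t ^ 2 * (-((k + 2) * ((1 + a * t)⁻¹ * b)) + (k + 1) * S / T) - 2 * (K * t ^ 2) ^ 2 := by ring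
      rw [l6]
      linarith
    refine le_trans ?_ le
    have s1 : ρ * (v * T) ≤ ∑ i, μ i ^ k * ∑ j, μ i * μ j * Wr Y B a 0 i j ^ 2 := by
      rw [hv, mul_sum]
      refine sum_le_sum fun i _ => ?_
      simp only [mul_sum, Wr, mul_zero, add_zero, inv_one, one_smul, zero_smul, sub_zero]
      refine sum_le_sum fun j _ => ?_
      have := mul_le_mul_of_nonneg_right (hρ i j) (mul_nonneg (pow_nonneg (hμ i) (k + 1))
        (sq_nonneg ((Y - a • (1 : Matrix ι ι ℝ)) i j)))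
      exact le_trans (le_of_eq (by ring)) (this.trans (le_of_eq (by ring)))
    have s2 : ρ * v ≤ (∑ i, μ i ^ k * ∑ j, μ i * μ j * Wr Y B a 0 i j ^ 2) / T := by
      rw [le_div_iff₀ T0]; linarith
    simp only [hφ, mul_zero, add_zero, inv_one, one_mul, mul_div_assoc]
    rw [le_div_iff₀ (by positivity)]
    nlinarith [mul_nonneg ρ0 v0]
  · have d1 := den1 u hu
    have p1 : 0 < 1 + d u := by linarith [(abs_le.1 (dh u hu).1).1]
    have e1 : (Nr μ Y B a u ^ (k + 2)).trace = T * (1 + d u) := by rw [hd]; field_simp; ring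
    rw [scale hμ Y B (a := a) (by linarith), smul_pow, trace_smul, smul_eq_mul, e1, ← (hq u hu).1, hh,
      Real.mul_rpow (by positivity) (by positivity), Real.mul_rpow T0.le p1.le,
      Real.rpow_def_of_pos p1, ← Real.rpow_natCast, ← Real.rpow_mul (by linarith)]
    push_cast
    rw [mul_inv_cancel₀ (by positivity), Real.rpow_one, div_eq_mul_inv]
    ring

end Crest.Agent.T157.CwSch

end
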