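import Mathlib

/-!
# Row 157, coin windows: traces of powers of perturbed matrices (helper72)

`tr_second` : second order remainder with the weights of the larger eigenvalue;
`tr_low` : lower bound of the second order term.
-/

set_option autoImplicit false

noncomputable section

namespace Crest.Agent.T157.CwTr

open Matrix Finset
open scoped Matrix.Norms.L2Operator

variable {ι : Type*} [Fintype ι] [DecidableEq ι]

/-- squared Frobenius norm -/
def fr (E : Matrix ι ι ℂ) : ℝ := ∑ a, ∑ b, ‖E a b‖ ^ 2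

omit [DecidableEq ι] in
lemma fr_nonneg (E : Matrix ι ι ℂ) : 0 ≤ fr E := by unfold fr; positivity

lemma fr_mul (X E : Matrix ι ι ℂ) : fr (X * E) ≤ ‖X‖ ^ 2 * fr E := by
  rw [fr, fr, sum_comm, sum_comm (f := fun a b => ‖E a b‖ ^ 2), mul_sum]
  refine sum_le_sum fun b _ => ?_
  have h := X.l2_opNorm_mulVec (WithLp.toLp 2 fun a => E a b)
  have h2 := pow_le_pow_left₀ (norm_nonneg _) h 2
  rw [mul_pow, EuclideanSpace.norm_sq_eq, EuclideanSpace.norm_sq_eq] at h2
  exact h2

omit [DecidableEq ι] in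
lemma norm_trace_sq (A B : Matrix ι ι ℂ) : ‖(A * B).trace‖ ^ 2 ≤ fr A * fr B := by
  have h1 : ‖(A * B).trace‖ ≤ ∑ q : ι × ι, ‖A q.1 q.2‖ * ‖B q.2 q.1‖ := by
    rw [Fintype.sum_prod_type]
    refine (norm_sum_le _ _).trans (sum_le_sum fun a _ => (norm_sum_le _ _).trans
      (sum_le_sum fun b _ => (norm_mul_le _ _)))
  refine (pow_le_pow_left₀ (norm_nonneg _) h1 2).trans ((sum_mul_sq_le_sq_mul_sq _ _ _).trans ?_)
  rw [Fintype.sum_prod_type, Fintype.sum_prod_type, fr, fr,
    sum_comm (f := fun a b => ‖B a b‖ ^ 2)]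

lemma tr_XEYE (X E Y : Matrix ι ι ℂ) : ‖(X * E * (Y * E)).trace‖ ≤ ‖X‖ * ‖Y‖ * fr E := by
  refine abs_le_of_sq_le_sq' ((norm_trace_sq _ _).trans ?_)
    (mul_nonneg (by positivity) (fr_nonneg E)) |>.2
  refine (mul_le_mul (fr_mul X E) (fr_mul Y E) (fr_nonneg _)
    (mul_nonneg (by positivity) (fr_nonneg E))).trans (le_of_eq (by ring))

lemma norm_pow_le_of [Nonempty ι] {A : Matrix ι ι ℂ} {m : ℝ} (h : ‖A‖ ≤ m) (j : ℕ) :
    ‖A ^ j‖ ≤ m ^ j :=
  (norm_pow_le A j).trans (pow_le_pow_left₀ (norm_nonneg _) h j)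

lemma first [Nonempty ι] {B E : Matrix ι ι ℂ} {m : ℝ} (hA : ‖B + E‖ ≤ m) (hB : ‖B‖ ≤ m) (k : ℕ) :
    ∀ X : Matrix ι ι ℂ, ‖(X * E * ((B + E) ^ (k + 1) - B ^ (k + 1))).trace‖ ≤
      (k + 1) * ‖X‖ * m ^ k * fr E := by
  have m0 : 0 ≤ m := (norm_nonneg _).trans hB
  induction k with
  | zero =>
    intro X
    have := tr_XEYE X E 1
    simpa using this
  | succ k ih =>
    intro X
    have e : X * E * ((B + E) ^ (k + 1 + 1) - B ^ (k + 1 + 1)) =
        X * E * ((B + E) ^ (k + 1) - B ^ (k + 1)) * B + X * E * ((B + E) ^ (k + 1) * E) := by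
      rw [pow_succ (B + E) (k + 1), pow_succ B (k + 1)]; noncomm_ring
    rw [e, trace_add, trace_mul_comm _ B, ← mul_assoc, ← mul_assoc]
    have h1 := ih (B * X)
    have h2 := tr_XEYE X E ((B + E) ^ (k + 1))
    have h3 : ‖B * X‖ ≤ m * ‖X‖ := (norm_mul_le _ _).trans (by gcongr)
    have h4 := norm_pow_le_of hA (k + 1)
    have f0 := fr_nonneg E
    have h5 : (k + 1) * ‖B * X‖ * m ^ k * fr E ≤ (k + 1) * (m * ‖X‖) * m ^ k * fr E := by gcongr
    have h6 : ‖X‖ * ‖(B + E) ^ (k + 1)‖ * fr E ≤ ‖X‖ * m ^ (k + 1) * fr E := by gcongr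
    refine (norm_add_le _ _).trans ((add_le_add (h1.trans h5) (h2.trans h6)).trans (le_of_eq ?_))
    push_cast; ring

lemma second [Nonempty ι] {B E : Matrix ι ι ℂ} {m : ℝ} (hA : ‖B + E‖ ≤ m) (hB : ‖B‖ ≤ m) (k : ℕ) :
    ∀ j : ℕ, ‖(B ^ j * ((B + E) ^ (k + 2) - B ^ (k + 2))).trace -
      (k + 2) * (B ^ (j + k + 1) * E).trace‖ ≤ (k + 2) ^ 2 * m ^ (j + k) * fr E := by
  have m0 : 0 ≤ m := (norm_nonneg _).trans hB
  have f0 := fr_nonneg E
  have step : ∀ j l : ℕ, (B ^ j * ((B + E) ^ (l + 1) - B ^ (l + 1))).trace =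
      (B ^ (j + 1) * ((B + E) ^ l - B ^ l)).trace + (B ^ (j + l) * E).trace +
        (B ^ j * E * ((B + E) ^ l - B ^ l)).trace := fun j l => by
    have : (B ^ (j + l) * E).trace = (B ^ j * E * B ^ l).trace := by
      rw [trace_mul_comm _ (B ^ l), ← mul_assoc, ← pow_add, add_comm]
    rw [this, ← trace_add, ← trace_add, pow_succ' (B + E), pow_succ' B l, pow_succ B j]
    congr 1; noncomm_ring
  have key : ∀ j l : ℕ, ‖(B ^ j * E * ((B + E) ^ (l + 1) - B ^ (l + 1))).trace‖ ≤
      (l + 1) * m ^ (j + l) * fr E := fun j l => by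
    refine (first hA hB l _).trans ?_
    rw [pow_add m, mul_assoc (l + 1 : ℝ)]
    have := norm_pow_le_of hB j
    gcongr
  induction k with
  | zero =>
    intro j
    have h := key j 0
    rw [step j 1]
    simp only [zero_add, pow_one, add_sub_cancel_left, Nat.cast_zero, add_zero] at h ⊢
    rw [show (B ^ (j + 1) * E).trace + (B ^ (j + 1) * E).trace + (B ^ j * E * E).trace -
      2 * (B ^ (j + 1) * E).trace = (B ^ j * E * E).trace by ring]
    nlinarith [mul_nonneg (pow_nonneg m0 j) f0]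
  | succ k ih =>
    intro j
    have h1 := ih (j + 1)
    have h2 := key j (k + 1)
    rw [show k + 1 + 2 = k + 2 + 1 from rfl, step j (k + 2), show j + (k + 2) = j + 1 + k + 1 by ring,
      show j + (k + 1) + 1 = j + 1 + k + 1 by ring]
    rw [show j + 1 + k = j + (k + 1) by ring] at h1 ⊢
    have e : ∀ a b c : ℂ, a + b + c - ((k + 1 : ℕ) + 2) * b = (a - (k + 2) * b) + c := by
      intro a b c; push_cast; ring
    rw [e]
    refine (norm_add_le _ _).trans ((add_le_add h1 h2).trans ?_)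
    push_cast
    nlinarith [mul_nonneg (pow_nonneg m0 (j + (k + 1))) f0,
      mul_nonneg (Nat.cast_nonneg (α := ℝ) k) (mul_nonneg (pow_nonneg m0 (j + (k + 1))) f0)]

/-- coordinate projection -/
def Pj (S : Finset ι) : Matrix ι ι ℂ := diagonal fun a => if a ∈ S then 1 else 0
/-- complex diagonal matrix -/
def dg (μ : ι → ℝ) : Matrix ι ι ℂ := diagonal fun a => (μ a : ℂ)
/-- entries towards the smaller eigenvalues -/
def lo (μ : ι → ℝ) (Z : Matrix ι ι ℂ) (a : ι) : ℝ :=
  ∑ b ∈ univ.filter fun b => μ b ≤ μ a, (‖Z a b‖ ^ 2 + ‖Z b a‖ ^ 2)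

lemma Pj_apply (S : Finset ι) (Z : Matrix ι ι ℂ) (a b : ι) :
    (Pj S * Z * Pj S) a b = if a ∈ S ∧ b ∈ S then Z a b else 0 := by
  rw [Pj, mul_diagonal, diagonal_mul]
  by_cases h : a ∈ S <;> by_cases h' : b ∈ S <;> simp [h, h']

lemma norm_diag {v : ι → ℂ} {m : ℝ} (hm : 0 ≤ m) (h : ∀ a, ‖v a‖ ≤ m) : ‖diagonal v‖ ≤ m := by
  rw [l2_opNorm_diagonal]; exact (pi_norm_le_iff_of_nonneg hm).2 h

lemma E_apply {a : ι} {S : Finset ι} (ha : a ∉ S) (Z : Matrix ι ι ℂ) (i j : ι) :
    (Pj (insert a S) * Z * Pj (insert a S) - Pj S * Z * Pj S) i j =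
      if (i = a ∧ j ∈ insert a S) ∨ (j = a ∧ i ∈ S) then Z i j else 0 := by
  rw [Matrix.sub_apply, Pj_apply, Pj_apply]
  by_cases hi : i = a <;> by_cases hj : j = a <;> by_cases hi' : i ∈ S <;>
    by_cases hj' : j ∈ S <;> simp_all

lemma fr_E {μ : ι → ℝ} {a : ι} {S : Finset ι} (ha : a ∉ S) (hmax : ∀ x ∈ S, μ x ≤ μ a)
    (Z : Matrix ι ι ℂ) :
    fr (Pj (insert a S) * Z * Pj (insert a S) - Pj S * Z * Pj S) ≤ lo μ Z a := by
  have : ∀ i j, ‖(Pj (insert a S) * Z * Pj (insert a S) - Pj S * Z * Pj S) i j‖ ^ 2 ≤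
      (if i = a then (if μ j ≤ μ a then ‖Z a j‖ ^ 2 else 0) else 0) +
      if j = a then (if μ i ≤ μ a then ‖Z i a‖ ^ 2 else 0) else 0 := fun i j => by
    rw [E_apply ha]
    have p1 : 0 ≤ if i = a then (if μ j ≤ μ a then ‖Z a j‖ ^ 2 else 0) else 0 := by
      split_ifs <;> positivity
    have p2 : 0 ≤ if j = a then (if μ i ≤ μ a then ‖Z i a‖ ^ 2 else 0) else 0 := by
      split_ifs <;> positivity
    by_cases h : (i = a ∧ j ∈ insert a S) ∨ (j = a ∧ i ∈ S)
    · rw [if_pos h]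
      rcases h with ⟨h1, h2⟩ | ⟨h1, h2⟩
      · have : μ j ≤ μ a := by
          rcases mem_insert.1 h2 with h | h
          exacts [h ▸ le_rfl, hmax j h]
        rw [if_pos h1, if_pos this]
        exact (le_of_eq (by rw [h1])).trans (le_add_of_nonneg_right p2)
      · rw [if_pos h1, if_pos (hmax i h2)]
        exact (le_of_eq (by rw [h1])).trans (le_add_of_nonneg_left p1)
    · rw [if_neg h, norm_zero, zero_pow two_ne_zero]; exact add_nonneg p1 p2
  refine (sum_le_sum fun i _ => sum_le_sum fun j _ => this i j).trans (le_of_eq ?_)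
  simp only [sum_add_distrib, lo, sum_filter]
  rw [sum_comm (f := fun i j => if i = a then (if μ j ≤ μ a then ‖Z a j‖ ^ 2 else 0) else 0)]
  simp only [sum_ite_eq', mem_univ, if_true, ← sum_add_distrib]

/-- **second order remainder** -/
theorem tr_second {μ : ι → ℝ} (hμ : ∀ a, 0 ≤ μ a) {Z : Matrix ι ι ℂ} {θ : ℝ} (hθ : 0 ≤ θ)
    (hZ : ∀ (S : Finset ι) (m : ℝ), 0 ≤ m → (∀ a ∈ S, μ a ≤ m) → ‖Pj S * Z * Pj S‖ ≤ θ * m)
    (k : ℕ) : ‖((dg μ + Z) ^ (k + 2)).trace - ∑ a, (μ a : ℂ) ^ (k + 2) -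
      (k + 2) * ∑ a, (μ a : ℂ) ^ (k + 1) * Z a a‖ ≤
      (k + 2) ^ 2 * (1 + θ) ^ k * ∑ a, μ a ^ k * lo μ Z a := by
  have key : ∀ S : Finset ι, ‖((Pj S * (dg μ + Z) * Pj S) ^ (k + 2)).trace -
      ∑ a ∈ S, (μ a : ℂ) ^ (k + 2) - (k + 2) * ∑ a ∈ S, (μ a : ℂ) ^ (k + 1) * Z a a‖ ≤
      (k + 2) ^ 2 * (1 + θ) ^ k * ∑ a ∈ S, μ a ^ k * lo μ Z a := fun S => by
    induction S using Finset.induction_on_max_value μ with
    | empty => simp [Pj]
    | insert a S ha hmax ih =>
      have : Nonempty ι := ⟨a⟩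
      set A := Pj S * (dg μ + Z) * Pj S with hA
      set U : Matrix ι ι ℂ := diagonal (Pi.single a (μ a : ℂ)) with hU
      set E := Pj (insert a S) * Z * Pj (insert a S) - Pj S * Z * Pj S with hE
      have hD : ∀ T : Finset ι, Pj T * dg μ * Pj T =
          diagonal fun b => if b ∈ T then (μ b : ℂ) else 0 := fun T => by
        rw [Pj, dg, diagonal_mul_diagonal, diagonal_mul_diagonal]
        congr 1; funext b; split_ifs <;> simp
      have e0 : Pj (insert a S) * dg μ * Pj (insert a S) = Pj S * dg μ * Pj S + U := by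
        rw [hD, hD, hU, diagonal_add]
        congr 1; funext b
        by_cases h : b = a
        · subst h; simp [ha]
        · simp [h]
      have e1 : Pj (insert a S) * (dg μ + Z) * Pj (insert a S) = A + U + E := by
        rw [hA, hE, mul_add, add_mul, mul_add, add_mul, e0]; abel
      have nD : ‖Pj (insert a S) * dg μ * Pj (insert a S)‖ ≤ μ a := by
        rw [hD]
        refine norm_diag (hμ a) fun b => ?_
        split_ifs with h
        · rw [Complex.norm_real, Real.norm_of_nonneg (hμ b)]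
          rcases mem_insert.1 h with rfl | h
          exacts [le_rfl, hmax b h]
        · simpa using hμ a
      have n1 : ‖A + U + E‖ ≤ (1 + θ) * μ a := by
        rw [← e1, mul_add, add_mul, add_mul, one_mul]
        refine (norm_add_le _ _).trans (add_le_add nD (hZ _ _ (hμ a) fun b hb => ?_))
        rcases mem_insert.1 hb with rfl | h
        exacts [le_rfl, hmax b h]
      have n2 : ‖A + U‖ ≤ (1 + θ) * μ a := by
        rw [hA, mul_add, add_mul, add_right_comm, ← e0, add_mul, one_mul]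
        exact (norm_add_le _ _).trans (add_le_add nD (hZ _ _ (hμ a) hmax))
      have pU : Pj S * U = 0 := by
        rw [Pj, hU, diagonal_mul_diagonal, ← diagonal_zero]
        congr 1; funext b
        by_cases h : b = a
        · subst h; simp [ha]
        · simp [h]
      have Up : U * Pj S = 0 := by
        rw [Pj, hU, diagonal_mul_diagonal, ← diagonal_zero]
        congr 1; funext b
        by_cases h : b = a
        · subst h; simp [ha]
        · simp [h]
      have AU : A * U = 0 := by rw [hA, mul_assoc, pU, mul_zero]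
      have UA : U * A = 0 := by rw [hA, ← mul_assoc, ← mul_assoc, Up, zero_mul, zero_mul]
      have pw : ∀ j : ℕ, (A + U) ^ (j + 1) = A ^ (j + 1) + U ^ (j + 1) := fun j => by
        induction j with
        | zero => simp
        | succ j ih =>
          rw [pow_succ, ih, add_mul, mul_add, mul_add, ← pow_succ, ← pow_succ, pow_succ A j,
            pow_succ U j, mul_assoc _ A U, mul_assoc _ U A, AU, UA, mul_zero, mul_zero, add_zero,
            zero_add]
      have Upw : ∀ j : ℕ, U ^ (j + 1) = diagonal (Pi.single a ((μ a : ℂ) ^ (j + 1))) := fun j => by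
        rw [hU, diagonal_pow]
        congr 1; funext b
        by_cases h : b = a
        · subst h; simp
        · simp [h]
      have Eap := E_apply ha Z
      rw [← hE] at Eap
      have PEP : Pj S * E * Pj S = 0 := by
        ext i j
        rw [Pj_apply, Eap]
        by_cases hi : i = a <;> by_cases hj : j = a <;> simp_all
      have PP : Pj S * Pj S = Pj S := by
        rw [Pj, diagonal_mul_diagonal]; congr 1; funext b; split_ifs <;> simp
      have t1 : (A ^ (k + 1) * E).trace = 0 := by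
        have a1 : A ^ (k + 1) * Pj S = A ^ (k + 1) := by
          rw [pow_succ, mul_assoc]; congr 1; rw [hA, mul_assoc _ (Pj S), PP]
        have a2 : Pj S * A ^ (k + 1) = A ^ (k + 1) := by
          rw [pow_succ', ← mul_assoc]; congr 1; rw [hA, ← mul_assoc, ← mul_assoc, PP]
        rw [← a2, mul_assoc, trace_mul_comm, ← a1, mul_assoc, mul_assoc, ← mul_assoc (Pj S), PEP,
          mul_zero, trace_zero]
      have t2 : ((A + U) ^ (k + 1) * E).trace = (μ a : ℂ) ^ (k + 1) * Z a a := by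
        rw [pw, add_mul, trace_add, t1, zero_add, Upw]
        rw [trace, sum_eq_single a (fun b _ hb => by simp [diagonal_mul, hb]) (by simp)]
        simp [diagonal_mul, Eap]
      have t3 : ((A + U) ^ (k + 2)).trace = (A ^ (k + 2)).trace + (μ a : ℂ) ^ (k + 2) := by
        rw [pw (k + 1), trace_add, Upw, trace_diagonal]; simp
      have f1 : fr E ≤ lo μ Z a := fr_E ha hmax Z
      have h := second n1 n2 k 0
      rw [pow_zero, one_mul, zero_add, trace_sub, t2, t3, ← e1] at h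
      rw [sum_insert ha, sum_insert ha, sum_insert ha]
      have e2 : ∀ x y s s' c d : ℂ, x - (c + s) - (k + 2) * (d + s') =
          (x - (y + c) - (k + 2) * d) + (y - s - (k + 2) * s') := by intros; ring
      rw [e2 _ (A ^ (k + 2)).trace, mul_add ((k + 2 : ℝ) ^ 2 * (1 + θ) ^ k)]
      refine (norm_add_le _ _).trans (add_le_add (h.trans ?_) ih)
      rw [mul_pow, mul_assoc, mul_assoc, mul_assoc]
      have := hμ a
      gcongr
  have h := key univ
  have : Pj (univ : Finset ι) = 1 := by simp [Pj]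
  rwa [this, one_mul, mul_one] at h

/-- the hypothesis of `tr_second` for `Z = √M Y √M` -/
lemma rel {μ : ι → ℝ} {Y : Matrix ι ι ℂ} {θ : ℝ} (hY : ‖Y‖ ≤ θ) (S : Finset ι)
    (m : ℝ) (hm : 0 ≤ m) (h : ∀ a ∈ S, μ a ≤ m) :
    ‖Pj S * (dg (fun a => √(μ a)) * Y * dg fun a => √(μ a)) * Pj S‖ ≤ θ * m := by
  have h1 : ‖(diagonal fun a => if a ∈ S then ((√(μ a) : ℝ) : ℂ) else 0)‖ ≤ √m :=
    norm_diag (Real.sqrt_nonneg m) fun a => by
      split_ifs with ha
      · rw [Complex.norm_real, Real.norm_of_nonneg (Real.sqrt_nonneg _)]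
        exact Real.sqrt_le_sqrt (h a ha)
      · simp
  have e1 : Pj S * dg (fun a => √(μ a)) = diagonal fun a => if a ∈ S then ((√(μ a) : ℝ) : ℂ) else 0 := by
    rw [Pj, dg, diagonal_mul_diagonal]; congr 1; funext a; split_ifs <;> simp
  have e2 : dg (fun a => √(μ a)) * Pj S = diagonal fun a => if a ∈ S then ((√(μ a) : ℝ) : ℂ) else 0 := by
    rw [Pj, dg, diagonal_mul_diagonal]; congr 1; funext a; split_ifs <;> simp
  rw [← mul_assoc, ← mul_assoc, e1, mul_assoc, mul_assoc, e2, ← mul_assoc]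
  have θ0 : 0 ≤ θ := (norm_nonneg _).trans hY
  refine (norm_mul_le _ _).trans ((mul_le_mul ((norm_mul_le _ _).trans
    (mul_le_mul h1 hY (norm_nonneg _) (Real.sqrt_nonneg m))) h1 (norm_nonneg _)
      (by positivity)).trans (le_of_eq ?_))
  rw [mul_right_comm, Real.mul_self_sqrt hm, mul_comm]

lemma pow_low {t m : ℝ} (ht : 0 ≤ t) (hm : 0 ≤ m) (k : ℕ) :
    m ^ (k + 2) + (k + 2) * m ^ (k + 1) * (t - m) + (k + 1) * m ^ k * (t - m) ^ 2 ≤ t ^ (k + 2) := by
  induction k with
  | zero => simp; nlinarith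
  | succ k ih =>
    have h1 := mul_le_mul_of_nonneg_left ih ht
    have h2 : 0 ≤ (k + 1) * m ^ k * (t - m) ^ 2 * t := by positivity
    rw [show k + 1 + 2 = k + 2 + 1 from rfl, pow_succ' t]
    refine le_trans ?_ h1
    push_cast
    have : t * (m ^ (k + 2) + (k + 2) * m ^ (k + 1) * (t - m) + (k + 1) * m ^ k * (t - m) ^ 2) =
        m ^ (k + 2 + 1) + (k + 1 + 2) * m ^ (k + 1 + 1) * (t - m) +
          (k + 1 + 1) * m ^ (k + 1) * (t - m) ^ 2 + (k + 1) * m ^ k * (t - m) ^ 2 * t := by ring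
    linarith

/-- **lower bound of the second order term** -/
theorem tr_low {μ : ι → ℝ} (hμ : ∀ a, 0 ≤ μ a) {Z : Matrix ι ι ℝ} (hN : (diagonal μ + Z).PosSemidef)
    (k : ℕ) : ∑ a, μ a ^ (k + 2) + (k + 2) * ∑ a, μ a ^ (k + 1) * Z a a +
      (k + 1) * ∑ a, μ a ^ k * ∑ b, Z a b ^ 2 ≤ ((diagonal μ + Z) ^ (k + 2)).trace := by
  set N := diagonal μ + Z with hNd
  have hH := hN.isHermitian
  set Q : Matrix ι ι ℝ := (hH.eigenvectorUnitary : Matrix ι ι ℝ)
  set l := hH.eigenvalues
  have q1 : Q * Qᵀ = 1 := by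
    have := Unitary.coe_mul_star_self hH.eigenvectorUnitary
    simpa [star_eq_conjTranspose] using this
  have q2 : Qᵀ * Q = 1 := mul_eq_one_comm.1 q1
  have sp : N = Q * diagonal l * Qᵀ := by
    have := hH.spectral_theorem
    simpa [Unitary.conjStarAlgAut_apply, star_eq_conjTranspose] using this
  have pw : ∀ j : ℕ, N ^ j = Q * diagonal (fun i => l i ^ j) * Qᵀ := fun j => by
    induction j with
    | zero => simp [q1]
    | succ j ih =>
      rw [pow_succ, ih]
      conv_lhs => rw [sp]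
      simp only [mul_assoc]
      rw [← mul_assoc Qᵀ, q2, one_mul, ← mul_assoc (diagonal _), diagonal_mul_diagonal]
      simp only [pow_succ]
  have dg : ∀ (j : ℕ) a, (N ^ j) a a = ∑ i, Q a i ^ 2 * l i ^ j := fun j a => by
    rw [pw, mul_apply]
    exact sum_congr rfl fun i _ => by rw [mul_diagonal, transpose_apply]; ring
  rw [mul_sum, mul_sum, ← sum_add_distrib, ← sum_add_distrib, trace]
  refine sum_le_sum fun a _ => ?_
  have d0 := dg 0 a
  have d1 := dg 1 a
  have d2 := dg 2 a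
  simp only [pow_zero, one_apply_eq, mul_one, pow_one] at d0 d1
  have n1 : N a a = μ a + Z a a := by simp [hNd]
  have n2 : (N ^ 2) a a = μ a ^ 2 + 2 * μ a * Z a a + ∑ b, Z a b ^ 2 := by
    have sy : ∀ b, N b a = N a b := fun b => by simpa using hH.apply a b
    have : ∀ b, N a b * N b a = (if a = b then μ a ^ 2 + 2 * μ a * Z a a else 0) + Z a b ^ 2 :=
      fun b => by
        rw [sy, hNd, Matrix.add_apply, diagonal_apply]
        split_ifs with h
        · subst h; ring
        · ring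
    rw [sq, mul_apply]
    simp only [this, sum_add_distrib, sum_ite_eq, mem_univ, if_true]
  rw [diag_apply, dg]
  refine le_trans (le_of_eq ?_) (sum_le_sum fun i _ => mul_le_mul_of_nonneg_left
    (pow_low (hN.eigenvalues_nonneg i) (hμ a) k) (sq_nonneg (Q a i)))
  have e : ∀ i, Q a i ^ 2 * (μ a ^ (k + 2) + (k + 2) * μ a ^ (k + 1) * (l i - μ a) +
      (k + 1) * μ a ^ k * (l i - μ a) ^ 2) =
      (μ a ^ (k + 2) - (k + 2) * μ a ^ (k + 1) * μ a + (k + 1) * μ a ^ k * μ a ^ 2) * Q a i ^ 2 +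
      ((k + 2) * μ a ^ (k + 1) - 2 * (k + 1) * μ a ^ k * μ a) * (Q a i ^ 2 * l i) +
      (k + 1) * μ a ^ k * (Q a i ^ 2 * l i ^ 2) := fun i => by ring
  rw [sum_congr rfl fun i _ => e i, sum_add_distrib, sum_add_distrib, ← mul_sum, ← mul_sum, ← mul_sum,
    ← d0, ← d1, ← d2, n1, n2]
  ring

end Crest.Agent.T157.CwTr

end
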