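import Crest.Agent.T157.DaDef_82
import Crest.Agent.T157.ConcM_16
import Crest.Agent.T157.KrS_53

/-!
# Row 157, part C (helper85): `Da.concGlue`, `Da.cenGlue`
-/

set_option autoImplicit false

noncomputable section

namespace Crest.Agent.T157.Da

open MeasureTheory ProbabilityTheory Matrix Filter Set Topology
open Crest.Agent.T157.E Crest.Agent.T157.Eig
open Crest.Agent.T157.Tap (V Mx GOE)
open Crest.Agent.T157.Top (Whp whp_of_real_le)
open Crest.Agent.T157.Conc (fro en en_sq en_nonneg fro_nonneg ELipOn tail_lip_on)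
open Crest.Agent.T157.Cond (symG measurable_symG)

namespace Cn85

variable {n : ℕ}

/-- Gaussian coordinates of the pair -/
def pr (n : ℕ) (x : (Fin n × Fin n) ⊕ Fin n → ℝ) : Mx n × V n :=
  (symG (1 / √(n : ℝ)) fun p => x (Sum.inl p), fun i => x (Sum.inr i))

lemma mp_pr (n : ℕ) : MeasurePreserving (pr n) (gv ((Fin n × Fin n) ⊕ Fin n)) (PP n) := by
  have h2 := measurePreserving_sumPiEquivProdPi (X := fun _ : (Fin n × Fin n) ⊕ Fin n => ℝ)
    (fun _ => gaussianReal 0 1)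
  have h3 : MeasurePreserving (symG (ι := Fin n) (1 / √(n : ℝ))) (gv (Fin n × Fin n)) (GOE n) :=
    ⟨measurable_symG _, rfl⟩
  exact (h3.prod (MeasurePreserving.id (gv (Fin n)))).comp h2

lemma en_split (x : (Fin n × Fin n) ⊕ Fin n → ℝ) :
    en x ^ 2 = en (fun p => x (Sum.inl p)) ^ 2 + (fun i => x (Sum.inr i)) ⬝ᵥ (fun i => x (Sum.inr i)) := by
  rw [en_sq, en_sq, Fintype.sum_sum_type]
  simp only [dotProduct, sq]

lemma fro_pr (hn : 0 < n) (x y : (Fin n × Fin n) ⊕ Fin n → ℝ) :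
    n * fro ((pr n x).1 - (pr n y).1) ≤ 2 * en (fun p => (x - y) (Sum.inl p)) ^ 2 := by
  have hnr : (0 : ℝ) < n := by exact_mod_cast hn
  have h := Kr.fro_symG_le (1 / √(n : ℝ)) (fun p : Fin n × Fin n => x (Sum.inl p))
    (fun p => y (Sum.inl p))
  have h2 := pow_le_pow_left₀ (Kr.fro_nonneg _) h 2
  rw [Kr.fro, Real.sq_sqrt (by positivity), mul_pow, mul_pow, Real.sq_sqrt (by norm_num), sq_abs,
    div_pow, Real.sq_sqrt hnr.le] at h2
  have h3 := mul_le_mul_of_nonneg_left h2 hnr.le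
  refine le_trans (le_of_eq rfl) (h3.trans (le_of_eq ?_))
  have e : ((fun p : Fin n × Fin n => x (Sum.inl p)) - fun p => y (Sum.inl p)) =
      fun p => (x - y) (Sum.inl p) := rfl
  rw [e]; field_simp

/-- the measurable good set -/
def Ks (n : ℕ) (η : ℝ) : Set (Mx n × V n) := {z | Ball z.1 ∧ (fE η z.1).trace ≤ 4 * Nb n η}

lemma meas_Ks (hF : FeApi) (n : ℕ) (η : ℝ) : MeasurableSet (Ks n η) := by
  have h1 : MeasurableSet {z : Mx n × V n | z.1ᵀ = z.1} :=
    measurableSet_eq_fun measurable_fst.t157_transpose measurable_fst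
  have h2 : MeasurableSet {z : Mx n × V n | opn z.1 ≤ 3} :=
    measurableSet_le (measurable_opn fun i j => measurable_fst.t157_entry i j) measurable_const
  have h3 : MeasurableSet {z : Mx n × V n | (fE η z.1).trace ≤ 4 * Nb n η} :=
    measurableSet_le ((hF.meas n η).comp measurable_fst).t157_trace measurable_const
  exact (h1.inter h2).inter h3

lemma lip_F (hF : FeApi) (hn : 0 < n) {C η R : ℝ} (hC : 0 < C) (hη : 0 < η)
    (hR1 : 1 ≤ R) (hR : 1 ≤ η * √(n : ℝ) * R) {B : Mx n × V n → Mx n} (hB : LipJ C B) :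
    ELipOn ((6 * C + 3 * √C) * √(Nb n η) * R) (fun x => (fE η (pr n x).1 * B (pr n x)).trace)
      (pr n ⁻¹' Ks n η) := by
  intro x hx y hy
  have hnr : (0 : ℝ) < n := by exact_mod_cast hn
  have hsn : 0 < √(n : ℝ) := Real.sqrt_pos.2 hnr
  have hN : 0 ≤ Nb n η := by unfold Nb; positivity
  set z := pr n y
  set z' := pr n x
  have hz : Ball z.1 := hy.1
  have hz' : Ball z'.1 := hx.1
  have s4 : √(4 * Nb n η) = 2 * √(Nb n η) := by
    rw [Real.sqrt_mul (by norm_num), show (4 : ℝ) = 2 ^ 2 by norm_num, Real.sqrt_sq (by norm_num)]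
  have t1 : √(fE η z.1).trace ≤ 2 * √(Nb n η) := s4 ▸ Real.sqrt_le_sqrt hy.2
  have t2 : √(fE η z'.1).trace ≤ 2 * √(Nb n η) := s4 ▸ Real.sqrt_le_sqrt hx.2
  have e : (fE η z'.1 * B z').trace - (fE η z.1 * B z).trace =
      ((fE η z'.1 - fE η z.1) * B z').trace + (fE η z.1 * (B z' - B z)).trace := by
    simp only [Matrix.sub_mul, Matrix.mul_sub, trace_sub]; ring
  have a1 := hF.liptr hz.1 hz'.1 hη (B z')
  have a2 := hF.trcs hz.1 hη (B z' - B z)
  have b1 := fro_pr hn x y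
  have b2 := en_split (x - y)
  set E := en (x - y) with hE
  have hE0 : 0 ≤ E := en_nonneg _
  have b3 : 0 ≤ (fun i => (x - y) (Sum.inr i)) ⬝ᵥ (fun i => (x - y) (Sum.inr i)) :=
    dot_self_nonneg _
  have b4 : (z'.2 - z.2) ⬝ᵥ (z'.2 - z.2) =
      (fun i => (x - y) (Sum.inr i)) ⬝ᵥ (fun i => (x - y) (Sum.inr i)) := rfl
  have c1 : √(fro (z'.1 - z.1)) * √(n : ℝ) ≤ 3 / 2 * E := by
    rw [← Real.sqrt_mul (fro_nonneg _)]
    refine Real.sqrt_le_iff.2 ⟨by positivity, ?_⟩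
    nlinarith [sq_nonneg E]
  have c2 : √(fro (B z' - B z)) ≤ 3 / 2 * √C * E := by
    refine Real.sqrt_le_iff.2 ⟨by positivity, (hB.lip z z' hz hz').trans ?_⟩
    rw [mul_pow, mul_pow, Real.sq_sqrt hC.le, b4]
    have c3 : n * opn (z'.1 - z.1) ^ 2 ≤ n * fro (z'.1 - z.1) :=
      mul_le_mul_of_nonneg_left (opn_sq_le_frob _) hnr.le
    have c4 : n * opn (z'.1 - z.1) ^ 2 +
        (fun i => (x - y) (Sum.inr i)) ⬝ᵥ (fun i => (x - y) (Sum.inr i)) ≤ 9 / 4 * E ^ 2 := by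
      nlinarith [sq_nonneg E]
    nlinarith
  have hs0 := Real.sqrt_nonneg (Nb n η)
  have d1 : √(fro (z'.1 - z.1)) * opn (B z') * (√(fE η z.1).trace + √(fE η z'.1).trace) / η ≤
      6 * C * √(Nb n η) * R * E := by
    rw [div_le_iff₀ hη]
    have d2 : √(fro (z'.1 - z.1)) ≤ 3 / 2 * E * (η * R) := by
      have d3 : √(fro (z'.1 - z.1)) * 1 ≤ √(fro (z'.1 - z.1)) * (η * √(n : ℝ) * R) :=
        mul_le_mul_of_nonneg_left hR (Real.sqrt_nonneg _)
      have d4 := mul_le_mul_of_nonneg_right c1 (show 0 ≤ η * R by positivity)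
      linarith
    calc _ ≤ (3 / 2 * E * (η * R)) * C * (4 * √(Nb n η)) :=
          mul_le_mul (mul_le_mul d2 (hB.bd z' hz') (opn_nonneg _) (by positivity)) (by linarith)
            (by positivity) (by positivity)
      _ = _ := by ring
  have d5 : √(fE η z.1).trace * √(fro (B z' - B z)) ≤ 3 * √C * √(Nb n η) * R * E := by
    calc _ ≤ (2 * √(Nb n η)) * (3 / 2 * √C * E) :=
          mul_le_mul t1 c2 (Real.sqrt_nonneg _) (by positivity)
      _ = 3 * √C * √(Nb n η) * 1 * E := by ring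
      _ ≤ _ := by gcongr
  change |(fE η z'.1 * B z').trace - (fE η z.1 * B z).trace| ≤ _
  rw [e]
  refine (abs_add_le _ _).trans ?_
  linarith

lemma e0_le_ep (hn : 0 < n) : e0 n ≤ ep n :=
  Real.rpow_le_rpow_of_exponent_le (by exact_mod_cast hn) (by norm_num)

lemma e0_le_one (hn : 0 < n) : e0 n ≤ 1 :=
  Real.rpow_le_one_of_one_le_of_nonpos (by exact_mod_cast hn) (by norm_num)

lemma ball_of_spec (hn : 0 < n) {G : Mx n} (hG : Spec G) : Ball G :=
  ⟨hG.symm, by linarith [hG.top, e0_le_one hn]⟩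

lemma ep_pos (hn : 0 < n) : 0 < ep n := Real.rpow_pos_of_pos (by exact_mod_cast hn) _

lemma Nb_ge (hn : 0 < n) {η : ℝ} (hη : ep n ≤ η) : (n : ℝ) ^ (11 / 50 : ℝ) ≤ Nb n η := by
  have hnr : (0 : ℝ) < n := by exact_mod_cast hn
  have h0 := ep_pos hn
  have e : (n : ℝ) ^ (11 / 50 : ℝ) = Nb n (ep n) := by
    unfold Nb ep
    rw [Real.sqrt_eq_rpow, ← Real.rpow_mul hnr.le, ← Real.rpow_add hnr]
    nth_rewrite 2 [← Real.rpow_one (n : ℝ)]
    rw [← Real.rpow_add hnr]; norm_num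
  have h1 : 0 ≤ η := h0.le.trans hη
  rw [e]; unfold Nb
  gcongr

lemma R_ge (hn : 0 < n) {η : ℝ} (hη : ep n ≤ η) : 1 ≤ η * √(n : ℝ) * (n : ℝ) ^ (1 / 50 : ℝ) := by
  have hnr : (0 : ℝ) < n := by exact_mod_cast hn
  have e : ep n * √(n : ℝ) * (n : ℝ) ^ (1 / 50 : ℝ) = 1 := by
    unfold ep
    rw [Real.sqrt_eq_rpow, ← Real.rpow_add hnr, ← Real.rpow_add hnr]; norm_num
  exact e.symm.trans_le (mul_le_mul_of_nonneg_right (mul_le_mul_of_nonneg_right hη
    (Real.sqrt_nonneg _)) (Real.rpow_nonneg hnr.le _))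

lemma tr_ge (hF : FeApi) {G : Mx n} (hG : Spec G) {η : ℝ} (hη : 0 < η) (h0 : e0 n ≤ η)
    (h1 : η ≤ 1) : Nb n η / 128 ≤ (fE η G * 1).trace := by
  have hH := herm_iff.2 hG.symm
  rw [hF.trace hG.symm hη]
  have h2 := hG.lo η ⟨h0, h1⟩
  have hc : cnt G (2 - η) ≤ n := by simpa using cnt_le_card G (2 - η)
  have hfl : ∀ l, 0 ≤ fl η l := fun l => by unfold fl; positivity
  have h3 : ∑ _k ∈ Finset.range (cnt G (2 - η)), (1 / 2 : ℝ) ≤ ∑ k ∈ Finset.range (cnt G (2 - η)),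
      fl η (lam G k) * (Eig.vec G k ⬝ᵥ (1 : Mx n) *ᵥ Eig.vec G k) := by
    refine Finset.sum_le_sum fun k hk => ?_
    have hk' := (lt_cnt_iff hH).1 (Finset.mem_range.1 hk)
    rw [one_mulVec, vec_dot_self hH hk'.1, mul_one, fl, le_div_iff₀ (by positivity)]
    have h4 := (lam_le_opn hH k).trans hG.top
    have h5 : (2 - lam G k) ^ 2 ≤ η ^ 2 := sq_le_sq' (by linarith) (by linarith [hk'.2])
    linarith
  rw [Finset.sum_const, Finset.card_range, nsmul_eq_mul] at h3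
  refine le_trans (by linarith) (h3.trans (Finset.sum_le_sum_of_subset_of_nonneg
    (Finset.range_subset_range.2 hc) fun k _ _ => mul_nonneg (hfl _) ?_))
  rw [one_mulVec]; exact dot_self_nonneg _

lemma abs_tr_le (hF : FeApi) {G A : Mx n} (hG : Gᵀ = G) {η C : ℝ} (hη : 0 < η) (hA : opn A ≤ C) :
    |(fE η G * A).trace| ≤ C * (fE η G).trace := by
  have hfl : ∀ l, 0 ≤ fl η l := fun l => by unfold fl; positivity
  have e := hF.trace hG hη 1
  rw [Matrix.mul_one] at e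
  rw [hF.trace hG hη, e, Finset.mul_sum]
  refine (Finset.abs_sum_le_sum_abs _ _).trans (Finset.sum_le_sum fun k _ => ?_)
  rw [abs_mul, abs_of_nonneg (hfl _), one_mulVec, mul_left_comm]
  exact mul_le_mul_of_nonneg_left ((abs_quad_le A _).trans
    (mul_le_mul_of_nonneg_right hA (dot_self_nonneg _))) (hfl _)

lemma vh_whp {P : ∀ n, Mx n × V n → Prop} (h : Vh PP P) : Whp PP P := by
  obtain ⟨c, hc, h⟩ := h
  have t1 : Tendsto (fun n : ℕ => ENNReal.ofReal (Real.exp (-(n : ℝ) ^ c))) atTop (𝓝 0) := by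
    rw [← ENNReal.ofReal_zero]
    exact ENNReal.tendsto_ofReal (Real.tendsto_exp_neg_atTop_nhds_zero.comp
      ((tendsto_rpow_atTop hc).comp tendsto_natCast_atTop_atTop))
  exact tendsto_of_tendsto_of_tendsto_of_le_of_le' tendsto_const_nhds t1
    (.of_forall fun _ => zero_le) h

lemma tail_zero {c : ℝ} (hc : 0 < c) :
    Tendsto (fun n : ℕ => 2 * Real.exp (-(c * (n : ℝ) ^ (9 / 50 : ℝ)))) atTop (𝓝 0) := by
  have h := (Real.tendsto_exp_neg_atTop_nhds_zero.comp (Tendsto.const_mul_atTop hc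
    ((tendsto_rpow_atTop (by norm_num : (0 : ℝ) < 9 / 50)).comp
      tendsto_natCast_atTop_atTop))).const_mul 2
  simpa using h

lemma ep_tendsto : Tendsto ep atTop (𝓝 0) :=
  (tendsto_rpow_neg_atTop (by norm_num : (0 : ℝ) < 13 / 25)).comp tendsto_natCast_atTop_atTop

end Cn85

open Cn85

theorem concGlue : ConcGlue := by
  intro hF C hC
  set K : ℝ := 6 * C + 3 * √C with hK
  have hK0 : 0 < K := by positivity
  refine ⟨1 / (2 * K ^ 2), by positivity, ?_⟩
  filter_upwards [eventually_gt_atTop 0] with n hn B hB η hη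
  have hnr : (0 : ℝ) < n := by exact_mod_cast hn
  have hη0 : 0 < η := (ep_pos hn).trans_le hη.1
  have hN : 0 < Nb n η := by unfold Nb; positivity
  set R : ℝ := (n : ℝ) ^ (1 / 50 : ℝ) with hR
  have hR1 : 1 ≤ R := Real.one_le_rpow (by exact_mod_cast hn) (by norm_num)
  obtain ⟨m, hm⟩ := tail_lip_on (by positivity) (lip_F hF hn hC hη0 hR1 (R_ge hn hη.1) hB)
  refine ⟨m / Nb n η, fun s hs => ?_⟩
  rw [div_mul_cancel₀ _ hN.ne']
  have hmF : Measurable fun z : Mx n × V n => (fE η z.1 * B z).trace :=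
    (((hF.meas n η).comp measurable_fst).t157_mul hB.meas).t157_trace
  have hT : MeasurableSet (Ks n η ∩ {z | s * Nb n η ≤ |(fE η z.1 * B z).trace - m|}) :=
    (meas_Ks hF n η).inter (measurableSet_le measurable_const (hmF.sub_const m).abs)
  calc _ ≤ (PP n).real (Ks n η ∩ {z | s * Nb n η ≤ |(fE η z.1 * B z).trace - m|}) :=
        measureReal_mono fun z hz => ⟨⟨ball_of_spec hn hz.1,
          hz.1.tr η ⟨(e0_le_ep hn).trans hη.1, hη.2⟩⟩, hz.2⟩
    _ = (gv ((Fin n × Fin n) ⊕ Fin n)).real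
          (pr n ⁻¹' (Ks n η ∩ {z | s * Nb n η ≤ |(fE η z.1 * B z).trace - m|})) :=
        ((mp_pr n).measureReal_preimage hT.nullMeasurableSet).symm
    _ ≤ _ := hm (s * Nb n η) (by positivity)
    _ ≤ _ := by
        refine mul_le_mul_of_nonneg_left (Real.exp_le_exp.2 ?_) zero_le_two
        rw [neg_div, neg_le_neg_iff, le_div_iff₀ (by positivity)]
        have e1 : (n : ℝ) ^ (9 / 50 : ℝ) * R ^ 2 = (n : ℝ) ^ (11 / 50 : ℝ) := by
          rw [hR, ← Real.rpow_natCast, ← Real.rpow_mul hnr.le, ← Real.rpow_add hnr]; norm_num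
        have e2 : 1 / (2 * K ^ 2) * s ^ 2 * (n : ℝ) ^ (9 / 50 : ℝ) * (2 * (K * √(Nb n η) * R) ^ 2) =
            s ^ 2 * Nb n η * ((n : ℝ) ^ (9 / 50 : ℝ) * R ^ 2) := by
          rw [mul_pow, mul_pow, Real.sq_sqrt hN.le]; field_simp
        rw [e2, e1, mul_pow, sq (Nb n η), ← mul_assoc]
        exact mul_le_mul_of_nonneg_left (Nb_ge hn hη.1) (by positivity)

theorem cenGlue : CenGlue := by
  intro hF hFD hL hS hCo T hT r hr η hη
  obtain ⟨C, hC, hFD⟩ := hFD T hT r hr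
  obtain ⟨C', hC', hL⟩ := hL C hC η hη.1
  obtain ⟨c, hc, hCo⟩ := hCo C' hC'
  have key : ∀ᶠ n : ℕ in atTop, ∃ m : ℝ × ℝ, (∀ s ≥ (0 : ℝ),
      (PP n).real {z | Spec z.1 ∧ s * Nb n η ≤ |(fE η z.1 * Aq T r z).trace - m.1 * Nb n η|} ≤
        2 * Real.exp (-(c * s ^ 2 * (n : ℝ) ^ (9 / 50 : ℝ)))) ∧ (∀ s ≥ (0 : ℝ),
      (PP n).real {z | Spec z.1 ∧ s * Nb n η ≤ |(fE η z.1 * 1).trace - m.2 * Nb n η|} ≤
        2 * Real.exp (-(c * s ^ 2 * (n : ℝ) ^ (9 / 50 : ℝ)))) := by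
    filter_upwards [hCo, eventually_gt_atTop 0, ep_tendsto.eventually (ge_mem_nhds hη.1)]
      with n h hn he
    obtain ⟨S, hS⟩ := hFD n hn
    obtain ⟨l1, l2, -⟩ := hL n _ S hS
    obtain ⟨m1, h1⟩ := h _ l1 η ⟨he, by linarith [hη.2]⟩
    obtain ⟨m2, h2⟩ := h _ l2 η ⟨he, by linarith [hη.2]⟩
    exact ⟨(m1, m2), h1, h2⟩
  obtain ⟨m, hm⟩ := key.choice
  refine ⟨fun n => (m n).1 / (m n).2, fun δ hδ => ?_⟩
  set D : ℝ := 256 * (4 * C + 1) with hD
  have hD0 : 0 < D := by positivity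
  set s : ℝ := min (1 / 256) (δ / (1 + D)) with hs
  have hs0 : 0 < s := lt_min (by norm_num) (by positivity)
  have hs1 : s ≤ 1 / 256 := min_le_left _ _
  have hs2 : s * (1 + D) ≤ δ := (le_div_iff₀ (by positivity)).1 (min_le_right _ _)
  have w1 : Whp PP fun n z => ¬ (Spec z.1 ∧
      s * Nb n η ≤ |(fE η z.1 * Aq T r z).trace - (m n).1 * Nb n η|) :=
    whp_of_real_le (tail_zero (c := c * s ^ 2) (by positivity))
      (hm.mono fun n h => by simpa only [not_not] using h.1 s hs0.le)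
  have w2 : Whp PP fun n z => ¬ (Spec z.1 ∧
      s * Nb n η ≤ |(fE η z.1 * 1).trace - (m n).2 * Nb n η|) :=
    whp_of_real_le (tail_zero (c := c * s ^ 2) (by positivity))
      (hm.mono fun n h => by simpa only [not_not] using h.2 s hs0.le)
  refine (((vh_whp hS).and w1).and w2).mono ?_
  filter_upwards [eventually_gt_atTop 0, ep_tendsto.eventually (ge_mem_nhds hη.1)] with n hn he
  rintro z ⟨⟨hz, h1⟩, h2⟩
  have h1' := not_le.1 fun h => h1 ⟨hz, h⟩
  have h2' := not_le.1 fun h => h2 ⟨hz, h⟩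
  have hnr : (0 : ℝ) < n := by exact_mod_cast hn
  have hη0 := hη.1
  have hN : 0 < Nb n η := by unfold Nb; positivity
  have he0 := (e0_le_ep hn).trans he
  have hη1 : η ≤ 1 := by linarith [hη.2]
  obtain ⟨S, hS'⟩ := hFD n hn
  have t1 := tr_ge hF hz hη0 he0 hη1
  have t2 := (abs_tr_le hF hz.symm hη0 (hS'.bd z (ball_of_spec hn hz))).trans
    (mul_le_mul_of_nonneg_left (hz.tr η ⟨he0, hη1⟩) hC.le)
  have m2 : 1 / 256 ≤ (m n).2 := by
    have := (abs_lt.1 h2').2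
    refine le_of_mul_le_mul_right ?_ hN
    nlinarith [mul_le_mul_of_nonneg_right hs1 hN.le]
  have m1 : |(m n).1| ≤ 4 * C + 1 := by
    refine le_of_mul_le_mul_right ?_ hN
    have h3 : |(m n).1| * Nb n η = |(m n).1 * Nb n η| := by rw [abs_mul, abs_of_pos hN]
    have h4 := abs_sub_abs_le_abs_sub ((m n).1 * Nb n η) (fE η z.1 * Aq T r z).trace
    rw [abs_sub_comm] at h4
    nlinarith [mul_le_mul_of_nonneg_right hs1 hN.le]
  have hm0 : 0 < (m n).2 := by linarith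
  have ha : |(m n).1 / (m n).2| ≤ D := by
    rw [abs_div, abs_of_pos hm0, div_le_iff₀ hm0]
    nlinarith
  have e : dev η ((m n).1 / (m n).2) (Aq T r z) z.1 =
      ((fE η z.1 * Aq T r z).trace - (m n).1 * Nb n η) -
        (m n).1 / (m n).2 * ((fE η z.1 * 1).trace - (m n).2 * Nb n η) := by
    simp only [dev, Matrix.mul_sub, Matrix.mul_smul, trace_sub, trace_smul, smul_eq_mul]
    field_simp
    ring
  rw [e]
  refine (abs_sub _ _).trans ?_
  rw [abs_mul]
  have h5 := mul_le_mul ha h2'.le (abs_nonneg _) hD0.le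
  nlinarith [mul_le_mul_of_nonneg_right hs2 hN.le]

end Crest.Agent.T157.Da

end
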