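import Crest.Agent.T157.DaFd_82

/-!
# Row 157, part C (helper82): discretisation of the dynamics by the chain with frozen fields
-/

set_option autoImplicit false

noncomputable section

namespace Crest.Agent.T157.Da

open Matrix Function Real Set
open Crest.Agent.T157.E Crest.Agent.T157.Eig
open Crest.Agent.T157.Tap (V Mx)
open Crest.Agent.T157.Rec hiding fl
open Crest.Agent.T157.Chain22 (sg sg_add sg_zero hasDerivAt_sg)
open Crest.Agent.T157.Conc (fro)
open Crest.Agent.T157.Pl (one)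
open Gr Fd

namespace Disc

variable {n : ℕ} {W M : Mx n} {h C G : ℝ} {F : Cube n → ℝ}

theorem ex_par (hn : 0 < n) (W : Mx n) (h : ℝ) (K : ℕ) (x : Cube n) :
    Ex fun F => (par W h)^[K] F x := by
  induction K generalizing x with
  | zero => exact ⟨fun _ _ => rfl, fun _ _ => rfl, fun _ => rfl⟩
  | succ K ih =>
    simp only [iterate_succ_apply']
    exact ⟨fun f g => by simp only [par, funext fun z => (ih z).add f g, sg_add_fun],
      fun c f => by simp only [par, funext fun z => (ih z).cmul c f, sg_const_mul],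
      fun c => by simp only [par, funext fun z => (ih z).const c, sg_const hn (ising_pos _ _)]⟩

theorem mo_par (hn : 0 < n) (W : Mx n) (hh : 0 ≤ h) (K : ℕ) (x : Cube n) :
    Mo fun F => (par W h)^[K] F x := by
  induction K generalizing x with
  | zero => exact fun _ _ e => e x
  | succ K ih =>
    simp only [iterate_succ_apply']
    exact fun f g e => sg_mono hn (ising_pos _ _) hh (fun z => ih z f g e) x

theorem sv_dot (x : Cube n) : sv x ⬝ᵥ sv x = n := by simp [dotProduct, sv_mul_self]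

theorem disp_le (hn : 0 < n) (hW : Wᵀ = W) (y : V n) {s : ℝ} (hs : 0 ≤ s) (x : Cube n) :
    sg (ising W y) s (fun z => (sv x - sv z) ⬝ᵥ (sv x - sv z)) x ≤ 4 * n * s := by
  have hw := ising_pos W y
  have e : (fun z => (sv x - sv z) ⬝ᵥ (sv x - sv z)) = fun z => (2 * n : ℝ) - 2 * (sv x ⬝ᵥ sv z) := by
    ext z; rw [sub_dotProduct, dotProduct_sub, dotProduct_sub, sv_dot, sv_dot, dotProduct_comm (sv z)]; ring
  have := le_of_deriv hs (fun u _ => ((hasDerivAt_id' u).const_mul (4 * n : ℝ)).sub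
    (hasDerivAt_sg hn hw (fun z => (sv x - sv z) ⬝ᵥ (sv x - sv z)) x u)) fun u hu => by
      rw [gen_sg hn hw, mul_one, sub_nonneg]
      refine (ex_sg hn hw u x).le (mo_sg hn hw hu.1 x) fun z => ?_
      rw [gen_ising hW, e, grad_sub, grad_const, grad_const_mul, grad_lin]
      refine (Finset.sum_le_card_nsmul _ _ 4 fun i _ => ?_).trans_eq (by simp [mul_comm])
      have h1 := abs_lt.1 (abs_tanh_lt_one (loc W y z i))
      simp only [tt, Pi.sub_apply, Pi.zero_apply, Pi.smul_apply, smul_eq_mul]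
      rcases mul_self_eq_one_iff.1 (sv_mul_self x i) with a | a <;>
        rcases mul_self_eq_one_iff.1 (sv_mul_self z i) with b | b <;> rw [a, b] <;> linarith
  simp only [Pi.sub_apply, sg_zero hn hw, sub_self, dotProduct_zero] at this
  linarith

/-- the data of the comparison -/
structure Ok (W : Mx n) (C h E : ℝ) : Prop where
  hn : 0 < n
  hW : Wᵀ = W
  hK : opn W ≤ 4
  hC : 0 ≤ C
  hh : 0 ≤ h
  hE : 0 ≤ E
  gr : GR (ising W 0) C
  gr0 : ∀ b, GR (ising (0 : Mx n) b) C
  le : exp (C * h) * (192 * n * h + 3 * ∑ i, W i i ^ 2) ≤ E ^ 2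

variable {E : ℝ}

theorem Ok.step (o : Ok W C h E) (hG : 0 ≤ G) (hF : ∀ z, grad F z ⬝ᵥ grad F z ≤ G ^ 2) (x : Cube n) :
    |par W h F x - sg (ising W 0) h F x| ≤ h * E * G := by
  have hw := ising_pos W 0
  have hh := o.hh
  have hE := o.hE
  have t := two_ising o.hn o.hW transpose_zero o.hC o.gr (o.gr0 (W *ᵥ sv x))
  refine abs_le_of_sq_le_sq ((t.duhamel hh hF x).trans ?_) (by positivity)
  have h1 : Iq (ising W 0) h (fun z => (tt 0 (W *ᵥ sv x) z - tt W 0 z) ⬝ᵥ
      (tt 0 (W *ᵥ sv x) z - tt W 0 z)) x ≤ h * (192 * n * h + 3 * ∑ i, W i i ^ 2) := by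
    refine (intervalIntegral.integral_mono_on hh ((cont_sg o.hn hw _ x).intervalIntegrable _ _)
      (continuous_const (y := 192 * n * h + 3 * ∑ i, W i i ^ 2) |>.intervalIntegrable _ _)
      fun s hs => ?_).trans_eq (by rw [intervalIntegral.integral_const, sub_zero, smul_eq_mul])
    refine (sg_mono o.hn hw hs.1 (g := fun z => 48 * ((sv x - sv z) ⬝ᵥ (sv x - sv z)) +
      3 * ∑ i, W i i ^ 2) (fun z => (tt_sub_le _ _ _ _ z).trans ?_) x).trans ?_
    · have e : (0 - W) *ᵥ sv z + (W *ᵥ sv x - 0) = W *ᵥ (sv x - sv z) := by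
        rw [zero_sub, neg_mulVec, sub_zero, mulVec_sub]; abel
      have := (mulVec_dot_le W (sv x - sv z)).trans (mul_le_mul_of_nonneg_right
        (pow_le_pow_left₀ (opn_nonneg W) o.hK 2) (dot_self_nonneg _))
      rw [e]
      simp only [zero_sub, Matrix.neg_apply, neg_sq]
      linarith
    · rw [sg_add_fun, sg_const_mul, sg_const o.hn hw]
      have := disp_le o.hn o.hW 0 hs.1 x
      have := mul_le_mul_of_nonneg_left hs.2 (Nat.cast_nonneg (α := ℝ) n)
      linarith
  refine (mul_le_mul_of_nonneg_right h1 (by positivity)).trans ?_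
  have := mul_le_mul_of_nonneg_left o.le (show 0 ≤ h ^ 2 * G ^ 2 by positivity)
  linarith

theorem Ok.iter (o : Ok W C h E) (hG : 0 ≤ G) (hF : ∀ z, grad F z ⬝ᵥ grad F z ≤ G ^ 2) (K : ℕ)
    (x : Cube n) :
    |(par W h)^[K] F x - sg (ising W 0) (K * h) F x| ≤ K * h * E * (exp (C * (K * h)) * G) := by
  have hw := ising_pos W 0
  have hh := o.hh
  have hE := o.hE
  have hC := o.hC
  induction K generalizing x with
  | zero => simp [sg_zero o.hn hw]
  | succ K ih =>
    have e1 : 1 ≤ exp (C * (K * h)) := one_le_exp (by positivity)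
    have h1 := o.step (F := sg (ising W 0) (K * h) F) (G := exp (C * (K * h)) * G) (by positivity)
      (fun z => (gr_le o.gr o.hn hw (by positivity) hF z).trans (by
        rw [mul_pow]; exact mul_le_mul_of_nonneg_right (by nlinarith) (sq_nonneg G))) x
    have h2 := (ex_par o.hn W h 1 x).abs_le (mo_par o.hn W hh 1 x) ih
    rw [(ex_par o.hn W h 1 x).sub, (ex_par o.hn W h 1 x).const] at h2
    have e2 : exp (C * (K * h)) * G ≤ exp (C * ((K + 1) * h)) * G := by gcongr; linarith
    rw [iterate_succ_apply', Nat.cast_succ, add_mul (K : ℝ), one_mul, add_comm (K * h) h,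
      sg_add o.hn hw, add_comm h, ← add_one_mul]
    refine (abs_sub_le _ _ _).trans ((add_le_add h2 h1).trans ?_)
    have := mul_le_mul_of_nonneg_left e2 (show 0 ≤ (K + 1) * h * E by positivity)
    linarith

theorem nrm_le_of_dot {a : V n} {c : ℝ} (hc : 0 ≤ c) (h : a ⬝ᵥ a ≤ c * nrm a) : nrm a ≤ c := by
  rw [← nrm_mul_self] at h
  rcases (nrm_nonneg a).eq_or_lt with e | e
  · rwa [← e]
  · exact le_of_mul_le_mul_right h e

theorem nrm_mv_le {E : (Cube n → ℝ) → ℝ} (h : Ex E) (hm : Mo E) : nrm (mv E sv) ≤ √n :=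
  nrm_le_of_dot (sqrt_nonneg _) (by
    rw [← h.dot]
    exact h.le hm fun z => (dot_le _ _).trans_eq (by rw [nrm, nrm, sv_dot, mul_comm]))

theorem Ok.quad (o : Ok W C h E) (M : Mx n) (K : ℕ) (z : Cube n) :
    |Yd W h K z ⬝ᵥ M *ᵥ Yd W h K z - Psv (ising W 0) (K * h) z ⬝ᵥ M *ᵥ Psv (ising W 0) (K * h) z| ≤
      2 * (opn M * √n * (K * h * E * exp (C * (K * h)))) := by
  have hw := ising_pos W 0
  have hh := o.hh
  have hE := o.hE
  set a := Yd W h K z
  set b := Psv (ising W 0) (K * h) z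
  have ha : nrm a ≤ √n := nrm_mv_le (ex_par o.hn W h K z) (mo_par o.hn W hh K z)
  have hb : nrm b ≤ √n := nrm_mv_le (ex_sg o.hn hw _ z) (mo_sg o.hn hw (by positivity) z)
  have hab : nrm (a - b) ≤ K * h * E * exp (C * (K * h)) := nrm_le_of_dot (by positivity) (by
    have := o.iter (F := fun x => (a - b) ⬝ᵥ sv x) (nrm_nonneg (a - b))
      (fun z => by rw [grad_lin, nrm_sq]) K z
    rw [(ex_par o.hn W h K z).dot, ← dot_Psv, ← dotProduct_sub, ← mul_assoc] at this
    exact (le_abs_self _).trans this)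
  have e : a ⬝ᵥ M *ᵥ a - b ⬝ᵥ M *ᵥ b = (a - b) ⬝ᵥ M *ᵥ a + b ⬝ᵥ M *ᵥ (a - b) := by
    rw [mulVec_sub, sub_dotProduct, dotProduct_sub]; ring
  have := opn_nonneg M
  have := nrm_nonneg (a - b)
  have := nrm_nonneg b
  rw [e, two_mul]
  refine (abs_add_le _ _).trans (add_le_add ((abs_bil_le _ _ _).trans ?_) ((abs_bil_le _ _ _).trans ?_))
  · rw [mul_comm (nrm _), mul_assoc]; gcongr
  · rw [mul_assoc]; gcongr

theorem fro_le (M : Mx n) : fro M ≤ n * opn M ^ 2 := by
  rw [← Conc.fro_transpose]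
  exact (Finset.sum_le_card_nsmul _ _ _ fun i _ => row_sq_le M i).trans_eq (by simp)

theorem grad_quad {Y : Cube n → V n} {B : ℝ} (hB : 1 ≤ B) (hY : Jb Y B) (hn : ∀ z, nrm (Y z) ≤ √n)
    (M : Mx n) (z : Cube n) : grad (fun z => Y z ⬝ᵥ M *ᵥ Y z) z ⬝ᵥ grad (fun z => Y z ⬝ᵥ M *ᵥ Y z) z ≤
      (4 * B * (opn M * √n)) ^ 2 := by
  set S : Mx n := (1 / 2 : ℝ) • (M + Mᵀ) with hS
  have e : ∀ u : V n, u ⬝ᵥ M *ᵥ u = (u - 0) ⬝ᵥ S *ᵥ (u - 0) := fun u => by
    rw [sub_zero, hS, smul_mulVec, add_mulVec, dotProduct_smul, dotProduct_add, mulVec_transpose,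
      dotProduct_comm u (u ᵥ* M), ← dotProduct_mulVec, smul_eq_mul]; ring
  have h1 : opn S ≤ opn M := by
    have := opn_add_le M Mᵀ
    rw [opn_transpose] at this
    rw [hS, opn_smul, abs_of_pos one_half_pos]; linarith
  have h2 := pow_le_pow_left₀ (opn_nonneg S) h1 2
  have h3 := (fro_le S).trans (mul_le_mul_of_nonneg_left h2 (Nat.cast_nonneg n))
  have h4 := (mulVec_dot_le S (Y z - 0)).trans (mul_le_mul h2 (b := opn M ^ 2) (d := n) (by
    rw [sub_zero, ← sq_sqrt (Nat.cast_nonneg n)]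
    exact (nrm_le_iff (sqrt_nonneg _)).1 (hn z)) (dot_self_nonneg _) (sq_nonneg _))
  simp only [e]
  refine (grad_quad_le (by linarith) hY (by rw [hS, transpose_smul, transpose_add,
    transpose_transpose, add_comm]) 0 z).trans ?_
  rw [mul_pow, mul_pow, mul_pow, sq_sqrt (Nat.cast_nonneg n)]
  have h5 : 0 ≤ opn M ^ 2 * n := by positivity
  nlinarith [mul_le_mul_of_nonneg_left h4 (show 0 ≤ B by linarith),
    mul_le_mul_of_nonneg_left h3 (sq_nonneg B), mul_nonneg h5 (mul_nonneg (show 0 ≤ B by linarith)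
      (sub_nonneg.2 hB))]

end Disc

open Disc

theorem discStmt : DiscStmt := by
  intro T hT
  obtain ⟨C, hC, hG⟩ := grStmt 4
  set b := exp (C * T) with hb
  have b1 : 1 ≤ b := one_le_exp (by positivity)
  refine ⟨10 * T * b ^ 3 * (√(192 * T) + 2) + 1, by positivity, fun n K W M hn hK hW hW4 => ?_⟩
  have K1 : (1 : ℝ) ≤ K := by exact_mod_cast hK
  have hw := ising_pos W 0
  have eK : K * (T / K) = T := by field_simp
  have eK2 : ((2 * K : ℕ) : ℝ) * (T / K) = 2 * T := by push_cast; rw [mul_assoc, eK]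
  set d := ∑ i, W i i ^ 2
  have d0 : 0 ≤ d := by positivity
  set R := √n / √K + √d with hR
  have o : Ok W C (T / K) (b * ((√(192 * T) + 2) * R)) := by
    refine ⟨hn, hW, hW4, hC, by positivity, by positivity, hG n W 0 hn hW hW4,
      fun y => hG n 0 y hn transpose_zero (by simp), ?_⟩
    rw [mul_pow]
    refine mul_le_mul ((exp_le_exp.2 (mul_le_mul_of_nonneg_left (div_le_self hT K1) hC)).trans
      (by nlinarith)) ?_ (by positivity) (by positivity)
    have h1 : (√n / √K) ^ 2 = n / K := by rw [div_pow, sq_sqrt (by positivity), sq_sqrt (by positivity)]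
    have h2 : n / K + d ≤ R ^ 2 := by
      rw [hR, add_sq, h1, sq_sqrt d0]
      have : 0 ≤ 2 * (√n / √K) * √d := by positivity
      linarith
    have h3 : 192 * T + 4 ≤ (√(192 * T) + 2) ^ 2 := by
      rw [add_sq, sq_sqrt (by positivity)]; linarith [sqrt_nonneg (192 * T)]
    rw [mul_pow]
    refine le_trans ?_ (mul_le_mul h3 h2 (by positivity) (by positivity))
    have : 192 * n * (T / K) = 192 * T * (n / K) := by ring
    have : 0 ≤ (n : ℝ) / K := by positivity
    nlinarith [mul_nonneg hT d0]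
  have e : (M * Am (ising W 0) T (one n)).trace =
      sg (ising W 0) T (fun z => Psv (ising W 0) T z ⬝ᵥ M *ᵥ Psv (ising W 0) T z) (one n) -
        Psv (ising W 0) (2 * T) (one n) ⬝ᵥ M *ᵥ Psv (ising W 0) (2 * T) (one n) := by
    have e1 : mv (fun g => sg (ising W 0) T g (one n)) (Psv (ising W 0) T) =
        Psv (ising W 0) (2 * T) (one n) := by
      ext i; rw [two_mul, Psv, sg_add hn hw]; rfl
    rw [← e1, ← Am_transpose]
    exact (Qm_Am hn hw hT _ M).symm
  have h1 := o.quad M (2 * K) (one n)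
  have h2 := (ex_par hn W (T / K) K (one n)).abs_le (mo_par hn W o.hh K (one n)) (o.quad M K)
  have h3 := o.iter (by have := opn_nonneg M; positivity) (grad_quad b1 (jb_Psv o.gr hn hw hT)
    (fun z => nrm_mv_le (ex_sg hn hw _ z) (mo_sg hn hw hT z)) M) K (one n)
  rw [(ex_par hn W _ K _).sub, (ex_par hn W _ K _).const] at h2
  rw [eK2, mul_left_comm C, two_mul (C * T), exp_add] at h1
  rw [eK] at h2 h3
  have eR : n / √K + √n * √d = √n * R := by
    rw [hR, mul_add, ← mul_div_assoc, mul_self_sqrt (Nat.cast_nonneg n)]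
  rw [e, br, br, iterate_zero, id, eR]
  set X := opn M * √n * ((√(192 * T) + 2) * R) * T with hX
  have X0 : 0 ≤ X := by have := opn_nonneg M; positivity
  have p : 0 ≤ opn M * (√n * R) := by have := opn_nonneg M; positivity
  have q : X * b ^ 2 ≤ X * b ^ 3 := mul_le_mul_of_nonneg_left (pow_le_pow_right₀ b1 (by norm_num)) X0
  rw [← hb] at h1 h2 h3
  replace h1 := abs_le.1 (h1.trans_eq (show _ = 4 * (X * b ^ 3) by rw [hX]; ring))
  replace h2 := abs_le.1 (h2.trans_eq (show _ = 2 * (X * b ^ 2) by rw [hX]; ring))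
  replace h3 := abs_le.1 (h3.trans_eq (show _ = 4 * (X * b ^ 3) by rw [hX]; ring))
  rw [show (10 * T * b ^ 3 * (√(192 * T) + 2) + 1) * opn M * (√n * R) =
    10 * (X * b ^ 3) + opn M * (√n * R) by rw [hX]; ring, abs_le]
  constructor <;> linarith

end Crest.Agent.T157.Da

end
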