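import Crest.Agent.T157.DaGr_82

/-!
# Row 157, part C (helper82): comparison of two heat-bath semigroups
-/

set_option autoImplicit false

noncomputable section

namespace Crest.Agent.T157.Da.Fd

open Matrix Function Real Set
open Crest.Agent.T157.E Crest.Agent.T157.Eig
open Crest.Agent.T157.Tap (V Mx)
open Crest.Agent.T157.Rec hiding fl
open Crest.Agent.T157.Chain22 (sg sg_add sg_zero hasDerivAt_sg)
open Crest.Agent.T157.Conc (fro)
open Gr

theorem sq_le_of_forall {x a b : ℝ} (ha : 0 ≤ a) (hb : 0 ≤ b)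
    (h : ∀ l : ℝ, 0 < l → |x| ≤ (l * a + b / l) / 2) : x ^ 2 ≤ a * b := by
  rw [← sq_abs]
  rcases (abs_nonneg x).eq_or_lt with hx | hx
  · rw [← hx]; simpa using mul_nonneg ha hb
  rcases ha.eq_or_lt with ha0 | ha0
  · exfalso
    have h1 := h ((b + 1) / |x|) (by positivity)
    rw [← ha0, mul_zero, zero_add, div_div_eq_mul_div, div_div, le_div_iff₀ (by positivity)] at h1
    nlinarith
  · have h1 := h (|x| / a) (by positivity)
    rw [div_mul_cancel₀ _ ha0.ne', div_div_eq_mul_div] at h1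
    have h2 : |x| ≤ b * a / |x| := by linarith
    rw [le_div_iff₀ hx] at h2
    nlinarith

theorem abs_le_am {x a b l : ℝ} (ha : 0 ≤ a) (hb : 0 ≤ b) (hl : 0 < l) (h : x ^ 2 ≤ a * b) :
    |x| ≤ (l * a + b / l) / 2 := by
  refine abs_le_of_sq_le_sq (h.trans ?_) (by positivity)
  have : a * b = l * a * (b / l) := by field_simp
  nlinarith [sq_nonneg (l * a - b / l)]

theorem le_of_deriv {ψ ψ' : ℝ → ℝ} {v : ℝ} (hv : 0 ≤ v) (h : ∀ s ∈ Icc 0 v, HasDerivAt ψ (ψ' s) s)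
    (h0 : ∀ s ∈ Icc 0 v, 0 ≤ ψ' s) : ψ 0 ≤ ψ v :=
  monotoneOn_of_deriv_nonneg (convex_Icc 0 v)
    (fun q hq => (h q hq).continuousAt.continuousWithinAt)
    (fun q hq => (h q (interior_subset hq)).differentiableAt.differentiableWithinAt)
    (fun u hu => by rw [(h u (interior_subset hu)).deriv]; exact h0 u (interior_subset hu))
    (left_mem_Icc.2 hv) (right_mem_Icc.2 hv) hv

theorem sq_le_of_deriv {φ φ' J D : ℝ → ℝ} {c v : ℝ} (hv : 0 ≤ v) (hc : 0 ≤ c)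
    (hφ : ∀ s ∈ Icc 0 v, HasDerivAt φ (φ' s) s) (hJ : ∀ s, HasDerivAt J (D s) s)
    (hD : ∀ s ∈ Icc 0 v, 0 ≤ D s) (h : ∀ s ∈ Icc 0 v, φ' s ^ 2 ≤ D s * c) :
    (φ v - φ 0) ^ 2 ≤ (J v - J 0) * (c * v) := by
  refine sq_le_of_forall (sub_nonneg.2 (le_of_deriv hv (fun s _ => hJ s) hD)) (by positivity)
    fun l hl => ?_
  have d := fun s => (((hJ s).const_mul l).add ((hasDerivAt_id' s).const_mul (c / l))).div_const 2
  have h1 := le_of_deriv hv (fun s hs => (d s).sub (hφ s hs)) fun s hs => by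
    linarith [(abs_le.1 (abs_le_am (hD s hs) hc hl (h s hs))).2]
  have h2 := le_of_deriv hv (fun s hs => (d s).add (hφ s hs)) fun s hs => by
    linarith [(abs_le.1 (abs_le_am (hD s hs) hc hl (h s hs))).1]
  simp only [Pi.add_apply, Pi.sub_apply, mul_zero, add_zero] at h1 h2
  rw [abs_le, mul_div_right_comm]
  constructor <;> linarith

variable {n : ℕ} {w w' f g : Cube n → ℝ} {C : ℝ} {δ : Cube n → V n} {s t v : ℝ}

/-! ### normalised linear functionals -/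

structure Ex (E : (Cube n → ℝ) → ℝ) : Prop where
  add : ∀ f g, E (fun z => f z + g z) = E f + E g
  cmul : ∀ c f, E (fun z => c * f z) = c * E f
  const : ∀ c, E (fun _ => c) = c

/-- mean vector -/
def mv (E : (Cube n → ℝ) → ℝ) (Y : Cube n → V n) : V n := fun i => E fun z => Y z i
/-- pairing of `M` with the covariance matrix -/
def Qm (E : (Cube n → ℝ) → ℝ) (Y : Cube n → V n) (M : Mx n) : ℝ :=
  E (fun z => Y z ⬝ᵥ M *ᵥ Y z) - mv E Y ⬝ᵥ M *ᵥ mv E Y
/-- monotone functional -/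
def Mo (E : (Cube n → ℝ) → ℝ) : Prop := ∀ f g : Cube n → ℝ, (∀ z, f z ≤ g z) → E f ≤ E g
/-- local Poincare inequality -/
def Lp (E : (Cube n → ℝ) → ℝ) (c : ℝ) : Prop := ∀ (g : Cube n → ℝ) (G : ℝ),
  (∀ z, grad g z ⬝ᵥ grad g z ≤ G) → E (fun z => g z ^ 2) - E g ^ 2 ≤ c * G
/-- bound of the Jacobian -/
def Jb (Y : Cube n → V n) (B : ℝ) : Prop := ∀ (a : V n) (z : Cube n),
  grad (fun z => a ⬝ᵥ Y z) z ⬝ᵥ grad (fun z => a ⬝ᵥ Y z) z ≤ B * (a ⬝ᵥ a)

variable {E : (Cube n → ℝ) → ℝ} {Y Y' : Cube n → V n} {M : Mx n} {B c : ℝ}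

namespace Ex

theorem sub (h : Ex E) (f g : Cube n → ℝ) : E (fun z => f z - g z) = E f - E g := by
  have := h.add f fun z => -1 * g z
  rw [h.cmul] at this
  simpa only [neg_one_mul, ← sub_eq_add_neg] using this

theorem sum (h : Ex E) {κ : Type*} (S : Finset κ) (f : κ → Cube n → ℝ) :
    E (fun z => ∑ k ∈ S, f k z) = ∑ k ∈ S, E (f k) := by
  classical
  induction S using Finset.induction_on with
  | empty => simpa using h.const 0
  | insert a S ha ih => simp only [Finset.sum_insert ha, h.add, ih]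

theorem dot (h : Ex E) (a : V n) (Y : Cube n → V n) : E (fun z => a ⬝ᵥ Y z) = a ⬝ᵥ mv E Y := by
  simp only [dotProduct, h.sum, h.cmul, mv]

theorem center (h : Ex E) (Y : Cube n → V n) (M : Mx n) (m : V n) : Qm E Y M =
    E (fun z => (Y z - m) ⬝ᵥ M *ᵥ (Y z - m)) - (mv E Y - m) ⬝ᵥ M *ᵥ (mv E Y - m) := by
  have e : ∀ u : V n, (u - m) ⬝ᵥ M *ᵥ (u - m) =
      u ⬝ᵥ M *ᵥ u - (M *ᵥ m) ⬝ᵥ u - (m ᵥ* M) ⬝ᵥ u + m ⬝ᵥ M *ᵥ m := fun u => by
    rw [mulVec_sub, sub_dotProduct, dotProduct_sub, dotProduct_sub, dotProduct_comm u (M *ᵥ m),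
      dotProduct_mulVec m M u]; ring
  simp only [e, h.add, h.sub, h.const, h.dot, Qm]; ring

theorem center' (h : Ex E) (Y : Cube n → V n) (M : Mx n) :
    Qm E Y M = E fun z => (Y z - mv E Y) ⬝ᵥ M *ᵥ (Y z - mv E Y) := by
  rw [h.center Y M (mv E Y), sub_self, zero_dotProduct, sub_zero]

theorem nonneg (h : Ex E) (hm : Mo E) (hf : ∀ z, 0 ≤ f z) : 0 ≤ E f :=
  (h.const 0).symm.trans_le (hm _ _ hf)

theorem le (h : Ex E) (hm : Mo E) (hf : ∀ z, f z ≤ c) : E f ≤ c := (hm _ _ hf).trans_eq (h.const c)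

theorem abs_le (h : Ex E) (hm : Mo E) (hf : ∀ z, |f z| ≤ g z) : |E f| ≤ E g := by
  have := hm (fun z => -1 * g z) f fun z => by linarith [(_root_.abs_le.1 (hf z)).1]
  rw [h.cmul] at this
  exact _root_.abs_le.2 ⟨by linarith, hm _ _ fun z => (_root_.abs_le.1 (hf z)).2⟩

theorem cs (h : Ex E) (hm : Mo E) (a b : Cube n → V n) :
    E (fun z => a z ⬝ᵥ b z) ^ 2 ≤ E (fun z => a z ⬝ᵥ a z) * E fun z => b z ⬝ᵥ b z := by
  refine sq_le_of_forall (h.nonneg hm fun z => dot_self_nonneg _)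
    (h.nonneg hm fun z => dot_self_nonneg _) fun l hl => ?_
  refine (h.abs_le hm (g := fun z => l / 2 * (a z ⬝ᵥ a z) + l⁻¹ / 2 * (b z ⬝ᵥ b z)) fun z =>
    (abs_le_am (dot_self_nonneg _) (dot_self_nonneg _) hl (dot_sq_le _ _)).trans_eq (by ring)).trans_eq ?_
  rw [h.add, h.cmul, h.cmul]; ring

theorem var_mat (h : Ex E) (hp : Lp E c) (hY : Jb Y B) (M : Mx n) :
    E (fun z => (M *ᵥ (Y z - mv E Y)) ⬝ᵥ (M *ᵥ (Y z - mv E Y))) ≤ c * B * fro M := by
  have e : ∀ z, (M *ᵥ (Y z - mv E Y)) ⬝ᵥ (M *ᵥ (Y z - mv E Y)) =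
      ∑ i, ((M i ⬝ᵥ Y z) ^ 2 - 2 * (M i ⬝ᵥ mv E Y) * (M i ⬝ᵥ Y z) + (M i ⬝ᵥ mv E Y) ^ 2) := fun z => by
    refine Finset.sum_congr rfl fun i _ => ?_
    simp only [mulVec, dotProduct_sub]; ring
  simp only [e, h.sum, h.add, h.sub, h.cmul, h.const, h.dot, fro, Finset.mul_sum]
  refine Finset.sum_le_sum fun i _ => ?_
  have := hp _ _ (hY (M i))
  rw [h.dot] at this
  rw [← Finset.mul_sum]
  have e : ∑ j, M i j ^ 2 = M i ⬝ᵥ M i := by simp only [dotProduct, sq]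
  rw [e]; linarith

/-- change of the feature map -/
theorem stepB (h : Ex E) (hm : Mo E) (hp : Lp E c) (hY : Jb Y B) (hY' : Jb Y' B) (hM : Mᵀ = M) :
    (Qm E Y' M - Qm E Y M) ^ 2 ≤
      E (fun z => (Y' z - Y z) ⬝ᵥ (Y' z - Y z)) * (c * (4 * B) * fro M) := by
  have hZ : Jb (fun z => Y' z + Y z) (4 * B) := fun a z => by
    simp only [dotProduct_add a, grad_add]
    have := dot_self_nonneg (grad (fun z => a ⬝ᵥ Y' z) z - grad (fun z => a ⬝ᵥ Y z) z)
    simp only [add_dotProduct, dotProduct_add, sub_dotProduct, dotProduct_sub] at this ⊢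
    linarith [hY a z, hY' a z]
  have m1 : mv E (fun z => Y' z + Y z) = mv E Y' + mv E Y := funext fun i => h.add _ _
  have m2 : mv E (fun z => Y' z - Y z) = mv E Y' - mv E Y := funext fun i => h.sub _ _
  have h1 := h.var_mat hp hZ M
  have h2 := h.center' (fun z => Y' z - Y z) 1
  simp only [Qm, one_mulVec] at h2
  have h3 := h.cs hm (fun z => Y' z - Y z - mv E fun z => Y' z - Y z)
    fun z => M *ᵥ (Y' z + Y z - mv E fun z => Y' z + Y z)
  rw [h.center', h.center', ← h.sub]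
  refine le_of_eq_of_le ?_ (h3.trans (mul_le_mul (by rw [← h2]; linarith [dot_self_nonneg (mv E
    fun z => Y' z - Y z)]) h1 (h.nonneg hm fun z => dot_self_nonneg _)
    (h.nonneg hm fun z => dot_self_nonneg _)))
  congr 2; ext z
  rw [m1, m2, sub_sub_sub_comm, add_sub_add_comm, mulVec_add, sub_dotProduct (Y' z - _),
    dotProduct_add, dotProduct_add, dot_symm (herm_iff.2 hM) (Y' z - mv E Y') (Y z - mv E Y)]
  ring

end Ex

theorem grad_dot (a : V n) (Y : Cube n → V n) (z : Cube n) (k : Fin n) :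
    grad (fun z => a ⬝ᵥ Y z) z k = a ⬝ᵥ fun i => grad (fun z => Y z i) z k := by
  simp only [dotProduct, grad_sum, grad_const_mul, Pi.smul_apply, smul_eq_mul]

theorem grad_quad_le (hB : 0 ≤ B) (hY : Jb Y B) (hM : Mᵀ = M) (m : V n) (z : Cube n) :
    grad (fun z => (Y z - m) ⬝ᵥ M *ᵥ (Y z - m)) z ⬝ᵥ grad (fun z => (Y z - m) ⬝ᵥ M *ᵥ (Y z - m)) z ≤
      8 * B * ((M *ᵥ (Y z - m)) ⬝ᵥ (M *ᵥ (Y z - m))) + 8 * B ^ 2 * fro M := by
  set D : Fin n → V n := fun k i => grad (fun z => Y z i) z k with hD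
  have hY2 : ∀ a : V n, ∑ k, (a ⬝ᵥ D k) ^ 2 ≤ B * (a ⬝ᵥ a) := fun a => by
    refine le_of_eq_of_le (Finset.sum_congr rfl fun k _ => ?_) (hY a z)
    rw [grad_dot, sq]
  have e : ∀ k, grad (fun z => (Y z - m) ⬝ᵥ M *ᵥ (Y z - m)) z k =
      2 * ((M *ᵥ (Y z - m)) ⬝ᵥ D k) - 2 * sv z k * (D k ⬝ᵥ M *ᵥ D k) := fun k => by
    have : Y (Rec.fl z k) - m = Y z - m - (2 * sv z k) • D k := by
      ext i; simp only [Pi.sub_apply, Pi.smul_apply, smul_eq_mul, val_fl (fun z => Y z i) z k, hD]; ring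
    rw [grad_eq, this, mulVec_sub M (Y z - m), sub_dotProduct (Y z - m), dotProduct_sub,
      dotProduct_sub, mulVec_smul, dotProduct_smul, smul_dotProduct, smul_dotProduct, dotProduct_smul,
      dot_symm (herm_iff.2 hM) (Y z - m) (D k), dotProduct_comm (M *ᵥ (Y z - m))]
    simp only [smul_eq_mul]
    linear_combination (2 * (D k ⬝ᵥ M *ᵥ (Y z - m)) - 2 * sv z k * (D k ⬝ᵥ M *ᵥ D k)) * sv_mul_self z k
  have d1 : ∀ k, D k ⬝ᵥ D k ≤ B := fun k => by
    have h1 := (Finset.single_le_sum (f := fun l => (D k ⬝ᵥ D l) ^ 2) (fun _ _ => sq_nonneg _)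
      (Finset.mem_univ k)).trans (hY2 (D k))
    by_contra h
    have := dot_self_nonneg (D k)
    nlinarith
  have d2 : ∑ k, (D k ⬝ᵥ M *ᵥ D k) ^ 2 ≤ B ^ 2 * fro M := by
    refine (Finset.sum_le_sum (g := fun k => B * ∑ i, (M i ⬝ᵥ D k) ^ 2) fun k _ =>
      (dot_sq_le _ _).trans (mul_le_mul (d1 k) (le_of_eq ?_) (dot_self_nonneg _) hB)).trans ?_
    · simp only [dotProduct, mulVec, sq]
    · rw [← Finset.mul_sum, Finset.sum_comm, sq B, mul_assoc, fro, Finset.mul_sum _ (fun i => ∑ j, M i j ^ 2) B]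
      refine mul_le_mul_of_nonneg_left (Finset.sum_le_sum fun i _ => (hY2 _).trans_eq ?_) hB
      simp only [dotProduct, sq]
  have d3 := hY2 (M *ᵥ (Y z - m))
  refine (Finset.sum_le_sum (g := fun k => 8 * ((M *ᵥ (Y z - m)) ⬝ᵥ D k) ^ 2 +
    8 * (D k ⬝ᵥ M *ᵥ D k) ^ 2) fun k _ => ?_).trans ?_
  · rw [e]
    have := sv_mul_self z k
    nlinarith [sq_nonneg ((M *ᵥ (Y z - m)) ⬝ᵥ D k + sv z k * (D k ⬝ᵥ M *ᵥ D k))]
  · rw [Finset.sum_add_distrib, ← Finset.mul_sum, ← Finset.mul_sum]; linarith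

/-! ### one chain -/

theorem ex_sg (hn : 0 < n) (hw : ∀ x, 0 < w x) (t : ℝ) (x : Cube n) : Ex fun f => sg w t f x :=
  ⟨fun f g => sg_add_fun w t f g x, fun c f => sg_const_mul w t c f x, fun c => sg_const hn hw t c x⟩

theorem mo_sg (hn : 0 < n) (hw : ∀ x, 0 < w x) (ht : 0 ≤ t) (x : Cube n) : Mo fun f => sg w t f x :=
  fun _ _ h => sg_mono hn hw ht h x

theorem gr_le (h : GR w C) (hn : 0 < n) (hw : ∀ x, 0 < w x) (ht : 0 ≤ t) {G : ℝ}
    (hg : ∀ z, grad g z ⬝ᵥ grad g z ≤ G) (z : Cube n) :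
    grad (sg w t g) z ⬝ᵥ grad (sg w t g) z ≤ exp (C * t) * G :=
  (h t ht g z).trans (mul_le_mul_of_nonneg_left
    ((ex_sg hn hw t z).le (mo_sg hn hw ht z) hg) (exp_pos _).le)

theorem lp_sg (h : GR w C) (hn : 0 < n) (hw : ∀ x, 0 < w x) (hC : 0 ≤ C) (ht : 0 ≤ t) (x : Cube n) :
    Lp (fun f => sg w t f x) (4 * t * exp (C * t)) := fun g G hg => by
  have G0 : 0 ≤ G := (dot_self_nonneg _).trans (hg x)
  have d : ∀ u, HasDerivAt (fun u => sg w u (fun z => sg w (t - u) g z ^ 2) x)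
      (sg w u (fun z => gen w (fun z => sg w (t - u) g z ^ 2) z -
        2 * sg w (t - u) g z * gen w (sg w (t - u) g) z) x) u := fun u => by
    refine hasDerivAt_sg_fam hn hw (F := fun u z => sg w (t - u) g z ^ 2) (fun z => ?_) x
    have := ((hasDerivAt_sg hn hw g z (t - u)).comp u ((hasDerivAt_id' u).const_sub t)).pow 2
    exact this.congr_deriv (by simp)
  have := le_of_deriv ht
    (fun u _ => ((hasDerivAt_id' u).const_mul (4 * (exp (C * t) * G))).sub (d u)) fun u hu => by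
      rw [mul_one, sub_nonneg]
      refine (ex_sg hn hw u x).le (mo_sg hn hw hu.1 x) fun z => (gen_sq_le hw _ z).trans
        (mul_le_mul_of_nonneg_left ((gr_le h hn hw (sub_nonneg.2 hu.2) hg z).trans
          (mul_le_mul_of_nonneg_right (exp_le_exp.2 (by nlinarith [hu.1])) G0)) (by norm_num))
  simp only [Pi.sub_apply, sub_zero, sub_self, sg_zero hn hw] at this
  linarith

theorem jb_Psv (h : GR w C) (hn : 0 < n) (hw : ∀ x, 0 < w x) (ht : 0 ≤ t) :
    Jb (Psv w t) (exp (C * t)) := fun a z => by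
  rw [funext (dot_Psv w t a)]
  exact gr_le h hn hw ht (fun z => by rw [grad_lin]) z

/-- time integral of the semigroup -/
def Iq (w : Cube n → ℝ) (v : ℝ) (g : Cube n → ℝ) (x : Cube n) : ℝ := ∫ u in (0 : ℝ)..v, sg w u g x

theorem cont_sg (hn : 0 < n) (hw : ∀ x, 0 < w x) (g : Cube n → ℝ) (x : Cube n) :
    Continuous fun u => sg w u g x :=
  continuous_iff_continuousAt.2 fun u => (hasDerivAt_sg hn hw g x u).continuousAt

theorem hasDerivAt_Iq (hn : 0 < n) (hw : ∀ x, 0 < w x) (g : Cube n → ℝ) (x : Cube n) (v : ℝ) :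
    HasDerivAt (fun v => Iq w v g x) (sg w v g x) v :=
  ((cont_sg hn hw g x).integral_hasStrictDerivAt 0 v).hasDerivAt

theorem Iq_zero (w g : Cube n → ℝ) (x : Cube n) : Iq w 0 g x = 0 := intervalIntegral.integral_same

theorem Iq_mono (hn : 0 < n) (hw : ∀ x, 0 < w x) (hv : 0 ≤ v) (h : ∀ z, f z ≤ g z) (x : Cube n) :
    Iq w v f x ≤ Iq w v g x :=
  intervalIntegral.integral_mono_on hv ((cont_sg hn hw f x).intervalIntegrable _ _)
    ((cont_sg hn hw g x).intervalIntegrable _ _) fun _ hu => sg_mono hn hw hu.1 h x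

theorem Iq_add (hn : 0 < n) (hw : ∀ x, 0 < w x) (v : ℝ) (f g : Cube n → ℝ) (x : Cube n) :
    Iq w v (fun z => f z + g z) x = Iq w v f x + Iq w v g x := by
  simp only [Iq, sg_add_fun]
  exact intervalIntegral.integral_add ((cont_sg hn hw f x).intervalIntegrable _ _)
    ((cont_sg hn hw g x).intervalIntegrable _ _)

theorem Iq_cmul (w : Cube n → ℝ) (v c : ℝ) (f : Cube n → ℝ) (x : Cube n) :
    Iq w v (fun z => c * f z) x = c * Iq w v f x := by
  simp only [Iq, sg_const_mul, intervalIntegral.integral_const_mul]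

theorem Iq_const (hn : 0 < n) (hw : ∀ x, 0 < w x) (v c : ℝ) (x : Cube n) :
    Iq w v (fun _ => c) x = v * c := by simp [Iq, sg_const hn hw]

theorem Iq_sum (hn : 0 < n) (hw : ∀ x, 0 < w x) (v : ℝ) {κ : Type*} (S : Finset κ)
    (f : κ → Cube n → ℝ) (x : Cube n) : Iq w v (fun z => ∑ k ∈ S, f k z) x = ∑ k ∈ S, Iq w v (f k) x := by
  simp only [Iq, sg_sum]
  exact intervalIntegral.integral_finsetSum fun k _ => (cont_sg hn hw _ x).intervalIntegrable _ _

theorem Iq_nonneg (hn : 0 < n) (hw : ∀ x, 0 < w x) (hv : 0 ≤ v) (h : ∀ z, 0 ≤ g z) (x : Cube n) :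
    0 ≤ Iq w v g x := intervalIntegral.integral_nonneg hv fun _ hu => sg_nonneg hn hw hu.1 h x

theorem sg_Iq (hn : 0 < n) (hw : ∀ x, 0 < w x) (t v : ℝ) (g : Cube n → ℝ) (x : Cube n) :
    sg w t (Iq w v g) x = Iq w (t + v) g x - Iq w t g x := by
  have d : ∀ v, HasDerivAt (fun v => sg w t (Iq w v g) x - Iq w (t + v) g x) 0 v := fun v => by
    have h1 : HasDerivAt (fun v => sg w t (Iq w v g) x) (sg w t (sg w v g) x) v :=
      HasDerivAt.fun_sum fun z _ => (hasDerivAt_Iq hn hw g z v).const_mul _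
    refine (h1.sub ((hasDerivAt_Iq hn hw g x (t + v)).comp_const_add t v)).congr_deriv ?_
    rw [sg_add hn hw, sub_self]
  have := is_const_of_deriv_eq_zero (fun v => (d v).differentiableAt) (fun v => (d v).deriv) v 0
  rw [funext (Iq_zero w g), sg_const hn hw, add_zero] at this
  linarith

theorem Iq_le_Iq (hn : 0 < n) (hw : ∀ x, 0 < w x) (ht : 0 ≤ t) (htv : t ≤ v) (h : ∀ z, 0 ≤ g z)
    (x : Cube n) : Iq w t g x ≤ Iq w v g x := by
  have := sg_nonneg hn hw ht (Iq_nonneg hn hw (sub_nonneg.2 htv) h) x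
  rw [sg_Iq hn hw, add_sub_cancel] at this
  linarith

/-! ### two chains -/

structure Two (w w' : Cube n → ℝ) (δ : Cube n → V n) (C : ℝ) : Prop where
  hn : 0 < n
  hw : ∀ x, 0 < w x
  hw' : ∀ x, 0 < w' x
  hC : 0 ≤ C
  gr : GR w C
  gr' : GR w' C
  diff : ∀ f x, gen w' f x - gen w f x = δ x ⬝ᵥ grad f x

/-- mixed kernel -/
def mx (w w' : Cube n → ℝ) (v s : ℝ) (x : Cube n) (g : Cube n → ℝ) : ℝ := sg w s (sg w' (v - s) g) x

namespace Two

theorem ex (h : Two w w' δ C) (v s : ℝ) (x : Cube n) : Ex (mx w w' v s x) :=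
  ⟨fun f g => by simp only [mx, funext (sg_add_fun w' _ f g), sg_add_fun],
    fun c f => by simp only [mx, funext (sg_const_mul w' _ c f), sg_const_mul],
    fun c => by simp only [mx, funext (sg_const h.hn h.hw' _ c), sg_const h.hn h.hw]⟩

theorem mo (h : Two w w' δ C) (hs : s ∈ Icc 0 v) (x : Cube n) : Mo (mx w w' v s x) := fun _ _ e =>
  sg_mono h.hn h.hw hs.1 (sg_mono h.hn h.hw' (sub_nonneg.2 hs.2) e) x

theorem lp (h : Two w w' δ C) (hs : s ∈ Icc 0 v) (x : Cube n) :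
    Lp (mx w w' v s x) (4 * v * exp (C * v)) := fun g G hg => by
  have G0 : 0 ≤ G := (dot_self_nonneg _).trans (hg x)
  have p := sub_nonneg.2 hs.2
  have h1 := (ex_sg h.hn h.hw s x).le (mo_sg h.hn h.hw hs.1 x) fun z =>
    lp_sg h.gr' h.hn h.hw' h.hC p z g G hg
  have h2 := lp_sg h.gr h.hn h.hw h.hC hs.1 x _ _ (gr_le h.gr' h.hn h.hw' p hg)
  simp only [sg_sub_fun] at h1 h2
  have e1 : exp (C * (v - s)) ≤ exp (C * v) := exp_le_exp.2 (by nlinarith [h.hC, hs.1])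
  rw [mul_assoc, ← mul_assoc (exp _), ← exp_add, ← mul_add, add_sub_cancel] at h2
  have := mul_le_mul_of_nonneg_left e1 (mul_nonneg p G0)
  simp only [mx]
  nlinarith

theorem mk_zero (h : Two w w' δ C) (v : ℝ) (x : Cube n) : mx w w' v 0 x = fun g => sg w' v g x := by
  ext g; rw [mx, sg_zero h.hn h.hw, sub_zero]

theorem mk_self (h : Two w w' δ C) (v : ℝ) (x : Cube n) : mx w w' v v x = fun g => sg w v g x := by
  ext g; rw [mx, sub_self, sg_zero h.hn h.hw']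

theorem dmk (h : Two w w' δ C) (v : ℝ) (x : Cube n) (g : Cube n → ℝ) (s : ℝ) :
    HasDerivAt (fun s => mx w w' v s x g)
      (-sg w s (fun z => δ z ⬝ᵥ grad (sg w' (v - s) g) z) x) s := by
  refine (hasDerivAt_sg_fam h.hn h.hw (F := fun s => sg w' (v - s) g) (fun z =>
    (hasDerivAt_sg h.hn h.hw' g z (v - s)).comp s ((hasDerivAt_id' s).const_sub v)) x).congr_deriv ?_
  rw [← neg_one_mul (sg w s _ x), ← sg_const_mul]
  congr 1; ext z
  rw [← h.diff]; ring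

theorem dmk_sq (h : Two w w' δ C) (hs : s ∈ Icc 0 v) (x : Cube n) (g : Cube n → ℝ) :
    (-sg w s (fun z => δ z ⬝ᵥ grad (sg w' (v - s) g) z) x) ^ 2 ≤ sg w s (fun z => δ z ⬝ᵥ δ z) x *
      (exp (C * v) * mx w w' v s x fun z => grad g z ⬝ᵥ grad g z) := by
  have p := sub_nonneg.2 hs.2
  rw [neg_sq]
  refine ((ex_sg h.hn h.hw s x).cs (mo_sg h.hn h.hw hs.1 x) _ _).trans (mul_le_mul_of_nonneg_left ?_
    (sg_nonneg h.hn h.hw hs.1 (fun z => dot_self_nonneg _) x))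
  rw [mx, ← sg_const_mul]
  exact sg_mono h.hn h.hw hs.1 (fun z => (h.gr' _ p g z).trans (mul_le_mul_of_nonneg_right
    (exp_le_exp.2 (by nlinarith [h.hC, hs.1])) (sg_nonneg h.hn h.hw' p (fun z => dot_self_nonneg _) z))) x

theorem of_deriv (h : Two w w' δ C) (hv : 0 ≤ v) (hc : 0 ≤ c) (x : Cube n) {φ φ' : ℝ → ℝ}
    (hφ : ∀ s ∈ Icc 0 v, HasDerivAt φ (φ' s) s)
    (hb : ∀ s ∈ Icc 0 v, φ' s ^ 2 ≤ sg w s (fun z => δ z ⬝ᵥ δ z) x * c) :
    (φ 0 - φ v) ^ 2 ≤ Iq w v (fun z => δ z ⬝ᵥ δ z) x * (c * v) := by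
  have := sq_le_of_deriv hv hc hφ (hasDerivAt_Iq h.hn h.hw _ x)
    (fun s hs => sg_nonneg h.hn h.hw hs.1 (fun z => dot_self_nonneg _) x) hb
  rwa [Iq_zero, sub_zero, sub_sq_comm] at this

/-- Duhamel bound -/
theorem duhamel (h : Two w w' δ C) (hv : 0 ≤ v) {G : ℝ} (hg : ∀ z, grad g z ⬝ᵥ grad g z ≤ G)
    (x : Cube n) :
    (sg w' v g x - sg w v g x) ^ 2 ≤ Iq w v (fun z => δ z ⬝ᵥ δ z) x * (exp (C * v) * G * v) := by
  have G0 : 0 ≤ G := (dot_self_nonneg _).trans (hg x)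
  have := h.of_deriv hv (c := exp (C * v) * G) (by positivity) x (fun s _ => h.dmk v x g s)
    fun s hs => (h.dmk_sq hs x g).trans (mul_le_mul_of_nonneg_left (mul_le_mul_of_nonneg_left
      ((h.ex v s x).le (h.mo hs x) hg) (exp_pos _).le)
      (sg_nonneg h.hn h.hw hs.1 (fun z => dot_self_nonneg _) x))
  rwa [h.mk_zero, h.mk_self] at this

theorem Psv_sub (h : Two w w' δ C) (hv : 0 ≤ v) (x : Cube n) :
    (Psv w' v x - Psv w v x) ⬝ᵥ (Psv w' v x - Psv w v x) ≤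
      exp (C * v) * v * Iq w v (fun z => δ z ⬝ᵥ δ z) x := by
  set a := Psv w' v x - Psv w v x
  have := h.duhamel hv (g := fun z => a ⬝ᵥ sv z) (G := a ⬝ᵥ a) (fun z => by rw [grad_lin]) x
  rw [← dot_Psv, ← dot_Psv, ← dotProduct_sub] at this
  have h0 := Iq_nonneg h.hn h.hw hv (fun z => dot_self_nonneg (δ z)) x
  rcases (dot_self_nonneg a).eq_or_lt with e | e
  · rw [← e]; positivity
  · exact le_of_mul_le_mul_right (by nlinarith) e

/-- change of the kernel -/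
theorem stepA (h : Two w w' δ C) (hv : 0 ≤ v) (hB : 0 ≤ B) (hY : Jb Y B) (hM : Mᵀ = M) (x : Cube n) :
    (Qm (fun g => sg w' v g x) Y M - Qm (fun g => sg w v g x) Y M) ^ 2 ≤
      Iq w v (fun z => δ z ⬝ᵥ δ z) x *
        (exp (C * v) * (8 * B * (4 * v * exp (C * v) * B * fro M) + 8 * B ^ 2 * fro M) * v) := by
  have := Conc.fro_nonneg M
  rw [← h.mk_zero, ← h.mk_self]
  refine h.of_deriv hv (by positivity) x (φ := fun s => Qm (mx w w' v s x) Y M)
    (φ' := fun s => -sg w s (fun z => δ z ⬝ᵥ grad (sg w' (v - s) fun z =>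
      (Y z - mv (mx w w' v s x) Y) ⬝ᵥ M *ᵥ (Y z - mv (mx w w' v s x) Y)) z) x) (fun s _ => ?_)
    fun s hs => (h.dmk_sq hs x _).trans (mul_le_mul_of_nonneg_left (mul_le_mul_of_nonneg_left ?_
      (exp_pos _).le) (sg_nonneg h.hn h.hw hs.1 (fun z => dot_self_nonneg _) x))
  · simp only [fun u => (h.ex v u x).center Y M (mv (mx w w' v s x) Y)]
    have d : HasDerivAt (fun u => (mv (mx w w' v u x) Y - mv (mx w w' v s x) Y) ⬝ᵥ
        M *ᵥ (mv (mx w w' v u x) Y - mv (mx w w' v s x) Y)) 0 s := by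
      have d1 := fun i => (h.dmk v x (fun z => Y z i) s).sub_const (mv (mx w w' v s x) Y i)
      have d2 := HasDerivAt.fun_sum (u := Finset.univ) fun i _ => (d1 i).fun_mul
        (HasDerivAt.fun_sum (u := Finset.univ) fun j _ => (d1 j).const_mul (M i j))
      refine HasDerivAt.congr_deriv d2 ?_
      simp [mv]
    exact ((h.dmk v x _ s).sub d).congr_deriv (sub_zero _)
  · refine (h.mo hs x _ _ (grad_quad_le hB hY hM _)).trans ?_
    rw [(h.ex v s x).add, (h.ex v s x).cmul, (h.ex v s x).const]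
    have := (h.ex v s x).var_mat (h.lp hs x) hY M
    nlinarith

/-- second moments of linear forms -/
theorem lin_sq (h : Two w w' δ C) (hv : 0 ≤ v) (u : V n) (x : Cube n) :
    sg w' v (fun z => (u ⬝ᵥ sv z) ^ 2) x ≤ 2 * sg w v (fun z => (u ⬝ᵥ sv z) ^ 2) x + u ⬝ᵥ u +
      4 * exp (C * v) * v * (u ⬝ᵥ u) * Iq w v (fun z => δ z ⬝ᵥ δ z) x := by
  rcases eq_or_ne u 0 with rfl | hu
  · simp [sg_const h.hn h.hw, sg_const h.hn h.hw']
  have u0 := dot_self_pos hu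
  have hg : ∀ z, grad (fun z => (u ⬝ᵥ sv z) ^ 2) z ⬝ᵥ grad (fun z => (u ⬝ᵥ sv z) ^ 2) z ≤
      8 * (u ⬝ᵥ u) * ((u ⬝ᵥ sv z) ^ 2 + u ⬝ᵥ u) := fun z => by
    simp only [sq]
    rw [dotProduct, mul_assoc, dotProduct, Finset.sum_mul, Finset.mul_sum]
    refine Finset.sum_le_sum fun k _ => ?_
    rw [grad_mul, grad_lin, ← dotProduct]
    have h1 : u k * u k ≤ u ⬝ᵥ u :=
      Finset.single_le_sum (f := fun k => u k * u k) (fun _ _ => mul_self_nonneg _) (Finset.mem_univ k)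
    have h2 := sv_mul_self z k
    have h3 := mul_le_mul_of_nonneg_left h1 (mul_self_nonneg (u k))
    have h4 : (sv z k * (u k * u k)) ^ 2 = u k * u k * (u k * u k) := by
      linear_combination (u k * u k) ^ 2 * h2
    nlinarith [sq_nonneg (u ⬝ᵥ sv z * u k + sv z k * (u k * u k))]
  have p : ∀ s ∈ Icc 0 v, 0 < mx w w' v s x (fun z => (u ⬝ᵥ sv z) ^ 2) + u ⬝ᵥ u := fun s hs =>
    add_pos_of_nonneg_of_pos ((h.ex v s x).nonneg (h.mo hs x) fun z => sq_nonneg _) u0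
  have := h.of_deriv hv (c := 2 * exp (C * v) * (u ⬝ᵥ u)) (by positivity) x
    (fun s hs => ((h.dmk v x (fun z => (u ⬝ᵥ sv z) ^ 2) s).add_const (u ⬝ᵥ u)).sqrt (p s hs).ne')
    fun s hs => by
      rw [div_pow, mul_pow, sq_sqrt (p s hs).le, div_le_iff₀ (by linarith [p s hs]), mul_assoc]
      refine (h.dmk_sq hs x _).trans (mul_le_mul_of_nonneg_left ?_
        (sg_nonneg h.hn h.hw hs.1 (fun z => dot_self_nonneg _) x))
      have := h.mo hs x _ _ hg
      rw [(h.ex v s x).cmul, (h.ex v s x).add, (h.ex v s x).const] at this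
      exact (mul_le_mul_of_nonneg_left this (exp_pos _).le).trans_eq (by ring)
  have h0 := sq_sqrt (p 0 (left_mem_Icc.2 hv)).le
  have h1 := sq_sqrt (p v (right_mem_Icc.2 hv)).le
  rw [h.mk_zero] at h0 this
  rw [h.mk_self] at h1 this
  nlinarith [sq_nonneg (√(sg w' v (fun z => (u ⬝ᵥ sv z) ^ 2) x + u ⬝ᵥ u) -
    2 * √(sg w v (fun z => (u ⬝ᵥ sv z) ^ 2) x + u ⬝ᵥ u))]

end Two

end Crest.Agent.T157.Da.Fd

end
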