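import Crest.Agent.T157.DaFdA_82

/-!
# Row 157, part C (helper82): finite differences in the disorder, discretisation of the dynamics
-/

set_option autoImplicit false

noncomputable section

namespace Crest.Agent.T157.Da

open MeasureTheory Matrix Function Real Set
open Crest.Agent.T157.E Crest.Agent.T157.Eig
open Crest.Agent.T157.Tap (V Mx plW)
open Crest.Agent.T157.Rec hiding fl
open Crest.Agent.T157.Chain22 (sg sg_add sg_zero hasDerivAt_sg)
open Crest.Agent.T157.Conc (fro)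
open Crest.Agent.T157.Pl (one)
open Gr

namespace Fd

variable {n : ℕ} {w w' : Cube n → ℝ} {δ : Cube n → V n} {C T : ℝ} {W W' M : Mx n}

theorem two_ising (hn : 0 < n) (hW : Wᵀ = W) (hW' : W'ᵀ = W') (hC : 0 ≤ C) {y y' : V n}
    (h : GR (ising W y) C) (h' : GR (ising W' y') C) :
    Two (ising W y) (ising W' y') (fun x => tt W' y' x - tt W y x) C :=
  ⟨hn, ising_pos W y, ising_pos W' y', hC, h, h', fun f x => by
    rw [gen_ising hW, gen_ising hW', ← Finset.sum_sub_distrib]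
    exact Finset.sum_congr rfl fun i _ => by rw [Pi.sub_apply]; ring⟩

theorem tt_sub_le (W W' : Mx n) (y y' : V n) (x : Cube n) :
    (tt W' y' x - tt W y x) ⬝ᵥ (tt W' y' x - tt W y x) ≤
      3 * (((W' - W) *ᵥ sv x + (y' - y)) ⬝ᵥ ((W' - W) *ᵥ sv x + (y' - y))) +
        3 * ∑ i, (W' - W) i i ^ 2 := by
  simp only [dotProduct, Finset.mul_sum, ← Finset.sum_add_distrib]
  refine Finset.sum_le_sum fun i _ => ?_
  have h := sq_le_sq.2 (tanh_lip (loc W' y' x i) (loc W y x i))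
  have e : loc W' y' x i - loc W y x i =
      ((W' - W) *ᵥ sv x + (y' - y)) i - (W' - W) i i * sv x i := by
    simp only [loc, sub_mulVec, Pi.add_apply, Pi.sub_apply, Matrix.sub_apply]; ring
  have e2 : ((W' - W) i i * sv x i) ^ 2 = (W' - W) i i ^ 2 := by
    linear_combination (W' - W) i i ^ 2 * sv_mul_self x i
  rw [e] at h
  simp only [tt, Pi.sub_apply] at h ⊢
  nlinarith [sq_nonneg (((W' - W) *ᵥ sv x + (y' - y)) i + (W' - W) i i * sv x i),
    sq_nonneg (((W' - W) *ᵥ sv x + (y' - y)) i), sq_nonneg ((W' - W) i i)]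

theorem add_dot_le (a b : V n) : (a + b) ⬝ᵥ (a + b) ≤ 2 * (a ⬝ᵥ a) + 2 * (b ⬝ᵥ b) := by
  have := dot_self_nonneg (a - b)
  simp only [add_dotProduct, dotProduct_add, sub_dotProduct, dotProduct_sub] at this ⊢
  linarith

theorem Qm_Am (hn : 0 < n) (hw : ∀ x, 0 < w x) (hT : 0 ≤ T) (x : Cube n) (M : Mx n) :
    Qm (fun g => sg w T g x) (Psv w T) M = ∑ i, ∑ j, M i j * Am w T x i j := by
  have e : mv (fun g => sg w T g x) (Psv w T) = Psv w (2 * T) x := by
    ext i; rw [two_mul, Psv, sg_add hn hw]; rfl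
  rw [Qm, e]
  simp only [Am_apply hn hw hT, dotProduct, mulVec, Finset.mul_sum, sg_sum, mul_sub,
    Finset.sum_sub_distrib, ← sg_const_mul, mul_left_comm _ (M _ _)]

theorem Two.fro_le (h : Two w w' δ C) (hT : 0 ≤ T) (x : Cube n) : fro (Am w' T x - Am w T x) ≤
    2 * (T * exp (C * T) ^ 3 * (64 * T * exp (C * T) + 8)) *
      Iq w (2 * T) (fun z => δ z ⬝ᵥ δ z) x := by
  set M := Am w' T x - Am w T x with hM
  have Ms : Mᵀ = M := by rw [hM, transpose_sub, Am_transpose, Am_transpose]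
  have e : fro M = Qm (fun g => sg w' T g x) (Psv w' T) M - Qm (fun g => sg w T g x) (Psv w T) M := by
    rw [Qm_Am h.hn h.hw hT, Qm_Am h.hn h.hw' hT]
    simp only [← Finset.sum_sub_distrib, ← mul_sub, fro, sq]; rfl
  have n0 := fun z => dot_self_nonneg (δ z)
  have I0 := Iq_nonneg h.hn h.hw hT n0 x
  have I1 := Iq_le_Iq h.hn h.hw hT (show T ≤ 2 * T by linarith) n0 x
  have F0 := Conc.fro_nonneg M
  have e1 : 1 ≤ exp (C * T) := one_le_exp (mul_nonneg h.hC hT)
  have hA := h.stepA hT (exp_pos _).le (jb_Psv h.gr' h.hn h.hw' hT) Ms x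
  have hB := (ex_sg h.hn h.hw T x).stepB (mo_sg h.hn h.hw hT x) (lp_sg h.gr h.hn h.hw h.hC hT x)
    (jb_Psv h.gr h.hn h.hw hT) (jb_Psv h.gr' h.hn h.hw' hT) Ms
  have h1 := sg_mono h.hn h.hw hT (h.Psv_sub hT) x
  rw [sg_const_mul, sg_Iq h.hn h.hw, ← two_mul] at h1
  set I := Iq w (2 * T) (fun z => δ z ⬝ᵥ δ z) x
  set b := exp (C * T)
  have hA' := hA.trans (mul_le_mul_of_nonneg_right I1 (by positivity))
  have hB' := hB.trans (mul_le_mul_of_nonneg_right (h1.trans (mul_le_mul_of_nonneg_left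
    (sub_le_self _ I0) (by positivity))) (by positivity))
  rcases F0.eq_or_lt with f0 | f0
  · rw [← f0]; have := I0.trans I1; positivity
  refine le_of_mul_le_mul_right ?_ f0
  have : 0 ≤ T ^ 2 * b ^ 3 * I * fro M * (2 * b - 1) :=
    mul_nonneg (by have := I0.trans I1; positivity) (by linarith)
  nlinarith [sq_nonneg (Qm (fun g => sg w' T g x) (Psv w' T) M - 2 * Qm (fun g => sg w T g x) (Psv w' T) M +
    Qm (fun g => sg w T g x) (Psv w T) M)]

/-- time-integrated second moments of the spins -/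
def Sm (w : Cube n → ℝ) (v : ℝ) (x : Cube n) : Mx n :=
  Matrix.of fun i j => Iq w v (fun z => sv z i * sv z j) x

theorem Sm_quad (hn : 0 < n) (hw : ∀ x, 0 < w x) (v : ℝ) (x : Cube n) (u : V n) :
    u ⬝ᵥ Sm w v x *ᵥ u = Iq w v (fun z => (u ⬝ᵥ sv z) ^ 2) x := by
  simp only [dotProduct, sq, Finset.sum_mul_sum, Iq_sum hn hw, mul_mul_mul_comm (u _), Iq_cmul]
  simp only [mulVec, dotProduct, Sm, of_apply, Finset.mul_sum]
  exact Finset.sum_congr rfl fun i _ => Finset.sum_congr rfl fun j _ => by ring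

theorem Two.Sm_le (h : Two w w' δ C) {v : ℝ} (hv : 0 ≤ v) (x : Cube n) (u : V n) :
    u ⬝ᵥ Sm w' v x *ᵥ u ≤ 2 * (u ⬝ᵥ Sm w v x *ᵥ u) + v * (u ⬝ᵥ u +
      4 * exp (C * v) * v * (u ⬝ᵥ u) * Iq w v (fun z => δ z ⬝ᵥ δ z) x) := by
  have n0 := fun z => dot_self_nonneg (δ z)
  have := le_of_deriv hv (fun s _ => (((hasDerivAt_Iq h.hn h.hw (fun z => (u ⬝ᵥ sv z) ^ 2) x s).const_mul
    2).add ((hasDerivAt_id' s).mul_const (u ⬝ᵥ u + 4 * exp (C * v) * v * (u ⬝ᵥ u) *
      Iq w v (fun z => δ z ⬝ᵥ δ z) x))).sub (hasDerivAt_Iq h.hn h.hw' (fun z => (u ⬝ᵥ sv z) ^ 2) x s))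
    fun s hs => by
      have h1 := h.lin_sq hs.1 u x
      have h2 : 4 * exp (C * s) * s * (u ⬝ᵥ u) * Iq w s (fun z => δ z ⬝ᵥ δ z) x ≤
          4 * exp (C * v) * v * (u ⬝ᵥ u) * Iq w v (fun z => δ z ⬝ᵥ δ z) x := by
        have := dot_self_nonneg u
        have := Iq_nonneg h.hn h.hw hs.1 n0 x
        have := hs.1
        gcongr
        exacts [h.hC, hs.2, hs.2, Iq_le_Iq h.hn h.hw hs.1 hs.2 n0 x]
      linarith
  simp only [Pi.add_apply, Pi.sub_apply, Iq_zero] at this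
  rw [Sm_quad h.hn h.hw, Sm_quad h.hn h.hw']
  linarith

theorem trace_conj (hM : Mᵀ = M) (S : Mx n) : (M * S * M).trace = ∑ i, M i ⬝ᵥ S *ᵥ M i := by
  refine Finset.sum_congr rfl fun i _ => ?_
  rw [Matrix.diag_apply, Matrix.mul_assoc, mul_apply]
  refine Finset.sum_congr rfl fun j _ => ?_
  rw [mul_apply, mulVec, dotProduct]
  simp only [herm_apply (herm_iff.2 hM) _ i]

theorem measurable_sg {X : Type*} [MeasurableSpace X] {w : X → Cube n → ℝ}
    (hw : ∀ x, Measurable fun p => w p x) {t : X → ℝ} (ht : Measurable t) {g : X → Cube n → ℝ}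
    (hg : ∀ x, Measurable fun p => g p x) (x : Cube n) : Measurable fun p => sg (w p) (t p) (g p) x :=
  Finset.measurable_sum _ fun y _ => (Measurable.tsum fun k =>
    Measurable.mul (by fun_prop) (measurable_hbPow hw k x y)).mul (hg y)

theorem measurable_Iq {X : Type*} [MeasurableSpace X] {w : X → Cube n → ℝ}
    (hw : ∀ x, Measurable fun p => w p x) {v : ℝ} (hv : 0 ≤ v) (g : Cube n → ℝ) (x : Cube n) :
    Measurable fun p => Iq (w p) v g x := by
  simp only [Iq, intervalIntegral.integral_of_le hv]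
  exact ((measurable_sg (X := X × ℝ) (fun y => (hw y).comp measurable_fst) measurable_snd
    (g := fun _ => g) (fun _ => measurable_const) x).stronglyMeasurable.integral_prod_right'
      (ν := volume.restrict (Ioc 0 v))).measurable

theorem plW_symm {G : Mx n} (h : Gᵀ = G) : (plW 1 G 1)ᵀ = plW 1 G 1 := by
  rw [plW, transpose_add, transpose_smul, transpose_vecMulVec, h]

theorem opn_plW (hn : 0 < n) {G : Mx n} (h : opn G ≤ 3) : opn (plW 1 G 1) ≤ 4 := by
  have hn' : (0 : ℝ) < n := by exact_mod_cast hn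
  have h1 := opn_vecMulVec_le (1 : V n) (1 : V n)
  rw [nrm_mul_self, one_dotProduct_one, Fintype.card_fin, ← div_le_one hn'] at h1
  refine (opn_add_le _ _).trans ?_
  rw [opn_smul, abs_of_pos (by positivity), one_div_mul_eq_div]
  linarith

end Fd

open Fd

theorem fdStmt : FDStmt := by
  intro T hT r hr
  obtain ⟨C, hC, hG⟩ := grStmt 4
  set c1 := 2 * (T * exp (C * T) ^ 3 * (64 * T * exp (C * T) + 8))
  set c2 := 2 * T * (4 * exp (C * (2 * T)) * (2 * T))
  set c3 := 6 * (1 + 2 * T * r)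
  have p1 : 0 ≤ c1 := by positivity
  have p2 : 0 ≤ c2 := by positivity
  have p3 : 0 ≤ c3 := by positivity
  have p4 : 0 ≤ 4 * T * exp (2 * C * T) := by positivity
  refine ⟨(c1 + c2) * c3 + 4 * T * exp (2 * C * T) + (4 * T + 1), by positivity, fun n hn => ?_⟩
  set w : Mx n × V n → Cube n → ℝ := fun z => ising (plW 1 z.1 1) (r • (1 : V n) + √r • z.2) with hw
  have wp : ∀ z x, 0 < w z x := fun z x => ising_pos _ _ x
  have wm : ∀ x, Measurable fun z => w z x := fun x => by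
    simp only [hw, ising, plW]; fun_prop
  have gr : ∀ z, Ball z.1 → GR (w z) C := fun z h => hG n _ _ hn (plW_symm h.1) (opn_plW hn h.2)
  set S : Mx n × V n → Mx n := fun z => Sm (w z) (2 * T) (one n) + (2 * T + 1) • (1 : Mx n) with hS
  have Sq : ∀ z u, u ⬝ᵥ S z *ᵥ u = u ⬝ᵥ Sm (w z) (2 * T) (one n) *ᵥ u + (2 * T + 1) * (u ⬝ᵥ u) :=
    fun z u => by rw [hS, add_mulVec, smul_mulVec, one_mulVec, dotProduct_add, dotProduct_smul]; rfl
  have T2 : 0 ≤ 2 * T := by positivity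
  have key : ∀ z z', Ball z.1 → Ball z'.1 → ∃ δ, Two (w z) (w z') δ C ∧ 0 ≤ cost (S z) z z' ∧
      Iq (w z) (2 * T) (fun x => δ x ⬝ᵥ δ x) (one n) ≤ c3 * cost (S z) z z' := fun z z' h h' => by
    have Hs : (z'.1 - z.1)ᵀ = z'.1 - z.1 := by rw [transpose_sub, h.1, h'.1]
    set H := z'.1 - z.1 with hH
    have e : cost (S z) z z' = Iq (w z) (2 * T) (fun x => (H *ᵥ sv x) ⬝ᵥ (H *ᵥ sv x)) (one n) +
        (2 * T + 1) * fro H + (z'.2 - z.2) ⬝ᵥ (z'.2 - z.2) := by
      rw [cost, ← hH, trace_conj Hs]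
      simp only [Sq, Sm_quad hn (wp z), Finset.sum_add_distrib, ← Finset.mul_sum, ← Iq_sum hn (wp z)]
      simp only [fro, sq]; rfl
    have i0 := Iq_nonneg hn (wp z) T2 (fun x => dot_self_nonneg (H *ᵥ sv x)) (one n)
    have f0 := Conc.fro_nonneg H
    have d0 := dot_self_nonneg (z'.2 - z.2)
    refine ⟨_, two_ising hn (plW_symm h.1) (plW_symm h'.1) hC (gr z h) (gr z' h'),
      by rw [e]; positivity, (Iq_mono hn (wp z) T2 (g := fun x => 6 * ((H *ᵥ sv x) ⬝ᵥ (H *ᵥ sv x)) +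
        (6 * (r * ((z'.2 - z.2) ⬝ᵥ (z'.2 - z.2))) + 3 * fro H)) (fun x => ?_) _).trans ?_⟩
    · refine (tt_sub_le _ _ _ _ x).trans ?_
      rw [plW, plW, add_sub_add_right_eq_sub, add_sub_add_left_eq_sub, ← smul_sub, ← hH]
      have h1 := add_dot_le (H *ᵥ sv x) (√r • (z'.2 - z.2))
      rw [dot_sqrt hr] at h1
      have h2 : ∑ i, H i i ^ 2 ≤ fro H := Finset.sum_le_sum fun i _ =>
        Finset.single_le_sum (f := fun j => H i j ^ 2) (fun _ _ => sq_nonneg _) (Finset.mem_univ i)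
      linarith
    · rw [Iq_add hn (wp z), Iq_cmul, Iq_const hn (wp z), e]
      have := mul_nonneg T2 hr
      nlinarith [mul_nonneg this i0, mul_nonneg this f0, mul_nonneg T2 f0,
        mul_nonneg (mul_nonneg this T2) f0]
  have p5 := mul_nonneg p1 p3
  have p6 := mul_nonneg p2 p3
  refine ⟨S, ⟨Cond.measurable_mat_iff.2 fun i j => ?_, ?_, fun z _ => Am_psd hn (wp z) hT _,
    fun z _ => ?_, fun z h => ?_, fun z _ => ?_, fun z z' h h' => ?_, fun z z' u h h' => ?_⟩⟩
  · have m := fun t x i => measurable_sg wm (t := fun _ => t) measurable_const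
      (g := fun _ x => sv x i) (fun _ => measurable_const) x
    simp only [Aq, Am_apply hn (ising_pos _ _) hT]
    exact (measurable_sg wm measurable_const (fun x => (m T x i).mul (m T x j)) _).sub
      ((m _ _ i).mul (m _ _ j))
  · exact Measurable.t157_add (Cond.measurable_mat_iff.2 fun i j => measurable_Iq wm T2 _ _)
      measurable_const
  · refine .of_dotProduct_mulVec_nonneg (herm_iff.2 ?_) fun u => ?_
    · ext i j; simp [hS, Sm, mul_comm, one_apply, eq_comm]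
    · have := Iq_nonneg hn (wp z) T2 (fun x => sq_nonneg (u ⬝ᵥ sv x)) (one n)
      have := dot_self_nonneg u
      rw [star_trivial, Sq, Sm_quad hn (wp z)]; positivity
  · refine (opn_le_of_quad (Am_psd hn (wp z) hT _).1 p4 fun u => ?_).trans (by linarith)
    rw [abs_of_nonneg (by simpa using (Am_psd hn (wp z) hT (one n)).dotProduct_mulVec_nonneg u)]
    exact (gr z h).Am_le hn (wp z) hC hT _ u
  · have : (S z).trace = (4 * T + 1) * n := by
      simp [hS, trace, Sm, sv_mul_self, Iq_const hn (wp z)]; ring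
    rw [this]
    exact mul_le_mul_of_nonneg_right (by linarith) (Nat.cast_nonneg n)
  · obtain ⟨δ, h1, h2, h3⟩ := key z z' h h'
    refine ((h1.fro_le hT _).trans (mul_le_mul_of_nonneg_left h3 p1)).trans ?_
    rw [← mul_assoc]
    exact mul_le_mul_of_nonneg_right (by linarith) h2
  · obtain ⟨δ, h1, h2, h3⟩ := key z z' h h'
    have h4 := h1.Sm_le T2 (one n) u
    have u0 := dot_self_nonneg u
    have h5 := mul_le_mul_of_nonneg_left h3 (mul_nonneg p2 u0)
    have h6 : c2 * (u ⬝ᵥ u) * (c3 * cost (S z) z z') ≤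
        ((c1 + c2) * c3 + 4 * T * exp (2 * C * T) + (4 * T + 1)) * (u ⬝ᵥ u) * cost (S z) z z' := by
      rw [mul_mul_mul_comm, mul_assoc _ (u ⬝ᵥ u)]
      exact mul_le_mul_of_nonneg_right (by linarith) (mul_nonneg u0 h2)
    rw [Sq, Sq]
    have : 2 * T * (4 * exp (C * (2 * T)) * (2 * T) * (u ⬝ᵥ u) *
      Iq (w z) (2 * T) (fun x => δ x ⬝ᵥ δ x) (one n)) =
      c2 * (u ⬝ᵥ u) * Iq (w z) (2 * T) (fun x => δ x ⬝ᵥ δ x) (one n) := by ring
    linarith

end Crest.Agent.T157.Da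

end
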