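import Crest.Agent.T157.DaDef_82

/-!
# Row 157, part C (helper44): the Lorentzian window, `Da.feApi`
-/

set_option autoImplicit false

noncomputable section

namespace Crest.Agent.T157.Da

open MeasureTheory Matrix Finset
open Crest.Agent.T157.E Crest.Agent.T157.Eig
open Crest.Agent.T157.Tap (V Mx)
open Crest.Agent.T157.Conc (fro fro_nonneg fro_transpose)
open Crest.Agent.R164.Haar (Mat)

namespace Fe44

variable {n : ℕ} {M M' : Mx n} {η : ℝ}

/-- `(2 - l) / ((2 - l)² + η²)` -/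
def pw (η l : ℝ) : ℝ := (2 - l) / ((2 - l) ^ 2 + η ^ 2)

theorem fl_pos (hη : 0 < η) (l : ℝ) : 0 < fl η l := by unfold fl; positivity
theorem fl_le (hη : 0 < η) (l : ℝ) : fl η l ≤ 1 :=
  div_le_one_of_le₀ (by nlinarith [sq_nonneg (2 - l)]) (by positivity)
theorem abs_ph (hη : 0 < η) (l : ℝ) : |pw η l| ≤ 1 / (2 * η) := by
  unfold pw
  rw [abs_div, abs_of_pos (by positivity : 0 < (2 - l) ^ 2 + η ^ 2),
    div_le_div_iff₀ (by positivity) (by positivity)]
  nlinarith [sq_nonneg (|2 - l| - η), sq_abs (2 - l)]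

theorem tm_eq (hM : M.IsHermitian) : tm M = fnK (fun x : ℝ => 2 - x) M := by
  rw [fnK_sub, fnK_const hM, fnK_id_real hM, tm]

theorem S_eq (hM : M.IsHermitian) (η : ℝ) :
    tm M * tm M + η ^ 2 • (1 : Mx n) = fnK (fun x : ℝ => (2 - x) ^ 2 + η ^ 2) M := by
  rw [fnK_add, fnK_const hM, tm_eq hM, fnK_mul hM]
  simp only [sq]

theorem fE_eq (hM : M.IsHermitian) (hη : 0 < η) : fE η M = fnK (fl η) M := by
  rw [fE, S_eq hM, fnK_inv hM fun k _ => by positivity, ← fnK_smul]
  rfl

theorem dot_fn (hM : M.IsHermitian) (f g : ℝ → ℝ) (u v : V n) :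
    (fnK f M *ᵥ u) ⬝ᵥ (fnK g M *ᵥ v) = u ⬝ᵥ fnK (fun x => f x * g x) M *ᵥ v := by
  rw [← fnK_mul hM, ← mulVec_mulVec, dot_symm (fnK_herm f M), dotProduct_comm]

theorem quad_mono {f g : ℝ → ℝ} (h : ∀ x, f x ≤ g x) (u : V n) :
    u ⬝ᵥ fnK f M *ᵥ u ≤ u ⬝ᵥ fnK g M *ᵥ u := by
  rw [quad_fnK, quad_fnK]
  exact sum_le_sum fun k _ => mul_le_mul_of_nonneg_right (h _) (mul_self_nonneg _)

theorem abs_trace_le (A B : Mx n) : |(A * B).trace| ≤ √(fro A) * √(fro B) := by
  rw [← Real.sqrt_mul (fro_nonneg A), ← fro_transpose B]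
  refine Real.abs_le_sqrt ?_
  have h := sum_mul_sq_le_sq_mul_sq (univ : Finset (Fin n × Fin n)) (fun p => A p.1 p.2)
    fun p => B p.2 p.1
  simp only [Fintype.sum_prod_type] at h
  exact h

theorem fro_mul_l (A B : Mx n) : √(fro (A * B)) ≤ opn A * √(fro B) := by
  rw [← Real.sqrt_sq (opn_nonneg A), ← Real.sqrt_mul (sq_nonneg _), ← fro_transpose (A * B),
    ← fro_transpose B]
  refine Real.sqrt_le_sqrt ?_
  unfold fro
  rw [mul_sum]
  refine sum_le_sum fun j _ => ?_
  have h := mulVec_dot_le A fun k => B k j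
  simp only [dotProduct, ← sq] at h
  exact h

theorem fro_mul_r (A B : Mx n) : √(fro (A * B)) ≤ √(fro A) * opn B := by
  rw [← fro_transpose, transpose_mul, ← fro_transpose A, ← opn_transpose B, mul_comm]
  exact fro_mul_l _ _

theorem fro_f (hM : M.IsHermitian) (hη : 0 < η) :
    √(fro (fnK (fl η) M)) ≤ √(fnK (fl η) M).trace := by
  refine Real.sqrt_le_sqrt ?_
  have e : fro (fnK (fl η) M) = (fnK (fl η) M * fnK (fl η) M).trace := by
    simp only [fro, trace, diag_apply, mul_apply, sq]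
    exact sum_congr rfl fun i _ => sum_congr rfl fun j _ => by rw [fnK_symm (fl η) M j i]
  rw [e, fnK_mul hM, trace_fnK hM, trace_fnK hM]
  exact sum_le_sum fun k _ => mul_le_of_le_one_right (fl_pos hη _).le (fl_le hη _)

theorem opn_f (hM : M.IsHermitian) (hη : 0 < η) : opn (fnK (fl η) M) ≤ 1 :=
  opn_fnK_le hM zero_le_one fun _ _ => by rw [abs_of_pos (fl_pos hη _)]; exact fl_le hη _

theorem opn_ph (hM : M.IsHermitian) (hη : 0 < η) : opn (fnK (pw η) M) ≤ 1 / (2 * η) :=
  opn_fnK_le hM (by positivity) fun _ _ => abs_ph hη _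

theorem diff (hM : M.IsHermitian) (hM' : M'.IsHermitian) (hη : 0 < η) :
    fnK (fl η) M' - fnK (fl η) M =
      fnK (pw η) M' * (M' - M) * fnK (fl η) M + fnK (fl η) M' * (M' - M) * fnK (pw η) M := by
  have e : M' - M = tm M - tm M' := by rw [tm, tm]; abel
  have h1 : ∀ {A : Mx n}, A.IsHermitian → fnK (pw η) A * tm A = 1 - fnK (fl η) A := fun hA => by
    rw [tm_eq hA, fnK_mul hA, ← fnK_one hA, ← fnK_sub]
    congr 1; funext x; unfold pw fl; field_simp; ring
  have h2 : tm M * fnK (pw η) M = 1 - fnK (fl η) M := by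
    rw [tm_eq hM, fnK_mul hM, ← fnK_one hM, ← fnK_sub]
    congr 1; funext x; unfold pw fl; field_simp; ring
  have h3 : tm M * fnK (fl η) M = η ^ 2 • fnK (pw η) M := by
    rw [tm_eq hM, fnK_mul hM, ← fnK_smul]
    congr 1; funext x; unfold pw fl; ring
  have h4 : fnK (fl η) M' * tm M' = η ^ 2 • fnK (pw η) M' := by
    rw [tm_eq hM', fnK_mul hM', ← fnK_smul]
    congr 1; funext x; unfold pw fl; ring
  rw [e, Matrix.mul_sub, Matrix.mul_sub, Matrix.sub_mul, Matrix.sub_mul, h1 hM', h4,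
    Matrix.mul_assoc, Matrix.mul_assoc, h2, h3, Matrix.mul_smul, Matrix.smul_mul, Matrix.mul_sub,
    Matrix.sub_mul, Matrix.mul_one, Matrix.one_mul]
  abel

end Fe44

open Fe44

set_option maxHeartbeats 1000000 in
theorem feApi : FeApi where
  meas n η := by
    have h : Continuous fun M : Mx n => tm M * tm M + η ^ 2 • (1 : Mx n) := by
      unfold tm; fun_prop
    refine measurable_pi_lambda _ fun i => measurable_pi_lambda _ fun j => ?_
    have e : (fun M : Mx n => fE η M i j) = fun M : Mx n => η ^ 2 *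
        (((tm M * tm M + η ^ 2 • (1 : Mx n)).det)⁻¹ *
          (tm M * tm M + η ^ 2 • (1 : Mx n)).adjugate i j) := by
      funext M
      rw [fE, Matrix.inv_def, Ring.inverse_eq_inv']
      rfl
    rw [e]
    exact (h.matrix_det.measurable.inv.mul (h.matrix_adjugate.matrix_elem i j).measurable).const_mul _
  psd {n M η} hM hη := by
    rw [fE_eq (herm_iff.2 hM) hη]
    refine .of_dotProduct_mulVec_nonneg (fnK_herm _ _) fun x => ?_
    rw [star_trivial, quad_fnK]
    exact sum_nonneg fun k _ => mul_nonneg (fl_pos hη _).le (mul_self_nonneg _)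
  le_one {n M η} hM hη := by
    rw [fE_eq (herm_iff.2 hM) hη]; exact opn_f (herm_iff.2 hM) hη
  eig {n M η} hM hη k := by
    rw [fE_eq (herm_iff.2 hM) hη]; exact fnK_mulVec_vec (herm_iff.2 hM) _ k
  quad {n M η} hM hη u v := by
    rw [fE_eq (herm_iff.2 hM) hη, quad_fnK, Fintype.card_fin]
  trace {n M η} hM hη B := by
    have hM' := herm_iff.2 hM
    rw [fE_eq hM' hη, trace_eq_sum_quad hM', Fintype.card_fin]
    refine sum_congr rfl fun k _ => ?_
    rw [← mulVec_mulVec, dot_symm (fnK_herm _ _), fnK_mulVec_vec hM', dotProduct_smul, smul_eq_mul,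
      dotProduct_comm]
  conj {n} M η O hO := by
    have h1 : Matrix.of O * (Matrix.of O)ᵀ = 1 := (Matrix.mem_orthogonalGroup_iff _ _).1 hO
    have h2 : (Matrix.of O)ᵀ * Matrix.of O = 1 := (Matrix.mem_orthogonalGroup_iff' _ _).1 hO
    have e1 : tm (cj O M) = Matrix.of O * tm M * (Matrix.of O)ᵀ := by
      rw [tm, tm, cj, Matrix.mul_sub, Matrix.sub_mul, Matrix.mul_smul, Matrix.mul_one,
        Matrix.smul_mul, h1]
    have e2 : tm (cj O M) * tm (cj O M) + η ^ 2 • (1 : Mx n) =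
        Matrix.of O * (tm M * tm M + η ^ 2 • (1 : Mx n)) * (Matrix.of O)ᵀ := by
      rw [e1, Matrix.mul_add, Matrix.add_mul, Matrix.mul_smul, Matrix.mul_one, Matrix.smul_mul, h1]
      congr 1
      simp only [Matrix.mul_assoc]
      rw [← Matrix.mul_assoc (Matrix.of O)ᵀ, h2, Matrix.one_mul]
    rw [fE, e2, Matrix.mul_inv_rev, Matrix.mul_inv_rev, inv_eq_right_inv h1, inv_eq_right_inv h2,
      fE, cj, Matrix.mul_smul, Matrix.smul_mul, Matrix.mul_assoc]
  cs {n M η} hM hη x v hx := by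
    have hM' := herm_iff.2 hM
    have h1 := dot_sq_le (fnK (fun l => (√(fl η l))⁻¹) M *ᵥ x) (fnK (fun l => √(fl η l)) M *ᵥ v)
    rw [dot_fn hM', dot_fn hM', dot_fn hM'] at h1
    have e1 : (fun l => (√(fl η l))⁻¹ * √(fl η l)) = fun _ => (1 : ℝ) :=
      funext fun l => inv_mul_cancel₀ (Real.sqrt_pos.2 (fl_pos hη l)).ne'
    have e2 : (fun l => √(fl η l) * √(fl η l)) = fl η :=
      funext fun l => Real.mul_self_sqrt (fl_pos hη l).le
    have e3 : (fun l => (√(fl η l))⁻¹ * (√(fl η l))⁻¹) =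
        fun l => 1 + (η ^ 2)⁻¹ * ((2 - l) * (2 - l)) := funext fun l => by
      rw [← mul_inv, Real.mul_self_sqrt (fl_pos hη l).le]; unfold fl; field_simp; ring
    rw [e1, e2, e3, fnK_one hM', one_mulVec, fnK_add, fnK_one hM', fnK_smul, add_mulVec, one_mulVec,
      smul_mulVec, dotProduct_add, dotProduct_smul, ← dot_fn hM', ← tm_eq hM', ← fE_eq hM' hη] at h1
    refine h1.trans (mul_le_mul_of_nonneg_right ?_ ?_)
    · have h2 := pow_le_pow_left₀ (nrm_nonneg _) hx 2
      rw [mul_pow, nrm_sq, nrm_sq] at h2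
      have h3 := mul_le_mul_of_nonneg_left h2 (by positivity : 0 ≤ (η ^ 2)⁻¹)
      rw [← mul_assoc, inv_mul_cancel₀ (by positivity), one_mul] at h3
      rw [smul_eq_mul]; linarith
    · rw [fE_eq hM' hη, quad_fnK]
      exact sum_nonneg fun k _ => mul_nonneg (fl_pos hη _).le (mul_self_nonneg _)
  rest {n M η} hM hη u a b hu := by
    have hM' := herm_iff.2 hM
    have e : u - fE η M *ᵥ u = fnK (pw η) M *ᵥ a + fnK (pw η) M *ᵥ b := by
      rw [← mulVec_add, ← hu, mulVec_mulVec, tm_eq hM', fnK_mul hM', fE_eq hM' hη]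
      conv_lhs => rw [← one_mulVec u, mulVec_mulVec, Matrix.mul_one, ← sub_mulVec, ← fnK_one hM',
        ← fnK_sub]
      congr 2; funext x; unfold pw fl; field_simp; ring
    rw [e]
    refine (nrm_add_le _ _).trans (add_le_add ?_ ?_)
    · refine (nrm_mulVec_le _ _).trans ?_
      rw [div_eq_inv_mul]
      refine mul_le_mul_of_nonneg_right ((opn_ph hM' hη).trans ?_) (nrm_nonneg _)
      rw [one_div]; exact inv_anti₀ hη (by linarith)
    · rw [nrm, dot_fn hM', fE_eq hM' hη, le_div_iff₀ hη, ← Real.sqrt_sq hη.le,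
        ← Real.sqrt_mul' _ (sq_nonneg η), Real.sqrt_sq hη.le]
      refine Real.sqrt_le_sqrt ?_
      rw [mul_comm, ← smul_eq_mul, ← dotProduct_smul, ← smul_mulVec, ← fnK_smul]
      refine quad_mono (fun l => ?_) b
      have h0 : 0 < (2 - l) ^ 2 + η ^ 2 := by positivity
      unfold pw fl
      rw [div_mul_div_comm, ← mul_div_assoc, div_le_div_iff₀ (by positivity) h0]
      nlinarith [mul_nonneg (sq_nonneg η) (mul_nonneg (sq_nonneg η) h0.le)]
  lipop {n M M' η} hM hM' hη := by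
    have h := herm_iff.2 hM
    have h' := herm_iff.2 hM'
    rw [fE_eq h hη, fE_eq h' hη, diff h h' hη]
    have hH := opn_nonneg (M' - M)
    have h1 : opn (fnK (pw η) M' * (M' - M) * fnK (fl η) M) ≤ 1 / (2 * η) * opn (M' - M) * 1 :=
      (opn_mul_le _ _).trans (mul_le_mul ((opn_mul_le _ _).trans
        (mul_le_mul_of_nonneg_right (opn_ph h' hη) hH)) (opn_f h hη) (opn_nonneg _) (by positivity))
    have h2 : opn (fnK (fl η) M' * (M' - M) * fnK (pw η) M) ≤ 1 * opn (M' - M) * (1 / (2 * η)) :=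
      (opn_mul_le _ _).trans (mul_le_mul ((opn_mul_le _ _).trans
        (mul_le_mul_of_nonneg_right (opn_f h' hη) hH)) (opn_ph h hη) (opn_nonneg _) (by positivity))
    refine (opn_add_le _ _).trans ((add_le_add h1 h2).trans_eq ?_)
    field_simp; ring
  liptr {n M M' η} hM hM' hη F := by
    have h := herm_iff.2 hM
    have h' := herm_iff.2 hM'
    rw [fE_eq h hη, fE_eq h' hη, diff h h' hη, Matrix.add_mul, trace_add]
    have hF := opn_nonneg F
    have h1 : |(fnK (pw η) M' * (M' - M) * fnK (fl η) M * F).trace| ≤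
        √(fro (M' - M)) * (√(fnK (fl η) M).trace * opn F * (1 / (2 * η))) := by
      rw [Matrix.mul_assoc, Matrix.mul_assoc, trace_mul_comm, Matrix.mul_assoc]
      refine (abs_trace_le _ _).trans (mul_le_mul_of_nonneg_left ?_ (Real.sqrt_nonneg _))
      exact (fro_mul_r _ _).trans (mul_le_mul ((fro_mul_r _ _).trans
        (mul_le_mul_of_nonneg_right (fro_f h hη) hF)) (opn_ph h' hη) (opn_nonneg _) (by positivity))
    have h2 : |(fnK (fl η) M' * (M' - M) * fnK (pw η) M * F).trace| ≤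
        √(fro (M' - M)) * (1 / (2 * η) * opn F * √(fnK (fl η) M').trace) := by
      rw [Matrix.mul_assoc, Matrix.mul_assoc, trace_mul_comm, Matrix.mul_assoc]
      refine (abs_trace_le _ _).trans (mul_le_mul_of_nonneg_left ?_ (Real.sqrt_nonneg _))
      exact (fro_mul_l _ _).trans (mul_le_mul ((opn_mul_le _ _).trans
        (mul_le_mul_of_nonneg_right (opn_ph h hη) hF)) (fro_f h' hη) (Real.sqrt_nonneg _)
        (by positivity))
    refine (abs_add_le _ _).trans ((add_le_add h1 h2).trans ?_)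
    have h3 : 0 ≤ √(fro (M' - M)) * opn F * (√(fnK (fl η) M).trace + √(fnK (fl η) M').trace) / η := by
      positivity
    refine le_trans (le_of_eq ?_) (half_le_self h3)
    field_simp
  trcs {n M η} hM hη D := by
    rw [fE_eq (herm_iff.2 hM) hη]
    exact (abs_trace_le _ _).trans
      (mul_le_mul_of_nonneg_right (fro_f (herm_iff.2 hM) hη) (Real.sqrt_nonneg _))

end Crest.Agent.T157.Da

end
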