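import Crest.Agent.T157.DaDef_82
import Crest.Agent.T157.CondC_53
import Crest.Agent.T157.NrmG_84

/-!
# Row 157, part C (helper30): first-order methods, part A

Convergence in probability (`Lim`), ideal site variables (`Id`), vectors that are close to an ideal
vector (`Ap`) and matrices that act on ideal vectors like an ideal operator (`FR`).
-/

set_option autoImplicit false

noncomputable section

namespace Crest.Agent.T157.Da.Gf

open MeasureTheory ProbabilityTheory Matrix Filter Set Topology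
open Crest.Agent.T157.E Crest.Agent.T157.Eig
open Crest.Agent.T157.Tap (V Mx GOE avg)
open Crest.Agent.T157.Top (Whp whp_of_real_le whp_of_eventually)

section lim
variable {Y Z : ℕ → Type*} [∀ n, MeasurableSpace (Y n)] [∀ n, MeasurableSpace (Z n)]
  {Λ : ∀ n, Measure (Y n)} {a b c : ∀ n, Y n → ℝ} {α β γ : ℝ}

/-- convergence in probability -/
def Lim (Λ : ∀ n, Measure (Y n)) (a : ∀ n, Y n → ℝ) (α : ℝ) : Prop :=
  ∀ δ > (0 : ℝ), Whp Λ fun n z => |a n z - α| ≤ δ

theorem Lim.const (α : ℝ) : Lim Λ (fun _ _ => α) α := fun δ hδ =>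
  whp_of_eventually (.of_forall fun _ _ => by simpa using hδ.le)

theorem Lim.cont2 (ha : Lim Λ a α) (hb : Lim Λ b β) {F : ℝ × ℝ → ℝ} (hF : ContinuousAt F (α, β)) :
    Lim Λ (fun n z => F (a n z, b n z)) (F (α, β)) := fun δ hδ => by
  obtain ⟨r, hr, h⟩ := Metric.continuousAt_iff.1 hF δ hδ
  refine ((ha (r / 2) (half_pos hr)).and (hb (r / 2) (half_pos hr))).imp fun n z hz => ?_
  refine (h ?_).le
  rw [Prod.dist_eq, max_lt_iff, Real.dist_eq, Real.dist_eq]
  constructor <;> linarith [hz.1, hz.2]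

theorem Lim.cont (ha : Lim Λ a α) {F : ℝ → ℝ} (hF : ContinuousAt F α) :
    Lim Λ (fun n z => F (a n z)) (F α) :=
  ha.cont2 ha (F := fun p => F p.1) (ContinuousAt.comp (f := Prod.fst) hF continuousAt_fst)

theorem Lim.add (ha : Lim Λ a α) (hb : Lim Λ b β) : Lim Λ (fun n z => a n z + b n z) (α + β) :=
  ha.cont2 hb (F := fun p => p.1 + p.2) (by fun_prop)

theorem Lim.sub (ha : Lim Λ a α) (hb : Lim Λ b β) : Lim Λ (fun n z => a n z - b n z) (α - β) :=
  ha.cont2 hb (F := fun p => p.1 - p.2) (by fun_prop)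

theorem Lim.mul (ha : Lim Λ a α) (hb : Lim Λ b β) : Lim Λ (fun n z => a n z * b n z) (α * β) :=
  ha.cont2 hb (F := fun p => p.1 * p.2) (by fun_prop)

theorem Lim.abs (ha : Lim Λ a α) : Lim Λ (fun n z => |a n z|) |α| :=
  ha.cont (F := fun x => |x|) (by fun_prop)

theorem Lim.squeeze (ha : Lim Λ a 0) (h : Whp Λ fun n z => |c n z - γ| ≤ a n z) : Lim Λ c γ :=
  fun δ hδ => ((ha δ hδ).and h).imp fun n z hz =>
    hz.2.trans ((le_abs_self _).trans (by simpa using hz.1))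

theorem Lim.congr (ha : Lim Λ a α) (h : Whp Λ fun n z => a n z = b n z) : Lim Λ b α :=
  fun δ hδ => ((ha δ hδ).and h).imp fun _ _ hz => hz.2 ▸ hz.1

theorem Lim.of_eq (ha : Lim Λ a α) (h : α = β) : Lim Λ a β := h ▸ ha

theorem Lim.comp {ν : ∀ n, Measure (Z n)} {T : ∀ n, Z n → Y n}
    (hT : ∀ n, MeasurePreserving (T n) (ν n) (Λ n)) (h : Lim Λ a α) :
    Lim ν (fun n z => a n (T n z)) α := fun δ hδ => (h δ hδ).comp hT

theorem Lim.of_comp {ν : ∀ n, Measure (Z n)} {T : ∀ n, Z n → Y n}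
    (hT : ∀ n, MeasurePreserving (T n) (ν n) (Λ n)) (hm : ∀ n, Measurable (a n))
    (h : Lim ν (fun n z => a n (T n z)) α) : Lim Λ a α := fun δ hδ => by
  refine (h δ hδ).congr fun n => ?_
  have hs : MeasurableSet {z | ¬ |a n z - α| ≤ δ} :=
    (measurableSet_le ((hm n).sub_const α).abs measurable_const).compl
  exact (hT n).measure_preimage hs.nullMeasurableSet

end lim

/-! ### normalised norm and inner product -/

section nn
variable {n : ℕ}

/-- normalised inner product -/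
def ip (u v : V n) : ℝ := u ⬝ᵥ v / n
/-- normalised norm -/
def nn (u : V n) : ℝ := nrm u / √n

lemma nn_nonneg (u : V n) : 0 ≤ nn u := div_nonneg (nrm_nonneg u) (Real.sqrt_nonneg _)

lemma nn_eq (u : V n) : nn u = √(ip u u) := by
  rw [nn, ip, nrm, Real.sqrt_div (Cond.dot_self_nonneg u)]

lemma nn_sq (u : V n) : nn u ^ 2 = ip u u := by
  rw [nn_eq]; exact Real.sq_sqrt (div_nonneg (Cond.dot_self_nonneg u) (Nat.cast_nonneg n))

lemma nn_add_le (u v : V n) : nn (u + v) ≤ nn u + nn v := by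
  rw [nn, nn, nn, ← add_div]
  exact div_le_div_of_nonneg_right (nrm_add_le u v) (Real.sqrt_nonneg _)

lemma nn_smul (c : ℝ) (u : V n) : nn (c • u) = |c| * nn u := by
  rw [nn, nn, nrm_smul, mul_div_assoc]

lemma nn_neg (u : V n) : nn (-u) = nn u := by rw [nn, nn, nrm_neg]

@[simp] lemma nn_zero : nn (0 : V n) = 0 := by simp [nn]

lemma abs_ip_le (u v : V n) : |ip u v| ≤ nn u * nn v := by
  rw [ip, nn, nn, div_mul_div_comm, Real.mul_self_sqrt (Nat.cast_nonneg n), abs_div,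
    Nat.abs_cast]
  exact div_le_div_of_nonneg_right (abs_dot_le u v) (Nat.cast_nonneg n)

lemma abs_nn_sub_le (u v : V n) : |nn u - nn v| ≤ nn (u - v) := by
  have h1 := nn_add_le (u - v) v
  have h2 := nn_add_le (-(u - v)) u
  rw [sub_add_cancel] at h1
  rw [neg_sub, sub_add_cancel, ← neg_sub, nn_neg] at h2
  rw [abs_le]; constructor <;> linarith

lemma abs_ip_sub_le (u v u' v' : V n) :
    |ip u v - ip u' v'| ≤ nn (u - u') * nn v + nn u' * nn (v - v') := by
  have e : ip u v - ip u' v' = ip (u - u') v + ip u' (v - v') := by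
    simp only [ip, sub_dotProduct, dotProduct_sub]; ring
  rw [e]
  exact (abs_add_le _ _).trans (add_le_add (abs_ip_le _ _) (abs_ip_le _ _))

lemma nn_mulVec_le (M : Mx n) (u : V n) : nn (M *ᵥ u) ≤ opn M * nn u := by
  rw [nn, nn, ← mul_div_assoc]
  exact div_le_div_of_nonneg_right (nrm_mulVec_le M u) (Real.sqrt_nonneg _)

lemma nn_proj_le {R : Mx n} (h : Cond.IsProj R) (u : V n) : nn (R *ᵥ u) ≤ nn u :=
  div_le_div_of_nonneg_right (Real.sqrt_le_sqrt (h.dot_le u)) (Real.sqrt_nonneg _)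

@[fun_prop] lemma measurable_ip {X : Type*} [MeasurableSpace X] {u v : X → V n}
    (hu : Measurable u) (hv : Measurable v) : Measurable fun x => ip (u x) (v x) := by
  unfold ip; fun_prop

@[fun_prop] lemma measurable_nn {X : Type*} [MeasurableSpace X] {u : X → V n}
    (hu : Measurable u) : Measurable fun x => nn (u x) := by
  simp only [nn_eq]; fun_prop

end nn

/-! ### ideal variables -/

section ideal
variable {Ω Ω' : Type} [MeasurableSpace Ω] [MeasurableSpace Ω'] {P : Measure Ω} {P' : Measure Ω'}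
  {U W : Ω → ℝ}

/-- ideal site variable -/
structure Id (P : Measure Ω) (U : Ω → ℝ) : Prop where
  m : Measurable U
  l : MemLp U 4 P

theorem Id.add (hU : Id P U) (hW : Id P W) : Id P fun ω => U ω + W ω :=
  ⟨hU.m.add hW.m, hU.l.add hW.l⟩

theorem Id.smul (hU : Id P U) (c : ℝ) : Id P fun ω => c * U ω :=
  ⟨hU.m.const_mul c, hU.l.const_mul c⟩

theorem Id.const [IsFiniteMeasure P] (c : ℝ) : Id P fun _ => c :=
  ⟨measurable_const, memLp_const c⟩

theorem Id.comp (hU : Id P U) {π : Ω' → Ω} (hπ : MeasurePreserving π P' P) :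
    Id P' fun ω => U (π ω) := ⟨hU.m.comp hπ.measurable, hU.l.comp_measurePreserving hπ⟩

theorem Id.of_le (hU : Id P U) (hW : Measurable W) (h : ∀ ω, |W ω| ≤ U ω) : Id P W :=
  ⟨hW, hU.l.mono' hW.aestronglyMeasurable (.of_forall h)⟩

theorem Id.abs (hU : Id P U) : Id P fun ω => |U ω| := ⟨hU.m.abs, hU.l.abs⟩

/-- law of `n` independent sites -/
abbrev pw (P : Measure Ω) (n : ℕ) : Measure (Fin n → Ω) := Measure.pi fun _ => P

theorem mp_pw [IsProbabilityMeasure P] [IsProbabilityMeasure P'] {π : Ω' → Ω}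
    (hπ : MeasurePreserving π P' P) (n : ℕ) :
    MeasurePreserving (fun ω : Fin n → Ω' => π ∘ ω) (pw P' n) (pw P n) :=
  measurePreserving_pi _ _ fun _ => hπ

theorem lln [IsProbabilityMeasure P] {F : Ω → ℝ} (hF : MemLp F 2 P) :
    Lim (pw P) (fun n ω => (∑ i, F (ω i)) / n) (∫ ω, F ω ∂P) := fun δ hδ => by
  refine whp_of_real_le (a := fun n => Var[F; P] / δ ^ 2 / n)
    (tendsto_const_div_atTop_nhds_zero_nat _) ?_
  filter_upwards [eventually_gt_atTop 0] with n hn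
  have hn' : (0 : ℝ) < n := Nat.cast_pos.2 hn
  have he : ∀ i : Fin n, MeasurePreserving (fun ω : Fin n → Ω => ω i) (pw P n) P := fun i =>
    measurePreserving_eval (fun _ => P) i
  have hi : ∀ i : Fin n, MemLp (fun ω : Fin n → Ω => F (ω i)) 2 (pw P n) := fun i =>
    hF.comp_measurePreserving (he i)
  set S : (Fin n → Ω) → ℝ := ∑ i, fun ω => F (ω i) with hS
  have hSa : ∀ ω, S ω = ∑ i, F (ω i) := fun ω => by simp [hS]
  have h2 : MemLp S 2 (pw P n) := memLp_finsetSum' _ fun i _ => hi i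
  have hv : Var[S; pw P n] = n * Var[F; P] := by
    rw [hS, variance_sum_pi (μ := fun _ => P) (X := fun _ => F) fun _ => hF]; simp
  have hm : (pw P n)[S] = n * ∫ ω, F ω ∂P := by
    simp_rw [hSa]
    rw [integral_finsetSum _ fun i _ => (hi i).integrable one_le_two]
    have : ∀ i : Fin n, ∫ ω, F (ω i) ∂pw P n = ∫ ω, F ω ∂P := fun i => by
      rw [← integral_map (he i).measurable.aemeasurable (by rw [(he i).map_eq]; exact hF.1),
        (he i).map_eq]
    simp [this]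
  have h := meas_ge_le_variance_div_sq h2 (mul_pos hn' hδ)
  rw [hv, hm] at h
  have hsub : {ω : Fin n → Ω | ¬ |(∑ i, F (ω i)) / n - ∫ ω, F ω ∂P| ≤ δ} ⊆
      {ω | n * δ ≤ |S ω - n * ∫ ω, F ω ∂P|} := fun ω hω => by
    simp only [mem_ofPred_eq, not_le] at hω ⊢
    have e : S ω - n * ∫ ω, F ω ∂P = n * ((∑ i, F (ω i)) / n - ∫ ω, F ω ∂P) := by
      rw [hSa]; field_simp
    rw [e, abs_mul, abs_of_pos hn']
    exact mul_le_mul_of_nonneg_left hω.le hn'.le
  refine ENNReal.toReal_le_of_le_ofReal (by have := variance_nonneg F P; positivity)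
    ((measure_mono hsub).trans (h.trans (le_of_eq ?_)))
  congr 1
  field_simp

theorem lln_ip [IsProbabilityMeasure P] (hU : Id P U) (hW : Id P W) :
    Lim (pw P) (fun _ ω => ip (U ∘ ω) (W ∘ ω)) (∫ ω, U ω * W ω ∂P) := by
  have : ENNReal.HolderTriple 4 4 2 := ⟨by
    rw [← two_mul, show (4 : ENNReal) = 2 * 2 by norm_num,
      ENNReal.mul_inv (by simp) (by simp), ← mul_assoc, ENNReal.mul_inv_cancel (by simp) (by simp),
      one_mul]⟩
  exact lln (F := fun ω => U ω * W ω) (hW.l.mul hU.l)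

end ideal

/-! ### approximately ideal vectors -/

section ap
variable {Y Z : ℕ → Type*} [∀ n, MeasurableSpace (Y n)] [∀ n, MeasurableSpace (Z n)]
  {Ω Ω' : Type} [MeasurableSpace Ω] [MeasurableSpace Ω'] {P : Measure Ω} {P' : Measure Ω'}
  {Λ : ∀ n, Measure (Y n)} {σ : ∀ n, Y n → Fin n → Ω} {u v : ∀ n, Y n → V n} {U W : Ω → ℝ}

/-- `u` is close to the ideal vector `U ∘ σ` -/
structure Ap (Λ : ∀ n, Measure (Y n)) (σ : ∀ n, Y n → Fin n → Ω) (P : Measure Ω)
    (u : ∀ n, Y n → V n) (U : Ω → ℝ) : Prop where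
  id : Id P U
  cl : Lim Λ (fun n z => nn (u n z - U ∘ σ n z)) 0

theorem Ap.refl (hU : Id P U) : Ap Λ σ P (fun n z => U ∘ σ n z) U :=
  ⟨hU, by simpa using Lim.const 0⟩

theorem Ap.near (h : Ap Λ σ P u U) (hv : Lim Λ (fun n z => nn (v n z - u n z)) 0) :
    Ap Λ σ P v U := by
  refine ⟨h.id, ((hv.add h.cl).of_eq (add_zero 0)).squeeze
    (whp_of_eventually (.of_forall fun n z => ?_))⟩
  rw [sub_zero, abs_of_nonneg (nn_nonneg _)]
  simpa using nn_add_le (v n z - u n z) (u n z - U ∘ σ n z)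

theorem Ap.congr (h : Ap Λ σ P u U) (hv : Whp Λ fun n z => u n z = v n z) : Ap Λ σ P v U :=
  ⟨h.id, h.cl.congr (hv.imp fun _ _ hz => by rw [hz])⟩

theorem Ap.add (hu : Ap Λ σ P u U) (hv : Ap Λ σ P v W) :
    Ap Λ σ P (fun n z => u n z + v n z) fun ω => U ω + W ω := by
  refine ⟨hu.id.add hv.id, ((hu.cl.add hv.cl).of_eq (add_zero 0)).squeeze
    (whp_of_eventually (.of_forall fun n z => ?_))⟩
  rw [sub_zero, abs_of_nonneg (nn_nonneg _)]
  refine le_of_eq_of_le ?_ (nn_add_le _ _)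
  congr 1; funext i; simp; ring

/-- change of the underlying space and of the site space -/
theorem Ap.comp (h : Ap Λ σ P u U) {ν : ∀ n, Measure (Z n)} {T : ∀ n, Z n → Y n}
    (hT : ∀ n, MeasurePreserving (T n) (ν n) (Λ n)) {π : Ω' → Ω} (hπ : MeasurePreserving π P' P)
    {σ' : ∀ n, Z n → Fin n → Ω'} (e : ∀ n z, σ n (T n z) = π ∘ σ' n z) :
    Ap ν σ' P' (fun n z => u n (T n z)) fun ω => U (π ω) :=
  ⟨h.id.comp hπ, (h.cl.comp hT).congr (whp_of_eventually (.of_forall fun n z => by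
    rw [e]; rfl))⟩

variable [IsProbabilityMeasure P] (hσ : ∀ n, MeasurePreserving (σ n) (Λ n) (pw P n))
include hσ

theorem lim_nn_id (hU : Id P U) :
    Lim Λ (fun n z => nn (U ∘ σ n z)) √(∫ ω, U ω * U ω ∂P) := by
  simp only [nn_eq]
  exact ((lln_ip hU hU).comp hσ).cont Real.continuous_sqrt.continuousAt

theorem Ap.nn (h : Ap Λ σ P u U) : Lim Λ (fun n z => nn (u n z)) √(∫ ω, U ω * U ω ∂P) := by
  have h1 : Lim Λ (fun n z => Gf.nn (u n z) - Gf.nn (U ∘ σ n z)) 0 :=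
    h.cl.squeeze (whp_of_eventually (.of_forall fun n z => by
      rw [sub_zero]; exact abs_nn_sub_le _ _))
  simpa using h1.add (lim_nn_id hσ h.id)

theorem Ap.ip (hu : Ap Λ σ P u U) (hv : Ap Λ σ P v W) :
    Lim Λ (fun n z => ip (u n z) (v n z)) (∫ ω, U ω * W ω ∂P) := by
  have h1 : Lim Λ (fun n z => Gf.ip (u n z) (v n z) - Gf.ip (U ∘ σ n z) (W ∘ σ n z)) 0 :=
    (((hu.cl.mul (hv.nn hσ)).add ((lim_nn_id hσ hu.id).mul hv.cl)).of_eq (by simp)).squeeze
      (whp_of_eventually (.of_forall fun n z => by rw [sub_zero]; exact abs_ip_sub_le _ _ _ _))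
  simpa using h1.add ((lln_ip hu.id hv.id).comp hσ)

theorem Ap.smul (hu : Ap Λ σ P u U) {a : ∀ n, Y n → ℝ} {α : ℝ} (ha : Lim Λ a α) :
    Ap Λ σ P (fun n z => a n z • u n z) fun ω => α * U ω := by
  refine ⟨hu.id.smul α, (((ha.abs.mul hu.cl).add ((ha.sub (Lim.const α)).abs.mul
    (lim_nn_id hσ hu.id))).of_eq (by simp)).squeeze
      (whp_of_eventually (.of_forall fun n z => ?_))⟩
  rw [sub_zero, abs_of_nonneg (nn_nonneg _), ← nn_smul, ← nn_smul]
  refine le_of_eq_of_le ?_ (nn_add_le _ _)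
  congr 1; funext i; simp; ring

end ap

/-! ### matrices with an ideal action -/

section fr
variable {Ω Ω' : Type} [MeasurableSpace Ω] [MeasurableSpace Ω'] {P : Measure Ω} {P' : Measure Ω'}
  {M N : ∀ n, (Fin n → Ω) → Mx n} {u v : ∀ n, (Fin n → Ω) → V n} {U W : Ω → ℝ}

/-- approximately ideal function of the sites -/
abbrev Ap0 (P : Measure Ω) (u : ∀ n, (Fin n → Ω) → V n) (U : Ω → ℝ) : Prop :=
  Ap (pw P) (fun _ ω => ω) P u U

/-- `M` maps ideal vectors (over every extension of the site space) to ideal vectors -/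
def FR (P : Measure Ω) (M : ∀ n, (Fin n → Ω) → Mx n) : Prop :=
  ∀ (Ω' : Type) [MeasurableSpace Ω'] (P' : Measure Ω') [IsProbabilityMeasure P'] (π : Ω' → Ω),
    MeasurePreserving π P' P → ∀ X, Id P' X →
      ∃ U, Ap0 P' (fun n ω => M n (π ∘ ω) *ᵥ (X ∘ ω)) U

theorem FR.app [IsProbabilityMeasure P] (h : FR P M) (hU : Id P U) :
    ∃ W, Ap0 P (fun n ω => M n ω *ᵥ (U ∘ ω)) W := h Ω P id (MeasurePreserving.id P) U hU

theorem FR.ext (h : FR P M) {π : Ω' → Ω} (hπ : MeasurePreserving π P' P) :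
    FR P' fun n ω => M n (π ∘ ω) := fun Ω'' _ P'' _ π' hπ' X hX =>
  h Ω'' P'' (π ∘ π') (hπ.comp hπ') X hX

theorem FR.zero : FR P fun _ _ => 0 := fun _ _ P' _ _ _ _ _ =>
  ⟨fun _ => 0, (Ap.refl (Id.const 0)).congr
    (whp_of_eventually (.of_forall fun _ _ => by rw [Matrix.zero_mulVec]; rfl))⟩

theorem FR.one : FR P fun _ _ => 1 := fun _ _ P' _ _ _ X hX =>
  ⟨X, (Ap.refl hX).congr (whp_of_eventually (.of_forall fun _ _ => by rw [Matrix.one_mulVec]))⟩

theorem FR.congr (h : FR P M) (e : ∀ n ω, M n ω = N n ω) : FR P N := by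
  rwa [show M = N from funext fun n => funext (e n)] at h

theorem FR.add (hM : FR P M) (hN : FR P N) : FR P fun n ω => M n ω + N n ω :=
  fun Ω' _ P' _ π hπ X hX => by
    obtain ⟨U, hU⟩ := hM Ω' P' π hπ X hX
    obtain ⟨W, hW⟩ := hN Ω' P' π hπ X hX
    exact ⟨_, (hU.add hW).congr (whp_of_eventually (.of_forall fun _ _ => by
      rw [Matrix.add_mulVec]))⟩

variable [IsProbabilityMeasure P]

theorem FR.smul (hM : FR P M) {a : ∀ n, (Fin n → Ω) → ℝ} {α : ℝ} (ha : Lim (pw P) a α) :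
    FR P fun n ω => a n ω • M n ω := fun Ω' _ P' _ π hπ X hX => by
  obtain ⟨U, hU⟩ := hM Ω' P' π hπ X hX
  exact ⟨_, (hU.smul (fun _ => MeasurePreserving.id _) (ha.comp (mp_pw hπ))).congr
    (whp_of_eventually (.of_forall fun _ _ => by rw [Matrix.smul_mulVec]))⟩

theorem FR.rk1 (hu : Ap0 P u U) (hv : Ap0 P v W) :
    FR P fun n ω => (n : ℝ)⁻¹ • vecMulVec (u n ω) (v n ω) := fun Ω' _ P' _ π hπ X hX => by
  have hu' : Ap0 P' (fun n ω => u n (π ∘ ω)) fun ω => U (π ω) :=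
    hu.comp (mp_pw hπ) hπ fun _ _ => rfl
  have hv' : Ap0 P' (fun n ω => v n (π ∘ ω)) fun ω => W (π ω) :=
    hv.comp (mp_pw hπ) hπ fun _ _ => rfl
  have hi : ∀ n, MeasurePreserving (fun ω : Fin n → Ω' => ω) (pw P' n) (pw P' n) := fun _ =>
    MeasurePreserving.id _
  refine ⟨_, (hu'.smul hi (hv'.ip hi (Ap.refl hX))).congr
    (whp_of_eventually (.of_forall fun _ _ => ?_))⟩
  rw [Matrix.smul_mulVec, Cond.vmv_mulVec, smul_smul, ip, div_eq_inv_mul]

end fr

end Crest.Agent.T157.Da.Gf
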