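import Crest.Agent.T157.DaGfA_30
import Crest.Agent.T157.TapSE_6

/-!
# Row 157, part C (helper30): first-order methods, part B

State evolution by Gaussian conditioning: `gfomStmt : GfomStmt`.
-/

set_option autoImplicit false

noncomputable section

namespace Crest.Agent.T157.Da

namespace Gf

open MeasureTheory ProbabilityTheory Matrix Filter Set Topology
open Crest.Agent.T157.E Crest.Agent.T157.Eig Crest.Agent.T157.Cond
open Crest.Agent.T157.Tap (V Mx GOE avg)
open Crest.Agent.T157.Top (Whp whp_of_real_le whp_of_eventually)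

theorem mp_of_comp {α β γ : Type*} [MeasurableSpace α] [MeasurableSpace β] [MeasurableSpace γ]
    {μ : Measure α} {ν : Measure β} {ξ : Measure γ} {g : α → β} {f : β → γ}
    (hg : MeasurePreserving g μ ν) (hf : Measurable f) (h : MeasurePreserving (f ∘ g) μ ξ) :
    MeasurePreserving f ν ξ :=
  ⟨hf, by rw [← hg.map_eq, Measure.map_map hf hg.measurable, h.map_eq]⟩

theorem whp_opn : Whp GOE fun _ W => opn W ≤ 3 := by
  refine whp_of_real_le (a := fun n => 2 * Real.exp (-(n * 1 ^ 2 / 4))) ?_ (.of_forall fun n => ?_)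
  · simpa using (Real.tendsto_exp_neg_atTop_nhds_zero.comp ((tendsto_natCast_atTop_atTop (R := ℝ)
      ).atTop_div_const (r := 4) four_pos)).const_mul 2
  · exact (measureReal_mono fun W hW => by
      simp only [mem_ofPred_eq, not_le] at hW ⊢; linarith).trans (Nrm.goe_opn_tail_n zero_le_one)

instance : IsProbabilityMeasure unif := ⟨by simp [unif]⟩

section ap
variable {Y Z : ℕ → Type*} [∀ n, MeasurableSpace (Y n)] [∀ n, MeasurableSpace (Z n)]
  {Ω : Type} [MeasurableSpace Ω] {P : Measure Ω}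
  {Λ : ∀ n, Measure (Y n)} {σ : ∀ n, Y n → Fin n → Ω} {u v : ∀ n, Y n → V n} {U W : Ω → ℝ}

theorem Ap.of_comp {ν : ∀ n, Measure (Z n)} {T : ∀ n, Z n → Y n}
    (hT : ∀ n, MeasurePreserving (T n) (ν n) (Λ n)) (hu : ∀ n, Measurable (u n))
    (hσ : ∀ n, Measurable (σ n))
    (h : Ap ν (fun n z => σ n (T n z)) P (fun n z => u n (T n z)) U) : Ap Λ σ P u U := by
  refine ⟨h.id, Lim.of_comp hT (fun n => measurable_nn ((hu n).sub ?_)) h.cl⟩
  exact measurable_pi_lambda _ fun i => h.id.m.comp ((measurable_pi_apply i).comp (hσ n))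

/-- a matrix of bounded norm keeps small vectors small -/
theorem lim_mulVec {G : ∀ n, Y n → Mx n} (hG : Whp Λ fun n z => opn (G n z) ≤ 3)
    (h : Lim Λ (fun n z => nn (u n z)) 0) : Lim Λ (fun n z => nn (G n z *ᵥ u n z)) 0 :=
  (((Lim.const 3).mul h).of_eq (mul_zero 3)).squeeze (hG.imp fun n z hz => by
    rw [sub_zero, abs_of_nonneg (nn_nonneg _)]
    exact (nn_mulVec_le _ _).trans (mul_le_mul_of_nonneg_right hz (nn_nonneg _)))

end ap

/-! ### the update rule -/

lemma nn_le3 {n : ℕ} {y a b c : V n} (h : ∀ i, |y i| ≤ |a i| + |b i| + |c i|) :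
    nn y ≤ nn a + nn b + nn c := by
  have h1 : ∀ u : V n, nn (fun i => |u i|) = nn u := fun u => by
    simp only [nn, nrm, dotProduct, abs_mul_abs_self]
  have h2 : nn y ≤ nn ((fun i => |a i|) + (fun i => |b i|) + fun i => |c i|) := by
    refine div_le_div_of_nonneg_right (Real.sqrt_le_sqrt (Finset.sum_le_sum fun i _ => ?_))
      (Real.sqrt_nonneg _)
    rw [← abs_mul_abs_self (y i)]
    exact mul_self_le_mul_self (abs_nonneg _) (h i)
  refine h2.trans ((nn_add_le _ _).trans ?_)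
  rw [h1 c, ← h1 a, ← h1 b]
  exact add_le_add_left (nn_add_le _ _) _

lemma ph_sub_le {d s b S B u τ N : ℝ} (hu : 0 < u) (hτ : 0 < τ)
    (hN : |u - d * (1 + Real.tanh B) / 2| ≤ |d| * τ → N = 1) :
    |ph d s b u - ph d S B u| ≤ |s - S| + |2 / τ * (b - B)| + |2 * N| := by
  have key : ∀ x y : ℝ, |x - y| = |b - B| → u < d * (1 + Real.tanh x) / 2 →
      ¬ u < d * (1 + Real.tanh y) / 2 → (B = x ∨ B = y) →
        u < d ∧ 2 ≤ |2 / τ * (b - B)| + |2 * N| := by
    intro x y hxy h1 h2 hB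
    have t1 := Real.neg_one_lt_tanh x
    have t2 := Real.tanh_lt_one x
    have hd : 0 < d := by
      by_contra hd
      nlinarith [mul_nonneg (neg_nonneg.2 (not_lt.1 hd)) (show 0 ≤ 1 + Real.tanh x by linarith)]
    refine ⟨by nlinarith, ?_⟩
    by_cases hb : τ ≤ |b - B|
    · have : 2 ≤ |2 / τ * (b - B)| := by
        rw [abs_mul, abs_of_pos (by positivity), div_mul_eq_mul_div, le_div_iff₀ hτ]; linarith
      linarith [abs_nonneg (2 * N)]
    · have h3 := (le_abs_self _).trans (Tap.SE.abs_tanh_sub_le x y)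
      rw [hxy] at h3
      have h4 : d * (Real.tanh x - Real.tanh y) ≤ d * τ :=
        mul_le_mul_of_nonneg_left (by linarith) hd.le
      have h5 : 0 < d * τ := mul_pos hd hτ
      rw [hN (by
        rw [abs_of_pos hd, abs_le]
        rcases hB with rfl | rfl <;> constructor <;> linarith), mul_one, abs_two]
      linarith [abs_nonneg (2 / τ * (b - B))]
  have p1 := abs_nonneg (s - S)
  have p2 := abs_nonneg (2 / τ * (b - B))
  have p3 := abs_nonneg (2 * N)
  unfold ph
  by_cases h1 : u < d * (1 + Real.tanh b) / 2 <;> by_cases h2 : u < d * (1 + Real.tanh B) / 2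
  · rw [if_pos h1, if_pos h2, sub_self, abs_zero]; linarith
  · obtain ⟨k1, k2⟩ := key b B rfl h1 h2 (Or.inr rfl)
    rw [if_pos h1, if_neg h2, if_pos k1, show |(1 : ℝ) - -1| = 2 by norm_num]; linarith
  · obtain ⟨k1, k2⟩ := key B b (abs_sub_comm _ _) h2 h1 (Or.inl rfl)
    rw [if_neg h1, if_pos h2, if_pos k1, show |(-1 : ℝ) - 1| = 2 by norm_num]; linarith
  · rw [if_neg h1, if_neg h2]
    split_ifs
    · rw [sub_self, abs_zero]; linarith
    · linarith

lemma measurable_ph {X : Type*} [MeasurableSpace X] (d : ℝ) {s b u : X → ℝ} (hs : Measurable s)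
    (hb : Measurable b) (hu : Measurable u) : Measurable fun x => ph d (s x) (b x) (u x) := by
  have ht := Tap.SE.measurable_tanh.comp hb
  exact Measurable.ite (measurableSet_lt hu (((ht.const_add 1).const_mul d).div_const 2))
    measurable_const (Measurable.ite (measurableSet_lt hu measurable_const) measurable_const hs)

theorem Ap.ph {Y : ℕ → Type*} [∀ n, MeasurableSpace (Y n)] {Ω : Type} [MeasurableSpace Ω]
    {P : Measure Ω} [IsProbabilityMeasure P] {Λ : ∀ n, Measure (Y n)}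
    {σ : ∀ n, Y n → Fin n → Ω × ℝ} (hσ : ∀ n, MeasurePreserving (σ n) (Λ n) (pw (P.prod unif) n))
    {s b : ∀ n, Y n → V n} {S B : Ω → ℝ}
    (hs : Ap Λ σ (P.prod unif) s fun ω => S ω.1) (hb : Ap Λ σ (P.prod unif) b fun ω => B ω.1)
    (d : ℝ) : Ap Λ σ (P.prod unif) (fun n z i => ph d (s n z i) (b n z i) (σ n z i).2)
      fun ω => ph d (S ω.1) (B ω.1) ω.2 := by
  refine ⟨((hs.id.abs).add (Id.const 1)).of_le
    (measurable_ph d hs.id.m hb.id.m measurable_snd) fun ω => ?_, fun δ hδ => ?_⟩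
  · unfold Da.ph
    split_ifs <;> simp
  set τ : ℝ := δ ^ 2 / (32 * (|d| + 1)) with hτ
  have hτ0 : 0 < τ := by positivity
  set E : Set (Ω × ℝ) := {ω | |ω.2 - d * (1 + Real.tanh (B ω.1)) / 2| ≤ |d| * τ} with hE
  have hEm : MeasurableSet E := by
    have ht := Tap.SE.measurable_tanh.comp hb.id.m
    exact measurableSet_le (measurable_snd.sub (((ht.const_add 1).const_mul d).div_const 2)).abs
      measurable_const
  set N : Ω × ℝ → ℝ := E.indicator fun _ => 1 with hN
  have hNi : Id (P.prod unif) N := (Id.const 1).of_le (measurable_const.indicator hEm) fun ω => by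
    by_cases h : ω ∈ E <;> simp [hN, h]
  have hNN : √(∫ ω, N ω * N ω ∂P.prod unif) ≤ δ / 4 := by
    have e : (fun ω => N ω * N ω) = E.indicator fun _ => 1 := by
      funext ω; by_cases h : ω ∈ E <;> simp [hN, h]
    have h1 : (P.prod unif) E ≤ ENNReal.ofReal (2 * (|d| * τ)) := by
      rw [Measure.prod_apply hEm]
      refine (lintegral_mono (g := fun _ => ENNReal.ofReal (2 * (|d| * τ))) fun ω => ?_).trans
        (by simp)
      refine (Measure.restrict_le_self _).trans (le_of_eq ?_)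
      rw [← Real.volume_closedBall (d * (1 + Real.tanh (B ω)) / 2)]
      rfl
    rw [e, Real.sqrt_le_left (by positivity)]
    refine (integral_indicator_one hEm).trans_le ?_
    refine (ENNReal.toReal_le_of_le_ofReal (by positivity) h1).trans ?_
    have h2 : (|d| + 1) * τ = δ ^ 2 / 32 := by rw [hτ]; field_simp
    nlinarith
  have hu0 : Whp (pw (P.prod unif)) fun n ω => ∀ i, 0 < (ω i).2 := by
    refine tendsto_const_nhds.congr fun n => ?_
    refine (ae_iff.1 (ae_all_iff.2 fun i => ?_)).symm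
    have h1 : ∀ᵐ u ∂unif, 0 < u := (ae_restrict_mem measurableSet_Ioc).mono fun u hu => hu.1
    exact (measurePreserving_snd.comp (measurePreserving_eval (fun _ : Fin n => P.prod unif) i)
      ).quasiMeasurePreserving.ae h1
  have hu := hu0.comp hσ
  have hL := (hs.cl.add ((Lim.const |2 / τ|).mul hb.cl)).add
    ((Lim.const |(2 : ℝ)|).mul (lim_nn_id hσ hNi))
  refine ((hL (δ / 2) (half_pos hδ)).and hu).imp fun n z hz => ?_
  rw [sub_zero, abs_of_nonneg (nn_nonneg _)]
  have h1 := (abs_le.1 hz.1).2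
  simp only [← nn_smul] at h1
  refine (nn_le3 (a := s n z - (fun ω => S ω.1) ∘ σ n z)
    (b := (2 / τ) • (b n z - (fun ω => B ω.1) ∘ σ n z)) (c := (2 : ℝ) • (N ∘ σ n z))
    fun i => ph_sub_le (hz.2 i) hτ0 fun h => indicator_of_mem (s := E) h fun _ => (1 : ℝ)).trans ?_
  rw [abs_two] at h1
  linarith

/-! ### models -/

section model
variable {Ω D : Type} [MeasurableSpace Ω] [MeasurableSpace D]

/-- the simulated pair -/
def gl (A R : ∀ n, (Fin n → Ω) → Mx n) (n : ℕ) (z : Sp Ω n) : Sp Ω n :=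
  (z.1, glue (A n z.1) (R n z.1) z.2)

/-- forget a part of the site data -/
def pj (π : Ω → D) (n : ℕ) (z : Sp Ω n) : Sp D n := (π ∘ z.1, z.2)

/-- join fresh site variables -/
def jn (n : ℕ) (p : Sp Ω n × (Fin n → ℝ)) : Sp (Ω × ℝ) n := (fun i => (p.1.1 i, p.2 i), p.1.2)

lemma measurable_cmp {π : Ω → D} (hπ : Measurable π) (n : ℕ) :
    Measurable fun ω : Fin n → Ω => π ∘ ω :=
  measurable_pi_lambda _ fun i => hπ.comp (measurable_pi_apply i)

lemma measurable_pj {π : Ω → D} (hπ : Measurable π) (n : ℕ) : Measurable (pj π n) :=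
  ((measurable_cmp hπ n).comp measurable_fst).prodMk measurable_snd

lemma measurable_jn (n : ℕ) : Measurable (jn (Ω := Ω) n) := by unfold jn; fun_prop

lemma measurable_gl {A R : ∀ n, (Fin n → Ω) → Mx n} {n : ℕ} (hA : Measurable (A n))
    (hR : Measurable (R n)) : Measurable (gl A R n) := by unfold gl; fun_prop

lemma mp_zip (P : Measure Ω) (ν : Measure ℝ) [IsProbabilityMeasure P] [IsProbabilityMeasure ν]
    (n : ℕ) : MeasurePreserving (fun p : ((Fin n → Ω) × (Fin n → ℝ)) × Mx n =>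
      ((fun i => (p.1.1 i, p.1.2 i), p.2) : Sp (Ω × ℝ) n))
      (((pw P n).prod (pw ν n)).prod (GOE n)) (TL (P.prod ν) n) :=
  (measurePreserving_arrowProdEquivProdArrow Ω ℝ (Fin n) (fun _ => P) fun _ => ν).symm.prod
    (MeasurePreserving.id _)

lemma mp_jn (P : Measure Ω) (ν : Measure ℝ) [IsProbabilityMeasure P] [IsProbabilityMeasure ν]
    (n : ℕ) : MeasurePreserving (jn n) ((TL P n).prod (pw ν n)) (TL (P.prod ν) n) :=
  ⟨measurable_jn n, by
    rw [prod_swap23_map _ _ _ (measurable_jn n)]; exact (mp_zip P ν n).map_eq⟩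

/-- `Λ` is the law of the sites and of a matrix with revealed part `A`, unrevealed space `R` -/
structure Mod (P : Measure Ω) (Λ : ∀ n, Measure (Sp Ω n)) (A R : ∀ n, (Fin n → Ω) → Mx n) :
    Prop where
  mA : ∀ n, Measurable (A n)
  mR : ∀ n, Measurable (R n)
  pr : ∀ n ω, IsProj (R n ω)
  fA : FR P A
  fR : FR P R
  law : ∀ n, MeasurePreserving (gl A R n) (TL P n) (Λ n)

variable {P : Measure Ω} [IsProbabilityMeasure P] {Λ : ∀ n, Measure (Sp Ω n)}
  {A R : ∀ n, (Fin n → Ω) → Mx n}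

omit [IsProbabilityMeasure P] in
theorem Mod.fst (h : Mod P Λ A R) (n : ℕ) : MeasurePreserving (fun z => z.1) (Λ n) (pw P n) :=
  mp_of_comp (h.law n) measurable_fst measurePreserving_fst

theorem Mod.prob (h : Mod P Λ A R) (n : ℕ) : IsProbabilityMeasure (Λ n) := by
  rw [← (h.law n).map_eq]
  exact Measure.isProbabilityMeasure_map (h.law n).measurable.aemeasurable

/-- fresh site variables -/
theorem Mod.fresh (h : Mod P Λ A R) (ν : Measure ℝ) [IsProbabilityMeasure ν] :
    ∃ Λ' : ∀ n, Measure (Sp (Ω × ℝ) n),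
      Mod (P.prod ν) Λ' (fun n ω => A n (Prod.fst ∘ ω)) (fun n ω => R n (Prod.fst ∘ ω)) ∧
      ∀ n, MeasurePreserving (jn n) ((Λ n).prod (pw ν n)) (Λ' n) := by
  have hj : ∀ n, MeasurePreserving (jn n) ((Λ n).prod (pw ν n))
      (((Λ n).prod (pw ν n)).map (jn n)) := fun n => ⟨measurable_jn n, rfl⟩
  have mA := fun n => (h.mA n).comp (measurable_cmp (measurable_fst : Measurable (Prod.fst : Ω × ℝ → Ω)) n)
  have mR := fun n => (h.mR n).comp (measurable_cmp (measurable_fst : Measurable (Prod.fst : Ω × ℝ → Ω)) n)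
  refine ⟨_, ⟨mA, mR, fun _ _ => h.pr _ _, h.fA.ext measurePreserving_fst,
    h.fR.ext measurePreserving_fst, fun n => ?_⟩, hj⟩
  have := h.prob n
  exact mp_of_comp (mp_jn P ν n) (measurable_gl (mA n) (mR n))
    ((hj n).comp ((h.law n).prod (MeasurePreserving.id _)))

lemma rk2_scale {n : ℕ} (w e : V n) : (1 / √(n : ℝ)) • rk2 w e =
    (n : ℝ)⁻¹ • vecMulVec w (√(n : ℝ) • e) + (n : ℝ)⁻¹ • vecMulVec (√(n : ℝ) • e) w +
      (-1 * ip (√(n : ℝ) • e) w) • (n : ℝ)⁻¹ • vecMulVec (√(n : ℝ) • e) (√(n : ℝ) • e) := by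
  ext i j
  have hn : (0 : ℝ) < n := Nat.cast_pos.2 i.pos
  have ht : 0 < √(n : ℝ) := Real.sqrt_pos.2 hn
  simp only [rk2, ip, smul_dotProduct, Matrix.add_apply, Matrix.sub_apply, Matrix.smul_apply,
    vecMulVec_apply, Pi.smul_apply, smul_eq_mul]
  generalize e ⬝ᵥ w = c
  rw [← Real.mul_self_sqrt hn.le, Real.sqrt_mul_self ht.le]
  field_simp
  ring

/-- one more query of an ideal vector -/
theorem Mod.query (h : Mod P Λ A R) {X : Ω → ℝ} (hX : Id P X) :
    ∃ (Ω' : Type) (_ : MeasurableSpace Ω') (P' : Measure Ω') (_ : IsProbabilityMeasure P')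
      (Λ' : ∀ n, Measure (Sp Ω' n)) (A' R' : ∀ n, (Fin n → Ω') → Mx n) (π : Ω' → Ω),
      Mod P' Λ' A' R' ∧ MeasurePreserving π P' P ∧
      (∀ n, MeasurePreserving (pj π n) (Λ' n) (Λ n)) ∧
      ∃ Y, Ap Λ' (fun _ z => z.1) P' (fun _ z => z.2 *ᵥ (X ∘ π ∘ z.1)) Y := by
  obtain ⟨U, hU⟩ := h.fR.app hX
  obtain ⟨T, hT⟩ := h.fA.app hX
  have hi : ∀ n, MeasurePreserving (fun ω : Fin n → Ω => ω) (pw P n) (pw P n) := fun _ =>
    MeasurePreserving.id _
  have hρ := hU.nn hi
  set ρ := √(∫ ω, U ω * U ω ∂P) with hρd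
  have mX := measurable_cmp hX.m
  by_cases h0 : ρ = 0
  · refine ⟨Ω, _, P, inferInstance, Λ, A, R, id, h, MeasurePreserving.id _,
      fun _ => MeasurePreserving.id _, T, ?_⟩
    refine Ap.of_comp h.law (fun n => measurable_snd.t157_mulVec ((mX n).comp measurable_fst))
      (fun _ => measurable_fst) ?_
    have hf : ∀ n, MeasurePreserving (fun z : Sp Ω n => z.1) (TL P n) (pw P n) := fun _ =>
      measurePreserving_fst
    refine (hT.comp hf (MeasurePreserving.id P) fun _ _ => rfl).near ?_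
    have h2 := (hρ.of_eq h0).comp hf
    have h1 := lim_mulVec (G := fun n (z : Sp Ω n) => z.2)
      (whp_opn.comp fun _ => measurePreserving_snd) h2
    refine h1.squeeze (whp_of_eventually (.of_forall fun n z => ?_))
    rw [sub_zero, abs_of_nonneg (nn_nonneg _)]
    refine le_of_eq_of_le ?_ (nn_proj_le (h.pr n z.1) _)
    simp only [gl, glue, Matrix.add_mulVec, Matrix.mulVec_mulVec, Matrix.mul_assoc, Function.id_comp,
      add_sub_cancel_left]
  let γ : Measure ℝ := gaussianReal 0 1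
  let P' : Measure (Ω × ℝ) := P.prod γ
  have hπ : MeasurePreserving Prod.fst P' P := measurePreserving_fst
  have hΞ : Id P' fun ω => ω.2 := ⟨measurable_snd,
    (memLp_id_gaussianReal' 4 (by simp)).comp_measurePreserving measurePreserving_snd⟩
  have hi' : ∀ n, MeasurePreserving (fun ω : Fin n → Ω × ℝ => ω) (pw P' n) (pw P' n) := fun _ =>
    MeasurePreserving.id _
  let A0 : ∀ n, (Fin n → Ω × ℝ) → Mx n := fun n ω => A n (Prod.fst ∘ ω)
  let R0 : ∀ n, (Fin n → Ω × ℝ) → Mx n := fun n ω => R n (Prod.fst ∘ ω)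
  let v : ∀ n, (Fin n → Ω × ℝ) → V n := fun n ω => X ∘ Prod.fst ∘ ω
  let ξ : ∀ n, (Fin n → Ω × ℝ) → V n := fun n ω => Prod.snd ∘ ω
  let r : ∀ n, (Fin n → Ω × ℝ) → V n := fun n ω =>
    resp (1 / √(n : ℝ)) (A0 n ω) (R0 n ω) (v n ω) (ξ n ω)
  let A' : ∀ n, (Fin n → Ω × ℝ) → Mx n := fun n ω => nextA (A0 n ω) (R0 n ω) (v n ω) (r n ω)
  let R' : ∀ n, (Fin n → Ω × ℝ) → Mx n := fun n ω => nextR (R0 n ω) (v n ω)
  have mf := measurable_cmp (measurable_fst : Measurable (Prod.fst : Ω × ℝ → Ω))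
  have mA0 : ∀ n, Measurable (A0 n) := fun n => (h.mA n).comp (mf n)
  have mR0 : ∀ n, Measurable (R0 n) := fun n => (h.mR n).comp (mf n)
  have mv : ∀ n, Measurable (v n) := fun n => (mX n).comp (mf n)
  have mξ : ∀ n, Measurable (ξ n) := measurable_cmp measurable_snd
  have mA' : ∀ n, Measurable (A' n) := fun n =>
    (mA0 n).t157_nextA (mR0 n) (mv n) (Measurable.t157_resp _ (mA0 n) (mR0 n) (mv n) (mξ n))
  have mR' : ∀ n, Measurable (R' n) := fun n => (mR0 n).t157_nextR (mv n)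
  have pr : ∀ n ω, IsProj (R0 n ω) := fun _ _ => h.pr _ _
  have hU' : Ap0 P' (fun n ω => R0 n ω *ᵥ v n ω) fun ω => U ω.1 :=
    hU.comp (mp_pw hπ) hπ fun _ _ => rfl
  have hT' : Ap0 P' (fun n ω => A0 n ω *ᵥ v n ω) fun ω => T ω.1 :=
    hT.comp (mp_pw hπ) hπ fun _ _ => rfl
  have hρ' : Lim (pw P') (fun n ω => nn (R0 n ω *ᵥ v n ω)) ρ := by
    have := hρ.comp (mp_pw hπ); exact this
  have he : Ap0 P' (fun n ω => √(n : ℝ) • dirv (R0 n ω) (v n ω)) fun ω => ρ⁻¹ * U ω.1 := by
    refine (hU'.smul hi' (hρ'.cont (continuousAt_inv₀ h0))).congr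
      (whp_of_eventually (.of_forall fun n ω => ?_))
    rw [dirv, unitv, smul_smul, nn, inv_div, div_eq_mul_inv]; rfl
  obtain ⟨Q, hQ⟩ := (h.fR.ext hπ).app hΞ
  obtain ⟨Z, hZ⟩ : ∃ Z, Ap0 P' (fun n ω => Cond.noise (R0 n ω) (v n ω) (ξ n ω)) Z := by
    refine ⟨_, (hQ.add (he.smul hi' ((Lim.const (√2 - 1)).mul (he.ip hi' (Ap.refl hΞ))))).congr
      (whp_of_eventually ?_)⟩
    filter_upwards [eventually_gt_atTop 0] with n hn ω
    have hn' : (0 : ℝ) < n := Nat.cast_pos.2 hn
    rw [noise_eq (pr n ω), smul_smul, ip, smul_dotProduct, smul_eq_mul]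
    congr 2
    have := Real.mul_self_sqrt hn'.le
    change _ * (_ * (_ ⬝ᵥ ξ n ω) / _) * _ = _
    field_simp
    rw [sq, this]; ring
  have hr : Ap0 P' r fun ω => T ω.1 + ρ * Z ω := by
    refine (hT'.add (hZ.smul hi' hρ')).congr (whp_of_eventually (.of_forall fun n ω => ?_))
    simp only [r, resp, nn, div_eq_inv_mul, mul_one]; rfl
  have fA' : FR P' A' := by
    refine ((h.fA.ext hπ).add (((FR.rk1 hZ he).add (FR.rk1 he hZ)).add ((FR.rk1 he he).smul
      ((Lim.const (-1)).mul (he.ip hi' hZ))))).congr fun n ω => ?_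
    simp only [A', r, nextA_resp, rk2_scale]; rfl
  have fR' : FR P' R' := by
    refine ((h.fR.ext hπ).add ((FR.rk1 he he).smul (Lim.const (-1)))).congr fun n ω => ?_
    ext i j
    have hn : (0 : ℝ) < n := Nat.cast_pos.2 i.pos
    have := Real.mul_self_sqrt hn.le
    simp only [R', nextR, Matrix.add_apply, Matrix.sub_apply, Matrix.smul_apply, vecMulVec_apply,
      Pi.smul_apply, smul_eq_mul, R0]
    field_simp
    rw [sq, this]; ring
  have hl : ∀ n, MeasurePreserving (gl A' R' n) (TL P' n) ((TL P' n).map (gl A' R' n)) := fun n =>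
    ⟨measurable_gl (mA' n) (mR' n), rfl⟩
  refine ⟨Ω × ℝ, _, P', inferInstance, _, A', R', Prod.fst,
    ⟨mA', mR', fun n ω => (pr n ω).nextR _, fA', fR', hl⟩, hπ, fun n => ?_, _,
    Ap.of_comp hl (fun n => measurable_snd.t157_mulVec ((mv n).comp measurable_fst))
      (fun _ => measurable_fst) ((hr.comp (T := fun n (z : Sp (Ω × ℝ) n) => z.1)
        (fun _ => measurePreserving_fst) (MeasurePreserving.id P') fun _ _ => rfl).congr
          (whp_of_eventually (.of_forall fun n z => (glue_step_mulVec (pr n z.1) _ _ _ _ _).symm)))⟩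
  have m1 := measurable_pj (measurable_fst : Measurable (Prod.fst : Ω × ℝ → Ω)) n
  refine mp_of_comp (hl n) m1 (mp_of_comp (mp_zip P γ n) (m1.comp (hl n).measurable)
    ⟨(m1.comp (hl n).measurable).comp (mp_zip P γ n).measurable, ?_⟩)
  have hA := h.mA n; have hR := h.mR n; have hv := hX.m
  have e2 : ((pw P n).prod (GOE n)).map (fun p => (p.1, glue (A n p.1) (R n p.1) p.2)) =
      ((pw P n).prod ((gv (Fin n)).prod (GOE n))).map fun p => (p.1,
        glue (nextA (A n p.1) (R n p.1) (X ∘ p.1)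
          (resp (1 / √(n : ℝ)) (A n p.1) (R n p.1) (X ∘ p.1) p.2.1))
          (nextR (R n p.1) (X ∘ p.1)) p.2.2) := by
    refine prod_map_congr _ _ _ (by fun_prop) (by fun_prop) fun x => ?_
    have := congrArg (Measure.map fun M : Mx n => (x, M))
      (goe_step (h.pr n x) (A n x) (X ∘ x) (1 / √(n : ℝ)))
    rw [Measure.map_map (by fun_prop) (by fun_prop),
      Measure.map_map (by fun_prop) (by fun_prop)] at this
    exact this
  rw [prod_assoc_map _ _ _ (by fun_prop)] at e2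
  exact e2.symm.trans (h.law n).map_eq

end model

/-- the invariant -/
def Good (D : Type) [MeasurableSpace D] (μ : Measure D) (l : Set (RV D)) : Prop :=
  IsProbabilityMeasure μ ∧ (∀ x ∈ l, ∀ n, Measurable (x n)) ∧
    ∃ (Ω : Type) (_ : MeasurableSpace Ω) (P : Measure Ω) (_ : IsProbabilityMeasure P)
      (Λ : ∀ n, Measure (Sp Ω n)) (A R : ∀ n, (Fin n → Ω) → Mx n) (π : Ω → D),
      Mod P Λ A R ∧ Measurable π ∧ (∀ n, MeasurePreserving (pj π n) (Λ n) (TL μ n)) ∧
      ∀ x ∈ l, ∃ X, Ap Λ (fun _ z => z.1) P (fun n z => x n (pj π n z)) X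

theorem gfom : Gfom Good where
  init := by
    refine ⟨inferInstance, fun x hx n => by rw [hx]; exact measurable_const, Unit, _,
      Measure.dirac (), inferInstance, TL (Measure.dirac ()), fun _ _ => 0, fun _ _ => 1, id,
      ⟨fun _ => measurable_const, fun _ => measurable_const, fun _ _ => IsProj.one, FR.zero, FR.one,
        fun n => ?_⟩, measurable_id, fun _ => MeasurePreserving.id _, fun x hx => ?_⟩
    · have : gl (Ω := Unit) (fun _ _ => 0) (fun _ _ => 1) n = id := by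
        funext z; simp [gl, glue]
      rw [this]; exact MeasurePreserving.id _
    · rw [hx]; exact ⟨fun _ => 1, Ap.refl (Id.const 1)⟩
  prob h := h.1
  meas h := h.2.1
  mul := by
    rintro D _ μ l ⟨hμ, hm, Ω, _, P, _, Λ, A, R, π, hM, hπ, hl, hx⟩ x hxl
    obtain ⟨X, hX⟩ := hx x hxl
    obtain ⟨Ω', _, P', _, Λ', A', R', π', hM', hπ', hl', Y, hY⟩ := hM.query hX.id
    have hl2 : ∀ n, MeasurePreserving (pj (π ∘ π') n) (Λ' n) (TL μ n) := fun n =>
      (hl n).comp (hl' n)
    refine ⟨hμ, ?_, Ω', _, P', inferInstance, Λ', A', R', π ∘ π', hM', hπ.comp hπ'.measurable, hl2,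
      ?_⟩
    · rintro y (rfl | hy) n
      · exact measurable_snd.t157_mulVec (hm x hxl n)
      · exact hm y hy n
    · rintro y (rfl | hy)
      · refine ⟨Y, hY.near ?_⟩
        have h1 := lim_mulVec (G := fun n (z : Sp Ω' n) => z.2)
          (whp_opn.comp fun n => measurePreserving_snd.comp (hl2 n))
          (hX.comp hl' hπ' (σ' := fun _ z => z.1) fun _ _ => rfl).cl
        exact h1.congr (whp_of_eventually (.of_forall fun n z => by
          rw [Matrix.mulVec_sub]; rfl))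
      · obtain ⟨Y', hY'⟩ := hx y hy
        exact ⟨_, hY'.comp hl' hπ' fun _ _ => rfl⟩
  lin := by
    rintro D _ μ l ⟨hμ, hm, Ω, _, P, _, Λ, A, R, π, hM, hπ, hl, hx⟩ x hxl y hyl w hwl
    refine ⟨hμ, ?_, Ω, _, P, inferInstance, Λ, A, R, π, hM, hπ, hl, ?_⟩
    · rintro y' (rfl | hy) n
      · have h1 := hm x hxl n; have h2 := hm y hyl n; have h3 := hm w hwl n
        unfold avg; fun_prop
      · exact hm y' hy n
    · rintro y' (rfl | hy)
      · obtain ⟨X, hX⟩ := hx x hxl
        obtain ⟨Y, hY⟩ := hx y hyl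
        obtain ⟨W, hW⟩ := hx w hwl
        refine ⟨_, (hX.add (hW.smul hM.fst (hY.ip hM.fst (Ap.refl (Id.const 1))))).congr
          (whp_of_eventually (.of_forall fun n z => ?_))⟩
        simp [ip, avg, dotProduct]
      · exact hx y' hy
  noise := by
    rintro D _ μ l ⟨hμ, hm, Ω, _, P, _, Λ, A, R, π, hM, hπ, hl, hx⟩ s hsl b hbl d
    obtain ⟨Λ', hM', hj⟩ := hM.fresh unif
    have hp := hM.prob
    have hml : ∀ x ∈ l, ∀ n, Measurable (lift x n) := fun x hxl n =>
      (hm x hxl n).comp (measurable_pj (measurable_fst : Measurable (Prod.fst : D × ℝ → D)) n)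
    have hl' : ∀ n, MeasurePreserving (pj Prod.fst n) (Λ' n) (Λ n) := fun n =>
      mp_of_comp (hj n) (measurable_pj measurable_fst n) measurePreserving_fst
    have hπ' : Measurable (Prod.map π (id : ℝ → ℝ)) := hπ.prodMap measurable_id
    have hx' : ∀ x X, Ap Λ (fun _ z => z.1) P (fun n z => x n (pj π n z)) X →
        Ap Λ' (fun _ z => z.1) (P.prod unif) (fun n z => lift x n (pj (Prod.map π id) n z))
          fun ω => X ω.1 := fun x X hX => hX.comp hl' measurePreserving_fst fun _ _ => rfl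
    refine ⟨inferInstance, ?_, Ω × ℝ, _, P.prod unif, inferInstance, Λ', _, _, Prod.map π id, hM',
      hπ', fun n => mp_of_comp (hj n) (measurable_pj hπ' n)
        ((mp_jn μ unif n).comp ((hl n).prod (MeasurePreserving.id _))), ?_⟩
    · rintro y (rfl | ⟨x, hxl, rfl⟩) n
      · exact measurable_pi_lambda _ fun i => measurable_ph d
          ((measurable_pi_apply i).comp (hml s hsl n)) ((measurable_pi_apply i).comp (hml b hbl n))
          (by fun_prop)
      · exact hml x hxl n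
    · rintro y (rfl | ⟨x, hxl, rfl⟩)
      · obtain ⟨S, hS⟩ := hx s hsl
        obtain ⟨B, hB⟩ := hx b hbl
        exact ⟨_, Ap.ph hM'.fst (hx' s S hS) (hx' b B hB) d⟩
      · obtain ⟨X, hX⟩ := hx x hxl
        exact ⟨_, hx' x X hX⟩
  ip := by
    rintro D _ μ l ⟨hμ, hm, Ω, _, P, _, Λ, A, R, π, hM, hπ, hl, hx⟩ x hxl y hyl
    obtain ⟨X, hX⟩ := hx x hxl
    obtain ⟨Y, hY⟩ := hx y hyl
    have h := Lim.of_comp (a := fun n z => ip (x n z) (y n z)) hl
      (fun n => measurable_ip (hm x hxl n) (hm y hyl n)) (hX.ip hM.fst hY)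
    refine ⟨∫ ω, X ω * Y ω ∂P, fun δ hδ => (h δ hδ).mono ?_⟩
    filter_upwards [eventually_gt_atTop 0] with n hn z hz
    have hn' : (0 : ℝ) < n := Nat.cast_pos.2 hn
    rw [ip, div_sub' hn'.ne', abs_div, abs_of_pos hn', div_le_iff₀ hn', mul_comm (n : ℝ)] at hz
    exact hz

end Gf

theorem gfomStmt : GfomStmt := ⟨Gf.Good, Gf.gfom⟩

end Crest.Agent.T157.Da
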