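import Crest.Agent.T157.DaDef_82
import Crest.Agent.T157.TapPl_37

/-!
# Row 157, part C (helper44): `Da.HaarStmt` and `Da.GaugeStmt`
-/

set_option autoImplicit false

noncomputable section

namespace Crest.Agent.T157.Da

open MeasureTheory ProbabilityTheory Matrix Filter Set
open Crest.Agent.T157.E Crest.Agent.T157.Eig Crest.Agent.T157.Cond
open Crest.Agent.T157.Tap (V Mx GOE plW avg)
open Crest.Agent.T157.Rec (Am Psv)
open Crest.Agent.T157.Chain22 (sg)
open Crest.Agent.T157.Pl (one cmul gauge IsSign)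
open Crest.Agent.R164.Haar (Mat RHaar)

namespace Haar44

variable {n : ℕ}

lemma Psv_gauge (z : Cube n) (w : Cube n → ℝ) (T : ℝ) (y : Cube n) (i : Fin n) :
    Psv (fun x => w (cmul z x)) T y i = sv z i * Psv w T (cmul z y) i := by
  simp only [Psv, sg, Pl.hbCt_gauge]
  rw [Finset.mul_sum, ← Equiv.sum_comp (gauge z) fun y' =>
    sv z i * (hbCt w T (cmul z y) y' * sv y' i)]
  refine Finset.sum_congr rfl fun x _ => ?_
  simp only [Pl.gauge_apply, Pl.sv_cmul, Pi.mul_apply]
  have := TapPl.sign_mul_self (Pl.isSign_sv z) i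
  linear_combination (-(hbCt w T (cmul z y) (cmul z x) * sv x i)) * this

lemma Am_gauge (z : Cube n) (w : Cube n → ℝ) (T : ℝ) (x : Cube n) :
    Am (fun x => w (cmul z x)) T x = TapPl.cj (sv z) (Am w T (cmul z x)) := by
  ext i j
  have := Pl.cov_comp (gauge z) (hbCt w T (cmul z x)) (fun y => sv z i * Psv w T y i)
    fun y => sv z j * Psv w T y j
  rw [SL.cov_const_mul (hbCt w T (cmul z x)), SL.cov_comm (hbCt w T (cmul z x)),
    SL.cov_const_mul (hbCt w T (cmul z x)), SL.cov_comm (hbCt w T (cmul z x))] at this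
  have e : hbCt (fun x => w (cmul z x)) T x = fun y => hbCt w T (cmul z x) (gauge z y) :=
    funext fun y => Pl.hbCt_gauge z w T x y
  rw [TapPl.cj_apply]
  simp only [Am, covMat, Psv_gauge]
  rw [e]
  refine this.trans ?_
  ring

lemma tm_cj {σ : V n} (h : IsSign σ) (W : Mx n) : tm (TapPl.cj σ W) = TapPl.cj σ (tm W) := by
  rw [tm, tm, TapPl.cj_sub, TapPl.cj_smul, TapPl.cj_one h]

lemma cj_mulVec' {σ : V n} (h : IsSign σ) (M : Mx n) (u : V n) :
    TapPl.cj σ M *ᵥ u = σ * (M *ᵥ (σ * u)) := by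
  rw [← TapPl.cj_mulVec h, h.mul_self]

lemma DAev_cj {σ : V n} (h : IsSign σ) {W A : Mx n} {ε η a : ℝ} (hd : DAev W A ε η a) :
    DAev (TapPl.cj σ W) (TapPl.cj σ A) ε η a := fun u x hu hx => by
  rw [tm_cj h, cj_mulVec' h, TapPl.nrm_sign h] at hu hx
  have := hd (σ * u) (σ * x) (by rwa [TapPl.nrm_sign h]) (by rwa [TapPl.nrm_sign h])
  rw [TapPl.dot_sign h, TapPl.nrm_sign h, TapPl.nrm_sign h] at this
  rwa [cj_mulVec' h, ← TapPl.dot_sign h x, h.mul_self]

lemma meas_cj : Measurable fun p : (Mx n × V n) × Mat (Fin n) => (cj p.2 p.1.1, p.1.2) := by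
  have h : Measurable fun p : (Mx n × V n) × Mat (Fin n) => (Matrix.of p.2 : Mx n) :=
    measurable_mat_iff.2 fun i j => by
      simp only [Matrix.of_apply]; fun_prop
  exact ((h.t157_mul measurable_fst.fst).t157_mul h.t157_transpose).prodMk measurable_fst.snd

lemma mp_cjO {O : Mat (Fin n)} (hO : Matrix.of O ∈ Matrix.orthogonalGroup (Fin n) ℝ) :
    MeasurePreserving (fun z : Mx n × V n => (cj O z.1, z.2)) (PP n) (PP n) := by
  have h1 : MeasurePreserving (cj O) (GOE n) (GOE n) :=
    ⟨by unfold cj; fun_prop, goe_conj (1 / Real.sqrt n) (Matrix.of O)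
      ((Matrix.mem_orthogonalGroup_iff _ _).1 hO)⟩
  exact h1.prod (MeasurePreserving.id _)

lemma avg_eq (ν : Measure (Mat (Fin n))) [IsProbabilityMeasure ν] (hν : RHaar ν)
    {E : Set (Mx n × V n)} (hE : MeasurableSet E) :
    ∫⁻ z, ν {O | (cj O z.1, z.2) ∈ E} ∂PP n = PP n E := by
  have hS := hE.preimage (meas_cj (n := n))
  have h1 := Measure.prod_apply (μ := PP n) (ν := ν) hS
  have h2 := Measure.prod_apply_symm (μ := PP n) (ν := ν) hS
  refine (h1.symm.trans h2).trans ?_
  rw [lintegral_congr_ae (g := fun _ => PP n E), lintegral_const, measure_univ, mul_one]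
  filter_upwards [hν.mem] with O hO
  exact (mp_cjO hO).measure_preimage hE.nullMeasurableSet

lemma meas_sec (ν : Measure (Mat (Fin n))) [IsProbabilityMeasure ν]
    {E : Set (Mx n × V n)} (hE : MeasurableSet E) :
    Measurable fun z : Mx n × V n => ν {O | (cj O z.1, z.2) ∈ E} :=
  measurable_measure_prodMk_left (hE.preimage (meas_cj (n := n)))

lemma avg_real (ν : Measure (Mat (Fin n))) [IsProbabilityMeasure ν] (hν : RHaar ν)
    {E : Set (Mx n × V n)} (hE : MeasurableSet E) :
    ∫ z, ν.real {O | (cj O z.1, z.2) ∈ E} ∂PP n = (PP n).real E := by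
  simp only [Measure.real]
  rw [integral_toReal (meas_sec ν hE).aemeasurable (.of_forall fun _ => measure_lt_top _ _),
    avg_eq ν hν hE]

lemma int_sec (ν : Measure (Mat (Fin n))) [IsProbabilityMeasure ν]
    {E : Set (Mx n × V n)} (hE : MeasurableSet E) :
    Integrable (fun z : Mx n × V n => ν.real {O | (cj O z.1, z.2) ∈ E}) (PP n) :=
  (integrable_const 1).mono' (meas_sec ν hE).ennreal_toReal.aestronglyMeasurable
    (.of_forall fun _ => by
      rw [Real.norm_of_nonneg measureReal_nonneg]; exact measureReal_le_one)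

end Haar44

open Haar44

theorem haarStmt : HaarStmt := by
  intro n ν _ hν E E' Gd a b hE hE' ha hb h
  set N := toMeasurable (PP n) {z | ¬ Gd z} with hN
  have hNm : MeasurableSet N := measurableSet_toMeasurable _ _
  have e : (PP n).real {z | ¬ Gd z} = ∫ z, N.indicator (fun _ => (1 : ℝ)) z ∂PP n := by
    rw [integral_indicator_const _ hNm, smul_eq_mul, mul_one, Measure.real, Measure.real,
      measure_toMeasurable]
  have i1 : Integrable (N.indicator fun _ => (1 : ℝ)) (PP n) := (integrable_const 1).indicator hNm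
  have i2 : Integrable (fun z => N.indicator (fun _ => (1 : ℝ)) z + a) (PP n) :=
    i1.add (integrable_const a)
  have i3 := (int_sec ν hE').const_mul b
  have key := integral_mono (int_sec ν hE) (i2.add i3) fun z => by
    by_cases hz : z ∈ N
    · have h1 : ν.real {O | (cj O z.1, z.2) ∈ E} ≤ 1 := measureReal_le_one
      have h2 : 0 ≤ b * ν.real {O | (cj O z.1, z.2) ∈ E'} := mul_nonneg hb measureReal_nonneg
      simp only [Pi.add_apply, indicator_of_mem hz]
      linarith
    · have := h z (by_contra fun hg => hz (subset_toMeasurable _ _ hg))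
      simp only [Pi.add_apply, indicator_of_notMem hz]
      linarith
  rw [integral_add' i2 i3, integral_add i1 (integrable_const a), integral_const_mul,
    avg_real ν hν hE, avg_real ν hν hE', ← e, integral_const, probReal_univ, one_smul] at key
  exact key

theorem gaugeStmt : GaugeStmt := by
  intro n T r ε η a σ
  have hσ := Pl.isSign_sv σ
  have mp := (TapPl.mp_cj hσ).prod (Pl.mp_sign_law false hσ)
  let e : Mx n × V n ≃ᵐ Mx n × V n := MeasurableEquiv.ofInvolutive
    (Prod.map (TapPl.cj (sv σ)) fun g => sv σ * g)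
    (fun z => Prod.ext (TapPl.cj_cj hσ z.1) (hσ.mul_self z.2)) mp.measurable
  have mp' : MeasurePreserving e (PP n) (PP n) := mp
  rw [← mp'.measure_preimage_equiv]
  refine measure_mono fun z hz hd => hz ?_
  have h1 : plW 1 (e z).1 (sv σ) = TapPl.cj (sv σ) (plW 1 z.1 1) := by
    rw [← TapPl.plW_cj, mul_one]; rfl
  have h2 : r • sv σ + √r • (e z).2 = sv σ * (r • (1 : V n) + √r • z.2) := by
    rw [mul_add, mul_smul_comm, mul_smul_comm, mul_one]; rfl
  rw [h1, h2]
  have h3 := Pl.ising_gauge σ (plW 1 z.1 1) (r • (1 : V n) + √r • z.2)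
  rw [show ising (TapPl.cj (sv σ) (plW 1 z.1 1)) (sv σ * (r • (1 : V n) + √r • z.2)) = _ from h3,
    Am_gauge, Pl.cmul_self]
  exact DAev_cj hσ hd

end Crest.Agent.T157.Da

end
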