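import Crest.Agent.T157.DaFe_44

/-!
# Row 157, part C (helper44): `Da.lipGlue`, `Da.detGlue`
-/

set_option autoImplicit false

noncomputable section

namespace Crest.Agent.T157.Da

open MeasureTheory Matrix Finset Filter Topology
open Crest.Agent.T157.E Crest.Agent.T157.Eig
open Crest.Agent.T157.Tap (V Mx plW)
open Crest.Agent.T157.Conc (fro fro_nonneg fro_transpose)

namespace Lip44

variable {n : ℕ}

theorem fro_l {A : Mx n} {a : ℝ} (h : opn A ≤ a) (B : Mx n) : fro (A * B) ≤ a ^ 2 * fro B := by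
  have h1 := pow_le_pow_left₀ (Real.sqrt_nonneg _) ((Fe44.fro_mul_l A B).trans
    (mul_le_mul_of_nonneg_right h (Real.sqrt_nonneg _))) 2
  rwa [mul_pow, Real.sq_sqrt (fro_nonneg _), Real.sq_sqrt (fro_nonneg _)] at h1

theorem fro_r (A : Mx n) {B : Mx n} {b : ℝ} (h : opn B ≤ b) : fro (A * B) ≤ b ^ 2 * fro A := by
  rw [← fro_transpose, transpose_mul, ← fro_transpose A]
  exact fro_l (by rwa [opn_transpose]) _

theorem fro_le_opn {A : Mx n} {a : ℝ} (h : opn A ≤ a) : fro A ≤ a ^ 2 * n := by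
  have h1 := fro_l h (1 : Mx n)
  have h2 : fro (1 : Mx n) = n := by simp [fro, one_apply]
  rwa [Matrix.mul_one, h2] at h1

theorem fro_add3 (A B D : Mx n) : fro (A + B + D) ≤ 3 * (fro A + fro B + fro D) := by
  simp only [fro, ← sum_add_distrib, mul_sum, Matrix.add_apply]
  refine sum_le_sum fun i _ => sum_le_sum fun j _ => ?_
  nlinarith [sq_nonneg (A i j - B i j), sq_nonneg (A i j - D i j), sq_nonneg (B i j - D i j)]

theorem tr_HSH {H S : Mx n} (hS : S.PosSemidef) :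
    (H * S * H).trace ≤ opn H ^ 2 * S.trace := by
  have h := hS.1
  rw [Matrix.mul_assoc, trace_mul_comm, Matrix.mul_assoc, trace_eq_sum_quad h, trace_eq h, mul_sum]
  refine sum_le_sum fun k hk => ?_
  have hk' := mem_range.1 hk
  have h0 : 0 ≤ lam S k := by
    rw [← quad_vec h hk']
    simpa using hS.dotProduct_mulVec_nonneg (Eig.vec S k)
  rw [← mulVec_mulVec, vec_dot_mulVec h, mul_comm]
  refine mul_le_mul_of_nonneg_right ?_ h0
  have h1 := (le_abs_self _).trans (abs_quad_le (H * H) (Eig.vec S k))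
  rw [vec_dot_self h hk', mul_one] at h1
  exact h1.trans ((opn_mul_le _ _).trans_eq (sq _).symm)

theorem opn_X {A : Mx n} {a C : ℝ} (hA : opn A ≤ C) (ha : |a| ≤ C) :
    opn (A - a • (1 : Mx n)) ≤ 2 * C := by
  refine (opn_sub_le _ _).trans ?_
  rw [opn_smul]
  linarith [mul_le_of_le_one_right (abs_nonneg a) (opn_one_le (ι := Fin n))]

theorem X_symm {A : Mx n} (hA : Aᵀ = A) (a : ℝ) : (A - a • (1 : Mx n))ᵀ = A - a • (1 : Mx n) := by
  rw [transpose_sub, transpose_smul, transpose_one, hA]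

theorem Bm_psd (F : FeApi) {A G : Mx n} (hA : Aᵀ = A) (hG : Gᵀ = G) {η : ℝ} (hη : 0 < η) (a : ℝ) :
    (Bm η a A G).PosSemidef := by
  have h := (F.psd hG hη).conjTranspose_mul_mul_same (A - a • (1 : Mx n))
  rwa [conjTranspose_eq_transpose_of_trivial, X_symm hA] at h

theorem opn_Bm (F : FeApi) {A G : Mx n} (hG : Gᵀ = G) {η a C : ℝ} (hη : 0 < η) (hA : opn A ≤ C)
    (ha : |a| ≤ C) : opn (Bm η a A G) ≤ 4 * C ^ 2 := by
  have hX := opn_X hA ha
  have hC : 0 ≤ C := (abs_nonneg a).trans ha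
  refine (opn_mul_le _ _).trans ((mul_le_mul ((opn_mul_le _ _).trans (mul_le_mul hX (F.le_one hG hη)
    (opn_nonneg _) (by positivity))) hX (opn_nonneg _) (by positivity)).trans_eq (by ring))

theorem ev_small {c κ : ℝ} (hc : 0 < c) (hκ : 0 < κ) : ∀ᶠ n : ℕ in atTop, (n : ℝ) ^ (-c) ≤ κ :=
  ((tendsto_rpow_neg_atTop hc).comp tendsto_natCast_atTop_atTop).eventually (ge_mem_nhds hκ)

theorem tm_plW (G : Mx n) (u : V n) :
    tm G *ᵥ u = tm (plW 1 G 1) *ᵥ u + ((u ⬝ᵥ 1) / n) • (1 : V n) := by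
  have e : tm G = tm (plW 1 G 1) + (1 / n : ℝ) • vecMulVec (1 : V n) 1 := by
    rw [tm, tm, plW]; abel
  rw [e, add_mulVec, smul_mulVec]
  congr 1
  funext i
  simp [mulVec, dotProduct, div_eq_inv_mul]

theorem plW_symm {G : Mx n} (hG : Gᵀ = G) : (plW 1 G 1)ᵀ = plW 1 G 1 := by
  rw [plW, transpose_add, transpose_smul, transpose_vecMulVec, hG]

end Lip44

open Lip44

theorem lipGlue : LipGlue := by
  intro F C hC η hη
  obtain ⟨C', hC'⟩ : ∃ C', C' = 1 + C * (C + 1) + 4 * C ^ 2 +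
    3 * (8 * C ^ 2 * (C * (C + 1)) + 16 * C ^ 4 / η ^ 2) := ⟨_, rfl⟩
  have p1 : 0 ≤ C * (C + 1) := by positivity
  have p2 : 0 ≤ 8 * C ^ 2 * (C * (C + 1)) + 16 * C ^ 4 / η ^ 2 := by positivity
  have p3 : 0 ≤ C ^ 2 := sq_nonneg C
  refine ⟨C', by linarith, fun n A S h => ?_⟩
  have hq : ∀ z z' : Mx n × V n, 0 ≤ n * opn (z'.1 - z.1) ^ 2 + (z'.2 - z.2) ⬝ᵥ (z'.2 - z.2) :=
    fun z z' => add_nonneg (by positivity) (dot_self_nonneg _)
  have hA : ∀ z z', Ball z.1 → Ball z'.1 → fro (A z' - A z) ≤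
      C * (C + 1) * (n * opn (z'.1 - z.1) ^ 2 + (z'.2 - z.2) ⬝ᵥ (z'.2 - z.2)) := fun z z' b b' => by
    refine (h.lipA z z' b b').trans ?_
    rw [mul_assoc]
    refine mul_le_mul_of_nonneg_left ?_ hC.le
    have h1 := (tr_HSH (H := z'.1 - z.1) (h.psdS z b)).trans
      (mul_le_mul_of_nonneg_left (h.tr z b) (sq_nonneg _))
    have h2 := mul_nonneg hC.le (dot_self_nonneg (z'.2 - z.2))
    have h3 : 0 ≤ n * opn (z'.1 - z.1) ^ 2 := by positivity
    unfold cost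
    linarith
  refine ⟨⟨h.mA, h.psdA, fun z b => (h.bd z b).trans (by linarith), fun z z' b b' =>
    (hA z z' b b').trans (mul_le_mul_of_nonneg_right (by linarith) (hq z z'))⟩,
    ⟨measurable_const, fun _ _ => PosSemidef.one, fun _ _ => opn_one_le.trans (by linarith),
      fun z z' _ _ => ?_⟩, fun a ha => ⟨?_, fun z b => ?_, fun z b => ?_, fun z z' b b' => ?_⟩⟩
  · rw [sub_self]
    simp only [fro, Matrix.zero_apply, ne_eq, OfNat.ofNat_ne_zero, not_false_eq_true, zero_pow,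
      sum_const_zero]
    exact mul_nonneg (by linarith) (hq z z')
  · have h1 : Measurable fun z => A z - a • (1 : Mx n) := h.mA.t157_sub measurable_const
    have h2 : Measurable fun z : Mx n × V n => fE η z.1 := (F.meas n η).comp measurable_fst
    exact (h1.t157_mul h2).t157_mul h1
  · exact Bm_psd F (herm_iff.1 (h.psdA z b).1) b.1 hη a
  · exact (opn_Bm F b.1 hη (h.bd z b) ha).trans (by linarith)
  · have hX := opn_X (h.bd z b) ha
    have hX' := opn_X (h.bd z' b') ha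
    have e : Bm η a (A z') z'.1 - Bm η a (A z) z.1 =
        (A z' - A z) * fE η z'.1 * (A z' - a • (1 : Mx n)) +
        (A z - a • (1 : Mx n)) * (fE η z'.1 - fE η z.1) * (A z' - a • (1 : Mx n)) +
        (A z - a • (1 : Mx n)) * (fE η z.1 * (A z' - A z)) := by
      simp only [Bm, Matrix.mul_sub, Matrix.sub_mul, Matrix.mul_assoc]; abel
    have h1 := (fro_r _ hX').trans (mul_le_mul_of_nonneg_left
      (fro_r (A z' - A z) (F.le_one b'.1 hη)) (sq_nonneg _))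
    have h2 := (fro_r _ hX').trans (mul_le_mul_of_nonneg_left ((fro_l hX _).trans
      (mul_le_mul_of_nonneg_left (fro_le_opn (F.lipop b.1 b'.1 hη)) (sq_nonneg _))) (sq_nonneg _))
    have h3 := (fro_l hX _).trans (mul_le_mul_of_nonneg_left
      (fro_l (F.le_one b.1 hη) (A z' - A z)) (sq_nonneg _))
    have h4 := mul_le_mul_of_nonneg_left (hA z z' b b') (by positivity : 0 ≤ 8 * C ^ 2)
    have h5 : (2 * C) ^ 2 * ((2 * C) ^ 2 * ((opn (z'.1 - z.1) / η) ^ 2 * n)) ≤ 16 * C ^ 4 / η ^ 2 *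
        (n * opn (z'.1 - z.1) ^ 2 + (z'.2 - z.2) ⬝ᵥ (z'.2 - z.2)) := by
      refine le_trans (le_of_eq (by ring)) (mul_le_mul_of_nonneg_left
        (le_add_of_nonneg_right (dot_self_nonneg _)) (by positivity))
    have h6 := mul_le_mul_of_nonneg_right (by linarith : 3 * (8 * C ^ 2 * (C * (C + 1)) +
      16 * C ^ 4 / η ^ 2) ≤ C') (hq z z')
    rw [e]
    refine (fro_add3 _ _ _).trans ?_
    linarith

theorem detGlue : DetGlue := by
  intro F C hC ε hε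
  refine ⟨ε ^ 2 / 8, by positivity, fun η0 hη0 => ?_⟩
  obtain ⟨η, hη, η1, η2, η3⟩ : ∃ η > (0 : ℝ), η ≤ 1 / 4 ∧ η ≤ η0 / 2 ∧ √η ≤ η0 ^ 2 / 64 :=
    ⟨min (1 / 4) (min (η0 / 2) ((η0 ^ 2 / 64) ^ 2)), by positivity, min_le_left _ _,
      (min_le_right _ _).trans (min_le_left _ _),
      Real.sqrt_le_iff.2 ⟨by positivity, (min_le_right _ _).trans (min_le_right _ _)⟩⟩
  refine ⟨η, hη, ?_⟩
  obtain ⟨δ, hδ, hδ1, hδ2⟩ : ∃ δ > (0 : ℝ), δ ≤ 1 ∧ δ ≤ ε / (6 * C) :=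
    ⟨min 1 (ε / (6 * C)), by positivity, min_le_left _ _, min_le_right _ _⟩
  filter_upwards [eventually_gt_atTop 0, ev_small (c := 13 / 20) (by norm_num) hη,
    ev_small (c := 57 / 100) (κ := 1 / 4) (by norm_num) (by norm_num),
    ev_small (c := 2 / 25) (κ := (δ ^ 2 / 256) ^ 2) (by norm_num) (by positivity)]
    with n hn e1 e2 e3 G A a hG hI hA hAC ha ht u x hu hx
  have hn' : (0 : ℝ) < n := by exact_mod_cast hn
  have s0 : 0 < es n := Real.rpow_pos_of_pos hn' _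
  have z0 : 0 < e0 n := Real.rpow_pos_of_pos hn' _
  have e4 : e0 n ≤ (δ ^ 2 / 256) ^ 2 * es n := by
    have : e0 n = (n : ℝ) ^ (-(2 / 25 : ℝ)) * es n := by
      rw [e0, es, ← Real.rpow_add hn']; norm_num
    rw [this]; exact mul_le_mul_of_nonneg_right e3 s0.le
  have d2 : δ ^ 2 ≤ δ := by nlinarith
  have d4 : (δ ^ 2 / 256) ^ 2 ≤ δ / 2 := by nlinarith [sq_nonneg δ]
  have e5 : e0 n ≤ δ / 2 * es n := e4.trans (mul_le_mul_of_nonneg_right d4 s0.le)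
  have e6 : e0 n ≤ es n := e5.trans (mul_le_of_le_one_left s0.le (by linarith))
  have e7 : √(e0 n) ≤ δ ^ 2 / 256 * √(es n) := by
    rw [← Real.sqrt_sq (by positivity : 0 ≤ δ ^ 2 / 256), ← Real.sqrt_mul (sq_nonneg _)]
    exact Real.sqrt_le_sqrt e4
  have hW := plW_symm hG.1
  have u0 := dot_self_nonneg u
  have x0 := dot_self_nonneg x
  have a1 : (u ⬝ᵥ 1) ^ 2 ≤ 2 * (u ⬝ᵥ u) * (8 * (n * √(e0 n))) := (F.cs hW z0 u 1 hu).trans
    (mul_le_mul_of_nonneg_left (hI _ ⟨le_rfl, e6.trans e2⟩).2 (by positivity))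
  have a2 : (x ⬝ᵥ 1) ^ 2 ≤ 2 * (x ⬝ᵥ x) * (8 * (n * √η)) := (F.cs hW hη x 1 hx).trans
    (mul_le_mul_of_nonneg_left (hI _ ⟨e1, η1⟩).2 (by positivity))
  have b1 : nrm (u - fE (es n) G *ᵥ u) ≤ δ * nrm u := by
    refine (F.rest hG.1 s0 u _ _ (tm_plW G u)).trans ?_
    have h1 : nrm (tm (plW 1 G 1) *ᵥ u) / es n ≤ δ / 2 * nrm u := by
      rw [div_le_iff₀ s0]
      refine hu.trans ?_
      linarith [mul_le_mul_of_nonneg_right e5 (nrm_nonneg u)]
    have h2 : √((((u ⬝ᵥ 1) / n) • (1 : V n)) ⬝ᵥ fE (es n) G *ᵥ (((u ⬝ᵥ 1) / n) • (1 : V n))) / es n ≤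
        δ / 2 * nrm u := by
      rw [div_le_iff₀ s0, Real.sqrt_le_left (by have := nrm_nonneg u; positivity), mulVec_smul,
        smul_dotProduct, dotProduct_smul, smul_eq_mul, smul_eq_mul, ← mul_assoc, ← sq, div_pow,
        mul_pow, mul_pow, nrm_sq]
      have h3 := (hI _ ⟨e6, e2⟩).1
      have h4 : (u ⬝ᵥ 1) ^ 2 / n ^ 2 ≤ 2 * (u ⬝ᵥ u) * (8 * (n * (δ ^ 2 / 256 * √(es n)))) / n ^ 2 :=
        div_le_div_of_nonneg_right (a1.trans (by gcongr)) (by positivity)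
      calc _ ≤ (u ⬝ᵥ 1) ^ 2 / n ^ 2 * (4 * Nb n (es n)) := mul_le_mul_of_nonneg_left h3 (by positivity)
        _ ≤ _ := mul_le_mul_of_nonneg_right h4 (by unfold Nb; positivity)
        _ = (δ / 2) ^ 2 * (u ⬝ᵥ u) * (es n * (√(es n) * √(es n))) := by
          unfold Nb; field_simp; ring
        _ = _ := by rw [Real.mul_self_sqrt s0.le, sq (es n)]
    linarith
  have b2 : nrm (tm G *ᵥ x) ≤ η0 * nrm x := by
    rw [tm_plW G x]
    refine (nrm_add_le _ _).trans ?_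
    have h1 : nrm (((x ⬝ᵥ 1) / n) • (1 : V n)) ≤ η0 / 2 * nrm x := by
      rw [nrm_le_iff (by have := nrm_nonneg x; positivity), smul_dotProduct, dotProduct_smul,
        smul_eq_mul, smul_eq_mul, ← mul_assoc, ← sq, mul_pow, nrm_sq, div_pow]
      have h2 : (1 : V n) ⬝ᵥ (1 : V n) = n := by simp [dotProduct]
      have h4 : (x ⬝ᵥ 1) ^ 2 / n ^ 2 ≤ 2 * (x ⬝ᵥ x) * (8 * (n * (η0 ^ 2 / 64))) / n ^ 2 :=
        div_le_div_of_nonneg_right (a2.trans (by gcongr)) (by positivity)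
      rw [h2]
      refine (mul_le_mul_of_nonneg_right h4 hn'.le).trans_eq ?_
      field_simp; ring
    linarith [mul_le_mul_of_nonneg_right η2 (nrm_nonneg x)]
  have hB := Bm_psd F hA hG.1 hη0 a
  have hBo := opn_Bm F hG.1 hη0 hAC ha
  have c1 := F.cs hG.1 hη0 x ((A - a • (1 : Mx n)) *ᵥ u) b2
  have c2 : ((A - a • (1 : Mx n)) *ᵥ u) ⬝ᵥ fE η0 G *ᵥ ((A - a • (1 : Mx n)) *ᵥ u) =
      u ⬝ᵥ Bm η0 a A G *ᵥ u := by
    rw [Bm, ← mulVec_mulVec, ← mulVec_mulVec, dot_symm (herm_iff.2 (X_symm hA a)) u, dotProduct_comm]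
  have c3 : (fE (es n) G *ᵥ u) ⬝ᵥ Bm η0 a A G *ᵥ (fE (es n) G *ᵥ u) ≤ ε ^ 2 / 8 * (u ⬝ᵥ u) := by
    have h1 := (le_abs_self _).trans (abs_quad_le (fE (es n) G * Bm η0 a A G * fE (es n) G) u)
    rw [← mulVec_mulVec, ← mulVec_mulVec, dot_symm (F.psd hG.1 s0).1 u, dotProduct_comm] at h1
    exact h1.trans (mul_le_mul_of_nonneg_right ht u0)
  obtain ⟨p, hp⟩ : ∃ p, p = fE (es n) G *ᵥ u := ⟨_, rfl⟩
  rw [← hp] at c3 b1
  obtain ⟨r, hr⟩ : ∃ r, r = u - p := ⟨_, rfl⟩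
  rw [← hr] at b1
  have c4 : r ⬝ᵥ Bm η0 a A G *ᵥ r ≤ 4 * C ^ 2 * (δ ^ 2 * (u ⬝ᵥ u)) := by
    have h1 := pow_le_pow_left₀ (nrm_nonneg _) b1 2
    rw [mul_pow, nrm_sq, nrm_sq] at h1
    exact (le_abs_self _).trans ((abs_quad_le _ r).trans
      (mul_le_mul hBo h1 (dot_self_nonneg r) (by positivity)))
  have c5 : u ⬝ᵥ Bm η0 a A G *ᵥ u ≤ 2 * (p ⬝ᵥ Bm η0 a A G *ᵥ p) + 2 * (r ⬝ᵥ Bm η0 a A G *ᵥ r) := by
    have h1 := hB.dotProduct_mulVec_nonneg (p - r)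
    have h2 : u = p + r := by rw [hr]; abel
    rw [star_trivial, mulVec_sub, sub_dotProduct, dotProduct_sub, dotProduct_sub] at h1
    rw [h2, mulVec_add, add_dotProduct, dotProduct_add, dotProduct_add]
    linarith
  have c6 : C ^ 2 * δ ^ 2 ≤ ε ^ 2 / 36 := by
    rw [le_div_iff₀ (by positivity)] at hδ2
    have := pow_le_pow_left₀ (by positivity) hδ2 2
    linarith
  have c7 : u ⬝ᵥ Bm η0 a A G *ᵥ u ≤ ε ^ 2 / 2 * (u ⬝ᵥ u) := by
    have h1 := mul_le_mul_of_nonneg_right c6 u0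
    have h2 : 0 ≤ ε ^ 2 * (u ⬝ᵥ u) := by positivity
    linarith
  rw [c2, sub_mulVec, smul_mulVec, one_mulVec, dotProduct_sub, dotProduct_smul, smul_eq_mul] at c1
  refine abs_le_of_sq_le_sq' ?_ (by have := nrm_nonneg x; have := nrm_nonneg u; positivity) |> abs_le.2
  rw [mul_pow, mul_pow, nrm_sq, nrm_sq]
  linarith [mul_le_mul_of_nonneg_left c7 (by positivity : 0 ≤ 2 * (x ⬝ᵥ x))]

theorem lipStmt : LipStmt := lipGlue feApi
theorem detStmt : DetStmt := detGlue feApi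

end Crest.Agent.T157.Da

end
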