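import Crest.Agent.T157.DaRot_46

/-!
# Row 157, part C (helper46): `Da.meanGlue`
-/

set_option autoImplicit false

noncomputable section

namespace Crest.Agent.T157.Da

open MeasureTheory ProbabilityTheory Matrix Filter Set
open Crest.Agent.T157.E Crest.Agent.T157.Eig
open Crest.Agent.T157.Tap (V Mx)
open Crest.Agent.R164.Haar (Mat RHaar rmul)
open Rot46

namespace Mean46

variable {n : ℕ} {G M : Mx n} {C a η η0 η1 : ℝ}

lemma fl_le_one (η l : ℝ) : fl η l ≤ 1 :=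
  div_le_one_of_le₀ (by nlinarith [sq_nonneg (2 - l)]) (by positivity)

lemma trace_fE (hF : FeApi) (hG : Gᵀ = G) (hη : 0 < η) :
    (fE η G).trace = ∑ k ∈ Finset.range n, fl η (lam G k) := by
  have h := hF.trace hG hη 1
  rw [Matrix.mul_one] at h
  rw [h]
  refine Finset.sum_congr rfl fun k hk => ?_
  rw [one_mulVec, vec_dot_self (herm_iff.2 hG) (by simpa using hk), mul_one]

lemma cnt_le_trace (hF : FeApi) (hG : Gᵀ = G) (hη : 0 < η) (ht : opn G ≤ 2 + η) :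
    (cnt G (2 - η) : ℝ) ≤ 2 * (fE η G).trace := by
  have hH : G.IsHermitian := herm_iff.2 hG
  have hm : cnt G (2 - η) ≤ n := by simpa using cnt_le_card G (2 - η)
  have h := trace_le hF hG hη (M := 1) PosSemidef.one hm fun k hk => by
    have a1 := ((lt_cnt_iff hH).1 hk).2
    have a2 := (lam_le_opn hH k).trans ht
    rw [abs_le]; constructor <;> linarith
  rwa [Matrix.mul_one, Matrix.mul_one, Pm_iso hH hm, trace_one, Fintype.card_fin] at h

lemma opn_shift (hM : opn M ≤ C) (ha : |a| ≤ C) : opn (M - a • (1 : Mx n)) ≤ 2 * C := by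
  have h1 := opn_sub_le M (a • (1 : Mx n))
  rw [opn_smul] at h1
  nlinarith [opn_one_le (ι := Fin n), abs_nonneg a]

lemma shift_entry (u v : V n) : u ⬝ᵥ (M - a • (1 : Mx n)) *ᵥ v = u ⬝ᵥ M *ᵥ v - a * (u ⬝ᵥ v) := by
  rw [sub_mulVec, smul_mulVec, one_mulVec, dotProduct_sub, dotProduct_smul, smul_eq_mul]

lemma abs_diag_le (hG : G.IsHermitian) (hM : opn M ≤ C) {k : ℕ} (hk : k < n) :
    |vec G k ⬝ᵥ M *ᵥ vec G k| ≤ C := by
  have := abs_quad_le M (vec G k)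
  rw [vec_dot_self hG (by simpa using hk), mul_one] at this
  exact this.trans hM

/-- the tail of a weighted sum beyond the window -/
lemma tail_le (hG : G.IsHermitian) (hη : 0 < η) (η' : ℝ) {y : ℕ → ℝ} (hy : ∀ k, 0 ≤ y k) :
    ∑ k ∈ Finset.Ico (cnt G (2 - η)) n, fl η' (lam G k) * y k ≤
      (η' / η) ^ 2 * ∑ k ∈ Finset.range n, y k := by
  calc ∑ k ∈ Finset.Ico (cnt G (2 - η)) n, fl η' (lam G k) * y k
      ≤ ∑ k ∈ Finset.Ico (cnt G (2 - η)) n, (η' / η) ^ 2 * y k :=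
        Finset.sum_le_sum fun k hk => mul_le_mul_of_nonneg_right
          (fl_le hη ((cnt_le_iff hG (by simpa using (Finset.mem_Ico.1 hk).2)).1
            (Finset.mem_Ico.1 hk).1)) (hy k)
    _ ≤ ∑ k ∈ Finset.range n, (η' / η) ^ 2 * y k :=
        Finset.sum_le_sum_of_subset_of_nonneg
          (fun k hk => Finset.mem_range.2 (Finset.mem_Ico.1 hk).2)
          fun k _ _ => mul_nonneg (sq_nonneg _) (hy k)
    _ = _ := (Finset.mul_sum _ _ _).symm

/-- the diagonal entry against the centre -/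
lemma diag_le (hF : FeApi) (hG : Gᵀ = G) (hη : 0 < η) (hη0 : 0 < η0) (hM : opn M ≤ C)
    (hZ : 0 < (fE η0 G).trace) {k : ℕ} (hk : k < n) :
    (vec G k ⬝ᵥ M *ᵥ vec G k - a) ^ 2 ≤
      2 * ∑ l ∈ Finset.range (cnt G (2 - η)), fl η0 (lam G l) / (fE η0 G).trace *
        (vec G k ⬝ᵥ M *ᵥ vec G k - vec G l ⬝ᵥ M *ᵥ vec G l) ^ 2 +
      (2 * ((η0 / η) ^ 2 * (n * (2 * C) ^ 2) / (fE η0 G).trace) +
        2 * (dev η0 a M G / (fE η0 G).trace) ^ 2) := by
  have hH : G.IsHermitian := herm_iff.2 hG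
  have hm : cnt G (2 - η) ≤ n := by simpa using cnt_le_card G (2 - η)
  set Z := (fE η0 G).trace with hZd
  set x : ℕ → ℝ := fun l => vec G k ⬝ᵥ M *ᵥ vec G k - vec G l ⬝ᵥ M *ᵥ vec G l with hx
  have hZs : Z = ∑ l ∈ Finset.range n, fl η0 (lam G l) := trace_fE hF hG hη0
  have e1 : (vec G k ⬝ᵥ M *ᵥ vec G k - a) * Z =
      ∑ l ∈ Finset.range n, fl η0 (lam G l) * x l + dev η0 a M G := by
    rw [dev, hF.trace hG hη0, hZs, Finset.mul_sum, ← Finset.sum_add_distrib]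
    refine Finset.sum_congr rfl fun l hl => ?_
    rw [shift_entry, vec_dot_self hH (by simpa using hl), hx]
    ring
  have h1 : (∑ l ∈ Finset.range n, fl η0 (lam G l) * x l) ^ 2 ≤
      Z * ∑ l ∈ Finset.range n, fl η0 (lam G l) * x l ^ 2 := by
    rw [hZs]
    exact Finset.sum_sq_le_sum_mul_sum_of_sq_le_mul _ (fun l _ => fl_nonneg _ _)
      (fun l _ => mul_nonneg (fl_nonneg _ _) (sq_nonneg _)) fun l _ => le_of_eq (by ring)
  have h2 : ∑ l ∈ Finset.Ico (cnt G (2 - η)) n, fl η0 (lam G l) * x l ^ 2 ≤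
      (η0 / η) ^ 2 * (n * (2 * C) ^ 2) := by
    refine (tail_le hH hη η0 fun l => sq_nonneg (x l)).trans ?_
    refine mul_le_mul_of_nonneg_left ?_ (sq_nonneg _)
    refine (Finset.sum_le_card_nsmul _ _ ((2 * C) ^ 2) fun l hl => ?_).trans (by simp)
    have a1 := abs_le.1 (abs_diag_le hH hM hk)
    have a2 := abs_le.1 (abs_diag_le hH hM (Finset.mem_range.1 hl))
    exact sq_le_sq' (by simp only [hx]; linarith) (by simp only [hx]; linarith)
  rw [← Finset.sum_range_add_sum_Ico (fun l => fl η0 (lam G l) * x l ^ 2) hm] at h1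
  have e2 : ∑ l ∈ Finset.range (cnt G (2 - η)), fl η0 (lam G l) / Z * x l ^ 2 =
      (∑ l ∈ Finset.range (cnt G (2 - η)), fl η0 (lam G l) * x l ^ 2) / Z := by
    rw [Finset.sum_div]
    exact Finset.sum_congr rfl fun l _ => by ring
  change _ ≤ 2 * ∑ l ∈ Finset.range (cnt G (2 - η)), fl η0 (lam G l) / Z * x l ^ 2 + _
  rw [e2]
  set S1 := ∑ l ∈ Finset.range (cnt G (2 - η)), fl η0 (lam G l) * x l ^ 2
  set S2 := ∑ l ∈ Finset.Ico (cnt G (2 - η)) n, fl η0 (lam G l) * x l ^ 2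
  set R := (η0 / η) ^ 2 * (n * (2 * C) ^ 2)
  set X := ∑ l ∈ Finset.range n, fl η0 (lam G l) * x l
  set D := dev η0 a M G
  set u := vec G k ⬝ᵥ M *ᵥ vec G k - a
  have e3 : 2 * (S1 / Z) + (2 * (R / Z) + 2 * (D / Z) ^ 2) =
      (2 * (Z * (S1 + R)) + 2 * D ^ 2) / Z ^ 2 := by field_simp; ring
  rw [e3, le_div_iff₀ (by positivity), ← mul_pow, e1]
  nlinarith [sq_nonneg (X - D), mul_le_mul_of_nonneg_left h2 hZ.le]

/-- the deterministic estimate -/
lemma det (hF : FeApi) (hG : Gᵀ = G) (hη : 0 < η) (hη0 : 0 < η0) (hη1 : 0 < η1) (hMs : Mᵀ = M)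
    (hM : opn M ≤ C) (ha : |a| ≤ C) (hZ : 0 < (fE η0 G).trace) :
    (fE η1 G * Bm η0 a M G).trace ≤
      ∑ k ∈ Finset.range (cnt G (2 - η)), fl η1 (lam G k) *
        (∑ l ∈ (Finset.range (cnt G (2 - η))).erase k, (vec G l ⬝ᵥ M *ᵥ vec G k) ^ 2 +
          2 * ∑ l ∈ Finset.range (cnt G (2 - η)), fl η0 (lam G l) / (fE η0 G).trace *
            (vec G k ⬝ᵥ M *ᵥ vec G k - vec G l ⬝ᵥ M *ᵥ vec G l) ^ 2) +
      ((fE η1 G).trace * (2 * ((η0 / η) ^ 2 * (n * (2 * C) ^ 2) / (fE η0 G).trace) +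
          2 * (dev η0 a M G / (fE η0 G).trace) ^ 2 + (η0 / η) ^ 2 * (2 * C) ^ 2) +
        (η1 / η) ^ 2 * (n * (2 * C) ^ 2)) := by
  have hH : G.IsHermitian := herm_iff.2 hG
  have hm : cnt G (2 - η) ≤ n := by simpa using cnt_le_card G (2 - η)
  set N := cnt G (2 - η) with hN
  set D : Mx n := M - a • (1 : Mx n) with hD
  have hDs : Dᵀ = D := by rw [hD, transpose_sub, transpose_smul, transpose_one, hMs]
  have hDn : opn D ≤ 2 * C := opn_shift hM ha
  set g : ℕ → ℝ := fun k => vec G k ⬝ᵥ Bm η0 a M G *ᵥ vec G k with hg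
  have e1 : ∀ k, g k = ∑ l ∈ Finset.range n, fl η0 (lam G l) * (vec G l ⬝ᵥ D *ᵥ vec G k) ^ 2 := by
    intro k
    have := quad_compress (A := fE η0 G) D (vec G k) (vec G k)
    rw [hDs, hF.quad hG hη0] at this
    simp only [hg, Bm, ← hD, this, sq]
  have e2 : ∀ k < n, ∑ l ∈ Finset.range n, (vec G l ⬝ᵥ D *ᵥ vec G k) ^ 2 ≤ (2 * C) ^ 2 := by
    intro k hk
    have h1 := mulVec_dot_le D (vec G k)
    rw [vec_dot_self hH (by simpa using hk), mul_one, dot_eq hH, Fintype.card_fin] at h1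
    simp only [sq (_ ⬝ᵥ _)]
    exact h1.trans (pow_le_pow_left₀ (opn_nonneg D) hDn 2)
  have g0 : ∀ k, 0 ≤ g k := fun k => by
    rw [e1]; exact Finset.sum_nonneg fun l _ => mul_nonneg (fl_nonneg _ _) (sq_nonneg _)
  have g1 : ∀ k < n, g k ≤ (2 * C) ^ 2 := fun k hk => by
    rw [e1]
    exact (Finset.sum_le_sum fun l _ =>
      mul_le_of_le_one_left (sq_nonneg _) (fl_le_one _ _)).trans (e2 k hk)
  set κ := 2 * ((η0 / η) ^ 2 * (n * (2 * C) ^ 2) / (fE η0 G).trace) +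
    2 * (dev η0 a M G / (fE η0 G).trace) ^ 2 + (η0 / η) ^ 2 * (2 * C) ^ 2 with hκ
  have hκ0 : 0 ≤ κ := by positivity
  have g2 : ∀ k < N, g k ≤
      (∑ l ∈ (Finset.range N).erase k, (vec G l ⬝ᵥ M *ᵥ vec G k) ^ 2 +
        2 * ∑ l ∈ Finset.range N, fl η0 (lam G l) / (fE η0 G).trace *
          (vec G k ⬝ᵥ M *ᵥ vec G k - vec G l ⬝ᵥ M *ᵥ vec G l) ^ 2) + κ := by
    intro k hk
    have hkn := hk.trans_le hm
    have a1 := (tail_le hH hη η0 fun l => sq_nonneg (vec G l ⬝ᵥ D *ᵥ vec G k)).trans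
      (mul_le_mul_of_nonneg_left (e2 k hkn) (sq_nonneg _))
    have a2 := diag_le (a := a) hF hG hη hη0 hM hZ hkn
    have a3 : ∑ l ∈ (Finset.range N).erase k, fl η0 (lam G l) * (vec G l ⬝ᵥ D *ᵥ vec G k) ^ 2 ≤
        ∑ l ∈ (Finset.range N).erase k, (vec G l ⬝ᵥ M *ᵥ vec G k) ^ 2 :=
      Finset.sum_le_sum fun l hl => by
        rw [hD, shift_entry, vec_dot_ne hH (Finset.ne_of_mem_erase hl), mul_zero, sub_zero]
        exact mul_le_of_le_one_left (sq_nonneg _) (fl_le_one _ _)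
    have a4 : fl η0 (lam G k) * (vec G k ⬝ᵥ D *ᵥ vec G k) ^ 2 ≤
        (vec G k ⬝ᵥ M *ᵥ vec G k - a) ^ 2 := by
      rw [hD, shift_entry, vec_dot_self hH (by simpa using hkn), mul_one]
      exact mul_le_of_le_one_left (sq_nonneg _) (fl_le_one _ _)
    rw [e1, ← Finset.sum_range_add_sum_Ico _ hm,
      ← Finset.add_sum_erase _ _ (Finset.mem_range.2 hk)]
    linarith
  rw [hF.trace hG hη1, ← Finset.sum_range_add_sum_Ico _ hm]
  have b1 : ∑ k ∈ Finset.Ico N n, fl η1 (lam G k) * g k ≤ (η1 / η) ^ 2 * (n * (2 * C) ^ 2) := by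
    refine (tail_le hH hη η1 g0).trans (mul_le_mul_of_nonneg_left ?_ (sq_nonneg _))
    exact (Finset.sum_le_card_nsmul _ _ ((2 * C) ^ 2) fun l hl =>
      g1 l (Finset.mem_range.1 hl)).trans (by simp)
  have b2 := Finset.sum_le_sum (s := Finset.range N) fun k hk =>
    mul_le_mul_of_nonneg_left (g2 k (Finset.mem_range.1 hk)) (fl_nonneg η1 (lam G k))
  have b3 : ∑ k ∈ Finset.range N, fl η1 (lam G k) ≤ (fE η1 G).trace := by
    rw [trace_fE hF hG hη1]
    exact Finset.sum_le_sum_of_subset_of_nonneg (Finset.range_mono hm) fun k _ _ => fl_nonneg _ _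
  simp only [mul_add _ _ κ, Finset.sum_add_distrib, ← Finset.sum_mul] at b2
  have b4 := mul_le_mul_of_nonneg_right b3 hκ0
  change ∑ k ∈ Finset.range N, fl η1 (lam G k) * g k + ∑ k ∈ Finset.Ico N n, fl η1 (lam G k) * g k
    ≤ _
  linarith

lemma num {Z D T t δ : ℝ} (hn : 0 < n) (hη : 0 < η) (hη0 : 0 < η0) (hη1 : 0 < η1) (h01 : η0 ≤ 1)
    (ht : 0 < t) (hδ : 0 ≤ δ) (hZ1 : Nb n η0 / 128 ≤ Z) (hb : |D| ≤ δ * Nb n η0)
    (hT : T ≤ 4 * Nb n η1) (k1 : 8 * (128 * δ) ^ 2 ≤ t / 6)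
    (k2 : 4112 * C ^ 2 * √η0 / η ^ 2 ≤ t / 6) (k3 : 4 * C ^ 2 * √η1 / η ^ 2 ≤ t / 6) :
    T * (2 * ((η0 / η) ^ 2 * (n * (2 * C) ^ 2) / Z) + 2 * (D / Z) ^ 2 +
      (η0 / η) ^ 2 * (2 * C) ^ 2) + (η1 / η) ^ 2 * (n * (2 * C) ^ 2) ≤ t * Nb n η1 / 2 := by
  have hnR : (0 : ℝ) < n := by exact_mod_cast hn
  have hs0 : 0 < √η0 := Real.sqrt_pos.2 hη0
  have hs1 : 0 < √η1 := Real.sqrt_pos.2 hη1
  have hN0 : 0 < Nb n η0 := by unfold Nb; positivity
  have hN1 : 0 < Nb n η1 := by unfold Nb; positivity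
  have hZ : 0 < Z := lt_of_lt_of_le (by positivity) hZ1
  have q0 : √η0 * √η0 = η0 := Real.mul_self_sqrt hη0.le
  have q1 : √η1 * √η1 = η1 := Real.mul_self_sqrt hη1.le
  have a3 : (η0 / η) ^ 2 * (n * (2 * C) ^ 2) / Z ≤ 512 * (C ^ 2 * √η0 / η ^ 2) := by
    rw [div_le_iff₀ hZ]
    refine le_trans (le_of_eq ?_) (mul_le_mul_of_nonneg_left hZ1 (by positivity))
    rw [Nb]
    linear_combination (-(4 * C ^ 2 * n * η0 / η ^ 2)) * q0
  have a4 : (D / Z) ^ 2 ≤ (128 * δ) ^ 2 := by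
    rw [← sq_abs]
    refine pow_le_pow_left₀ (abs_nonneg _) ?_ 2
    rw [abs_div, abs_of_pos hZ, div_le_iff₀ hZ]
    linarith [mul_le_mul_of_nonneg_left hZ1 hδ]
  have a5 : (η0 / η) ^ 2 * (2 * C) ^ 2 ≤ 4 * (C ^ 2 * √η0 / η ^ 2) := by
    have b1 : √η0 ≤ 1 := Real.sqrt_le_one.2 h01
    have b2 : η0 ^ 2 ≤ √η0 := by
      have : η0 ≤ √η0 := by nlinarith
      nlinarith
    calc (η0 / η) ^ 2 * (2 * C) ^ 2 = 4 * (C ^ 2 * η0 ^ 2 / η ^ 2) := by ring
      _ ≤ _ := by gcongr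
  have a6 : (η1 / η) ^ 2 * (n * (2 * C) ^ 2) ≤ t / 6 * Nb n η1 := by
    refine le_trans (le_of_eq ?_) (mul_le_mul_of_nonneg_right k3 hN1.le)
    rw [Nb]
    linear_combination (-(4 * C ^ 2 * n * η1 / η ^ 2)) * q1
  have a7 : 2 * ((η0 / η) ^ 2 * (n * (2 * C) ^ 2) / Z) + 2 * (D / Z) ^ 2 +
      (η0 / η) ^ 2 * (2 * C) ^ 2 ≤ t / 12 := by
    have : 4112 * C ^ 2 * √η0 / η ^ 2 = 4112 * (C ^ 2 * √η0 / η ^ 2) := by ring
    linarith
  have a8 := mul_le_mul hT a7 (by positivity) (by positivity)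
  linarith

/-! ### the rotated frame -/

variable {A : Mx n → Mx n}

/-- the matrix `A` seen in the rotated frame -/
def MA (A : Mx n → Mx n) (G : Mx n) (O : Mat (Fin n)) : Mx n :=
  (Matrix.of O)ᵀ * A (cj O G) * Matrix.of O

lemma Phi_eq (O : Mat (Fin n)) (k l : ℕ) : Phi A G O k l = vec G k ⬝ᵥ MA A G O *ᵥ vec G l :=
  (quad_compress _ _ _).symm

lemma shift_conj {O : Mat (Fin n)} (hO : Matrix.of O ∈ Matrix.orthogonalGroup (Fin n) ℝ) :
    MA A G O - a • (1 : Mx n) = (Matrix.of O)ᵀ * (A (cj O G) - a • (1 : Mx n)) * Matrix.of O := by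
  rw [Matrix.mul_sub, Matrix.sub_mul, Matrix.mul_smul, Matrix.mul_one, Matrix.smul_mul, orth1 hO,
    MA]

lemma dev_conj (hF : FeApi) {O : Mat (Fin n)}
    (hO : Matrix.of O ∈ Matrix.orthogonalGroup (Fin n) ℝ) :
    dev η0 a (A (cj O G)) (cj O G) = dev η0 a (MA A G O) G := by
  rw [dev, dev, hF.conj G η0 hO, shift_conj hO, ← Matrix.mul_assoc, trace_mul_comm (fE η0 G * _)]
  simp only [cj, Matrix.mul_assoc]

lemma tr_conj (hF : FeApi) {O : Mat (Fin n)}
    (hO : Matrix.of O ∈ Matrix.orthogonalGroup (Fin n) ℝ) :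
    (fE η1 (cj O G) * Bm η0 a (A (cj O G)) (cj O G)).trace =
      (fE η1 G * Bm η0 a (MA A G O) G).trace := by
  rw [Bm, Bm, hF.conj G η0 hO, hF.conj G η1 hO, shift_conj hO, ← Matrix.mul_assoc (_ * fE η0 G),
    ← Matrix.mul_assoc (fE η1 G), trace_mul_comm (fE η1 G * _)]
  simp only [cj, Matrix.mul_assoc]

lemma measurable_Phi (hA : Measurable A) (G : Mx n) (k l : ℕ) :
    Measurable fun O => Phi A G O k l :=
  (measurable_of.t157_mulVec measurable_const).t157_dot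
    ((hA.comp (measurable_cj G)).t157_mulVec (measurable_of.t157_mulVec measurable_const))

lemma nrm_vec_le (hG : G.IsHermitian) (k : ℕ) : nrm (vec G k) ≤ 1 := by
  rcases lt_or_ge k (Fintype.card (Fin n)) with hk | hk
  · rw [nrm, vec_dot_self hG hk, Real.sqrt_one]
  · rw [vec_of_le hk, nrm_zero]; exact zero_le_one

lemma abs_Phi_le (hG : Ball G) (hA : ∀ M, Ball M → opn (A M) ≤ C) {O : Mat (Fin n)}
    (hO : Matrix.of O ∈ Matrix.orthogonalGroup (Fin n) ℝ) (k l : ℕ) : |Phi A G O k l| ≤ C := by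
  have hH : G.IsHermitian := herm_iff.2 hG.1
  have h1 : opn (MA A G O) ≤ C := (opn_compress (orth1 hO) _).trans (hA _ (ball_cj hG hO))
  rw [Phi_eq]
  refine (abs_bil_le _ _ _).trans ((mul_le_of_le_one_right (opn_nonneg _) ?_).trans h1)
  exact mul_le_one₀ (nrm_vec_le hH k) (nrm_nonneg _) (nrm_vec_le hH l)

section integ
variable {ν : Measure (Mat (Fin n))} [IsProbabilityMeasure ν]

lemma integrable_Phi_sq (hν : RHaar ν) (hm : Measurable A) (hG : Ball G)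
    (hA : ∀ M, Ball M → opn (A M) ≤ C) (k l : ℕ) : Integrable (fun O => Phi A G O k l ^ 2) ν := by
  refine Integrable.of_bound ((measurable_Phi hm G k l).pow_const 2).aestronglyMeasurable
    (C ^ 2) ?_
  filter_upwards [hν.mem] with O hO
  rw [Real.norm_eq_abs, abs_pow]
  exact pow_le_pow_left₀ (abs_nonneg _) (abs_Phi_le hG hA hO k l) 2

lemma integrable_Phi_sub_sq (hν : RHaar ν) (hm : Measurable A) (hG : Ball G)
    (hA : ∀ M, Ball M → opn (A M) ≤ C) (k l k' l' : ℕ) :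
    Integrable (fun O => (Phi A G O k l - Phi A G O k' l') ^ 2) ν := by
  refine Integrable.of_bound
    (((measurable_Phi hm G k l).sub (measurable_Phi hm G k' l')).pow_const 2).aestronglyMeasurable
    ((C + C) ^ 2) ?_
  filter_upwards [hν.mem] with O hO
  rw [Real.norm_eq_abs, abs_pow]
  exact pow_le_pow_left₀ (abs_nonneg _) ((abs_sub _ _).trans
    (add_le_add (abs_Phi_le hG hA hO k l) (abs_Phi_le hG hA hO k' l'))) 2

lemma mean_fix (hF : FeApi) (hν : RHaar ν) (hm : Measurable A)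
    (hA : ∀ M, Ball M → (A M)ᵀ = A M ∧ opn (A M) ≤ C) (hS : Spec G) (ha : |a| ≤ C) {t ε δ : ℝ}
    (ht : 0 < t) (hε : 0 < ε) (hδ : 0 ≤ δ) (hn : 0 < n) (hη : 0 < η) (h0 : η0 ∈ Icc (e0 n) 1)
    (h1 : η1 ∈ Icc (e0 n) 1) (hW : SwapOut ν A G η (ε * t / 24))
    (k1 : 8 * (128 * δ) ^ 2 ≤ t / 6) (k2 : 4112 * C ^ 2 * √η0 / η ^ 2 ≤ t / 6)
    (k3 : 4 * C ^ 2 * √η1 / η ^ 2 ≤ t / 6) :
    ν.real {O | t * Nb n η1 < (fE η1 (cj O G) * Bm η0 a (A (cj O G)) (cj O G)).trace} ≤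
      ε + ν.real {O | δ * Nb n η0 < |dev η0 a (A (cj O G)) (cj O G)|} := by
  have hnR : (0 : ℝ) < n := by exact_mod_cast hn
  have he : 0 < e0 n := Real.rpow_pos_of_pos hnR _
  have hη0 := he.trans_le h0.1
  have hη1 := he.trans_le h1.1
  have hG : Ball G := ⟨hS.symm, hS.top.trans (by linarith [h0.1, h0.2])⟩
  have hs0 : 0 < √η0 := Real.sqrt_pos.2 hη0
  have hs1 : 0 < √η1 := Real.sqrt_pos.2 hη1
  have hN0 : 0 < Nb n η0 := by unfold Nb; positivity
  have hN1 : 0 < Nb n η1 := by unfold Nb; positivity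
  set Z := (fE η0 G).trace with hZd
  have hZ1 : Nb n η0 / 128 ≤ Z := by
    have a1 := cnt_le_trace hF hS.symm hη0 (hS.top.trans (by linarith [h0.1]))
    linarith [hS.lo η0 h0]
  have hZ : 0 < Z := lt_of_lt_of_le (by positivity) hZ1
  have hmn : cnt G (2 - η) ≤ n := by simpa using cnt_le_card G (2 - η)
  set N := cnt G (2 - η) with hN
  set Y : Mat (Fin n) → ℝ := fun O => ∑ k ∈ Finset.range N, fl η1 (lam G k) *
    (∑ l ∈ (Finset.range N).erase k, Phi A G O l k ^ 2 +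
      2 * ∑ l ∈ Finset.range N, fl η0 (lam G l) / Z * (Phi A G O k k - Phi A G O l l) ^ 2) with hY
  have hA2 : ∀ M, Ball M → opn (A M) ≤ C := fun M hM => (hA M hM).2
  have i1 : ∀ k, Integrable (fun O => ∑ l ∈ (Finset.range N).erase k, Phi A G O l k ^ 2) ν :=
    fun k => integrable_finsetSum _ fun l _ => integrable_Phi_sq hν hm hG hA2 l k
  have i2 : ∀ k l, Integrable
      (fun O => fl η0 (lam G l) / Z * (Phi A G O k k - Phi A G O l l) ^ 2) ν :=
    fun k l => (integrable_Phi_sub_sq hν hm hG hA2 k k l l).const_mul _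
  have i3 : ∀ k, Integrable (fun O => 2 * ∑ l ∈ Finset.range N,
      fl η0 (lam G l) / Z * (Phi A G O k k - Phi A G O l l) ^ 2) ν :=
    fun k => (integrable_finsetSum _ fun l _ => i2 k l).const_mul _
  have i4 : ∀ k, Integrable (fun O => fl η1 (lam G k) *
      (∑ l ∈ (Finset.range N).erase k, Phi A G O l k ^ 2 + 2 * ∑ l ∈ Finset.range N,
        fl η0 (lam G l) / Z * (Phi A G O k k - Phi A G O l l) ^ 2)) ν :=
    fun k => ((i1 k).add (i3 k)).const_mul _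
  have hYi : Integrable Y ν := integrable_finsetSum _ fun k _ => i4 k
  have hY0 : ∀ O, 0 ≤ Y O := fun O => Finset.sum_nonneg fun k _ => mul_nonneg (fl_nonneg _ _)
    (add_nonneg (Finset.sum_nonneg fun _ _ => sq_nonneg _) (mul_nonneg two_pos.le
      (Finset.sum_nonneg fun _ _ => mul_nonneg (div_nonneg (fl_nonneg _ _) hZ.le) (sq_nonneg _))))
  have hw : ∀ η' : ℝ, 0 < η' → ∑ k ∈ Finset.range N, fl η' (lam G k) ≤ (fE η' G).trace :=
    fun η' h => by
      rw [trace_fE hF hS.symm h]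
      exact Finset.sum_le_sum_of_subset_of_nonneg (Finset.range_mono hmn) fun k _ _ =>
        fl_nonneg _ _
  have hT := hS.tr η1 h1
  have hEY : ∫ O, Y O ∂ν ≤ t * Nb n η1 / 2 * ε := by
    rw [hY, integral_finsetSum _ fun k _ => i4 k]
    have a1 : ∀ k ∈ Finset.range N, ∫ O, fl η1 (lam G k) *
        (∑ l ∈ (Finset.range N).erase k, Phi A G O l k ^ 2 + 2 * ∑ l ∈ Finset.range N,
          fl η0 (lam G l) / Z * (Phi A G O k k - Phi A G O l l) ^ 2) ∂ν ≤
        fl η1 (lam G k) * (3 * (ε * t / 24)) := fun k hk => by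
      obtain ⟨b1, b2⟩ := hW k (Finset.mem_range.1 hk)
      rw [integral_const_mul, integral_add (i1 k) (i3 k), integral_const_mul,
        integral_finsetSum _ fun l _ => i2 k l]
      refine mul_le_mul_of_nonneg_left ?_ (fl_nonneg _ _)
      have b3 : ∑ l ∈ Finset.range N,
          ∫ O, fl η0 (lam G l) / Z * (Phi A G O k k - Phi A G O l l) ^ 2 ∂ν ≤
          ∑ l ∈ Finset.range N, fl η0 (lam G l) / Z * (ε * t / 24) :=
        Finset.sum_le_sum fun l hl => by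
          rw [integral_const_mul]
          exact mul_le_mul_of_nonneg_left (b2 l (Finset.mem_range.1 hl))
            (div_nonneg (fl_nonneg _ _) hZ.le)
      rw [← Finset.sum_mul, ← Finset.sum_div] at b3
      have b4 : (∑ l ∈ Finset.range N, fl η0 (lam G l)) / Z ≤ 1 :=
        (div_le_one hZ).2 (hw η0 hη0)
      nlinarith [mul_le_mul_of_nonneg_right b4 (by positivity : 0 ≤ ε * t / 24)]
    refine (Finset.sum_le_sum a1).trans ?_
    rw [← Finset.sum_mul]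
    nlinarith [mul_le_mul_of_nonneg_right ((hw η1 hη1).trans hT)
      (by positivity : 0 ≤ 3 * (ε * t / 24))]
  have hMk := mul_meas_ge_le_integral_of_nonneg (ae_of_all _ hY0) hYi (t * Nb n η1 / 2)
  have hMk2 : ν.real {O | t * Nb n η1 / 2 ≤ Y O} ≤ ε :=
    le_of_mul_le_mul_left (hMk.trans hEY) (by positivity)
  have hsub : {O | t * Nb n η1 < (fE η1 (cj O G) * Bm η0 a (A (cj O G)) (cj O G)).trace} ≤ᵐ[ν]
      ({O | t * Nb n η1 / 2 ≤ Y O} ∪ {O | δ * Nb n η0 < |dev η0 a (A (cj O G)) (cj O G)|} :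
        Set (Mat (Fin n))) := by
    filter_upwards [hν.mem] with O hO hE
    change t * Nb n η1 < _ at hE
    by_cases hb : δ * Nb n η0 < |dev η0 a (A (cj O G)) (cj O G)|
    · exact Or.inr hb
    refine Or.inl ?_
    change t * Nb n η1 / 2 ≤ Y O
    rw [not_lt, dev_conj hF hO] at hb
    rw [tr_conj hF hO] at hE
    have hB := hA _ (ball_cj hG hO)
    have a1 : (MA A G O)ᵀ = MA A G O := by
      rw [MA, transpose_mul, transpose_mul, transpose_transpose, hB.1, Matrix.mul_assoc]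
    have a2 := det (η := η) hF hS.symm hη hη0 hη1 a1 ((opn_compress (orth1 hO) _).trans hB.2) ha hZ
    simp only [← Phi_eq] at a2
    have a8 := num (Z := Z) (D := dev η0 a (MA A G O) G) hn hη hη0 hη1 h0.2 ht hδ hZ1 hb hT k1 k2 k3
    change _ ≤ Y O + _ at a2
    linarith
  refine (ENNReal.toReal_mono (measure_ne_top _ _) (measure_mono_ae hsub)).trans ?_
  exact (measureReal_union_le _ _).trans (add_le_add hMk2 le_rfl)

end integ

lemma ev_small {a x : ℝ} (ha : 0 < a) (hx : 0 < x) : ∀ᶠ n : ℕ in atTop, (n : ℝ) ^ (-a) ≤ x :=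
  ((tendsto_rpow_neg_atTop ha).comp tendsto_natCast_atTop_atTop).eventually_le_const hx

end Mean46

open Mean46 in
/-- **the mean of `B` over the microscopic window is small** -/
theorem meanGlue : MeanGlue := by
  intro hF C hC t ht ε hε
  refine ⟨ε * t / 24, by positivity, √(t / 48) / 128, by positivity, 1, zero_le_one,
    fun η hη => ?_⟩
  have hη0 := hη.1
  set x : ℝ := t * η ^ 2 / (6 * 4112 * C ^ 2) with hx
  have hx0 : 0 < x := by positivity
  have key : ∀ y : ℝ, y ≤ x ^ 2 → 4112 * C ^ 2 * √y / η ^ 2 ≤ t / 6 := fun y hy => by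
    have h1 : √y ≤ x := Real.sqrt_le_iff.2 ⟨hx0.le, hy⟩
    calc 4112 * C ^ 2 * √y / η ^ 2 ≤ 4112 * C ^ 2 * x / η ^ 2 := by gcongr
      _ = t / 6 := by rw [hx]; field_simp
  refine ⟨min 1 (x ^ 2), by positivity, fun η0 h0 => ?_⟩
  filter_upwards [eventually_ge_atTop 1, ev_small (a := 13 / 20) (by norm_num) h0.1,
    ev_small (a := 13 / 25) (by norm_num) (by positivity : 0 < x ^ 2)]
    with n hn k1 k2 ν hν1 hν A hm hA G a hS ha hW
  have hn1 : (1 : ℝ) ≤ n := by exact_mod_cast hn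
  rw [one_mul]
  refine mean_fix hF hν hm hA hS ha ht hε (by positivity) hn hη0
    ⟨k1, h0.2.trans (min_le_left _ _)⟩
    ⟨Real.rpow_le_rpow_of_exponent_le hn1 (by norm_num),
      Real.rpow_le_one_of_one_le_of_nonpos hn1 (by norm_num)⟩ hW ?_
    (key η0 (h0.2.trans (min_le_right _ _))) (le_trans ?_ (key (ep n) k2))
  · rw [mul_div_cancel₀ _ (by norm_num : (128 : ℝ) ≠ 0), Real.sq_sqrt (by positivity)]
    linarith
  · gcongr; norm_num

end Crest.Agent.T157.Da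

end
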