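import Crest.Agent.T157.DaVh_82

/-!
# Row 157, part C (helper82): (DA) in the planted model from its leaves
-/

set_option autoImplicit false

noncomputable section

namespace Crest.Agent.T157.Da

open MeasureTheory Matrix Filter Set Real Topology
open Crest.Agent.T157.E Crest.Agent.T157.Eig
open Crest.Agent.T157.Tap (V Mx)
open Crest.Agent.T157.Top (Whp)

theorem pdaGlue : PDAGlue := by
  intro F hFD hL hS hI hH hSw hM hR hC hD T hT r hr ε hε
  obtain ⟨C0, hC0, hFD⟩ := hFD T hT r hr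
  have C1 : 0 < C0 + 1 := by positivity
  obtain ⟨t, ht, hD⟩ := hD _ C1 ε hε
  obtain ⟨c0, hc0, hR⟩ := hR
  set s := t / c0 / 3 with hs
  have s0 : 0 < s := by positivity
  obtain ⟨ε1, hε1, δ, hδ, C', hC', hM⟩ := hM _ C1 s s0 (1 / 8) (by norm_num)
  obtain ⟨η, hη, hSw⟩ := hSw _ C1 ε1 hε1
  obtain ⟨ηb, hηb, hM⟩ := hM η hη
  refine ⟨min δ (1 / 128), by positivity, min ηb (1 / 4), ⟨by positivity, min_le_right _ _⟩,
    fun η0 h0 => ?_⟩
  obtain ⟨η1, hη1, hD⟩ := hD η0 h0.1
  obtain ⟨CL, hCL, hL⟩ := hL _ C1 η0 h0.1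
  obtain ⟨c, hc, hC⟩ := hC CL hCL
  refine ⟨η1, hη1, fun a ha => ?_⟩
  have hA : ∀ᶠ n : ℕ in atTop, 0 < n ∧ |a n| ≤ C0 + 1 := by
    filter_upwards [whp_exists (hS.whp.and ha), eventually_gt_atTop 0, ev_ep h0.1] with n ⟨z, h1, h2⟩ hn h3
    obtain ⟨S, hF⟩ := hFD n hn
    have := h1.abs_le F hn ⟨(e0_le_ep hn).trans h3, h0.2.trans ((min_le_right _ _).trans (by norm_num))⟩
      (hF.bd z (h1.ball hn)) (by positivity) h2
    exact ⟨hn, by linarith [min_le_right δ (1 / 128)]⟩
  have key : Vh PP fun n z => Spec z.1 →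
      opn (fE (es n) z.1 * Bm η0 (a n) (Aq T r z) z.1 * fE (es n) z.1) ≤ t := by
    obtain ⟨cS, hcS, hS'⟩ := hS.real
    have t1 := ha.real.const_mul C'
    rw [mul_zero] at t1
    have t2 : Tendsto (fun n : ℕ => exp (-(c * s ^ 2 * (n : ℝ) ^ (9 / 50 : ℝ)))) atTop (𝓝 0) :=
      tendsto_exp_neg_atTop_nhds_zero.comp (((tendsto_rpow_atTop (by norm_num)).comp
        tendsto_natCast_atTop_atTop).const_mul_atTop (by positivity))
    refine vh_of_le 4 (a := min 1 (c * s ^ 2)) (c := min cS (9 / 50)) (by positivity) (by positivity) ?_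
    filter_upwards [hA, hS', hSw, hM η0 ⟨h0.1, h0.2.trans (min_le_left _ _)⟩, hR CL hCL (3 * s) (by positivity),
      hC, hS.whp.real.eventually (gt_mem_nhds (show (0 : ℝ) < 1 / 8 by norm_num)),
      t1.eventually (gt_mem_nhds (show (0 : ℝ) < 1 / 8 by norm_num)),
      t2.eventually (gt_mem_nhds (show (0 : ℝ) < 1 / 8 by norm_num))]
      with n ⟨hn, han⟩ hS' hSw hM hR hC p1 p2 p3
    obtain ⟨S, hF⟩ := hFD n hn
    replace hF := hF.mono (le_add_of_nonneg_right zero_le_one)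
    obtain ⟨ν, hν, hν'⟩ := R164.Haar.exists_haar n
    have hB := (hL n _ S hF).2.2 _ han
    obtain ⟨m, hm⟩ := hC _ hB (ep n) ⟨le_rfl, ep_le_one hn⟩
    replace hm := hm s s0.le
    have mf : ∀ η, Measurable fun z : Mx n × V n => fE η z.1 := fun η => (F.meas n η).comp measurable_fst
    have mτ := ((mf (ep n)).t157_mul hB.meas).t157_trace
    have N0 := Nb_pos hn ((e0_pos hn).trans_le (e0_le_ep hn))
    have h1 := hH n ν hν hν' {z | s * Nb n (ep n) < (fE (ep n) z.1 * Bm η0 (a n) (Aq T r z) z.1).trace}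
      {z | δ * Nb n η0 < |dev η0 (a n) (Aq T r z) z.1|} (fun z => Spec z.1) (1 / 8) C'
      (measurableSet_lt measurable_const mτ) (measurableSet_lt measurable_const
        ((mf η0).t157_mul (hF.mA.t157_sub measurable_const)).t157_trace.abs) (by norm_num) hC'
      fun z hz => hM ν hν hν' (fun M => Aq T r (M, z.2)) (hF.mA.comp measurable_prodMk_right)
        (fun M h => ⟨hF.symm (z := (M, z.2)) h, hF.bd (M, z.2) h⟩) z.1 _ hz han
        (hSw ν hν hν' _ S hF z.1 z.2 hz)
    have h2 := hH n ν hν hν' {z | c0 * (3 * s) <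
        opn (fE (es n) z.1 * Bm η0 (a n) (Aq T r z) z.1 * fE (es n) z.1) ∧
        (fE (ep n) z.1 * Bm η0 (a n) (Aq T r z) z.1).trace ≤ 3 * s * Nb n (ep n)} ∅
      (fun z => Spec z.1) _ 0 ((measurableSet_lt measurable_const (continuous_opn.measurable.comp
        (((mf _).t157_mul hB.meas).t157_mul (mf _)))).inter (measurableSet_le mτ measurable_const))
      MeasurableSet.empty (exp_pos _).le le_rfl
      fun z hz => (hR ν hν hν' _ hB z.1 z.2 hz).trans (by rw [zero_mul, add_zero])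
    have h3 : (PP n).real {z | δ * Nb n η0 < |dev η0 (a n) (Aq T r z) z.1|} ≤
        (PP n).real {z | ¬ |dev η0 (a n) (Aq T r z) z.1| ≤ min δ (1 / 128) * Nb n η0} :=
      measureReal_mono fun z hz => not_le.2 ((mul_le_mul_of_nonneg_right (min_le_left _ _)
        (Nb_pos hn h0.1).le).trans_lt hz)
    obtain ⟨z, z1, z2, z3⟩ := exists_of_lt ((add_le_add (add_le_add h1 hm) p1.le).trans_lt
      (by linarith [mul_le_mul_of_nonneg_left h3 hC']))
    simp only [mem_setOf_eq, not_lt, not_not, not_and, not_le] at z1 z2 z3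
    have hm2 := (abs_lt.1 (z2 z3)).1
    refine (measureReal_mono fun z hz => ?_).trans ((measureReal_union_le _ _).trans
      ((add_le_add h2 hm).trans ?_))
    · simp only [mem_setOf_eq, Classical.not_imp, not_le] at hz
      rcases le_or_gt (fE (ep n) z.1 * Bm η0 (a n) (Aq T r z) z.1).trace (3 * s * Nb n (ep n)) with e | e
      · exact Or.inl ⟨lt_of_eq_of_lt (by rw [hs]; field_simp) hz.2, e⟩
      · exact Or.inr ⟨hz.1, le_trans (by linarith) (le_abs_self _)⟩
    · have q0 : 0 ≤ min 1 (c * s ^ 2) := by positivity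
      have q1 := exp_le_of hn q0 (min_le_left _ _) (min_le_left cS (9 / 50))
      have q2 := exp_le_of hn q0 (min_le_left _ _)
        ((min_le_right cS (9 / 50)).trans (show (9 / 50 : ℝ) ≤ 1 / 5 by norm_num))
      have q3 := exp_le_of hn q0 (min_le_right _ _) (min_le_right cS (9 / 50))
      rw [one_mul] at q2
      linarith
  refine ((hS.and hI).and key).mono ?_
  filter_upwards [hA, hD] with n ⟨hn, han⟩ hD z ⟨⟨z1, z2⟩, z3⟩
  obtain ⟨S, hF⟩ := hFD n hn
  exact hD _ _ _ (z1.ball hn) z2 (hF.symm (z1.ball hn)) ((hF.bd z (z1.ball hn)).trans (by linarith))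
    han (z3 z1)

end Crest.Agent.T157.Da

end
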