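import Crest.Agent.T157.DaDef_82
import Crest.Agent.T157.PlE_37

/-!
# Row 157, part C (helper44): `Da.PlantC`
-/

set_option autoImplicit false

noncomputable section

namespace Crest.Agent.T157.Da

open MeasureTheory ProbabilityTheory Matrix Filter Set Topology
open Crest.Agent.T157.E Crest.Agent.T157.Eig Crest.Agent.T157.Cond
open Crest.Agent.T157.Tap (V Mx GOE plW avg)

namespace Plant44

variable {n : ℕ}

lemma plW_neg (W : Mx n) (σ : V n) : plW 1 (plW (-1) W σ) σ = W := by
  rw [plW, plW, neg_div, neg_smul, neg_add_cancel_right]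

lemma plW_neg' (W : Mx n) (σ : V n) : plW (-1) (plW 1 W σ) σ = W := by
  rw [plW, plW, neg_div, neg_smul, add_neg_cancel_right]

/-- quantitative transfer for arbitrary sets -/
theorem transfer_set (A : Cube n → Set (Mx n × V n)) {δ ε η : ℝ} (hε : 0 < ε) (hη : 0 < η)
    (h : ∀ σ : Cube n, (PP n).real {z | (plW 1 z.1 (sv σ), z.2) ∈ A σ} ≤ δ) :
    (GOE n).real {W | ε ≤ mean (ising W 0) fun σ => (gv (Fin n)).real {ξ | (W, ξ) ∈ A σ}} ≤
      (GOE n).real {W | Pl.LRW n 1 W < η} + δ / (ε * η) := by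
  set N : Cube n → Set (Mx n × V n) := fun σ =>
    toMeasurable (PP n) {z | (plW 1 z.1 (sv σ), z.2) ∈ A σ} with hN
  have hNm : ∀ σ, MeasurableSet (N σ) := fun σ => measurableSet_toMeasurable _ _
  set F : Cube n → Mx n → ℝ := fun σ W =>
    (gv (Fin n)).real {ξ | (plW (-1) W (sv σ), ξ) ∈ N σ} with hF
  have hG : ∀ σ, Measurable fun W : Mx n => gv (Fin n) {ξ | (W, ξ) ∈ N σ} := fun σ =>
    measurable_measure_prodMk_left (hNm σ)
  have hm : ∀ σ, Measurable (F σ) := fun σ =>
    (hG σ).ennreal_toReal.comp (f := fun W => plW (-1) W (sv σ)) (by unfold plW; fun_prop)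
  have e : ∀ σ (W : Mx n), F σ (W + ((1 : ℝ) / n) • vecMulVec (sv σ) (sv σ)) =
      (gv (Fin n)).real {ξ | (W, ξ) ∈ N σ} := fun σ W => by
    have := plW_neg' W (sv σ)
    simp only [hF]
    rw [show plW (-1) (W + ((1 : ℝ) / n) • vecMulVec (sv σ) (sv σ)) (sv σ) = W from this]
  have key := Pl.transferW_mean 1 hm (fun _ _ => measureReal_nonneg) (fun σ => by
    simp only [e]
    exact (integrable_const 1).mono' (hG σ).ennreal_toReal.aestronglyMeasurable
      (.of_forall fun W => by
        rw [Real.norm_of_nonneg measureReal_nonneg]; exact measureReal_le_one)) hε hη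
  simp only [e, one_smul] at key
  refine le_trans (measureReal_mono (s₂ := {W | ε ≤ mean (ising W 0) fun σ => F σ W})
    fun W hW => ?_) (key.trans
    (add_le_add le_rfl (div_le_div_of_nonneg_right ?_ (mul_pos hε hη).le)))
  · refine le_trans (show ε ≤ _ from hW) ?_
    refine Finset.sum_le_sum fun σ _ => mul_le_mul_of_nonneg_left
      (measureReal_mono fun ξ hξ => subset_toMeasurable _ _ ?_)
      (div_nonneg (Real.exp_pos _).le (Pl.wt_ising W 0).pos.le)
    simpa only [mem_ofPred_eq, plW_neg] using hξ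
  · rw [div_le_iff₀ (by positivity), ← Pl.card_cube, mul_comm, ← nsmul_eq_mul,
      ← Finset.card_univ, ← Finset.sum_const]
    refine Finset.sum_le_sum fun σ _ => le_of_eq_of_le ?_ (h σ)
    rw [Measure.real, ← measure_toMeasurable, Measure.prod_apply (hNm σ), ← integral_toReal
      (measurable_measure_prodMk_left (hNm σ)).aemeasurable (.of_forall fun _ => measure_lt_top _ _)]
    rfl

end Plant44

theorem plantC : PlantC := by
  intro A c hc h
  refine ⟨c / 2, half_pos hc, ?_⟩
  have h1 := Pl.tendsto_LRW_lt_rpow (β := 1) zero_le_one le_rfl (a := 1 / 4) (c := c)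
    (by norm_num) hc
  have t1 : ∀ s > (0 : ℝ), Tendsto (fun n : ℕ => (n : ℝ) ^ s) atTop atTop := fun s hs =>
    (tendsto_rpow_atTop hs).comp tendsto_natCast_atTop_atTop
  have h2 : Tendsto (fun n : ℕ => Real.exp (-(1 / 2) * (n : ℝ) ^ c)) atTop (𝓝 0) :=
    Real.tendsto_exp_atBot.comp ((t1 c hc).const_mul_atTop_of_neg (by norm_num))
  refine Top.whp_of_real_le ((h1.add h2).trans_eq (by simp)) ?_
  filter_upwards [h, (t1 _ (half_pos hc)).eventually_ge_atTop 4] with n hn h4
  have e : (n : ℝ) ^ c = (n : ℝ) ^ (c / 2) * (n : ℝ) ^ (c / 2) := by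
    rw [← Real.rpow_add' (Nat.cast_nonneg n) (by linarith), add_halves]
  refine le_trans (measureReal_mono fun W hW => ?_)
    ((Plant44.transfer_set (A n) (Real.exp_pos (-(1 / 4 * (n : ℝ) ^ c)))
      (Real.exp_pos (-(1 / 4 * (n : ℝ) ^ c))) (δ := Real.exp (-(n : ℝ) ^ c))
      fun σ => ENNReal.toReal_le_of_le_ofReal (Real.exp_pos _).le (hn σ)).trans_eq ?_)
  · refine le_trans ?_ (not_le.1 hW).le
    exact Real.exp_le_exp.2 (by rw [e]; nlinarith)
  · rw [← Real.exp_add, ← Real.exp_sub]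
    congr 2
    ring

end Crest.Agent.T157.Da

end
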