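import Crest.Agent.T157.DaFdA_82

/-!
# Row 157, part C (helper82): the product chain driven by independent uniform variables
-/

set_option autoImplicit false

noncomputable section

namespace Crest.Agent.T157.Da

open MeasureTheory Matrix Function Real Set
open Crest.ProbabilityR.SpinGlassDynamics (spin)
open Crest.Agent.T157.E
open Crest.Agent.T157.Tap (V Mx)
open Crest.Agent.T157.Rec hiding fl
open Crest.Agent.T157.Chain22 (sg sg_zero hasDerivAt_sg)
open Gr

namespace Rep82

instance : IsProbabilityMeasure unif := ⟨by simp [unif]⟩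

theorem int_lt {p : ℝ} (h0 : 0 ≤ p) (h1 : p ≤ 1) : ∫ u, (if u < p then 1 else 0 : ℝ) ∂unif = p := by
  have e : Iio p ∩ Ioc 0 1 = Ioo 0 p := by
    ext u; exact ⟨fun h => ⟨h.2.1, h.1⟩, fun h => ⟨h.2, h.1, h.2.le.trans h1⟩⟩
  have := integral_indicator_one (μ := unif) (measurableSet_Iio (a := p))
  rw [unif, measureReal_restrict_apply measurableSet_Iio, e, volume_real_Ioo_of_le h0, sub_zero] at this
  exact this

theorem integrable_lt (p : ℝ) : Integrable (fun u : ℝ => (if u < p then 1 else 0 : ℝ)) unif :=
  (integrable_const (1 : ℝ)).indicator (measurableSet_Iio (a := p))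

/-- one-site kernel -/
def kk (d t : ℝ) (a c : Bool) : ℝ := (1 + spin c * ((1 - d) * spin a + d * t)) / 2

theorem site {d t : ℝ} (h0 : 0 ≤ d) (ht : t ≤ 1) (a c : Bool) (u : ℝ) :
    (if (if u < d * (1 + t) / 2 then true else if u < d then false else a) = c then 1 else 0 : ℝ) =
      spin c * (if u < d * (1 + t) / 2 then 1 else 0) +
        (-(spin c * (1 + spin a)) / 2 * (if u < d then 1 else 0) + (1 + spin c * spin a) / 2) := by
  have : d * (1 + t) / 2 ≤ d := by nlinarith
  by_cases h1 : u < d * (1 + t) / 2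
  · have h2 := h1.trans_le this
    cases a <;> cases c <;> simp [h1, h2, spin]
  · by_cases h2 : u < d <;> cases a <;> cases c <;> simp [h1, h2, spin]

variable {n : ℕ}

theorem int_upd {d : ℝ} (h0 : 0 ≤ d) (h1 : d ≤ 1) (b : V n) (F : Cube n → ℝ) (x : Cube n) :
    ∫ u, F (upd d x b u) ∂(Measure.pi fun _ : Fin n => unif) =
      ∑ z, F z * ∏ i, kk d (tanh (b i)) (x i) (z i) := by
  have e : ∀ u, F (upd d x b u) = ∑ z, F z * ∏ i, (if upd d x b u i = z i then 1 else 0 : ℝ) := fun u => by
    simp only [Finset.prod_boole, Finset.mem_univ, forall_const, ← funext_iff, mul_ite, mul_one,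
      mul_zero, Finset.sum_ite_eq, if_true]
  have ht := fun i => abs_lt.1 (abs_tanh_lt_one (b i))
  have hi : ∀ p q α β γ : ℝ, Integrable (fun u : ℝ => α * (if u < p then 1 else 0) +
      (β * (if u < q then 1 else 0) + γ)) unif := fun p q α β γ =>
    ((integrable_lt p).const_mul α).add (((integrable_lt q).const_mul β).add (integrable_const γ))
  have e2 : ∀ (u : V n) (z : Cube n) i, (if upd d x b u i = z i then 1 else 0 : ℝ) = _ :=
    fun u z i => site h0 (ht i).2.le (x i) (z i) (u i)
  simp only [e, e2]
  rw [integral_finsetSum _ fun z _ => (Integrable.fintype_prod fun i => hi _ _ _ _ _).const_mul _]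
  refine Finset.sum_congr rfl fun z _ => ?_
  rw [integral_const_mul, integral_fintype_prod_eq_prod (fun i (u : ℝ) =>
    spin (z i) * (if u < d * (1 + tanh (b i)) / 2 then 1 else 0) +
      (-(spin (z i) * (1 + spin (x i))) / 2 * (if u < d then 1 else 0) +
        (1 + spin (z i) * spin (x i)) / 2))]
  congr 1
  refine Finset.prod_congr rfl fun i _ => ?_
  have hj : ∀ q β γ : ℝ, Integrable (fun u : ℝ => β * (if u < q then 1 else 0) + γ) unif :=
    fun q β γ => ((integrable_lt q).const_mul β).add (integrable_const γ)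
  rw [integral_add ((integrable_lt _).const_mul _) (hj _ _ _), integral_add ((integrable_lt _).const_mul _) (integrable_const _),
    integral_const_mul, integral_const_mul, int_lt h0 h1,
    int_lt (by nlinarith [(ht i).1]) (by nlinarith [(ht i).2]), integral_const, probReal_univ, kk]
  simp only [smul_eq_mul]; ring

theorem grad_prod (g : Fin n → Bool → ℝ) (x : Cube n) (j : Fin n) : grad (fun x => ∏ i, g i (x i)) x j =
    (∏ i ∈ Finset.univ.erase j, g i (x i)) * ((g j true - g j false) / 2) := by
  have e : ∀ c, ∏ i, g i (update x j c i) = g j c * ∏ i ∈ Finset.univ.erase j, g i (x i) := fun c => by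
    rw [← Finset.mul_prod_erase _ _ (Finset.mem_univ j), update_self]
    congr 1
    exact Finset.prod_congr rfl fun i hi => by rw [update_of_ne (Finset.ne_of_mem_erase hi)]
  rw [grad, SL.incr, e, e]; ring

theorem deriv_K (b : V n) (F : Cube n → ℝ) (x : Cube n) (s : ℝ) :
    HasDerivAt (fun s => ∑ z, F z * ∏ i, kk (1 - exp (-s)) (tanh (b i)) (x i) (z i))
      (gen (ising 0 b) (fun x => ∑ z, F z * ∏ i, kk (1 - exp (-s)) (tanh (b i)) (x i) (z i)) x) s := by
  have d : ∀ (z : Cube n) i, HasDerivAt (fun s => kk (1 - exp (-s)) (tanh (b i)) (x i) (z i))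
      (spin (z i) * (exp (-s) * (tanh (b i) - spin (x i))) / 2) s := fun z i => by
    have h := (hasDerivAt_neg s).exp.const_sub 1
    exact ((((h.const_sub 1).mul_const (spin (x i))).add (h.mul_const (tanh (b i)))).const_mul
      (spin (z i)) |>.const_add 1 |>.div_const 2).congr_deriv (by ring)
  refine (HasDerivAt.fun_sum fun z _ => (HasDerivAt.fun_finsetProd (u := Finset.univ)
    fun i _ => d z i).const_mul (F z)).congr_deriv ?_
  rw [gen_ising transpose_zero]
  simp only [grad_sum, grad_const_mul, Pi.smul_apply, smul_eq_mul, Finset.mul_sum]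
  rw [Finset.sum_comm]
  refine Finset.sum_congr rfl fun i _ => Finset.sum_congr rfl fun z _ => ?_
  have e : kk (1 - exp (-s)) (tanh (b i)) true (z i) - kk (1 - exp (-s)) (tanh (b i)) false (z i) =
      spin (z i) * exp (-s) := by
    rw [kk, kk, show spin true = 1 from rfl, show spin false = -1 from rfl]; ring
  rw [grad_prod fun i a => kk (1 - exp (-s)) (tanh (b i)) a (z i), e]
  simp only [tt, loc, sv, zero_mulVec, Pi.zero_apply, Matrix.zero_apply, zero_mul, sub_zero, zero_add]
  ring

end Rep82

open Rep82 in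
theorem repStmt : RepStmt := by
  intro n h b F x hn hh
  have hw := ising_pos (0 : Mx n) b
  rw [int_upd (sub_nonneg.2 (exp_le_one_iff.2 (neg_nonpos.2 hh))) (sub_le_self _ (exp_pos _).le)]
  set K : ℝ → Cube n → ℝ := fun s x => ∑ z, F z * ∏ i, kk (1 - exp (-s)) (tanh (b i)) (x i) (z i)
  have d : ∀ u, HasDerivAt (fun u => sg (ising 0 b) u (K (h - u)) x) 0 u := fun u => by
    refine (hasDerivAt_sg_fam hn hw (F := fun u => K (h - u)) (fun z =>
      (deriv_K b F z (h - u)).comp u ((hasDerivAt_id' u).const_sub h)) x).congr_deriv ?_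
    rw [← sg_const hn hw u 0 x]
    congr 1; ext z; simp [K]
  have := is_const_of_deriv_eq_zero (fun u => (d u).differentiableAt) (fun u => (d u).deriv) h 0
  have e : K 0 = F := by
    ext y
    have : ∀ a c, ∀ t : ℝ, kk (1 - exp (-0)) t a c = if a = c then 1 else 0 := fun a c t => by
      cases a <;> cases c <;> simp [kk, spin]
    simp only [K, this, Finset.prod_boole, Finset.mem_univ, forall_const, ← funext_iff, mul_ite,
      mul_one, mul_zero, Finset.sum_ite_eq, if_true]
  rwa [sub_self, sub_zero, sg_zero hn hw, e] at this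

end Crest.Agent.T157.Da

end
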