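import Crest.Agent.T157.LlRes_91
import Crest.Agent.T157.PlB_37
import Crest.Agent.T157.Top_97

/-!
# Row 157, part A: a soft direction at criticality (helper45)

`softCrit : MscApi → IsoStmt → InstApi → LRTail → Top.SoftCrit`.
With `z = 2 + i η`, `η = n^(-2/3+e)`: the planted spin vector has `Im G_{uu} ≳ η^(-1/2)` (rank-one
shift and the isotropic local law), while `Im tr G / n ≲ η^(1/2)`.
-/

set_option autoImplicit false

noncomputable section

namespace Crest.Agent.T157.Soft45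

open MeasureTheory ProbabilityTheory Matrix Filter Topology Finset
open Crest.ProbabilityR.SpinGlassDynamics Crest.Agent.T157.E Crest.Agent.T157.Eig
open Crest.Agent.T157.Ll Crest.Agent.T157.Pl

/-- lower tail of the partition function at criticality -/
def LRTail : Prop := ∀ c : ℝ, 0 < c →
  Tendsto (fun n : ℕ => (disorderLaw n).real {g | LR false n 1 g < Real.exp (-(n : ℝ) ^ c)})
    atTop (𝓝 0)

variable {n : ℕ} {A : Matrix (Fin n) (Fin n) ℝ}

lemma herm_shift (hA : A.IsHermitian) (u : Fin n → ℝ) (c : ℝ) :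
    (A + vecMulVec u u - c • (1 : Matrix (Fin n) (Fin n) ℝ)).IsHermitian := by
  rw [herm_iff, transpose_sub, transpose_add, transpose_smul, transpose_one, herm_iff.1 hA,
    transpose_vecMulVec]

/-- Sherman–Morrison -/
lemma gb_rank_one (hA : A.IsHermitian) (u : Fin n → ℝ) (c : ℝ) {z : ℂ} (hz : z.im ≠ 0) :
    gb (A + vecMulVec u u - c • (1 : Matrix (Fin n) (Fin n) ℝ)) z u u * (1 + gb A (z + c) u u) =
      gb A (z + c) u u := by
  have hz' : (z + c).im ≠ 0 := by simpa using hz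
  have h := Res_sub hA (herm_shift hA u c) hz' hz
  have e : (cm A - (z + c) • (1 : Matrix (Fin n) (Fin n) ℂ)) -
      (cm (A + vecMulVec u u - c • (1 : Matrix (Fin n) (Fin n) ℝ)) -
        z • (1 : Matrix (Fin n) (Fin n) ℂ)) = -vecMulVec (cv u) (cv u) := by
    ext i j
    by_cases hij : i = j
    · subst hij; simp [vecMulVec_apply]; ring
    · simp [vecMulVec_apply, one_apply_ne hij]
  rw [e] at h
  have h2 := congrArg (fun M => cv u ⬝ᵥ M *ᵥ cv u) h
  simp only [sub_mulVec, dotProduct_sub, ← gb_def, Matrix.mul_neg, Matrix.neg_mul, neg_mulVec,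
    dotProduct_neg, ← mulVec_mulVec] at h2
  have e2 : vecMulVec (cv u) (cv u) *ᵥ (Res A (z + c) *ᵥ cv u) = gb A (z + c) u u • cv u := by
    ext i
    simp only [gb_def, mulVec, dotProduct, vecMulVec_apply, Pi.smul_apply, smul_eq_mul,
      Finset.sum_mul]
    exact Finset.sum_congr rfl fun j _ => by ring
  rw [e2, mulVec_smul, dotProduct_smul, ← gb_def, smul_eq_mul] at h2
  linear_combination h2

lemma im_of_rank_one {a b : ℂ} (h : b * (1 + a) = a) (ha : 0 < a.im) :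
    b.im = a.im / ‖1 + a‖ ^ 2 := by
  have h1 : (1 + a) ≠ 0 := fun h0 => by
    have := congrArg Complex.im h0
    simp at this; linarith
  have h2 : b = 1 - (1 + a)⁻¹ := by
    field_simp; linear_combination h
  rw [h2, Complex.sub_im, Complex.inv_im, Complex.normSq_eq_norm_sq]
  simp [neg_div]

lemma diag_sq (x : Cube n) : diagonal (sv x) * diagonal (sv x) = 1 := by
  rw [diagonal_mul_diagonal, ← diagonal_one]
  congr 1; funext i; exact spin_mul_self _

lemma gb_gauge (hA : A.IsHermitian) (x : Cube n) {z : ℂ} (hz : z.im ≠ 0) (u : Fin n → ℝ) :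
    gb (diagonal (sv x) * A * diagonal (sv x)) z (sv x * u) (sv x * u) = gb A z u u := by
  set D : Matrix (Fin n) (Fin n) ℂ := diagonal (cv (sv x)) with hD
  have hDD : D * D = 1 := by
    rw [hD, diagonal_mul_diagonal, ← diagonal_one]
    congr 1; funext i
    rw [← Complex.ofReal_mul, sv, spin_mul_self, Complex.ofReal_one]
  have e1 : cm (diagonal (sv x) * A * diagonal (sv x)) = D * cm A * D := by
    ext i j; simp [hD, mul_diagonal, diagonal_mul]
  have e2 : Res (diagonal (sv x) * A * diagonal (sv x)) z = D * Res A z * D := by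
    refine Matrix.inv_eq_left_inv ?_
    have e3 : cm (diagonal (sv x) * A * diagonal (sv x)) - z • (1 : Matrix (Fin n) (Fin n) ℂ) =
        D * (cm A - z • (1 : Matrix (Fin n) (Fin n) ℂ)) * D := by
      rw [e1, Matrix.mul_sub, Matrix.sub_mul, Matrix.mul_smul, Matrix.mul_one, Matrix.smul_mul, hDD]
    change D * Res A z * D * (cm (diagonal (sv x) * A * diagonal (sv x)) - z • 1) = 1
    rw [e3]
    calc D * Res A z * D * (D * (cm A - z • 1) * D)
        = D * (Res A z * (D * D) * (cm A - z • 1)) * D := by simp only [Matrix.mul_assoc]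
      _ = 1 := by rw [hDD, Matrix.mul_one, Res_mul hA hz, Matrix.mul_one, hDD]
  have e4 : D *ᵥ cv (sv x * u) = cv u := by
    ext i
    rw [hD, mulVec_diagonal, ← Complex.ofReal_mul, Pi.mul_apply, ← mul_assoc, sv, spin_mul_self,
      one_mul]
  have e5 : cv (sv x * u) ᵥ* D = cv u := by
    rw [← mulVec_transpose, hD, diagonal_transpose, ← hD, e4]
  rw [gb_def, gb_def, e2, ← mulVec_mulVec, ← mulVec_mulVec, e4, dotProduct_mulVec, e5]

/-- the normalised spin vector -/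
def ux (x : Cube n) : Fin n → ℝ := (√n)⁻¹ • sv x

lemma ux_eq (x : Cube n) : ux x = sv x * ux (one n) := by
  funext i; simp [ux, sv_one, mul_comm]

lemma ux_dot (hn : n ≠ 0) (x : Cube n) : ux x ⬝ᵥ ux x = 1 := by
  have h : (0 : ℝ) < n := Nat.cast_pos.2 (Nat.pos_of_ne_zero hn)
  rw [ux, smul_dotProduct, dotProduct_smul, sv_dot_self, smul_eq_mul, smul_eq_mul, ← mul_assoc,
    ← mul_inv, Real.mul_self_sqrt h.le, inv_mul_cancel₀ h.ne']

lemma Jmat_plant (g : Pair n → ℝ) : Jmat n (g + fun _ => th n 1) =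
    Jmat n g + vecMulVec (ux (one n)) (ux (one n)) -
      (1 / n : ℝ) • (1 : Matrix (Fin n) (Fin n) ℝ) := by
  rw [Jmat_add_th, smul_sub, add_sub_assoc]
  congr 2
  ext i j
  simp only [ux, sv_one, Matrix.smul_apply, vecMulVec_apply, Pi.smul_apply, Pi.one_apply,
    smul_eq_mul, mul_one]
  rw [← mul_inv, Real.mul_self_sqrt (Nat.cast_nonneg n), one_div]

lemma mean_lin (β : ℝ) (g : Pair n → ℝ) (v : Fin n → ℝ) :
    mean (gibbsWeight n β g) (fun x => v ⬝ᵥ sv x) = 0 := by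
  set z : Cube n := fun _ => false
  have h1 : tau z * g = g := by funext p; simp [tau, z, spin]
  have h2 := mean_comp (gauge z) (gibbsWeight n β g) fun x => v ⬝ᵥ sv x
  have h3 := gibbsWeight_gauge z β g
  rw [h1] at h3
  have h4 : ∀ x : Cube n, v ⬝ᵥ sv (cmul z x) = -(v ⬝ᵥ sv x) := fun x => by
    rw [sv_cmul, ← dotProduct_neg]
    congr 1; funext i
    simp only [sv, z, Pi.mul_apply, Pi.neg_apply]
    cases x i <;> simp [spin]
  simp only [gauge_apply, h4] at h2
  rw [← h3, SL.mean_neg] at h2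
  linarith

/-- `tr (A M) ≤ ‖M‖ tr A` -/
lemma mean_im_le (hA : A.IsHermitian) (β : ℝ) (g : Pair n → ℝ) {z : ℂ} (hz : 0 < z.im) {V : ℝ}
    (hV : ∀ v : Fin n → ℝ, v ⬝ᵥ v = 1 → var (gibbsWeight n β g) (fun x => v ⬝ᵥ sv x) ≤ V) :
    mean (gibbsWeight n β g) (fun x => (gb A z (ux x) (ux x)).im) ≤ V * (st A z).im := by
  have e1 : ∀ x : Cube n, (gb A z (ux x) (ux x)).im = ∑ k ∈ range n,
      (z.im * ‖((lam A k : ℂ) - z)⁻¹‖ ^ 2 / n) * (vec A k ⬝ᵥ sv x) ^ 2 := fun x => by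
    have h := gb_im hA hz (ux x)
    rw [div_eq_iff hz.ne', Finset.sum_mul] at h
    rw [h]
    refine Finset.sum_congr rfl fun k _ => ?_
    rw [ux, dotProduct_smul, smul_eq_mul, mul_pow, inv_pow, Real.sq_sqrt (Nat.cast_nonneg n)]
    ring
  have e2 : (st A z).im = ∑ k ∈ range n, z.im * ‖((lam A k : ℂ) - z)⁻¹‖ ^ 2 / n := by
    rw [st_spec hA hz.ne', Complex.div_natCast_im, Complex.im_sum, Finset.sum_div]
    refine Finset.sum_congr rfl fun k _ => ?_
    rw [normSq_inv _ hz]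
    field_simp
  simp only [e1]
  rw [SL.mean_sum, e2, Finset.mul_sum]
  refine Finset.sum_le_sum fun k hk => ?_
  rw [SL.mean_const_mul, mul_comm V]
  refine mul_le_mul_of_nonneg_left ?_ (by positivity)
  have h := hV (vec A k) (vec_dot_self hA (by simpa using hk))
  simp only [var, mean_lin, sub_zero] at h
  exact h

/-! ### the semicircle transform near the edge -/

lemma al_le (M : MscApi) {z : ℂ} {η : ℝ} (hη : 0 ≤ η) (h1 : η ≤ 1 / 4) (h : ‖z - 2‖ ≤ 2 * η) :
    al z ≤ 3 * √η := by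
  have h2 : ‖z + 2‖ ≤ 9 / 2 := by
    calc ‖z + 2‖ = ‖(z - 2) + 4‖ := by ring_nf
      _ ≤ ‖z - 2‖ + ‖(4 : ℂ)‖ := norm_add_le _ _
      _ ≤ 9 / 2 := by rw [show ‖(4 : ℂ)‖ = 4 by simp]; linarith
  refine abs_le_of_sq_le_sq' ?_ (by positivity) |>.2
  rw [M.al_sq, mul_pow, Real.sq_sqrt hη]
  nlinarith [norm_nonneg (z - 2), norm_nonneg (z + 2)]

lemma msc_im_le (M : MscApi) {z : ℂ} {η : ℝ} (hz : 0 < z.im) (hη : 0 ≤ η) (h1 : η ≤ 1 / 4)
    (h : ‖z - 2‖ ≤ 2 * η) : (msc z).im ≤ 2 * √η := by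
  have := M.im_le_al hz
  have := al_le M hη h1 h
  have := Real.sqrt_nonneg η
  linarith

/-- the spectral parameter of the planted model -/
def zp (η : ℝ) : ℂ := ⟨2, η⟩

lemma norm_zp_sub (η : ℝ) (hη : 0 ≤ η) : ‖zp η - 2‖ = η := by
  have : zp η - 2 = (η : ℂ) * Complex.I := by apply Complex.ext <;> simp [zp]
  rw [this]; simp [abs_of_nonneg hη]

lemma self_le_sqrt {η : ℝ} (hη : 0 ≤ η) (h1 : η ≤ 1 / 4) : η ≤ √η / 2 := by
  have h2 : √η ≤ 1 / 2 := Real.sqrt_le_iff.2 ⟨by norm_num, by linarith⟩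
  have := Real.mul_self_sqrt hη
  nlinarith [Real.sqrt_nonneg η]

lemma le_msc_im (M : MscApi) {η : ℝ} (hη : 0 < η) (h1 : η ≤ 1 / 4) : √η / 4 ≤ (msc (zp η)).im := by
  have h2 := M.inside (z := zp η) hη (by simp [zp])
  have h3 : 2 * √η ≤ al (zp η) := by
    refine abs_le_of_sq_le_sq' ?_ (norm_nonneg _) |>.2
    change (2 * √η) ^ 2 ≤ al (zp η) ^ 2
    rw [M.al_sq, norm_zp_sub η hη.le, mul_pow, Real.sq_sqrt hη.le]
    have : (4 : ℝ) ≤ ‖zp η + 2‖ := by
      have := Complex.re_le_norm (zp η + 2)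
      have e : (zp η + 2).re = 4 := by simp [zp]; norm_num
      linarith
    nlinarith
  have h4 := self_le_sqrt hη.le h1
  have e : (zp η).im = η := rfl
  rw [e] at h2
  linarith

lemma norm_one_add_msc (M : MscApi) {η : ℝ} (hη : 0 < η) (h1 : η ≤ 1 / 4) :
    ‖1 + msc (zp η)‖ ≤ 2 * √η := by
  have h2 := al_le M (z := zp η) hη.le h1 (by rw [norm_zp_sub η hη.le]; linarith)
  have e : 2 * (1 + msc (zp η)) = (zp η + 2 * msc (zp η)) - (zp η - 2) := by ring
  have h3 : ‖2 * (1 + msc (zp η))‖ ≤ al (zp η) + η := by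
    rw [e]
    refine (norm_sub_le _ _).trans ?_
    rw [norm_zp_sub η hη.le]; rfl
  rw [norm_mul, show ‖(2 : ℂ)‖ = 2 by simp] at h3
  have h4 := self_le_sqrt hη.le h1
  have := Real.sqrt_nonneg η
  linarith

/-- the planted spin vector sees the edge -/
lemma planted_im (M : MscApi) {η : ℝ} (hη : 0 < η) (h1 : η ≤ 1 / 4) {a b : ℂ}
    (h : b * (1 + a) = a) (ha : ‖a - msc (zp η)‖ ≤ √η / 8) : 1 / (72 * √η) ≤ b.im := by
  have hs : 0 < √η := Real.sqrt_pos.2 hη
  have h2 := le_msc_im M hη h1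
  have h3 := norm_one_add_msc M hη h1
  have h4 : √η / 8 ≤ a.im := by
    have := (abs_le.1 ((Complex.abs_im_le_norm (a - msc (zp η))).trans ha)).1
    rw [Complex.sub_im] at this
    linarith
  have h5 : ‖1 + a‖ ≤ 3 * √η := by
    calc ‖1 + a‖ = ‖(1 + msc (zp η)) + (a - msc (zp η))‖ := by ring_nf
      _ ≤ _ := norm_add_le _ _
      _ ≤ 3 * √η := by linarith
  have ha0 : 0 < a.im := lt_of_lt_of_le (by positivity) h4
  have h6 : 0 < ‖1 + a‖ := by
    refine lt_of_lt_of_le ha0 ?_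
    simpa using (le_abs_self _).trans (Complex.abs_im_le_norm (1 + a))
  rw [im_of_rank_one h ha0, div_le_div_iff₀ (by positivity) (by positivity)]
  nlinarith [mul_le_mul h5 h5 h6.le (by positivity)]

lemma Psi_le {z : ℂ} {η q : ℝ} (hη : 0 < η) (hq : qq n z = q) (hq0 : 0 ≤ q) (hq1 : q ≤ √η)
    (hm : (msc z).im ≤ 2 * √η) : Psi n z ≤ 3 * √(q * √η) := by
  have h1 : q ≤ √(q * √η) := Real.le_sqrt_of_sq_le (by nlinarith)
  have h2 : √(q * (msc z).im) ≤ 2 * √(q * √η) := by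
    refine Real.sqrt_le_iff.2 ⟨by positivity, ?_⟩
    rw [mul_pow, Real.sq_sqrt (by positivity)]
    nlinarith [mul_le_mul_of_nonneg_left hm hq0, mul_nonneg hq0 (Real.sqrt_nonneg η)]
  rw [Psi, hq]
  linarith

/-- the numerical side conditions -/
lemma numerics {e : ℝ} (he : 0 < e) (he1 : e ≤ 1 / 2) : ∀ᶠ n : ℕ in atTop, n ≠ 0 ∧
    ∀ η : ℝ, η = (n : ℝ) ^ (-(2 / 3 : ℝ) + e) → 0 < η ∧ η ≤ 1 / 4 ∧ 1 / (n : ℝ) ≤ η ∧
      (n : ℝ) ^ (-1 + 1 / 3 : ℝ) ≤ η ∧ 1 / (n * η) ≤ √η ∧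
      (n : ℝ) ^ (e / 4) * (3 * √(1 / (n * η) * √η)) ≤ √η / 8 := by
  have t1 : Tendsto (fun n : ℕ => (n : ℝ) ^ (-(1 / 6 : ℝ))) atTop (𝓝 0) :=
    (tendsto_rpow_neg_atTop (by norm_num)).comp tendsto_natCast_atTop_atTop
  have t2 : Tendsto (fun n : ℕ => (n : ℝ) ^ (e / 2)) atTop atTop :=
    (tendsto_rpow_atTop (by positivity)).comp tendsto_natCast_atTop_atTop
  filter_upwards [eventually_ge_atTop 1, t1.eventually (ge_mem_nhds (by norm_num : (0 : ℝ) < 1 / 4)),
    t2.eventually_ge_atTop 24] with n hn h1 h2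
  have hn1 : (1 : ℝ) ≤ n := by exact_mod_cast hn
  have hn0 : (0 : ℝ) < n := by linarith
  refine ⟨by omega, fun η hη => ?_⟩
  have hs : √η = (n : ℝ) ^ (-(1 / 3 : ℝ) + e / 2) := by
    rw [hη, Real.sqrt_eq_rpow, ← Real.rpow_mul hn0.le]; congr 1; ring
  have hq : 1 / (n * η) = (n : ℝ) ^ (-(1 / 3 : ℝ) - e) := by
    rw [hη, one_div, ← Real.rpow_one_add' hn0.le (by linarith), ← Real.rpow_neg hn0.le]
    congr 1; ring
  refine ⟨hη ▸ Real.rpow_pos_of_pos hn0 _, ?_, ?_, ?_, ?_, ?_⟩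
  · exact hη ▸ (Real.rpow_le_rpow_of_exponent_le hn1 (by linarith)).trans h1
  · rw [hη, one_div, ← Real.rpow_neg_one]
    exact Real.rpow_le_rpow_of_exponent_le hn1 (by linarith)
  · rw [hη]; exact Real.rpow_le_rpow_of_exponent_le hn1 (by linarith)
  · rw [hs, hq]; exact Real.rpow_le_rpow_of_exponent_le hn1 (by linarith)
  · have e1 : √(1 / (n * η) * √η) = (n : ℝ) ^ (-(1 / 3 : ℝ) - e / 4) := by
      rw [hs, hq, ← Real.rpow_add hn0, Real.sqrt_eq_rpow, ← Real.rpow_mul hn0.le]; congr 1; ring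
    rw [e1, hs, Real.rpow_add hn0, mul_left_comm, ← Real.rpow_add hn0,
      show e / 4 + (-(1 / 3 : ℝ) - e / 4) = -(1 / 3) by ring]
    have := Real.rpow_pos_of_pos hn0 (-(1 / 3 : ℝ))
    nlinarith

lemma tendsto_gap {c : ℝ} (hc : 0 < c) :
    Tendsto (fun n : ℕ => Real.exp (-(n : ℝ) ^ c) / (1 / 2 * Real.exp (-(n : ℝ) ^ (c / 2))))
      atTop (𝓝 0) := by
  have t2 : Tendsto (fun n : ℕ => (n : ℝ) ^ (c / 2)) atTop atTop :=
    (tendsto_rpow_atTop (by positivity)).comp tendsto_natCast_atTop_atTop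
  have t3 : Tendsto (fun n : ℕ => 2 * Real.exp (-(n : ℝ) ^ (c / 2))) atTop (𝓝 0) := by
    simpa using (Real.tendsto_exp_neg_atTop_nhds_zero.comp t2).const_mul 2
  refine squeeze_zero' (Eventually.of_forall fun n => by positivity) ?_ t3
  filter_upwards [t2.eventually_ge_atTop 2] with n hn
  have e : (n : ℝ) ^ c = (n : ℝ) ^ (c / 2) * (n : ℝ) ^ (c / 2) := by
    rw [← Real.rpow_add' (Nat.cast_nonneg n) (by linarith), add_halves]
  rw [div_le_iff₀ (by positivity), mul_mul_mul_comm, ← Real.exp_add, e]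
  norm_num
  nlinarith

/-- **a soft direction at criticality** -/
theorem softCrit (M : MscApi) (hI : IsoStmt) (I : InstApi) (hL : LRTail) : Top.SoftCrit := by
  intro δ hδ
  set e := min δ 1 / 2 with he
  have he0 : 0 < e := by have := lt_min hδ one_pos; positivity
  have he1 : e ≤ 1 / 2 := by have := min_le_right δ 1; linarith
  have he2 : e ≤ δ / 2 := by have := min_le_left δ 1; linarith
  obtain ⟨c, hc, hP⟩ := I.toJ (hI 2 (1 / 3) (e / 4) (by norm_num) (by positivity))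
  set η : ℕ → ℝ := fun n => (n : ℝ) ^ (-(2 / 3 : ℝ) + e) with hη
  set z0 : ℕ → ℂ := fun n => zp (η n) - ((1 / n : ℝ) : ℂ) with hz0
  set P : ∀ n, (Pair n → ℝ) → Prop := fun n g => ∀ z, Dom 2 (1 / 3) n z →
    ∀ a b, InS (ux (one n)) (ux (one n)) a → InS (ux (one n)) (ux (one n)) b →
      ‖gb (Jmat n g) z a b - msc z * ((a ⬝ᵥ b : ℝ) : ℂ)‖ ≤ (n : ℝ) ^ (e / 4) * Psi n z with hPd
  have hP' : ∀ᶠ n : ℕ in atTop, (disorderLaw n).real {g | ¬ P n g} ≤ Real.exp (-(n : ℝ) ^ c) := by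
    filter_upwards [hP, eventually_ne_atTop 0] with n h hn
    have h1 := h (fun _ => entryLaw false) (fun _ => I.law false) (ux (one n), ux (one n))
    simp only [ux_dot hn, le_refl, forall_const] at h1
    exact ENNReal.toReal_le_of_le_ofReal (Real.exp_pos _).le h1
  have w1 : Top.Whp disorderLaw P := by
    refine Top.whp_of_real_le ?_ hP'
    exact Real.tendsto_exp_neg_atTop_nhds_zero.comp
      ((tendsto_rpow_atTop hc).comp tendsto_natCast_atTop_atTop)
  set A : ∀ n, Cube n → Set (Pair n → ℝ) := fun n x =>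
    {g | (gb (Jmat n g) (z0 n) (ux x) (ux x)).im < 1 / (72 * √(η n))} with hA
  have him : ∀ n, (z0 n).im = η n := fun n => by simp [hz0, zp]
  have w2 : Top.Whp disorderLaw fun n g => mass (gibbsWeight n 1 g) {x | g ∈ A n x} < 1 / 2 := by
    have t := (hL (c / 2) (by positivity)).add (tendsto_gap hc)
    rw [add_zero] at t
    refine Top.whp_of_real_le t ?_
    filter_upwards [hP', numerics he0 he1] with n h ⟨hn, hN⟩
    obtain ⟨p1, p2, p3, p4, p5, p6⟩ := hN (η n) rfl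
    have hz : (z0 n).im ≠ 0 := by rw [him]; exact p1.ne'
    have h1 := transfer_mass_inv false 1 (A := A n) (B := A n (one n)) (fun x ξ hx => by
      simp only [hA, Set.mem_ofPred_eq] at hx ⊢
      rwa [Jmat_gauge, ux_eq x, gb_gauge (Jmat_isHermitian ξ) x hz] at hx)
      (by norm_num : (0 : ℝ) < 1 / 2) (Real.exp_pos (-(n : ℝ) ^ (c / 2)))
    simp only [not_lt]
    refine h1.trans (add_le_add le_rfl (div_le_div_of_nonneg_right ?_ (by positivity)))
    rw [real_pl_false]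
    refine le_trans (measureReal_mono (s₂ := {g | ¬ P n g}) fun g hg => ?_) h
    intro hPg
    simp only [hA, Set.mem_ofPred_eq] at hg
    have h2 := gb_rank_one (Jmat_isHermitian g) (ux (one n)) (1 / n) hz
    rw [← Jmat_plant, show z0 n + ((1 / n : ℝ) : ℂ) = zp (η n) by simp [hz0]] at h2
    have h3 := hPg (zp (η n)) ⟨by simp [zp], p4, by change η n ≤ 2; linarith⟩ _ _
      (Or.inl rfl) (Or.inl rfl)
    rw [ux_dot hn, Complex.ofReal_one, mul_one] at h3
    have h4 := Psi_le (n := n) (z := zp (η n)) p1 rfl (by change 0 ≤ 1 / (n * η n); positivity) p5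
      (msc_im_le M p1 p1.le p2 (by rw [norm_zp_sub _ p1.le]; linarith))
    have h5 := planted_im M p1 p2 h2 (h3.trans
      ((mul_le_mul_of_nonneg_left h4 (by positivity)).trans p6))
    linarith
  have t4 : Tendsto (fun n : ℕ => (n : ℝ) ^ (δ / 2)) atTop atTop :=
    (tendsto_rpow_atTop (by positivity)).comp tendsto_natCast_atTop_atTop
  refine (w1.and w2).mono ?_
  filter_upwards [numerics he0 he1, t4.eventually_ge_atTop 432] with n ⟨hn, hN⟩ h432 g ⟨hPg, hm⟩
  obtain ⟨p1, p2, p3, p4, p5, p6⟩ := hN (η n) rfl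
  have hn0 : (0 : ℝ) < n := Nat.cast_pos.2 (Nat.pos_of_ne_zero hn)
  have hn1 : (1 : ℝ) ≤ n := by exact_mod_cast Nat.pos_of_ne_zero hn
  have hz : 0 < (z0 n).im := by rw [him]; exact p1
  have hs : 0 < √(η n) := Real.sqrt_pos.2 p1
  by_contra hcon
  push Not at hcon
  have h1 := mean_im_le (Jmat_isHermitian g) 1 g hz fun v hv => (hcon v hv).le
  -- the trace side
  have hinv : 0 < 1 / (n : ℝ) := by positivity
  have hnear : ‖z0 n - 2‖ ≤ 2 * η n := by
    calc ‖z0 n - 2‖ = ‖(zp (η n) - 2) - ((1 / n : ℝ) : ℂ)‖ := by simp only [hz0]; ring_nf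
      _ ≤ _ := norm_sub_le _ _
      _ ≤ 2 * η n := by
        rw [norm_zp_sub _ p1.le, Complex.norm_real, Real.norm_of_nonneg hinv.le]; linarith
  have hmsc := msc_im_le M hz p1.le p2 hnear
  have hdom : Dom 2 (1 / 3) n (z0 n) := by
    refine ⟨?_, him n ▸ p4, by rw [him]; linarith⟩
    have : (z0 n).re = 2 - 1 / n := by simp [hz0, zp]
    rw [this, abs_le]
    constructor <;> linarith
  have h4 := Psi_le (n := n) (z := z0 n) p1 (by rw [qq, him]) (by positivity) p5 hmsc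
  have h5 : (st (Jmat n g) (z0 n)).im ≤ 3 * √(η n) := by
    rw [st_eq, Complex.div_natCast_im, Complex.im_sum, div_le_iff₀ hn0]
    calc ∑ k, (gb (Jmat n g) (z0 n) (ee k) (ee k)).im ≤ ∑ _k : Fin n, 3 * √(η n) := by
          refine Finset.sum_le_sum fun k _ => ?_
          have h3 := hPg (z0 n) hdom _ _ (Or.inr (Or.inr ⟨k, rfl⟩)) (Or.inr (Or.inr ⟨k, rfl⟩))
          rw [show ee k ⬝ᵥ ee k = 1 by simp [ee], Complex.ofReal_one, mul_one] at h3
          have h6 := (abs_le.1 ((Complex.abs_im_le_norm _).trans (h3.trans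
            ((mul_le_mul_of_nonneg_left h4 (by positivity)).trans p6)))).2
          rw [Complex.sub_im] at h6
          linarith
      _ = 3 * √(η n) * n := by simp [mul_comm]
  -- the Gibbs side
  have hw := wt_gibbs 1 g
  have h6 : 1 / (72 * √(η n)) * (1 - mass (gibbsWeight n 1 g) {x | g ∈ A n x}) ≤
      mean (gibbsWeight n 1 g) (fun x => (gb (Jmat n g) (z0 n) (ux x) (ux x)).im) := by
    have e1 := SL.mean_sub (gibbsWeight n 1 g) (fun _ => 1) ({x | g ∈ A n x}.indicator 1)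
    rw [hw.mean_const 1] at e1
    rw [mass_eq_mean, ← e1, ← SL.mean_const_mul]
    refine hw.mean_mono fun x => ?_
    by_cases hx : g ∈ A n x
    · rw [Set.indicator_of_mem (show x ∈ {x | g ∈ A n x} from hx)]
      simpa using gb_im_nonneg (Jmat_isHermitian g) hz (ux x)
    · rw [Set.indicator_of_notMem (show x ∉ {x | g ∈ A n x} from hx), sub_zero, mul_one]
      exact not_lt.1 hx
  have hV : 0 < (n : ℝ) ^ (2 / 3 - δ) := Real.rpow_pos_of_pos hn0 _
  have h7 : 1 / (72 * √(η n)) * (1 / 2) < (n : ℝ) ^ (2 / 3 - δ) * (3 * √(η n)) :=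
    lt_of_lt_of_le (mul_lt_mul_of_pos_left (by linarith) (by positivity))
      (h6.trans (h1.trans (mul_le_mul_of_nonneg_left h5 hV.le)))
  have h8 : (n : ℝ) ^ (2 / 3 - δ) * η n * (n : ℝ) ^ (δ / 2) ≤ 1 := by
    rw [hη, ← Real.rpow_add hn0, ← Real.rpow_add hn0]
    exact Real.rpow_le_one_of_one_le_of_nonpos hn1 (by linarith)
  rw [div_mul_div_comm, div_lt_iff₀ (by positivity)] at h7
  have h9 : (n : ℝ) ^ (2 / 3 - δ) * (3 * √(η n)) * (72 * √(η n) * 2) =
      432 * ((n : ℝ) ^ (2 / 3 - δ) * η n) := by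
    have := Real.mul_self_sqrt p1.le
    linear_combination 432 * (n : ℝ) ^ (2 / 3 - δ) * this
  rw [h9] at h7
  nlinarith [mul_pos hV p1]

end Crest.Agent.T157.Soft45

end
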