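import Crest.Agent.T157.DaLip_44
import Crest.Agent.T157.LlAll_91
import Crest.Agent.T157.Soft_45

/-!
# Row 157, part C (helper44): `Da.rmtGlue`
-/

set_option autoImplicit false

noncomputable section

namespace Crest.Agent.T157.Da

open MeasureTheory Matrix Finset Filter Topology
open Crest.Agent.T157.E Crest.Agent.T157.Eig
open Crest.Agent.T157.Tap (V Mx plW GOE)
open Crest.Agent.T157.Top (Whp)
open Crest.Agent.T157.Ll (gb st msc VhpM Dom mscApi resApi vhp)
open Crest.Agent.T157.Soft45 (zp)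

theorem Vh.whp {X : ℕ → Type*} [∀ n, MeasurableSpace (X n)] {μ : ∀ n, Measure (X n)}
    {P : ∀ n, X n → Prop} (h : Vh μ P) : Whp μ P := by
  obtain ⟨c, hc, h⟩ := h
  have t1 : Tendsto (fun n : ℕ => ENNReal.ofReal (Real.exp (-(n : ℝ) ^ c))) atTop (𝓝 0) := by
    rw [← ENNReal.ofReal_zero]
    exact ENNReal.tendsto_ofReal (Real.tendsto_exp_neg_atTop_nhds_zero.comp
      ((tendsto_rpow_atTop hc).comp tendsto_natCast_atTop_atTop))
  exact tendsto_of_tendsto_of_tendsto_of_le_of_le' tendsto_const_nhds t1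
    (.of_forall fun _ => zero_le) h

namespace Rmt44

variable {n : ℕ} {M : Mx n} {η : ℝ}

theorem vh_of {Θ : ℕ → Type} {P : ∀ n, Θ n → Mx n → Prop} (h : VhpM P) (θ : ∀ n, Θ n) :
    Vh PP fun n z => P n (θ n) z.1 := by
  obtain ⟨c, hc, h⟩ := h.goe
  refine ⟨c, hc, h.mono fun n hn => le_trans (le_of_eq ?_) (hn (θ n))⟩
  have e : {z : Mx n × V n | ¬ P n (θ n) z.1} = {W | ¬ P n (θ n) W} ×ˢ Set.univ := by
    ext z; simp
  rw [e, Measure.prod_prod, measure_univ, mul_one]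

theorem vand {Θ : ℕ → Type} {P Q : ∀ n, Θ n → Mx n → Prop} (h : VhpM P) (h' : VhpM Q) :
    VhpM fun n θ A => P n θ A ∧ Q n θ A := vhp.and h h'

theorem quad_im (F : FeApi) (hM : Mᵀ = M) (hη : 0 < η) (u : V n) :
    u ⬝ᵥ fE η M *ᵥ u = η * (gb M (zp η) u u).im := by
  have h := Ll.gb_im (herm_iff.2 hM) (z := zp η) hη u
  rw [div_eq_iff (show (zp η).im ≠ 0 from hη.ne')] at h
  rw [F.quad hM hη, h, sum_mul, mul_sum]
  refine sum_congr rfl fun k _ => ?_
  rw [norm_inv, inv_pow, Complex.sq_norm, Complex.normSq_apply]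
  simp only [zp, fl, Complex.sub_re, Complex.sub_im, Complex.ofReal_re, Complex.ofReal_im]
  rw [show (lam M k - 2) * (lam M k - 2) + (0 - η) * (0 - η) = (2 - lam M k) ^ 2 + η ^ 2 by ring]
  ring

theorem trace_im (F : FeApi) (hn : 0 < n) (hM : Mᵀ = M) (hη : 0 < η) :
    (fE η M).trace = n * (η * (st M (zp η)).im) := by
  have hn' : (n : ℝ) ≠ 0 := by exact_mod_cast hn.ne'
  have e : (fE η M).trace = ∑ k, Ll.ee k ⬝ᵥ fE η M *ᵥ Ll.ee k := by
    simp [trace, Ll.ee]
  rw [e, resApi.st_eq, ← Complex.ofReal_natCast, Complex.div_ofReal_im, Complex.im_sum]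
  simp only [quad_im F hM hη, ← mul_sum]
  field_simp

theorem num : ∀ᶠ n : ℕ in atTop, 0 < n ∧ ∀ η, e0 n ≤ η → 0 < η ∧
    576 * (n : ℝ) ^ (1 / 60 : ℝ) ≤ Nb n η ∧ (η ≤ 1 → Dom 2 (1 / 3) n (zp η)) := by
  filter_upwards [eventually_gt_atTop 0,
    Lip44.ev_small (c := 1 / 120) (κ := 1 / 576) (by norm_num) (by norm_num)] with n hn h1
  have hn' : (0 : ℝ) < n := by exact_mod_cast hn
  have hn1 : (1 : ℝ) ≤ n := by exact_mod_cast hn
  have z0 : 0 < e0 n := Real.rpow_pos_of_pos hn' _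
  refine ⟨hn, fun η hη => ⟨z0.trans_le hη, ?_, fun h => ⟨by simp [zp], ?_, by simp only [zp]; linarith⟩⟩⟩
  · have h2 : Nb n (e0 n) ≤ Nb n η := by unfold Nb; gcongr; exact z0.le.trans hη
    have h3 : (n : ℝ) ^ (1 / 60 : ℝ) = (n : ℝ) ^ (-(1 / 120 : ℝ)) * Nb n (e0 n) := by
      rw [Nb, e0, Real.sqrt_eq_rpow, ← Real.rpow_mul hn'.le, ← Real.rpow_add hn']
      nth_rewrite 3 [← Real.rpow_one n]
      rw [← Real.rpow_add hn', ← Real.rpow_add hn']
      norm_num
    have h4 : 0 ≤ Nb n (e0 n) := by unfold Nb; positivity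
    rw [h3]
    linarith [mul_le_mul_of_nonneg_right h1 h4]
  · exact le_trans (Real.rpow_le_rpow_of_exponent_le hn1 (by norm_num)) hη

theorem msc_le (hη : 0 < η) : (msc (zp η)).im ≤ 2 * √η := by
  rcases le_total η (1 / 4) with h | h
  · exact Soft45.msc_im_le mscApi hη hη.le h (by rw [Soft45.norm_zp_sub η hη.le]; linarith)
  · have h1 := (Complex.im_le_norm _).trans (mscApi.norm_le (z := zp η) hη)
    have h2 : 1 / 2 ≤ √η := Real.le_sqrt_of_sq_le (by linarith)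
    linarith

theorem im_close {a b : ℂ} {r : ℝ} (h : ‖a - b‖ ≤ r) : |a.im - b.im| ≤ r := by
  rw [← Complex.sub_im]; exact (Complex.abs_im_le_norm _).trans h

end Rmt44

open Rmt44

theorem rmtGlue : RmtGlue := by
  intro F
  have hG := Ll.All.good (ε := 1 / 60) (by norm_num)
  have hA := Ll.All.avgStmt 2 (1 / 3) (1 / 60) (by norm_num) (by norm_num)
  have hGA := vand hG hA
  refine ⟨(vh_of hGA fun _ => ()).mono ?_, ?_, fun η hη => ⟨η * (msc (zp η)).im,
    mul_pos hη.1 (mscApi.im_pos hη.1), fun δ hδ => ((vh_of hGA fun _ => ()).mono ?_).whp⟩⟩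
  · filter_upwards [num] with n ⟨hn, h⟩ z ⟨⟨g1, g2, g3⟩, a⟩
    have hn' : (0 : ℝ) < n := by exact_mod_cast hn
    have hp : 0 ≤ (n : ℝ) ^ (1 / 60 : ℝ) := by positivity
    refine ⟨herm_iff.1 g1, g2.trans_eq (by rw [e0]; norm_num), fun η hη => ?_, fun η hη => ?_,
      fun η hη => ?_⟩ <;> obtain ⟨h0, h1, h2⟩ := h η hη.1
    · have := g3.le_edge_cnt h0.le (by linarith [hη.2])
      unfold Nb at *; linarith
    · have := g3.edge_cnt_le h0.le
      unfold Nb at *; linarith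
    · have h3 := (abs_le.1 (im_close (a _ (h2 hη.2)).1)).2
      have h4 := mul_le_mul_of_nonneg_left h3 (mul_pos hn' h0).le
      have h5 : n * η * ((n : ℝ) ^ (1 / 60 : ℝ) * Ll.qq n (zp η)) = (n : ℝ) ^ (1 / 60 : ℝ) := by
        simp only [Ll.qq, zp]; field_simp
      have h6 := mul_le_mul_of_nonneg_left (msc_le h0) (mul_pos hn' h0).le
      rw [trace_im F hn (herm_iff.1 g1) h0]
      unfold Nb at *; linarith
  · have hI := Ll.All.isoStmt 2 (1 / 3) (1 / 120) (by norm_num) (by norm_num)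
    have hG' : VhpM (Θ := fun n => V n × V n) fun n _ A => Ll.Rig.Good (1 / 60) n A :=
      vhp.comp (fun _ _ => ()) hG
    have hGI := vand hG' hI
    refine (vh_of hGI fun n => ((√n)⁻¹ • (1 : V n), (√n)⁻¹ • (1 : V n))).mono ?_
    filter_upwards [num] with n ⟨hn, h⟩ z ⟨⟨g1, _, _⟩, a⟩ η hη
    obtain ⟨h0, h1, h2⟩ := h η hη.1
    have hn' : (0 : ℝ) < n := by exact_mod_cast hn
    have hs : 0 < √η := Real.sqrt_pos.2 h0
    have hss : √η * √η = η := Real.mul_self_sqrt h0.le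
    obtain ⟨u, hu⟩ : ∃ u : V n, u = (√n)⁻¹ • (1 : V n) := ⟨_, rfl⟩
    have hi : (√(n : ℝ))⁻¹ * (√(n : ℝ))⁻¹ = (n : ℝ)⁻¹ := by
      rw [← mul_inv, Real.mul_self_sqrt hn'.le]
    have hq : ∀ B : Mx n, (1 : V n) ⬝ᵥ B *ᵥ (1 : V n) = n * (u ⬝ᵥ B *ᵥ u) := fun B => by
      rw [hu, mulVec_smul, smul_dotProduct, dotProduct_smul, smul_eq_mul, smul_eq_mul,
        ← mul_assoc (√(n : ℝ))⁻¹, hi, ← mul_assoc, mul_inv_cancel₀ hn'.ne', one_mul]
    have hu1 : u ⬝ᵥ u = 1 := by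
      have := hq 1
      rw [one_mulVec, one_mulVec] at this
      refine mul_left_cancel₀ hn'.ne' (this.symm.trans ?_)
      simp [dotProduct]
    rw [← hu] at a
    have a1 := a hu1.le hu1.le _ (h2 (by linarith [hη.2])) u u (Or.inl rfl) (Or.inl rfl)
    rw [hu1, Complex.ofReal_one, mul_one] at a1
    have hp1 : 1 ≤ (n : ℝ) ^ (1 / 60 : ℝ) := Real.one_le_rpow (by exact_mod_cast hn) (by norm_num)
    have q1 : 1 / (n * η) ≤ √η := by
      rw [div_le_iff₀ (by positivity)]; unfold Nb at h1; linarith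
    have a2 := Soft45.Psi_le (n := n) (z := zp η) h0 (q := 1 / (n * η)) rfl (by positivity) q1
      (msc_le h0)
    have a3 : (n : ℝ) ^ (1 / 120 : ℝ) * (3 * √(1 / (n * η) * √η)) ≤ √η / 8 := by
      refine abs_le_of_sq_le_sq' ?_ (by positivity) |>.2
      rw [mul_pow, mul_pow, Real.sq_sqrt (by positivity), ← Real.rpow_natCast,
        ← Real.rpow_mul hn'.le, div_pow, Real.sq_sqrt h0.le]
      norm_num
      have h3 := mul_le_mul_of_nonneg_right h1 (by positivity : 0 ≤ η⁻¹ * (n : ℝ)⁻¹ * √η)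
      have h4 : Nb n η * (η⁻¹ * (n : ℝ)⁻¹ * √η) = η := by
        unfold Nb; field_simp; rw [Real.sq_sqrt h0.le]
      linarith
    have a4 := abs_le.1 (im_close (a1.trans ((mul_le_mul_of_nonneg_left a2 (by positivity)).trans a3)))
    have a5 := Soft45.le_msc_im mscApi h0 hη.2
    have a6 := msc_le h0
    have hG1 := herm_iff.1 g1
    constructor
    · rw [hq, quad_im F hG1 h0, Nb]
      have := mul_le_mul_of_nonneg_left (by linarith : (gb z.1 (zp η) u u).im ≤ 4 * √η)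
        (mul_pos hn' h0).le
      linarith
    · have e : plW 1 z.1 1 = z.1 + vecMulVec u u - (0 : ℝ) • (1 : Mx n) := by
        rw [zero_smul, sub_zero, plW, hu, vecMulVec_smul, smul_vecMulVec, smul_smul, hi, one_div]
      have b1 := Soft45.gb_rank_one g1 u 0 (z := zp η) h0.ne'
      rw [← e, Complex.ofReal_zero, add_zero] at b1
      have i0 : √η / 8 ≤ (gb z.1 (zp η) u u).im := by linarith
      have i1 : 0 < (gb z.1 (zp η) u u).im := lt_of_lt_of_le (by positivity) i0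
      have b2 := Soft45.im_of_rank_one b1 i1
      have b3 : (gb z.1 (zp η) u u).im ≤ ‖1 + gb z.1 (zp η) u u‖ := by
        simpa using Complex.im_le_norm (1 + gb z.1 (zp η) u u)
      have b4 : (gb (plW 1 z.1 1) (zp η) u u).im ≤ 8 / √η := by
        rw [b2]
        calc _ ≤ (gb z.1 (zp η) u u).im / (gb z.1 (zp η) u u).im ^ 2 := by gcongr
          _ = 1 / (gb z.1 (zp η) u u).im := by field_simp
          _ ≤ 1 / (√η / 8) := by gcongr
          _ = _ := by field_simp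
      rw [hq, quad_im F (Lip44.plW_symm hG1) h0]
      calc _ ≤ n * (η * (8 / √η)) := by gcongr
        _ = _ := by field_simp; rw [Real.sq_sqrt h0.le]
  · filter_upwards [num, Lip44.ev_small (c := 13 / 20) (by norm_num) hη.1,
      Lip44.ev_small (c := 59 / 60) (by norm_num) hδ] with n ⟨hn, h⟩ e1 e2 z ⟨⟨g1, _, _⟩, a⟩
    obtain ⟨h0, h1, h2⟩ := h η e1
    have hn' : (0 : ℝ) < n := by exact_mod_cast hn
    have h3 := mul_le_mul_of_nonneg_left (im_close (a _ (h2 (by linarith [hη.2]))).1)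
      (mul_pos hn' h0).le
    have h5 : n * η * ((n : ℝ) ^ (1 / 60 : ℝ) * Ll.qq n (zp η)) = (n : ℝ) ^ (-(59 / 60 : ℝ)) * n := by
      rw [← Real.rpow_add_one hn'.ne']
      simp only [Ll.qq, zp]; field_simp; norm_num
    rw [trace_im F hn (herm_iff.1 g1) h0, show n * (η * (st z.1 (zp η)).im) -
      η * (msc (zp η)).im * n = n * η * ((st z.1 (zp η)).im - (msc (zp η)).im) by ring, abs_mul,
      abs_of_pos (mul_pos hn' h0)]
    exact h3.trans (h5.le.trans (mul_le_mul_of_nonneg_right e2 hn'.le))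

theorem specStmt : SpecStmt := (rmtGlue feApi).1
theorem isoStmt : IsoStmt := (rmtGlue feApi).2.1
theorem trStmt : TrStmt := (rmtGlue feApi).2.2

end Crest.Agent.T157.Da

end
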