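import Crest.Agent.T157.DaDef_82
import Crest.Agent.T157.NrmS_84
import Crest.Agent.T157.ConcHW_16

/-!
# Row 157, part C (helper46): tools for rotations inside a spectral window

Householder reflections `hs d`, the matrix `Pm G m` of the first `m` eigenvectors, soft vectors,
a net bound for positive matrices and the averaging lemma `core` for the Haar law.
-/

set_option autoImplicit false

noncomputable section

namespace Crest.Agent.T157.Da.Rot46

open MeasureTheory ProbabilityTheory Matrix Filter Set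
open Crest.Agent.T157.E Crest.Agent.T157.Eig
open Crest.Agent.T157.Tap (V Mx)
open Crest.Agent.T157.Conc (fro)
open Crest.Agent.R164.Haar (Mat RHaar rmul)

variable {n m : ℕ}

/-! ### Householder reflections -/

/-- reflection in the hyperplane orthogonal to `d` (the identity if `d = 0`) -/
def hs (d : V n) : Mx n := 1 - (2 / (d ⬝ᵥ d)) • vecMulVec d d

lemma vv_mulVec (a b x : V n) : vecMulVec a b *ᵥ x = (b ⬝ᵥ x) • a := by
  ext i
  simp only [mulVec, dotProduct, vecMulVec_apply, Pi.smul_apply, smul_eq_mul, Finset.sum_mul]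
  exact Finset.sum_congr rfl fun j _ => by ring

lemma hs_symm (d : V n) : (hs d)ᵀ = hs d := by
  simp only [hs, transpose_sub, transpose_one, transpose_smul, transpose_vecMulVec]

lemma hs_mulVec (d x : V n) : hs d *ᵥ x = x - (2 / (d ⬝ᵥ d) * (d ⬝ᵥ x)) • d := by
  rw [hs, sub_mulVec, one_mulVec, smul_mulVec, vv_mulVec, smul_smul]

lemma hs_hs (d x : V n) : hs d *ᵥ (hs d *ᵥ x) = x := by
  rw [hs_mulVec, hs_mulVec, dotProduct_sub, dotProduct_smul, smul_eq_mul, sub_sub, ← add_smul]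
  by_cases h : d ⬝ᵥ d = 0
  · simp [h]
  · have : 2 / (d ⬝ᵥ d) * (d ⬝ᵥ x) +
        2 / (d ⬝ᵥ d) * (d ⬝ᵥ x - 2 / (d ⬝ᵥ d) * (d ⬝ᵥ x) * (d ⬝ᵥ d)) = 0 := by
      field_simp; ring
    rw [this, zero_smul, sub_zero]

lemma hs_mul_self (d : V n) : hs d * hs d = 1 := by
  refine Matrix.ext_of_mulVec_single fun i => ?_
  rw [← mulVec_mulVec, hs_hs, one_mulVec]

lemma hs_mem (d : V n) : hs d ∈ Matrix.orthogonalGroup (Fin n) ℝ := by
  rw [Matrix.mem_orthogonalGroup_iff, hs_symm, hs_mul_self]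

lemma hs_iso (d : V n) : (hs d)ᵀ * hs d = 1 := by rw [hs_symm, hs_mul_self]

lemma hs_swap {a w : V n} (h : a ⬝ᵥ a = w ⬝ᵥ w) : hs (a - w) *ᵥ a = w := by
  rw [hs_mulVec]
  by_cases h0 : (a - w) ⬝ᵥ (a - w) = 0
  · have : a - w = 0 := dotProduct_self_eq_zero.1 h0
    rw [this, smul_zero, sub_zero]
    exact sub_eq_zero.1 this
  · have e : (a - w) ⬝ᵥ (a - w) = 2 * ((a - w) ⬝ᵥ a) := by
      simp only [sub_dotProduct, dotProduct_sub, dotProduct_comm w a]
      linarith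
    have h1 : (a - w) ⬝ᵥ a ≠ 0 := fun h1 => h0 (by rw [e, h1, mul_zero])
    have : 2 / ((a - w) ⬝ᵥ (a - w)) * ((a - w) ⬝ᵥ a) = 1 := by
      rw [e]; field_simp
    rw [this, one_smul, sub_sub_cancel]

/-- the reflection in an almost null vector of `T` moves `T` only a little -/
lemma opn_hs_conj {T : Mx n} (hT : Tᵀ = T) {d : V n} {e : ℝ} (he : 0 ≤ e)
    (h : nrm (T *ᵥ d) ≤ e * nrm d) : opn (hs d * T * hs d - T) ≤ 4 * e := by
  have e1 : hs d * T * hs d - T = hs d * (T * hs d - hs d * T) := by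
    rw [Matrix.mul_sub, ← Matrix.mul_assoc, ← Matrix.mul_assoc, hs_mul_self, Matrix.one_mul]
  have e2 : T * hs d - hs d * T =
      (2 / (d ⬝ᵥ d)) • (vecMulVec d (T *ᵥ d) - vecMulVec (T *ᵥ d) d) := by
    have h1 : T * vecMulVec d d = vecMulVec (T *ᵥ d) d := mul_vecMulVec T d d
    have h2 : vecMulVec d d * T = vecMulVec d (T *ᵥ d) := by
      rw [vecMulVec_mul, ← mulVec_transpose, hT]
    rw [hs, Matrix.mul_sub, Matrix.sub_mul, Matrix.mul_one, Matrix.one_mul, Matrix.mul_smul,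
      Matrix.smul_mul, h1, h2, smul_sub]
    abel
  have h3 : opn (T * hs d - hs d * T) ≤ 4 * e := by
    rw [e2, opn_smul]
    have h4 := opn_sub_le (vecMulVec d (T *ᵥ d)) (vecMulVec (T *ᵥ d) d)
    have h5 := opn_vecMulVec_le d (T *ᵥ d)
    have h6 := opn_vecMulVec_le (T *ᵥ d) d
    have h7 : nrm d * nrm (T *ᵥ d) ≤ e * (d ⬝ᵥ d) := by
      rw [← nrm_mul_self]
      nlinarith [mul_le_mul_of_nonneg_left h (nrm_nonneg d)]
    have h8 : opn (vecMulVec d (T *ᵥ d) - vecMulVec (T *ᵥ d) d) ≤ 2 * (e * (d ⬝ᵥ d)) := by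
      nlinarith
    rcases (dot_self_nonneg d).eq_or_lt with h0 | h0
    · rw [← h0]; simp; positivity
    · rw [abs_of_pos (by positivity)]
      calc 2 / (d ⬝ᵥ d) * opn (vecMulVec d (T *ᵥ d) - vecMulVec (T *ᵥ d) d)
          ≤ 2 / (d ⬝ᵥ d) * (2 * (e * (d ⬝ᵥ d))) := by gcongr
        _ = 4 * e := by field_simp; ring
  rw [e1]
  refine (opn_mul_le _ _).trans ?_
  have := opn_isom_le (hs_iso d)
  nlinarith [opn_nonneg (T * hs d - hs d * T), opn_nonneg (hs d)]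

/-- the trace over a subspace containing `d` does not see the reflection -/
lemma trace_hs {P : Matrix (Fin n) (Fin m) ℝ} {d : V n} (hd : P *ᵥ (Pᵀ *ᵥ d) = d) (X : Mx n) :
    (Pᵀ * (hs d * X * hs d) * P).trace = (Pᵀ * X * P).trace := by
  have h0 : (P * Pᵀ) *ᵥ d = d := by rw [← mulVec_mulVec, hd]
  have h1 : hs d * (P * Pᵀ) = (P * Pᵀ) * hs d := by
    have h2 : (P * Pᵀ) * vecMulVec d d = vecMulVec d d := by rw [mul_vecMulVec, h0]
    have h3 : vecMulVec d d * (P * Pᵀ) = vecMulVec d d := by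
      rw [vecMulVec_mul, ← mulVec_transpose, transpose_mul, transpose_transpose, h0]
    rw [hs, Matrix.mul_sub, Matrix.sub_mul, Matrix.mul_one, Matrix.one_mul, Matrix.mul_smul,
      Matrix.smul_mul, h2, h3]
  rw [trace_mul_comm, trace_mul_comm (Pᵀ * X), ← Matrix.mul_assoc, ← Matrix.mul_assoc P,
    ← Matrix.mul_assoc, ← Matrix.mul_assoc, trace_mul_comm, ← Matrix.mul_assoc,
    ← Matrix.mul_assoc, h1, Matrix.mul_assoc (P * Pᵀ), hs_mul_self, Matrix.mul_one]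

/-! ### the first eigenvectors -/

/-- the first `m` eigenvectors as columns -/
def Pm (G : Mx n) (m : ℕ) : Matrix (Fin n) (Fin m) ℝ := Matrix.of fun i k => vec G k i

/-- `x` lies in the span of the first `m` eigenvectors -/
def Soft (G : Mx n) (m : ℕ) (x : V n) : Prop := ∀ k, m ≤ k → vec G k ⬝ᵥ x = 0

variable {G : Mx n}

lemma PmT_mulVec (x : V n) (k : Fin m) : ((Pm G m)ᵀ *ᵥ x) k = vec G k ⬝ᵥ x := rfl

lemma Pm_iso (hG : G.IsHermitian) (hm : m ≤ n) : (Pm G m)ᵀ * Pm G m = 1 := by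
  ext k l
  have h := vec_dot hG (k := k) (l := l) (by simp; omega) (by simp; omega)
  rw [Matrix.one_apply]
  simp only [Fin.ext_iff]
  rw [← h]
  rfl

lemma Pm_mulVec (z : Fin m → ℝ) : Pm G m *ᵥ z = ∑ k : Fin m, z k • vec G k := by
  ext i
  simp only [mulVec, dotProduct, Pm, of_apply, Finset.sum_apply, Pi.smul_apply, smul_eq_mul]
  exact Finset.sum_congr rfl fun k _ => mul_comm _ _

lemma soft_Pm (hG : G.IsHermitian) {l : ℕ} (hml : m ≤ l) (z : Fin m → ℝ) :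
    Soft G l (Pm G m *ᵥ z) := fun k hk => by
  rw [Pm_mulVec, dotProduct_sum]
  refine Finset.sum_eq_zero fun j _ => ?_
  rw [dotProduct_smul, vec_dot_ne hG (by omega), smul_zero]

lemma Soft.sub {x y : V n} (hx : Soft G m x) (hy : Soft G m y) : Soft G m (x - y) :=
  fun k hk => by rw [dotProduct_sub, hx k hk, hy k hk, sub_zero]

lemma vec_dot_Pm (hG : G.IsHermitian) (hm : m ≤ n) (z : Fin m → ℝ) (k : Fin m) :
    vec G k ⬝ᵥ (Pm G m *ᵥ z) = z k := by
  rw [← PmT_mulVec, mulVec_mulVec, Pm_iso hG hm, one_mulVec]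

lemma Pm_proj (hG : G.IsHermitian) (hm : m ≤ n) {x : V n} (hx : Soft G m x) :
    Pm G m *ᵥ ((Pm G m)ᵀ *ᵥ x) = x := by
  have h : (Pm G m *ᵥ ((Pm G m)ᵀ *ᵥ x) - x) ⬝ᵥ (Pm G m *ᵥ ((Pm G m)ᵀ *ᵥ x) - x) = 0 := by
    rw [dot_eq hG]
    refine Finset.sum_eq_zero fun k _ => ?_
    rcases lt_or_ge k m with hk | hk
    · have := vec_dot_Pm hG hm ((Pm G m)ᵀ *ᵥ x) ⟨k, hk⟩
      rw [dotProduct_sub, this, PmT_mulVec, sub_self, mul_zero]
    · rw [((soft_Pm hG le_rfl _).sub hx) k hk, mul_zero]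
  exact sub_eq_zero.1 (dotProduct_self_eq_zero.1 h)

lemma vec_dot_tm (hG : G.IsHermitian) (k : ℕ) (x : V n) :
    vec G k ⬝ᵥ tm G *ᵥ x = (2 - lam G k) * (vec G k ⬝ᵥ x) := by
  rw [tm, sub_mulVec, smul_mulVec, one_mulVec, dotProduct_sub, dotProduct_smul,
    vec_dot_mulVec hG, smul_eq_mul, sub_mul]

lemma soft_nrm (hG : G.IsHermitian) {x : V n} (hx : Soft G m x) {e : ℝ} (he : 0 ≤ e)
    (h : ∀ k < m, |2 - lam G k| ≤ e) : nrm (tm G *ᵥ x) ≤ e * nrm x := by
  rw [nrm_le_iff (mul_nonneg he (nrm_nonneg x)), mul_pow, nrm_sq, dot_eq hG, dot_eq hG x x,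
    Finset.mul_sum]
  refine Finset.sum_le_sum fun k _ => ?_
  rw [vec_dot_tm hG]
  rcases lt_or_ge k m with hk | hk
  · have h1 : (2 - lam G k) ^ 2 ≤ e ^ 2 := by
      rw [← sq_abs]; exact pow_le_pow_left₀ (abs_nonneg _) (h k hk) 2
    nlinarith [mul_le_mul_of_nonneg_right h1 (mul_self_nonneg (vec G k ⬝ᵥ x))]
  · rw [hx k hk]; simp

lemma trace_Pm (X : Mx n) :
    ((Pm G m)ᵀ * X * Pm G m).trace = ∑ k ∈ Finset.range m, vec G k ⬝ᵥ X *ᵥ vec G k := by
  rw [← Fin.sum_univ_eq_sum_range (fun k => vec G k ⬝ᵥ X *ᵥ vec G k), Matrix.mul_assoc]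
  rfl

lemma opn_compress {P : Matrix (Fin n) (Fin m) ℝ} (hP : Pᵀ * P = 1) (X : Mx n) :
    opn (Pᵀ * X * P) ≤ opn X := by
  have h1 := opn_isom_le hP
  have h2 : opn Pᵀ ≤ 1 := by rwa [opn_transpose]
  have h3 := opn_mul_le (Pᵀ * X) P
  have h4 := opn_mul_le Pᵀ X
  have h5 := opn_nonneg X
  have h6 := opn_nonneg (Pᵀ * X)
  have h7 := opn_nonneg P
  have h8 := opn_nonneg Pᵀ
  nlinarith

lemma abs_trace_le (X : Matrix (Fin m) (Fin m) ℝ) : |X.trace| ≤ m * opn X := by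
  refine (Finset.abs_sum_le_sum_abs _ _).trans ?_
  refine (Finset.sum_le_sum fun i _ => abs_entry_le X i i).trans (le_of_eq ?_)
  simp

lemma fro_le_opn (X : Matrix (Fin m) (Fin m) ℝ) : fro X ≤ m * opn X ^ 2 := by
  rw [← Conc.fro_transpose, fro]
  have h : ∀ i, ∑ j, Xᵀ i j ^ 2 ≤ opn X ^ 2 := fun i => by
    have := mulVec_dot_le X (Pi.single i 1)
    simp only [mulVec_single_one, single_dotProduct, Pi.single_eq_same, mul_one] at this
    refine le_trans (le_of_eq ?_) this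
    simp only [dotProduct, sq]
    rfl
  refine (Finset.sum_le_sum fun i _ => h i).trans (le_of_eq ?_)
  simp

/-! ### positive matrices -/

section psd
variable {ι : Type*} [Fintype ι] [DecidableEq ι] {M : Matrix ι ι ℝ}

omit [DecidableEq ι] in
lemma psd_nonneg (hM : M.PosSemidef) (x : ι → ℝ) : 0 ≤ x ⬝ᵥ M *ᵥ x := by
  simpa using hM.dotProduct_mulVec_nonneg x

omit [DecidableEq ι] in
lemma psd_add (hM : M.PosSemidef) (a b : ι → ℝ) :
    (a + b) ⬝ᵥ M *ᵥ (a + b) ≤ 2 * (a ⬝ᵥ M *ᵥ a) + 2 * (b ⬝ᵥ M *ᵥ b) := by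
  have h := psd_nonneg hM (a - b)
  simp only [mulVec_add, mulVec_sub, add_dotProduct, dotProduct_add, sub_dotProduct,
    dotProduct_sub] at h ⊢
  linarith

lemma opn_le_of_psd (hM : M.PosSemidef) {c : ℝ} (hc : 0 ≤ c)
    (h : ∀ v, v ⬝ᵥ M *ᵥ v ≤ c * (v ⬝ᵥ v)) : opn M ≤ c :=
  opn_le_of_quad hM.isHermitian hc fun v => by rw [abs_of_nonneg (psd_nonneg hM v)]; exact h v

/-- the norm of a positive matrix from the quadratic form on a half-net -/
lemma opn_le_net (hM : M.PosSemidef) {N : Finset (ι → ℝ)}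
    (hN : ∀ v, nrm v ≤ 1 → ∃ c ∈ N, nrm (v - c) ≤ 1 / 2) {s : ℝ} (hs : 0 ≤ s)
    (h : ∀ c ∈ N, c ⬝ᵥ M *ᵥ c ≤ s) : opn M ≤ 4 * s := by
  have h0 := opn_nonneg M
  suffices opn M ≤ 2 * s + opn M / 2 by linarith
  refine opn_le_of_lam hM.isHermitian (by linarith) fun k hk => ?_
  have hv := vec_dot_self hM.isHermitian hk
  obtain ⟨c, hc, hvc⟩ := hN (vec M k) (by rw [nrm, hv, Real.sqrt_one])
  have h1 := psd_add hM c (vec M k - c)
  rw [add_sub_cancel] at h1
  have h2 := (le_abs_self _).trans (abs_quad_le M (vec M k - c))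
  have h3 : (vec M k - c) ⬝ᵥ (vec M k - c) ≤ (1 / 2) ^ 2 := (nrm_le_iff (by norm_num)).1 hvc
  rw [← quad_vec hM.isHermitian hk, abs_of_nonneg (psd_nonneg hM _)]
  nlinarith [h c hc, mul_le_mul_of_nonneg_left h3 h0]

omit [DecidableEq ι] in
lemma psd_compress {κ : Type*} [Fintype κ] (hM : M.PosSemidef) (P : Matrix ι κ ℝ) :
    (Pᵀ * M * P).PosSemidef := by
  simpa only [conjTranspose_eq_transpose_of_trivial] using hM.conjTranspose_mul_mul_same P

end psd

/-! ### averaging over an independent choice of the rotation -/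

lemma core {Z : Type*} [MeasurableSpace Z] {ν : Measure (Mat (Fin n))} [IsProbabilityMeasure ν]
    (hν : RHaar ν) (μ : Measure Z) [IsProbabilityMeasure μ] {E : Set (Mat (Fin n))}
    (hE : MeasurableSet E) {F : Set (Mat (Fin n) × Z)} (hF : MeasurableSet F) {p : ℝ} (hp : 0 ≤ p)
    (h1 : ∀ᵐ z ∂μ, ∃ Q ∈ Matrix.orthogonalGroup (Fin n) ℝ, ∀ O : Mat (Fin n),
      Matrix.of O ∈ Matrix.orthogonalGroup (Fin n) ℝ → rmul Q O ∈ E → (O, z) ∈ F)
    (h2 : ∀ O : Mat (Fin n), Matrix.of O ∈ Matrix.orthogonalGroup (Fin n) ℝ →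
      μ.real {z | (O, z) ∈ F} ≤ p) : ν.real E ≤ p := by
  refine ENNReal.toReal_le_of_le_ofReal hp ?_
  calc ν E = ∫⁻ _, ν E ∂μ := by simp
    _ ≤ ∫⁻ z, ν ((fun O => (O, z)) ⁻¹' F) ∂μ := by
        refine lintegral_mono_ae ?_
        filter_upwards [h1] with z hz
        obtain ⟨Q, hQ, hz⟩ := hz
        conv_lhs => rw [← hν.inv Q hQ]
        rw [Measure.map_apply (R164.Haar.continuous_rmul Q).measurable hE]
        refine measure_mono_ae ?_
        filter_upwards [hν.mem] with O hO hOE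
        exact hz O hO hOE
    _ = ν.prod μ F := (Measure.prod_apply_symm hF).symm
    _ = ∫⁻ O, μ (Prod.mk O ⁻¹' F) ∂ν := Measure.prod_apply hF
    _ ≤ ∫⁻ _, ENNReal.ofReal p ∂ν := by
        refine lintegral_mono_ae ?_
        filter_upwards [hν.mem] with O hO
        exact (ENNReal.le_ofReal_iff_toReal_le (measure_ne_top _ _) hp).2 (h2 O hO)
    _ = ENNReal.ofReal p := by simp

end Crest.Agent.T157.Da.Rot46

end
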