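import Crest.Agent.T157.DaRotA_46

/-!
# Row 157, part C (helper46): `Da.rotGlue`

Random reflections inside the microscopic window turn a small window trace into a small
window norm.
-/

set_option autoImplicit false

noncomputable section

namespace Crest.Agent.T157.Da

open MeasureTheory ProbabilityTheory Matrix Filter Set
open Crest.Agent.T157.E Crest.Agent.T157.Eig
open Crest.Agent.T157.Tap (V Mx)
open Crest.Agent.T157.Conc (fro)
open Crest.Agent.R164.Haar (Mat RHaar rmul)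

namespace Rot46

variable {n m : ℕ} {G : Mx n}

/-! ### conjugation -/

lemma orth1 {O : Mx n} (hO : O ∈ Matrix.orthogonalGroup (Fin n) ℝ) : Oᵀ * O = 1 :=
  (Matrix.mem_orthogonalGroup_iff' _ _).1 hO

lemma orth2 {O : Mx n} (hO : O ∈ Matrix.orthogonalGroup (Fin n) ℝ) : O * Oᵀ = 1 :=
  (Matrix.mem_orthogonalGroup_iff _ _).1 hO

lemma opn_conj {O : Mx n} (hO : O ∈ Matrix.orthogonalGroup (Fin n) ℝ) (X : Mx n) :
    opn (O * X * Oᵀ) ≤ opn X := by
  have := opn_compress (P := Oᵀ) (by rw [transpose_transpose, orth2 hO]) X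
  rwa [transpose_transpose] at this

lemma ball_cj (hG : Ball G) {O : Mat (Fin n)}
    (hO : Matrix.of O ∈ Matrix.orthogonalGroup (Fin n) ℝ) : Ball (cj O G) :=
  ⟨by rw [cj, transpose_mul, transpose_mul, transpose_transpose, hG.1, Matrix.mul_assoc],
    (opn_conj hO G).trans hG.2⟩

lemma measurable_of : Measurable fun O : Mat (Fin n) => (Matrix.of O : Mx n) := measurable_id

lemma measurable_cj (G : Mx n) : Measurable fun O : Mat (Fin n) => cj O G :=
  (measurable_of.t157_mul measurable_const).t157_mul measurable_of.t157_transpose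

/-- the matrix `B` seen in the rotated frame -/
def MO (B : Mx n × V n → Mx n) (G : Mx n) (ξ : V n) (O : Mat (Fin n)) : Mx n :=
  (Matrix.of O)ᵀ * B (cj O G, ξ) * Matrix.of O

variable {B : Mx n × V n → Mx n} {C : ℝ} {ξ : V n}

lemma measurable_MO (hB : Measurable B) (G : Mx n) (ξ : V n) : Measurable (MO B G ξ) :=
  (measurable_of.t157_transpose.t157_mul
    (hB.comp ((measurable_cj G).prodMk measurable_const))).t157_mul measurable_of

lemma MO_psd (hL : LipJ C B) (hG : Ball G) {O : Mat (Fin n)}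
    (hO : Matrix.of O ∈ Matrix.orthogonalGroup (Fin n) ℝ) : (MO B G ξ O).PosSemidef :=
  psd_compress (hL.psd (cj O G, ξ) (ball_cj hG hO)) _

lemma MO_opn (hL : LipJ C B) (hG : Ball G) {O : Mat (Fin n)}
    (hO : Matrix.of O ∈ Matrix.orthogonalGroup (Fin n) ℝ) : opn (MO B G ξ O) ≤ C :=
  (opn_compress (orth1 hO) _).trans (hL.bd (cj O G, ξ) (ball_cj hG hO))

/-! ### reduction to windows -/

lemma fl_nonneg (η l : ℝ) : 0 ≤ fl η l := by unfold fl; positivity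

lemma half_le_fl {η l : ℝ} (hη : 0 < η) (h : |2 - l| ≤ η) : 1 / 2 ≤ fl η l := by
  have h1 : (2 - l) ^ 2 ≤ η ^ 2 := by
    rw [← sq_abs]; exact pow_le_pow_left₀ (abs_nonneg _) h 2
  rw [fl, le_div_iff₀ (by positivity)]
  linarith

lemma fl_le {η η' l : ℝ} (hη : 0 < η') (h : l < 2 - η') : fl η l ≤ (η / η') ^ 2 := by
  have h1 : η' ^ 2 ≤ (2 - l) ^ 2 := pow_le_pow_left₀ hη.le (by linarith) 2
  rw [fl, div_pow]
  exact div_le_div_of_nonneg_left (sq_nonneg _) (by positivity) (by nlinarith [sq_nonneg η])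

lemma vec_dot_fE (hF : FeApi) (hG : Gᵀ = G) {η : ℝ} (hη : 0 < η) (k : ℕ) (u : V n) :
    vec G k ⬝ᵥ fE η G *ᵥ u = fl η (lam G k) * (vec G k ⬝ᵥ u) := by
  rw [dot_symm (hF.psd hG hη).isHermitian, hF.eig hG hη, dotProduct_smul, smul_eq_mul,
    dotProduct_comm]

lemma opn_fMf (hF : FeApi) (hG : Gᵀ = G) {η : ℝ} (hη : 0 < η) {M : Mx n} (hM : M.PosSemidef)
    (hm : m ≤ n) {r : ℝ} (hr : ∀ k, m ≤ k → k < n → fl η (lam G k) ≤ r) :
    opn (fE η G * M * fE η G) ≤ 2 * opn ((Pm G m)ᵀ * M * Pm G m) + 2 * (opn M * r ^ 2) := by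
  have hH : G.IsHermitian := herm_iff.2 hG
  have hf : (fE η G)ᵀ = fE η G := herm_iff.1 (hF.psd hG hη).isHermitian
  have h0 := opn_nonneg ((Pm G m)ᵀ * M * Pm G m)
  have h0' := opn_nonneg M
  have hp : (fE η G * M * fE η G).PosSemidef := by
    have := psd_compress hM (fE η G)
    rwa [hf] at this
  refine opn_le_of_psd hp (by positivity) fun u => ?_
  have e1 : u ⬝ᵥ (fE η G * M * fE η G) *ᵥ u = (fE η G *ᵥ u) ⬝ᵥ M *ᵥ (fE η G *ᵥ u) := by
    rw [← quad_compress, hf]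
  set y := fE η G *ᵥ u with hy
  set c := (Pm G m)ᵀ *ᵥ y with hc
  have h1 := psd_add hM (Pm G m *ᵥ c) (y - Pm G m *ᵥ c)
  rw [add_sub_cancel, ← quad_compress (Pm G m)] at h1
  have h2 := (le_abs_self _).trans (abs_quad_le ((Pm G m)ᵀ * M * Pm G m) c)
  have h3 := (le_abs_self _).trans (abs_quad_le M (y - Pm G m *ᵥ c))
  have h4 : c ⬝ᵥ c ≤ u ⬝ᵥ u := by
    have a1 := mulVec_dot_le (Pm G m)ᵀ y
    have a2 := mulVec_dot_le (fE η G) u
    have a3 : opn (Pm G m)ᵀ ≤ 1 := by rw [opn_transpose]; exact opn_isom_le (Pm_iso hH hm)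
    have a4 := hF.le_one hG hη
    have a5 : opn (Pm G m)ᵀ ^ 2 ≤ 1 := pow_le_one₀ (opn_nonneg _) a3
    have a6 : opn (fE η G) ^ 2 ≤ 1 := pow_le_one₀ (opn_nonneg _) a4
    nlinarith [mul_le_mul_of_nonneg_right a5 (dot_self_nonneg y),
      mul_le_mul_of_nonneg_right a6 (dot_self_nonneg u)]
  have h5 : (y - Pm G m *ᵥ c) ⬝ᵥ (y - Pm G m *ᵥ c) ≤ r ^ 2 * (u ⬝ᵥ u) := by
    rw [dot_eq hH, dot_eq hH u u, Finset.mul_sum]
    refine Finset.sum_le_sum fun k hk => ?_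
    rcases lt_or_ge k m with hk' | hk'
    · have := vec_dot_Pm hH hm c ⟨k, hk'⟩
      rw [dotProduct_sub, this, hc, PmT_mulVec, sub_self, mul_zero]
      exact mul_nonneg (sq_nonneg _) (mul_self_nonneg _)
    · rw [dotProduct_sub, soft_Pm hH le_rfl c k hk', sub_zero, hy, vec_dot_fE hF hG hη]
      have a1 := hr k hk' (by simpa using hk)
      have a2 : fl η (lam G k) ^ 2 ≤ r ^ 2 := pow_le_pow_left₀ (fl_nonneg _ _) a1 2
      nlinarith [mul_le_mul_of_nonneg_right a2 (mul_self_nonneg (vec G k ⬝ᵥ u))]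
  rw [e1]
  nlinarith [mul_le_mul_of_nonneg_left h4 h0, mul_le_mul_of_nonneg_left h5 h0']

lemma trace_le (hF : FeApi) (hG : Gᵀ = G) {η : ℝ} (hη : 0 < η) {M : Mx n} (hM : M.PosSemidef)
    (hm : m ≤ n) (hw : ∀ k < m, |2 - lam G k| ≤ η) :
    ((Pm G m)ᵀ * M * Pm G m).trace ≤ 2 * (fE η G * M).trace := by
  rw [trace_Pm, hF.trace hG hη, Finset.mul_sum]
  refine le_trans (Finset.sum_le_sum fun k hk => ?_)
    (Finset.sum_le_sum_of_subset_of_nonneg (Finset.range_mono hm) fun k _ _ =>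
      mul_nonneg two_pos.le (mul_nonneg (fl_nonneg _ _) (psd_nonneg hM _)))
  nlinarith [mul_le_mul_of_nonneg_right (half_le_fl hη (hw k (Finset.mem_range.1 hk)))
    (psd_nonneg hM (vec G k))]

/-! ### one direction -/

lemma ae_sq : ∀ᵐ z : Fin m → ℝ ∂(Measure.pi fun _ : Fin m => entryLaw true),
    z ⬝ᵥ z = (m : ℝ) := by
  have h : ∀ᵐ x ∂entryLaw true, x * x = 1 := by
    change ∀ᵐ x ∂coin, x * x = 1
    rw [ae_add_measure_iff]
    exact ⟨Measure.ae_smul_measure (by simp) _, Measure.ae_smul_measure (by simp) _⟩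
  have h2 : ∀ᵐ z ∂(Measure.pi fun _ : Fin m => entryLaw true), ∀ i, z i * z i = 1 :=
    ae_all_iff.2 fun i =>
      (measurePreserving_eval (fun _ : Fin m => entryLaw true) i).quasiMeasurePreserving.ae h
  filter_upwards [h2] with z hz
  simp [dotProduct, hz]

/-- a reflection inside the window changes `B` only a little -/
lemma opn_move (hL : LipJ C B) (hC : 0 < C) (hG : Ball G) {e δ : ℝ} (he : 0 ≤ e) (hδ : 0 ≤ δ)
    (hw : ∀ k < m, |2 - lam G k| ≤ e) (hsm : C * (n * (4 * e) ^ 2) ≤ δ ^ 2) {d : V n}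
    (hd : Soft G m d) {O : Mat (Fin n)} (hO : Matrix.of O ∈ Matrix.orthogonalGroup (Fin n) ℝ) :
    opn (B (cj (rmul (hs d) O) G, ξ) - B (cj O G, ξ)) ≤ δ := by
  have hH : G.IsHermitian := herm_iff.2 hG.1
  have hO' : Matrix.of (rmul (hs d) O) ∈ Matrix.orthogonalGroup (Fin n) ℝ :=
    mul_mem hO (hs_mem d)
  have h1 := hL.lip (cj O G, ξ) (cj (rmul (hs d) O) G, ξ) (ball_cj hG hO) (ball_cj hG hO')
  have hT : (tm G)ᵀ = tm G := by
    rw [tm, transpose_sub, transpose_smul, transpose_one, hG.1]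
  have h2 := opn_hs_conj hT he (soft_nrm hH hd he hw)
  have e1 : cj (rmul (hs d) O) G - cj O G =
      Matrix.of O * (-(hs d * tm G * hs d - tm G)) * (Matrix.of O)ᵀ := by
    have a1 : (Matrix.of (rmul (hs d) O) : Mx n) = Matrix.of O * hs d := rfl
    have a2 : -(hs d * tm G * hs d - tm G) = hs d * G * hs d - G := by
      rw [tm, Matrix.mul_sub, Matrix.sub_mul, Matrix.mul_smul, Matrix.mul_one, Matrix.smul_mul,
        hs_mul_self]
      abel
    rw [a2, cj, cj, a1, transpose_mul, hs_symm, Matrix.mul_sub, Matrix.sub_mul]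
    simp only [Matrix.mul_assoc]
  have h3 : opn (cj (rmul (hs d) O) G - cj O G) ≤ 4 * e := by
    rw [e1]
    exact (opn_conj hO _).trans (by rw [opn_neg]; exact h2)
  simp only [sub_self, dotProduct_zero, add_zero] at h1
  have h4 : opn (cj (rmul (hs d) O) G - cj O G) ^ 2 ≤ (4 * e) ^ 2 :=
    pow_le_pow_left₀ (opn_nonneg _) h3 2
  have h5 := opn_sq_le_frob (B (cj (rmul (hs d) O) G, ξ) - B (cj O G, ξ))
  refine (pow_le_pow_iff_left₀ (opn_nonneg _) hδ two_ne_zero).1 (h5.trans (h1.trans ?_))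
  refine le_trans ?_ hsm
  gcongr

lemma rot_one {ν : Measure (Mat (Fin n))} [IsProbabilityMeasure ν] (hν : RHaar ν)
    (hL : LipJ C B) (hC : 0 < C) (hG : Ball G) (hm : m ≤ n) (hm0 : 0 < m) {e t : ℝ} (he : 0 ≤ e)
    (ht : 0 < t) (hw : ∀ k < m, |2 - lam G k| ≤ e) (hsm : C * (n * (4 * e) ^ 2) ≤ (t / 2) ^ 2)
    {a : V n} (ha : Soft G m a) (ha1 : a ⬝ᵥ a ≤ 1) :
    ν.real {O | 130 * t < a ⬝ᵥ MO B G ξ O *ᵥ a ∧
      ((Pm G m)ᵀ * MO B G ξ O * Pm G m).trace ≤ 128 * t * m} ≤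
      2 * Real.exp (-(min (t ^ 2 / (256 * C ^ 2)) (t / (32 * C)) * m)) := by
  have hH : G.IsHermitian := herm_iff.2 hG.1
  have hmR : (0 : ℝ) < m := by exact_mod_cast hm0
  have hM := measurable_MO hL.meas G ξ
  set P := Pm G m with hP
  have hPi : Pᵀ * P = 1 := Pm_iso hH hm
  have hΦ : Measurable fun O => Pᵀ * MO B G ξ O * P :=
    (measurable_const.t157_mul hM).t157_mul measurable_const
  refine core hν (Measure.pi fun _ : Fin m => entryLaw true)
    (F := {p | t * m ≤ |p.2 ⬝ᵥ (Pᵀ * MO B G ξ p.1 * P) *ᵥ p.2 - (Pᵀ * MO B G ξ p.1 * P).trace|})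
    ?_ ?_ (by positivity) ?_ ?_
  · exact (measurableSet_lt measurable_const
      (measurable_const.t157_dot (hM.t157_mulVec measurable_const))).inter
      (measurableSet_le hΦ.t157_trace measurable_const)
  · exact measurableSet_le measurable_const
      ((measurable_snd.t157_dot ((hΦ.comp measurable_fst).t157_mulVec measurable_snd)).sub
        (hΦ.comp measurable_fst).t157_trace).abs
  · filter_upwards [ae_sq] with z hz
    set s : ℝ := √(a ⬝ᵥ a / m) with hs_def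
    have hs2 : s * s = a ⬝ᵥ a / m :=
      Real.mul_self_sqrt (div_nonneg (dot_self_nonneg a) hmR.le)
    set w : V n := P *ᵥ (s • z) with hw_def
    have hww : w ⬝ᵥ w = a ⬝ᵥ a := by
      rw [hw_def, dot_isom hPi, smul_dotProduct, dotProduct_smul, hz, smul_eq_mul, smul_eq_mul,
        ← mul_assoc, hs2, div_mul_cancel₀ _ hmR.ne']
    have hd : Soft G m (a - w) := ha.sub (soft_Pm hH le_rfl _)
    refine ⟨hs (a - w), hs_mem _, fun O hO hE => ?_⟩
    have h1 := opn_move (ξ := ξ) hL hC hG he (by positivity : 0 ≤ t / 2) hw hsm hd hO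
    set X' : Mx n := (Matrix.of O)ᵀ * B (cj (rmul (hs (a - w)) O) G, ξ) * Matrix.of O with hX'
    have e1 : MO B G ξ (rmul (hs (a - w)) O) = hs (a - w) * X' * hs (a - w) := by
      have a1 : (Matrix.of (rmul (hs (a - w)) O) : Mx n) = Matrix.of O * hs (a - w) := rfl
      rw [MO, a1, transpose_mul, hs_symm, hX']
      simp only [Matrix.mul_assoc]
    have h2 : opn (X' - MO B G ξ O) ≤ t / 2 := by
      rw [hX', MO, ← Matrix.sub_mul, ← Matrix.mul_sub]
      exact (opn_compress (orth1 hO) _).trans h1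
    obtain ⟨hE1, hE2⟩ := hE
    rw [e1, trace_hs (Pm_proj hH hm hd)] at hE2
    have e2 : a ⬝ᵥ (hs (a - w) * X' * hs (a - w)) *ᵥ a = w ⬝ᵥ X' *ᵥ w := by
      have := quad_compress (A := X') (hs (a - w)) a a
      rwa [hs_symm, hs_swap hww.symm] at this
    rw [e1, e2] at hE1
    have h3 : w ⬝ᵥ X' *ᵥ w - w ⬝ᵥ MO B G ξ O *ᵥ w ≤ t / 2 := by
      have := (le_abs_self _).trans (abs_quad_le (X' - MO B G ξ O) w)
      rw [sub_mulVec, dotProduct_sub, hww] at this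
      nlinarith [opn_nonneg (X' - MO B G ξ O), dot_self_nonneg a]
    have h4 : w ⬝ᵥ MO B G ξ O *ᵥ w = a ⬝ᵥ a / m * (z ⬝ᵥ (Pᵀ * MO B G ξ O * P) *ᵥ z) := by
      rw [hw_def, ← quad_compress, mulVec_smul, smul_dotProduct, dotProduct_smul, smul_eq_mul,
        smul_eq_mul, ← mul_assoc, hs2]
    have h5 := psd_nonneg (psd_compress (MO_psd (ξ := ξ) hL hG hO) P) z
    have h6 : (Pᵀ * MO B G ξ O * P).trace - (Pᵀ * X' * P).trace ≤ m * (t / 2) := by
      have a1 := (neg_le_abs _).trans (abs_trace_le (Pᵀ * (X' - MO B G ξ O) * P))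
      have a2 := (opn_compress hPi (X' - MO B G ξ O)).trans h2
      rw [Matrix.mul_sub, Matrix.sub_mul, trace_sub] at a1
      rw [Matrix.mul_sub, Matrix.sub_mul] at a2
      nlinarith
    have h7 : w ⬝ᵥ MO B G ξ O *ᵥ w * m ≤ z ⬝ᵥ (Pᵀ * MO B G ξ O * P) *ᵥ z := by
      rw [h4, mul_right_comm, div_mul_cancel₀ _ hmR.ne']
      nlinarith
    refine le_trans ?_ (le_abs_self _)
    nlinarith [mul_le_mul_of_nonneg_right (hE1.le.trans (sub_le_iff_le_add'.1 h3)) hmR.le]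
  · intro O hO
    have h1 : opn (Pᵀ * MO B G ξ O * P) ≤ C := (opn_compress hPi _).trans (MO_opn hL hG hO)
    have h2 : fro (Pᵀ * MO B G ξ O * P) ≤ m * C ^ 2 :=
      (fro_le_opn _).trans (by gcongr; exact opn_nonneg _)
    refine (Conc.hw_tail (Conc.sg1_entry true) (fun _ => Conc.sq_entry true) hC
      ((Conc.opB_l2 _).mono h1) (by positivity) h2 (u := t * m) (by positivity)).trans
      (le_of_eq ?_)
    rw [min_mul_of_nonneg _ _ hmR.le]
    congr 4 <;> field_simp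

/-! ### fixed dimension -/

lemma rot_fix (hF : FeApi) {ν : Measure (Mat (Fin n))} [IsProbabilityMeasure ν] (hν : RHaar ν)
    (hL : LipJ C B) (hC : 0 < C) (hS : Spec G) {η1 η2 η3 t : ℝ} (ht : 0 < t) (h0 : 0 < e0 n)
    (h1 : 0 < η1) (h02 : e0 n ≤ η2) (h23 : η2 ≤ η3) (h31 : η3 ≤ 1) (hn : 0 < n)
    (hs1 : C * (n * (4 * η3) ^ 2) ≤ (t / 2) ^ 2) (hs2 : C * ((η1 / η2) ^ 2) ^ 2 ≤ t) :
    ν.real {O | 1042 * t < opn (fE η1 (cj O G) * B (cj O G, ξ) * fE η1 (cj O G)) ∧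
      (fE η3 (cj O G) * B (cj O G, ξ)).trace ≤ t * Nb n η3} ≤
      5 ^ cnt G (2 - η2) *
        (2 * Real.exp (-(min (t ^ 2 / (256 * C ^ 2)) (t / (32 * C)) * cnt G (2 - η3)))) := by
  have hH : G.IsHermitian := herm_iff.2 hS.symm
  have hG : Ball G := ⟨hS.symm, hS.top.trans (by linarith)⟩
  have h2 : 0 < η2 := h0.trans_le h02
  have h3 : 0 < η3 := h2.trans_le h23
  set m := cnt G (2 - η3) with hm_def
  set l := cnt G (2 - η2) with hl_def
  have hm : m ≤ n := by simpa using cnt_le_card G (2 - η3)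
  have hlm : l ≤ m := cnt_anti G (by linarith)
  have hlo : Nb n η3 / 64 ≤ m := hS.lo η3 ⟨h02.trans h23, h31⟩
  have hNb : 0 < Nb n η3 := by
    have : (0 : ℝ) < n := by exact_mod_cast hn
    unfold Nb; positivity
  have hm0 : 0 < m := by
    have : (0 : ℝ) < m := lt_of_lt_of_le (by positivity) hlo
    exact_mod_cast this
  have hw : ∀ k < m, |2 - lam G k| ≤ η3 := fun k hk => by
    have a1 := ((lt_cnt_iff hH).1 hk).2
    have a2 := (lam_le_opn hH k).trans hS.top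
    rw [abs_le]; constructor <;> linarith
  obtain ⟨N, hN1, hN2, hN3⟩ := Nrm.exists_half_net (Fin l)
  have hsub : {O | 1042 * t < opn (fE η1 (cj O G) * B (cj O G, ξ) * fE η1 (cj O G)) ∧
      (fE η3 (cj O G) * B (cj O G, ξ)).trace ≤ t * Nb n η3} ≤ᵐ[ν]
      (⋃ c ∈ N, {O | 130 * t < (Pm G l *ᵥ c) ⬝ᵥ MO B G ξ O *ᵥ (Pm G l *ᵥ c) ∧
        ((Pm G m)ᵀ * MO B G ξ O * Pm G m).trace ≤ 128 * t * m} : Set (Mat (Fin n))) := by
    filter_upwards [hν.mem] with O hO hE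
    obtain ⟨hE1, hE2⟩ := hE
    have hp := MO_psd (ξ := ξ) hL hG hO
    have hb := MO_opn (ξ := ξ) hL hG hO
    have e1 : fE η1 (cj O G) * B (cj O G, ξ) * fE η1 (cj O G) =
        Matrix.of O * (fE η1 G * MO B G ξ O * fE η1 G) * (Matrix.of O)ᵀ := by
      rw [hF.conj G η1 hO, MO]
      simp only [cj, Matrix.mul_assoc]
    have e2 : (fE η3 (cj O G) * B (cj O G, ξ)).trace = (fE η3 G * MO B G ξ O).trace := by
      rw [hF.conj G η3 hO, MO, ← Matrix.mul_assoc, trace_mul_comm (fE η3 G * _)]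
      simp only [cj, Matrix.mul_assoc]
    have a1 := trace_le hF hS.symm h3 hp hm hw
    have a2 : ((Pm G m)ᵀ * MO B G ξ O * Pm G m).trace ≤ 128 * t * m := by
      rw [e2] at hE2
      nlinarith
    by_contra hcon
    have a3 : ∀ c ∈ N, c ⬝ᵥ ((Pm G l)ᵀ * MO B G ξ O * Pm G l) *ᵥ c ≤ 130 * t := fun c hc => by
      rw [quad_compress]
      by_contra h
      exact hcon (mem_biUnion (Finset.mem_coe.2 hc) ⟨not_le.1 h, a2⟩)
    have a4 := opn_le_net (psd_compress hp (Pm G l)) hN3 (by positivity) a3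
    have a5 := opn_fMf hF hS.symm h1 hp (hlm.trans hm) (r := (η1 / η2) ^ 2) fun k hk hkn =>
      fl_le h2 ((cnt_le_iff hH (by simpa using hkn)).1 hk)
    have a6 := opn_conj hO (fE η1 G * MO B G ξ O * fE η1 G)
    rw [e1] at hE1
    nlinarith [mul_le_mul_of_nonneg_right hb (sq_nonneg ((η1 / η2) ^ 2))]
  refine (ENNReal.toReal_mono (measure_ne_top _ _) (measure_mono_ae hsub)).trans ?_
  refine (measureReal_biUnion_finset_le _ _).trans ?_
  refine (Finset.sum_le_card_nsmul _ _ _ fun c hc => rot_one hν hL hC hG hm hm0 h3.le ht hw hs1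
    (soft_Pm hH hlm c) ?_).trans ?_
  · rw [dot_isom (Pm_iso hH (hlm.trans hm)), ← nrm_sq]
    exact pow_le_one₀ (nrm_nonneg c) (hN2 c hc)
  · rw [nsmul_eq_mul]
    gcongr
    rw [Fintype.card_fin] at hN1
    exact_mod_cast hN1

lemma Nb_rpow (hn : 0 < n) (a : ℝ) :
    Nb n ((n : ℝ) ^ (-a)) = (n : ℝ) ^ (1 - 3 / 2 * a) := by
  have h : (0 : ℝ) < n := by exact_mod_cast hn
  rw [Nb, Real.sqrt_eq_rpow, ← Real.rpow_mul h.le, ← Real.rpow_add h]
  conv_lhs => rw [← Real.rpow_one (n : ℝ), ← Real.rpow_mul h.le, ← Real.rpow_add h]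
  congr 1; ring

lemma ev_le (K : ℝ) {a : ℝ} (ha : 0 < a) : ∀ᶠ n : ℕ in atTop, K ≤ (n : ℝ) ^ a :=
  ((tendsto_rpow_atTop ha).comp tendsto_natCast_atTop_atTop).eventually_ge_atTop K

end Rot46

open Rot46 in
/-- **random reflections inside the microscopic window** -/
theorem rotGlue : RotGlue := by
  intro hF
  refine ⟨1042, by norm_num, fun C hC t ht => ?_⟩
  set c : ℝ := min (t ^ 2 / (256 * C ^ 2)) (t / (32 * C)) with hc_def
  have hc : 0 < c := lt_min (by positivity) (by positivity)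
  filter_upwards [eventually_ge_atTop 1, ev_le (64 * C / t ^ 2) (a := 1 / 25) (by norm_num),
    ev_le (C / t) (a := 2 / 25) (by norm_num), ev_le (384 / c) (a := 1 / 50) (by norm_num)]
    with n hn k1 k2 k3 ν hν1 hν B hL G ξ hS
  have hn0 : (0 : ℝ) < n := by exact_mod_cast hn
  have hn1 : (1 : ℝ) ≤ n := by exact_mod_cast hn
  have h02 : e0 n ≤ (n : ℝ) ^ (-(11 / 20 : ℝ)) :=
    Real.rpow_le_rpow_of_exponent_le hn1 (by norm_num)
  have h23 : (n : ℝ) ^ (-(11 / 20 : ℝ)) ≤ ep n :=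
    Real.rpow_le_rpow_of_exponent_le hn1 (by norm_num)
  have h31 : ep n ≤ 1 := Real.rpow_le_one_of_one_le_of_nonpos hn1 (by norm_num)
  have hs1 : C * (n * (4 * ep n) ^ 2) ≤ (t / 2) ^ 2 := by
    have e : (n : ℝ) * ep n ^ 2 * (n : ℝ) ^ (1 / 25 : ℝ) = 1 := by
      rw [ep, ← Real.rpow_natCast, ← Real.rpow_mul hn0.le]
      conv_lhs => rw [← Real.rpow_one (n : ℝ), ← Real.rpow_mul hn0.le, ← Real.rpow_mul hn0.le,
        ← Real.rpow_add hn0, ← Real.rpow_add hn0]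
      norm_num
    have h1 : (0 : ℝ) ≤ n * ep n ^ 2 := by positivity
    have h2 := mul_le_mul_of_nonneg_left k1 h1
    rw [e, ← mul_div_assoc, div_le_one (by positivity)] at h2
    nlinarith
  have hs2 : C * ((es n / (n : ℝ) ^ (-(11 / 20 : ℝ))) ^ 2) ^ 2 ≤ t := by
    have e : ((es n / (n : ℝ) ^ (-(11 / 20 : ℝ))) ^ 2) ^ 2 * (n : ℝ) ^ (2 / 25 : ℝ) = 1 := by
      rw [es, ← Real.rpow_sub hn0, ← pow_mul, ← Real.rpow_natCast, ← Real.rpow_mul hn0.le,
        ← Real.rpow_add hn0]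
      norm_num
    have h1 : (0 : ℝ) ≤ ((es n / (n : ℝ) ^ (-(11 / 20 : ℝ))) ^ 2) ^ 2 := by positivity
    have h2 := mul_le_mul_of_nonneg_left k2 h1
    rw [e, ← mul_div_assoc, div_le_one ht] at h2
    linarith
  refine (rot_fix (ξ := ξ) hF hν hL hC hS ht (Real.rpow_pos_of_pos hn0 _)
    (Real.rpow_pos_of_pos hn0 _ : 0 < es n) h02 h23 h31 hn hs1 hs2).trans ?_
  have hlo := hS.lo (ep n) ⟨h02.trans h23, h31⟩
  have hhi := hS.hi _ ⟨h02, h23.trans h31⟩
  rw [Nb_rpow hn] at hhi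
  rw [ep, Nb_rpow hn, ← ep] at hlo
  set x : ℝ := (n : ℝ) ^ (1 / 5 : ℝ) with hx
  have x1 : 1 ≤ x := Real.one_le_rpow hn1 (by norm_num)
  have x2 : (n : ℝ) ^ (1 - 3 / 2 * (11 / 20) : ℝ) ≤ x :=
    Real.rpow_le_rpow_of_exponent_le hn1 (by norm_num)
  have x3 : (n : ℝ) ^ (1 - 3 / 2 * (13 / 25) : ℝ) = x * (n : ℝ) ^ (1 / 50 : ℝ) := by
    rw [hx, ← Real.rpow_add hn0]; norm_num
  have x4 : 6 * x ≤ c * cnt G (2 - ep n) := by
    rw [div_le_iff₀ hc] at k3
    rw [x3] at hlo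
    nlinarith [mul_le_mul_of_nonneg_left hlo hc.le,
      mul_le_mul_of_nonneg_left k3 (zero_le_one.trans x1)]
  have y1 : (5 : ℝ) ≤ Real.exp 2 := by
    have := Real.add_one_le_exp (1 : ℝ)
    have h2 := Real.exp_one_gt_d9
    rw [show (2 : ℝ) = 1 + 1 by norm_num, Real.exp_add]
    nlinarith
  have y2 : (2 : ℝ) ≤ Real.exp 1 := by linarith [Real.add_one_le_exp (1 : ℝ)]
  calc (5 : ℝ) ^ cnt G (2 - (n : ℝ) ^ (-(11 / 20 : ℝ))) *
        (2 * Real.exp (-(c * cnt G (2 - ep n))))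
      ≤ Real.exp 2 ^ cnt G (2 - (n : ℝ) ^ (-(11 / 20 : ℝ))) *
        (Real.exp 1 * Real.exp (-(c * cnt G (2 - ep n)))) := by gcongr
    _ ≤ Real.exp (-x) := by
        rw [← Real.exp_nat_mul, ← Real.exp_add, ← Real.exp_add]
        exact Real.exp_le_exp.2 (by linarith)

end Crest.Agent.T157.Da

end
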