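import Crest.Agent.T157.DaGfom_30

/-!
# Row 157, part C (helper30): state evolution of the parallel chain, `seGlue : SEGlue`
-/

set_option autoImplicit false

noncomputable section

namespace Crest.Agent.T157.Da

namespace Se

open MeasureTheory ProbabilityTheory Matrix Filter Set Topology
open Crest.ProbabilityR.SpinGlassDynamics
open Crest.Agent.T157.E Crest.Agent.T157.Eig
open Crest.Agent.T157.Tap (V Mx GOE plW avg)
open Crest.Agent.T157.Top (Whp whp_of_real_le whp_of_eventually)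
open Crest.Agent.T157.Chain22 (sg)
open Crest.Agent.T157.Pl (one)
open Crest.Agent.T157.Da.Gf (pw pj)

/-- Markov inequality on slices -/
theorem whp_slice {X Y : ℕ → Type*} [∀ n, MeasurableSpace (X n)] [∀ n, MeasurableSpace (Y n)]
    {μ : ∀ n, Measure (X n)} {ν : ∀ n, Measure (Y n)} [∀ n, IsProbabilityMeasure (μ n)]
    [∀ n, IsProbabilityMeasure (ν n)] {P : ∀ n, X n × Y n → Prop}
    (hm : ∀ n, MeasurableSet {z | ¬ P n z}) (h : Whp (fun n => (μ n).prod (ν n)) P) {ε : ℝ}
    (hε : 0 < ε) : Whp ν fun n y => (μ n).real {x | ¬ P n (x, y)} ≤ ε := by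
  have h0 : ENNReal.ofReal ε ≠ 0 := by simpa using hε
  have h1 : Tendsto (fun n => (μ n).prod (ν n) {z | ¬ P n z} / ENNReal.ofReal ε) atTop (𝓝 0) := by
    simpa using ENNReal.Tendsto.div_const h (Or.inr h0)
  refine tendsto_of_tendsto_of_tendsto_of_le_of_le tendsto_const_nhds h1 (fun _ => zero_le)
    fun n => ?_
  simp only
  rw [Measure.prod_apply_symm (hm n)]
  refine le_trans (measure_mono fun y hy => ?_) (meas_ge_le_lintegral_div
    (measurable_measure_prodMk_right (hm n)).aemeasurable h0 ENNReal.ofReal_ne_top)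
  simp only [mem_ofPred_eq, not_le] at hy ⊢
  exact ENNReal.ofReal_le_of_le_toReal hy.le

theorem abs_integral_sub_le {X : Type*} [MeasurableSpace X] {μ : Measure X}
    [IsProbabilityMeasure μ] {f : X → ℝ} (hf : Integrable f μ) (hm : Measurable f) {c δ M : ℝ}
    (hδ : 0 ≤ δ) (hM : ∀ x, |f x - c| ≤ M) :
    |∫ x, f x ∂μ - c| ≤ δ + M * μ.real {x | ¬ |f x - c| ≤ δ} := by
  have hs : MeasurableSet {x | ¬ |f x - c| ≤ δ} :=
    (measurableSet_le (hm.sub_const c).abs measurable_const).compl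
  have e : ∫ x, f x ∂μ - c = ∫ x, (f x - c) ∂μ := by
    rw [integral_sub hf (integrable_const c)]; simp
  have hi := (integrable_const (μ := μ) M).indicator hs
  have h := norm_integral_le_of_norm_le (μ := μ) (f := fun x => f x - c)
    ((integrable_const δ).add hi) (.of_forall fun x => by
      by_cases hx : |f x - c| ≤ δ
      · simp [hx]
      · rw [Pi.add_apply, indicator_of_mem (by exact hx)]
        exact (hM x).trans (le_add_of_nonneg_left hδ))
  simp only [Pi.add_apply] at h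
  rw [integral_add (integrable_const δ) hi, integral_indicator_const _ hs] at h
  rw [e]
  simpa [mul_comm] using h

variable {n : ℕ}

lemma par_sum (W : Mx n) (h : ℝ) (K : ℕ) (c : V n) (F : Fin n → Cube n → ℝ) (z : Cube n) :
    (par W h)^[K] (fun x => ∑ j, c j * F j x) z = ∑ j, c j * (par W h)^[K] (F j) z := by
  induction K generalizing F with
  | zero => rfl
  | succ K ih =>
    simp only [Function.iterate_succ_apply]
    rw [← ih]
    refine congrArg (fun g => (par W h)^[K] g z) (funext fun x => ?_)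
    simp only [par, sg, Finset.mul_sum]
    rw [Finset.sum_comm]
    exact Finset.sum_congr rfl fun _ _ => Finset.sum_congr rfl fun _ _ => by ring

lemma par_dot (W : Mx n) (h : ℝ) (K : ℕ) (c : V n) (z : Cube n) :
    (par W h)^[K] (fun x => c ⬝ᵥ sv x) z = c ⬝ᵥ Yd W h K z :=
  par_sum W h K c (fun j x => sv x j) z

lemma sv_upd (d : ℝ) (x : Cube n) (b u : V n) (i : Fin n) :
    sv (upd d x b u) i = ph d (sv x i) (b i) (u i) := by
  unfold sv upd ph
  split_ifs <;> simp [spin]

lemma measurable_upd {X : Type*} [MeasurableSpace X] (d : ℝ) {x : X → Cube n} {b u : X → V n}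
    (hx : Measurable x) (hb : Measurable b) (hu : Measurable u) :
    Measurable fun z => upd d (x z) (b z) (u z) := by
  refine measurable_pi_lambda _ fun i => ?_
  have ht := Tap.SE.measurable_tanh.comp ((measurable_pi_apply i).comp hb)
  have hu' := (measurable_pi_apply i).comp hu
  exact Measurable.ite (measurableSet_lt hu' (((ht.const_add 1).const_mul d).div_const 2))
    measurable_const (Measurable.ite (measurableSet_lt hu' measurable_const) measurable_const
      ((measurable_pi_apply i).comp hx))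

lemma plW_mulVec (G : Mx n) (x : V n) : plW 1 G 1 *ᵥ x = G *ᵥ x + avg x • (1 : V n) := by
  rw [plW, Matrix.add_mulVec, Matrix.smul_mulVec, Cond.vmv_mulVec, smul_smul, avg]
  congr 2
  simp [dotProduct, div_eq_inv_mul]

lemma integrable_fin {X : Type*} [MeasurableSpace X] {μ : Measure X} [IsFiniteMeasure μ]
    {x y : X → Cube n} (hx : Measurable x) (hy : Measurable y) (Φ : Cube n → Cube n → ℝ) :
    Integrable (fun z => Φ (x z) (y z)) μ :=
  (Integrable.of_finite (μ := μ.map fun z => (x z, y z))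
    (f := fun p : Cube n × Cube n => Φ p.1 p.2)).comp_measurable (hx.prodMk hy)

variable {Good : ∀ (D : Type) [MeasurableSpace D], Measure D → Set (RV D) → Prop}

/-- two chains driven by site variables, with joint law `L` for a fixed matrix -/
def St (Good : ∀ (D : Type) [MeasurableSpace D], Measure D → Set (RV D) → Prop)
    (L : ∀ n, Mx n → (Cube n → Cube n → ℝ) → ℝ) : Prop :=
  ∃ (D : Type) (_ : MeasurableSpace D) (μ : Measure D) (l : Set (RV D))
    (X Y : ∀ n, Sp D n → Cube n), Good D μ l ∧ (fun _ _ => 1) ∈ l ∧ (fun n z => sv (X n z)) ∈ l ∧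
      (fun n z => sv (Y n z)) ∈ l ∧ (∀ n, Measurable (X n)) ∧ (∀ n, Measurable (Y n)) ∧
      ∀ n > 0, ∀ G Φ, ∫ ω, Φ (X n (ω, G)) (Y n (ω, G)) ∂pw μ n = L n G Φ

variable {L : ∀ n, Mx n → (Cube n → Cube n → ℝ) → ℝ}

theorem St.init (hG : Gfom Good) : St Good fun n _ Φ => Φ (one n) (one n) := by
  have e : (fun n (_ : Sp Unit n) => sv (one n)) = fun _ _ => 1 := by
    funext n z i; simp [sv, Pl.one, spin]
  exact ⟨Unit, _, _, _, fun n _ => one n, fun n _ => one n, hG.init, rfl, e, e,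
    fun _ => measurable_const, fun _ => measurable_const, fun n _ G Φ => by simp⟩

theorem St.swap (h : St Good L) : St Good fun n G Φ => L n G fun x y => Φ y x := by
  obtain ⟨D, _, μ, l, X, Y, h1, h2, h3, h4, h5, h6, h7⟩ := h
  exact ⟨D, _, μ, l, Y, X, h1, h2, h4, h3, h6, h5, fun n hn G Φ => h7 n hn G fun x y => Φ y x⟩

theorem St.dup (h : St Good L) : St Good fun n G Φ => L n G fun x _ => Φ x x := by
  obtain ⟨D, _, μ, l, X, Y, h1, h2, h3, _, h5, _, h7⟩ := h
  exact ⟨D, _, μ, l, X, X, h1, h2, h3, h3, h5, h5, fun n hn G Φ => h7 n hn G fun x _ => Φ x x⟩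

theorem St.step (hG : Gfom Good) (hR : RepStmt) {h : ℝ} (h0 : 0 ≤ h) (hs : St Good L) :
    St Good fun n G Φ => L n G fun x y => par (plW 1 G 1) h (fun x' => Φ x' y) x := by
  obtain ⟨D, _, μ, l, X, Y, h1, h2, h3, h4, h5, h6, h7⟩ := hs
  have := hG.prob h1
  have g1 := hG.mul h1 _ h3
  have g2 := hG.lin g1 _ (mem_insert _ _) _ (mem_insert_of_mem _ h3) _ (mem_insert_of_mem _ h2)
  have mb := hG.meas g2 _ (mem_insert _ _)
  have g3 := hG.noise g2 _ (mem_insert_of_mem _ (mem_insert_of_mem _ h3)) _ (mem_insert _ _)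
    (1 - Real.exp (-h))
  have mp := Gf.measurable_pj (measurable_fst : Measurable (Prod.fst : D × ℝ → D))
  let X' : ∀ n, Sp (D × ℝ) n → Cube n := fun n z => upd (1 - Real.exp (-h)) (X n (pj Prod.fst n z))
    (z.2 *ᵥ sv (X n (pj Prod.fst n z)) + avg (sv (X n (pj Prod.fst n z))) • 1) fun i => (z.1 i).2
  have mX' : ∀ n, Measurable (X' n) := fun n =>
    measurable_upd _ ((h5 n).comp (mp n)) ((mb n).comp (mp n)) (by fun_prop)
  have mY' : ∀ n, Measurable fun z : Sp (D × ℝ) n => Y n (pj Prod.fst n z) := fun n =>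
    (h6 n).comp (mp n)
  refine ⟨D × ℝ, _, _, _, X', fun n z => Y n (pj Prod.fst n z), g3,
    mem_insert_of_mem _ ⟨_, mem_insert_of_mem _ (mem_insert_of_mem _ h2), rfl⟩,
    Or.inl (funext fun n => funext fun z => funext fun i => sv_upd _ _ _ _ i),
    mem_insert_of_mem _ ⟨_, mem_insert_of_mem _ (mem_insert_of_mem _ h4), rfl⟩, mX', mY',
    fun n hn G Φ => ?_⟩
  have hz := (measurePreserving_arrowProdEquivProdArrow D ℝ (Fin n) (fun _ => μ)
    fun _ => unif).symm
  have m1 : Measurable fun p : (Fin n → D) × (Fin n → ℝ) =>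
      (((MeasurableEquiv.arrowProdEquivProdArrow D ℝ (Fin n)).symm p, G) : Sp (D × ℝ) n) :=
    hz.measurable.prodMk measurable_const
  beta_reduce
  rw [← h7 n hn, ← hz.integral_comp' (g := fun ω => Φ (X' n (ω, G)) (Y n (pj Prod.fst n (ω, G))))]
  refine (integral_prod _ (integrable_fin ((mX' n).comp m1) ((mY' n).comp m1) Φ)).trans
    (integral_congr_ae (.of_forall fun ω => ?_))
  simp only [par]
  rw [hR n h _ _ _ hn h0, plW_mulVec]
  rfl

theorem St.steps (hG : Gfom Good) (hR : RepStmt) {h : ℝ} (h0 : 0 ≤ h) (hs : St Good L) (K : ℕ) :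
    St Good fun n G Φ => L n G fun x y => (par (plW 1 G 1) h)^[K] (fun x' => Φ x' y) x := by
  induction K with
  | zero => exact hs
  | succ K ih => exact ih.step hG hR h0

theorem pow_mul (hG : Gfom Good) {D : Type} [MeasurableSpace D] {μ : Measure D} {l : Set (RV D)}
    (h : Good D μ l) {y : RV D} (hy : y ∈ l) (p : ℕ) :
    ∃ l', l ⊆ l' ∧ Good D μ l' ∧ (fun n z => z.2 ^ p *ᵥ y n z) ∈ l' := by
  induction p with
  | zero => exact ⟨l, subset_rfl, h, by simpa using hy⟩
  | succ p ih =>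
    obtain ⟨l', h1, h2, h3⟩ := ih
    refine ⟨_, h1.trans (subset_insert _ _), hG.mul h2 _ h3, Or.inl ?_⟩
    funext n z
    rw [pow_succ', Matrix.mulVec_mulVec]

theorem St.lim (hG : Gfom Good) (hs : St Good L) (p : ℕ) : ∃ α : ℝ, ∀ δ > (0 : ℝ),
    Whp GOE fun n G => |L n G (fun x y => sv x ⬝ᵥ G ^ p *ᵥ sv y) - α * n| ≤ δ * n := by
  obtain ⟨D, _, μ, l, X, Y, h1, _, h3, h4, h5, h6, h7⟩ := hs
  have := hG.prob h1
  obtain ⟨l', k1, k2, k3⟩ := pow_mul hG h1 h4 p
  obtain ⟨α, hα⟩ := hG.ip k2 _ (k1 h3) _ k3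
  have mf : ∀ n, Measurable fun z : Sp D n => sv (X n z) ⬝ᵥ z.2 ^ p *ᵥ sv (Y n z) := fun n =>
    (hG.meas k2 _ (k1 h3) n).t157_dot (hG.meas k2 _ k3 n)
  refine ⟨α, fun δ hδ => ?_⟩
  have hM : (0 : ℝ) < 3 ^ p + |α| := by positivity
  have h8 := whp_slice (μ := pw μ) (ν := GOE) (fun n => (measurableSet_le
    ((mf n).sub_const _).abs measurable_const).compl) (hα (δ / 2) (half_pos hδ))
    (div_pos (half_pos hδ) hM)
  refine (h8.and Gf.whp_opn).mono ?_
  filter_upwards [eventually_gt_atTop 0] with n hn G hz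
  have hn' : (0 : ℝ) < n := Nat.cast_pos.2 hn
  have m1 : Measurable fun ω : Fin n → D => ((ω, G) : Sp D n) := measurable_prodMk_right
  rw [← h7 n hn]
  refine (abs_integral_sub_le (δ := δ / 2 * n) (M := (3 ^ p + |α|) * n)
    (integrable_fin ((h5 n).comp m1) ((h6 n).comp m1) fun x y => sv x ⬝ᵥ G ^ p *ᵥ sv y)
    ((mf n).comp m1) (by positivity) fun ω => ?_).trans ?_
  · have e : ∀ x y : Cube n, nrm (sv x) * nrm (sv y) = n := fun x y => by
      rw [nrm, nrm, sv_dot_self, sv_dot_self, Real.mul_self_sqrt hn'.le]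
    have b1 := abs_bil_le (G ^ p) (sv (X n (ω, G))) (sv (Y n (ω, G)))
    rw [e] at b1
    have b2 : opn (G ^ p) ≤ 3 ^ p :=
      (opn_pow_le G p).trans (pow_le_pow_left₀ (opn_nonneg G) hz.2 p)
    refine (abs_sub _ _).trans ?_
    rw [abs_mul, Nat.abs_cast, add_mul]
    exact add_le_add_left (b1.trans (mul_le_mul_of_nonneg_right b2 hn'.le)) _
  · have b3 := mul_le_mul_of_nonneg_left hz.1 (mul_pos hM hn').le
    have e : (3 ^ p + |α|) * n * (δ / 2 / (3 ^ p + |α|)) = δ / 2 * n := by field_simp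
    rw [e] at b3
    refine (add_le_add_right b3 _).trans (le_of_eq (by ring))

end Se

open Se in
theorem seGlue : SEGlue := by
  rintro ⟨Good, hG⟩ hR h h0 K0 K1 p
  obtain ⟨α, hα⟩ := (((((St.init hG).steps hG hR h0 K0).dup.steps hG hR h0 K1).swap.steps hG hR h0
    K1).swap).lim hG p
  refine ⟨α, fun δ hδ => (hα δ hδ).imp fun n G hz => ?_⟩
  refine le_of_eq_of_le ?_ hz
  refine congrArg (fun g => |(par (Tap.plW 1 G 1) h)^[K0] g (Pl.one n) - α * n|)
    (funext fun z => ?_)
  simp only [Matrix.dotProduct_mulVec, par_dot]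
  simp only [← Matrix.dotProduct_mulVec, dotProduct_comm (E.sv _), par_dot]
  rw [dotProduct_comm]

end Crest.Agent.T157.Da
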