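import Crest.Agent.T157.DaMean_46

/-!
# Row 157, part C (helper46): `Da.sefGlue`, `Da.pdlGlue`
-/

set_option autoImplicit false

noncomputable section

namespace Crest.Agent.T157.Da

open MeasureTheory ProbabilityTheory Matrix Filter Set Topology
open Crest.Agent.T157.E Crest.Agent.T157.Eig
open Crest.Agent.T157.Tap (V Mx GOE plW)
open Crest.Agent.T157.Top (Whp)
open Crest.Agent.T157.Rec (Am)
open Crest.Agent.T157.Pl (one)
open Rot46 Mean46

namespace Sef46

lemma exists_lim {a : ℝ → ℝ} (h : ∀ e > (0 : ℝ), ∀ e' > (0 : ℝ), |a e - a e'| ≤ e + e') :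
    ∃ α : ℝ, ∀ e > (0 : ℝ), |a e - α| ≤ e := by
  have hb : ∀ e' > (0 : ℝ), a e' + e' ∈ upperBounds ((fun e => a e - e) '' Ioi 0) := by
    rintro e' he' _ ⟨e, he, rfl⟩
    have := (abs_le.1 (h e he e' he')).2
    simp only
    linarith
  refine ⟨sSup ((fun e => a e - e) '' Ioi 0), fun e he => ?_⟩
  have h0 : a e - e ∈ (fun e => a e - e) '' Ioi 0 := ⟨e, he, rfl⟩
  have h1 := csSup_le ⟨_, h0⟩ (hb e he)
  have h2 := le_csSup ⟨_, hb e he⟩ h0
  rw [abs_le]; constructor <;> linarith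

section conv
variable {Ω : ℕ → Type*} [∀ n, MeasurableSpace (Ω n)] {μ : ∀ n, Measure (Ω n)}
  {P : ∀ n, Ω n → Prop}

lemma vh_whp (h : Vh μ P) : Whp μ P := by
  obtain ⟨c, hc, h⟩ := h
  have t1 : Tendsto (fun n : ℕ => ENNReal.ofReal (Real.exp (-(n : ℝ) ^ c))) atTop (𝓝 0) := by
    rw [← ENNReal.ofReal_zero]
    exact ENNReal.tendsto_ofReal (Real.tendsto_exp_neg_atTop_nhds_zero.comp
      ((tendsto_rpow_atTop hc).comp tendsto_natCast_atTop_atTop))
  exact tendsto_of_tendsto_of_tendsto_of_le_of_le' tendsto_const_nhds t1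
    (.of_forall fun _ => zero_le) h

lemma whp_exists [∀ n, IsProbabilityMeasure (μ n)] (h : Whp μ P) :
    ∀ᶠ n : ℕ in atTop, ∃ z, P n z := by
  filter_upwards [h.eventually (gt_mem_nhds zero_lt_one)] with n hn
  by_contra hc
  have : {z | ¬ P n z} = univ := eq_univ_of_forall fun z hz => hc ⟨z, hz⟩
  rw [this, measure_univ] at hn
  exact lt_irrefl _ hn

/-- `X n / n` converges in probability -/
def Conv (μ : ∀ n, Measure (Ω n)) (X : ∀ n, Ω n → ℝ) : Prop :=
  ∃ α : ℝ, ∀ δ > (0 : ℝ), Whp μ fun n z => |X n z - α * n| ≤ δ * n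

variable {X Y : ∀ n, Ω n → ℝ}

lemma Conv.add (hX : Conv μ X) (hY : Conv μ Y) : Conv μ fun n z => X n z + Y n z := by
  obtain ⟨a, ha⟩ := hX
  obtain ⟨b, hb⟩ := hY
  refine ⟨a + b, fun δ hδ => ((ha _ (half_pos hδ)).and (hb _ (half_pos hδ))).imp
    fun n z hz => ?_⟩
  have h1 := abs_le.1 hz.1
  have h2 := abs_le.1 hz.2
  rw [abs_le]; constructor <;> linarith

lemma Conv.const_mul (hX : Conv μ X) (c : ℝ) : Conv μ fun n z => c * X n z := by
  obtain ⟨a, ha⟩ := hX
  have hc : 0 < |c| + 1 := by positivity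
  refine ⟨c * a, fun δ hδ => (ha _ (div_pos hδ hc)).imp fun n z hz => ?_⟩
  rw [mul_assoc, ← mul_sub, abs_mul]
  calc |c| * |X n z - a * n| ≤ (|c| + 1) * (δ / (|c| + 1) * n) :=
        mul_le_mul (by linarith) hz (abs_nonneg _) hc.le
    _ = δ * n := by field_simp

lemma conv_zero : Conv μ fun _ _ => 0 :=
  ⟨0, fun δ hδ => Top.whp_of_eventually (.of_forall fun n _ => by simp; positivity)⟩

lemma Conv.sum {ι : Type*} (s : Finset ι) {Z : ι → ∀ n, Ω n → ℝ} (h : ∀ i ∈ s, Conv μ (Z i)) :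
    Conv μ fun n z => ∑ i ∈ s, Z i n z := by
  classical
  induction s using Finset.induction_on with
  | empty => simpa using conv_zero
  | insert a s ha ih =>
    simp only [Finset.sum_insert ha]
    exact (h a (Finset.mem_insert_self _ _)).add (ih fun i hi => h i (Finset.mem_insert_of_mem hi))

lemma Conv.of_approx [∀ n, IsProbabilityMeasure (μ n)]
    (h : ∀ e > (0 : ℝ), ∃ Y, Conv μ Y ∧ Whp μ fun n z => |X n z - Y n z| ≤ e * n) : Conv μ X := by
  have h1 : ∀ e : ℝ, ∃ a : ℝ, 0 < e → Whp μ fun n z => |X n z - a * n| ≤ e * n := fun e => by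
    by_cases he : 0 < e
    · obtain ⟨Y, ⟨a, ha⟩, hY⟩ := h _ (half_pos he)
      refine ⟨a, fun _ => ((ha _ (half_pos he)).and hY).imp fun n z hz => ?_⟩
      have h1 := abs_le.1 hz.1
      have h2 := abs_le.1 hz.2
      rw [abs_le]; constructor <;> linarith
    · exact ⟨0, fun h => absurd h he⟩
  choose a ha using h1
  obtain ⟨α, hα⟩ := exists_lim (a := a) fun e he e' he' => by
    obtain ⟨n, ⟨z, hz⟩, hn⟩ :=
      ((whp_exists ((ha e he).and (ha e' he'))).and (eventually_gt_atTop 0)).exists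
    have hn' : (0 : ℝ) < n := by exact_mod_cast hn
    have h1 := abs_le.1 hz.1
    have h2 := abs_le.1 hz.2
    rw [abs_le]
    constructor <;> refine le_of_mul_le_mul_right ?_ hn' <;> linarith
  refine ⟨α, fun δ hδ => (ha _ (half_pos hδ)).imp fun n z hz => ?_⟩
  have h1 := abs_le.1 hz
  have h2 := abs_le.1 (hα _ (half_pos hδ))
  have hn : (0 : ℝ) ≤ n := Nat.cast_nonneg n
  have h3 := mul_le_mul_of_nonneg_right h2.1 hn
  have h4 := mul_le_mul_of_nonneg_right h2.2 hn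
  rw [abs_le]; constructor <;> linarith

end conv

variable {n : ℕ}

lemma whp_fst {P : ∀ n, Mx n → Prop} (h : Whp GOE P) : Whp PP fun n z => P n z.1 :=
  h.comp fun _ => measurePreserving_fst

lemma whp_diag : Whp GOE fun _ G => ∑ i, G i i ^ 2 ≤ 4 := by
  have ha : Tendsto (fun n : ℕ => 2 * Real.exp (-((n : ℝ) / 8))) atTop (𝓝 0) := by
    have := (Real.tendsto_exp_neg_atTop_nhds_zero.comp
      ((tendsto_natCast_atTop_atTop (R := ℝ)).atTop_div_const (r := 8) (by norm_num))).const_mul 2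
    simpa [Function.comp_def] using this
  refine Top.whp_of_real_le ha ?_
  filter_upwards [eventually_gt_atTop 0] with n hn
  have hn' : (0 : ℝ) < n := by exact_mod_cast hn
  have hm : MeasurableSet {G : Mx n | ¬ ∑ i, G i i ^ 2 ≤ 4} :=
    (measurableSet_le (Finset.measurable_sum _ fun i _ =>
      (measurable_id.t157_entry i i).pow_const 2) measurable_const).compl
  have h1 := Conc.chi_tail (ι := Fin n) Conc.sg1_gauss (fun _ => Conc.sq_entry false) hn'
    (by simp) hn'.le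
  rw [show (n : ℝ) ^ 2 / (8 * n) = n / 8 by field_simp, min_self, Fintype.card_fin] at h1
  refine le_trans ?_ h1
  rw [← (Cond.mp_Wmat (n := n)).measureReal_preimage hm.nullMeasurableSet]
  refine ENNReal.toReal_mono (measure_ne_top _ _) (le_trans (measure_mono ?_)
    ((measurePreserving_snd (μ := Crest.ProbabilityR.SpinGlassDynamics.disorderLaw n)
      (ν := gv (Fin n))).measure_preimage_le _))
  intro p hp
  simp only [mem_preimage, mem_ofPred_eq, not_le] at hp ⊢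
  have e : ∑ i, Wmat n p.1 p.2 i i ^ 2 = 2 / n * ∑ i, p.2 i ^ 2 := by
    rw [Finset.mul_sum]
    refine Finset.sum_congr rfl fun i _ => ?_
    simp only [Wmat, Matrix.add_apply, Jmat_diag, diagonal_apply_eq, zero_add, div_pow, mul_pow,
      Real.sq_sqrt hn'.le, Real.sq_sqrt two_pos.le]
    ring
  rw [e, div_mul_eq_mul_div, lt_div_iff₀ hn'] at hp
  exact le_trans (by linarith) (le_abs_self _)

lemma plW_symm {G : Mx n} (hG : Gᵀ = G) : (plW 1 G 1)ᵀ = plW 1 G 1 := by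
  rw [plW, transpose_add, transpose_smul, transpose_vecMulVec, hG]

lemma plW_opn (hn : 0 < n) (G : Mx n) : opn (plW 1 G 1) ≤ opn G + 1 := by
  have hn' : (0 : ℝ) < n := by exact_mod_cast hn
  refine (opn_add_le _ _).trans (add_le_add le_rfl ?_)
  have h := opn_vecMulVec_le (1 : V n) (1 : V n)
  rw [nrm_mul_self] at h
  have e : (1 : V n) ⬝ᵥ (1 : V n) = n := by simp [dotProduct]
  rw [e] at h
  rw [opn_smul, abs_of_pos (by positivity), one_div, inv_mul_le_iff₀ hn', mul_one]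
  exact h

lemma plW_diag (hn : 0 < n) {G : Mx n} (hG : ∑ i, G i i ^ 2 ≤ 4) :
    ∑ i, plW 1 G 1 i i ^ 2 ≤ 16 := by
  have hn1 : (1 : ℝ) ≤ n := by exact_mod_cast hn
  have h1 : ∀ i, plW 1 G 1 i i ^ 2 ≤ 2 * G i i ^ 2 + 2 / n := fun i => by
    have e : plW 1 G 1 i i = G i i + 1 / n := by simp [plW]
    have a1 : (1 : ℝ) / n ≤ 1 := (div_le_one (by positivity)).2 hn1
    have a2 : (0 : ℝ) ≤ 1 / n := by positivity
    have a3 : (2 : ℝ) / n = 2 * (1 / n) := by ring
    rw [e, a3]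
    nlinarith [sq_nonneg (G i i - 1 / n)]
  refine (Finset.sum_le_sum fun i _ => h1 i).trans ?_
  rw [Finset.sum_add_distrib, ← Finset.mul_sum, Finset.sum_const, Finset.card_univ,
    Fintype.card_fin, nsmul_eq_mul, mul_div_cancel₀ _ (by positivity)]
  linarith

lemma Aq_zero (T : ℝ) (z : Mx n × V n) : Aq T 0 z = Am (ising (plW 1 z.1 1) 0) T (one n) := by
  simp [Aq]

lemma spec_ball {G : Mx n} (hn : 0 < n) (hS : Spec G) : Ball G := by
  have hn1 : (1 : ℝ) ≤ n := by exact_mod_cast hn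
  have : e0 n ≤ 1 := Real.rpow_le_one_of_one_le_of_nonpos hn1 (by norm_num)
  exact ⟨hS.symm, hS.top.trans (by linarith)⟩

lemma whp_ball (hS : SpecStmt) : Whp PP fun _ z => Ball z.1 :=
  (vh_whp hS).mono ((eventually_gt_atTop 0).mono fun _ hn _ h => spec_ball hn h)

/-- moments of the matrix against `A_T` converge -/
lemma conv_pow (hS : SpecStmt) (hD : DiscStmt) (hE : SEStmt) {T : ℝ} (hT : 0 ≤ T) (p : ℕ) :
    Conv PP fun _ z => (z.1 ^ p * Aq T 0 z).trace := by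
  obtain ⟨C, hC, hD⟩ := hD T hT
  refine Conv.of_approx fun e he => ?_
  set L : ℝ := 2 * (C * 3 ^ p) / e with hL
  have hL0 : 0 < L := by positivity
  obtain ⟨K, hK⟩ := exists_nat_gt (L ^ 2)
  have hK0 : (0 : ℝ) < K := lt_of_le_of_lt (sq_nonneg _) hK
  have hTK : 0 ≤ T / K := by positivity
  have c1 : ∀ K0 K1, Conv PP fun _ z => br (plW 1 z.1 1) (z.1 ^ p) (T / K) K0 K1 :=
    fun K0 K1 => (hE _ hTK K0 K1 p).imp fun α hα δ hδ => whp_fst (hα δ hδ)
  refine ⟨_, (c1 K K).add ((c1 0 (2 * K)).const_mul (-1)), ?_⟩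
  refine ((whp_ball hS).and (whp_fst whp_diag)).mono ?_
  filter_upwards [eventually_gt_atTop 0,
    tendsto_natCast_atTop_atTop.eventually_ge_atTop ((4 * L) ^ 2)] with n hn hnL z hz
  have hn' : (0 : ℝ) < n := by exact_mod_cast hn
  have h1 := hD n K (plW 1 z.1 1) (z.1 ^ p) hn (by exact_mod_cast hK0) (plW_symm hz.1.1)
    ((plW_opn hn _).trans (by linarith [hz.1.2]))
  rw [Aq_zero, neg_one_mul, ← sub_eq_add_neg]
  refine h1.trans ?_
  have a1 : opn (z.1 ^ p) ≤ 3 ^ p :=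
    (opn_pow_le _ _).trans (pow_le_pow_left₀ (opn_nonneg _) hz.1.2 p)
  have a2 : (n : ℝ) / √K ≤ n / L :=
    div_le_div_of_nonneg_left hn'.le hL0 (Real.le_sqrt_of_sq_le hK.le)
  have a3 : √(∑ i, plW 1 z.1 1 i i ^ 2) ≤ 4 :=
    Real.sqrt_le_iff.2 ⟨by norm_num, (plW_diag hn hz.2).trans (by norm_num)⟩
  have a4 : √(n : ℝ) * 4 ≤ n / L := by
    have b1 : 4 * L ≤ √(n : ℝ) := Real.le_sqrt_of_sq_le hnL
    rw [le_div_iff₀ hL0]
    nlinarith [Real.mul_self_sqrt hn'.le, Real.sqrt_nonneg (n : ℝ)]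
  have a5 : (n : ℝ) / √K + √n * √(∑ i, plW 1 z.1 1 i i ^ 2) ≤ n / L + n / L :=
    add_le_add a2 ((mul_le_mul_of_nonneg_left a3 (Real.sqrt_nonneg _)).trans a4)
  calc C * opn (z.1 ^ p) * (n / √K + √n * √(∑ i, plW 1 z.1 1 i i ^ 2))
      ≤ C * 3 ^ p * (n / L + n / L) := by gcongr
    _ ≤ e * n := by
        rw [hL]; field_simp; linarith

lemma trace_pow_mul {G : Mx n} (hG : Gᵀ = G) (p : ℕ) (A : Mx n) :
    (G ^ p * A).trace = ∑ k ∈ Finset.range n, lam G k ^ p * (vec G k ⬝ᵥ A *ᵥ vec G k) := by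
  have hH : G.IsHermitian := herm_iff.2 hG
  rw [trace_mul_comm, trace_eq_sum_quad hH, Fintype.card_fin]
  refine Finset.sum_congr rfl fun k _ => ?_
  rw [← mulVec_mulVec, pow_mulVec_vec hH, mulVec_smul, dotProduct_smul, smul_eq_mul]

lemma conv_fE (hF : FeApi) (hA : FDStmt) (hS : SpecStmt) (hD : DiscStmt) (hE : SEStmt) {T η : ℝ}
    (hT : 0 ≤ T) (hη : 0 < η) : Conv PP fun _ z => (fE η z.1 * Aq T 0 z).trace := by
  obtain ⟨C, hC, hA⟩ := hA T hT 0 le_rfl
  refine Conv.of_approx fun e he => ?_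
  have hc : Continuous (fl η) := by
    unfold fl
    exact continuous_const.div (by fun_prop) fun l => by positivity
  obtain ⟨P, hP⟩ := exists_polynomial_near_of_continuousOn (-3) 3 (fl η) hc.continuousOn (e / C)
    (by positivity)
  refine ⟨_, Conv.sum (Finset.range (P.natDegree + 1))
    fun p _ => (conv_pow hS hD hE hT p).const_mul (P.coeff p), ?_⟩
  refine (whp_ball hS).mono ((eventually_gt_atTop 0).mono fun n hn z hz => ?_)
  obtain ⟨S, hS⟩ := hA n hn
  have hH : z.1.IsHermitian := herm_iff.2 hz.1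
  have e1 : ∑ p ∈ Finset.range (P.natDegree + 1), P.coeff p * (z.1 ^ p * Aq T 0 z).trace =
      ∑ k ∈ Finset.range n, P.eval (lam z.1 k) * (vec z.1 k ⬝ᵥ Aq T 0 z *ᵥ vec z.1 k) := by
    simp only [trace_pow_mul hz.1, Finset.mul_sum, Polynomial.eval_eq_sum_range, Finset.sum_mul]
    rw [Finset.sum_comm]
    exact Finset.sum_congr rfl fun k _ => Finset.sum_congr rfl fun p _ => by ring
  rw [e1, hF.trace hz.1 hη, ← Finset.sum_sub_distrib]
  refine (Finset.abs_sum_le_sum_abs _ _).trans ?_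
  refine (Finset.sum_le_card_nsmul _ _ e fun k hk => ?_).trans (by simp [mul_comm])
  rw [← sub_mul, abs_mul, abs_sub_comm]
  have a1 := hP (lam z.1 k) (abs_le.1 ((abs_lam_le hH k).trans hz.2))
  have a2 := abs_diag_le hH (hS.bd z hz) (Finset.mem_range.1 hk)
  calc _ ≤ e / C * C := mul_le_mul a1.le a2 (abs_nonneg _) (by positivity)
    _ = e := by field_simp

/-- a very soft vector orthogonal to the planted direction -/
lemma exists_soft {G : Mx n} (hS : Spec G) (he : 0 ≤ e0 n) (h2 : 2 ≤ cnt G (2 - e0 n)) :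
    ∃ u : V n, u ≠ 0 ∧ nrm (tm (plW 1 G 1) *ᵥ u) ≤ e0 n * nrm u := by
  have hH : G.IsHermitian := herm_iff.2 hS.symm
  have hn : 2 ≤ Fintype.card (Fin n) := h2.trans (cnt_le_card _ _)
  have key : ∀ u : V n, Soft G 2 u → (1 : V n) ⬝ᵥ u = 0 →
      nrm (tm (plW 1 G 1) *ᵥ u) ≤ e0 n * nrm u := fun u hu h1 => by
    have e : tm (plW 1 G 1) *ᵥ u = tm G *ᵥ u := by
      rw [tm, tm, sub_mulVec, sub_mulVec, plW, add_mulVec, smul_mulVec (1 / (n : ℝ)), vv_mulVec, h1,
        zero_smul, smul_zero, add_zero]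
    rw [e]
    refine soft_nrm hH hu he fun k hk => ?_
    have a1 := ((lt_cnt_iff hH).1 (hk.trans_le h2)).2
    have a2 := (lam_le_opn hH k).trans hS.top
    rw [abs_le]; constructor <;> linarith
  by_cases h0 : (1 : V n) ⬝ᵥ vec G 0 = 0
  · refine ⟨vec G 0, fun h => ?_, key _ (fun k hk => vec_dot_ne hH (by omega)) h0⟩
    have := vec_dot_self hH (k := 0) (by omega)
    rw [h] at this
    simp at this
  · refine ⟨((1 : V n) ⬝ᵥ vec G 1) • vec G 0 - ((1 : V n) ⬝ᵥ vec G 0) • vec G 1, fun h => h0 ?_,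
      key _ (fun k hk => ?_) ?_⟩
    · have := congrArg (fun u => vec G 1 ⬝ᵥ u) h
      simp only [dotProduct_sub, dotProduct_smul, vec_dot_ne hH one_ne_zero,
        vec_dot_self hH (k := 1) (by omega), smul_eq_mul, dotProduct_zero] at this
      linarith
    · rw [dotProduct_sub, dotProduct_smul, dotProduct_smul, vec_dot_ne hH (by omega),
        vec_dot_ne hH (by omega), smul_zero, smul_zero, sub_zero]
    · rw [dotProduct_sub, dotProduct_smul, dotProduct_smul, smul_eq_mul, smul_eq_mul]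
      ring

end Sef46

open Sef46

/-- **the centre converges** -/
theorem sefGlue : SEFGlue := by
  intro hF hA hS hTr hD hE T hT η0 h0
  obtain ⟨α, hα⟩ := conv_fE hF hA hS hD hE hT h0.1
  obtain ⟨β, hβ, hb⟩ := hTr η0 h0
  refine ⟨α / β, fun δ hδ => ?_⟩
  have hη := h0.1
  set d : ℝ := δ * (η0 * √η0) / (|α / β| + 1) with hd
  have hd0 : 0 < d := by
    have := Real.sqrt_pos.2 hη
    positivity
  refine ((hα d hd0).and (hb d hd0)).imp fun n z hz => ?_
  have e : dev η0 (α / β) (Aq T 0 z) z.1 = ((fE η0 z.1 * Aq T 0 z).trace - α * n) -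
      α / β * ((fE η0 z.1).trace - β * n) := by
    rw [dev, Matrix.mul_sub, trace_sub, Matrix.mul_smul, Matrix.mul_one, trace_smul, smul_eq_mul]
    field_simp
    ring
  rw [e]
  refine (abs_sub _ _).trans ?_
  rw [abs_mul]
  calc _ ≤ d * n + |α / β| * (d * n) :=
        add_le_add hz.1 (mul_le_mul_of_nonneg_left hz.2 (abs_nonneg _))
    _ = δ * Nb n η0 := by
        rw [hd, Nb]; field_simp; ring

/-- **(DL) in the planted model** -/
theorem pdlGlue : PDLGlue := by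
  intro hS hP hE T hT
  have h1 : ∀ ε : ℝ, ∃ a : ℝ, 0 < ε → ∃ η > (0 : ℝ),
      Vh PP fun _ z => DAev (plW 1 z.1 1) (Aq T 0 z) ε η a := fun ε => by
    by_cases hε : 0 < ε
    · obtain ⟨δ, hδ, ηb, hb, h⟩ := hP T hT 0 le_rfl ε hε
      obtain ⟨η, hη, h⟩ := h ηb ⟨hb.1, le_rfl⟩
      obtain ⟨a, ha⟩ := hE T hT ηb hb
      exact ⟨a, fun _ => ⟨η, hη, h (fun _ => a) (ha δ hδ)⟩⟩
    · exact ⟨0, fun h => absurd h hε⟩
  choose a ha using h1
  obtain ⟨α, hα⟩ := exists_lim (a := a) fun e he e' he' => by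
    obtain ⟨η, hη, h⟩ := ha e he
    obtain ⟨η', hη', h'⟩ := ha e' he'
    obtain ⟨n, ⟨z, hz, hz1, hz2⟩, hn, k1, k2, k3⟩ :=
      ((whp_exists ((vh_whp hS).and ((vh_whp h).and (vh_whp h')))).and
        ((eventually_ge_atTop 1).and ((Mean46.ev_small (a := 13 / 20) (by norm_num) hη).and
          ((Mean46.ev_small (a := 13 / 20) (by norm_num) hη').and
            (Rot46.ev_le 128 (a := 1 - 3 / 2 * (13 / 20)) (by norm_num)))))).exists
    have hn1 : (1 : ℝ) ≤ n := by exact_mod_cast hn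
    have he0 : 0 ≤ e0 n := Real.rpow_nonneg (by positivity) _
    have hlo := hz.lo (e0 n) ⟨le_rfl, Real.rpow_le_one_of_one_le_of_nonpos hn1 (by norm_num)⟩
    rw [e0, Rot46.Nb_rpow hn, ← e0] at hlo
    obtain ⟨u, hu0, hu⟩ := exists_soft hz he0 (by
      have : (2 : ℝ) ≤ cnt z.1 (2 - e0 n) := by linarith
      exact_mod_cast this)
    have a1 := hz1 u u hu (hu.trans (mul_le_mul_of_nonneg_right k1 (nrm_nonneg u)))
    have a2 := hz2 u u hu (hu.trans (mul_le_mul_of_nonneg_right k2 (nrm_nonneg u)))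
    rw [nrm_mul_self, abs_le] at a1 a2
    rw [abs_le]
    constructor <;> refine le_of_mul_le_mul_right ?_ (dot_self_pos hu0) <;> linarith
  refine ⟨α, fun ε hε => ?_⟩
  obtain ⟨η, hη, h⟩ := ha _ (half_pos hε)
  refine ⟨η, hη, h.mono (.of_forall fun n z hz u x hu hx => ?_)⟩
  have a1 := hz u x hu hx
  have a2 := mul_le_mul (hα _ (half_pos hε)) (abs_dot_le x u) (abs_nonneg _) (half_pos hε).le
  rw [← abs_mul] at a2
  have e : x ⬝ᵥ Aq T 0 z *ᵥ u - α * (x ⬝ᵥ u) =
      (x ⬝ᵥ Aq T 0 z *ᵥ u - a (ε / 2) * (x ⬝ᵥ u)) + (a (ε / 2) - α) * (x ⬝ᵥ u) := by ring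
  rw [e]
  refine (abs_add_le _ _).trans ?_
  linarith

end Crest.Agent.T157.Da

end
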