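import Crest.Agent.T157.DaDef_82

/-!
# Row 157, part C (helper85): rank-two reflections, algebra for `Da.SwapStmt`
-/

set_option autoImplicit false

noncomputable section

namespace Crest.Agent.T157.Da.Sw85

open MeasureTheory Matrix Filter Set
open Crest.Agent.T157.E Crest.Agent.T157.Eig
open Crest.Agent.T157.Tap (V Mx)
open Crest.Agent.T157.Conc (fro)
open Crest.Agent.R164.Haar (Mat RHaar rmul)

variable {n : ℕ}

lemma vmv (u v w : V n) : vecMulVec u v *ᵥ w = (v ⬝ᵥ w) • u := by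
  rw [vecMulVec_mulVec]; ext i; simp [mul_comm]

/-- reflection inside the plane spanned by `a`, `b` -/
def rq (a b : V n) (c s : ℝ) : Mx n :=
  1 + (c - 1) • vecMulVec a a + s • (vecMulVec a b + vecMulVec b a) - (c + 1) • vecMulVec b b

lemma rq_mulVec (a b : V n) (c s : ℝ) (x : V n) : rq a b c s *ᵥ x =
    x + ((c - 1) * (a ⬝ᵥ x) + s * (b ⬝ᵥ x)) • a + (s * (a ⬝ᵥ x) - (c + 1) * (b ⬝ᵥ x)) • b := by
  simp only [rq, sub_mulVec, add_mulVec, smul_mulVec, one_mulVec, vmv]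
  ext i; simp only [Pi.add_apply, Pi.sub_apply, Pi.smul_apply, smul_eq_mul]; ring

lemma rq_symm (a b : V n) (c s : ℝ) : (rq a b c s)ᵀ = rq a b c s := by
  simp only [rq, transpose_sub, transpose_add, transpose_smul, transpose_one, transpose_vecMulVec]
  rw [add_comm (vecMulVec b a)]

/-- an orthonormal pair -/
structure ON (a b : V n) : Prop where
  aa : a ⬝ᵥ a = 1
  bb : b ⬝ᵥ b = 1
  ab : a ⬝ᵥ b = 0

lemma ON.ba {a b : V n} (h : ON a b) : b ⬝ᵥ a = 0 := by rw [dotProduct_comm]; exact h.ab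

lemma rq_a {a b : V n} (h : ON a b) (c s : ℝ) : rq a b c s *ᵥ a = c • a + s • b := by
  rw [rq_mulVec, h.aa, h.ba]; ext i; simp only [Pi.add_apply, Pi.smul_apply, smul_eq_mul]; ring

lemma rq_b {a b : V n} (h : ON a b) (c s : ℝ) : rq a b c s *ᵥ b = s • a - c • b := by
  rw [rq_mulVec, h.bb, h.ab]; ext i
  simp only [Pi.add_apply, Pi.sub_apply, Pi.smul_apply, smul_eq_mul]; ring

lemma rq_perp {a b w : V n} (c s : ℝ) (ha : a ⬝ᵥ w = 0) (hb : b ⬝ᵥ w = 0) :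
    rq a b c s *ᵥ w = w := by
  rw [rq_mulVec, ha, hb]; simp

lemma rq_mem {a b : V n} (h : ON a b) {c s : ℝ} (hcs : c ^ 2 + s ^ 2 = 1) :
    rq a b c s ∈ Matrix.orthogonalGroup (Fin n) ℝ := by
  rw [Matrix.mem_orthogonalGroup_iff, rq_symm, Matrix.ext_iff_mulVec]
  intro x
  rw [← mulVec_mulVec, one_mulVec, rq_mulVec a b c s x]
  simp only [mulVec_add, mulVec_smul, rq_a h, rq_b h, rq_mulVec a b c s x]
  ext i
  simp only [Pi.add_apply, Pi.sub_apply, Pi.smul_apply, smul_eq_mul]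
  linear_combination ((a ⬝ᵥ x) * a i + (b ⬝ᵥ x) * b i) * hcs

/-- conjugating by the reflection changes `G` by a rank two matrix -/
lemma rq_conj {G : Mx n} (hG : Gᵀ = G) {a b : V n} (h : ON a b) {l m c s : ℝ}
    (hcs : c ^ 2 + s ^ 2 = 1) (ha : G *ᵥ a = l • a) (hb : G *ᵥ b = m • b) :
    rq a b c s * G * (rq a b c s)ᵀ - G =
      vecMulVec (((l - m) * s) • (c • b - s • a)) a +
        vecMulVec (((l - m) * s) • (c • a + s • b)) b := by
  have hH : G.IsHermitian := herm_iff.2 hG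
  rw [rq_symm, Matrix.ext_iff_mulVec]
  intro x
  have h1 : a ⬝ᵥ G *ᵥ x = l * (a ⬝ᵥ x) := by
    rw [dot_symm hH, ha, dotProduct_smul, smul_eq_mul, dotProduct_comm]
  have h2 : b ⬝ᵥ G *ᵥ x = m * (b ⬝ᵥ x) := by
    rw [dot_symm hH, hb, dotProduct_smul, smul_eq_mul, dotProduct_comm]
  rw [sub_mulVec, ← mulVec_mulVec, ← mulVec_mulVec, rq_mulVec a b c s x]
  simp only [mulVec_add, mulVec_smul, ha, hb, rq_a h, rq_b h, rq_mulVec a b c s (G *ᵥ x), h1, h2,
    add_mulVec, vmv]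
  ext i
  simp only [Pi.add_apply, Pi.sub_apply, Pi.smul_apply, smul_eq_mul]
  linear_combination (l * (a ⬝ᵥ x) * a i + m * (b ⬝ᵥ x) * b i) * hcs

lemma of_rmul (Q : Mx n) (O : Mat (Fin n)) : Matrix.of (rmul Q O) = Matrix.of O * Q := rfl

lemma cj_rmul (Q G : Mx n) (O : Mat (Fin n)) : cj (rmul Q O) G = cj O (Q * G * Qᵀ) := by
  simp only [cj, of_rmul, transpose_mul, Matrix.mul_assoc]

lemma cj_sub (O : Mat (Fin n)) (G G' : Mx n) : cj O G' - cj O G = cj O (G' - G) := by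
  simp only [cj, Matrix.mul_sub, Matrix.sub_mul]

lemma cj_vmv (O : Mat (Fin n)) (x a y b : V n) : cj O (vecMulVec x a + vecMulVec y b) =
    vecMulVec (Matrix.of O *ᵥ x) (Matrix.of O *ᵥ a) +
      vecMulVec (Matrix.of O *ᵥ y) (Matrix.of O *ᵥ b) := by
  simp only [cj, Matrix.mul_add, Matrix.add_mul, mul_vecMulVec, vecMulVec_mul, vecMul_transpose]

lemma tr_vmv (S : Mx n) (a x y b : V n) :
    (vecMulVec a x * S * vecMulVec y b).trace = (x ⬝ᵥ S *ᵥ y) * (a ⬝ᵥ b) := by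
  rw [vecMulVec_mul, vecMulVec_mul_vecMulVec, trace_vecMulVec, dotProduct_smul, smul_eq_mul,
    dotProduct_mulVec]

lemma rmul_mem {Q : Mx n} (hQ : Q ∈ Matrix.orthogonalGroup (Fin n) ℝ) {O : Mat (Fin n)}
    (hO : Matrix.of O ∈ Matrix.orthogonalGroup (Fin n) ℝ) :
    Matrix.of (rmul Q O) ∈ Matrix.orthogonalGroup (Fin n) ℝ := by
  rw [of_rmul]; exact mul_mem hO hQ

lemma orth_dot {O : Mx n} (hO : O ∈ Matrix.orthogonalGroup (Fin n) ℝ) (u v : V n) :
    (O *ᵥ u) ⬝ᵥ (O *ᵥ v) = u ⬝ᵥ v :=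
  dot_isom ((Matrix.mem_orthogonalGroup_iff' _ _).1 hO) u v

/-- the exact cost of the reflection -/
lemma cost_eq {G : Mx n} (hG : Gᵀ = G) {a b : V n} (h : ON a b) {l m c s : ℝ}
    (hcs : c ^ 2 + s ^ 2 = 1) (ha : G *ᵥ a = l • a) (hb : G *ᵥ b = m • b) {O : Mat (Fin n)}
    (hO : Matrix.of O ∈ Matrix.orthogonalGroup (Fin n) ℝ) (S : Mx n) :
    ((cj (rmul (rq a b c s) O) G - cj O G) * S * (cj (rmul (rq a b c s) O) G - cj O G)).trace =
      ((l - m) * s) ^ 2 * ((Matrix.of O *ᵥ a) ⬝ᵥ S *ᵥ (Matrix.of O *ᵥ a) +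
        (Matrix.of O *ᵥ b) ⬝ᵥ S *ᵥ (Matrix.of O *ᵥ b)) := by
  have e : cj (rmul (rq a b c s) O) G - cj O G = _ :=
    (by rw [cj_rmul, cj_sub, rq_conj hG h hcs ha hb, cj_vmv])
  have es : (cj (rmul (rq a b c s) O) G - cj O G)ᵀ = cj (rmul (rq a b c s) O) G - cj O G := by
    simp only [cj, transpose_sub, transpose_mul, transpose_transpose, hG, Matrix.mul_assoc]
  nth_rewrite 1 [← es]
  rw [e]
  have haa := (orth_dot hO a a).trans h.aa
  have hbb := (orth_dot hO b b).trans h.bb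
  have hab := (orth_dot hO a b).trans h.ab
  have hba := (orth_dot hO b a).trans h.ba
  simp only [transpose_add, transpose_vecMulVec, Matrix.add_mul, Matrix.mul_add, trace_add, tr_vmv,
    haa, hbb, hab, hba]
  simp only [mulVec_add, mulVec_sub, mulVec_smul, add_dotProduct, sub_dotProduct, smul_dotProduct,
    dotProduct_add, dotProduct_sub, dotProduct_smul, smul_eq_mul]
  linear_combination ((l - m) * s) ^ 2 * ((Matrix.of O *ᵥ a) ⬝ᵥ S *ᵥ (Matrix.of O *ᵥ a) +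
        (Matrix.of O *ᵥ b) ⬝ᵥ S *ᵥ (Matrix.of O *ᵥ b)) * hcs

lemma ball_cj {G : Mx n} (hG : Ball G) {O : Mat (Fin n)}
    (hO : Matrix.of O ∈ Matrix.orthogonalGroup (Fin n) ℝ) : Ball (cj O G) := by
  refine ⟨?_, ?_⟩
  · simp only [cj, transpose_mul, transpose_transpose, hG.1, Matrix.mul_assoc]
  · have h1 : opn (Matrix.of O) ≤ 1 := opn_isom_le ((Matrix.mem_orthogonalGroup_iff' _ _).1 hO)
    have h2 : opn (Matrix.of O)ᵀ ≤ 1 := by rw [opn_transpose]; exact h1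
    have h3 := opn_mul_le (Matrix.of O * G) (Matrix.of O)ᵀ
    have h4 := opn_mul_le (Matrix.of O) G
    have h5 := opn_nonneg G
    have h6 := opn_nonneg (Matrix.of O * G)
    have h7 := hG.2
    have h8 := opn_nonneg (Matrix.of O)
    unfold cj
    nlinarith

/-- Bessel's inequality in the rotated eigenbasis -/
lemma bessel {G : Mx n} (hG : G.IsHermitian) {O : Mx n}
    (hO : O ∈ Matrix.orthogonalGroup (Fin n) ℝ) (x : V n) {J : Finset ℕ}
    (hJ : ∀ k ∈ J, k < n) : ∑ k ∈ J, ((O *ᵥ vec G k) ⬝ᵥ x) ^ 2 ≤ x ⬝ᵥ x := by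
  have h1 : ∀ k, (O *ᵥ vec G k) ⬝ᵥ x = vec G k ⬝ᵥ (Oᵀ *ᵥ x) := fun k => by
    rw [dotProduct_mulVec, vecMul_transpose]
  have h2 : x ⬝ᵥ x = (Oᵀ *ᵥ x) ⬝ᵥ (Oᵀ *ᵥ x) :=
    (orth_dot (Crest.Agent.R164.Haar.transpose_mem hO) x x).symm
  rw [h2, dot_eq hG]
  simp only [h1, sq]
  refine Finset.sum_le_sum_of_subset_of_nonneg (fun k hk => ?_) fun k _ _ => mul_self_nonneg _
  simpa using hJ k hk

lemma sum_diag_le {G : Mx n} (hG : G.IsHermitian) {O : Mx n}
    (hO : O ∈ Matrix.orthogonalGroup (Fin n) ℝ) {S : Mx n} (hS : S.PosSemidef) {J : Finset ℕ}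
    (hJ : ∀ k ∈ J, k < n) :
    ∑ k ∈ J, (O *ᵥ vec G k) ⬝ᵥ S *ᵥ (O *ᵥ vec G k) ≤ S.trace := by
  have h1 : S.trace = (Oᵀ * S * O).trace := by
    rw [trace_mul_cycle, (Matrix.mem_orthogonalGroup_iff _ _).1 hO, Matrix.one_mul]
  have h2 : ∀ k, vec G k ⬝ᵥ (Oᵀ * S * O) *ᵥ vec G k =
      (O *ᵥ vec G k) ⬝ᵥ S *ᵥ (O *ᵥ vec G k) := fun k => by
    rw [← mulVec_mulVec, ← mulVec_mulVec, dotProduct_mulVec, vecMul_transpose]
  rw [h1, trace_eq_sum_quad hG]
  simp only [h2]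
  refine Finset.sum_le_sum_of_subset_of_nonneg (fun k hk => ?_) fun k _ _ => ?_
  · simpa using hJ k hk
  · simpa using hS.dotProduct_mulVec_nonneg (O *ᵥ vec G k)

lemma meas_cj (G : Mx n) : Measurable fun O : Mat (Fin n) => cj O G := by
  refine measurable_pi_iff.2 fun i => measurable_pi_iff.2 fun j => ?_
  simp only [cj, Matrix.mul_apply, transpose_apply, of_apply]
  fun_prop

lemma meas_Phi {B : Mx n → Mx n} (hB : Measurable B) (G : Mx n) (k l : ℕ) :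
    Measurable fun O : Mat (Fin n) => Phi B G O k l := by
  have h : ∀ i j, Measurable fun O : Mat (Fin n) => B (cj O G) i j := fun i j =>
    (hB.comp (meas_cj G)).t157_entry i j
  have h' : ∀ (v : V n) (i : Fin n), Measurable fun O : Mat (Fin n) => (Matrix.of O *ᵥ v) i :=
    fun v i => by
      simp only [dotProduct, mulVec, of_apply]
      fun_prop
  have e : (fun O : Mat (Fin n) => Phi B G O k l) = fun O => ∑ i, (Matrix.of O *ᵥ Eig.vec G k) i *
      ∑ j, B (cj O G) i j * (Matrix.of O *ᵥ Eig.vec G l) j := rfl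
  rw [e]
  exact Finset.measurable_sum _ fun i _ => (h' _ i).mul
    (Finset.measurable_sum _ fun j _ => (h i j).mul (h' _ j))

end Crest.Agent.T157.Da.Sw85

end
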