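import Crest.Agent.T157.DaSwA_85

/-!
# Row 157, part C (helper85): pointwise swap inequalities for `Da.SwapStmt`
-/

set_option autoImplicit false

noncomputable section

namespace Crest.Agent.T157.Da.Sw85

open MeasureTheory Matrix Filter Set
open Crest.Agent.T157.E Crest.Agent.T157.Eig
open Crest.Agent.T157.Tap (V Mx)
open Crest.Agent.T157.Conc (fro)
open Crest.Agent.R164.Haar (Mat RHaar rmul)

variable {n : ℕ}

/-- the finite-difference structure at a frozen field -/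
structure FD0 (C : ℝ) (A S : Mx n → Mx n) : Prop where
  mA : Measurable A
  mS : Measurable S
  psdA : ∀ M, Ball M → (A M).PosSemidef
  psdS : ∀ M, Ball M → (S M).PosSemidef
  bd : ∀ M, Ball M → opn (A M) ≤ C
  tr : ∀ M, Ball M → (S M).trace ≤ C * n
  lipA : ∀ M M', Ball M → Ball M' →
    fro (A M' - A M) ≤ C * ((M' - M) * S M * (M' - M)).trace
  lipS : ∀ M M' (u : V n), Ball M → Ball M' →
    u ⬝ᵥ S M' *ᵥ u ≤ 2 * (u ⬝ᵥ S M *ᵥ u) + C * (u ⬝ᵥ u) * ((M' - M) * S M * (M' - M)).trace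

lemma fd0_of {C : ℝ} {A S : Mx n × V n → Mx n} (h : FD C A S) (ξ : V n) :
    FD0 C (fun M => A (M, ξ)) (fun M => S (M, ξ)) where
  mA := h.mA.comp (measurable_id.prodMk measurable_const)
  mS := h.mS.comp (measurable_id.prodMk measurable_const)
  psdA M hM := h.psdA (M, ξ) hM
  psdS M hM := h.psdS (M, ξ) hM
  bd M hM := h.bd (M, ξ) hM
  tr M hM := h.tr (M, ξ) hM
  lipA M M' hM hM' := by simpa [cost] using h.lipA (M, ξ) (M', ξ) hM hM'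
  lipS M M' u hM hM' := by simpa [cost] using h.lipS (M, ξ) (M', ξ) u hM hM'

lemma on_vec {G : Mx n} (hG : Gᵀ = G) {k l : ℕ} (hk : k < n) (hl : l < n) (hkl : k ≠ l) :
    ON (Eig.vec G k) (Eig.vec G l) :=
  ⟨vec_dot_self (herm_iff.2 hG) (by simpa using hk), vec_dot_self (herm_iff.2 hG) (by simpa using hl),
    vec_dot_ne (herm_iff.2 hG) hkl⟩

/-- the reflection between two eigenvectors -/
def Q (G : Mx n) (k l : ℕ) (c s : ℝ) : Mx n := rq (Eig.vec G k) (Eig.vec G l) c s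

section pt
variable {C : ℝ} {A S : Mx n → Mx n} {G : Mx n} {O : Mat (Fin n)} {k l : ℕ} {c s d : ℝ}

lemma Q_mem (hG : Gᵀ = G) (hk : k < n) (hl : l < n) (hkl : k ≠ l) (hcs : c ^ 2 + s ^ 2 = 1) :
    Q G k l c s ∈ Matrix.orthogonalGroup (Fin n) ℝ := rq_mem (on_vec hG hk hl hkl) hcs

lemma unit_vec (hG : Gᵀ = G) (hO : Matrix.of O ∈ Matrix.orthogonalGroup (Fin n) ℝ) (hk : k < n) :
    (Matrix.of O *ᵥ Eig.vec G k) ⬝ᵥ (Matrix.of O *ᵥ Eig.vec G k) = 1 :=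
  (orth_dot hO _ _).trans (vec_dot_self (herm_iff.2 hG) (by simpa using hk))

lemma phiS_nonneg (h : FD0 C A S) (hG : Ball G)
    (hO : Matrix.of O ∈ Matrix.orthogonalGroup (Fin n) ℝ) (k : ℕ) : 0 ≤ Phi S G O k k := by
  simpa [Phi] using (h.psdS _ (ball_cj hG hO)).dotProduct_mulVec_nonneg (Matrix.of O *ᵥ Eig.vec G k)

lemma sum_phiS_le (h : FD0 C A S) (hG : Ball G)
    (hO : Matrix.of O ∈ Matrix.orthogonalGroup (Fin n) ℝ) {J : Finset ℕ} (hJ : ∀ k ∈ J, k < n) :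
    ∑ k ∈ J, Phi S G O k k ≤ C * n :=
  (sum_diag_le (herm_iff.2 hG.1) hO (h.psdS _ (ball_cj hG hO)) hJ).trans (h.tr _ (ball_cj hG hO))

lemma abs_phiA_le (h : FD0 C A S) (hG : Ball G)
    (hO : Matrix.of O ∈ Matrix.orthogonalGroup (Fin n) ℝ) (hk : k < n) (hl : l < n) :
    |Phi A G O k l| ≤ C := by
  have h1 := abs_bil_le (A (cj O G)) (Matrix.of O *ᵥ Eig.vec G k) (Matrix.of O *ᵥ Eig.vec G l)
  rw [nrm, nrm, unit_vec hG.1 hO hk, unit_vec hG.1 hO hl, Real.sqrt_one, mul_one, mul_one] at h1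
  exact h1.trans (h.bd _ (ball_cj hG hO))

lemma row_le (h : FD0 C A S) (hG : Ball G)
    (hO : Matrix.of O ∈ Matrix.orthogonalGroup (Fin n) ℝ) (hl : l < n) {J : Finset ℕ}
    (hJ : ∀ k ∈ J, k < n) : ∑ k ∈ J, Phi A G O l k ^ 2 ≤ C ^ 2 := by
  have hB := ball_cj hG hO
  have hs : (A (cj O G)).IsHermitian := (h.psdA _ hB).1
  have h1 : ∀ k, Phi A G O l k =
      (Matrix.of O *ᵥ Eig.vec G k) ⬝ᵥ (A (cj O G) *ᵥ (Matrix.of O *ᵥ Eig.vec G l)) := fun k => by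
    rw [Phi, dot_symm hs]
  simp only [h1]
  refine (bessel (herm_iff.2 hG.1) hO _ hJ).trans ((mulVec_dot_le _ _).trans ?_)
  rw [unit_vec hG.1 hO hl, mul_one]
  exact pow_le_pow_left₀ (opn_nonneg _) (h.bd _ hB) 2

lemma cost_le (h : FD0 C A S) (hG : Ball G)
    (hO : Matrix.of O ∈ Matrix.orthogonalGroup (Fin n) ℝ) (hk : k < n) (hl : l < n) (hkl : k ≠ l)
    (hcs : c ^ 2 + s ^ 2 = 1) (hd : |lam G k - lam G l| ≤ d) :
    ((cj (rmul (Q G k l c s) O) G - cj O G) * S (cj O G) *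
        (cj (rmul (Q G k l c s) O) G - cj O G)).trace ≤ d ^ 2 * (Phi S G O k k + Phi S G O l l) := by
  have hH := herm_iff.2 hG.1
  rw [Q, cost_eq hG.1 (on_vec hG.1 hk hl hkl) hcs (mulVec_vec hH k) (mulVec_vec hH l) hO]
  have h1 := phiS_nonneg h hG hO k
  have h2 := phiS_nonneg h hG hO l
  refine mul_le_mul_of_nonneg_right ?_ (add_nonneg h1 h2)
  have h3 : (lam G k - lam G l) ^ 2 ≤ d ^ 2 := by
    rw [← sq_abs]; exact pow_le_pow_left₀ (abs_nonneg _) hd 2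
  have h4 : s ^ 2 ≤ 1 := by nlinarith [sq_nonneg c]
  rw [mul_pow]
  nlinarith [sq_nonneg (lam G k - lam G l), sq_nonneg s]

lemma Q_vec (G : Mx n) (O : Mat (Fin n)) (k l : ℕ) (c s : ℝ) (x : V n) :
    Matrix.of (rmul (Q G k l c s) O) *ᵥ x = Matrix.of O *ᵥ (Q G k l c s *ᵥ x) := by
  rw [of_rmul, mulVec_mulVec]

/-- (a) swapping two directions in `S` -/
lemma ptA (hC : 0 ≤ C) (h : FD0 C A S) (hG : Ball G)
    (hO : Matrix.of O ∈ Matrix.orthogonalGroup (Fin n) ℝ) (hk : k < n) (hl : l < n) (hkl : k ≠ l)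
    (hd : |lam G k - lam G l| ≤ d) :
    Phi S G (rmul (Q G k l 0 1) O) k k ≤
      2 * Phi S G O l l + C * (d ^ 2 * (Phi S G O k k + Phi S G O l l)) := by
  have hcs : (0 : ℝ) ^ 2 + 1 ^ 2 = 1 := by norm_num
  have hO' := rmul_mem (Q_mem hG.1 hk hl hkl hcs) hO
  have e : Matrix.of (rmul (Q G k l 0 1) O) *ᵥ Eig.vec G k = Matrix.of O *ᵥ Eig.vec G l := by
    rw [Q_vec, Q, rq_a (on_vec hG.1 hk hl hkl)]; simp
  have h1 := h.lipS _ _ (Matrix.of O *ᵥ Eig.vec G l) (ball_cj hG hO) (ball_cj hG hO')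
  rw [unit_vec hG.1 hO hl, mul_one] at h1
  have h2 := mul_le_mul_of_nonneg_left (cost_le h hG hO hk hl hkl hcs hd) hC
  rw [Phi, e]
  exact h1.trans (add_le_add_right h2 _)

lemma fro_bound (D : Mx n) {w : V n} (hw : w ⬝ᵥ w ≤ 1) : (D *ᵥ w) ⬝ᵥ (D *ᵥ w) ≤ fro D := by
  refine (mulVec_dot_le D w).trans ?_
  have h1 := opn_sq_le_frob D
  have h2 := sq_nonneg (opn D)
  unfold fro
  nlinarith

/-- (b) swapping a column index -/
lemma ptB (hC : 0 ≤ C) (h : FD0 C A S) (hG : Ball G)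
    (hO : Matrix.of O ∈ Matrix.orthogonalGroup (Fin n) ℝ) (hk : k < n) (hl : l < n) (hkl : k ≠ l)
    (hd : |lam G k - lam G l| ≤ d) {I : Finset ℕ} (hI : ∀ i ∈ I, i < n ∧ i ≠ k ∧ i ≠ l) :
    ∑ i ∈ I, Phi A G (rmul (Q G k l 0 1) O) i k ^ 2 ≤
      2 * ∑ i ∈ I, Phi A G O i l ^ 2 + 2 * (C * (d ^ 2 * (Phi S G O k k + Phi S G O l l))) := by
  have hH := herm_iff.2 hG.1
  have hcs : (0 : ℝ) ^ 2 + 1 ^ 2 = 1 := by norm_num
  have hO' := rmul_mem (Q_mem hG.1 hk hl hkl hcs) hO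
  have e : Matrix.of (rmul (Q G k l 0 1) O) *ᵥ Eig.vec G k = Matrix.of O *ᵥ Eig.vec G l := by
    rw [Q_vec, Q, rq_a (on_vec hG.1 hk hl hkl)]; simp
  have e' : ∀ i ∈ I, Matrix.of (rmul (Q G k l 0 1) O) *ᵥ Eig.vec G i =
      Matrix.of O *ᵥ Eig.vec G i := fun i hi => by
    rw [Q_vec, Q, rq_perp _ _ (vec_dot_ne hH (hI i hi).2.1.symm) (vec_dot_ne hH (hI i hi).2.2.symm)]
  set D := A (cj (rmul (Q G k l 0 1) O) G) - A (cj O G) with hD
  have h1 : ∀ i ∈ I, Phi A G (rmul (Q G k l 0 1) O) i k ^ 2 ≤ 2 * Phi A G O i l ^ 2 +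
      2 * ((Matrix.of O *ᵥ Eig.vec G i) ⬝ᵥ (D *ᵥ (Matrix.of O *ᵥ Eig.vec G l))) ^ 2 := by
    intro i hi
    have e2 : Phi A G (rmul (Q G k l 0 1) O) i k = Phi A G O i l +
        (Matrix.of O *ᵥ Eig.vec G i) ⬝ᵥ (D *ᵥ (Matrix.of O *ᵥ Eig.vec G l)) := by
      rw [Phi, e, e' i hi, Phi, hD, sub_mulVec, dotProduct_sub]; ring
    rw [e2]
    nlinarith [sq_nonneg (Phi A G O i l -
      (Matrix.of O *ᵥ Eig.vec G i) ⬝ᵥ (D *ᵥ (Matrix.of O *ᵥ Eig.vec G l)))]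
  refine (Finset.sum_le_sum h1).trans ?_
  rw [Finset.sum_add_distrib, ← Finset.mul_sum, ← Finset.mul_sum]
  have h2 := bessel hH hO (D *ᵥ (Matrix.of O *ᵥ Eig.vec G l)) fun i hi => (hI i hi).1
  have h3 := fro_bound D (unit_vec hG.1 hO hl).le
  have h4 := h.lipA _ _ (ball_cj hG hO) (ball_cj hG hO')
  have h5 := mul_le_mul_of_nonneg_left (cost_le h hG hO hk hl hkl hcs hd) hC
  linarith

/-- (c) a rotation by `π/4` turns diagonal differences into off-diagonal entries -/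
lemma ptC (hC : 0 ≤ C) (h : FD0 C A S) (hG : Ball G)
    (hO : Matrix.of O ∈ Matrix.orthogonalGroup (Fin n) ℝ) (hk : k < n) (hl : l < n) (hkl : k ≠ l)
    (hd : |lam G k - lam G l| ≤ d) (hc : c ^ 2 + c ^ 2 = 1) :
    (Phi A G O k k - Phi A G O l l) ^ 2 ≤ 8 * Phi A G (rmul (Q G k l c c) O) k l ^ 2 +
      8 * (C * (d ^ 2 * (Phi S G O k k + Phi S G O l l))) := by
  have hO' := rmul_mem (Q_mem hG.1 hk hl hkl hc) hO
  have hon := on_vec hG.1 hk hl hkl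
  set x := Matrix.of (rmul (Q G k l c c) O) *ᵥ Eig.vec G k with hx
  set y := Matrix.of (rmul (Q G k l c c) O) *ᵥ Eig.vec G l with hy
  have ex : x = c • (Matrix.of O *ᵥ Eig.vec G k) + c • (Matrix.of O *ᵥ Eig.vec G l) := by
    rw [hx, Q_vec, Q, rq_a hon, mulVec_add, mulVec_smul, mulVec_smul]
  have ey : y = c • (Matrix.of O *ᵥ Eig.vec G k) - c • (Matrix.of O *ᵥ Eig.vec G l) := by
    rw [hy, Q_vec, Q, rq_b hon, mulVec_sub, mulVec_smul, mulVec_smul]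
  set D := A (cj (rmul (Q G k l c c) O) G) - A (cj O G) with hD
  have hs : (A (cj O G)).IsHermitian := (h.psdA _ (ball_cj hG hO)).1
  have e1 : x ⬝ᵥ A (cj O G) *ᵥ y = (Phi A G O k k - Phi A G O l l) / 2 := by
    have hsy := dot_symm hs (Matrix.of O *ᵥ Eig.vec G k) (Matrix.of O *ᵥ Eig.vec G l)
    rw [ex, ey]
    simp only [Phi, mulVec_sub, mulVec_smul, add_dotProduct, smul_dotProduct, dotProduct_sub,
      dotProduct_smul, smul_eq_mul, hsy]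
    linear_combination ((Matrix.of O *ᵥ Eig.vec G k) ⬝ᵥ A (cj O G) *ᵥ (Matrix.of O *ᵥ Eig.vec G k) -
      (Matrix.of O *ᵥ Eig.vec G l) ⬝ᵥ A (cj O G) *ᵥ (Matrix.of O *ᵥ Eig.vec G l)) / 2 * hc
  have e2 : Phi A G (rmul (Q G k l c c) O) k l =
      (Phi A G O k k - Phi A G O l l) / 2 + x ⬝ᵥ (D *ᵥ y) := by
    rw [← e1, hD, sub_mulVec, dotProduct_sub, Phi]; ring
  have h2 : (x ⬝ᵥ (D *ᵥ y)) ^ 2 ≤ fro D := by
    refine (dot_sq_le _ _).trans ?_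
    rw [hx, unit_vec hG.1 hO' hk, one_mul]
    exact fro_bound D (unit_vec hG.1 hO' hl).le
  have h4 := h.lipA _ _ (ball_cj hG hO) (ball_cj hG hO')
  have h5 := mul_le_mul_of_nonneg_left (cost_le h hG hO hk hl hkl hc hd) hC
  rw [e2]
  nlinarith [sq_nonneg ((Phi A G O k k - Phi A G O l l) / 2 + 2 * (x ⬝ᵥ (D *ᵥ y)))]

end pt

end Crest.Agent.T157.Da.Sw85

end
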