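import Crest.Agent.T157.DaSwB_85

/-!
# Row 157, part C (helper85): `Da.swapStmt`
-/

set_option autoImplicit false

noncomputable section

namespace Crest.Agent.T157.Da

open MeasureTheory Matrix Filter Set
open Crest.Agent.T157.E Crest.Agent.T157.Eig
open Crest.Agent.T157.Tap (V Mx)
open Crest.Agent.T157.Conc (fro)
open Crest.Agent.R164.Haar (Mat RHaar rmul)

namespace Sw85

variable {n : ℕ} {ν : Measure (Mat (Fin n))} [IsProbabilityMeasure ν]
  {C : ℝ} {A S : Mx n → Mx n} {G : Mx n} {k l : ℕ} {d : ℝ}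

lemma intg (hν : RHaar ν) {f : Mat (Fin n) → ℝ} (hf : Measurable f) (K : ℝ)
    (hK : ∀ O : Mat (Fin n), Matrix.of O ∈ Matrix.orthogonalGroup (Fin n) ℝ → |f O| ≤ K) :
    Integrable f ν :=
  Integrable.of_bound hf.aestronglyMeasurable K (hν.mem.mono fun O hO => hK O hO)

lemma intS (hν : RHaar ν) (h : FD0 C A S) (hG : Ball G) (hk : k < n) :
    Integrable (fun O => Phi S G O k k) ν :=
  intg hν (meas_Phi h.mS G k k) (C * n) fun O hO => by
    rw [abs_of_nonneg (phiS_nonneg h hG hO k)]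
    simpa using sum_phiS_le h hG hO (J := {k}) (by simpa using hk)

lemma intA2 (hν : RHaar ν) (h : FD0 C A S) (hG : Ball G) (hk : k < n) (hl : l < n) :
    Integrable (fun O => Phi A G O k l ^ 2) ν :=
  intg hν ((meas_Phi h.mA G k l).pow_const 2) (C ^ 2) fun O hO => by
    rw [abs_pow]; exact pow_le_pow_left₀ (abs_nonneg _) (abs_phiA_le h hG hO hk hl) 2

lemma intD (hν : RHaar ν) (h : FD0 C A S) (hG : Ball G) (hk : k < n) (hl : l < n) :
    Integrable (fun O => (Phi A G O k k - Phi A G O l l) ^ 2) ν :=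
  intg hν (((meas_Phi h.mA G k k).sub (meas_Phi h.mA G l l)).pow_const 2) ((C + C) ^ 2)
    fun O hO => by
      rw [abs_pow]
      exact pow_le_pow_left₀ (abs_nonneg _) ((abs_sub _ _).trans
        (add_le_add (abs_phiA_le h hG hO hk hk) (abs_phiA_le h hG hO hl hl))) 2

/-- transport of a pointwise inequality -/
lemma transp (hν : RHaar ν) {Q : Mx n} (hQ : Q ∈ Matrix.orthogonalGroup (Fin n) ℝ)
    {f g : Mat (Fin n) → ℝ} (hf : Integrable f ν) (hg : Integrable g ν)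
    (h : ∀ O : Mat (Fin n), Matrix.of O ∈ Matrix.orthogonalGroup (Fin n) ℝ → f (rmul Q O) ≤ g O) :
    ∫ O, f O ∂ν ≤ ∫ O, g O ∂ν := by
  rw [← hν.integral_rmul hQ f hf.aestronglyMeasurable]
  refine integral_mono_ae ?_ hg (hν.mem.mono fun O hO => h O hO)
  have h1 : Integrable f (ν.map (rmul Q)) := by rw [hν.inv Q hQ]; exact hf
  exact (integrable_map_measure h1.aestronglyMeasurable
    (Crest.Agent.R164.Haar.continuous_rmul Q).measurable.aemeasurable).1 h1

/-- mean of the diagonal entries of `S` -/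
def aS (ν : Measure (Mat (Fin n))) (S : Mx n → Mx n) (G : Mx n) (k : ℕ) : ℝ :=
  ∫ O, Phi S G O k k ∂ν

lemma aS_nonneg (hν : RHaar ν) (h : FD0 C A S) (hG : Ball G) (k : ℕ) : 0 ≤ aS ν S G k :=
  integral_nonneg_of_ae (hν.mem.mono fun _ hO => phiS_nonneg h hG hO k)

lemma intCost (hν : RHaar ν) (h : FD0 C A S) (hG : Ball G) (hk : k < n) (hl : l < n) (d : ℝ) :
    Integrable (fun O => C * (d ^ 2 * (Phi S G O k k + Phi S G O l l))) ν :=
  (((intS hν h hG hk).add (intS hν h hG hl)).const_mul _).const_mul _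

lemma int_cost (hν : RHaar ν) (h : FD0 C A S) (hG : Ball G) (hk : k < n) (hl : l < n) (d : ℝ) :
    ∫ O, C * (d ^ 2 * (Phi S G O k k + Phi S G O l l)) ∂ν =
      C * (d ^ 2 * (aS ν S G k + aS ν S G l)) := by
  rw [integral_const_mul, integral_const_mul, integral_add (intS hν h hG hk) (intS hν h hG hl)]
  rfl

lemma exA (hν : RHaar ν) (hC : 0 ≤ C) (h : FD0 C A S) (hG : Ball G) (hk : k < n) (hl : l < n)
    (hd : |lam G k - lam G l| ≤ d) (hCd : C * d ^ 2 ≤ 1 / 2) : aS ν S G k ≤ 5 * aS ν S G l := by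
  have h0 := aS_nonneg hν h hG k
  have h0' := aS_nonneg hν h hG l
  by_cases hkl : k = l
  · subst hkl; linarith
  have h1 := transp hν (Q_mem (c := 0) (s := 1) hG.1 hk hl hkl (by norm_num)) (intS hν h hG hk)
    (((intS hν h hG hl).const_mul 2).add (intCost hν h hG hk hl d))
    fun O hO => ptA hC h hG hO hk hl hkl hd
  simp only [Pi.add_apply] at h1
  rw [integral_add ((intS hν h hG hl).const_mul 2) (intCost hν h hG hk hl d), integral_const_mul,
    int_cost hν h hG hk hl] at h1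
  change aS ν S G k ≤ 2 * aS ν S G l + _ at h1
  nlinarith [mul_le_mul_of_nonneg_right hCd (add_nonneg h0 h0')]

lemma exA' (hν : RHaar ν) (hC : 0 ≤ C) (h : FD0 C A S) (hG : Ball G) {N : ℕ} (hN : N ≤ n)
    (hk : k < N) (hd : ∀ l < N, |lam G k - lam G l| ≤ d) (hCd : C * d ^ 2 ≤ 1 / 2) :
    N * aS ν S G k ≤ 5 * (C * n) := by
  have h1 : ∑ l ∈ Finset.range N, aS ν S G k ≤ ∑ l ∈ Finset.range N, 5 * aS ν S G l :=
    Finset.sum_le_sum fun l hl => exA hν hC h hG (hk.trans_le hN)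
      ((Finset.mem_range.1 hl).trans_le hN) (hd l (Finset.mem_range.1 hl)) hCd
  rw [Finset.sum_const, Finset.card_range, nsmul_eq_mul, ← Finset.mul_sum] at h1
  have hi : ∀ l ∈ Finset.range N, Integrable (fun O => Phi S G O l l) ν := fun l hl =>
    intS hν h hG ((Finset.mem_range.1 hl).trans_le hN)
  have h2 : ∑ l ∈ Finset.range N, aS ν S G l ≤ C * n := by
    unfold aS
    rw [← integral_finsetSum _ hi]
    refine (integral_mono_ae (integrable_finsetSum _ hi) (integrable_const (C * n))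
      (hν.mem.mono fun O hO => sum_phiS_le h hG hO fun l hl =>
        (Finset.mem_range.1 hl).trans_le hN)).trans ?_
    simp
  linarith

lemma exB (hν : RHaar ν) (hC : 0 ≤ C) (h : FD0 C A S) (hG : Ball G) (hk : k < n) (hl : l < n)
    (hkl : k ≠ l) (hd : |lam G k - lam G l| ≤ d) {I : Finset ℕ}
    (hI : ∀ i ∈ I, i < n ∧ i ≠ k ∧ i ≠ l) :
    ∫ O, ∑ i ∈ I, Phi A G O i k ^ 2 ∂ν ≤ 2 * ∫ O, ∑ i ∈ I, Phi A G O i l ^ 2 ∂ν +
      2 * (C * (d ^ 2 * (aS ν S G k + aS ν S G l))) := by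
  have i1 : Integrable (fun O => ∑ i ∈ I, Phi A G O i k ^ 2) ν :=
    integrable_finsetSum _ fun i hi => intA2 hν h hG (hI i hi).1 hk
  have i2 : Integrable (fun O => ∑ i ∈ I, Phi A G O i l ^ 2) ν :=
    integrable_finsetSum _ fun i hi => intA2 hν h hG (hI i hi).1 hl
  have h1 := transp hν (Q_mem (c := 0) (s := 1) hG.1 hk hl hkl (by norm_num)) i1
    ((i2.const_mul 2).add ((intCost hν h hG hk hl d).const_mul 2))
    fun O hO => ptB hC h hG hO hk hl hkl hd hI
  simp only [Pi.add_apply] at h1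
  rwa [integral_add (i2.const_mul 2) ((intCost hν h hG hk hl d).const_mul 2), integral_const_mul,
    integral_const_mul, int_cost hν h hG hk hl] at h1

lemma exB' (hν : RHaar ν) (hC : 0 ≤ C) (h : FD0 C A S) (hG : Ball G) (hk : k < n)
    {I J : Finset ℕ} {B : ℝ} (hI : ∀ i ∈ I, i < n ∧ i ≠ k ∧ i ∉ J) (hB : aS ν S G k ≤ B)
    (hJ : ∀ l ∈ J, l < n ∧ k ≠ l ∧ |lam G k - lam G l| ≤ d ∧ aS ν S G l ≤ B) :
    J.card * ∫ O, ∑ i ∈ I, Phi A G O i k ^ 2 ∂ν ≤
      2 * (I.card * C ^ 2) + J.card * (4 * (C * (d ^ 2 * B))) := by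
  have h1 : ∑ _l ∈ J, ∫ O, ∑ i ∈ I, Phi A G O i k ^ 2 ∂ν ≤
      ∑ l ∈ J, (2 * ∫ O, ∑ i ∈ I, Phi A G O i l ^ 2 ∂ν + 4 * (C * (d ^ 2 * B))) :=
    Finset.sum_le_sum fun l hl => by
      have h2 := exB hν hC h hG hk (hJ l hl).1 (hJ l hl).2.1 (hJ l hl).2.2.1 (I := I)
        fun i hi => ⟨(hI i hi).1, (hI i hi).2.1, fun e => (hI i hi).2.2 (e ▸ hl)⟩
      have h3 : C * (d ^ 2 * (aS ν S G k + aS ν S G l)) ≤ C * (d ^ 2 * (B + B)) :=
        mul_le_mul_of_nonneg_left (mul_le_mul_of_nonneg_left (add_le_add hB (hJ l hl).2.2.2)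
          (sq_nonneg d)) hC
      linarith
  rw [Finset.sum_const, nsmul_eq_mul, Finset.sum_add_distrib, Finset.sum_const, nsmul_eq_mul,
    ← Finset.mul_sum] at h1
  have hi : ∀ l ∈ J, Integrable (fun O => ∑ i ∈ I, Phi A G O i l ^ 2) ν := fun l hl =>
    integrable_finsetSum _ fun i hi => intA2 hν h hG (hI i hi).1 (hJ l hl).1
  have h2 : ∑ l ∈ J, ∫ O, ∑ i ∈ I, Phi A G O i l ^ 2 ∂ν ≤ I.card * C ^ 2 := by
    rw [← integral_finsetSum _ hi]
    refine (integral_mono_ae (integrable_finsetSum _ hi) (integrable_const (I.card * C ^ 2))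
      (hν.mem.mono fun O hO => ?_)).trans (by simp)
    change ∑ l ∈ J, ∑ i ∈ I, Phi A G O i l ^ 2 ≤ I.card * C ^ 2
    rw [Finset.sum_comm, ← nsmul_eq_mul, ← Finset.sum_const]
    exact Finset.sum_le_sum fun i hi => row_le h hG hO (hI i hi).1 fun l hl => (hJ l hl).1
  linarith

lemma exC (hν : RHaar ν) (hC : 0 ≤ C) (h : FD0 C A S) (hG : Ball G) (hk : k < n) (hl : l < n)
    (hkl : k ≠ l) (hd : |lam G k - lam G l| ≤ d) :
    ∫ O, (Phi A G O k k - Phi A G O l l) ^ 2 ∂ν ≤ 8 * ∫ O, Phi A G O k l ^ 2 ∂ν +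
      8 * (C * (d ^ 2 * (aS ν S G k + aS ν S G l))) := by
  have hc : (√(1 / 2) : ℝ) ^ 2 + √(1 / 2) ^ 2 = 1 := by
    rw [Real.sq_sqrt (by norm_num)]; norm_num
  have hQ := Q_mem hG.1 hk hl hkl hc
  have i1 := intD hν h hG hk hl
  have i2 := intA2 hν h hG hk hl
  have i3 := intCost hν h hG hk hl d
  have h1 := transp hν hQ (f := fun O => -(8 * Phi A G O k l ^ 2)) (g := fun O =>
    8 * (C * (d ^ 2 * (Phi S G O k k + Phi S G O l l))) - (Phi A G O k k - Phi A G O l l) ^ 2)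
    (i2.const_mul 8).neg ((i3.const_mul 8).sub i1)
    fun O hO => by linarith [ptC hC h hG hO hk hl hkl hd hc]
  rw [integral_sub (i3.const_mul 8) i1, integral_neg, integral_const_mul, integral_const_mul,
    int_cost hν h hG hk hl] at h1
  linarith

lemma win (hG : Spec G) {η : ℝ} (hη : e0 n ≤ η) (hk : k < cnt G (2 - η))
    (hl : l < cnt G (2 - η)) : |lam G k - lam G l| ≤ 2 * η := by
  have hH := herm_iff.2 hG.symm
  have h1 := ((lt_cnt_iff hH).1 hk).2
  have h2 := ((lt_cnt_iff hH).1 hl).2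
  have h3 := (lam_le_opn hH k).trans hG.top
  have h4 := (lam_le_opn hH l).trans hG.top
  rw [abs_le]; constructor <;> linarith

lemma cnt_le (G : Mx n) (x : ℝ) : cnt G x ≤ n := by simpa using cnt_le_card G x

lemma e0_tendsto : Tendsto e0 atTop (nhds 0) :=
  (tendsto_rpow_neg_atTop (by norm_num : (0 : ℝ) < 13 / 20)).comp tendsto_natCast_atTop_atTop

/-- the core estimate at three nested scales -/
lemma core (hν : RHaar ν) (hC : 0 < C) (h : FD0 C A S) (hG : Spec G) (hn : 0 < n)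
    {ε ηc η2 t B : ℝ} (hε : 0 < ε) (hc1 : ηc ≤ 1) (h2c : η2 ≤ ηc) (h20 : 0 < η2) (ht0 : 0 < t)
    (ht1 : t ≤ 1 / 8) (he : e0 n ≤ t ^ 2 * η2) (hCc : C * (2 * ηc) ^ 2 ≤ 1 / 2)
    (hB : 320 * C ≤ B * (ηc * √ηc)) (hB2 : 16 * (C * (η2 ^ 2 * B)) ≤ ε / 32)
    (ht2 : 512 * C ^ 2 * t ≤ ε / 32) : SwapOut ν A G (t ^ 2 * η2) ε := by
  have ht3 : t ^ 2 ≤ 1 := by nlinarith
  have h12 : t ^ 2 * η2 ≤ η2 := by nlinarith
  have he2 : e0 n ≤ η2 := he.trans h12
  have hec : e0 n ≤ ηc := he2.trans h2c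
  have hc0 : 0 < ηc := h20.trans_le h2c
  have hGB : Ball G := ⟨hG.symm, by linarith [hG.top]⟩
  have hnr : (0 : ℝ) < n := by exact_mod_cast hn
  have m12 : cnt G (2 - t ^ 2 * η2) ≤ cnt G (2 - η2) := cnt_anti G (by linarith)
  have m2c : cnt G (2 - η2) ≤ cnt G (2 - ηc) := cnt_anti G (by linarith)
  -- bound on the means of `S`
  have hS : ∀ k < cnt G (2 - η2), aS ν S G k ≤ B := fun k hk => by
    have h1 := exA' hν hC.le h hGB (cnt_le G (2 - ηc)) (hk.trans_le m2c)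
      (fun l hl => win hG hec (hk.trans_le m2c) hl) hCc
    have h2 := hG.lo ηc ⟨hec, hc1⟩
    have h3 := aS_nonneg hν h hGB k
    have h4 : 0 < ηc * √ηc := mul_pos hc0 (Real.sqrt_pos.2 hc0)
    unfold Nb at h2
    have h5 : n * (ηc * √ηc) / 64 * aS ν S G k ≤ 5 * (C * n) :=
      (mul_le_mul_of_nonneg_right h2 h3).trans h1
    have h6 : n * ((ηc * √ηc) * aS ν S G k) ≤ n * ((ηc * √ηc) * B) := by nlinarith
    exact le_of_mul_le_mul_left (le_of_mul_le_mul_left h6 hnr) h4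
  have hB0 : 0 ≤ B := by
    have h4 : 0 < ηc * √ηc := mul_pos hc0 (Real.sqrt_pos.2 hc0)
    by_contra hb
    nlinarith [not_le.1 hb]
  -- sizes
  have hNb : Nb n (t ^ 2 * η2) = t ^ 3 * Nb n η2 := by
    unfold Nb
    rw [Real.sqrt_mul (sq_nonneg t), Real.sqrt_sq ht0.le]; ring
  have hN0 : 0 < Nb n η2 := mul_pos hnr (mul_pos h20 (Real.sqrt_pos.2 h20))
  have s1 := hG.hi (t ^ 2 * η2) ⟨he, h12.trans (h2c.trans hc1)⟩
  have s2 := hG.lo η2 ⟨he2, h2c.trans hc1⟩
  rw [hNb] at s1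
  have ht4 : t ^ 3 ≤ 1 / 512 := by
    have := pow_le_pow_left₀ ht0.le ht1 3
    norm_num at this ⊢; exact this
  have ht5 : t ^ 3 ≤ t := by nlinarith
  -- first claim, with the better constant
  have first : ∀ k < cnt G (2 - t ^ 2 * η2),
      ∫ O, ∑ l ∈ (Finset.range (cnt G (2 - t ^ 2 * η2))).erase k, Phi A G O l k ^ 2 ∂ν ≤ ε / 16 := by
    intro k hk
    have hkn : k < n := hk.trans_le (cnt_le G _)
    have h1 := exB' hν hC.le h hGB hkn (d := 2 * η2) (B := B)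
      (I := (Finset.range (cnt G (2 - t ^ 2 * η2))).erase k)
      (J := Finset.Ico (cnt G (2 - t ^ 2 * η2)) (cnt G (2 - η2)))
      (fun i hi => by
        rw [Finset.mem_erase, Finset.mem_range] at hi
        refine ⟨hi.2.trans_le (cnt_le G _), hi.1, fun hj => ?_⟩
        exact absurd (Finset.mem_Ico.1 hj).1 (not_le.2 hi.2))
      (hS k (hk.trans_le m12))
      (fun l hl => by
        rw [Finset.mem_Ico] at hl
        exact ⟨hl.2.trans_le (cnt_le G _), (hk.trans_le hl.1).ne,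
          win hG he2 (hk.trans_le m12) hl.2, hS l hl.2⟩)
    rw [Nat.card_Ico, Nat.cast_sub m12] at h1
    have h2 : ((((Finset.range (cnt G (2 - t ^ 2 * η2))).erase k).card : ℕ) : ℝ) ≤
        cnt G (2 - t ^ 2 * η2) := by
      exact_mod_cast Finset.card_erase_le.trans (Finset.card_range _).le
    set J : ℝ := (cnt G (2 - η2) : ℝ) - cnt G (2 - t ^ 2 * η2) with hJ
    have hJ1 : Nb n η2 / 128 ≤ J := by nlinarith
    have hJ0 : 0 < J := lt_of_lt_of_le (by positivity) hJ1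
    have h3 : 2 * (((((Finset.range (cnt G (2 - t ^ 2 * η2))).erase k).card : ℕ) : ℝ) * C ^ 2) ≤
        J * (ε / 32) := by
      have h4 : 2 * (((((Finset.range (cnt G (2 - t ^ 2 * η2))).erase k).card : ℕ) : ℝ) * C ^ 2) ≤
          2 * ((2 * (t * Nb n η2)) * C ^ 2) := by
        refine mul_le_mul_of_nonneg_left (mul_le_mul_of_nonneg_right ?_ (sq_nonneg C)) zero_le_two
        nlinarith
      have h5 : Nb n η2 / 128 * (512 * C ^ 2 * t) ≤ J * (ε / 32) :=
        mul_le_mul hJ1 ht2 (by positivity) hJ0.le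
      linarith
    have h4 : J * (4 * (C * ((2 * η2) ^ 2 * B))) ≤ J * (ε / 32) :=
      mul_le_mul_of_nonneg_left (by linarith) hJ0.le
    refine le_of_mul_le_mul_left ?_ hJ0
    linarith
  intro k hk
  refine ⟨(first k hk).trans (by linarith), fun l hl => ?_⟩
  by_cases hkl : k = l
  · subst hkl; simpa using hε.le
  have hkn : k < n := hk.trans_le (cnt_le G _)
  have hln : l < n := hl.trans_le (cnt_le G _)
  have h1 := exC hν hC.le h hGB hkn hln hkl (win hG he2 (hk.trans_le m12) (hl.trans_le m12))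
  have h2 : ∫ O, Phi A G O k l ^ 2 ∂ν ≤ ε / 16 := by
    refine le_trans (integral_mono (intA2 hν h hGB hkn hln) (integrable_finsetSum _ fun i hi =>
      intA2 hν h hGB ((Finset.mem_range.1 (Finset.mem_erase.1 hi).2).trans_le (cnt_le G _)) hln)
      fun O => ?_) (first l hl)
    exact Finset.single_le_sum (f := fun i => Phi A G O i l ^ 2) (fun i _ => sq_nonneg _)
      (Finset.mem_erase.2 ⟨hkl, Finset.mem_range.2 hk⟩)
  have h3 : C * ((2 * η2) ^ 2 * (aS ν S G k + aS ν S G l)) ≤ C * ((2 * η2) ^ 2 * (B + B)) :=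
    mul_le_mul_of_nonneg_left (mul_le_mul_of_nonneg_left
      (add_le_add (hS k (hk.trans_le m12)) (hS l (hl.trans_le m12))) (sq_nonneg _)) hC.le
  linarith

end Sw85

theorem swapStmt : SwapStmt := by
  intro C hC ε hε
  set ηc : ℝ := 1 / (1 + 8 * C) with hηc
  have hc0 : 0 < ηc := by positivity
  have hc1 : ηc ≤ 1 := by rw [hηc, div_le_one (by positivity)]; linarith
  have hc2 : ηc * (1 + 8 * C) = 1 := by rw [hηc]; field_simp
  have hCc : C * (2 * ηc) ^ 2 ≤ 1 / 2 := by nlinarith [mul_pos hC hc0]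
  have hs : 0 < ηc * √ηc := mul_pos hc0 (Real.sqrt_pos.2 hc0)
  set B : ℝ := 320 * C / (ηc * √ηc) with hB
  have hB0 : 0 < B := by positivity
  have hB1 : 320 * C ≤ B * (ηc * √ηc) := by rw [hB, div_mul_cancel₀ _ hs.ne']
  set η2 : ℝ := min ηc (ε / (512 * (C * B))) with hη2
  have h20 : 0 < η2 := lt_min hc0 (by positivity)
  have h2c : η2 ≤ ηc := min_le_left _ _
  have h2e : η2 * (512 * (C * B)) ≤ ε := (le_div_iff₀ (by positivity)).1 (min_le_right _ _)
  have hB2 : 16 * (C * (η2 ^ 2 * B)) ≤ ε / 32 := by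
    have h1 : η2 ^ 2 ≤ η2 := by nlinarith
    have h2 := mul_le_mul_of_nonneg_right h1 (mul_pos hC hB0).le
    nlinarith
  set t : ℝ := min (1 / 8) (ε / (16384 * C ^ 2)) with ht
  have ht0 : 0 < t := lt_min (by norm_num) (by positivity)
  have ht1 : t ≤ 1 / 8 := min_le_left _ _
  have hte : t * (16384 * C ^ 2) ≤ ε := (le_div_iff₀ (by positivity)).1 (min_le_right _ _)
  have hη : 0 < t ^ 2 * η2 := by positivity
  refine ⟨t ^ 2 * η2, ⟨hη, by nlinarith [sq_nonneg t]⟩, ?_⟩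
  filter_upwards [Sw85.e0_tendsto.eventually (ge_mem_nhds hη), eventually_gt_atTop 0]
    with n he hn ν hp hν A S hF G ξ hG
  exact Sw85.core hν hC (Sw85.fd0_of hF ξ) hG hn hε hc1 h2c h20 ht0 ht1 he hCc hB1 hB2 (by linarith)

end Crest.Agent.T157.Da

end
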