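import Crest.Agent.T157.DaConc_85
import Crest.Agent.T157.DaDisc_82
import Crest.Agent.T157.DaGfom_30
import Crest.Agent.T157.DaHaar_44
import Crest.Agent.T157.DaLip_44
import Crest.Agent.T157.DaMean_46
import Crest.Agent.T157.DaPda_82
import Crest.Agent.T157.DaPlant_44
import Crest.Agent.T157.DaRep_82
import Crest.Agent.T157.DaSE_30
import Crest.Agent.T157.DaSef_46
import Crest.Agent.T157.DaSwap_85

/-!
# Row 157, part C (helper82): (DA) and (DL), unconditional
-/

set_option autoImplicit false

namespace Crest.Agent.T157.Da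

theorem pda : PDA := pdaGlue feApi fdStmt lipStmt specStmt isoStmt haarStmt swapStmt
  (meanGlue feApi) (rotGlue feApi) (concGlue feApi) detStmt

theorem daStmt : DAStmt :=
  da_of pda (cenGlue feApi fdStmt lipStmt specStmt (concGlue feApi)) plantC gaugeStmt

theorem seStmt : SEStmt := seGlue gfomStmt repStmt

theorem dlStmt : DLStmt :=
  dl_of (pdlGlue specStmt pda (sefGlue feApi fdStmt specStmt trStmt discStmt seStmt)) plantC gaugeStmt

end Crest.Agent.T157.Da
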