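import Crest.Agent.T157.DaRot_46
import Crest.Agent.T157.DaRmt_44

/-!
# Row 157, part C (helper82): calculus of `Vh`, small consequences of `Spec` and `FD`
-/

set_option autoImplicit false

noncomputable section

namespace Crest.Agent.T157.Da

open MeasureTheory Matrix Filter Set Real
open Crest.Agent.T157.E Crest.Agent.T157.Eig
open Crest.Agent.T157.Tap (V Mx)
open Crest.Agent.T157.Top (Whp)

theorem ev_exp (K : ℝ) {a c : ℝ} (ha : 0 < a) (hc : 0 < c) :
    ∀ᶠ n : ℕ in atTop, K * exp (-(a * (n : ℝ) ^ c)) ≤ exp (-(n : ℝ) ^ (c / 2)) := by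
  filter_upwards [Rot46.ev_le (2 / a) (half_pos hc), Rot46.ev_le K (half_pos hc)] with n h1 h2
  have e : (n : ℝ) ^ c = (n : ℝ) ^ (c / 2) * (n : ℝ) ^ (c / 2) := by
    rw [← rpow_add_of_nonneg (Nat.cast_nonneg n) (half_pos hc).le (half_pos hc).le, add_halves]
  set x := (n : ℝ) ^ (c / 2)
  have x0 : 0 ≤ x := le_trans (by positivity) h1
  rw [div_le_iff₀ ha] at h1
  refine (mul_le_mul_of_nonneg_right (h2.trans ((le_add_of_nonneg_right zero_le_one).trans
    (add_one_le_exp x))) (exp_pos _).le).trans ?_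
  rw [← exp_add, e]
  exact exp_le_exp.2 (by nlinarith)

theorem exp_le_of {n : ℕ} (hn : 0 < n) {a b c d : ℝ} (ha : 0 ≤ a) (hab : a ≤ b) (hcd : c ≤ d) :
    exp (-(b * (n : ℝ) ^ d)) ≤ exp (-(a * (n : ℝ) ^ c)) :=
  exp_le_exp.2 (neg_le_neg (mul_le_mul hab (rpow_le_rpow_of_exponent_le (by exact_mod_cast hn) hcd)
    (by positivity) (ha.trans hab)))

section vh
variable {X : ℕ → Type*} [∀ n, MeasurableSpace (X n)] {μ : ∀ n, Measure (X n)}
  [∀ n, IsProbabilityMeasure (μ n)] {P Q : ∀ n, X n → Prop}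

theorem vh_of_le (K : ℝ) {a c : ℝ} (ha : 0 < a) (hc : 0 < c)
    (h : ∀ᶠ n : ℕ in atTop, (μ n).real {z | ¬ P n z} ≤ K * exp (-(a * (n : ℝ) ^ c))) : Vh μ P := by
  refine ⟨c / 2, half_pos hc, ?_⟩
  filter_upwards [h, ev_exp K ha hc] with n h1 h2
  rw [← ofReal_measureReal]
  exact ENNReal.ofReal_le_ofReal (h1.trans h2)

theorem Vh.real (h : Vh μ P) :
    ∃ c > (0 : ℝ), ∀ᶠ n : ℕ in atTop, (μ n).real {z | ¬ P n z} ≤ exp (-(1 * (n : ℝ) ^ c)) := by
  obtain ⟨c, hc, h⟩ := h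
  exact ⟨c, hc, h.mono fun n hn => by
    rw [one_mul]; exact ENNReal.toReal_le_of_le_ofReal (exp_pos _).le hn⟩

theorem Vh.and (h : Vh μ P) (h' : Vh μ Q) : Vh μ fun n z => P n z ∧ Q n z := by
  obtain ⟨c, hc, h⟩ := h.real
  obtain ⟨d, hd, h'⟩ := h'.real
  refine vh_of_le 2 one_pos (lt_min hc hd) ?_
  filter_upwards [h, h', eventually_gt_atTop 0] with n h1 h2 hn
  refine (measureReal_mono (s₂ := {z | ¬ P n z} ∪ {z | ¬ Q n z}) (fun z hz => not_and_or.1 hz)).trans
    ((measureReal_union_le _ _).trans ?_)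
  linarith [exp_le_of hn zero_le_one le_rfl (min_le_left c d),
    exp_le_of hn zero_le_one le_rfl (min_le_right c d)]

theorem whp_exists (h : Whp μ P) : ∀ᶠ n : ℕ in atTop, ∃ z, P n z := by
  filter_upwards [h.real.eventually (gt_mem_nhds one_pos)] with n hn
  by_contra e
  rw [show {z | ¬ P n z} = univ from eq_univ_of_forall fun z hz => e ⟨z, hz⟩] at hn
  simp at hn

end vh

theorem exists_of_lt {X : Type*} [MeasurableSpace X] {μ : Measure X} [IsProbabilityMeasure μ]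
    {A B D : Set X} (h : μ.real A + μ.real B + μ.real D < 1) : ∃ z, z ∉ A ∧ z ∉ B ∧ z ∉ D := by
  by_contra e
  have : univ ⊆ A ∪ B ∪ D := fun z _ => by
    by_contra h'
    simp only [mem_union, not_or] at h'
    exact e ⟨z, h'.1.1, h'.1.2, h'.2⟩
  have h1 := (measureReal_mono (μ := μ) this).trans ((measureReal_union_le _ _).trans
    (add_le_add (measureReal_union_le _ _) le_rfl))
  rw [probReal_univ] at h1
  linarith

variable {n : ℕ} {G A : Mx n} {η a C δ : ℝ}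

theorem e0_pos (hn : 0 < n) : 0 < e0 n := rpow_pos_of_pos (by exact_mod_cast hn) _

theorem e0_le_ep (hn : 0 < n) : e0 n ≤ ep n :=
  rpow_le_rpow_of_exponent_le (by exact_mod_cast hn) (by norm_num)

theorem ep_le_one (hn : 0 < n) : ep n ≤ 1 :=
  rpow_le_one_of_one_le_of_nonpos (by exact_mod_cast hn) (by norm_num)

theorem ev_ep (hη : 0 < η) : ∀ᶠ n : ℕ in atTop, ep n ≤ η :=
  ((tendsto_rpow_neg_atTop (by norm_num)).comp tendsto_natCast_atTop_atTop).eventually
    (ge_mem_nhds hη)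

theorem Nb_pos (hn : 0 < n) (hη : 0 < η) : 0 < Nb n η := by unfold Nb; positivity

theorem Spec.ball (h : Spec G) (hn : 0 < n) : Ball G :=
  ⟨h.symm, h.top.trans (by linarith [(e0_le_ep hn).trans (ep_le_one hn)])⟩

theorem Spec.window (h : Spec G) (hη : e0 n ≤ η) {k : ℕ} (hk : k < cnt G (2 - η)) :
    k < n ∧ |2 - lam G k| ≤ η := by
  have h1 := (lt_cnt_iff (herm_iff.2 h.symm)).1 hk
  have h2 := (lam_le_opn (herm_iff.2 h.symm) k).trans h.top
  exact ⟨by simpa using h1.1, abs_le.2 ⟨by linarith, by linarith [h1.2]⟩⟩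

theorem Spec.tr_lo (F : FeApi) (h : Spec G) (hn : 0 < n) (hη : η ∈ Icc (e0 n) 1) :
    Nb n η / 128 ≤ (fE η G).trace := by
  have hm : cnt G (2 - η) ≤ n := by simpa using cnt_le_card G (2 - η)
  have := Rot46.trace_le F h.symm ((e0_pos hn).trans_le hη.1) PosSemidef.one hm
    fun k hk => (h.window hη.1 hk).2
  rw [Matrix.mul_one, Matrix.mul_one, Rot46.Pm_iso (herm_iff.2 h.symm) hm, trace_one,
    Fintype.card_fin] at this
  linarith [h.lo η hη]

theorem abs_trace_le (F : FeApi) (hG : Gᵀ = G) (hη : 0 < η) (hA : opn A ≤ C) :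
    |(fE η G * A).trace| ≤ C * (fE η G).trace := by
  conv_rhs => rw [← Matrix.mul_one (fE η G)]
  rw [F.trace hG hη, F.trace hG hη, Finset.mul_sum]
  refine (Finset.abs_sum_le_sum_abs _ _).trans (Finset.sum_le_sum fun k _ => ?_)
  rw [abs_mul, abs_of_nonneg (Rot46.fl_nonneg _ _), mul_left_comm, one_mulVec]
  exact mul_le_mul_of_nonneg_left ((abs_quad_le _ _).trans
    (mul_le_mul_of_nonneg_right hA (dot_self_nonneg _))) (Rot46.fl_nonneg _ _)

theorem dev_eq (η a : ℝ) (A G : Mx n) : dev η a A G = (fE η G * A).trace - a * (fE η G).trace := by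
  rw [dev, Matrix.mul_sub, trace_sub, Matrix.mul_smul, Matrix.mul_one, trace_smul, smul_eq_mul]

theorem Spec.abs_le (F : FeApi) (h : Spec G) (hn : 0 < n) (hη : η ∈ Icc (e0 n) 1) (hA : opn A ≤ C)
    (hδ : 0 ≤ δ) (hd : |dev η a A G| ≤ δ * Nb n η) : |a| ≤ C + 128 * δ := by
  have h0 := (e0_pos hn).trans_le hη.1
  have h1 := h.tr_lo F hn hη
  have h2 := abs_trace_le F h.symm h0 hA
  have h3 : 0 < (fE η G).trace := lt_of_lt_of_le (by linarith [Nb_pos hn h0]) h1
  have h4 := abs_sub (fE η G * A).trace (dev η a A G)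
  rw [dev_eq, sub_sub_cancel, abs_mul, abs_of_pos h3, ← dev_eq] at h4
  refine le_of_mul_le_mul_right ?_ h3
  nlinarith

theorem cost_nonneg {S : Mx n} (hS : S.PosSemidef) {z z' : Mx n × V n} (h : z.1ᵀ = z.1)
    (h' : z'.1ᵀ = z'.1) : 0 ≤ cost S z z' := by
  refine add_nonneg ?_ (dot_self_nonneg _)
  have := (hS.mul_mul_conjTranspose_same (z'.1 - z.1)).trace_nonneg
  rwa [conjTranspose_eq_transpose_of_trivial, transpose_sub, h, h'] at this

theorem FD.mono {C C' : ℝ} {A S : Mx n × V n → Mx n} (h : FD C A S) (hC : C ≤ C') : FD C' A S :=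
  ⟨h.mA, h.mS, h.psdA, h.psdS, fun z hz => (h.bd z hz).trans hC,
    fun z hz => (h.tr z hz).trans (mul_le_mul_of_nonneg_right hC (Nat.cast_nonneg n)),
    fun z z' hz hz' => (h.lipA z z' hz hz').trans
      (mul_le_mul_of_nonneg_right hC (cost_nonneg (h.psdS z hz) hz.1 hz'.1)),
    fun z z' u hz hz' => (h.lipS z z' u hz hz').trans (add_le_add le_rfl (mul_le_mul_of_nonneg_right
      (mul_le_mul_of_nonneg_right hC (dot_self_nonneg u)) (cost_nonneg (h.psdS z hz) hz.1 hz'.1)))⟩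

theorem FD.symm {C : ℝ} {A S : Mx n × V n → Mx n} (h : FD C A S) {z : Mx n × V n} (hz : Ball z.1) :
    (A z)ᵀ = A z := herm_iff.1 (h.psdA z hz).1

end Crest.Agent.T157.Da

end
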