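import Crest.Agent.R089.GUE4

/-!
# Row 157, part A (helper9): the second moment of `det (M - W)`, algebra

* `der_det`, `der2_det` : first and second derivative of a determinant along a derivation;
* `lap_eq` : the two Laplacians of `det (A² + ρ)` agree;
* `mean_value` : Gaussian form of Asgeirsson's mean value theorem for polynomials.
-/

set_option autoImplicit false

noncomputable section

namespace Crest.Agent.T157.Dq

open Matrix Finset

section der

variable {R : Type*} [CommRing R] [Algebra ℂ R] {ι : Type*} [Fintype ι] [DecidableEq ι]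

/-- entrywise derivative -/
def dm (D : Derivation ℂ R R) (B : Matrix ι ι R) : Matrix ι ι R := Matrix.of fun i j => D (B i j)

lemma der_prod (D : Derivation ℂ R R) {κ : Type*} [DecidableEq κ] (s : Finset κ) (f : κ → R) :
    D (∏ i ∈ s, f i) = ∑ i ∈ s, (∏ j ∈ s.erase i, f j) * D (f i) := by
  induction s using Finset.induction_on with
  | empty => simp
  | insert a s ha ih =>
    rw [prod_insert ha, sum_insert ha, Derivation.leibniz, ih, erase_insert ha, smul_eq_mul,
      smul_eq_mul, add_comm, mul_sum]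
    congr 1
    refine sum_congr rfl fun i hi => ?_
    have hai : a ≠ i := fun h => ha (h ▸ hi)
    rw [erase_insert_of_ne hai, prod_insert (fun h => ha (mem_of_mem_erase h)), mul_assoc]

lemma der_det (D : Derivation ℂ R R) (B : Matrix ι ι R) :
    D B.det = (B.adjugate * dm D B).trace := by
  have h1 : (B.adjugate * dm D B).trace = ∑ i, (B.updateCol i fun k => D (B k i)).det := by
    refine sum_congr rfl fun i _ => ?_
    rw [← cramer_apply, cramer_eq_adjugate_mulVec]
    rfl
  rw [h1]
  simp only [det_apply', map_sum]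
  rw [sum_comm]
  refine sum_congr rfl fun σ _ => ?_
  rw [Derivation.leibniz, der_prod, Derivation.map_intCast, smul_zero, add_zero, smul_eq_mul,
    mul_sum]
  refine sum_congr rfl fun i _ => ?_
  congr 1
  rw [← mul_prod_erase _ _ (mem_univ i), updateCol_self, mul_comm]
  congr 1
  refine prod_congr rfl fun j hj => ?_
  rw [updateCol_ne (mem_erase.1 hj).1]

omit [DecidableEq ι] in
lemma dm_mul (D : Derivation ℂ R R) (A B : Matrix ι ι R) :
    dm D (A * B) = dm D A * B + A * dm D B := by
  ext i j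
  simp only [dm, of_apply, mul_apply, map_sum, Derivation.leibniz, smul_eq_mul, Matrix.add_apply,
    ← sum_add_distrib]
  exact sum_congr rfl fun k _ => by ring

omit [Fintype ι] [DecidableEq ι] in
lemma dm_add (D : Derivation ℂ R R) (A B : Matrix ι ι R) : dm D (A + B) = dm D A + dm D B := by
  ext i j; simp [dm]

omit [Fintype ι] in
lemma dm_smul_one (D : Derivation ℂ R R) (r : R) :
    dm D (r • (1 : Matrix ι ι R)) = D r • (1 : Matrix ι ι R) := by
  ext i j
  by_cases h : i = j <;> simp [dm, one_apply, h]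

omit [DecidableEq ι] in
lemma der_trace (D : Derivation ℂ R R) (A : Matrix ι ι R) : D A.trace = (dm D A).trace := by
  simp [trace, dm]

lemma der2_det (D : Derivation ℂ R R) (B : Matrix ι ι R) :
    B.det * D (D B.det) = (B.adjugate * dm D B).trace ^ 2 -
      (B.adjugate * dm D B * (B.adjugate * dm D B)).trace +
      B.det * (B.adjugate * dm D (dm D B)).trace := by
  have h1 : dm D B.adjugate * B + B.adjugate * dm D B = D B.det • (1 : Matrix ι ι R) := by
    rw [← dm_mul, adjugate_mul, dm_smul_one]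
  have h2 : B.det • dm D B.adjugate =
      D B.det • B.adjugate - B.adjugate * dm D B * B.adjugate := by
    have := congrArg (· * B.adjugate) h1
    simp only [add_mul, Matrix.mul_assoc, mul_adjugate, Matrix.mul_smul, Matrix.mul_one,
      Matrix.smul_mul, Matrix.one_mul] at this
    rw [← this, Matrix.mul_assoc]; abel
  have h3 : D (D B.det) =
      (dm D B.adjugate * dm D B).trace + (B.adjugate * dm D (dm D B)).trace := by
    conv_lhs => rw [der_det D B, der_trace, dm_mul, trace_add]
  rw [h3, mul_add, ← smul_eq_mul B.det (trace _), ← trace_smul, ← Matrix.smul_mul, h2,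
    Matrix.sub_mul, trace_sub, Matrix.smul_mul, trace_smul, der_det, smul_eq_mul, sq]
  simp only [Matrix.mul_assoc]

/-- the quantity `det · D² det` for `B = A² + ρ` in terms of `J = adj B`, `δ = det B` -/
def FF (J A E : Matrix ι ι R) (δ r1 r2 : R) : R :=
  (J * (E * A + A * E + r1 • (1 : Matrix ι ι R))).trace ^ 2 -
    (J * (E * A + A * E + r1 • (1 : Matrix ι ι R)) *
      (J * (E * A + A * E + r1 • (1 : Matrix ι ι R)))).trace +
    δ * (J * (E * E + E * E + r2 • (1 : Matrix ι ι R))).trace

/-- `A² + ρ` -/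
def BB (A : Matrix ι ι R) (ρ : R) : Matrix ι ι R := A * A + ρ • (1 : Matrix ι ι R)

lemma der2_BB (D : Derivation ℂ R R) {A E : Matrix ι ι R} {ρ r1 r2 : R} (hA : dm D A = E)
    (hE : dm D E = 0) (h1 : D ρ = r1) (h2 : D r1 = r2) :
    (BB A ρ).det * D (D (BB A ρ).det) = FF (BB A ρ).adjugate A E (BB A ρ).det r1 r2 := by
  have e1 : dm D (BB A ρ) = E * A + A * E + r1 • (1 : Matrix ι ι R) := by
    rw [BB, dm_add, dm_mul, dm_smul_one, hA, h1]
  have e2 : dm D (dm D (BB A ρ)) = E * E + E * E + r2 • (1 : Matrix ι ι R) := by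
    rw [e1, dm_add, dm_add, dm_mul, dm_mul, dm_smul_one, hA, hE, h2]
    simp
  rw [der2_det, e2, e1, FF]

/-- the GOE direction of the coordinate `p` -/
def UU (R : Type*) [CommRing R] (p : ι × ι) : Matrix ι ι R :=
  single p.1 p.2 1 + single p.2 p.1 1

omit [Algebra ℂ R] in
lemma trace_mul_UU (X : Matrix ι ι R) (p : ι × ι) :
    (X * UU R p).trace = X p.2 p.1 + X p.1 p.2 := by
  rw [UU, Matrix.mul_add, trace_add, trace_mul_single, trace_mul_single]
  simp

omit [Algebra ℂ R] in
lemma trace_single_single (X Y : Matrix ι ι R) (i j k l : ι) :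
    (X * single i j 1 * (Y * single k l (1 : R))).trace = X l i * Y j k := by
  rw [← Matrix.mul_assoc, trace_mul_single, Matrix.mul_assoc, mul_apply]
  rw [sum_eq_single i]
  · simp
  · intro b _ hb
    simp [hb]
  · simp

omit [Algebra ℂ R] in
lemma sum_tr_tr (X : Matrix ι ι R) (hX : Xᵀ = X) :
    ∑ p : ι × ι, (X * UU R p).trace ^ 2 = 4 * (X * X).trace := by
  have hs : ∀ i j, X j i = X i j := fun i j => by rw [← transpose_apply X i j, hX]
  simp only [trace_mul_UU]
  simp only [Fintype.sum_prod_type, trace, diag_apply, mul_apply, mul_sum]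
  refine sum_congr rfl fun i _ => sum_congr rfl fun j _ => ?_
  rw [hs i j]; ring

omit [Algebra ℂ R] in
lemma sum_tr_sand (X Y : Matrix ι ι R) (hY : Yᵀ = Y) :
    ∑ p : ι × ι, (X * UU R p * (Y * UU R p)).trace =
      2 * (X * Y).trace + 2 * (X.trace * Y.trace) := by
  have hs : ∀ i j, Y j i = Y i j := fun i j => by rw [← transpose_apply Y i j, hY]
  have e : ∀ p : ι × ι, (X * UU R p * (Y * UU R p)).trace =
      X p.2 p.1 * Y p.1 p.2 + X p.1 p.2 * Y p.2 p.1 + X p.1 p.1 * Y p.2 p.2 +
        X p.2 p.2 * Y p.1 p.1 := fun p => by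
    simp only [UU, Matrix.mul_add, Matrix.add_mul, trace_add, trace_single_single]
    rw [hs p.1 p.2]; ring
  simp only [e, sum_add_distrib, Fintype.sum_prod_type]
  have a1 : ∑ i, ∑ j, X j i * Y i j = (X * Y).trace := by
    rw [sum_comm]; simp [trace, mul_apply]
  have a2 : ∑ i, ∑ j, X i j * Y j i = (X * Y).trace := by simp [trace, mul_apply]
  have a3 : ∑ i, ∑ j, X i i * Y j j = X.trace * Y.trace := by
    simp [trace, sum_mul_sum]
  have a4 : ∑ i, ∑ j, X j j * Y i i = X.trace * Y.trace := by
    rw [sum_comm]; exact a3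
  rw [a1, a2, a3, a4]; ring

omit [Algebra ℂ R] in
/-- the algebraic identity behind the duality -/
lemma FF_sum {J A : Matrix ι ι R} {δ ρ k I : R} {w : Fin 5 → R} (hJ : Jᵀ = J) (hA : Aᵀ = A)
    (hc : J * A = A * J) (hB : J * (A * A) = δ • (1 : Matrix ι ι R) - ρ • J)
    (hI : I * I = -1) (hw : ∑ a, w a ^ 2 = ρ) :
    ∑ p : ι × ι, FF J A ((-k) • UU R p) δ 0 0 =
      FF J A ((I * k) • (1 : Matrix ι ι R)) δ 0 0 + ∑ a, FF J A 0 δ (2 * k * w a) (2 * k ^ 2) := by
  set P := J * A with hP
  have hPs : Pᵀ = P := by rw [hP, transpose_mul, hJ, hA, ← hc]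
  have hAJA : A * J * A = δ • (1 : Matrix ι ι R) - ρ • J := by
    rw [← hc, hP, Matrix.mul_assoc, hB]
  have hPP : (P * P).trace = δ * J.trace - ρ * (J * J).trace := by
    have : P * P = J * (A * J * A) := by simp only [hP, Matrix.mul_assoc]
    rw [this, hAJA, Matrix.mul_sub, trace_sub]
    simp
  have e1 : ∀ p : ι × ι, FF J A ((-k) • UU R p) δ 0 0 =
      k ^ 2 * (4 * (P * UU R p).trace ^ 2 - 2 * (P * UU R p * (P * UU R p)).trace -
        2 * (A * J * A * UU R p * (J * UU R p)).trace +
        2 * δ * (J * UU R p * (1 * UU R p)).trace) := fun p => by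
    set U := UU R p
    have t1 : (J * (U * A)).trace = (P * U).trace := by
      rw [← Matrix.mul_assoc, trace_mul_comm, ← Matrix.mul_assoc, ← hc]
    have t2 : (J * (A * U)).trace = (P * U).trace := by rw [← Matrix.mul_assoc]
    have t3 : (J * (U * (A * (J * (U * A))))).trace = (P * U * (P * U)).trace := by
      have : J * (U * (A * (J * (U * A)))) = J * U * (A * J) * U * A := by
        simp only [Matrix.mul_assoc]
      rw [this, trace_mul_comm, ← hc]
      simp only [← Matrix.mul_assoc]
      rw [← hc]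
    have t4 : (J * (A * (U * (J * (A * U))))).trace = (P * U * (P * U)).trace := by
      simp only [hP, Matrix.mul_assoc]
    have t5 : (J * (U * (A * (J * (A * U))))).trace = (A * J * A * U * (J * U)).trace := by
      have : J * (U * (A * (J * (A * U)))) = (J * U) * (A * J * A * U) := by
        simp only [Matrix.mul_assoc]
      rw [this, trace_mul_comm]
    have t6 : (J * (A * (U * (J * (U * A))))).trace = (A * J * A * U * (J * U)).trace := by
      have : J * (A * (U * (J * (U * A)))) = (J * A * U * (J * U)) * A := by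
        simp only [Matrix.mul_assoc]
      rw [this, trace_mul_comm]
      simp only [Matrix.mul_assoc]
    simp only [FF, zero_smul, add_zero, Matrix.smul_mul, Matrix.mul_smul, Matrix.mul_add,
      Matrix.add_mul, trace_add, trace_smul, smul_eq_mul, Matrix.mul_assoc, Matrix.one_mul]
    rw [t1, t2, t3, t4, t5, t6]
    simp only [Matrix.mul_assoc]
    ring
  have e2 : FF J A ((I * k) • (1 : Matrix ι ι R)) δ 0 0 =
      -k ^ 2 * (4 * P.trace ^ 2 - 4 * (P * P).trace + 2 * δ * J.trace) := by
    simp only [FF, zero_smul, add_zero, Matrix.smul_mul, Matrix.mul_smul, Matrix.mul_add,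
      Matrix.add_mul, trace_add, trace_smul, smul_eq_mul, Matrix.one_mul, Matrix.mul_one, ← hP]
    linear_combination (k ^ 2 * (4 * P.trace ^ 2 - 4 * (P * P).trace + 2 * δ * J.trace)) * hI
  have e3 : ∀ a, FF J A 0 δ (2 * k * w a) (2 * k ^ 2) =
      4 * k ^ 2 * (J.trace ^ 2 - (J * J).trace) * w a ^ 2 + 2 * k ^ 2 * δ * J.trace := fun a => by
    simp only [FF, Matrix.zero_mul, Matrix.mul_zero, zero_add, add_zero, Matrix.smul_mul,
      Matrix.mul_smul, trace_smul, smul_eq_mul, Matrix.mul_one]
    ring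
  simp only [e1, e2, e3]
  rw [← mul_sum, sum_add_distrib, sum_sub_distrib, sum_sub_distrib, ← mul_sum, ← mul_sum,
    ← mul_sum, ← mul_sum, sum_tr_tr P hPs, sum_tr_sand P P hPs, sum_tr_sand _ J hJ,
    sum_tr_sand J 1 transpose_one, sum_add_distrib, ← mul_sum, hw, hAJA, Matrix.sub_mul, trace_sub,
    trace_sub, hPP]
  simp only [Matrix.smul_mul, Matrix.one_mul, Matrix.mul_one, trace_smul, smul_eq_mul, trace_one,
    sum_const, card_univ, Fintype.card_fin, nsmul_eq_mul]
  push_cast
  ring

/-- **the two Laplacians of `det (A² + ρ)` agree** -/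
theorem lap_eq [IsDomain R] {A : Matrix ι ι R} {ρ k I : R} {w : Fin 5 → R}
    (D1 : ι × ι → Derivation ℂ R R) (D0 : Derivation ℂ R R) (D2 : Fin 5 → Derivation ℂ R R)
    (hA : Aᵀ = A) (hδ : (BB A ρ).det ≠ 0) (hI : I * I = -1) (hw : ∑ a, w a ^ 2 = ρ)
    (h1 : ∀ p, dm (D1 p) A = (-k) • UU R p ∧ dm (D1 p) ((-k) • UU R p) = 0 ∧ D1 p ρ = 0)
    (h0 : dm D0 A = (I * k) • (1 : Matrix ι ι R) ∧ D0 (I * k) = 0 ∧ D0 ρ = 0)
    (h2 : ∀ a, dm (D2 a) A = 0 ∧ D2 a ρ = 2 * k * w a ∧ D2 a (2 * k * w a) = 2 * k ^ 2) :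
    ∑ p, D1 p (D1 p (BB A ρ).det) = D0 (D0 (BB A ρ).det) + ∑ a, D2 a (D2 a (BB A ρ).det) := by
  set B := BB A ρ with hB
  have hBs : Bᵀ = B := by simp [hB, BB, transpose_mul, hA]
  have hJ : B.adjugateᵀ = B.adjugate := by rw [adjugate_transpose, hBs]
  have hAB : A * B = B * A := by
    simp [hB, BB, Matrix.mul_add, Matrix.add_mul, Matrix.mul_assoc]
  have hc : B.adjugate * A = A * B.adjugate := by
    have e1 : B.adjugate * (A * B) * B.adjugate = B.det • (B.adjugate * A) := by
      rw [Matrix.mul_assoc, Matrix.mul_assoc, mul_adjugate]; simp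
    have e2 : B.adjugate * (B * A) * B.adjugate = B.det • (A * B.adjugate) := by
      rw [← Matrix.mul_assoc, adjugate_mul]; simp
    rw [hAB, e2] at e1
    ext i j
    have : (B.det • (A * B.adjugate)) i j = (B.det • (B.adjugate * A)) i j := by rw [e1]
    simp only [Matrix.smul_apply, smul_eq_mul] at this
    exact (mul_left_cancel₀ hδ this).symm
  have hq : B.adjugate * (A * A) = B.det • (1 : Matrix ι ι R) - ρ • B.adjugate := by
    rw [← adjugate_mul B]
    conv_rhs => enter [1, 2]; rw [hB, BB]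
    simp [Matrix.mul_add]
  refine mul_left_cancel₀ hδ ?_
  rw [mul_add, mul_sum, mul_sum]
  have z : ∀ D : Derivation ℂ R R, dm D (0 : Matrix ι ι R) = 0 := fun D => by
    ext i j; simp [dm]
  rw [sum_congr rfl fun p _ => der2_BB (D1 p) (h1 p).1 (h1 p).2.1 (h1 p).2.2 (map_zero _),
    der2_BB D0 h0.1 (by rw [dm_smul_one, h0.2.1, zero_smul]) h0.2.2 (map_zero _),
    sum_congr rfl fun a _ => der2_BB (D2 a) (h2 a).1 (z _) (h2 a).2.1 (h2 a).2.2]
  exact FF_sum hJ hA hc hq hI hw

end der

section mean

open MvPolynomial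

variable {σ : Type*} [Fintype σ] [DecidableEq σ]

/-- partial Laplacian -/
def lap (S : Finset σ) (p : MvPolynomial σ ℂ) : MvPolynomial σ ℂ :=
  ∑ i ∈ S, pderiv i (pderiv i p)

omit [Fintype σ] [DecidableEq σ] in
lemma pderiv_hc (i : σ) (n : ℕ) (p : MvPolynomial σ ℂ) :
    pderiv i (homogeneousComponent (n + 1) p) = homogeneousComponent n (pderiv i p) := by
  ext m
  rw [coeff_pderiv, coeff_homogeneousComponent, coeff_homogeneousComponent, coeff_pderiv]
  simp only [map_add, Finsupp.degree_single, add_left_inj]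
  split_ifs <;> simp

omit [Fintype σ] [DecidableEq σ] in
lemma lap_hc (S : Finset σ) (n : ℕ) (p : MvPolynomial σ ℂ) :
    lap S (homogeneousComponent (n + 2) p) = homogeneousComponent n (lap S p) := by
  simp only [lap, map_sum, pderiv_hc]

omit [Fintype σ] [DecidableEq σ] in
lemma lap_hc_small (S : Finset σ) {n : ℕ} (hn : n < 2) (p : MvPolynomial σ ℂ) :
    lap S (homogeneousComponent n p) = 0 := by
  interval_cases n
  · simp [lap, homogeneousComponent_zero]
  · simp only [lap]
    refine sum_eq_zero fun i _ => ?_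
    rw [show (1 : ℕ) = 0 + 1 from rfl, pderiv_hc, homogeneousComponent_zero, pderiv_C]

omit [Fintype σ] [DecidableEq σ] in
lemma lap_lap (S T : Finset σ) (p : MvPolynomial σ ℂ) : lap S (lap T p) = lap T (lap S p) := by
  classical
  have c : ∀ (i j : σ) (q : MvPolynomial σ ℂ), pderiv i (pderiv j q) = pderiv j (pderiv i q) := by
    intro i j q
    ext m
    simp only [coeff_pderiv]
    rw [add_right_comm]
    by_cases h : i = j
    · subst h; rfl
    · simp [h, Ne.symm h]; ring
  simp only [lap, map_sum]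
  rw [sum_comm]
  refine sum_congr rfl fun i _ => sum_congr rfl fun j _ => ?_
  rw [c j i (pderiv i p), c j i p, c j i (pderiv i (pderiv j p)), c j i (pderiv j p)]

/-- a functional of Gaussian type in the variables of `S`, of Dirac type in the others -/
def IsG (S : Finset σ) (l : MvPolynomial σ ℂ →ₗ[ℂ] ℂ) : Prop :=
  l 1 = 1 ∧ ∀ i p, l (X i * p) = if i ∈ S then l (pderiv i p) else 0

lemma IsG.euler {S : Finset σ} {l : MvPolynomial σ ℂ →ₗ[ℂ] ℂ} (h : IsG S l) {n : ℕ}
    {p : MvPolynomial σ ℂ} (hp : p.IsHomogeneous n) : (n : ℂ) * l p = l (lap S p) := by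
  have := congrArg l hp.sum_X_mul_pderiv
  rw [map_sum, map_nsmul, nsmul_eq_mul] at this
  rw [← this, lap, map_sum]
  simp only [h.2]
  rw [sum_ite_mem, univ_inter]

/-- **Asgeirsson's mean value theorem**, Gaussian form -/
theorem mean_value {S T : Finset σ} {l1 l2 : MvPolynomial σ ℂ →ₗ[ℂ] ℂ} (h1 : IsG S l1)
    (h2 : IsG T l2) {p : MvPolynomial σ ℂ} (hp : lap S p = lap T p) : l1 p = l2 p := by
  have key : ∀ n : ℕ, ∀ q : MvPolynomial σ ℂ, q.IsHomogeneous n → lap S q = lap T q →
      l1 q = l2 q := by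
    intro n
    induction n using Nat.strong_induction_on with
    | _ n ih =>
      intro q hq he
      rcases Nat.eq_zero_or_pos n with rfl | hn
      · have : q = (coeff 0 q) • (1 : MvPolynomial σ ℂ) := by
          rw [← homogeneousComponent_eq_self hq, homogeneousComponent_zero, smul_eq_C_mul, mul_one]
          simp
        rw [this, map_smul, map_smul, h1.1, h2.1]
      · have hl : (lap S q).IsHomogeneous (n - 1 - 1) :=
          IsHomogeneous.sum _ _ _ fun i _ => hq.pderiv.pderiv
        have e := ih _ (by omega) _ hl (by rw [lap_lap T S, he])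
        refine mul_left_cancel₀ (a := (n : ℂ)) (by exact_mod_cast hn.ne') ?_
        rw [h1.euler hq, h2.euler hq, e, he]
  rw [← sum_homogeneousComponent p, map_sum, map_sum]
  refine sum_congr rfl fun n _ => key n _ (homogeneousComponent_isHomogeneous n p) ?_
  rcases lt_or_ge n 2 with h | h
  · rw [lap_hc_small _ h, lap_hc_small _ h]
  · obtain ⟨m, rfl⟩ := Nat.exists_eq_add_of_le' h
    rw [lap_hc, lap_hc, hp]

end mean

end Crest.Agent.T157.Dq

end
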