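import Crest.Agent.T157.DqA_9
import Crest.Agent.T157.CondA_53

/-!
# Row 157, part A (helper9): the second moment of `det (M - W)` for the GOE

* `det_dual` : `E det ((M - W)² + ∑ z_a²) = E det ((M + i g₀)² + ∑ (g_a + z_a)²)`,
  `g₀, …, g₅` independent `N(0, s²/2)`, for every complex symmetric `M`;
* `gexp_shift` : shift of the contour for polynomials;
* `det_sq_le` : `E det (M - W)² ≤ exp(χ²/s²) ∏ (m_i - χ)² (1 - s² ∑ (m_i - χ)⁻²)⁻³` for every `χ`.
-/

set_option autoImplicit false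

noncomputable section

namespace Crest.Agent.T157.Dq

open Matrix Finset MeasureTheory ProbabilityTheory MvPolynomial
open Crest.Agent.R089.GUE Crest.Agent.T157.E Crest.Agent.T157.Cond

section sub

variable {α β : Type*}

/-- kill the second group of variables -/
def kl : MvPolynomial (α ⊕ β) ℂ →ₐ[ℂ] MvPolynomial α ℂ := aeval (Sum.elim X fun _ => 0)

/-- kill the first group of variables -/
def kr : MvPolynomial (α ⊕ β) ℂ →ₐ[ℂ] MvPolynomial β ℂ := aeval (Sum.elim (fun _ => 0) X)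

lemma pderiv_kl (a : α) (p : MvPolynomial (α ⊕ β) ℂ) :
    pderiv a (kl p) = kl (pderiv (Sum.inl a) p) := by
  classical
  induction p using MvPolynomial.induction_on with
  | C c => simp [kl]
  | add p q hp hq => simp only [map_add, hp, hq]
  | mul_X p i hp =>
    simp only [map_mul, Derivation.leibniz, smul_eq_mul, map_add, hp]
    rcases i with i | i
    · by_cases h : i = a
      · subst h; simp [kl]
      · simp [kl, pderiv_X, h]
    · simp [kl, pderiv_X]

lemma pderiv_kr (b : β) (p : MvPolynomial (α ⊕ β) ℂ) :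
    pderiv b (kr p) = kr (pderiv (Sum.inr b) p) := by
  classical
  induction p using MvPolynomial.induction_on with
  | C c => simp [kr]
  | add p q hp hq => simp only [map_add, hp, hq]
  | mul_X p i hp =>
    simp only [map_mul, Derivation.leibniz, smul_eq_mul, map_add, hp]
    rcases i with i | i
    · simp [kr, pderiv_X]
    · by_cases h : i = b
      · subst h; simp [kr]
      · simp [kr, pderiv_X, h]

variable [Fintype α] [Fintype β] [DecidableEq α] [DecidableEq β]

omit [Fintype β] in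
lemma isG_kl : IsG (univ.map (Function.Embedding.inl : α ↪ α ⊕ β))
    ((gexp 1).comp (kl : MvPolynomial (α ⊕ β) ℂ →ₐ[ℂ] _).toLinearMap) := by
  refine ⟨by simp [gexp_one], fun i p => ?_⟩
  rcases i with i | i
  · rw [if_pos (by simp)]
    simp only [LinearMap.comp_apply, AlgHom.toLinearMap_apply, map_mul]
    rw [← pderiv_kl, show kl (X (Sum.inl i) : MvPolynomial (α ⊕ β) ℂ) = X i by simp [kl],
      gexp_ibp one_ne_zero]
    simp
  · rw [if_neg (by simp)]
    simp [kl]

omit [Fintype α] in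
lemma isG_kr : IsG (univ.map (Function.Embedding.inr : β ↪ α ⊕ β))
    ((gexp 1).comp (kr : MvPolynomial (α ⊕ β) ℂ →ₐ[ℂ] _).toLinearMap) := by
  refine ⟨by simp [gexp_one], fun i p => ?_⟩
  rcases i with i | i
  · rw [if_neg (by simp)]
    simp [kr]
  · rw [if_pos (by simp)]
    simp only [LinearMap.comp_apply, AlgHom.toLinearMap_apply, map_mul]
    rw [← pderiv_kr, show kr (X (Sum.inr i) : MvPolynomial (α ⊕ β) ℂ) = X i by simp [kr],
      gexp_ibp one_ne_zero]
    simp

/-- two groups of Gaussian variables with equal Laplacians -/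
theorem gexp_kl_kr {p : MvPolynomial (α ⊕ β) ℂ}
    (h : ∑ a, pderiv (Sum.inl a) (pderiv (Sum.inl a) p) =
      ∑ b, pderiv (Sum.inr b) (pderiv (Sum.inr b) p)) : gexp 1 (kl p) = gexp 1 (kr p) :=
  mean_value isG_kl isG_kr (by simpa [lap, sum_map] using h)

end sub

variable {ι : Type*} [Fintype ι] [DecidableEq ι]

lemma map_det_BB {R S : Type*} [CommRing R] [CommRing S] (f : R →+* S) (A : Matrix ι ι R)
    (ρ : R) : f (BB A ρ).det = (BB (A.map f) (f ρ)).det := by
  rw [RingHom.map_det]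
  congr 1
  ext i j
  by_cases h : i = j <;> simp [BB, mul_apply, one_apply, h]

/-- the polynomial ring of the duality -/
abbrev RR (ι : Type*) : Type _ := MvPolynomial ((ι × ι) ⊕ Fin 6) ℂ

/-- the generic matrix `M - W + i g₀` -/
def AX (k : ℂ) (M : Matrix ι ι ℂ) : Matrix ι ι (RR ι) := Matrix.of fun i j =>
  C (M i j) - C k * (X (Sum.inl (i, j)) + X (Sum.inl (j, i))) +
    if i = j then C Complex.I * C k * X (Sum.inr 0) else 0

/-- the generic vector `g_a + z_a` -/
def wX (ι : Type*) (k : ℂ) (z : Fin 5 → ℂ) (a : Fin 5) : RR ι :=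
  C k * X (Sum.inr a.succ) + C (z a)

lemma lap_AX (k : ℂ) {M : Matrix ι ι ℂ} (hM : Mᵀ = M) (z : Fin 5 → ℂ) :
    ∑ p, pderiv (Sum.inl p) (pderiv (Sum.inl p) (BB (AX k M) (∑ a, wX ι k z a ^ 2)).det) =
      ∑ b, pderiv (Sum.inr b) (pderiv (Sum.inr b) (BB (AX k M) (∑ a, wX ι k z a ^ 2)).det) := by
  by_cases hδ : (BB (AX k M) (∑ a, wX ι k z a ^ 2)).det = 0
  · simp [hδ]
  rw [Fin.sum_univ_succ (n := 5)]
  have hs : ∀ i j, M j i = M i j := fun i j => by rw [← transpose_apply M i j, hM]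
  have hw : ∀ a b : Fin 5, pderiv (Sum.inr a.succ) (wX ι k z b) = if b = a then C k else 0 := by
    intro a b
    by_cases h : b = a <;> simp [wX, pderiv_X, h]
  refine lap_eq (k := C k) (I := C Complex.I) (w := wX ι k z) (fun p => pderiv (Sum.inl p))
    (pderiv (Sum.inr 0)) (fun a => pderiv (Sum.inr a.succ)) ?_ hδ ?_ rfl (fun p => ⟨?_, ?_, ?_⟩)
    ⟨?_, ?_, ?_⟩ (fun a => ⟨?_, ?_, ?_⟩)
  · ext1 i j
    simp only [AX, transpose_apply, of_apply, hs i j, add_comm, eq_comm]
  · rw [← C_mul]; simp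
  · ext1 i j
    obtain ⟨a, b⟩ := p
    have e : ∀ i j : ι, pderiv (Sum.inl (a, b)) (X (Sum.inl (i, j)) : RR ι) =
        if a = i ∧ b = j then 1 else 0 := fun i j => by
      simp [pderiv_X, Pi.single_apply, eq_comm]
    simp only [dm, AX, of_apply, map_add, map_sub, pderiv_C, Derivation.leibniz, smul_eq_mul, e,
      UU, Matrix.smul_apply, Matrix.add_apply, single_apply, apply_ite (pderiv (Sum.inl (a, b)))]
    simp [pderiv_X, and_comm]
  · ext1 i j
    simp only [dm, UU, of_apply, Matrix.smul_apply, Matrix.add_apply, single_apply, smul_eq_mul,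
      Matrix.zero_apply]
    split_ifs <;> simp
  · simp [wX, pderiv_X]
  · ext1 i j
    by_cases h : i = j <;> simp [dm, AX, pderiv_X, one_apply, h]
  · simp
  · simp [wX, pderiv_X, Fin.succ_ne_zero]
  · ext1 i j
    by_cases h : i = j <;> simp [dm, AX, pderiv_X, h, (Fin.succ_ne_zero _).symm]
  · simp only [map_sum, sq, Derivation.leibniz, smul_eq_mul, hw]
    rw [sum_eq_single a (fun b _ hb => by simp [hb]) (by simp)]
    simp only [if_true]; ring
  · simp only [Derivation.leibniz, smul_eq_mul, hw, pderiv_C, if_true]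
    rw [show (2 : RR ι) = C 2 from rfl, pderiv_C]
    ring

/-- complexification -/
abbrev cx (W : Matrix ι ι ℝ) : Matrix ι ι ℂ := W.map fun x => (x : ℂ)

/-- the polynomial on the dual side -/
def dualP (k : ℂ) (M : Matrix ι ι ℂ) (z : Fin 5 → ℂ) : MvPolynomial (Fin 6) ℂ :=
  kr (BB (AX k M) (∑ a, wX ι k z a ^ 2)).det

lemma eval_dualP (k : ℂ) (M : Matrix ι ι ℂ) (z : Fin 5 → ℂ) (y : Fin 6 → ℂ) :
    eval y (dualP k M z) = (BB (M + (Complex.I * k * y 0) • (1 : Matrix ι ι ℂ))
      (∑ a : Fin 5, (k * y a.succ + z a) ^ 2)).det := by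
  have := map_det_BB ((eval y).comp (kr : RR ι →ₐ[ℂ] _).toRingHom) (AX k M)
    (∑ a, wX ι k z a ^ 2)
  refine this.trans ?_
  congr 2
  · ext i j
    by_cases h : i = j <;> simp [AX, kr, one_apply, h]
  · simp [wX, kr]

lemma eval_kl (s : ℝ) (M : Matrix ι ι ℂ) (z : Fin 5 → ℂ) (x : ι × ι → ℝ) :
    eval (fun p => (x p : ℂ))
      (kl (BB (AX ((s / √2 : ℝ) : ℂ) M) (∑ a, wX ι ((s / √2 : ℝ) : ℂ) z a ^ 2)).det) =
      (BB (M - cx (symG s x)) (∑ a, z a ^ 2)).det := by
  have := map_det_BB ((eval fun p => (x p : ℂ)).comp (kl : RR ι →ₐ[ℂ] _).toRingHom)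
    (AX ((s / √2 : ℝ) : ℂ) M) (∑ a, wX ι ((s / √2 : ℝ) : ℂ) z a ^ 2)
  refine this.trans ?_
  congr 2
  · ext i j
    by_cases h : i = j <;> simp [AX, kl, symG, h]
  · simp [wX, kl]

lemma integrable_BB (s : ℝ) (M : Matrix ι ι ℂ) (z : Fin 5 → ℂ) :
    Integrable (fun x => (BB (M - cx (symG s x)) (∑ a, z a ^ 2)).det) (gv (ι × ι)) := by
  simp only [← eval_kl]
  exact integrable_eval 1 _

/-- **the duality formula** -/
theorem det_dual (s : ℝ) {M : Matrix ι ι ℂ} (hM : Mᵀ = M) (z : Fin 5 → ℂ) :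
    ∫ x, (BB (M - cx (symG s x)) (∑ a, z a ^ 2)).det ∂gv (ι × ι) =
      gexp 1 (dualP ((s / √2 : ℝ) : ℂ) M z) := by
  simp only [← eval_kl]
  exact gexp_kl_kr (lap_AX _ hM z)

/-! ### shifting the contour -/

lemma stein1C {f f' : ℝ → ℂ} (hf : ∀ x, HasDerivAt f (f' x) x)
    (h1 : Integrable f (gaussianReal 0 1)) (h2 : Integrable f' (gaussianReal 0 1))
    (h3 : Integrable (fun x : ℝ => (x : ℂ) * f x) (gaussianReal 0 1)) :
    ∫ x, (x : ℂ) * f x ∂gaussianReal 0 1 = ∫ x, f' x ∂gaussianReal 0 1 := by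
  have hi : ∀ {g : ℝ → ℂ}, Integrable g (gaussianReal 0 1) →
      Integrable fun x => g x * (gaussianPDFReal 0 1 x : ℂ) := fun {g} hg => by
    rw [gaussianReal_of_var_ne_zero _ one_ne_zero, integrable_withDensity_iff_integrable_smul'
      (measurable_gaussianPDF _ _) (ae_of_all _ fun _ => gaussianPDF_lt_top)] at hg
    simpa [mul_comm] using hg
  rw [integral_gaussianReal_eq_integral_smul one_ne_zero,
    integral_gaussianReal_eq_integral_smul one_ne_zero]
  have h := integral_mul_deriv_eq_deriv_mul_of_integrable (A := ℂ) (u := f)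
    (v := fun x => (gaussianPDFReal 0 1 x : ℂ)) (u' := f')
    (v' := fun x => ((-(x / (1 : NNReal)) * gaussianPDFReal 0 1 x : ℝ) : ℂ))
    (fun x _ => hf x) (fun x _ => (hasDerivAt_gaussianPDFReal one_ne_zero x).ofReal_comp)
    ((hi h3).neg.congr (ae_of_all _ fun x => by simp; ring)) (hi h2) (hi h1)
  have e : ∫ x, gaussianPDFReal 0 1 x • ((x : ℂ) * f x) =
      -∫ x, f x * ((-(x / (1 : NNReal)) * gaussianPDFReal 0 1 x : ℝ) : ℂ) := by
    rw [← integral_neg]; congr 1; ext x; simp; ring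
  rw [e, h, neg_neg]
  simp [mul_comm]

/-- the complex Cameron-Martin factor -/
def cm (τ x : ℝ) : ℂ := Complex.exp (τ ^ 2 / 2 - τ * x * Complex.I)

lemma norm_cm (τ x : ℝ) : ‖cm τ x‖ = Real.exp (τ ^ 2 / 2) := by
  rw [cm, Complex.norm_exp]
  congr 1
  rw [show ((τ : ℂ) ^ 2 / 2 - τ * x * Complex.I) = ((τ ^ 2 / 2 : ℝ) : ℂ) +
    ((-(τ * x) : ℝ) : ℂ) * Complex.I by push_cast; ring]
  simp only [Complex.add_re, Complex.ofReal_re, Complex.mul_I_re, Complex.ofReal_im, neg_zero,
    add_zero]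

lemma integrable_sh (τ : ℝ) (j k : ℕ) : Integrable
    (fun x : ℝ => (x : ℂ) ^ j * (((x : ℂ) + τ * Complex.I) ^ k * cm τ x)) (gaussianReal 0 1) := by
  have h : Integrable (fun x : ℝ => (x : ℂ) ^ j * ((x : ℂ) + τ * Complex.I) ^ k)
      (gaussianReal 0 1) := by
    simp only [add_pow, mul_sum]
    refine integrable_finsetSum _ fun m _ => ?_
    have := ((integrable_pow_gaussianReal 1 (j + m)).ofReal (𝕜 := ℂ)).mul_const
      ((τ * Complex.I) ^ (k - m) * (k.choose m : ℂ))
    refine this.congr (ae_of_all _ fun x => ?_)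
    simp; ring
  simp only [← mul_assoc]
  refine h.mul_bdd (c := Real.exp (τ ^ 2 / 2)) ?_ (ae_of_all _ fun x => (norm_cm τ x).le)
  exact (by unfold cm; fun_prop : Continuous (cm τ)).aestronglyMeasurable

lemma mom_shift (τ : ℝ) (k : ℕ) :
    ∫ x : ℝ, ((x : ℂ) + τ * Complex.I) ^ k * cm τ x ∂gaussianReal 0 1 = mom 1 k := by
  induction k using Nat.strong_induction_on with
  | _ k ih =>
    rcases k with _ | k
    · have h := charFun_gaussianReal (μ := 0) (v := 1) (-τ)
      rw [charFun_apply_real] at h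
      have e : ∀ x : ℝ, cm τ x = Complex.exp (τ ^ 2 / 2) *
          Complex.exp (((-τ : ℝ) : ℂ) * x * Complex.I) := fun x => by
        rw [cm, ← Complex.exp_add]; congr 1; push_cast; ring
      simp only [pow_zero, one_mul, e]
      rw [integral_const_mul, h, ← Complex.exp_add, mom_zero]
      simp
    · have hd : ∀ x : ℝ, HasDerivAt (fun x : ℝ => ((x : ℂ) + τ * Complex.I) ^ k * cm τ x)
          (k * (((x : ℂ) + τ * Complex.I) ^ (k - 1) * cm τ x) -
            τ * Complex.I * (((x : ℂ) + τ * Complex.I) ^ k * cm τ x)) x := fun x => by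
        have h0 : HasDerivAt (fun x : ℝ => (x : ℂ)) 1 x := Complex.ofRealCLM.hasDerivAt
        have h1 := ((h0.add_const (τ * Complex.I)).pow k).mul
          ((((h0.const_mul (τ : ℂ)).mul_const Complex.I).const_sub ((τ : ℂ) ^ 2 / 2)).cexp)
        refine h1.congr_deriv ?_
        simp only [cm, Pi.pow_apply]
        ring
      have i0 : ∀ m, Integrable (fun x : ℝ => ((x : ℂ) + τ * Complex.I) ^ m * cm τ x)
          (gaussianReal 0 1) := fun m => by simpa using integrable_sh τ 0 m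
      have i1 : Integrable (fun x : ℝ => (x : ℂ) * (((x : ℂ) + τ * Complex.I) ^ k * cm τ x))
          (gaussianReal 0 1) := by simpa using integrable_sh τ 1 k
      have hs := stein1C hd (i0 k) (((i0 (k - 1)).const_mul _).sub ((i0 k).const_mul _)) i1
      rw [integral_sub ((i0 (k - 1)).const_mul _) ((i0 k).const_mul _), integral_const_mul,
        integral_const_mul, ih (k - 1) (by omega)] at hs
      have e : ∀ x : ℝ, ((x : ℂ) + τ * Complex.I) ^ (k + 1) * cm τ x =
          (x : ℂ) * (((x : ℂ) + τ * Complex.I) ^ k * cm τ x) +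
            τ * Complex.I * (((x : ℂ) + τ * Complex.I) ^ k * cm τ x) := fun x => by ring
      simp only [e]
      rw [integral_add i1 ((i0 k).const_mul _), hs, integral_const_mul, mom_succ one_ne_zero]
      simp

/-- **shift of the contour** -/
theorem gexp_shift {α : Type*} [Fintype α] (τ : α → ℝ) (p : MvPolynomial α ℂ) :
    Integrable (fun y : α → ℝ => eval (fun i => (y i : ℂ) + τ i * Complex.I) p *
      ∏ i, cm (τ i) (y i)) (gv α) ∧
    gexp 1 p = ∫ y, eval (fun i => (y i : ℂ) + τ i * Complex.I) p * ∏ i, cm (τ i) (y i) ∂gv α := by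
  induction p using MvPolynomial.induction_on' with
  | monomial m c =>
    simp only [eval_monomial, Finsupp.prod_pow, mul_assoc, ← prod_mul_distrib]
    refine ⟨Integrable.const_mul ?_ c, ?_⟩
    · exact Integrable.fintype_prod
        (f := fun i (x : ℝ) => ((x : ℂ) + τ i * Complex.I) ^ m i * cm (τ i) x)
        fun i => by simpa using integrable_sh (τ i) 0 (m i)
    · rw [gexp_monomial, integral_const_mul, integral_fintype_prod_eq_prod
        (f := fun i (x : ℝ) => ((x : ℂ) + τ i * Complex.I) ^ m i * cm (τ i) x)]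
      simp only [mom_shift]
  | add p q hp hq =>
    simp only [map_add, add_mul]
    exact ⟨hp.1.add hq.1, by rw [integral_add hp.1 hq.1, hp.2, hq.2]⟩

/-! ### the bound -/

/-- `M` is symmetric with eigenvalues `m` -/
def Dg (M : Matrix ι ι ℝ) (m : ι → ℝ) : Prop :=
  ∃ O : Matrix ι ι ℝ, O * Oᵀ = 1 ∧ M = O * diagonal m * Oᵀ

lemma dg_diagonal (m : ι → ℝ) : Dg (diagonal m) m := ⟨1, by simp, by simp⟩

lemma dg_herm {M : Matrix ι ι ℝ} (h : M.IsHermitian) : Dg M h.eigenvalues := by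
  refine ⟨h.eigenvectorUnitary, ?_, ?_⟩
  · have := (h.eigenvectorUnitary).2.2
    rwa [star_eq_conjTranspose, conjTranspose_eq_transpose_of_trivial] at this
  · have := h.spectral_theorem
    simp only [Unitary.conjStarAlgAut_apply, star_eq_conjTranspose,
      conjTranspose_eq_transpose_of_trivial] at this
    simpa using this

lemma Dg.symm {M : Matrix ι ι ℝ} {m : ι → ℝ} (h : Dg M m) : Mᵀ = M := by
  obtain ⟨O, -, rfl⟩ := h
  simp [transpose_mul, Matrix.mul_assoc]

lemma Dg.sub {M : Matrix ι ι ℝ} {m : ι → ℝ} (h : Dg M m) (l : ℝ) :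
    Dg (M - l • (1 : Matrix ι ι ℝ)) fun i => m i - l := by
  obtain ⟨O, hO, rfl⟩ := h
  refine ⟨O, hO, ?_⟩
  rw [← diagonal_sub, show (diagonal fun _ : ι => l) = l • (1 : Matrix ι ι ℝ) from
    (smul_one_eq_diagonal l).symm, Matrix.mul_sub, Matrix.sub_mul, Matrix.mul_smul,
    Matrix.smul_mul, Matrix.mul_one, hO]

lemma Dg.det {M : Matrix ι ι ℝ} {m : ι → ℝ} (h : Dg M m) : M.det = ∏ i, m i := by
  obtain ⟨O, hO, rfl⟩ := h
  rw [det_mul, det_mul, mul_right_comm, ← det_mul, hO, det_one, one_mul, det_diagonal]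

lemma Dg.det_BB {M : Matrix ι ι ℝ} {m : ι → ℝ} (h : Dg M m) (c ρ : ℂ) :
    (BB (cx M + c • (1 : Matrix ι ι ℂ)) ρ).det = ∏ i, (((m i : ℂ) + c) ^ 2 + ρ) := by
  obtain ⟨O, hO, rfl⟩ := h
  have mul : ∀ A B : Matrix ι ι ℝ, cx (A * B) = cx A * cx B := fun A B => by
    ext i j; simp [mul_apply]
  have h1 : cx O * cx Oᵀ = 1 := by
    rw [← mul, hO]; ext i j; by_cases h : i = j <;> simp [one_apply, h]
  have h2 : cx Oᵀ * cx O = 1 := mul_eq_one_comm.1 h1
  have e1 : cx (O * diagonal m * Oᵀ) + c • (1 : Matrix ι ι ℂ) =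
      cx O * diagonal (fun i => (m i : ℂ) + c) * cx Oᵀ := by
    rw [mul, mul, ← diagonal_add, ← smul_one_eq_diagonal, Matrix.mul_add, Matrix.add_mul,
      Matrix.mul_smul, Matrix.smul_mul, Matrix.mul_one, h1]
    congr 3
    exact diagonal_map (by simp)
  have e2 : BB (cx O * diagonal (fun i => (m i : ℂ) + c) * cx Oᵀ) ρ =
      cx O * diagonal (fun i => ((m i : ℂ) + c) ^ 2 + ρ) * cx Oᵀ := by
    rw [BB, ← diagonal_add (fun i => ((m i : ℂ) + c) ^ 2), ← smul_one_eq_diagonal, Matrix.mul_add,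
      Matrix.add_mul, Matrix.mul_smul, Matrix.smul_mul, Matrix.mul_one, h1]
    congr 1
    simp only [Matrix.mul_assoc]
    rw [← Matrix.mul_assoc (cx Oᵀ), h2, Matrix.one_mul, ← Matrix.mul_assoc (diagonal _),
      diagonal_mul_diagonal]
    simp only [sq]
  rw [e1, e2, det_mul, det_mul, mul_right_comm, ← det_mul, h1, det_one, one_mul, det_diagonal]

lemma integral_exp_sq {a : ℝ} (ha : a < 1) :
    Integrable (fun h : ℝ => Real.exp (a * h ^ 2 / 2)) (gaussianReal 0 1) ∧
      ∫ h, Real.exp (a * h ^ 2 / 2) ∂gaussianReal 0 1 = (√(1 - a))⁻¹ := by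
  have hb : 0 < (1 - a) / 2 := by linarith
  have e : ∀ h : ℝ, gaussianPDFReal 0 1 h * Real.exp (a * h ^ 2 / 2) =
      (√(2 * Real.pi))⁻¹ * Real.exp (-((1 - a) / 2) * h ^ 2) := fun h => by
    simp only [gaussianPDFReal, NNReal.coe_one, mul_one, sub_zero, mul_assoc, ← Real.exp_add]
    congr 2; ring
  constructor
  · rw [gaussianReal_of_var_ne_zero _ one_ne_zero, integrable_withDensity_iff_integrable_smul'
      (by fun_prop) (by simp [gaussianPDF])]
    simp only [toReal_gaussianPDF, smul_eq_mul, e]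
    exact (integrable_exp_neg_mul_sq hb).const_mul _
  · rw [integral_gaussianReal_eq_integral_smul one_ne_zero]
    simp only [smul_eq_mul, e]
    rw [integral_const_mul, integral_gaussian, show Real.pi / ((1 - a) / 2) =
      2 * Real.pi / (1 - a) by field_simp, Real.sqrt_div (by positivity)]
    have : 0 < √(2 * Real.pi) := by positivity
    field_simp

lemma norm_factor {a g ρ : ℝ} (ha : a ≠ 0) (hρ : 0 ≤ ρ) :
    ‖((a : ℂ) + g * Complex.I) ^ 2 + ρ‖ ≤ a ^ 2 * Real.exp ((a ^ 2)⁻¹ * (g ^ 2 + ρ)) := by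
  have h1 : ‖((a : ℂ) + g * Complex.I) ^ 2‖ = a ^ 2 + g ^ 2 := by
    rw [norm_pow, Complex.sq_norm, Complex.normSq_add_mul_I]
  have ha2 : 0 < a ^ 2 := by positivity
  refine (norm_add_le _ _).trans ?_
  rw [h1, Complex.norm_real, Real.norm_of_nonneg hρ]
  have := Real.add_one_le_exp ((a ^ 2)⁻¹ * (g ^ 2 + ρ))
  calc a ^ 2 + g ^ 2 + ρ = a ^ 2 * ((a ^ 2)⁻¹ * (g ^ 2 + ρ) + 1) := by field_simp; ring
    _ ≤ _ := by gcongr

lemma cx_det_sq (M W : Matrix ι ι ℝ) :
    (BB (cx M - cx W) (∑ a : Fin 5, (0 : Fin 5 → ℂ) a ^ 2)).det = (((M - W).det ^ 2 : ℝ) : ℂ) := by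
  have e : cx M - cx W = cx (M - W) := by ext i j; simp
  have := (Complex.ofRealHom.map_det (M - W)).symm
  simp only [BB, e, Pi.zero_apply, ne_eq, OfNat.ofNat_ne_zero, not_false_eq_true, zero_pow,
    sum_const_zero, zero_smul, add_zero, det_mul]
  rw [show (cx (M - W)).det = (((M - W).det : ℝ) : ℂ) from this]
  push_cast; ring

lemma continuous_det_sub (M : Matrix ι ι ℝ) : Continuous fun W : Matrix ι ι ℝ => (M - W).det :=
  (continuous_const.sub continuous_id).matrix_det

lemma continuous_det_sq (M : Matrix ι ι ℝ) :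
    Continuous fun W : Matrix ι ι ℝ => (M - W).det ^ 2 := (continuous_det_sub M).pow 2

lemma integrable_det_sq (s : ℝ) (M : Matrix ι ι ℝ) :
    Integrable (fun W => (M - W).det ^ 2) (goe ι s) := by
  rw [goe, integrable_map_measure (continuous_det_sq M).aestronglyMeasurable
    (measurable_symG s).aemeasurable]
  have h := (integrable_BB s (cx M) 0).re
  simp only [cx_det_sq, RCLike.re_to_complex, Complex.ofReal_re] at h
  exact h

/-- **exact second moment** -/
theorem det_sq_eq (s : ℝ) {M : Matrix ι ι ℝ} (hM : Mᵀ = M) :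
    ((∫ W, (M - W).det ^ 2 ∂goe ι s : ℝ) : ℂ) = gexp 1 (dualP ((s / √2 : ℝ) : ℂ) (cx M) 0) := by
  rw [← det_dual s (by rw [← transpose_map, hM]) 0, goe, integral_map
    (measurable_symG s).aemeasurable (continuous_det_sq M).aestronglyMeasurable,
    ← integral_complex_ofReal]
  simp only [cx_det_sq]

/-- **the second moment of the determinant**, every `χ` -/
theorem det_sq_le {s : ℝ} (hs : s ≠ 0) {M : Matrix ι ι ℝ} {m : ι → ℝ} (hM : Dg M m) {χ : ℝ}
    (h0 : ∀ i, m i ≠ χ) (hS : s ^ 2 * ∑ i, ((m i - χ) ^ 2)⁻¹ < 1) :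
    ∫ W, (M - W).det ^ 2 ∂goe ι s ≤ Real.exp (χ ^ 2 / s ^ 2) * (∏ i, (m i - χ) ^ 2) *
      ((1 - s ^ 2 * ∑ i, ((m i - χ) ^ 2)⁻¹) ^ 3)⁻¹ := by
  set S := s ^ 2 * ∑ i, ((m i - χ) ^ 2)⁻¹ with hSd
  set k : ℝ := s / √2 with hk
  have hk2 : k ^ 2 = s ^ 2 / 2 := by rw [hk, div_pow, Real.sq_sqrt (by norm_num)]
  have hk0 : k ≠ 0 := div_ne_zero hs (by positivity)
  set τ : Fin 6 → ℝ := Pi.single 0 (χ / k) with hτ
  have h1 := det_sq_eq s hM.symm
  rw [← hk, (gexp_shift τ _).2] at h1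
  refine (le_abs_self _).trans ?_
  rw [← Real.norm_eq_abs, ← Complex.norm_real, h1]
  have hi : Integrable (fun y : Fin 6 → ℝ => ∏ b, Real.exp (S * y b ^ 2 / 2)) (gv (Fin 6)) :=
    Integrable.fintype_prod (f := fun _ (x : ℝ) => Real.exp (S * x ^ 2 / 2))
      fun _ => (integral_exp_sq hS).1
  refine (norm_integral_le_of_norm_le (hi.const_mul
    (Real.exp (χ ^ 2 / s ^ 2) * ∏ i, (m i - χ) ^ 2)) (ae_of_all _ fun y => ?_)).trans ?_
  · rw [eval_dualP, hM.det_BB, norm_mul, norm_prod, norm_prod]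
    have e1 : ∏ b, ‖cm (τ b) (y b)‖ = Real.exp (χ ^ 2 / s ^ 2) := by
      simp only [norm_cm, ← Real.exp_sum, Fin.sum_univ_succ, hτ]
      simp [div_pow, hk2]
      field_simp
    have e2 : ∀ i, ((m i : ℂ) + Complex.I * (k : ℂ) * ((y 0 : ℂ) + τ 0 * Complex.I)) ^ 2 +
        ∑ a : Fin 5, ((k : ℂ) * ((y a.succ : ℂ) + τ a.succ * Complex.I) +
          (0 : Fin 5 → ℂ) a) ^ 2 = (((m i - χ : ℝ) : ℂ) + (k * y 0 : ℝ) * Complex.I) ^ 2 +
            ((∑ a : Fin 5, (k * y a.succ) ^ 2 : ℝ) : ℂ) := fun i => by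
      have hk0' : (k : ℂ) ≠ 0 := by exact_mod_cast hk0
      congr 1
      · congr 1
        simp only [hτ, Pi.single_eq_same]
        push_cast
        field_simp
        linear_combination (χ : ℂ) * Complex.I_mul_I
      · simp [hτ, Fin.succ_ne_zero]
    simp only [e2]
    rw [e1, mul_comm, mul_assoc]
    refine mul_le_mul_of_nonneg_left ?_ (Real.exp_pos _).le
    refine (prod_le_prod (fun _ _ => norm_nonneg _) fun i _ => norm_factor
      (sub_ne_zero.2 (h0 i)) (by positivity)).trans (le_of_eq ?_)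
    rw [prod_mul_distrib, ← Real.exp_sum, ← Real.exp_sum, ← sum_mul]
    congr 2
    rw [Fin.sum_univ_succ (fun b => S * y b ^ 2 / 2)]
    rw [hSd, mul_add, mul_sum univ (fun a : Fin 5 => (k * y a.succ) ^ 2)]
    simp only [mul_pow, hk2]
    congr 1
    · ring
    · exact sum_congr rfl fun a _ => by ring
  · rw [integral_const_mul, integral_fintype_prod_eq_prod
      (f := fun _ (x : ℝ) => Real.exp (S * x ^ 2 / 2))]
    simp only [(integral_exp_sq hS).2, prod_const, card_univ, Fintype.card_fin]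
    refine le_of_eq ?_
    congr 1
    rw [inv_pow, show (6 : ℕ) = 2 * 3 from rfl, pow_mul, Real.sq_sqrt (by linarith)]

end Crest.Agent.T157.Dq

end
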