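import Crest.Agent.T157.DqB_9
import Crest.Agent.T157.KrM_53
import Crest.Agent.T157.ConcG_16

/-!
# Row 157, part A (helper9): the quartic Gaussian integral `II`

`II s A = E exp((x·x - x·A x)/2 - s² (x·x)²/4)`.
* `lint_II`  : `E_W II s (N - W) = ∏ n_i^{-1/2}`;
* `small_ball` : a shell around the median of `∑ g_i²/b_i` has polynomially small mass at least;
* `II_lower` : there is `l < λ_min(A)` with `II s A ≥ poly⁻¹ exp(l²/4s²) det(A - l)^{-1/2}`.
-/

set_option autoImplicit false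

noncomputable section

namespace Crest.Agent.T157.Dq

open Matrix Finset MeasureTheory ProbabilityTheory Set
open scoped ENNReal NNReal
open Crest.Agent.T157.E Crest.Agent.T157.Cond
open Crest.Agent.T157.Conc (ex ex_add ex_mono ex_zero)

variable {ι : Type*} [Fintype ι] [DecidableEq ι]

/-- weighted sum of squares -/
def Rq (b g : ι → ℝ) : ℝ := ∑ i, g i ^ 2 / b i

omit [DecidableEq ι] in
lemma measurable_Rq (b : ι → ℝ) : Measurable (Rq b) := by unfold Rq; fun_prop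

/-- Gaussian change of variables -/
lemma gauss_cv {B : Matrix ι ι ℝ} {b : ι → ℝ} (hB : Dg B b) (hb : ∀ i, 0 < b i) {G : ℝ → ℝ≥0∞}
    (hG : Measurable G) : ∫⁻ x, ex ((x ⬝ᵥ x - x ⬝ᵥ B *ᵥ x) / 2) * G (x ⬝ᵥ x) ∂gv ι =
      ENNReal.ofReal (∏ i, (√(b i))⁻¹) * ∫⁻ g, G (Rq b g) ∂gv ι := by
  obtain ⟨O, hO, rfl⟩ := hB
  have hO' : Oᵀ * O = 1 := mul_eq_one_comm.1 hO
  set d : ι → ℝ := fun i => (√(b i))⁻¹ with hd
  have hd0 : ∀ i, 0 < d i := fun i => inv_pos.2 (Real.sqrt_pos.2 (hb i))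
  have hd2 : ∀ i, d i ^ 2 = (b i)⁻¹ := fun i => by rw [hd, inv_pow, Real.sq_sqrt (hb i).le]
  have hP : 0 < ∏ i, d i := prod_pos fun i _ => hd0 i
  have hdet : |(O * diagonal d).det| = ∏ i, d i := by
    have : |O.det| = 1 := by
      have h := congrArg det hO
      rw [det_mul, det_transpose, det_one] at h
      exact (abs_eq_abs.2 (mul_self_eq_one_iff.1 h |>.imp id fun h => by simpa using h)).trans
        abs_one
    rw [det_mul, abs_mul, this, one_mul, det_diagonal, abs_of_pos hP]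
  have hdet0 : (O * diagonal d).det ≠ 0 := by
    intro h; rw [h, abs_zero] at hdet; exact hP.ne hdet
  have e0 : ∀ g : ι → ℝ, Oᵀ *ᵥ (O * diagonal d) *ᵥ g = fun i => d i * g i := fun g => by
    rw [mulVec_mulVec, ← Matrix.mul_assoc, hO', Matrix.one_mul]
    ext i; rw [mulVec_diagonal]
  have e1 : ∀ g : ι → ℝ, (O * diagonal d) *ᵥ g ⬝ᵥ (O * diagonal d) *ᵥ g = Rq b g := fun g => by
    conv_lhs => enter [1]; rw [← mulVec_mulVec]
    rw [dotProduct_comm, dotProduct_mulVec, ← mulVec_transpose, e0]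
    refine sum_congr rfl fun i _ => ?_
    rw [mulVec_diagonal, div_eq_mul_inv, ← hd2]; ring
  have e2 : ∀ g : ι → ℝ, (O * diagonal d) *ᵥ g ⬝ᵥ (O * diagonal b * Oᵀ) *ᵥ (O * diagonal d) *ᵥ g
      = g ⬝ᵥ g := fun g => by
    rw [← mulVec_mulVec _ (O * diagonal b) Oᵀ, e0, ← mulVec_mulVec _ O (diagonal b),
      dotProduct_mulVec, ← mulVec_transpose, e0]
    refine sum_congr rfl fun i _ => ?_
    rw [mulVec_diagonal]
    have := hd2 i
    have h2 := (hb i).ne'
    field_simp at this ⊢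
    linear_combination (g i ^ 2) * this
  have hm : Measurable fun x : ι → ℝ =>
      ex ((x ⬝ᵥ x - x ⬝ᵥ (O * diagonal b * Oᵀ) *ᵥ x) / 2) * G (x ⬝ᵥ x) := by fun_prop
  have h := Kr.lintegral_affine hdet0 0 (G := fun y => ENNReal.ofReal (Kr.phi 1 y) *
    (ex ((y ⬝ᵥ y - y ⬝ᵥ (O * diagonal b * Oᵀ) *ᵥ y) / 2) * G (y ⬝ᵥ y))) (by fun_prop)
  rw [Kr.lintegral_gv hm, Kr.lintegral_gv (G := fun g => G (Rq b g))
    (hG.comp (measurable_Rq b))]
  simp only [zero_add, e1, e2] at h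
  have e3 : ∀ g : ι → ℝ, ENNReal.ofReal (Kr.phi 1 ((O * diagonal d) *ᵥ g)) *
      (ex ((Rq b g - g ⬝ᵥ g) / 2) * G (Rq b g)) = ENNReal.ofReal (Kr.phi 1 g) * G (Rq b g) := by
    intro g
    rw [← mul_assoc, ex, ← ENNReal.ofReal_mul (Kr.phi_nonneg _ _)]
    congr 2
    simp only [Kr.phi, e1, mul_assoc, ← Real.exp_add]
    congr 2; ring
  simp only [e3] at h
  rw [h, ← mul_assoc, ← ENNReal.ofReal_mul hP.le, abs_inv, hdet, mul_inv_cancel₀ hP.ne',
    ENNReal.ofReal_one, one_mul]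

/-- the quartic Gaussian integral -/
def II (s : ℝ) (A : Matrix ι ι ℝ) : ℝ≥0∞ :=
  ∫⁻ x, ex ((x ⬝ᵥ x - x ⬝ᵥ A *ᵥ x) / 2 - s ^ 2 * (x ⬝ᵥ x) ^ 2 / 4) ∂gv ι

omit [DecidableEq ι] in
lemma measurable_II (s : ℝ) (N : Matrix ι ι ℝ) : Measurable fun W => II s (N - W) :=
  Measurable.lintegral_prod_right' (f := fun p : Matrix ι ι ℝ × (ι → ℝ) =>
    ex ((p.2 ⬝ᵥ p.2 - p.2 ⬝ᵥ (N - p.1) *ᵥ p.2) / 2 - s ^ 2 * (p.2 ⬝ᵥ p.2) ^ 2 / 4)) (by fun_prop)

omit [DecidableEq ι] in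
lemma lint_ex_quad (s : ℝ) (x : ι → ℝ) :
    ∫⁻ W, ex (x ⬝ᵥ W *ᵥ x / 2) ∂goe ι s = ex (s ^ 2 * (x ⬝ᵥ x) ^ 2 / 4) := by
  have h := Kr.goe_cm s ((1 / 2 : ℝ) • vecMulVec x x) (F := fun _ => 1) measurable_const
  simp only [mul_one, lintegral_const, measure_univ] at h
  have e1 : ∀ W : Matrix ι ι ℝ, pair ((1 / 2 : ℝ) • vecMulVec x x) W = x ⬝ᵥ W *ᵥ x / 2 := by
    intro W
    rw [smul_pair, Kr.pair_comm, pair_vecMulVec]; ring
  have e2 : Vq ((1 / 2 : ℝ) • vecMulVec x x) = (x ⬝ᵥ x) ^ 2 / 2 := by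
    rw [Vq_eq_sum]
    simp only [Matrix.smul_apply, vecMulVec_apply, smul_eq_mul, dotProduct, sq, sum_mul_sum]
    congr 1
    exact sum_congr rfl fun i _ => sum_congr rfl fun j _ => by ring
  simp only [e1, e2] at h
  rw [show s ^ 2 * (x ⬝ᵥ x) ^ 2 / 4 = s ^ 2 * ((x ⬝ᵥ x) ^ 2 / 2) / 2 by ring]
  exact h

/-- **first moment** -/
theorem lint_II (s : ℝ) {N : Matrix ι ι ℝ} {b : ι → ℝ} (hN : Dg N b) (hb : ∀ i, 0 < b i) :
    ∫⁻ W, II s (N - W) ∂goe ι s = ENNReal.ofReal (∏ i, (√(b i))⁻¹) := by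
  unfold II
  rw [lintegral_lintegral_swap (by fun_prop)]
  have h := gauss_cv hN hb (G := fun _ => 1) measurable_const
  simp only [mul_one, lintegral_const, measure_univ] at h
  rw [← h]
  refine lintegral_congr fun x => ?_
  have e : ∀ W : Matrix ι ι ℝ, ex ((x ⬝ᵥ x - x ⬝ᵥ (N - W) *ᵥ x) / 2 - s ^ 2 * (x ⬝ᵥ x) ^ 2 / 4) =
      ex ((x ⬝ᵥ x - x ⬝ᵥ N *ᵥ x) / 2 - s ^ 2 * (x ⬝ᵥ x) ^ 2 / 4) * ex (x ⬝ᵥ W *ᵥ x / 2) := by
    intro W
    rw [← ex_add, sub_mulVec, dotProduct_sub]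
    congr 1; ring
  simp only [e]
  rw [lintegral_const_mul _ (by fun_prop), lint_ex_quad, ← ex_add]
  congr 1; ring

/-! ### small balls -/

omit [DecidableEq ι] in
lemma card_nsmul_le_sum_aux {f : ι → ℝ} {c : ℝ} (h : ∀ i, f i ≤ c) :
    ∑ i, f i ≤ Fintype.card ι * c := by
  simpa using sum_le_card_nsmul univ f c fun i _ => h i

lemma gauss_sq_le {u : ℝ} (hu : 0 ≤ u) : (gaussianReal 0 1).real {x | x ^ 2 ≤ u} ≤ √u := by
  have hs : {x : ℝ | x ^ 2 ≤ u} = Icc (-√u) (√u) := by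
    ext x; rw [Set.mem_Icc, ← abs_le, Real.le_sqrt (abs_nonneg x) hu, sq_abs]; rfl
  rw [hs, measureReal_def, gaussianReal_apply_eq_integral _ one_ne_zero,
    ENNReal.toReal_ofReal (integral_nonneg fun x => gaussianPDFReal_nonneg _ _ x)]
  have hb : ∀ x, gaussianPDFReal 0 1 x ≤ 1 / 2 := fun x => by
    simp only [gaussianPDFReal, NNReal.coe_one, mul_one, sub_zero]
    have h1 : Real.exp (-x ^ 2 / 2) ≤ 1 := Real.exp_le_one_iff.2 (by nlinarith [sq_nonneg x])
    have h2 : (2 : ℝ) ≤ √(2 * Real.pi) := Real.le_sqrt_of_sq_le (by nlinarith [Real.pi_gt_three])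
    calc (√(2 * Real.pi))⁻¹ * Real.exp (-x ^ 2 / 2) ≤ (2 : ℝ)⁻¹ * 1 := by gcongr
      _ = 1 / 2 := by norm_num
  calc ∫ x in Icc (-√u) (√u), gaussianPDFReal 0 1 x ≤ ∫ _ in Icc (-√u) (√u), (1 / 2 : ℝ) :=
        setIntegral_mono (integrable_gaussianPDFReal 0 1).integrableOn (by simp) hb
    _ = √u := by
        rw [setIntegral_const, Real.volume_real_Icc_of_le (by linarith [Real.sqrt_nonneg u])]
        simp; ring

/-- distribution function of `Rq b` -/
def FR (b : ι → ℝ) (ρ : ℝ) : ℝ := (gv ι).real {g | Rq b g ≤ ρ}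

omit [DecidableEq ι] in
lemma FR_le_sqrt {b : ι → ℝ} (hb : ∀ i, 0 < b i) (i : ι) {ρ : ℝ} (hρ : 0 ≤ ρ) :
    FR b ρ ≤ √(b i * ρ) := by
  have hmp := measurePreserving_eval (fun _ : ι => gaussianReal 0 1) i
  refine le_trans ?_ (gauss_sq_le (mul_nonneg (hb i).le hρ))
  rw [← hmp.measureReal_preimage (measurableSet_le (by fun_prop) measurable_const).nullMeasurableSet]
  refine measureReal_mono (fun g hg => ?_)
  have h1 : g i ^ 2 / b i ≤ Rq b g :=
    single_le_sum (f := fun j => g j ^ 2 / b j) (fun j _ => div_nonneg (sq_nonneg _) (hb j).le)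
      (mem_univ i)
  have h2 := (div_le_iff₀ (hb i)).1 (h1.trans hg)
  simpa [mul_comm] using h2

omit [DecidableEq ι] in
lemma FR_neg {b : ι → ℝ} (hb : ∀ i, 0 < b i) {ρ : ℝ} (hρ : ρ < 0) : FR b ρ = 0 := by
  have : {g | Rq b g ≤ ρ} = ∅ := eq_empty_of_forall_notMem fun g hg =>
    absurd (le_trans (sum_nonneg fun j _ => div_nonneg (sq_nonneg _) (hb j).le) hg) (not_le.2 hρ)
  simp [FR, this]

omit [DecidableEq ι] in
lemma FR_markov {b : ι → ℝ} (hb : ∀ i, 0 < b i) {ρ : ℝ} (hρ : 0 < ρ) :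
    1 - (∑ i, (b i)⁻¹) / ρ ≤ FR b ρ := by
  have i1 : ∀ i, Integrable (fun g : ι → ℝ => g i ^ 2) (gv ι) := fun i =>
    (measurePreserving_eval (fun _ : ι => gaussianReal 0 1) i).integrable_comp_of_integrable
      (R089.GUE.integrable_pow_gaussianReal 1 2)
  have v1 : ∀ i, ∫ g : ι → ℝ, g i ^ 2 ∂gv ι = 1 := fun i => by
    have h := (measurePreserving_eval (fun _ : ι => gaussianReal 0 1) i).map_eq
    have := integral_map (μ := gv ι) (φ := Function.eval i) (f := fun x : ℝ => x ^ 2)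
      (measurable_pi_apply i).aemeasurable (by fun_prop)
    rw [h, R089.GUE.integral_pow_succ_gaussianReal one_ne_zero] at this
    simpa using this.symm
  have i2 : Integrable (Rq b) (gv ι) := integrable_finsetSum _ fun i _ => (i1 i).div_const _
  have v2 : ∫ g, Rq b g ∂gv ι = ∑ i, (b i)⁻¹ := by
    unfold Rq
    rw [integral_finsetSum _ fun i _ => (i1 i).div_const _]
    exact sum_congr rfl fun i _ => by rw [integral_div, v1, one_div]
  have h := mul_meas_ge_le_integral_of_nonneg (μ := gv ι) (f := Rq b)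
    (ae_of_all _ fun g => sum_nonneg fun j _ => div_nonneg (sq_nonneg _) (hb j).le) i2 ρ
  rw [v2] at h
  have h2 : (gv ι).real {g | Rq b g ≤ ρ}ᶜ ≤ (gv ι).real {g | ρ ≤ Rq b g} :=
    measureReal_mono fun g (hg : ¬ Rq b g ≤ ρ) => (not_le.1 hg).le
  rw [measureReal_compl (measurableSet_le (measurable_Rq b) measurable_const), probReal_univ] at h2
  have h3 : (gv ι).real {g | ρ ≤ Rq b g} ≤ (∑ i, (b i)⁻¹) / ρ := by
    rw [le_div_iff₀ hρ, mul_comm]; exact h
  unfold FR; linarith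

omit [DecidableEq ι] in
/-- log-concavity of the distribution function -/
lemma FR_lc {b : ι → ℝ} (hb : ∀ i, 0 < b i) (ρ0 ρ2 : ℝ) {t : ℝ} (h0 : 0 < t) (h1 : t < 1) :
    FR b ρ0 ^ (1 - t) * FR b ρ2 ^ t ≤ FR b ((1 - t) * ρ0 + t * ρ2) := by
  have hm : ∀ ρ, MeasurableSet {g | Rq b g ≤ ρ} := fun ρ =>
    measurableSet_le (measurable_Rq b) measurable_const
  have h := Conc.gpl_gv (ι := ι) t h0 h1 ({g | Rq b g ≤ ρ0}.indicator 1)
    ({g | Rq b g ≤ ρ2}.indicator 1) ({g | Rq b g ≤ (1 - t) * ρ0 + t * ρ2}.indicator 1)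
    (measurable_one.indicator (hm _)) (measurable_one.indicator (hm _))
    (measurable_one.indicator (hm _)) fun x y => ?_
  · rw [lintegral_indicator_one (hm _), lintegral_indicator_one (hm _),
      lintegral_indicator_one (hm _)] at h
    have := ENNReal.toReal_mono (measure_ne_top _ _) h
    rwa [ENNReal.toReal_mul, ← ENNReal.toReal_rpow, ← ENNReal.toReal_rpow] at this
  · by_cases hx : x ∈ {g | Rq b g ≤ ρ0}
    · by_cases hy : y ∈ {g | Rq b g ≤ ρ2}
      · have hz : (1 - t) • x + t • y ∈ {g | Rq b g ≤ (1 - t) * ρ0 + t * ρ2} := by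
          refine le_trans ?_ (add_le_add (mul_le_mul_of_nonneg_left hx (by linarith))
            (mul_le_mul_of_nonneg_left hy h0.le))
          simp only [Rq, mul_sum, ← sum_add_distrib]
          refine sum_le_sum fun i _ => ?_
          rw [← mul_div_assoc, ← mul_div_assoc, ← add_div]
          refine div_le_div_of_nonneg_right ?_ (hb i).le
          simp only [Pi.add_apply, Pi.smul_apply, smul_eq_mul]
          nlinarith [mul_nonneg (mul_nonneg h0.le (sub_nonneg.2 h1.le)) (sq_nonneg (x i - y i))]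
        rw [indicator_of_mem hx, indicator_of_mem hy, indicator_of_mem hz]
        simp only [Pi.one_apply, ENNReal.one_rpow, one_mul]
        rw [← ex_zero]
        exact ex_mono (mul_nonneg (mul_nonneg h0.le (by linarith)) (by positivity))
      · rw [indicator_of_notMem hy, ENNReal.zero_rpow_of_pos h0]; simp
    · rw [indicator_of_notMem hx, ENNReal.zero_rpow_of_pos (by linarith)]; simp

omit [DecidableEq ι] in
/-- a shell around a median -/
theorem small_ball [Nonempty ι] {b : ι → ℝ} (hb : ∀ i, 0 < b i) {ρ δ P : ℝ} (hδ : 0 < δ)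
    (hP : ρ + δ ≤ P) (hδP : δ ≤ P) (hl : FR b (ρ - δ) ≤ 1 / 2) (hu : 1 / 2 ≤ FR b (ρ + δ)) :
    δ / (96 * Fintype.card ι * P) ≤ FR b (ρ + δ) - FR b (ρ - δ) := by
  have hn : (1 : ℝ) ≤ Fintype.card ι := by exact_mod_cast Fintype.card_pos
  have hP0 : 0 < P := hδ.trans_le hδP
  by_cases h4 : FR b (ρ - δ) ≤ 1 / 4
  · have : δ / (96 * Fintype.card ι * P) ≤ 1 / 4 := by
      rw [div_le_iff₀ (by positivity)]; nlinarith
    linarith
  push Not at h4
  have hρ0 : 0 ≤ ρ - δ := by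
    by_contra h; rw [FR_neg hb (not_le.1 h)] at h4; norm_num at h4
  have hρ1 : 0 < ρ + δ := by linarith
  have hbi : ∀ i, (b i)⁻¹ ≤ 4 * (ρ + δ) := fun i => by
    have h := hu.trans (FR_le_sqrt hb i hρ1.le)
    have h2 : (1 / 2 : ℝ) ^ 2 ≤ b i * (ρ + δ) := by
      rwa [Real.le_sqrt (by norm_num) (mul_nonneg (hb i).le hρ1.le)] at h
    rw [inv_le_iff_one_le_mul₀ (hb i)]; nlinarith
  set ρ2 := 16 * Fintype.card ι * (ρ + δ) with hρ2
  have h12 : ρ + δ < ρ2 := by nlinarith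
  have h34 : 3 / 4 ≤ FR b ρ2 := by
    refine le_trans ?_ (FR_markov hb (by positivity))
    have : ∑ i, (b i)⁻¹ ≤ Fintype.card ι * (4 * (ρ + δ)) := by
      exact card_nsmul_le_sum_aux hbi
    have : (∑ i, (b i)⁻¹) / ρ2 ≤ 1 / 4 := by
      rw [div_le_iff₀ (by positivity)]; nlinarith
    linarith
  set t := 2 * δ / (ρ2 - (ρ - δ)) with ht
  have hd : 0 < ρ2 - (ρ - δ) := by linarith
  have t0 : 0 < t := by positivity
  have t1 : t < 1 := by rw [ht, div_lt_one hd]; linarith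
  have h := FR_lc hb (ρ - δ) ρ2 t0 t1
  rw [show (1 - t) * (ρ - δ) + t * ρ2 = ρ + δ by rw [ht]; field_simp; ring] at h
  set F := FR b (ρ - δ) with hF
  have hF0 : 0 < F := by linarith
  have h2 : F * (1 + t / 3) ≤ F ^ (1 - t) * FR b ρ2 ^ t := by
    have a1 : (3 / 2 * F) ^ t ≤ FR b ρ2 ^ t := Real.rpow_le_rpow (by positivity) (by linarith) t0.le
    have a2 : 1 + t / 3 ≤ (3 / 2 : ℝ) ^ t := by
      rw [Real.rpow_def_of_pos (by norm_num)]
      have a3 : 1 / 3 ≤ Real.log (3 / 2) := by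
        have := Real.one_sub_inv_le_log_of_pos (show (0 : ℝ) < 3 / 2 by norm_num)
        norm_num at this ⊢; exact this
      nlinarith [Real.add_one_le_exp (Real.log (3 / 2) * t)]
    calc F * (1 + t / 3) ≤ F * (3 / 2 : ℝ) ^ t := by gcongr
      _ = F ^ (1 - t) * (3 / 2 * F) ^ t := by
          rw [Real.mul_rpow (by norm_num) hF0.le, mul_left_comm, ← Real.rpow_add hF0]
          simp [mul_comm]
      _ ≤ _ := by gcongr
  have h3 : δ / (8 * Fintype.card ι * P) ≤ t := by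
    rw [ht, div_le_div_iff₀ (by positivity) hd]
    have : ρ2 ≤ 16 * Fintype.card ι * P := by rw [hρ2]; gcongr
    nlinarith
  have h5 : δ / (96 * Fintype.card ι * P) = δ / (8 * Fintype.card ι * P) / 12 := by
    field_simp; norm_num
  nlinarith

/-- the cutoff used to locate the median -/
def cut (u : ℝ) : ℝ := max 0 (min 1 ((1 - u) / 2))

lemma cut_nonneg (u : ℝ) : 0 ≤ cut u := le_max_left _ _

lemma cut_le_one (u : ℝ) : cut u ≤ 1 := max_le zero_le_one (min_le_left _ _)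

omit [DecidableEq ι] in
lemma cut_sandwich (b : ι → ℝ) {s : ℝ} (hs : 0 < s) (ρ : ℝ) :
    FR b (ρ - s⁻¹) ≤ ∫ g, cut (s * (Rq b g - ρ)) ∂gv ι ∧
      ∫ g, cut (s * (Rq b g - ρ)) ∂gv ι ≤ FR b (ρ + s⁻¹) := by
  have hm : ∀ ρ, MeasurableSet {g | Rq b g ≤ ρ} := fun ρ =>
    measurableSet_le (measurable_Rq b) measurable_const
  have hi : Integrable (fun g => cut (s * (Rq b g - ρ))) (gv ι) := by
    have := measurable_Rq b
    refine (integrable_const (1 : ℝ)).mono' (by unfold cut; fun_prop) (ae_of_all _ fun g => ?_)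
    rw [Real.norm_of_nonneg (cut_nonneg _)]; exact cut_le_one _
  have h1 : s * s⁻¹ = 1 := mul_inv_cancel₀ hs.ne'
  constructor
  · rw [FR, ← integral_indicator_one (hm _)]
    refine integral_mono ((integrable_const 1).indicator (hm _)) hi fun g => ?_
    by_cases hg : g ∈ {g | Rq b g ≤ ρ - s⁻¹}
    · rw [indicator_of_mem hg]
      have : s * (Rq b g - ρ) ≤ s * (-s⁻¹) := mul_le_mul_of_nonneg_left
        (by have : Rq b g ≤ ρ - s⁻¹ := hg; linarith) hs.le
      exact le_max_of_le_right (le_min le_rfl (show (1 : ℝ) ≤ _ by linarith))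
    · rw [indicator_of_notMem hg]; exact cut_nonneg _
  · rw [FR, ← integral_indicator_one (hm _)]
    refine integral_mono hi ((integrable_const 1).indicator (hm _)) fun g => ?_
    by_cases hg : g ∈ {g | Rq b g ≤ ρ + s⁻¹}
    · rw [indicator_of_mem hg]; exact cut_le_one _
    · rw [indicator_of_notMem hg]
      have : s * s⁻¹ ≤ s * (Rq b g - ρ) := mul_le_mul_of_nonneg_left
        (by have : ρ + s⁻¹ < Rq b g := not_le.1 hg; linarith) hs.le
      exact max_le le_rfl (min_le_of_right_le (by linarith))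

omit [DecidableEq ι] in
/-- location of the median -/
lemma exists_median [Nonempty ι] {a : ι → ℝ} {s α : ℝ} (hs : 0 < s) (hα : 0 ≤ α)
    (ha : ∀ i, -α ≤ a i) : ∃ l, (∀ i, l < a i) ∧ -(α + s * (1 + √(2 * Fintype.card ι))) ≤ l ∧
      FR (fun i => a i - l) (-l / s ^ 2 - s⁻¹) ≤ 1 / 2 ∧
      1 / 2 ≤ FR (fun i => a i - l) (-l / s ^ 2 + s⁻¹) := by
  obtain ⟨i0, -, hi0⟩ := exists_min_image univ a univ_nonempty
  have hn : (1 : ℝ) ≤ Fintype.card ι := by exact_mod_cast Fintype.card_pos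
  set r := √(2 * (Fintype.card ι : ℝ)) with hr
  have hr2 : r ^ 2 = 2 * Fintype.card ι := Real.sq_sqrt (by positivity)
  have hr0 : 0 < r := Real.sqrt_pos.2 (by positivity)
  set la := -(α + s * (1 + r)) with hla
  set ε := min s (s ^ 2 / (4 * (α + 2 * s))) with hε
  have hε0 : 0 < ε := lt_min hs (by positivity)
  set lb := a i0 - ε with hlb
  have hab : la ≤ lb := by
    have := ha i0; have := min_le_left s (s ^ 2 / (4 * (α + 2 * s))); nlinarith [mul_pos hs hr0]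
  have hlt : ∀ l ≤ lb, ∀ i, l < a i := fun l hl i => by
    have := hi0 i (mem_univ i); linarith
  set ψ : ℝ → ℝ := fun l => ∫ g, cut (s * (Rq (fun i => a i - l) g - -l / s ^ 2)) ∂gv ι with hψ
  have hc : ContinuousOn ψ (Icc la lb) := by
    refine continuousOn_of_dominated (bound := fun _ => 1) (fun l _ => ?_)
      (fun l _ => ae_of_all _ fun g => ?_) (integrable_const _) (ae_of_all _ fun g => ?_)
    · have := measurable_Rq fun i => a i - l
      unfold cut; fun_prop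
    · rw [Real.norm_of_nonneg (cut_nonneg _)]; exact cut_le_one _
    · have h1 : ContinuousOn (fun l => Rq (fun i => a i - l) g) (Icc la lb) :=
        continuousOn_finsetSum _ fun i _ => continuousOn_const.div (by fun_prop)
          fun l hl => (sub_pos.2 (hlt l hl.2 i)).ne'
      have h2 : Continuous cut := by unfold cut; fun_prop
      exact h2.comp_continuousOn (continuousOn_const.mul (h1.sub (by fun_prop)))
  have h1 : 1 / 2 ≤ ψ la := by
    refine le_trans ?_ (cut_sandwich _ hs _).1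
    have e : -la / s ^ 2 - s⁻¹ = (α + s * r) / s ^ 2 := by rw [hla]; field_simp; ring
    rw [e]
    refine le_trans ?_ (FR_markov (fun i => sub_pos.2 (hlt la hab i)) (by positivity))
    have h2 : ∑ i, (a i - la)⁻¹ ≤ Fintype.card ι * (s * r)⁻¹ := by
      have : ∀ i, (a i - la)⁻¹ ≤ (s * r)⁻¹ := fun i =>
        inv_anti₀ (by positivity) (by have := ha i; rw [hla]; linarith)
      exact card_nsmul_le_sum_aux this
    have h3 : (∑ i, (a i - la)⁻¹) / ((α + s * r) / s ^ 2) ≤ 1 / 2 := by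
      rw [div_le_iff₀ (by positivity)]
      refine h2.trans ?_
      rw [show (Fintype.card ι : ℝ) = r ^ 2 / 2 by linarith]
      have : r ^ 2 / 2 * (s * r)⁻¹ = 1 / 2 * ((s * r) / s ^ 2) := by field_simp
      rw [this]; gcongr; linarith
    linarith
  have h2 : ψ lb ≤ 1 / 2 := by
    refine (cut_sandwich _ hs _).2.trans ?_
    rcases lt_or_ge (-lb / s ^ 2 + s⁻¹) 0 with h | h
    · rw [FR_neg (fun i => sub_pos.2 (hlt lb le_rfl i)) h]; norm_num
    · refine (FR_le_sqrt (fun i => sub_pos.2 (hlt lb le_rfl i)) i0 h).trans ?_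
      rw [Real.sqrt_le_iff]
      refine ⟨by norm_num, ?_⟩
      have e1 : a i0 - lb = ε := by rw [hlb]; ring
      have e2 : -lb / s ^ 2 + s⁻¹ ≤ (α + 2 * s) / s ^ 2 := by
        rw [show s⁻¹ = s / s ^ 2 by field_simp, ← add_div]
        refine div_le_div_of_nonneg_right ?_ (by positivity)
        have := ha i0; have := min_le_left s (s ^ 2 / (4 * (α + 2 * s))); linarith
      simp only [e1]
      calc ε * (-lb / s ^ 2 + s⁻¹) ≤ s ^ 2 / (4 * (α + 2 * s)) * ((α + 2 * s) / s ^ 2) := by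
            gcongr; exact min_le_right _ _
        _ = (1 / 2) ^ 2 := by field_simp; norm_num
  obtain ⟨l, hl, hψl⟩ := intermediate_value_Icc' hab hc ⟨h2, h1⟩
  exact ⟨l, hlt l hl.2, hl.1, hψl ▸ (cut_sandwich _ hs _).1, hψl ▸ (cut_sandwich _ hs _).2⟩

/-- **lower bound of the quartic integral** -/
theorem II_lower [Nonempty ι] {A : Matrix ι ι ℝ} {a : ι → ℝ} (hA : Dg A a) {s α Λ : ℝ}
    (hs : 0 < s) (hα : 0 ≤ α) (ha : ∀ i, -α ≤ a i)
    (hΛ : α + s * (1 + √(2 * Fintype.card ι)) ≤ Λ) :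
    ∃ l, (∀ i, l < a i) ∧ -Λ ≤ l ∧ l ≤ s ∧ ENNReal.ofReal (s / (256 * Fintype.card ι * Λ) *
      Real.exp (l ^ 2 / (4 * s ^ 2)) * ∏ i, (√(a i - l))⁻¹) ≤ II s A := by
  obtain ⟨l, hl, hl2, h1, h2⟩ := exists_median hs hα ha
  have hb : ∀ i, 0 < a i - l := fun i => sub_pos.2 (hl i)
  have hsΛ : s ≤ Λ := by nlinarith [Real.sqrt_nonneg (2 * (Fintype.card ι : ℝ))]
  have hΛ0 : 0 < Λ := hs.trans_le hsΛ
  have hn : (1 : ℝ) ≤ Fintype.card ι := by exact_mod_cast Fintype.card_pos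
  have hls : l ≤ s := by
    by_contra h
    rw [FR_neg hb (by
      rw [show s⁻¹ = s / s ^ 2 by field_simp, ← add_div]
      exact div_neg_of_neg_of_pos (by linarith [not_le.1 h]) (by positivity))] at h2
    norm_num at h2
  refine ⟨l, hl, by linarith, hls, ?_⟩
  have hsb := small_ball hb (P := 2 * Λ / s ^ 2) (inv_pos.2 hs) (by
    rw [show s⁻¹ = s / s ^ 2 by field_simp, ← add_div]; gcongr; linarith) (by
    rw [show s⁻¹ = s / s ^ 2 by field_simp]; gcongr; linarith) h1 h2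
  set ρ := -l / s ^ 2 with hρ
  set S := {g | Rq (fun i => a i - l) g ≤ ρ + s⁻¹} \ {g | Rq (fun i => a i - l) g ≤ ρ - s⁻¹}
  have hm : ∀ ρ, MeasurableSet {g | Rq (fun i => a i - l) g ≤ ρ} := fun ρ =>
    measurableSet_le (measurable_Rq _) measurable_const
  have hS : s / (192 * Fintype.card ι * Λ) ≤ (gv ι).real S := by
    have hsub : {g | Rq (fun i => a i - l) g ≤ ρ - s⁻¹} ⊆ {g | Rq (fun i => a i - l) g ≤ ρ + s⁻¹} :=
      fun g (hg : Rq _ g ≤ _) => show Rq _ g ≤ _ by linarith [inv_pos.2 hs]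
    rw [measureReal_sdiff hsub (hm _)]
    refine le_trans (le_of_eq ?_) hsb
    field_simp; norm_num
  have h := gauss_cv (hA.sub l) hb (G := fun R => ex (-(l * R) / 2 - s ^ 2 * R ^ 2 / 4))
    (by fun_prop)
  have e : II s A = ∫⁻ x, ex ((x ⬝ᵥ x - x ⬝ᵥ (A - l • (1 : Matrix ι ι ℝ)) *ᵥ x) / 2) *
      ex (-(l * (x ⬝ᵥ x)) / 2 - s ^ 2 * (x ⬝ᵥ x) ^ 2 / 4) ∂gv ι := by
    refine lintegral_congr fun x => ?_
    rw [← ex_add, sub_mulVec, smul_mulVec, one_mulVec, dotProduct_sub, dotProduct_smul,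
      smul_eq_mul]
    congr 1; ring
  rw [e, h, mul_comm _ (∏ i, _), ENNReal.ofReal_mul (prod_nonneg fun i _ => by positivity)]
  gcongr
  have h3 : ∫⁻ g, S.indicator (fun _ => ex (l ^ 2 / (4 * s ^ 2) - 1 / 4)) g ∂gv ι ≤
      ∫⁻ g, ex (-(l * Rq (fun i => a i - l) g) / 2 -
        s ^ 2 * Rq (fun i => a i - l) g ^ 2 / 4) ∂gv ι := by
    refine lintegral_mono fun g => ?_
    by_cases hg : g ∈ S
    · rw [indicator_of_mem hg]
      refine ex_mono ?_
      set R := Rq (fun i => a i - l) g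
      have g1 : R ≤ ρ + s⁻¹ := hg.1
      have g2 : ρ - s⁻¹ < R := not_le.1 hg.2
      have g3 : (R - ρ) ^ 2 ≤ s⁻¹ ^ 2 := sq_le_sq' (by linarith) (by linarith)
      have g4 : s ^ 2 * (R - ρ) ^ 2 ≤ 1 := by
        calc s ^ 2 * (R - ρ) ^ 2 ≤ s ^ 2 * s⁻¹ ^ 2 := by gcongr
          _ = 1 := by field_simp
      have g5 : -(l * R) / 2 - s ^ 2 * R ^ 2 / 4 =
          l ^ 2 / (4 * s ^ 2) - s ^ 2 * (R - ρ) ^ 2 / 4 := by rw [hρ]; field_simp; ring
      linarith
    · rw [indicator_of_notMem hg]; exact zero_le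
  refine le_trans ?_ h3
  rw [lintegral_indicator_const ((hm _).diff (hm _)), ← ofReal_measureReal, ex,
    ← ENNReal.ofReal_mul (Real.exp_pos _).le]
  refine ENNReal.ofReal_le_ofReal ?_
  have h4 : 3 / 4 ≤ Real.exp (-(1 / 4)) := by linarith [Real.add_one_le_exp (-(1 / 4))]
  rw [sub_eq_add_neg, Real.exp_add]
  calc s / (256 * Fintype.card ι * Λ) * Real.exp (l ^ 2 / (4 * s ^ 2))
      = Real.exp (l ^ 2 / (4 * s ^ 2)) * (3 / 4) * (s / (192 * Fintype.card ι * Λ)) := by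
        field_simp; norm_num
    _ ≤ _ := by gcongr

end Crest.Agent.T157.Dq

end
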