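import Crest.Agent.T157.DqC_9

/-!
# Row 157, part A (helper9): two-sided bounds of `log det (M - l - W)` and the edge of `M - W`

* `GoodI`, `GoodD` : events of probability `≥ 1 - e^{-y}` (`prob_goodI`, `prob_goodD`);
* `GoodI.low`, `GoodD.up` : lower / upper bound of the log-determinant;
* `edge_gain`, `edge_tail` : `P(λ_min(M - W) ≤ φ(z) - x)` at large deviation level, every `M`.
-/

set_option autoImplicit false

noncomputable section

namespace Crest.Agent.T157.Dq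

open Matrix Finset MeasureTheory ProbabilityTheory
open scoped ENNReal NNReal
open Crest.Agent.T157.E Crest.Agent.T157.Cond
open Crest.Agent.T157.Conc (ex ex_add ex_mono ex_zero)

variable {ι : Type*} [Fintype ι] [DecidableEq ι]

/-- `s² ∑ (m_i - w)^{-k}` -/
def Sk (k : ℕ) (s : ℝ) (m : ι → ℝ) (w : ℝ) : ℝ := s ^ 2 * ∑ i, ((m i - w) ^ k)⁻¹

/-- the free-convolution potential -/
def psi (s : ℝ) (m : ι → ℝ) (z l : ℝ) : ℝ := ∑ i, Real.log (m i - z) + (z - l) ^ 2 / (2 * s ^ 2)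

/-- the quartic integral is not much larger than its mean -/
def GoodI (s : ℝ) (M : Matrix ι ι ℝ) (m : ι → ℝ) (z y : ℝ) (W : Matrix ι ι ℝ) : Prop :=
  II s (M - z • (1 : Matrix ι ι ℝ) - W) ≤ ENNReal.ofReal (Real.exp y * ∏ i, (√(m i - z))⁻¹)

/-- the squared determinant is not much larger than its mean -/
def GoodD (s : ℝ) (M : Matrix ι ι ℝ) (m : ι → ℝ) (l w y : ℝ) (W : Matrix ι ι ℝ) : Prop :=
  (M - l • (1 : Matrix ι ι ℝ) - W).det ^ 2 ≤ Real.exp y * (Real.exp ((w - l) ^ 2 / s ^ 2) *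
    (∏ i, (m i - w) ^ 2) * ((1 - Sk 2 s m w) ^ 3)⁻¹)

variable {s : ℝ} {M W : Matrix ι ι ℝ} {m a : ι → ℝ}

theorem prob_goodI (hM : Dg M m) {z : ℝ} (hz : ∀ i, z < m i) (s y : ℝ) :
    (goe ι s).real {W | ¬ GoodI s M m z y W} ≤ Real.exp (-y) := by
  have hP : 0 < ∏ i, (√(m i - z))⁻¹ :=
    prod_pos fun i _ => inv_pos.2 (Real.sqrt_pos.2 (sub_pos.2 (hz i)))
  have h := mul_meas_ge_le_lintegral₀ (μ := goe ι s)
    (measurable_II s (M - z • (1 : Matrix ι ι ℝ))).aemeasurable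
    (ENNReal.ofReal (Real.exp y * ∏ i, (√(m i - z))⁻¹))
  rw [lint_II s (hM.sub z) fun i => sub_pos.2 (hz i)] at h
  have h2 := ENNReal.toReal_mono ENNReal.ofReal_ne_top h
  rw [ENNReal.toReal_mul, ENNReal.toReal_ofReal (by positivity), ENNReal.toReal_ofReal hP.le,
    ← measureReal_def, mul_right_comm, mul_le_iff_le_one_left hP] at h2
  rw [← le_div_iff₀' (Real.exp_pos y), one_div, ← Real.exp_neg] at h2
  exact (measureReal_mono (fun W (hW : ¬ _ ≤ _) => (not_le.1 hW).le)).trans h2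

theorem prob_goodD (hs : s ≠ 0) (hM : Dg M m) {w : ℝ} (hw : ∀ i, m i ≠ w) (hS : Sk 2 s m w < 1)
    (l y : ℝ) : (goe ι s).real {W | ¬ GoodD s M m l w y W} ≤ Real.exp (-y) := by
  have e : ∀ i, m i - l - (w - l) = m i - w := fun i => by ring
  have h := det_sq_le hs (hM.sub l) (χ := w - l)
    (fun i h => hw i (by linarith)) (by simp only [e]; exact hS)
  simp only [e] at h
  set B := Real.exp ((w - l) ^ 2 / s ^ 2) * (∏ i, (m i - w) ^ 2) * ((1 - Sk 2 s m w) ^ 3)⁻¹ with hB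
  have hB0 : 0 < B := by
    have h1 : 0 < ∏ i, (m i - w) ^ 2 :=
      prod_pos fun i _ => sq_pos_of_ne_zero (sub_ne_zero.2 (hw i))
    have h2 : 0 < 1 - Sk 2 s m w := sub_pos.2 hS
    positivity
  have h1 := mul_meas_ge_le_integral_of_nonneg (μ := goe ι s)
    (ae_of_all _ fun W => sq_nonneg (M - l • (1 : Matrix ι ι ℝ) - W).det)
    (integrable_det_sq s _) (Real.exp y * B)
  have h2 := h1.trans h
  change _ ≤ B at h2
  rw [mul_right_comm, mul_le_iff_le_one_left hB0] at h2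
  rw [← le_div_iff₀' (Real.exp_pos y), one_div, ← Real.exp_neg] at h2
  exact (measureReal_mono (fun W (hW : ¬ _ ≤ _) => (not_le.1 hW).le)).trans h2

omit [DecidableEq ι] in
lemma log_prod_sqrt {b : ι → ℝ} (hb : ∀ i, 0 < b i) :
    Real.log (∏ i, (√(b i))⁻¹) = -(∑ i, Real.log (b i)) / 2 := by
  rw [Real.log_prod fun i _ => (inv_pos.2 (Real.sqrt_pos.2 (hb i))).ne', ← sum_neg_distrib, sum_div]
  exact sum_congr rfl fun i _ => by rw [Real.log_inv, Real.log_sqrt (hb i).le]; ring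

/-- **lower bound of the log-determinant** at a point below the spectrum -/
theorem GoodI.low [Nonempty ι] {z y α Λ : ℝ} (h : GoodI s M m z y W) (hz : ∀ i, z < m i)
    (hA : Dg (M - W) a) (hs : 0 < s) (hα : 0 ≤ α) (ha : ∀ i, z - α ≤ a i)
    (hΛ : α + s * (1 + √(2 * Fintype.card ι)) ≤ Λ) :
    ∃ l, (∀ i, l < a i) ∧ z - Λ ≤ l ∧ l ≤ z + s ∧
      psi s m z l - 2 * y - 2 * Real.log (256 * Fintype.card ι * Λ / s) ≤
        ∑ i, Real.log (a i - l) := by
  obtain ⟨l, h1, h2, h3, h4⟩ := II_lower (hA.sub z) hs hα (fun i => by linarith [ha i]) hΛ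
  have hΛ0 : 0 < Λ := by nlinarith [Real.sqrt_nonneg (2 * (Fintype.card ι : ℝ))]
  have hn : (0 : ℝ) < Fintype.card ι := by exact_mod_cast Fintype.card_pos
  refine ⟨z + l, fun i => by linarith [h1 i], by linarith, by linarith, ?_⟩
  rw [sub_right_comm] at h4
  have hb : ∀ i, 0 < m i - z := fun i => sub_pos.2 (hz i)
  have hc : ∀ i, 0 < a i - z - l := fun i => sub_pos.2 (h1 i)
  have p1 : 0 < ∏ i, (√(m i - z))⁻¹ := prod_pos fun i _ => inv_pos.2 (Real.sqrt_pos.2 (hb i))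
  have p2 : 0 < ∏ i, (√(a i - z - l))⁻¹ := prod_pos fun i _ => inv_pos.2 (Real.sqrt_pos.2 (hc i))
  have h5 := (ENNReal.ofReal_le_ofReal_iff (by positivity)).1 (h4.trans h)
  have h6 := Real.log_le_log (by positivity) h5
  rw [Real.log_mul (by positivity) p2.ne', Real.log_mul (by positivity) (by positivity),
    Real.log_mul (by positivity) p1.ne', Real.log_exp, Real.log_exp, log_prod_sqrt hb,
    log_prod_sqrt hc, ← inv_div, Real.log_inv] at h6
  simp only [psi, ← sub_sub]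
  have e : (z - z - l) ^ 2 / (2 * s ^ 2) = 2 * (l ^ 2 / (4 * s ^ 2)) := by ring
  linarith

/-- **upper bound of the log-determinant** -/
theorem GoodD.up {l w y : ℝ} (h : GoodD s M m l w y W) (hw : ∀ i, w < m i) (hS : Sk 2 s m w < 1)
    (hA : Dg (M - W) a) (hl : ∀ i, l < a i) :
    ∑ i, Real.log (a i - l) ≤ psi s m w l + y / 2 - 3 / 2 * Real.log (1 - Sk 2 s m w) := by
  have hb : ∀ i, 0 < m i - w := fun i => sub_pos.2 (hw i)
  have hc : ∀ i, 0 < a i - l := fun i => sub_pos.2 (hl i)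
  have h2 : 0 < 1 - Sk 2 s m w := sub_pos.2 hS
  have p1 : 0 < ∏ i, (m i - w) ^ 2 := prod_pos fun i _ => pow_pos (hb i) 2
  rw [GoodD, sub_right_comm, (hA.sub l).det] at h
  have h3 := Real.log_le_log (pow_pos (prod_pos fun i _ => hc i) 2) h
  rw [Real.log_pow, Real.log_prod fun i _ => (hc i).ne', Real.log_mul (by positivity)
    (by positivity), Real.log_mul (by positivity) (by positivity), Real.log_mul (by positivity)
    p1.ne', Real.log_exp, Real.log_exp, Real.log_inv, Real.log_pow,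
    Real.log_prod fun i _ => (pow_pos (hb i) 2).ne'] at h3
  simp only [Real.log_pow, ← mul_sum] at h3
  have e : (w - l) ^ 2 / (2 * s ^ 2) = (w - l) ^ 2 / s ^ 2 / 2 := by ring
  simp only [psi]
  push_cast at h3
  linarith

lemma log_one_add_le {u : ℝ} (hu : 0 ≤ u) : Real.log (1 + u) ≤ u - u ^ 2 / 2 + u ^ 3 / 3 := by
  have hd : ∀ x : ℝ, 0 ≤ x → HasDerivAt (fun x => x - x ^ 2 / 2 + x ^ 3 / 3 - Real.log (1 + x))
      (x ^ 3 / (1 + x)) x := fun x hx => by
    have h1 := ((((hasDerivAt_id' x).sub ((hasDerivAt_pow 2 x).div_const 2)).add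
      ((hasDerivAt_pow 3 x).div_const 3))).sub
      (((hasDerivAt_id' x).const_add 1).log (by linarith))
    refine h1.congr_deriv ?_
    have : 1 + x ≠ 0 := by linarith
    field_simp
    norm_num
    ring
  have hm : MonotoneOn (fun x => x - x ^ 2 / 2 + x ^ 3 / 3 - Real.log (1 + x)) (Set.Ici 0) := by
    refine monotoneOn_of_deriv_nonneg (convex_Ici 0)
      (fun x hx => (hd x hx).continuousAt.continuousWithinAt)
      (fun x hx => (hd x (interior_subset hx)).differentiableAt.differentiableWithinAt)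
      fun x hx => ?_
    have hx0 : (0 : ℝ) ≤ x := interior_subset hx
    rw [(hd x hx0).deriv]; positivity
  have := hm (Set.mem_Ici.2 le_rfl) hu hu
  simp only at this
  norm_num at this
  linarith

omit [DecidableEq ι] in
/-- the gain between the two branches; `φ(z) = z - Sk 1 s m z` -/
theorem edge_gain (hs : 0 < s) {z δ : ℝ} (hz : ∀ i, z < m i) (hδ : 0 ≤ δ) (l : ℝ) :
    (δ * (z - Sk 1 s m z - l) - δ ^ 2 * (1 - Sk 2 s m z) / 2 - δ ^ 3 * Sk 3 s m z / 3) / s ^ 2 ≤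
      psi s m z l - psi s m (z - δ) l := by
  have h : ∀ i, Real.log (m i - (z - δ)) ≤ Real.log (m i - z) + (δ * ((m i - z) ^ 1)⁻¹ -
      δ ^ 2 / 2 * ((m i - z) ^ 2)⁻¹ + δ ^ 3 / 3 * ((m i - z) ^ 3)⁻¹) := fun i => by
    have hb : 0 < m i - z := sub_pos.2 (hz i)
    have h1 := log_one_add_le (div_nonneg hδ hb.le)
    rw [show m i - (z - δ) = (m i - z) * (1 + δ / (m i - z)) by field_simp; ring,
      Real.log_mul hb.ne' (by positivity)]
    refine add_le_add le_rfl (h1.trans (le_of_eq ?_))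
    field_simp
  have h2 := sum_le_sum fun i (_ : i ∈ univ) => h i
  rw [sum_add_distrib, sum_add_distrib, sum_sub_distrib, ← mul_sum, ← mul_sum, ← mul_sum] at h2
  simp only [psi, Sk]
  have e : ∀ A B C : ℝ, (δ * (z - s ^ 2 * A - l) - δ ^ 2 * (1 - s ^ 2 * B) / 2 -
      δ ^ 3 * (s ^ 2 * C) / 3) / s ^ 2 = (z - l) ^ 2 / (2 * s ^ 2) -
        (z - δ - l) ^ 2 / (2 * s ^ 2) - (δ * A - δ ^ 2 / 2 * B + δ ^ 3 / 3 * C) := by
    intro A B C; field_simp; ring
  rw [e]; linarith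

omit [DecidableEq ι] in
lemma Sk_two_le {z δ K : ℝ} (hz : ∀ i, z < m i) (hK : ∀ i, m i - z ≤ K) (hK0 : 0 < K)
    (hδ : 0 < δ) (hS : Sk 2 s m z ≤ 1) : δ / (K + δ) ≤ 1 - Sk 2 s m (z - δ) := by
  have h : ∀ i, ((m i - (z - δ)) ^ 2)⁻¹ ≤ K / (K + δ) * ((m i - z) ^ 2)⁻¹ := fun i => by
    have hb : 0 < m i - z := sub_pos.2 (hz i)
    have h1 := hK i
    set b := m i - z
    rw [show m i - (z - δ) = b + δ by simp only [b]; ring, ← div_eq_mul_inv, div_div, ← one_div,
      div_le_div_iff₀ (by positivity) (by positivity)]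
    nlinarith [mul_nonneg (mul_pos hδ hb).le (sub_nonneg.2 h1), mul_pos hK0 (mul_pos hδ hb),
      mul_pos hK0 (mul_pos hδ hδ)]
  have h2 : Sk 2 s m (z - δ) ≤ K / (K + δ) * Sk 2 s m z := by
    simp only [Sk]
    rw [mul_left_comm, mul_sum univ _ (K / (K + δ))]
    exact mul_le_mul_of_nonneg_left (sum_le_sum fun i _ => h i) (sq_nonneg s)
  have h3 : K / (K + δ) * Sk 2 s m z ≤ K / (K + δ) := mul_le_of_le_one_right (by positivity) hS
  have h4 : δ / (K + δ) = 1 - K / (K + δ) := by field_simp; ring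
  linarith

/-- `M - W` has an eigenvalue `≤ x₀` and all eigenvalues `≥ x₁` -/
def Bad (M : Matrix ι ι ℝ) (x₀ x₁ : ℝ) : Set (Matrix ι ι ℝ) :=
  {W | ∃ a, Dg (M - W) a ∧ (∀ i, x₁ ≤ a i) ∧ ∃ i, a i ≤ x₀}

/-- **the edge at large deviation level**, every symmetric `M` -/
theorem edge_tail (hs : 0 < s) (hM : Dg M m) {z δ K α Λ x y : ℝ} (hz : ∀ i, z < m i)
    (hK : ∀ i, m i - z ≤ K) (hS : Sk 2 s m z ≤ 1) (hδ : 0 < δ) (hα : 0 ≤ α) (hx : 0 ≤ x)
    (hΛ : α + s * (1 + √(2 * Fintype.card ι)) ≤ Λ)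
    (hy : 5 / 2 * y + 2 * Real.log (256 * Fintype.card ι * Λ / s) +
      3 / 2 * Real.log ((K + δ) / δ) + 1 <
      (δ * x - δ ^ 2 * (1 - Sk 2 s m z) / 2 - δ ^ 3 * Sk 3 s m z / 3) / s ^ 2) :
    (goe ι s).real (Bad M (z - Sk 1 s m z - x) (z - α)) ≤ (2 * Λ ^ 2 / s ^ 2 + 3) * Real.exp (-y) := by
  rcases isEmpty_or_nonempty ι with hι | hι
  · have : Bad M (z - Sk 1 s m z - x) (z - α) = ∅ :=
      Set.eq_empty_of_forall_notMem fun W ⟨_, _, _, i, _⟩ => hι.false i
    rw [this, measureReal_empty]; positivity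
  obtain ⟨i0⟩ := id hι
  have hK0 : 0 < K := (sub_pos.2 (hz i0)).trans_le (hK i0)
  have hsΛ : s ≤ Λ := by nlinarith [Real.sqrt_nonneg (2 * (Fintype.card ι : ℝ))]
  have hΛ0 : 0 < Λ := hs.trans_le hsΛ
  set h := s ^ 2 / (2 * Λ) with hh
  have hh0 : 0 < h := by positivity
  have hhΛ : h ≤ Λ := by rw [hh, div_le_iff₀ (by positivity)]; nlinarith
  have hw : ∀ i, z - δ < m i := fun i => by linarith [hz i]
  have hκ := Sk_two_le hz hK hK0 hδ hS
  have hκ0 : 0 < δ / (K + δ) := by positivity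
  have hS' : Sk 2 s m (z - δ) < 1 := by linarith
  have hS1 : 0 ≤ Sk 1 s m z :=
    mul_nonneg (sq_nonneg s) (sum_nonneg fun i _ => by have := sub_pos.2 (hz i); positivity)
  set N := ⌈Λ / h⌉₊ with hN
  have hsub : Bad M (z - Sk 1 s m z - x) (z - α) ⊆ {W | ¬ GoodI s M m z y W} ∪
      ⋃ j ∈ range (N + 1), {W | ¬ GoodD s M m (z - j * h) (z - δ) y W} := by
    rintro W ⟨a, hA, ha, i1, hi1⟩
    by_contra hc
    simp only [Set.mem_union, Set.mem_iUnion, not_or, not_exists, Set.mem_ofPred_eq, not_not] at hc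
    obtain ⟨l, l1, l2, -, l4⟩ := hc.1.low hz hA hs hα ha hΛ
    have l5 : l ≤ z - Sk 1 s m z - x := (l1 i1).le.trans hi1
    have l6 : 0 ≤ (z - l) / h := div_nonneg (by linarith) hh0.le
    set j := ⌈(z - l) / h⌉₊ with hj
    have j1 : z - l ≤ j * h := (div_le_iff₀ hh0).1 (Nat.le_ceil _)
    have j2 : (j : ℝ) * h < z - l + h := by
      have := Nat.ceil_lt_add_one l6
      rw [← hj, ← sub_lt_iff_lt_add, lt_div_iff₀ hh0] at this
      linarith
    have j3 : j ≤ N := Nat.ceil_mono (div_le_div_of_nonneg_right (by linarith) hh0.le)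
    have u1 := (hc.2 j (mem_range.2 (by omega))).up hw hS' hA fun i => by linarith [l1 i]
    have u2 : ∑ i, Real.log (a i - l) ≤ ∑ i, Real.log (a i - (z - j * h)) :=
      sum_le_sum fun i _ => Real.log_le_log (sub_pos.2 (l1 i)) (by linarith)
    have u3 := edge_gain hs hz hδ.le (z - j * h)
    have u4 : psi s m z (z - j * h) ≤ psi s m z l + 1 := by
      simp only [psi]
      have : (z - (z - j * h)) ^ 2 ≤ (z - l) ^ 2 + 2 * s ^ 2 := by
        have e : s ^ 2 = 2 * Λ * h := by rw [hh]; field_simp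
        have : (z - (z - j * h)) ^ 2 ≤ (z - l + h) ^ 2 :=
          pow_le_pow_left₀ (by linarith) (by linarith) 2
        nlinarith
      have h2 : (z - (z - j * h)) ^ 2 / (2 * s ^ 2) ≤ ((z - l) ^ 2 + 2 * s ^ 2) / (2 * s ^ 2) := by
        gcongr
      rw [add_div, div_self (by positivity)] at h2
      linarith
    have u5 : -Real.log (1 - Sk 2 s m (z - δ)) ≤ Real.log ((K + δ) / δ) := by
      rw [← inv_div, Real.log_inv, neg_le_neg_iff]
      exact Real.log_le_log hκ0 hκ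
    have u6 : (δ * x - δ ^ 2 * (1 - Sk 2 s m z) / 2 - δ ^ 3 * Sk 3 s m z / 3) / s ^ 2 ≤
        (δ * (z - Sk 1 s m z - (z - j * h)) - δ ^ 2 * (1 - Sk 2 s m z) / 2 -
          δ ^ 3 * Sk 3 s m z / 3) / s ^ 2 := by
      gcongr; linarith
    linarith
  refine (measureReal_mono hsub).trans ((measureReal_union_le _ _).trans ?_)
  have b1 := prob_goodI hM hz s y
  have b2 := (measureReal_biUnion_finset_le (μ := goe ι s) (range (N + 1))
    fun j => {W | ¬ GoodD s M m (z - j * h) (z - δ) y W}).trans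
      (sum_le_sum fun j _ => prob_goodD hs.ne' hM (fun i => (hw i).ne') hS' (z - j * h) y)
  rw [sum_const, card_range, nsmul_eq_mul] at b2
  have b3 : (N : ℝ) ≤ 2 * Λ ^ 2 / s ^ 2 + 1 := by
    refine (Nat.ceil_lt_add_one (by positivity)).le.trans (le_of_eq ?_)
    rw [hh]; field_simp
  push_cast at b2
  nlinarith [Real.exp_pos (-y)]

end Crest.Agent.T157.Dq

end
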