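import Crest.Agent.T157.RecE_77
import Crest.Agent.T157.TrC_64

/-!
# Row 157, part C (helper77): the lower bound `D*`, one-field part
-/

set_option autoImplicit false
set_option linter.unusedSectionVars false

noncomputable section

namespace Crest.Agent.T157.Rec

open MeasureTheory ProbabilityTheory Filter Topology Set Real Matrix Function
open Crest.Agent.T157.E Crest.Agent.T157.SL Crest.Agent.T157.Eig Crest.Agent.T157.Tr
open Crest.Agent.T157.Chain22 (sg)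

variable {n : ℕ} {u w : Cube n → ℝ} {T α e γ η : ℝ} {P P' : Matrix (Fin n) (Fin n) ℝ}

/-- the averaged matrix `Ā_T = E_x A_T(x)` -/
def Ab (u : Cube n → ℝ) (T : ℝ) : Matrix (Fin n) (Fin n) ℝ := fun i j => mean u fun x => Am u T x i j

theorem Ab_eq_sum (u : Cube n → ℝ) (T : ℝ) : Ab u T = ∑ x, prob u x • Am u T x := by
  ext i j; simp only [Ab, mean, Matrix.sum_apply, Matrix.smul_apply, smul_eq_mul]

theorem Ab_bil (u : Cube n → ℝ) (T : ℝ) (a c : Fin n → ℝ) :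
    a ⬝ᵥ Ab u T *ᵥ c = mean u fun x => a ⬝ᵥ Am u T x *ᵥ c := by
  simp only [Ab_eq_sum, sum_mulVec, dotProduct_sum, smul_mulVec, dotProduct_smul, smul_eq_mul, mean]

theorem Ab_transpose (u : Cube n → ℝ) (T : ℝ) : (Ab u T)ᵀ = Ab u T := by
  simp only [Ab_eq_sum, transpose_sum, transpose_smul, Am_transpose]

theorem Ab_nonneg (hn : 0 < n) (hu : ∀ x, 0 < u x) (hT : 0 ≤ T) (a : Fin n → ℝ) :
    0 ≤ a ⬝ᵥ Ab u T *ᵥ a := by
  rw [Ab_bil]
  exact (Wt.of_pos hu).mean_nonneg fun x => by rw [Am_quad]; exact vs_nn hn hu hT _ x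

theorem Ab_le_dir (hn : 0 < n) (hu : ∀ x, 0 < u x) (hT : 0 ≤ T) (a : Fin n → ℝ) :
    a ⬝ᵥ Ab u T *ᵥ a ≤ 2 * T * dir u (sg u T fun x => a ⬝ᵥ sv x) := by
  simp only [Ab_bil, Am_quad]; exact vs_le_dir_sg hn hu hT _

theorem Ab_le (hn : 0 < n) (hu : ∀ x, 0 < u x) (hT : 0 ≤ T) (a : Fin n → ℝ) :
    a ⬝ᵥ Ab u T *ᵥ a ≤ 2 * T * (a ⬝ᵥ a) :=
  (Ab_le_dir hn hu hT a).trans (mul_le_mul_of_nonneg_left
    ((dir_sg_le hn hu hT _).trans (dir_lin_le hu a)) (by positivity))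

theorem mg_Ab {ι : Type*} [Fintype ι] [DecidableEq ι] {φ : Cube n → ι → ℝ} (hn : 0 < n)
    (hw : ∀ x, 0 < w x) (r : ℝ) (hT : 0 ≤ T) (i j : Fin n) : MG fun y => Ab (post φ w r y) T i j :=
  mg_mean (Wt.of_pos hw) r fun x => mg_Am hn hw r hT x i j

/-- the energy dominates the quadratic form of `Ā` at any good linearisation -/
theorem Ab_le_dir_add (hn : 0 < n) (hu : ∀ x, 0 < u x) (hT : 0 < T) (hη : 0 < η) (g : Cube n → ℝ)
    (a : Fin n → ℝ) : a ⬝ᵥ Ab u T *ᵥ a ≤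
      2 * T * (1 + η) * dir u g + (1 + η⁻¹) * var u fun x => g x - a ⬝ᵥ sv x := by
  set c := mean u fun x => g x - a ⬝ᵥ sv x with hc
  have h1 := dir_add_le hu (sg u T fun x => g x - c) (sg u T fun x => a ⬝ᵥ sv x - (g x - c)) hη
  simp only [← sg_add_fun, add_sub_cancel] at h1
  have h2 := dir_sg_le hn hu hT.le fun x => g x - c
  have h3 := dir_sg_le_sq hn hu hT fun x => a ⬝ᵥ sv x - (g x - c)
  have e1 : dir u (fun x => g x - c) = dir u g := by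
    refine Finset.sum_congr rfl fun i _ => Finset.sum_congr rfl fun x _ => ?_
    have := (add_pos (hu (update x i true)) (hu (update x i false))).ne'
    congr 2
    simp only [siteM]; field_simp; ring
  have e2 : mean u (fun x => (a ⬝ᵥ sv x - (g x - c)) ^ 2) = var u fun x => g x - a ⬝ᵥ sv x := by
    rw [var, ← hc, mean]
    exact Finset.sum_congr rfl fun x _ => by ring
  rw [e1] at h2
  rw [e2, le_div_iff₀ (by positivity)] at h3
  have h4 := Ab_le_dir hn hu hT.le a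
  have h5 := mul_le_mul_of_nonneg_left h1 (show 0 ≤ 2 * T by positivity)
  have h6 := mul_le_mul_of_nonneg_left h2 (show 0 ≤ 2 * T * (1 + η) by positivity)
  have h7 := mul_le_mul_of_nonneg_left h3 (show 0 ≤ 1 + η⁻¹ by positivity)
  change a ⬝ᵥ Ab u T *ᵥ a ≤ 2 * T * dir u fun z => sg u T (fun x => a ⬝ᵥ sv x) z at h4
  linarith

/-- lower bound of a quadratic form which is close to a scalar between two projections -/
theorem quad_lower {A : Matrix (Fin n) (Fin n) ℝ} (hA : Aᵀ = A) {c : ℝ} (h0 : ∀ a, 0 ≤ a ⬝ᵥ A *ᵥ a)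
    (h1 : ∀ a, a ⬝ᵥ A *ᵥ a ≤ c * (a ⬝ᵥ a)) (hP : Pᵀ = P) (hPP : P * P = P) (hP' : P'ᵀ = P')
    (hPP' : P' * P = P) (he : opn (P' * (A - α • 1) * P) ≤ e) (hc : 0 ≤ c) (hγ : 0 < γ)
    (x : Fin n → ℝ) : α * ((P *ᵥ x) ⬝ᵥ (P *ᵥ x)) ≤ x ⬝ᵥ A *ᵥ x + (3 * e + c * γ) * (x ⬝ᵥ x) +
      c / γ * (((1 - P') *ᵥ x) ⬝ᵥ ((1 - P') *ᵥ x)) := by
  have key : ∀ a, |(P' *ᵥ a) ⬝ᵥ A *ᵥ (P *ᵥ x) - α * ((P' *ᵥ a) ⬝ᵥ (P *ᵥ x))| ≤ e * (nrm a * nrm x) :=
    fun a => by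
      have := (abs_bil_le (P' * (A - α • 1) * P) a x).trans
        (mul_le_mul_of_nonneg_right he (mul_nonneg (nrm_nonneg a) (nrm_nonneg x)))
      rwa [← mulVec_mulVec, ← mulVec_mulVec, ← Tr.dot_symm hP', sub_mulVec, smul_mulVec, one_mulVec,
        dotProduct_sub, dotProduct_smul, smul_eq_mul] at this
  have e0 : 0 ≤ e := (opn_nonneg _).trans he
  set z := P *ᵥ x with hz
  set q := (1 - P') *ᵥ x with hq
  have z1 : P' *ᵥ z = z := by rw [hz, mulVec_mulVec, hPP']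
  have z2 : x ⬝ᵥ z = z ⬝ᵥ z := by rw [hz, Tr.dot_symm hP, mulVec_mulVec, hPP]
  have z3 : (P' *ᵥ x) ⬝ᵥ z = z ⬝ᵥ z := by rw [Tr.dot_symm hP', z1, z2]
  have z4 : z ⬝ᵥ z ≤ x ⬝ᵥ x := by
    have := SL.dot_self_nonneg (x - z)
    simp only [sub_dotProduct, dotProduct_sub, dotProduct_comm z x] at this
    linarith
  have k1 := (abs_le.1 (key x)).1
  have k2 := (abs_le.1 (key z)).2
  rw [z3, nrm_mul_self] at k1
  rw [z1] at k2
  have k3 : e * (nrm z * nrm x) ≤ e * (x ⬝ᵥ x) := mul_le_mul_of_nonneg_left (by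
    rw [← nrm_mul_self]
    exact mul_le_mul_of_nonneg_right (sqrt_le_sqrt z4) (nrm_nonneg x)) e0
  have s : ∀ a b, a ⬝ᵥ A *ᵥ b = b ⬝ᵥ A *ᵥ a := Eig.dot_symm hA
  have k4 := h0 (x - z)
  simp only [mulVec_sub, sub_dotProduct, dotProduct_sub, s z x] at k4
  have k5 : x ⬝ᵥ A *ᵥ z = (P' *ᵥ x) ⬝ᵥ A *ᵥ z + q ⬝ᵥ A *ᵥ z := by
    rw [← add_dotProduct, hq, sub_mulVec, one_mulVec, add_sub_cancel]
  have k6 := h0 (γ • z + q)
  simp only [mulVec_add, mulVec_smul, add_dotProduct, dotProduct_add, smul_dotProduct,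
    dotProduct_smul, smul_eq_mul, s z q] at k6
  have k7 : -(2 * (q ⬝ᵥ A *ᵥ z)) ≤ c * γ * (x ⬝ᵥ x) + c / γ * (q ⬝ᵥ q) := by
    have a1 := mul_le_mul_of_nonneg_left ((h1 z).trans (mul_le_mul_of_nonneg_left z4 hc))
      (mul_pos hγ hγ).le
    have a2 := h1 q
    refine le_of_mul_le_mul_left ?_ hγ
    have : γ * (c / γ * (q ⬝ᵥ q)) = c * (q ⬝ᵥ q) := by field_simp
    nlinarith
  linarith

/-- the one-field inequality -/
theorem ds_one (hn : 0 < n) (hu : ∀ x, 0 < u x) (hT : 0 < T) (hη : 0 < η) (hγ : 0 < γ) (hP : Pᵀ = P)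
    (hPP : P * P = P) (hP' : P'ᵀ = P') (hPP' : P' * P = P) (he : opn (P' * (Ab u T - α • 1) * P) ≤ e)
    {κ : Type*} [Fintype κ] (g : κ → Cube n → ℝ) (X : κ → Fin n → ℝ) :
    α * dd (mv P X) (mv P X) ≤ 2 * T * (1 + η) * ∑ k, dir u (g k) +
      (1 + η⁻¹) * ∑ k, var u (fun x => g k x - X k ⬝ᵥ sv x) + (3 * e + 2 * T * γ) * dd X X +
        2 * T / γ * dd (mv (1 - P') X) (mv (1 - P') X) := by
  simp only [dd, mv, Finset.mul_sum, ← Finset.sum_add_distrib]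
  refine Finset.sum_le_sum fun k _ => ?_
  have h1 := quad_lower (Ab_transpose u T) (Ab_nonneg hn hu hT.le) (Ab_le hn hu hT.le) hP hPP hP' hPP'
    he (by positivity) hγ (X k)
  have h2 := Ab_le_dir_add hn hu hT hη (g k) (X k)
  linarith

/-- averaging the pointwise bound over the starting point -/
theorem opn_Ab_le (hu : Wt u) (T α : ℝ) (P P' : Matrix (Fin n) (Fin n) ℝ) :
    opn (P' * (Ab u T - α • 1) * P) ≤ mean u fun x => opn (P' * (Am u T x - α • 1) * P) := by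
  have e : P' * (Ab u T - α • 1) * P = ∑ x, prob u x • (P' * (Am u T x - α • 1) * P) := by
    have : Ab u T - α • 1 = ∑ x, prob u x • (Am u T x - α • 1) := by
      simp only [Ab_eq_sum, smul_sub, Finset.sum_sub_distrib, ← Finset.sum_smul, hu.sum_prob, one_smul]
    simp only [this, Matrix.mul_sum, Matrix.sum_mul, Matrix.mul_smul, Matrix.smul_mul]
  rw [e]
  refine (opn_sum_le _ _).trans_eq (Finset.sum_congr rfl fun x _ => ?_)
  rw [opn_smul, abs_of_nonneg (hu.prob_nonneg x)]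

/-! ### the variance left by the linearisation at `r Cov_r (g, φ)` -/

section
variable {Ω : Type*} [Fintype Ω] {ι : Type} [Fintype ι] [DecidableEq ι] {κ : Type*} [Fintype κ]
  {φ : Ω → ι → ℝ} {w : Ω → ℝ} {ε : ℝ → ℝ} {g : κ → Ω → ℝ} {b r t β : ℝ}

theorem var_sub_lin (w f : Ω → ℝ) (φ : Ω → ι → ℝ) (a : ι → ℝ) : var w (fun x => f x - a ⬝ᵥ φ x) =
    var w f - 2 * (a ⬝ᵥ covV w f φ) + a ⬝ᵥ covMat w φ *ᵥ a := by
  rw [var_eq_cov, cov_sub, cov_comm, cov_sub, cov_comm _ (fun x => f x - _), cov_sub, covV_dot,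
    covMat_quad, var_eq_cov, cov_comm w f fun x => a ⬝ᵥ φ x]
  ring

theorem var_lin_pt (hw : Wt w) {q : Pt ι} (hq : 0 < q.1) (h0 : 0 ≤ ε q.1)
    (hb : ∀ x, ∑ a, g a x ^ 2 ≤ b ^ 2) :
    q.1 * ∑ k, var (pw φ w q) (fun x => g k x - (q.1 • Vg φ w g q) k ⬝ᵥ φ x) ≤
      q.1 * ∑ k, var (pw φ w q) (g k) - (1 - ε q.1) * (q.1 ^ 2 * dd (Vg φ w g q) (Vg φ w g q)) +
        b ^ 2 * (q.1 * ((1 - ig φ w ε q) * (1 + nx φ w q) ^ 3)) := by
  have e : q.1 * ∑ k, var (pw φ w q) (fun x => g k x - (q.1 • Vg φ w g q) k ⬝ᵥ φ x) =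
      q.1 * ∑ k, var (pw φ w q) (g k) - 2 * (q.1 ^ 2 * dd (Vg φ w g q) (Vg φ w g q)) +
        q.1 ^ 2 * dd (Vg φ w g q) (mv (Xp φ w q) (Vg φ w g q)) := by
    simp only [var_sub_lin]
    simp only [dd, mv, Finset.mul_sum, ← Finset.sum_sub_distrib, ← Finset.sum_add_distrib,
      Xp, Pi.smul_apply, smul_dotProduct, mulVec_smul, smul_mulVec, dotProduct_smul, smul_eq_mul, Vg, vv]
    exact Finset.sum_congr rfl fun k _ => by ring
  have h1 : dd (Vg φ w g q) (mv (Xp φ w q) (Vg φ w g q)) ≤ nx φ w q * dd (Vg φ w g q) (Vg φ w g q) := by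
    rw [dd, dd, Finset.mul_sum]
    exact Finset.sum_le_sum fun a _ => quad_X_le _
  have h2 := dd_Vg_le (φ := φ) hw hq hb
  have h3 := dd_self_nonneg (Vg φ w g q)
  have n0 := nx_nonneg (φ := φ) (w := w) q
  have h4 := mul_le_mul_of_nonneg_left h1 (sq_nonneg q.1)
  rw [e]
  rcases ig_cases (φ := φ) (w := w) (ε := ε) q with h | h
  · have := mul_le_mul_of_nonneg_right h.1 (mul_nonneg (sq_nonneg q.1) h3)
    rw [h.2]; nlinarith
  · have a1 : nx φ w q * nx φ w q ≤ (1 + nx φ w q) ^ 3 := by nlinarith [mul_nonneg n0 (mul_nonneg n0 n0)]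
    have a2 := mul_le_mul_of_nonneg_left h2 (mul_nonneg hq.le n0)
    have a3 := mul_le_mul_of_nonneg_left a1 (mul_nonneg (sq_nonneg b) hq.le)
    have a4 := mul_nonneg (add_nonneg zero_le_one h0) (mul_nonneg (sq_nonneg q.1) h3)
    rw [h.2]; nlinarith

theorem mg_var_lin (hw : Wt w) (g : κ → Ω → ℝ) (r : ℝ) : MG fun y =>
    ∑ k, var (pw φ w (r, y)) fun x => g k x - (r • Vg φ w g (r, y)) k ⬝ᵥ φ x := by
  have m : ∀ k i, MG fun y => (r • Vg φ w g (r, y)) k i := fun k i => (mg_vv hw (g k) r i).const_mul r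
  simp only [var_sub_lin]
  exact .sum _ fun k _ => ((mg_pvar hw r _).sub ((mg_dot (m k) fun i => mg_pcov hw r _ _).const_mul 2)).add
    (mg_dot (m k) (fun i => mg_dot (U := fun y => covMat (pw φ w (r, y)) φ i)
      (fun j => mg_pcov hw r _ _) (m k)))

/-- `∑ₖ E Var_r gₖ` -/
def Vr (φ : Ω → ι → ℝ) (w : Ω → ℝ) (g : κ → Ω → ℝ) (r : ℝ) : ℝ :=
  ∑ k, ex φ w (fun q => var (pw φ w q) (g k)) r

theorem psi_eq_sum (hw : Wt w) (g : κ → Ω → ℝ) (r : ℝ) : psi φ w g r =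
    ∑ k, ex φ w (fun p => covV (pw φ w p) (g k) φ ⬝ᵥ covV (pw φ w p) (g k) φ) r :=
  ex_sum _ fun k _ => (eg_covV_dot (I := univ) hw (g k) (g k)).mg (mem_univ r)

theorem Vr_le (hw : Wt w) (hr : 0 < r) (hrt : r ≤ t) (hβ : ∀ s ∈ Icc r t, s ^ 2 * psi φ w g s ≤ β) :
    r * Vr φ w g r ≤ r * Vr φ w g t + β := by
  have c := fun k : κ => (eg_covV_dot (φ := φ) (I := Icc r t) hw (g k) (g k)).continuousOn_ex (φ := φ) (v := w)
  have β0 : 0 ≤ β := (mul_nonneg (sq_nonneg r) (psi_nonneg hw r)).trans (hβ r ⟨le_rfl, hrt⟩)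
  have e : Vr φ w g r = Vr φ w g t + ∫ s in r..t, psi φ w g s := by
    simp only [Vr, var_eq_cov, ex_cov_sub hw _ _ hr.le hrt, Finset.sum_add_distrib, psi_eq_sum hw]
    rw [intervalIntegral.integral_finset_sum fun k _ => (c k).intervalIntegrable_of_Icc hrt]
  have d : ∀ s ∈ uIcc r t, HasDerivAt (fun s => -β * s⁻¹) (β / s ^ 2) s := fun s hs => by
    rw [uIcc_of_le hrt] at hs
    exact ((hasDerivAt_inv (hr.trans_le hs.1).ne').const_mul (-β)).congr_deriv (by ring)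
  have c2 : ContinuousOn (fun s => β / s ^ 2) (Icc r t) :=
    continuousOn_const.div (continuousOn_id.pow 2) fun s hs => (pow_pos (hr.trans_le hs.1) 2).ne'
  have h1 : ∫ s in r..t, psi φ w g s ≤ ∫ s in r..t, β / s ^ 2 :=
    intervalIntegral.integral_mono_on hrt
      ((eg_dd_Vg (I := Icc r t) hw g).continuousOn_ex.intervalIntegrable_of_Icc hrt)
      (c2.intervalIntegrable_of_Icc hrt) fun s hs => by
        rw [le_div_iff₀ (pow_pos (hr.trans_le hs.1) 2), mul_comm]; exact hβ s hs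
  rw [intervalIntegral.integral_eq_sub_of_hasDerivAt d (c2.intervalIntegrable_of_Icc hrt)] at h1
  have h2 := mul_le_mul_of_nonneg_left h1 hr.le
  have h3 : r * (-β * t⁻¹ - -β * r⁻¹) = β - r * β * t⁻¹ := by field_simp; ring
  have h4 : 0 ≤ r * β * t⁻¹ := by have := hr.trans_le hrt; positivity
  rw [e, mul_add]
  linarith

theorem ex_var_lin_le (hw : Wt w) (hr : 0 < r) (hrt : r ≤ t) (h0 : 0 ≤ ε r)
    (hb : ∀ x, ∑ a, g a x ^ 2 ≤ b ^ 2) (hβ : ∀ s ∈ Icc r t, s ^ 2 * psi φ w g s ≤ β) :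
    r * ex φ w (fun q => ∑ k, var (pw φ w q) fun x => g k x - (q.1 • Vg φ w g q) k ⬝ᵥ φ x) r ≤
      r * Vr φ w g t + β - (1 - ε r) * (r ^ 2 * psi φ w g r) + b ^ 2 * (r * pb φ w ε 3 r) := by
  have m1 : MG fun y => ∑ k, var (pw φ w (r, y)) (g k) := .sum _ fun k _ => mg_pvar hw r _
  have m2 := mg_dd_Vg (φ := φ) hw g r
  have m3 := mg_pb (φ := φ) hw ε 3 r
  have h1 := ex_mono (φ := φ) (t := r) hw
    (G := fun q => r * ∑ k, var (pw φ w q) fun x => g k x - (q.1 • Vg φ w g q) k ⬝ᵥ φ x)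
    (H := fun q => r * ∑ k, var (pw φ w q) (g k) - (1 - ε r) * (r ^ 2 * dd (Vg φ w g q) (Vg φ w g q)) +
      b ^ 2 * (r * ((1 - ig φ w ε q) * (1 + nx φ w q) ^ 3))) ((mg_var_lin hw g r).const_mul r)
    (((m1.const_mul _).sub ((m2.const_mul _).const_mul _)).add ((m3.const_mul _).const_mul _))
    fun y => var_lin_pt (q := (r, y)) hw hr h0 hb
  rw [ex_const_mul, ex_add ((m1.const_mul _).sub ((m2.const_mul _).const_mul _))
    ((m3.const_mul _).const_mul _), ex_sub (m1.const_mul _) ((m2.const_mul _).const_mul _),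
    ex_const_mul, ex_const_mul, ex_const_mul, ex_const_mul, ex_const_mul,
    ex_sum (G := fun k q => var (pw φ w q) (g k)) _ fun k _ => mg_pvar hw r _] at h1
  have h2 := Vr_le hw hr hrt hβ
  change _ ≤ r * Vr φ w g r - (1 - ε r) * (r ^ 2 * psi φ w g r) + b ^ 2 * (r * pb φ w ε 3 r) at h1
  linarith

end

end Crest.Agent.T157.Rec

end
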