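import Crest.Agent.T157.TrC_64

/-!
# Row 157, part C1 (helper64): the sharp bound at one scale
-/

set_option autoImplicit false
set_option linter.unusedSectionVars false

noncomputable section

namespace Crest.Agent.T157.Tr

open MeasureTheory ProbabilityTheory Filter Topology Set Real Matrix
open Crest.Agent.T157.SL Crest.Agent.T157.E Crest.Agent.T157.Pa Crest.Agent.T157.Eig

theorem sqrt_le_two_terms {D a b x y : ℝ} (ha : 0 ≤ a) (hx : 0 ≤ x) (hb : 0 ≤ b) (hy : 0 ≤ y)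
    (h : D ≤ a * x ^ 2 + b ^ 2 * y ^ 2) : √D ≤ √a * x + b * y := by
  refine sqrt_le_iff.2 ⟨by positivity, h.trans ?_⟩
  have h1 := sq_sqrt ha
  have h2 : 0 ≤ √a * x * (b * y) := by positivity
  nlinarith

theorem int_le3 {α : Type*} [MeasurableSpace α] {μ : Measure α} {F G1 G2 G3 : α → ℝ} {a b c : ℝ}
    (hF : Integrable F μ) (h1 : Integrable G1 μ) (h2 : Integrable G2 μ) (h3 : Integrable G3 μ)
    (h : ∀ x, F x ≤ a * G1 x + b * G2 x + c * G3 x) :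
    ∫ x, F x ∂μ ≤ a * ∫ x, G1 x ∂μ + b * ∫ x, G2 x ∂μ + c * ∫ x, G3 x ∂μ := by
  have i1 : Integrable (fun x => a * G1 x + b * G2 x) μ := (h1.const_mul a).add (h2.const_mul b)
  rw [← integral_const_mul, ← integral_const_mul, ← integral_const_mul,
    ← integral_add (h1.const_mul a) (h2.const_mul b), ← integral_add i1 (h3.const_mul c)]
  exact integral_mono hF (i1.add (h3.const_mul c)) h

theorem arith1 {e er N N' A2 AL c y1 y2 D1 : ℝ} (e0 : 0 ≤ e) (er0 : 0 ≤ er) (N0 : 0 ≤ N)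
    (AL0 : 0 ≤ AL) (c0 : 0 ≤ c) (hq : (1 + er) * N - y1 ≤ AL) (f1 : y1 ≤ y2 + 8 * c)
    (hN' : N' ≤ (1 + 4 * e) * N) (hN2 : N ≤ 2 * A2)
    (f15 : (1 + e) * D1 ≤ 2 * (1 + e) * N' + 2 * (1 + e) * N + -4 * y2) :
    D1 ≤ 24 * e * A2 + 4 * AL + 36 * c := by
  have k1 : N - AL - 8 * c ≤ y2 := by nlinarith
  have k2 : (1 + e) * D1 ≤ (1 + e) * (12 * e * N + 4 * AL + 32 * c) := by
    have k3 := mul_le_mul_of_nonneg_left hN' (show 0 ≤ 1 + e by linarith)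
    have k4 : 0 ≤ e * AL := mul_nonneg e0 AL0
    have k5 : 0 ≤ e * c := by positivity
    have k6 : 0 ≤ e * (e * N) := by positivity
    nlinarith
  have k7 := le_of_mul_le_mul_left k2 (by linarith)
  have k8 := mul_le_mul_of_nonneg_left hN2 e0
  nlinarith

theorem arith2 {A x μ1 μ2 R bz α D1 D2 sB G ψ u1 u2 u3 u4 u5 sk bρ : ℝ} (A0 : 0 ≤ A) (hAR : A ≤ R)
    (bz0 : 0 ≤ bz) (μ10 : 0 ≤ μ1) (μ20 : 0 ≤ μ2) (α0 : 0 ≤ α) (hR : α ≤ R)
    (s1 : D1 ≤ μ1 * A + 6 * bz) (s2 : D2 ≤ μ2 * A + 4 * bz) (s3 : sB ≤ 4 * bz) (s4 : sk ≤ A * x)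
    (G2 : G ≤ 2) (bρ0 : 0 ≤ bρ) (hb : bρ ≤ bz) (f7 : u1 ≤ sk + sB * α)
    (f8 : A ^ 2 ≤ u2 + G * A * bρ) (f11 : u3 = u2 - u4) (f12 : u5 = u4 - u1) (f13 : u3 ≤ D1 * α)
    (f14 : u5 ≤ D2 * α) (f9 : ψ ≤ A ^ 2 + bz ^ 2) :
    ψ ≤ x ^ 2 + 2 * (μ1 + μ2) * R ^ 2 + 32 * bz * R + bz ^ 2 := by
  have R0 : 0 ≤ R := A0.trans hAR
  have t1 : D1 * α ≤ (μ1 * R + 6 * bz) * R :=
    mul_le_mul (s1.trans (by gcongr)) hR α0 (by positivity)
  have t2 : D2 * α ≤ (μ2 * R + 4 * bz) * R :=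
    mul_le_mul (s2.trans (by gcongr)) hR α0 (by positivity)
  have t3 := mul_le_mul s3 hR α0 (by positivity)
  have t4 : G * A * bρ ≤ 2 * R * bz := by
    calc G * A * bρ ≤ 2 * A * bρ := by gcongr
      _ ≤ _ := by gcongr
  have t5 : A ^ 2 ≤ A * x + ((μ1 + μ2) * R ^ 2 + 16 * bz * R) := by nlinarith
  nlinarith [sq_nonneg (A - x)]

variable {Ω : Type*} [Fintype Ω] {ι : Type} [Fintype ι] [DecidableEq ι] {κ : Type*} [Fintype κ]
variable {W : BM ι} {Q : Measure W.Ω} {r s t T : ℝ}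
variable {φ : Ω → ι → ℝ} {w : Ω → ℝ} {ε p : ℝ → ℝ} {g : κ → Ω → ℝ} {b t0 ρ e M : ℝ}
  {H : W.Ω → κ → ι → ℝ}

/-- the event on which `r C_r` is not almost supported in the range of `P` -/
def BH (φ : Ω → ι → ℝ) (w : Ω → ℝ) (P : Matrix ι ι ℝ) (θ r : ℝ) : Set (ι → ℝ) :=
  {y | θ < opn ((1 - P) * Xp φ w (r, y))}

theorem meas_BH (hw : Wt w) (P : Matrix ι ι ℝ) (θ r : ℝ) : MeasurableSet (BH φ w P θ r) := by
  have : Continuous fun y : ι → ℝ => opn ((1 - P) * Xp φ w (r, y)) :=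
    continuous_opn.comp (continuous_const.matrix_mul
      ((cont_X hw).comp (continuous_const.prodMk continuous_id)))
  exact (isOpen_lt continuous_const this).measurableSet

theorem II_H0_le (hw : Wt w) (hs : 0 ≤ s) (hT : s ≤ T) :
    II (W.Qsl φ w T) (H0 W φ w ε g s) (H0 W φ w ε g s) ≤ s ^ 2 * psi φ w g s := by
  have hQ := BM.nice_sl (W := W) (φ := φ) hw (hs.trans hT)
  have a1 := tv_H0 (W := W) (φ := φ) (ε := ε) (g := g) hw hs
  have a2 := (tv_Vg (W := W) (φ := φ) hw hs g).smul (BM.Tm.const s)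
  rw [← II_Vg (W := W) hw ⟨hs, hT⟩]
  refine integral_mono ((a1.dd a1).int hQ) ((a2.dd a2).int hQ) fun ω => ?_
  have := dd_self_nonneg (s • Vg φ w g (s, W.B s ω))
  simp only [H0]
  rcases ig_cases (φ := φ) (w := w) (ε := ε) (s, W.B s ω) with e | e
  · rw [e.2, one_smul]
  · rw [e.2, zero_smul]; simpa [dd] using this

theorem ind_cases (A : Set (ι → ℝ)) (y : ι → ℝ) :
    (y ∈ A ∧ A.indicator (fun _ => (1 : ℝ)) y = 1) ∨ (y ∉ A ∧ A.indicator (fun _ => (1 : ℝ)) y = 0) := by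
  by_cases h : y ∈ A
  · exact Or.inl ⟨h, indicator_of_mem h _⟩
  · exact Or.inr ⟨h, indicator_of_notMem h _⟩

/-- the part of `U` outside the range of `P` -/
theorem proj_le (hw : Wt w) (hr : 0 < r) (hT : r ≤ T) (ε0 : 0 ≤ ε r) (he : ε r ≤ 1 / 4)
    {U : W.Ω → κ → ι → ℝ} (hU : TV W r U) {c : ℝ} (hc : ∀ ω, dd (U ω) (U ω) ≤ c)
    {P : Matrix ι ι ℝ} (hP : opn (1 - P) ≤ 1) {θ : ℝ} (θ0 : 0 ≤ θ) :
    II (W.Qsl φ w T) (fun ω => U ω - mv P (U ω)) (fun ω => U ω - mv P (U ω)) ≤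
      2 * (ε r ^ 2 * II (W.Qsl φ w T) U U + ((1 + ε r) * II (W.Qsl φ w T) U U -
        II (W.Qsl φ w T) U fun ω => mv (Yp φ w ε (r, W.B r ω)) (U ω))) +
      2 * (θ ^ 2 * II (W.Qsl φ w T) U U + 2 * c * (law φ w r).real (BH φ w P θ r)) := by
  have hQ := BM.nice_sl (W := W) (φ := φ) hw (hr.le.trans hT)
  have a1 := hU.sub (hU.mv (A := fun _ => P) fun i j => BM.Tm.const _)
  have a2 := (hU.dd hU).int hQ
  have a3 := (hU.dd (hU.mv (tm_Y (φ := φ) (ε := ε) hw hr.le))).int hQ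
  have a4 := (W.tm_mg hr.le (mg_ind (meas_BH (φ := φ) hw P θ r))).int hQ
  rw [← int_ind (W := W) hw ⟨hr.le, hT⟩ (meas_BH hw P θ r)]
  refine (int_le3 (a := 2 * (ε r ^ 2 + (1 + ε r) + θ ^ 2)) (b := -2) (c := 4 * c)
    ((a1.dd a1).int hQ) a2 a3 a4 fun ω => ?_).trans_eq (by simp only [II]; ring)
  set Y := Yp φ w ε (r, W.B r ω) with hY
  have e1 : U ω - mv P (U ω) = mv (1 - P) (U ω - mv Y (U ω)) + mv (1 - P) (mv Y (U ω)) := by
    rw [mv_sub, sub_add_cancel, mv_one_sub]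
  have P2 : opn (1 - P) ^ 2 ≤ 1 := pow_le_one₀ (opn_nonneg _) hP
  have U0 := dd_self_nonneg (U ω)
  have b1 := dd_add_le (mv (1 - P) (U ω - mv Y (U ω))) (mv (1 - P) (mv Y (U ω)))
  have b2 := (dd_mv_le (U ω - mv Y (U ω)) (1 - P)).trans
    (mul_le_of_le_one_left (dd_self_nonneg _) P2)
  have b3 := dd_sub_Y_le (φ := φ) (ε := ε) (q := (r, W.B r ω)) hw hr ε0 (U ω)
  have b4 : dd (mv (1 - P) (mv Y (U ω))) (mv (1 - P) (mv Y (U ω))) ≤ θ ^ 2 * dd (U ω) (U ω) +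
      2 * c * (BH φ w P θ r).indicator (fun _ => (1 : ℝ)) (W.B r ω) := by
    rcases ind_cases (BH φ w P θ r) (W.B r ω) with k | k
    · rw [k.2, mul_one]
      have k1 := (dd_mv_le (mv Y (U ω)) (1 - P)).trans (mul_le_of_le_one_left (dd_self_nonneg _) P2)
      have k2 := dd_mv_le (U ω) Y
      have k3 := opn_Y_le (φ := φ) (w := w) (ε := ε) (p := (r, W.B r ω)) ε0
      have k4 : opn Y ^ 2 ≤ 2 := by
        have := opn_nonneg Y
        simp only [← hY] at k3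
        nlinarith
      have k5 := mul_le_mul k4 (hc ω) U0 zero_le_two
      nlinarith [mul_nonneg (sq_nonneg θ) U0]
    · rw [k.2, mul_zero, add_zero, ← mv_mul]
      refine (dd_mv_le _ _).trans (mul_le_mul_of_nonneg_right ?_ U0)
      refine pow_le_pow_left₀ (opn_nonneg _) ?_ 2
      have k1 : opn ((1 - P) * Xp φ w (r, W.B r ω)) ≤ θ := not_lt.1 k.1
      rw [hY, Yp, Matrix.mul_smul, opn_smul, abs_of_nonneg (ig_nonneg _)]
      exact (mul_le_of_le_one_left (opn_nonneg _) (ig_le_one _)).trans k1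
  rw [← hY] at b3
  rw [e1]
  simp only at b3
  linarith

/-- the terminal estimate in the range of `P` -/
theorem term_le (hw : Wt w) (ht : 0 < t) (hT : t ≤ T) {U : W.Ω → κ → ι → ℝ} (hU : TV W t U)
    {c : ℝ} (c0 : 0 ≤ c) (hc : ∀ ω, dd (U ω) (U ω) ≤ c) {P : Matrix ι ι ℝ} (hP : opn (1 - P) ≤ 1)
    {B : Set (ι → ℝ)} (hB : MeasurableSet B) {d : κ → (ι → ℝ) → ℝ} (hd : ∀ a, MG (d a))
    (d0 : ∀ a y, 0 ≤ d a y) {k : ℝ} (k0 : 0 ≤ k)
    (hD : ∀ y ∉ B, ∀ a u, ((P *ᵥ u) ⬝ᵥ t • vv φ w (g a) (t, y)) ^ 2 ≤ k * (u ⬝ᵥ u) * d a y) :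
    II (W.Qsl φ w T) (fun ω => mv P (U ω)) (fun ω => t • Vg φ w g (t, W.B t ω)) ≤
      √(k * II (W.Qsl φ w T) U U) * √(∑ a, slE φ w t fun _ => d a) +
        √(4 * c * (law φ w t).real B) * √(t ^ 2 * psi φ w g t) := by
  have hQ := BM.nice_sl (W := W) (φ := φ) hw (ht.le.trans hT)
  have a1 := hU.mv (A := fun _ => P) fun i j => BM.Tm.const _
  have a2 := (tv_Vg (W := W) (φ := φ) hw ht.le g).smul (BM.Tm.const t)
  have a3 := W.tm_mg ht.le (mg_ind hB)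
  have a4 := (BM.Tm.const (W := W) (r := t) 1).sub a3
  have a5 : W.Tm t fun ω => ∑ a, d a (W.B t ω) := BM.Tm.sum _ fun a _ => W.tm_mg ht.le (hd a)
  have P2 : opn P ^ 2 ≤ 4 := by
    have k1 := opn_sub_le (1 : Matrix ι ι ℝ) (1 - P)
    rw [sub_sub_cancel] at k1
    have k2 := opn_one_le (ι := ι)
    have k3 := opn_nonneg P
    nlinarith
  have g1 := int_le_sqrt ((a4.mul (a1.dd a2)).int hQ) (((hU.dd hU).int hQ).const_mul k) (a5.int hQ)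
    (fun ω => mul_nonneg k0 (dd_self_nonneg _)) (fun ω => Finset.sum_nonneg fun a _ => d0 a _)
    fun ω => by
      rcases ind_cases B (W.B t ω) with j | j
      · rw [j.2, sub_self, zero_mul, sq, mul_zero]
        exact mul_nonneg (mul_nonneg k0 (dd_self_nonneg _)) (Finset.sum_nonneg fun a _ => d0 a _)
      · rw [j.2, sub_zero, one_mul, dd, dd, Finset.mul_sum _ _ k]
        exact Finset.sum_sq_le_sum_mul_sum_of_sq_le_mul _
          (fun a _ => mul_nonneg k0 (SL.dot_self_nonneg _)) (fun a _ => d0 a _)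
          fun a _ => hD _ j.1 a (U ω a)
  have g2 := int_le_sqrt ((a3.mul (a1.dd a2)).int hQ) ((a3.int hQ).const_mul (4 * c))
    ((a2.dd a2).int hQ) (fun ω => by
      rcases ind_cases B (W.B t ω) with j | j <;> rw [j.2] <;> positivity)
    (fun ω => dd_self_nonneg _) fun ω => by
      rcases ind_cases B (W.B t ω) with j | j
      · rw [j.2, one_mul, mul_one]
        refine (dd_sq_le _ _).trans (mul_le_mul_of_nonneg_right ?_ (dd_self_nonneg _))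
        exact (dd_mv_le _ _).trans (mul_le_mul P2 (hc ω) (dd_self_nonneg _) (by norm_num))
      · rw [j.2]; simp
  have e1 : ∫ ω, ∑ a, d a (W.B t ω) ∂W.Qsl φ w T = ∑ a, slE φ w t fun _ => d a := by
    rw [integral_finsetSum _ fun a _ => (W.tm_mg ht.le (hd a)).int hQ]
    exact Finset.sum_congr rfl fun a _ => BM.int_sl hw ⟨ht.le, hT⟩ (hd a)
  have e2 := II_Vg (W := W) (φ := φ) hw ⟨ht.le, hT⟩ g
  rw [integral_const_mul, e1] at g1
  rw [integral_const_mul, int_ind hw ⟨ht.le, hT⟩ hB] at g2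
  unfold II at e2 ⊢
  rw [e2] at g2
  have e3 := integral_add ((a4.mul (a1.dd a2)).int hQ) ((a3.mul (a1.dd a2)).int hQ)
  simp only [← add_mul, sub_add_cancel, one_mul] at e3
  rw [e3]
  exact add_le_add g1 g2

/-- the sharp bound at one scale -/
theorem HA.sharp (hw : Wt w) (h : HA φ w ε p s t0 ρ) (he : ∀ r ∈ Icc s t0, ε r ≤ e)
    (hi : ∫ u in s..t0, ε u / u ≤ e) (he4 : e ≤ 1 / 4) (hM : 1 < M) (hMs : M * s ≤ t0)
    (hb0 : 0 ≤ b) (hb : ∀ x, ∑ a, g a x ^ 2 ≤ b ^ 2) {P : Matrix ι ι ℝ} (hP : opn (1 - P) ≤ 1)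
    {θ o z : ℝ} (θ0 : 0 ≤ θ) (hH : ∀ r ∈ Icc s (M * s), (law φ w r).real (BH φ w P θ r) ≤ o)
    {B : Set (ι → ℝ)} (hB : MeasurableSet B) (hBo : (law φ w t0).real B ≤ o)
    {d : κ → (ι → ℝ) → ℝ} (hd : ∀ a, MG (d a)) (d0 : ∀ a y, 0 ≤ d a y) {k E R : ℝ} (k0 : 0 ≤ k)
    (hD : ∀ y ∉ B, ∀ a u, ((P *ᵥ u) ⬝ᵥ t0 • vv φ w (g a) (t0, y)) ^ 2 ≤ k * (u ⬝ᵥ u) * d a y)
    (hE : (∑ a, slE φ w t0 fun _ => d a) ≤ E) (hR : √(t0 ^ 2 * psi φ w g t0) ≤ R)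
    (hR' : √(s ^ 2 * psi φ w g s) ≤ R) (z0 : 0 ≤ z) (hz : ρ ≤ z) (hz' : s * o ≤ z ^ 2) :
    s ^ 2 * psi φ w g s ≤ k * (1 + 4 * e) * E +
      2 * (√(24 * e + 4 / log M) + √(4 * e ^ 2 + 2 / log M + 4 * θ ^ 2)) * R ^ 2 +
        32 * (b * z) * R + (b * z) ^ 2 := by
  obtain ⟨W⟩ := BM.nonempty ι
  have hs := h.pos
  have hsM : s < M * s := by nlinarith
  have hst : s ≤ t0 := hsM.le.trans hMs
  have ht0 : 0 < t0 := hs.trans_le hst
  have hL : 0 < log M := log_pos hM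
  have e0 : 0 ≤ e := (h.ε0 s ⟨le_rfl, hst⟩).trans (he s ⟨le_rfl, hst⟩)
  have hQ := BM.nice_sl (W := W) (φ := φ) hw ht0.le
  have hH0 := tv_H0 (W := W) (φ := φ) (ε := ε) (g := g) hw hs.le
  have ρ0 := h.ρ0
  have ρz : ρ ^ 2 ≤ z ^ 2 := pow_le_pow_left₀ ρ0 hz 2
  have hpt : ∀ u ∈ Icc s t0, ∀ ω, dd (TW W φ w ε s (H0 W φ w ε g s) u ω)
      (TW W φ w ε s (H0 W φ w ε g s) u ω) ≤ s * (4 * b ^ 2) := fun u hu ω => by
    have k1 := h.TW_le hw hH0 le_rfl hu.1 hu.2 ω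
    rw [HA.TW_start] at k1
    have k2 := h.growth hi he4 le_rfl hu.1 hu.2
    have k3 := dd_H0_le (W := W) (φ := φ) (ε := ε) hw hs (h.ε0 s ⟨le_rfl, hst⟩) hb ω
    have k4 : s * (1 + ε s) * b ^ 2 ≤ s * 2 * b ^ 2 := by
      have := he s ⟨le_rfl, hst⟩
      gcongr; linarith
    refine k1.trans ((mul_le_mul (show _ ≤ (2 : ℝ) by linarith) (k3.trans k4) (dd_self_nonneg _)
      zero_le_two).trans_eq (by ring))
  obtain ⟨r, hr, hq⟩ := h.pigeon hw hi he4 hM hMs hQ hH0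
  have hr2 : r ≤ t0 := hr.2.trans hMs
  have hr0 : 0 < r := hs.trans_le hr.1
  have hU := h.tv_TW hw hH0 ⟨hr.1, hr2⟩
  have hW := h.tv_TW hw hH0 ⟨hst, le_rfl⟩
  have hV := (tv_Vg (W := W) (φ := φ) hw ht0.le g).smul (BM.Tm.const t0)
  have f1 := h.align hw le_rfl hH0 hr.1 hr2 (by positivity) hpt
  have f2 := h.II_TW_le hw hQ hH0 le_rfl hr.1 hr2
  have f3 := h.II_TW_le hw hQ hH0 hr.1 hr2 le_rfl
  have f4 := h.growth hi he4 le_rfl hr.1 hr2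
  have f5 := h.growth hi he4 hr.1 hr2 le_rfl
  have f6 := proj_le (φ := φ) (T := t0) hw hr0 hr2 (h.ε0 r ⟨hr.1, hr2⟩)
    ((he r ⟨hr.1, hr2⟩).trans he4) hU (hpt r ⟨hr.1, hr2⟩) hP θ0
  have f7 := term_le (T := t0) hw ht0 le_rfl (hU.mono hr2) (by positivity) (hpt r ⟨hr.1, hr2⟩) hP hB
    hd d0 k0 hD
  have f8 := h.cons_le hw hst le_rfl hH0 hb0 hb
  have f9 := psi_le_H0 (W := W) (φ := φ) (ε := ε) hw hs hst hb
  have f10 := II_H0_le (W := W) (φ := φ) (ε := ε) (g := g) hw hs.le hst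
  have hP' := (hU.mono hr2).mv (A := fun _ => P) fun i j => BM.Tm.const _
  have f11 := TV.II_sub hQ hW (hU.mono hr2) hV
  have f12 := TV.II_sub hQ (hU.mono hr2) hP' hV
  have f13 := TV.cs hQ (hW.sub (hU.mono hr2)) hV
  have f14 := TV.cs hQ ((hU.mono hr2).sub hP') hV
  have hYU := (hU.mono hr2).mv (tm_Y (φ := φ) (ε := ε) hw ht0.le)
  have f15 := int_le3 (a := 2 * (1 + e)) (b := 2 * (1 + e)) (c := -4)
    ((((hW.sub (hU.mono hr2)).dd (hW.sub (hU.mono hr2))).int hQ).const_mul (1 + e))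
    ((hW.dd hW).int hQ) ((hU.dd hU).int hQ) ((hW.dd hYU).int hQ) fun ω =>
      (al_dd (Yp_transpose (φ := φ) (w := w) (ε := ε) (t0, W.B t0 ω)) (quad_Y_nonneg hw ht0.le)
        (fun u => (quad_Y_le (h.ε0 t0 ⟨hst, le_rfl⟩) u).trans (mul_le_mul_of_nonneg_right
          (by have := he t0 ⟨hst, le_rfl⟩; simp only; linarith) (SL.dot_self_nonneg u))) _ _).trans_eq
        (by ring)
  rw [integral_const_mul] at f15
  rw [HA.TW_start] at f2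
  rw [II_H0] at f8
  rw [II_Vg hw ⟨ht0.le, le_rfl⟩] at f13 f14
  have hHr := hH r hr
  have o0 : 0 ≤ o := measureReal_nonneg.trans hBo
  have er0 := h.ε0 r ⟨hr.1, hr2⟩
  have er1 := he r ⟨hr.1, hr2⟩
  have hps : s * pb φ w ε 3 s ≤ z ^ 2 :=
    ((mul_le_mul_of_nonneg_left (h.le s ⟨le_rfl, hst⟩) hs.le).trans (h.sup s ⟨le_rfl, hst⟩)).trans ρz
  have G2 : exp (∫ u in s..t0, ε u / u) ≤ 2 :=
    (exp_le_one_add (h.eps_nonneg le_rfl hst le_rfl) (by linarith)).trans (by linarith)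
  have N0 := TV.nonneg (Q := W.Qsl φ w t0) (TW W φ w ε s (H0 W φ w ε g s) r)
  have A0 := TV.nonneg (Q := W.Qsl φ w t0) (H0 W φ w ε g s)
  have hN := f2.trans (mul_le_mul_of_nonneg_right f4 A0)
  have hN2 := hN.trans (mul_le_mul_of_nonneg_right (show 1 + 4 * e ≤ 2 by linarith) A0)
  have hN' := f3.trans (mul_le_mul_of_nonneg_right f5 N0)
  have hA := sq_sqrt A0
  have hAR := (sqrt_le_sqrt f10).trans hR'
  have bz0 : 0 ≤ b * z := mul_nonneg hb0 z0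
  have bρ : b ^ 2 * ρ ^ 2 ≤ b ^ 2 * z ^ 2 := mul_le_mul_of_nonneg_left ρz (sq_nonneg b)
  have bo : b ^ 2 * (s * o) ≤ b ^ 2 * z ^ 2 := mul_le_mul_of_nonneg_left hz' (sq_nonneg b)
  have AL0 := div_nonneg A0 hL.le
  have hD1 := arith1 (c := b ^ 2 * z ^ 2) e0 er0 N0 AL0 (by positivity) hq
    (f1.trans (add_le_add le_rfl (show 2 * (4 * b ^ 2) * ρ ^ 2 ≤ 8 * (b ^ 2 * z ^ 2) by linarith)))
    hN' hN2 f15
  have E0 : 0 ≤ E := (Finset.sum_nonneg fun a _ => slE_nonneg hw fun _ y => d0 a y).trans hE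
  have x2 : √(k * (1 + 4 * e) * E) ^ 2 = k * (1 + 4 * e) * E := sq_sqrt (by positivity)
  rw [← x2]
  refine arith2 (sqrt_nonneg _) hAR bz0 (sqrt_nonneg _) (sqrt_nonneg _) (sqrt_nonneg _) hR
    (sqrt_le_two_terms (by positivity) (sqrt_nonneg _) (by norm_num) bz0 ?_)
    (sqrt_le_two_terms (by positivity) (sqrt_nonneg _) (by norm_num) bz0 ?_) ?_ ?_ G2
    (mul_nonneg hb0 ρ0) (mul_le_mul_of_nonneg_left hz hb0) f7 (by rw [hA, ← mul_assoc]; exact f8)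
    f11 f12 f13 f14 ?_
  · rw [hA]
    refine hD1.trans_eq (by ring)
  · rw [hA]
    have k1 := mul_le_mul (pow_le_pow_left₀ er0 er1 2) hN2 N0 (sq_nonneg e)
    have k2 := mul_le_mul_of_nonneg_left hN2 (sq_nonneg θ)
    have k3 := mul_le_mul_of_nonneg_left hHr (show 0 ≤ 2 * (s * (4 * b ^ 2)) by positivity)
    have k10 : 2 / log M * II (W.Qsl φ w t0) (H0 W φ w ε g s) (H0 W φ w ε g s) =
      2 * (II (W.Qsl φ w t0) (H0 W φ w ε g s) (H0 W φ w ε g s) / log M) := by ring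
    linarith
  · refine sqrt_le_iff.2 ⟨by positivity, ?_⟩
    have := mul_le_mul_of_nonneg_left hBo (show 0 ≤ 4 * (s * (4 * b ^ 2)) by positivity)
    linarith
  · rw [← sqrt_mul (mul_nonneg k0 N0), ← sqrt_mul A0]
    refine sqrt_le_sqrt ((mul_le_mul (mul_le_mul_of_nonneg_left hN k0) hE
      (Finset.sum_nonneg fun a _ => slE_nonneg hw fun _ y => d0 a y) (by positivity)).trans_eq ?_)
    ring
  · rw [hA]
    have := mul_le_mul_of_nonneg_left hps (sq_nonneg b)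
    linarith

end Crest.Agent.T157.Tr

end
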