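import Crest.Agent.T157.DsA_77
import Crest.Agent.T157.TrD_64

/-!
# Row 157, part C (helper77): the lower bound `D*` at fixed `n`
-/

set_option autoImplicit false
set_option linter.unusedSectionVars false

noncomputable section

namespace Crest.Agent.T157.Rec

open MeasureTheory ProbabilityTheory Filter Topology Set Real Matrix Function
open Crest.Agent.T157.E Crest.Agent.T157.SL Crest.Agent.T157.Eig Crest.Agent.T157.Tr
open Crest.Agent.T157.Pa

section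
variable {Ω : Type*} [Fintype Ω] {ι : Type} [Fintype ι] [DecidableEq ι] {κ : Type*} [Fintype κ]
  {φ : Ω → ι → ℝ} {w : Ω → ℝ} {ε p : ℝ → ℝ} {g : κ → Ω → ℝ} {b s r t ρ e M θ o Z Δ L : ℝ}
  {P : Matrix ι ι ℝ}

theorem dd_three (A B C : κ → ι → ℝ) :
    dd (A + B + C) (A + B + C) ≤ 3 * dd A A + 3 * dd B B + 3 * dd C C := by
  simp only [dd, dotProduct, Finset.mul_sum, ← Finset.sum_add_distrib, Pi.add_apply]
  refine Finset.sum_le_sum fun a _ => Finset.sum_le_sum fun i _ => ?_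
  nlinarith [sq_nonneg (A a i - B a i), sq_nonneg (A a i - C a i), sq_nonneg (B a i - C a i)]

theorem dd_mv_le_one (hP : opn P ≤ 1) (U : κ → ι → ℝ) : dd (mv P U) (mv P U) ≤ dd U U :=
  (dd_mv_le U P).trans (mul_le_of_le_one_left (dd_self_nonneg _) (pow_le_one₀ (opn_nonneg _) hP))

theorem mg_smul_Vg (hw : Wt w) (g : κ → Ω → ℝ) (r : ℝ) (k : κ) (i : ι) :
    MG fun y => (r • Vg φ w g (r, y)) k i := (mg_vv hw (g k) r i).const_mul r

theorem mg_dd_mv (hw : Wt w) (g : κ → Ω → ℝ) (r : ℝ) (P : Matrix ι ι ℝ) :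
    MG fun y => dd (mv P (r • Vg φ w g (r, y))) (mv P (r • Vg φ w g (r, y))) :=
  .sum _ fun k _ => mg_dot (mg_mulVec P (mg_smul_Vg hw g r k)) (mg_mulVec P (mg_smul_Vg hw g r k))

/-- over a block without drop, `r Cov_r (g, φ)` lives on the modes which are soft at the beginning
of the block -/
theorem soft_le (hw : Wt w) (h : HA φ w ε p s r ρ) (he : ∀ u ∈ Icc s r, ε u ≤ e)
    (hi : ∫ u in s..r, ε u / u ≤ e) (e0 : 0 < e) (he4 : e ≤ 1 / 4) (hM : 1 < M) (hMs : M * s ≤ r)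
    (hb0 : 0 ≤ b) (hb : ∀ x, ∑ a, g a x ^ 2 ≤ b ^ 2) (hP : opn (1 - P) ≤ 1)
    (hH : ∀ u ∈ Icc s (M * s), (law φ w u).real (BH φ w P θ u) ≤ o)
    (hZ : s ^ 2 * psi φ w g s ≤ Z) (hΔ : r ^ 2 * psi φ w g r ≤ s ^ 2 * psi φ w g s + Δ) (L0 : 0 ≤ L)
    {B : Set (ι → ℝ)} (hB : MeasurableSet B)
    (hL : ∀ y ∉ B, dd (r • Vg φ w g (r, y)) (r • Vg φ w g (r, y)) ≤ L) :
    ex φ w (fun q => Bᶜ.indicator (fun _ => (1 : ℝ)) q.2 *
      dd (mv (1 - P) (r • Vg φ w g q)) (mv (1 - P) (r • Vg φ w g q))) r ≤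
      3 * Δ + (93 * e + 12 * θ ^ 2 + 18 / log M) * Z + 34 * (b * ρ) ^ 2 / e + L * o := by
  obtain ⟨W⟩ := BM.nonempty ι
  have hs := h.pos
  have hsM : s < M * s := by nlinarith
  have hst : s ≤ r := hsM.le.trans hMs
  have ht0 : 0 < r := hs.trans_le hst
  have hLM : 0 < log M := log_pos hM
  have hQ := BM.nice_sl (W := W) (φ := φ) hw ht0.le
  have hH0 := tv_H0 (W := W) (φ := φ) (ε := ε) (g := g) hw hs.le
  have ρ0 := h.ρ0
  have hpt : ∀ u ∈ Icc s r, ∀ ω, dd (TW W φ w ε s (H0 W φ w ε g s) u ω)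
      (TW W φ w ε s (H0 W φ w ε g s) u ω) ≤ s * (4 * b ^ 2) := fun u hu ω => by
    have k1 := h.TW_le hw hH0 le_rfl hu.1 hu.2 ω
    rw [HA.TW_start] at k1
    have k2 := h.growth hi he4 le_rfl hu.1 hu.2
    have k3 := dd_H0_le (W := W) (φ := φ) (ε := ε) hw hs (h.ε0 s ⟨le_rfl, hst⟩) hb ω
    have k4 : s * (1 + ε s) * b ^ 2 ≤ s * 2 * b ^ 2 := by
      have := he s ⟨le_rfl, hst⟩
      gcongr; linarith
    refine k1.trans ((mul_le_mul (show _ ≤ (2 : ℝ) by linarith) (k3.trans k4) (dd_self_nonneg _)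
      zero_le_two).trans_eq (by ring))
  obtain ⟨u, hr, hq⟩ := h.pigeon hw hi he4 hM hMs hQ hH0
  have hr2 : u ≤ r := hr.2.trans hMs
  have hr0 : 0 < u := hs.trans_le hr.1
  have hU := h.tv_TW hw hH0 ⟨hr.1, hr2⟩
  have hW := h.tv_TW hw hH0 ⟨hst, le_rfl⟩
  have hV := (tv_Vg (W := W) (φ := φ) hw ht0.le g).smul (BM.Tm.const r)
  have f1 := h.align hw le_rfl hH0 hr.1 hr2 (by positivity) hpt
  have f2 := h.II_TW_le hw hQ hH0 le_rfl hr.1 hr2
  have f2' := h.II_TW_le hw hQ hH0 le_rfl hst le_rfl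
  have f3 := h.II_TW_le hw hQ hH0 hr.1 hr2 le_rfl
  have f4 := h.growth hi he4 le_rfl hr.1 hr2
  have f4' := h.growth hi he4 le_rfl hst le_rfl
  have f5 := h.growth hi he4 hr.1 hr2 le_rfl
  have f8 := h.cons_le hw hst le_rfl hH0 hb0 hb
  have f9 := psi_le_H0 (W := W) (φ := φ) (ε := ε) hw hs hst hb
  have f10 := II_H0_le (W := W) (φ := φ) (ε := ε) (g := g) hw hs.le hst
  have hYU := (hU.mono hr2).mv (tm_Y (φ := φ) (ε := ε) hw ht0.le)
  have hYu := hU.mv (tm_Y (φ := φ) (ε := ε) hw hr0.le)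
  have f15 := int_le3 (a := 2 * (1 + e)) (b := 2 * (1 + e)) (c := -4)
    ((((hW.sub (hU.mono hr2)).dd (hW.sub (hU.mono hr2))).int hQ).const_mul (1 + e))
    ((hW.dd hW).int hQ) ((hU.dd hU).int hQ) ((hW.dd hYU).int hQ) fun ω =>
      (al_dd (Yp_transpose (φ := φ) (w := w) (ε := ε) (r, W.B r ω)) (quad_Y_nonneg hw ht0.le)
        (fun u => (quad_Y_le (h.ε0 r ⟨hst, le_rfl⟩) u).trans (mul_le_mul_of_nonneg_right
          (by have := he r ⟨hst, le_rfl⟩; simp only; linarith) (SL.dot_self_nonneg u))) _ _).trans_eq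
        (by ring)
  rw [integral_const_mul] at f15
  rw [HA.TW_start] at f2 f2'
  rw [II_H0] at f8
  have er0 := h.ε0 u ⟨hr.1, hr2⟩
  have er1 := he u ⟨hr.1, hr2⟩
  have hps : s * pb φ w ε 3 s ≤ ρ ^ 2 :=
    (mul_le_mul_of_nonneg_left (h.le s ⟨le_rfl, hst⟩) hs.le).trans (h.sup s ⟨le_rfl, hst⟩)
  have G2 : exp (∫ u in s..r, ε u / u) ≤ 2 :=
    (exp_le_one_add (h.eps_nonneg le_rfl hst le_rfl) (by linarith)).trans (by linarith)
  have N0 := TV.nonneg (Q := W.Qsl φ w r) (TW W φ w ε s (H0 W φ w ε g s) u)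
  have A0 := TV.nonneg (Q := W.Qsl φ w r) (H0 W φ w ε g s)
  have hN := f2.trans (mul_le_mul_of_nonneg_right f4 A0)
  have hNr := f2'.trans (mul_le_mul_of_nonneg_right f4' A0)
  have hN2 := hN.trans (mul_le_mul_of_nonneg_right (show 1 + 4 * e ≤ 2 by linarith) A0)
  have hN' := f3.trans (mul_le_mul_of_nonneg_right f5 N0)
  have AL0 := div_nonneg A0 hLM.le
  have hD1 := arith1 (c := b ^ 2 * ρ ^ 2) e0.le er0 N0 AL0 (by positivity) hq
    (f1.trans (add_le_add le_rfl (show 2 * (4 * b ^ 2) * ρ ^ 2 ≤ 8 * (b ^ 2 * ρ ^ 2) by linarith)))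
    hN' hN2 f15
  have i1 := ((hV.sub hW).dd (hV.sub hW)).int hQ
  have i2 := ((hW.sub (hU.mono hr2)).dd (hW.sub (hU.mono hr2))).int hQ
  have i3 := (hU.dd hU).int hQ
  have i4 := (hU.dd hYu).int hQ
  have i5 := (W.tm_mg hr0.le (mg_ind (meas_BH (φ := φ) hw P θ u))).int hQ
  have m0 := (mg_ind hB.compl).mul (mg_dd_mv (φ := φ) hw g r (1 - P))
  have g1 := int_le3 (a := 3) (b := 3) (c := 1) ((W.tm_mg ht0.le m0).int hQ) i1 i2
    (((i3.const_mul (6 * (e ^ 2 + θ ^ 2 + (1 + ε u)))).sub (i4.const_mul 6)).add (i5.const_mul L))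
    fun ω => by
      set U := TW W φ w ε s (H0 W φ w ε g s) u ω with hUd
      set V := TW W φ w ε s (H0 W φ w ε g s) r ω with hVd
      set a := r • Vg φ w g (r, W.B r ω) with ha
      set Y := Yp φ w ε (u, W.B u ω) with hY
      have U0 := dd_self_nonneg U
      have c1 := dd_self_nonneg (a - V)
      have c2 := dd_self_nonneg (V - U)
      have c3 := dd_Y_le (φ := φ) (w := w) (ε := ε) (q := (u, W.B u ω)) er0 U
      have c4 := mul_nonneg (add_nonneg (sq_nonneg e) (sq_nonneg θ)) U0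
      simp only [← hY] at c3
      simp only [Pi.add_apply, Pi.sub_apply]
      rcases ind_cases (BH φ w P θ u) (W.B u ω) with k | k
      · rw [k.2]
        rcases ind_cases Bᶜ (W.B r ω) with j | j
        · have := (dd_mv_le_one hP a).trans (hL _ j.1)
          rw [j.2]; linarith
        · rw [j.2]; linarith
      · rw [k.2]
        have e1 : mv (1 - P) a = mv (1 - P) (a - V) + mv (1 - P) (V - U) + mv (1 - P) U := by
          rw [mv_sub, mv_sub]; abel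
        have e2 : mv (1 - P) U = mv (1 - P) (U - mv Y U) + mv (1 - P) (mv Y U) := by
          rw [mv_sub, sub_add_cancel]
        have b0 := dd_three (mv (1 - P) (a - V)) (mv (1 - P) (V - U)) (mv (1 - P) U)
        have b1 := dd_add_le (mv (1 - P) (U - mv Y U)) (mv (1 - P) (mv Y U))
        have b2 := dd_mv_le_one hP (U - mv Y U)
        have b3 := dd_sub_Y_le (φ := φ) (ε := ε) (q := (u, W.B u ω)) hw hr0 er0 U
        have b4 : dd (mv (1 - P) (mv Y U)) (mv (1 - P) (mv Y U)) ≤ θ ^ 2 * dd U U := by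
          rw [← mv_mul]
          refine (dd_mv_le _ _).trans (mul_le_mul_of_nonneg_right ?_ U0)
          have k1 : opn ((1 - P) * Xp φ w (u, W.B u ω)) ≤ θ := not_lt.1 k.1
          refine pow_le_pow_left₀ (opn_nonneg _) ?_ 2
          rw [hY, Yp, Matrix.mul_smul, opn_smul, abs_of_nonneg (ig_nonneg _)]
          exact (mul_le_of_le_one_left (opn_nonneg _) (ig_le_one _)).trans k1
        have b5 := dd_mv_le_one hP (a - V)
        have b6 := dd_mv_le_one hP (V - U)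
        have b7 := mul_le_mul_of_nonneg_right (pow_le_pow_left₀ er0 er1 2) U0
        have b8 := dd_self_nonneg (mv (1 - P) a)
        rw [← e1] at b0
        rw [← e2] at b1
        simp only [← hY] at b3
        rcases ind_cases Bᶜ (W.B r ω) with j | j <;> rw [j.2] <;> linarith
  have g2 : ∫ ω, dd (r • Vg φ w g (r, W.B r ω) - TW W φ w ε s (H0 W φ w ε g s) r ω)
      (r • Vg φ w g (r, W.B r ω) - TW W φ w ε s (H0 W φ w ε g s) r ω) ∂W.Qsl φ w r =
      r ^ 2 * psi φ w g r - 2 * II (W.Qsl φ w r) (TW W φ w ε s (H0 W φ w ε g s) r)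
        (fun ω => r • Vg φ w g (r, W.B r ω)) + II (W.Qsl φ w r) (TW W φ w ε s (H0 W φ w ε g s) r)
          (TW W φ w ε s (H0 W φ w ε g s) r) := by
    have j1 := integral_add (((hV.dd hV).int hQ).sub (((hW.dd hV).int hQ).const_mul 2))
      ((hW.dd hW).int hQ)
    simp only [Pi.sub_apply] at j1
    rw [← II_Vg (W := W) hw ⟨ht0.le, le_rfl⟩, II, II, II, ← integral_const_mul,
      ← integral_sub ((hV.dd hV).int hQ) (((hW.dd hV).int hQ).const_mul 2), ← j1]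
    congr 1; ext ω
    rw [dd_sub_left, dd_sub_right, dd_sub_right, dd_comm (r • _) (TW _ _ _ _ _ _ _ _)]
    ring
  have j2 := integral_add ((i3.const_mul (6 * (e ^ 2 + θ ^ 2 + (1 + ε u)))).sub (i4.const_mul 6))
    (i5.const_mul L)
  simp only [Pi.add_apply, Pi.sub_apply] at g1 j2
  rw [j2, integral_sub (i3.const_mul _) (i4.const_mul 6), integral_const_mul, integral_const_mul,
    integral_const_mul, int_ind hw ⟨hr0.le, hr2⟩ (meas_BH hw P θ u), g2,
    BM.int_sl hw ⟨ht0.le, le_rfl⟩ m0] at g1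
  refine g1.trans ?_
  have k1 := mul_le_mul_of_nonneg_left (hH u hr) L0
  set A := II (W.Qsl φ w r) (H0 W φ w ε g s) (H0 W φ w ε g s) with hA
  have hAZ : A ≤ Z := f10.trans hZ
  have k2 : 2 * (exp (∫ u in s..r, ε u / u) * √A * b * ρ) ≤ 2 * e * A + 2 * (b * ρ) ^ 2 / e := by
    have a1 : exp (∫ u in s..r, ε u / u) * √A * b * ρ ≤ 2 * (√A * (b * ρ)) := by
      rw [mul_assoc, mul_assoc, ← mul_assoc (√A)]
      rw [mul_assoc (√A)]
      exact mul_le_mul_of_nonneg_right G2 (by positivity)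
    have a2 : 2 * (√A * (b * ρ)) ≤ e * A + (b * ρ) ^ 2 / e := by
      have a3 := div_nonneg (sq_nonneg (e * √A - b * ρ)) e0.le
      have a4 : (e * √A - b * ρ) ^ 2 / e = e * √A ^ 2 + (b * ρ) ^ 2 / e - 2 * (√A * (b * ρ)) := by
        field_simp; ring
      rw [a4, sq_sqrt A0] at a3
      linarith
    rw [mul_div_assoc]
    linarith
  have k3 := mul_le_mul_of_nonneg_left hps (sq_nonneg b)
  have k4 := mul_le_mul_of_nonneg_left hN2 (add_nonneg (sq_nonneg e) (sq_nonneg θ))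
  have k5 : 111 * (b ^ 2 * ρ ^ 2) ≤ 28 * (b * ρ) ^ 2 / e := by
    rw [le_div_iff₀ e0, mul_pow]
    nlinarith [mul_nonneg (sq_nonneg b) (sq_nonneg ρ)]
  have k6 : (90 * e + 12 * (e ^ 2 + θ ^ 2)) * A + 18 * (A / log M) ≤
      (93 * e + 12 * θ ^ 2 + 18 / log M) * Z := by
    have a1 : (90 * e + 12 * (e ^ 2 + θ ^ 2)) * A + 18 * (A / log M) ≤
        (93 * e + 12 * θ ^ 2 + 18 / log M) * A := by
      have := mul_le_mul_of_nonneg_right (show 12 * e ^ 2 ≤ 3 * e by nlinarith) A0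
      rw [add_mul (93 * e + 12 * θ ^ 2), div_mul_eq_mul_div, mul_div_assoc]
      linarith
    exact a1.trans (mul_le_mul_of_nonneg_left hAZ (by positivity))
  have k7 : 34 * (b * ρ) ^ 2 / e = 28 * (b * ρ) ^ 2 / e + 3 * (2 * (b * ρ) ^ 2 / e) := by ring
  unfold II at *
  linarith

/-- almost monotonicity in squared form -/
theorem crude_sq (hw : Wt w) (h : HA φ w ε p s t ρ) (hst : s ≤ t) (hi : ∫ u in s..t, ε u / u ≤ e)
    (e0 : 0 < e) (he4 : e ≤ 1 / 4) (hb0 : 0 ≤ b) (hb : ∀ x, ∑ a, g a x ^ 2 ≤ b ^ 2) :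
    s ^ 2 * psi φ w g s ≤ (1 + 6 * e) * (t ^ 2 * psi φ w g t) + 12 * (b * ρ) ^ 2 / e := by
  have h1 := h.crude hw hst hb0 hb
  have h2 := h.growth hi he4 le_rfl hst le_rfl
  have G2 : exp (∫ u in s..t, ε u / u) ≤ 2 :=
    (exp_le_one_add (h.eps_nonneg le_rfl hst le_rfl) (by linarith)).trans (by linarith)
  rw [two_mul, exp_add] at h2
  set G := exp (∫ u in s..t, ε u / u)
  have G0 : 0 ≤ G := (exp_pos _).le
  have a0 : 0 ≤ t ^ 2 * psi φ w g t := mul_nonneg (sq_nonneg t) (psi_nonneg hw t)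
  have ρ0 := mul_nonneg hb0 h.ρ0
  have h3 := (sqrt_le_iff.1 h1).2
  have h4 := add_sq_le e0 (G * √(t ^ 2 * psi φ w g t)) ((G + 1) * (b * ρ))
  rw [mul_pow, sq_sqrt a0, mul_pow] at h4
  have h5 : (1 + e) * (G ^ 2 * (t ^ 2 * psi φ w g t)) ≤ (1 + 6 * e) * (t ^ 2 * psi φ w g t) := by
    rw [← mul_assoc]
    exact mul_le_mul_of_nonneg_right (by nlinarith) a0
  have h6 : (1 + e⁻¹) * ((G + 1) ^ 2 * (b * ρ) ^ 2) ≤ 12 * (b * ρ) ^ 2 / e := by
    rw [← mul_assoc, div_eq_mul_inv, mul_right_comm 12]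
    refine mul_le_mul_of_nonneg_right ?_ (sq_nonneg _)
    have a1 : 4 ≤ e⁻¹ := by rw [le_inv_comm₀ (by norm_num) e0]; linarith
    nlinarith [mul_le_mul_of_nonneg_left (show (G + 1) ^ 2 ≤ 9 by nlinarith)
      (show 0 ≤ 1 + e⁻¹ by positivity)]
  refine h3.trans ((le_of_eq (by ring)).trans (h4.trans (add_le_add h5 h6)))

theorem exists_block (a : ℕ → ℝ) {J : ℕ} (hJ : 0 < J) (h0 : 0 ≤ a 0) (hZ : a J ≤ Z) :
    ∃ j < J, a (j + 1) ≤ a j + Z / J := by
  by_contra hc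
  push Not at hc
  have hJ' : (0 : ℝ) < J := by exact_mod_cast hJ
  have h1 : ∑ j ∈ Finset.range J, Z / J < ∑ j ∈ Finset.range J, (a (j + 1) - a j) :=
    Finset.sum_lt_sum_of_nonempty ⟨0, Finset.mem_range.2 hJ⟩ fun j hj => by
      have := hc j (Finset.mem_range.1 hj); linarith
  rw [Finset.sum_range_sub, Finset.sum_const, Finset.card_range, nsmul_eq_mul,
    mul_div_cancel₀ _ hJ'.ne'] at h1
  linarith

theorem law_lt_le (hw : Wt w) {F : (ι → ℝ) → ℝ} (hF : MG F) (F0 : ∀ y, 0 ≤ F y) {c : ℝ} (hc : 0 < c) :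
    (law φ w r).real {y | c < F y} ≤ (slE φ w r fun _ => F) / c := by
  have := isProb_law (φ := φ) (s := r) hw
  rw [← integral_law hw hF.meas (.of_mg fun _ => hF), le_div_iff₀ hc, mul_comm]
  exact (mul_le_mul_of_nonneg_left (measureReal_mono (fun y (hy : c < F y) => hy.le)) hc.le).trans
    (mul_meas_ge_le_integral_of_nonneg (.of_forall F0) hF.int_law c)

end

variable {n : ℕ} {κ : Type*} [Fintype κ] {w : Cube n → ℝ} {ε p : ℝ → ℝ} {g : κ → Cube n → ℝ}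
  {b s r t ρ e M θ o Z Δ L T α e2 ζ η γ : ℝ} {P P' : Matrix (Fin n) (Fin n) ℝ}

theorem mg_opn {ι κ : Type*} [Fintype ι] [DecidableEq ι] [Fintype κ] [DecidableEq κ]
    {A : (ι → ℝ) → Matrix κ κ ℝ} (h : ∀ i j, MG fun y => A y i j) : MG fun y => opn (A y) := by
  refine (MG.sum Finset.univ fun i _ => MG.sum Finset.univ fun j _ => (h i j).abs).of_le
    (measurable_opn fun i j => (h i j).meas) fun y => ?_
  rw [abs_of_nonneg (opn_nonneg _)]
  refine (opn_le_sqrt_frob _).trans ((sqrt_le_iff.2 ⟨by positivity, ?_⟩).trans (le_abs_self _))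
  rw [← Finset.sum_product', ← Finset.sum_product']
  simpa only [sq_abs] using Finset.sum_sq_le_sq_sum_of_nonneg
    (f := fun q : κ × κ => |A y q.1 q.2|) fun _ _ => abs_nonneg _

theorem mg_sandwich {ι κ : Type*} [Fintype ι] [DecidableEq ι] [Fintype κ] [DecidableEq κ]
    {A : (ι → ℝ) → Matrix κ κ ℝ} (h : ∀ i j, MG fun y => A y i j) (P P' : Matrix κ κ ℝ) (α : ℝ) :
    MG fun y => opn (P' * (A y - α • 1) * P) :=
  mg_opn fun i j => MG.sum Finset.univ fun k _ => (MG.sum Finset.univ fun l _ =>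
    ((h l k).sub (.const ((α • (1 : Matrix κ κ ℝ)) l k))).const_mul (P' i l)).mul (.const (P k j))

/-- **`D*` on one block** -/
theorem ds_block (hn : 0 < n) (hw : ∀ x, 0 < w x) (h : HA sv w ε p s t ρ) (he : ∀ u ∈ Icc s t, ε u ≤ e)
    (hi : ∫ u in s..t, ε u / u ≤ e) (e0 : 0 < e) (he4 : e ≤ 1 / 4) (hM : 1 < M) (hMs : M * s ≤ r)
    (hrt : r ≤ t) (hb0 : 0 ≤ b) (hb : ∀ x, ∑ a, g a x ^ 2 ≤ b ^ 2) (hP : Pᵀ = P) (hPP : P * P = P)
    (hP' : P'ᵀ = P') (hPP' : P' * P = P) (hQ : opn (1 - P') ≤ 1)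
    (hH : ∀ u ∈ Icc s (M * s), (law sv w u).real (BH sv w P' θ u) ≤ o)
    (hZ : ∀ u ∈ Icc s t, u ^ 2 * psi sv w g u ≤ Z) (hV : t * Vr sv w g t ≤ Z)
    (hΔ : t ^ 2 * psi sv w g t ≤ s ^ 2 * psi sv w g s + Δ) (hT : 0 < T) (hη : 0 < η) (hγ : 0 < γ)
    (he2 : 0 < e2) (L0 : 0 < L)
    (hA : (slE sv w r fun x y => opn (P' * (Am (post sv w r y) T x - α • 1) * P)) ≤ ζ) :
    ∃ B : Set (Fin n → ℝ), MeasurableSet B ∧ (law sv w r).real B ≤ ζ / e2 + Z / L ∧
      α * ex sv w (fun q => Bᶜ.indicator (fun _ => (1 : ℝ)) q.2 *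
        dd (mv P (r • Vg sv w g q)) (mv P (r • Vg sv w g q))) r ≤
      2 * T * (1 + η) * ∑ k, dir w (g k) +
        (1 + η⁻¹) / r * (r / t * Z + Δ + 13 * e * Z + 25 * (b * ρ) ^ 2 / e) + (3 * e2 + 2 * T * γ) * Z +
        2 * T / γ * (3 * Δ + (111 * e + 12 * θ ^ 2 + 18 / log M) * Z + 70 * (b * ρ) ^ 2 / e + L * o) := by
  have hW := Wt.of_pos hw
  have hs := h.pos
  have hsr : s ≤ r := le_trans (by nlinarith) hMs
  have hr : 0 < r := hs.trans_le hsr
  have ht : 0 < t := hr.trans_le hrt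
  have hp := post_pos hw sv r
  have cr : ∀ u ∈ Icc s t, ∀ v ∈ Icc u t, u ^ 2 * psi sv w g u ≤
      v ^ 2 * psi sv w g v + (6 * e * Z + 12 * (b * ρ) ^ 2 / e) := fun u hu v hv => by
    have k1 := crude_sq hW (h.mono hu.1 hv.1 hv.2) hv.1
      ((h.eps_le le_rfl hu.1 hv.1 hv.2 le_rfl).trans hi) e0 he4 hb0 hb
    have k2 := mul_le_mul_of_nonneg_left (hZ v ⟨hu.1.trans hv.1, hv.2⟩) e0.le
    linarith
  set κ1 := 6 * e * Z + 12 * (b * ρ) ^ 2 / e with hκ
  have m1 := mg_sandwich (fun i j => mg_Ab (φ := sv) hn hw r hT.le i j) P P' α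
  have m2 := mg_dd_mv (φ := sv) hW g r 1
  have e1 : ∀ U : κ → Fin n → ℝ, mv 1 U = U := fun U => by ext; simp [mv]
  simp only [e1] at m2
  set B := {y | e2 < opn (P' * (Ab (post sv w r y) T - α • 1) * P)} ∪
    {y | L < dd (r • Vg sv w g (r, y)) (r • Vg sv w g (r, y))} with hB
  have mB : MeasurableSet B := (measurableSet_lt measurable_const m1.meas).union
    (measurableSet_lt measurable_const m2.meas)
  have e2' : (slE sv w r fun _ y => dd (r • Vg sv w g (r, y)) (r • Vg sv w g (r, y))) =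
      r ^ 2 * psi sv w g r := by
    simp only [dd_smul_left, dd_smul_right, ← mul_assoc, slE_const_mul, sq]; rfl
  refine ⟨B, mB, (measureReal_union_le _ _).trans (add_le_add
    ((law_lt_le hW m1 (fun _ => opn_nonneg _) he2).trans (div_le_div_of_nonneg_right ?_ he2.le))
    ((law_lt_le hW m2 (fun _ => dd_self_nonneg _) L0).trans (div_le_div_of_nonneg_right ?_ L0.le))), ?_⟩
  · have m3 := fun x => mg_sandwich (fun i j => mg_Am (φ := sv) hn hw r hT.le x i j) P P' α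
    refine le_trans ?_ hA
    rw [bayes hW hr.le (.of_mg m3)]
    exact slE_mono hW (.of_mg fun _ => m1) (.of_mg fun _ => mg_mean hW r m3) fun _ y =>
      opn_Ab_le (hW.post sv r y) T α P P'
  · exact e2'.trans_le (hZ r ⟨hsr, hrt⟩)
  have s1 := soft_le hW (h.mono le_rfl hsr hrt) (fun u hu => he u ⟨hu.1, hu.2.trans hrt⟩)
    ((h.eps_le le_rfl le_rfl hsr hrt le_rfl).trans hi) e0 he4 hM hMs hb0 hb hQ hH
    (hZ s ⟨le_rfl, hsr.trans hrt⟩) (Δ := Δ + κ1)
    (by have := cr r ⟨hsr, hrt⟩ t ⟨hrt, le_rfl⟩; linarith) L0.le mB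
    fun y hy => not_lt.1 fun k => hy (Or.inr k)
  have s2 := ex_var_lin_le (φ := sv) (ε := ε) (β := r ^ 2 * psi sv w g r + (Δ + 2 * κ1)) hW hr hrt
    (h.ε0 r ⟨hsr, hrt⟩) hb fun u hu => by
      have k1 := cr u ⟨hsr.trans hu.1, hu.2⟩ t ⟨hu.2, le_rfl⟩
      have k2 := cr s ⟨le_rfl, hsr.trans hrt⟩ r ⟨hsr, hrt⟩
      linarith
  have n1 := (mg_ind mB.compl).mul (mg_dd_mv (φ := sv) hW g r P)
  have n2 : MG fun y => ∑ k, dir (post sv w r y) (g k) :=
    .sum _ fun k _ => mg_dir (Ψ := fun x _ => g k x) hw fun _ => .const _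
  have n3 := mg_var_lin (φ := sv) hW g r
  have n4 := (mg_ind mB.compl).mul (mg_dd_mv (φ := sv) hW g r (1 - P'))
  have c0 : 0 ≤ 3 * e2 + 2 * T * γ := by positivity
  have s3 := slE_mono (φ := sv) (s := r) hW (.of_mg fun _ => n1.const_mul α)
    (.of_mg fun _ => (((n2.const_mul (2 * T * (1 + η))).add (n3.const_mul (1 + η⁻¹))).add
      (m2.const_mul (3 * e2 + 2 * T * γ))).add (n4.const_mul (2 * T / γ))) fun _ y => by
      rcases ind_cases Bᶜ y with j | j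
      · rw [j.2, one_mul, one_mul]
        exact ds_one hn (hp y) hT hη hγ hP hPP hP' hPP' (not_lt.1 fun k => j.1 (Or.inl k)) g _
      · rw [j.2, zero_mul, zero_mul, mul_zero, mul_zero, add_zero]
        have a1 := Finset.sum_nonneg fun k (_ : k ∈ Finset.univ) => Ent.dir_nonneg (hp y) (g k)
        have a2 := Finset.sum_nonneg fun k (_ : k ∈ Finset.univ) => (hW.post sv r y).var_nonneg
          fun x => g k x - (r • Vg sv w g (r, y)) k ⬝ᵥ sv x
        have a3 := dd_self_nonneg (r • Vg sv w g (r, y))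
        positivity
  rw [slE_add (.of_mg fun _ => ((n2.const_mul _).add (n3.const_mul _)).add (m2.const_mul _))
    (.of_mg fun _ => n4.const_mul _), slE_add (.of_mg fun _ => (n2.const_mul _).add (n3.const_mul _))
    (.of_mg fun _ => m2.const_mul _), slE_add (.of_mg fun _ => n2.const_mul _)
    (.of_mg fun _ => n3.const_mul _), slE_const_mul, slE_const_mul, slE_const_mul, slE_const_mul,
    slE_const_mul, e2', slE_sum _ fun k _ => .of_mg fun _ =>
      mg_dir (Ψ := fun x _ => g k x) hw fun _ => .const _] at s3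
  refine s3.trans (add_le_add (add_le_add (add_le_add (mul_le_mul_of_nonneg_left
    (Finset.sum_le_sum fun k _ => ex_dir_le hw hr.le (g k)) (by positivity)) ?_)
    (mul_le_mul_of_nonneg_left (hZ r ⟨hsr, hrt⟩) c0)) (mul_le_mul_of_nonneg_left (s1.trans ?_)
      (by positivity)))
  · rw [div_mul_eq_mul_div, mul_div_assoc]
    refine mul_le_mul_of_nonneg_left ?_ (by positivity)
    rw [le_div_iff₀ hr, mul_comm]
    refine s2.trans ?_
    have k1 : r * Vr sv w g t ≤ r / t * Z := by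
      rw [div_mul_eq_mul_div, mul_div_assoc]
      exact mul_le_mul_of_nonneg_left (by rwa [le_div_iff₀ ht, mul_comm]) hr.le
    have k2 := mul_le_mul (he r ⟨hsr, hrt⟩) (hZ r ⟨hsr, hrt⟩)
      (mul_nonneg (sq_nonneg r) (psi_nonneg hW r)) e0.le
    have k3 := mul_le_mul_of_nonneg_left ((mul_le_mul_of_nonneg_left (h.le r ⟨hsr, hrt⟩) hr.le).trans
      (h.sup r ⟨hsr, hrt⟩)) (sq_nonneg b)
    have k4 : b ^ 2 * ρ ^ 2 ≤ (b * ρ) ^ 2 / e := by
      rw [le_div_iff₀ e0, mul_pow]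
      nlinarith [mul_nonneg (sq_nonneg b) (sq_nonneg ρ)]
    have k5 : 25 * (b * ρ) ^ 2 / e = 2 * (12 * (b * ρ) ^ 2 / e) + (b * ρ) ^ 2 / e := by ring
    linarith
  · exact le_of_eq (by rw [hκ]; ring)

end Crest.Agent.T157.Rec

end
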