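import Crest.Agent.T157.DsB_77
import Crest.Agent.T157.TrE_64

/-!
# Row 157, part C (helper77): `D*` at fixed size, in the form `Tr.DS`
-/

set_option autoImplicit false
set_option linter.unusedSectionVars false

noncomputable section

namespace Crest.Agent.T157.Rec

open MeasureTheory ProbabilityTheory Filter Topology Set Real Matrix Function
open Crest.Agent.T157.E Crest.Agent.T157.SL Crest.Agent.T157.Eig Crest.Agent.T157.Tr

variable {n : ℕ}

/-- the mean distance of the matrix `A_T` of the posterior at time `r` from `α`, between the ranges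
of `P'` and `P` -/
def dA (w : Cube n → ℝ) (P' P : Matrix (Fin n) (Fin n) ℝ) (r T α : ℝ) : ℝ :=
  slE sv w r fun x y => opn (P' * (Am (post sv w r y) T x - α • 1) * P)

/-- the input of one block: on `[s, M s]` the covariance lives in the range of `P'`, and there the
matrix `A_T` at time `r` is a scalar `α ≥ 2 T k` -/
def Blk (w : Cube n → ℝ) (P : Matrix (Fin n) (Fin n) ℝ) (s r T k θ M o ζ : ℝ) : Prop :=
  ∃ (α : ℝ) (P' : Matrix (Fin n) (Fin n) ℝ), P'ᵀ = P' ∧ P' * P = P ∧ opn (1 - P') ≤ 1 ∧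
    (∀ u ∈ Icc s (M * s), (law sv w u).real (BH sv w P' θ u) ≤ o) ∧ 2 * T * k ≤ α ∧
    dA w P' P r T α ≤ ζ

theorem opn_proj_le {ι : Type*} [Fintype ι] [DecidableEq ι] {P : Matrix ι ι ℝ} (h : Pᵀ = P)
    (hP : P * P = P) : opn P ≤ 1 := by
  have := opn_transpose_mul_self P
  rw [h, hP] at this
  nlinarith [opn_nonneg P]

theorem ds_arith {G η k τ x γ E c Z T r t X D o' L α : ℝ} (hη : 0 < η) (hk : 0 < k) (hτ : 0 < τ)
    (hG : 0 < G) (hγ : γ = η * k / G / 4) (x0 : 0 < x) (x1 : x ≤ 1 / 4)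
    (x2 : x * (15 * ((1 + η⁻¹) / (2 * τ)) + 137 / γ) ≤ 2 * γ) (E0 : 0 ≤ E) (c0 : 0 ≤ c)
    (hZ : Z = G * (E + c)) (hT : 0 < T) (hr : 0 < r) (hTr : τ ≤ T * r) (hrt : r / t ≤ x) (X0 : 0 ≤ X)
    (hD : D ≤ x * Z) (hL : L * o' ≤ 2 * x * Z) (hα : 2 * T * k ≤ α) {lM c' : ℝ} (hM : 18 / lM ≤ 18 * x)
    (hc : c' ≤ c)
    (h : α * X ≤ 2 * T * (1 + η) * E + (1 + η⁻¹) / r * (r / t * Z + D + 13 * x * Z + 25 * c' / x) +
      (3 * (2 / 3 * γ * T) + 2 * T * γ) * Z +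
      2 * T / γ * (3 * D + (111 * x + 12 * x ^ 2 + 18 / lM) * Z + 70 * c' / x + L * o')) :
    X ≤ (1 + η) / k * E + η * E + (η + (25 * ((1 + η⁻¹) / (2 * τ)) + 70 / γ) / (x * k)) * c := by
  have γ0 : 0 < γ := by rw [hγ]; positivity
  have Z0 : 0 ≤ Z := by rw [hZ]; positivity
  set A := (1 + η⁻¹) / (2 * τ) with hA
  have A0 : 0 ≤ A := by positivity
  have a1 : (1 + η⁻¹) / r ≤ 2 * T * A := by
    rw [hA, div_le_iff₀ hr, mul_div_assoc', div_mul_eq_mul_div, le_div_iff₀ (by positivity)]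
    nlinarith [mul_le_mul_of_nonneg_left hTr (show 0 ≤ 1 + η⁻¹ by positivity)]
  have a0 : c' / x ≤ c / x := div_le_div_of_nonneg_right hc x0.le
  have a2 : r / t * Z + D + 13 * x * Z + 25 * c' / x ≤ 15 * (x * Z) + 25 * (c / x) := by
    have := mul_le_mul_of_nonneg_right hrt Z0
    rw [mul_div_assoc]; linarith
  have a3 : 3 * D + (111 * x + 12 * x ^ 2 + 18 / lM) * Z + 70 * c' / x + L * o' ≤
      137 * (x * Z) + 70 * (c / x) := by
    have := mul_le_mul_of_nonneg_right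
      (show 111 * x + 12 * x ^ 2 + 18 / lM ≤ 132 * x by nlinarith) Z0
    rw [mul_div_assoc]; linarith
  have a4 := (mul_le_mul_of_nonneg_left a2 (show 0 ≤ (1 + η⁻¹) / r by positivity)).trans
    (mul_le_mul_of_nonneg_right a1 (by positivity))
  have a5 := mul_le_mul_of_nonneg_left a3 (show 0 ≤ 2 * T / γ by positivity)
  have a6 := mul_le_mul_of_nonneg_right hα X0
  have a7 := mul_le_mul_of_nonneg_left (mul_le_mul_of_nonneg_right x2 Z0) hT.le
  have a8 : 4 * γ * Z = η * k * (E + c) := by rw [hγ, hZ]; field_simp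
  have a9 : 2 * T * k * X ≤ 2 * T * k * ((1 + η) / k * E + η * E +
      (η + (25 * A + 70 / γ) / (x * k)) * c) := by
    have e1 : 2 * T * k * ((1 + η) / k * E + η * E + (η + (25 * A + 70 / γ) / (x * k)) * c) =
        2 * T * (1 + η) * E + 2 * T * (η * k * (E + c)) + 2 * T * A * (25 * (c / x)) +
          2 * T / γ * (70 * (c / x)) := by field_simp; ring
    have e2 : T * (x * (15 * A + 137 / γ) * Z) * 2 =
        2 * T * A * (15 * (x * Z)) + 2 * T / γ * (137 * (x * Z)) := by ring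
    rw [e1, ← a8]
    nlinarith
  exact le_of_mul_le_mul_left a9 (by positivity)

/-- **`D*` at fixed size** -/
theorem ds_core {C η k τ : ℝ} (hC : 1 ≤ C) (hη : 0 < η) (hk : 0 < k) (hτ : 0 < τ) :
    ∃ (J : ℕ) (δ M C' : ℝ), 0 < δ ∧ δ ≤ 1 ∧ 1 < M ∧ 0 < C' ∧
    ∀ {n : ℕ} (w : Cube n → ℝ) (ε p : ℝ → ℝ) (s0 t0 t1 ρ z o : ℝ) (P : Matrix (Fin n) (Fin n) ℝ)
      (S T : ℕ → ℝ), 0 < n → (∀ x, 0 < w x) → HC sv w ε p s0 t1 ρ C z → t0 ≤ t1 →
      (∀ r ∈ Icc s0 t0, ε r ≤ δ) → ∫ u in s0..t0, ε u / u ≤ δ → Pᵀ = P → P * P = P → 0 < o →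
      (∀ j ≤ J, S j ∈ Icc s0 t0) → (∀ j < J, M * S j ≤ δ * S (j + 1) ∧ τ ≤ T j * (δ * S (j + 1)) ∧
        Blk w P (S j) (δ * S (j + 1)) (T j) k δ M (δ * o) (δ * o * T j)) →
      ∀ {κ : Type} [Fintype κ] (g : κ → Cube n → ℝ) (b : ℝ), 0 ≤ b → (∀ x, ∑ a, g a x ^ 2 ≤ b ^ 2) →
        Ph sv w g t1 ≤ C * ∑ a, dir w (g a) + (b * z) ^ 2 →
        ∃ j < J, DS sv w g P (δ * S (j + 1)) o
          ((1 + η) / k * ∑ a, dir w (g a) + η * ∑ a, dir w (g a) + C' * (b * z) ^ 2) := by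
  set G := Gam C ^ 2 + C ^ 2 with hG
  have G0 : 0 < G := by positivity
  set γ := η * k / G / 4 with hγ
  have γ0 : 0 < γ := by positivity
  set x := min (min (1 / 4) (γ / 3)) (2 * γ / (15 * ((1 + η⁻¹) / (2 * τ)) + 137 / γ)) with hx
  have x0 : 0 < x := by positivity
  have x1 : x ≤ 1 / 4 := (min_le_left _ _).trans (min_le_left _ _)
  have x3 : x ≤ γ / 3 := (min_le_left _ _).trans (min_le_right _ _)
  have x2 : x * (15 * ((1 + η⁻¹) / (2 * τ)) + 137 / γ) ≤ 2 * γ :=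
    (le_div_iff₀ (by positivity)).1 (min_le_right _ _)
  have hM : 1 < exp x⁻¹ := one_lt_exp_iff.2 (by positivity)
  have hJ : x⁻¹ ≤ ⌈x⁻¹⌉₊ := Nat.le_ceil _
  have J0 : 0 < ⌈x⁻¹⌉₊ := Nat.ceil_pos.2 (by positivity)
  refine ⟨⌈x⁻¹⌉₊, x, exp x⁻¹, η + (25 * ((1 + η⁻¹) / (2 * τ)) + 70 / γ) / (x * k), x0, by linarith, hM,
    by positivity, ?_⟩
  intro n w ε p s0 t0 t1 ρ z o P S T hn hw h ht he hi hP hPP o0 hS hB κ _ g b hb0 hb hE
  have hW := Wt.of_pos hw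
  set E := ∑ a, dir w (g a) with hEd
  have E0 : 0 ≤ E := Finset.sum_nonneg fun a _ => Ent.dir_nonneg hw (g a)
  set Z := G * (E + (b * z) ^ 2) with hZd
  have hZ : ∀ u ∈ Icc s0 t1, u ^ 2 * psi sv w g u ≤ Z := fun u hu =>
    (h.psi_le hW hb0 hb E0 hE hu).trans
      (mul_le_mul_of_nonneg_right (le_add_of_nonneg_right (sq_nonneg C)) (by positivity))
  have hS' : ∀ j ≤ ⌈x⁻¹⌉₊, S j ∈ Icc s0 t1 := fun j hj => ⟨(hS j hj).1, (hS j hj).2.trans ht⟩
  obtain ⟨j, hj, hΔ⟩ := exists_block (fun j => S j ^ 2 * psi sv w g (S j)) J0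
    (mul_nonneg (sq_nonneg _) (psi_nonneg hW _)) (hZ _ (hS' _ le_rfl))
  obtain ⟨b1, b2, α, P', c1, c2, c3, c4, c5, c6⟩ := hB j hj
  have m1 := hS j hj.le
  have m2 := hS (j + 1) hj
  have s0p : 0 < S j := h.ha.pos.trans_le m1.1
  have t0p : 0 < S (j + 1) := h.ha.pos.trans_le m2.1
  have hr : 0 < x * S (j + 1) := by positivity
  have hrt : x * S (j + 1) ≤ S (j + 1) := mul_le_of_le_one_left t0p.le (by linarith)
  have hsr : S j ≤ x * S (j + 1) := le_trans (le_mul_of_one_le_left s0p.le hM.le) b1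
  have hT : 0 < T j := (mul_pos_iff_of_pos_right hr).1 (hτ.trans_le b2)
  refine ⟨j, hj, ?_⟩
  have mm := mg_dd_mv (φ := sv) hW g (x * S (j + 1)) P
  rcases (show 0 ≤ Z by positivity).eq_or_lt with Z0 | Z0
  · refine ⟨∅, .empty, by simpa using o0.le, ?_⟩
    have hP1 : opn P ≤ 1 := opn_proj_le hP hPP
    have m3 := mg_dd_mv (φ := sv) hW g (x * S (j + 1)) 1
    have e1 : ∀ U : κ → Fin n → ℝ, mv 1 U = U := fun U => by ext; simp [mv]
    simp only [e1] at m3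
    rw [hP]
    refine (ex_mono (H := fun q => dd ((x * S (j + 1)) • Vg sv w g q) ((x * S (j + 1)) • Vg sv w g q))
      hW ((mg_ind MeasurableSet.empty.compl).mul mm) m3 fun y => ?_).trans ?_
    · simpa only [compl_empty, indicator_univ, one_mul] using dd_mv_le_one hP1 _
    · simp only [dd_smul_left, dd_smul_right, ← mul_assoc, ex_const_mul, ← sq]
      exact (hZ _ ⟨m1.1.trans hsr, hrt.trans (m2.2.trans ht)⟩).trans (Z0.ge.trans (by positivity))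
  obtain ⟨B, hBm, hBo, hX⟩ := ds_block (e2 := 2 / 3 * γ * T j) (L := 2 * Z / o) (γ := γ) hn hw
    (h.ha.mono m1.1 (hsr.trans hrt) (m2.2.trans ht))
    (fun u hu => he u ⟨m1.1.trans hu.1, hu.2.trans m2.2⟩)
    ((h.ha.eps_le le_rfl m1.1 (hsr.trans hrt) m2.2 ht).trans hi) x0 x1 hM b1 hrt hb0 hb hP hPP c1 c2 c3
    c4 (fun u hu => hZ u ⟨m1.1.trans hu.1, hu.2.trans (m2.2.trans ht)⟩)
    (h.Ph_le hW hb0 hb E0 hE (hS' _ hj)) hΔ hT hη γ0 (by positivity) (by positivity) c6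
  refine ⟨B, hBm, hBo.trans ?_, ?_⟩
  · have e1 : Z / (2 * Z / o) = o / 2 := by field_simp
    have e2 : x * o * T j / (2 / 3 * γ * T j) ≤ o / 2 := by
      rw [div_le_iff₀ (by positivity)]
      nlinarith [mul_le_mul_of_nonneg_right x3 (mul_pos o0 hT).le]
    linarith
  · rw [hP]
    refine ds_arith hη hk hτ G0 hγ x0 x1 x2 E0 (sq_nonneg _) hZd hT hr b2
      (by rw [mul_div_assoc, div_self t0p.ne', mul_one])
      (ex_nonneg hW fun y => mul_nonneg (by rcases ind_cases Bᶜ y with j | j <;> simp [j.2])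
        (dd_self_nonneg _)) ?_ (le_of_eq (by field_simp)) c5 (by rw [log_exp, div_inv_eq_mul])
      (pow_le_pow_left₀ (mul_nonneg hb0 h.ha.ρ0) (mul_le_mul_of_nonneg_left h.ρz hb0) 2) hX
    rw [div_le_iff₀ (by exact_mod_cast J0), mul_right_comm]
    exact le_mul_of_one_le_left Z0.le (by rwa [← inv_le_iff_one_le_mul₀' x0])

end Crest.Agent.T157.Rec

end
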