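import Crest.Agent.T157.DsD_77

/-!
# Row 157, part C (helper77): the constant `k` and its positivity
-/

set_option autoImplicit false
set_option linter.unusedSectionVars false

noncomputable section

namespace Crest.Agent.T157.Rec

open MeasureTheory ProbabilityTheory Filter Topology Set Real Matrix Function
open Crest.ProbabilityR.SpinGlassDynamics
open Crest.Agent.T157.E Crest.Agent.T157.SL Crest.Agent.T157.Eig Crest.Agent.T157.Tr
open Crest.Agent.T157.Chain22 (sg)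
open Crest.Agent.T157.Da (DAev tm e0 badP DAStmt DLStmt GRStmt)
open Crest.Agent.T157.Soft (N23)
open Crest.Agent.T157.Top (Whp)

variable {n : ℕ}

/-- (DL) at time `T` with scalar `α` -/
def DLat (T α : ℝ) : Prop := ∀ ε : ℝ, 0 < ε → ∃ η : ℝ, 0 < η ∧ ∀ δ : ℝ, 0 < δ →
  Whp PM fun n p => bad (gibbsWeight n 1 p.1) (Wmat n p.1 p.2) T 0 ε η α ≤ δ

/-- `k = inf α(T) / 2T` -/
def IsK (k : ℝ) : Prop := 0 < k ∧ ∃ α : ℝ → ℝ, (∀ T, 0 < T → DLat T (α T) ∧ 2 * T * k ≤ α T) ∧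
  ∀ e, 0 < e → ∃ T, 0 < T ∧ α T ≤ 2 * T * (k + e)

theorem off_exists {X : ℕ → Type*} [∀ n, MeasurableSpace (X n)] {μ : ∀ n, Measure (X n)}
    [∀ n, IsProbabilityMeasure (μ n)] {P : ∀ n, X n → Prop} {ε : ℝ} (h : Off μ ε P) (hε : ε < 1) :
    ∀ᶠ n in atTop, ∃ x, P n x :=
  Eventually.mono h fun n hn => by
    by_contra hc
    push Not at hc
    simp only [hc, not_false_eq_true, ofPred_true, measure_univ] at hn
    exact not_lt.2 hn (ENNReal.ofReal_lt_one.2 hε)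

theorem ev_e0 {η : ℝ} (hη : 0 < η) : ∀ᶠ n : ℕ in atTop, e0 n ≤ η :=
  ((tendsto_rpow_neg_atTop (by norm_num : (0 : ℝ) < 13 / 20)).comp
    tendsto_natCast_atTop_atTop).eventually (ge_mem_nhds hη)

theorem tendsto_N23 : Tendsto N23 atTop atTop :=
  (tendsto_rpow_atTop (by norm_num : (0 : ℝ) < 2 / 3)).comp tendsto_natCast_atTop_atTop

theorem ev_div (L : ℝ) {η : ℝ} (hη : 0 < η) : ∀ᶠ n : ℕ in atTop, L / N23 n ≤ η :=
  (tendsto_N23.const_div_atTop L).eventually (ge_mem_nhds hη)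

theorem ev_win (L : ℝ) : ∀ᶠ n : ℕ in atTop, L / N23 n ≤ e0 n := by
  filter_upwards [((tendsto_rpow_atTop (by norm_num : (0 : ℝ) < 1 / 60)).comp
    tendsto_natCast_atTop_atTop).eventually_ge_atTop L, eventually_gt_atTop 0] with n h hn
  have n0 : (0 : ℝ) < n := by exact_mod_cast hn
  rw [div_le_iff₀ (Soft.N23_pos hn), e0, N23, ← rpow_add n0]
  norm_num at h ⊢
  exact h

theorem TopStmt.soft (h : TopStmt) : Whp PM fun n p => ∃ u, Sf (Wmat n p.1 p.2) u :=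
  whp_of_off fun ε hε => by
    obtain ⟨δ, M, -, h⟩ := h ε hε
    exact h.imp fun n p ⟨u, hu, _⟩ => ⟨u, hu⟩

/-- truncation at level one -/
def cl (t : ℝ) : ℝ := max (-1) (min 1 t)

theorem abs_cl_le (t : ℝ) : |cl t| ≤ 1 :=
  abs_le.2 ⟨le_max_left _ _, max_le (by norm_num) (min_le_left _ _)⟩

theorem cl_sub_sq (s t : ℝ) : (cl s - cl t) ^ 2 ≤ (s - t) ^ 2 := by
  rw [sq_le_sq, cl, cl, max_comm, max_comm (-1)]
  refine (abs_max_sub_max_le_abs _ _ _).trans ?_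
  simpa using abs_min_sub_min_le_max (1 : ℝ) s 1 t

theorem cl_neg (t : ℝ) : cl (-t) = -cl t := by
  simp only [cl, max_def, min_def]
  split_ifs <;> linarith

theorem le_cl_sq (t : ℝ) : t ^ 2 - t ^ 4 ≤ cl t ^ 2 := by
  simp only [cl, max_def, min_def]
  split_ifs <;> nlinarith [sq_nonneg (t ^ 2), sq_nonneg (t ^ 2 - 1)]

theorem dir_cl_le {w : Cube n → ℝ} (hn : 0 < n) (hw : ∀ x, 0 < w x) (c : ℝ) (f : Cube n → ℝ) :
    dir w (fun x => cl (c * f x)) ≤ c ^ 2 * dir w f := by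
  rw [Chain22.dir_eq_D hn hw, Chain22.dir_eq_D hn hw, Chain22.RC.D_eq, Chain22.RC.D_eq,
    mul_left_comm (c ^ 2), mul_left_comm (c ^ 2), Finset.mul_sum _ _ (c ^ 2)]
  refine mul_le_mul_of_nonneg_left (mul_le_mul_of_nonneg_left (Finset.sum_le_sum fun x _ => ?_)
    (by norm_num)) (Nat.cast_nonneg n)
  rw [Finset.mul_sum]
  refine Finset.sum_le_sum fun y _ => ?_
  rw [mul_left_comm (c ^ 2)]
  refine mul_le_mul_of_nonneg_left ?_
    (mul_nonneg ((Chain22.hbRC hn hw).pos x).le ((Chain22.hbRC hn hw).nn x y))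
  nlinarith [cl_sub_sq (c * f x) (c * f y)]

/-- a weak Poincaré inequality bounds the energy of `P_t l` below -/
theorem wp_lower {w : Cube n → ℝ} (hn : 0 < n) (hw : ∀ x, 0 < w x) {N q β η t : ℝ} (hN : 0 < N)
    (hq : 0 < q) (β0 : 0 ≤ β) (ht : 0 ≤ t) {u : Fin n → ℝ} (hu : u ⬝ᵥ u = 1)
    (hodd : ∀ f : Cube n → ℝ, (∀ x, f (Bar.neg x) = -f x) → mean w f = 0)
    (hW : ∀ f : Cube n → ℝ, (∀ x, |f x| ≤ 1) → var w f ≤ β * (N * dir w f) + η) :
    mean w (fun x => (u ⬝ᵥ sv x) ^ 2) / N - mean w (fun x => (u ⬝ᵥ sv x) ^ 4) / (q * N ^ 2) ≤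
      2 * β * dir w (sg w t fun x => u ⬝ᵥ sv x) + 2 * q * η + 2 * (t / N) := by
  have hw' := Wt.of_pos hw
  set c := (√(q * N))⁻¹ with hc
  have c2 : c ^ 2 = (q * N)⁻¹ := by rw [hc, inv_pow, sq_sqrt (by positivity)]
  have c4 : c ^ 4 = (q * N)⁻¹ ^ 2 := by rw [← c2]; ring
  set l : Cube n → ℝ := fun x => u ⬝ᵥ sv x with hl
  have h1 : mean w (fun x => cl (c * l x)) = 0 := hodd _ fun x => by
    simp only [hl, Bar.sv_neg, dotProduct_neg, mul_neg, cl_neg]
  have h2 : c ^ 2 * mean w (fun x => l x ^ 2) - c ^ 4 * mean w (fun x => l x ^ 4) ≤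
      var w fun x => cl (c * l x) := by
    rw [var_eq_cov, cov_eq_mean, h1, ← mean_const_mul, ← mean_const_mul, ← mean_sub]
    exact hw'.mean_mono fun x => by nlinarith [le_cl_sq (c * l x)]
  have h3 := var_add_le hw' (fun x => cl (c * sg w t l x))
    (fun x => cl (c * l x) - cl (c * sg w t l x)) one_pos
  simp only [add_sub_cancel] at h3
  have h4 := (hW _ fun x => abs_cl_le (c * sg w t l x)).trans (add_le_add (mul_le_mul_of_nonneg_left
    (mul_le_mul_of_nonneg_left (dir_cl_le hn hw c _) hN.le) β0) le_rfl)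
  have h5 : var w (fun x => cl (c * l x) - cl (c * sg w t l x)) ≤ c ^ 2 * t := by
    refine (hw'.var_le_mean _ 0).trans ((hw'.mean_mono (g := fun x => c ^ 2 * (sg w t l x - l x) ^ 2)
      fun x => by nlinarith [cl_sub_sq (c * l x) (c * sg w t l x)]).trans ?_)
    rw [mean_const_mul]
    refine mul_le_mul_of_nonneg_left ((mean_sg_sub_sq_le hn hw ht l).trans ?_) (sq_nonneg c)
    exact mul_le_of_le_one_right ht ((dir_lin_le hw u).trans_eq hu)
  have h6 : c ^ 2 * mean w (fun x => l x ^ 2) - c ^ 4 * mean w (fun x => l x ^ 4) ≤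
      2 * (β * (N * (c ^ 2 * dir w (sg w t l))) + η) + 2 * (c ^ 2 * t) := by
    norm_num at h3
    linarith
  rw [c2, c4] at h6
  generalize mean w (fun x => l x ^ 2) = A at h6 ⊢
  generalize mean w (fun x => l x ^ 4) = B at h6 ⊢
  refine le_of_mul_le_mul_left (le_of_eq_of_le ?_ (h6.trans_eq ?_)) (inv_pos.2 hq) <;> field_simp

theorem kpos (hG : GRStmt) (hT : TopStmt) (hW : Soft.WPStmt) :
    ∃ c : ℝ, 0 < c ∧ ∀ T α : ℝ, 0 < T → DLat T α → 2 * T * c ≤ α := by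
  obtain ⟨C, hG⟩ := whp_GE hG
  obtain ⟨δ, M, δ0, hT⟩ := hT (1 / 4) (by norm_num)
  set q := 2 * (|M| + 1) / δ with hq
  have q0 : 0 < q := by positivity
  obtain ⟨β, hW⟩ := hW (δ / (16 * q)) (1 / 4) (by positivity) (by norm_num)
  have β0 : 0 < |β| + 1 := by positivity
  refine ⟨δ / (16 * (|β| + 1)), by positivity, fun T α T0 hD => ?_⟩
  set ε := δ * T / (16 * (|β| + 1)) with hε
  have ε0 : 0 < ε := by positivity
  have D0 := DT_nonneg (C := C) T0.le
  obtain ⟨η, η0, hD⟩ := hD ε ε0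
  have hW' : Off disorderLaw (1 / 4) fun n g => ∀ f : Cube n → ℝ, (∀ x, |f x| ≤ 1) →
      var (gibbsWeight n 1 g) f ≤ β * (N23 n * dir (gibbsWeight n 1 g) f) + δ / (16 * q) :=
    Eventually.mono hW fun n hn => le_trans (measure_mono fun g hg => by
      simpa only [mem_ofPred_eq, not_forall, not_le, exists_prop, dirichletForm_eq, gibbsVar_eq]
        using hg) hn
  have h1 := (hT.and (hW'.fst (ν := fun n => gv (Fin n))) (by norm_num) (by norm_num)).and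
    (off_of_whp (hG.and (hD (min (1 / 2) (ε / (DT C T + 1))) (by positivity)))
      (show (0 : ℝ) < 1 / 4 by norm_num)) (by norm_num) (by norm_num)
  obtain ⟨n, ⟨⟨p, ⟨⟨u, hu, a1, a2⟩, a3⟩, a4, a5⟩, a6⟩, a7⟩ := (((off_exists h1 (by norm_num)).and
    (ev_e0 η0)).and (ev_div (2 * T) (show 0 < δ / 16 by positivity))).exists
  have N0 := Soft.N23_pos a4.n0
  have b1 := wp_lower a4.n0 a4.pos N0 q0 β0.le (t := 2 * T) (by positivity) hu.1
    (fun f hf => Soft.mean_odd p.1 hf) fun f hf => (a3 f hf).trans (add_le_add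
      (mul_le_mul_of_nonneg_right ((le_abs_self β).trans (le_add_of_nonneg_right zero_le_one))
        (mul_nonneg N0.le (Ent.dir_nonneg a4.pos f))) le_rfl)
  have b2 := dir_sg_le_vs a4.n0 a4.pos T0.le fun x => u ⬝ᵥ sv x
  have b3 := a4.quad_le T0.le hu a6 ((a5.trans (min_le_left _ _)).trans_lt (by norm_num))
  simp only [slE_zero, post_zero, Am_quad] at b3
  have b4 : DT C T * bad (gibbsWeight n 1 p.1) (Wmat n p.1 p.2) T 0 ε η α ≤ ε := by
    have := (le_div_iff₀ (by positivity)).1 (a5.trans (min_le_right _ _))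
    nlinarith [bad_nonneg (W := Wmat n p.1 p.2) (T := T) (r := 0) (ε := ε) (η := η) (a := α) a4.wt]
  have b5 := (le_div_iff₀ N0).2 a1
  have b6 : mean (gibbsWeight n 1 p.1) (fun x => (u ⬝ᵥ sv x) ^ 4) / (q * N23 n ^ 2) ≤ δ / 2 := by
    rw [div_le_iff₀ (by positivity), hq]
    refine a2.trans (le_of_le_of_eq (mul_le_mul_of_nonneg_right ((le_abs_self M).trans
      (le_add_of_nonneg_right zero_le_one)) (sq_nonneg _)) (by field_simp))
  have b7 : 2 * q * (δ / (16 * q)) = δ / 8 := by field_simp; norm_num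
  have b8 : δ / 4 ≤ 2 * (|β| + 1) *
      dir (gibbsWeight n 1 p.1) (sg (gibbsWeight n 1 p.1) (2 * T) fun x => u ⬝ᵥ sv x) := by linarith
  have b9 := mul_le_mul_of_nonneg_left (b2.trans b3) β0.le
  have e1 : (|β| + 1) * ε = δ * T / 16 := by rw [hε]; field_simp
  have b10 := mul_le_mul_of_nonneg_left b4 β0.le
  have b11 := mul_le_mul_of_nonneg_left b8 T0.le
  rw [mul_div_assoc', div_le_iff₀ (by positivity)]
  nlinarith

theorem exists_isK (hL : DLStmt) (hG : GRStmt) (hT : TopStmt) (hW : Soft.WPStmt) : ∃ k, IsK k := by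
  obtain ⟨c, c0, hc⟩ := kpos hG hT hW
  have h1 : ∀ T : ℝ, ∃ α : ℝ, 0 < T → DLat T α := fun T => by
    by_cases h : 0 < T
    · obtain ⟨α, hα⟩ := hL T h.le
      refine ⟨α, fun _ ε hε => ?_⟩
      obtain ⟨η, η0, c', c'0, h'⟩ := hα ε hε
      exact ⟨η, η0, fun δ hδ => whp_bad (a := fun _ => α) c'0 hδ h'⟩
    · exact ⟨0, fun h' => absurd h' h⟩
  choose α hα using h1
  have hb : ∀ T : Ioi (0 : ℝ), c ≤ α T / (2 * T) := fun T =>
    (le_div_iff₀' (by have : (0 : ℝ) < T := T.2; positivity)).2 (hc _ _ T.2 (hα _ T.2))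
  refine ⟨⨅ T : Ioi (0 : ℝ), α T / (2 * T), c0.trans_le (le_ciInf hb), α, fun T T0 => ⟨hα T T0,
    (le_div_iff₀' (by positivity)).1 (ciInf_le ⟨c, forall_mem_range.2 hb⟩ (⟨T, T0⟩ : Ioi (0 : ℝ)))⟩,
    fun e he => ?_⟩
  obtain ⟨T, hT⟩ := exists_lt_of_ciInf_lt (lt_add_of_pos_right (⨅ T : Ioi (0 : ℝ), α T / (2 * T)) he)
  exact ⟨T, T.2, (div_le_iff₀' (by have : (0 : ℝ) < T := T.2; positivity)).1 hT.le⟩

end Crest.Agent.T157.Rec

end
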