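import Crest.Agent.T157.DsE_77

/-!
# Row 157, part C (helper77): `Tr.DStar k` and `I2Stmt k`
-/

set_option autoImplicit false
set_option linter.unusedSectionVars false

noncomputable section

namespace Crest.Agent.T157.Rec

open MeasureTheory ProbabilityTheory Filter Topology Set Real Matrix Function
open Crest.ProbabilityR.SpinGlassDynamics
open Crest.Agent.T157.E Crest.Agent.T157.SL Crest.Agent.T157.Eig Crest.Agent.T157.Tr
open Crest.Agent.T157.Chain22 (sg)
open Crest.Agent.T157.Da (DAev tm e0 badP DAStmt DLStmt GRStmt)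
open Crest.Agent.T157.Soft (N23)
open Crest.Agent.T157.Top (Whp)

variable {n : ℕ} {k : ℝ}

theorem mul_le_of_le_div {D b e : ℝ} (D0 : 0 ≤ D) (b0 : 0 ≤ b) (h : b ≤ e / (D + 1)) : D * b ≤ e := by
  have := (le_div_iff₀ (by positivity)).1 h
  linarith

/-- the blocks exist with high probability -/
theorem whp_blk (hA : DAStmt) (hG : GRStmt) (hw : AwStmt) (hT : TopStmt) (hk : IsK k) {k1 : ℝ}
    (k0 : 0 < k1) (hk1 : k1 < k) : ∃ τ r0 : ℝ, 0 < τ ∧ 0 < r0 ∧ ∀ r θ M o ζ L : ℝ, 0 < r → r ≤ r0 →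
      0 < θ → 0 < M → 0 < o → 0 < ζ → 0 < L → ∃ s1 : ℝ, 0 < s1 ∧ ∀ s, 0 < s → s ≤ s1 →
        Whp PM fun n p => Blk (gibbsWeight n 1 p.1) (Pw (Wmat n p.1 p.2) (L / N23 n)) s r (τ / r) k1
          θ M o ζ := by
  obtain ⟨C, hG⟩ := whp_GE hG
  obtain ⟨-, α, hα, -⟩ := hk
  have c1 : ContinuousAt (fun x : ℝ => (1 + x) ^ 2 * exp (4 * x) * k1) 0 := by fun_prop
  obtain ⟨x, ⟨hx, x1⟩, x0⟩ := ((((c1.eventually (gt_mem_nhds (by simpa using hk1))).and
    (ge_mem_nhds (show (0 : ℝ) < 1 / 4 by norm_num))).filter_mono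
      (nhdsWithin_le_nhds (s := Ioi (0 : ℝ)))).and self_mem_nhdsWithin).exists
  replace x0 : 0 < x := x0
  set ρ := (1 + x) ^ 2 * exp (4 * x) with hρ
  have ρ0 : 0 < ρ := by positivity
  set γ := k - ρ * k1 with hγ
  have γ0 : 0 < γ := sub_pos.2 hx
  set τ := γ / (64 * ((1 + x⁻¹) * (1 + x))) with hτ
  have τ0 : 0 < τ := by positivity
  refine ⟨τ, x, τ0, x0, fun r θ M o ζ L r0 hr θ0 M0 o0 ζ0 L0 => ?_⟩
  set T := τ / r with hTd
  have T0 : 0 < T := by positivity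
  set T' := T * (1 + x⁻¹) * 4 / γ with hT'
  have T'0 : 0 < T' := by positivity
  set ε := min (ζ / 2) (γ * T / (4 * ρ)) with hε
  have ε0 : 0 < ε := by positivity
  have D0 := DT_nonneg (C := C) T0.le
  have D0' := DT_nonneg (C := C) T'0.le
  obtain ⟨η, η0, a, c, c0, h1⟩ := hA T T0.le r r0.le ε ε0
  obtain ⟨η', η'0, h2⟩ := (hα T' T'0).1 (γ * T' / 4) (by positivity)
  obtain ⟨r1, r10, h3⟩ := hw η θ o η0 θ0 o0
  refine ⟨r1 / M, by positivity, fun s s0 hs => ((((hG.and hT.soft).and (whp_bad c0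
    (show 0 < min (1 / 2) (ε / (2 * DT C T + 1)) by positivity) h1)).and
    (h2 (min (1 / 2) (γ * T' / 4 / (DT C T' + 1))) (by positivity))).and (h3 s s0)).mono ?_⟩
  filter_upwards [ev_e0 η0, ev_e0 η'0, ev_win L] with n e1 e2 e3 p ⟨⟨⟨⟨g, u, hu⟩, b1⟩, b2⟩, b3⟩
  have l0 : 0 ≤ L / N23 n := (div_pos L0 (Soft.N23_pos g.n0)).le
  have b1' := (b1.trans (min_le_left _ _)).trans_lt (show (1 / 2 : ℝ) < 1 by norm_num)
  have b2' := (b2.trans (min_le_left _ _)).trans_lt (show (1 / 2 : ℝ) < 1 by norm_num)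
  have n1 := bad_nonneg (W := Wmat n p.1 p.2) (T := T) (r := r) (ε := ε) (η := η) (a := a n) g.wt
  have d1 := mul_le_of_le_div (by positivity) n1 (b1.trans (min_le_right _ _))
  have d2 := mul_le_of_le_div D0' (bad_nonneg g.wt) (b2.trans (min_le_right _ _))
  refine ⟨a n, Pw (Wmat n p.1 p.2) η, Pw_transpose _ _, Pw_mul g.herm (e3.trans e1),
    opn_one_sub_Pw_le g.herm _, fun v hv => b3 v ⟨hv.1, hv.2.trans ((le_div_iff₀' M0).1 hs)⟩, ?_,
    (g.dA_le T0.le hu l0 e3 e1 ε0.le b1').trans (by linarith [min_le_left (ζ / 2) (γ * T / (4 * ρ))])⟩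
  have f1 := g.link r0.le T0 T'0 x0 hu e1 e2 b1' b2'
  have f2 : k - γ / 4 ≤ (α T' - γ * T' / 4 - DT C T' *
      bad (gibbsWeight n 1 p.1) (Wmat n p.1 p.2) T' 0 (γ * T' / 4) η' (α T')) / (2 * T') := by
    rw [le_div_iff₀ (by positivity)]
    linarith [(hα T' T'0).2]
  have f3 : (1 + x⁻¹) * ((1 + x) * (exp (4 * r) - 1) * (2 * T) + T / T') ≤ γ / 2 := by
    have a1 : exp (4 * r) - 1 ≤ 8 * r := by
      have := (le_abs_self _).trans (abs_exp_sub_one_le (x := 4 * r) (abs_le.2 ⟨by linarith, by linarith⟩))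
      rw [abs_of_pos (by positivity)] at this
      linarith
    have a2 : (1 + x⁻¹) * ((1 + x) * (8 * r) * (2 * T) + T / T') = γ / 2 := by
      rw [hT', hTd, hτ]; field_simp; norm_num
    rw [← a2]
    gcongr
  set A := (a n + ε + DT C T * bad (gibbsWeight n 1 p.1) (Wmat n p.1 p.2) T r ε η (a n)) / (2 * T)
    with hA'
  have f4 : ρ * k1 + γ / 4 ≤ (1 + x) ^ 2 * exp (4 * r) * A := by linarith
  have A0 : 0 < A := (mul_pos_iff_of_pos_left (by positivity)).1 (lt_of_lt_of_le (by positivity) f4)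
  have f5 : (1 + x) ^ 2 * exp (4 * r) * A ≤ ρ * A := by rw [hρ]; gcongr
  have f6 : ρ * (2 * ε) ≤ γ / 4 * (2 * T) := by
    have := (le_div_iff₀ (by positivity)).1 (min_le_right (ζ / 2) (γ * T / (4 * ρ)))
    linarith
  have f7 : A * (2 * T) ≤ a n + 2 * ε := by
    rw [hA', div_mul_cancel₀ _ (by positivity)]
    nlinarith [mul_nonneg D0 n1]
  have f8 := mul_le_mul_of_nonneg_right (f4.trans f5) (show 0 ≤ 2 * T by positivity)
  have f9 := mul_le_mul_of_nonneg_left f7 ρ0.le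
  exact le_of_mul_le_mul_left (by linarith) ρ0

theorem exists_seq {t δ : ℝ} (ht : 0 < t) (hδ : 0 < δ) (hδ1 : δ ≤ 1) {Q : ℝ → ℝ → Prop}
    (h : ∀ u, 0 < u → u ≤ t → ∃ s1, 0 < s1 ∧ ∀ s, 0 < s → s ≤ s1 → Q s u) :
    ∃ U : ℕ → ℝ, U 0 = t ∧ Antitone U ∧ ∀ i, 0 < U i ∧ U (i + 1) ≤ δ * U i ∧ Q (U (i + 1)) (U i) := by
  choose! f f0 hf using h
  let U : ℕ → ℝ := fun i => Nat.rec t (fun _ u => min (f u) (δ * u)) i
  have h1 : ∀ i, 0 < U i ∧ U i ≤ t := fun i => by
    induction i with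
    | zero => exact ⟨ht, le_rfl⟩
    | succ i ih => exact ⟨lt_min (f0 _ ih.1 ih.2) (mul_pos hδ ih.1), (min_le_right _ _).trans
        ((mul_le_of_le_one_left ih.1.le hδ1).trans ih.2)⟩
  exact ⟨U, rfl, antitone_nat_of_succ_le fun i => (min_le_right _ _).trans
    (mul_le_of_le_one_left (h1 i).1.le hδ1), fun i => ⟨(h1 i).1, min_le_right _ _,
      hf _ (h1 i).1 (h1 i).2 _ (h1 (i + 1)).1 (min_le_left _ _)⟩⟩

/-- **(D\*)** -/
theorem dstar (hA : DAStmt) (hG : GRStmt) (hw : AwStmt) (hT : TopStmt) (hP : APStmt disorderLaw)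
    (hk : IsK k) : DStar k := by
  intro t0 e o L ε t00 e0' o0 L0 ε0
  have k0 := hk.1
  set η := min 1 (e / (3 + k)) with hη
  have η0 : 0 < η := by positivity
  have η1 : η ≤ 1 := min_le_left _ _
  have η2 : η * (3 + k) ≤ e := (le_div_iff₀ (by positivity)).1 (min_le_right _ _)
  have k1 : 0 < k / (1 + η) := by positivity
  obtain ⟨τ, r0, τ0, r00, hB⟩ := whp_blk hA hG hw hT hk k1 (div_lt_self k0 (by linarith))
  obtain ⟨t1, C, t10, C1, hP⟩ := hP (ε / 2) (by positivity)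
  obtain ⟨J, δ, M, C', δ0, δ1, M1, C'0, hc⟩ := ds_core C1 η0 k1 τ0
  have M0 : 0 < M := by linarith
  obtain ⟨t0', K, t0'0, K0, hP⟩ := hP (min δ (e / (k * C'))) (by positivity)
  obtain ⟨U, U0, Ua, hU⟩ := exists_seq (t := min (min t0 t0') r0) (δ := δ / M) (by positivity)
    (by positivity) ((div_le_one M0).2 (by linarith)) (Q := fun s u => Whp PM fun n p =>
      Blk (gibbsWeight n 1 p.1) (Pw (Wmat n p.1 p.2) (L / N23 n)) s (δ * u) (τ / (δ * u)) (k / (1 + η))
        δ M (δ * o) (δ * o * (τ / (δ * u)))) fun u u0 hu => hB (δ * u) δ M (δ * o) _ L (by positivity)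
      ((mul_le_of_le_one_left u0.le δ1).trans (hu.trans (min_le_right _ _))) δ0 M0 (by positivity)
      (by positivity) L0
  have hU0 : ∀ i, U i ≤ min t0 t0' := fun i => (Ua (Nat.zero_le i)).trans (U0.le.trans (min_le_left _ _))
  have UJ := (hU J).1
  refine ⟨δ * U J, by positivity, (((hP.fst (ν := fun n => gv (Fin n))).and (off_of_whp
    (Whp.finset (Finset.range J) fun i _ => (hU i).2.2) (half_pos ε0)) (by positivity)
    (by positivity)).le (add_halves ε).le).mono ?_⟩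
  filter_upwards [eventually_gt_atTop 0, ev_div K UJ] with n hn hK p ⟨⟨⟨ε', p', ρ, h1, h2, h3, h4⟩, h5⟩, h6⟩
    κ _ f b b0 hb
  have N0 := Soft.N23_pos hn
  have e1 : (b * √(min δ (e / (k * C')) / N23 n)) ^ 2 = min δ (e / (k * C')) / N23 n * b ^ 2 := by
    rw [mul_pow, sq_sqrt (by positivity), mul_comm]
  obtain ⟨j, hj, B, hB1, hB2, hB3⟩ := hc (gibbsWeight n 1 p.1) ε' p' _ t0' t1 ρ _ o _ (fun j => U (J - j))
    (fun j => τ / (δ * U (J - (j + 1)))) hn (gibbsWeight_pos 1 _) h1 h2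
    (fun r hr => (h3 r hr).trans (min_le_left _ _)) (h4.trans (min_le_left _ _)) (Pw_transpose _ _)
    (Pw_mul_self (Wmat_isHermitian p.1 p.2) (L / N23 n)) o0
    (fun j _ => ⟨hK.trans (Ua (Nat.sub_le J j)), (hU0 _).trans (min_le_right _ _)⟩)
    (fun j hj => by
      have e2 : J - j = J - (j + 1) + 1 := by omega
      have u0 := (hU (J - (j + 1))).1
      simp only [e2]
      refine ⟨?_, (div_mul_cancel₀ _ (by positivity)).ge, h6 _ (Finset.mem_range.2 (by omega))⟩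
      have := (hU (J - (j + 1))).2.1
      rwa [div_mul_eq_mul_div, le_div_iff₀' M0] at this)
    f b b0 hb (by rw [e1]; exact h5 κ f b hb)
  refine ⟨_, ⟨mul_le_mul_of_nonneg_left (Ua (Nat.sub_le J (j + 1))) δ0.le,
    (mul_le_of_le_one_left (hU _).1.le δ1).trans ((hU0 _).trans (min_le_left _ _))⟩, B, hB1, hB2,
    hB3.trans ?_⟩
  have E0 : 0 ≤ ∑ a, dir (gibbsWeight n 1 p.1) (f a) :=
    Finset.sum_nonneg fun a _ => Ent.dir_nonneg (gibbsWeight_pos 1 _) (f a)
  generalize ∑ a, dir (gibbsWeight n 1 p.1) (f a) = E at E0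
  have a1 : ((1 + η) ^ 2 + η * k) * E ≤ (1 + e) * E := mul_le_mul_of_nonneg_right (by nlinarith) E0
  have a2 : k * C' * min δ (e / (k * C')) ≤ e := (le_div_iff₀' (by positivity)).1 (min_le_right _ _)
  have a3 := mul_le_mul_of_nonneg_right a2 (show 0 ≤ b ^ 2 / N23 n by positivity)
  rw [e1, le_div_iff₀ k0, mul_div_assoc e]
  refine le_of_eq_of_le ?_ (add_le_add a1 a3)
  field_simp

/-- **(I2)** -/
theorem i2 (hG : GRStmt) (hH : HStmt) (hk : IsK k) : I2Stmt k := by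
  intro e ε e0' ε0
  obtain ⟨C, hG⟩ := whp_GE hG
  obtain ⟨k0, α, hα, hα'⟩ := hk
  refine ⟨3 / (e * k), by positivity, fun K hK => ?_⟩
  have K0 : 0 < K := lt_of_lt_of_le (by positivity) hK
  set η := min 1 (e / 3) with hη
  have η0 : 0 < η := by positivity
  have η1 : η ≤ 1 := min_le_left _ _
  have η2 : (1 + η) ^ 2 ≤ 1 + e := by nlinarith [min_le_right 1 (e / 3)]
  set e1 := e / (4 * (1 + e) * K) with he1
  have e10 : 0 < e1 := by positivity
  obtain ⟨T, T0, hT⟩ := hα' e1 e10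
  have α0 : 0 < α T := lt_of_lt_of_le (by positivity) (hα T T0).2
  obtain ⟨η', η'0, h1⟩ := (hα T T0).1 (2 * T * e1) (by positivity)
  set x := e / (2 * (2 * exp (2 * C * T) * K * (4 + (1 + η⁻¹) * (64 * T + 20)))) with hx
  have x0 : 0 < x := by positivity
  obtain ⟨L, L0, h2⟩ := hH K x (ε / 2) x0 (by positivity)
  refine Off.of_fst (ν := fun n => gv (Fin n)) (((h2.and (off_of_whp (hG.and (h1 x x0)) (half_pos ε0))
    (by positivity) (by positivity)).le (add_halves ε).le).mono ?_)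
  filter_upwards [ev_e0 η'0, ev_win L, ev_div K (show 0 < min (min x (η / 4)) (1 / (8 * T)) by positivity)]
    with n a1 a2 a3 p ⟨b1, g, b2⟩ κ _ f B hB
  have N0 := Soft.N23_pos g.n0
  set w := gibbsWeight n 1 p.1 with hw
  set W := Wmat n p.1 p.2 with hW
  set s := K / N23 n with hs
  have s0 : 0 < s := by positivity
  have s1 : s ≤ x := a3.trans ((min_le_left _ _).trans (min_le_left _ _))
  have s2 : s ≤ η / 4 := a3.trans ((min_le_left _ _).trans (min_le_right _ _))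
  have s3 : s * (8 * T) ≤ 1 := (le_div_iff₀ (by positivity)).1 (a3.trans (min_le_right _ _))
  have l0 : 0 ≤ L / N23 n := by positivity
  have hQ := opn_one_sub_Pw_le g.herm (L / N23 n)
  have hQt : (1 - Pw W (L / N23 n))ᵀ = 1 - Pw W (L / N23 n) := by
    rw [transpose_sub, transpose_one, Pw_transpose]
  have m1 : MG fun y => s⁻¹ * opn ((1 - Pw W (L / N23 n)) * Xp sv w (s, y)) :=
    (mg_opn fun i j => MG.sum Finset.univ fun l _ =>
      ((mg_pcov g.wt s (fun x => sv x l) fun x => sv x j).const_mul s).const_mul _).const_mul _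
  obtain ⟨r1, r2⟩ := g.gr0.recovery (P := Pw W (L / N23 n)) (α := α T + 2 * T * e1)
    (B := {x | ¬ DAev W (Am w T x) (2 * T * e1) η' (α T)}) g.n0 g.pos g.C0 T0.le s0.le η0
    (by positivity) (fun a => (mulVec_dot_le _ a).trans (mul_le_of_le_one_left (SL.dot_self_nonneg a)
      (pow_le_one₀ (opn_nonneg _) (opn_Pw_le g.herm _))))
    (fun a => (mulVec_dot_le _ a).trans (mul_le_of_le_one_left (SL.dot_self_nonneg a)
      (pow_le_one₀ (opn_nonneg _) hQ)))
    (fun y hy a => by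
      have := (abs_le.1 (g.bil l0 a2 l0 (a2.trans a1) (not_not.1 hy) a a)).2
      rw [nrm_mul_self] at this
      linarith)
    m1 (fun y => mul_nonneg (inv_pos.2 s0).le (opn_nonneg _))
    (fun y h => covV_proj_le (g.wt.post sv s y) _ sv (mul_nonneg (inv_pos.2 s0).le (opn_nonneg _))
      (fun a => by
        have c1 := (le_abs_self _).trans (abs_bil_le ((1 - Pw W (L / N23 n)) * Xp sv w (s, y)) a
          ((1 - Pw W (L / N23 n)) *ᵥ a))
        have c2 := mul_le_mul_of_nonneg_left (mul_le_mul_of_nonneg_left ((nrm_mulVec_le _ a).trans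
          (mul_le_of_le_one_left (nrm_nonneg a) hQ)) (nrm_nonneg a))
          (opn_nonneg ((1 - Pw W (L / N23 n)) * Xp sv w (s, y)))
        rw [← mulVec_mulVec, dotProduct_mulVec, ← mulVec_transpose, hQt, Xp, smul_mulVec,
          dotProduct_smul, smul_eq_mul] at c1
        rw [hQt, mul_assoc, le_inv_mul_iff₀ s0, ← nrm_mul_self]
        exact c1.trans c2) h) f hB
  have B0 : 0 ≤ B := (Finset.sum_nonneg fun _ _ => sq_nonneg _).trans (hB fun _ => true)
  have P0 : 0 ≤ Ph sv w f s := Ph_nonneg g.wt s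
  have P1 : Ph sv w f s ≤ B := by
    rw [Ph_eq g.wt, ← g.wt.mean_const B, ← slE_fun (φ := sv) (s := s)]
    exact slE_mono g.wt (.of_mg fun _ => .sum _ fun a _ => mg_var g.wt (f a) s)
      (.of_mg fun _ => .const _) fun _ y => (sum_var_le (b := √B) (g.wt.post sv s y)
        (by simpa only [sq_sqrt B0] using hB)).trans_eq (sq_sqrt B0)
  have v1 := abs_le.1 (abs_exp_sub_one_sub_id_le (x := 4 * s) (abs_le.2 ⟨by linarith, by linarith⟩))
  have v0 := vs_nonneg s0.le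
  set v := (exp (4 * s) - 1) / 4 with hv
  have v2 : v - s ≤ 4 * s * s := by rw [hv]; linarith [v1.2]
  have v3 : v ≤ (1 + η) * s := by nlinarith
  have v4 : v ≤ 2 * s := by nlinarith
  change _ ≤ _ * Ph sv w f s + _ at r1
  change _ ≤ _ * Ph sv w f s at r2
  refine ⟨_, r2.trans ?_, ?_⟩
  · have c1 : 3 ≤ K * (e * k) := (div_le_iff₀ (by positivity)).1 hK
    have c2 : 2 + 4 * T * v ≤ e * (k * K) := by nlinarith
    nlinarith [mul_le_mul_of_nonneg_right c2 P0, mul_nonneg e0'.le B0]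
  have c1 : mass w {x | ¬ DAev W (Am w T x) (2 * T * e1) η' (α T)} ≤ x := by
    refine le_of_eq_of_le ?_ b2
    rw [mass_eq_mean, bad]
    congr 1; ext σ
    simp only [zero_smul, sqrt_zero, add_zero, post_zero]
    by_cases h : DAev W (Am w T σ) (2 * T * e1) η' (α T) <;> simp [h]
  have c2 : s * (slE sv w s fun _ y => s⁻¹ * opn ((1 - Pw W (L / N23 n)) * Xp sv w (s, y))) ≤ x := by
    rw [slE_const_mul, mul_inv_cancel_left₀ s0.ne']
    exact b1 s ⟨s0.le, le_rfl⟩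
  have c0 : 0 ≤ mass w {x | ¬ DAev W (Am w T x) (2 * T * e1) η' (α T)} := by
    rw [mass_eq_mean]; exact g.wt.mean_nonneg fun _ => indicator_nonneg (fun _ _ => zero_le_one) _
  generalize mass w {x | ¬ DAev W (Am w T x) (2 * T * e1) η' (α T)} = m at r1 c1 c0
  generalize (slE sv w s fun _ y => s⁻¹ * opn ((1 - Pw W (L / N23 n)) * Xp sv w (s, y))) = θ at r1 c2
  generalize ∑ a, dir w (sg w (2 * T) (Tm w s (f a))) = D at r1 ⊢
  generalize Ph sv w f s = Φ at r1 P0 P1 ⊢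
  have d1 : (1 + η) * v * m ≤ 4 * (s * x) := by
    calc (1 + η) * v * m ≤ 2 * (2 * s) * x := by gcongr; linarith
      _ = _ := by ring
  have d2 : 16 * T * v ^ 2 + 4 * s ^ 2 * θ + 4 * (v - s) ≤ (64 * T + 20) * (s * x) := by
    have a4 := mul_le_mul_of_nonneg_left s1 s0.le
    have a5 : v ^ 2 ≤ 4 * (s * x) := by nlinarith
    nlinarith [mul_le_mul_of_nonneg_left c2 s0.le, mul_le_mul_of_nonneg_left a5 T0.le]
  have d3 : 4 * T * exp (2 * C * T) * B * ((1 + η) * v * m + (1 + η⁻¹) * (16 * T * v ^ 2 +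
      4 * s ^ 2 * θ + 4 * (v - s))) ≤ 2 * T * (s / K * (e / 2 * B)) := by
    calc _ ≤ 4 * T * exp (2 * C * T) * B * (4 * (s * x) + (1 + η⁻¹) * ((64 * T + 20) * (s * x))) := by
          gcongr
      _ = _ := by rw [hx]; field_simp; norm_num
  have d4 : (1 + η) * (α T + 2 * T * e1) * v * Φ ≤
      2 * T * (s / K * ((1 + e) * (k * K * Φ) + e / 2 * B)) := by
    calc _ ≤ (1 + η) * (2 * T * (k + e1) + 2 * T * e1) * ((1 + η) * s) * Φ := by gcongr
      _ = 2 * T * (s * ((1 + η) ^ 2 * ((k + 2 * e1) * Φ))) := by ring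
      _ ≤ 2 * T * (s * ((1 + e) * (k * Φ + 2 * e1 * B))) := by
          gcongr
          nlinarith [mul_le_mul_of_nonneg_left P1 e10.le]
      _ = _ := by rw [he1]; field_simp; ring
  have d5 : D ≤ s / K * ((1 + e) * (k * K * Φ) + e * B) :=
    le_of_mul_le_mul_left (by linarith) (show 0 < 2 * T by positivity)
  refine (mul_le_mul_of_nonneg_left d5 N0.le).trans_eq ?_
  rw [hs]; field_simp

/-- **the constant `k` with (D\*) and (I2)** -/
theorem i12 (hA : DAStmt) (hL : DLStmt) (hG : GRStmt) (hP : APStmt disorderLaw) (hH : HStmt)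
    (hw : AwStmt) (hT : TopStmt) (hW : Soft.WPStmt) : ∃ k, 0 < k ∧ DStar k ∧ I2Stmt k := by
  obtain ⟨k, hk⟩ := exists_isK hL hG hT hW
  exact ⟨k, hk.1, dstar hA hG hw hT hP hk, i2 hG hH hk⟩

end Crest.Agent.T157.Rec

end
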