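import Crest.Agent.T157.DsF_77
import Crest.Agent.T157.StAll_87

/-!
# Row 157, part C (helper77): the soft direction, unconditional
-/

set_option autoImplicit false

noncomputable section

namespace Crest.Agent.T157.Rec

open MeasureTheory ProbabilityTheory Filter Topology Set Real Matrix Function
open Crest.ProbabilityR.SpinGlassDynamics
open Crest.Agent.T157.E Crest.Agent.T157.SL Crest.Agent.T157.Eig Crest.Agent.T157.Tr
open Crest.Agent.T157.Da (tm e0 DAStmt DLStmt GRStmt)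
open Crest.Agent.T157.Soft (N23)
open Crest.Agent.T157.St Crest.Agent.T157.St.Unb49 Crest.Agent.T157.St.All Crest.Agent.T157.Ed

theorem exp_lin_le {ι : Type} [Fintype ι] {μ : Measure (ι → ℝ)} (h : Cp μ) {u : ι → ℝ}
    (hu : u ⬝ᵥ u = 1) : 2 * ∫ x, exp (u ⬝ᵥ x) ∂μ ≤ Xk 1 μ μ + exp 1 := by
  have c : Cp (Measure.dirac u) := ⟨inferInstance, 1, by simp [hu]⟩
  have := (mmdStmt ι _ _ _ h c c 1 1 zero_le_one le_rfl).1
  simp only [D2, Xk, integral_dirac, one_mul, hu, dotProduct_comm _ u] at this ⊢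
  linarith

theorem four_le {ι : Type} [Fintype ι] {μ : Measure (ι → ℝ)} (h : Cp μ) {u : ι → ℝ}
    (hu : u ⬝ᵥ u = 1) : ∫ x, (u ⬝ᵥ x) ^ 4 ∂μ ≤ 24 * (Xk 1 μ μ + exp 1) := by
  have h1 := exp_lin_le h hu
  have h2 := exp_lin_le h (u := -u) (by simpa using hu)
  have i1 : Integrable (fun x => exp (u ⬝ᵥ x)) μ := integrable_cp h (by unfold dotProduct; fun_prop)
  have i2 : Integrable (fun x => exp (-u ⬝ᵥ x)) μ := integrable_cp h (by unfold dotProduct; fun_prop)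
  have h3 : ∫ x, (u ⬝ᵥ x) ^ 4 ∂μ ≤ ∫ x, 24 * (exp (u ⬝ᵥ x) + exp (-u ⬝ᵥ x)) ∂μ := by
    refine integral_mono (integrable_cp h (by unfold dotProduct; fun_prop)) ((i1.add i2).const_mul _)
      fun x => ?_
    have := Real.pow_div_factorial_le_exp _ (abs_nonneg (u ⬝ᵥ x)) 4
    rw [show (4 : ℕ) = 2 * 2 from rfl, pow_mul, sq_abs, ← pow_mul] at this
    norm_num [Nat.factorial] at this ⊢
    rcases abs_cases (u ⬝ᵥ x) with k | k <;> rw [k.1] at this <;>
      linarith [exp_pos (u ⬝ᵥ x), exp_pos (-(u ⬝ᵥ x))]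
  rw [integral_const_mul, integral_add i1 i2] at h3
  linarith

theorem topStmt : TopStmt := by
  intro ε hε
  obtain ⟨C, -, hG⟩ := goodStmt
  obtain ⟨L, w₁, hL0, hG⟩ := hG (ε / 3) (by positivity)
  obtain ⟨w₂, -, hC⟩ := coordStmt L C 1 1 hL0
  obtain ⟨B, δ, -, hδ, hC⟩ := hC (max w₁ w₂) (le_max_right _ _)
  obtain ⟨B', hB⟩ := ldStmt (ε / 3) (by positivity)
  have h1 := Off.and (Off.and (μ := GOE) (P := fun n W => W.IsHermitian ∧
    Gd n (Lam n W) (sx n ^ 2) L (max w₁ w₂) C) (hG _ (le_max_left w₁ w₂))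
    (off_of_whp (closeStmt.2 1 ((δ / 2) ^ 2 / 4) zero_le_one (by positivity))
      (show 0 < ε / 3 by positivity)) (by positivity) (by positivity))
    (Q := fun n W => Mgf (muW n W) B') hB (by positivity) (by positivity)
  refine ⟨δ / 2, 24 * (B' * exp (B' * |(1 : ℝ)| ^ (3 / 2 : ℝ)) + exp 1), by positivity,
    ((Off.goe h1).le (by linarith)).mono ?_⟩
  filter_upwards [hC, eventually_ge_atTop 8, ev_win (60 + L)] with n h2 hn h3 p ⟨⟨⟨hW, hg⟩, hD⟩, hM⟩
  have n1 : 1 ≤ n := by omega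
  have N0 := Soft.N23_pos (n := n) n1
  have h0 : 0 < Fintype.card (Fin n) := by simpa using Nat.succ_le_iff.1 n1
  have t0 : 0 < sx n ^ 2 := pow_pos (sx_pos n1) 2
  have hu := vec_dot_self hW h0
  obtain ⟨c1, c2, -⟩ := (lnkStmt n n1).1 (Wmat n p.1 p.2)
  have e1 : ∀ j : ℕ, ∫ x, (vec (Wmat n p.1 p.2) 0 ⬝ᵥ x) ^ (2 * j) ∂muW n (Wmat n p.1 p.2) =
      mean (gibbsWeight n 1 p.1) (fun x => (vec (Wmat n p.1 p.2) 0 ⬝ᵥ sv x) ^ (2 * j)) / N23 n ^ j :=
    fun j => by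
      rw [(lnkStmt n n1).2.2.1, muG, integral_dm fun x => (gibbsWeight_pos 1 _ x).le, div_eq_inv_mul,
        ← mean_const_mul]
      simp only [hat, dotProduct_smul, smul_eq_mul, mul_pow, ← sx_four, inv_pow, pow_mul]
  refine ⟨vec (Wmat n p.1 p.2) 0, ⟨hu, le_trans ?_ h3⟩, ?_, ?_⟩
  · have a1 := hg.lo 0 n1
    have a2 := hg.hi 0 (by omega)
    rw [tm, sub_mulVec, smul_mulVec, one_mulVec, mulVec_vec hW, ← sub_smul, nrm_smul, Eig.nrm, hu, sqrt_one,
      mul_one, le_div_iff₀ N0, ← abs_of_pos N0, ← abs_mul, mul_comm]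
    norm_num [Lam] at a1 a2
    exact abs_le.2 ⟨by change _ ≤ tau n * _; linarith, a2⟩
  · obtain ⟨O, hO, hv, hν⟩ := (lnkStmt n n1).2.2.2.1 _ hW
    have cD := ((lnkStmt n n1).2.1 (Lam n (Wmat n p.1 p.2)) _ t0).1
    have hsm := (isomStmt (Fin n) (Fin n) O hO _ _ cD cD).2.2.1
    have e2 : vec (Wmat n p.1 p.2) 0 = O *ᵥ Pi.single ⟨0, n1⟩ 1 := by ext i; simp [hv]
    have a1 := (mmdStmt (Fin n) _ _ _ c1 c2 c2 1 1 zero_le_one le_rfl).2.2.2.2.2.2.2
    have a2 := quad_close (A := sm (muW n (Wmat n p.1 p.2))) (B := sm (nuW n (Wmat n p.1 p.2))) hu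
      (half_pos hδ).le (by linarith)
    have a3 : δ ≤ vec (Wmat n p.1 p.2) 0 ⬝ᵥ sm (nuW n (Wmat n p.1 p.2)) *ᵥ vec (Wmat n p.1 p.2) 0 := by
      have := cD.prob
      rw [e2, hν, hsm, mulVec_mulVec, Matrix.mul_assoc, hO, Matrix.mul_one, ← mulVec_mulVec,
        dot_isom hO, quad_sm cD]
      refine ((h2 _ _ t0 hg ⟨0, n1⟩).2 one_pos).trans ?_
      have hS : MeasurableSet {x : Fin n → ℝ | 1 ≤ |x ⟨0, n1⟩|} :=
        (isClosed_le continuous_const (by fun_prop)).measurableSet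
      rw [← integral_indicator_one hS]
      refine integral_mono ((integrable_const 1).indicator hS)
        (integrable_cp cD (by unfold dotProduct; fun_prop)) fun x => ?_
      by_cases hx : x ∈ {x : Fin n → ℝ | 1 ≤ |x ⟨0, n1⟩|}
      · simp only [Set.indicator_of_mem hx, Pi.one_apply, single_one_dotProduct]
        exact (one_le_sq_iff_one_le_abs _).2 hx
      · simp only [Set.indicator_of_notMem hx]; positivity
    have a4 := e1 1
    rw [mul_one, pow_one, ← quad_sm c1] at a4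
    rw [← le_div_iff₀ N0, ← a4]
    linarith
  · have a1 := (four_le c1 hu).trans (mul_le_mul_of_nonneg_left (add_le_add (hM 1) le_rfl) (by norm_num))
    rwa [e1 2, div_le_iff₀ (by positivity)] at a1

/-- **the constant `k` with (D\*) and (I2)** -/
theorem i12' (hA : DAStmt) (hL : DLStmt) (hG : GRStmt) (hP : APStmt disorderLaw) (hH : HStmt)
    (hw : AwStmt) (hW : Soft.WPStmt) : ∃ k, 0 < k ∧ DStar k ∧ I2Stmt k :=
  i12 hA hL hG hP hH hw topStmt hW

end Crest.Agent.T157.Rec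

end
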