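import Crest.Agent.T157.EdDef_88

/-!
# Row 157, edge limit: derivatives of a trace power along one entry (`Ed.derStmt`, helper58)
-/

set_option autoImplicit false

noncomputable section

namespace Crest.Agent.T157.Ed

open Matrix Finset Polynomial

namespace Der58

variable {n : ℕ}

/-- the matrix pencil `Y + X E` -/
def pen (Y E : Mat n) : Matrix (Fin n) (Fin n) ℝ[X] := fun c d => C (Y c d) + X * C (E c d)

/-- coefficient matrices -/
def co (l : ℕ) (A : Matrix (Fin n) (Fin n) ℝ[X]) : Mat n := fun c d => (A c d).coeff l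

/-- entrywise derivative -/
def dm (A : Matrix (Fin n) (Fin n) ℝ[X]) : Matrix (Fin n) (Fin n) ℝ[X] :=
  fun c d => derivative (A c d)

/-- constant matrices -/
def cm (E : Mat n) : Matrix (Fin n) (Fin n) ℝ[X] := fun c d => C (E c d)

theorem itd_eval (k : ℕ) (p : ℝ[X]) :
    iteratedDeriv k (fun t : ℝ => p.eval t) = fun t => (derivative^[k] p).eval t := by
  induction k generalizing p with
  | zero => simp
  | succ k ih =>
    rw [iteratedDeriv_succ', Function.iterate_succ_apply, ← ih]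
    congr 1
    funext x
    exact p.deriv

theorem itd_zero (k : ℕ) (p : ℝ[X]) :
    iteratedDeriv k (fun t : ℝ => p.eval t) 0 = (k.factorial : ℝ) * p.coeff k := by
  rw [itd_eval]
  show (derivative^[k] p).eval 0 = _
  rw [← coeff_zero_eq_eval_zero, coeff_iterate_derivative]
  simp [Nat.descFactorial_self]

theorem eval_trace_pow (Y E : Mat n) (M : ℕ) (t : ℝ) :
    ((Y + t • E) ^ M).trace = ((pen Y E ^ M).trace).eval t := by
  have h1 : (evalRingHom t).mapMatrix (pen Y E) = Y + t • E := by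
    ext c d
    simp [pen, RingHom.mapMatrix_apply]
    ring
  rw [← h1, ← map_pow]
  simp [Matrix.trace, RingHom.mapMatrix_apply, eval_finsetSum]

theorem co_zero_mul_pen (Y E : Mat n) (A : Matrix (Fin n) (Fin n) ℝ[X]) :
    co 0 (A * pen Y E) = co 0 A * Y := by
  ext c d
  simp [co, pen, Matrix.mul_apply, finsetSum_coeff, mul_add]

theorem co_succ_mul_pen (Y E : Mat n) (A : Matrix (Fin n) (Fin n) ℝ[X]) (l : ℕ) :
    co (l + 1) (A * pen Y E) = co (l + 1) A * Y + co l A * E := by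
  ext c d
  simp only [co, pen, Matrix.mul_apply, finsetSum_coeff, Matrix.add_apply, ← sum_add_distrib]
  refine sum_congr rfl fun x _ => ?_
  rw [mul_add, coeff_add, coeff_mul_C, ← mul_assoc, coeff_mul_C, coeff_mul_X]

theorem co_zero_pow (Y E : Mat n) (a : ℕ) : co 0 (pen Y E ^ a) = Y ^ a := by
  induction a with
  | zero =>
    ext c d
    by_cases h : c = d <;> simp [co, Matrix.one_apply, h]
  | succ a ih => rw [pow_succ, co_zero_mul_pen, ih, pow_succ]

theorem co_succ_pow (Y E : Mat n) (l a : ℕ) :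
    co (l + 1) (pen Y E ^ a) = ∑ b ∈ range a, co l (pen Y E ^ b) * E * Y ^ (a - 1 - b) := by
  induction a with
  | zero =>
    ext c d
    by_cases h : c = d <;> simp [co, Matrix.one_apply, h, coeff_one]
  | succ a ih =>
    rw [pow_succ, co_succ_mul_pen, ih, sum_range_succ, Finset.sum_mul]
    congr 1
    · refine sum_congr rfl fun b hb => ?_
      have hb' := mem_range.1 hb
      rw [show a + 1 - 1 - b = (a - 1 - b) + 1 by omega, pow_succ, Matrix.mul_assoc _ (Y ^ _) Y]
    · simp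

theorem dm_mul (A B : Matrix (Fin n) (Fin n) ℝ[X]) : dm (A * B) = dm A * B + A * dm B := by
  ext c d : 2
  simp [dm, Matrix.mul_apply, derivative_sum, sum_add_distrib]

theorem dm_pen (Y E : Mat n) : dm (pen Y E) = cm E := by
  ext c d : 2
  simp [dm, pen, cm]

theorem trace_dm_pow (Y E : Mat n) (a m : ℕ) :
    (dm (pen Y E ^ (a + 1)) * pen Y E ^ m).trace =
      ((a : ℝ[X]) + 1) * (cm E * pen Y E ^ (a + m)).trace := by
  induction a generalizing m with
  | zero => simp [dm_pen]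
  | succ a ih =>
    rw [pow_succ, dm_mul, dm_pen, Matrix.add_mul, trace_add, Matrix.mul_assoc, ← pow_succ', ih,
      Matrix.mul_assoc, trace_mul_comm (pen Y E ^ (a + 1)), Matrix.mul_assoc, ← pow_add,
      show a + (m + 1) = a + 1 + m by omega, show m + (a + 1) = a + 1 + m by omega]
    push_cast
    ring

theorem coeff_trace_pow (Y E : Mat n) (a l : ℕ) :
    ((pen Y E ^ (a + 1)).trace).coeff (l + 1) * ((l : ℝ) + 1) =
      ((a : ℝ) + 1) * (E * co l (pen Y E ^ a)).trace := by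
  have h1 : derivative ((pen Y E ^ (a + 1)).trace) = (dm (pen Y E ^ (a + 1))).trace := by
    simp [Matrix.trace, dm, derivative_sum]
  have h2 := trace_dm_pow Y E a 0
  rw [pow_zero, Matrix.mul_one, add_zero] at h2
  rw [← coeff_derivative, h1, h2]
  have h3 : ((a : ℝ[X]) + 1) = C ((a : ℝ) + 1) := by simp
  rw [h3, coeff_C_mul]
  congr 1
  simp [Matrix.trace, Matrix.mul_apply, cm, co, finsetSum_coeff]

/-- the decay profile -/
def w (b : ℕ) : ℝ := (1 + (b : ℝ)) ^ (-(5 / 4) : ℝ)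

theorem w_pos (b : ℕ) : 0 < w b := by unfold w; positivity

theorem w_le (a b : ℕ) (h : 1 + a ≤ 2 * (1 + b)) : w b ≤ 4 * w a := by
  have h' : (1 + (a : ℝ)) / 2 ≤ 1 + (b : ℝ) := by
    have : ((1 + a : ℕ) : ℝ) ≤ ((2 * (1 + b) : ℕ) : ℝ) := by exact_mod_cast h
    push_cast at this
    linarith
  have ha : (0 : ℝ) < 1 + (a : ℝ) := by positivity
  have h1 : w b ≤ ((1 + (a : ℝ)) / 2) ^ (-(5 / 4) : ℝ) :=
    Real.rpow_le_rpow_of_nonpos (by positivity) h' (by norm_num)
  have h2 : ((1 + (a : ℝ)) / 2) ^ (-(5 / 4) : ℝ) = w a * (2 : ℝ) ^ ((5 / 4) : ℝ) := by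
    rw [Real.div_rpow ha.le (by norm_num), Real.rpow_neg (by norm_num : (0 : ℝ) ≤ 2),
      div_inv_eq_mul]
    rfl
  have h3 : (2 : ℝ) ^ ((5 / 4) : ℝ) ≤ 4 := by
    calc (2 : ℝ) ^ ((5 / 4) : ℝ) ≤ (2 : ℝ) ^ ((2 : ℕ) : ℝ) :=
          Real.rpow_le_rpow_of_exponent_le (by norm_num) (by norm_num)
      _ = 4 := by rw [Real.rpow_natCast]; norm_num
  have := w_pos a
  nlinarith

theorem exists_sum_w : ∃ S : ℝ, 0 ≤ S ∧ ∀ a, ∑ b ∈ range a, w b ≤ S := by
  have h : Summable w := by
    have h0 : Summable fun b : ℕ => (b : ℝ) ^ (-(5 / 4) : ℝ) :=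
      Real.summable_nat_rpow.2 (by norm_num)
    have h1 := (summable_nat_add_iff 1).2 h0
    refine h1.congr fun b => ?_
    simp [w, add_comm]
  exact ⟨∑' b, w b, tsum_nonneg fun b => (w_pos b).le,
    fun a => h.sum_le_tsum _ fun b _ => (w_pos b).le⟩

theorem conv_le {S : ℝ} (hS : ∀ a, ∑ b ∈ range a, w b ≤ S) (a : ℕ) :
    ∑ b ∈ range a, w b * w (a - 1 - b) ≤ 8 * S * w a := by
  have h1 : ∀ b ∈ range a, w b * w (a - 1 - b) ≤ 4 * w a * (w b + w (a - 1 - b)) := by
    intro b hb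
    have hb' := mem_range.1 hb
    have p1 := w_pos b
    have p2 := w_pos (a - 1 - b)
    have p3 := w_pos a
    rcases le_total b (a - 1 - b) with h | h
    · have := w_le a (a - 1 - b) (by omega)
      nlinarith
    · have := w_le a b (by omega)
      nlinarith
  refine (sum_le_sum h1).trans ?_
  rw [← Finset.mul_sum, sum_add_distrib, sum_range_reflect]
  have := hS a
  have p3 := w_pos a
  nlinarith

theorem sum_pair_le (i j : Fin n) (f : Fin n → ℝ) (B : ℝ) (hB : 0 ≤ B)
    (h0 : ∀ c, c ≠ i → c ≠ j → f c = 0) (h : ∀ c, c = i ∨ c = j → |f c| ≤ B) :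
    |∑ c, f c| ≤ 2 * B := by
  have h1 : ∑ c, f c = ∑ c ∈ ({i, j} : Finset (Fin n)), f c := by
    refine (sum_subset (subset_univ _) fun c _ hc => ?_).symm
    simp only [mem_insert, mem_singleton, not_or] at hc
    exact h0 c hc.1 hc.2
  rw [h1]
  refine (abs_sum_le_sum_abs _ _).trans ?_
  refine (sum_le_card_nsmul _ _ B fun c hc => h c (by simpa using hc)).trans ?_
  have : (({i, j} : Finset (Fin n)).card : ℝ) ≤ 2 := by exact_mod_cast card_le_two
  rw [nsmul_eq_mul]
  nlinarith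

theorem sandwich_le (A B E : Mat n) (i j c d : Fin n) (e α β : ℝ) (he : 0 ≤ e) (hα : 0 ≤ α)
    (hβ : 0 ≤ β) (hE : ∀ c d, (c ≠ i ∧ c ≠ j) ∨ (d ≠ i ∧ d ≠ j) → E c d = 0)
    (hEe : ∀ c d, |E c d| ≤ e) (hA : ∀ x, x = i ∨ x = j → |A c x| ≤ α)
    (hB : ∀ x, x = i ∨ x = j → |B x d| ≤ β) : |(A * E * B) c d| ≤ 4 * e * α * β := by
  rw [Matrix.mul_apply]
  have h := sum_pair_le i j (fun x => (A * E) c x * B x d) (2 * (α * e) * β) (by positivity)
    (fun x h1 h2 => by simp [Matrix.mul_apply, hE _ x (Or.inr ⟨h1, h2⟩)]) fun x hx => by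
      rw [abs_mul]
      refine mul_le_mul ?_ (hB x hx) (abs_nonneg _) (by positivity)
      rw [Matrix.mul_apply]
      refine sum_pair_le i j _ _ (by positivity)
        (fun y h1 h2 => by simp [hE y x (Or.inl ⟨h1, h2⟩)]) fun y hy => ?_
      rw [abs_mul]
      exact mul_le_mul (hA y hy) (hEe y x) (abs_nonneg _) hα
  linarith

theorem pow_entry_le (Y : Mat n) (hY : Yᵀ = Y) (a b : ℕ) (c d : Fin n) :
    |(Y ^ (a + b)) c d| ≤ ((Y ^ (2 * a)) c c + (Y ^ (2 * b)) d d) / 2 := by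
  have hs : ∀ (m : ℕ) (x y : Fin n), (Y ^ m) x y = (Y ^ m) y x := fun m x y => by
    have : (Y ^ m)ᵀ = Y ^ m := by rw [transpose_pow, hY]
    conv_lhs => rw [← this]
    rfl
  rw [pow_add, two_mul, two_mul, pow_add, pow_add, Matrix.mul_apply, Matrix.mul_apply,
    Matrix.mul_apply, ← sum_add_distrib, Finset.sum_div]
  refine (abs_sum_le_sum_abs _ _).trans (sum_le_sum fun x _ => ?_)
  rw [hs a x c, hs b d x]
  rw [abs_le]
  constructor <;> nlinarith [sq_nonneg ((Y ^ a) c x - (Y ^ b) x d),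
    sq_nonneg ((Y ^ a) c x + (Y ^ b) x d)]

end Der58

open Der58 in
theorem derStmt : DerStmt := by
  obtain ⟨S, hS0, hS⟩ := exists_sum_w
  refine ⟨96 + 128 * S, by positivity, ?_⟩
  intro n Y E i j e Z M k hY hE hEe hM hk hk4 hZ
  have he : 0 ≤ e := (abs_nonneg _).trans (hEe i i)
  have hZ1 : 1 ≤ Z := by simpa using hZ 0 (Nat.zero_le _) i (Or.inl rfl)
  have hZ0 : 0 ≤ Z := by linarith
  have h0 : ∀ a, a ≤ M → ∀ c d, (c = i ∨ c = j) → (d = i ∨ d = j) →
      |(Y ^ a) c d| ≤ 4 * Z * w a := by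
    intro a ha c d hc hd
    have h1 := pow_entry_le Y hY (a / 2) (a - a / 2) c d
    rw [show a / 2 + (a - a / 2) = a by omega] at h1
    have h2 : (Y ^ (2 * (a / 2))) c c ≤ Z * w (a / 2) := hZ _ (by omega) c hc
    have h3 : (Y ^ (2 * (a - a / 2))) d d ≤ Z * w (a - a / 2) := hZ _ (by omega) d hd
    have h4 := w_le a (a / 2) (by omega)
    have h5 := w_le a (a - a / 2) (by omega)
    nlinarith
  have h1 : ∀ l a, a ≤ M → ∀ c d, (c = i ∨ c = j) → (d = i ∨ d = j) →
      |co l (pen Y E ^ a) c d| ≤ 4 * (128 * S * e * Z) ^ l * Z * w a := by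
    intro l
    induction l with
    | zero =>
      intro a ha c d hc hd
      rw [co_zero_pow]
      simpa using h0 a ha c d hc hd
    | succ l ih =>
      intro a ha c d hc hd
      rw [co_succ_pow, Matrix.sum_apply]
      refine (abs_sum_le_sum_abs _ _).trans ?_
      have h2 : ∀ b ∈ range a, |(co l (pen Y E ^ b) * E * Y ^ (a - 1 - b)) c d| ≤
          (64 * e * (128 * S * e * Z) ^ l * Z * Z) * (w b * w (a - 1 - b)) := by
        intro b hb
        have hb' := mem_range.1 hb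
        have p1 := w_pos b
        have p2 := w_pos (a - 1 - b)
        refine (sandwich_le _ _ E i j c d e _ _ he (by positivity) (by positivity) hE hEe
          (fun x hx => ih b (by omega) c x hc hx)
          (fun x hx => h0 (a - 1 - b) (by omega) x d hx hd)).trans (le_of_eq ?_)
        ring
      refine (sum_le_sum h2).trans ?_
      rw [← Finset.mul_sum]
      refine (mul_le_mul_of_nonneg_left (conv_le hS a) (by positivity)).trans (le_of_eq ?_)
      ring
  obtain ⟨l, rfl⟩ : ∃ l, k = l + 1 := ⟨k - 1, by omega⟩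
  obtain ⟨a, rfl⟩ : ∃ a, M = a + 1 := ⟨M - 1, by omega⟩
  have h2 : (fun t : ℝ => ((Y + t • E) ^ (a + 1)).trace) =
      fun t => ((pen Y E ^ (a + 1)).trace).eval t := funext fun t => eval_trace_pow Y E _ t
  have h3 : iteratedDeriv (l + 1) (fun t : ℝ => ((Y + t • E) ^ (a + 1)).trace) 0 =
      (l.factorial : ℝ) * (((a : ℝ) + 1) * (E * co l (pen Y E ^ a)).trace) := by
    rw [h2, itd_zero, ← coeff_trace_pow, Nat.factorial_succ]
    push_cast
    ring
  have pw := w_pos a
  have h4 : |(E * co l (pen Y E ^ a)).trace| ≤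
      2 * (2 * (e * (4 * (128 * S * e * Z) ^ l * Z * w a))) := by
    refine sum_pair_le i j _ _ (by positivity)
      (fun c h1 h2 => by simp [Matrix.mul_apply, hE c _ (Or.inl ⟨h1, h2⟩)]) fun c hc => ?_
    rw [Matrix.diag_apply, Matrix.mul_apply]
    refine sum_pair_le i j _ _ (by positivity)
      (fun d h1 h2 => by simp [hE c d (Or.inr ⟨h1, h2⟩)]) fun d hd => ?_
    rw [abs_mul]
    exact mul_le_mul (hEe c d) (h1 l a (by omega) d c hd hc) (abs_nonneg _) he
  have h5 : (l.factorial : ℝ) ≤ 6 := by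
    have : l.factorial ≤ Nat.factorial 3 := Nat.factorial_le (by omega)
    exact_mod_cast this
  have h6 : ((a : ℝ) + 1) * w a = ((a + 1 : ℕ) : ℝ) ^ (-(1 / 4) : ℝ) := by
    have ha : (0 : ℝ) < 1 + (a : ℝ) := by positivity
    unfold w
    push_cast
    rw [add_comm (a : ℝ) 1, show (-(1 / 4) : ℝ) = 1 + -(5 / 4) by norm_num, Real.rpow_add ha,
      Real.rpow_one]
  have h7 : (128 * S * e * Z) ^ l ≤ ((96 + 128 * S) * e * Z) ^ l :=
    pow_le_pow_left₀ (by positivity) (by nlinarith [mul_nonneg he hZ0]) l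
  rw [h3, ← h6, abs_mul, abs_mul, abs_of_nonneg (by positivity : (0 : ℝ) ≤ (l.factorial : ℝ)),
    abs_of_nonneg (by positivity : (0 : ℝ) ≤ (a : ℝ) + 1)]
  calc (l.factorial : ℝ) * (((a : ℝ) + 1) * |(E * co l (pen Y E ^ a)).trace|)
      ≤ 6 * (((a : ℝ) + 1) * (2 * (2 * (e * (4 * (128 * S * e * Z) ^ l * Z * w a))))) := by
        gcongr
    _ = (128 * S * e * Z) ^ l * (96 * e * Z) * (((a : ℝ) + 1) * w a) := by ring
    _ ≤ ((96 + 128 * S) * e * Z) ^ l * ((96 + 128 * S) * e * Z) * (((a : ℝ) + 1) * w a) := by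
        gcongr
        linarith
    _ = _ := by ring

end Crest.Agent.T157.Ed

end
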