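import Crest.Agent.T157.EdDef_88
import Crest.Agent.R146.Lind1_878

/-!
# Row 157, part E: Lindeberg replacement with an averaged remainder (helper61)
-/

set_option autoImplicit false
set_option linter.unusedSectionVars false

noncomputable section

namespace Crest.Agent.T157.EdLind

open MeasureTheory ProbabilityTheory Filter Topology Finset
open Crest.Agent.T157.Ed Crest.Agent.R146L878

lemma hasDerivAt_iter {f : ℝ → ℝ} (hf : ContDiff ℝ 4 f) {i : ℕ} (hi : i < 4) (x : ℝ) :
    HasDerivAt (iteratedDeriv i f) (iteratedDeriv (i + 1) f x) x := by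
  rw [iteratedDeriv_succ]
  exact (hf.differentiable_iteratedDeriv i (by exact_mod_cast hi) x).hasDerivAt

lemma hasDerivAt_tay {f : ℝ → ℝ} (hf : ContDiff ℝ 4 f) (h θ : ℝ) (m : ℕ) (hm : m < 4) :
    HasDerivAt (fun θ : ℝ => ∑ i ∈ range (m + 1),
        iteratedDeriv i f (θ * h) * (h - θ * h) ^ i / (i.factorial : ℝ))
      (iteratedDeriv (m + 1) f (θ * h) * h * (h - θ * h) ^ m / (m.factorial : ℝ)) θ := by
  have hl : HasDerivAt (fun θ : ℝ => θ * h) h θ := by simpa using (hasDerivAt_id θ).mul_const h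
  induction m with
  | zero =>
    have h1 := (hasDerivAt_iter hf (i := 0) (by norm_num) (θ * h)).comp θ hl
    simpa [Function.comp_def] using h1
  | succ m ih =>
    have h1 := (hasDerivAt_iter hf hm (θ * h)).comp θ hl
    have h2 : HasDerivAt (fun θ : ℝ => (h - θ * h) ^ (m + 1))
        (((m + 1 : ℕ) : ℝ) * (h - θ * h) ^ m * (-h)) θ := by
      simpa using (hl.const_sub h).fun_pow (m + 1)
    have h3 := (ih (by omega)).add ((h1.mul h2).div_const (((m + 1).factorial : ℕ) : ℝ))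
    have hf1 : ((m.factorial : ℕ) : ℝ) ≠ 0 := by exact_mod_cast m.factorial_ne_zero
    refine (h3.congr_deriv ?_).congr_of_eventuallyEq (Eventually.of_forall fun θ => ?_)
    · simp only [Function.comp_def, Nat.factorial_succ]
      push_cast
      field_simp
      ring
    · simp only [sum_range_succ _ (m + 1), Function.comp_def, Pi.add_apply, Pi.mul_apply]

/-- Taylor's formula with the remainder bounded by an average of the square of a majorant -/
lemma taylor_bound {f r : ℝ → ℝ} (hf : ContDiff ℝ 4 f) {k : ℕ} (hk1 : 1 ≤ k) (hk4 : k ≤ 4)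
    (hr : ∀ s, |iteratedDeriv k f s| ≤ r s) {ρ : ℝ} (hρ : 0 < ρ) (h : ℝ) :
    ‖f h - ∑ i ∈ range k, iteratedDeriv i f 0 / (i.factorial : ℝ) * h ^ i‖ₑ ≤
      ENNReal.ofReal (ρ / 2 * (1 + h ^ 8)) + ENNReal.ofReal (1 / (2 * ρ)) *
        ∫⁻ θ in Set.Ioc (0 : ℝ) 1, ENNReal.ofReal (r (θ * h) ^ 2) := by
  obtain ⟨m, rfl⟩ : ∃ m, k = m + 1 := ⟨k - 1, by omega⟩
  have hc : Continuous fun θ : ℝ =>
      iteratedDeriv (m + 1) f (θ * h) * h * (h - θ * h) ^ m / (m.factorial : ℝ) := by
    have := hf.continuous_iteratedDeriv (m + 1) (by exact_mod_cast hk4)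
    fun_prop
  have h1 := intervalIntegral.integral_eq_sub_of_hasDerivAt
    (fun θ _ => hasDerivAt_tay hf h θ m (by omega)) (hc.intervalIntegrable 0 1)
  have h2 : ∑ i ∈ range (m + 1), iteratedDeriv i f (1 * h) * (h - 1 * h) ^ i / (i.factorial : ℝ)
      = f h := by
    rw [sum_range_succ']
    simp
  have h3 : ∑ i ∈ range (m + 1), iteratedDeriv i f (0 * h) * (h - 0 * h) ^ i / (i.factorial : ℝ)
      = ∑ i ∈ range (m + 1), iteratedDeriv i f 0 / (i.factorial : ℝ) * h ^ i :=
    sum_congr rfl fun i _ => by simp only [zero_mul, sub_zero]; ring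
  rw [h2, h3, intervalIntegral.integral_of_le zero_le_one] at h1
  rw [← h1]
  refine (enorm_integral_le_lintegral_enorm _).trans ?_
  have h4 : ∀ θ ∈ Set.Ioc (0 : ℝ) 1,
      ‖iteratedDeriv (m + 1) f (θ * h) * h * (h - θ * h) ^ m / (m.factorial : ℝ)‖ₑ ≤
      ENNReal.ofReal (ρ / 2 * (1 + h ^ 8)) +
        ENNReal.ofReal (1 / (2 * ρ)) * ENNReal.ofReal (r (θ * h) ^ 2) := by
    intro θ hθ
    rw [← ENNReal.ofReal_mul (by positivity), ← ENNReal.ofReal_add (by positivity) (by positivity),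
      ← ofReal_norm, Real.norm_eq_abs]
    refine ENNReal.ofReal_le_ofReal ?_
    have e1 : |h - θ * h| ≤ |h| := by
      rw [show h - θ * h = (1 - θ) * h by ring, abs_mul]
      refine mul_le_of_le_one_left (abs_nonneg _) (abs_le.2 ⟨by linarith [hθ.2], by linarith [hθ.1]⟩)
    have e2 : (1 : ℝ) ≤ (m.factorial : ℝ) := by exact_mod_cast m.factorial_pos
    have e3 : |iteratedDeriv (m + 1) f (θ * h) * h * (h - θ * h) ^ m / (m.factorial : ℝ)| ≤
        r (θ * h) * |h| ^ (m + 1) := by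
      rw [abs_div, abs_mul, abs_mul, abs_pow, abs_of_pos (by linarith : (0 : ℝ) < m.factorial)]
      refine (div_le_self (by positivity) e2).trans ?_
      rw [pow_succ', ← mul_assoc]
      have := (abs_nonneg _).trans (hr (θ * h))
      gcongr
      exact hr _
    have e4 : (|h| ^ (m + 1)) ^ 2 ≤ 1 + h ^ 8 := by
      rw [← pow_mul, show h ^ 8 = |h| ^ 8 by rw [← abs_pow, abs_of_nonneg (by positivity)]]
      rcases le_total |h| 1 with h5 | h5
      · have := pow_le_one₀ (n := (m + 1) * 2) (abs_nonneg h) h5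
        have : 0 ≤ |h| ^ 8 := by positivity
        linarith
      · have := pow_le_pow_right₀ h5 (show (m + 1) * 2 ≤ 8 by omega)
        linarith
    refine e3.trans ?_
    have e5 : r (θ * h) * |h| ^ (m + 1) ≤
        ρ / 2 * (|h| ^ (m + 1)) ^ 2 + 1 / (2 * ρ) * r (θ * h) ^ 2 := by
      have : 0 ≤ 1 / (2 * ρ) * (ρ * |h| ^ (m + 1) - r (θ * h)) ^ 2 := by positivity
      have e6 : 1 / (2 * ρ) * (ρ * |h| ^ (m + 1) - r (θ * h)) ^ 2 =
          ρ / 2 * (|h| ^ (m + 1)) ^ 2 + 1 / (2 * ρ) * r (θ * h) ^ 2 - r (θ * h) * |h| ^ (m + 1) := by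
        field_simp
        ring
      linarith
    have e7 := mul_le_mul_of_nonneg_left e4 (by positivity : 0 ≤ ρ / 2)
    linarith
  refine (setLIntegral_mono' measurableSet_Ioc h4).trans (le_of_eq ?_)
  rw [lintegral_add_left measurable_const, lintegral_const_mul' _ _ ENNReal.ofReal_ne_top]
  simp

/-- the eighth Gaussian moment -/
def m8 : ℝ := ∫ t, t ^ 8 ∂gaussianReal 0 1

lemma m8_nonneg : 0 ≤ m8 := integral_nonneg fun t => by positivity

lemma dom_map {μ : Measure ℝ} (hμ : Dom μ) {θ : ℝ} (hθ : |θ| ≤ 1) :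
    Dom (μ.map fun t => θ * t) := by
  have hm : Measurable fun t : ℝ => θ * t := by fun_prop
  constructor
  · intro k
    rw [integrable_map_measure (by fun_prop) hm.aemeasurable]
    simpa [Function.comp_def, mul_pow] using (hμ.int k).const_mul (θ ^ k)
  · intro k
    rw [integral_map hm.aemeasurable (by fun_prop)]
    simp only [mul_pow, integral_const_mul, abs_mul, abs_pow]
    exact (mul_le_of_le_one_left (abs_nonneg _) (pow_le_one₀ (abs_nonneg _) hθ)).trans (hμ.le k)

/-- integrated Taylor bound -/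
lemma mean_bound {f r : ℝ → ℝ} (hf : ContDiff ℝ 4 f) {B : ℝ} (hB : ∀ t, |f t| ≤ B) {k : ℕ}
    (hk1 : 1 ≤ k) (hk4 : k ≤ 4) (hr : ∀ s, |iteratedDeriv k f s| ≤ r s) {ρ : ℝ} (hρ : 0 < ρ)
    (μ : Measure ℝ) [IsProbabilityMeasure μ] (hμ : Dom μ) :
    ‖∫ t, f t ∂μ - ∑ i ∈ range k, iteratedDeriv i f 0 / (i.factorial : ℝ) * ∫ t, t ^ i ∂μ‖ₑ ≤
      ENNReal.ofReal (ρ / 2 * (1 + m8)) + ENNReal.ofReal (1 / (2 * ρ)) *
        ∫⁻ h, (∫⁻ θ in Set.Ioc (0 : ℝ) 1, ENNReal.ofReal (r (θ * h) ^ 2)) ∂μ := by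
  have i1 : Integrable f μ :=
    Integrable.of_bound hf.continuous.aestronglyMeasurable B (Eventually.of_forall hB)
  have i2 : ∀ i ∈ range k,
      Integrable (fun h : ℝ => iteratedDeriv i f 0 / (i.factorial : ℝ) * h ^ i) μ :=
    fun i _ => (hμ.int i).const_mul _
  have e1 : ∑ i ∈ range k, iteratedDeriv i f 0 / (i.factorial : ℝ) * ∫ t, t ^ i ∂μ =
      ∫ h, ∑ i ∈ range k, iteratedDeriv i f 0 / (i.factorial : ℝ) * h ^ i ∂μ := by
    rw [integral_finsetSum _ i2]
    exact sum_congr rfl fun i _ => (integral_const_mul _ _).symm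
  rw [e1, ← integral_sub i1 (integrable_finsetSum _ i2)]
  refine (enorm_integral_le_lintegral_enorm _).trans ?_
  refine (lintegral_mono fun h => taylor_bound hf hk1 hk4 hr hρ h).trans ?_
  have i3 : Integrable (fun h : ℝ => ρ / 2 * (1 + h ^ 8)) μ :=
    ((integrable_const 1).add (hμ.int 8)).const_mul _
  rw [lintegral_add_left (by fun_prop), lintegral_const_mul' _ _ ENNReal.ofReal_ne_top,
    ← ofReal_integral_eq_lintegral_ofReal i3 (Eventually.of_forall fun h => by positivity)]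
  refine add_le_add (ENNReal.ofReal_le_ofReal ?_) le_rfl
  rw [integral_const_mul, integral_add (integrable_const 1) (hμ.int 8)]
  have := (le_abs_self _).trans (hμ.le 8)
  simp only [integral_const, probReal_univ, smul_eq_mul, mul_one]
  unfold m8
  gcongr

section step
variable {ι : Type} [Fintype ι] [DecidableEq ι]

lemma prob_update (ξ : ι → Measure ℝ) [∀ q, IsProbabilityMeasure (ξ q)] (p : ι) (μ : Measure ℝ)
    [IsProbabilityMeasure μ] (q : ι) : IsProbabilityMeasure (Function.update ξ p μ q) := by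
  by_cases h : q = p
  · subst h; simpa using ‹IsProbabilityMeasure μ›
  · simpa [Function.update_of_ne h] using (inferInstance : IsProbabilityMeasure (ξ q))

lemma dom_update {ξ : ι → Measure ℝ} (hξ : ∀ q, Dom (ξ q)) (p : ι) {μ : Measure ℝ} (hμ : Dom μ)
    (q : ι) : Dom (Function.update ξ p μ q) := by
  by_cases h : q = p
  · subst h; simpa using hμ
  · simpa [Function.update_of_ne h] using hξ q

lemma tonelli (ξ : ι → Measure ℝ) [∀ q, IsProbabilityMeasure (ξ q)] (hξ : ∀ q, Dom (ξ q)) (p : ι)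
    (μ : Measure ℝ) [IsProbabilityMeasure μ] (hμ : Dom μ) {φ : (ι → ℝ) → ENNReal}
    (hφ : Measurable φ) {c : ENNReal}
    (hc : ∀ (ξ : ι → Measure ℝ) [∀ q, IsProbabilityMeasure (ξ q)], (∀ q, Dom (ξ q)) →
      ∫⁻ y, φ y ∂Measure.pi ξ ≤ c) :
    ∫⁻ y, (∫⁻ h, (∫⁻ θ in Set.Ioc (0 : ℝ) 1, φ (Function.update y p (θ * h))) ∂μ)
      ∂Measure.pi ξ ≤ c := by
  have hm : Measurable fun z : ((ι → ℝ) × ℝ) × ℝ => φ (Function.update z.1.1 p (z.2 * z.1.2)) :=
    hφ.comp ((measurable_updateMap p).comp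
      (f := fun z : ((ι → ℝ) × ℝ) × ℝ => (z.1.1, z.2 * z.1.2)) (by fun_prop))
  rw [← lintegral_prod (fun z : (ι → ℝ) × ℝ =>
    ∫⁻ θ in Set.Ioc (0 : ℝ) 1, φ (Function.update z.1 p (θ * z.2)))
    hm.lintegral_prod_right'.aemeasurable]
  rw [lintegral_lintegral_swap (f := fun (z : (ι → ℝ) × ℝ) (θ : ℝ) =>
    φ (Function.update z.1 p (θ * z.2))) hm.aemeasurable]
  refine (setLIntegral_mono' (g := fun _ => c) measurableSet_Ioc fun θ hθ => ?_).trans (by simp)
  have hθ' : |θ| ≤ 1 := abs_le.2 ⟨by linarith [hθ.1], hθ.2⟩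
  have hmul : Measurable fun t : ℝ => θ * t := by fun_prop
  have : IsProbabilityMeasure (μ.map fun t => θ * t) :=
    Measure.isProbabilityMeasure_map hmul.aemeasurable
  have := prob_update ξ p (μ.map fun t => θ * t)
  refine le_trans (le_of_eq ?_) (hc _ (dom_update hξ p (dom_map hμ hθ')))
  have hu := measurable_updateMap (ι := ι) p
  have m1 : Measurable fun z : (ι → ℝ) × ℝ => φ (Function.update z.1 p z.2) := hφ.comp hu
  have m2 : Measurable fun z : (ι → ℝ) × ℝ => φ (Function.update z.1 p (θ * z.2)) :=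
    hφ.comp (hu.comp (f := fun z : (ι → ℝ) × ℝ => (z.1, θ * z.2)) (by fun_prop))
  rw [← map_update_prod, lintegral_map hφ hu, lintegral_prod _ m1.aemeasurable,
    lintegral_prod _ m2.aemeasurable]
  refine lintegral_congr fun y => ?_
  have m3 : Measurable fun t : ℝ => φ (Function.update y p t) := hφ.comp (measurable_update y)
  exact (lintegral_map m3 hmul).symm

/-- one replacement step -/
lemma step (ξ : ι → Measure ℝ) [∀ q, IsProbabilityMeasure (ξ q)] (hξ : ∀ q, Dom (ξ q)) (p : ι)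
    (μ ν : Measure ℝ) [IsProbabilityMeasure μ] [IsProbabilityMeasure ν] (hμ : Dom μ) (hν : Dom ν)
    {F : (ι → ℝ) → ℝ} {B : ℝ} {k : ℕ} {R : (ι → ℝ) → ℝ} {ρ : ℝ} (hF : Measurable F)
    (hB : ∀ y, |F y| ≤ B) (hk1 : 1 ≤ k) (hk4 : k ≤ 4)
    (hm : ∀ i, i < k → ∫ t, t ^ i ∂μ = ∫ t, t ^ i ∂ν)
    (hd : ∀ y, ContDiff ℝ 4 fun t => F (Function.update y p t)) (hR : Measurable R)
    (hr : ∀ y, |iteratedDeriv k (fun t => F (Function.update y p t)) (y p)| ≤ R y) (hρ : 0 < ρ)
    (hc : ∀ (ξ : ι → Measure ℝ) [∀ q, IsProbabilityMeasure (ξ q)], (∀ q, Dom (ξ q)) →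
      ∫⁻ y, ENNReal.ofReal (R y ^ 2) ∂Measure.pi ξ ≤ ENNReal.ofReal (ρ ^ 2)) :
    |∫ y, F y ∂Measure.pi (Function.update ξ p μ) - ∫ y, F y ∂Measure.pi (Function.update ξ p ν)|
      ≤ (2 + m8) * ρ := by
  have := prob_update ξ p μ
  have := prob_update ξ p ν
  obtain ⟨i1, j1⟩ := integral_update ξ p μ F hF
    (Integrable.of_bound hF.aestronglyMeasurable B (Eventually.of_forall hB))
  obtain ⟨i2, j2⟩ := integral_update ξ p ν F hF
    (Integrable.of_bound hF.aestronglyMeasurable B (Eventually.of_forall hB))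
  have hφ : Measurable fun y => ENNReal.ofReal (R y ^ 2) := by fun_prop
  have t1 := tonelli ξ hξ p μ hμ hφ hc
  have t2 := tonelli ξ hξ p ν hν hφ hc
  have hr' : ∀ y s, |iteratedDeriv k (fun t => F (Function.update y p t)) s| ≤
      R (Function.update y p s) := fun y s => by
    simpa using hr (Function.update y p s)
  have hmeas : Measurable fun y : ι → ℝ => ∫⁻ h, (∫⁻ θ in Set.Ioc (0 : ℝ) 1,
      ENNReal.ofReal (R (Function.update y p (θ * h)) ^ 2)) ∂μ := by
    have hm : Measurable fun z : ((ι → ℝ) × ℝ) × ℝ =>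
        ENNReal.ofReal (R (Function.update z.1.1 p (z.2 * z.1.2)) ^ 2) :=
      hφ.comp ((measurable_updateMap p).comp
        (f := fun z : ((ι → ℝ) × ℝ) × ℝ => (z.1.1, z.2 * z.1.2)) (by fun_prop))
    exact hm.lintegral_prod_right'.lintegral_prod_right'
  have hm8 := m8_nonneg
  rw [i1, i2, ← integral_sub j1 j2, ← Real.norm_eq_abs,
    ← ENNReal.ofReal_le_ofReal_iff (by positivity), ofReal_norm]
  refine (enorm_integral_le_lintegral_enorm _).trans ?_
  have hpt : ∀ y : ι → ℝ,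
      ‖∫ t, F (Function.update y p t) ∂μ - ∫ t, F (Function.update y p t) ∂ν‖ₑ ≤
      (ENNReal.ofReal (ρ / 2 * (1 + m8)) + ENNReal.ofReal (1 / (2 * ρ)) *
        ∫⁻ h, (∫⁻ θ in Set.Ioc (0 : ℝ) 1,
          ENNReal.ofReal (R (Function.update y p (θ * h)) ^ 2)) ∂μ) +
      (ENNReal.ofReal (ρ / 2 * (1 + m8)) + ENNReal.ofReal (1 / (2 * ρ)) *
        ∫⁻ h, (∫⁻ θ in Set.Ioc (0 : ℝ) 1,
          ENNReal.ofReal (R (Function.update y p (θ * h)) ^ 2)) ∂ν) := by
    intro y
    have b1 := mean_bound (hd y) (fun t => hB _) hk1 hk4 (hr' y) hρ μ hμ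
    have b2 := mean_bound (hd y) (fun t => hB _) hk1 hk4 (hr' y) hρ ν hν
    rw [sum_congr rfl fun i hi => by rw [hm i (mem_range.1 hi)]] at b1
    refine le_trans ?_ (add_le_add b1 b2)
    rw [← ofReal_norm, ← ofReal_norm, ← ofReal_norm,
      ← ENNReal.ofReal_add (norm_nonneg _) (norm_nonneg _)]
    exact ENNReal.ofReal_le_ofReal (norm_sub_le_norm_sub_add_norm_sub _ _ _ |>.trans
      (by rw [norm_sub_rev (∑ i ∈ range k, _)]))
  refine (lintegral_mono hpt).trans ?_
  have hmeas2 : Measurable fun y : ι → ℝ => ENNReal.ofReal (ρ / 2 * (1 + m8)) +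
      ENNReal.ofReal (1 / (2 * ρ)) * ∫⁻ h, (∫⁻ θ in Set.Ioc (0 : ℝ) 1,
      ENNReal.ofReal (R (Function.update y p (θ * h)) ^ 2)) ∂μ :=
    measurable_const.add (hmeas.const_mul _)
  rw [lintegral_add_left hmeas2,
    lintegral_add_left measurable_const, lintegral_add_left measurable_const,
    lintegral_const_mul' _ _ ENNReal.ofReal_ne_top, lintegral_const_mul' _ _ ENNReal.ofReal_ne_top]
  simp only [lintegral_const, measure_univ, mul_one]
  have e1 : ENNReal.ofReal (ρ / 2 * (1 + m8)) + ENNReal.ofReal (1 / (2 * ρ)) *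
      ENNReal.ofReal (ρ ^ 2) = ENNReal.ofReal ((2 + m8) * ρ / 2) := by
    rw [← ENNReal.ofReal_mul (by positivity), ← ENNReal.ofReal_add (by positivity) (by positivity)]
    congr 1
    field_simp
    ring
  calc _ ≤ (ENNReal.ofReal (ρ / 2 * (1 + m8)) + ENNReal.ofReal (1 / (2 * ρ)) *
        ENNReal.ofReal (ρ ^ 2)) + (ENNReal.ofReal (ρ / 2 * (1 + m8)) +
        ENNReal.ofReal (1 / (2 * ρ)) * ENNReal.ofReal (ρ ^ 2)) := by gcongr
    _ = ENNReal.ofReal ((2 + m8) * ρ) := by
      rw [e1, ← ENNReal.ofReal_add (by positivity) (by positivity), add_halves]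

end step

theorem lindStmt : LindStmt := by
  refine ⟨2 + m8, by linarith [m8_nonneg], ?_⟩
  intro ι _ _ μ ν _ _ hμ hν F B k R ρ hF hB hk hm hd hR hr hρ hc
  let H : Finset ι → ι → Measure ℝ := fun S i => if i ∈ S then μ i else ν i
  have hHp : ∀ S i, IsProbabilityMeasure (H S i) := by
    intro S i; simp only [H]; split_ifs <;> infer_instance
  have hHd : ∀ S i, Dom (H S i) := by
    intro S i; simp only [H]; split_ifs
    · exact hμ i
    · exact hν i
  have main : ∀ S : Finset ι, |∫ x, F x ∂(Measure.pi (H S)) - ∫ x, F x ∂(Measure.pi ν)|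
      ≤ (2 + m8) * ∑ i ∈ S, ρ i := by
    intro S
    induction S using Finset.induction_on with
    | empty =>
      have : H ∅ = ν := by funext i; simp [H]
      rw [this]; simp
    | insert i S hi ih =>
      have e1 : H (insert i S) = Function.update (H S) i (μ i) := by
        funext j
        by_cases hj : j = i
        · subst hj; simp [H]
        · simp [H, hj]
      have e2 : Function.update (H S) i (ν i) = H S := by
        funext j
        by_cases hj : j = i
        · subst hj; simp [H, hi]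
        · simp [Function.update_of_ne hj]
      have hs := step (H S) (hHd S) i (μ i) (ν i) (hμ i) (hν i) hF hB (hk i).1 (hk i).2 (hm i)
        (hd i) (hR i) (hr i) (hρ i) (hc i)
      rw [← e1, e2] at hs
      rw [Finset.sum_insert hi, mul_add]
      exact (abs_sub_le _ _ _).trans (add_le_add hs ih)
  have hfin := main Finset.univ
  have : H Finset.univ = μ := by funext i; simp [H]
  rwa [this] at hfin

end Crest.Agent.T157.EdLind

end
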