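import Crest.Agent.T157.EdBase_88

/-!
# Row 157, part E (helper36): `Ed.LinkStmt` and `Ed.MbaStmt`

* Gaussian moments and the dominated laws;
* `Dm f g`: `f`, `g` are sums of the same monomials with dominated coefficients;
* `linkStmt`, `mbaStmt`.
-/

set_option autoImplicit false

noncomputable section

namespace Crest.Agent.T157.Ed

open MeasureTheory ProbabilityTheory Matrix Filter Topology Finset
open Crest.ProbabilityR.SpinGlassDynamics Crest.Agent.T157.E Crest.Agent.T157.Eig
open Crest.Agent.T157.Cond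

namespace Mba36

/-! ### Gaussian moments -/

lemma int_pow_gauss (k : ℕ) : Integrable (fun t : ℝ => t ^ k) (gaussianReal 0 1) := by
  have h : MemLp id (k : ENNReal) (gaussianReal 0 1) :=
    memLp_id_gaussianReal' _ (ENNReal.natCast_ne_top k)
  refine h.integrable_norm_pow'.mono' (by fun_prop) (ae_of_all _ fun t => ?_)
  simp [norm_pow]

lemma gauss_odd {k : ℕ} (hk : Odd k) : ∫ t : ℝ, t ^ k ∂gaussianReal 0 1 = 0 := by
  have h1 : (gaussianReal 0 1).map (fun x : ℝ => -x) = gaussianReal 0 1 := by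
    rw [gaussianReal_map_neg, neg_zero]
  have h2 : ∫ t : ℝ, t ^ k ∂gaussianReal 0 1 = ∫ t : ℝ, (-t) ^ k ∂gaussianReal 0 1 := by
    conv_lhs => rw [← h1]
    rw [integral_map (by fun_prop) (by fun_prop)]
  simp_rw [hk.neg_pow, integral_neg] at h2
  linarith

lemma gauss_two : ∫ t : ℝ, t ^ 2 ∂gaussianReal 0 1 = 1 := by
  have h := variance_fun_id_gaussianReal (μ := 0) (v := 1)
  rw [variance_eq_integral measurable_id'.aemeasurable] at h
  simpa using h

lemma gauss_even {k : ℕ} (hk : Even k) : 1 ≤ ∫ t : ℝ, t ^ k ∂gaussianReal 0 1 := by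
  obtain ⟨m, rfl⟩ := hk
  have h0 : Integrable (fun t : ℝ => (m : ℝ) * (t ^ 2 - 1)) (gaussianReal 0 1) :=
    ((int_pow_gauss 2).sub (integrable_const _)).const_mul _
  have hi : Integrable (fun t : ℝ => 1 + (m : ℝ) * (t ^ 2 - 1)) (gaussianReal 0 1) :=
    (integrable_const _).add h0
  have h1 : ∫ t : ℝ, (1 + (m : ℝ) * (t ^ 2 - 1)) ∂gaussianReal 0 1 = 1 := by
    rw [integral_add (integrable_const _) h0, integral_const_mul,
      integral_sub (int_pow_gauss 2) (integrable_const _), gauss_two]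
    simp
  rw [← h1]
  refine integral_mono hi (int_pow_gauss _) fun t => ?_
  have := one_add_mul_le_pow (a := t ^ 2 - 1) (by nlinarith [sq_nonneg t]) m
  simp only [add_sub_cancel] at this
  calc 1 + (m : ℝ) * (t ^ 2 - 1) ≤ (t ^ 2) ^ m := this
    _ = t ^ (m + m) := by ring

lemma gauss_nonneg (k : ℕ) : 0 ≤ ∫ t : ℝ, t ^ k ∂gaussianReal 0 1 := by
  rcases Nat.even_or_odd k with h | h
  · exact zero_le_one.trans (gauss_even h)
  · exact (gauss_odd h).ge

lemma dom_gauss : Dom (gaussianReal 0 1) :=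
  ⟨int_pow_gauss, fun k => (abs_of_nonneg (gauss_nonneg k)).le⟩

lemma int_coin (f : ℝ → ℝ) : Integrable f coin := by
  refine Integrable.add_measure ?_ ?_
  · exact (integrable_dirac (by simp)).smul_measure (by simp)
  · exact (integrable_dirac (by simp)).smul_measure (by simp)

lemma integral_coin (f : ℝ → ℝ) : ∫ t, f t ∂coin = (f 1 + f (-1)) / 2 := by
  rw [integral_add_measure ((integrable_dirac (by simp)).smul_measure (by simp))
    ((integrable_dirac (by simp)).smul_measure (by simp)), integral_smul_measure,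
    integral_smul_measure, integral_dirac, integral_dirac]
  simp
  ring

lemma coin_odd {k : ℕ} (hk : Odd k) : ∫ t : ℝ, t ^ k ∂coin = 0 := by
  rw [integral_coin, hk.neg_pow]; simp

lemma coin_even {k : ℕ} (hk : Even k) : ∫ t : ℝ, t ^ k ∂coin = 1 := by
  rw [integral_coin, hk.neg_pow]; simp

lemma dom_coin : Dom coin := by
  refine ⟨fun k => int_coin _, fun k => ?_⟩
  rcases Nat.even_or_odd k with h | h
  · rw [coin_even h, abs_one]; exact gauss_even h
  · rw [coin_odd h, abs_zero]; exact gauss_nonneg k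

lemma dom_entry (b : Bool) : Dom (entryLaw b) := by
  cases b
  · simpa only [entryLaw, Bool.false_eq_true, if_false] using dom_gauss
  · simpa only [entryLaw, if_true] using dom_coin

lemma dom_dirac : Dom (Measure.dirac 0) := by
  refine ⟨fun k => integrable_dirac (by simp), fun k => ?_⟩
  rw [integral_dirac]
  rcases Nat.eq_zero_or_pos k with rfl | h
  · simp
  · rw [zero_pow h.ne', abs_zero]; exact gauss_nonneg k

lemma dom_map {μ : Measure ℝ} {θ : ℝ} (h : Dom μ) (hθ : |θ| ≤ 1) :
    Dom (μ.map fun t => θ * t) := by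
  have hm : Measurable fun t : ℝ => θ * t := by fun_prop
  refine ⟨fun k => ?_, fun k => ?_⟩
  · rw [integrable_map_measure (by fun_prop) hm.aemeasurable]
    refine ((h.int k).const_mul (θ ^ k)).congr (ae_of_all _ fun t => ?_)
    simp [mul_pow]
  · rw [integral_map hm.aemeasurable (by fun_prop)]
    simp_rw [mul_pow]
    rw [integral_const_mul, abs_mul, abs_pow]
    calc |θ| ^ k * |∫ t, t ^ k ∂μ| ≤ 1 * |∫ t, t ^ k ∂μ| :=
          mul_le_mul_of_nonneg_right (pow_le_one₀ (abs_nonneg _) hθ) (abs_nonneg _)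
      _ ≤ _ := by rw [one_mul]; exact h.le k

lemma entry_match (b : Bool) {i : ℕ} (hi : i < 4) :
    ∫ t, t ^ i ∂entryLaw b = ∫ t, t ^ i ∂gaussianReal 0 1 := by
  cases b
  · simp only [entryLaw, Bool.false_eq_true, if_false]
  · simp only [entryLaw, if_true]
    interval_cases i
    · rw [coin_even (by decide)]; simp
    · rw [coin_odd (by decide), gauss_odd (by decide)]
    · rw [coin_even (by decide), gauss_two]
    · rw [coin_odd (by decide), gauss_odd (by decide)]

/-! ### the sample spaces -/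

lemma map_Wy (n : ℕ) (μ : Ix n → Measure ℝ) [∀ p, IsProbabilityMeasure (μ p)] :
    (Measure.pi μ).map (Wy n) =
      ((Measure.pi fun p => μ (Sum.inl p)).prod (Measure.pi fun i => μ (Sum.inr i))).map
        fun p => Wmat n p.1 p.2 := by
  have h := measurePreserving_sumPiEquivProdPi (X := fun _ : Ix n => ℝ) μ
  rw [← h.map_eq, Measure.map_map measurable_Wmat h.measurable]
  rfl

lemma pi_dirac (n : ℕ) : (Measure.pi fun _ : Fin n => Measure.dirac (0 : ℝ)) =
    Measure.dirac (fun _ : Fin n => (0 : ℝ)) := by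
  rw [← Measure.infinitePi_eq_pi]
  exact Measure.infinitePi_dirac (fun _ : Fin n => (0 : ℝ))

lemma Wmat_zero (n : ℕ) (g : Pair n → ℝ) : Wmat n g (fun _ => 0) = Jmat n g := by
  simp [Wmat]

/-! ### domination of coefficients -/

variable {ι : Type} [Fintype ι]

/-- `f` and `g` are sums of the same monomials, the coefficients of `g` dominate those of `f` -/
inductive Dm : ((ι → ℝ) → ℝ) → ((ι → ℝ) → ℝ) → Prop
  | mono (c d : ℝ) (e : ι → ℕ) (h : |c| ≤ d) :
      Dm (fun y => c * ∏ i, y i ^ e i) (fun y => d * ∏ i, y i ^ e i)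
  | add {f g f' g' : (ι → ℝ) → ℝ} :
      Dm f g → Dm f' g' → Dm (fun y => f y + f' y) (fun y => g y + g' y)

lemma Dm.congr {f g f' g' : (ι → ℝ) → ℝ} (h : Dm f g) (hf : ∀ y, f' y = f y)
    (hg : ∀ y, g' y = g y) : Dm f' g' := by
  rw [show f' = f from funext hf, show g' = g from funext hg]; exact h

lemma Dm.const {c d : ℝ} (h : |c| ≤ d) : Dm (ι := ι) (fun _ => c) fun _ => d :=
  (Dm.mono c d (fun _ => 0) h).congr (fun _ => by simp) fun _ => by simp

lemma Dm.var {c d : ℝ} (h : |c| ≤ d) (p : ι) : Dm (fun y => c * y p) fun y => d * y p := by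
  classical
  have key : ∀ y : ι → ℝ, ∏ i, y i ^ (if i = p then 1 else 0) = y p := by
    intro y
    rw [Finset.prod_eq_single p]
    · simp
    · intro i _ hi; simp [hi]
    · simp
  exact (Dm.mono c d (fun i => if i = p then 1 else 0) h).congr (fun y => by rw [key])
    fun y => by rw [key]

lemma Dm.mono_mul {c d : ℝ} (e : ι → ℕ) (h : |c| ≤ d) {f g : (ι → ℝ) → ℝ} (hfg : Dm f g) :
    Dm (fun y => (c * ∏ i, y i ^ e i) * f y) fun y => (d * ∏ i, y i ^ e i) * g y := by
  induction hfg with
  | mono c' d' e' h' =>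
    refine (Dm.mono (c * c') (d * d') (fun i => e i + e' i) ?_).congr (fun y => ?_) fun y => ?_
    · rw [abs_mul]
      exact mul_le_mul h h' (abs_nonneg _) ((abs_nonneg _).trans h)
    · simp only [pow_add, Finset.prod_mul_distrib]; ring
    · simp only [pow_add, Finset.prod_mul_distrib]; ring
  | add _ _ ih ih' => exact (ih.add ih').congr (fun y => mul_add _ _ _) fun y => mul_add _ _ _

lemma Dm.mul {f g f' g' : (ι → ℝ) → ℝ} (h : Dm f g) (h' : Dm f' g') :
    Dm (fun y => f y * f' y) fun y => g y * g' y := by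
  induction h with
  | mono c d e h => exact Dm.mono_mul e h h'
  | add _ _ ih ih' => exact (ih.add ih').congr (fun y => add_mul _ _ _) fun y => add_mul _ _ _

lemma Dm.sum {κ : Type*} (s : Finset κ) {f g : κ → (ι → ℝ) → ℝ} (h : ∀ k ∈ s, Dm (f k) (g k)) :
    Dm (fun y => ∑ k ∈ s, f k y) fun y => ∑ k ∈ s, g k y := by
  classical
  induction s using Finset.induction_on with
  | empty => exact (Dm.const (c := 0) (d := 0) (by simp)).congr (fun _ => by simp) fun _ => by simp
  | insert a s ha ih =>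
    exact ((h a (mem_insert_self _ _)).add (ih fun k hk => h k (mem_insert_of_mem hk))).congr
      (fun y => sum_insert ha) fun y => sum_insert ha

lemma Dm.pow {f g : (ι → ℝ) → ℝ} (h : Dm f g) (q : ℕ) :
    Dm (fun y => f y ^ q) fun y => g y ^ q := by
  induction q with
  | zero => exact (Dm.const (c := 1) (d := 1) (by simp)).congr (fun _ => by simp) fun _ => by simp
  | succ q ih => exact (ih.mul h).congr (fun y => pow_succ _ _) fun y => pow_succ _ _

lemma Dm.integral {f g : (ι → ℝ) → ℝ} (h : Dm f g) (μ : ι → Measure ℝ)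
    [∀ p, IsProbabilityMeasure (μ p)] (hμ : ∀ p, Dom (μ p)) :
    Integrable f (Measure.pi μ) ∧ Integrable g (gv ι) ∧
      |∫ y, f y ∂Measure.pi μ| ≤ ∫ y, g y ∂gv ι := by
  induction h with
  | mono c d e h =>
    refine ⟨(Integrable.fintype_prod (f := fun i (t : ℝ) => t ^ e i)
        fun i => (hμ i).int (e i)).const_mul c,
      (Integrable.fintype_prod (f := fun i (t : ℝ) => t ^ e i)
        fun i => int_pow_gauss (e i)).const_mul d, ?_⟩
    rw [integral_const_mul, integral_const_mul,
      integral_fintype_prod_eq_prod (f := fun i (t : ℝ) => t ^ e i),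
      integral_fintype_prod_eq_prod (f := fun i (t : ℝ) => t ^ e i), abs_mul, Finset.abs_prod]
    exact mul_le_mul h (Finset.prod_le_prod (fun _ _ => abs_nonneg _) fun i _ => (hμ i).le (e i))
      (Finset.prod_nonneg fun _ _ => abs_nonneg _) ((abs_nonneg _).trans h)
  | add _ _ ih ih' =>
    refine ⟨ih.1.add ih'.1, ih.2.1.add ih'.2.1, ?_⟩
    rw [integral_add ih.1 ih'.1, integral_add ih.2.1 ih'.2.1]
    exact (abs_add_le _ _).trans (add_le_add ih.2.2 ih'.2.2)

/-- entrywise domination of matrices -/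
def DmM {n : ℕ} (A B : (ι → ℝ) → Mat n) : Prop :=
  ∀ i j, Dm (fun y => A y i j) fun y => B y i j

lemma DmM.pow {n : ℕ} {A B : (ι → ℝ) → Mat n} (h : DmM A B) (a : ℕ) :
    DmM (fun y => A y ^ a) fun y => B y ^ a := by
  induction a with
  | zero =>
    intro i j
    refine (Dm.const (c := (1 : Mat n) i j) (d := (1 : Mat n) i j) ?_).congr
      (fun _ => by simp) fun _ => by simp
    rw [Matrix.one_apply]; split_ifs <;> simp
  | succ a ih =>
    intro i j
    exact (Dm.sum univ fun k _ => (ih i k).mul (h k j)).congr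
      (fun y => by simp only [pow_succ, Matrix.mul_apply])
      fun y => by simp only [pow_succ, Matrix.mul_apply]

lemma dm_Wy (n : ℕ) : DmM (Wy n) (Wy n) := by
  intro i j
  have hs : 0 ≤ 1 / Real.sqrt n := by positivity
  rcases lt_trichotomy i j with h | rfl | h
  · refine (Dm.var (c := 1 / Real.sqrt n) (d := 1 / Real.sqrt n) (abs_of_nonneg hs).le
      (Sum.inl ⟨(i, j), h⟩)).congr (fun y => ?_) fun y => ?_ <;>
    · simp only [Wy, Wmat, Matrix.add_apply, Jmat_apply_lt _ h, diagonal_apply_ne _ h.ne]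
      ring
  · have hs' : 0 ≤ Real.sqrt 2 / Real.sqrt n := by positivity
    refine (Dm.var (c := Real.sqrt 2 / Real.sqrt n) (d := Real.sqrt 2 / Real.sqrt n)
      (abs_of_nonneg hs').le (Sum.inr i)).congr (fun y => ?_) fun y => ?_ <;>
    · simp only [Wy, Wmat, Matrix.add_apply, Jmat_diag, diagonal_apply_eq]
      ring
  · refine (Dm.var (c := 1 / Real.sqrt n) (d := 1 / Real.sqrt n) (abs_of_nonneg hs).le
      (Sum.inl ⟨(j, i), h⟩)).congr (fun y => ?_) fun y => ?_ <;>
    · simp only [Wy, Wmat, Matrix.add_apply, Jmat_apply_gt _ h, diagonal_apply_ne _ h.ne']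
      ring

lemma dm_Ym (n : ℕ) {σ : ℝ} (hσ : |σ| ≤ 1) :
    DmM (fun y => Ym σ (Wy n y)) fun y => Ym 1 (Wy n y) := by
  intro i j
  have h1 : Dm (ι := Ix n) (fun _ => 1 / 4 * (2 * (1 : Mat n) i j))
      fun _ => 1 / 4 * (2 * (1 : Mat n) i j) := by
    refine Dm.const ?_
    rw [Matrix.one_apply]; split_ifs <;> norm_num
  have h2 : Dm (ι := Ix n) (fun _ => 1 / 4 * σ) fun _ => 1 / 4 * 1 := by
    refine Dm.const ?_
    rw [abs_mul, abs_of_nonneg (by norm_num : (0 : ℝ) ≤ 1 / 4)]
    gcongr
  refine (h1.add (h2.mul (dm_Wy n i j))).congr (fun y => ?_) fun y => ?_ <;>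
  · simp only [Ym, Matrix.smul_apply, Matrix.add_apply, smul_eq_mul]
    ring

end Mba36

open Mba36

theorem linkStmt : LinkStmt := by
  refine ⟨fun n => ?_, fun b n => ?_, dom_gauss, fun b n p => ?_,
    fun μ θ h hθ => dom_map h hθ, fun b i hi => entry_match b hi⟩
  · rw [map_Wy n fun _ => gaussianReal 0 1]
    exact goe_Wmat
  · rw [map_Wy n (lawJ b n)]
    simp only [lawJ, Sum.elim_inl, Sum.elim_inr]
    rw [pi_dirac, ← couplingLaw_eq, Measure.prod_dirac,
      Measure.map_map measurable_Wmat (by fun_prop)]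
    congr 1
    funext g
    exact Wmat_zero n g
  · cases p
    · exact dom_entry b
    · exact dom_dirac

theorem mbaStmt : MbaStmt := by
  intro n μ _ hμ σ hσ a q
  have hM := (dm_Ym n hσ).pow a
  refine ⟨fun v => ?_, ?_⟩
  · have h : Dm (fun y => (v ⬝ᵥ (Ym σ (Wy n y) ^ a) *ᵥ v) ^ q)
        fun y => ((fun i => |v i|) ⬝ᵥ (Ym 1 (Wy n y) ^ a) *ᵥ fun i => |v i|) ^ q := by
      refine Dm.pow ?_ q
      refine (Dm.sum univ fun i _ => (Dm.const (c := v i) (d := |v i|) le_rfl).mul
        (Dm.sum univ fun j _ => (hM i j).mul (Dm.const (c := v j) (d := |v j|) le_rfl))).congr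
        (fun y => ?_) fun y => ?_ <;> simp only [dotProduct, Matrix.mulVec]
    have := h.integral μ hμ
    exact ⟨this.1, (le_abs_self _).trans this.2.2⟩
  · have h : Dm (fun y => (Ym σ (Wy n y) ^ a).trace ^ q)
        fun y => (Ym 1 (Wy n y) ^ a).trace ^ q := by
      refine Dm.pow ?_ q
      refine (Dm.sum univ fun i _ => hM i i).congr (fun y => ?_) fun y => ?_ <;>
        simp only [Matrix.trace, Matrix.diag]
    have := h.integral μ hμ
    exact ⟨this.1, (le_abs_self _).trans this.2.2⟩

end Crest.Agent.T157.Ed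

end
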