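import Crest.Agent.T157.EdMba_36
import Crest.Agent.T157.EdTri_62

/-!
# Row 157, edge limit: isotropy of the GOE (`MbbStmt`, helper22)

Rotate the unit vector to `σ / √n`, average over the signs `σ`, Khintchine's inequality.
-/

set_option autoImplicit false

noncomputable section

namespace Crest.Agent.T157.Ed.Mbb22

open MeasureTheory ProbabilityTheory Matrix Finset
open Crest.ProbabilityR.SpinGlassDynamics
open Crest.Agent.T157.E Crest.Agent.T157.Eig Crest.Agent.T157.Cond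

variable {n : ℕ}

lemma sum_exp_dot (u : Fin n → ℝ) :
    ∑ x : Cube n, Real.exp (u ⬝ᵥ sv x) ≤ 2 ^ n * Real.exp (u ⬝ᵥ u / 2) := by
  have e : ∑ x : Cube n, Real.exp (u ⬝ᵥ sv x) = ∏ i, ∑ b : Bool, Real.exp (u i * spin b) := by
    rw [Finset.prod_univ_sum, Fintype.piFinset_univ]
    exact sum_congr rfl fun x _ => by rw [dotProduct, Real.exp_sum]; rfl
  rw [e, dotProduct, sum_div, Real.exp_sum]
  calc ∏ i, ∑ b : Bool, Real.exp (u i * spin b) ≤ ∏ i, 2 * Real.exp (u i * u i / 2) := by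
        refine prod_le_prod (fun i _ => sum_nonneg fun b _ => (Real.exp_pos _).le) fun i _ => ?_
        have := Real.cosh_le_exp_half_sq (u i)
        rw [Real.cosh_eq, sq] at this
        simp only [Fintype.sum_bool, spin, if_true, Bool.false_eq_true, if_false, mul_one, mul_neg]
        linarith
    _ = _ := by rw [prod_mul_distrib]; simp

/-- the Khintchine constant -/
def kc (q : ℕ) : ℝ := ((2 * q).factorial : ℝ) * 6

lemma one_le_kc (q : ℕ) : 1 ≤ kc q := by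
  have : (1 : ℝ) ≤ (2 * q).factorial := by exact_mod_cast Nat.factorial_pos _
  unfold kc; linarith

lemma khin_unit (q : ℕ) {u : Fin n → ℝ} (hu : u ⬝ᵥ u ≤ 1) :
    ∑ x : Cube n, ((u ⬝ᵥ sv x) ^ 2) ^ q ≤ 2 ^ n * kc q := by
  have h1 : ∀ t : ℝ, (t ^ 2) ^ q ≤ (2 * q).factorial * (Real.exp t + Real.exp (-t)) := fun t => by
    have := Real.pow_div_factorial_le_exp |t| (abs_nonneg t) (2 * q)
    rw [div_le_iff₀ (by positivity), pow_mul, sq_abs, mul_comm] at this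
    refine this.trans (mul_le_mul_of_nonneg_left ?_ (by positivity))
    rcases abs_choice t with h | h <;> rw [h] <;> linarith [Real.exp_pos t, Real.exp_pos (-t)]
  refine (sum_le_sum fun x _ => h1 _).trans ?_
  rw [← mul_sum, sum_add_distrib]
  have h2 := sum_exp_dot u
  have h3 := sum_exp_dot (-u)
  simp only [neg_dotProduct, dotProduct_neg, neg_neg] at h3
  have h4 : Real.exp (u ⬝ᵥ u / 2) ≤ 3 :=
    (Real.exp_le_exp.2 (by linarith)).trans (Real.exp_one_lt_d9.le.trans (by norm_num))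
  have h5 : (2 : ℝ) ^ n * Real.exp (u ⬝ᵥ u / 2) ≤ 2 ^ n * 3 :=
    mul_le_mul_of_nonneg_left h4 (by positivity)
  rw [kc, mul_left_comm]
  exact mul_le_mul_of_nonneg_left (by linarith) (by positivity)

lemma khin (q : ℕ) (B : Mat n) :
    ∑ x : Cube n, ((B *ᵥ sv x) ⬝ᵥ (B *ᵥ sv x)) ^ q ≤
      2 ^ n * kc q * (∑ r, B r ⬝ᵥ B r) ^ q := by
  set S := ∑ r, B r ⬝ᵥ B r with hS
  have hw : ∀ r, 0 ≤ B r ⬝ᵥ B r := fun r => dot_self_nonneg _
  have hk := one_le_kc q
  rcases eq_or_lt_of_le (sum_nonneg fun r (_ : r ∈ univ) => hw r) with h0 | h0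
  · have hB : B = 0 := by
      ext r j
      have := (sum_eq_zero_iff_of_nonneg fun r _ => hw r).1 h0.symm r (mem_univ r)
      rw [dotProduct_self_eq_zero.1 this]; rfl
    rw [hS, ← h0, hB]
    simp only [zero_mulVec, dotProduct_zero, sum_const, card_univ, nsmul_eq_mul, Fintype.card_pi,
      Fintype.card_bool, prod_const, Fintype.card_fin]
    push_cast
    refine mul_le_mul_of_nonneg_right ?_ (by positivity)
    exact le_mul_of_one_le_right (by positivity) hk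
  rw [← hS] at h0
  set u : Fin n → Fin n → ℝ := fun r => (Real.sqrt (B r ⬝ᵥ B r))⁻¹ • B r with hu
  have hu1 : ∀ r, u r ⬝ᵥ u r ≤ 1 := fun r => by
    simp only [hu, smul_dotProduct, dotProduct_smul, smul_eq_mul]
    rw [← mul_assoc, ← mul_inv, Real.mul_self_sqrt (hw r)]
    exact inv_mul_le_one_of_le₀ le_rfl (hw r)
  have hz : ∀ r (y : Fin n → ℝ), (B r ⬝ᵥ y) * (B r ⬝ᵥ y) = B r ⬝ᵥ B r * (u r ⬝ᵥ y) ^ 2 := by
    intro r y
    rcases eq_or_lt_of_le (hw r) with h | h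
    · rw [dotProduct_self_eq_zero.1 h.symm]; simp
    · simp only [hu, smul_dotProduct, smul_eq_mul, mul_pow, inv_pow, Real.sq_sqrt (hw r)]
      field_simp
  have key : ∀ y : Fin n → ℝ, ((B *ᵥ y) ⬝ᵥ (B *ᵥ y)) ^ q ≤
      S ^ q * ∑ r, B r ⬝ᵥ B r / S * ((u r ⬝ᵥ y) ^ 2) ^ q := fun y => by
    have e : (B *ᵥ y) ⬝ᵥ (B *ᵥ y) = S * ∑ r, B r ⬝ᵥ B r / S * (u r ⬝ᵥ y) ^ 2 := by
      rw [mul_sum, dotProduct]
      refine sum_congr rfl fun r _ => ?_
      change (B r ⬝ᵥ y) * (B r ⬝ᵥ y) = _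
      rw [hz]; field_simp
    rw [e, mul_pow]
    refine mul_le_mul_of_nonneg_left (Real.pow_arith_mean_le_arith_mean_pow _ _ _
      (fun r _ => div_nonneg (hw r) h0.le) ?_ (fun r _ => sq_nonneg _) q) (by positivity)
    rw [← sum_div, ← hS, div_self h0.ne']
  refine (sum_le_sum fun x _ => key _).trans ?_
  rw [← mul_sum, sum_comm, mul_comm]
  refine mul_le_mul_of_nonneg_right ?_ (by positivity)
  calc ∑ r, ∑ x : Cube n, B r ⬝ᵥ B r / S * ((u r ⬝ᵥ sv x) ^ 2) ^ q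
      ≤ ∑ r, B r ⬝ᵥ B r / S * (2 ^ n * kc q) := sum_le_sum fun r _ => by
        rw [← mul_sum]
        exact mul_le_mul_of_nonneg_left (khin_unit q (hu1 r)) (div_nonneg (hw r) h0.le)
    _ = 2 ^ n * kc q := by rw [← sum_mul, ← sum_div, ← hS, div_self h0.ne', one_mul]

lemma khin_sym (q a : ℕ) {Y : Mat n} (hY : Yᵀ = Y) :
    ∑ x : Cube n, (sv x ⬝ᵥ (Y ^ (2 * a)) *ᵥ sv x) ^ q ≤
      2 ^ n * kc q * (Y ^ (2 * a)).trace ^ q := by
  have hB : (Y ^ a)ᵀ = Y ^ a := by rw [transpose_pow, hY]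
  have e1 : ∀ y : Fin n → ℝ, y ⬝ᵥ (Y ^ (2 * a)) *ᵥ y = (Y ^ a *ᵥ y) ⬝ᵥ (Y ^ a *ᵥ y) := fun y => by
    rw [two_mul, pow_add, ← mulVec_mulVec, dotProduct_mulVec, ← mulVec_transpose, hB]
  have e2 : (Y ^ (2 * a)).trace = ∑ r, (Y ^ a) r ⬝ᵥ (Y ^ a) r := by
    rw [two_mul, pow_add, trace]
    refine sum_congr rfl fun r _ => ?_
    rw [diag_apply, mul_apply, dotProduct]
    refine sum_congr rfl fun j _ => ?_
    rw [← congrFun (congrFun hB j) r, transpose_apply]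
  simp only [e1, e2]
  exact khin q _

lemma conj_pow {O : Mat n} (hO : O * Oᵀ = 1) (Y : Mat n) (k : ℕ) :
    (O * Y * Oᵀ) ^ k = O * Y ^ k * Oᵀ := by
  have hO' : Oᵀ * O = 1 := mul_eq_one_comm.1 hO
  induction k with
  | zero => simp [hO]
  | succ k ih =>
    rw [pow_succ, ih, pow_succ]
    calc O * Y ^ k * Oᵀ * (O * Y * Oᵀ) = O * Y ^ k * (Oᵀ * O) * Y * Oᵀ := by
          simp only [Matrix.mul_assoc]
      _ = _ := by rw [hO', Matrix.mul_one]; simp only [Matrix.mul_assoc]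

lemma Ym_conj {O : Mat n} (hO : O * Oᵀ = 1) (σ : ℝ) (W : Mat n) :
    Ym σ (O * W * Oᵀ) = O * Ym σ W * Oᵀ := by
  simp only [Ym, Matrix.mul_smul, Matrix.smul_mul, Matrix.mul_add, Matrix.add_mul, Matrix.mul_one,
    hO]

lemma continuous_quad (v : Fin n → ℝ) (k q : ℕ) :
    Continuous fun W : Mat n => (v ⬝ᵥ (Ym 1 W ^ k) *ᵥ v) ^ q :=
  (continuous_const.dotProduct (((continuous_Ym 1).pow k).matrix_mulVec continuous_const)).pow q

lemma continuous_tr (k q : ℕ) : Continuous fun W : Mat n => (Ym 1 W ^ k).trace ^ q :=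
  ((continuous_Ym 1).pow k).matrix_trace.pow q

lemma iso {v w : Fin n → ℝ} (h : v ⬝ᵥ v = w ⬝ᵥ w) (k q : ℕ) :
    ∫ W, (v ⬝ᵥ (Ym 1 W ^ k) *ᵥ v) ^ q ∂GOE n = ∫ W, (w ⬝ᵥ (Ym 1 W ^ k) *ᵥ w) ^ q ∂GOE n := by
  obtain ⟨O, hO, hw⟩ := Tri62.exists_orth v w h
  have hO' : Oᵀ * O = 1 := mul_eq_one_comm.1 hO
  have hv : Oᵀ *ᵥ v = w := by rw [← hw, mulVec_mulVec, hO', one_mulVec]
  have hc : Continuous fun W : Mat n => O * W * Oᵀ := by fun_prop
  conv_lhs => rw [GOE, ← goe_conj _ O hO]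
  rw [integral_map hc.measurable.aemeasurable (continuous_quad v k q).aestronglyMeasurable]
  refine integral_congr_ae (ae_of_all _ fun W => ?_)
  simp only [Ym_conj hO, conj_pow hO]
  rw [← mulVec_mulVec, ← mulVec_mulVec, hv, dotProduct_mulVec v O, ← mulVec_transpose, hv]

lemma integrable_GOE (k q : ℕ) :
    (∀ v : Fin n → ℝ, Integrable (fun W => (v ⬝ᵥ (Ym 1 W ^ k) *ᵥ v) ^ q) (GOE n)) ∧
      Integrable (fun W => (Ym 1 W ^ k).trace ^ q) (GOE n) := by
  have h := mbaStmt n (fun _ => gaussianReal 0 1) (fun _ => linkStmt.2.2.1) 1 (by simp) k q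
  have hm := (continuous_Wy n).measurable.aemeasurable (μ := gv (Ix n))
  rw [← linkStmt.1 n]
  exact ⟨fun v => (integrable_map_measure (continuous_quad v k q).aestronglyMeasurable hm).2
    (h.1 v).1, (integrable_map_measure (continuous_tr k q).aestronglyMeasurable hm).2 h.2.1⟩

end Mbb22

open Mbb22 MeasureTheory ProbabilityTheory Matrix Finset
open Crest.Agent.T157.E Crest.Agent.T157.Eig Crest.Agent.T157.Cond

theorem mbbStmt : MbbStmt := by
  intro q
  have hk := one_le_kc q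
  refine ⟨kc q, by linarith, fun n a v hv => ?_⟩
  rcases Nat.eq_zero_or_pos q with rfl | hq
  · simp
  have hn : (0 : ℝ) < n := by
    rcases Nat.eq_zero_or_pos n with rfl | hn
    · simp [dotProduct] at hv
    · exact_mod_cast hn
  obtain ⟨hi, ht⟩ := integrable_GOE (n := n) (2 * a) q
  have h1 : ∀ x : Cube n, ∫ W, (sv x ⬝ᵥ (Ym 1 W ^ (2 * a)) *ᵥ sv x) ^ q ∂GOE n =
      (n : ℝ) ^ q * ∫ W, (v ⬝ᵥ (Ym 1 W ^ (2 * a)) *ᵥ v) ^ q ∂GOE n := fun x => by
    rw [iso (v := sv x) (w := Real.sqrt n • v) (by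
      rw [sv_dot_self, smul_dotProduct, dotProduct_smul, hv, smul_eq_mul, smul_eq_mul, mul_one,
        Real.mul_self_sqrt hn.le]), ← integral_const_mul]
    refine integral_congr_ae (ae_of_all _ fun W => ?_)
    simp only [mulVec_smul, smul_dotProduct, dotProduct_smul, smul_eq_mul]
    rw [← mul_assoc, Real.mul_self_sqrt hn.le, mul_pow]
  have h2 : ∑ x : Cube n, ∫ W, (sv x ⬝ᵥ (Ym 1 W ^ (2 * a)) *ᵥ sv x) ^ q ∂GOE n ≤
      2 ^ n * kc q * ∫ W, (Ym 1 W ^ (2 * a)).trace ^ q ∂GOE n := by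
    rw [← integral_finsetSum _ fun x _ => hi _, ← integral_const_mul]
    refine integral_mono_ae (integrable_finsetSum _ fun x _ => hi _) (ht.const_mul _) ?_
    filter_upwards [goe_ae_herm n] with W hW
    exact khin_sym q a (herm_iff.1 (Ym_herm 1 hW))
  have h3 : 0 ≤ ∫ W, (Ym 1 W ^ (2 * a)).trace ^ q ∂GOE n := by
    refine integral_nonneg_of_ae ?_
    filter_upwards [goe_ae_herm n] with W hW
    refine pow_nonneg ?_ q
    have hB : (Ym 1 W ^ a)ᵀ = Ym 1 W ^ a := by rw [transpose_pow, herm_iff.1 (Ym_herm 1 hW)]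
    rw [two_mul, pow_add, trace]
    refine sum_nonneg fun r _ => ?_
    rw [diag_apply, mul_apply]
    refine sum_nonneg fun j _ => ?_
    rw [← congrFun (congrFun hB j) r, transpose_apply]
    exact mul_self_nonneg _
  simp only [h1, sum_const, card_univ, nsmul_eq_mul, Fintype.card_pi, Fintype.card_bool,
    prod_const, Fintype.card_fin] at h2
  push_cast at h2
  rw [mul_assoc] at h2
  have h4 := le_of_mul_le_mul_left h2 (by positivity)
  rw [div_pow, div_mul_eq_mul_div, le_div_iff₀ (by positivity), mul_comm]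
  exact h4.trans (mul_le_mul_of_nonneg_right (le_self_pow₀ hk hq.ne') h3)

end Crest.Agent.T157.Ed

end
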