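import Crest.Agent.T157.EdDef_88
import Crest.Agent.T157.EigN_84

/-!
# Row 157, edge limit: the glue statements `MbcGlue`, `MbGlue`, `TailGlue` (helper23)
-/

set_option autoImplicit false

noncomputable section

namespace Crest.Agent.T157.EdMbc

open MeasureTheory ProbabilityTheory Matrix Filter Topology Finset Real
open Crest.ProbabilityR.SpinGlassDynamics Crest.Agent.T157.E Crest.Agent.T157.Eig
open Crest.Agent.T157.Cond Crest.Agent.T157.Ed

variable {n : ℕ}

theorem one_le_tau (hn : 1 ≤ n) : 1 ≤ tau n := one_le_rpow (by exact_mod_cast hn) (by norm_num)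

theorem tau_cube (n : ℕ) : tau n ^ 3 = (n : ℝ) ^ 2 := by
  rw [tau, ← rpow_natCast, ← rpow_mul (Nat.cast_nonneg n), ← rpow_natCast]; norm_num

theorem tau_rpow (n : ℕ) : tau n ^ (-(3 / 2) : ℝ) = (n : ℝ)⁻¹ := by
  rw [tau, ← rpow_mul (Nat.cast_nonneg n), ← rpow_neg_one]; norm_num

theorem rho_pos (a : ℕ) : 0 < (1 + (a : ℝ)) ^ (-(3 / 2) : ℝ) := by positivity

theorem rho_sq (a : ℕ) : ((1 + (a : ℝ)) ^ (-(3 / 2) : ℝ)) ^ 2 = ((1 + (a : ℝ)) ^ 3)⁻¹ := by
  rw [← rpow_natCast, ← rpow_mul (by positivity), ← rpow_natCast, ← rpow_neg (by positivity)]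
  norm_num

theorem measurable_lam_all (k : ℕ) : Measurable fun W : Mat n => lam W k := by
  classical
  have e : (fun W : Mat n => lam W k) = fun W => if Wᵀ = W then lam ((1 / 2 : ℝ) • (W + Wᵀ)) k else 0 := by
    ext W
    split_ifs with h
    · rw [h, ← two_smul ℝ, smul_smul]; norm_num
    · rw [lam, dif_neg fun h' => h (herm_iff.1 h'.1)]
  rw [e]
  refine Measurable.ite measurableSet_symm (measurable_lam (fun i j => Measurable.t157_entry
    (by fun_prop) i j) (fun W => herm_smul (herm_iff.2 ?_) _) k) measurable_const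
  rw [transpose_add, transpose_transpose, add_comm]

theorem measurable_kapL : Measurable fun W : Mat n => kapL n (lam W) := by
  refine Measurable.iSup fun k => Measurable.max ?_ ?_
  · exact measurable_const.sub (measurable_const.mul (measurable_const.sub (measurable_lam_all _)))
  · split_ifs
    · exact (measurable_const.mul (measurable_const.sub (measurable_lam_all _))).sub measurable_const
    · exact measurable_const

theorem le_kapL (l : ℕ → ℝ) {k : ℕ} (hk : k < n) :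
    ((k : ℝ) + 1) ^ (2 / 3 : ℝ) / 256 - tau n * (2 - l k) ≤ kapL n l :=
  le_ciSup_of_le (Finite.bddAbove_range _) ⟨k, hk⟩ (le_max_left _ _)

theorem kapL_nonneg (hn : 1 ≤ n) (l : ℕ → ℝ) : 0 ≤ kapL n l :=
  le_ciSup_of_le (Finite.bddAbove_range _) ⟨n - 1, by omega⟩
    (le_max_of_le_right (by rw [if_neg (by simp only; omega)]))

theorem measurable_Ym_pow (σ : ℝ) (p : ℕ) : Measurable fun W : Mat n => Ym σ W ^ p := by
  induction p with
  | zero => simp
  | succ p ih => simp only [pow_succ]; exact ih.t157_mul (by unfold Ym; fun_prop)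

theorem measurable_Wy : Measurable (Wy n) :=
  measurable_Wmat.comp (f := fun y : Ix n → ℝ => (fun p => y (Sum.inl p), fun i => y (Sum.inr i)))
    (by fun_prop)

theorem Ym_neg (W : Mat n) : Ym (-1) W = Ym 1 (-W) := by simp [Ym]

theorem trace_Ym_pow {W : Mat n} (hW : W.IsHermitian) (p : ℕ) :
    (Ym 1 W ^ p).trace = ∑ k ∈ range n, ((2 + lam W k) / 4) ^ p := by
  have e : Ym 1 W = (1 / 4 : ℝ) • (W + (2 : ℝ) • (1 : Mat n)) := by rw [Ym, one_smul, add_comm]
  rw [e, trace_pow (herm_smul (herm_add_smul_one hW 2) _), Fintype.card_fin]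
  refine sum_congr rfl fun k hk => ?_
  rw [lam_smul (herm_add_smul_one hW 2) (by norm_num),
    lam_add_smul_one hW 2 (by simpa using hk)]
  ring

theorem term_le_trace {W : Mat n} (hW : W.IsHermitian) (a : ℕ) (s : Finset ℕ) (hs : s ⊆ range n) :
    ∑ k ∈ s, ((2 + lam W k) / 4) ^ (2 * a) ≤ (Ym 1 W ^ (2 * a)).trace := by
  rw [trace_Ym_pow hW]
  exact sum_le_sum_of_subset_of_nonneg hs fun k _ _ => (even_two_mul a).pow_nonneg _

theorem trace_nonneg {W : Mat n} (hW : W.IsHermitian) (a : ℕ) : 0 ≤ (Ym 1 W ^ (2 * a)).trace := by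
  simpa using term_le_trace hW a ∅ (empty_subset _)

/-! ### the deterministic bound -/

theorem sum_exp_le {c : ℝ} (hc : 0 < c) (n : ℕ) :
    ∑ k ∈ range n, exp (-(c * ((k : ℝ) + 1) ^ (2 / 3 : ℝ))) ≤ 2 * √(6 / c ^ 3) := by
  set B := √(6 / c ^ 3) with hB
  have B0 : 0 < B := by positivity
  have B2 : B ^ 2 = 6 / c ^ 3 := sq_sqrt (by positivity)
  have h : ∀ k : ℕ, exp (-(c * ((k : ℝ) + 1) ^ (2 / 3 : ℝ))) ≤
      2 * B ^ 2 * (1 / (B + k) - 1 / (B + ((k + 1 : ℕ) : ℝ))) := fun k => by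
    have h1 := sum_le_exp_of_nonneg (x := c * ((k : ℝ) + 1) ^ (2 / 3 : ℝ)) (by positivity) 4
    have h2 : (((k : ℝ) + 1) ^ (2 / 3 : ℝ)) ^ 3 = ((k : ℝ) + 1) ^ 2 := by
      rw [← rpow_natCast, ← rpow_mul (by positivity), ← rpow_natCast]; norm_num
    have h3 : 1 + ((k : ℝ) + 1) ^ 2 / B ^ 2 ≤ exp (c * ((k : ℝ) + 1) ^ (2 / 3 : ℝ)) := by
      refine le_trans ?_ h1
      simp only [sum_range_succ, sum_range_zero, Nat.factorial, mul_pow, h2, B2]
      have : 0 ≤ c * ((k : ℝ) + 1) ^ (2 / 3 : ℝ) := by positivity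
      have : 0 ≤ c ^ 2 * (((k : ℝ) + 1) ^ (2 / 3 : ℝ)) ^ 2 := by positivity
      rw [div_div_eq_mul_div]
      norm_num
      linarith
    rw [exp_neg]
    refine (inv_anti₀ (by positivity) h3).trans ?_
    have k0 : (0 : ℝ) ≤ k := k.cast_nonneg
    push_cast
    field_simp
    nlinarith [sq_nonneg (B - (k + 1))]
  refine (sum_le_sum fun k _ => h k).trans ?_
  rw [← mul_sum, sum_range_sub' fun k : ℕ => 1 / (B + k)]
  have : 0 ≤ 2 * B ^ 2 * (1 / (B + n)) := by positivity
  have e : 2 * B ^ 2 * (1 / (B + ((0 : ℕ) : ℝ))) = 2 * B := by simp; field_simp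
  linarith [mul_sub (2 * B ^ 2) (1 / (B + ((0 : ℕ) : ℝ))) (1 / (B + n))]

theorem sum_exp_le' (hn : 1 ≤ n) (a : ℕ) :
    ∑ k ∈ range n, exp (-(a / (512 * tau n) * ((k : ℝ) + 1) ^ (2 / 3 : ℝ))) ≤
      163840 * (n * (1 + (a : ℝ)) ^ (-(3 / 2) : ℝ)) := by
  have t0 := one_pos.trans_le (one_le_tau hn)
  have n0 : (0 : ℝ) < n := by exact_mod_cast hn
  rcases a.eq_zero_or_pos with rfl | ha
  · simp; linarith
  have a1 : (1 : ℝ) ≤ a := by exact_mod_cast ha
  refine (sum_exp_le (by positivity) n).trans (abs_le_of_sq_le_sq' ?_ (by positivity)).2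
  rw [mul_pow, sq_sqrt (by positivity), mul_pow, mul_pow, rho_sq, div_pow, mul_pow, tau_cube]
  have h : (1 + (a : ℝ)) ^ 3 ≤ (2 * a) ^ 3 := by gcongr; linarith
  field_simp
  nlinarith [pow_pos (one_pos.trans_le a1) 3]

theorem quarter_le (a : ℕ) : ((1 / 2 : ℝ)) ^ (2 * a) ≤ (1 + (a : ℝ)) ^ (-(3 / 2) : ℝ) := by
  have h : (1 + (a : ℝ)) ≤ 2 ^ a := by
    have := one_add_mul_le_pow (a := (1 : ℝ)) (by norm_num) a
    norm_num at this; exact this
  refine (abs_le_of_sq_le_sq' ?_ (rho_pos a).le).2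
  rw [rho_sq, one_div, inv_pow, inv_pow]
  refine inv_anti₀ (by positivity) ((pow_le_pow_left₀ (by positivity) h 3).trans ?_)
  rw [← pow_mul, ← pow_mul]
  exact pow_le_pow_right₀ (by norm_num) (by omega)

theorem trace_le {W : Mat n} (hW : W.IsHermitian) (hn : 1 ≤ n) {a : ℕ} {T : ℝ} (hT : 0 ≤ T)
    (ha : (a : ℝ) ≤ T * tau n) : (Ym 1 W ^ (2 * a)).trace ≤ 163840 * (n * (1 + (a : ℝ)) ^ (-(3 / 2) : ℝ)) *
      (exp (T * kapL n (lam W)) + exp (T * kapL n (lam (-W)))) := by
  have t0 := one_pos.trans_le (one_le_tau hn)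
  have k1 := kapL_nonneg hn (lam W)
  have k2 := kapL_nonneg hn (lam (-W))
  have a0 : (0 : ℝ) ≤ a := a.cast_nonneg
  have ha' : a / tau n ≤ T := (div_le_iff₀ t0).2 ha
  have h : ∀ k ∈ range n, ((2 + lam W k) / 4) ^ (2 * a) ≤
      exp (-(a / (512 * tau n) * ((k : ℝ) + 1) ^ (2 / 3 : ℝ))) * exp (T * kapL n (lam W)) +
        (1 + (a : ℝ)) ^ (-(3 / 2) : ℝ) * exp (T * kapL n (lam (-W))) := fun k hk => by
    rw [mem_range] at hk
    rcases le_total 0 ((2 + lam W k) / 4) with h0 | h0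
    · refine le_add_of_le_of_nonneg ?_ (by positivity)
      have h1 : (2 + lam W k) / 4 ≤ exp (-(2 - lam W k) / 4) := by
        linarith [add_one_le_exp (-(2 - lam W k) / 4)]
      refine (pow_le_pow_left₀ h0 h1 _).trans ?_
      rw [← exp_nat_mul, ← exp_add, exp_le_exp]
      have h2 := mul_le_mul_of_nonneg_left (le_kapL (lam W) hk) (div_nonneg a0 t0.le)
      have h3 := mul_le_mul_of_nonneg_right ha' k1
      have e1 : a / tau n * (((k : ℝ) + 1) ^ (2 / 3 : ℝ) / 256 - tau n * (2 - lam W k)) =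
          2 * (a / (512 * tau n) * ((k : ℝ) + 1) ^ (2 / 3 : ℝ)) - a * (2 - lam W k) := by
        field_simp; ring
      push_cast
      nlinarith [mul_nonneg hT k1]
    · refine le_add_of_nonneg_of_le (by positivity) ?_
      have h1 := le_kapL (n := n) (lam (-W)) (k := n - 1 - k) (by omega)
      rw [lam_neg hW (by simp; omega), Fintype.card_fin, show n - 1 - (n - 1 - k) = k by omega] at h1
      have h2 : -((2 + lam W k) / 4) ≤ 1 / 2 * exp (kapL n (lam (-W)) / (2 * tau n)) := by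
        have h3 : -(2 + lam W k) / 2 ≤ kapL n (lam (-W)) / (2 * tau n) := by
          rw [div_le_div_iff₀ two_pos (by positivity)]
          have : 0 ≤ (((n - 1 - k : ℕ) : ℝ) + 1) ^ (2 / 3 : ℝ) := by positivity
          nlinarith
        linarith [add_one_le_exp (kapL n (lam (-W)) / (2 * tau n))]
      rw [← (even_two_mul a).neg_pow]
      refine (pow_le_pow_left₀ (by linarith) h2 _).trans ?_
      rw [mul_pow, ← exp_nat_mul]
      refine mul_le_mul (quarter_le a) (exp_le_exp.2 ?_) (exp_pos _).le (rho_pos a).le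
      refine le_of_eq_of_le ?_ (mul_le_mul_of_nonneg_right ha' k2)
      push_cast
      field_simp
  rw [trace_Ym_pow hW]
  refine (sum_le_sum h).trans ?_
  rw [sum_add_distrib, ← sum_mul, sum_const, card_range, nsmul_eq_mul, mul_add, ← mul_assoc]
  refine add_le_add (mul_le_mul_of_nonneg_right (sum_exp_le' hn a) (exp_pos _).le)
    (mul_le_mul_of_nonneg_right ?_ (exp_pos _).le)
  nlinarith [mul_nonneg (n.cast_nonneg (α := ℝ)) (rho_pos a).le]

theorem mbcGlue : MbcGlue := fun hE q T => by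
  obtain ⟨C, hC⟩ := hE (q * |T|) (by positivity)
  refine ⟨2 * 163840 * max 1 (2 * C), by positivity, ?_⟩
  filter_upwards [hC, eventually_ge_atTop 1] with n hC hn a ha
  rcases q.eq_zero_or_pos with rfl | hq
  · simp
  set R : ℝ := 163840 * (n * (1 + (a : ℝ)) ^ (-(3 / 2) : ℝ)) with hR
  have R0 : 0 ≤ R := by have := rho_pos a; positivity
  have ha' : (a : ℝ) ≤ |T| * tau n :=
    ha.trans (mul_le_mul_of_nonneg_right (le_abs_self T) (zero_le_one.trans (one_le_tau hn)))
  have hm : Measurable fun W : Mat n => ENNReal.ofReal (exp (q * |T| * kapL n (lam W))) :=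
    (measurable_const.mul measurable_kapL).exp.ennreal_ofReal
  have hC' : ∫⁻ W, ENNReal.ofReal (exp (q * |T| * kapL n (lam (-W)))) ∂GOE n ≤ ENNReal.ofReal C := by
    rw [← lintegral_map hm measurable_neg, goe_neg]; exact hC
  have h1 : ∫⁻ W, ENNReal.ofReal ‖(Ym 1 W ^ (2 * a)).trace ^ q‖ ∂GOE n ≤
      ENNReal.ofReal ((2 * R) ^ q * max 1 (2 * C)) := by
    refine (lintegral_mono_ae (g := fun W => ENNReal.ofReal ((2 * R) ^ q) * (ENNReal.ofReal
      (exp (q * |T| * kapL n (lam W))) + ENNReal.ofReal (exp (q * |T| * kapL n (lam (-W))))))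
      ((goe_ae_symm _).mono fun W hW => ?_)).trans ?_
    · have hW := herm_iff.2 hW
      rw [← ENNReal.ofReal_add (exp_pos _).le (exp_pos _).le, ← ENNReal.ofReal_mul (by positivity)]
      refine ENNReal.ofReal_le_ofReal ?_
      rw [norm_of_nonneg (pow_nonneg (trace_nonneg hW a) q)]
      refine (pow_le_pow_left₀ (trace_nonneg hW a) (trace_le hW hn (abs_nonneg T) ha') q).trans ?_
      rw [← hR, mul_pow R, mul_comm 2 R, mul_pow R, mul_assoc (R ^ q)]
      refine mul_le_mul_of_nonneg_left ((add_pow_le (exp_pos _).le (exp_pos _).le q).trans ?_)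
        (pow_nonneg R0 q)
      rw [← exp_nat_mul, ← exp_nat_mul, ← mul_assoc, ← mul_assoc]
      exact mul_le_mul_of_nonneg_right (pow_le_pow_right₀ (by norm_num) (by omega)) (by positivity)
    · rw [lintegral_const_mul' _ _ ENNReal.ofReal_ne_top, lintegral_add_left hm,
        ENNReal.ofReal_mul (by positivity)]
      refine mul_le_mul_right ((add_le_add hC hC').trans ?_) _
      rw [← two_mul, ← ENNReal.ofReal_ofNat, ← ENNReal.ofReal_mul (by norm_num)]
      exact ENNReal.ofReal_le_ofReal (le_max_right _ _)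
  refine ((le_norm_self _).trans (norm_integral_le_lintegral_norm _)).trans
    ((ENNReal.toReal_le_of_le_ofReal (by positivity) h1).trans ?_)
  rw [show 2 * 163840 * max 1 (2 * C) * n * (1 + (a : ℝ)) ^ (-(3 / 2) : ℝ) = 2 * R * max 1 (2 * C) by
    rw [hR]; ring, mul_pow (2 * R)]
  exact mul_le_mul_of_nonneg_left (le_self_pow₀ (le_max_left _ _) hq.ne') (by positivity)

theorem mbGlue : MbGlue := fun hL hA hB hC q T => by
  obtain ⟨Cb, b0, hb⟩ := hB q
  obtain ⟨Cc, c0, hc⟩ := hC q T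
  refine ⟨(Cb + 1) * Cc, by positivity, ?_⟩
  filter_upwards [hc, eventually_ge_atTop 1] with n hc hn μ _ hμ σ hσ a ha
  have n0 : (0 : ℝ) < n := by exact_mod_cast hn
  have r0 := rho_pos a
  obtain ⟨h1, h2, h3⟩ := hA n μ hμ σ hσ (2 * a) q
  refine ⟨fun v hv => ⟨(h1 v).1, (h1 v).2.trans ?_⟩, h2, h3.trans ?_⟩
  · rw [← integral_map (f := fun W : Mat n => ((fun i => |v i|) ⬝ᵥ (Ym 1 W ^ (2 * a)) *ᵥ
      fun i => |v i|) ^ q) measurable_Wy.aemeasurable ((measurable_const.t157_dot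
      ((measurable_Ym_pow 1 _).t157_mulVec measurable_const)).pow_const q).aestronglyMeasurable, hL.1]
    refine (hb n a _ (by simpa only [dotProduct, abs_mul_abs_self] using hv)).trans
      ((mul_le_mul_of_nonneg_left (hc a ha) (by positivity)).trans ?_)
    rw [← mul_pow]
    refine pow_le_pow_left₀ (by positivity) ?_ q
    rw [show Cb / n * (Cc * n * (1 + (a : ℝ)) ^ (-(3 / 2) : ℝ)) = Cb * Cc * (1 + (a : ℝ)) ^ (-(3 / 2) : ℝ)
      by field_simp]
    gcongr
    linarith
  · rw [← integral_map (f := fun W : Mat n => (Ym 1 W ^ (2 * a)).trace ^ q) measurable_Wy.aemeasurable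
      ((measurable_Ym_pow 1 _).t157_trace.pow_const q).aestronglyMeasurable, hL.1]
    refine (hc a ha).trans (pow_le_pow_left₀ (by positivity) ?_ q)
    gcongr
    nlinarith

theorem transfer (hL : LinkStmt) (b : Bool) {F : Mat n → ℝ} (hF : Measurable F) {c : ℝ}
    (h : Integrable (fun y => F (Wy n y)) (Measure.pi (lawJ b n)) ∧
      ∫ y, F (Wy n y) ∂Measure.pi (lawJ b n) ≤ c) :
    Integrable (fun g => F (Jmat n g)) (couplingLaw b n) ∧ ∫ g, F (Jmat n g) ∂couplingLaw b n ≤ c := by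
  have h1 := (integrable_map_measure hF.aestronglyMeasurable measurable_Wy.aemeasurable).2 h.1
  rw [← integral_map measurable_Wy.aemeasurable hF.aestronglyMeasurable, hL.2.1] at h
  rw [hL.2.1] at h1
  exact ⟨(integrable_map_measure hF.aestronglyMeasurable measurable_Jmat.aemeasurable).1 h1,
    (integral_map measurable_Jmat.aemeasurable hF.aestronglyMeasurable).symm.trans_le h.2⟩

theorem cnt_le_trace {W : Mat n} (hW : W.IsHermitian) (hn : 1 ≤ n) {x : ℝ} (hx : 0 < x)
    (hx' : x ≤ tau n) : (cnt W (2 - x / tau n) : ℝ) ≤ 2 * (Ym 1 W ^ (2 * ⌊tau n / x⌋₊)).trace := by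
  have t0 := one_pos.trans_le (one_le_tau hn)
  have h1 : x / tau n ≤ 1 := (div_le_one t0).2 hx'
  have h2 : (⌊tau n / x⌋₊ : ℝ) * (x / tau n) ≤ 1 :=
    (mul_le_mul_of_nonneg_right (Nat.floor_le (by positivity)) (by positivity)).trans_eq (by field_simp)
  refine le_trans ?_ (mul_le_mul_of_nonneg_left (term_le_trace hW _
    ((range n).filter fun k => 2 - x / tau n ≤ lam W k) (filter_subset _ _)) two_pos.le)
  rw [cnt, Fintype.card_fin, card_eq_sum_ones, mul_sum]
  push_cast
  refine sum_le_sum fun k hk => ?_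
  have h3 := one_add_mul_le_pow (a := -(x / tau n) / 4) (by linarith) (2 * ⌊tau n / x⌋₊)
  have h4 := pow_le_pow_left₀ (a := 1 + -(x / tau n) / 4) (b := (2 + lam W k) / 4) (by linarith)
    (by linarith [(mem_filter.1 hk).2]) (2 * ⌊tau n / x⌋₊)
  push_cast at h3
  linarith

theorem exp_le_trace {W : Mat n} (hW : W.IsHermitian) (hn : 1 ≤ n) {A t : ℝ} {a : ℕ}
    (ha : 4 * A * tau n ≤ a) (ht : 0 ≤ t) (ht' : t ≤ tau n) (h : Lam n W 0 ≤ -t) :
    exp (A * t) ≤ (Ym 1 W ^ (2 * a)).trace := by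
  have t0 := one_pos.trans_le (one_le_tau hn)
  refine le_trans ?_ (term_le_trace hW a {0} (by simp; omega))
  rw [sum_singleton]
  set u := t / tau n / 4 with hu
  have u0 : 0 ≤ u := by positivity
  have u1 : u ≤ 1 := by have := (div_le_one t0).2 ht'; linarith
  have h1 : 1 + u ≤ (2 + lam W 0) / 4 := by
    have : t / tau n ≤ lam W 0 - 2 := by rw [div_le_iff₀ t0]; rw [Lam] at h; linarith
    linarith
  have h2 : exp (u / 2) ≤ 1 + u := by
    have h3 := add_one_le_exp (-(u / 2))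
    rw [Real.exp_neg, ← one_div, le_div_iff₀ (exp_pos _)] at h3
    nlinarith [exp_pos (u / 2), mul_nonneg u0 (sub_nonneg.2 u1)]
  refine le_trans ?_ (pow_le_pow_left₀ (exp_pos _).le (h2.trans h1) _)
  rw [← exp_nat_mul, exp_le_exp]
  have := mul_le_mul_of_nonneg_right ha u0
  have e : 4 * A * tau n * u = A * t := by rw [hu]; field_simp
  push_cast
  linarith

theorem tailGlue : TailGlue := fun hL hM => by
  refine ⟨fun q => ?_, fun A hA => ?_⟩
  · obtain ⟨C, c0, hC⟩ := hM q 1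
    refine ⟨2 * C, ?_⟩
    filter_upwards [hC, eventually_ge_atTop 1] with n hC hn b x hx hx'
    have t0 := one_pos.trans_le (one_le_tau hn)
    have n0 : (0 : ℝ) < n := by exact_mod_cast hn
    have x0 := one_pos.trans_le hx
    obtain ⟨h1, h2⟩ := transfer hL b ((measurable_Ym_pow 1 _).t157_trace.pow_const q)
      (hC (lawJ b n) (hL.2.2.2.1 b n) 1 (by simp) ⌊tau n / x⌋₊ ((Nat.floor_le (by positivity)).trans
        (by rw [one_mul]; exact div_le_self t0.le hx))).2
    refine (integral_mono_of_nonneg (.of_forall fun g => by positivity) (h1.const_mul (2 ^ q))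
      (.of_forall fun g => ?_)).trans ?_
    · simp only [← mul_pow]
      exact pow_le_pow_left₀ (Nat.cast_nonneg _) (cnt_le_trace (Jmat_isHermitian g) hn x0 hx') q
    rw [integral_const_mul]
    refine (mul_le_mul_of_nonneg_left h2 (by positivity)).trans ?_
    rw [← mul_pow]
    have := rho_pos ⌊tau n / x⌋₊
    refine pow_le_pow_left₀ (by positivity) ?_ q
    have h3 := rpow_le_rpow_of_nonpos (z := -(3 / 2)) (by positivity)
      ((Nat.lt_floor_add_one (tau n / x)).le.trans_eq (add_comm _ _)) (by norm_num)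
    rw [div_rpow t0.le x0.le, tau_rpow, rpow_neg x0.le, div_inv_eq_mul, le_inv_mul_iff₀ n0] at h3
    nlinarith [mul_le_mul_of_nonneg_left h3 c0]
  · obtain ⟨C, c0, hC⟩ := hM 1 (4 * A + 2)
    refine ⟨C, ?_⟩
    filter_upwards [hC, eventually_ge_atTop 1] with n hC hn b t ht ht'
    have t1 := one_le_tau hn
    have n0 : (0 : ℝ) < n := by exact_mod_cast hn
    set a := ⌈(4 * A + 1) * tau n⌉₊
    have a1 : (4 * A + 1) * tau n ≤ a := Nat.le_ceil _
    have a2 : (a : ℝ) ≤ (4 * A + 2) * tau n := by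
      linarith [Nat.ceil_lt_add_one (a := (4 * A + 1) * tau n) (by positivity)]
    have h3 : C * n * (1 + (a : ℝ)) ^ (-(3 / 2) : ℝ) ≤ C := by
      have h3 := rpow_le_rpow_of_nonpos (z := -(3 / 2)) (one_pos.trans_le t1)
        (show tau n ≤ 1 + a by nlinarith) (by norm_num)
      rw [tau_rpow, ← mul_one (n : ℝ)⁻¹, le_inv_mul_iff₀ n0] at h3
      nlinarith [mul_le_mul_of_nonneg_left h3 c0]
    have key : ∀ (σ : ℝ) (M : (Pair n → ℝ) → Mat n), |σ| ≤ 1 → (∀ g, (M g).IsHermitian) →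
        (∀ g, Ym σ (Jmat n g) = Ym 1 (M g)) →
        (couplingLaw b n).real {g | Lam n (M g) 0 ≤ -t} ≤ C * exp (-(A * t)) := fun σ M hσ hM e => by
      obtain ⟨h1, h2⟩ := transfer hL b ((measurable_Ym_pow σ _).t157_trace.pow_const 1)
        (hC (lawJ b n) (hL.2.2.2.1 b n) σ hσ a a2).2
      simp only [pow_one, e] at h1 h2
      have h4 := mul_meas_ge_le_integral_of_nonneg (.of_forall fun g => trace_nonneg (hM g) a) h1
        (exp (A * t))
      rw [exp_neg, ← div_eq_mul_inv, le_div_iff₀' (exp_pos _)]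
      exact (mul_le_mul_of_nonneg_left (measureReal_mono fun g hg =>
        exp_le_trace (hM g) hn (by nlinarith) ht ht' hg) (exp_pos _).le).trans (h4.trans (h2.trans h3))
    exact ⟨key 1 _ (by simp) Jmat_isHermitian fun _ => rfl,
      key (-1) _ (by simp) (fun g => (Jmat_isHermitian g).neg) fun _ => Ym_neg _⟩

end Crest.Agent.T157.EdMbc
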