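import Crest.Agent.T157.EdBase_88

/-!
# Row 157, part E: the top eigenvalue sticks out with positive probability (helper66)

`nondegGlue : NondegGlue`.  Test the tridiagonal form with a tent of width `2 ⌈s²⌉`; the diagonal
noise is Gaussian with standard deviation comparable to the norm, the off-diagonal noise is
independent of it and has bounded variance.
-/

set_option autoImplicit false
set_option linter.unusedSectionVars false

noncomputable section

namespace Crest.Agent.T157.EdNd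

open MeasureTheory ProbabilityTheory Matrix Filter Topology Finset
open Crest.Agent.T157.E Crest.Agent.T157.Eig Crest.Agent.T157.Cond Crest.Agent.T157.Ed

variable {n : ℕ}

/-! ### the two noises -/

/-- norm of the part of a row to the right of the diagonal -/
def chi (i : Fin n) (r : Fin n → ℝ) : ℝ := Real.sqrt (∑ j ∈ univ.filter (i < ·), r j ^ 2)

lemma measurable_chi (i : Fin n) : Measurable (chi i) := by
  unfold chi; fun_prop

lemma indep_row (i : Fin n) : IndepFun (fun r : Fin n → ℝ => r i) (chi i) (gv (Fin n)) := by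
  have h0 : iIndepFun (fun (j : Fin n) (r : Fin n → ℝ) => r j) (gv (Fin n)) :=
    iIndepFun_pi (X := fun _ (t : ℝ) => t) fun _ => aemeasurable_id'
  have h1 := h0.indepFun_finset {i} (univ.filter (i < ·)) (by simp) fun j => measurable_pi_apply j
  have m1 : Measurable fun a : ({i} : Finset (Fin n)) → ℝ => a ⟨i, mem_singleton_self i⟩ :=
    measurable_pi_apply _
  have m2 : Measurable fun a : (univ.filter (i < ·) : Finset (Fin n)) → ℝ =>
      Real.sqrt (∑ j, a j ^ 2) := by fun_prop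
  have h2 := h1.comp m1 m2
  have e : chi i = (fun a : (univ.filter (i < ·) : Finset (Fin n)) → ℝ =>
      Real.sqrt (∑ j, a j ^ 2)) ∘ fun (r : Fin n → ℝ) j => r j := by
    funext r
    simp only [chi, Function.comp]
    rw [Finset.sum_coe_sort (univ.filter (i < ·)) fun j => r j ^ 2]
  rw [e]
  exact h2

lemma map_diag : (gm n).map (fun g i => g i i) = gv (Fin n) := by
  have h := Measure.pi_map_pi (μ := fun _ : Fin n => gv (Fin n))
    (f := fun i (r : Fin n → ℝ) => r i) (hμ := fun i => by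
      rw [(measurePreserving_eval (fun _ : Fin n => gaussianReal 0 1) i).map_eq]; infer_instance)
    fun i => (measurable_pi_apply i).aemeasurable
  rw [h]
  congr 1
  funext i
  exact (measurePreserving_eval (fun _ : Fin n => gaussianReal 0 1) i).map_eq

lemma indep_diag :
    IndepFun (fun (g : Fin n → Fin n → ℝ) i => g i i) (fun g i => chi i (g i)) (gm n) := by
  have m1 : Measurable fun (g : Fin n → Fin n → ℝ) i => g i i := by fun_prop
  have m2 : Measurable fun (g : Fin n → Fin n → ℝ) i => chi i (g i) :=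
    measurable_pi_lambda _ fun i => (measurable_chi i).comp (measurable_pi_apply i)
  have : ∀ i : Fin n, IsProbabilityMeasure ((gv (Fin n)).map (chi i)) := fun i =>
    Measure.isProbabilityMeasure_map (measurable_chi i).aemeasurable
  have hrow : ∀ i : Fin n, MeasurePreserving (fun r : Fin n → ℝ => (r i, chi i r)) (gv (Fin n))
      ((gaussianReal 0 1).prod ((gv (Fin n)).map (chi i))) := fun i => by
    refine ⟨(measurable_pi_apply i).prodMk (measurable_chi i), ?_⟩
    rw [(indepFun_iff_map_prod_eq_prod_map_map (measurable_pi_apply i).aemeasurable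
      (measurable_chi i).aemeasurable).1 (indep_row i),
      (measurePreserving_eval (fun _ : Fin n => gaussianReal 0 1) i).map_eq]
  have h1 := (measurePreserving_arrowProdEquivProdArrow ℝ ℝ (Fin n) (fun _ => gaussianReal 0 1)
    fun i => (gv (Fin n)).map (chi i)).comp (measurePreserving_pi _ _ hrow)
  rw [indepFun_iff_map_prod_eq_prod_map_map m1.aemeasurable m2.aemeasurable, map_diag,
    Measure.pi_map_pi fun i => (measurable_chi i).aemeasurable]
  exact h1.map_eq

lemma map_unit {e : Fin n → ℝ} (he : e ⬝ᵥ e = 1) :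
    (gv (Fin n)).map (fun x => e ⬝ᵥ x) = gaussianReal 0 1 := by
  have hm : Measurable fun x : Fin n → ℝ => e ⬝ᵥ x := by fun_prop
  refine Measure.ext_of_charFun (funext fun t => ?_)
  have h1 := CF_gv (t • e)
  rw [charFun_gaussianReal, charFun_apply_real, integral_map hm.aemeasurable (by fun_prop)]
  simp only [CF, smul_dotProduct, dotProduct_smul, he, smul_eq_mul] at h1
  convert h1 using 2
  · push_cast; rfl
  · push_cast; simp; ring

lemma integrable_sq (j : Fin n) : Integrable (fun r : Fin n → ℝ => r j ^ 2) (gv (Fin n)) :=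
  (((memLp_id_gaussianReal (μ := 0) (v := 1) 2).comp_measurePreserving
    (measurePreserving_eval (fun _ : Fin n => gaussianReal 0 1) j))).integrable_sq

lemma integral_sq (j : Fin n) : ∫ r : Fin n → ℝ, r j ^ 2 ∂gv (Fin n) = 1 := by
  have h1 := (measurePreserving_eval (fun _ : Fin n => gaussianReal 0 1) j).map_eq
  have h2 : ∫ t, t ^ 2 ∂gaussianReal 0 1 = 1 := by
    have h3 := variance_fun_id_gaussianReal (μ := 0) (v := 1)
    rw [variance_eq_integral aemeasurable_id'] at h3
    simpa using h3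
  rw [← h2, ← h1, integral_map (measurable_pi_apply j).aemeasurable (by fun_prop)]

lemma chi_sq (i : Fin n) (r : Fin n → ℝ) : chi i r ^ 2 = ∑ j ∈ univ.filter (i < ·), r j ^ 2 :=
  Real.sq_sqrt (sum_nonneg fun _ _ => sq_nonneg _)

lemma memLp_chi (i : Fin n) : MemLp (chi i) 2 (gv (Fin n)) := by
  rw [memLp_two_iff_integrable_sq (measurable_chi i).aestronglyMeasurable]
  simp only [chi_sq]
  exact integrable_finsetSum _ fun j _ => integrable_sq j

lemma rowB_succ (g : Fin n → Fin n → ℝ) (i : Fin n) : rowB n g (i + 1) = chi i (g i) :=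
  ext_succ _ i

lemma bet_succ (i : Fin n) : bet n (i + 1) = ∫ r, chi i r ∂gv (Fin n) := by
  rw [bet, if_neg (by omega)]
  simp only [rowB_succ]
  have h1 := (measurePreserving_eval (fun _ : Fin n => gv (Fin n)) i).map_eq
  conv_rhs => rw [← h1]
  rw [integral_map (measurable_pi_apply i).aemeasurable (measurable_chi i).aestronglyMeasurable]

lemma var_chi {s : ℝ} (h : Coef n s (bet n)) (i : Fin n) : Var[chi i; gv (Fin n)] ≤ 2 := by
  rw [variance_eq_sub (memLp_chi i), ← bet_succ]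
  have h1 : ∫ r, (chi i ^ 2) r ∂gv (Fin n) = (n : ℝ) - 1 - i := by
    simp only [Pi.pow_apply, chi_sq]
    rw [integral_finsetSum _ fun j _ => integrable_sq j]
    simp only [integral_sq, sum_const, nsmul_eq_mul, mul_one]
    rw [Finset.filter_lt_eq_Ioi, Fin.card_Ioi]
    have := i.2
    rw [Nat.cast_sub (by omega), Nat.cast_sub (by omega)]
    simp
  have h2 := h.lo (i + 1) (by omega)
  have h3 : (n : ℝ) - ((i + 1 : ℕ) : ℝ) - 2 ≤ Real.sqrt ((n : ℝ) - ((i + 1 : ℕ) : ℝ) - 2) ^ 2 := by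
    rcases le_total 0 ((n : ℝ) - ((i + 1 : ℕ) : ℝ) - 2) with h0 | h0
    · rw [Real.sq_sqrt h0]
    · exact h0.trans (sq_nonneg _)
  have h4 := pow_le_pow_left₀ (Real.sqrt_nonneg _) h2 2
  rw [h1]
  push_cast at h3 h4 ⊢
  linarith

lemma cheb {s : ℝ} (h : Coef n s (bet n)) (c : Fin n → ℝ) {K : ℝ} (hK : 0 < K)
    (hc : 4 * ∑ i, c i ^ 2 ≤ K ^ 2) :
    1 / 2 ≤ (gm n).real {g | |∑ i, c i * (chi i (g i) - bet n (i + 1))| < K} := by
  set X : (i : Fin n) → (Fin n → ℝ) → ℝ := fun i r => c i * (chi i r - bet n (i + 1)) with hX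
  have hm : ∀ i, MemLp (X i) 2 (gv (Fin n)) := fun i =>
    ((memLp_chi i).sub (memLp_const _)).const_mul _
  have hm' : ∀ i, MemLp (fun g : Fin n → Fin n → ℝ => X i (g i)) 2 (gm n) := fun i =>
    (hm i).comp_measurePreserving (measurePreserving_eval (fun _ : Fin n => gv (Fin n)) i)
  have hv := variance_sum_pi (μ := fun _ : Fin n => gv (Fin n)) hm
  have hS : (∑ i, fun g : Fin n → Fin n → ℝ => X i (g i)) = fun g => ∑ i, X i (g i) := by
    funext g; simp
  rw [hS] at hv
  have hL : MemLp (fun g : Fin n → Fin n → ℝ => ∑ i, X i (g i)) 2 (gm n) :=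
    memLp_finsetSum _ fun i _ => hm' i
  have h0 : ∫ g, ∑ i, X i (g i) ∂gm n = 0 := by
    rw [integral_finsetSum _ fun i _ => (hm' i).integrable one_le_two]
    refine sum_eq_zero fun i _ => ?_
    have h1 := (measurePreserving_eval (fun _ : Fin n => gv (Fin n)) i).map_eq
    have h2 : ∫ r, X i r ∂gv (Fin n) = 0 := by
      simp only [hX]
      rw [integral_const_mul, integral_sub ((memLp_chi i).integrable one_le_two)
        (integrable_const _), ← bet_succ]
      simp
    rw [← h2]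
    conv_rhs => rw [← h1]
    rw [integral_map (measurable_pi_apply i).aemeasurable
      (((measurable_chi i).sub_const _).const_mul _).aestronglyMeasurable]
  have hvar : ∑ i, Var[X i; gv (Fin n)] ≤ 2 * ∑ i, c i ^ 2 := by
    rw [mul_sum]
    refine sum_le_sum fun i _ => ?_
    have h1 : Var[X i; gv (Fin n)] = c i ^ 2 * Var[chi i; gv (Fin n)] := by
      simp only [hX]
      rw [variance_const_mul, variance_sub_const (measurable_chi i).aestronglyMeasurable]
    rw [h1]
    nlinarith [var_chi h i, sq_nonneg (c i)]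
  have hch := meas_ge_le_variance_div_sq hL hK
  rw [h0, hv] at hch
  simp only [sub_zero] at hch
  have hms : MeasurableSet {g : Fin n → Fin n → ℝ | K ≤ |∑ i, X i (g i)|} := by
    refine measurableSet_le measurable_const (Measurable.abs (Finset.measurable_sum _ fun i _ => ?_))
    exact (((measurable_chi i).comp (measurable_pi_apply i)).sub_const _).const_mul _
  have h2 : (gm n).real {g | K ≤ |∑ i, X i (g i)|} ≤ 1 / 2 := by
    refine ENNReal.toReal_le_of_le_ofReal (by norm_num) (hch.trans (ENNReal.ofReal_le_ofReal ?_))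
    rw [div_le_iff₀ (by positivity)]
    linarith
  have h3 := probReal_compl_eq_one_sub (μ := gm n) hms
  have h4 : {g : Fin n → Fin n → ℝ | K ≤ |∑ i, X i (g i)|}ᶜ =
      {g | |∑ i, c i * (chi i (g i) - bet n (i + 1))| < K} := by
    ext g; simp [hX]
  rw [h4] at h3
  linarith

/-- both events together -/
lemma prob_both {s : ℝ} (h : Coef n s (bet n)) {e : Fin n → ℝ} (he : e ⬝ᵥ e = 1)
    (c : Fin n → ℝ) {K : ℝ} (hK : 0 < K) (hc : 4 * ∑ i, c i ^ 2 ≤ K ^ 2) (y : ℝ) :
    (gaussianReal 0 1).real (Set.Ici y) / 2 ≤ (gm n).real {g | y ≤ e ⬝ᵥ (fun i => g i i) ∧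
      |∑ i, c i * (chi i (g i) - bet n (i + 1))| < K} := by
  have m1 : Measurable fun (g : Fin n → Fin n → ℝ) i => g i i := by fun_prop
  have m3 : Measurable fun x : Fin n → ℝ => e ⬝ᵥ x := by fun_prop
  have hS : MeasurableSet {x : Fin n → ℝ | y ≤ e ⬝ᵥ x} := measurableSet_le measurable_const m3
  have hT : MeasurableSet {t : Fin n → ℝ | |∑ i, c i * (t i - bet n (i + 1))| < K} :=
    measurableSet_lt (by fun_prop) measurable_const
  have h1 := (indep_diag (n := n)).measure_inter_preimage_eq_mul _ _ hS hT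
  have h2 : gm n ((fun (g : Fin n → Fin n → ℝ) i => g i i) ⁻¹' {x | y ≤ e ⬝ᵥ x}) =
      gaussianReal 0 1 (Set.Ici y) := by
    rw [← Measure.map_apply m1 hS, map_diag, ← map_unit he, Measure.map_apply m3 measurableSet_Ici]
    rfl
  have h3 := cheb h c hK hc
  have h4 : (gm n).real {g | y ≤ e ⬝ᵥ (fun i => g i i) ∧
      |∑ i, c i * (chi i (g i) - bet n (i + 1))| < K} = (gaussianReal 0 1).real (Set.Ici y) *
      (gm n).real {g | |∑ i, c i * (chi i (g i) - bet n (i + 1))| < K} := by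
    rw [h2] at h1
    simp only [Measure.real, ← ENNReal.toReal_mul]
    exact congrArg ENNReal.toReal h1
  rw [h4]
  have h5 : 0 ≤ (gaussianReal 0 1).real (Set.Ici y) := measureReal_nonneg
  nlinarith

lemma gauss_pos (y : ℝ) : 0 < (gaussianReal 0 1).real (Set.Ici y) := by
  refine ENNReal.toReal_pos (fun h => ?_) (measure_ne_top _ _)
  have := gaussianReal_absolutelyContinuous' 0 (v := 1) one_ne_zero h
  simp at this

/-! ### the tent -/

/-- tent of height `p` and width `2p` -/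
def tent (p i : ℕ) : ℝ := max 0 (min (i : ℝ) (2 * p - i))

lemma tent_nonneg (p i : ℕ) : 0 ≤ tent p i := le_max_left _ _

lemma tent_le (p i : ℕ) : tent p i ≤ p := by
  refine max_le (Nat.cast_nonneg p) ?_
  rcases le_total (i : ℝ) p with h | h
  · exact (min_le_left _ _).trans h
  · exact (min_le_right _ _).trans (by linarith)

lemma tent_zero (p : ℕ) : tent p 0 = 0 := by
  simp [tent]

lemma tent_of_le {p i : ℕ} (h : 2 * p ≤ i) : tent p i = 0 := by
  have h' : (2 * p : ℝ) ≤ i := by exact_mod_cast h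
  exact max_eq_left ((min_le_right _ _).trans (by linarith))

lemma tent_eq {p i : ℕ} (h : i ≤ p) : tent p i = i := by
  have h' : (i : ℝ) ≤ p := by exact_mod_cast h
  rw [tent, min_eq_left (by linarith), max_eq_right (Nat.cast_nonneg i)]

lemma tent_step (p i : ℕ) : (tent p (i + 1) - tent p i) ^ 2 ≤ 1 := by
  have h : |tent p (i + 1) - tent p i| ≤ 1 := by
    unfold tent
    push_cast
    rw [abs_le]
    constructor <;> simp only [max_def, min_def] <;> split_ifs <;> linarith
  rw [← sq_abs]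
  exact pow_le_one₀ (abs_nonneg _) h

lemma sum_cut {p : ℕ} (hp : 2 * p ≤ n) (F : ℕ → ℝ) (hF : ∀ i, 2 * p ≤ i → F i = 0) :
    ∑ i ∈ range (n + 1), F i = ∑ i ∈ range (2 * p), F i :=
  (sum_subset (range_subset_range.2 (by omega)) fun i _ hi => hF i (by simpa using hi)).symm

lemma adm_tent {p : ℕ} (hp : 2 * p ≤ n) : Adm n (tent p) :=
  ⟨tent_zero p, fun _ hi => tent_of_le (by omega)⟩

lemma cube_le (p : ℕ) : (p : ℝ) ^ 3 ≤ 3 * ∑ i ∈ range (p + 1), (i : ℝ) ^ 2 := by
  induction p with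
  | zero => simp
  | succ p ih =>
    rw [sum_range_succ]
    push_cast
    have : (0 : ℝ) ≤ p := Nat.cast_nonneg p
    nlinarith

lemma nrm_tent {p : ℕ} (hp : 2 * p ≤ n) : (p : ℝ) ^ 3 ≤ 3 * nrm n (tent p) := by
  refine (cube_le p).trans (mul_le_mul_of_nonneg_left ?_ (by norm_num))
  have h1 : ∑ i ∈ range (p + 1), (i : ℝ) ^ 2 = ∑ i ∈ range (p + 1), tent p i ^ 2 :=
    sum_congr rfl fun i hi => by rw [tent_eq (by simpa [Nat.lt_succ_iff] using hi)]
  rw [h1]
  exact sum_le_sum_of_subset_of_nonneg (range_subset_range.2 (by omega)) fun _ _ _ => sq_nonneg _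

lemma kin_tent {p : ℕ} (hp : 2 * p ≤ n) {s : ℝ} (hs : s ^ 2 ≤ p) :
    kin n s (tent p) ≤ 6 * nrm n (tent p) := by
  have h1 : ∑ i ∈ range (n + 1), (tent p (i + 1) - tent p i) ^ 2 ≤ 2 * p := by
    rw [sum_cut hp _ fun i hi => by rw [tent_of_le hi, tent_of_le (by omega)]; simp]
    refine (sum_le_sum fun i _ => tent_step p i).trans ?_
    simp
  have h2 : s ^ 4 ≤ (p : ℝ) ^ 2 := by
    have := pow_le_pow_left₀ (sq_nonneg s) hs 2
    linarith [show (s ^ 2) ^ 2 = s ^ 4 by ring]
  have h3 := nrm_tent hp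
  have h4 : (0 : ℝ) ≤ p := Nat.cast_nonneg p
  have h5 : kin n s (tent p) ≤ (p : ℝ) ^ 2 * (2 * p) :=
    mul_le_mul h2 h1 (sum_nonneg fun _ _ => sq_nonneg _) (sq_nonneg _)
  nlinarith

lemma pot_tent {p : ℕ} {s : ℝ} (hs0 : 0 < s) (hs : (p : ℝ) ≤ 2 * s ^ 2) :
    pot n s (tent p) ≤ 4 * nrm n (tent p) := by
  rw [pot, nrm, mul_sum]
  refine sum_le_sum fun i _ => ?_
  rcases le_total (2 * p) i with h | h
  · rw [tent_of_le h]; simp
  · have h' : (i : ℝ) ≤ 2 * p := by exact_mod_cast h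
    refine mul_le_mul_of_nonneg_right ?_ (sq_nonneg _)
    rw [div_le_iff₀ (by positivity)]
    linarith

lemma cs_tent {p : ℕ} (hp : 2 * p ≤ n) :
    nrm n (tent p) ^ 2 ≤ 2 * p * ∑ i : Fin n, (tent p (i + 1) ^ 2) ^ 2 := by
  rw [← sum_range_succ_eq (fun i => (tent p i ^ 2) ^ 2) (by simp [tent_zero]), nrm,
    sum_cut hp _ fun i hi => by rw [tent_of_le hi]; simp,
    sum_cut hp _ fun i hi => by rw [tent_of_le hi]; simp]
  have := sq_sum_le_card_mul_sum_sq (s := range (2 * p)) (f := fun i => tent p i ^ 2)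
  simpa using this

lemma prod_tent (p : ℕ) :
    ∑ i : Fin n, (tent p (i + 1) * tent p (i + 1 + 1)) ^ 2 ≤ (p : ℝ) ^ 2 * nrm n (tent p) := by
  rw [nrm, sum_range_succ_eq _ (by simp [tent_zero]), mul_sum]
  refine sum_le_sum fun i _ => ?_
  rw [mul_pow, mul_comm]
  exact mul_le_mul_of_nonneg_right
    (pow_le_pow_left₀ (tent_nonneg _ _) (tent_le _ _) 2) (sq_nonneg _)

lemma osc_zero (l j : ℕ) : osc 0 l j = 0 :=
  le_antisymm (osc_le fun r _ => by simp) (osc_nonneg _ _ _)

lemma kap_zero {s : ℝ} (hs0 : 0 < s) {p : ℕ} (hs : s ^ 2 ≤ p) : kap n s 0 0 p ≤ 1 := by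
  refine ciSup_le fun j => ?_
  have hp : (0 : ℝ) < p := lt_of_lt_of_le (by positivity) hs
  have h1 : (s ^ 2 / p) ^ 2 ≤ 1 := pow_le_one₀ (by positivity) ((div_le_one hp).2 hs)
  have h2 : 0 ≤ ((j : ℕ) : ℝ) * p / (64 * s ^ 2) := by positivity
  simp only [osc_zero]
  norm_num
  linarith

lemma Qf_split (s : ℝ) (β a x u : ℕ → ℝ) (hu : u 0 = 0) : Qf n s a (bx β x) u =
    Qf n s 0 (bx β 0) u - ∑ i : Fin n, s * u (i + 1) ^ 2 * a (i + 1) -
      ∑ i : Fin n, s * (u (i + 1) * u (i + 1 + 1)) * x (i + 1) := by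
  rw [← sum_range_succ_eq (fun i => s * u i ^ 2 * a i) (by simp [hu]),
    ← sum_range_succ_eq (fun i => s * (u i * u (i + 1)) * x i) (by simp [hu])]
  simp only [Qf, bx, mul_sum, Pi.zero_apply]
  rw [sub_sub, sub_sub, ← sum_add_distrib, ← sum_add_distrib]
  congr 1
  exact sum_congr rfl fun i _ => by ring

/-! ### the statement -/

theorem nondegGlue : NondegGlue := by
  intro hT hB hL x
  set y : ℝ := 2 * (71 + |x|) with hy
  refine ⟨(gaussianReal 0 1).real (Set.Ici y) / 2, by have := gauss_pos y; positivity, ?_⟩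
  filter_upwards [tendsto_sx.eventually_ge_atTop 2, eventually_ge_atTop 8] with n hs2 hn
  set s := sx n with hs
  have hs0 : 0 < s := by linarith
  have hC := hB n (by omega)
  set p := ⌈s ^ 2⌉₊ with hp
  have hp1 : s ^ 2 ≤ p := Nat.le_ceil _
  have hs4 : 4 ≤ s ^ 2 := by nlinarith
  have hp2 : (p : ℝ) ≤ 2 * s ^ 2 := by
    have := Nat.ceil_lt_add_one (sq_nonneg s)
    linarith
  have hp0 : (0 : ℝ) < p := by linarith
  have hpn : 2 * p ≤ n := by
    have h1 : (2 * p : ℝ) ≤ n := by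
      rw [← hC.hn]
      have : s ^ 6 = s ^ 2 * (s ^ 2 * s ^ 2) := by ring
      nlinarith [mul_le_mul hs4 hs4 (by norm_num) (sq_nonneg s)]
    exact_mod_cast h1
  set u := tent p with hu
  set N := nrm n u with hN
  have hN3 : (p : ℝ) ^ 3 ≤ 3 * N := nrm_tent hpn
  have hN0 : 0 < N := by have := pow_pos hp0 3; linarith
  -- the deterministic part
  have hQ0 : Qf n s 0 (bx (bet n) 0) u ≤ 61 * N := by
    have h1 := (hL n s (bet n) 0 0 p hn hC (by exact_mod_cast hp0) u (adm_tent hpn)).2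
    have h2 := kin_tent hpn hp1
    have h3 := pot_tent (n := n) hs0 hp2
    have h4 := mul_le_mul_of_nonneg_right (kap_zero (n := n) hs0 hp1) hN0.le
    linarith
  -- the Gaussian direction
  set w : Fin n → ℝ := fun i => s * u (i + 1) ^ 2 * Real.sqrt 2 with hw
  have hww : w ⬝ᵥ w = 2 * s ^ 2 * ∑ i : Fin n, (u (i + 1) ^ 2) ^ 2 := by
    simp only [dotProduct, hw, mul_sum]
    refine sum_congr rfl fun i _ => ?_
    have := Real.mul_self_sqrt (by norm_num : (0 : ℝ) ≤ 2)
    linear_combination (s ^ 2 * (u (i + 1) ^ 2) ^ 2) * this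
  set σ := Real.sqrt (w ⬝ᵥ w) with hσ
  have hσ2 : σ ^ 2 = w ⬝ᵥ w := Real.sq_sqrt (dot_self_nonneg w)
  have hσN : N / 2 ≤ σ := by
    refine Real.le_sqrt_of_sq_le ?_
    have h1 : N ^ 2 ≤ _ := cs_tent hpn
    have h2 : 0 ≤ ∑ i : Fin n, (u (i + 1) ^ 2) ^ 2 := sum_nonneg fun _ _ => sq_nonneg _
    have h3 := mul_le_mul_of_nonneg_right hp2 h2
    rw [hww]
    nlinarith [sq_nonneg N]
  have hσ0 : 0 < σ := by linarith
  have he : (σ⁻¹ • w) ⬝ᵥ (σ⁻¹ • w) = 1 := by
    rw [smul_dotProduct, dotProduct_smul, ← hσ2, smul_eq_mul, smul_eq_mul]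
    field_simp
  set c : Fin n → ℝ := fun i => 2 * s * (u (i + 1) * u (i + 1 + 1)) with hc
  have hcc : 4 * ∑ i, c i ^ 2 ≤ (10 * N) ^ 2 := by
    have h1 : ∑ i, c i ^ 2 = 4 * s ^ 2 * ∑ i : Fin n, (u (i + 1) * u (i + 1 + 1)) ^ 2 := by
      rw [mul_sum]
      exact sum_congr rfl fun i _ => by simp only [hc]; ring
    have h2 : ∑ i : Fin n, (u (i + 1) * u (i + 1 + 1)) ^ 2 ≤ (p : ℝ) ^ 2 * N := prod_tent p
    have h3 : s ^ 2 * ∑ i : Fin n, (u (i + 1) * u (i + 1 + 1)) ^ 2 ≤ p * ((p : ℝ) ^ 2 * N) :=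
      mul_le_mul hp1 h2 (sum_nonneg fun _ _ => sq_nonneg _) hp0.le
    have h4 := mul_le_mul_of_nonneg_right hN3 hN0.le
    rw [h1]
    nlinarith [sq_nonneg N]
  refine (prob_both hC he c (by positivity) hcc y).trans ?_
  -- transfer to the tridiagonal model
  have hA : MeasurableSet {l : ℕ → ℝ | tau n * (2 - l 0) ≤ -x} :=
    measurableSet_le (by fun_prop) measurable_const
  have hG : (GOE n).real {W | Lam n W 0 ≤ -x} =
      (gm n).real {g | tau n * (2 - lam (Tm n g) 0) ≤ -x} := by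
    have h1 := congrArg (fun μ : Measure (ℕ → ℝ) => μ {l | tau n * (2 - l 0) ≤ -x}) (hT n)
    rw [Measure.map_apply measurable_lam hA,
      Measure.map_apply (f := fun g => (lam (Tm n g) : ℕ → ℝ))
        (measurable_lam.comp (measurable_Tm n)) hA] at h1
    exact congrArg ENNReal.toReal h1
  rw [hG]
  refine measureReal_mono fun g hg => ?_
  obtain ⟨g1, g2⟩ := hg
  show tau n * (2 - lam (Tm n g) 0) ≤ -x
  rw [Lam_Tm g (by omega)]
  have h1 := quad_le_top (Hm_herm (n := n) s (rowA n g) (bx (bet n) (rowX n g))) (res n u)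
  rw [quad_Hm, ← nrm_ext, ext_res (adm_tent hpn), Qf_split _ _ _ _ _ (tent_zero p)] at h1
  have h2 : ∑ i : Fin n, s * u (i + 1) ^ 2 * rowA n g (i + 1) = w ⬝ᵥ fun i => g i i := by
    simp only [dotProduct, hw, rowA, ext_succ]
    exact sum_congr rfl fun i _ => by ring
  have h3 : ∑ i : Fin n, s * (u (i + 1) * u (i + 1 + 1)) * rowX n g (i + 1) =
      ∑ i, c i * (chi i (g i) - bet n (i + 1)) := by
    refine sum_congr rfl fun i _ => ?_
    rw [rowX, if_neg (by omega), rowB_succ]
    simp only [hc]; ring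
  have h4 : σ * y ≤ w ⬝ᵥ fun i => g i i := by
    rw [smul_dotProduct, smul_eq_mul] at g1
    have := mul_le_mul_of_nonneg_left g1 hσ0.le
    rwa [mul_inv_cancel_left₀ hσ0.ne'] at this
  have h5 : N / 2 * y ≤ σ * y := mul_le_mul_of_nonneg_right hσN (by positivity)
  have h6 := (abs_lt.1 g2).1
  have h7 := mul_le_mul_of_nonneg_right (le_abs_self x) hN0.le
  change -(Qf n s 0 (bx (bet n) 0) u - _ - _) ≤ _ * N at h1
  rw [h2, h3] at h1
  refine le_of_mul_le_mul_right ?_ hN0
  rw [hy] at h5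
  nlinarith

end Crest.Agent.T157.EdNd

end
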