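import Crest.Agent.T157.EdDef_88

/-!
# Row 157, edge limit: Stone–Weierstrass in the power sums (helper62)
-/

set_option autoImplicit false

noncomputable section

namespace Crest.Agent.T157.Ed.Sw62

open Filter Topology Finset

/-- decreasing nonnegative sequences with sum at most `M` -/
def KM (M : ℝ) : Set (ℕ → ℝ) :=
  {x | Antitone x ∧ (∀ k, 0 ≤ x k) ∧ ∀ N, ∑ k ∈ range N, x k ≤ M}

theorem M_nonneg {M : ℝ} {x : ℕ → ℝ} (hx : x ∈ KM M) : 0 ≤ M := by
  simpa using hx.2.2 0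

theorem le_div {M : ℝ} {x : ℕ → ℝ} (hx : x ∈ KM M) (k : ℕ) : x k ≤ M / ((k : ℝ) + 1) := by
  rw [le_div_iff₀ (by positivity)]
  have h1 : ∑ _i ∈ range (k + 1), x k ≤ ∑ i ∈ range (k + 1), x i :=
    sum_le_sum fun i hi => hx.1 (by simpa [Nat.lt_succ_iff] using hi)
  have h2 := hx.2.2 (k + 1)
  simp only [sum_const, card_range, nsmul_eq_mul, Nat.cast_add, Nat.cast_one] at h1
  linarith

theorem le_M {M : ℝ} {x : ℕ → ℝ} (hx : x ∈ KM M) (k : ℕ) : x k ≤ M := by
  have h := hx.2.2 1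
  simp only [range_one, sum_singleton] at h
  exact (hx.1 (Nat.zero_le k)).trans h

theorem isClosed_KM (M : ℝ) : IsClosed (KM M) := by
  have : KM M = (⋂ a, ⋂ b, ⋂ (_ : a ≤ b), {x : ℕ → ℝ | x b ≤ x a}) ∩
      ((⋂ k, {x : ℕ → ℝ | 0 ≤ x k}) ∩ ⋂ N, {x : ℕ → ℝ | ∑ k ∈ range N, x k ≤ M}) := by
    ext x
    simp only [KM, Set.mem_ofPred_eq, Set.mem_inter_iff, Set.mem_iInter]
    exact ⟨fun h => ⟨fun a b hab => h.1 hab, h.2⟩, fun h => ⟨fun a b hab => h.1 a b hab, h.2⟩⟩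
  rw [this]
  refine IsClosed.inter ?_ (IsClosed.inter ?_ ?_)
  · exact isClosed_iInter fun a => isClosed_iInter fun b => isClosed_iInter fun _ =>
      isClosed_le (continuous_apply b) (continuous_apply a)
  · exact isClosed_iInter fun k => isClosed_le continuous_const (continuous_apply k)
  · exact isClosed_iInter fun N =>
      isClosed_le (continuous_finsetSum _ fun k _ => continuous_apply k) continuous_const

theorem isCompact_KM (M : ℝ) : IsCompact (KM M) := by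
  refine (isCompact_univ_pi fun _ : ℕ => (isCompact_Icc : IsCompact (Set.Icc (0 : ℝ) M))).of_isClosed_subset
    (isClosed_KM M) ?_
  intro x hx k _
  exact ⟨hx.2.1 k, le_M hx k⟩

instance (M : ℝ) : CompactSpace (KM M) := isCompact_iff_compactSpace.mp (isCompact_KM M)

/-- the power sums -/
def ps (j : ℕ) (x : ℕ → ℝ) : ℝ := ∑' k, x k ^ (j + 2)

theorem summable_bd (M : ℝ) (j : ℕ) : Summable fun k : ℕ => (|M| / ((k : ℝ) + 1)) ^ (j + 2) := by
  have h : Summable fun k : ℕ => 1 / (((k + 1 : ℕ) : ℝ)) ^ (j + 2) :=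
    (summable_nat_add_iff 1).2 (Real.summable_one_div_nat_pow.2 (by omega))
  refine (h.mul_left (|M| ^ (j + 2))).congr fun k => ?_
  rw [div_pow]
  push_cast
  ring

theorem norm_pow_le {M : ℝ} {x : ℕ → ℝ} (hx : x ∈ KM M) (j k : ℕ) :
    ‖x k ^ (j + 2)‖ ≤ (|M| / ((k : ℝ) + 1)) ^ (j + 2) := by
  rw [Real.norm_eq_abs, abs_of_nonneg (pow_nonneg (hx.2.1 k) _), abs_of_nonneg (M_nonneg hx)]
  exact pow_le_pow_left₀ (hx.2.1 k) (le_div hx k) _

theorem summable_pow {M : ℝ} {x : ℕ → ℝ} (hx : x ∈ KM M) (j : ℕ) :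
    Summable fun k => x k ^ (j + 2) :=
  Summable.of_norm_bounded (summable_bd M j) (norm_pow_le hx j)

theorem continuous_ps (M : ℝ) (j : ℕ) : Continuous fun x : KM M => ps j x :=
  continuous_tsum (fun k => ((continuous_apply k).comp continuous_subtype_val).pow _)
    (summable_bd M j) fun k x => norm_pow_le x.2 j k

theorem le_ps {M : ℝ} {x : ℕ → ℝ} (hx : x ∈ KM M) (j : ℕ) : x 0 ^ (j + 2) ≤ ps j x :=
  (summable_pow hx j).le_tsum 0 fun k _ => pow_nonneg (hx.2.1 k) _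

theorem ps_le {M : ℝ} {x : ℕ → ℝ} (hx : x ∈ KM M) (j : ℕ) : ps j x ≤ x 0 ^ (j + 1) * M := by
  refine (summable_pow hx j).tsum_le_of_sum_range_le fun N => ?_
  calc ∑ k ∈ range N, x k ^ (j + 2) ≤ ∑ k ∈ range N, x 0 ^ (j + 1) * x k := by
        refine sum_le_sum fun k _ => ?_
        rw [pow_succ]
        exact mul_le_mul_of_nonneg_right
          (pow_le_pow_left₀ (hx.2.1 k) (hx.1 (Nat.zero_le k)) _) (hx.2.1 k)
    _ = x 0 ^ (j + 1) * ∑ k ∈ range N, x k := by rw [mul_sum]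
    _ ≤ x 0 ^ (j + 1) * M := mul_le_mul_of_nonneg_left (hx.2.2 N) (pow_nonneg (hx.2.1 0) _)

theorem head_le {M : ℝ} {x y : ℕ → ℝ} (hx : x ∈ KM M) (hy : y ∈ KM M)
    (h : ∀ j, ps j x = ps j y) : x 0 ≤ y 0 := by
  by_contra hlt
  push Not at hlt
  have hx0 : 0 < x 0 := (hy.2.1 0).trans_lt hlt
  have hq : y 0 / x 0 < 1 := (div_lt_one hx0).2 hlt
  have hq0 : 0 ≤ y 0 / x 0 := div_nonneg (hy.2.1 0) hx0.le
  have ht : Tendsto (fun j : ℕ => (y 0 / x 0) ^ (j + 1) * M) atTop (𝓝 (0 * M)) :=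
    ((tendsto_pow_atTop_nhds_zero_of_lt_one hq0 hq).comp (tendsto_add_atTop_nat 1)).mul_const M
  rw [zero_mul] at ht
  have hle : ∀ j : ℕ, x 0 ≤ (y 0 / x 0) ^ (j + 1) * M := by
    intro j
    have h1 := le_ps hx j
    have h2 := ps_le hy j
    rw [h j] at h1
    rw [div_pow, div_mul_eq_mul_div, le_div_iff₀ (pow_pos hx0 _)]
    calc x 0 * x 0 ^ (j + 1) = x 0 ^ (j + 2) := by ring
      _ ≤ _ := h1.trans h2
  exact absurd (ge_of_tendsto' ht hle) (not_le.2 hx0)

theorem shift_mem {M : ℝ} {x : ℕ → ℝ} (hx : x ∈ KM M) : (fun k => x (k + 1)) ∈ KM M := by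
  refine ⟨fun a b hab => hx.1 (Nat.succ_le_succ hab), fun k => hx.2.1 _, fun N => ?_⟩
  have h := hx.2.2 (N + 1)
  rw [sum_range_succ'] at h
  have := hx.2.1 0
  linarith

theorem ps_shift {M : ℝ} {x : ℕ → ℝ} (hx : x ∈ KM M) (j : ℕ) :
    ps j x = x 0 ^ (j + 2) + ps j fun k => x (k + 1) :=
  (summable_pow hx j).tsum_eq_zero_add

theorem sep {M : ℝ} (k : ℕ) : ∀ {x y : ℕ → ℝ}, x ∈ KM M → y ∈ KM M →
    (∀ j, ps j x = ps j y) → x k = y k := by
  induction k with
  | zero => exact fun hx hy h => le_antisymm (head_le hx hy h) (head_le hy hx fun j => (h j).symm)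
  | succ k ih =>
    intro x y hx hy h
    have h0 : x 0 = y 0 := le_antisymm (head_le hx hy h) (head_le hy hx fun j => (h j).symm)
    refine ih (shift_mem hx) (shift_mem hy) fun j => ?_
    have h1 := h j
    rw [ps_shift hx, ps_shift hy, h0] at h1
    exact add_left_cancel h1

/-- smooth functions of the first `r` power sums -/
def Rep (M : ℝ) (r : ℕ) (g : KM M → ℝ) : Prop :=
  ∃ P : (Fin r → ℝ) → ℝ, ContDiff ℝ 4 P ∧ ∀ x : KM M, g x = P fun j => ps j x

theorem Rep.mono {M : ℝ} {r r' : ℕ} {g : KM M → ℝ} (h : Rep M r g) (hr : r ≤ r') :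
    Rep M r' g := by
  obtain ⟨P, hP, hg⟩ := h
  refine ⟨fun y => P fun j => y (Fin.castLE hr j), hP.comp ?_, fun x => hg x⟩
  exact contDiff_pi.2 fun j => contDiff_apply ℝ ℝ _

/-- the subalgebra of smooth functions of finitely many power sums -/
def alg (M : ℝ) : Subalgebra ℝ C(KM M, ℝ) where
  carrier := {g | ∃ r, Rep M r g}
  mul_mem' := by
    rintro a b ⟨r, ha⟩ ⟨r', hb⟩
    obtain ⟨P, hP, h1⟩ := ha.mono (le_max_left r r')
    obtain ⟨Q, hQ, h2⟩ := hb.mono (le_max_right r r')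
    exact ⟨max r r', fun y => P y * Q y, hP.mul hQ, fun x => by simp [h1 x, h2 x]⟩
  add_mem' := by
    rintro a b ⟨r, ha⟩ ⟨r', hb⟩
    obtain ⟨P, hP, h1⟩ := ha.mono (le_max_left r r')
    obtain ⟨Q, hQ, h2⟩ := hb.mono (le_max_right r r')
    exact ⟨max r r', fun y => P y + Q y, hP.add hQ, fun x => by simp [h1 x, h2 x]⟩
  algebraMap_mem' := fun c => ⟨0, fun _ => c, contDiff_const, fun x => by simp⟩

theorem alg_sep (M : ℝ) : (alg M).SeparatesPoints := by
  intro x y hxy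
  have : ∃ j, ps j x ≠ ps j y := by
    by_contra hne
    push Not at hne
    exact hxy (Subtype.ext (funext fun k => sep k x.2 y.2 hne))
  obtain ⟨j, hj⟩ := this
  refine ⟨fun z => ps j z, ⟨⟨fun z => ps j z, continuous_ps M j⟩, ?_, rfl⟩, hj⟩
  exact ⟨j + 1, fun y => y (Fin.last j), contDiff_apply ℝ ℝ _, fun x => by simp⟩

theorem exists_psi (B : ℝ) (hB : 0 ≤ B) : ∃ ψ : ℝ → ℝ, ContDiff ℝ 4 ψ ∧ (∀ t, |ψ t| ≤ B + 2) ∧
    ∀ t, |t| ≤ B + 1 → ψ t = t := by
  let b : ContDiffBump (0 : ℝ) := ⟨B + 1, B + 2, by linarith, by linarith⟩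
  refine ⟨fun t => t * b t, contDiff_id.mul b.contDiff, fun t => ?_, fun t ht => ?_⟩
  · rcases le_total (B + 2) |t| with h | h
    · have : b t = 0 := b.zero_of_le_dist (by simpa [Real.dist_eq] using h)
      simp only [this, mul_zero, abs_zero]
      linarith
    · rw [abs_mul, abs_of_nonneg b.nonneg]
      calc |t| * b t ≤ |t| * 1 := mul_le_mul_of_nonneg_left b.le_one (abs_nonneg t)
        _ ≤ B + 2 := by linarith
  · have : b t = 1 := b.one_of_mem_closedBall (by simpa [Real.dist_eq] using ht)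
    simp [this]

theorem exists_bound {r : ℕ} {G : (Fin r → ℝ) → ℝ} (hG : ContDiff ℝ 4 G)
    (hc : HasCompactSupport G) : ∃ C : ℝ, ∀ i, i ≤ 4 → ∀ y, ‖iteratedFDeriv ℝ i G y‖ ≤ C := by
  have h : ∀ i : Fin 5, ∃ C : ℝ, ∀ y, ‖iteratedFDeriv ℝ i G y‖ ≤ C := fun i =>
    (hG.continuous_iteratedFDeriv (by exact_mod_cast Nat.lt_succ_iff.1 i.2)).bounded_above_of_compact_support
      (hc.iteratedFDeriv _)
  choose C hC using h
  refine ⟨∑ i, |C i|, fun i hi y => ?_⟩
  refine (hC ⟨i, by omega⟩ y).trans ((le_abs_self _).trans ?_)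
  exact single_le_sum (f := fun i => |C i|) (fun i _ => abs_nonneg _) (mem_univ _)

theorem mem_of_fin {M : ℝ} {n : ℕ} {x : ℕ → ℝ} (h1 : Antitone x) (h2 : ∀ k, 0 ≤ x k)
    (h3 : ∀ k, n ≤ k → x k = 0) (h4 : ∑ k ∈ range n, x k ≤ M) : x ∈ KM M := by
  refine ⟨h1, h2, fun N => le_trans ?_ h4⟩
  calc ∑ k ∈ range N, x k ≤ ∑ k ∈ range (max N n), x k :=
        sum_le_sum_of_subset_of_nonneg (range_subset_range.2 (le_max_left _ _)) fun k _ _ => h2 k
    _ = ∑ k ∈ range n, x k := by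
        refine (sum_subset (range_subset_range.2 (le_max_right _ _)) fun k _ hk => h3 k ?_).symm
        simpa using hk

theorem ps_fin {n : ℕ} {x : ℕ → ℝ} (h3 : ∀ k, n ≤ k → x k = 0) (j : ℕ) :
    ps j x = ∑ k ∈ range n, x k ^ (j + 2) := by
  refine tsum_eq_sum fun k hk => ?_
  rw [h3 k (by simpa using hk)]
  simp

end Crest.Agent.T157.Ed.Sw62

namespace Crest.Agent.T157.Ed

open Sw62 Finset

theorem swStmt : SwStmt := by
  intro K f B M ε hf hB hε
  have hB0 : 0 ≤ B := (abs_nonneg _).trans (hB 0)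
  have hc : Continuous fun x : KM M => f fun k => (x : ℕ → ℝ) k :=
    hf.comp (continuous_pi fun k => (continuous_apply _).comp continuous_subtype_val)
  obtain ⟨⟨g, r, P, hP, hg⟩, hgf⟩ :=
    ContinuousMap.exists_mem_subalgebra_near_continuous_of_separatesPoints (alg M) (alg_sep M)
      _ hc (min ε 1) (lt_min hε one_pos)
  obtain ⟨ψ, hψ, hψb, hψe⟩ := exists_psi B hB0
  have hcv : Continuous fun x : KM M => (fun j : Fin r => ps j x) :=
    continuous_pi fun j => continuous_ps M j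
  obtain ⟨R, hR⟩ := (isCompact_range hcv).isBounded.subset_closedBall 0
  let χ : ContDiffBump (0 : Fin r → ℝ) :=
    ⟨|R| + 1, |R| + 2, by positivity, by linarith⟩
  have hG : ContDiff ℝ 4 fun y => χ y * ψ (P y) := χ.contDiff.mul (hψ.comp hP)
  have hGc : HasCompactSupport fun y => χ y * ψ (P y) := χ.hasCompactSupport.mul_right
  obtain ⟨C, hC⟩ := exists_bound hG hGc
  refine ⟨r, fun y => χ y * ψ (P y), C, hG, hC, fun y => ?_, fun n x h1 h2 h3 h4 => ?_⟩
  · rw [abs_mul, abs_of_nonneg χ.nonneg]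
    calc χ y * |ψ (P y)| ≤ 1 * |ψ (P y)| := mul_le_mul_of_nonneg_right χ.le_one (abs_nonneg _)
      _ ≤ B + 2 := by rw [one_mul]; exact hψb _
  · have hx := mem_of_fin h1 h2 h3 h4
    have he : (fun j : Fin r => ∑ k ∈ range n, x k ^ ((j : ℕ) + 2)) = fun j : Fin r => ps j x :=
      funext fun j => (ps_fin h3 j).symm
    have h5 := hgf ⟨x, hx⟩
    have h6 := hg ⟨x, hx⟩
    simp only [Real.norm_eq_abs] at h5 h6
    rw [h6] at h5
    have h7 : χ (fun j : Fin r => ps j x) = 1 := by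
      refine χ.one_of_mem_closedBall ?_
      refine Metric.closedBall_subset_closedBall ?_ (hR ⟨⟨x, hx⟩, rfl⟩)
      change R ≤ |R| + 1
      linarith [le_abs_self R]
    have h8 : |P fun j : Fin r => ps j x| ≤ B + 1 := by
      have h9 := hB fun k => x k
      have h10 := (lt_min_iff.1 h5).2
      have := abs_sub_abs_le_abs_sub (P fun j : Fin r => ps j x) (f fun k => x k)
      linarith
    rw [he]
    change |f (fun k => x k) - χ (fun j : Fin r => ps j x) * ψ (P fun j : Fin r => ps j x)| ≤ ε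
    rw [h7, one_mul, hψe _ h8, abs_sub_comm]
    exact (lt_min_iff.1 h5).1.le

end Crest.Agent.T157.Ed

end
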