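import Crest.Agent.T157.EdClt_80
import Crest.Agent.T157.EdCnt_6
import Crest.Agent.T157.EdDer_58
import Crest.Agent.T157.EdDet_88
import Crest.Agent.T157.EdLind_61
import Crest.Agent.T157.EdMba_36
import Crest.Agent.T157.EdMbb_22
import Crest.Agent.T157.EdMbc_23
import Crest.Agent.T157.EdNd_66
import Crest.Agent.T157.EdOsc_7
import Crest.Agent.T157.EdSw_62
import Crest.Agent.T157.EdSwap_50
import Crest.Agent.T157.EdTop_83
import Crest.Agent.T157.EdTri_62
import Crest.Agent.T157.EdUniv_25

/-!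
# Row 157, part E: edge limit — assembly modulo `LbStmt` (helper88)
-/

set_option autoImplicit false

namespace Crest.Agent.T157.Ed.All

open Crest.Agent.T157.Ed

theorem edgeT_of (h : LbStmt) : EdgeTStmt :=
  edgeTGlue triStmt Osc7.betStmt h cntStmt Osc7.kapStmt

theorem lim_of (h : LbStmt) : LimStmt :=
  limGlue triStmt Osc7.betStmt Osc7.oscStmt Osc7.kapStmt h Det.detStmt cltStmt (edgeT_of h)

theorem nondeg_of (h : LbStmt) : NondegStmt := EdNd.nondegGlue triStmt Osc7.betStmt h

theorem mb_of (h : LbStmt) : MbStmt :=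
  EdMbc.mbGlue linkStmt mbaStmt mbbStmt (EdMbc.mbcGlue (edgeT_of h))

theorem tail_of (h : LbStmt) : TailStmt := EdMbc.tailGlue linkStmt (mb_of h)

theorem univ_of (h : LbStmt) : UnivStmt :=
  EdUniv.univGlue linkStmt (mb_of h) swStmt (swapGlue linkStmt (mb_of h) derStmt EdLind.lindStmt)

theorem edge_of (h : LbStmt) : EdgeStmt := topGlue (lim_of h) (univ_of h) (nondeg_of h)

end Crest.Agent.T157.Ed.All
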