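import Crest.Agent.T157.EdBase_88
import Crest.Agent.T157.ConcG_16

/-!
# Row 157, part E: central limit theorem for the block increments (helper80)

`cltStmt : CltStmt`.
-/

set_option autoImplicit false
set_option linter.unusedSectionVars false

noncomputable section

namespace Crest.Agent.T157.Ed

open MeasureTheory ProbabilityTheory Filter Topology Finset BoundedContinuousFunction
open Crest.Agent.T157.E

namespace Clt80

/-! ### elementary inequalities -/

lemma exp_I_bound (x : ℝ) :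
    ‖Complex.exp (x * Complex.I) - (1 + x * Complex.I - (x ^ 2 / 2 : ℝ))‖ ≤ 4 * |x| ^ 3 := by
  have hn : ‖(x : ℂ) * Complex.I‖ = |x| := by simp
  by_cases hx : |x| ≤ 1
  · have h := Complex.exp_bound (x := x * Complex.I) (by rwa [hn]) (n := 3) (by norm_num)
    have e : ∑ m ∈ range 3, ((x : ℂ) * Complex.I) ^ m / (m.factorial : ℂ) =
        1 + x * Complex.I - (x ^ 2 / 2 : ℝ) := by
      simp only [sum_range_succ, range_zero, sum_empty, Nat.factorial, mul_pow, Complex.I_sq]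
      push_cast; ring
    rw [e, hn] at h
    refine h.trans ?_
    have : 0 ≤ |x| ^ 3 := by positivity
    norm_num [Nat.factorial]
    nlinarith
  · have hx1 : 1 ≤ |x| := (not_le.1 hx).le
    have h1 : ‖Complex.exp (x * Complex.I)‖ = 1 := Complex.norm_exp_ofReal_mul_I x
    have h2 : ‖(1 + x * Complex.I - (x ^ 2 / 2 : ℝ) : ℂ)‖ ≤ 1 + |x| + x ^ 2 / 2 := by
      refine (norm_sub_le _ _).trans ?_
      have h3 : ‖((x ^ 2 / 2 : ℝ) : ℂ)‖ = x ^ 2 / 2 := by
        rw [Complex.norm_real, Real.norm_eq_abs, abs_of_nonneg (by positivity)]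
      have h4 := norm_add_le (1 : ℂ) (x * Complex.I)
      rw [hn, norm_one] at h4
      linarith
    have h5 := norm_sub_le (Complex.exp (x * Complex.I)) (1 + x * Complex.I - (x ^ 2 / 2 : ℝ))
    have h6 : x ^ 2 = |x| ^ 2 := (sq_abs x).symm
    have h7 : |x| ≤ |x| ^ 2 := by nlinarith
    have h8 : |x| ^ 2 ≤ |x| ^ 3 := by nlinarith
    linarith

lemma exp_neg_bound {u : ℝ} (hu : 0 ≤ u) : |Real.exp (-u) - (1 - u)| ≤ u ^ 2 := by
  have h1 := Real.add_one_le_exp (-u)
  have h2 := Real.add_one_le_exp u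
  have h3 : Real.exp (-u) * Real.exp u = 1 := by rw [← Real.exp_add]; simp
  have h4 := Real.exp_pos (-u)
  rw [abs_le]
  constructor
  · nlinarith
  · have h5 : Real.exp (-u) * (1 + u) ≤ 1 := by nlinarith
    by_contra hc
    have h6 : 1 - u + u ^ 2 < Real.exp (-u) := by linarith
    nlinarith [mul_lt_mul_of_pos_right h6 (by linarith : 0 < 1 + u), pow_nonneg hu 3]

lemma norm_prod_sub {κ : Type*} (s : Finset κ) (a b : κ → ℂ) (ha : ∀ k, ‖a k‖ ≤ 1)
    (hb : ∀ k, ‖b k‖ ≤ 1) : ‖∏ k ∈ s, a k - ∏ k ∈ s, b k‖ ≤ ∑ k ∈ s, ‖a k - b k‖ := by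
  classical
  induction s using Finset.induction with
  | empty => simp
  | insert k s hk ih =>
    rw [prod_insert hk, prod_insert hk, sum_insert hk]
    have e : a k * ∏ j ∈ s, a j - b k * ∏ j ∈ s, b j =
        (a k - b k) * ∏ j ∈ s, b j + a k * (∏ j ∈ s, a j - ∏ j ∈ s, b j) := by ring
    have h1 : ‖∏ j ∈ s, b j‖ ≤ 1 := by
      rw [norm_prod]; exact prod_le_one (fun _ _ => norm_nonneg _) fun j _ => hb j
    rw [e]
    refine (norm_add_le _ _).trans (add_le_add ?_ ?_)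
    · rw [norm_mul]; exact mul_le_of_le_one_right (norm_nonneg _) h1
    · rw [norm_mul]; exact (mul_le_of_le_one_left (norm_nonneg _) (ha k)).trans ih

lemma pow_four_le (x : ℝ) : x ^ 4 ≤ 24 * (Real.exp x + Real.exp (-x)) := by
  have h := Real.pow_div_factorial_le_exp |x| (abs_nonneg x) 4
  have h1 : |x| ^ 4 = x ^ 4 := by
    rw [show (4 : ℕ) = 2 * 2 from rfl, pow_mul, sq_abs, ← pow_mul]
  have h2 : Real.exp |x| ≤ Real.exp x + Real.exp (-x) := by
    rcases abs_cases x with h | h <;> rw [h.1] <;>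
      linarith [Real.exp_pos x, Real.exp_pos (-x)]
  rw [h1] at h
  norm_num [Nat.factorial] at h
  linarith

lemma int_x4 : ∫ x, x ^ 4 ∂(gaussianReal 0 1) = 3 := by
  have hd : ∀ (p q : ℝ → ℝ), (∀ t, HasDerivAt p (q t) t) →
      deriv (fun t => p t * Real.exp (t ^ 2 / 2)) =
        fun t => (q t + t * p t) * Real.exp (t ^ 2 / 2) := by
    intro p q hp
    ext t
    have h1 : HasDerivAt (fun t : ℝ => t ^ 2 / 2) t t := by
      refine ((hasDerivAt_pow 2 t).div_const 2).congr_deriv ?_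
      simp
    exact (((hp t).mul h1.exp).congr_deriv (by ring)).deriv
  have h := iteratedDeriv_mgf_zero (X := id) (μ := gaussianReal 0 1)
    (by rw [integrableExpSet_id_gaussianReal]; simp) 4
  have e : ∫ x, x ^ 4 ∂(gaussianReal 0 1) = iteratedDeriv 4 (mgf id (gaussianReal 0 1)) 0 := by
    rw [h]; rfl
  have m : mgf id (gaussianReal 0 1) = fun t => 1 * Real.exp (t ^ 2 / 2) := by
    rw [mgf_id_gaussianReal]; ext t; simp
  have d1 := hd (fun _ => 1) (fun _ => 0) fun t => hasDerivAt_const t 1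
  have d2 := hd (fun t => 0 + t * 1) (fun _ => 1) fun t => by simpa using hasDerivAt_id' t
  have d3 := hd (fun t => 1 + t * (0 + t * 1)) (fun t => 2 * t) fun t => by
    have e : (fun t : ℝ => 1 + t * (0 + t * 1)) = fun t => 1 + t ^ 2 := by ext u; ring
    rw [e]
    exact ((hasDerivAt_pow 2 t).const_add 1).congr_deriv (by simp)
  have d4 := hd (fun t => 2 * t + t * (1 + t * (0 + t * 1))) (fun t => 3 + 3 * t ^ 2) fun t => by
    have e : (fun t : ℝ => 2 * t + t * (1 + t * (0 + t * 1))) = fun t => 3 * t + t ^ 3 := by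
      ext u; ring
    rw [e]
    exact (((hasDerivAt_id' t).const_mul 3).fun_add (hasDerivAt_pow 3 t)).congr_deriv (by simp)
  rw [e, m]
  simp only [iteratedDeriv_succ, iteratedDeriv_zero]
  rw [d1, d2, d3, d4]
  simp

/-! ### one factor and the product -/

lemma one_factor {Ω : Type*} [MeasurableSpace Ω] {μ : Measure Ω} [IsProbabilityMeasure μ]
    {η : Ω → ℝ} (hm : Measurable η) (h4 : Integrable (fun ω => η ω ^ 4) μ)
    (h0 : ∫ ω, η ω ∂μ = 0) (c : ℝ) :
    ‖∫ ω, Complex.exp ((c * η ω : ℝ) * Complex.I) ∂μ - (Real.exp (-(2 * c ^ 2)) : ℝ)‖ ≤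
      4 * |c| ^ 3 * (1 + ∫ ω, η ω ^ 4 ∂μ) + c ^ 2 / 2 * |∫ ω, η ω ^ 2 ∂μ - 4| +
        (2 * c ^ 2) ^ 2 := by
  have hb : Integrable (fun ω => 1 + η ω ^ 4) μ := (integrable_const 1).add h4
  have hpow : ∀ x : ℝ, |x| ≤ 1 + x ^ 4 ∧ x ^ 2 ≤ 1 + x ^ 4 ∧ |x| ^ 3 ≤ 1 + x ^ 4 := fun x => by
    have e : x ^ 4 = |x| ^ 4 := by
      rw [show (4 : ℕ) = 2 * 2 from rfl, pow_mul, pow_mul, sq_abs]
    have e2 : x ^ 2 = |x| ^ 2 := (sq_abs x).symm
    rw [e, e2]
    have := abs_nonneg x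
    generalize |x| = a at *
    refine ⟨?_, ?_, ?_⟩
    · nlinarith [sq_nonneg (a ^ 2 - 1 / 2), sq_nonneg (a - 1 / 2)]
    · nlinarith [sq_nonneg (a ^ 2 - 1 / 2)]
    · nlinarith [sq_nonneg (a ^ 2 - a), sq_nonneg (a ^ 2 - 1), sq_nonneg a]
  have h1 : Integrable η μ := hb.mono' hm.aestronglyMeasurable
    (ae_of_all _ fun ω => (hpow _).1)
  have h2 : Integrable (fun ω => η ω ^ 2) μ := hb.mono' (by fun_prop)
    (ae_of_all _ fun ω => by
      rw [Real.norm_eq_abs, abs_of_nonneg (sq_nonneg _)]; exact (hpow _).2.1)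
  have hE : Integrable (fun ω => Complex.exp ((c * η ω : ℝ) * Complex.I)) μ :=
    (integrable_const (1 : ℝ)).mono' (by fun_prop)
      (ae_of_all _ fun ω => (Complex.norm_exp_ofReal_mul_I _).le)
  have hP1 : Integrable (fun ω => ((c * η ω : ℝ) : ℂ) * Complex.I) μ :=
    (h1.const_mul c).ofReal.mul_const _
  have hP2 : Integrable (fun ω => (((c * η ω) ^ 2 / 2 : ℝ) : ℂ)) μ := by
    have : Integrable (fun ω => (c * η ω) ^ 2 / 2) μ :=
      (h2.const_mul (c ^ 2 / 2)).congr (ae_of_all _ fun ω => by simp only; ring)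
    exact this.ofReal
  have hP3 : Integrable (fun ω => 1 + ((c * η ω : ℝ) : ℂ) * Complex.I) μ :=
    (integrable_const _).add hP1
  have hP4 : Integrable (fun ω => 1 + ((c * η ω : ℝ) : ℂ) * Complex.I -
      (((c * η ω) ^ 2 / 2 : ℝ) : ℂ)) μ := hP3.sub hP2
  have hP : ∫ ω, (1 + ((c * η ω : ℝ) : ℂ) * Complex.I - (((c * η ω) ^ 2 / 2 : ℝ) : ℂ)) ∂μ =
      ((1 - c ^ 2 / 2 * ∫ ω, η ω ^ 2 ∂μ : ℝ) : ℂ) := by
    rw [integral_sub hP3 hP2, integral_add (integrable_const _) hP1,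
      integral_mul_const, integral_complex_ofReal, integral_complex_ofReal, integral_const_mul, h0]
    have : ∫ ω, (c * η ω) ^ 2 / 2 ∂μ = c ^ 2 / 2 * ∫ ω, η ω ^ 2 ∂μ := by
      rw [← integral_const_mul]
      exact integral_congr_ae (ae_of_all _ fun ω => by simp only; ring)
    rw [this]
    simp
  have hA : ‖∫ ω, Complex.exp ((c * η ω : ℝ) * Complex.I) ∂μ -
      ((1 - c ^ 2 / 2 * ∫ ω, η ω ^ 2 ∂μ : ℝ) : ℂ)‖ ≤ 4 * |c| ^ 3 * (1 + ∫ ω, η ω ^ 4 ∂μ) := by
    rw [← hP, ← integral_sub hE hP4]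
    have e : 4 * |c| ^ 3 * (1 + ∫ ω, η ω ^ 4 ∂μ) = ∫ ω, 4 * |c| ^ 3 * (1 + η ω ^ 4) ∂μ := by
      rw [integral_const_mul, integral_add (integrable_const _) h4]; simp
    rw [e]
    refine norm_integral_le_of_norm_le (hb.const_mul _) (ae_of_all _ fun ω => ?_)
    refine (exp_I_bound (c * η ω)).trans ?_
    rw [abs_mul, mul_pow, mul_assoc]
    gcongr
    exact (hpow _).2.2
  have hB : ‖((1 - c ^ 2 / 2 * ∫ ω, η ω ^ 2 ∂μ : ℝ) : ℂ) - (Real.exp (-(2 * c ^ 2)) : ℝ)‖ ≤
      c ^ 2 / 2 * |∫ ω, η ω ^ 2 ∂μ - 4| + (2 * c ^ 2) ^ 2 := by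
    rw [← Complex.ofReal_sub, Complex.norm_real, Real.norm_eq_abs]
    have h5 := exp_neg_bound (u := 2 * c ^ 2) (by positivity)
    have e : 1 - c ^ 2 / 2 * ∫ ω, η ω ^ 2 ∂μ - Real.exp (-(2 * c ^ 2)) =
        -(c ^ 2 / 2 * (∫ ω, η ω ^ 2 ∂μ - 4)) - (Real.exp (-(2 * c ^ 2)) - (1 - 2 * c ^ 2)) := by
      ring
    rw [e]
    refine (abs_sub _ _).trans (add_le_add ?_ h5)
    rw [abs_neg, abs_mul, abs_of_nonneg (by positivity : 0 ≤ c ^ 2 / 2)]
  calc _ ≤ _ := norm_sub_le_norm_sub_add_norm_sub _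
        ((1 - c ^ 2 / 2 * ∫ ω, η ω ^ 2 ∂μ : ℝ) : ℂ) _
    _ ≤ _ := by linarith

lemma prod_bound {κ Ω : Type*} [Fintype κ] [MeasurableSpace Ω] {μ : Measure Ω}
    [IsProbabilityMeasure μ] {η : κ → Ω → ℝ} (hm : ∀ k, Measurable (η k))
    (h4 : ∀ k, Integrable (fun ω => η k ω ^ 4) μ) (h0 : ∀ k, ∫ ω, η k ω ∂μ = 0) {M m ε : ℝ}
    (hM : ∀ k, 1 + ∫ ω, η k ω ^ 4 ∂μ ≤ M) (c : κ → ℝ) (hc : ∀ k, |c k| ≤ m)
    (hε : ∀ k, c k ≠ 0 → |∫ ω, η k ω ^ 2 ∂μ - 4| ≤ ε) :
    ‖∫ g, Complex.exp ((∑ k, c k * η k (g k) : ℝ) * Complex.I) ∂(Measure.pi fun _ : κ => μ) -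
      (Real.exp (-(2 * ∑ k, c k ^ 2)) : ℝ)‖ ≤ (∑ k, c k ^ 2) * (4 * m * M + ε / 2 + 4 * m ^ 2) := by
  have e1 : ∀ g : κ → Ω, Complex.exp ((∑ k, c k * η k (g k) : ℝ) * Complex.I) =
      ∏ k, Complex.exp ((c k * η k (g k) : ℝ) * Complex.I) := fun g => by
    rw [← Complex.exp_sum, Complex.ofReal_sum, sum_mul]
  have e2 : ((Real.exp (-(2 * ∑ k, c k ^ 2)) : ℝ) : ℂ) =
      ∏ k, ((Real.exp (-(2 * c k ^ 2)) : ℝ) : ℂ) := by
    rw [← Complex.ofReal_prod, ← Real.exp_sum, mul_sum, sum_neg_distrib]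
  simp only [e1]
  rw [integral_fintype_prod_eq_prod
    (fun k (ω : Ω) => Complex.exp ((c k * η k ω : ℝ) * Complex.I)), e2, sum_mul]
  refine (norm_prod_sub _ _ _ (fun k => ?_) fun k => ?_).trans (sum_le_sum fun k _ => ?_)
  · refine (norm_integral_le_of_norm_le_const (C := 1) (ae_of_all _ fun ω =>
      (Complex.norm_exp_ofReal_mul_I _).le)).trans ?_
    simp
  · rw [Complex.norm_real, Real.norm_eq_abs, abs_of_pos (Real.exp_pos _)]
    exact Real.exp_le_one_iff.2 (by nlinarith [sq_nonneg (c k)])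
  · refine (one_factor (hm k) (h4 k) (h0 k) (c k)).trans ?_
    by_cases hk : c k = 0
    · simp [hk]
    have h1 := hε k hk
    have h2 := hc k
    have h3 := hM k
    have h5 : 0 ≤ ∫ ω, η k ω ^ 4 ∂μ := integral_nonneg fun ω => by positivity
    have h6 : c k ^ 2 ≤ m ^ 2 := by
      rw [← sq_abs]; exact pow_le_pow_left₀ (abs_nonneg _) h2 2
    have h7 : |c k| ^ 3 = c k ^ 2 * |c k| := by rw [← sq_abs (c k)]; ring
    have h8 : |c k| * (1 + ∫ ω, η k ω ^ 4 ∂μ) ≤ m * M :=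
      mul_le_mul h2 h3 (by linarith) ((abs_nonneg _).trans h2)
    have h9 := sq_nonneg (c k)
    rw [h7]
    nlinarith [mul_le_mul_of_nonneg_left h8 h9, mul_le_mul_of_nonneg_left h1 h9,
      mul_le_mul_of_nonneg_left h6 h9]

/-! ### one row -/

section row
open Crest.Agent.T157.Conc (ELip en)
variable {ι : Type*} [Fintype ι]

lemma elip_four {L : ℝ} {F : (ι → ℝ) → ℝ} (h : ELip L F) :
    Integrable (fun y => F y ^ 4) (gv ι) ∧
      ∫ y, (F y - ∫ x, F x ∂gv ι) ^ 4 ∂gv ι ≤ 48 * Real.exp (L ^ 2 / 2) := by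
  have key : ∀ G : (ι → ℝ) → ℝ, ELip L G → Integrable (fun y => G y ^ 4) (gv ι) := fun G hG => by
    have hc := hG.continuous
    refine (((hG.integrable_exp 1).add (hG.integrable_exp (-1))).const_mul 24).mono' (by fun_prop)
      (ae_of_all _ fun y => ?_)
    have := pow_four_le (G y)
    rw [Real.norm_eq_abs, abs_of_nonneg (by positivity)]
    simpa using this
  refine ⟨key F h, ?_⟩
  have hG := h.sub_const (∫ x, F x ∂gv ι)
  have h1 := Conc.mgf_lip h 1
  have h2 := Conc.mgf_lip h (-1)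
  have h3 : Integrable (fun y => Real.exp (1 * (F y - ∫ x, F x ∂gv ι)) +
      Real.exp (-1 * (F y - ∫ x, F x ∂gv ι))) (gv ι) :=
    (hG.integrable_exp 1).add (hG.integrable_exp (-1))
  have h4 := integral_mono (key _ hG) (h3.const_mul 24) fun y => by
    have := pow_four_le (F y - ∫ x, F x ∂gv ι)
    simpa using this
  rw [integral_const_mul, integral_add (hG.integrable_exp 1) (hG.integrable_exp (-1))] at h4
  simp only [one_pow, mul_one, even_two, Even.neg_pow] at h1 h2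
  linarith

/-- Euclidean norm of the coordinates in `S` -/
def Bn (S : Finset ι) (y : ι → ℝ) : ℝ := Real.sqrt (∑ j ∈ S, y j ^ 2)

lemma Bn_nonneg (S : Finset ι) (y : ι → ℝ) : 0 ≤ Bn S y := Real.sqrt_nonneg _

lemma Bn_sq (S : Finset ι) (y : ι → ℝ) : Bn S y ^ 2 = ∑ j ∈ S, y j ^ 2 :=
  Real.sq_sqrt (sum_nonneg fun _ _ => sq_nonneg _)

lemma elip_Bn (S : Finset ι) : ELip 1 (Bn S) := fun x y => by
  classical
  have e : ∀ z : ι → ℝ, Bn S z = en fun j => if j ∈ S then z j else 0 := fun z => by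
    unfold Bn en
    congr 1
    simp [ite_pow]
  rw [e, e, one_mul]
  refine (Conc.abs_en_sub_le _ _).trans (Real.sqrt_le_sqrt (sum_le_sum fun j _ => ?_))
  simp only [Pi.sub_apply]
  split_ifs
  · exact le_rfl
  · simpa using sq_nonneg _

lemma int_x2 : ∫ x, x ^ 2 ∂(gaussianReal 0 1) = 1 := by
  have h := variance_id_gaussianReal (μ := 0) (v := 1)
  rw [variance_eq_integral measurable_id.aemeasurable] at h
  simpa using h

lemma memLp_sq : MemLp (fun x : ℝ => x ^ 2) 2 (gaussianReal 0 1) := by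
  have h := (memLp_id_gaussianReal (μ := 0) (v := 1) 4).norm_rpow_div 2
  norm_num at h
  rw [show (4 : ENNReal) / 2 = 2 by
    rw [show (4 : ENNReal) = 2 * 2 by norm_num, ENNReal.mul_div_cancel_right] <;> norm_num] at h
  exact h

lemma mean_Q (S : Finset ι) : ∫ y, Bn S y ^ 2 ∂gv ι = S.card := by
  simp only [Bn_sq]
  rw [integral_finsetSum _ fun j _ =>
    integrable_comp_eval (μ := fun _ : ι => gaussianReal 0 1) (i := j)
      (memLp_sq.integrable one_le_two)]
  have : ∀ j, ∫ y : ι → ℝ, y j ^ 2 ∂gv ι = 1 := fun j => by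
    rw [integral_comp_eval (μ := fun _ : ι => gaussianReal 0 1) (f := fun x : ℝ => x ^ 2)
      (by fun_prop), int_x2]
  simp [this]

lemma var_Q (S : Finset ι) : ∫ y, (Bn S y ^ 2 - S.card) ^ 2 ∂gv ι = 2 * S.card := by
  classical
  have h := variance_sum_pi (μ := fun _ : ι => gaussianReal 0 1)
    (X := fun j x => if j ∈ S then x ^ 2 else 0) fun j => by
      split_ifs
      · exact memLp_sq
      · exact memLp_const _
  have e : (∑ j, fun ω : ι → ℝ => if j ∈ S then ω j ^ 2 else 0) = fun y => Bn S y ^ 2 := by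
    ext y; simp [Bn_sq]
  have hc := (elip_Bn S).continuous
  rw [e, variance_eq_integral (by fun_prop), mean_Q] at h
  rw [h]
  have v : Var[fun x : ℝ => x ^ 2; gaussianReal 0 1] = 2 := by
    rw [variance_eq_sub memLp_sq, int_x2]
    have : ((fun x : ℝ => x ^ 2) ^ 2) = fun x => x ^ 4 := by ext x; simp; ring
    rw [this, int_x4]; norm_num
  have e2 : ∀ j, Var[fun x : ℝ => if j ∈ S then x ^ 2 else 0; gaussianReal 0 1] =
      if j ∈ S then 2 else 0 := fun j => by
    split_ifs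
    · exact v
    · exact variance_zero _
  simp [e2, mul_comm]

lemma integrable_pow_of_four {Ω : Type*} [MeasurableSpace Ω] {μ : Measure Ω} [IsFiniteMeasure μ]
    {f : Ω → ℝ} (hm : Measurable f) (h4 : Integrable (fun ω => f ω ^ 4) μ) {k : ℕ} (hk : k ≤ 4) :
    Integrable (fun ω => f ω ^ k) μ := by
  refine ((integrable_const 1).add h4).mono' (by fun_prop) (ae_of_all _ fun ω => ?_)
  have e : f ω ^ 4 = |f ω| ^ 4 := by
    rw [show (4 : ℕ) = 2 * 2 from rfl, pow_mul, pow_mul, sq_abs]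
  simp only [Pi.add_apply, norm_pow, Real.norm_eq_abs, e]
  rcases le_total |f ω| 1 with h | h
  · have := pow_le_one₀ (abs_nonneg _) h (n := k)
    have : 0 ≤ |f ω| ^ 4 := by positivity
    linarith
  · linarith [pow_le_pow_right₀ h hk]

/-- the variance of a `χ` variable -/
lemma var_Bn (S : Finset ι) (hS : 1 ≤ S.card) :
    |∫ y, (Bn S y - ∫ x, Bn S x ∂gv ι) ^ 2 ∂gv ι - 1 / 2| ≤ 3000 / Real.sqrt S.card := by
  set r := Real.sqrt S.card with hr
  have hk : (1 : ℝ) ≤ S.card := by exact_mod_cast hS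
  have hr1 : 1 ≤ r := Real.one_le_sqrt.2 hk
  have hr2 : r ^ 2 = S.card := Real.sq_sqrt (by linarith)
  have hr0 : 0 < r := by linarith
  set β := ∫ x, Bn S x ∂gv ι with hβ
  have hD := (elip_Bn S).sub_const r
  have hc := hD.continuous
  have i4 := (elip_four hD).1
  have i3 := integrable_pow_of_four hc.measurable i4 (k := 3) (by norm_num)
  have i2 := integrable_pow_of_four hc.measurable i4 (k := 2) (by norm_num)
  have i1 := hD.integrable
  have j4 := (elip_four ((elip_Bn S).sub_const β)).1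
  have m4 := (elip_four (elip_Bn S)).2
  set d1 := ∫ y, (Bn S y - r) ∂gv ι with hd1
  set d2 := ∫ y, (Bn S y - r) ^ 2 ∂gv ι with hd2
  set d3 := ∫ y, (Bn S y - r) ^ 3 ∂gv ι with hd3
  set d4 := ∫ y, (Bn S y - r) ^ 4 ∂gv ι with hd4
  have e1 : d1 = β - r := by
    rw [hd1, integral_sub (elip_Bn S).integrable (integrable_const _)]; simp [hβ]
  have e2 : d2 + 2 * r * d1 = 0 := by
    have h := mean_Q S
    have h' : ∫ y, Bn S y ^ 2 ∂gv ι = ∫ y, ((Bn S y - r) ^ 2 + 2 * r * (Bn S y - r) + r ^ 2) ∂gv ι :=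
      integral_congr_ae (ae_of_all _ fun y => by simp only; ring)
    have i5 : Integrable (fun y => (Bn S y - r) ^ 2 + 2 * r * (Bn S y - r)) (gv ι) :=
      i2.add (i1.const_mul _)
    rw [h', integral_add i5 (integrable_const _), integral_add i2 (i1.const_mul _),
      integral_const_mul] at h
    simp only [integral_const, probReal_univ, smul_eq_mul, one_mul] at h
    linarith
  have e3 : d4 + 4 * r * d3 + 4 * r ^ 2 * d2 = 2 * r ^ 2 := by
    have h := var_Q S
    have h' : ∫ y, (Bn S y ^ 2 - S.card) ^ 2 ∂gv ι = ∫ y, ((Bn S y - r) ^ 4 +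
        4 * r * (Bn S y - r) ^ 3 + 4 * r ^ 2 * (Bn S y - r) ^ 2) ∂gv ι :=
      integral_congr_ae (ae_of_all _ fun y => by simp only; rw [← hr2]; ring)
    have i5 : Integrable (fun y => (Bn S y - r) ^ 4 + 4 * r * (Bn S y - r) ^ 3) (gv ι) :=
      i4.add (i3.const_mul _)
    rw [h', integral_add i5 (i2.const_mul _), integral_add i4 (i3.const_mul _),
      integral_const_mul, integral_const_mul, ← hr2] at h
    exact h
  have e4 : ∫ y, (Bn S y - β) ^ 2 ∂gv ι = d2 - d1 ^ 2 := by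
    have h' : ∫ y, (Bn S y - β) ^ 2 ∂gv ι =
        ∫ y, ((Bn S y - r) ^ 2 + (-2 * d1) * (Bn S y - r) + d1 ^ 2) ∂gv ι :=
      integral_congr_ae (ae_of_all _ fun y => by simp only; rw [e1]; ring)
    have i5 : Integrable (fun y => (Bn S y - r) ^ 2 + (-2 * d1) * (Bn S y - r)) (gv ι) :=
      i2.add (i1.const_mul _)
    rw [h', integral_add i5 (integrable_const _), integral_add i2 (i1.const_mul _),
      integral_const_mul]
    simp only [integral_const, probReal_univ, smul_eq_mul, one_mul]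
    ring
  have p2 : 0 ≤ d2 := integral_nonneg fun y => sq_nonneg _
  have p4 : 0 ≤ d4 := integral_nonneg fun y => by positivity
  have b2 : d2 ≤ 2 := by
    have h := var_Q S
    have h1 : ∫ y, r ^ 2 * (Bn S y - r) ^ 2 ∂gv ι ≤ ∫ y, (Bn S y ^ 2 - S.card) ^ 2 ∂gv ι := by
      refine integral_mono (i2.const_mul _) ?_ fun y => ?_
      · refine ((i4.add (i3.const_mul (4 * r))).add (i2.const_mul (4 * r ^ 2))).congr
          (ae_of_all _ fun y => ?_)
        simp only [Pi.add_apply]; rw [← hr2]; ring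
      · simp only
        have h0 := Bn_nonneg S y
        rw [← hr2, show (Bn S y ^ 2 - r ^ 2) ^ 2 = (Bn S y + r) ^ 2 * (Bn S y - r) ^ 2 by ring]
        exact mul_le_mul_of_nonneg_right (by nlinarith) (sq_nonneg _)
    rw [integral_const_mul, h, ← hr2] at h1
    nlinarith
  have b1 : d1 ^ 2 * r ≤ 1 := by
    have : d1 * r = -d2 / 2 := by linarith
    have h2 : (d1 * r) ^ 2 ≤ 1 := by rw [this]; nlinarith
    nlinarith [sq_nonneg d1]
  have b1' : d1 ^ 2 ≤ 1 := by nlinarith [sq_nonneg d1]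
  have b4 : d4 ≤ 1200 := by
    have h1 : d4 ≤ ∫ y, (8 * (Bn S y - β) ^ 4 + 8 * d1 ^ 4) ∂gv ι := by
      refine integral_mono i4 ((j4.const_mul _).add (integrable_const _)) fun y => ?_
      simp only
      have e : Bn S y - r = (Bn S y - β) + d1 := by rw [e1]; ring
      rw [e]
      generalize Bn S y - β = a
      nlinarith [sq_nonneg (a - d1), sq_nonneg (a + d1), sq_nonneg (a ^ 2 - d1 ^ 2),
        sq_nonneg ((a + d1) ^ 2 - 2 * (a ^ 2 + d1 ^ 2)), sq_nonneg a, sq_nonneg d1]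
    rw [integral_add (j4.const_mul _) (integrable_const _), integral_const_mul] at h1
    simp only [integral_const, probReal_univ, smul_eq_mul, one_mul] at h1
    have h2 : Real.exp (1 ^ 2 / 2) ≤ 3 :=
      (Real.exp_le_exp.2 (by norm_num)).trans (Real.exp_one_lt_d9.le.trans (by norm_num))
    nlinarith
  have b3 : |d3| ≤ 1201 := by
    have h1 : |d3| ≤ ∫ y, (1 + (Bn S y - r) ^ 4) ∂gv ι := by
      rw [← Real.norm_eq_abs]
      refine norm_integral_le_of_norm_le ((integrable_const _).add i4) (ae_of_all _ fun y => ?_)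
      have e : (Bn S y - r) ^ 4 = |Bn S y - r| ^ 4 := by
        rw [show (4 : ℕ) = 2 * 2 from rfl, pow_mul, pow_mul, sq_abs]
      rw [norm_pow, Real.norm_eq_abs, e]
      have := abs_nonneg (Bn S y - r)
      generalize |Bn S y - r| = a at *
      nlinarith [sq_nonneg (a ^ 2 - a), sq_nonneg (a ^ 2 - 1), sq_nonneg a]
    rw [integral_add (integrable_const _) i4] at h1
    simp only [integral_const, probReal_univ, smul_eq_mul, one_mul] at h1
    linarith
  rw [e4, le_div_iff₀ hr0, ← abs_of_pos hr0, ← abs_mul]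
  have e5 : (d2 - d1 ^ 2 - 1 / 2) * r = -(d4 / (4 * r)) - d3 - d1 ^ 2 * r := by
    field_simp
    nlinarith
  have b5 : d4 / (4 * r) ≤ 300 := by
    rw [div_le_iff₀ (by positivity)]; nlinarith
  have b6 : 0 ≤ d4 / (4 * r) := by positivity
  have b7 : 0 ≤ d1 ^ 2 * r := by positivity
  rw [e5, abs_le] at *
  constructor <;> linarith [b3.1, b3.2]

/-- the noise of one row -/
def eta (S : Finset ι) (i : ι) (y : ι → ℝ) : ℝ :=
  Real.sqrt 2 * y i + 2 * (Bn S y - ∫ x, Bn S x ∂gv ι)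

lemma elip_coord (i : ι) : ELip 1 fun y : ι → ℝ => y i := fun x y => by
  simpa using Conc.abs_le_en (x - y) i

lemma elip_eta (S : Finset ι) (i : ι) : ELip 4 (eta S i) := by
  have h := ((elip_coord i).const_mul (Real.sqrt 2)).add
    (((elip_Bn S).sub_const (∫ x, Bn S x ∂gv ι)).const_mul 2)
  refine h.mono ?_
  have : Real.sqrt 2 ≤ 2 := Real.sqrt_le_iff.2 (by norm_num)
  rw [abs_of_nonneg (Real.sqrt_nonneg _)]
  norm_num
  linarith

lemma mean_coord (i : ι) : ∫ y : ι → ℝ, y i ∂gv ι = 0 := by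
  rw [integral_comp_eval (μ := fun _ : ι => gaussianReal 0 1) (f := fun x : ℝ => x)
    (by fun_prop)]
  simp

lemma mean_eta (S : Finset ι) (i : ι) : ∫ y, eta S i y ∂gv ι = 0 := by
  unfold eta
  rw [integral_add ((elip_coord i).integrable.const_mul _)
    (((elip_Bn S).sub_const _).integrable.const_mul _), integral_const_mul, integral_const_mul,
    mean_coord, integral_sub (elip_Bn S).integrable (integrable_const _)]
  simp

lemma four_eta (S : Finset ι) (i : ι) : 1 + ∫ y, eta S i y ^ 4 ∂gv ι ≤ 1 + 48 * Real.exp 8 := by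
  have h := (elip_four (elip_eta S i)).2
  simp only [mean_eta, sub_zero] at h
  norm_num at h ⊢
  exact h

lemma cross_zero (S : Finset ι) {i : ι} (hi : i ∉ S) (β : ℝ) :
    ∫ y, y i * (Bn S y - β) ∂gv ι = 0 := by
  classical
  have hmp : MeasurePreserving (fun (y : ι → ℝ) j => if j = i then -y j else y j) (gv ι) (gv ι) := by
    refine measurePreserving_pi _ _ (f := fun j (x : ℝ) => if j = i then -x else x) fun j => ?_
    split_ifs
    · exact ⟨measurable_neg, by simpa using gaussianReal_map_neg (μ := 0) (v := 1)⟩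
    · exact MeasurePreserving.id _
  have hc := (elip_Bn S).continuous
  have h := integral_map (μ := gv ι) hmp.measurable.aemeasurable
    (f := fun y => y i * (Bn S y - β)) (by fun_prop)
  rw [hmp.map_eq] at h
  have e : ∀ y : ι → ℝ, Bn S (fun j => if j = i then -y j else y j) = Bn S y := fun y => by
    unfold Bn
    congr 1
    refine sum_congr rfl fun j hj => ?_
    have : j ≠ i := fun e => hi (e ▸ hj)
    simp only [if_neg this]
  simp only [if_true, e, neg_mul, integral_neg] at h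
  linarith

lemma var_eta (S : Finset ι) {i : ι} (hi : i ∉ S) (hS : 1 ≤ S.card) :
    |∫ y, eta S i y ^ 2 ∂gv ι - 4| ≤ 12000 / Real.sqrt S.card := by
  set β := ∫ x, Bn S x ∂gv ι with hβ
  have hB := (elip_Bn S).sub_const β
  have a2 := integrable_pow_of_four (elip_coord i).continuous.measurable
    (elip_four (elip_coord i)).1 (k := 2) (by norm_num)
  have b2 := integrable_pow_of_four hB.continuous.measurable (elip_four hB).1 (k := 2)
    (by norm_num)
  have hc := hB.continuous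
  have c2 : Integrable (fun y : ι → ℝ => y i * (Bn S y - β)) (gv ι) := by
    refine (a2.add b2).mono' (by fun_prop) (ae_of_all _ fun y => ?_)
    simp only [Pi.add_apply, Real.norm_eq_abs]
    rw [abs_le]
    constructor <;> nlinarith [sq_nonneg (y i + (Bn S y - β)), sq_nonneg (y i - (Bn S y - β))]
  have h' : ∫ y, eta S i y ^ 2 ∂gv ι = ∫ y, (2 * y i ^ 2 + 4 * (Bn S y - β) ^ 2 +
      4 * Real.sqrt 2 * (y i * (Bn S y - β))) ∂gv ι :=
    integral_congr_ae (ae_of_all _ fun y => by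
      have := Real.sq_sqrt (by norm_num : (0 : ℝ) ≤ 2)
      simp only [eta, ← hβ]
      linear_combination (y i) ^ 2 * this)
  have i5 : Integrable (fun y : ι → ℝ => 2 * y i ^ 2 + 4 * (Bn S y - β) ^ 2) (gv ι) :=
    (a2.const_mul _).add (b2.const_mul _)
  have q : ∫ y : ι → ℝ, y i ^ 2 ∂gv ι = 1 := by
    rw [integral_comp_eval (μ := fun _ : ι => gaussianReal 0 1) (f := fun x : ℝ => x ^ 2)
      (by fun_prop), int_x2]
  rw [h', integral_add i5 (c2.const_mul _), integral_add (a2.const_mul _) (b2.const_mul _),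
    integral_const_mul, integral_const_mul, integral_const_mul, cross_zero S hi, q]
  have h := var_Bn S hS
  rw [← hβ] at h
  have e : 2 * 1 + 4 * ∫ y, (Bn S y - β) ^ 2 ∂gv ι + 4 * Real.sqrt 2 * 0 - 4 =
      4 * (∫ y, (Bn S y - β) ^ 2 ∂gv ι - 1 / 2) := by ring
  rw [e, abs_mul, show (12000 : ℝ) / Real.sqrt S.card = 4 * (3000 / Real.sqrt S.card) by ring]
  norm_num at h ⊢
  linarith

end row

/-! ### the blocks -/

lemma row_eq (n : ℕ) (g : Fin n → Fin n → ℝ) (k : Fin n) :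
    rowA n g (k + 1) + rowX n g (k + 1) = eta (univ.filter (k < ·)) k (g k) := by
  have h : ∀ g : Fin n → Fin n → ℝ, rowB n g (k + 1) = Bn (univ.filter (k < ·)) (g k) := fun g => by
    rw [rowB, ext_succ]; rfl
  have hc := (elip_Bn (univ.filter (k < ·))).continuous
  rw [rowA, ext_succ, rowX, if_neg (by omega), bet, if_neg (by omega), eta, h]
  simp only [h]
  rw [integral_comp_eval (μ := fun _ : Fin n => gv (Fin n)) (f := Bn (univ.filter (k < ·)))
    (by fun_prop)]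

lemma sum_blk {n p J : ℕ} (hp : 1 ≤ p) (hn : (J + 1) * p ≤ n + 1) (H : ℕ → ℕ → ℝ)
    (h0 : ∀ i, H 0 i = 0) (hJ : ∀ j i, J < j → H j i = 0) :
    ∑ k : Fin n, H ((k + 1) / p) (k + 1) =
      ∑ j : Fin J, ∑ r ∈ range p, H (j + 1) ((j + 1) * p + r) := by
  rw [← sum_range_succ_eq (fun i => H (i / p) i) (by simp [h0]),
    ← sum_subset (range_subset_range.2 hn) fun i _ hi => hJ _ _ ?_, sum_range_mul,
    sum_range_succ_eq (fun j => ∑ r ∈ range p, H ((j * p + r) / p) (j * p + r))]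
  · refine sum_congr rfl fun j _ => sum_congr rfl fun r hr => ?_
    rw [Nat.add_comm, Nat.add_mul_div_right _ _ hp, Nat.div_eq_of_lt (mem_range.1 hr), zero_add]
  · refine sum_eq_zero fun r hr => ?_
    rw [zero_mul, zero_add, Nat.div_eq_of_lt (mem_range.1 hr), h0]
  · rw [mem_range, not_lt] at hi
    exact (Nat.le_div_iff_mul_le hp).2 hi

lemma abs_ext_le {J : ℕ} (t : Fin J → ℝ) (i : ℕ) : |ext t i| ≤ ∑ j, |t j| := by
  unfold ext
  split_ifs
  · exact single_le_sum (f := fun j => |t j|) (fun _ _ => abs_nonneg _) (mem_univ _)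
  · simpa using sum_nonneg fun j _ => abs_nonneg (t j)

lemma char_bound {n p J : ℕ} (hp : 1 ≤ p) (hn : 2 * ((J + 1) * p) ≤ n) {s : ℝ} (hs : 0 ≤ s)
    (t : Fin J → ℝ) :
    ‖∫ g, Complex.exp ((∑ j, zblk s (rowA n g) (rowX n g) p J j * t j : ℝ) * Complex.I) ∂gm n -
      (Real.exp (-(2 * (s ^ 2 / p * ∑ j, t j ^ 2))) : ℝ)‖ ≤ (s ^ 2 / p * ∑ j, t j ^ 2) *
        (4 * (s / p * ∑ j, |t j|) * (1 + 48 * Real.exp 8) + 12000 / Real.sqrt (n / 2) / 2 +
          4 * (s / p * ∑ j, |t j|) ^ 2) := by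
  have hp0 : (0 : ℝ) < p := by exact_mod_cast hp
  have hn' : (J + 1) * p ≤ n + 1 := by omega
  have hpos : 1 ≤ (J + 1) * p := Nat.mul_pos (by omega) hp
  have h := prod_bound (μ := gv (Fin n)) (η := fun k : Fin n => eta (univ.filter (k < ·)) k)
    (fun k => (elip_eta _ k).continuous.measurable) (fun k => (elip_four (elip_eta _ k)).1)
    (fun k => mean_eta _ k) (fun k => four_eta _ k) (m := s / p * ∑ j, |t j|)
    (ε := 12000 / Real.sqrt (n / 2)) (fun k => s / p * ext t ((k + 1) / p)) (fun k => by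
      rw [abs_mul, abs_of_nonneg (by positivity)]
      exact mul_le_mul_of_nonneg_left (abs_ext_le t _) (by positivity)) fun k hk => by
      have h1 : ((k : ℕ) + 1) / p ≤ J := by
        by_contra hc
        exact hk (by simp only [ext_of_lt t (not_le.1 hc), mul_zero])
      have h2 : (k : ℕ) + 1 < (J + 1) * p := (Nat.div_lt_iff_lt_mul hp).1 (by omega)
      have h3 : (univ.filter (k < ·)).card = n - 1 - k := by
        rw [show univ.filter (k < ·) = Ioi k from filter_lt_eq_Ioi, Fin.card_Ioi]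
      refine (var_eta _ (by simp) (by omega)).trans ?_
      have h4 : (n : ℝ) / 2 ≤ (univ.filter (k < ·)).card := by
        have : n ≤ 2 * (univ.filter (k < ·)).card := by omega
        have : (n : ℝ) ≤ 2 * (univ.filter (k < ·)).card := by exact_mod_cast this
        linarith
      have h5 : (0 : ℝ) < n := by exact_mod_cast (by omega : 0 < n)
      gcongr
  have e1 : ∀ g : Fin n → Fin n → ℝ, ∑ k : Fin n, s / p * ext t ((k + 1) / p) *
      eta (univ.filter (k < ·)) k (g k) = ∑ j, zblk s (rowA n g) (rowX n g) p J j * t j := by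
    intro g
    simp only [← row_eq]
    rw [sum_blk hp hn' (fun j i => s / p * ext t j * (rowA n g i + rowX n g i))
      (fun i => by simp [ext_zero]) fun j i hj => by simp [ext_of_lt t hj]]
    refine sum_congr rfl fun j _ => ?_
    rw [zblk, ← mul_sum, ext_succ]; ring
  have e2 : ∑ k : Fin n, (s / p * ext t ((k + 1) / p)) ^ 2 = s ^ 2 / p * ∑ j, t j ^ 2 := by
    rw [sum_blk hp hn' (fun j _ => (s / p * ext t j) ^ 2)
      (fun i => by simp [ext_zero]) fun j i hj => by simp [ext_of_lt t hj], mul_sum]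
    refine sum_congr rfl fun j _ => ?_
    rw [sum_const, card_range, ext_succ, nsmul_eq_mul]
    field_simp
  simp only [e1, e2] at h
  exact h

lemma tendsto_ratio {δ : ℝ} (hδ : 0 < δ) :
    Tendsto (fun n => sx n ^ 2 / (⌈δ * sx n ^ 2⌉₊ : ℝ)) atTop (𝓝 δ⁻¹) := by
  have h1 : Tendsto (fun n => sx n ^ 2) atTop atTop :=
    (tendsto_pow_atTop two_ne_zero).comp tendsto_sx
  have h2 := ((tendsto_nat_ceil_mul_div_atTop hδ.le).comp h1).inv₀ hδ.ne'
  refine h2.congr fun n => ?_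
  simp

lemma ev_size {δ : ℝ} (hδ : 0 < δ) (J : ℕ) :
    ∀ᶠ n in atTop, 1 ≤ ⌈δ * sx n ^ 2⌉₊ ∧ 2 * ((J + 1) * ⌈δ * sx n ^ 2⌉₊) ≤ n := by
  filter_upwards [eventually_ge_atTop 1,
    tendsto_sx.eventually_ge_atTop (2 * ((J + 1) * (δ + 1)))] with n hn hs
  have h1 := one_le_sx hn
  have h2 : 1 ≤ sx n ^ 2 := one_le_pow₀ h1
  refine ⟨Nat.ceil_pos.2 (by positivity), ?_⟩
  have h3 : (⌈δ * sx n ^ 2⌉₊ : ℝ) ≤ (δ + 1) * sx n ^ 2 := by
    have := (Nat.ceil_lt_add_one (by positivity : 0 ≤ δ * sx n ^ 2)).le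
    linarith
  have h4 : sx n ^ 3 ≤ n := by
    rw [← sx_pow_six n]; exact pow_le_pow_right₀ h1 (by norm_num)
  have h5 : (2 : ℝ) * ((J + 1) * ⌈δ * sx n ^ 2⌉₊) ≤ n := by
    calc (2 : ℝ) * ((J + 1) * ⌈δ * sx n ^ 2⌉₊) ≤ 2 * ((J + 1) * ((δ + 1) * sx n ^ 2)) := by gcongr
      _ = 2 * ((J + 1) * (δ + 1)) * sx n ^ 2 := by ring
      _ ≤ sx n * sx n ^ 2 := by gcongr
      _ = sx n ^ 3 := by ring
      _ ≤ n := h4
  exact_mod_cast h5

lemma tendsto_char {δ : ℝ} (hδ : 0 < δ) {J : ℕ} (t : Fin J → ℝ) :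
    Tendsto (fun n => ∫ g, Complex.exp ((∑ j, zblk (sx n) (rowA n g) (rowX n g)
      ⌈δ * sx n ^ 2⌉₊ J j * t j : ℝ) * Complex.I) ∂gm n) atTop
      (𝓝 ((Real.exp (-(2 * (δ⁻¹ * ∑ j, t j ^ 2))) : ℝ) : ℂ)) := by
  have hV := (tendsto_ratio hδ).mul_const (∑ j, t j ^ 2)
  have hm : Tendsto (fun n => sx n / (⌈δ * sx n ^ 2⌉₊ : ℝ) * ∑ j, |t j|) atTop (𝓝 0) := by
    have h := ((tendsto_ratio hδ).mul tendsto_sx.inv_tendsto_atTop).mul_const (∑ j, |t j|)
    simp only [mul_zero, zero_mul] at h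
    refine h.congr' ?_
    filter_upwards [eventually_ge_atTop 1] with n hn
    have := sx_pos hn
    simp only [Pi.inv_apply]
    field_simp
  have he : Tendsto (fun n : ℕ => 12000 / Real.sqrt ((n : ℝ) / 2) / 2) atTop (𝓝 0) := by
    have h : Tendsto (fun n : ℕ => Real.sqrt ((n : ℝ) / 2)) atTop atTop :=
      Real.tendsto_sqrt_atTop.comp (tendsto_natCast_atTop_atTop.atTop_div_const two_pos)
    simpa using (h.const_div_atTop 12000).div_const 2
  have hb := hV.mul ((((hm.const_mul 4).mul_const (1 + 48 * Real.exp 8)).add he).add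
    ((hm.pow 2).const_mul 4))
  simp only [mul_zero, zero_mul, add_zero, ne_eq, OfNat.ofNat_ne_zero, not_false_eq_true,
    zero_pow] at hb
  have hE : Tendsto (fun n => ((Real.exp (-(2 * (sx n ^ 2 / (⌈δ * sx n ^ 2⌉₊ : ℝ) *
      ∑ j, t j ^ 2))) : ℝ) : ℂ)) atTop (𝓝 ((Real.exp (-(2 * (δ⁻¹ * ∑ j, t j ^ 2))) : ℝ) : ℂ)) :=
    (Complex.continuous_ofReal.tendsto _).comp
      ((Real.continuous_exp.tendsto _).comp (hV.const_mul 2).neg)
  refine hE.congr_dist (squeeze_zero' (Eventually.of_forall fun _ => dist_nonneg) ?_ hb)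
  filter_upwards [ev_size hδ J] with n hn
  rw [dist_comm, dist_eq_norm]
  exact char_bound hn.1 hn.2 (sx_nonneg n) t

end Clt80

open Clt80 in
theorem cltStmt : CltStmt := by
  intro δ hδ J F
  have hz : ∀ n, Measurable fun g => (WithLp.toLp 2
      (zblk (sx n) (rowA n g) (rowX n g) ⌈δ * sx n ^ 2⌉₊ J) : EuclideanSpace ℝ (Fin J)) :=
    fun n => ((PiLp.continuous_toLp 2 _).comp (continuous_zblk n _ _ J)).measurable
  let μ : ℕ → ProbabilityMeasure (EuclideanSpace ℝ (Fin J)) := fun n =>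
    ⟨(gm n).map fun g => WithLp.toLp 2 (zblk (sx n) (rowA n g) (rowX n g) ⌈δ * sx n ^ 2⌉₊ J),
      Measure.isProbabilityMeasure_map (hz n).aemeasurable⟩
  let μ₀ : ProbabilityMeasure (EuclideanSpace ℝ (Fin J)) :=
    ⟨(stdGaussian (EuclideanSpace ℝ (Fin J))).map fun x => (2 / Real.sqrt δ) • x,
      Measure.isProbabilityMeasure_map (by fun_prop)⟩
  have h : Tendsto μ atTop (𝓝 μ₀) := by
    refine ProbabilityMeasure.tendsto_of_tendsto_charFun fun t => ?_
    have e0 : charFun (μ₀ : Measure (EuclideanSpace ℝ (Fin J))) t =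
        ((Real.exp (-(2 * (δ⁻¹ * ∑ j, t.ofLp j ^ 2))) : ℝ) : ℂ) := by
      change charFun ((stdGaussian (EuclideanSpace ℝ (Fin J))).map
        fun x => (2 / Real.sqrt δ) • x) t = _
      rw [charFun_map_smul, charFun_stdGaussian, Complex.ofReal_exp]
      congr 1
      have h1 : ‖(2 / Real.sqrt δ) • t‖ ^ 2 = 4 * (δ⁻¹ * ∑ j, t.ofLp j ^ 2) := by
        rw [norm_smul, mul_pow, EuclideanSpace.real_norm_sq_eq, Real.norm_eq_abs, sq_abs, div_pow,
          Real.sq_sqrt hδ.le]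
        ring
      rw [← Complex.ofReal_pow, h1]
      push_cast; ring
    rw [e0]
    refine (tendsto_char hδ t.ofLp).congr fun n => ?_
    change _ = charFun ((gm n).map _) t
    rw [charFun_apply, integral_map (hz n).aemeasurable (by fun_prop)]
    refine integral_congr_ae (ae_of_all _ fun g => ?_)
    simp only [PiLp.inner_apply, RCLike.inner_apply, conj_trivial, mul_comm (t.ofLp _)]
  let G : EuclideanSpace ℝ (Fin J) →ᵇ ℝ := F.compContinuous ⟨WithLp.ofLp, PiLp.continuous_ofLp 2 _⟩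
  refine ⟨_, (ProbabilityMeasure.tendsto_iff_forall_integral_tendsto.1 h G).congr fun n => ?_⟩
  change ∫ x, G x ∂((gm n).map _) = _
  rw [integral_map (hz n).aemeasurable G.continuous.aestronglyMeasurable]
  rfl

end Crest.Agent.T157.Ed

end
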