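import Crest.Agent.T157.EDef_39
import Crest.Agent.T157.Eig_84
import Crest.Agent.T157.CondA_53

/-!
# Row 157, part E: existence and universality of the edge limit — definitions and leaves (helper88)

`s = n^{1/6}`, `m = s² = n^{1/3}`, `τ = s⁴ = n^{2/3}`, `√n = s³`; `Lam n W k = τ (2 - λ_k(W))`.

* tridiagonal model: `TriStmt BetStmt OscStmt KapStmt LbStmt CntStmt DetStmt CltStmt` give
  `EdgeTStmt` (two-sided rough rigidity of the GOE with all exponential moments), `LimStmt`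
  (existence of the limit for the GOE) and `NondegStmt`;
* moment bounds `MbaStmt MbbStmt MbcStmt` give `MbStmt` for all moment-dominated entry laws;
* Lindeberg: `DerStmt LindStmt` give `SwapStmt`; with `SwStmt` this gives `UnivStmt`;
* top: `EdgeStmt`, `TailStmt`.
-/

set_option autoImplicit false

noncomputable section

namespace Crest.Agent.T157.Ed

open MeasureTheory ProbabilityTheory Matrix Filter Topology Finset BoundedContinuousFunction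
open Crest.ProbabilityR.SpinGlassDynamics Crest.Agent.T157.E Crest.Agent.T157.Eig
open Crest.Agent.T157.Cond

/-- `s = n^{1/6}` -/
def sx (n : ℕ) : ℝ := (n : ℝ) ^ (1 / 6 : ℝ)
/-- `τ = n^{2/3}` -/
def tau (n : ℕ) : ℝ := (n : ℝ) ^ (2 / 3 : ℝ)

/-- real `n × n` matrices -/
abbrev Mat (n : ℕ) : Type := Matrix (Fin n) (Fin n) ℝ

/-- rescaled edge eigenvalues (increasing in `k`) -/
def Lam (n : ℕ) (W : Mat n) (k : ℕ) : ℝ := tau n * (2 - lam W k)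
/-- the first `K` rescaled edge eigenvalues -/
def LamV (n K : ℕ) (W : Mat n) : Fin K → ℝ := fun k => Lam n W k
/-- the GOE with spectral edge `2` -/
abbrev GOE (n : ℕ) : Measure (Mat n) := goe (Fin n) (1 / Real.sqrt n)

/-! ### the final statements -/

/-- **existence and universality of the edge limit** -/
def EdgeStmt : Prop := ∀ K : ℕ, ∃ ν : Measure (Fin K → ℝ), IsProbabilityMeasure ν ∧
  (∀ F : (Fin K → ℝ) →ᵇ ℝ,
    Tendsto (fun n => ∫ W, F (LamV n K W) ∂GOE n) atTop (𝓝 (∫ x, F x ∂ν))) ∧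
  (∀ (b : Bool) (F : (Fin K → ℝ) →ᵇ ℝ),
    Tendsto (fun n => ∫ g, F (LamV n K (Jmat n g)) ∂couplingLaw b n) atTop (𝓝 (∫ x, F x ∂ν))) ∧
  ∀ (hK : 0 < K) (x : ℝ), 0 < ν {y | y ⟨0, hK⟩ ≤ -x}

/-- counting and top tail for both coupling laws, without `n^ε` losses -/
def TailStmt : Prop :=
  (∀ q : ℕ, ∃ C : ℝ, ∀ᶠ n in atTop, ∀ (b : Bool) (x : ℝ), 1 ≤ x → x ≤ tau n →
    ∫ g, (cnt (Jmat n g) (2 - x / tau n) : ℝ) ^ q ∂couplingLaw b n ≤ (C * x ^ (3 / 2 : ℝ)) ^ q) ∧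
  ∀ A : ℝ, 0 ≤ A → ∃ C : ℝ, ∀ᶠ n in atTop, ∀ (b : Bool) (t : ℝ), 0 ≤ t → t ≤ tau n →
    (couplingLaw b n).real {g | Lam n (Jmat n g) 0 ≤ -t} ≤ C * Real.exp (-(A * t)) ∧
    (couplingLaw b n).real {g | Lam n (-Jmat n g) 0 ≤ -t} ≤ C * Real.exp (-(A * t))

/-! ### the tridiagonal model -/

/-- a vector as a sequence supported in `[1, n]` -/
def ext {n : ℕ} (v : Fin n → ℝ) : ℕ → ℝ :=
  fun i => if h : 1 ≤ i ∧ i ≤ n then v ⟨i - 1, by omega⟩ else 0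

/-- symmetric tridiagonal matrix with diagonal `a 1, …, a n` and off-diagonal `b 1, …, b (n-1)` -/
def tri (n : ℕ) (a b : ℕ → ℝ) : Mat n := fun i j =>
  if i = j then a (i + 1) else if (i : ℕ) + 1 = j then b (i + 1)
  else if (j : ℕ) + 1 = i then b (j + 1) else 0

/-- independent standard Gaussian rows -/
abbrev gm (n : ℕ) : Measure (Fin n → Fin n → ℝ) := Measure.pi fun _ : Fin n => gv (Fin n)

/-- diagonal `a i ∼ N(0, 2)` -/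
def rowA (n : ℕ) (g : Fin n → Fin n → ℝ) : ℕ → ℝ := ext fun i => Real.sqrt 2 * g i i
/-- off-diagonal `b i ∼ χ_{n-i}` -/
def rowB (n : ℕ) (g : Fin n → Fin n → ℝ) : ℕ → ℝ :=
  ext fun i => Real.sqrt (∑ j ∈ univ.filter (i < ·), g i j ^ 2)
/-- the tridiagonal model of the GOE -/
def Tm (n : ℕ) (g : Fin n → Fin n → ℝ) : Mat n :=
  (1 / Real.sqrt n) • tri n (rowA n g) (rowB n g)
/-- mean of the off-diagonal (`√n` at the boundary index `0`) -/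
def bet (n i : ℕ) : ℝ := if i = 0 then Real.sqrt n else ∫ g, rowB n g i ∂gm n
/-- twice the centred off-diagonal -/
def rowX (n : ℕ) (g : Fin n → Fin n → ℝ) (i : ℕ) : ℝ :=
  if i = 0 then 0 else 2 * (rowB n g i - bet n i)

/-- admissible sequences -/
def Adm (n : ℕ) (u : ℕ → ℝ) : Prop := u 0 = 0 ∧ ∀ i, n < i → u i = 0
/-- squared norm -/
def nrm (n : ℕ) (u : ℕ → ℝ) : ℝ := ∑ i ∈ range (n + 1), u i ^ 2
/-- kinetic energy -/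
def kin (n : ℕ) (s : ℝ) (u : ℕ → ℝ) : ℝ := s ^ 4 * ∑ i ∈ range (n + 1), (u (i + 1) - u i) ^ 2
/-- potential energy -/
def pot (n : ℕ) (s : ℝ) (u : ℕ → ℝ) : ℝ := ∑ i ∈ range (n + 1), (i : ℝ) / s ^ 2 * u i ^ 2
/-- the quadratic form of `τ (2 - T / √n)` -/
def Qf (n : ℕ) (s : ℝ) (a b u : ℕ → ℝ) : ℝ :=
  2 * s ^ 4 * nrm n u - s * ∑ i ∈ range (n + 1), (a i * u i ^ 2 + 2 * b i * (u i * u (i + 1)))
/-- the matrix `-τ (2 - T / √n)` -/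
def Hm (n : ℕ) (s : ℝ) (a b : ℕ → ℝ) : Mat n := s • tri n a b - (2 * s ^ 4) • (1 : Mat n)
/-- off-diagonal from mean and fluctuation -/
def bx (β x : ℕ → ℝ) : ℕ → ℝ := fun i => β i + x i / 2

/-- the deterministic coefficients -/
structure Coef (n : ℕ) (s : ℝ) (β : ℕ → ℝ) : Prop where
  hs : 0 < s
  hn : s ^ 6 = n
  b0 : β 0 = s ^ 3
  lo : ∀ i : ℕ, 1 ≤ i → Real.sqrt ((n : ℝ) - i - 2) ≤ β i
  hi : ∀ i : ℕ, 1 ≤ i → β i ≤ Real.sqrt ((n : ℝ) - i)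

/-- largest partial sum in the `j`-th window of length `l` -/
def osc (η : ℕ → ℝ) (l j : ℕ) : ℝ := ⨆ r : Fin (l + 1), |∑ i ∈ range r, η (j * l + i)|

/-- the random constant of the two-sided bound -/
def kap (n : ℕ) (s : ℝ) (a x : ℕ → ℝ) (l : ℕ) : ℝ := ⨆ j : Fin (n + 1),
  (2400 * ((osc a l j / s) ^ 2 + (osc x l j / s) ^ 2) + (s ^ 2 / l) ^ 2 -
    ((j : ℕ) : ℝ) * l / (64 * s ^ 2))

/-- two-sided bound of the form -/
def Two (n : ℕ) (s : ℝ) (a b : ℕ → ℝ) (κ : ℝ) : Prop := ∀ u, Adm n u →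
  (kin n s u + pot n s u) / 64 - κ * nrm n u ≤ Qf n s a b u ∧
  Qf n s a b u ≤ 6 * (kin n s u + pot n s u) + κ * nrm n u

/-- block increments of the noise (blocks `1, …, J` of length `p`) -/
def zblk (s : ℝ) (a x : ℕ → ℝ) (p J : ℕ) : Fin J → ℝ :=
  fun j => s / p * ∑ r ∈ range p, (a ((j + 1) * p + r) + x ((j + 1) * p + r))
/-- minus the reference operator on the mesh `δ` -/
def Hc (J : ℕ) (δ : ℝ) (z : Fin J → ℝ) : Mat J :=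
  tri J (fun j => ext z j - 2 / δ ^ 2 - j * δ) fun _ => 1 / δ ^ 2
/-- eigenvalues of the reference operator -/
def Phi (J : ℕ) (δ : ℝ) (z : Fin J → ℝ) (k : ℕ) : ℝ := -lam (Hc J δ z) k

/-- Householder reduction in law -/
def TriStmt : Prop := ∀ n : ℕ, (GOE n).map (fun W => (lam W : ℕ → ℝ)) =
  (gm n).map fun g => (lam (Tm n g) : ℕ → ℝ)

/-- mean of a `χ` variable -/
def BetStmt : Prop := ∀ n : ℕ, 1 ≤ n → Coef n (sx n) (bet n)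

/-- maximal inequality for the partial sums of the noise -/
def OscStmt : Prop := ∀ (n l j : ℕ) (t : ℝ), 1 ≤ l → 0 ≤ t →
  (gm n).real {g | t ≤ osc (rowA n g) l j} ≤ 2 * Real.exp (-t ^ 2 / (8 * l)) ∧
  (gm n).real {g | t ≤ osc (rowX n g) l j} ≤ 2 * Real.exp (-t ^ 2 / (8 * l))

/-- exponential moments of `kap` (from `OscStmt`) -/
def KapStmt : Prop := ∀ A : ℝ, 0 ≤ A → ∃ h C : ℝ, 0 < h ∧ ∀ᶠ n in atTop,
  ∫⁻ g, ENNReal.ofReal (Real.exp (A * kap n (sx n) (rowA n g) (rowX n g) ⌈h * sx n ^ 2⌉₊)) ∂gm n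
    ≤ ENNReal.ofReal C

/-- deterministic two-sided bound (Abel summation in the windows) -/
def LbStmt : Prop := ∀ (n : ℕ) (s : ℝ) (β a x : ℕ → ℝ) (l : ℕ), 8 ≤ n → Coef n s β → 1 ≤ l →
  Two n s a (bx β x) (kap n s a x l)

/-- deterministic eigenvalue bounds from the two-sided bound -/
def CntStmt : Prop := ∀ (n : ℕ) (s : ℝ) (a b : ℕ → ℝ) (κ : ℝ), 0 < s → s ^ 6 = n →
  Two n s a b κ → ∀ k : ℕ, k < n →
    ((k : ℝ) + 1) ^ (2 / 3 : ℝ) / 256 - κ ≤ -lam (Hm n s a b) k ∧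
    (8 * (k + 1) ≤ n → -lam (Hm n s a b) k ≤ 60 * ((k : ℝ) + 1) ^ (2 / 3 : ℝ) + κ)

/-- deterministic comparison with the reference operator -/
def DetStmt : Prop := ∀ x0 κ ε : ℝ, 0 ≤ x0 → 0 ≤ κ → 0 < ε →
  ∃ L δ0 ω : ℝ, 0 < L ∧ 0 < δ0 ∧ 0 < ω ∧ ∃ n0 : ℕ, ∀ n, n0 ≤ n →
    ∀ (s : ℝ) (β a x : ℕ → ℝ) (p J : ℕ), Coef n s β → 1 ≤ p → (p : ℝ) ≤ δ0 * s ^ 2 →
      L * s ^ 2 ≤ ((J : ℝ) + 1) * p → ((J : ℝ) + 1) * p ≤ 2 * L * s ^ 2 →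
      Two n s a (bx β x) κ → (∀ j, j ≤ J → osc a p j ≤ ω * s ∧ osc x p j ≤ ω * s) →
      ∀ k, k < J → |min (-lam (Hm n s a (bx β x)) k) x0 -
        min (Phi J (p / s ^ 2) (zblk s a x p J) k) x0| ≤ ε

/-- central limit theorem for the block increments (the limit is `N(0, 4/δ)^{⊗ J}`) -/
def CltStmt : Prop := ∀ δ : ℝ, 0 < δ → ∀ (J : ℕ) (F : (Fin J → ℝ) →ᵇ ℝ), ∃ l : ℝ,
  Tendsto (fun n => ∫ g, F (zblk (sx n) (rowA n g) (rowX n g) ⌈δ * sx n ^ 2⌉₊ J) ∂gm n)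
    atTop (𝓝 l)

/-- defect of the two-sided rough rigidity, as a function of the spectrum -/
def kapL (n : ℕ) (l : ℕ → ℝ) : ℝ := ⨆ k : Fin n,
  max ((((k : ℕ) : ℝ) + 1) ^ (2 / 3 : ℝ) / 256 - tau n * (2 - l k))
    (if 8 * ((k : ℕ) + 1) ≤ n then tau n * (2 - l k) - 60 * (((k : ℕ) : ℝ) + 1) ^ (2 / 3 : ℝ)
      else 0)

/-- rough rigidity of the GOE at the edge, all exponential moments -/
def EdgeTStmt : Prop := ∀ A : ℝ, 0 ≤ A → ∃ C : ℝ, ∀ᶠ n in atTop,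
  ∫⁻ W, ENNReal.ofReal (Real.exp (A * kapL n (lam W))) ∂GOE n ≤ ENNReal.ofReal C

/-- existence of the edge limit for the GOE -/
def LimStmt : Prop := ∀ K : ℕ, ∃ ν : Measure (Fin K → ℝ), IsProbabilityMeasure ν ∧
  ∀ F : (Fin K → ℝ) →ᵇ ℝ, Tendsto (fun n => ∫ W, F (LamV n K W) ∂GOE n) atTop (𝓝 (∫ x, F x ∂ν))

/-- the top eigenvalue sticks out with positive probability -/
def NondegStmt : Prop := ∀ x : ℝ, ∃ c : ℝ, 0 < c ∧ ∀ᶠ n in atTop,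
  c ≤ (GOE n).real {W | Lam n W 0 ≤ -x}

/-! ### moment bounds -/

/-- index set of the independent entries -/
abbrev Ix (n : ℕ) : Type := Pair n ⊕ Fin n
/-- the Wigner matrix of an entry array -/
def Wy (n : ℕ) (y : Ix n → ℝ) : Mat n := Wmat n (fun p => y (Sum.inl p)) fun i => y (Sum.inr i)
/-- `(2 + σ W) / 4` -/
def Ym {n : ℕ} (σ : ℝ) (W : Mat n) : Mat n := (1 / 4 : ℝ) • ((2 : ℝ) • (1 : Mat n) + σ • W)
/-- entry laws of the coupling matrix -/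
def lawJ (b : Bool) (n : ℕ) : Ix n → Measure ℝ :=
  Sum.elim (fun _ => entryLaw b) fun _ => Measure.dirac 0

instance (b : Bool) (n : ℕ) (p : Ix n) : IsProbabilityMeasure (lawJ b n p) := by
  cases p <;> simp only [lawJ, Sum.elim_inl, Sum.elim_inr] <;> infer_instance

/-- moments dominated by the standard Gaussian ones -/
structure Dom (μ : Measure ℝ) : Prop where
  int : ∀ k : ℕ, Integrable (fun t : ℝ => t ^ k) μ
  le : ∀ k : ℕ, |∫ t, t ^ k ∂μ| ≤ ∫ t, t ^ k ∂gaussianReal 0 1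

/-- links between the sample spaces, and the dominated laws -/
def LinkStmt : Prop :=
  (∀ n, (gv (Ix n)).map (Wy n) = GOE n) ∧
  (∀ b n, (Measure.pi (lawJ b n)).map (Wy n) = (couplingLaw b n).map (Jmat n)) ∧
  Dom (gaussianReal 0 1) ∧ (∀ b n p, Dom (lawJ b n p)) ∧
  (∀ (μ : Measure ℝ) (θ : ℝ), Dom μ → |θ| ≤ 1 → Dom (μ.map fun t => θ * t)) ∧
  ∀ b i, i < 4 → ∫ t, t ^ i ∂entryLaw b = ∫ t, t ^ i ∂gaussianReal 0 1

/-- domination of polynomial moments -/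
def MbaStmt : Prop := ∀ (n : ℕ) (μ : Ix n → Measure ℝ) [∀ p, IsProbabilityMeasure (μ p)],
  (∀ p, Dom (μ p)) → ∀ σ : ℝ, |σ| ≤ 1 → ∀ a q : ℕ,
    (∀ v : Fin n → ℝ,
      Integrable (fun y => (v ⬝ᵥ (Ym σ (Wy n y) ^ a) *ᵥ v) ^ q) (Measure.pi μ) ∧
      ∫ y, (v ⬝ᵥ (Ym σ (Wy n y) ^ a) *ᵥ v) ^ q ∂Measure.pi μ ≤
        ∫ y, ((fun i => |v i|) ⬝ᵥ (Ym 1 (Wy n y) ^ a) *ᵥ fun i => |v i|) ^ q ∂gv (Ix n)) ∧
    Integrable (fun y => (Ym σ (Wy n y) ^ a).trace ^ q) (Measure.pi μ) ∧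
    ∫ y, (Ym σ (Wy n y) ^ a).trace ^ q ∂Measure.pi μ ≤
      ∫ y, (Ym 1 (Wy n y) ^ a).trace ^ q ∂gv (Ix n)

/-- isotropy of the GOE -/
def MbbStmt : Prop := ∀ q : ℕ, ∃ C : ℝ, 0 ≤ C ∧ ∀ (n a : ℕ) (v : Fin n → ℝ), v ⬝ᵥ v = 1 →
  ∫ W, (v ⬝ᵥ (Ym 1 W ^ (2 * a)) *ᵥ v) ^ q ∂GOE n ≤
    (C / n) ^ q * ∫ W, (Ym 1 W ^ (2 * a)).trace ^ q ∂GOE n

/-- trace moments of the GOE (from `EdgeTStmt`) -/
def MbcStmt : Prop := ∀ (q : ℕ) (T : ℝ), ∃ C : ℝ, 0 ≤ C ∧ ∀ᶠ n in atTop, ∀ a : ℕ,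
  (a : ℝ) ≤ T * tau n → ∫ W, (Ym 1 W ^ (2 * a)).trace ^ q ∂GOE n ≤
    (C * n * (1 + (a : ℝ)) ^ (-(3 / 2) : ℝ)) ^ q

/-- **moment bounds** for all dominated entry laws -/
def MbStmt : Prop := ∀ (q : ℕ) (T : ℝ), ∃ C : ℝ, 0 ≤ C ∧ ∀ᶠ n in atTop,
  ∀ (μ : Ix n → Measure ℝ) [∀ p, IsProbabilityMeasure (μ p)], (∀ p, Dom (μ p)) →
  ∀ σ : ℝ, |σ| ≤ 1 → ∀ a : ℕ, (a : ℝ) ≤ T * tau n →
    (∀ v : Fin n → ℝ, v ⬝ᵥ v = 1 →
      Integrable (fun y => (v ⬝ᵥ (Ym σ (Wy n y) ^ (2 * a)) *ᵥ v) ^ q) (Measure.pi μ) ∧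
      ∫ y, (v ⬝ᵥ (Ym σ (Wy n y) ^ (2 * a)) *ᵥ v) ^ q ∂Measure.pi μ ≤
        (C * (1 + (a : ℝ)) ^ (-(3 / 2) : ℝ)) ^ q) ∧
    Integrable (fun y => (Ym σ (Wy n y) ^ (2 * a)).trace ^ q) (Measure.pi μ) ∧
    ∫ y, (Ym σ (Wy n y) ^ (2 * a)).trace ^ q ∂Measure.pi μ ≤
      (C * n * (1 + (a : ℝ)) ^ (-(3 / 2) : ℝ)) ^ q

/-! ### universality -/

/-- derivatives of a trace power in the direction of one entry -/
def DerStmt : Prop := ∃ C : ℝ, 0 ≤ C ∧ ∀ (n : ℕ) (Y E : Mat n) (i j : Fin n) (e Z : ℝ) (M k : ℕ),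
  Yᵀ = Y → (∀ c d, (c ≠ i ∧ c ≠ j) ∨ (d ≠ i ∧ d ≠ j) → E c d = 0) → (∀ c d, |E c d| ≤ e) →
  1 ≤ M → 1 ≤ k → k ≤ 4 →
  (∀ b : ℕ, b ≤ M → ∀ c, c = i ∨ c = j → (Y ^ (2 * b)) c c ≤ Z * (1 + (b : ℝ)) ^ (-(5 / 4) : ℝ)) →
  |iteratedDeriv k (fun t : ℝ => ((Y + t • E) ^ M).trace) 0| ≤
    (C * e * Z) ^ k * (M : ℝ) ^ (-(1 / 4) : ℝ)

/-- Lindeberg replacement with an averaged remainder -/
def LindStmt : Prop := ∃ C : ℝ, 0 ≤ C ∧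
  ∀ (ι : Type) [Fintype ι] [DecidableEq ι] (μ ν : ι → Measure ℝ)
  [∀ p, IsProbabilityMeasure (μ p)] [∀ p, IsProbabilityMeasure (ν p)],
  (∀ p, Dom (μ p)) → (∀ p, Dom (ν p)) →
  ∀ (F : (ι → ℝ) → ℝ) (B : ℝ) (k : ι → ℕ) (R : ι → (ι → ℝ) → ℝ) (ρ : ι → ℝ),
    Measurable F → (∀ y, |F y| ≤ B) → (∀ p, 1 ≤ k p ∧ k p ≤ 4) →
    (∀ p i, i < k p → ∫ t, t ^ i ∂μ p = ∫ t, t ^ i ∂ν p) →
    (∀ p y, ContDiff ℝ 4 fun t => F (Function.update y p t)) → (∀ p, Measurable (R p)) →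
    (∀ p y, |iteratedDeriv (k p) (fun t => F (Function.update y p t)) (y p)| ≤ R p y) →
    (∀ p, 0 < ρ p) →
    (∀ p (ξ : ι → Measure ℝ) [∀ q, IsProbabilityMeasure (ξ q)], (∀ q, Dom (ξ q)) →
      ∫⁻ y, ENNReal.ofReal (R p y ^ 2) ∂Measure.pi ξ ≤ ENNReal.ofReal (ρ p ^ 2)) →
    |∫ y, F y ∂Measure.pi μ - ∫ y, F y ∂Measure.pi ν| ≤ C * ∑ p, ρ p

/-- the power sums `tr Y^{(j+2) N}`, `N = 2 ⌈τ⌉` -/
def ptr (n r : ℕ) (W : Mat n) : Fin r → ℝ :=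
  fun j => (Ym 1 W ^ (((j : ℕ) + 2) * (2 * ⌈tau n⌉₊))).trace

/-- universality of smooth functions of the power sums -/
def SwapStmt : Prop := ∀ (r : ℕ) (G : (Fin r → ℝ) → ℝ) (C : ℝ), ContDiff ℝ 4 G →
  (∀ i, i ≤ 4 → ∀ y, ‖iteratedFDeriv ℝ i G y‖ ≤ C) → ∀ b : Bool,
  Tendsto (fun n => ∫ g, G (ptr n r (Jmat n g)) ∂couplingLaw b n - ∫ W, G (ptr n r W) ∂GOE n)
    atTop (𝓝 0)

/-- Stone–Weierstrass on the simplex of decreasing sequences -/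
def SwStmt : Prop := ∀ (K : ℕ) (f : (Fin K → ℝ) → ℝ) (B M ε : ℝ), Continuous f →
  (∀ x, |f x| ≤ B) → 0 < ε → ∃ (r : ℕ) (G : (Fin r → ℝ) → ℝ) (C : ℝ), ContDiff ℝ 4 G ∧
    (∀ i, i ≤ 4 → ∀ y, ‖iteratedFDeriv ℝ i G y‖ ≤ C) ∧ (∀ y, |G y| ≤ B + 2) ∧
    ∀ (n : ℕ) (x : ℕ → ℝ), Antitone x → (∀ k, 0 ≤ x k) → (∀ k, n ≤ k → x k = 0) →
      ∑ k ∈ range n, x k ≤ M →
      |f (fun k => x k) - G fun j => ∑ k ∈ range n, x k ^ ((j : ℕ) + 2)| ≤ ε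

/-- universality for compactly supported test functions -/
def UnivStmt : Prop := ∀ (K : ℕ) (F : (Fin K → ℝ) → ℝ), Continuous F → HasCompactSupport F →
  ∀ b : Bool, Tendsto (fun n => ∫ g, F (LamV n K (Jmat n g)) ∂couplingLaw b n -
    ∫ W, F (LamV n K W) ∂GOE n) atTop (𝓝 0)

/-! ### glue statements -/

def KapGlue : Prop := OscStmt → KapStmt
def EdgeTGlue : Prop := TriStmt → BetStmt → LbStmt → CntStmt → KapStmt → EdgeTStmt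
def LimGlue : Prop :=
  TriStmt → BetStmt → OscStmt → KapStmt → LbStmt → DetStmt → CltStmt → EdgeTStmt → LimStmt
def NondegGlue : Prop := TriStmt → BetStmt → LbStmt → NondegStmt
def MbcGlue : Prop := EdgeTStmt → MbcStmt
def MbGlue : Prop := LinkStmt → MbaStmt → MbbStmt → MbcStmt → MbStmt
def TailGlue : Prop := LinkStmt → MbStmt → TailStmt
def SwapGlue : Prop := LinkStmt → MbStmt → DerStmt → LindStmt → SwapStmt
def UnivGlue : Prop := LinkStmt → MbStmt → SwStmt → SwapStmt → UnivStmt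
def TopGlue : Prop := LimStmt → UnivStmt → NondegStmt → EdgeStmt

end Crest.Agent.T157.Ed

end
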