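import Crest.Agent.T157.EdBase_88

/-!
# Row 157, part E: edge limit — comparison of the fine and the coarse form (helper88)
-/

set_option autoImplicit false

noncomputable section

namespace Crest.Agent.T157.Ed.Det

open Finset Crest.Agent.T157.Ed

/-- supported in `[1, P - 1]` -/
def Sup (P : ℕ) (v : ℕ → ℝ) : Prop := v 0 = 0 ∧ ∀ i, P ≤ i → v i = 0

variable {n P : ℕ} {v : ℕ → ℝ} {s : ℝ}

lemma Sup.adm (h : Sup P v) (hP : P ≤ n + 1) : Adm n v := ⟨h.1, fun i hi => h.2 i (by omega)⟩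

lemma sum_trunc {F : ℕ → ℝ} (hP : P ≤ n + 1) (h : ∀ i, P ≤ i → F i = 0) :
    ∑ i ∈ range (n + 1), F i = ∑ i ∈ range P, F i :=
  (sum_subset (range_subset_range.2 hP) fun i _ hi => h i (by simpa using hi)).symm

lemma Sup.shift (h : Sup P v) (c : ℕ → ℝ) :
    ∑ i ∈ range P, c (i + 1) * v (i + 1) ^ 2 = ∑ i ∈ range P, c i * v i ^ 2 := by
  have h1 := sum_range_succ' (fun i => c i * v i ^ 2) P
  have h2 := sum_range_succ (fun i => c i * v i ^ 2) P
  simp only [h.1, h.2 P le_rfl] at h1 h2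
  linarith

lemma Sup.shift_one (h : Sup P v) :
    ∑ i ∈ range P, v (i + 1) ^ 2 = ∑ i ∈ range P, v i ^ 2 := by
  simpa using h.shift fun _ => 1

lemma Sup.nrm_eq (h : Sup P v) (hP : P ≤ n + 1) : nrm n v = ∑ i ∈ range P, v i ^ 2 :=
  sum_trunc hP fun i hi => by simp [h.2 i hi]

lemma Sup.kin_eq (h : Sup P v) (hP : P ≤ n + 1) :
    kin n s v = s ^ 4 * ∑ i ∈ range P, (v (i + 1) - v i) ^ 2 := by
  rw [kin, sum_trunc hP fun i hi => by simp [h.2 i hi, h.2 (i + 1) (by omega)]]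

lemma Sup.pot_eq (h : Sup P v) (hP : P ≤ n + 1) :
    pot n s v = ∑ i ∈ range P, (i : ℝ) / s ^ 2 * v i ^ 2 :=
  sum_trunc hP fun i hi => by simp [h.2 i hi]

lemma abs_mul_le_sq (_hs : 0 < s) (x y : ℝ) : s ^ 2 * |x * y| ≤ s ^ 4 * x ^ 2 + y ^ 2 / 4 := by
  rw [abs_mul, ← sq_abs x, ← sq_abs y]
  nlinarith [sq_nonneg (s ^ 2 * |x| - |y| / 2)]

/-- total variation of the squares -/
lemma Sup.var1 (h : Sup P v) (hP : P ≤ n + 1) (hs : 0 < s) :
    s ^ 2 * ∑ i ∈ range P, |v (i + 1) ^ 2 - v i ^ 2| ≤ kin n s v + nrm n v := by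
  rw [h.kin_eq hP, h.nrm_eq hP, mul_sum, mul_sum]
  have h1 : ∀ i ∈ range P, s ^ 2 * |v (i + 1) ^ 2 - v i ^ 2| ≤
      s ^ 4 * (v (i + 1) - v i) ^ 2 + (v (i + 1) ^ 2 / 2 + v i ^ 2 / 2) := fun i _ => by
    have := abs_mul_le_sq hs (v (i + 1) - v i) (v (i + 1) + v i)
    rw [show (v (i + 1) - v i) * (v (i + 1) + v i) = v (i + 1) ^ 2 - v i ^ 2 by ring] at this
    nlinarith [sq_nonneg (v (i + 1) - v i)]
  refine (sum_le_sum h1).trans ?_
  rw [sum_add_distrib, sum_add_distrib, ← sum_div, ← sum_div, h.shift_one]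
  linarith

/-- total variation of the products of neighbours -/
lemma Sup.var2 (h : Sup P v) (hP : P ≤ n + 1) (hs : 0 < s) :
    s ^ 2 * ∑ i ∈ range P, |v (i + 1) * v (i + 1 + 1) - v i * v (i + 1)| ≤
      2 * (kin n s v + nrm n v) := by
  rw [h.kin_eq hP, h.nrm_eq hP, mul_sum]
  have h1 : ∀ i ∈ range P, s ^ 2 * |v (i + 1) * v (i + 1 + 1) - v i * v (i + 1)| ≤
      s ^ 4 * (v (i + 1 + 1) - v (i + 1)) ^ 2 + s ^ 4 * (v (i + 1) - v i) ^ 2 +
        v (i + 1) ^ 2 := fun i _ => by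
    have h2 := abs_mul_le_sq hs (v (i + 1 + 1) - v (i + 1)) (v (i + 1))
    have h3 := abs_mul_le_sq hs (v (i + 1) - v i) (v (i + 1))
    have h4 := abs_add_le ((v (i + 1 + 1) - v (i + 1)) * v (i + 1)) ((v (i + 1) - v i) * v (i + 1))
    rw [show (v (i + 1 + 1) - v (i + 1)) * v (i + 1) + (v (i + 1) - v i) * v (i + 1) =
      v (i + 1) * v (i + 1 + 1) - v i * v (i + 1) by ring] at h4
    nlinarith [mul_le_mul_of_nonneg_left h4 (sq_nonneg s), sq_nonneg (v (i + 1))]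
  refine (sum_le_sum h1).trans ?_
  rw [sum_add_distrib, sum_add_distrib, ← mul_sum, ← mul_sum, h.shift_one]
  have h5 := sum_range_succ' (fun i => (v (i + 1) - v i) ^ 2) P
  have h6 := sum_range_succ (fun i => (v (i + 1) - v i) ^ 2) P
  simp only [h.2 P le_rfl, h.2 (P + 1) (by omega)] at h6
  have h7 : ∑ i ∈ range P, (v (i + 1 + 1) - v (i + 1)) ^ 2 ≤
      ∑ i ∈ range P, (v (i + 1) - v i) ^ 2 := by nlinarith [sq_nonneg (v (0 + 1) - v 0)]
  have h8 : 0 ≤ ∑ i ∈ range P, v i ^ 2 := sum_nonneg fun _ _ => sq_nonneg _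
  nlinarith [mul_le_mul_of_nonneg_left h7 (by positivity : 0 ≤ s ^ 4)]

lemma Sup.var3 (h : Sup P v) (hP : P ≤ n + 1) (hs : 0 < s) :
    s ^ 2 * ∑ i ∈ range P, |(v (i + 1) - v i) * v i| ≤ kin n s v + nrm n v := by
  rw [h.kin_eq hP, h.nrm_eq hP, mul_sum, mul_sum, ← sum_add_distrib]
  refine sum_le_sum fun i _ => ?_
  have := abs_mul_le_sq hs (v (i + 1) - v i) (v i)
  nlinarith [sq_nonneg (v i)]

variable {p J : ℕ}

/-- blockwise deviation of the squares from the value at the left end point -/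
lemma Sup.dev (h : Sup ((J + 1) * p) v) (hP : (J + 1) * p ≤ n + 1) (hs : 0 < s) :
    ∑ j ∈ range (J + 1), ∑ r ∈ range p, |v (j * p + r) ^ 2 - v (j * p) ^ 2| ≤
      p / s ^ 2 * (kin n s v + nrm n v) := by
  have h1 := h.var1 hP hs
  rw [sum_range_mul] at h1
  have h2 : ∑ j ∈ range (J + 1), ∑ r ∈ range p, |v (j * p + r) ^ 2 - v (j * p) ^ 2| ≤
      p * ∑ j ∈ range (J + 1), ∑ r ∈ range p, |v (j * p + r + 1) ^ 2 - v (j * p + r) ^ 2| := by
    rw [mul_sum]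
    refine sum_le_sum fun j _ => ?_
    refine (sum_le_sum fun r hr =>
      abs_sub_le_sum (fun r => v (j * p + r) ^ 2) (mem_range.1 hr).le).trans ?_
    rw [sum_const, card_range, nsmul_eq_mul]
    rfl
  refine h2.trans ?_
  rw [div_mul_eq_mul_div, le_div_iff₀ (by positivity)]
  nlinarith [mul_le_mul_of_nonneg_left h1 (Nat.cast_nonneg (α := ℝ) p)]

lemma Sup.cmp_nrm (h : Sup ((J + 1) * p) v) (hP : (J + 1) * p ≤ n + 1) (hs : 0 < s) :
    |nrm n v - p * nrm J fun j => v (j * p)| ≤ p / s ^ 2 * (kin n s v + nrm n v) := by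
  refine le_trans ?_ (h.dev hP hs)
  rw [h.nrm_eq hP, sum_range_mul, nrm, mul_sum, ← sum_sub_distrib]
  refine (abs_sum_le_sum_abs _ _).trans (sum_le_sum fun j _ => ?_)
  refine le_trans (le_of_eq ?_) (abs_sum_le_sum_abs _ _)
  rw [sum_sub_distrib, sum_const, card_range, nsmul_eq_mul]

lemma Sup.cmp_pot (h : Sup ((J + 1) * p) v) (hP : (J + 1) * p ≤ n + 1) (hs : 0 < s) {L : ℝ}
    (hL : ((J : ℝ) + 1) * p ≤ 2 * L * s ^ 2) :
    |pot n s v - p * ∑ j ∈ range (J + 1), j * (p / s ^ 2) * v (j * p) ^ 2| ≤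
      (2 * L + 1) * (p / s ^ 2) * (kin n s v + nrm n v) := by
  have h1 := h.dev hP hs
  have hδ : (0 : ℝ) ≤ p / s ^ 2 := by positivity
  have hL0 : 0 ≤ 2 * L := by
    have : (0 : ℝ) ≤ 2 * L * s ^ 2 := le_trans (by positivity) hL
    exact nonneg_of_mul_nonneg_left this (by positivity)
  have h2 : |pot n s v - p * ∑ j ∈ range (J + 1), j * (p / s ^ 2) * v (j * p) ^ 2| ≤
      ∑ j ∈ range (J + 1), ∑ r ∈ range p, (p / s ^ 2 * v (j * p + r) ^ 2 +
        2 * L * |v (j * p + r) ^ 2 - v (j * p) ^ 2|) := by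
    rw [h.pot_eq hP, sum_range_mul, mul_sum, ← sum_sub_distrib]
    refine (abs_sum_le_sum_abs _ _).trans (sum_le_sum fun j hj => ?_)
    have e : (p : ℝ) * (j * (p / s ^ 2) * v (j * p) ^ 2) =
        ∑ _r ∈ range p, j * (p / s ^ 2) * v (j * p) ^ 2 := by
      rw [sum_const, card_range, nsmul_eq_mul]
    rw [e, ← sum_sub_distrib]
    refine (abs_sum_le_sum_abs _ _).trans (sum_le_sum fun r hr => ?_)
    have e2 : ((j * p + r : ℕ) : ℝ) / s ^ 2 * v (j * p + r) ^ 2 -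
        j * (p / s ^ 2) * v (j * p) ^ 2 = r / s ^ 2 * v (j * p + r) ^ 2 +
          j * (p / s ^ 2) * (v (j * p + r) ^ 2 - v (j * p) ^ 2) := by
      push_cast; ring
    rw [e2]
    refine (abs_add_le _ _).trans (add_le_add ?_ ?_)
    · rw [abs_of_nonneg (by positivity)]
      have : (r : ℝ) ≤ p := by exact_mod_cast (mem_range.1 hr).le
      gcongr
    · rw [abs_mul, abs_of_nonneg (by positivity : (0 : ℝ) ≤ j * (p / s ^ 2))]
      refine mul_le_mul_of_nonneg_right ?_ (abs_nonneg _)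
      have : (j : ℝ) ≤ J + 1 := by exact_mod_cast (mem_range.1 hj).le
      rw [← mul_div_assoc, div_le_iff₀ (by positivity)]
      exact (mul_le_mul_of_nonneg_right this (Nat.cast_nonneg p)).trans hL
  refine h2.trans ?_
  simp only [sum_add_distrib, ← mul_sum]
  rw [← sum_range_mul (fun i => v i ^ 2), ← h.nrm_eq hP]
  have := kin_nonneg n s v
  nlinarith [mul_le_mul_of_nonneg_left h1 hL0, mul_nonneg hδ this]

lemma Sup.cmp_noise (h : Sup ((J + 1) * p) v) (hP : (J + 1) * p ≤ n + 1) (hs : 0 < s)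
    (hp : 1 ≤ p) {a x : ℕ → ℝ} {ω : ℝ} (hω : 0 ≤ ω)
    (ho : ∀ j, j ≤ J → osc a p j ≤ ω * s ∧ osc x p j ≤ ω * s) :
    |s * ∑ i ∈ range (n + 1), (a i * v i ^ 2 + x i * (v i * v (i + 1))) -
      p * ∑ j ∈ range (J + 1), ext (zblk s a x p J) j * v (j * p) ^ 2| ≤
      7 * ω * (kin n s v + nrm n v) := by
  have hp0 : (0 : ℝ) < p := by exact_mod_cast hp
  have h1 := h.var1 hP hs
  have h2 := h.var2 hP hs
  have h3 := h.var3 hP hs
  rw [sum_range_mul] at h1 h2 h3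
  have e1 : (p : ℝ) * ∑ j ∈ range (J + 1), ext (zblk s a x p J) j * v (j * p) ^ 2 =
      s * ∑ j ∈ range (J + 1), (∑ r ∈ range p, (a (j * p + r) + x (j * p + r))) *
        v (j * p) ^ 2 := by
    rw [mul_sum, mul_sum]
    refine sum_congr rfl fun j hj => ?_
    rcases j with _ | j
    · simp [h.1]
    · rw [ext_succ' _ (by simpa using hj : j < J), zblk]
      field_simp
  rw [sum_trunc hP fun i hi => by simp [h.2 i hi], sum_range_mul, e1, ← mul_sub,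
    ← sum_sub_distrib, abs_mul, abs_of_pos hs]
  have h4 : |∑ j ∈ range (J + 1), (∑ r ∈ range p, (a (j * p + r) * v (j * p + r) ^ 2 +
        x (j * p + r) * (v (j * p + r) * v (j * p + r + 1))) -
        (∑ r ∈ range p, (a (j * p + r) + x (j * p + r))) * v (j * p) ^ 2)| ≤
      ∑ j ∈ range (J + 1), (ω * s * (
        2 * ∑ r ∈ range p, |v (j * p + r + 1) ^ 2 - v (j * p + r) ^ 2| +
        2 * ∑ r ∈ range p, |v (j * p + r + 1) * v (j * p + r + 1 + 1) -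
          v (j * p + r) * v (j * p + r + 1)| +
        ∑ r ∈ range p, |(v (j * p + r + 1) - v (j * p + r)) * v (j * p + r)|)) := by
    refine (abs_sum_le_sum_abs _ _).trans (sum_le_sum fun j hj => ?_)
    obtain ⟨oa, ox⟩ := ho j (by have := mem_range.1 hj; omega)
    have ha := abel (fun r => a (j * p + r)) (fun r => v (j * p + r) ^ 2) p
      fun r hr => (le_osc a p j hr).trans oa
    have hx := abel (fun r => x (j * p + r)) (fun r => v (j * p + r) * v (j * p + r + 1)) p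
      fun r hr => (le_osc x p j hr).trans ox
    have hx2 := (le_osc x p j le_rfl).trans ox
    have hωs : 0 ≤ ω * s := mul_nonneg hω hs.le
    have ha' : ∑ r ∈ range (p - 1), |v (j * p + (r + 1)) ^ 2 - v (j * p + r) ^ 2| ≤
        ∑ r ∈ range p, |v (j * p + r + 1) ^ 2 - v (j * p + r) ^ 2| :=
      sum_le_sum_of_subset_of_nonneg (range_subset_range.2 (Nat.sub_le _ _))
        fun _ _ _ => abs_nonneg _
    have hx' : ∑ r ∈ range (p - 1), |v (j * p + (r + 1)) * v (j * p + (r + 1) + 1) -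
        v (j * p + r) * v (j * p + r + 1)| ≤ ∑ r ∈ range p,
        |v (j * p + r + 1) * v (j * p + r + 1 + 1) - v (j * p + r) * v (j * p + r + 1)| :=
      sum_le_sum_of_subset_of_nonneg (range_subset_range.2 (Nat.sub_le _ _))
        fun _ _ _ => abs_nonneg _
    have h0 : |(v (j * p + 1) - v (j * p)) * v (j * p)| ≤
        ∑ r ∈ range p, |(v (j * p + r + 1) - v (j * p + r)) * v (j * p + r)| :=
      single_le_sum (f := fun r => |(v (j * p + r + 1) - v (j * p + r)) * v (j * p + r)|)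
        (fun _ _ => abs_nonneg _) (mem_range.2 hp)
    have e : ∑ r ∈ range p, (a (j * p + r) * v (j * p + r) ^ 2 +
        x (j * p + r) * (v (j * p + r) * v (j * p + r + 1))) -
        (∑ r ∈ range p, (a (j * p + r) + x (j * p + r))) * v (j * p) ^ 2 =
        ∑ r ∈ range p, a (j * p + r) * (v (j * p + r) ^ 2 - v (j * p + 0) ^ 2) +
        ∑ r ∈ range p, x (j * p + r) * (v (j * p + r) * v (j * p + r + 1) -
          v (j * p + 0) * v (j * p + 0 + 1)) +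
        (∑ r ∈ range p, x (j * p + r)) * ((v (j * p + 1) - v (j * p)) * v (j * p)) := by
      rw [sum_mul, sum_mul, ← sum_sub_distrib, ← sum_add_distrib, ← sum_add_distrib]
      refine sum_congr rfl fun r _ => ?_
      simp only [add_zero]; ring
    rw [e]
    refine (abs_add_three _ _ _).trans ?_
    rw [abs_mul (∑ r ∈ range p, x (j * p + r))]
    have h5 := mul_le_mul hx2 h0 (abs_nonneg _) hωs
    nlinarith [mul_le_mul_of_nonneg_left ha' hωs, mul_le_mul_of_nonneg_left hx' hωs]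
  refine (mul_le_mul_of_nonneg_left h4 hs.le).trans ?_
  simp only [← mul_sum, sum_add_distrib]
  nlinarith [mul_le_mul_of_nonneg_left h1 hω, mul_le_mul_of_nonneg_left h2 hω,
    mul_le_mul_of_nonneg_left h3 hω]

lemma Sup.cmp_kin (h : Sup ((J + 1) * p) v) (hP : (J + 1) * p ≤ n + 1) (hs : 0 < s)
    (hp : 1 ≤ p) : p * (1 / (p / s ^ 2) ^ 2 *
      ∑ j ∈ range (J + 1), (v ((j + 1) * p) - v (j * p)) ^ 2) ≤ kin n s v := by
  have hp0 : (0 : ℝ) < p := by exact_mod_cast hp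
  rw [h.kin_eq hP, sum_range_mul]
  have h1 : ∑ j ∈ range (J + 1), (v ((j + 1) * p) - v (j * p)) ^ 2 ≤
      p * ∑ j ∈ range (J + 1), ∑ r ∈ range p, (v (j * p + r + 1) - v (j * p + r)) ^ 2 := by
    rw [mul_sum]
    refine sum_le_sum fun j _ => ?_
    have e := sum_range_sub (fun r => v (j * p + r)) p
    simp only [add_zero] at e
    rw [Nat.succ_mul, ← e]
    have := sq_sum_le_card_mul_sum_sq (s := range p) (f := fun r => v (j * p + (r + 1)) - v (j * p + r))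
    rwa [card_range] at this
  have e : (p : ℝ) * (1 / (p / s ^ 2) ^ 2 *
      ∑ j ∈ range (J + 1), (v ((j + 1) * p) - v (j * p)) ^ 2) =
      s ^ 4 * ((∑ j ∈ range (J + 1), (v ((j + 1) * p) - v (j * p)) ^ 2) / p) := by
    field_simp
  rw [e]
  refine mul_le_mul_of_nonneg_left ?_ (by positivity)
  rwa [div_le_iff₀' hp0]

lemma sqrt_upper {y : ℝ} (hs : 0 < s) (hy : y ≤ 2 * s ^ 6) :
    Real.sqrt (s ^ 6 - y) ≤ s ^ 3 - y / (2 * s ^ 3) := by
  have h0 : 0 ≤ s ^ 3 - y / (2 * s ^ 3) := by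
    rw [sub_nonneg, div_le_iff₀ (by positivity)]; nlinarith
  refine Real.sqrt_le_iff.2 ⟨h0, ?_⟩
  have : (s ^ 3 - y / (2 * s ^ 3)) ^ 2 = s ^ 6 - y + (y / (2 * s ^ 3)) ^ 2 := by
    field_simp; ring
  rw [this]; nlinarith [sq_nonneg (y / (2 * s ^ 3))]

lemma sqrt_lower {y : ℝ} (hs : 0 < s) (hy0 : 0 ≤ y) (hy : y ≤ s ^ 6) :
    s ^ 3 - y / (2 * s ^ 3) - y ^ 2 / (2 * s ^ 9) ≤ Real.sqrt (s ^ 6 - y) := by
  refine Real.le_sqrt_of_sq_le ?_
  set t := y / s ^ 6 with ht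
  have ht0 : 0 ≤ t := by positivity
  have ht1 : t ≤ 1 := by rw [ht, div_le_one (by positivity)]; exact hy
  have e1 : s ^ 3 - y / (2 * s ^ 3) - y ^ 2 / (2 * s ^ 9) = s ^ 3 * (1 - t / 2 - t ^ 2 / 2) := by
    rw [ht]; field_simp
  have e2 : s ^ 6 - y = (s ^ 3) ^ 2 * (1 - t) := by rw [ht]; field_simp
  rw [e1, e2, mul_pow]
  refine mul_le_mul_of_nonneg_left ?_ (by positivity)
  have : 0 ≤ t ^ 2 * (3 / 4 - t / 2 - t ^ 2 / 4) :=
    mul_nonneg (sq_nonneg t) (by nlinarith)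
  nlinarith

lemma gam_bound {β : ℕ → ℝ} (hc : Coef n s β) {L : ℝ} (hL1 : 1 ≤ L) {i : ℕ}
    (hi : (i : ℝ) + 2 ≤ 3 * L * s ^ 2) (hn : 3 * L * s ^ 2 ≤ n) :
    (i : ℝ) / (2 * s ^ 2) ≤ s * (s ^ 3 - β i) ∧
      s * (s ^ 3 - β i) ≤ i / (2 * s ^ 2) + (1 + 5 * L ^ 2) / s ^ 2 := by
  have hs := hc.hs
  have hs1 := one_le_of_pow_six hs hc.hn
  rcases Nat.eq_zero_or_pos i with h | h
  · subst h
    rw [hc.b0]; simp; positivity
  have hi0 : (0 : ℝ) ≤ i := Nat.cast_nonneg i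
  have h1 := hc.lo i h
  have h2 := hc.hi i h
  rw [← hc.hn] at h1 h2 hn
  rw [sub_sub] at h1
  have h6 : 0 < s ^ 6 := by positivity
  have h3 := sqrt_upper (y := i) hs (by linarith)
  have h4 := sqrt_lower (y := i + 2) hs (by linarith) (by linarith)
  constructor
  · have : (i : ℝ) / (2 * s ^ 2) = s * (i / (2 * s ^ 3)) := by field_simp
    rw [this]
    exact mul_le_mul_of_nonneg_left (by linarith) hs.le
  · have h5 : s * (s ^ 3 - β i) ≤ s * ((i + 2) / (2 * s ^ 3) + (i + 2) ^ 2 / (2 * s ^ 9)) :=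
      mul_le_mul_of_nonneg_left (by linarith) hs.le
    have e : s * (((i : ℝ) + 2) / (2 * s ^ 3) + (i + 2) ^ 2 / (2 * s ^ 9)) =
        i / (2 * s ^ 2) + (1 + (i + 2) ^ 2 / (2 * s ^ 6)) / s ^ 2 := by field_simp; ring
    refine h5.trans ?_
    rw [e]
    have h7 : ((i : ℝ) + 2) ^ 2 / (2 * s ^ 6) ≤ 5 * L ^ 2 := by
      rw [div_le_iff₀ (by positivity)]
      have h8 : ((i : ℝ) + 2) ^ 2 ≤ (3 * L * s ^ 2) ^ 2 := by gcongr
      have h9 : s ^ 4 ≤ s ^ 6 := pow_le_pow_right₀ hs1 (by norm_num)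
      nlinarith [mul_le_mul_of_nonneg_left h9 (sq_nonneg L), mul_pos (by positivity : 0 < L ^ 2) h6]
    gcongr

lemma Sup.cmp_det (h : Sup P v) (hP : P ≤ n + 1) {β : ℕ → ℝ} (hc : Coef n s β) {L : ℝ}
    (hL1 : 2 ≤ L) (hL : (P : ℝ) ≤ 2 * L * s ^ 2) (hn : 3 * L * s ^ 2 ≤ n) :
    |2 * s ^ 4 * nrm n v - s * ∑ i ∈ range (n + 1), 2 * β i * (v i * v (i + 1)) -
      kin n s v - pot n s v| ≤ (L + 3 + 15 * L ^ 2) / s ^ 2 * (kin n s v + nrm n v) := by
  have hs := hc.hs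
  have hs1 := one_le_of_pow_six hs hc.hn
  have hs2 : 1 ≤ s ^ 2 := one_le_pow₀ hs1
  set e := (1 + 5 * L ^ 2) / s ^ 2 with he
  have he0 : 0 ≤ e := by positivity
  have hg : ∀ i ∈ range P, (i : ℝ) / (2 * s ^ 2) ≤ s * (s ^ 3 - β i) ∧
      s * (s ^ 3 - β i) ≤ i / (2 * s ^ 2) + e := fun i hi => by
    refine gam_bound hc (by linarith) ?_ hn
    have : (i : ℝ) ≤ P := by exact_mod_cast (mem_range.1 hi).le
    nlinarith
  have e1 := h.shift_one
  have e2 := h.shift fun i => (i : ℝ) / s ^ 2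
  have e3 : 2 * s ^ 4 * nrm n v - s * ∑ i ∈ range (n + 1), 2 * β i * (v i * v (i + 1)) -
      kin n s v - pot n s v = ∑ i ∈ range P, (-(s * (s ^ 3 - β i)) * (v (i + 1) - v i) ^ 2 +
        (s * (s ^ 3 - β i) - i / (2 * s ^ 2)) * v i ^ 2 +
        (s * (s ^ 3 - β i) - (i + 1) / (2 * s ^ 2)) * v (i + 1) ^ 2) := by
    rw [sum_trunc hP fun i hi => by simp [h.2 i hi], h.nrm_eq hP, h.kin_eq hP, h.pot_eq hP]
    have e4 : ∀ i : ℕ, -(s * (s ^ 3 - β i)) * (v (i + 1) - v i) ^ 2 +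
        (s * (s ^ 3 - β i) - i / (2 * s ^ 2)) * v i ^ 2 +
        (s * (s ^ 3 - β i) - (i + 1) / (2 * s ^ 2)) * v (i + 1) ^ 2 =
        s ^ 4 * v i ^ 2 + s ^ 4 * v (i + 1) ^ 2 - s * (2 * β i * (v i * v (i + 1))) -
          s ^ 4 * (v (i + 1) - v i) ^ 2 - 1 / 2 * ((i : ℝ) / s ^ 2 * v i ^ 2) -
          1 / 2 * (((i + 1 : ℕ) : ℝ) / s ^ 2 * v (i + 1) ^ 2) := fun i => by
      push_cast; ring
    simp only [e4, sum_add_distrib, sum_sub_distrib, ← mul_sum, e1, e2]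
    ring
  rw [e3]
  have h1 : ∀ i ∈ range P, |-(s * (s ^ 3 - β i)) * (v (i + 1) - v i) ^ 2 +
        (s * (s ^ 3 - β i) - i / (2 * s ^ 2)) * v i ^ 2 +
        (s * (s ^ 3 - β i) - (i + 1) / (2 * s ^ 2)) * v (i + 1) ^ 2| ≤
      (L + e) * (v (i + 1) - v i) ^ 2 + e * v i ^ 2 + e * v (i + 1) ^ 2 := fun i hi => by
    obtain ⟨g1, g2⟩ := hg i hi
    have g0 : (0 : ℝ) ≤ i / (2 * s ^ 2) := by positivity
    have g3 : (i : ℝ) / (2 * s ^ 2) ≤ L := by
      rw [div_le_iff₀ (by positivity)]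
      have : (i : ℝ) ≤ P := by exact_mod_cast (mem_range.1 hi).le
      linarith
    have g4 : ((i : ℝ) + 1) / (2 * s ^ 2) = i / (2 * s ^ 2) + 1 / (2 * s ^ 2) := by ring
    have g5 : 1 / (2 * s ^ 2) ≤ e := by
      rw [he, div_le_div_iff₀ (by positivity) (by positivity)]
      nlinarith [sq_nonneg L, mul_nonneg (sq_nonneg L) (sq_nonneg s)]
    have g6 : 0 ≤ 1 / (2 * s ^ 2) := by positivity
    refine (abs_add_three _ _ _).trans (add_le_add (add_le_add ?_ ?_) ?_) <;>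
      rw [abs_mul, abs_sq] <;>
      refine mul_le_mul_of_nonneg_right (abs_le.2 ⟨?_, ?_⟩) (sq_nonneg _) <;> linarith
  refine ((abs_sum_le_sum_abs _ _).trans (sum_le_sum h1)).trans ?_
  simp only [sum_add_distrib, ← mul_sum, e1]
  rw [h.kin_eq hP, h.nrm_eq hP]
  set K := ∑ i ∈ range P, (v (i + 1) - v i) ^ 2
  set N := ∑ i ∈ range P, v i ^ 2
  have hK : 0 ≤ K := sum_nonneg fun _ _ => sq_nonneg _
  have hN : 0 ≤ N := sum_nonneg fun _ _ => sq_nonneg _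
  have e5 : (L + 3 + 15 * L ^ 2) / s ^ 2 = L / s ^ 2 + 3 * e := by rw [he]; ring
  have h2 : L + e ≤ (L / s ^ 2 + 3 * e) * s ^ 4 := by
    have : (L / s ^ 2 + 3 * e) * s ^ 4 = L * s ^ 2 + 3 * e * (s ^ 2) ^ 2 := by field_simp
    rw [this]
    have h3 : 1 ≤ (s ^ 2) ^ 2 := one_le_pow₀ hs2
    nlinarith [mul_le_mul_of_nonneg_left h3 he0]
  have h4 : 0 ≤ L / s ^ 2 := by positivity
  rw [e5]
  nlinarith [mul_le_mul_of_nonneg_right h2 hK, mul_nonneg h4 hN, mul_nonneg he0 hN]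

/-- the comparison of the two forms, up to the kinetic terms -/
theorem Sup.cmp (h : Sup ((J + 1) * p) v) (hP : (J + 1) * p ≤ n + 1) {β a x : ℕ → ℝ}
    (hc : Coef n s β) (hp : 1 ≤ p) {L ω : ℝ} (hL1 : 2 ≤ L)
    (hL : ((J : ℝ) + 1) * p ≤ 2 * L * s ^ 2) (hn : 3 * L * s ^ 2 ≤ n) (hω : 0 ≤ ω)
    (ho : ∀ j, j ≤ J → osc a p j ≤ ω * s ∧ osc x p j ≤ ω * s) :
    |Qf n s a (bx β x) v - kin n s v -
      p * ∑ j ∈ range (J + 1), (j * (p / s ^ 2) - ext (zblk s a x p J) j) * v (j * p) ^ 2| ≤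
      ((2 * L + 1) * (p / s ^ 2) + 7 * ω + (L + 3 + 15 * L ^ 2) / s ^ 2) *
        (kin n s v + nrm n v) := by
  have h1 := h.cmp_pot hP hc.hs hL
  have h2 := h.cmp_noise hP hc.hs hp hω ho
  have h3 := h.cmp_det hP hc hL1 (by push_cast; exact hL) hn
  have e : ∑ i ∈ range (n + 1), (a i * v i ^ 2 + 2 * bx β x i * (v i * v (i + 1))) =
      ∑ i ∈ range (n + 1), (a i * v i ^ 2 + x i * (v i * v (i + 1))) +
        ∑ i ∈ range (n + 1), 2 * β i * (v i * v (i + 1)) := by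
    rw [← sum_add_distrib]
    exact sum_congr rfl fun i _ => by rw [bx]; ring
  rw [Qf, e]
  simp only [sub_mul, sum_sub_distrib]
  rw [abs_le] at *
  constructor <;> linarith [h1.1, h1.2, h2.1, h2.2, h3.1, h3.2]

end Crest.Agent.T157.Ed.Det

end
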