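import Crest.Agent.T157.SLC_23
import Crest.Agent.T157.EntB_34

/-!
# Row 157: stochastic localisation, variance and entropy (helper23)

The law of `y_s`, bad events, variance / entropy / relative entropy identities, the limit `s → ∞`,
Gronwall lemmas, approximate conservation, entropic stability.
-/

set_option autoImplicit false
set_option linter.unusedSectionVars false

noncomputable section

namespace Crest.Agent.T157.SL

open MeasureTheory ProbabilityTheory Filter Topology Set Real Matrix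
open Crest.Agent.T157.E

variable {Ω ι : Type*} [Fintype Ω] [Fintype ι] [DecidableEq ι] {φ : Ω → ι → ℝ} {v w f g : Ω → ℝ}
  {I : Set ℝ} {G H a : Pt ι → ℝ} {b d : ι → Pt ι → ℝ} {s t : ℝ}

/-! ### the law of `y_s`, events -/

/-- the law of `y_s` -/
def law (φ : Ω → ι → ℝ) (v : Ω → ℝ) (s : ℝ) : Measure (ι → ℝ) :=
  ∑ x, ENNReal.ofReal (prob v x) • (Gs ι).map fun z => s • φ x + √s • z

/-- probability of `y_s ∈ A` given `X = x` -/
def px (φ : Ω → ι → ℝ) (s : ℝ) (A : Set (ι → ℝ)) (x : Ω) : ℝ :=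
  ((Gs ι).map fun z => s • φ x + √s • z).real A

section
variable {K : (ι → ℝ) → ℝ} {A : Set (ι → ℝ)} {F F' : Ω → (ι → ℝ) → ℝ}

theorem isProb_path (u : ι → ℝ) (c : ℝ) : IsProbabilityMeasure ((Gs ι).map fun z => u + c • z) :=
  Measure.isProbabilityMeasure_map (by fun_prop)

theorem isProb_law (hv : Wt v) : IsProbabilityMeasure (law φ v s) := ⟨by
  have := fun x => (isProb_path (s • φ x) √s).measure_univ
  simp only [law, Measure.coe_finsetSum, Finset.sum_apply, Measure.smul_apply, this, smul_eq_mul,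
    mul_one]
  rw [← ENNReal.ofReal_sum_of_nonneg fun x _ => hv.prob_nonneg x, hv.sum_prob, ENNReal.ofReal_one]⟩

theorem int_law (hm : Measurable K) (h : SInt φ s fun _ => K) : Integrable K (law φ v s) :=
  integrable_finsetSum_measure.2 fun x _ => ((integrable_map_measure hm.aestronglyMeasurable
    (by fun_prop)).2 (h x)).smul_measure ENNReal.ofReal_ne_top

theorem MG.int_law (h : MG K) : Integrable K (law φ v s) := SL.int_law h.meas (.of_mg fun _ => h)

theorem integral_law (hv : Wt v) (hm : Measurable K) (h : SInt φ s fun _ => K) :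
    ∫ y, K y ∂law φ v s = slE φ v s fun _ => K := by
  rw [law, integral_finsetSum_measure fun x _ => ((integrable_map_measure hm.aestronglyMeasurable
    (by fun_prop)).2 (h x)).smul_measure ENNReal.ofReal_ne_top]
  refine Finset.sum_congr rfl fun x _ => ?_
  rw [integral_smul_measure, integral_map (by fun_prop) hm.aestronglyMeasurable,
    ENNReal.toReal_ofReal (hv.prob_nonneg x), smul_eq_mul]

theorem ex_eq_integral (hv : Wt v) (h : MG fun y => G (t, y)) :
    ex φ v G t = ∫ y, G (t, y) ∂law φ v t := (integral_law hv h.meas (.of_mg fun _ => h)).symm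

theorem px_nonneg (x : Ω) : 0 ≤ px φ s A x := measureReal_nonneg

theorem px_le_one (x : Ω) : px φ s A x ≤ 1 :=
  haveI := isProb_path (s • φ x) √s; measureReal_le_one

theorem slE_indicator (hA : MeasurableSet A) (k : Ω → ℝ) :
    slE φ v s (fun x => A.indicator fun _ => k x) = mean v fun x => k x * px φ s A x := by
  rw [slE_eq_mean]
  congr 1; ext x
  rw [← integral_map (f := A.indicator fun _ => k x) (by fun_prop)
    (measurable_const.indicator hA).aestronglyMeasurable, integral_indicator_const _ hA, smul_eq_mul,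
    mul_comm, px]

theorem law_real (hv : Wt v) (hA : MeasurableSet A) : (law φ v s).real A = mean v (px φ s A) := by
  rw [← integral_indicator_one hA, integral_law hv (measurable_one.indicator hA)
    (.of_mg fun _ => (MG.const 1).indicator hA)]
  exact (slE_indicator hA fun _ => 1).trans (by simp only [one_mul])

/-- a posterior mean on an event -/
theorem slE_indicator_mean (hw : Wt w) (hs : 0 ≤ s) (hA : MeasurableSet A) (k : Ω → ℝ) :
    slE φ w s (fun _ => A.indicator fun y => mean (post φ w s y) k) =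
      mean w fun x => k x * px φ s A x := by
  rw [← slE_indicator hA, bayes hw hs (.of_mg fun x => (MG.const (k x)).indicator hA)]
  congr 1; ext _ y
  by_cases hy : y ∈ A <;> simp [hy, (hw.post φ s y).mean_const]

theorem mean_px_le_ent (hw : Wt w) (hA : MeasurableSet A) (hf : ∀ x, 0 ≤ f x) {L : ℝ}
    (hL : (law φ w s).real A ≤ exp (-L)) :
    L * mean w (fun x => f x * px φ s A x) ≤ ent w f + log 2 * mean w f := by
  have h1 := Ent.mean_mul_le_theta hw.isP hf (fun x => L * px φ s A x) one_pos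
  simp only [one_mul, div_one, mul_left_comm _ L] at h1
  rw [← mean_const_mul, mul_comm (log 2)]
  refine h1.trans (add_le_add le_rfl (mul_le_mul_of_nonneg_left
    (log_le_log (Ent.mean_exp_pos hw.isP _) ?_) (hw.mean_nonneg hf)))
  refine (hw.mean_mono (g := fun x => 1 + exp L * px φ s A x) fun x => ?_).trans ?_
  · have := convexOn_exp.2 (mem_univ 0) (mem_univ L) (sub_nonneg.2 (px_le_one (φ := φ) (s := s) (A := A) x))
      (px_nonneg x) (sub_add_cancel _ _)
    simp only [smul_eq_mul, mul_zero, zero_add, exp_zero, mul_one] at this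
    rw [mul_comm L, mul_comm (exp L)]
    linarith [px_nonneg (φ := φ) (s := s) (A := A) x]
  · rw [mean_add, hw.mean_const, mean_const_mul, ← law_real hw hA]
    have := mul_le_mul_of_nonneg_left hL (exp_pos L).le
    rw [← exp_add, add_neg_cancel, exp_zero] at this
    linarith

theorem mean_px_le_renyi (hw : Wt w) (hA : MeasurableSet A) (hf : ∀ x, 0 ≤ f x) {q : ℝ} (hq : 1 < q) :
    mean w (fun x => f x * px φ s A x) ≤
      mean w (fun x => f x ^ q) ^ (1 / q) * (law φ w s).real A ^ (1 - 1 / q) := by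
  have hc := HolderConjugate.conjExponent hq
  refine (Ent.holder hw.prob_nonneg hf px_nonneg hc).trans ?_
  rw [law_real hw hA, one_div q, hc.one_sub_inv, one_div]
  refine mul_le_mul_of_nonneg_left (rpow_le_rpow (hw.mean_nonneg fun x => rpow_nonneg (px_nonneg x) _)
    (hw.mean_mono fun x => ?_) (inv_nonneg.2 hc.symm.nonneg))
    (rpow_nonneg (hw.mean_nonneg fun x => rpow_nonneg (hf x) _) _)
  exact rpow_le_self_of_le_one (px_nonneg x) (px_le_one x) hc.symm.lt.le

theorem mean_px_le (hw : Wt w) (hA : MeasurableSet A) {M : ℝ} (hf : ∀ x, f x ≤ M) :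
    mean w (fun x => f x * px φ s A x) ≤ M * (law φ w s).real A := by
  rw [law_real hw hA, ← mean_const_mul]
  exact hw.mean_mono fun x => mul_le_mul_of_nonneg_right (hf x) (px_nonneg x)

theorem law_mul_weight (hw : Wt w) (hf : ∀ x, 0 ≤ f x) (h0 : 0 < mean w f) (hA : MeasurableSet A) :
    (law φ (fun x => w x * f x) s).real A = mean w (fun x => f x * px φ s A x) / mean w f := by
  rw [law_real (hw.mul hf h0) hA, mean_mul_weight _ _ _ hw.pos.ne']

/-- Cauchy–Schwarz -/
theorem slE_mul_sq_le (hv : Wt v) (h : ∀ x, MG (F x)) (h' : ∀ x, MG (F' x)) :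
    slE φ v s (fun x y => F x y * F' x y) ^ 2 ≤
      slE φ v s (fun x y => F x y ^ 2) * slE φ v s fun x y => F' x y ^ 2 := by
  have := discrim_le_zero (a := slE φ v s fun x y => F x y ^ 2)
    (b := 2 * slE φ v s fun x y => F x y * F' x y) (c := slE φ v s fun x y => F' x y ^ 2) fun r => by
    simp only [sq]
    rw [mul_comm _ (r * r), mul_right_comm 2, ← slE_const_mul, ← slE_const_mul, ← slE_add
      (.of_mg fun x => ((h x).mul (h x)).const_mul _) (.of_mg fun x => ((h x).mul (h' x)).const_mul _),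
      ← slE_add (.of_mg fun x => (((h x).mul (h x)).const_mul _).add (((h x).mul (h' x)).const_mul _))
      (.of_mg fun x => (h' x).mul (h' x))]
    exact slE_nonneg hv fun x y => by nlinarith [sq_nonneg (r * F x y + F' x y)]
  rw [discrim] at this
  linarith

end

theorem ex_mul_sq_le (hv : Wt v) (h : MG fun y => G (t, y)) (h' : MG fun y => H (t, y)) :
    ex φ v (fun p => G p * H p) t ^ 2 ≤ ex φ v (fun p => G p ^ 2) t * ex φ v (fun p => H p ^ 2) t :=
  slE_mul_sq_le hv (fun _ => h) fun _ => h'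

theorem ex_sq_le (hv : Wt v) (h : MG fun y => G (t, y)) :
    ex φ v G t ^ 2 ≤ ex φ v (fun p => G p ^ 2) t := by
  simpa [ex_const hv] using ex_mul_sq_le (φ := φ) (H := fun _ => 1) hv h (.const 1)

theorem abs_ex_le (hv : Wt v) (h : MG fun y => G (t, y)) : |ex φ v G t| ≤ ex φ v (fun p => |G p|) t :=
  abs_le.2 ⟨by rw [← ex_neg]; exact ex_mono hv h.abs.neg h fun _ => neg_abs_le _,
    ex_mono hv h h.abs fun _ => le_abs_self _⟩

/-- comparison off a bad event -/
theorem ex_le_of_good (hv : Wt v) {A : Set (ι → ℝ)} (hA : MeasurableSet A) (h : MG fun y => G (t, y))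
    (h' : MG fun y => H (t, y)) (h0 : ∀ y, 0 ≤ H (t, y)) (e : ∀ y ∉ A, G (t, y) ≤ H (t, y)) :
    ex φ v G t ≤ ex φ v H t + slE φ v t fun _ => A.indicator fun y => G (t, y) := by
  rw [ex, ex, ← slE_add (.of_mg fun _ => h') (.of_mg fun _ => h.indicator hA)]
  refine slE_mono hv (.of_mg fun _ => h) (.of_mg fun _ => h'.add (h.indicator hA)) fun _ y => ?_
  by_cases hy : y ∈ A <;> simp [hy, h0, e]

/-! ### the limit `t → ∞` -/

theorem tendsto_prob_post [DecidableEq Ω] (hφ : Function.Injective φ) {x : Ω} (hx : 0 < w x)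
    (z : ι → ℝ) : Tendsto (fun t => prob (post φ w t (t • φ x + √t • z))) atTop (𝓝 (Pi.single x 1)) := by
  have h1 : ∀ x', Tendsto (fun t => w x' * exp (√t * (z ⬝ᵥ (φ x' - φ x)) - t / 2 *
      ((φ x' - φ x) ⬝ᵥ (φ x' - φ x)))) atTop (𝓝 ((Pi.single x (w x) : Ω → ℝ) x')) := fun x' => by
    rcases eq_or_ne x' x with rfl | hx'
    · simp
    have h2 : 0 < (φ x' - φ x) ⬝ᵥ (φ x' - φ x) := by
      simpa using dotProduct_self_star_pos_iff.2 (sub_ne_zero.2 (hφ.ne hx'))
    have h3 := tendsto_sqrt_atTop.atTop_mul_atBot₀ (tendsto_atBot_add_const_left _ (z ⬝ᵥ (φ x' - φ x))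
      (tendsto_sqrt_atTop.atTop_mul_const_of_neg (neg_lt_zero.2 (half_pos h2))))
    rw [Pi.single_eq_of_ne hx', ← mul_zero (w x')]
    refine (tendsto_exp_atBot.comp (h3.congr' ((eventually_ge_atTop 0).mono fun t ht => ?_))).const_mul _
    simp only [mul_add, ← mul_assoc, mul_self_sqrt ht]
    ring
  refine tendsto_pi_nhds.2 fun x' => ?_
  have h4 := (h1 x').div (tendsto_finsetSum Finset.univ fun y _ => h1 y) (by simpa using hx.ne')
  have e : (Pi.single x (w x) : Ω → ℝ) x' / ∑ y, (Pi.single x (w x) : Ω → ℝ) y =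
      (Pi.single x 1 : Ω → ℝ) x' := by
    rcases eq_or_ne x' x with rfl | hx' <;> simp [*, hx.ne']
  rw [e] at h4
  refine h4.congr fun t => ?_
  rw [← prob_smul _ (exp_pos (-((t • φ x + √t • z) ⬝ᵥ φ x - t / 2 * (φ x ⬝ᵥ φ x)))).ne']
  have e2 : ∀ y, post φ w t (t • φ x + √t • z) y * exp (-((t • φ x + √t • z) ⬝ᵥ φ x -
      t / 2 * (φ x ⬝ᵥ φ x))) = w y * exp (√t * (z ⬝ᵥ (φ y - φ x)) - t / 2 *
      ((φ y - φ x) ⬝ᵥ (φ y - φ x))) := fun y => by
    simp only [post, mul_assoc, ← exp_add, add_dotProduct, smul_dotProduct, sub_dotProduct,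
      dotProduct_sub, smul_eq_mul, dotProduct_comm (φ y) (φ x)]
    congr 2; ring
  simp only [prob, e2, Pi.div_apply]

/-- the posterior localises at `X` -/
theorem tendsto_slE [DecidableEq Ω] (hφ : Function.Injective φ) (hw : Wt w)
    (hvw : ∀ x, v x ≠ 0 → 0 < w x) {Φ : Ω → (Ω → ℝ) → ℝ} (hΦ : ∀ x, Continuous (Φ x)) :
    Tendsto (fun t => slE φ v t fun x y => Φ x (prob (post φ w t y))) atTop
      (𝓝 (mean v fun x => Φ x (Pi.single x 1))) := by
  refine tendsto_finsetSum _ fun x _ => ?_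
  by_cases hx : v x = 0
  · simp [prob, hx]
  obtain ⟨C, hC⟩ := (isCompact_Icc (a := (0 : Ω → ℝ)) (b := 1)).exists_bound_of_continuousOn
    (hΦ x).continuousOn
  refine Tendsto.const_mul _ ?_
  simpa using tendsto_integral_filter_of_dominated_convergence (μ := Gs ι) (l := atTop)
    (F := fun t z => Φ x (prob (post φ w t (t • φ x + √t • z)))) (fun _ => C)
    (.of_forall fun t => ((hΦ x).comp (continuous_pi fun y => (cont_prob hw φ y).comp
      (f := fun z : ι → ℝ => (t, t • φ x + √t • z)) (by fun_prop))).aestronglyMeasurable)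
    (.of_forall fun t => .of_forall fun z => hC _
      ⟨(hw.post _ _ _).prob_nonneg, (hw.post _ _ _).prob_le_one⟩) (integrable_const _)
    (.of_forall fun z => ((hΦ x).tendsto _).comp (tendsto_prob_post hφ (hvw x hx) z))

theorem tendsto_ex_cov (hφ : Function.Injective φ) (hw : Wt w) (hvw : ∀ x, v x ≠ 0 → 0 < w x)
    (f g : Ω → ℝ) : Tendsto (ex φ v fun p => cov (pw φ w p) f g) atTop (𝓝 0) := by
  classical
  exact (tendsto_slE hφ hw hvw (Φ := fun _ q =>
    ∑ x, q x * ((f x - ∑ x, q x * f x) * (g x - ∑ x, q x * g x))) fun _ => by fun_prop).mono_right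
    (le_of_eq (by simp [Pi.single_apply, mean]))

theorem tendsto_ex_ent (hφ : Function.Injective φ) (hw : Wt w) (hvw : ∀ x, v x ≠ 0 → 0 < w x)
    (f : Ω → ℝ) : Tendsto (ex φ v fun p => ent (pw φ w p) f) atTop (𝓝 0) := by
  classical
  exact (tendsto_slE hφ hw hvw (Φ := fun _ q =>
    ∑ x, q x * (f x * log (f x)) - (∑ x, q x * f x) * log (∑ x, q x * f x)) fun _ =>
      Continuous.sub (by fun_prop) (continuous_mul_log.comp (by fun_prop))).mono_right
    (le_of_eq (by simp [Pi.single_apply, mean]))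

theorem Wt.pos_of_ne (hw : Wt w) (x : Ω) (hx : w x ≠ 0) : 0 < w x := (hw.nn x).lt_of_ne' hx

/-! ### variance -/

theorem eg_dot {κ : Type*} [Fintype κ] {U V : Pt ι → κ → ℝ} (hU : ∀ k, EG I fun p => U p k)
    (hV : ∀ k, EG I fun p => V p k) : EG I fun p => U p ⬝ᵥ V p := .sum _ fun k _ => (hU k).mul (hV k)

theorem eg_covV_dot (hw : Wt w) (f g : Ω → ℝ) :
    EG I fun p => covV (pw φ w p) f φ ⬝ᵥ covV (pw φ w p) g φ :=
  eg_dot (fun _ => eg_cov hw _ _) fun _ => eg_cov hw _ _

theorem dot_self_nonneg {κ : Type*} [Fintype κ] (u : κ → ℝ) : 0 ≤ u ⬝ᵥ u :=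
  Finset.sum_nonneg fun _ _ => mul_self_nonneg _

theorem hasDerivAt_ex_cov (hw : Wt w) (f g : Ω → ℝ) (ht : 0 < t) :
    HasDerivAt (ex φ w fun p => cov (pw φ w p) f g)
      (-ex φ w (fun p => covV (pw φ w p) f φ ⬝ᵥ covV (pw φ w p) g φ) t) t := by
  rw [← ex_neg]; exact (ito_cov hw f g).hasDerivAt_ex hw ht univ_mem

theorem hasDerivAt_ex_var (hw : Wt w) (f : Ω → ℝ) (ht : 0 < t) :
    HasDerivAt (ex φ w fun p => var (pw φ w p) f)
      (-ex φ w (fun p => covV (pw φ w p) f φ ⬝ᵥ covV (pw φ w p) f φ) t) t := by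
  simpa only [var_eq_cov] using hasDerivAt_ex_cov hw f f ht

theorem ex_cov_sub (hw : Wt w) (f g : Ω → ℝ) (hs : 0 ≤ s) (hst : s ≤ t) :
    ex φ w (fun p => cov (pw φ w p) f g) s = ex φ w (fun p => cov (pw φ w p) f g) t +
      ∫ r in s..t, ex φ w (fun p => covV (pw φ w p) f φ ⬝ᵥ covV (pw φ w p) g φ) r := by
  have := (ito_cov (φ := φ) hw f g).ex_sub' hw hs hst
  simp only [ex_neg, intervalIntegral.integral_neg] at this
  linarith

theorem ex_pw_zero (hv : Wt v) (Φ : (Ω → ℝ) → ℝ) : ex φ v (fun p => Φ (pw φ w p)) 0 = Φ w := by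
  rw [ex_zero hv, pw, post_zero]

theorem cov_decomp (hw : Wt w) (f g : Ω → ℝ) (ht : 0 ≤ t) :
    cov w f g = ex φ w (fun p => cov (pw φ w p) f g) t +
      ∫ r in 0..t, ex φ w (fun p => covV (pw φ w p) f φ ⬝ᵥ covV (pw φ w p) g φ) r := by
  rw [← ex_cov_sub hw f g le_rfl ht, ex_pw_zero hw fun u => cov u f g]

/-- law of total covariance -/
theorem total_cov (hw : Wt w) (f g : Ω → ℝ) (ht : 0 ≤ t) :
    ex φ w (fun p => cov (pw φ w p) f g) t = mean w (fun x => f x * g x) -
      ex φ w (fun p => mean (pw φ w p) f * mean (pw φ w p) g) t := by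
  simp only [(hw.post φ _ _).cov_eq]
  rw [ex_sub ((eg_mean hw _).mg (mem_univ t)) (((eg_mean hw _).mul (eg_mean hw _)).mg (mem_univ t)),
    ex_mean hw ht]

theorem integrableOn_var (hφ : Function.Injective φ) (hw : Wt w) (f : Ω → ℝ) (hs : 0 ≤ s) :
    IntegrableOn (ex φ w fun p => covV (pw φ w p) f φ ⬝ᵥ covV (pw φ w p) f φ) (Ioi s) := by
  simpa using (integrableOn_Ioi_deriv_of_nonpos ((eg_cov hw f f).continuousOn_ex s self_mem_Ici)
    (fun r hr => hasDerivAt_ex_cov hw f f (hs.trans_lt hr))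
    (fun r _ => neg_nonpos.2 (ex_nonneg hw fun _ => dot_self_nonneg _))
    (tendsto_ex_cov hφ hw hw.pos_of_ne f f)).neg

theorem integrableOn_cov (hφ : Function.Injective φ) (hw : Wt w) (f g : Ω → ℝ) (hs : 0 ≤ s) :
    IntegrableOn (ex φ w fun p => covV (pw φ w p) f φ ⬝ᵥ covV (pw φ w p) g φ) (Ioi s) := by
  refine ((integrableOn_var hφ hw f hs).add (integrableOn_var hφ hw g hs)).mono'
    ((eg_covV_dot hw f g).continuousOn_ex.aestronglyMeasurable measurableSet_Ioi) (.of_forall fun r => ?_)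
  have m := fun f g => (eg_covV_dot (φ := φ) hw f g).mg (mem_univ r)
  rw [Pi.add_apply, ← ex_add (m f f) (m g g)]
  refine (abs_ex_le hw (m f g)).trans (ex_mono hw (m f g).abs ((m f f).add (m g g)) fun y => ?_)
  simp only [dotProduct, ← Finset.sum_add_distrib]
  refine (Finset.abs_sum_le_sum_abs _ _).trans (Finset.sum_le_sum fun i _ => abs_le.2 ⟨?_, ?_⟩) <;>
  nlinarith [sq_nonneg (covV (pw φ w (r, y)) f φ i - covV (pw φ w (r, y)) g φ i),
    sq_nonneg (covV (pw φ w (r, y)) f φ i + covV (pw φ w (r, y)) g φ i)]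

/-- `E Cov_s(f,g) = ∫_s^∞ E Cov_r(f,φ)·Cov_r(g,φ) dr` -/
theorem ex_cov_eq_integral (hφ : Function.Injective φ) (hw : Wt w) (f g : Ω → ℝ) (hs : 0 ≤ s) :
    ex φ w (fun p => cov (pw φ w p) f g) s =
      ∫ r in Ioi s, ex φ w (fun p => covV (pw φ w p) f φ ⬝ᵥ covV (pw φ w p) g φ) r := by
  have := integral_Ioi_of_hasDerivAt_of_tendsto ((eg_cov hw f g).continuousOn_ex s self_mem_Ici)
    (fun r hr => hasDerivAt_ex_cov hw f g (hs.trans_lt hr)) (integrableOn_cov hφ hw f g hs).neg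
    (tendsto_ex_cov hφ hw hw.pos_of_ne f g)
  rw [integral_neg] at this
  linarith

/-! ### entropy -/

theorem eg_entD (hI : Bornology.IsBounded I) (hw : Wt w) (hf : ∀ x, 0 ≤ f x) (h0 : 0 < mean w f) :
    EG I fun p => covV (pw φ w p) f φ ⬝ᵥ covV (pw φ w p) f φ / (2 * mean (pw φ w p) f) := by
  simpa only [div_eq_mul_inv, mul_inv] using
    (eg_covV_dot hw f f).mul ((eg_inv_mean hI hw hf h0).const_mul 2⁻¹)

theorem hasDerivAt_ex_ent (hw : Wt w) (hf : ∀ x, 0 ≤ f x) (h0 : 0 < mean w f) (ht : 0 < t) :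
    HasDerivAt (ex φ w fun p => ent (pw φ w p) f) (-ex φ w (fun p =>
      covV (pw φ w p) f φ ⬝ᵥ covV (pw φ w p) f φ / (2 * mean (pw φ w p) f)) t) t := by
  simpa only [neg_div, ex_neg] using (ito_ent (φ := φ) (Metric.isBounded_Ioo 0 (t + 1)) hw hf
    h0).hasDerivAt_ex hw ht (Ioo_mem_nhds ht (lt_add_one t))

theorem ex_ent_sub (hw : Wt w) (hf : ∀ x, 0 ≤ f x) (h0 : 0 < mean w f) (hs : 0 ≤ s) (hst : s ≤ t) :
    ex φ w (fun p => ent (pw φ w p) f) s = ex φ w (fun p => ent (pw φ w p) f) t + ∫ r in s..t,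
      ex φ w (fun p => covV (pw φ w p) f φ ⬝ᵥ covV (pw φ w p) f φ / (2 * mean (pw φ w p) f)) r := by
  have := (ito_ent (φ := φ) (Metric.isBounded_Icc s t) hw hf h0).ex_sub' hw hs hst
  simp only [neg_div, ex_neg, intervalIntegral.integral_neg] at this
  linarith

theorem integrableOn_ent (hφ : Function.Injective φ) (hw : Wt w) (hf : ∀ x, 0 ≤ f x)
    (h0 : 0 < mean w f) (hs : 0 ≤ s) : IntegrableOn (ex φ w fun p =>
      covV (pw φ w p) f φ ⬝ᵥ covV (pw φ w p) f φ / (2 * mean (pw φ w p) f)) (Ioi s) := by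
  simpa using (integrableOn_Ioi_deriv_of_nonpos ((eg_ent hw f).continuousOn_ex s self_mem_Ici)
    (fun r hr => hasDerivAt_ex_ent hw hf h0 (hs.trans_lt hr))
    (fun r _ => neg_nonpos.2 (ex_nonneg hw fun _ => div_nonneg (dot_self_nonneg _)
      (mul_nonneg two_pos.le ((hw.post _ _ _).mean_nonneg hf))))
    (tendsto_ex_ent hφ hw hw.pos_of_ne f)).neg

theorem ex_ent_eq_integral (hφ : Function.Injective φ) (hw : Wt w) (hf : ∀ x, 0 ≤ f x)
    (h0 : 0 < mean w f) (hs : 0 ≤ s) : ex φ w (fun p => ent (pw φ w p) f) s = ∫ r in Ioi s,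
      ex φ w (fun p => covV (pw φ w p) f φ ⬝ᵥ covV (pw φ w p) f φ / (2 * mean (pw φ w p) f)) r := by
  have := integral_Ioi_of_hasDerivAt_of_tendsto ((eg_ent hw f).continuousOn_ex s self_mem_Ici)
    (fun r hr => hasDerivAt_ex_ent hw hf h0 (hs.trans_lt hr)) (integrableOn_ent hφ hw hf h0 hs).neg
    (tendsto_ex_ent hφ hw hw.pos_of_ne f)
  rw [integral_neg] at this
  linarith

/-! ### relative entropy; `v = w f` -/

theorem meanV_mul_sub (hw : Wt w) (h0 : mean w f ≠ 0) (φ : Ω → ι → ℝ) :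
    meanV (fun x => w x * f x) φ - meanV w φ = (mean w f)⁻¹ • covV w f φ := by
  ext i
  simp only [meanV, covV, Pi.sub_apply, Pi.smul_apply, smul_eq_mul, hw.cov_eq,
    mean_mul_weight _ _ _ hw.pos.ne']
  field_simp

theorem kl_mul (hw : Wt w) (h0 : mean w f ≠ 0) : kl (fun x => w x * f x) w = ent w f / mean w f := by
  have e : ∀ x, prob (fun x => w x * f x) x * log (prob (fun x => w x * f x) x / prob w x) =
      prob w x * (f x * log (f x) - f x * log (mean w f)) / mean w f := fun x => by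
    rw [prob_mul_weight _ _ hw.pos.ne']
    rcases eq_or_ne (prob w x) 0 with h1 | h1
    · simp [h1]
    rcases eq_or_ne (f x) 0 with h2 | h2
    · simp [h2]
    rw [show prob w x * f x / mean w f / prob w x = f x / mean w f by field_simp, log_div h2 h0]
    ring
  simp only [kl, e, ← Finset.sum_div, mul_sub, Finset.sum_sub_distrib, ← mul_assoc, ← Finset.sum_mul]
  simp only [mul_assoc]
  rfl

theorem kl_mul' (hw : Wt w) (h0 : mean w f ≠ 0) : kl (fun x => w x * f x) w =
    mean (fun x => w x * f x) (fun x => log (f x)) - log (mean w f) := by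
  rw [kl_mul hw h0, mean_mul_weight _ _ _ hw.pos.ne', ent, sub_div, mul_div_cancel_left₀ _ h0]
  rfl

/-- the difference of the two drifts -/
theorem md_sub (hw : Wt w) (hf : ∀ x, 0 ≤ f x) (h0 : 0 < mean w f) (hv : v = fun x => w x * f x)
    (i : ι) (p : Pt ι) : md φ v i p - md φ w i p = covV (pw φ w p) f φ i / mean (pw φ w p) f := by
  have := congrFun (meanV_mul_sub (hw.post φ p.1 p.2) (hw.mean_post_pos hf h0 φ _ _).ne' φ) i
  rw [hv, md, pw, post_mul, div_eq_inv_mul]
  exact this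

/-- `d H(ν_t | μ_t) = martingale - |m(ν_t) - m(μ_t)|² / 2 dt` along the localisation driven by `ν` -/
theorem ito_kl (hI : Bornology.IsBounded I) (hw : Wt w) (hf : ∀ x, 0 ≤ f x) (h0 : 0 < mean w f)
    (hv : v = fun x => w x * f x) : Ito (md φ v) I (fun p => kl (pw φ v p) (pw φ w p))
      (fun p => -(∑ i, (md φ v i p - md φ w i p) ^ 2) / 2)
      fun i p => covV (pw φ v p) (fun x => log (f x)) φ i - (md φ v i p - md φ w i p) := by
  have h1 := fun p : Pt ι => (hw.mean_post_pos hf h0 φ p.1 p.2).ne'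
  have e : ∀ p : Pt ι, kl (pw φ v p) (pw φ w p) =
      mean (pw φ v p) (fun x => log (f x)) - log (mean (pw φ w p) f) := fun p => by
    rw [hv, pw, post_mul]; exact kl_mul' (hw.post _ _ _) (h1 p)
  simp only [e]
  refine ((ito_mean (hv ▸ hw.mul hf h0) fun x => log (f x)).sub ((ito_mean_gen hw f).log
    (fun p _ => h1 p) (eg_inv_mean hI hw hf h0))).congr (fun p _ => ?_) fun i p _ => ?_
  · have := h1 p
    simp only [md_sub hw hf h0 hv, div_pow, div_mul_eq_mul_div, ← sq, ← Finset.sum_div]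
    field_simp
    ring
  · rw [md_sub hw hf h0 hv]

theorem ex_kl (hw : Wt w) (hf : ∀ x, 0 ≤ f x) (h0 : 0 < mean w f) (hv : v = fun x => w x * f x)
    (ht : 0 ≤ t) : ex φ v (fun p => kl (pw φ v p) (pw φ w p)) t =
      ex φ w (fun p => ent (pw φ w p) f) t / mean w f := by
  have h := (ito_kl (φ := φ) (Metric.isBounded_Icc t t) hw hf h0 hv).eg.mg (left_mem_Icc.2 le_rfl)
  subst hv
  rw [ex_mul_weight hw ht f h]
  refine congrArg (· / _) (ex_congr fun y => ?_)
  have := (hw.mean_post_pos hf h0 φ t y).ne'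
  rw [pw, pw, post_mul, kl_mul (hw.post _ _ _) this, mul_div_cancel₀ _ this]

theorem ex_md_sq (hw : Wt w) (hf : ∀ x, 0 ≤ f x) (h0 : 0 < mean w f) (hv : v = fun x => w x * f x)
    (ht : 0 ≤ t) : ex φ v (fun p => (∑ i, (md φ v i p - md φ w i p) ^ 2) / 2) t = ex φ w (fun p =>
      covV (pw φ w p) f φ ⬝ᵥ covV (pw φ w p) f φ / (2 * mean (pw φ w p) f)) t / mean w f := by
  have h : MG fun y => (∑ i, (md φ v i (t, y) - md φ w i (t, y)) ^ 2) / 2 :=
    ((EG.sum _ fun i _ => ((eg_md (hv ▸ hw.mul hf h0) i).sub (eg_md hw i)).pow 2).div_const 2).mg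
      (mem_univ t)
  simp only [md_sub hw hf h0 hv] at h ⊢
  rw [hv, ex_mul_weight hw ht f h]
  refine congrArg (· / _) (ex_congr fun y => ?_)
  have := (hw.mean_post_pos hf h0 φ t y).ne'
  simp only [div_pow, ← Finset.sum_div, dotProduct, ← sq]
  field_simp

theorem hasDerivAt_ex_kl (hw : Wt w) (hf : ∀ x, 0 ≤ f x) (h0 : 0 < mean w f)
    (hv : v = fun x => w x * f x) (ht : 0 < t) : HasDerivAt (ex φ v fun p => kl (pw φ v p) (pw φ w p))
      (-ex φ v (fun p => (∑ i, (md φ v i p - md φ w i p) ^ 2) / 2) t) t := by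
  simpa only [neg_div, ex_neg] using (ito_kl (φ := φ) (Metric.isBounded_Ioo 0 (t + 1)) hw hf h0
    hv).hasDerivAt_ex (hv ▸ hw.mul hf h0) ht (Ioo_mem_nhds ht (lt_add_one t))

theorem ex_kl_sub (hw : Wt w) (hf : ∀ x, 0 ≤ f x) (h0 : 0 < mean w f) (hv : v = fun x => w x * f x)
    (hs : 0 ≤ s) (hst : s ≤ t) : ex φ v (fun p => kl (pw φ v p) (pw φ w p)) s =
      ex φ v (fun p => kl (pw φ v p) (pw φ w p)) t +
        ∫ r in s..t, ex φ v (fun p => (∑ i, (md φ v i p - md φ w i p) ^ 2) / 2) r := by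
  have := (ito_kl (φ := φ) (Metric.isBounded_Icc s t) hw hf h0 hv).ex_sub' (hv ▸ hw.mul hf h0) hs hst
  simp only [neg_div, ex_neg, intervalIntegral.integral_neg] at this
  linarith

/-- `H(ν|μ) = ½ ∫₀^∞ E_ν |m(ν_r) - m(μ_r)|² dr` -/
theorem kl_eq_integral (hφ : Function.Injective φ) (hw : Wt w) (hf : ∀ x, 0 ≤ f x) (h0 : 0 < mean w f)
    (hv : v = fun x => w x * f x) (hs : 0 ≤ s) : ex φ v (fun p => kl (pw φ v p) (pw φ w p)) s =
      ∫ r in Ioi s, ex φ v (fun p => (∑ i, (md φ v i p - md φ w i p) ^ 2) / 2) r := by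
  rw [ex_kl hw hf h0 hv hs, ex_ent_eq_integral hφ hw hf h0 hs, ← integral_div]
  exact setIntegral_congr_fun measurableSet_Ioi fun r hr =>
    (ex_md_sq hw hf h0 hv (hs.trans (le_of_lt hr))).symm

end Crest.Agent.T157.SL
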