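import Crest.Agent.T157.SpJ_25
import Crest.Agent.T157.SLD_23

/-!
# Row 157, part B (END, helper25): anti-concentration of the field, uniformly over sparse shifts
-/

set_option autoImplicit false
set_option linter.unusedVariables false

noncomputable section

namespace Crest.Agent.T157.Rip

open Matrix Finset MeasureTheory ProbabilityTheory Filter Topology
open Crest.Agent.T157.Eig Crest.Agent.T157.E Crest.Agent.T157.Cond Crest.Agent.T157.SL

variable {n : ℕ}

/-- few small coordinates, after any shift by `J c` with `c` sparse -/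
def AC (J : Matrix (Fin n) (Fin n) ℝ) (d m l : ℝ) (y : Fin n → ℝ) : Prop :=
  ∀ c, Sp d c → ((univ.filter fun j => |y j + (J *ᵥ c) j| < l).card : ℝ) ≤ m

lemma isOpen_not_AC (J : Matrix (Fin n) (Fin n) ℝ) (d m l : ℝ) : IsOpen {y | ¬ AC J d m l y} := by
  have : {y | ¬ AC J d m l y} = ⋃ c, ⋃ _ : Sp d c, ⋃ A : Finset (Fin n), ⋃ _ : m < (A.card : ℝ),
      ⋂ j ∈ A, {y : Fin n → ℝ | |y j + (J *ᵥ c) j| < l} := by
    ext y
    simp only [AC, Set.mem_ofPred_eq, not_forall, not_le, Set.mem_iUnion, Set.mem_iInter]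
    exact ⟨fun ⟨c, h1, h2⟩ => ⟨c, h1, _, h2, fun j hj => (mem_filter.1 hj).2⟩,
      fun ⟨c, h1, A, h2, h3⟩ => ⟨c, h1, h2.trans_le (Nat.cast_le.2 (card_le_card fun j hj =>
        mem_filter.2 ⟨mem_univ _, h3 j hj⟩))⟩⟩
  rw [this]
  exact isOpen_iUnion fun c => isOpen_iUnion fun _ => isOpen_iUnion fun A => isOpen_iUnion fun _ =>
    isOpen_biInter_finset fun j _ => isOpen_lt (by fun_prop) continuous_const

lemma AC.mono {J : Matrix (Fin n) (Fin n) ℝ} {d m l d' m' l' : ℝ} {y : Fin n → ℝ} (h : AC J d m l y)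
    (hd : d' ≤ d) (hm : m ≤ m') (hl : l' ≤ l) : AC J d' m' l' y := fun c ⟨T, a, b⟩ =>
  (Nat.cast_le.2 (card_le_card fun j hj => mem_filter.2
    ⟨mem_univ _, (mem_filter.1 hj).2.trans_le hl⟩)).trans ((h c ⟨T, a.trans hd, b⟩).trans hm)

lemma gv_mapU {ι κ : Type*} [Fintype ι] [Fintype κ] [DecidableEq κ] {U : Matrix κ ι ℝ}
    (hU : U * Uᵀ = 1) : (gv ι).map (fun z => U *ᵥ z) = gv κ := by
  have := ext_vec (μ := gv ι) (ν := gv κ) (X := fun z => U *ᵥ z) (Y := id) (by fun_prop)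
    measurable_id fun t => by
      have e : ∀ z : ι → ℝ, t ⬝ᵥ U *ᵥ z = (Uᵀ *ᵥ t) ⬝ᵥ z := fun z => by
        rw [dotProduct_mulVec, mulVec_transpose]
      simp only [e, id]
      rw [CF_gv, CF_gv, ← e, mulVec_mulVec, hU, one_mulVec]
  rwa [Measure.map_id] at this

lemma exists_U {κ : Type*} [Fintype κ] (f : κ → Fin n → ℝ) : ∃ m, n ≤ m + Fintype.card κ ∧
    ∃ U : Matrix (Fin m) (Fin n) ℝ, U * Uᵀ = 1 ∧ ∀ k, U *ᵥ f k = 0 := by
  classical
  set K : Submodule ℝ (EuclideanSpace ℝ (Fin n)) :=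
    Submodule.span ℝ (Set.range fun k => WithLp.toLp 2 (f k)) with hK
  set b := stdOrthonormalBasis ℝ Kᗮ
  have h1 := K.finrank_add_finrank_orthogonal
  have h2 : Module.finrank ℝ K ≤ Fintype.card κ := finrank_range_le_card _
  rw [finrank_euclideanSpace_fin] at h1
  refine ⟨Module.finrank ℝ Kᗮ, by omega, of fun i j => (b i).1 j, ?_, fun k => funext fun i => ?_⟩
  · ext i i'
    have := orthonormal_iff_ite.1 b.orthonormal i' i
    rw [Submodule.coe_inner, PiLp.inner_apply] at this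
    rw [mul_apply, one_apply, ← if_congr (eq_comm (a := i')) rfl rfl, ← this]
    exact sum_congr rfl fun j _ => rfl
  · have := (Submodule.mem_orthogonal _ _).1 (b i).2 _ (Submodule.subset_span ⟨k, rfl⟩)
    rw [PiLp.inner_apply] at this
    exact this

lemma int_exp_sq (a : ℝ) {r : ℝ} (hr : 0 < r) :
    ∫ x, Real.exp (-((x + a) / r) ^ 2) ∂gaussianReal 0 1 ≤ r := by
  rw [integral_gaussianReal_eq_integral_smul one_ne_zero]
  have e : ∀ x : ℝ, -((x + a) / r) ^ 2 = -(1 / r ^ 2) * (x + a) ^ 2 := fun x => by ring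
  have hi := (integrable_exp_neg_mul_sq (show 0 < 1 / r ^ 2 by positivity)).comp_add_right a
  have p2 : (0 : ℝ) < √Real.pi := Real.sqrt_pos.2 Real.pi_pos
  calc _ ≤ ∫ x, (√Real.pi)⁻¹ * Real.exp (-(1 / r ^ 2) * (x + a) ^ 2) := by
        refine integral_mono_of_nonneg (ae_of_all _ fun x => mul_nonneg (gaussianPDFReal_nonneg _ _ _)
          (Real.exp_pos _).le) (hi.const_mul _) (ae_of_all _ fun x => ?_)
        simp only [e, smul_eq_mul]
        refine mul_le_mul_of_nonneg_right ?_ (Real.exp_pos _).le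
        refine (mul_le_of_le_one_right (by positivity) (Real.exp_le_one_iff.2 (div_nonpos_of_nonpos_of_nonneg
          (neg_nonpos.2 (sq_nonneg _)) (by positivity)))).trans (inv_anti₀ p2 (Real.sqrt_le_sqrt ?_))
        simp only [NNReal.coe_one]
        linarith [Real.pi_pos]
    _ = r := by
        rw [integral_const_mul, integral_add_right_eq_self (fun x => Real.exp (-(1 / r ^ 2) * x ^ 2)) a,
          integral_gaussian, div_div_eq_mul_div, div_one, Real.sqrt_mul Real.pi_pos.le,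
          Real.sqrt_sq hr.le]
        field_simp

/-- small ball -/
lemma small_ball {κ : Type*} [Fintype κ] (a : κ → ℝ) {r : ℝ} (hr : 0 < r) (t : ℝ) :
    (gv κ).real {x | (x + a) ⬝ᵥ (x + a) ≤ r ^ 2 * t} ≤ Real.exp t * r ^ Fintype.card κ := by
  have hi : Integrable (fun x : κ → ℝ => ∏ i, Real.exp (-((x i + a i) / r) ^ 2)) (gv κ) :=
    (integrable_const (1 : ℝ)).mono' (Continuous.aestronglyMeasurable (by fun_prop)) (ae_of_all _ fun x => by
      rw [Real.norm_of_nonneg (by positivity)]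
      exact prod_le_one (fun _ _ => (Real.exp_pos _).le) fun _ _ =>
        Real.exp_le_one_iff.2 (neg_nonpos.2 (sq_nonneg _)))
  have h := mul_meas_ge_le_integral_of_nonneg (ae_of_all _ fun x => by positivity) hi (Real.exp (-t))
  rw [integral_fintype_prod_eq_prod (fun i x => Real.exp (-((x + a i) / r) ^ 2))] at h
  have h2 := h.trans (prod_le_prod (fun i _ => integral_nonneg fun x => (Real.exp_pos _).le)
    fun i _ => int_exp_sq (a i) hr)
  rw [prod_const, card_univ, ← le_div_iff₀' (Real.exp_pos _), div_eq_inv_mul, ← Real.exp_neg,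
    neg_neg] at h2
  refine le_trans (measureReal_mono fun x hx => ?_) h2
  simp only [Set.mem_ofPred_eq, ← Real.exp_sum, Real.exp_le_exp, sum_neg_distrib, div_pow,
    ← sum_div, neg_le_neg_iff] at hx ⊢
  rw [div_le_iff₀' (by positivity)]
  simpa [dotProduct, sq] using hx

lemma ball_SA (J : Matrix (Fin n) (Fin n) ℝ) (S A : Finset (Fin n)) (a : Fin n → ℝ) {σ r : ℝ}
    (hσ : 0 < σ) (hr : 0 < r) (r1 : r ≤ 1) : ((gv (Fin n)).map fun z => a + σ • z).real
      {y | ∃ c : Fin n → ℝ, (∀ i ∉ S, c i = 0) ∧ ∀ j ∈ A, |y j + (J *ᵥ c) j| < r * σ} ≤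
      Real.exp A.card * r ^ (A.card - S.card) := by
  obtain ⟨m, hm, U, hU, h0⟩ := exists_U (κ := S ⊕ (Aᶜ : Finset (Fin n)))
    (Sum.elim (fun k j => J j k) fun j => Pi.single j.1 1)
  have hp := Measure.isProbabilityMeasure_map (μ := gv (Fin n)) (f := fun z => a + σ • z) (by fun_prop)
  rw [Fintype.card_sum, Fintype.card_coe, Fintype.card_coe, card_compl, Fintype.card_fin] at hm
  have hA : A.card ≤ n := by simpa using card_le_univ A
  refine (measureReal_mono (s₂ := {y | (U *ᵥ y) ⬝ᵥ (U *ᵥ y) ≤ (r * σ) ^ 2 * A.card})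
    ?_).trans ?_
  · rintro y ⟨c, c1, c2⟩
    have e1 : U *ᵥ (J *ᵥ c) = 0 := by
      rw [mulVec_mulVec]
      funext i
      change ∑ k, (U * J) i k * c k = 0
      refine sum_eq_zero fun k _ => ?_
      by_cases hk : k ∈ S
      · exact mul_eq_zero_of_left (congrFun (h0 (.inl ⟨k, hk⟩)) i) _
      · exact mul_eq_zero_of_right _ (c1 k hk)
    have e2 : U *ᵥ y = U *ᵥ res A (y + J *ᵥ c) := by
      rw [← add_zero (U *ᵥ y), ← e1, ← mulVec_add]
      funext i
      change ∑ j, U i j * _ = ∑ j, U i j * _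
      refine sum_congr rfl fun j _ => ?_
      by_cases hj : j ∈ A
      · rw [res, if_pos hj]
      · have := congrFun (h0 (.inr ⟨j, mem_compl.2 hj⟩)) i
        simp only [Sum.elim_inr, mulVec_single_one] at this
        rw [show U i j = 0 from this, zero_mul, zero_mul]
    set w := res A (y + J *ᵥ c) with hw
    have e3 : w ⬝ᵥ w ≤ (r * σ) ^ 2 * A.card := by
      rw [mul_comm, ← nsmul_eq_mul, ← sum_const, dotProduct, ← sum_subset (subset_univ A) fun j _ hj => by
        simp [hw, res, hj]]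
      refine sum_le_sum fun j hj => ?_
      rw [hw, res, if_pos hj, ← sq]
      exact (sq_le_sq' (abs_lt.1 (c2 j hj)).1.le (abs_lt.1 (c2 j hj)).2.le)
    have e4 : (Uᵀ *ᵥ (U *ᵥ w)) ⬝ᵥ w = (U *ᵥ w) ⬝ᵥ (U *ᵥ w) := by
      rw [mulVec_transpose, ← dotProduct_mulVec]
    have e5 : (Uᵀ *ᵥ (U *ᵥ w)) ⬝ᵥ (Uᵀ *ᵥ (U *ᵥ w)) = (U *ᵥ w) ⬝ᵥ (U *ᵥ w) := by
      nth_rewrite 1 [mulVec_transpose]
      rw [← dotProduct_mulVec, mulVec_mulVec, hU, one_mulVec]
    have e6 := Eig.dot_self_nonneg (w - Uᵀ *ᵥ (U *ᵥ w))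
    rw [sub_dotProduct, dotProduct_sub, dotProduct_sub, e5, dotProduct_comm w (Uᵀ *ᵥ _), e4] at e6
    rw [Set.mem_ofPred_eq, e2]
    linarith
  rw [map_measureReal_apply (by fun_prop) (measurableSet_le (by fun_prop) measurable_const)]
  have h1 := small_ball (σ⁻¹ • U *ᵥ a) hr (A.card : ℝ)
  rw [← gv_mapU hU, map_measureReal_apply (by fun_prop) (measurableSet_le (by fun_prop)
    measurable_const), Fintype.card_fin] at h1
  refine le_trans (measureReal_mono fun z hz => ?_) (h1.trans (mul_le_mul_of_nonneg_left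
    (pow_le_pow_of_le_one hr.le r1 (by omega)) (Real.exp_pos _).le))
  have e : U *ᵥ (a + σ • z) = σ • (U *ᵥ z + σ⁻¹ • U *ᵥ a) := by
    rw [mulVec_add, mulVec_smul, smul_add, smul_smul, mul_inv_cancel₀ hσ.ne', one_smul, add_comm]
  simp only [Set.mem_preimage, Set.mem_ofPred_eq, e, smul_dotProduct, dotProduct_smul,
    smul_eq_mul] at hz ⊢
  refine le_of_mul_le_mul_left ?_ (show 0 < σ * σ by positivity)
  linarith

lemma ac_num {ε : ℝ} (hε : 0 < ε) :
    Real.exp 1 * (ε ^ 2 / 100) / ε ≤ Real.exp (-(3 + Real.log (1 / ε))) := by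
  have e4 : Real.exp 4 ≤ 100 := by
    have := pow_le_pow_left₀ (Real.exp_pos 1).le (Real.exp_one_lt_d9.le.trans
      (show (2.7182818286 : ℝ) ≤ 3 by norm_num)) 4
    rw [← Real.exp_nat_mul] at this
    norm_num at this
    linarith
  rw [neg_add, Real.exp_add, ← Real.log_inv, Real.exp_log (by positivity), one_div, inv_inv,
    Real.exp_neg, show Real.exp 1 * (ε ^ 2 / 100) / ε = Real.exp 1 / 100 * ε by field_simp]
  refine mul_le_mul_of_nonneg_right ?_ hε.le
  rw [div_le_iff₀ (by norm_num), le_inv_mul_iff₀ (Real.exp_pos _), ← Real.exp_add]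
  norm_num [e4]

lemma ball_S (J : Matrix (Fin n) (Fin n) ℝ) (a : Fin n → ℝ) {σ ε : ℝ} (hσ : 0 < σ) (hε : 0 < ε)
    (ε1 : ε ≤ 1) {S : Finset (Fin n)} (hS : (S.card : ℝ) ≤ ε * n / 2) :
    ∑ A ∈ univ.filter fun A : Finset (Fin n) => ε * n ≤ (A.card : ℝ),
      ((gv (Fin n)).map fun z => a + σ • z).real {y | ∃ c : Fin n → ℝ, (∀ i ∉ S, c i = 0) ∧
        ∀ j ∈ A, |y j + (J *ᵥ c) j| < (ε ^ 2 / 100) ^ 2 * σ} ≤
      Real.exp (-(ε * n * (2 + Real.log (1 / ε)))) := by
  have hq := ac_num hε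
  have L0 : 0 ≤ Real.log (1 / ε) := Real.log_nonneg (one_le_one_div hε ε1)
  have u1 : ε ^ 2 / 100 ≤ 1 := by nlinarith
  have u0 : 0 < ε ^ 2 / 100 := by positivity
  generalize Real.log (1 / ε) = L at *
  generalize ε ^ 2 / 100 = u at *
  refine (sum_le_sum (g := fun A => Real.exp (-(ε * n * (3 + L))) * ε ^ A.card) fun A hA =>
    (ball_SA J S A a hσ (pow_pos u0 2) (pow_le_one₀ u0.le u1)).trans ?_).trans ?_
  · have a1 := (mem_filter.1 hA).2
    have a2 : 2 * S.card ≤ A.card := by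
      have : (2 : ℝ) * S.card ≤ A.card := by linarith
      exact_mod_cast this
    calc _ ≤ Real.exp A.card * u ^ A.card := by
          rw [← pow_mul]
          exact mul_le_mul_of_nonneg_left (pow_le_pow_of_le_one u0.le u1 (by omega)) (Real.exp_pos _).le
      _ = (Real.exp 1 * u / ε) ^ A.card * ε ^ A.card := by
          rw [← mul_pow, div_mul_cancel₀ _ hε.ne', mul_pow, ← Real.exp_nat_mul, mul_one]
      _ ≤ _ := by
          refine mul_le_mul_of_nonneg_right ((pow_le_pow_left₀ (by positivity) hq _).trans ?_)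
            (by positivity)
          rw [← Real.exp_nat_mul, Real.exp_le_exp]
          nlinarith
  · rw [← mul_sum]
    have h1 := sum_small (ι := Fin n) (m := n) hε le_rfl
    rw [div_self hε.ne', Real.log_one, mul_zero, add_zero, Fintype.card_fin] at h1
    refine (mul_le_mul_of_nonneg_left ((sum_le_sum_of_subset_of_nonneg (fun A _ => mem_filter.2
      ⟨mem_univ _, Nat.cast_le.2 (by simpa using card_le_univ A)⟩) fun _ _ _ =>
        pow_nonneg hε.le _).trans h1) (Real.exp_pos _).le).trans ?_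
    rw [← Real.exp_add]
    exact Real.exp_le_exp.2 (le_of_eq (by ring))

/-- **anti-concentration**: any matrix, any mean -/
theorem ac_tail (J : Matrix (Fin n) (Fin n) ℝ) (a : Fin n → ℝ) {σ ε : ℝ} (hσ : 0 < σ) (hε : 0 < ε)
    (ε1 : ε ≤ 1) : ((gv (Fin n)).map fun z => a + σ • z).real
      {y | ¬ AC J (ε * n / 2) (ε * n) (ε ^ 4 / 10000 * σ) y} ≤ Real.exp (-ε * n) := by
  have hp := Measure.isProbabilityMeasure_map (μ := gv (Fin n)) (f := fun z => a + σ • z) (by fun_prop)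
  have n0 : (0 : ℝ) ≤ n := Nat.cast_nonneg n
  have hsub : {y | ¬ AC J (ε * n / 2) (ε * n) (ε ^ 4 / 10000 * σ) y} ⊆
    ⋃ S ∈ univ.filter fun S : Finset (Fin n) => (S.card : ℝ) ≤ ε * n / 2,
    ⋃ A ∈ univ.filter fun A : Finset (Fin n) => ε * n ≤ (A.card : ℝ), {y | ∃ c : Fin n → ℝ,
      (∀ i ∉ S, c i = 0) ∧ ∀ j ∈ A, |y j + (J *ᵥ c) j| < (ε ^ 2 / 100) ^ 2 * σ} := by
    intro y hy
    simp only [AC, Set.mem_ofPred_eq, not_forall, not_le] at hy
    obtain ⟨c, ⟨S, s1, s2⟩, h2⟩ := hy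
    have e : ε ^ 4 / 10000 * σ = (ε ^ 2 / 100) ^ 2 * σ := by ring
    rw [e] at h2
    simp only [Set.mem_iUnion]
    exact ⟨S, mem_filter.2 ⟨mem_univ _, s1⟩, _, mem_filter.2 ⟨mem_univ _, h2.le⟩, c, s2,
      fun j hj => (mem_filter.1 hj).2⟩
  refine (measureReal_mono hsub (measure_ne_top _ _)).trans
    ((measureReal_biUnion_finset_le _ _).trans ?_)
  have L0 : 0 ≤ Real.log (1 / ε) := Real.log_nonneg (one_le_one_div hε ε1)
  refine (sum_le_sum fun S hS => (measureReal_biUnion_finset_le _ _).trans (ball_S J a hσ hε ε1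
      (mem_filter.1 hS).2)).trans ?_
  have h1 := sum_small (ι := Fin n) (m := ε * n / 2) hε ε1
  simp only [one_pow, sum_const, nsmul_eq_mul, mul_one, Fintype.card_fin] at h1
  rw [sum_const, nsmul_eq_mul]
  refine (mul_le_mul_of_nonneg_right h1 (Real.exp_pos _).le).trans ?_
  rw [← Real.exp_add, Real.exp_le_exp]
  have h2 := mul_nonneg (mul_nonneg hε.le n0) L0
  linarith

lemma law_le {Ω ι : Type*} [Fintype Ω] [Fintype ι] [DecidableEq ι] {φ : Ω → ι → ℝ} {v : Ω → ℝ} (hv : Wt v) {s c : ℝ}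
    {A : Set (ι → ℝ)} (hA : MeasurableSet A) (h : ∀ x, px φ s A x ≤ c) : (law φ v s).real A ≤ c := by
  rw [law_real hv hA]; exact hv.mean_le h

/-- **AC along the localisation**: deterministic in `J`, any weight, any features -/
theorem ac_law {Ω : Type*} [Fintype Ω] (φ : Ω → Fin n → ℝ) {v : Ω → ℝ} (hv : Wt v)
    (J : Matrix (Fin n) (Fin n) ℝ) {s ε l : ℝ} (hs : 0 < s) (hε : 0 < ε) (ε1 : ε ≤ 1)
    (hl : l ≤ ε ^ 4 / 10000 * √s) :
    (law φ v s).real {y | ¬ AC J (ε * n / 2) (ε * n) l y} ≤ Real.exp (-ε * n) := by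
  have := isProb_law (φ := φ) (s := s) hv
  refine le_trans (measureReal_mono ?_) (law_le hv (isOpen_not_AC _ _ _ _).measurableSet fun x =>
      ac_tail J _ (Real.sqrt_pos.2 hs) hε ε1)
  exact fun y hy h => hy (AC.mono h le_rfl le_rfl hl)

end Crest.Agent.T157.Rip

end
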