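import Crest.Agent.T157.UwA_98

/-!
# Row 157, part B (helper25): restricted isometry for Wick words, deterministic part
-/

set_option autoImplicit false
set_option maxHeartbeats 400000
set_option linter.unusedSectionVars false
set_option linter.unusedVariables false

noncomputable section

namespace Crest.Agent.T157.Rip

open Matrix Finset
open Crest.Agent.T157.Eig Crest.Agent.T157.Uw

variable {ι : Type*} [Fintype ι] [DecidableEq ι]

/-- supported on at most `m` sites -/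
def Sp (m : ℝ) (v : ι → ℝ) : Prop := ∃ T : Finset ι, (T.card : ℝ) ≤ m ∧ ∀ i ∉ T, v i = 0

/-- the restriction of `x` to any `m` sites has norm at most `ε` -/
def Fl (m ε : ℝ) (x : ι → ℝ) : Prop := ∀ v, Sp m v → |v ⬝ᵥ x| ≤ ε * nrm v

/-- uniformly `δ`-close off at most `m` sites -/
def Near (m δ : ℝ) (a a' : ι → ℝ) : Prop :=
  ∃ T : Finset ι, (T.card : ℝ) ≤ m ∧ ∀ i ∉ T, |a' i - a i| ≤ δ

/-- all letters belong to `A` -/
def In (A : Set (ι → ℝ)) (l : List (ι → ℝ)) : Prop := ∀ a ∈ l, a ∈ A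

/-- **restricted isometry**: Wick words with at most `k` letters from `A` map sparse vectors and
the vectors of `F` to flat vectors -/
structure RIP (s : ℝ) (J : Matrix ι ι ℝ) (A F : Set (ι → ℝ)) (k : ℕ) (m ε : ℝ) : Prop where
  sp : ∀ l, l.length ≤ k → In A l → ∀ u, Sp m u → Fl m (ε * nrm u) (Wk s J l *ᵥ u)
  fl : ∀ l, l.length ≤ k → In A l → ∀ f ∈ F, Fl m ε (Wk s J l *ᵥ f)

variable {s R m m' ε ε' δ : ℝ} {J J' : Matrix ι ι ℝ} {A A' F F' : Set (ι → ℝ)} {k k' : ℕ}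
  {u v x y : ι → ℝ}

lemma Sp.mono (h : Sp m v) (hm : m ≤ m') : Sp m' v :=
  let ⟨T, h1, h2⟩ := h; ⟨T, h1.trans hm, h2⟩

lemma Sp.smul (h : Sp m v) (c : ℝ) : Sp m (c • v) :=
  let ⟨T, h1, h2⟩ := h; ⟨T, h1, fun i hi => by simp [h2 i hi]⟩

lemma Sp.neg (h : Sp m v) : Sp m (-v) :=
  let ⟨T, h1, h2⟩ := h; ⟨T, h1, fun i hi => by simp [h2 i hi]⟩

lemma Sp.mul_left (h : Sp m v) (a : ι → ℝ) : Sp m (a * v) :=
  let ⟨T, h1, h2⟩ := h; ⟨T, h1, fun i hi => by simp [h2 i hi]⟩

lemma Sp.mul_right (h : Sp m v) (a : ι → ℝ) : Sp m (v * a) := by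
  rw [mul_comm]; exact h.mul_left a

lemma Sp.add (h : Sp m u) (h' : Sp m' v) : Sp (m + m') (u + v) := by
  obtain ⟨T, h1, h2⟩ := h
  obtain ⟨T', h1', h2'⟩ := h'
  refine ⟨T ∪ T', ?_, fun i hi => ?_⟩
  · have : ((T ∪ T').card : ℝ) ≤ T.card + T'.card := by exact_mod_cast card_union_le T T'
    linarith
  · rw [mem_union, not_or] at hi
    simp [h2 i hi.1, h2' i hi.2]

lemma Fl.mono (h : Fl m ε x) (hm : m' ≤ m) (he : ε ≤ ε') : Fl m' ε' x := fun v hv =>
  (h v (hv.mono hm)).trans (mul_le_mul_of_nonneg_right he (nrm_nonneg _))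

lemma Fl.add (h : Fl m ε x) (h' : Fl m ε' y) : Fl m (ε + ε') (x + y) := fun v hv => by
  rw [dotProduct_add, add_mul]
  exact (abs_add_le _ _).trans (add_le_add (h v hv) (h' v hv))

lemma Fl.neg (h : Fl m ε x) : Fl m ε (-x) := fun v hv => by
  rw [dotProduct_neg, abs_neg]; exact h v hv

lemma Fl.sub (h : Fl m ε x) (h' : Fl m ε' y) : Fl m (ε + ε') (x - y) := by
  rw [sub_eq_add_neg]; exact h.add h'.neg

lemma Fl.smul (h : Fl m ε x) {c C : ℝ} (hc : |c| ≤ C) (he : 0 ≤ ε) : Fl m (C * ε) (c • x) :=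
  fun v hv => by
    rw [dotProduct_smul, smul_eq_mul, abs_mul, mul_assoc]
    exact mul_le_mul hc (h v hv) (abs_nonneg _) ((abs_nonneg _).trans hc)

lemma fl_of_nrm (h : nrm x ≤ ε) : Fl m ε x := fun v _ => by
  rw [mul_comm]
  exact (abs_dot_le v x).trans (mul_le_mul_of_nonneg_left h (nrm_nonneg _))

lemma fl_zero : Fl m 0 (0 : ι → ℝ) := fl_of_nrm (by simp)

lemma Fl.sum {σ : Type*} (t : Finset σ) {z : σ → ι → ℝ} (h : ∀ q ∈ t, Fl m ε (z q)) :
    Fl m (t.card * ε) (∑ q ∈ t, z q) := fun v hv => by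
  rw [dotProduct_sum, mul_assoc, ← nsmul_eq_mul]
  exact (abs_sum_le_sum_abs _ _).trans (sum_le_card_nsmul _ _ _ fun q hq => h q hq v hv)

lemma nrm_mul_le {a : ι → ℝ} {c : ℝ} (hc : 0 ≤ c) (ha : ∀ i, |a i| ≤ c) (v : ι → ℝ) :
    nrm (a * v) ≤ c * nrm v := by
  have := nrm_mulVec_le (diagonal a) v
  rw [show diagonal a *ᵥ v = a * v from funext fun i => by simp [mulVec_diagonal]] at this
  exact this.trans (mul_le_mul_of_nonneg_right (opn_diagonal_le hc ha) (nrm_nonneg _))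

lemma Fl.mul_left (h : Fl m ε x) (he : 0 ≤ ε) {a : ι → ℝ} (ha : ∀ i, |a i| ≤ 1) :
    Fl m ε (a * x) := fun v hv => by
  have e : v ⬝ᵥ (a * x) = (a * v) ⬝ᵥ x := by
    simp only [dotProduct, Pi.mul_apply]
    exact sum_congr rfl fun i _ => by ring
  rw [e]
  refine (h _ (hv.mul_left a)).trans (mul_le_mul_of_nonneg_left ?_ he)
  simpa using nrm_mul_le zero_le_one ha v

/-- a bounded vector is flat -/
lemma fl_of_sup {c : ℝ} (hc : 0 ≤ c) (h : ∀ i, |x i| ≤ c) : Fl m (c * √m) x := fun v hv => by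
  obtain ⟨T, h1, h2⟩ := hv
  set z : ι → ℝ := fun i => if i ∈ T then x i else 0 with hz
  have e : v ⬝ᵥ x = v ⬝ᵥ z := sum_congr rfl fun i _ => by
    by_cases hi : i ∈ T
    · simp [hz, hi]
    · simp [hz, hi, h2 i hi]
  have hn : nrm z ≤ c * √m := by
    have m0 : 0 ≤ m := (Nat.cast_nonneg _).trans h1
    rw [nrm_le_iff (by positivity), mul_pow, Real.sq_sqrt m0]
    have : z ⬝ᵥ z = ∑ i ∈ T, x i * x i := by
      simp only [dotProduct, hz, ite_mul, zero_mul, mul_ite, mul_zero]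
      rw [← sum_filter]
      exact sum_congr (by ext i; simp) fun i hi => by simp [hi]
    rw [this]
    refine (sum_le_card_nsmul _ _ (c ^ 2) fun i _ => ?_).trans ?_
    · rw [← sq, ← sq_abs]; exact pow_le_pow_left₀ (abs_nonneg _) (h i) 2
    · rw [nsmul_eq_mul, mul_comm]; exact mul_le_mul_of_nonneg_left h1 (sq_nonneg _)
  rw [e]
  exact fl_of_nrm hn v ⟨T, h1, h2⟩

/-- **typ + dev**: a flat vector is uniformly small up to a vector of small norm -/
theorem Fl.split (h : Fl m ε x) (he : 0 ≤ ε) {η : ℝ} (hη : 0 < η) (hx : x ⬝ᵥ x ≤ m * η ^ 2) :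
    ∃ z : ι → ℝ, Sp m z ∧ nrm z ≤ ε ∧ ∀ i, |x i - z i| ≤ η := by
  set T := univ.filter fun i => η < |x i| with hT
  set z : ι → ℝ := fun i => if i ∈ T then x i else 0 with hz
  have h1 : (T.card : ℝ) * η ^ 2 ≤ x ⬝ᵥ x := by
    rw [← nsmul_eq_mul]
    refine (card_nsmul_le_sum T (fun i => x i * x i) _ fun i hi => ?_).trans
      (sum_le_sum_of_subset_of_nonneg (subset_univ _) fun i _ _ => mul_self_nonneg _)
    rw [← sq, ← sq_abs (x i)]
    exact pow_le_pow_left₀ hη.le (mem_filter.1 hi).2.le 2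
  have hs : Sp m z := ⟨T, le_of_mul_le_mul_right (h1.trans hx) (by positivity),
    fun i hi => by simp [hz, hi]⟩
  refine ⟨z, hs, ?_, fun i => ?_⟩
  · have e : z ⬝ᵥ x = z ⬝ᵥ z := sum_congr rfl fun i _ => by
      by_cases hi : i ∈ T <;> simp [hz, hi]
    have h2 := (le_abs_self _).trans (h z hs)
    rw [e, ← nrm_mul_self] at h2
    rcases (nrm_nonneg z).eq_or_lt with h0 | h0
    · rw [← h0]; exact he
    · exact le_of_mul_le_mul_right h2 h0
  · by_cases hi : i ∈ T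
    · simp [hz, hi, hη.le]
    · simp only [hz, hi, if_false, sub_zero]
      simpa [hT] using hi

/-- closeness in `ℓ²` gives closeness off a small set -/
lemma near_of_sq {a a' : ι → ℝ} (hδ : 0 < δ) (h : (a' - a) ⬝ᵥ (a' - a) ≤ m * δ ^ 2) :
    Near m δ a a' := by
  set T := univ.filter fun i => δ < |a' i - a i| with hT
  have h1 : (T.card : ℝ) * δ ^ 2 ≤ (a' - a) ⬝ᵥ (a' - a) := by
    rw [← nsmul_eq_mul]
    refine (card_nsmul_le_sum T (fun i => (a' - a) i * (a' - a) i) _ fun i hi => ?_).trans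
      (sum_le_sum_of_subset_of_nonneg (subset_univ _) fun i _ _ => mul_self_nonneg _)
    rw [← sq, ← sq_abs ((a' - a) i)]
    exact pow_le_pow_left₀ hδ.le (mem_filter.1 hi).2.le 2
  exact ⟨T, le_of_mul_le_mul_right (h1.trans h) (by positivity), fun i hi => by
    simpa [hT] using hi⟩

lemma In.nil : In A [] := fun _ h => by simp at h
lemma in_cons {a : ι → ℝ} {l : List (ι → ℝ)} : In A (a :: l) ↔ a ∈ A ∧ In A l :=
  List.forall_mem_cons
lemma in_append {l l' : List (ι → ℝ)} : In A (l ++ l') ↔ In A l ∧ In A l' :=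
  List.forall_mem_append
lemma In.take {l : List (ι → ℝ)} (h : In A l) (q : ℕ) : In A (l.take q) :=
  fun a ha => h a (List.mem_of_mem_take ha)
lemma In.mono {l : List (ι → ℝ)} (h : In A l) (hA : A ⊆ A') : In A' l := fun a ha => hA (h a ha)

/-- all elements are bounded by one -/
def BdS (A : Set (ι → ℝ)) : Prop := ∀ a ∈ A, ∀ i, |a i| ≤ 1

lemma In.bd {l : List (ι → ℝ)} (h : In A l) (hA : BdS A) : Bd l := fun a ha => hA a (h a ha)

lemma RIP.mono (h : RIP s J A F k m ε) (hA : A' ⊆ A) (hF : F' ⊆ F) (hk : k' ≤ k) (hm : m' ≤ m)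
    (he : ε ≤ ε') : RIP s J A' F' k' m' ε' :=
  ⟨fun l h1 h2 u hu => (h.sp l (h1.trans hk) (h2.mono hA) u (hu.mono hm)).mono hm
      (mul_le_mul_of_nonneg_right he (nrm_nonneg _)),
    fun l h1 h2 f hf => (h.fl l (h1.trans hk) (h2.mono hA) f (hF hf)).mono hm he⟩

lemma nrm_V (hs : s ^ 2 * Fintype.card ι ≤ 1) (hR : opn J ≤ R) {l : List (ι → ℝ)} (hl : Bd l)
    {p : ℕ} (hp : l.length ≤ p) (y : ι → ℝ) :
    nrm (Vk s J l *ᵥ y) ≤ (1 + R) ^ p * nrm y ∧ nrm (Uk s J l *ᵥ y) ≤ (1 + R) ^ p * nrm y := by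
  have R0 : 0 ≤ R := (opn_nonneg _).trans hR
  have h1 : (1 + R) ^ l.length ≤ (1 + R) ^ p := pow_le_pow_right₀ (by linarith) hp
  exact ⟨(nrm_mulVec_le _ _).trans (mul_le_mul_of_nonneg_right
      ((opn_VU hs hR hl).1.trans h1) (nrm_nonneg _)),
    (nrm_mulVec_le _ _).trans (mul_le_mul_of_nonneg_right
      ((opn_VU hs hR hl).2.trans h1) (nrm_nonneg _))⟩

lemma nrm_W (hs : s ^ 2 * Fintype.card ι ≤ 1) (hR : opn J ≤ R) {l : List (ι → ℝ)} (hl : Bd l)
    {p : ℕ} (hp : l.length ≤ p) (y : ι → ℝ) : nrm (Wk s J l *ᵥ y) ≤ (1 + R) ^ (p + 1) * nrm y :=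
  (nrm_V hs hR (bd_append.2 ⟨hl, bd_one⟩) (by simpa using hp) y).1

/-- one letter is changed -/
lemma one_letter (h : RIP s J A F k m ε) (hs : s ^ 2 * Fintype.card ι ≤ 1) (hR : opn J ≤ R)
    (hA : BdS A) (he : 0 ≤ ε) (hδ : 0 ≤ δ) (hm : s ^ 2 * m ≤ δ) {pre post : List (ι → ℝ)}
    (hpre : In A pre) (hpost : Bd post) (hlen : pre.length + post.length + 1 ≤ k) {a a' : ι → ℝ}
    (ha : ∀ i, |a i| ≤ 1) (ha' : ∀ i, |a' i| ≤ 1) (hn : Near m δ a a') (y : ι → ℝ) :
    Fl m ((2 * ε + 3 * δ) * (1 + R) ^ (k + 1) * nrm y)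
      ((Wk s J (pre ++ a' :: post) - Wk s J (pre ++ a :: post)) *ᵥ y) := by
  obtain ⟨T, hT, hn⟩ := hn
  have R0 : 0 ≤ R := (opn_nonneg _).trans hR
  have y0 := nrm_nonneg y
  set P := (1 + R) ^ (k + 1) with hP
  have P0 : 0 ≤ P := by positivity
  set e1 : ι → ℝ := fun i => if i ∈ T then 0 else a' i - a i with he1
  set e2 : ι → ℝ := fun i => if i ∈ T then a' i - a i else 0 with he2
  have ea : a' = a + (e1 + e2) := funext fun i => by
    by_cases hi : i ∈ T <;> simp [he1, he2, hi]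
  have b1 : ∀ i, |e1 i| ≤ δ := fun i => by
    by_cases hi : i ∈ T
    · simp [he1, hi, hδ]
    · simpa [he1, hi] using hn i hi
  have b2 : ∀ i, |e2 i| ≤ 2 := fun i => by
    by_cases hi : i ∈ T
    · simp only [he2, hi, if_true]
      exact (abs_sub _ _).trans (by linarith [ha i, ha' i])
    · simp [he2, hi]
  have bp : Bd (post ++ [1]) := bd_append.2 ⟨hpost, bd_one⟩
  have e : Wk s J (pre ++ a' :: post) - Wk s J (pre ++ a :: post) =
      Vk s J (pre ++ e1 :: (post ++ [1])) + (Wk s J pre * diagonal e2 * Vk s J (post ++ [1]) -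
        eta s e2 • (Vk s J pre * Uk s J (post ++ [1]))) := by
    rw [Wk_mul, add_sub_cancel_right, Wk, Wk, List.append_assoc, List.append_assoc,
      List.cons_append, List.cons_append, ea, Vk_add, Vk_add, add_sub_cancel_left]
  have c1 : nrm (Vk s J (pre ++ e1 :: (post ++ [1])) *ᵥ y) ≤ δ * P * nrm y := by
    rcases hδ.eq_or_lt with h0 | h0
    · have : e1 = (0 : ℝ) • e1 := funext fun i => by
        have := b1 i
        rw [← h0] at this
        simpa using this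
      rw [this, Vk_smul, zero_smul, zero_mulVec, nrm_zero, ← h0]
      simp
    · have : e1 = δ • (δ⁻¹ • e1) := by rw [smul_smul, mul_inv_cancel₀ h0.ne', one_smul]
      rw [this, Vk_smul, smul_mulVec, nrm_smul, abs_of_pos h0, mul_assoc]
      refine mul_le_mul_of_nonneg_left (nrm_V hs hR (bd_append.2 ⟨hpre.bd hA, bd_cons.2
        ⟨fun i => ?_, bp⟩⟩) (by simp; omega) y).1 h0.le
      rw [Pi.smul_apply, smul_eq_mul, abs_mul, abs_inv, abs_of_pos h0, inv_mul_le_iff₀ h0, mul_one]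
      exact b1 i
  set z := Vk s J (post ++ [1]) *ᵥ y with hz
  have c2 : Fl m (ε * nrm (e2 * z)) (Wk s J pre *ᵥ (e2 * z)) :=
    h.sp pre (by omega) hpre _ (Sp.mul_right ⟨T, hT, fun i hi => by simp [he2, hi]⟩ z)
  have c3 : nrm (e2 * z) ≤ 2 * (P * nrm y) :=
    (nrm_mul_le zero_le_two b2 z).trans (mul_le_mul_of_nonneg_left
      (nrm_V hs hR bp (by simp; omega) y).1 zero_le_two)
  have c4 : |eta s e2| ≤ 2 * δ := by
    have : |∑ i, e2 i| ≤ T.card * 2 := by
      rw [← sum_subset (subset_univ T) fun i _ hi => by simp [he2, hi], ← nsmul_eq_mul]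
      exact (abs_sum_le_sum_abs _ _).trans (sum_le_card_nsmul _ _ _ fun i _ => b2 i)
    rw [eta, abs_mul, abs_of_nonneg (sq_nonneg s)]
    nlinarith [mul_le_mul_of_nonneg_left this (sq_nonneg s),
      mul_le_mul_of_nonneg_left hT (sq_nonneg s)]
  have c5 : nrm ((Vk s J pre * Uk s J (post ++ [1])) *ᵥ y) ≤ P * nrm y := by
    rw [← mulVec_mulVec]
    refine (nrm_V hs hR (hpre.bd hA) le_rfl _).1.trans ?_
    refine (mul_le_mul_of_nonneg_left (nrm_V hs hR bp le_rfl y).2 (by positivity)).trans ?_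
    rw [← mul_assoc, ← pow_add]
    exact mul_le_mul_of_nonneg_right (pow_le_pow_right₀ (by linarith) (by simp; omega)) y0
  rw [e, add_mulVec, sub_mulVec, smul_mulVec, ← mulVec_mulVec, ← mulVec_mulVec,
    show diagonal e2 *ᵥ z = e2 * z from funext fun i => by simp [mulVec_diagonal]]
  refine ((fl_of_nrm c1).add (c2.sub ((fl_of_nrm c5).smul c4 (by positivity)))).mono le_rfl ?_
  nlinarith [mul_le_mul_of_nonneg_left c3 he]

lemma letters (h : RIP s J A F k m ε) (hs : s ^ 2 * Fintype.card ι ≤ 1) (hR : opn J ≤ R)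
    (hA : BdS A) (he : 0 ≤ ε) (hδ : 0 ≤ δ) (hm : s ^ 2 * m ≤ δ) (y : ι → ℝ)
    {l l' : List (ι → ℝ)} (hl : List.Forall₂ (Near m δ) l l') : ∀ pre, In A pre → In A l → Bd l' →
    pre.length + l.length ≤ k → Fl m (l.length * ((2 * ε + 3 * δ) * (1 + R) ^ (k + 1) * nrm y))
      ((Wk s J (pre ++ l') - Wk s J (pre ++ l)) *ᵥ y) := by
  induction hl with
  | nil => intro pre _ _ _ _; simpa using fl_zero
  | @cons a a' l l' ha hl ih =>
    intro pre h1 h2 h3 h4
    have hlen := hl.length_eq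
    simp only [List.length_cons] at h4
    have i1 := one_letter h hs hR hA he hδ hm h1 (bd_cons.1 h3).2 (by omega)
      (hA a (in_cons.1 h2).1) (bd_cons.1 h3).1 ha y
    have i2 := ih (pre ++ [a]) (in_append.2 ⟨h1, in_cons.2 ⟨(in_cons.1 h2).1, In.nil⟩⟩)
      (in_cons.1 h2).2 (bd_cons.1 h3).2 (by simp; omega)
    simp only [List.append_assoc, List.singleton_append] at i2
    have := i1.add i2
    rw [← add_mulVec, sub_add_sub_cancel] at this
    refine this.mono le_rfl (le_of_eq ?_)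
    simp only [List.length_cons]
    push_cast
    ring

/-- **robustness**: the letters may be changed arbitrarily on `m` sites and by `δ` elsewhere -/
theorem RIP.near (h : RIP s J A F k m ε) (hs : s ^ 2 * Fintype.card ι ≤ 1) (hR : opn J ≤ R)
    (hA : BdS A) (hA' : BdS A') (he : 0 ≤ ε) (hδ : 0 ≤ δ) (hm : s ^ 2 * m ≤ δ)
    (hn : ∀ a' ∈ A', ∃ a ∈ A, Near m δ a a')
    (hF : ∀ f' ∈ F', nrm f' ≤ 1 ∧ ∃ f ∈ F, nrm (f' - f) ≤ δ) :
    RIP s J A' F' k m (ε + (k * (2 * ε + 3 * δ) + δ) * (1 + R) ^ (k + 1)) := by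
  have R0 : 0 ≤ R := (opn_nonneg _).trans hR
  set P := (1 + R) ^ (k + 1) with hP
  have P0 : 0 ≤ P := by positivity
  have ex : ∀ l', In A' l' → ∃ l, In A l ∧ List.Forall₂ (Near m δ) l l' := fun l' => by
    induction l' with
    | nil => exact fun _ => ⟨[], In.nil, List.Forall₂.nil⟩
    | cons a' l' ih =>
      intro h'
      obtain ⟨l, h1, h2⟩ := ih (in_cons.1 h').2
      obtain ⟨a, h3, h4⟩ := hn a' (in_cons.1 h').1
      exact ⟨a :: l, in_cons.2 ⟨h3, h1⟩, List.Forall₂.cons h4 h2⟩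
  have key : ∀ l', l'.length ≤ k → In A' l' → ∃ l, l.length ≤ k ∧ In A l ∧ ∀ y,
      Fl m (k * (2 * ε + 3 * δ) * P * nrm y) (Wk s J l' *ᵥ y - Wk s J l *ᵥ y) := fun l' h1 h2 => by
    obtain ⟨l, h3, h4⟩ := ex l' h2
    have hlen := h4.length_eq
    refine ⟨l, by omega, h3, fun y => ?_⟩
    have := letters h hs hR hA he hδ hm y h4 [] In.nil h3 (h2.bd hA') (by simp; omega)
    rw [List.nil_append, List.nil_append, sub_mulVec] at this
    refine this.mono le_rfl ?_
    have hk : (l.length : ℝ) ≤ k := by exact_mod_cast (by omega : l.length ≤ k)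
    have := mul_le_mul_of_nonneg_right hk (show 0 ≤ (2 * ε + 3 * δ) * P * nrm y by
      have := nrm_nonneg y; positivity)
    linarith
  refine ⟨fun l' h1 h2 u hu => ?_, fun l' h1 h2 f' hf' => ?_⟩
  · obtain ⟨l, h3, h4, h5⟩ := key l' h1 h2
    have := (h5 u).add (h.sp l h3 h4 u hu)
    rw [sub_add_cancel] at this
    refine this.mono le_rfl ?_
    nlinarith [mul_nonneg (mul_nonneg hδ P0) (nrm_nonneg u)]
  · obtain ⟨l, h3, h4, h5⟩ := key l' h1 h2
    obtain ⟨h6, f, hf, h7⟩ := hF f' hf'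
    have h8 := fl_of_nrm (m := m) (nrm_W hs hR (h4.bd hA) h3 (f' - f))
    have := ((h5 f').add h8).add (h.fl l h3 h4 f hf)
    rw [mulVec_sub, sub_add_sub_cancel, sub_add_cancel] at this
    refine this.mono le_rfl ?_
    nlinarith [mul_le_mul_of_nonneg_left h6 (show 0 ≤ k * (2 * ε + 3 * δ) * P by positivity),
      mul_le_mul_of_nonneg_left h7 P0]

/-- `x` stays flat under all words -/
def FlV (s : ℝ) (J : Matrix ι ι ℝ) (A : Set (ι → ℝ)) (k : ℕ) (m ε : ℝ) (x : ι → ℝ) : Prop :=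
  ∀ l, l.length ≤ k → In A l → Fl m ε (Vk s J l *ᵥ x)

lemma RIP.flV (h : RIP s J A F k m ε) (hx : Fl m ε x) (hF : ∀ a ∈ A, a * x ∈ F) :
    FlV s J A k m ε x := fun l h1 h2 => by
  rcases List.eq_nil_or_concat l with rfl | ⟨l0, a, rfl⟩
  · simpa using hx
  · rw [List.concat_eq_append] at h1 h2 ⊢
    rw [← Wk_mul_diag, ← mulVec_mulVec,
      show diagonal a *ᵥ x = a * x from funext fun i => by simp [mulVec_diagonal]]
    exact h.fl l0 (by simp at h1; omega) (in_append.1 h2).1 _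
      (hF a ((in_append.1 h2).2 a (by simp)))

lemma RIP.flV_sp (h : RIP s J A F k m ε) (he : 0 ≤ ε) (hA : BdS A) (hu : Sp m u)
    {l : List (ι → ℝ)} (h0 : l ≠ []) (h1 : l.length ≤ k + 1) (h2 : In A l) :
    Fl m (ε * nrm u) (Vk s J l *ᵥ u) := by
  rcases List.eq_nil_or_concat l with rfl | ⟨l0, a, rfl⟩
  · exact absurd rfl h0
  · rw [List.concat_eq_append] at h1 h2 ⊢
    rw [← Wk_mul_diag, ← mulVec_mulVec,
      show diagonal a *ᵥ u = a * u from funext fun i => by simp [mulVec_diagonal]]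
    refine (h.sp l0 (by simp at h1; omega) (in_append.1 h2).1 _ (hu.mul_left a)).mono le_rfl
      (mul_le_mul_of_nonneg_left ?_ he)
    simpa using nrm_mul_le zero_le_one (hA a ((in_append.1 h2).2 a (by simp))) u

lemma RIP.flV_J (h : RIP s J A F k m ε) (hs : s ^ 2 * Fintype.card ι ≤ 1) (he : 0 ≤ ε)
    (hA : BdS A) (hx : FlV s J A k m ε x) (hF : x ∈ F) : FlV s J A k m (2 * ε) (J *ᵥ x) :=
  fun l h1 h2 => by
  rcases List.eq_nil_or_concat l with rfl | ⟨l0, a, rfl⟩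
  · have := h.fl [] h1 h2 x hF
    rw [Wk_nil] at this
    simpa using this.mono le_rfl (show ε ≤ 2 * ε by linarith)
  · rw [List.concat_eq_append] at h1 h2 ⊢
    have e : Vk s J (l0 ++ [a]) * J = Wk s J (l0 ++ [a]) + eta s a • Vk s J l0 := by
      rw [Wk_snoc, sub_add_cancel, Wk_mul_diag]
    rw [mulVec_mulVec, e, add_mulVec, smul_mulVec]
    have h3 := (hx l0 (by simp at h1; omega) (in_append.1 h2).1).smul
      (abs_eta_le hs zero_le_one (hA a ((in_append.1 h2).2 a (by simp)))) he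
    exact ((h.fl _ h1 h2 x hF).add h3).mono le_rfl (by linarith)

/-- **perturbation of the matrix** whose range stays flat under all words -/
theorem RIP.perturb (h : RIP s J A F k m ε) (hs : s ^ 2 * Fintype.card ι ≤ 1) (hR : opn J' ≤ R)
    (hA : BdS A) (hF : ∀ f ∈ F, nrm f ≤ 1) (he : 0 ≤ ε')
    (hH : ∀ y, FlV s J A k m (ε' * nrm y) ((J' - J) *ᵥ y)) :
    RIP s J' A F k m (ε + (k + 1) * (1 + R) ^ (k + 1) * ε') := by
  have R0 : 0 ≤ R := (opn_nonneg _).trans hR
  set P := (1 + R) ^ (k + 1) with hP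
  have P0 : 0 ≤ P := by positivity
  have key : ∀ l, l.length ≤ k → In A l → ∀ y,
      Fl m ((k + 1) * P * ε' * nrm y) (Wk s J' l *ᵥ y - Wk s J l *ᵥ y) := fun l h1 h2 y => by
    have e : Wk s J' l - Wk s J l = Tv s J J' (J' - J) (l ++ [1]) := by
      have := (tele s J J' (l ++ [1])).1
      rw [show J - J' = (-1 : ℝ) • (J' - J) by simp, Tv_smul] at this
      rw [Wk, Wk, ← neg_sub, this]
      simp
    rw [← sub_mulVec, e, Tv, sum_mulVec]
    refine (Fl.sum _ (ε := ε' * (P * nrm y)) fun q hq => ?_).mono le_rfl ?_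
    · have hq' : q ≤ l.length := by
        have := mem_range.1 hq
        simp at this
        omega
      rw [← mulVec_mulVec, ← mulVec_mulVec, List.take_append_of_le_length hq']
      refine (hH _ _ ((List.length_take_le' _ _).trans h1) (h2.take q)).mono le_rfl
        (mul_le_mul_of_nonneg_left ?_ he)
      exact (nrm_V hs hR ((bd_append.2 ⟨h2.bd hA, bd_one⟩).drop q) (by simp; omega) y).2
    · rw [card_range]
      have hk : ((l ++ [1]).length : ℝ) ≤ k + 1 := by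
        exact_mod_cast (by simp; omega : (l ++ [1]).length ≤ k + 1)
      have := mul_le_mul_of_nonneg_right hk (show 0 ≤ ε' * (P * nrm y) by
        have := nrm_nonneg y; positivity)
      linarith
  refine ⟨fun l h1 h2 u hu => ?_, fun l h1 h2 f hf => ?_⟩
  · have := (key l h1 h2 u).add (h.sp l h1 h2 u hu)
    rw [sub_add_cancel] at this
    exact this.mono le_rfl (le_of_eq (by ring))
  · have := (key l h1 h2 f).add (h.fl l h1 h2 f hf)
    rw [sub_add_cancel] at this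
    refine this.mono le_rfl ?_
    nlinarith [mul_le_mul_of_nonneg_left (hF f hf) (show 0 ≤ (k + 1) * P * ε' by positivity)]

/-- conjugation by signs -/
lemma VU_conj {σ : ι → ℝ} (hσ : ∀ i, σ i * σ i = 1) (J : Matrix ι ι ℝ) : ∀ l : List (ι → ℝ),
    Vk s (diagonal σ * J * diagonal σ) l = diagonal σ * Vk s J l * diagonal σ ∧
    Uk s (diagonal σ * J * diagonal σ) l = diagonal σ * Uk s J l * diagonal σ
  | [] => by
    have : diagonal σ * diagonal σ = (1 : Matrix ι ι ℝ) := by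
      rw [diagonal_mul_diagonal]; simp [hσ]
    simp [this]
  | a :: l => by
    obtain ⟨h1, h2⟩ := VU_conj hσ J l
    have e1 : diagonal σ * diagonal σ = (1 : Matrix ι ι ℝ) := by
      rw [diagonal_mul_diagonal]; simp [hσ]
    have e2 : diagonal a * diagonal σ = diagonal σ * diagonal a := by
      simp only [diagonal_mul_diagonal, mul_comm]
    have e3 : ∀ B : Matrix ι ι ℝ, diagonal a * (diagonal σ * B) = diagonal σ * (diagonal a * B) :=
      fun B => by rw [← Matrix.mul_assoc, e2, Matrix.mul_assoc]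
    have e4 : ∀ B : Matrix ι ι ℝ, diagonal σ * (diagonal σ * B) = B := fun B => by
      rw [← Matrix.mul_assoc, e1, Matrix.one_mul]
    rw [Vk_cons, Uk_cons, Vk_cons, Uk_cons, h1, h2]
    simp only [Matrix.mul_assoc, e3, e4, Matrix.mul_sub, Matrix.sub_mul,
      Matrix.mul_smul, Matrix.smul_mul, and_self]

lemma nrm_sign {σ : ι → ℝ} (hσ : ∀ i, σ i * σ i = 1) (v : ι → ℝ) : nrm (σ * v) = nrm v := by
  unfold nrm
  congr 1
  exact sum_congr rfl fun i _ => by
    simp only [Pi.mul_apply]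
    linear_combination (v i * v i) * hσ i

lemma Fl.sign {σ : ι → ℝ} (hσ : ∀ i, σ i * σ i = 1) (h : Fl m ε x) : Fl m ε (σ * x) :=
  fun v hv => by
  have e : v ⬝ᵥ (σ * x) = (σ * v) ⬝ᵥ x := by
    simp only [dotProduct, Pi.mul_apply]
    exact sum_congr rfl fun i _ => by ring
  rw [e, ← nrm_sign hσ v]
  exact h _ (hv.mul_left σ)

/-- **gauge invariance** -/
theorem RIP.conj {σ : ι → ℝ} (hσ : ∀ i, σ i * σ i = 1) (h : RIP s J A F k m ε)
    (hF : ∀ f ∈ F', σ * f ∈ F) : RIP s (diagonal σ * J * diagonal σ) A F' k m ε := by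
  have e : ∀ l y, Wk s (diagonal σ * J * diagonal σ) l *ᵥ y = σ * (Wk s J l *ᵥ (σ * y)) :=
    fun l y => by
      rw [Wk, (VU_conj hσ J _).1, ← mulVec_mulVec, ← mulVec_mulVec,
        show diagonal σ *ᵥ y = σ * y from funext fun i => by simp [mulVec_diagonal]]
      exact funext fun i => by simp [mulVec_diagonal, Wk]
  refine ⟨fun l h1 h2 u hu => ?_, fun l h1 h2 f hf => ?_⟩
  · rw [e, ← nrm_sign hσ u]
    exact (h.sp l h1 h2 _ (hu.mul_left σ)).sign hσ
  · rw [e]
    exact (h.fl l h1 h2 _ (hF f hf)).sign hσ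

end Crest.Agent.T157.Rip
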