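import Crest.Agent.T157.CnBoch_64
import Crest.Agent.T157.RipA_25

/-!
# Row 157, block B, END (helper8): the Bochner criterion in row form
-/

set_option autoImplicit false

noncomputable section

namespace Crest.Agent.T157.EnBo

open Matrix Real Finset Function
open Crest.ProbabilityR.SpinGlassDynamics
open Crest.Agent.T157.E Crest.Agent.T157.Top Crest.Agent.T157.Tap
open Crest.Agent.T157.Cn Crest.Agent.T157.Cn.Boch64
open Crest.Agent.T157.Eig (nrm opn nrm_nonneg nrm_sq nrm_mul_self nrm_mulVec_le nrm_le_iff nrm_single)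
open Crest.Agent.T157.Rip (Sp)

variable {n : ℕ} {W : Mx n} (y : V n)

theorem vS_nonneg (W : Mx n) (y : V n) (x : Cube n) (i : Fin n) : 0 ≤ vS W y x i :=
  sub_nonneg.2 (tanh_sq_lt_one _).le

theorem vS_le_one (W : Mx n) (y : V n) (x : Cube n) (i : Fin n) : vS W y x i ≤ 1 :=
  sub_le_self _ (sq_nonneg _)

/-- the Bochner inequality, row form -/
theorem bochR (hW : Wᵀ = W) (hd : ∀ i, W i i = 0) (f : Cube n → ℝ) (h1 : ∀ i j, |W i j| ≤ 1 / 200)
    (h3 : ∀ σ i, ∑ j, W i j ^ 2 * vS W y σ j ≤ 1 / 2000)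
    (h2 : ∀ σ (u : V n), (fun i => √(vS W y σ i) * u i) ⬝ᵥ W *ᵥ
      (fun i => √(vS W y σ i) * u i) ≤ 1 / 8 * (u ⬝ᵥ u)) :
    dir (ising W y) f ≤ 2 * ∑ x, prob (ising W y) x * gen (ising W y) f x ^ 2 := by
  have hw : ∀ x, 0 < ising W y x := fun x => exp_pos _
  have hp : ∀ x, 0 < prob (ising W y) x := Chain22.prob_pos' hw
  have hv : ∀ x i, 0 ≤ vS W y x i := vS_nonneg W y
  have hs : ∀ i j, W j i = W i j := fun i j => by rw [← transpose_apply W i j, hW]
  set D : Cube n → Fin n → ℝ := fun x i => (sv x i - tu W y x i) * dl f x i with hD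
  set U : Cube n → Fin n → ℝ := fun x i => vS W y x i * dl f x i with hU
  set Q : Cube n → ℝ := fun x => ∑ i, vS W y x i * dl f x i ^ 2 with hQ
  have hQ0 : ∀ x, 0 ≤ Q x := fun x => sum_nonneg fun i _ => mul_nonneg (hv x i) (sq_nonneg _)
  set T : Fin n → Fin n → Cube n → ℝ := fun i j x => D x i * D x j + W i j * (U x i * U x j) +
    328 * W i j ^ 2 * (vS W y x i * vS W y x j * (dl f x i ^ 2 + dl f x j ^ 2)) with hT
  have a1 : ∀ i j, (if i = j then ∑ x, prob (ising W y) x * D x i ^ 2 else 0) ≤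
      ∑ x, prob (ising W y) x * T i j x := fun i j => by
    split_ifs with h
    · subst h
      refine le_of_eq (sum_congr rfl fun x _ => ?_)
      simp only [hT, hd]; ring
    · have := div_nonneg (pair y hW hd f h (h1 i j)) (Chain22.sum_w_pos hw).le
      rw [sum_div] at this
      refine this.trans_eq (sum_congr rfl fun x _ => ?_)
      simp only [G, prob, hT, hD, hU]; ring
  have a2 := sum_le_sum fun i (_ : i ∈ univ) => sum_le_sum fun j (_ : j ∈ univ) => a1 i j
  simp only [sum_ite_eq, mem_univ, if_true] at a2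
  have a3 : ∑ i, ∑ x, prob (ising W y) x * D x i ^ 2 = dir (ising W y) f := by
    simp only [dir, sub_siteM y hW hd, hD]
  have a4 : ∀ x, ∑ i, ∑ j, T i j x ≤ gen (ising W y) f x ^ 2 + 1 / 2 * Q x := fun x => by
    have b1 : ∑ i, ∑ j, D x i * D x j = gen (ising W y) f x ^ 2 := by
      have : gen (ising W y) f x = -∑ i, D x i := by
        rw [gen, ← sum_neg_distrib]
        exact sum_congr rfl fun i _ => by rw [hD]; simp only [← sub_siteM y hW hd]; ring
      rw [this, neg_sq, sq, sum_mul_sum]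
    have b2 : ∑ i, ∑ j, W i j * (U x i * U x j) ≤ 1 / 8 * Q x := by
      have := h2 x fun i => √(vS W y x i) * dl f x i
      simp only [← mul_assoc, mul_self_sqrt (hv x _)] at this
      refine le_of_eq_of_le ?_ (this.trans_eq ?_)
      · simp only [dotProduct, mulVec, mul_sum, hU]
        exact sum_congr rfl fun i _ => sum_congr rfl fun j _ => by ring
      · simp only [dotProduct, hQ]
        refine congrArg _ (sum_congr rfl fun i _ => ?_)
        rw [mul_mul_mul_comm, mul_self_sqrt (hv x _), sq]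
    have b3 : ∑ i, ∑ j, 328 * W i j ^ 2 * (vS W y x i * vS W y x j *
        (dl f x i ^ 2 + dl f x j ^ 2)) ≤ 656 * (1 / 2000) * Q x := by
      have c0 : ∑ i, ∑ j, W i j ^ 2 * vS W y x j * (vS W y x i * dl f x i ^ 2) ≤ 1 / 2000 * Q x := by
        rw [hQ, mul_sum]
        refine sum_le_sum fun i _ => ?_
        rw [← sum_mul]
        exact mul_le_mul_of_nonneg_right (h3 x i) (mul_nonneg (hv x i) (sq_nonneg _))
      have c2 : ∑ i, ∑ j, W i j ^ 2 * vS W y x i * (vS W y x j * dl f x j ^ 2) =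
          ∑ i, ∑ j, W i j ^ 2 * vS W y x j * (vS W y x i * dl f x i ^ 2) := by
        rw [sum_comm]
        exact sum_congr rfl fun i _ => sum_congr rfl fun j _ => by rw [hs i j]
      have c1 : ∑ i, ∑ j, 328 * W i j ^ 2 * (vS W y x i * vS W y x j *
          (dl f x i ^ 2 + dl f x j ^ 2)) =
          328 * ∑ i, ∑ j, W i j ^ 2 * vS W y x j * (vS W y x i * dl f x i ^ 2) +
          328 * ∑ i, ∑ j, W i j ^ 2 * vS W y x i * (vS W y x j * dl f x j ^ 2) := by
        simp only [mul_sum, ← sum_add_distrib]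
        exact sum_congr rfl fun i _ => sum_congr rfl fun j _ => by ring
      rw [c1, c2]; linarith
    simp only [hT, sum_add_distrib]
    nlinarith [hQ0 x]
  have a5 : ∑ i, ∑ j, ∑ x, prob (ising W y) x * T i j x ≤
      ∑ x, prob (ising W y) x * gen (ising W y) f x ^ 2 + 1 / 2 * dir (ising W y) f := by
    rw [dir_eq y hW hd, mul_sum, ← sum_add_distrib, sum_congr rfl fun i _ => sum_comm, sum_comm]
    refine sum_le_sum fun x _ => ?_
    simp only [← mul_sum]
    nlinarith [mul_le_mul_of_nonneg_left (a4 x) (hp x).le]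
  linarith

/-- **Bochner criterion, row form** -/
theorem poinR (hn : 0 < n) (hW : Wᵀ = W) (hd : ∀ i, W i i = 0) (h1 : ∀ i j, |W i j| ≤ 1 / 200)
    (h3 : ∀ σ i, ∑ j, W i j ^ 2 * vS W y σ j ≤ 1 / 2000)
    (h2 : ∀ σ (u : V n), (fun i => √(vS W y σ i) * u i) ⬝ᵥ W *ᵥ
      (fun i => √(vS W y σ i) * u i) ≤ 1 / 8 * (u ⬝ᵥ u)) : Poin (ising W y) 2 :=
  poin_of hn (fun _ => exp_pos _) fun f => bochR y hW hd f h1 h3 h2

/-- restriction to a set of sites -/
def res (A : Finset (Fin n)) (v : V n) : V n := fun i => if i ∈ A then v i else 0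

theorem sp_res {m : ℝ} {A : Finset (Fin n)} (hA : (A.card : ℝ) ≤ m) (v : V n) : Sp m (res A v) :=
  ⟨A, hA, fun _ hi => if_neg hi⟩

theorem nrm_res_le (A : Finset (Fin n)) (v : V n) : nrm (res A v) ≤ nrm v :=
  Real.sqrt_le_sqrt (sum_le_sum fun i _ => by
    unfold res; split_ifs
    · exact le_rfl
    · simpa using mul_self_nonneg _)

theorem sech_le {u : ℝ} (h : 7 ≤ |u|) : 1 - tanh u ^ 2 ≤ (1 / 400) ^ 2 := by
  have c0 := cosh_pos u
  have e : 1 - tanh u ^ 2 = 1 / cosh u ^ 2 := by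
    rw [tanh_eq_sinh_div_cosh]; field_simp; linarith [cosh_sq_sub_sinh_sq u]
  have c1 : 400 ≤ cosh u := by
    rw [← cosh_abs, cosh_eq]
    have e1 : exp 7 ≤ exp |u| := exp_le_exp.2 h
    have e2 : (2.7 : ℝ) ^ 7 ≤ exp 7 := by
      rw [show (7 : ℝ) = (7 : ℕ) * 1 by norm_num, exp_nat_mul]
      exact pow_le_pow_left₀ (by norm_num) (by linarith [exp_one_gt_d9]) 7
    have := exp_pos (-|u|)
    norm_num at e2; linarith
  rw [e, ← _root_.one_div_pow]
  exact pow_le_pow_left₀ (by positivity) (one_div_le_one_div_of_le (by norm_num) c1) 2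

/-- the sites with a small value -/
def sm (l : ℝ) (u : V n) : Finset (Fin n) := univ.filter fun j => |u j| < l

/-- Chebyshev count -/
theorem card_big (u : V n) {l : ℝ} (hl : 0 < l) :
    ((univ.filter fun j => l ≤ |u j|).card : ℝ) ≤ u ⬝ᵥ u / l ^ 2 := by
  rw [le_div_iff₀ (by positivity), ← nsmul_eq_mul, ← sum_const, dotProduct]
  refine (sum_le_sum fun j hj => ?_).trans
    (sum_le_sum_of_subset_of_nonneg (subset_univ _) fun j _ _ => mul_self_nonneg (u j))
  rw [← sq, ← sq_abs (u j)]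
  exact pow_le_pow_left₀ hl.le (mem_filter.1 hj).2 2

/-- small values survive a shift of bounded energy -/
theorem card_sm_add (u d : V n) (l : ℝ) {t : ℝ} (ht : 0 < t) :
    ((sm l (u + d)).card : ℝ) ≤ (sm (l + t) u).card + d ⬝ᵥ d / t ^ 2 := by
  have : sm l (u + d) ⊆ sm (l + t) u ∪ univ.filter fun j => t ≤ |d j| := fun j hj => by
    simp only [sm, mem_filter, mem_univ, true_and, mem_union, Pi.add_apply] at hj ⊢
    by_contra h
    push Not at h
    have := abs_sub (u j + d j) (d j)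
    rw [add_sub_cancel_right] at this
    linarith [h.1, h.2]
  have h2 := (card_le_card this).trans (card_union_le _ _)
  have h3 := card_big d ht
  have : ((sm l (u + d)).card : ℝ) ≤ (sm (l + t) u).card + (univ.filter fun j => t ≤ |d j|).card := by
    exact_mod_cast h2
  linarith

/-- **Poincare(2) from few free sites**: `W = offdiag (J - Q)`, `Q` nonnegative with small rows -/
theorem poin_free {J Q : Mx n} {m : ℝ} (hn : 0 < n) (hJ : Jᵀ = J) (hQ : Qᵀ = Q)
    (hJd : ∀ i, J i i = 0) (hW : ∀ i j, W i j = if i = j then 0 else J i j - Q i j)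
    (op : opn J ≤ 3) (psd : ∀ u, 0 ≤ u ⬝ᵥ Q *ᵥ u) (row : ∀ i, ∑ j, Q i j ^ 2 ≤ (1 / 400) ^ 2)
    (hm : 1 ≤ m) (sp : ∀ u v, Sp m u → Sp m v → |v ⬝ᵥ J *ᵥ u| ≤ 1 / 400 * (nrm v * nrm u))
    (free : ∀ σ, ((sm 7 (W *ᵥ sv σ + y)).card : ℝ) ≤ m) : Poin (ising W y) 2 := by
  have sJ : ∀ i j, J j i = J i j := fun i j => by rw [← transpose_apply J i j, hJ]
  have sQ : ∀ i j, Q j i = Q i j := fun i j => by rw [← transpose_apply Q i j, hQ]
  have q1 : ∀ i j, |Q i j| ≤ 1 / 400 := fun i j => abs_le_of_sq_le_sq' ((single_le_sum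
    (f := fun j => Q i j ^ 2) (fun j _ => sq_nonneg _) (mem_univ j)).trans (row i)) (by norm_num)
      |> abs_le.2
  have s1 : ∀ i : Fin n, Sp m (Pi.single i (1 : ℝ)) := fun i => ⟨{i}, by simpa, fun k hk => by
    rw [Pi.single_apply, if_neg (by simpa using hk)]⟩
  have hv : ∀ σ j, j ∉ sm 7 (W *ᵥ sv σ + y) → vS W y σ j ≤ (1 / 400) ^ 2 := fun σ j hj =>
    sech_le (by simpa [sm] using hj)
  refine poinR y hn ?_ (fun i => by rw [hW, if_pos rfl]) (fun i j => ?_) (fun σ i => ?_) fun σ u => ?_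
  · ext i j
    rw [transpose_apply, hW, hW, sJ i j, sQ i j]
    simp only [eq_comm]
  · rw [hW]
    split_ifs
    · norm_num
    · have := sp _ _ (s1 j) (s1 i)
      rw [nrm_single, nrm_single, single_dotProduct, mulVec_single_one, col_apply, one_mul] at this
      linarith [abs_sub (J i j) (Q i j), q1 i j]
  · set F := sm 7 (W *ᵥ sv σ + y)
    have a1 : ∑ j ∈ F, J i j ^ 2 ≤ (1 / 400) ^ 2 := by
      have h := sp _ _ (s1 i) (sp_res (free σ) (J i))
      have e : res F (J i) ⬝ᵥ J *ᵥ Pi.single i 1 = ∑ j ∈ F, J i j ^ 2 := by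
        rw [mulVec_single_one, dotProduct, ← sum_filter_add_sum_filter_not univ (· ∈ F)]
        rw [sum_eq_zero (s := univ.filter fun j => ¬ j ∈ F) fun j hj => by
          simp [res, (mem_filter.1 hj).2], add_zero, filter_mem_eq_inter, univ_inter]
        exact sum_congr rfl fun j hj => by simp [res, hj, sJ i j, sq]
      have e2 : nrm (res F (J i)) ^ 2 = ∑ j ∈ F, J i j ^ 2 := by
        rw [nrm_sq, dotProduct, ← sum_filter_add_sum_filter_not univ (· ∈ F)]
        rw [sum_eq_zero (s := univ.filter fun j => ¬ j ∈ F) fun j hj => by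
          simp [res, (mem_filter.1 hj).2], add_zero, filter_mem_eq_inter, univ_inter]
        exact sum_congr rfl fun j hj => by simp [res, hj, sq]
      rw [e, nrm_single, mul_one, ← e2] at h
      rw [← e2]
      nlinarith [le_abs_self (nrm (res F (J i)) ^ 2), nrm_nonneg (res F (J i)),
        sq_nonneg (nrm (res F (J i)) - 1 / 400)]
    have a2 : ∑ j, J i j ^ 2 ≤ 9 := by
      have h := nrm_mulVec_le J (Pi.single i 1)
      rw [nrm_single, mul_one, mulVec_single_one] at h
      have := (nrm_le_iff (by norm_num)).1 (h.trans op)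
      simp only [dotProduct, col_apply, ← sq, sJ i] at this
      linarith
    have a3 : ∑ j, J i j ^ 2 * vS W y σ j ≤ ∑ j ∈ F, J i j ^ 2 + (1 / 400) ^ 2 * ∑ j, J i j ^ 2 := by
      rw [← sum_filter_add_sum_filter_not univ (· ∈ F), filter_mem_eq_inter, univ_inter, mul_sum]
      refine add_le_add (sum_le_sum fun j _ => mul_le_of_le_one_right (sq_nonneg _) (vS_le_one _ _ _ _))
        ((sum_le_sum fun j hj => ?_).trans (sum_le_sum_of_subset_of_nonneg (subset_univ _)
          fun j _ _ => by positivity))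
      rw [mul_comm]
      exact mul_le_mul_of_nonneg_right (hv σ j (mem_filter.1 hj).2) (sq_nonneg _)
    have a4 : ∑ j, W i j ^ 2 * vS W y σ j ≤ 2 * ∑ j, J i j ^ 2 * vS W y σ j + 2 * ∑ j, Q i j ^ 2 := by
      rw [mul_sum, mul_sum, ← sum_add_distrib]
      refine sum_le_sum fun j _ => ?_
      have v0 := vS_nonneg W y σ j
      have v1 := vS_le_one W y σ j
      have : W i j ^ 2 ≤ 2 * J i j ^ 2 + 2 * Q i j ^ 2 := by
        rw [hW]; split_ifs
        · nlinarith [sq_nonneg (J i j), sq_nonneg (Q i j)]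
        · nlinarith [sq_nonneg (J i j + Q i j)]
      nlinarith [mul_le_mul_of_nonneg_right this v0, mul_le_of_le_one_right (sq_nonneg (Q i j)) v1]
    linarith [row i]
  · set F := sm 7 (W *ᵥ sv σ + y)
    set w : V n := fun i => √(vS W y σ i) * u i with hw
    have e1 : w ⬝ᵥ W *ᵥ w = w ⬝ᵥ J *ᵥ w - w ⬝ᵥ Q *ᵥ w + ∑ i, Q i i * w i ^ 2 := by
      simp only [dotProduct, mulVec, ← sum_sub_distrib, ← sum_add_distrib]
      refine sum_congr rfl fun i _ => ?_
      have : ∀ j, W i j * w j = (J i j - Q i j) * w j + if i = j then Q i i * w i else 0 := fun j => by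
        rw [hW]; split_ifs with h
        · subst h; rw [hJd]; ring
        · ring
      simp only [this, sum_add_distrib, sum_ite_eq, mem_univ, if_true, sub_mul, sum_sub_distrib]
      ring
    have sq1 : ∀ i, w i ^ 2 = vS W y σ i * u i ^ 2 := fun i => by
      rw [hw, mul_pow, sq_sqrt (vS_nonneg _ _ _ _)]
    have uu : u ⬝ᵥ u = ∑ i, u i ^ 2 := by simp only [dotProduct, sq]
    have n1 : nrm w ≤ nrm u := by
      rw [nrm_le_iff (nrm_nonneg _), nrm_sq, uu, dotProduct]
      exact sum_le_sum fun i _ => by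
        rw [← sq, sq1]; exact mul_le_of_le_one_left (sq_nonneg _) (vS_le_one _ _ _ _)
    set w' := w - res F w with hw'
    have n2 : nrm w' ≤ 1 / 400 * nrm u := by
      rw [nrm_le_iff (by have := nrm_nonneg u; positivity), mul_pow, nrm_sq, uu, dotProduct, mul_sum]
      refine sum_le_sum fun i _ => ?_
      by_cases h : i ∈ F
      · simp only [hw', res, Pi.sub_apply, if_pos h, sub_self, mul_zero]; positivity
      · simp only [hw', res, Pi.sub_apply, if_neg h, sub_zero]
        rw [← sq, sq1]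
        exact mul_le_mul_of_nonneg_right (hv σ i h) (sq_nonneg _)
    have n3 : nrm (res F w) ≤ nrm u := (nrm_res_le _ _).trans n1
    have u0 := nrm_nonneg u
    have bil : ∀ a b : V n, a ⬝ᵥ J *ᵥ b ≤ nrm a * (3 * nrm b) := fun a b =>
      (Eig.dot_le _ _).trans (mul_le_mul_of_nonneg_left ((nrm_mulVec_le _ _).trans
        (mul_le_mul_of_nonneg_right op (nrm_nonneg _))) (nrm_nonneg _))
    have e2 : w ⬝ᵥ J *ᵥ w = res F w ⬝ᵥ J *ᵥ res F w + res F w ⬝ᵥ J *ᵥ w' + w' ⬝ᵥ J *ᵥ w := by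
      simp only [hw', mulVec_sub, dotProduct_sub, sub_dotProduct]; ring
    have b1 := (le_abs_self _).trans (sp _ _ (sp_res (free σ) w) (sp_res (free σ) w))
    have b2 := bil (res F w) w'
    have b3 := bil w' w
    have c1 := mul_le_mul n3 n3 (nrm_nonneg _) u0
    have c2 := mul_le_mul n3 n2 (nrm_nonneg _) u0
    have c3 := mul_le_mul n2 n1 (nrm_nonneg _) (by positivity)
    have d1 : ∑ i, Q i i * w i ^ 2 ≤ 1 / 400 * (nrm u * nrm u) := by
      rw [nrm_mul_self, uu, mul_sum]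
      refine sum_le_sum fun i _ => mul_le_mul ((le_abs_self _).trans (q1 i i)) ?_ (sq_nonneg _)
        (by norm_num)
      rw [sq1]; exact mul_le_of_le_one_left (sq_nonneg _) (vS_le_one _ _ _ _)
    rw [e1, e2, ← nrm_mul_self u]
    nlinarith [psd w, mul_self_nonneg (nrm u)]

theorem sv_sq (σ : Cube n) (i : Fin n) : sv σ i ^ 2 = 1 := by
  unfold sv; cases σ i <;> simp [spin]

theorem nrm_sv (σ : Cube n) : nrm (sv σ) = √n := by
  simp only [nrm, dotProduct, ← sq, sv_sq]; simp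

/-- the free sites are counted through the field `y - Q σ` -/
theorem card_free {J Q : Mx n} (hJd : ∀ i, J i i = 0)
    (hW : ∀ i j, W i j = if i = j then 0 else J i j - Q i j) (op : opn J ≤ 3)
    (dg : ∀ i, |Q i i| ≤ 1 / 400) (l : ℝ) {t : ℝ} (ht : 0 < t) (σ : Cube n) :
    ((sm l (W *ᵥ sv σ + y)).card : ℝ) ≤ (sm (l + t) (y - Q *ᵥ sv σ)).card + 10 * n / t ^ 2 := by
  set d : V n := J *ᵥ sv σ + fun i => Q i i * sv σ i with hd
  have e : W *ᵥ sv σ + y = y - Q *ᵥ sv σ + d := by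
    funext i
    have : ∀ j, W i j * sv σ j = (J i j - Q i j) * sv σ j + if i = j then Q i i * sv σ i else 0 :=
      fun j => by
        rw [hW]; split_ifs with h
        · subst h; rw [hJd]; ring
        · ring
    simp only [hd, Pi.add_apply, Pi.sub_apply, mulVec, dotProduct, this, sum_add_distrib, sum_ite_eq,
      mem_univ, if_true, sub_mul, sum_sub_distrib]
    ring
  have s0 : 0 ≤ √(n : ℝ) := sqrt_nonneg _
  have n1 : nrm (J *ᵥ sv σ) ≤ 3 * √n := by
    have := nrm_mulVec_le J (sv σ)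
    rw [nrm_sv] at this
    exact this.trans (mul_le_mul_of_nonneg_right op s0)
  have n2 : nrm (fun i => Q i i * sv σ i) ≤ 1 / 400 * √n := by
    rw [nrm_le_iff (by positivity), mul_pow, sq_sqrt (Nat.cast_nonneg n), dotProduct]
    refine (sum_le_sum (g := fun _ => (1 / 400 : ℝ) ^ 2) fun i _ => ?_).trans (by simp [mul_comm])
    rw [← sq, mul_pow, sv_sq, mul_one, ← sq_abs]
    exact pow_le_pow_left₀ (abs_nonneg _) (dg i) 2
  have n3 : d ⬝ᵥ d ≤ 10 * n := by
    have h := (Eig.nrm_add_le _ _).trans (add_le_add n1 n2)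
    have := (nrm_le_iff (by positivity)).1 h
    nlinarith [sq_sqrt (Nat.cast_nonneg (α := ℝ) n), Nat.cast_nonneg (α := ℝ) n]
  rw [e]
  exact (card_sm_add _ d l ht).trans (by gcongr)

/-- **Poincare(2) from anti-concentration** -/
theorem poin_ac {J Q : Mx n} {m m0 t : ℝ} (hn : 0 < n) (hJ : Jᵀ = J) (hQ : Qᵀ = Q)
    (hJd : ∀ i, J i i = 0) (hW : ∀ i j, W i j = if i = j then 0 else J i j - Q i j)
    (op : opn J ≤ 3) (psd : ∀ u, 0 ≤ u ⬝ᵥ Q *ᵥ u) (row : ∀ i, ∑ j, Q i j ^ 2 ≤ (1 / 400) ^ 2)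
    (hm : 1 ≤ m) (sp : ∀ u v, Sp m u → Sp m v → |v ⬝ᵥ J *ᵥ u| ≤ 1 / 400 * (nrm v * nrm u))
    (ht : 0 < t) (h0 : m0 + 10 * n / t ^ 2 ≤ m)
    (ac : ∀ σ, ((sm (7 + t) (y - Q *ᵥ sv σ)).card : ℝ) ≤ m0) : Poin (ising W y) 2 :=
  poin_free y hn hJ hQ hJd hW op psd row hm sp fun σ => by
    have := card_free y hJd hW op (fun i => abs_le_of_sq_le_sq' ((single_le_sum
      (f := fun j => Q i j ^ 2) (fun j _ => sq_nonneg _) (mem_univ i)).trans (row i)) (by norm_num)
        |> abs_le.2) 7 ht σ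
    linarith [ac σ]

end Crest.Agent.T157.EnBo

end
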