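import Crest.Agent.T157.EnDef_40
import Crest.Agent.T157.S1Cr_89

/-!
# Row 157, block B, S1: the END (helper40), the last glue
-/

set_option autoImplicit false

noncomputable section

namespace Crest.Agent.T157.En

open MeasureTheory Real Matrix Finset Filter Set
open Crest.Agent.T157.E Crest.Agent.T157.SL
open Crest.Agent.T157.Ta (Pr Ar Cnt Dm)
open Crest.Agent.T157.EnS (o1)
open Crest.Agent.T157.Rec (grad)
open Crest.Agent.T157.Eig (nrm)
open Crest.Agent.T157.S1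

namespace End40

variable {n : ℕ}

theorem xs_le {c d g o : ℝ} (ho : |o| ≤ c / 2) : Ue.xs c (d + g) ≤ 8 * d ^ 2 + 8 * (g - o) ^ 2 := by
  unfold Ue.xs
  split_ifs with h
  · have h1 : |d + g| ≤ |d + (g - o)| + |o| := by
      simpa [add_assoc] using abs_add_le (d + (g - o)) o
    have h2 : |d + g| ≤ 2 * |d + (g - o)| := by linarith
    have h3 := pow_le_pow_left₀ (abs_nonneg _) h2 2
    rw [mul_pow, sq_abs, sq_abs] at h3
    nlinarith [sq_nonneg (d - (g - o))]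
  · positivity

/-- conversion of the unified functional -/
theorem conv {D : Dat n} {s : St n} (hD : D.Ok) {e A a a' κ : ℝ} (hc : Cl e A s) (hθ : D.θ = Ue.th a')
    (a0 : 0 ≤ a) (hκ : 0 < κ) (h1 : a + κ ≤ a') (h2 : a' + κ ≤ 1) (h3 : a + 2 * D.η0 ≤ a')
    (he : e ≤ κ * D.η0 / 128) :
    a * Ar o1 (nu D s) (pi D s) ≤ AA D s + 16 / κ * (del s ⬝ᵥ del s + S1.Ex D s) := by
  have hv := (C89.pr1 (s := s) hD).hv
  have u := Ue.U_one (w := loc D s) (v := nu D s) C89.wt_loc hD.fpos rfl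
    (fun σ => del s ⬝ᵥ sv σ + s.Th σ) a0 hκ h1 h2 hD.e0 (by linarith [hD.e1]) h3
  have p1 : 0 ≤ (1 - a') / 2 * (1 - κ) * ∑ i, mean (nu D s) fun x =>
      Ta.chi (nu D s) (Ta.wt (loc D s) fun σ => del s ⬝ᵥ sv σ + s.Th σ) i x ^ 2 :=
    mul_nonneg (mul_nonneg (by linarith) (by linarith))
      (sum_nonneg fun _ _ => hv.mean_nonneg fun _ => sq_nonneg _)
  have p2 : 0 ≤ κ / 4 * Ue.El (Ue.Lw D.η0 D.f) (nu D s) (loc D s) := mul_nonneg (by linarith)
    (Ue.El_nonneg (C89.pr1 hD) (C89.pr2 hD) fun i x => (Ue.Lw_mem _ _ i x).1)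
  have p3 : (∑ i, mean (nu D s) fun x =>
      Ue.xs (κ / 64 * D.η0) (grad (fun σ => del s ⬝ᵥ sv σ + s.Th σ) x i)) ≤
      8 * (del s ⬝ᵥ del s + S1.Ex D s) := by
    rw [← mean_sum, S1.Ex, ← hv.mean_const (del s ⬝ᵥ del s), ← mean_add, ← mean_const_mul]
    refine hv.mean_mono fun x => ?_
    have q := pow_le_pow_left₀ (Eig.nrm_nonneg _) (hc.ex x) 2
    rw [Eig.nrm_sq] at q
    rw [Rec.grad_add, Rec.grad_lin]
    refine (sum_le_sum fun i _ => xs_le (d := del s i) (g := grad s.Th x i) (o := s.Om x i)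
      (((norm_le_pi_norm (s.Om x) i).trans (hc.rg x).1).trans (by linarith))).trans ?_
    simp only [sum_add_distrib, ← mul_sum, dotProduct, Pi.sub_apply, ← sq] at q ⊢
    linarith
  have p4 := mul_le_mul_of_nonneg_left p3 (show 0 ≤ 2 / κ by positivity)
  have e1 : 2 / κ * (8 * (del s ⬝ᵥ del s + S1.Ex D s)) =
      16 / κ * (del s ⬝ᵥ del s + S1.Ex D s) := by ring
  rw [AA, hθ, S1.pi]
  linarith

theorem ib_nonneg (a b : ℝ) : 0 ≤ ib a b := by unfold ib; split_ifs <;> norm_num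

theorem ev_poly (g : ℝ) {κ : ℝ} (hκ : 0 < κ) :
    ∀ᶠ n : ℕ in atTop, g * n ^ 12 * exp (-(κ * n)) ≤ 1 := by
  have h := ((tendsto_pow_mul_exp_neg_atTop_nhds_zero 12).comp
    ((tendsto_natCast_atTop_atTop (R := ℝ)).const_mul_atTop hκ)).const_mul (g / κ ^ 12)
  rw [mul_zero] at h
  filter_upwards [h.eventually_le_const one_pos] with n hn
  refine le_trans (le_of_eq ?_) hn
  simp only [Function.comp]
  field_simp

/-- the numbers -/
theorem nums {C1 P S φ g1 x m b : ℝ} (c1 : 1 ≤ C1) (p1 : 1 ≤ P) (hφ : exp (-(S / 16)) ≤ φ)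
    (hg : 12000000 * C1 * P ^ 3 * √φ ≤ g1) (g11 : g1 ≤ 1) (x0 : 0 < x) (m5 : 5 * φ * x ≤ m)
    (m6 : m ≤ 6 * φ * x) (hb : b = 30 * √(√(350 * m / x))) :
    b ≤ 1 ∧ (18 * P + 7) * exp (-(S / 32)) ≤ 4 * P * b ∧ C1 * (18 * P) * (4 * P * b) ^ 2 ≤ g1 := by
  have f0 : 0 < φ := (exp_pos _).trans_le hφ
  have r0 : 0 < √φ := sqrt_pos.2 f0
  have b0 : 0 ≤ b := by rw [hb]; positivity
  have b2 : b ^ 2 = 900 * √(350 * m / x) := by
    rw [hb, mul_pow, sq_sqrt (sqrt_nonneg _)]; norm_num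
  have u1 : √(350 * m / x) ≤ 46 * √φ := by
    refine sqrt_le_iff.2 ⟨by positivity, ?_⟩
    rw [mul_pow, sq_sqrt f0.le, div_le_iff₀ x0]; nlinarith [mul_pos f0 x0]
  have u2 : √φ ≤ √(350 * m / x) := sqrt_le_sqrt (by
    rw [le_div_iff₀ x0]; nlinarith [mul_pos f0 x0])
  have p3 : 1 ≤ C1 * P ^ 3 := one_le_mul_of_one_le_of_one_le c1 (one_le_pow₀ p1)
  have r1 : 12000000 * √φ ≤ 1 := by nlinarith [mul_le_mul_of_nonneg_right p3 r0.le]
  refine ⟨?_, ?_, ?_⟩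
  · exact (pow_le_one_iff_of_nonneg b0 two_ne_zero).1 (by linarith)
  · have e1 : exp (-(S / 32)) ≤ √φ := le_sqrt_of_sq_le (by
      rw [← exp_nat_mul]; refine le_trans (le_of_eq ?_) hφ; congr 1; push_cast; ring)
    have e2 : 25 * √φ ≤ 4 * b := by
      refine (pow_le_pow_iff_left₀ (by positivity) (by positivity) two_ne_zero).1 ?_
      have := mul_le_mul_of_nonneg_left r1 r0.le
      nlinarith
    nlinarith [mul_le_mul_of_nonneg_left e1 (show 0 ≤ 18 * P + 7 by linarith),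
      mul_le_mul_of_nonneg_left e2 (show 0 ≤ P by linarith), mul_le_mul_of_nonneg_right p1 r0.le]
  · have e3 : C1 * (18 * P) * (4 * P * b) ^ 2 = 288 * (C1 * P ^ 3) * b ^ 2 := by ring
    have e4 : b ^ 2 ≤ 41400 * √φ := by linarith
    rw [e3]
    nlinarith [mul_le_mul_of_nonneg_left e4 (show 0 ≤ C1 * P ^ 3 by linarith),
      mul_nonneg (show 0 ≤ C1 * P ^ 3 by linarith) r0.le]

end End40

open End40

theorem endGlue : EndGlue := fun hC hCore hL hP hM κ hκ => by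
  obtain ⟨k0, k4⟩ := hκ
  obtain ⟨C1, c1, hcore⟩ := hCore κ ⟨k0, by linarith⟩
  refine ⟨12000000 * C1, by linarith, fun P S φ g1 p1 hS hφ hg g11 η0 ω κ1 η0p ωp κ1p => ?_⟩
  have f0 : 0 < φ := (exp_pos _).trans_le hφ
  obtain ⟨e0, he0, g2, hg2, hc⟩ := hcore (18 * P) (by linarith) ω ωp
  obtain ⟨δ, hδ, κ2, hκ2, hm⟩ := hM P p1 S (by linarith) φ f0 κ1 κ1p
  have k16 : 0 ≤ 16 / κ := by positivity
  refine ⟨min e0 (κ * η0 / 128), by positivity, g2 + 1 + 16 / κ, by linarith, min δ (min φ 1),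
    by positivity, ?_⟩
  filter_upwards [hc (S / 32) (by linarith) (5 * φ) (by positivity), hm, ev_poly g2 hκ2,
    eventually_ge_atTop 4, ((tendsto_natCast_atTop_atTop (R := ℝ)).const_mul_atTop f0).eventually_ge_atTop 1]
    with n hcn hmn hev n4 hfn J a a' t hJ a0 h1 h2 h3 ht D s hD eJ eP eη eθ hcl hsz
  subst eJ eP eη
  have n4' : (4 : ℝ) ≤ n := by exact_mod_cast n4
  have n0 : (0 : ℝ) < n := by linarith
  obtain ⟨pν, pl, -, cA, cH, cy, cU, c6, cE, cX, -, cD, -, cK⟩ := hC n D s hD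
  obtain ⟨sD, sd, sL, sS⟩ := hsz
  have t1 : t ≤ δ * n := ht.trans (mul_le_mul_of_nonneg_right (min_le_left _ _) n0.le)
  have t2 : t ≤ φ * n := ht.trans (mul_le_mul_of_nonneg_right
    ((min_le_right _ _).trans (min_le_left _ _)) n0.le)
  have t3 : t ≤ n := ht.trans ((mul_le_mul_of_nonneg_right
    ((min_le_right _ _).trans (min_le_right _ _)) n0.le).trans_eq (one_mul _))
  have g10 : 0 ≤ g1 := le_trans (by positivity) hg
  have d0 : 0 ≤ del s ⬝ᵥ del s := dot_self_nonneg _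
  have bd : s.L ^ 2 ≤ Bd D s + mean (nu D s) (U6 D s) := by
    rw [Bd]; linarith [(Nat.cast_nonneg _ : (0 : ℝ) ≤ #s.S)]
  have q1 := mul_le_mul_of_nonneg_left bd ωp.le
  have q2 := mul_nonneg g10 (cE s.Th)
  have q3 := mul_nonneg k16 d0
  have q4 := mul_nonneg k16 cX
  have q5 := mul_nonneg (zero_le_one.trans hg2) cX
  have q6 := mul_nonneg ωp.le (sq_nonneg s.L)
  have efe : (mean (nu D s) fun σ => fe D.J S φ κ1 σ s.y) =
      n ^ 3 * exp (κ1 * n) * mean (ising D.J s.y) fun x => bad D.J S φ x s.y := pν.hv.mean_const _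
  rw [efe]
  rcases le_total (mean (ising D.J s.y) fun x => bad D.J S φ x s.y) (exp (-(κ1 * n))) with hb | hb
  swap
  · have b1 : (n : ℝ) ^ 3 ≤
        n ^ 3 * exp (κ1 * n) * mean (ising D.J s.y) fun x => bad D.J S φ x s.y := by
      refine le_trans (le_of_eq ?_) (mul_le_mul_of_nonneg_left hb (by positivity))
      rw [mul_assoc, ← exp_add, add_neg_cancel, exp_zero, mul_one]
    have s1 : s.L ≤ √n := le_sqrt_of_sq_le (sL.trans t3)
    have s2 : nrm (del s) ≤ √n := le_sqrt_of_sq_le (by rw [Eig.nrm_sq]; exact sd.trans t3)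
    have s3 := mul_le_mul_of_nonneg_left (add_le_add s1 s2) (show 0 ≤ 4 * √(n : ℝ) by positivity)
    have s4 : 4 * √(n : ℝ) * (√n + √n) = 8 * n := by
      linear_combination 8 * mul_self_sqrt n0.le
    have s5 : a * HH D s ≤ 9 * n := by
      linarith only [cK _ _ hcl, s3, s4, sD, t3,
        mul_le_mul_of_nonneg_right (show a ≤ 1 by linarith) cH]
    have s6 : κ / 16 * (Del D s ⬝ᵥ Del D s) ≤ n := by
      linarith only [mul_le_mul_of_nonneg_left cD (show 0 ≤ κ / 16 by positivity),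
        mul_le_mul_of_nonneg_right k4 n0.le, n0]
    have s7 : 10 * (n : ℝ) ≤ n ^ 3 := by
      nlinarith only [mul_le_mul_of_nonneg_left n4' n0.le, n4', n0,
        mul_le_mul_of_nonneg_left n4' (mul_pos n0 n0).le]
    linarith only [b1, s5, s6, s7, q1, q2, q3, q4, q5, q6, cA, cX, hg2, k16]
  have b0 : 0 ≤ n ^ 3 * exp (κ1 * n) * mean (ising D.J s.y) fun x => bad D.J S φ x s.y :=
    mul_nonneg (by positivity) ((C89.wt_is _ _).mean_nonneg fun x =>
      add_nonneg (ib_nonneg _ _) (ib_nonneg _ _))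
  obtain ⟨m1, hm1⟩ : ∃ m1 : ℕ, m1 = ⌈5 * φ * n⌉₊ := ⟨_, rfl⟩
  have m5 : 5 * φ * n ≤ m1 := hm1 ▸ Nat.le_ceil _
  have m6 : (m1 : ℝ) ≤ 6 * φ * n := by
    have := (Nat.ceil_lt_add_one (show 0 ≤ 5 * φ * n by positivity)).le
    rw [hm1]; linarith
  obtain ⟨b, hbb⟩ : ∃ b : ℝ, b = 30 * √(√(350 * m1 / n)) := ⟨_, rfl⟩
  obtain ⟨u1, u2, u3⟩ := nums c1 p1 hφ hg g11 n0 m5 m6 hbb
  obtain ⟨⟨h, hIs, hh⟩, hB⟩ := hP n D s hD
  obtain ⟨B1, B2⟩ := hB (350 * m1) b hJ (by linarith) (by linarith) hbb u1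
  obtain ⟨Λ, xs, hΛ, hBf⟩ := hmn D s _ _ t m1 h hD rfl hJ hcl ⟨sD, sd, sL, sS⟩ t1 m5 hb hh
  obtain ⟨L1, L2, L3⟩ := hL n s.S s.sS
  have sp : ∀ x, loc D s x ≠ 0 → pr s.S s.sS x = x := fun x hx => funext fun j => by
    unfold pr; split_ifs with hj
    · exact ((C89.supp hx).1 j hj).symm
    · rfl
  obtain ⟨wv, lv⟩ := L1 (nu D s) pν.hv fun x hx => sp x (pl.pos hx).2.ne'
  obtain ⟨l1, l2, l3⟩ := L2 (nu D s) (S1.pi D s) pν fun x hx => sp x fun e => hx (by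
    simp only [S1.pi, Ta.wt, e, zero_mul])
  have b00 : 0 ≤ 4 * D.P * b := by rw [hbb]; have := hD.P1; positivity
  have nA : n * exp (-(2 * (S / 32))) ≤ m1 := by
    rw [show 2 * (S / 32) = S / 16 by ring]
    linarith only [mul_le_mul_of_nonneg_left hφ n0.le, m5, hfn]
  have core := hcn _ _ h _ _ _ _ _ xs _ _ s.L Λ a (a + κ) m1 B1 B2 b00 u2 (u3.trans g11)
    (by linarith) nA (by linarith) (sL.trans t3) (by positivity) (min_le_left _ _)
    (L3 _ _ _ _ _ ⟨hcl.L0, hcl.gr, hcl.rg, hcl.ex, hcl.ts⟩) wv hIs (fun x => hΛ _) a0 le_rfl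
    (by linarith)
  have eX : En.Ex (s.G ∘ pr s.S s.sS) (nu D s ∘ pr s.S s.sS) = S1.Ex D s :=
    (lv fun x => s.G x ^ 2).1
  have eE : En.Eg (s.Th ∘ pr s.S s.sS) (nu D s ∘ pr s.S s.sS) = S1.Eg D s s.Th := (lv s.Th).2.2
  rw [l1, l2, l3, eX, eE, show 8 * (S / 32) = S / 4 by ring] at core
  have cv := conv hD hcl eθ (a := a + κ) (by linarith) k0 (by linarith) h2 h3 (min_le_right _ _)
  have r1 := mul_le_mul_of_nonneg_right u3 (cE s.Th)
  have r2 := (mul_le_mul_of_nonneg_left hBf (show 0 ≤ g2 * n ^ 12 by positivity)).trans hev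
  rw [HH, Del]
  linarith only [core, cv, r1, r2, q1, b0, cX, k16]

end Crest.Agent.T157.En

end
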