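import Crest.Agent.T157.EnSt_95

/-!
# Row 157, block B, END (helper8): tensorisation in the words of `Ta`, weighted Herbst argument
-/

set_option autoImplicit false

noncomputable section

namespace Crest.Agent.T157.EnHb

open Real Matrix Function
open Crest.Agent.T157.E Crest.Agent.T157.SL Crest.Agent.T157.Ta
open Crest.Agent.T157.Rec (grad)
open Crest.Agent.T157.EnS (o1)

variable {n : ℕ} {v w : Cube n → ℝ}

theorem wt_of_pos (hw : ∀ x, 0 < w x) : Wt w :=
  ⟨fun x => (hw x).le, Finset.sum_pos (fun x _ => hw x) Finset.univ_nonempty⟩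

theorem pr_of_pos (hv : Wt v) (hw : ∀ x, 0 < w x) : Pr v w :=
  ⟨hv, wt_of_pos hw, fun x e => absurd e (hw x).ne'⟩

theorem mean_ratio (hv : Wt v) (hw : ∀ x, 0 < w x) (F : Cube n → ℝ) :
    mean w (fun x => v x / w x * F x) = mean w (fun x => v x / w x) * mean v F := by
  have h1 := hv.pos.ne'
  have h2 := (wt_of_pos hw).pos.ne'
  have e : ∀ x, w x * (v x / w x) = v x := fun x => mul_div_cancel₀ _ (hw x).ne'
  simp only [mean_eq_div, ← mul_assoc, e]
  field_simp

theorem mean_ratio_eq (hw : ∀ x, 0 < w x) (v : Cube n → ℝ) :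
    mean w (fun x => v x / w x) = (∑ x, v x) / ∑ x, w x := by
  have e : ∀ x, w x * (v x / w x) = v x := fun x => mul_div_cancel₀ _ (hw x).ne'
  simp only [mean_eq_div, e]

theorem ent_ratio (hv : Wt v) (hw : ∀ x, 0 < w x) :
    E.ent w (fun x => v x / w x) = mean w (fun x => v x / w x) * kl v w := by
  have p := pr_of_pos hv hw
  rw [kl_eq_mean p, E.ent]
  change mean w (fun x => v x / w x * log (v x / w x)) - _ = _
  rw [mean_ratio hv hw, mean_congr_supp (v := v) (f := fun x => log (v x / w x))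
    (g := fun x => log (v x) - log (w x)) fun x hx => log_div hx (hw x).ne',
    mean_ratio_eq hw, log_div hv.pos.ne' p.hw.pos.ne']
  ring

theorem entS_ratio (hv : Wt v) (hw : ∀ x, 0 < w x) (i : Fin n) :
    Ent.entS w (fun x => v x / w x) i = mean w (fun x => v x / w x) * As (fun _ => 1) v w i := by
  have p := pr_of_pos hv hw
  have e : (fun x => w x * (v x / w x)) = v := funext fun x => mul_div_cancel₀ _ (hw x).ne'
  rw [Ent.entS_eq hw, As_eq hv (OffAt.const i 1)]
  change mean w (fun x => v x / w x * log (v x / w x)) - mean w (fun x =>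
    siteM w (fun x => v x / w x) i x * log (siteM w (fun x => v x / w x) i x)) = _
  have h := mean_off p.hw ((off_siteM w (fun x => v x / w x) i).comp log) fun x => v x / w x
  simp only [mul_comm (log _)] at h
  rw [h, mean_ratio hv hw, mean_ratio hv hw, ← mul_sub, ← mean_sub]
  congr 1
  refine mean_congr_supp fun x hx => ?_
  have d := den_mul p.hw (hw x).ne' (fun x => v x / w x) i
  rw [e] at d
  have d1 := den_pos hv i hx
  have d2 := den_pos p.hw i (hw x).ne'
  have d3 : siteM w (fun x => v x / w x) i x ≠ 0 := fun h => by rw [d, h, mul_zero] at d1; exact d1.false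
  rw [one_mul, lr_eq p hx, d, log_mul d2.ne' d3, log_div hx (hw x).ne']
  ring

/-- approximate tensorisation in the words `kl`, `Ar` -/
theorem kl_le_of_at {K B : ℝ} (h : Ent.AT w K B) (hw : ∀ x, 0 < w x) (hv : Wt v) :
    kl v w ≤ K * Ar o1 v w + B := by
  have h1 := h (fun x => v x / w x) fun x => div_nonneg (hv.nn x) (hw x).le
  have m0 : 0 < mean w fun x => v x / w x := EnS.pr_mean_pos (pr_of_pos hv hw)
  simp only [ent_ratio hv hw, entS_ratio hv hw, ← Finset.mul_sum] at h1
  refine le_of_mul_le_mul_left ?_ m0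
  rw [Ar]; linarith

/-- products tensorise exactly -/
theorem kl_le_Ar (h : Ent.IsProd w) (hv : Wt v) : kl v w ≤ Ar o1 v w := by
  simpa using kl_le_of_at h.at h.pos hv

/-- conditional variances under a tilt -/
theorem var_wt_le (hw : ∀ x, 0 < w x) (G : Cube n → ℝ) (i : Fin n) (x : Cube n) :
    1 - Ta.cm (wt w G) i x ^ 2 ≤ exp (2 * |grad G x i|) * (1 - Ta.cm w i x ^ 2) := by
  have e : ∀ u : Cube n → ℝ, (∀ x, 0 < u x) → 1 - Ta.cm u i x ^ 2 = 4 * u (update x i true) *
      u (update x i false) / (u (update x i true) + u (update x i false)) ^ 2 := fun u hu => by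
    have := hu (update x i true)
    have := hu (update x i false)
    simp only [Ta.cm, siteM, sv, update_self, Crest.ProbabilityR.SpinGlassDynamics.spin, if_true, Bool.false_eq_true, if_false]
    field_simp; ring
  rw [e w hw, e (wt w G) fun x => mul_pos (hw x) (exp_pos _)]
  simp only [wt]
  have g : 2 * |grad G x i| = |G (update x i true) - G (update x i false)| := by
    rw [grad, incr, abs_div, abs_two]; ring
  rw [g]
  set a := w (update x i true)
  set b := w (update x i false)
  set s := G (update x i true)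
  set t := G (update x i false)
  have a0 : 0 < a := hw _
  have b0 : 0 < b := hw _
  have m1 : exp (min s t) ≤ exp s := exp_le_exp.2 (min_le_left _ _)
  have m2 : exp (min s t) ≤ exp t := exp_le_exp.2 (min_le_right _ _)
  have m0 := exp_pos (min s t)
  have m3 : exp s * exp t = exp |s - t| * exp (min s t) ^ 2 := by
    rw [sq, ← exp_add, ← exp_add, ← exp_add]; congr 1
    rcases le_total s t with h | h
    · rw [min_eq_left h, abs_of_nonpos (by linarith)]; ring
    · rw [min_eq_right h, abs_of_nonneg (by linarith)]; ring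
  have m4 : (exp (min s t) * (a + b)) ^ 2 ≤ (a * exp s + b * exp t) ^ 2 :=
    pow_le_pow_left₀ (by positivity) (by nlinarith) 2
  rw [show 4 * (a * exp s) * (b * exp t) = 4 * a * b * (exp s * exp t) by ring, m3]
  refine (div_le_div_of_nonneg_left (by positivity) (by positivity) m4).trans_eq ?_
  field_simp

/-- the weight of a site: `D` the conditional variance, `g` the half increment -/
def om (θ D g : ℝ) : ℝ := if θ * |g| ≤ 1 then 55 * D else 1

/-- the weighted energy -/
def Gm (w : Cube n → ℝ) (θ : ℝ) (F : Cube n → ℝ) (x : Cube n) : ℝ :=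
  ∑ j, om θ (1 - Ta.cm w j x ^ 2) (grad F x j) * grad F x j ^ 2

theorem As_self (hv : Wt v) (i : Fin n) : As (fun _ => 1) v v i = 0 := by
  rw [As_eq hv (OffAt.const i 1), mean_congr_supp (g := fun _ => 0) fun x hx => by
    rw [lr_eq (Pr.refl hv) hx]; ring, hv.mean_const]

theorem As_tilt (hw : ∀ x, 0 < w x) (G : Cube n → ℝ) (i : Fin n) :
    As (fun _ => 1) (wt w G) w i = mean (wt w G) fun x => cg (Ta.cm (wt w G) i x) (-grad G x i) := by
  have hv : Wt (wt w G) := wt_wt (wt_of_pos hw) G
  have h := As_wt' (Pr.refl hv) (OffAt.const i (1 : ℝ)) fun x => -G x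
  have e : wt (wt w G) (fun x => -G x) = w := by
    rw [wt_add]; simp only [add_neg_cancel]; exact wt_zero w
  have e2 : ∀ x, grad (fun x => -G x) x i = -grad G x i := fun x => by
    simp only [grad, incr]; ring
  simp only [e, As_self hv, chi, sub_self, mul_zero, hv.mean_const, one_mul, e2] at h
  rw [h]; ring

theorem Ar_tilt_le (hw : ∀ x, 0 < w x) (F : Cube n → ℝ) {l θ : ℝ} (l0 : 0 ≤ l) (hl : l ≤ θ) :
    Ar o1 (wt w fun x => l * F x) w ≤ l ^ 2 / 2 * mean (wt w fun x => l * F x) (Gm w θ F) := by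
  have hv : Wt (wt w fun x => l * F x) := wt_wt (wt_of_pos hw) _
  rw [Ar]
  simp only [As_tilt hw]
  rw [← mean_sum, ← mean_const_mul]
  refine hv.mean_mono fun x => ?_
  rw [Gm, Finset.mul_sum]
  refine Finset.sum_le_sum fun j _ => ?_
  have e : grad (fun x => l * F x) x j = l * grad F x j := by simp only [grad, incr]; ring
  have q1 := abs_cm_le hv.nn j x
  rw [om]
  split_ifs with h
  · have h1 := var_wt_le hw (fun x => l * F x) j x
    have h2 := cg_le' q1 (-grad (fun x => l * F x) x j)
    rw [e] at h1 h2 ⊢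
    rw [abs_neg, neg_sq] at h2
    have h3 : |l * grad F x j| ≤ 1 := by
      rw [abs_mul, abs_of_nonneg l0]
      exact (mul_le_mul_of_nonneg_right hl (abs_nonneg _)).trans h
    have h4 : exp (2 * |l * grad F x j|) * exp (2 * |l * grad F x j|) ≤ 55 := by
      rw [← exp_add]
      refine (exp_le_exp.2 (show _ ≤ (4 : ℕ) * (1 : ℝ) by push_cast; linarith)).trans ?_
      rw [exp_nat_mul]
      exact (pow_le_pow_left₀ (exp_pos _).le exp_one_lt_d9.le 4).trans (by norm_num)
    have D0 : 0 ≤ 1 - Ta.cm w j x ^ 2 := by nlinarith [abs_le.1 (abs_cm_le (fun x => (hw x).le) j x)]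
    have h5 := mul_le_mul_of_nonneg_right h1 (exp_pos (2 * |l * grad F x j|)).le
    have h6 := mul_le_mul_of_nonneg_right h4 D0
    have h7 : (1 - Ta.cm (wt w fun x => l * F x) j x ^ 2) * exp (2 * |l * grad F x j|) ≤
        55 * (1 - Ta.cm w j x ^ 2) := by linarith
    nlinarith [mul_le_mul_of_nonneg_right h7 (sq_nonneg (l * grad F x j))]
  · have h2 := cg_le q1 (-grad (fun x => l * F x) x j)
    rw [e] at h2 ⊢
    nlinarith

/-- **weighted Herbst argument** -/
theorem herbst_w {K θ g : ℝ} (h : Ent.AT w K 0) (hw : ∀ x, 0 < w x) (hK : 0 ≤ K) (F : Cube n → ℝ)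
    (hθ : 0 ≤ θ) (hg : ∀ l, 0 < l → l < θ → mean (wt w fun x => l * F x) (Gm w θ F) ≤ g) :
    log (mean w fun x => exp (θ * F x)) ≤ θ * mean w F + K / 2 * g * θ ^ 2 := by
  have hW := wt_of_pos hw
  refine Ent.herbst hW.isP F hθ fun l l0 l1 => ?_
  have hv : Wt (wt w fun x => l * F x) := wt_wt hW _
  have e : (fun x => exp (l * F x)) = fun x => wt w (fun x => l * F x) x / w x :=
    funext fun x => by rw [wt, mul_div_cancel_left₀ _ (hw x).ne']
  rw [← Chain22.eent_eq]
  change E.ent w _ ≤ _ * mean w fun x => exp (l * F x)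
  rw [e, ent_ratio hv hw, mul_comm]
  refine mul_le_mul_of_nonneg_right ?_ (EnS.pr_mean_pos (pr_of_pos hv hw)).le
  have h1 := kl_le_of_at h hw hv
  have h2 := (Ar_tilt_le hw F l0.le l1.le).trans
    (mul_le_mul_of_nonneg_left (hg l l0 l1) (by positivity))
  nlinarith [mul_le_mul_of_nonneg_left h2 hK]

/-- a bounded tilt costs a factor -/
theorem mean_wt_le (hw : Wt w) {G β : Cube n → ℝ} {M : ℝ} (hG : ∀ x, |G x| ≤ M) (hβ : ∀ x, 0 ≤ β x) :
    mean (wt w G) β ≤ exp (2 * M) * mean w β := by
  have h1 : exp (-M) ≤ mean w fun x => exp (G x) := by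
    rw [← hw.mean_const (exp (-M))]
    exact hw.mean_mono fun x => exp_le_exp.2 (abs_le.1 (hG x)).1
  have h2 : mean w (fun x => exp (G x) * β x) ≤ exp M * mean w β := by
    rw [← mean_const_mul]
    exact hw.mean_mono fun x => mul_le_mul_of_nonneg_right (exp_le_exp.2 (abs_le.1 (hG x)).2) (hβ x)
  have h3 := hw.mean_nonneg hβ
  rw [show wt w G = fun x => w x * exp (G x) from rfl, mean_mul_weight _ _ _ hw.pos.ne']
  refine (div_le_div₀ (by positivity) h2 (exp_pos _) h1).trans_eq ?_
  rw [exp_neg, two_mul, exp_add]; field_simp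

/-- **transport with a weighted energy that is small at typical points only** -/
theorem t1_w {K θ k M : ℝ} (h : Ent.AT w K 0) (hw : ∀ x, 0 < w x) (hK : 0 ≤ K) (hv : Wt v)
    {F β : Cube n → ℝ} (hθ : 0 < θ) (hF : ∀ x, |F x| ≤ M) (hβ : ∀ x, 0 ≤ β x)
    (hG : ∀ x, Gm w θ F x ≤ k + β x) :
    mean v F - mean w F ≤ kl v w / θ + K / 2 * θ * (k + exp (2 * (θ * M)) * mean w β) := by
  have hW := wt_of_pos hw
  have h1 := herbst_w h hw hK F hθ.le (g := k + exp (2 * (θ * M)) * mean w β) fun l l0 l1 => by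
    have hv' : Wt (wt w fun x => l * F x) := wt_wt hW _
    refine (hv'.mean_mono hG).trans ?_
    rw [mean_add, hv'.mean_const]
    refine add_le_add le_rfl (mean_wt_le hW (fun x => ?_) hβ)
    rw [abs_mul, abs_of_pos l0]
    exact mul_le_mul l1.le (hF x) (abs_nonneg _) hθ.le
  have h2 := mean_le_kl (pr_of_pos hv hw) fun x => θ * F x
  rw [mean_const_mul] at h2
  rw [div_add' _ _ _ hθ.ne', le_div_iff₀ hθ]
  nlinarith

end Crest.Agent.T157.EnHb

end
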