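import Crest.Agent.T157.EnDef_40
import Crest.Agent.T157.S1Cr_89

/-!
# Row 157, block B, S1, the END (helper62): the exceptional mass of a lifted state
-/

set_option autoImplicit false

noncomputable section

namespace Crest.Agent.T157.En

open Real Matrix Finset Filter
open Crest.Agent.T157.E Crest.Agent.T157.SL
open Crest.Agent.T157.Rec (grad)
open Crest.Agent.T157.Eig (nrm opn)
open Crest.Agent.T157.S3 (V Mx hf)
open Crest.Agent.T157.Rip (res)
open Crest.Agent.T157.S1 (Dat St U uu ell loc nu del Dz)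

namespace M62

variable {n : ℕ}

theorem ib_nn (a b : ℝ) : 0 ≤ ib a b := by unfold ib; split_ifs <;> norm_num
theorem ib_le (a b : ℝ) : ib a b ≤ 1 := by unfold ib; split_ifs <;> norm_num
theorem ib_zero {a b : ℝ} (h : b ≤ a) : ib a b = 0 := if_neg (not_lt.2 h)
theorem ib_one {a b : ℝ} (h : a < b) : ib a b = 1 := if_pos h
theorem bad_nn (J : Mx n) (S φ : ℝ) (x : Cube n) (y : V n) : 0 ≤ bad J S φ x y :=
  add_nonneg (ib_nn _ _) (ib_nn _ _)

/-- Markov count -/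
theorem cnt (u : V n) {b : ℝ} (hb : 0 ≤ b) : (#{j | b < |u j|} : ℝ) * b ^ 2 ≤ u ⬝ᵥ u := by
  rw [← nsmul_eq_mul, ← sum_const]
  refine (sum_le_sum (g := fun j => u j * u j) fun j hj => ?_).trans
    (sum_le_sum_of_subset_of_nonneg (subset_univ _) fun j _ _ => mul_self_nonneg _)
  rw [← sq, ← sq_abs (u j)]
  exact pow_le_pow_left₀ hb (mem_filter.1 hj).2.le 2

theorem cnt' (u : V n) {S c : ℝ} (hS : 1 ≤ S) (h : 256 * (u ⬝ᵥ u) ≤ c) :
    (#{j | S / 16 < |u j|} : ℝ) ≤ c := by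
  have h1 := cnt u (b := S / 16) (by linarith)
  have h2 : (0 : ℝ) ≤ #{j | S / 16 < |u j|} := Nat.cast_nonneg _
  nlinarith [mul_le_mul_of_nonneg_left (one_le_pow₀ hS (n := 2)) h2]

theorem sv_pr {S : Finset (Fin n)} (sS x : Cube n) {j : Fin n} (hj : j ∉ S) :
    sv (pr S sS x) j = sv x j := by simp only [sv, pr, if_neg hj]

theorem gT {J : Mx n} (hJ : Jᵀ = J) (S : Finset (Fin n)) (u : V n) :
    (gM J S)ᵀ *ᵥ u = res Sᶜ (J *ᵥ res S u) := by
  ext j
  have e : ∀ k, J k j = J j k := fun k => by rw [← transpose_apply J j k, hJ]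
  by_cases hj : j ∈ S
  · simp [gM, mulVec, dotProduct, Rip.res, hj]
  · simp only [gM, mulVec, dotProduct, Rip.res, transpose_apply, of_apply, hj, not_false_eq_true,
      and_true, mem_compl, if_true, e]
    exact sum_congr rfl fun k _ => by split_ifs <;> simp

theorem gT_sq {D : Dat n} (h : D.Ok) (s : St n) (σ : Cube n) :
    (D.P • (gM D.J s.S)ᵀ *ᵥ uu D s σ) ⬝ᵥ (D.P • (gM D.J s.S)ᵀ *ᵥ uu D s σ) ≤ 18 * D.P * U D s σ := by
  have P0 : 0 ≤ D.P := by linarith [h.P1]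
  have e : nrm (res s.S (uu D s σ)) ^ 2 = ∑ k ∈ s.S, uu D s σ k ^ 2 := by
    rw [Eig.nrm_sq, dotProduct, ← sum_subset (subset_univ s.S) fun k _ hk => by simp [Rip.res, hk]]
    exact sum_congr rfl fun k hk => by simp [Rip.res, hk, sq]
  have a : nrm ((gM D.J s.S)ᵀ *ᵥ uu D s σ) ≤ 3 * nrm (res s.S (uu D s σ)) := by
    rw [gT h.symm]
    exact (Rip.nrm_res_le _ _).trans ((Eig.nrm_mulVec_le _ _).trans
      (mul_le_mul_of_nonneg_right h.op (Eig.nrm_nonneg _)))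
  have b := pow_le_pow_left₀ (Eig.nrm_nonneg _) a 2
  rw [← Eig.nrm_sq, Eig.nrm_smul, mul_pow, sq_abs, U, ← e]
  nlinarith [mul_le_mul_of_nonneg_left b (sq_nonneg D.P)]

/-- the sign pattern of the field -/
def sg (y : V n) : Cube n := fun j => decide (0 < y j)

theorem hd_le (y : V n) {θ : ℝ} (hθ : 0 < θ) (S : Finset (Fin n)) (sS x : Cube n) :
    hd x (sg y) ≤ #S + na y θ (pr S sS x) := by
  unfold hd na
  rw [← Nat.cast_add, Nat.cast_le]
  refine (card_le_card fun j hj => ?_).trans (card_union_le _ _)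
  by_cases hS : j ∈ S
  · exact mem_union_left _ hS
  · refine mem_union_right _ (mem_filter.2 ⟨mem_univ _, ?_⟩)
    have h1 := (mem_filter.1 hj).2
    rw [sv_pr _ _ hS, sv]
    by_cases hy : 0 < y j
    · have : x j = false := by simpa [sg, hy] using h1
      simp only [this, Crest.ProbabilityR.SpinGlassDynamics.spin]
      norm_num; linarith
    · have : x j = true := by simpa [sg, hy] using h1
      simp only [this, Crest.ProbabilityR.SpinGlassDynamics.spin]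
      norm_num; linarith

theorem na_le {D : Dat n} (h : D.Ok) (s : St n) {S : ℝ} (hS : 0 ≤ S) (u : V n) (x : Cube n)
    (hu : ∀ j ∉ s.S, u j = s.y' j + (D.J *ᵥ sv (pr s.S s.sS x)) j -
      D.P * ((gM D.J s.S)ᵀ *ᵥ uu D s (pr s.S s.sS x)) j +
      D.P * ((gM D.J s.S)ᵀ * gM D.J s.S) j j * sv x j) :
    na u (S / 4) x ≤ #s.S + na s.y (S / 2) (pr s.S s.sS x) +
      #{j | S / 16 < |(D.J *ᵥ sv (pr s.S s.sS x)) j|} + #{j | S / 16 < |del s j|} +
      #{j | S / 16 < |(D.P • (gM D.J s.S)ᵀ *ᵥ uu D s (pr s.S s.sS x)) j|} := by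
  unfold na
  simp only [← Nat.cast_add, Nat.cast_le]
  refine le_trans (card_le_card fun j hj => ?_) ((card_union_le _ _).trans (Nat.add_le_add_right
    ((card_union_le _ _).trans (Nat.add_le_add_right ((card_union_le _ _).trans
      (Nat.add_le_add_right (card_union_le _ _) _)) _)) _))
  by_contra hc
  simp only [mem_union, mem_filter, mem_univ, true_and, not_or, not_lt, Pi.smul_apply,
    smul_eq_mul] at hc hj
  obtain ⟨⟨⟨⟨h0, h1⟩, h2⟩, h3⟩, h4⟩ := hc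
  have q : 0 ≤ D.P * ((gM D.J s.S)ᵀ * gM D.J s.S) j j := mul_nonneg (by linarith [h.P1])
    (by rw [mul_apply]; exact sum_nonneg fun k _ => mul_self_nonneg (gM D.J s.S k j))
  have e : s.y' j = s.y j + del s j := by simp [del]
  have b : ∀ a : ℝ, |a| ≤ S / 16 → -(S / 16) ≤ sv x j * a ∧ sv x j * a ≤ S / 16 := fun a ha =>
    abs_le.1 (by rwa [abs_mul, sv, abs_spin, one_mul])
  rw [sv_pr _ _ h0] at h1
  rw [hu j h0, e] at hj
  have := Rec.sv_mul_self x j
  nlinarith [(b _ h2).1, (b _ h3).1, (b _ h4).2]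

/-- the two pointwise bounds -/
theorem pt {D : Dat n} (h : D.Ok) (s : St n) {S φ m1 : ℝ} (hS : 1 ≤ S) (hφ : 0 ≤ φ * n) (u : V n)
    (x : Cube n) (hu : ∀ j ∉ s.S, u j = s.y' j + (D.J *ᵥ sv (pr s.S s.sS x)) j -
      D.P * ((gM D.J s.S)ᵀ *ᵥ uu D s (pr s.S s.sS x)) j +
      D.P * ((gM D.J s.S)ᵀ * gM D.J s.S) j j * sv x j)
    (hc : (#s.S : ℝ) ≤ φ * n) (hd' : 256 * (del s ⬝ᵥ del s) ≤ φ * n) (hm : 5 * φ * n ≤ m1) :
    ib m1 (na u (S / 4) x) ≤ bad D.J S φ (pr s.S s.sS x) s.y +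
      ib (φ / (4608 * D.P) * n) (U D s (pr s.S s.sS x)) ∧
    ib (70 * m1) (hd x (sg s.y)) ≤ bad D.J S φ (pr s.S s.sS x) s.y := by
  have P0 : 0 < D.P := by linarith [h.P1]
  have n1 := ib_nn (φ * n) (na s.y (S / 2) (pr s.S s.sS x))
  have n2 := ib_nn (φ * n) #{j | S / 16 < |(D.J *ᵥ sv (pr s.S s.sS x)) j|}
  have n3 := ib_nn (φ / (4608 * D.P) * n) (U D s (pr s.S s.sS x))
  have l1 := ib_le m1 (na u (S / 4) x)
  have l2 := ib_le (70 * m1) (hd x (sg s.y))
  unfold bad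
  rcases lt_or_ge (φ * n) (na s.y (S / 2) (pr s.S s.sS x)) with c1 | c1
  · rw [ib_one c1]; constructor <;> linarith
  have a2 := hd_le s.y (θ := S / 2) (by linarith) s.S s.sS x
  refine ⟨?_, by rw [ib_zero (by linarith)]; linarith⟩
  rcases lt_or_ge (φ * n) #{j | S / 16 < |(D.J *ᵥ sv (pr s.S s.sS x)) j|} with c2 | c2
  · rw [ib_one c2]; linarith
  rcases lt_or_ge (φ / (4608 * D.P) * n) (U D s (pr s.S s.sS x)) with c3 | c3
  · rw [ib_one c3]; linarith
  have a1 := na_le h s (by linarith : 0 ≤ S) u x hu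
  have a3 := cnt' (del s) hS hd'
  have a4 := cnt' (D.P • (gM D.J s.S)ᵀ *ᵥ uu D s (pr s.S s.sS x)) hS (c := φ * n) (by
    have := mul_le_mul_of_nonneg_left c3 (by positivity : 0 ≤ 4608 * D.P)
    rw [← mul_assoc, mul_div_cancel₀ _ (by positivity)] at this
    linarith [gT_sq h s (pr s.S s.sS x)])
  rw [ib_zero (by linarith)]
  linarith

/-- change of measure from `loc` (normalised by `ν`) to the Ising weight -/
theorem chg {D : Dat n} (h : D.Ok) (s : St n) (H : Cube n → ℝ) :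
    exp D.T0 * (∑ x, loc D s x * H x) / ∑ x, nu D s x =
      exp (Dz D s) * mean (ising D.J s.y) fun x => ell D s x * H x := by
  have m0 := S1.C89.mean_pos (s := s) h
  have z0 := (S1.C89.wt_is D.J s.y).pos
  rw [S1.C89.Z_nu, Dz, exp_sub, exp_log m0, mean_eq_div _ fun x => ell D s x * H x]
  simp only [loc, mul_assoc]
  field_simp

theorem mean_nu {D : Dat n} (h : D.Ok) (s : St n) {H : Cube n → ℝ} (H0 : ∀ x, 0 ≤ H x) :
    mean (nu D s) H ≤ exp (Dz D s) * mean (ising D.J s.y) fun x => ell D s x * H x := by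
  rw [← chg h, mean_eq_div, mul_sum]
  refine div_le_div_of_nonneg_right (sum_le_sum fun x _ => ?_) (S1.C89.pr1 h).hv.pos.le
  have := mul_le_mul_of_nonneg_left (h.fle x) (mul_nonneg (S1.C89.wt_loc.nn x) (H0 x) :
    0 ≤ loc D s x * H x)
  rw [nu]; linarith

theorem ell_ib {D : Dat n} (s : St n) (b : ℝ) (x : Cube n) :
    ell D s x * ib b (U D s x) ≤ exp (-b) := by
  unfold ell ib
  split_ifs with h1 h2 h3
  · rw [mul_one]; exact exp_le_exp.2 (by linarith)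
  all_goals simp [(exp_pos _).le]

theorem osc {s : St n} {e A : ℝ} (hc : S1.Cl e A s) (x x' : Cube n) :
    (del s ⬝ᵥ sv x + s.Th x) - (del s ⬝ᵥ sv x' + s.Th x') ≤ 4 * √n * (s.L + nrm (del s)) := by
  have a0 : 0 ≤ s.L + nrm (del s) := add_nonneg hc.L0 (Eig.nrm_nonneg _)
  have a1 : ∀ x, Atd.vp (fun σ => del s ⬝ᵥ sv σ + s.Th σ) x ≤ (2 * (s.L + nrm (del s))) ^ 2 :=
    fun x => (S1.C89.vp_le _ x).trans
      (pow_le_pow_left₀ (mul_nonneg zero_le_two (Eig.nrm_nonneg _)) (by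
        rw [Rec.grad_add, Rec.grad_lin]
        linarith [Eig.nrm_add_le (del s) (grad s.Th x), hc.gr x]) 2)
  linarith [Atd.osc (mul_nonneg zero_le_two a0) a1 x x']

/-- the bound for one instance -/
theorem core (hL : LiftStmt) {D : Dat n} (h : D.Ok) (s : St n) {e A S φ m1 b : ℝ} (hS : 1 ≤ S)
    (hφ : 0 ≤ φ * n) (hc : S1.Cl e A s) (W : Mx n) (k : V n)
    (hu : ∀ x, ∀ j ∉ s.S, hf W k x j = s.y' j + (D.J *ᵥ sv (pr s.S s.sS x)) j -
      D.P * ((gM D.J s.S)ᵀ *ᵥ uu D s (pr s.S s.sS x)) j +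
      D.P * ((gM D.J s.S)ᵀ * gM D.J s.S) j j * sv x j)
    (hs : (#s.S : ℝ) ≤ φ * n) (hd' : 256 * (del s ⬝ᵥ del s) ≤ φ * n) (hm : 5 * φ * n ≤ m1)
    (hb : (mean (ising D.J s.y) fun x => bad D.J S φ x s.y) ≤ b) :
    ∃ (Λ : ℝ) (xs : Cube n), (∀ x, nu D s x ≤ Λ * S1.pi D s x) ∧
      Bf (nu D s ∘ pr s.S s.sS) (S1.pi D s ∘ pr s.S s.sS) Λ W k (S / 4) m1 xs (70 * m1) ≤
        exp (Dz D s) * (2 * b + exp (-(φ / (4608 * D.P) * n)) +
          exp (4 * √n * (s.L + nrm (del s))) * b) := by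
  obtain ⟨x0, -, hx0⟩ := exists_min_image (univ : Finset (Cube n))
    (fun σ => del s ⬝ᵥ sv σ + s.Th σ) univ_nonempty
  have p0 := S1.C89.pr0 (s := s) h
  have wl := S1.C89.wt_loc (D := D) (s := s)
  have wi := S1.C89.wt_is D.J s.y
  have sp : ∀ x, loc D s x ≠ 0 → pr s.S s.sS x = x := fun x hx => funext fun j => by
    unfold pr; split_ifs with hj
    · exact ((S1.C89.supp hx).1 j hj).symm
    · rfl
  obtain ⟨wn, l1⟩ := (hL n s.S s.sS).1 (nu D s) p0.hv fun x hx => sp x (left_ne_zero_of_mul hx)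
  obtain ⟨-, l2⟩ := (hL n s.S s.sS).1 (S1.pi D s) p0.hw fun x hx => sp x (left_ne_zero_of_mul hx)
  have b0 := fun x => bad_nn D.J S φ x s.y
  have eb : (mean (ising D.J s.y) fun x => ell D s x * bad D.J S φ x s.y) ≤ b :=
    (wi.mean_mono fun x => mul_le_of_le_one_left (b0 x) (S1.C89.ell_le h x)).trans hb
  refine ⟨exp (D.T0 - (del s ⬝ᵥ sv x0 + s.Th x0)), sg s.y, fun x => ?_, ?_⟩
  · rw [nu, S1.pi, Ta.wt, mul_left_comm, ← exp_add]
    exact mul_le_mul_of_nonneg_left ((h.fle x).trans (exp_le_exp.2 (by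
      linarith [hx0 x (mem_univ _)]))) (wl.nn x)
  have t1 : (mean (nu D s ∘ pr s.S s.sS) fun x => ib m1 (na (hf W k x) (S / 4) x) +
      ib (70 * m1) (hd x (sg s.y))) ≤
      exp (Dz D s) * (2 * b + exp (-(φ / (4608 * D.P) * n))) := by
    refine (wn.mean_mono (g := (fun σ => 2 * bad D.J S φ σ s.y +
      ib (φ / (4608 * D.P) * n) (U D s σ)) ∘ pr s.S s.sS) fun x => ?_).trans ?_
    · have := pt h s hS hφ (hf W k x) x (hu x) hs hd' hm
      simp only [Function.comp_apply]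
      linarith [this.1, this.2]
    rw [(l1 _).1]
    refine (mean_nu h s fun x => add_nonneg (by linarith [b0 x]) (ib_nn _ _)).trans
      (mul_le_mul_of_nonneg_left ?_ (exp_pos _).le)
    simp only [mul_add, mean_add, mul_left_comm _ (2 : ℝ), mean_const_mul]
    linarith [wi.mean_le (ell_ib (D := D) s (φ / (4608 * D.P) * n))]
  have t2 : exp (D.T0 - (del s ⬝ᵥ sv x0 + s.Th x0)) * (∑ x, (S1.pi D s ∘ pr s.S s.sS) x *
      ib (70 * m1) (hd x (sg s.y))) / ∑ x, (nu D s ∘ pr s.S s.sS) x ≤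
      exp (Dz D s) * (exp (4 * √n * (s.L + nrm (del s))) * b) := by
    have e1 : ∑ x, (nu D s ∘ pr s.S s.sS) x = 2 ^ #s.S * ∑ x, nu D s x := by
      simpa only [mul_one, Function.comp_apply] using (l1 fun _ => 1).2.1
    have a1 : ∑ x, (S1.pi D s ∘ pr s.S s.sS) x * ib (70 * m1) (hd x (sg s.y)) ≤
        2 ^ #s.S * ∑ x, S1.pi D s x * bad D.J S φ x s.y := by
      rw [← (l2 fun x => bad D.J S φ x s.y).2.1]
      exact sum_le_sum fun x _ => mul_le_mul_of_nonneg_left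
        (pt h s hS hφ (hf W k x) x (hu x) hs hd' hm).2 (p0.hw.nn _)
    have a2 : exp (D.T0 - (del s ⬝ᵥ sv x0 + s.Th x0)) * ∑ x, S1.pi D s x * bad D.J S φ x s.y ≤
        exp (4 * √n * (s.L + nrm (del s))) * (exp D.T0 * ∑ x, loc D s x * bad D.J S φ x s.y) := by
      simp only [mul_sum]
      refine sum_le_sum fun x _ => ?_
      have := mul_le_mul_of_nonneg_right (exp_le_exp.2 (show D.T0 - (del s ⬝ᵥ sv x0 + s.Th x0) +
        (del s ⬝ᵥ sv x + s.Th x) ≤ 4 * √n * (s.L + nrm (del s)) + D.T0 by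
          linarith [osc hc x x0])) (mul_nonneg (wl.nn x) (b0 x))
      rw [exp_add, exp_add _ D.T0] at this
      rw [S1.pi, Ta.wt]
      linarith
    have z0 := p0.hv.pos
    calc _ ≤ exp (D.T0 - (del s ⬝ᵥ sv x0 + s.Th x0)) *
          (2 ^ #s.S * ∑ x, S1.pi D s x * bad D.J S φ x s.y) / (2 ^ #s.S * ∑ x, nu D s x) := by
          rw [e1]; gcongr
      _ = exp (D.T0 - (del s ⬝ᵥ sv x0 + s.Th x0)) *
          (∑ x, S1.pi D s x * bad D.J S φ x s.y) / ∑ x, nu D s x := by field_simp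
      _ ≤ exp (4 * √n * (s.L + nrm (del s))) * (exp D.T0 * ∑ x, loc D s x * bad D.J S φ x s.y) /
          ∑ x, nu D s x := div_le_div_of_nonneg_right a2 z0.le
      _ ≤ _ := by
          rw [mul_div_assoc, chg h, mul_left_comm]
          gcongr
  unfold Bf
  linarith

end M62

open M62

theorem massGlue : MassGlue := fun _ hL P hP S hS φ hφ κ1 hκ => by
  obtain ⟨d, hd⟩ : ∃ d, d = φ / (4608 * P) := ⟨_, rfl⟩
  have d0 : 0 < d := by rw [hd]; positivity
  obtain ⟨r, r0, r1, r2, r3, r4⟩ : ∃ r : ℝ, 0 < r ∧ r ≤ 1 ∧ r ≤ κ1 / 18 ∧ r ≤ d / 2 ∧ r ≤ φ / 256 :=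
    ⟨min (min 1 (κ1 / 18)) (min (d / 2) (φ / 256)), by positivity,
      (min_le_left _ _).trans (min_le_left _ _), (min_le_left _ _).trans (min_le_right _ _),
      (min_le_right _ _).trans (min_le_left _ _), (min_le_right _ _).trans (min_le_right _ _)⟩
  obtain ⟨k, k0, k1, k2⟩ : ∃ k : ℝ, 0 < k ∧ 4 * k ≤ κ1 ∧ 4 * k ≤ d :=
    ⟨min κ1 d / 4, by positivity, by linarith [min_le_left κ1 d], by linarith [min_le_right κ1 d]⟩
  refine ⟨r ^ 2, by positivity, k, k0, ?_⟩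
  filter_upwards [(tendsto_natCast_atTop_atTop (R := ℝ)).eventually_ge_atTop (3 / k)]
    with n hn D s e A t m1 h hD eP _ hc hz ht hm hb hu
  have n0 : (0 : ℝ) ≤ n := Nat.cast_nonneg n
  have hr : t ≤ r * n := ht.trans (mul_le_mul_of_nonneg_right (by nlinarith) n0)
  have q1 := mul_le_mul_of_nonneg_right r2 n0
  have q2 := mul_le_mul_of_nonneg_right r3 n0
  have q3 := mul_le_mul_of_nonneg_right r4 n0
  have q4 := mul_le_mul_of_nonneg_right k1 n0
  have q5 := mul_le_mul_of_nonneg_right k2 n0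
  have p0 : 0 ≤ φ * n := by positivity
  have rn : 0 ≤ r * n := by positivity
  obtain ⟨Λ, xs, h1, h2⟩ := core hL hD s hS p0 hc _ h hu (by linarith [hz.2.2.2])
    (by linarith [hz.2.1]) hm hb
  refine ⟨Λ, xs, h1, h2.trans ?_⟩
  have sq : (r * √n) ^ 2 = r ^ 2 * n := by rw [mul_pow, sq_sqrt n0]
  have s0 : 0 ≤ r * √n := by positivity
  have L1 : s.L ≤ r * √n := abs_le_of_sq_le_sq' (by linarith [hz.2.2.1]) s0 |>.2
  have L2 : nrm (del s) ≤ r * √n := (Eig.nrm_le_iff s0).2 (by linarith [hz.2.1])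
  have o : 4 * √n * (s.L + nrm (del s)) ≤ 8 * (r * n) := by
    have := mul_le_mul_of_nonneg_left (add_le_add L1 L2) (sqrt_nonneg (n : ℝ))
    nlinarith [mul_self_sqrt n0]
  have z := hz.1
  have E : ∀ a : ℝ, a ≤ -(2 * (k * n)) → exp a ≤ exp (-(k * n)) / 4 := fun a ha => by
    have h4 : 4 ≤ exp (k * n) := by
      have := (div_le_iff₀' k0).1 hn
      linarith [add_one_le_exp (k * n)]
    have := mul_le_mul_of_nonneg_left h4 (exp_pos a).le
    rw [← exp_add] at this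
    linarith [exp_le_exp.2 (show a + k * n ≤ -(k * n) by linarith)]
  rw [eP, ← hd]
  simp only [mul_add, mul_left_comm _ (2 : ℝ), ← exp_add]
  linarith [E (Dz D s + -(κ1 * n)) (by linarith), E (Dz D s + -(d * n)) (by linarith),
    E (Dz D s + (4 * √n * s.L + 4 * √n * nrm (del s) + -(κ1 * n))) (by linarith)]

end Crest.Agent.T157.En

end
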