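import Crest.Agent.T157.EnCnt_55

/-!
# Row 157, block B, END: aligned sums and the Peierls bound (helper55)

* `Al k A a`: every set of `k` sites has `∑ a ≥ k A`; calculus, probability of failure;
* `dS s s0`: the set where two configurations differ; `peierls`, `ising_flip`, `peierls_ising`.
-/

set_option autoImplicit false
set_option linter.all false

noncomputable section

namespace Crest.Agent.T157.Cnt

open MeasureTheory ProbabilityTheory Matrix Real Finset
open Crest.Agent.T157.E Crest.Agent.T157.SL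
open Crest.Agent.T157.Eig (nrm nrm_nonneg nrm_sq nrm_mul_self dot_self_nonneg)

variable {Ω : Type*} {n : ℕ}

/-- every set of `k` sites has mean at least `A` -/
def Al (k : ℕ) (A : ℝ) (a : Fin n → ℝ) : Prop :=
  ∀ F : Finset (Fin n), F.card = k → k * A ≤ ∑ j ∈ F, a j

namespace Al
variable {k : ℕ} {A B : ℝ} {a b : Fin n → ℝ}

theorem mono (h : Al k A a) (hB : B ≤ A) (hab : ∀ j, a j ≤ b j) : Al k B b := fun F hF =>
  (mul_le_mul_of_nonneg_left hB (Nat.cast_nonneg k)).trans
    ((h F hF).trans (sum_le_sum fun j _ => hab j))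

theorem add (h : Al k A a) (h' : Al k B b) : Al k (A + B) (a + b) := fun F hF => by
  simp only [Pi.add_apply, sum_add_distrib, mul_add]
  exact add_le_add (h F hF) (h' F hF)

theorem of_ge (k : ℕ) (h : ∀ j, A ≤ a j) : Al k A a := fun F hF => by
  simpa [hF] using card_nsmul_le_sum F a A fun j _ => h j

theorem smul (h : Al k A a) {c : ℝ} (hc : 0 ≤ c) : Al k (c * A) (c • a) := fun F hF => by
  simp only [Pi.smul_apply, smul_eq_mul, ← mul_sum]
  nlinarith [mul_le_mul_of_nonneg_left (h F hF) hc]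

/-- a short vector -/
theorem of_sq {ε : ℝ} (hε : 0 ≤ ε) (h : a ⬝ᵥ a ≤ ε ^ 2 * k) : Al k (-ε) a := fun F hF => by
  have h1 := sq_sum_le_card_mul_sum_sq (s := F) (f := a)
  have h2 : ∑ j ∈ F, a j ^ 2 ≤ a ⬝ᵥ a := by
    simp only [dotProduct, ← sq]
    exact sum_le_sum_of_subset_of_nonneg (subset_univ F) fun _ _ _ => sq_nonneg _
  rw [hF] at h1
  have h3 : (∑ j ∈ F, a j) ^ 2 ≤ (k * ε) ^ 2 := by
    nlinarith [mul_le_mul_of_nonneg_left (h2.trans h) (Nat.cast_nonneg k : (0 : ℝ) ≤ k)]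
  have := abs_le_of_sq_le_sq' h3 (by positivity)
  linarith [this.1]

/-- larger sets -/
theorem ge (h : Al k A a) (hk : 0 < k) : ∀ F : Finset (Fin n), k ≤ F.card →
    F.card * A ≤ ∑ j ∈ F, a j := by
  intro F hF
  obtain ⟨m, hm⟩ := Nat.exists_eq_add_of_le hF
  induction m generalizing F with
  | zero => rw [hm]; exact h F hm
  | succ m ih =>
    have hne : F.Nonempty := card_pos.1 (by omega)
    obtain ⟨i, hi, hmax⟩ := exists_max_image F a hne
    have hc : (F.erase i).card = k + m := by rw [card_erase_of_mem hi]; omega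
    have h1 := ih (F.erase i) (by omega) hc
    have h2 : ∑ j ∈ F.erase i, a j ≤ (F.erase i).card * a i := by
      simpa using sum_le_card_nsmul (F.erase i) a (a i) fun j hj => hmax j (mem_of_mem_erase hj)
    have h3 : (0 : ℝ) < (F.erase i).card := by exact_mod_cast (by omega : 0 < (F.erase i).card)
    have h4 : A ≤ a i := le_of_mul_le_mul_left (h1.trans h2) h3
    rw [← add_sum_erase F a hi, hm]
    rw [hc] at h1
    push_cast at h1 ⊢
    linarith

/-- all sets, when the threshold is `≤ 0` -/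
theorem card_lt (h : Al k A a) (hk : 0 < k) : (univ.filter fun j => a j < A).card < k := by
  by_contra hc
  have h1 := h.ge hk _ (not_lt.1 hc)
  have hne : (univ.filter fun j => a j < A).Nonempty := card_pos.1 (by omega)
  have h2 : ∑ j ∈ univ.filter (fun j => a j < A), a j < ∑ j ∈ univ.filter (fun j => a j < A), A :=
    sum_lt_sum_of_nonempty hne fun j hj => (mem_filter.1 hj).2
  simp only [sum_const, nsmul_eq_mul] at h2
  linarith

end Al

/-- **Typ**: one union bound over the sets of `k` sites -/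
theorem SG.al {P : Set Ω → ℝ} (h : Sub P) {X : Ω → Fin n → ℝ} {c x : ℝ} (hX : SG P X c)
    (hc : 0 < c) (hx : 0 ≤ x) {e : Fin n → ℝ} (he : ∀ j, e j ^ 2 ≤ 1) (k : ℕ) :
    P {ω | ¬ Al k (-x) (e * X ω)} ≤ n.choose k * exp (-(k * (x ^ 2 / (2 * c)))) := by
  classical
  rcases Nat.eq_zero_or_pos k with rfl | k0
  · simpa using h.one _
  have kp : (0 : ℝ) < k := by exact_mod_cast k0
  have := h.bUnion_le (powersetCard k (univ : Finset (Fin n)))
    (fun F => {ω | k * x ≤ (fun j => if j ∈ F then -e j else 0) ⬝ᵥ X ω})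
    (q := exp (-(k * (x ^ 2 / (2 * c))))) fun F hF => by
      refine (hX _ k (k * x) ?_ kp (by positivity)).trans_eq (by congr 1; field_simp)
      rw [← (mem_powersetCard.1 hF).2]
      have : ∀ j, (if j ∈ F then -e j else 0) * (if j ∈ F then -e j else 0) ≤
          if j ∈ F then (1 : ℝ) else 0 := fun j => by
        split_ifs
        · nlinarith [he j]
        · simp
      simpa [dotProduct] using sum_le_sum (s := univ) fun j _ => this j
  rw [card_powersetCard, card_univ, Fintype.card_fin] at this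
  refine (h.mono _ _ fun ω hω => ?_).trans this
  simp only [Al, Set.mem_setOf_eq, not_forall, not_le] at hω
  obtain ⟨F, hF, hlt⟩ := hω
  refine ⟨F, mem_powersetCard.2 ⟨subset_univ _, hF⟩, ?_⟩
  simp only [Set.mem_setOf_eq, dotProduct, ite_mul, zero_mul, sum_ite_mem, univ_inter, neg_mul, sum_neg_distrib]
  simp only [Pi.mul_apply] at hlt
  linarith

theorem SG.al_phi {P : Set Ω → ℝ} (h : Sub P) {X : Ω → Fin n → ℝ} {c x φ D : ℝ} (hX : SG P X c)
    (hc : 0 < c) (hx : 0 ≤ x) {e : Fin n → ℝ} (he : ∀ j, e j ^ 2 ≤ 1) {k : ℕ} (hφ : 0 < φ)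
    (hk : φ * n ≤ k) (hxD : D + 1 + log (1 / φ) ≤ x ^ 2 / (2 * c)) :
    P {ω | ¬ Al k (-x) (e * X ω)} ≤ exp (-(D * k)) := by
  refine (hX.al h hc hx he k).trans ?_
  calc _ ≤ exp (k * (1 + log (1 / φ))) * exp (-(k * (x ^ 2 / (2 * c)))) := by
        gcongr; exact choose_le hφ hk
    _ ≤ _ := by
        rw [← exp_add]
        refine exp_le_exp.2 ?_
        nlinarith [mul_le_mul_of_nonneg_left hxD (Nat.cast_nonneg k : (0 : ℝ) ≤ k)]

/-- signs that depend on the point (`|X|` small on average): the price is `2 ^ k` -/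
theorem SG.al_abs {P : Set Ω → ℝ} (h : Sub P) {X : Ω → Fin n → ℝ} {c x φ D : ℝ} (hX : SG P X c)
    (hc : 0 < c) (hx : 0 ≤ x) {k : ℕ} (hφ : 0 < φ)
    (hk : φ * n ≤ k) (hxD : D + 2 + log (1 / φ) ≤ x ^ 2 / (2 * c)) :
    P {ω | ¬ Al k (-x) fun j => -|X ω j|} ≤ exp (-(D * k)) := by
  classical
  rcases Nat.eq_zero_or_pos k with rfl | k0
  · simpa using h.one _
  have kp : (0 : ℝ) < k := by exact_mod_cast k0
  have h1 := h.bUnion_le (powersetCard k (univ : Finset (Fin n)))
    (fun F => {ω | ∃ t ∈ F.powerset, ω ∈ {ω | k * x ≤ sgn F t ⬝ᵥ X ω}})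
    (q := 2 ^ k * exp (-(k * (x ^ 2 / (2 * c))))) fun F hF => by
      have := h.bUnion_le F.powerset (fun t => {ω | k * x ≤ sgn F t ⬝ᵥ X ω})
        (q := exp (-(k * (x ^ 2 / (2 * c))))) fun t _ =>
          (hX _ k (k * x) (by rw [sgn_sq, (mem_powersetCard.1 hF).2]) kp (by positivity)).trans_eq
            (by congr 1; field_simp)
      rw [card_powerset, (mem_powersetCard.1 hF).2] at this
      exact this.trans_eq (by push_cast; rfl)
  rw [card_powersetCard, card_univ, Fintype.card_fin] at h1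
  refine (h.mono _ _ fun ω hω => ?_).trans (h1.trans ?_)
  · simp only [Al, Set.mem_setOf_eq, not_forall, not_le] at hω
    obtain ⟨F, hF, hlt⟩ := hω
    refine ⟨F, mem_powersetCard.2 ⟨subset_univ _, hF⟩, F.filter fun j => 0 ≤ X ω j,
      mem_powerset.2 (filter_subset _ _), ?_⟩
    rw [Set.mem_setOf_eq, sgn_dot]
    rw [sum_neg_distrib] at hlt
    linarith
  have h2 : (2 : ℝ) ^ k ≤ exp k := by
    rw [← mul_one (k : ℝ), exp_nat_mul]
    exact pow_le_pow_left₀ (by norm_num) (by linarith [add_one_le_exp (1 : ℝ)]) k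
  calc (n.choose k : ℝ) * (2 ^ k * exp (-(k * (x ^ 2 / (2 * c)))))
      ≤ exp (k * (1 + log (1 / φ))) * (exp k * exp (-(k * (x ^ 2 / (2 * c))))) := by
        gcongr; exact choose_le hφ hk
    _ ≤ _ := by
        rw [← exp_add, ← exp_add]
        refine exp_le_exp.2 ?_
        nlinarith [mul_le_mul_of_nonneg_left hxD kp.le]

/-! ### Peierls -/

/-- the sites where two configurations differ -/
def dS (s s0 : Cube n) : Finset (Fin n) := univ.filter fun j => s j ≠ s0 j

theorem dS_inj (s0 : Cube n) : Function.Injective fun s => dS s s0 := fun s t h => by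
  ext j
  have : j ∈ dS s s0 ↔ j ∈ dS t s0 := by rw [show dS s s0 = dS t s0 from h]
  simp only [dS, mem_filter, mem_univ, true_and] at this
  revert this
  cases s j <;> cases t j <;> cases s0 j <;> simp

theorem sum_exp_card (b : ℝ) (s0 : Cube n) :
    ∑ s : Cube n, exp (-(b * (dS s s0).card)) ≤ exp (n * exp (-b)) := by
  have h1 : ∑ s : Cube n, exp (-(b * (dS s s0).card)) ≤
      ∑ F ∈ (univ : Finset (Fin n)).powerset, exp (-b) ^ F.card := by
    rw [← sum_image (s := univ) (g := fun s => dS s s0) (f := fun F => exp (-(b * F.card)))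
      fun s _ t _ h => dS_inj s0 h]
    refine (sum_le_sum_of_subset_of_nonneg (t := (univ : Finset (Fin n)).powerset)
      (fun F _ => mem_powerset.2 (subset_univ F)) fun _ _ _ => (exp_pos _).le).trans_eq ?_
    refine sum_congr rfl fun F _ => ?_
    rw [← exp_nat_mul]; congr 1; ring
  have h2 := Finset.sum_pow_mul_eq_add_pow (exp (-b)) 1 (univ : Finset (Fin n))
  simp only [one_pow, mul_one, card_univ, Fintype.card_fin] at h2
  rw [h2] at h1
  refine h1.trans ?_
  rw [exp_nat_mul]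
  exact pow_le_pow_left₀ (by positivity) (add_one_le_exp _) n

/-- **Peierls**, abstract form -/
theorem peierls {w : Cube n → ℝ} (hw : Wt w) {s0 : Cube n} (h0 : 0 < w s0) {b c d : ℝ} (hb : 0 ≤ b)
    (h : ∀ s, d ≤ (dS s s0).card → w s ≤ w s0 * exp (c - 2 * b * (dS s s0).card)) :
    mass w {s | d ≤ (dS s s0).card} ≤ exp (c - b * d + n * exp (-b)) := by
  rw [mass_ind, mean]
  have hz : w s0 ≤ ∑ y, w y := single_le_sum (fun y _ => hw.nn y) (mem_univ s0)
  have h1 : ∀ s, prob w s * Set.indicator {s | d ≤ ((dS s s0).card : ℝ)} (fun _ => (1 : ℝ)) s ≤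
      exp (c - b * d) * exp (-(b * (dS s s0).card)) := fun s => by
    by_cases hs : s ∈ {s | d ≤ ((dS s s0).card : ℝ)}
    · rw [Set.indicator_of_mem hs, mul_one, prob, div_le_iff₀ hw.pos, ← exp_add]
      have hd : d ≤ (dS s s0).card := hs
      refine (h s hd).trans ?_
      rw [mul_comm]
      refine mul_le_mul (exp_le_exp.2 ?_) hz h0.le (exp_pos _).le
      nlinarith [mul_le_mul_of_nonneg_left hd hb]
    · rw [Set.indicator_of_notMem hs, mul_zero]; positivity
  refine (sum_le_sum fun s _ => h1 s).trans ?_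
  rw [← mul_sum, exp_add]
  exact mul_le_mul_of_nonneg_left (sum_exp_card b s0) (exp_pos _).le

/-- the spins of `s0` on the set of disagreement -/
def vD (s s0 : Cube n) : Fin n → ℝ := fun j => if j ∈ dS s s0 then sv s0 j else 0

theorem sv_eq (s s0 : Cube n) : sv s = sv s0 - (2 : ℝ) • vD s s0 := by
  ext j
  simp only [vD, dS, mem_filter, mem_univ, true_and, Pi.sub_apply, Pi.smul_apply, smul_eq_mul, sv]
  cases s j <;> cases s0 j <;> simp [Crest.ProbabilityR.SpinGlassDynamics.spin] <;> norm_num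

theorem sv_sq (s : Cube n) (j : Fin n) : sv s j ^ 2 = 1 := by
  simp only [sv]
  cases s j <;> simp [Crest.ProbabilityR.SpinGlassDynamics.spin]

theorem vD_sq (s s0 : Cube n) : vD s s0 ⬝ᵥ vD s s0 = (dS s s0).card := by
  have : ∀ j, vD s s0 j * vD s s0 j = if j ∈ dS s s0 then 1 else 0 := fun j => by
    unfold vD; split_ifs
    · rw [← sq, sv_sq]
    · simp
  simp [dotProduct, this]

theorem vD_dot (s s0 : Cube n) (u : Fin n → ℝ) :
    vD s s0 ⬝ᵥ u = ∑ j ∈ dS s s0, (sv s0 * u) j := by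
  simp [dotProduct, vD]

theorem ising_flip {W : Matrix (Fin n) (Fin n) ℝ} (hW : Wᵀ = W) (h : Fin n → ℝ) (s s0 : Cube n) :
    ising W h s = ising W h s0 * exp (2 * (vD s s0 ⬝ᵥ W *ᵥ vD s s0) -
      2 * ∑ j ∈ dS s s0, (sv s0 * (W *ᵥ sv s0 + h)) j) := by
  rw [ising, ising, ← exp_add, ← vD_dot, sv_eq s s0]
  congr 1
  have e : sv s0 ⬝ᵥ W *ᵥ vD s s0 = vD s s0 ⬝ᵥ W *ᵥ sv s0 := by
    rw [dotProduct_mulVec, ← mulVec_transpose, hW, dotProduct_comm]
  simp only [mulVec_sub, mulVec_smul, sub_dotProduct, dotProduct_sub, smul_dotProduct,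
    dotProduct_smul, smul_eq_mul, dotProduct_add, e, dotProduct_comm h (vD s s0)]
  ring

/-- **Peierls** for a cut and tilted Ising weight: `w ≤ ising W h * e ^ G`, equality at `s0` -/
theorem peierls_ising {W : Matrix (Fin n) (Fin n) ℝ} (hW : Wᵀ = W) {Λ A c d : ℝ}
    (hΛ : ∀ u, u ⬝ᵥ W *ᵥ u ≤ Λ * (u ⬝ᵥ u)) {h : Fin n → ℝ} {w G : Cube n → ℝ} (hw : Wt w)
    {s0 : Cube n} (h0 : w s0 = ising W h s0 * exp (G s0)) (h1 : ∀ s, w s ≤ ising W h s * exp (G s))
    (hG : ∀ s, G s - G s0 ≤ c) {k : ℕ} (hk : 0 < k) (hd : (k : ℝ) ≤ d)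
    (hA : Al k A (sv s0 * (W *ᵥ sv s0 + h))) (hAΛ : Λ ≤ A) :
    mass w {s | d ≤ (dS s s0).card} ≤ exp (c - (A - Λ) * d + n * exp (-(A - Λ))) := by
  have p0 : 0 < ising W h s0 := exp_pos _
  refine peierls hw (by rw [h0]; positivity) (by linarith) fun s hs => (h1 s).trans ?_
  have h2 := hA.ge hk (dS s s0) (by exact_mod_cast hd.trans hs)
  have h3 := hΛ (vD s s0)
  rw [vD_sq] at h3
  rw [ising_flip hW h s s0, h0, mul_assoc, mul_assoc, ← exp_add, ← exp_add]
  refine mul_le_mul_of_nonneg_left (exp_le_exp.2 ?_) p0.le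
  nlinarith [hG s]

end Crest.Agent.T157.Cnt
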