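import Crest.Agent.T157.EnKy_8

/-!
# Row 157, block B, END: the pairing (helper55)

* `Kc`: the conclusion of `EnK.key`; `nr`: the points near the reference point;
* `pair`: the bound of `|(ν - π) T|²` for any two weights;
* `ks`: the Kearns-Saul inequality at frozen sites; `pair_chi`.
-/

set_option autoImplicit false
set_option linter.all false

noncomputable section

namespace Crest.Agent.T157.EnK

open Real Finset Function
open Crest.Agent.T157.E Crest.Agent.T157.SL Crest.Agent.T157.Ta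
open Crest.Agent.T157.Rec (grad fl grad_eq)

variable {n : ℕ} {C : Finset (Fin n)} {T : Fin n → Cube n → ℝ}

/-- the conclusion of `key` -/
def Kc (C : Finset (Fin n)) (T : Fin n → Cube n → ℝ) (s0 : Cube n) (d0 : ℕ) (m η X Y : ℝ) : Prop :=
  ∀ a : Fin n → ℝ, ∃ G : Cube n → ℝ, (∀ x, η * G x - Lg C T G x = ∑ k ∈ C, a k * T k x) ∧
    (∀ x, η * |G x| ≤ √(n * sq2 C a)) ∧ (∀ x, sq2 C (grad G x) ≤ n ^ 2 / η ^ 2 * sq2 C a) ∧
    ∀ x, dH C s0 x ≤ d0 → sq2 C (grad G x) ≤ X * sq2 C a ∧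
      (∀ B ⊆ C, (B.card : ℝ) ≤ m → sq2 B (grad G x) ≤ Y * sq2 C a) ∧
      ((∀ i ∉ C, x i = s0 i) → |G x - G s0| ≤ 2 * √(X * sq2 C a) * n)

theorem kc_of_key (h : ∀ k x, |T k x| ≤ 1) {η m α β : ℝ} (hη : 0 < η) (hm : 0 ≤ m) (α0 : 0 ≤ α)
    (β0 : 0 < β) (β1 : 32 * β ≤ 1) (αβ : 256 * (α * β) ≤ 1) {s0 : Cube n} {d0 d1 : ℕ}
    (hs : 4 * n * (n ^ 2 / η ^ 2 / β * exp ((d0 : ℝ) - d1)) ≤ 1) (hn : 0 < n)
    (hg : ∀ x, dH C s0 x < d1 → Good C T m α β x ∧ (d0 < dH C s0 x →
      3 * ∑ k ∈ C.filter (fun k => x k = s0 k), pk T k x ≤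
        ∑ k ∈ C.filter (fun k => x k ≠ s0 k), pk T k x)) :
    Kc C T s0 d0 m η (40 * (α + β)) (16 * β * (1 + 20 * (α + β))) :=
  key h hη hm α0 β0 β1 αβ hs hn hg

theorem Kc.mono {s0 : Cube n} {d0 : ℕ} {m η X Y X' Y' : ℝ} (h : Kc C T s0 d0 m η X Y) (hX : X ≤ X')
    (hY : Y ≤ Y') : Kc C T s0 d0 m η X' Y' := fun a => by
  obtain ⟨G, h1, h2, h3, h4⟩ := h a
  have a0 := sq2_nonneg C a
  refine ⟨G, h1, h2, h3, fun x hx => ⟨(h4 x hx).1.trans (by gcongr), fun B hB hc =>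
    ((h4 x hx).2.1 B hB hc).trans (by gcongr), fun e => ((h4 x hx).2.2 e).trans (by gcongr)⟩⟩

/-- the points near the reference point -/
def nr (C : Finset (Fin n)) (s0 : Cube n) (d0 : ℕ) : Set (Cube n) :=
  {x | dH C s0 x ≤ d0 ∧ ∀ i ∉ C, x i = s0 i}

theorem amgm (S : Finset (Fin n)) (e V : Fin n → ℝ) {l b : ℝ} (hl : 0 < l) (hV : sq2 S V ≤ l * b) :
    |∑ k ∈ S, e k * V k| ≤ 4 * l * sq2 S e + b / 16 := by
  have h1 : ∀ k, |e k * V k| ≤ 4 * l * e k ^ 2 + V k ^ 2 / (16 * l) := fun k => by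
    rw [abs_mul, ← sq_abs (e k), ← sq_abs (V k), ← sub_nonneg]
    have : 4 * l * |e k| ^ 2 + |V k| ^ 2 / (16 * l) - |e k| * |V k| =
        (8 * l * |e k| - |V k|) ^ 2 / (16 * l) := by field_simp; ring
    rw [this]; positivity
  refine (abs_sum_le_sum_abs _ _).trans ((sum_le_sum fun k _ => h1 k).trans ?_)
  rw [sum_add_distrib, ← mul_sum, ← sum_div]
  have : sq2 S V / (16 * l) ≤ b / 16 := by
    rw [div_le_iff₀ (by positivity)]; linarith
  exact add_le_add le_rfl this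

theorem mass_ind' (w : Cube n → ℝ) (B : Set (Cube n)) :
    mass w B = mean w (B.indicator fun _ => 1) := by
  classical
  rw [mass, mean, Finset.sum_filter]
  refine Finset.sum_congr rfl fun x _ => ?_
  by_cases h : x ∈ B <;> simp [h]

/-- the error of one weight -/
def er (C : Finset (Fin n)) (T : Fin n → Cube n → ℝ) (N : Set (Cube n))
    (B : Cube n → Finset (Fin n)) (X Y : ℝ) (v : Cube n → ℝ) : ℝ :=
  mean v (N.indicator fun x => X * sq2 (C \ B x) (fun k => cm v k x - T k x) +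
    Y * sq2 (B x) fun k => cm v k x - T k x)

theorem pair_one (h : ∀ k x, |T k x| ≤ 1) {s0 : Cube n} {d0 : ℕ} {m η X Y : ℝ} (hη : 0 < η)
    (hn : 0 < n) (hX : 0 < X) (hY : 0 < Y) {B : Cube n → Finset (Fin n)}
    (hB : ∀ x ∈ nr C s0 d0, B x ⊆ C ∧ ((B x).card : ℝ) ≤ m) {a : Fin n → ℝ} {G : Cube n → ℝ}
    (h1 : ∀ x, η * G x - Lg C T G x = ∑ k ∈ C, a k * T k x) (h2 : ∀ x, η * |G x| ≤ √(n * sq2 C a))
    (h3 : ∀ x, sq2 C (grad G x) ≤ n ^ 2 / η ^ 2 * sq2 C a)
    (h4 : ∀ x, dH C s0 x ≤ d0 → sq2 C (grad G x) ≤ X * sq2 C a ∧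
      (∀ B ⊆ C, (B.card : ℝ) ≤ m → sq2 B (grad G x) ≤ Y * sq2 C a) ∧
      ((∀ i ∉ C, x i = s0 i) → |G x - G s0| ≤ 2 * √(X * sq2 C a) * n))
    {v : Cube n → ℝ} (hv : Wt v) :
    |mean v (fun x => ∑ k ∈ C, a k * T k x) - η * G s0| ≤ 3 / 16 * sq2 C a +
      4 * er C T (nr C s0 d0) B X Y v + 16 * (n ^ 3 / η ^ 2 + n) * mass v (nr C s0 d0)ᶜ +
      16 * (η ^ 2 * n ^ 2 * X) := by
  have n0 : (0 : ℝ) < n := by exact_mod_cast hn
  have a0 := sq2_nonneg C a
  set A := sq2 C a with hA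
  have e0 : mean v (fun x => ∑ k ∈ C, a k * T k x) - η * G s0 =
      mean v fun x => η * (G x - G s0) + ∑ k ∈ C, (cm v k x - T k x) * grad G x k := by
    rw [ident hv h1, mean_add, mean_const_mul, mean_sub, hv.mean_const, mean_sum]; ring
  have e1 : ∀ x, |η * (G x - G s0) + ∑ k ∈ C, (cm v k x - T k x) * grad G x k| ≤ 3 / 16 * A +
      4 * (nr C s0 d0).indicator (fun x => X * sq2 (C \ B x) (fun k => cm v k x - T k x) +
        Y * sq2 (B x) fun k => cm v k x - T k x) x +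
      16 * (n ^ 3 / η ^ 2 + n) * (nr C s0 d0)ᶜ.indicator (fun _ => (1 : ℝ)) x +
      16 * (η ^ 2 * n ^ 2 * X) := fun x => by
    refine (abs_add_le _ _).trans ?_
    rw [abs_mul, abs_of_pos hη]
    by_cases hx : x ∈ nr C s0 d0
    · rw [Set.indicator_of_mem hx, Set.indicator_of_notMem (by simpa using hx)]
      obtain ⟨b1, b2⟩ := hB x hx
      obtain ⟨c1, c2, c3⟩ := h4 x hx.1
      rw [← sum_sdiff b1]
      have d1 := amgm (C \ B x) (fun k => cm v k x - T k x) (grad G x) hX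
        ((sq2_mono sdiff_subset _).trans c1)
      have d2 := amgm (B x) (fun k => cm v k x - T k x) (grad G x) hY (c2 _ b1 b2)
      have d3 := mul_le_mul_of_nonneg_left (c3 hx.2) hη.le
      have d4 : η * (2 * √(X * A) * n) ≤ A / 16 + 16 * (η ^ 2 * n ^ 2 * X) := by
        rw [sqrt_mul hX.le]
        nlinarith [sq_nonneg (√A / 4 - 4 * (η * n * √X)), sq_sqrt a0,
          show (η * n * √X) ^ 2 = η ^ 2 * n ^ 2 * X by rw [mul_pow, sq_sqrt hX.le]; ring]
      have d5 := abs_add_le (∑ k ∈ C \ B x, (cm v k x - T k x) * grad G x k)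
        (∑ k ∈ B x, (cm v k x - T k x) * grad G x k)
      linarith
    · rw [Set.indicator_of_notMem hx, Set.indicator_of_mem (by simpa using hx)]
      have d1 := amgm C (fun k => cm v k x - T k x) (grad G x) (l := n ^ 2 / η ^ 2) (by positivity)
        (h3 x)
      have d2 : sq2 C (fun k => cm v k x - T k x) ≤ 4 * n := by
        refine (sum_le_sum (g := fun _ => (4 : ℝ)) fun k _ => ?_).trans ?_
        · have := abs_sub (cm v k x) (T k x)
          have h5 : |cm v k x - T k x| ≤ 2 := by linarith [abs_cm_le hv.nn k x, h k x]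
          nlinarith [sq_abs (cm v k x - T k x), abs_nonneg (cm v k x - T k x)]
        · rw [sum_const, nsmul_eq_mul, mul_comm]
          have : (C.card : ℝ) ≤ n := by exact_mod_cast (card_le_univ C).trans_eq (Fintype.card_fin n)
          linarith
      have d3 : η * |G x - G s0| ≤ 2 * √(n * A) := by
        have := mul_le_mul_of_nonneg_left (abs_sub (G x) (G s0)) hη.le
        linarith [h2 x, h2 s0]
      have d4 : 2 * √(n * A) ≤ A / 16 + 16 * n := by
        rw [sqrt_mul n0.le]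
        nlinarith [sq_nonneg (√A / 4 - 4 * √n), sq_sqrt n0.le, sq_sqrt a0]
      have d5 := mul_le_mul_of_nonneg_left d2 (by positivity : 0 ≤ 4 * ((n : ℝ) ^ 2 / η ^ 2))
      have d6 : 4 * ((n : ℝ) ^ 2 / η ^ 2) * (4 * n) = 16 * (n ^ 3 / η ^ 2) := by ring
      have d7 : 0 ≤ η ^ 2 * n ^ 2 * X := by positivity
      linarith
  rw [e0, abs_le]
  have e2 := hv.mean_mono fun x => (abs_le.1 (e1 x)).2
  have e3 := hv.mean_mono fun x => (abs_le.1 (e1 x)).1
  rw [mean_neg] at e3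
  simp only [mean_add, mean_const_mul, hv.mean_const] at e2 e3
  rw [er, mass_ind']
  simp only [mean_add, mean_const_mul]
  constructor <;> linarith

/-- **PAIRING**, for any two weights -/
theorem pair (h : ∀ k x, |T k x| ≤ 1) {s0 : Cube n} {d0 : ℕ} {m η X Y : ℝ} (hη : 0 < η)
    (hn : 0 < n) (hX : 0 < X) (hY : 0 < Y) (hK : Kc C T s0 d0 m η X Y)
    {B B' : Cube n → Finset (Fin n)} (hB : ∀ x ∈ nr C s0 d0, B x ⊆ C ∧ ((B x).card : ℝ) ≤ m)
    (hB' : ∀ x ∈ nr C s0 d0, B' x ⊆ C ∧ ((B' x).card : ℝ) ≤ m)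
    {v w : Cube n → ℝ} (hv : Wt v) (hw : Wt w) :
    sq2 C (fun k => mean v (T k) - mean w (T k)) ≤
      8 * (er C T (nr C s0 d0) B X Y v + er C T (nr C s0 d0) B' X Y w) +
      32 * (n ^ 3 / η ^ 2 + n) * (mass v (nr C s0 d0)ᶜ + mass w (nr C s0 d0)ᶜ) +
      64 * (η ^ 2 * n ^ 2 * X) := by
  obtain ⟨G, h1, h2, h3, h4⟩ := hK fun k => mean v (T k) - mean w (T k)
  have p1 := pair_one h hη hn hX hY hB h1 h2 h3 h4 hv
  have p2 := pair_one h hη hn hX hY hB' h1 h2 h3 h4 hw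
  simp only [mean_sum, mean_const_mul] at p1 p2
  have e : sq2 C (fun k => mean v (T k) - mean w (T k)) =
      ∑ k ∈ C, (mean v (T k) - mean w (T k)) * mean v (T k) -
        ∑ k ∈ C, (mean v (T k) - mean w (T k)) * mean w (T k) := by
    rw [← sum_sub_distrib, sq2]
    exact sum_congr rfl fun k _ => by ring
  have a0 := sq2_nonneg C fun k => mean v (T k) - mean w (T k)
  have q1 := (abs_le.1 p1).2
  have q2 := (abs_le.1 p2).1
  nlinarith

/-! ### frozen sites -/

theorem exp_rem (t : ℝ) : exp t - 1 - t ≤ t ^ 2 * exp |t| := by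
  rcases le_total 0 t with h | h
  · rw [abs_of_nonneg h]
    have h1 : exp t - 1 ≤ t * exp t := by
      have := add_one_le_exp (-t)
      have e : exp (-t) * exp t = 1 := by rw [← exp_add]; simp
      nlinarith [exp_pos t]
    nlinarith [mul_le_mul_of_nonneg_left h1 h]
  · have h1 : exp t * (1 - t) ≤ 1 := by
      have := add_one_le_exp (-t)
      have e : exp (-t) * exp t = 1 := by rw [← exp_add]; simp
      nlinarith [exp_pos t]
    have h2 := one_le_exp (abs_nonneg t)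
    have h3 := add_one_le_exp t
    nlinarith [sq_nonneg t, mul_le_mul_of_nonneg_left h2 (sq_nonneg t)]

theorem frozen_tanh {A u : ℝ} (h : A ≤ |u|) : 1 - |tanh u| ≤ 2 * exp (-(2 * A)) := by
  have k : ∀ u : ℝ, 0 ≤ u → 1 - tanh u ≤ 2 * exp (-(2 * u)) := fun u _ => by
    have c := cosh_pos u
    have e : 1 - tanh u = exp (-u) / cosh u := by
      rw [tanh_eq_sinh_div_cosh, ← cosh_sub_sinh]; field_simp
    rw [e, div_le_iff₀ c, cosh_eq, show exp (-u) = exp (-(2 * u)) * exp u by rw [← exp_add]; ring_nf]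
    nlinarith [exp_pos (-(2 * u)), exp_pos u, mul_pos (exp_pos (-(2 * u))) (exp_pos (-(2 * u))),
      mul_pos (mul_pos (exp_pos (-(2 * u))) (exp_pos (-(2 * u)))) (exp_pos u)]
  have h1 : tanh |u| ≤ |tanh u| := by
    rcases abs_cases u with e | e
    · rw [e.1]; exact le_abs_self _
    · rw [e.1, tanh_neg]; exact neg_le_abs _
  have h2 := k |u| (abs_nonneg u)
  have h3 : exp (-(2 * |u|)) ≤ exp (-(2 * A)) := exp_le_exp.2 (by linarith)
  linarith

/-- **Kearns-Saul** -/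
theorem ks {v w : Cube n → ℝ} (h : Pr v w) {x : Cube n} (hx : v x ≠ 0) {i : Fin n} {A : ℝ}
    (hA : 0 < A) (hq : 1 - |cm w i x| ≤ 2 * exp (-(2 * A))) :
    chi v w i x ^ 2 ≤ 16 / A * kls v w i x := by
  have hw := (h.pos hx).2.ne'
  set χ := chi v w i x with hχ
  set t := A * χ / 8 with ht
  have c2 := abs_chi_le h i x
  have t1 : |2 * t| ≤ A / 2 := by
    rw [ht, show 2 * (A * χ / 8) = A / 4 * χ by ring, abs_mul, abs_of_pos (by positivity : 0 < A / 4)]
    nlinarith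
  have h1 := mean_le_kl (h.edge i hx) fun b => t * sv (update x i b) i
  rw [← kls_eq_kl, mean_const_mul, ← siteM_eq_mean v (fun x => sv x i),
    ← siteM_eq_mean w (fun x => exp (t * sv x i)), siteM_lin h.hw hw] at h1
  have s1 : sv (update x i true) i = 1 := by simp [sv, Crest.ProbabilityR.SpinGlassDynamics.spin]
  have s2 : sv (update x i false) i = -1 := by simp [sv, Crest.ProbabilityR.SpinGlassDynamics.spin]
  simp only [grad, incr, s1, s2, mul_one, mul_neg] at h1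
  change t * cm v i x ≤ _ at h1
  set m := cm w i x with hm
  have m1 := abs_le.1 (abs_cm_le h.hw.nn i x)
  have e0 : cm v i x = χ + m := by rw [hχ, chi]; ring
  have ee : exp t * exp (-t) = 1 := by rw [← exp_add]; simp
  have k : ∀ q r : ℝ, 0 ≤ q → q ≤ exp (-(2 * A)) → |r| ≤ A / 2 → r ^ 2 = 4 * t ^ 2 →
      q * (exp r - 1 - r) ≤ A * χ ^ 2 / 16 := fun q r q0 q1 r1 r2 => by
    have b1 := exp_rem r
    have b2 : exp |r| ≤ exp (A / 2) := exp_le_exp.2 r1
    have b3 : exp (-(2 * A)) * exp (A / 2) * A ≤ 1 := by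
      rw [← exp_add]
      have := add_one_le_exp (3 / 2 * A)
      have e : exp (-(2 * A) + A / 2) * exp (3 / 2 * A) = 1 := by rw [← exp_add]; ring_nf; simp
      nlinarith [exp_pos (-(2 * A) + A / 2)]
    calc q * (exp r - 1 - r) ≤ q * (r ^ 2 * exp (A / 2)) :=
          mul_le_mul_of_nonneg_left (b1.trans (by gcongr)) q0
      _ ≤ exp (-(2 * A)) * (r ^ 2 * exp (A / 2)) := by gcongr
      _ = exp (-(2 * A)) * exp (A / 2) * A * (A * χ ^ 2 / 16) := by rw [r2, ht]; ring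
      _ ≤ 1 * (A * χ ^ 2 / 16) := by gcongr
      _ = _ := one_mul _
  have h2 : t * χ ≤ kls v w i x + A * χ ^ 2 / 16 := by
    rcases le_total 0 m with m0 | m0
    · rw [abs_of_nonneg m0] at hq
      have b := k ((1 - m) / 2) (-(2 * t)) (by linarith [m1.2]) (by linarith) (by rwa [abs_neg])
        (by ring)
      have e : (exp t + exp (-t)) / 2 + (exp t - exp (-t)) / 2 * m =
          exp t * (1 + (1 - m) / 2 * (exp (-(2 * t)) - 1)) := by
        rw [show exp (-(2 * t)) = exp (-t) * exp (-t) by rw [← exp_add]; ring_nf]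
        linear_combination (-(1 - m) / 2 * exp (-t)) * ee
      have p : 0 < 1 + (1 - m) / 2 * (exp (-(2 * t)) - 1) := by
        nlinarith [exp_pos (-(2 * t)), m1.2, mul_nonneg (sub_nonneg.2 m1.2) (exp_pos (-(2 * t))).le]
      rw [e, log_mul (exp_pos t).ne' p.ne', log_exp, e0] at h1
      have := log_le_sub_one_of_pos p
      nlinarith
    · rw [abs_of_nonpos m0] at hq
      have b := k ((1 + m) / 2) (2 * t) (by linarith [m1.1]) (by linarith) t1 (by ring)
      have e : (exp t + exp (-t)) / 2 + (exp t - exp (-t)) / 2 * m =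
          exp (-t) * (1 + (1 + m) / 2 * (exp (2 * t) - 1)) := by
        rw [show exp (2 * t) = exp t * exp t by rw [← exp_add]; ring_nf]
        linear_combination (-(1 + m) / 2 * exp t) * ee
      have p : 0 < 1 + (1 + m) / 2 * (exp (2 * t) - 1) := by
        nlinarith [exp_pos (2 * t), m1.1, mul_nonneg (show 0 ≤ 1 + m by linarith [m1.1]) (exp_pos (2 * t)).le]
      rw [e, log_mul (exp_pos (-t)).ne' p.ne', log_exp, e0] at h1
      have := log_le_sub_one_of_pos p
      nlinarith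
  rw [div_mul_eq_mul_div, le_div_iff₀ hA]
  rw [ht] at h2
  nlinarith

/-- the part of the error that comes from `cm w - T` -/
def ec (C : Finset (Fin n)) (T : Fin n → Cube n → ℝ) (N : Set (Cube n))
    (B : Cube n → Finset (Fin n)) (X Y : ℝ) (w v : Cube n → ℝ) : ℝ :=
  mean v (N.indicator fun x => X * sq2 (C \ B x) (fun k => cm w k x - T k x) +
    Y * sq2 (B x) fun k => cm w k x - T k x)

theorem er_eq (N : Set (Cube n)) (B : Cube n → Finset (Fin n)) (X Y : ℝ) (w : Cube n → ℝ) :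
    er C T N B X Y w = ec C T N B X Y w w := rfl

theorem er_le {v w : Cube n → ℝ} (h : Pr v w) {N : Set (Cube n)} {B : Cube n → Finset (Fin n)}
    {X Y A : ℝ} (hX : 0 ≤ X) (hY : 0 ≤ Y) (hA : 0 < A)
    (hf : ∀ x ∈ N, v x ≠ 0 → ∀ k ∈ C \ B x, 1 - |cm w k x| ≤ 2 * exp (-(2 * A))) :
    er C T N B X Y v ≤ (32 * X / A + 4 * Y) * Ar (fun _ _ => 1) v w + 2 * ec C T N B X Y w v := by
  have e : Ar (fun _ _ => 1) v w = mean v fun x => ∑ k, kls v w k x := by
    simp only [Ar, As, one_mul, mean_sum]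
  rw [e, er, ec, ← mean_const_mul, ← mean_const_mul, ← mean_add]
  refine mean_mono_supp h.hv fun x hx => ?_
  have k0 : ∀ k, 0 ≤ kls v w k x := fun k => h.kls_nonneg k hx
  have s0 : 0 ≤ ∑ k, kls v w k x := sum_nonneg fun k _ => k0 k
  by_cases hN : x ∈ N
  · rw [Set.indicator_of_mem hN, Set.indicator_of_mem hN]
    have sp : ∀ S : Finset (Fin n), sq2 S (fun k => cm v k x - T k x) ≤
        2 * sq2 S (fun k => chi v w k x) + 2 * sq2 S fun k => cm w k x - T k x := fun S => by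
      refine le_trans (le_of_eq ?_) (sq2_add_le S _ _)
      congr 1; ext k; simp [chi]
    have b1 : sq2 (C \ B x) (fun k => chi v w k x) ≤ 16 / A * ∑ k, kls v w k x := by
      rw [mul_sum]
      exact (sum_le_sum fun k hk => ks h hx hA (hf x hN hx k hk)).trans
        (sum_le_sum_of_subset_of_nonneg (subset_univ _) fun k _ _ => by have := k0 k; positivity)
    have b2 : sq2 (B x) (fun k => chi v w k x) ≤ 2 * ∑ k, kls v w k x := by
      rw [mul_sum]
      exact (sum_le_sum fun k _ => by linarith [chi_sq_le h k hx]).trans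
        (sum_le_sum_of_subset_of_nonneg (f := fun k => 2 * kls v w k x) (subset_univ _)
          fun k _ _ => by have := k0 k; positivity)
    have c1 := mul_le_mul_of_nonneg_left ((sp (C \ B x)).trans
      (add_le_add (mul_le_mul_of_nonneg_left b1 zero_le_two) le_rfl)) hX
    have c2 := mul_le_mul_of_nonneg_left ((sp (B x)).trans
      (add_le_add (mul_le_mul_of_nonneg_left b2 zero_le_two) le_rfl)) hY
    have e2 : X * (2 * (16 / A * ∑ k, kls v w k x)) = 32 * X / A * ∑ k, kls v w k x := by ring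
    nlinarith
  · rw [Set.indicator_of_notMem hN, Set.indicator_of_notMem hN]
    positivity

/-- **PAIRING** for `ν ≪ π` -/
theorem pair_chi (h : ∀ k x, |T k x| ≤ 1) {s0 : Cube n} {d0 : ℕ} {m η X Y A : ℝ} (hη : 0 < η)
    (hn : 0 < n) (hX : 0 < X) (hY : 0 < Y) (hA : 0 < A) (hK : Kc C T s0 d0 m η X Y)
    {B : Cube n → Finset (Fin n)} (hB : ∀ x ∈ nr C s0 d0, B x ⊆ C ∧ ((B x).card : ℝ) ≤ m)
    {v w : Cube n → ℝ} (hp : Pr v w)
    (hf : ∀ x ∈ nr C s0 d0, v x ≠ 0 → ∀ k ∈ C \ B x, 1 - |cm w k x| ≤ 2 * exp (-(2 * A))) :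
    sq2 C (fun k => mean v (T k) - mean w (T k)) ≤
      (256 * X / A + 32 * Y) * Ar (fun _ _ => 1) v w +
      16 * ec C T (nr C s0 d0) B X Y w v + 8 * ec C T (nr C s0 d0) B X Y w w +
      32 * (n ^ 3 / η ^ 2 + n) * (mass v (nr C s0 d0)ᶜ + mass w (nr C s0 d0)ᶜ) +
      64 * (η ^ 2 * n ^ 2 * X) := by
  have h1 := pair h hη hn hX hY hK hB hB hp.hv hp.hw
  have h2 := er_le (T := T) hp hX.le hY.le hA hf
  rw [er_eq _ _ _ _ w] at h1
  have e : (256 * X / A + 32 * Y) = 8 * (32 * X / A + 4 * Y) := by ring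
  rw [e]
  linarith

end Crest.Agent.T157.EnK
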