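import Crest.Agent.T157.EnUt_95
import Crest.Agent.T157.UeA_83

/-!
# Row 157, block B, S1, END: the part of the tilt in the conditional means (helper95)
-/

set_option autoImplicit false
set_option linter.unusedSectionVars false

noncomputable section

namespace Crest.Agent.T157.EnS

open MeasureTheory Real Matrix Function Set
open Crest.Agent.T157.E Crest.Agent.T157.SL Crest.Agent.T157.Ta
open Crest.Agent.T157.Rec (grad fl)
open Crest.Agent.T157.Xt (H1 Lip2)
open Crest.Agent.T157.Eig (nrm opn)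
open Crest.Agent.T157.S3.Rg (exc dM fro VF Bd)

variable {n : ℕ} {v w p : Cube n → ℝ} {K : ℝ}

theorem tanh_sub (a b : ℝ) : tanh (a + b) - tanh a = (1 - tanh a * tanh (a + b)) * tanh b := by
  have h := cosh_pos (a + b)
  have h1 := cosh_pos a
  have h2 := cosh_pos b
  simp only [tanh_eq_sinh_div_cosh]
  field_simp
  rw [sinh_add, cosh_add]
  linear_combination (cosh a * sinh b * cosh b - sinh b * cosh a * cosh b) * cosh_sq a

theorem tanh_taylor (a d : ℝ) : |tanh (a + d) - tanh a - (1 - tanh a ^ 2) * d| ≤ 2 * d ^ 2 := by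
  have := (convex_uIcc a (a + d)).norm_image_sub_le_of_norm_hasDerivWithin_le (C := 2 * |d|)
    (f := fun t => tanh t - (1 - tanh a ^ 2) * t) (f' := fun t => Ue.sq2 t - (1 - tanh a ^ 2) * 1)
    (fun t _ => ((Hd.hasDerivAt_tanh' t).sub ((hasDerivAt_id' t).const_mul _)).hasDerivWithinAt)
    (fun t ht => ?_) left_mem_uIcc right_mem_uIcc
  · simp only [Real.norm_eq_abs, add_sub_cancel_left] at this
    rw [← sq_abs d]
    refine (le_of_eq ?_).trans (this.trans_eq (by ring))
    congr 1; ring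
  have h1 := abs_sub_left_of_mem_uIcc ht
  rw [add_sub_cancel_left] at h1
  have h2 := (Ue.abs_tanh_sub_le t a).trans h1
  rw [Real.norm_eq_abs, Ue.sq2_eq, show 1 - tanh t ^ 2 - (1 - tanh a ^ 2) * 1 =
    -((tanh t + tanh a) * (tanh t - tanh a)) by ring, abs_neg, abs_mul]
  refine mul_le_mul ((abs_add_le _ _).trans ?_) h2 (abs_nonneg _) zero_le_two
  linarith [abs_tanh_lt_one t, abs_tanh_lt_one a]

theorem opn_dM_tanh (z : VF n) (x : Cube n) :
    opn (dM (fun y k => tanh (z y k)) x) ≤ opn (dM z x) + 4 * (opn (dM z x) * opn (dM z x)) := by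
  have e : dM (fun y k => tanh (z y k)) x = diagonal (fun k => 1 - tanh (z x k) ^ 2) * dM z x +
      (dM (fun y k => tanh (z y k)) x - diagonal (fun k => 1 - tanh (z x k) ^ 2) * dM z x) := by abel
  have b1 : opn (diagonal (fun k => 1 - tanh (z x k) ^ 2) * dM z x) ≤ opn (dM z x) :=
    (Eig.opn_mul_le _ _).trans (mul_le_of_le_one_left (Eig.opn_nonneg _)
      (Eig.opn_diagonal_le zero_le_one fun k => by
        have := abs_le.1 (abs_tanh_lt_one (z x k)).le
        rw [abs_le]; constructor <;> nlinarith))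
  rw [e]
  refine (Eig.opn_add_le _ _).trans (add_le_add b1 (S3.Rg.had (by norm_num) fun k j => ?_))
  have e1 : z (fl x j) k = z x k + -2 * sv x j * dM z x k j := by
    have := S3.Rg.fl_eq (fun y => z y k) x j
    simp only [dM, of_apply]; linarith
  have h := tanh_taylor (z x k) (-2 * sv x j * dM z x k j)
  rw [← e1] at h
  have e2 : (dM (fun y k => tanh (z y k)) x - diagonal (fun k => 1 - tanh (z x k) ^ 2) * dM z x :
      Matrix (Fin n) (Fin n) ℝ) k j =
      -(sv x j / 2) * (tanh (z (fl x j) k) - tanh (z x k) -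
        (1 - tanh (z x k) ^ 2) * (-2 * sv x j * dM z x k j)) := by
    rw [Matrix.sub_apply, diagonal_mul]
    have : dM (fun y k => tanh (z y k)) x k j = sv x j * (tanh (z x k) - tanh (z (fl x j) k)) / 2 := by
      simp only [dM, of_apply, Rec.grad_eq]
    rw [this]
    linear_combination ((1 - tanh (z x k) ^ 2) * dM z x k j) * Rec.sv_mul_self x j
  rw [e2, abs_mul, abs_neg, abs_div, abs_sv, abs_two, ← abs_mul, abs_mul_self]
  have e3 : (-2 * sv x j * dM z x k j) ^ 2 = 4 * (dM z x k j * dM z x k j) := by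
    linear_combination (4 * (dM z x k j * dM z x k j)) * Rec.sv_mul_self x j
  rw [e3] at h
  linarith

theorem bd_tanh {z : VF n} {Λ : ℝ} (h1 : 1 ≤ Λ) (h : ∀ x, opn (dM z x) ≤ Λ) :
    Bd (5 * Λ ^ 2) fun y k => tanh (z y k) := fun x =>
  ⟨fun k => (abs_tanh_lt_one _).le.trans (by nlinarith), (opn_dM_tanh z x).trans (by
    nlinarith [h x, mul_le_mul (h x) (h x) (Eig.opn_nonneg _) (zero_le_one.trans h1)])⟩

/-- the response of the conditional means to a flat regular field -/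
theorem bd_resp {u O : VF n} {Λ e : ℝ} (h1 : 1 ≤ Λ) (e1 : e ≤ 1) (hu : ∀ x, opn (dM u x) ≤ Λ)
    (hO : ∀ x j, |O x j| ≤ e) (he : ∀ x, opn (dM O x) ≤ e) :
    Bd (8020 * e * Λ ^ 4) fun x k => tanh (u x k + O x k) - tanh (u x k) := by
  have e0 : 0 ≤ e := (Eig.opn_nonneg _).trans (he default)
  have a1 := bd_tanh h1 hu
  have a2 := bd_tanh (z := fun x => u x + O x) (Λ := 2 * Λ) (by linarith) fun x => by
    rw [S3.Rg.dM_add]; linarith [Eig.opn_add_le (dM u x) (dM O x), hu x, he x]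
  have a3 : Bd (5 * e) fun y k => tanh (O y k) := fun x =>
    ⟨fun k => by
      have := Ue.abs_tanh_sub_le (O x k) 0
      rw [tanh_zero, sub_zero, sub_zero] at this
      linarith [hO x k], (opn_dM_tanh O x).trans (by
      nlinarith [he x, mul_le_mul (he x) ((he x).trans e1) (Eig.opn_nonneg _) e0])⟩
  have a4 := a1.mul (by positivity) (by positivity) a2
  have l4 : 1 ≤ Λ ^ 4 := one_le_pow₀ h1
  have a5 : Bd (401 * Λ ^ 4) fun x k => 1 - tanh (u x k) * tanh (u x k + O x k) := fun x => by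
    refine ⟨fun k => (abs_sub _ _).trans ?_, ?_⟩
    · have : |tanh (u x k) * tanh (u x k + O x k)| ≤ _ := (a4 x).1 k
      rw [abs_one]; linarith
    · have e := S3.Rg.dM_sub (fun _ => 1) (fun x k => tanh (u x k) * tanh (u x k + O x k)) x
      rw [S3.Rg.dM_const, zero_sub] at e
      have : opn (dM (fun x k => tanh (u x k) * tanh (u x k + O x k)) x) ≤ _ := (a4 x).2
      rw [show dM (fun x k => 1 - tanh (u x k) * tanh (u x k + O x k)) x = _ from e, Eig.opn_neg]
      linarith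
  have a6 := a5.mul (by positivity) (by positivity) a3
  simp only [tanh_sub]
  exact a6.mono (le_of_eq (by ring))

theorem lip2_dot {c : VF n} {A : ℝ} (h : ∀ x, opn (dM c x) ≤ A) (a : Fin n → ℝ) :
    Lip2 (2 * (A * nrm a)) fun x => a ⬝ᵥ c x := Xt.lip2_of_grad fun x => by
  have e : grad (fun x => a ⬝ᵥ c x) x = (dM c x)ᵀ *ᵥ a := by
    ext j
    simp only [dotProduct, S3.Rg.grad_sum, Rec.grad_const_mul, mulVec, dM, transpose_apply, of_apply,
      Pi.smul_apply, smul_eq_mul]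
    exact Finset.sum_congr rfl fun _ _ => mul_comm _ _
  rw [e]
  refine (Eig.nrm_mulVec_le _ _).trans (mul_le_mul_of_nonneg_right ?_ (Eig.nrm_nonneg _))
  rw [Eig.opn_transpose]; exact h x

/-- mean vectors of a regular field under two laws -/
theorem vec_sub (hw : ∀ x, 0 < w x) (h1 : H1 w K) (hK : 0 < K) (hv : Wt v) (hp : Wt p) {c : VF n}
    {A : ℝ} (h : ∀ x, opn (dM c x) ≤ A) : (meanV v c - meanV p c) ⬝ᵥ (meanV v c - meanV p c) ≤
      4 * K * A ^ 2 * (16 * kl v w + 16 * kl p w + 12) := by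
  set a := meanV v c - meanV p c with ha
  have := h1.sub_sq hw hK (lip2_dot h a) hv.isP hp.isP
  have e : mean v (fun x => a ⬝ᵥ c x) - mean p (fun x => a ⬝ᵥ c x) = a ⬝ᵥ a := by
    rw [← meanV_dot, ← meanV_dot, ← dotProduct_sub]
  have h2 : (a ⬝ᵥ a) ^ 2 ≤ K * (2 * (A * nrm a)) ^ 2 * (16 * kl v w + 16 * kl p w + 12) := e ▸ this
  rw [mul_pow, mul_pow, Eig.nrm_sq] at h2
  have x0 : 0 ≤ 16 * kl v w + 16 * kl p w + 12 := by
    linarith [(S1n.pr_of hw hv).kl_nonneg, (S1n.pr_of hw hp).kl_nonneg]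
  rcases (dot_self_nonneg a).eq_or_lt with z | z
  · rw [← z]; positivity
  · exact le_of_mul_le_mul_left (by nlinarith) z

theorem meanV_sq_le (hv : Wt v) (c : VF n) : meanV v c ⬝ᵥ meanV v c ≤ mean v fun x => c x ⬝ᵥ c x := by
  simp only [dotProduct, mean_sum]
  refine Finset.sum_le_sum fun i _ => ?_
  have := hv.var_nonneg fun x => c x i
  rw [var_eq_cov, hv.cov_eq] at this
  simp only [meanV]; linarith

theorem sub_sq_le (a b : Fin n → ℝ) : (a - b) ⬝ᵥ (a - b) ≤ 2 * (a ⬝ᵥ a) + 2 * (b ⬝ᵥ b) := by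
  have := add_sq_le one_pos a (-b)
  rw [← sub_eq_add_neg, neg_dotProduct, dotProduct_neg, neg_neg] at this
  linarith

/-- **the part of the tilt**: `g = O + exc`; base `w` with (H1) -/
theorem th_part (hw : ∀ x, 0 < w x) (h1 : H1 w K) (hK : 0 < K) (hv : Wt v) (hp : Wt p) {u O g : VF n}
    {Gh : Cube n → ℝ} {Λ e a : ℝ} (hΛ : 1 ≤ Λ) (e1 : e ≤ 1) (hu : ∀ x, opn (dM u x) ≤ Λ)
    (hO : ∀ x j, |O x j| ≤ e) (he : ∀ x, opn (dM O x) ≤ e)
    (hx : ∀ x, ∑ j, (g x j - O x j) ^ 2 ≤ Gh x ^ 2) (hG : Lip2 a Gh) {d : VF n}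
    (hd : d = fun x k => tanh (u x k + g x k) - tanh (u x k)) :
    (meanV v d - meanV p d) ⬝ᵥ (meanV v d - meanV p d) ≤ 20 * mean v (fun x => Gh x ^ 2) +
      K * (10 ^ 10 * (e * Λ ^ 4) ^ 2 + 128 * a ^ 2) * (kl v w + kl p w + 1) := by
  set c : VF n := fun x k => tanh (u x k + O x k) - tanh (u x k) with hc
  set r : VF n := fun x k => tanh (u x k + g x k) - tanh (u x k + O x k) with hr
  have ee : meanV v d - meanV p d = (meanV v c - meanV p c) + (meanV v r - meanV p r) := by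
    ext k; simp only [hd, hc, hr, meanV, mean_sub, Pi.add_apply, Pi.sub_apply]; ring
  have r1 : ∀ x, r x ⬝ᵥ r x ≤ Gh x ^ 2 := fun x => le_trans (Finset.sum_le_sum fun k _ => by
    have := sq_le_sq.2 (Ue.abs_tanh_sub_le (u x k + g x k) (u x k + O x k))
    rw [add_sub_add_left_eq_sub] at this
    simpa only [sq] using this) (hx x)
  have b1 := vec_sub hw h1 hK hv hp fun x => (bd_resp hΛ e1 hu hO he x).2
  have b2 := (meanV_sq_le hv r).trans (hv.mean_mono r1)
  have b3 := (meanV_sq_le hp r).trans (hp.mean_mono r1)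
  have b4 : mean p (fun x => Gh x ^ 2) ≤ 4 * mean v (fun x => Gh x ^ 2) +
      K * a ^ 2 * (32 * kl v w + 16 * kl p w + 18) := h1.xfer hw hK hG hv.isP hp.isP
  have b5 := add_sq_le one_pos (meanV v c - meanV p c) (meanV v r - meanV p r)
  have b6 := sub_sq_le (meanV v r) (meanV p r)
  have k1 := (S1n.pr_of hw hv).kl_nonneg
  have k2 := (S1n.pr_of hw hp).kl_nonneg
  have c1 : 0 ≤ K * (e * Λ ^ 4) ^ 2 := by positivity
  have c2 : 0 ≤ K * a ^ 2 := by positivity
  rw [ee]
  nlinarith [mul_nonneg c1 k1, mul_nonneg c1 k2, mul_nonneg c2 k1, mul_nonneg c2 k2]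

end Crest.Agent.T157.EnS
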