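import Crest.Agent.T157.PosD_23

/-!
# Row 157, part B (S3): (ACC), (EMP), (POS) for the cavity field, all levels, SK form (helper23)

`T` is either the identity or the removal of the diagonal (`Adm`); `fld β J y` is the field
`b = y + J m - β² avg (1 - m²) m`; `Lv β s q` covers the level `s = 0`.
-/

set_option autoImplicit false

noncomputable section

namespace Crest.Agent.T157.Pos

open MeasureTheory ProbabilityTheory Matrix Filter Set Topology
open Crest.ProbabilityR.SpinGlassDynamics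
open Crest.Agent.T157.E Crest.Agent.T157.Eig Crest.Agent.T157.Cond Crest.Agent.T157.Tap
open Crest.Agent.T157.SL

variable {n : ℕ}

/-! ### the diagonal -/

/-- `J` differs from `W` by a small diagonal -/
def Nd (η : ℝ) (W J : Mx n) : Prop := ∃ d : V n, W = J + diagonal d ∧ nrm d ≤ 2 ∧ ∀ i, |d i| ≤ η

/-- admissible modifications of the diagonal -/
def Adm (T : ∀ n, Mx n → Mx n) : Prop := ∀ η > (0 : ℝ), Top.Whp GOE fun n W => Nd η W (T n W)

theorem adm_id : Adm fun _ W => W := fun η hη => Top.whp_of_eventually (.of_forall fun n W =>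
  ⟨0, by simp, by rw [nrm_zero]; norm_num, fun i => by simpa using hη.le⟩)

lemma whp_of_diag {P : ∀ n, V n → Prop} (hm : ∀ n, MeasurableSet {d : V n | ¬ P n d})
    (h : Top.Whp (fun n => gv (Fin n)) fun n g => P n fun i => √2 * g i / √n) :
    Top.Whp GOE fun n W => P n fun i => W i i := by
  refine tendsto_of_tendsto_of_tendsto_of_le_of_le tendsto_const_nhds h (fun n => zero_le)
    fun n => ?_
  have hm' : MeasurableSet {W : Mx n | ¬ P n fun i => W i i} :=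
    (hm n).preimage (measurable_pi_lambda _ fun i => measurable_id.t157_entry i i)
  refine ((mp_Wmat (n := n)).measure_preimage hm'.nullMeasurableSet).symm.trans_le
    (le_trans (measure_mono fun p hp => ?_) ((measurePreserving_snd (μ := disorderLaw n)
      (ν := gv (Fin n))).measure_preimage_le _))
  simpa [Wmat, Jmat_diag] using hp

lemma whp_d2 : Top.Whp GOE fun _ W => ∑ i, W i i ^ 2 ≤ 4 := by
  refine whp_of_diag (P := fun _ d => ∑ i, d i ^ 2 ≤ 4)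
    (fun n => (measurableSet_le (f := fun d : V n => ∑ i, d i ^ 2) (by fun_prop)
      measurable_const).compl) (Top.whp_of_real_le
      (((TapPl.tendsto_exp_neg (κ := 1 / 8) (by norm_num)).const_mul 2).trans_eq (by simp)) ?_)
  filter_upwards [eventually_gt_atTop 0] with n hn
  have hn' : (0 : ℝ) < n := by exact_mod_cast hn
  have h1 := Conc.chi_tail (ι := Fin n) Conc.sg1_gauss (fun _ => Conc.sq_entry false) hn'
    (by simp) hn'.le
  rw [show (n : ℝ) ^ 2 / (8 * n) = n / 8 by field_simp, min_self, Fintype.card_fin,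
    show -((n : ℝ) / 8) = -(1 / 8) * n by ring] at h1
  refine le_trans (measureReal_mono fun g hg => ?_) h1
  simp only [mem_ofPred_eq, not_le, div_pow, mul_pow, Real.sq_sqrt hn'.le,
    Real.sq_sqrt two_pos.le, ← Finset.sum_div, ← Finset.mul_sum, lt_div_iff₀ hn'] at hg ⊢
  exact le_trans (by linarith) (le_abs_self _)

lemma whp_d4 {η : ℝ} (hη : 0 < η) : Top.Whp GOE fun _ W => ∑ i, W i i ^ 4 ≤ η ^ 4 := by
  refine whp_of_diag (P := fun _ d => ∑ i, d i ^ 4 ≤ η ^ 4)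
    (fun n => (measurableSet_le (f := fun d : V n => ∑ i, d i ^ 4) (by fun_prop)
      measurable_const).compl) (Top.whp_of_real_le
      (tendsto_const_div_atTop_nhds_zero_nat (4 * TapFrz.m4 / η ^ 4)) ?_)
  filter_upwards [eventually_gt_atTop 0] with n hn
  have hn' : (0 : ℝ) < n := by exact_mod_cast hn
  have h := mul_meas_ge_le_integral_of_nonneg (μ := gv (Fin n)) (f := fun g => ∑ i, g i ^ 4)
    (ae_of_all _ fun g => Finset.sum_nonneg fun i _ => by positivity)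
    (integrable_finsetSum _ fun i _ => TapFrz.integrable_four_coord i) (η ^ 4 * n ^ 2 / 4)
  rw [integral_finsetSum _ fun i _ => TapFrz.integrable_four_coord i] at h
  simp only [TapFrz.integral_four_coord, Finset.sum_const, Finset.card_univ, Fintype.card_fin,
    nsmul_eq_mul] at h
  rw [← le_div_iff₀' (by positivity)] at h
  refine le_trans (measureReal_mono fun g hg => ?_) (h.trans_eq (by field_simp))
  have e1 : √(n : ℝ) ^ 4 = n ^ 2 := by rw [show 4 = 2 * 2 from rfl, pow_mul, Real.sq_sqrt hn'.le]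
  have e2 : √(2 : ℝ) ^ 4 = 4 := by
    rw [show 4 = 2 * 2 from rfl, pow_mul, Real.sq_sqrt two_pos.le]; norm_num
  simp only [mem_ofPred_eq, not_le, div_pow, mul_pow, e1, e2, ← Finset.sum_div, ← Finset.mul_sum,
    lt_div_iff₀ (show (0 : ℝ) < n ^ 2 by positivity)] at hg ⊢
  linarith

theorem adm_offd : Adm fun _ W => offd W := fun η hη => (whp_d2.and (whp_d4 hη)).imp
  fun n W h => ⟨fun i => W i i, by simp [offd], (nrm_le_iff two_pos.le).2 (by
    rw [dot_eq]; linarith [h.1]), fun i => by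
    have := (Finset.single_le_sum (f := fun i => W i i ^ 4) (fun _ _ => by positivity)
      (Finset.mem_univ i)).trans h.2
    rw [← (by decide : Even 4).pow_abs] at this
    exact (pow_le_pow_iff_left₀ (abs_nonneg _) hη.le (by norm_num)).1 this⟩

lemma Nd.prob {η : ℝ} {W J : Mx n} (h : Nd η W J) (β : ℝ) (y : V n) :
    prob (ising (β • W) y) = prob (ising (β • J) y) := by
  obtain ⟨d, rfl, -⟩ := h
  rw [smul_add, ← diagonal_smul, Pl.prob_ising_add_diagonal]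

lemma Nd.mag {η : ℝ} {W J : Mx n} (h : Nd η W J) (β : ℝ) (y : V n) :
    mag (ising (β • J) y) = mag (ising (β • W) y) := by
  funext i; simp only [E.mag, meanV, mean, h.prob]

lemma Nd.covM {η : ℝ} {W J : Mx n} (h : Nd η W J) (β : ℝ) (y : V n) :
    covM (ising (β • J) y) = covM (ising (β • W) y) := by
  funext i j; simp only [E.covM, covMat, E.cov, mean, h.prob]

/-- the SK form of `Typ` -/
def TypJ (β s : ℝ) (P : ∀ n, Mx n → V n → Prop) : Prop :=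
  ∃ κ > (0 : ℝ), Top.Whp disorderLaw fun n g =>
    (law sv (gibbsWeight n β g) s).real {y | ¬ P n (Jmat n g) y} ≤ Real.exp (-κ * n)

theorem Typ.toJ {β s : ℝ} {P : ∀ n, Mx n → V n → Prop}
    (h : Typ β s fun n W y => P n (offd W) y) : TypJ β s P := by
  obtain ⟨κ, hκ, h⟩ := h
  refine ⟨κ, hκ, Top.Whp.of_prod_fst (ν := fun n => gv (Fin n)) ((h.comp (T := fun n p =>
    Wmat n p.1 p.2) fun n => mp_Wmat).imp fun n p hp => ?_)⟩
  simpa only [law, GoeT.prob_ising_Wmat, offd_Wmat] using hp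

/-! ### the level `0` -/

lemma typ_zero {β : ℝ} {P : ∀ n, Mx n → V n → Prop} (h : Top.Whp GOE fun n W => P n W 0) :
    Typ β 0 P := ⟨1, one_pos, h.imp fun n W hW => by
  have : law sv (ising (β • W) 0) 0 {y | ¬ P n W y} = 0 := by
    refine measure_mono_null (t := {0}ᶜ) (fun y hy e => hy (by rwa [mem_singleton_iff.1 e])) ?_
    simp only [law, Measure.coe_finsetSum, Finset.sum_apply, Measure.smul_apply]
    refine Finset.sum_eq_zero fun x _ => ?_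
    rw [Measure.map_apply (by fun_prop) (measurableSet_singleton _).compl]
    simp [preimage]
  rw [Measure.real, this]; exact (Real.exp_pos _).le⟩

/-- levels: `q` is the overlap at the level `s` -/
def Lv (β s q : ℝ) : Prop := 0 ≤ s ∧ IsQ β s q ∧ (s = 0 → q = 0)

lemma gE_zero (f : ℝ → ℝ) : gE f 0 0 = f 0 := by simp [gE]

theorem lv_zero (β : ℝ) : Lv β 0 0 :=
  ⟨le_rfl, ⟨⟨le_rfl, zero_le_one⟩, by simp [gE_zero]⟩, fun _ => rfl⟩

theorem exists_lv (β : ℝ) {s : ℝ} (hs : 0 ≤ s) : ∃ q, Lv β s q := by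
  rcases hs.eq_or_lt with rfl | h
  · exact ⟨0, lv_zero β⟩
  · obtain ⟨q, hq⟩ := SE.exists_isQ β s
    exact ⟨q, hs, hq, fun e => absurd e h.ne'⟩

lemma emp_lo0 {ψ : ℝ → ℝ} (hf : Continuous ψ) {K : ℝ} (hb : ∀ x, -K ≤ ψ x) {e : ℝ} (he0 : 0 < e) :
    ∃ r > (0 : ℝ), ∀ n : ℕ, 0 < n → ∀ ξ : V n, nrm (th ξ) ≤ r * √n →
      ψ 0 - e ≤ avg fun i => ψ (ξ i) := by
  obtain ⟨L, h1, hL⟩ := (((lo_tendsto hb hf 0).eventually (lt_mem_nhds
    (show ψ 0 - e / 2 < ψ 0 by linarith))).and (eventually_gt_atTop 0)).exists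
  have L0 : (0 : ℝ) < L := by positivity
  refine ⟨e / 2 / L, by positivity, fun n hn ξ hξ => ?_⟩
  have hn' : (0 : ℝ) < n := by positivity
  have h4 := (avg_abs_le hn (th ξ)).trans ((div_le_iff₀ (by positivity)).2 hξ)
  rw [le_div_iff₀ L0] at h4
  have h5 : lo ψ L (Real.tanh 0) ≤ (avg fun i => ψ (ξ i)) + avg (fun i => |th ξ i|) * L := by
    rw [avg, avg, div_mul_eq_mul_div, ← add_div, Finset.sum_mul, ← Finset.sum_add_distrib,
      le_div_iff₀ hn', mul_comm, ← nsmul_eq_mul, ← Fin.sum_const]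
    refine Finset.sum_le_sum fun i _ => ?_
    have := lo_le hb L0.le (Real.tanh 0) (ξ i)
    rwa [Real.tanh_zero, sub_zero, mul_comm, ← Real.tanh_zero] at this
  linarith

lemma PosF.mono {κ κ' η η' C C' : ℝ} {J : Mx n} {al u : V n} (h : PosF κ η C J al u)
    (h0 : ∀ i, 0 ≤ al i) (h1 : κ' ≤ κ) (h2 : η' ≤ η) (h3 : C ≤ C') : PosF κ' η' C' J al u := by
  intro v
  have a1 : 0 ≤ qd al v := Finset.sum_nonneg fun i _ => mul_nonneg (h0 i) (sq_nonneg _)
  have a2 := mul_le_mul_of_nonneg_right h2 (Eig.dot_self_nonneg v)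
  have a3 : C / n * (u ⬝ᵥ v) ^ 2 ≤ C' / n * (u ⬝ᵥ v) ^ 2 := by gcongr
  nlinarith [h v]

lemma pos0 {β a0 : ℝ} (hβ : β ∈ Ioc (0 : ℝ) 1) (ha : β < a0) :
    ∃ κ η : ℝ, 0 < κ ∧ 0 < η ∧ ∀ a : ℝ → ℝ, Continuous a → (∀ x, a0 ≤ a x) →
      ∃ r > (0 : ℝ), Top.Whp GOE fun n W => ∀ ξ al : V n, nrm (th ξ) ≤ r * √n →
        (∀ i, a (ξ i) + β ^ 2 * (1 / a 0) - η ≤ al i) → PosF κ (8 * η) 0 (β • W) al 0 := by
  obtain ⟨κ, η, δ, κ1, κ0, kh, η0, -, δ0, κ10, hR⟩ := rob hβ ha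
  have a00 : 0 < a0 := hβ.1.trans ha
  refine ⟨κ, η, κ0, η0, fun a hca h0 => ?_⟩
  obtain ⟨L, hL, hG⟩ := gE_lo h0 hca (Φ := fun u => 1 / u) (by fun_prop)
    (fun x => continuousAt_const.div continuousAt_id (a00.trans_le (h0 x)).ne') (K := 1 / a0)
    (fun u x h1 _ => by
      rw [abs_of_pos (one_div_pos.2 (a00.trans_le h1))]; exact one_div_le_one_div_of_le a00 h1)
    0 0 η0
  rw [gE_zero, gE_zero, Real.tanh_zero] at hG
  set ρ := η / L with hρ
  have ρ0 : 0 < ρ := by positivity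
  refine ⟨√δ * ρ, by positivity, (Top.whp_of_real_le (P := fun n W => ¬ Viol β a0 κ δ
    (β ^ 2 * (1 / lo a L 0) - 10 * η) (10 * η) (fun _ => lo a L 0) W)
    (TapPl.tendsto_exp_neg κ10) ?_).mono ?_⟩
  · filter_upwards [eventually_gt_atTop 0] with n hn
    have := hR n hn (fun _ => lo a L 0) fun _ => le_lo h0 hL.le 0
    rw [avg, Fin.sum_const, nsmul_eq_mul, mul_div_cancel_left₀ _ (by positivity)] at this
    simpa only [not_not] using this
  filter_upwards [eventually_gt_atTop 0] with n hn W hW ξ al hξ hal v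
  have hn' : (0 : ℝ) < n := by positivity
  set T := Finset.univ.filter fun i => ρ < |th ξ i| with hT
  have hTc : (T.card : ℝ) ≤ δ * n := by
    have t1 := (card_far (u := th ξ) ρ0).trans (pow_le_pow_left₀ (nrm_nonneg _) hξ 2)
    rw [show (√δ * ρ * √(n : ℝ)) ^ 2 = √δ ^ 2 * √(n : ℝ) ^ 2 * ρ ^ 2 by ring,
      Real.sq_sqrt δ0.le, Real.sq_sqrt hn'.le] at t1
    exact le_of_mul_le_mul_right t1 (by positivity)
  have g1 : β ^ 2 * (1 / lo a L 0) ≤ β ^ 2 * (1 / a 0) + η := by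
    have t1 := mul_le_mul_of_nonneg_left (abs_le.1 hG).2 (sq_nonneg β)
    have t2 := mul_le_of_le_one_left η0.le (pow_le_one₀ (n := 2) hβ.1.le hβ.2)
    linarith
  have g2 : qd (cutT a0 T fun _ => lo a L 0) v + (β ^ 2 * (1 / lo a L 0) - 10 * η) * (v ⬝ᵥ v) ≤
      qd al v := by
    rw [← qd_add_const]
    refine qd_mono (fun i => ?_) v
    have t0 := hal i
    unfold cutT; split_ifs with hi
    · linarith [h0 (ξ i)]
    · have t1 : |Real.tanh (ξ i)| ≤ ρ :=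
        not_lt.1 fun hc => hi (Finset.mem_filter.2 ⟨Finset.mem_univ _, hc⟩)
      have t2 := lo_le h0 hL.le 0 (ξ i)
      rw [hρ, le_div_iff₀ hL] at t1
      rw [sub_zero] at t2; linarith
  have g3 := mul_le_mul_of_nonneg_left g2 (show 0 ≤ 1 - κ by linarith)
  have g4 := not_lt.1 fun hc => hW ⟨T, hTc, v, hc⟩
  have g5 := mul_nonneg η0.le (Eig.dot_self_nonneg v)
  rw [smul_mulVec, dotProduct_smul, smul_eq_mul, zero_div, zero_mul]
  linarith

/-! ### the final forms -/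

/-- the cavity field `b = y + J m - β² avg (1 - m²) m` -/
def fld (β : ℝ) (J : Mx n) (y : V n) : V n := Lp.cav (β • J) (β ^ 2) y (mag (ising (β • J) y))

lemma fld_tap {β η M : ℝ} (hβ : β ∈ Ioc (0 : ℝ) 1) {W J : Mx n} (h : Nd η W J) (hW : opn W ≤ 3)
    {x y : V n} (hx : Ymap (β • W) (β ^ 2) x = y) (hM : nrm (mag (ising (β • W) y) - th x) ≤ M) :
    nrm (fld β J y - x) ≤ 6 * M + 2 := by
  have hJ : opn (β • W) ≤ 3 := by
    rw [opn_smul, abs_of_pos hβ.1]; nlinarith [hβ.2, opn_nonneg W, hβ.1]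
  have hm := Lp.G1.cb_mag (Cov15.wt_ising (β • W) y)
  have h1 := Lp.G1.cav_lip hJ ⟨sq_nonneg β, pow_le_one₀ hβ.1.le hβ.2⟩ y (Ymap (β • W) (β ^ 2) x)
    hm (cb_th x)
  rw [Lp.G1.cav_Ymap, hx, sub_self, nrm_zero] at h1
  rw [fld, h.mag]
  set m := mag (ising (β • W) y)
  obtain ⟨d, rfl, hd, -⟩ := h
  have e : Lp.cav (β • J) (β ^ 2) y m - x =
      (Lp.cav (β • (J + diagonal d)) (β ^ 2) y m - x) - β • (diagonal d *ᵥ m) := by
    simp only [Lp.cav, smul_add, add_mulVec, smul_mulVec]; abel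
  have h2 : nrm (diagonal d *ᵥ m) ≤ nrm d := Real.sqrt_le_sqrt (Finset.sum_le_sum fun i _ => by
    rw [mulVec_diagonal, ← sq, ← sq, mul_pow]
    exact mul_le_of_le_one_right (sq_nonneg _) ((sq_le_one_iff_abs_le_one _).2 (hm i)))
  have h3 := nrm_sub_le (Lp.cav (β • (J + diagonal d)) (β ^ 2) y m - x) (β • (diagonal d *ᵥ m))
  rw [nrm_smul, abs_of_pos hβ.1] at h3
  rw [e]
  nlinarith [hβ.2, nrm_nonneg (diagonal d *ᵥ m), hβ.1]

variable {T : ∀ n, Mx n → Mx n} {β s q : ℝ}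

/-- **(ACC)** the cavity field is `O(1)`-close to every TAP solution (`s > 0`) -/
theorem accT (hT : Adm T) (hβ : β ∈ Ioc (0 : ℝ) 1) (hs : 0 < s) : ∃ M : ℝ, 0 ≤ M ∧
    Typ β s fun n W y => (∃ x, Ymap (β • W) (β ^ 2) x = y) ∧ ∀ x, Ymap (β • W) (β ^ 2) x = y →
      nrm (mag (ising (β • T n W) y) - th x) ≤ M ∧ nrm (fld β (T n W) y - x) ≤ M := by
  obtain ⟨M, -, h⟩ := acc hβ hs
  refine ⟨6 * √M + 2, by positivity, h.mono' ((hT 1 one_pos).and TapPl.whp_opn)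
    (.of_forall fun n W y hW hy => ⟨hy.1, fun x hx => ?_⟩)⟩
  have := Real.le_sqrt_of_sq_le (hy.2 x hx)
  exact ⟨by rw [hW.1.mag]; linarith [Real.sqrt_nonneg M], fld_tap hβ hW.1 hW.2 hx this⟩

/-- **(ACC)** the TAP equation for the magnetisation, up to `O(1)` in `ℓ²` (all levels) -/
theorem accF (hT : Adm T) (hβ : β ∈ Ioc (0 : ℝ) 1) (hs : 0 ≤ s) : ∃ M : ℝ, 0 ≤ M ∧
    Typ β s fun n W y => nrm (th (fld β (T n W) y) - mag (ising (β • T n W) y)) ≤ M := by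
  rcases hs.eq_or_lt with rfl | hs
  · refine ⟨0, le_rfl, typ_zero (Top.whp_of_eventually (.of_forall fun n W => ?_))⟩
    have : th (0 : V n) = 0 := funext fun _ => Real.tanh_zero
    simp [fld, TopL.mag_ising_zero, Lp.cav, this, nrm_zero]
  obtain ⟨M, M0, h⟩ := accT hT hβ hs
  refine ⟨2 * M, by positivity, h.mono (.of_forall fun n W y ⟨⟨x, hx⟩, hy⟩ => ?_)⟩
  have h1 := SE.nrm_th_sub_le (fld β (T n W) y) x
  have h2 := nrm_sub_le (th (fld β (T n W) y) - th x) (mag (ising (β • T n W) y) - th x)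
  rw [sub_sub_sub_cancel_right] at h2
  linarith [(hy x hx).1, (hy x hx).2]

lemma atF (hT : Adm T) (hβ : β ∈ Ioc (0 : ℝ) 1) (hs : 0 ≤ s) {P : ∀ n, Mx n → V n → V n → Prop}
    (h : ∃ r > (0 : ℝ), Typ β s fun n W y => ∀ ξ,
      nrm (th ξ - mag (ising (β • T n W) y)) ≤ r * √n → P n W y ξ) :
    Typ β s fun n W y => P n W y (fld β (T n W) y) := by
  obtain ⟨r, hr, h⟩ := h
  obtain ⟨M, M0, h'⟩ := accF hT hβ hs
  refine (h.and h').mono ?_
  filter_upwards [ev_sq (M := M ^ 2) hr] with n hn W y hy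
  exact hy.1 _ (hy.2.trans (abs_le_of_sq_le_sq' hn.2 (by positivity)).2)

/-- **(EMP)**, any field -/
theorem empT (hT : Adm T) (hβ : β ∈ Ioc (0 : ℝ) 1) (hL : Lv β s q) {ψ : ℝ → ℝ}
    (hf : Continuous ψ) (he : ∀ x, ψ (-x) = ψ x) {K : ℝ} (hb : ∀ x, |ψ x| ≤ K) {e : ℝ}
    (he0 : 0 < e) :
    ∃ r > (0 : ℝ), Typ β s fun n W y => ∀ ξ, nrm (th ξ - mag (ising (β • T n W) y)) ≤ r * √n →
      |avg (fun i => ψ (ξ i)) - gE ψ (s + β ^ 2 * q) (s + β ^ 2 * q)| ≤ e := by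
  rcases hL.1.eq_or_lt with rfl | hs
  · obtain ⟨r1, hr1, h1⟩ := emp_lo0 hf (fun x => (abs_le.1 (hb x)).1) he0
    obtain ⟨r2, hr2, h2⟩ := emp_lo0 hf.neg (K := K) (fun x => neg_le_neg (abs_le.1 (hb x)).2) he0
    refine ⟨min r1 r2, lt_min hr1 hr2, typ_zero (Top.whp_of_eventually ?_)⟩
    filter_upwards [eventually_gt_atTop 0] with n hn W ξ hξ
    rw [TopL.mag_ising_zero, sub_zero] at hξ
    have a1 := h1 n hn ξ (hξ.trans (by gcongr; exact min_le_left _ _))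
    have a2 := h2 n hn ξ (hξ.trans (by gcongr; exact min_le_right _ _))
    simp only [avg, Pi.neg_apply, Finset.sum_neg_distrib, neg_div] at a1 a2
    rw [hL.2.2 rfl, mul_zero, add_zero, gE_zero, avg]
    exact abs_le.2 ⟨by linarith, by linarith⟩
  obtain ⟨r, hr, h⟩ := emp hβ hs hL.2.1 hf he hb he0
  exact ⟨r, hr, h.mono' (hT 1 one_pos) (.of_forall fun n W y hW hy => by rwa [hW.mag])⟩

/-- **(EMP)** at the cavity field -/
theorem empF (hT : Adm T) (hβ : β ∈ Ioc (0 : ℝ) 1) (hL : Lv β s q) {ψ : ℝ → ℝ}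
    (hf : Continuous ψ) (he : ∀ x, ψ (-x) = ψ x) {K : ℝ} (hb : ∀ x, |ψ x| ≤ K) {e : ℝ}
    (he0 : 0 < e) : Typ β s fun n W y =>
      |avg (fun i => ψ (fld β (T n W) y i)) - gE ψ (s + β ^ 2 * q) (s + β ^ 2 * q)| ≤ e :=
  atF hT hβ hL.1 (P := fun _ _ _ ξ =>
    |avg (fun i => ψ (ξ i)) - gE ψ (s + β ^ 2 * q) (s + β ^ 2 * q)| ≤ e) (empT hT hβ hL hf he hb he0)

lemma PosF.nd {κ η C : ℝ} (hβ : β ∈ Ioc (0 : ℝ) 1) {W J : Mx n} (hW : Nd η W J) {al u : V n}
    (h : PosF κ (8 * η) C (β • W) al u) : PosF κ (7 * η) C (β • J) al u := by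
  intro v
  obtain ⟨d, rfl, -, hd⟩ := hW
  have h1 := h v
  have h2 : -η * (v ⬝ᵥ v) ≤ β * (v ⬝ᵥ diagonal d *ᵥ v) := by
    rw [dotProduct, dotProduct, Finset.mul_sum, Finset.mul_sum]
    refine Finset.sum_le_sum fun i _ => ?_
    have t1 : -η ≤ β * d i := by
      nlinarith [(abs_le.1 (hd i)).1, hβ.1, hβ.2, (abs_nonneg _).trans (hd i)]
    rw [mulVec_diagonal]
    nlinarith [mul_self_nonneg (v i)]
  simp only [smul_mulVec, add_mulVec, dotProduct_smul, dotProduct_add, smul_eq_mul] at h1 ⊢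
  linarith

/-- **(POS)**, any field, all levels -/
theorem posT (hT : Adm T) (hβ : β ∈ Ioc (0 : ℝ) 1) {a0 : ℝ} (ha : β < a0) :
    ∃ κ η : ℝ, 0 < κ ∧ κ ≤ 1 / 2 ∧ 0 < η ∧ ∀ t0 > (0 : ℝ), ∃ C : ℝ, 0 ≤ C ∧ ∀ s q, Lv β s q →
      (s = 0 ∨ t0 ≤ s) → ∀ a : ℝ → ℝ, Continuous a → (∀ x, a (-x) = a x) → (∀ x, a0 ≤ a x) →
      ∃ r > (0 : ℝ), Typ β s fun n W y => ∀ ξ,
        nrm (th ξ - mag (ising (β • T n W) y)) ≤ r * √n → ∀ al : V n,
        (∀ i, a (ξ i) + β ^ 2 * gE (fun x => 1 / a x) (s + β ^ 2 * q) (s + β ^ 2 * q) - η ≤ al i) →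
        PosF κ η C (β • T n W) al (mag (ising (β • T n W) y)) := by
  obtain ⟨κ, η, κ0, kh, η0, h⟩ := pos hβ ha
  obtain ⟨κ', η', κ0', η0', h'⟩ := pos0 hβ ha
  have a00 : 0 < a0 := hβ.1.trans ha
  set e := min (min η η') a0 with he
  have e0 : 0 < e := by positivity
  have e1 : e ≤ η := (min_le_left _ _).trans (min_le_left _ _)
  have e2 : e ≤ η' := (min_le_left _ _).trans (min_le_right _ _)
  have e3 : e ≤ a0 := min_le_right _ _
  refine ⟨min κ κ', e, lt_min κ0 κ0', (min_le_left _ _).trans kh, e0, fun t0 ht0 => ?_⟩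
  obtain ⟨C, C0, h⟩ := h t0 ht0
  refine ⟨C, C0, fun s q hL hs a hc hev h0 => ?_⟩
  have G0 : 0 ≤ β ^ 2 * gE (fun x => 1 / a x) (s + β ^ 2 * q) (s + β ^ 2 * q) := mul_nonneg
    (sq_nonneg _) (SE.gE_nonneg (fun x => (one_div_pos.2 (a00.trans_le (h0 x))).le) _ _)
  rcases hs with rfl | hs
  · obtain ⟨r, hr, w⟩ := h' a hc h0
    refine ⟨r, hr, typ_zero ((w.and (hT η' η0')).imp fun n W hW ξ hξ al hal => ?_)⟩
    rw [TopL.mag_ising_zero] at hξ ⊢
    refine ((hW.1 ξ al (by rwa [sub_zero] at hξ) fun i => ?_).nd hβ hW.2).mono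
      (fun i => by linarith [hal i, h0 (ξ i)]) (min_le_right _ _) (by linarith) C0
    have := hal i
    rw [hL.2.2 rfl, mul_zero, add_zero, gE_zero] at this
    linarith
  · obtain ⟨r, hr, w⟩ := h s q hs hL.2.1 a hc hev h0
    refine ⟨r, hr, w.mono' (hT η η0) (.of_forall fun n W y hW hy ξ hξ al hal => ?_)⟩
    rw [hW.mag] at hξ ⊢
    exact ((hy ξ al hξ fun i => by linarith [hal i]).nd hβ hW).mono
      (fun i => by linarith [hal i, h0 (ξ i)]) (min_le_left _ _) (by linarith) le_rfl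

/-- **(POS)** at the cavity field -/
theorem posF (hT : Adm T) (hβ : β ∈ Ioc (0 : ℝ) 1) {a0 : ℝ} (ha : β < a0) :
    ∃ κ η : ℝ, 0 < κ ∧ κ ≤ 1 / 2 ∧ 0 < η ∧ ∀ t0 > (0 : ℝ), ∃ C : ℝ, 0 ≤ C ∧ ∀ s q, Lv β s q →
      (s = 0 ∨ t0 ≤ s) → ∀ a : ℝ → ℝ, Continuous a → (∀ x, a (-x) = a x) → (∀ x, a0 ≤ a x) →
      Typ β s fun n W y => ∀ al : V n, (∀ i, a (fld β (T n W) y i) +
          β ^ 2 * gE (fun x => 1 / a x) (s + β ^ 2 * q) (s + β ^ 2 * q) - η ≤ al i) →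
        PosF κ η C (β • T n W) al (mag (ising (β • T n W) y)) := by
  obtain ⟨κ, η, κ0, kh, η0, h⟩ := posT hT hβ ha
  refine ⟨κ, η, κ0, kh, η0, fun t0 ht0 => (h t0 ht0).imp fun C hC =>
    ⟨hC.1, fun s q hL hs a hc he h0 => ?_⟩⟩
  exact atF hT hβ hL.1 (P := fun n W y ξ => ∀ al : V n, (∀ i, a (ξ i) +
    β ^ 2 * gE (fun x => 1 / a x) (s + β ^ 2 * q) (s + β ^ 2 * q) - η ≤ al i) →
      PosF κ η C (β • T n W) al (mag (ising (β • T n W) y))) (hC.2 s q hL hs a hc he h0)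

/-- inversion of `al - J` on a principal block `S`, in the unweighted norm: with
`w = 1_S (al - J) v / (al - μ)` and `v` supported in `S`, `|v|² ≤ C' (|w|² + (m·v)² / n)` -/
theorem PosF.inv {κ η C μ G K : ℝ} {J : Mx n} {al m : V n} (h : PosF κ η C J al m) (hκ : 0 < κ)
    (hC : 0 ≤ C) (hμ : 0 ≤ κ * μ + η) (hG : 0 < G) (hal : ∀ i, 1 / G ≤ al i - μ)
    (hJ : opn (J - μ • 1) ≤ K) (hm : Cb m) (S : Finset (Fin n)) {v w : V n}
    (hv : ∀ i ∉ S, v i = 0)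
    (hw : ∀ i, w i = if i ∈ S then (al i * v i - (J *ᵥ v) i) / (al i - μ) else 0) :
    v ⬝ᵥ v ≤ (2 + 8 * C * G / κ + 2 * (K * G / κ) ^ 2) * (w ⬝ᵥ w) +
      8 * C * G / κ / n * (m ⬝ᵥ v) ^ 2 := by
  have a0 : ∀ i, 0 < al i - μ := fun i => (one_div_pos.2 hG).trans_le (hal i)
  set B := J - μ • (1 : Mx n) with hB
  set z := v - w with hz
  have e1 : qd (fun i => al i - μ) z = z ⬝ᵥ B *ᵥ v := Finset.sum_congr rfl fun i _ => by
    have := (a0 i).ne'
    simp only [hz, hB, Pi.sub_apply, hw i, sub_mulVec, smul_mulVec, one_mulVec, Pi.smul_apply,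
      smul_eq_mul]
    split_ifs with hi
    · field_simp; ring
    · simp [hv i hi]
  have e2 : z ⬝ᵥ B *ᵥ v = z ⬝ᵥ J *ᵥ z - μ * (z ⬝ᵥ z) + z ⬝ᵥ B *ᵥ w := by
    rw [show v = z + w by simp [hz], mulVec_add, dotProduct_add]
    simp only [hB, sub_mulVec, smul_mulVec, one_mulVec, dotProduct_sub, dotProduct_smul,
      smul_eq_mul]
  have e3 : qd al z = qd (fun i => al i - μ) z + μ * (z ⬝ᵥ z) := by
    rw [← qd_add_const]; simp
  have z0 := Eig.dot_self_nonneg z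
  have w0 := Eig.dot_self_nonneg w
  have h1 : 1 / G * (z ⬝ᵥ z) ≤ qd (fun i => al i - μ) z := by
    have := qd_mono (A := fun _ => 0 + 1 / G) (B := fun i => al i - μ) (by simpa using hal) z
    rw [qd_add_const] at this
    simpa [qd] using this
  have h2 : z ⬝ᵥ B *ᵥ w ≤ nrm z * (K * nrm w) := (le_abs_self _).trans ((abs_dot_le _ _).trans
    (mul_le_mul_of_nonneg_left ((nrm_mulVec_le _ _).trans
      (mul_le_mul_of_nonneg_right hJ (nrm_nonneg _))) (nrm_nonneg _)))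
  have h3 : C / n * (m ⬝ᵥ z) ^ 2 ≤ 2 * C / n * (m ⬝ᵥ v) ^ 2 + 2 * C * (w ⬝ᵥ w) := by
    rcases Nat.eq_zero_or_pos n with hn | hn
    · simp only [hn, Nat.cast_zero, div_zero, zero_mul, zero_add]; positivity
    have hn' : (0 : ℝ) < n := by positivity
    have t1 : (m ⬝ᵥ w) ^ 2 ≤ n * (w ⬝ᵥ w) := by
      rw [← sq_abs, ← nrm_sq]
      refine (pow_le_pow_left₀ (abs_nonneg _) (abs_dot_le _ _) 2).trans ?_
      rw [mul_pow, nrm_sq m, dot_eq m]
      refine mul_le_mul_of_nonneg_right ((Finset.sum_le_sum fun i _ =>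
        (sq_le_one_iff_abs_le_one _).2 (hm i)).trans_eq (by simp)) (sq_nonneg _)
    have t2 : (m ⬝ᵥ z) ^ 2 ≤ 2 * (m ⬝ᵥ v) ^ 2 + 2 * (n * (w ⬝ᵥ w)) := by
      rw [hz, dotProduct_sub]; nlinarith [sq_nonneg (m ⬝ᵥ v + m ⬝ᵥ w)]
    refine (mul_le_mul_of_nonneg_left t2 (by positivity)).trans_eq ?_
    field_simp
  have h4 : κ / G * (z ⬝ᵥ z) ≤
      2 * C / n * (m ⬝ᵥ v) ^ 2 + 2 * C * (w ⬝ᵥ w) + nrm z * (K * nrm w) := by
    have t1 := h z
    have t2 := mul_le_mul_of_nonneg_left h1 hκ.le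
    have t3 := mul_nonneg hμ z0
    rw [e3] at t1
    rw [show κ / G * (z ⬝ᵥ z) = κ * (1 / G * (z ⬝ᵥ z)) by ring]
    nlinarith
  have h5 : z ⬝ᵥ z ≤ G / κ * (2 * C / n * (m ⬝ᵥ v) ^ 2 + 2 * C * (w ⬝ᵥ w)) +
      nrm z * (K * G / κ * nrm w) := by
    have := mul_le_mul_of_nonneg_left h4 (show 0 ≤ G / κ by positivity)
    refine le_trans (le_of_eq ?_) (this.trans_eq (by ring))
    field_simp
  have h6 : v ⬝ᵥ v ≤ 2 * (z ⬝ᵥ z) + 2 * (w ⬝ᵥ w) := by
    have := Eig.dot_self_nonneg (z - w)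
    rw [show v = z + w by simp [hz]]
    simp only [add_dotProduct, dotProduct_add, sub_dotProduct, dotProduct_sub] at this ⊢
    linarith
  have h7 := sq_nonneg (nrm z - K * G / κ * nrm w)
  rw [sub_sq, mul_pow, nrm_sq, nrm_sq] at h7
  have e4 : (2 + 8 * C * G / κ + 2 * (K * G / κ) ^ 2) * (w ⬝ᵥ w) +
      8 * C * G / κ / n * (m ⬝ᵥ v) ^ 2 = 2 * (w ⬝ᵥ w) + 2 * ((K * G / κ) ^ 2 * (w ⬝ᵥ w)) +
        4 * (G / κ * (2 * C / n * (m ⬝ᵥ v) ^ 2 + 2 * C * (w ⬝ᵥ w))) := by ring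
  rw [e4]; linarith

/-- the good branch: every TAP solution is good, and the TAP equations are accurate along its
branch over a macroscopic ball of fields -/
theorem accR (hβ : β ∈ Ioc (0 : ℝ) 1) (hs : 0 < s) : ∃ c r ρ M : ℝ, 0 < c ∧ 0 < r ∧ 0 < ρ ∧
    2 * ρ ≤ c * r ∧ 0 ≤ M ∧ Typ β s fun n W y => ∀ x, Ymap (β • W) (β ^ 2) x = y →
      GoodB (β • W) (β ^ 2) c (r * √n) (th x) ∧ ∀ v x', nrm v ≤ ρ * √n →
        Ymap (β • W) (β ^ 2) x' = y + v → nrm (th x' - th x) ≤ r * √n →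
        nrm (mag (ising (β • W) (y + v)) - th x') ^ 2 ≤ M := by
  obtain ⟨c, hc, r, hr, hG⟩ := LpAll.allGoodStmt β hβ s hs s
  obtain ⟨κ', hκ', wG⟩ := hG s ⟨le_rfl, le_rfl⟩
  obtain ⟨K, M, ρ, α, κ, A, M0, r1, r2, r3, hκ, -, w⟩ := Cov15.main TapFrz.measStmt ufStmt
    TapFrz.frzStmt exStmt errStmt lipCovStmt (winStmt exStmt) LpAll.frozStmt LpAll.allGoodStmt
    s hβ hs hc (ρm := c * r / 2) (by positivity)
  have α0 : 0 < α := (mul_pos_iff_of_pos_left hc).1 (by linarith)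
  have h1 : Typ β s fun n W y => ¬ BadY β c (r * √n) W y :=
    ⟨κ', hκ', wG.imp fun n W hW => by simpa only [not_not] using hW⟩
  have h2 : Typ β s fun n W y => ∀ x, Ymap (β • W) (β ^ 2) x = y → ∀ v x', nrm v ≤ ρ * √n →
      Ymap (β • W) (β ^ 2) x' = y + v → nrm (th x' - th x) ≤ α * √n →
      nrm (mag (ising (β • W) (y + v)) - th x') ^ 2 ≤ M + 1 := by
    refine ⟨κ / 4, by positivity, w.mono ?_⟩
    filter_upwards [Cov15.ev_num A hκ] with n hn W ⟨_, Γ, g1, g2, g3, g4⟩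
    have := isProb_law (φ := sv) (s := s) (Cov15.wt_ising (β • W) 0)
    have hE := slE_nonneg (φ := sv) (s := s) (F := fun _ y => Γ y) (Cov15.wt_ising (β • W) 0)
      fun _ y => g2 y
    have h1 := le_mul_of_one_le_left hE (Real.one_le_exp
      (show 0 ≤ 2 * (2 * ρ * √(n : ℝ)) * √(n : ℝ) by positivity))
    refine le_trans (measureReal_mono fun y hy => ?_) ((Cov15.law_markov g1 g2).trans ?_)
    · simp only [mem_ofPred_eq, not_forall, not_le] at hy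
      obtain ⟨x, hx, v, x', a1, a2, a3, hy⟩ := hy
      have := g3 x v x' (a1.trans (by gcongr; linarith)) (by rwa [hx]) a3
      rw [hx] at this
      rw [mem_ofPred_eq]; linarith
    · linarith [Real.exp_pos (-(κ / 2) * n)]
  refine ⟨c, min r α, ρ, M + 1, hc, lt_min hr α0, r1, ?_, by linarith,
    (h1.and h2).mono (.of_forall fun n W y hy x hx => ⟨fun p' b1 b2 => ?_, fun v x' a1 a2 a3 =>
      hy.2 x hx v x' a1 a2 (a3.trans (by gcongr; exact min_le_right _ _))⟩)⟩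
  · rw [mul_min_of_nonneg _ _ hc.le]; exact le_min (by linarith) r3
  · exact not_not.1 (fun hb => hy.1 ⟨x, hx, hb⟩) p' b1 (b2.trans (by gcongr; exact min_le_left _ _))

end Crest.Agent.T157.Pos

end
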