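import Crest.Agent.T157.RipC_25
import Crest.Agent.T157.PosE_23

/-!
# Row 157, part B (helper25): uniform Kac-Rice transfer, joint transfer with small posterior mass

`krU` is `Pos.kr` of helper23 (same proof) with constants that do not depend on the event.
-/

set_option autoImplicit false
set_option linter.unusedVariables false

noncomputable section

namespace Crest.Agent.T157.Rip

open MeasureTheory ProbabilityTheory Matrix Filter Set Topology
open Crest.ProbabilityR.SpinGlassDynamics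
open Crest.Agent.T157.E Crest.Agent.T157.Eig Crest.Agent.T157.Cond Crest.Agent.T157.Tap
open Crest.Agent.T157.SL Crest.Agent.T157.Pos

variable {n : ℕ}

open Kr50 in
/-- **generic Kac-Rice transfer**, uniform in the event -/
theorem krU {β s q ε1 κ1 : ℝ}
    (hβ : β ∈ Ioc (0 : ℝ) 1) (hs0 : 0 < s) (hq : IsQ β s q) (hε1 : 0 < ε1) (hκ1 : 0 < κ1) :
    ∃ c' > (0 : ℝ), ∃ ε > (0 : ℝ), ∃ κ > (0 : ℝ), ∀ᶠ n : ℕ in atTop,
      ∀ B : Set (Mx n × V n), MeasurableSet B →
      Ref n {z | |aS (xv β s q q z.1.1 z.1.2) - q| ≤ ε1 ∧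
        (glueW β (xv β s q q z.1.1 z.1.2) z.1.2 z.2, xv β s q q z.1.1 z.1.2) ∈ B} ≤
          ENNReal.ofReal (Real.exp (-κ1 * n)) →
      ((GOE n).prod (gv (Fin n))) {z | opn (plW β z.1 1) ≤ 3 ∧ DET (plW β z.1 1) β c' ε ∧
        ∃ x, Ymap (β • plW β z.1 1) (β ^ 2) x = s • (1 : V n) + Real.sqrt s • z.2 ∧
          (z.1, x) ∈ B} ≤ ENNReal.ofReal (Real.exp (-κ * n)) := by
  have hβ' : β ∈ Icc (0 : ℝ) 1 := ⟨hβ.1.le, hβ.2⟩
  obtain ⟨ν, hν, hqν⟩ := isQ_strong seStmt hβ' hs0 hq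
  obtain ⟨am1, ham1, κ2, hκ2, hH2⟩ := hoefStmt.2 s hs0
  obtain ⟨a, ha, haq⟩ := seStmt.2.1 s hs0
  have hqa : a ≤ q := by
    have := haq (s + β ^ 2 * q) (s + β ^ 2 * q) (by
      have := mul_nonneg (sq_nonneg β) hq.1.1
      linarith)
    rwa [← hq.2] at this
  set am : ℝ := min am1 a with ham
  have ham0 : 0 < am := by positivity
  obtain ⟨C, hC0⟩ := cellStmt β hβ' s hs0 am ham0
  set ε0 : ℝ := min (min ε1 (am / 2)) (κ1 / 2 / (|C| + 1)) with hε0
  have hε0p : 0 < ε0 := by positivity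
  have hε01 : ε0 ≤ ε1 := (min_le_left _ _).trans (min_le_left _ _)
  have hε02 : ε0 ≤ am / 2 := (min_le_left _ _).trans (min_le_right _ _)
  have hε03 : ε0 ≤ κ1 / 2 / (|C| + 1) := min_le_right _ _
  rw [le_div_iff₀ (by positivity)] at hε03
  obtain ⟨ε, hε, hεε0, κ3, hκ3, hfar⟩ := far cellStmt ramStmt hoefStmt hβ' hs0 ham0 hν hε0p hqν
  obtain ⟨F, hFK, hFfin, hFcov⟩ := Metric.finite_approx_of_totallyBounded
    ((isCompact_Icc (a := am) (b := 1)).prod ((isCompact_Icc (a := (-1 : ℝ)) (b := 1)).prod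
      (isCompact_Icc (a := (-6 : ℝ)) (b := 6)))).totallyBounded ε hε
  classical
  set F' : Finset (ℝ × ℝ × ℝ) := hFfin.toFinset.filter
    fun p => ε0 / 2 ≤ |p.2.2| ∨ ε0 / 2 ≤ |p.1 - q| + |p.2.1 - q| with hF'
  set κ : ℝ := min (min (κ1 / 2) κ2) κ3 with hκ
  have hκp : 0 < κ := by positivity
  have hk1 : κ ≤ κ1 / 2 := (min_le_left _ _).trans (min_le_left _ _)
  have hk2 : κ ≤ κ2 := (min_le_left _ _).trans (min_le_right _ _)
  have hk3 : κ ≤ κ3 := min_le_right _ _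
  refine ⟨am, ham0, ε, hε, κ / 2, by positivity, ?_⟩
  filter_upwards [ev_exp (3 + 4 * F'.card) hκp, eventually_gt_atTop 0] with n hev hn B hBm hSF
  have hn' : (0 : ℝ) < n := by positivity
  set H : Set (V n) := {g | 2 * Real.sqrt n < nrm g ∨ ∃ (J : Mx n) (b : ℝ) (x : V n), opn J ≤ 3 ∧
      b ∈ Icc (0 : ℝ) 1 ∧ Ymap J b x = s • (1 : V n) + Real.sqrt s • g ∧ aS x < am1} with hHd
  have hmono : ∀ {k : ℝ}, κ ≤ k → Real.exp (-k * n) ≤ Real.exp (-κ * n) := fun hk =>
    Real.exp_le_exp.2 (by nlinarith)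
  have b1 : ((GOE n).prod (gv (Fin n))) {z | z.2 ∈ H} ≤ ENNReal.ofReal (2 * Real.exp (-κ * n)) :=
    (prod_snd_le _ _ (fun z hz => hz)).trans ((hH2 n hn).trans
      (ENNReal.ofReal_le_ofReal (by linarith [hmono hk2])))
  have b2 : ((GOE n).prod (gv (Fin n))) (cellE n β s ε0 am q q 0 B) ≤
      ENNReal.ofReal (Real.exp (-κ * n)) := by
    refine (hC0 n ε0 am q q 0 B hn hε0p hε02 ⟨(min_le_right _ _).trans hqa, hq.1.2⟩ (by simp)
      hBm).trans (ofReal_mul_le (Real.exp_pos _).le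
        ((measure_mono fun z hz => ?_).trans hSF) ?_)
    · obtain ⟨h1, -, -, h3⟩ := hz
      exact ⟨h1.trans hε01, h3⟩
    · rw [← Real.exp_add]
      refine Real.exp_le_exp.2 ?_
      have : C * ε0 ≤ |C| * ε0 := mul_le_mul_of_nonneg_right (le_abs_self _) hε0p.le
      nlinarith
  have b3 : ((GOE n).prod (gv (Fin n))) (⋃ p ∈ F', cellE n β s ε am p.1 p.2.1 p.2.2 univ) ≤
      ENNReal.ofReal (F'.card * (4 * Real.exp (-κ * n))) := by
    refine (measure_biUnion_finset_le _ _).trans ?_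
    rw [ENNReal.ofReal_mul (Nat.cast_nonneg _), ENNReal.ofReal_natCast, ← nsmul_eq_mul]
    refine Finset.sum_le_card_nsmul _ _ _ fun p hp => ?_
    rw [hF', Finset.mem_filter, Finite.mem_toFinset] at hp
    have h1 := hFK hp.1
    refine (hfar n am p.1 p.2.1 p.2.2 hn h1.1 ?_ hp.2).trans
      (ENNReal.ofReal_le_ofReal (by linarith [hmono hk3]))
    exact abs_le.2 ⟨by linarith [h1.2.2.1], by linarith [h1.2.2.2]⟩
  calc _ ≤ ((GOE n).prod (gv (Fin n))) (({z | z.2 ∈ H} ∪ cellE n β s ε0 am q q 0 B) ∪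
        ⋃ p ∈ F', cellE n β s ε am p.1 p.2.1 p.2.2 univ) := by
        refine measure_mono fun z hz => ?_
        obtain ⟨h1, h2, x, h3, h4⟩ := hz
        by_cases hzH : z.2 ∈ H
        · exact Or.inl (Or.inl hzH)
        simp only [hHd, mem_ofPred_eq, not_or, not_lt, not_exists, not_and] at hzH
        obtain ⟨h5, h6⟩ := hzH
        have h7 : am ≤ aS x := (min_le_left _ _).trans (h6 _ _ x (by
          rw [opn_smul, abs_of_nonneg hβ'.1]
          nlinarith [opn_nonneg (plW β z.1 1), hβ.2, hβ.1])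
          ⟨sq_nonneg β, pow_le_one₀ hβ'.1 hβ.2⟩ h3)
        have h8 : avg (DD (th x)) ≤ 1 - am := by rw [avg_DD hn]; linarith
        have h9 := abs_SW_le hn hβ' h1 (ham0.trans_le h7)
        by_cases hcen : |aS x - q| ≤ ε0 ∧ |bS x - q| ≤ ε0 ∧ |SW β z.1 x - 0| ≤ ε0
        · exact Or.inl (Or.inr ⟨h1, DET_mono h2 (by linarith), h5, x, h3, h8, hcen.1, hcen.2.1,
            hcen.2.2, h4⟩)
        have h10 : (aS x, bS x, SW β z.1 x) ∈ Icc am 1 ×ˢ Icc (-1 : ℝ) 1 ×ˢ Icc (-6 : ℝ) 6 :=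
          ⟨⟨h7, aS_le_one x⟩, abs_le.1 (abs_bS_le x), abs_le.1 h9⟩
        obtain ⟨p, hpF, hp⟩ := mem_iUnion₂.1 (hFcov h10)
        rw [Metric.mem_ball, Prod.dist_eq, Prod.dist_eq, max_lt_iff, max_lt_iff, Real.dist_eq,
          Real.dist_eq, Real.dist_eq] at hp
        obtain ⟨p1, p2, p3⟩ := hp
        dsimp only at p1 p2 p3
        refine Or.inr (mem_iUnion₂.2 ⟨p, ?_, h1, h2, h5, x, h3, h8, p1.le, p2.le, p3.le, mem_univ _⟩)
        rw [hF', Finset.mem_filter, Finite.mem_toFinset]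
        refine ⟨hpF, ?_⟩
        by_contra hcon
        push Not at hcon
        obtain ⟨q1, q2⟩ := hcon
        have r1 := abs_sub_le (aS x) p.1 q
        have r2 := abs_sub_le (bS x) p.2.1 q
        have r3 := abs_sub_le (SW β z.1 x) p.2.2 0
        rw [sub_zero p.2.2] at r3
        have r4 := abs_nonneg (p.1 - q)
        have r5 := abs_nonneg (p.2.1 - q)
        exact hcen ⟨by linarith, by linarith, by linarith⟩
    _ ≤ ENNReal.ofReal (2 * Real.exp (-κ * n)) + ENNReal.ofReal (Real.exp (-κ * n)) +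
        ENNReal.ofReal (F'.card * (4 * Real.exp (-κ * n))) :=
        (measure_union_le _ _).trans (add_le_add ((measure_union_le _ _).trans (add_le_add b1 b2)) b3)
    _ ≤ _ := by
        rw [← ENNReal.ofReal_add (by positivity) (by positivity),
          ← ENNReal.ofReal_add (by positivity) (by positivity)]
        exact ENNReal.ofReal_le_ofReal (by linarith)
/-- posterior mass of a joint event -/
lemma law_post' (J : Mx n) {s c : ℝ} (hs : 0 ≤ s) (hc : 0 < c) {A : Cube n → Set (V n)}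
    (hA : ∀ σ, MeasurableSet (A σ)) :
    (law sv (ising J 0) s).real {y | c ≤ mean (ising J y) fun σ => (A σ).indicator 1 y} ≤
      c⁻¹ * mean (ising J 0) fun σ => px sv s (A σ) σ := by
  have hF : ∀ σ, MG ((A σ).indicator (1 : V n → ℝ)) := fun σ => (MG.const 1).indicator (hA σ)
  have h1 := mg_mean (φ := sv) (Cov15.wt_ising J 0) s hF
  have h2 := bayes (φ := sv) (Cov15.wt_ising J 0) hs (SInt.of_mg hF)
  simp only [mean_post_sv, Cov15.tilt0] at h1 h2
  have h3 := Cov15.law_markov (J := J) (s := s) (h1.const_mul c⁻¹) fun y =>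
    mul_nonneg (inv_pos.2 hc).le ((Cov15.wt_ising J y).mean_nonneg fun σ =>
      indicator_nonneg (fun _ _ => zero_le_one) y)
  rw [slE_const_mul, ← h2, slE_eq_mean] at h3
  have e : ∀ σ : Cube n, ∫ z, (A σ).indicator (1 : V n → ℝ) (s • sv σ + √s • z) ∂Gs (Fin n) =
      px sv s (A σ) σ := fun σ => by
    rw [px, ← integral_indicator_one (hA σ), integral_map (by fun_prop)
      (measurable_one.indicator (hA σ)).aestronglyMeasurable]
  simp only [e] at h3
  refine le_trans (le_of_eq ?_) h3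
  congr 1; ext y; simp only [mem_ofPred_eq]; rw [le_inv_mul_iff₀ hc, mul_one]

/-- the posterior mass of `{σ | ¬ P}` is exponentially small, for typical fields -/
def TypS (β s κ : ℝ) (P : ∀ n, Mx n → V n → Cube n → Prop) : Prop :=
  Top.Whp GOE fun n W => (law sv (ising (β • W) 0) s).real {y | Real.exp (-κ * n) ≤
    mean (ising (β • W) y) ({σ | ¬ P n W y σ}.indicator 1)} ≤ Real.exp (-κ * n)

/-- **joint transfer** -/
theorem joint' {β s κ : ℝ} (hβ : β ∈ Icc (0 : ℝ) 1) (hs : 0 ≤ s) (hκ : 0 < κ)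
    {A : ∀ n, Cube n → Set (Mx n × V n)} (hA : ∀ n σ, MeasurableSet (A n σ))
    (h : ∀ᶠ n : ℕ in atTop, ∀ σ : Cube n, ((GOE n).prod (gv (Fin n)))
      {z | (plW β z.1 (sv σ), s • sv σ + Real.sqrt s • z.2) ∈ A n σ} ≤
        ENNReal.ofReal (Real.exp (-κ * n))) :
    TypS β s (κ / 4) fun n W y σ => (W, y) ∉ A n σ := by
  have h1 := Pl.tendsto_LRW_lt_rpow hβ.1 hβ.2 (a := κ / 4) (c := 1) (by positivity) one_pos
  refine Top.whp_of_real_le ((h1.add (TapPl.tendsto_exp_neg (κ := κ / 4) (by positivity))).trans_eq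
    (by simp)) ?_
  filter_upwards [h] with n hn
  refine le_trans (measureReal_mono fun W hW => ?_) ((transfer_joint β s (hA n)
    (Real.exp_pos (-(κ / 2) * n)) (Real.exp_pos (-(κ / 4 * (n : ℝ) ^ (1 : ℝ))))
    (δ := Real.exp (-κ * n))
      fun σ => ENNReal.toReal_le_of_le_ofReal (Real.exp_pos _).le (hn σ)).trans_eq ?_)
  · have h2 := law_post' (β • W) hs (Real.exp_pos (-(κ / 4) * n))
      (A := fun σ => {y | (W, y) ∈ A n σ}) fun σ => measurable_prodMk_left (hA n σ)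
    have e : ∀ y, ({σ | ¬ (W, y) ∉ A n σ}.indicator 1 : Cube n → ℝ) =
        fun σ => {y | (W, y) ∈ A n σ}.indicator 1 y := fun y => funext fun σ => by
      classical simp [indicator_apply]
    simp only [mem_ofPred_eq, not_le, e] at hW ⊢
    have h3 := hW.trans_le h2
    rw [lt_inv_mul_iff₀ (Real.exp_pos _), ← Real.exp_add] at h3
    exact le_trans (le_of_eq (by congr 1; ring)) h3.le
  · rw [← Real.exp_add, ← Real.exp_sub, Real.rpow_one]
    congr 2
    ring

lemma ind_le {P Q : Cube n → Prop} (h : ∀ σ, P σ → Q σ) (σ : Cube n) :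
    ({σ | ¬ Q σ}.indicator 1 : Cube n → ℝ) σ ≤ {σ | ¬ P σ}.indicator 1 σ :=
  indicator_le_indicator_of_subset (s := {σ | ¬ Q σ}) (t := {σ | ¬ P σ})
    (fun σ hσ h' => hσ (h σ h')) (fun _ => zero_le_one) σ

lemma TypS.mono' {β s κ : ℝ} {P Q : ∀ n, Mx n → V n → Cube n → Prop} (h : TypS β s κ P)
    {R : ∀ n, Mx n → Prop} (hR : Top.Whp GOE R)
    (hPQ : ∀ᶠ n in atTop, ∀ W y σ, R n W → P n W y σ → Q n W y σ) : TypS β s κ Q := by
  refine (h.and hR).mono (hPQ.mono fun n hn W hW => le_trans ?_ hW.1)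
  have := isProb_law (φ := sv) (s := s) (Cov15.wt_ising (β • W) 0)
  refine measureReal_mono fun y hy => le_trans hy ((Cov15.wt_ising _ _).mean_mono fun σ => ?_)
  exact ind_le (fun σ => hn W y σ hW.2) σ

/-- combination with a typical property of the field -/
lemma TypS.mono_typ {β s κ : ℝ} (hκ : 0 < κ) {P Q : ∀ n, Mx n → V n → Cube n → Prop}
    (h : TypS β s κ P) {R : ∀ n, Mx n → V n → Prop} (hR : Typ β s R)
    (hPQ : ∀ᶠ n in atTop, ∀ W y σ, R n W y → P n W y σ → Q n W y σ) :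
    ∃ κ' > (0 : ℝ), TypS β s κ' Q := by
  obtain ⟨κ1, h1, hR⟩ := hR
  have h0 := lt_min hκ h1
  refine ⟨min κ κ1 / 2, by positivity, (h.and hR).mono ?_⟩
  filter_upwards [hPQ, Kr50.ev_exp 2 h0] with n hn h2 W hW
  have := isProb_law (φ := sv) (s := s) (Cov15.wt_ising (β • W) 0)
  have n0 : (0 : ℝ) ≤ n := Nat.cast_nonneg n
  have b : ∀ {k k' : ℝ}, k ≤ k' → Real.exp (-k' * n) ≤ Real.exp (-k * n) := fun hk =>
    Real.exp_le_exp.2 (by nlinarith)
  refine le_trans (measureReal_mono fun y hy => ?_) (((measureReal_union_le _ _).trans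
    (add_le_add hW.1 hW.2)).trans (by linarith [b (min_le_left κ κ1), b (min_le_right κ κ1)]))
  by_cases hy' : R n W y
  · refine Or.inl ((b (by linarith [min_le_left κ κ1])).trans (le_trans hy
      ((Cov15.wt_ising _ _).mean_mono fun σ => ?_)))
    exact ind_le (fun σ => hn W y σ hy') σ
  · exact Or.inr hy'

/-- properties that do not depend on the spins -/
lemma TypS.typ {β s κ : ℝ} (hκ : 0 < κ) {P : ∀ n, Mx n → V n → Prop}
    (h : TypS β s κ fun n W y _ => P n W y) : Typ β s P := by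
  refine ⟨κ, hκ, h.imp fun n W hW => le_trans ?_ hW⟩
  have := isProb_law (φ := sv) (s := s) (Cov15.wt_ising (β • W) 0)
  refine measureReal_mono fun y hy => (Cov15.wt_ising _ _).le_mean fun σ => ?_
  rw [indicator_of_mem (by exact hy)]
  exact Real.exp_le_one_iff.2 (by have : (0 : ℝ) ≤ n := Nat.cast_nonneg n; nlinarith)

/-- as a typical property of the field -/
lemma TypS.toTyp {β s κ : ℝ} (hκ : 0 < κ) {P : ∀ n, Mx n → V n → Cube n → Prop}
    (h : TypS β s κ P) : Typ β s fun n W y =>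
      mean (ising (β • W) y) ({σ | ¬ P n W y σ}.indicator 1) < Real.exp (-κ * n) :=
  ⟨κ, hκ, by simpa only [not_lt, TypS] using h⟩

open TapPl in
/-- **TAP transfer** of open events of `(σ, W, x)`, uniform in the event -/
theorem tapS {β s q ε1 κ1 : ℝ} (hβ : β ∈ Ioc (0 : ℝ) 1) (hs0 : 0 < s) (hq : IsQ β s q)
    (hε1 : 0 < ε1) (hκ1 : 0 < κ1) : ∃ κ > (0 : ℝ), ∀ B : ∀ n, Cube n → Set (Mx n × V n),
    (∀ n σ, IsOpen (B n σ)) → (∀ᶠ n : ℕ in atTop, ∀ σ : Cube n,
      Ref n {z | |aS (xv β s q q z.1.1 z.1.2) - q| ≤ ε1 ∧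
        (cj (sv σ) (plW β (glueW β (xv β s q q z.1.1 z.1.2) z.1.2 z.2) 1),
          sv σ * xv β s q q z.1.1 z.1.2) ∈ B n σ} ≤ ENNReal.ofReal (Real.exp (-κ1 * n))) →
    TypS β s κ fun n W y σ => ∀ x, Ymap (β • W) (β ^ 2) x = y → (W, x) ∉ B n σ := by
  have hβ' : β ∈ Icc (0 : ℝ) 1 := ⟨hβ.1.le, hβ.2⟩
  obtain ⟨c', hc', ε, hε, κ, hκ, h⟩ := krU hβ hs0 hq hε1 hκ1
  refine ⟨κ / 4, by positivity, fun B hB hSF => ?_⟩
  have hA : ∀ (n : ℕ) (σ : Cube n), MeasurableSet {z : Mx n × V n | opn z.1 ≤ 3 ∧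
      DET z.1 β c' ε ∧ ∃ x, Ymap (β • z.1) (β ^ 2) x = z.2 ∧ (z.1, x) ∈ B n σ} := by
    intro n σ
    refine (measurableSet_le (Nrm.measurable_opn'.comp measurable_fst) measurable_const).inter
      (((TapFrz.measStmt n β 0 0 c' ε).2.2.preimage measurable_fst).inter ?_)
    obtain ⟨f, hf, hfB⟩ := exists_pos_fun (hB n σ)
    have := TapFrz.measurableSet_exists_pos (Θ := Mx n × V n) (X := V n)
      (C := {w | Ymap (β • w.1.1) (β ^ 2) w.2 = w.1.2}) (isClosed_eq (TapFrz.cont_Ymap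
        (by fun_prop) continuous_const continuous_snd) (by fun_prop))
        (f := fun w => f (w.1.1, w.2)) (hf.comp (by fun_prop))
    simp only [hfB]
    exact this
  refine (joint' hβ' hs0.le hκ hA ?_).mono' (whp_opn.and (detStmt14 β hβ' c' hc' ε hε))
    (.of_forall fun n W y σ hW h1 x hx h2 => h1 ⟨hW.1, hW.2, x, hx, h2⟩)
  filter_upwards [h, hSF] with n hn hSF σ
  have hc : Continuous fun z : Mx n × V n => (cj (sv σ) (plW β z.1 1), sv σ * z.2) := by
    unfold cj plW; fun_prop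
  refine (planted_gauge β s (hA n σ) σ).trans_le (le_trans (measure_mono fun z hz => ?_)
    (hn _ ((hB n σ).preimage hc).measurableSet (hSF σ)))
  have hσ := Pl.isSign_sv σ
  obtain ⟨h1, h2, x, h3, h4⟩ := hz
  refine ⟨by rwa [opn_cj hσ] at h1, ?_, sv σ * x, ?_, ?_⟩
  · simpa only [cj_cj hσ] using DET_cj hσ h2
  · have := Ymap_cj hσ (β • cj (sv σ) (plW β z.1 1)) (β ^ 2) x
    dsimp only at h3
    rw [h3, cj_smul, cj_cj hσ, hσ.mul_self] at this
    exact this
  · simpa only [mem_preimage, hσ.mul_self] using h4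

end Crest.Agent.T157.Rip

end
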