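import Crest.Agent.T157.EnAC_25
import Crest.Agent.T157.RipD_25
import Crest.Agent.T157.PosE_23

/-!
# Row 157, part B (END, helper25): graded counts of large coordinates along the localisation
-/

set_option autoImplicit false
set_option linter.unusedVariables false

noncomputable section

namespace Crest.Agent.T157.Rip

open Matrix Finset MeasureTheory ProbabilityTheory Filter Topology
open Crest.ProbabilityR.SpinGlassDynamics
open Crest.Agent.T157.Eig Crest.Agent.T157.E Crest.Agent.T157.Cond Crest.Agent.T157.SL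
open Crest.Agent.T157.Tap Crest.Agent.T157.Pos

variable {n : ℕ}

/-- graded sub-Gaussian counts, down to the density `φ` -/
def Cnt (K φ b : ℝ) (z : V n) : Prop :=
  ∀ x ≥ (0 : ℝ), ((univ.filter fun j => x + b < |z j|).card : ℝ) ≤
    max φ (Real.exp (3 - x ^ 2 / (2 * K))) * n

lemma isOpen_not_Cnt (K φ b : ℝ) : IsOpen {z : V n | ¬ Cnt K φ b z} := by
  have : {z : V n | ¬ Cnt K φ b z} = ⋃ x ≥ (0 : ℝ), ⋃ A : Finset (Fin n),
      ⋃ _ : max φ (Real.exp (3 - x ^ 2 / (2 * K))) * n < (A.card : ℝ),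
      ⋂ j ∈ A, {z : V n | x + b < |z j|} := by
    ext y
    simp only [Cnt, Set.mem_ofPred_eq, not_forall, not_le, Set.mem_iUnion, Set.mem_iInter]
    exact ⟨fun ⟨c, h1, h2⟩ => ⟨c, h1, _, h2, fun j hj => (mem_filter.1 hj).2⟩,
      fun ⟨c, h1, A, h2, h3⟩ => ⟨c, h1, h2.trans_le (Nat.cast_le.2 (card_le_card fun j hj =>
        mem_filter.2 ⟨mem_univ _, h3 j hj⟩))⟩⟩
  rw [this]
  exact isOpen_biUnion fun c _ => isOpen_iUnion fun A => isOpen_iUnion fun _ =>
    isOpen_biInter_finset fun j _ => isOpen_lt continuous_const (by fun_prop)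

lemma Cnt.shift {K φ b c : ℝ} {z w : V n} (h : Cnt K φ b z) (hw : ∀ j, |w j| ≤ |z j| + c) :
    Cnt K φ (b + c) w := fun x hx => (Nat.cast_le.2 (card_le_card fun j hj => mem_filter.2
      ⟨mem_univ _, by linarith [(mem_filter.1 hj).2, hw j]⟩)).trans (h x hx)

/-- signed indicator -/
def sgi (F G : Finset (Fin n)) : V n := fun j => if j ∈ F then if j ∈ G then 1 else -1 else 0

lemma sgi_sq (F G : Finset (Fin n)) : sgi F G ⬝ᵥ sgi F G = F.card := by
  rw [card_eq_sum_ones, Nat.cast_sum, ← inter_univ F, inter_comm, ← sum_ite_mem, univ_inter]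
  exact sum_congr rfl fun j _ => by unfold sgi; split_ifs <;> simp

theorem cnt_tail {Ω : Type*} [MeasurableSpace Ω] (μ : Measure Ω) [IsProbabilityMeasure μ]
    (z : Ω → V n) {K φ : ℝ} (hK : 0 < K) (hφ : 0 < φ) (hz : ∀ a : V n, ∀ r ≥ (0 : ℝ),
      μ.real {ω | r ≤ a ⬝ᵥ z ω} ≤ Real.exp (-r ^ 2 / (2 * (K * (a ⬝ᵥ a))))) :
    μ.real {ω | ¬ Cnt K φ 0 (z ω)} ≤ n * Real.exp (-φ * n) := by
  set r : ℕ → ℝ := fun k => k * √(2 * K * (3 + Real.log (n / k))) with hr
  have hsub : {ω | ¬ Cnt K φ 0 (z ω)} ⊆ ⋃ k ∈ (Icc 1 n).filter fun k : ℕ => φ * n ≤ k,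
      ⋃ F ∈ univ.filter fun F : Finset (Fin n) => F.card = k, ⋃ G ∈ F.powerset,
        {ω | r k ≤ sgi F G ⬝ᵥ z ω} := by
    intro ω hω
    simp only [Cnt, Set.mem_ofPred_eq, not_forall, not_le, add_zero] at hω
    obtain ⟨x, x0, h⟩ := hω
    set F := univ.filter fun j => x < |z ω j| with hF
    have n0 : (0 : ℝ) ≤ n := Nat.cast_nonneg n
    have h1 := (mul_le_mul_of_nonneg_right (le_max_left _ _) n0).trans_lt h
    have h2 := (mul_le_mul_of_nonneg_right (le_max_right _ _) n0).trans_lt h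
    have k0 : (0 : ℝ) < F.card := (mul_nonneg hφ.le n0).trans_lt h1
    have kn : F.card ≤ n := by simpa using card_le_univ F
    have n1 : (0 : ℝ) < n := k0.trans_le (Nat.cast_le.2 kn)
    simp only [Set.mem_iUnion]
    refine ⟨F.card, mem_filter.2 ⟨mem_Icc.2 ⟨Nat.cast_pos.1 k0, kn⟩, h1.le⟩, F,
      mem_filter.2 ⟨mem_univ _, rfl⟩, F.filter fun j => 0 ≤ z ω j, mem_powerset.2 (filter_subset _ _),
      le_trans (b := F.card * x) (mul_le_mul_of_nonneg_left (Real.sqrt_le_iff.2 ⟨x0, ?_⟩) k0.le) ?_⟩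
    · rw [← lt_div_iff₀ n1, ← Real.lt_log_iff_exp_lt (by positivity), ← inv_div (n : ℝ), Real.log_inv] at h2
      rw [← le_div_iff₀' (by positivity)]
      linarith
    · rw [← nsmul_eq_mul, ← sum_const, dotProduct, ← sum_subset (subset_univ F) fun j _ hj => by
        rw [sgi, if_neg hj, zero_mul]]
      refine sum_le_sum fun j hj => (mem_filter.1 hj).2.le.trans (le_of_eq ?_)
      rw [sgi, if_pos hj]
      split_ifs with h3
      · rw [one_mul, abs_of_nonneg (mem_filter.1 h3).2]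
      · rw [neg_one_mul, abs_of_neg (not_le.1 fun h4 => h3 (mem_filter.2 ⟨hj, h4⟩))]
  refine (measureReal_mono hsub (measure_ne_top _ _)).trans
    ((measureReal_biUnion_finset_le _ _).trans ((sum_le_card_nsmul _ _ (Real.exp (-φ * n))
      fun k hk => ?_).trans ?_))
  · obtain ⟨h1, h2⟩ := mem_filter.1 hk
    obtain ⟨k1, kn⟩ := mem_Icc.1 h1
    have k0 : (0 : ℝ) < k := Nat.cast_pos.2 k1
    have kn' : (k : ℝ) ≤ n := Nat.cast_le.2 kn
    have n1 := k0.trans_le kn'
    have L0 : 0 ≤ Real.log (n / k) := Real.log_nonneg ((one_le_div k0).2 kn')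
    refine (measureReal_biUnion_finset_le _ _).trans ((sum_le_sum (g := fun F =>
      Real.exp (-(k * (3 + Real.log (n / k)))) * 2 ^ F.card) fun F hF => ?_).trans ?_)
    · refine (measureReal_biUnion_finset_le _ _).trans ((sum_le_card_nsmul _ _
        (Real.exp (-(k * (3 + Real.log (n / k))))) fun G _ => ?_).trans_eq ?_)
      · refine (hz _ _ (by positivity)).trans_eq ?_
        rw [sgi_sq, (mem_filter.1 hF).2, hr, mul_pow, Real.sq_sqrt (by positivity)]
        congr 1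
        field_simp
      · rw [card_powerset, nsmul_eq_mul, mul_comm]; push_cast; rfl
    · rw [← mul_sum]
      have h3 := sum_small (ι := Fin n) (m := k) (t := k / n) (c := 2) (by positivity)
        (((div_le_one n1).2 kn').trans one_le_two)
      rw [Fintype.card_fin, div_mul_cancel₀ _ n1.ne', div_div_eq_mul_div, mul_div_assoc,
        Real.log_mul two_ne_zero (by positivity)] at h3
      refine (mul_le_mul_of_nonneg_left ((sum_le_sum_of_subset_of_nonneg (fun F hF => mem_filter.2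
        ⟨mem_univ _, Nat.cast_le.2 (mem_filter.1 hF).2.le⟩) fun _ _ _ => by positivity).trans h3)
        (Real.exp_pos _).le).trans ?_
      rw [← Real.exp_add, Real.exp_le_exp]
      nlinarith [Real.log_le_sub_one_of_pos two_pos]
  · rw [nsmul_eq_mul]
    exact mul_le_mul_of_nonneg_right (Nat.cast_le.2 ((card_filter_le _ _).trans (by simp)))
      (Real.exp_pos _).le

lemma subG_std : HasSubgaussianMGF id 1 (gaussianReal 0 1) := Nrm.subG_entryLaw false

lemma cnt_gv {s φ : ℝ} (hs : 0 < s) (hφ : 0 < φ) :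
    (gv (Fin n)).real {g | ¬ Cnt s φ 0 (√s • g)} ≤ n * Real.exp (-φ * n) :=
  cnt_tail _ _ hs hφ fun a r hr => by
    have := (Nrm.subG_dot (fun _ : Fin n => gaussianReal 0 1) (fun _ => subG_std) (√s • a)
      (c := NNReal.mk (s * (a ⬝ᵥ a)) (mul_nonneg hs.le (Eig.dot_self_nonneg a))) (le_of_eq (by
        simp [mul_pow, Real.sq_sqrt hs.le, dotProduct, mul_sum, sq (a _)]))).measure_ge_le hr
    refine le_trans (le_of_eq ?_) this
    simp only [dotProduct, Pi.smul_apply, smul_eq_mul, mul_left_comm, mul_assoc]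

lemma cnt_Jmat (b : Bool) {φ : ℝ} (hφ : 0 < φ) {σ : V n} (hσ : σ ⬝ᵥ σ ≤ n) :
    (couplingLaw b n).real {g | ¬ Cnt 2 φ 0 (Jmat n g *ᵥ σ)} ≤ n * Real.exp (-φ * n) := by
  rw [couplingLaw_eq]
  refine cnt_tail _ _ two_pos hφ fun a r hr => ?_
  have a0 := Eig.dot_self_nonneg a
  refine (Nrm.subG_bil_Jmat _ (fun _ => Nrm.subG_entryLaw b) (u := a) (v := σ)
      (c := NNReal.mk (2 * (a ⬝ᵥ a)) (by positivity)) ?_).measure_ge_le hr
  refine div_le_of_le_mul₀ (Nat.cast_nonneg n) (NNReal.coe_nonneg _) ?_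
  rw [NNReal.coe_mk]
  nlinarith

lemma offd_plW {β : ℝ} (hβ : β ∈ Set.Icc (0 : ℝ) 1) (W : Mx n) (σ : Cube n) (j : Fin n) :
    |(offd (plW β W (sv σ)) *ᵥ sv σ) j| ≤ |(offd W *ᵥ sv σ) j| + 1 := by
  have n1 : (1 : ℝ) ≤ n := by exact_mod_cast j.pos
  have s1 : |sv σ j| = 1 := by rcases Pl.isSign_sv σ j with e | e <;> simp [e]
  have s2 : sv σ j * sv σ j = 1 := by rw [← abs_mul_abs_self, s1, mul_one]
  have e : (offd (plW β W (sv σ)) *ᵥ sv σ) j = (offd W *ᵥ sv σ) j + β * (1 - 1 / n) * sv σ j := by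
    simp only [offd, plW, sub_mulVec, add_mulVec, smul_mulVec, vmv_mulVec, Pi.sub_apply, Pi.add_apply,
      Pi.smul_apply, mulVec_diagonal, Matrix.add_apply, Matrix.smul_apply, vecMulVec_apply, smul_eq_mul, s2,
      sv_dot_self]
    field_simp
    ring
  rw [e]
  refine (abs_add_le _ _).trans (add_le_add le_rfl ?_)
  have h1 : 1 / (n : ℝ) ≤ 1 := (div_le_one (by positivity)).2 n1
  have h2 : 0 ≤ 1 / (n : ℝ) := by positivity
  rw [abs_mul, s1, mul_one, abs_of_nonneg (mul_nonneg hβ.1 (by linarith))]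
  nlinarith [hβ.1, hβ.2]

/-- **graded counts** for a posterior sample -/
theorem typS_cnt {β s φ : ℝ} (hβ : β ∈ Set.Icc (0 : ℝ) 1) (hs : 0 < s) (hφ : 0 < φ) :
    TypS β s (φ / 2 / 4) fun n W y σ =>
      Cnt s φ 0 (y - s • sv σ) ∧ Cnt 2 φ 1 (offd W *ᵥ sv σ) := by
  have hA : ∀ n (σ : Cube n), MeasurableSet {z : Mx n × V n | ¬ Cnt s φ 0 (z.2 - s • sv σ) ∨
      ¬ Cnt 2 φ 1 (offd z.1 *ᵥ sv σ)} := fun n σ =>
    ((isOpen_not_Cnt s φ 0).measurableSet.preimage (f := fun z : Mx n × V n => z.2 - s • sv σ)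
      (by fun_prop)).union ((isOpen_not_Cnt 2 φ 1).measurableSet.preimage
        (f := fun z : Mx n × V n => offd z.1 *ᵥ sv σ) (Measurable.t157_mulVec
          (measurable_offd.comp measurable_fst) measurable_const))
  refine (joint' hβ hs.le (half_pos hφ) hA ?_).mono' Top.whp_true
    (.of_forall fun n W y σ _ h1 => by simpa only [Set.mem_ofPred_eq, not_or, not_not] using h1)
  have ht := (Real.tendsto_pow_mul_exp_neg_atTop_nhds_zero 1).comp
    (tendsto_natCast_atTop_atTop.const_mul_atTop (half_pos hφ))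
  filter_upwards [ht.eventually (ge_mem_nhds (show 0 < φ / 4 by positivity))] with n hn σ
  have m1 : MeasurableSet {z : V n | ¬ Cnt 2 φ 0 z} := (isOpen_not_Cnt _ _ _).measurableSet
  have m2 : Measurable fun J : Mx n => J *ᵥ sv σ := by fun_prop
  refine (measure_mono (t := Set.univ ×ˢ {g | ¬ Cnt s φ 0 (√s • g)} ∪
    {W | ¬ Cnt 2 φ 0 (offd W *ᵥ sv σ)} ×ˢ Set.univ) fun z hz => ?_).trans
      ((measure_union_le _ _).trans ?_)
  · refine hz.imp (fun h => ⟨trivial, by simpa using h⟩) fun h => ⟨fun h' => h ?_, trivial⟩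
    simpa using Cnt.shift h' (offd_plW hβ z.1 σ)
  · rw [Measure.prod_prod, Measure.prod_prod, measure_univ, measure_univ, one_mul, mul_one]
    have h1 := cnt_Jmat false hφ (sv_dot_self σ).le
    have h2 : GOE n {W | ¬ Cnt 2 φ 0 (offd W *ᵥ sv σ)} =
        couplingLaw false n {g | ¬ Cnt 2 φ 0 (Jmat n g *ᵥ sv σ)} :=
      (Measure.map_apply measurable_offd (m1.preimage m2)).symm.trans
        (goe_map_offd ▸ Measure.map_apply measurable_Jmat (m1.preimage m2))
    rw [h2, ← ofReal_measureReal (measure_ne_top _ _), ← ofReal_measureReal (μ := couplingLaw false n)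
      (measure_ne_top _ _), ← ENNReal.ofReal_add measureReal_nonneg measureReal_nonneg]
    refine ENNReal.ofReal_le_ofReal ((add_le_add (cnt_gv hs hφ) h1).trans ?_)
    have e : Real.exp (-φ * n) = Real.exp (-(φ / 2 * n)) * Real.exp (-(φ / 2) * n) := by
      rw [← Real.exp_add]; congr 1; ring
    simp only [Function.comp, pow_one] at hn
    have h3 : 2 * n * Real.exp (-(φ / 2 * n)) ≤ 1 :=
      le_of_mul_le_mul_left (by linarith) (show 0 < φ / 4 by positivity)
    rw [e]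
    nlinarith [Real.exp_pos (-(φ / 2) * n)]

/-- the SK form of `TypS` -/
theorem TypS.toJ {β s κ : ℝ} {P : ∀ n, Mx n → V n → Cube n → Prop}
    (h : TypS β s κ fun n W y σ => P n (offd W) y σ) : Top.Whp disorderLaw fun n g =>
      (law sv (gibbsWeight n β g) s).real {y | Real.exp (-κ * n) ≤ mean (ising (β • Jmat n g) y)
        ({σ | ¬ P n (Jmat n g) y σ}.indicator 1)} ≤ Real.exp (-κ * n) := by
  refine Top.Whp.of_prod_fst (ν := fun n => gv (Fin n)) ((Top.Whp.comp (T := fun n p =>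
    Wmat n p.1 p.2) (fun n => mp_Wmat) h).imp fun n p hp => ?_)
  simp only [law, GoeT.prob_ising_Wmat, offd_Wmat] at hp ⊢
  simpa only [mean, Wmat, smul_add, ← diagonal_smul, Pl.prob_ising_add_diagonal] using hp

/-- level-dependent sparsity of the misaligned sites and of the large local fields -/
def TY (J : Mx n) (S s0 : ℝ) (y : V n) (σ : Cube n) : Prop := ∀ t ∈ Set.Icc 0 s0,
  ((univ.filter fun j => sv σ j * y j < S / 2 - t / 4).card : ℝ) ≤ Real.exp (-(S + t) / 80) * n ∧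
  ((univ.filter fun j => (S + t) / 16 < |(J *ᵥ sv σ) j|).card : ℝ) ≤ Real.exp (-(S + t) / 80) * n

lemma ty_of_cnt {J : Mx n} {β S s0 : ℝ} {y : V n} {σ : Cube n} (hβ : |β| ≤ 1) (hS : 80 ≤ S)
    (h1 : Cnt S (Real.exp (-(S + s0) / 80)) 0 (y - S • sv σ))
    (h2 : Cnt 2 (Real.exp (-(S + s0) / 80)) 1 (J *ᵥ sv σ)) : TY (β • J) S s0 y σ := by
  rintro t ⟨t0, t1⟩
  have n0 : (0 : ℝ) ≤ n := Nat.cast_nonneg n
  have b : Real.exp (-(S + s0) / 80) ≤ Real.exp (-(S + t) / 80) := Real.exp_le_exp.2 (by linarith)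
  refine ⟨(Nat.cast_le.2 (card_le_card fun j hj => mem_filter.2 ⟨mem_univ _, ?_⟩)).trans
    ((h1 (S / 2 + t / 4) (by positivity)).trans (mul_le_mul_of_nonneg_right (max_le b
      (Real.exp_le_exp.2 ?_)) n0)), (Nat.cast_le.2 (card_le_card fun j hj => mem_filter.2
    ⟨mem_univ _, ?_⟩)).trans ((h2 ((S + t) / 16 - 1) (by linarith)).trans
      (mul_le_mul_of_nonneg_right (max_le b (Real.exp_le_exp.2 ?_)) n0))⟩
  · have := (mem_filter.1 hj).2
    rw [Pi.sub_apply, Pi.smul_apply, smul_eq_mul, lt_abs]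
    rcases Pl.isSign_sv σ j with e | e <;> rw [e] at this ⊢
    · exact .inr (by linarith)
    · exact .inl (by linarith)
  · have : (S + t) / 8 ≤ (S / 2 + t / 4) ^ 2 / (2 * S) := by
      rw [le_div_iff₀ (by positivity)]; nlinarith
    linarith
  · have := (mem_filter.1 hj).2
    rw [smul_mulVec, Pi.smul_apply, smul_eq_mul, abs_mul] at this
    linarith [mul_le_of_le_one_left (abs_nonneg ((J *ᵥ sv σ) j)) hβ]
  · nlinarith

/-- **TypY**: the posterior mass of the atypical spins is exponentially small -/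
theorem typY {β S : ℝ} (hβ : β ∈ Set.Icc (0 : ℝ) 1) (hS : 80 ≤ S) (s0 : ℝ) : ∃ κ > (0 : ℝ),
    Top.Whp disorderLaw fun n g => (law sv (gibbsWeight n β g) S).real {y | Real.exp (-κ * n) ≤
      mean (ising (β • Jmat n g) y) ({σ | ¬ TY (β • Jmat n g) S s0 y σ}.indicator 1)} ≤
        Real.exp (-κ * n) :=
  ⟨_, by positivity, TypS.toJ (P := fun n J y σ => TY (β • J) S s0 y σ)
    ((typS_cnt hβ (by linarith) (Real.exp_pos (-(S + s0) / 80))).mono' Top.whp_true
      (.of_forall fun n W y σ _ h => ty_of_cnt (abs_le.2 ⟨by linarith [hβ.1], hβ.2⟩) hS h.1 h.2))⟩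

end Crest.Agent.T157.Rip

end
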