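import Crest.Agent.T157.Xtr_25
import Crest.Agent.T157.Top_97

/-!
# Row 157, block B, END (helper94): a defect proportional to the supremum and a Poincare inequality
give `ATd`
-/

set_option autoImplicit false

noncomputable section

namespace Crest.Agent.T157.EnUp

open Finset Function Real
open Crest.Agent.T157.E (Cube sv siteM prob dir)
open Crest.Agent.T157.Chain22
open Crest.Agent.T157.Ent Crest.Agent.T157.Atd

variable {n : ℕ} {w : Cube n → ℝ} {K η P : ℝ}

/-- approximate tensorisation with the defect `η · sup F` -/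
def ATs (w : Cube n → ℝ) (K η : ℝ) : Prop := ∀ F : Cube n → ℝ, (∀ x, 0 ≤ F x) → ∀ M : ℝ,
  (∀ x, F x ≤ M) → E.ent w F ≤ K * ∑ i, entS w F i + η * M

theorem dirS_le_entS (hw : ∀ x, 0 < w x) {f : Cube n → ℝ} {M : ℝ} (h0 : ∀ x, 0 ≤ f x)
    (hf : ∀ x, f x ≤ M) (i : Fin n) : dirS w f i ≤ 2 * M * entS w f i := by
  rw [dirS_eq hw, entS, ← mean_const_mul]
  exact (isP_prob' hw).mean_mono fun x => var_le_ent_of_le (isP_cnd hw i x) (fun _ => h0 _) fun _ => hf _

theorem atd_of_ats (hw : ∀ x, 0 < w x) (h : ATs w K η) (hP : Top.Poin w P) (hη : 0 ≤ η) (P0 : 0 ≤ P)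
    {K' : ℝ} (h1 : K ≤ K') (h2 : 4 * P ≤ K') : ATd w K' (16 * η) := fun F hF c B hB => by
  obtain ⟨a, -, ha⟩ := exists_min_image univ F univ_nonempty
  obtain ⟨b, -, hb⟩ := exists_max_image univ F univ_nonempty
  have S0 : 0 ≤ ∑ i, entS w F i := sum_nonneg fun i _ => entS_nonneg hw hF i
  have B0 : 0 ≤ B := (sq_nonneg _).trans (hB a)
  by_cases hc : F b ≤ 16 * B
  · have := h F hF _ fun x => (hb x (mem_univ x)).trans hc
    nlinarith [mul_le_mul_of_nonneg_right h1 S0]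
  have e1 := sq_sqrt (hF a)
  have e2 := sq_sqrt (hF b)
  have s1 := sqrt_nonneg (F a)
  have s2 := sqrt_nonneg (F b)
  have h3 : F b ≤ 4 * F a := by
    have k1 := hB a
    have k2 := hB b
    set p := √(F a)
    set q := √(F b)
    by_contra h4
    have h5 : 2 * p ≤ q := le_of_sq_le_sq (by nlinarith) s2
    have h6 : (q - p) ^ 2 ≤ 4 * B := by nlinarith [sq_nonneg (q + p - 2 * c)]
    nlinarith [mul_nonneg (sub_nonneg.2 h5) (by linarith : 0 ≤ 3 * q - 2 * p)]
  have a0 : 0 < F a := by nlinarith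
  have k1 := ent_le_var_of_ge (isP_prob' hw) a0 fun x => ha x (mem_univ x)
  have k2 := hP F
  have k3 : dir w F ≤ 2 * F b * ∑ i, entS w F i := by
    rw [dir_eq_sum, mul_sum]
    exact sum_le_sum fun i _ => dirS_le_entS hw hF (fun x => hb x (mem_univ x)) i
  rw [evar_eq] at k2
  rw [eent_eq]
  have k4 : 2 * F a * ent (prob w) F ≤ 2 * F a * (4 * P * ∑ i, entS w F i) := by
    have := mul_le_mul_of_nonneg_left k3 P0
    nlinarith [mul_le_mul_of_nonneg_right h3 (mul_nonneg P0 S0)]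
  have k5 := le_of_mul_le_mul_left k4 (by linarith)
  nlinarith [mul_le_mul_of_nonneg_right h2 S0, mul_nonneg hη B0]

/-- the form used in END -/
theorem h1_of_ats (hw : ∀ x, 0 < w x) (h : ATs w K η) (hP : Top.Poin w 2) (hη : 0 ≤ η) {κ : ℝ}
    (hκ : 0 < κ) (h1 : 16 * η ≤ exp (-(κ * n))) (hK : 8 ≤ K) : Xt.H1 w (K + 8 / κ) :=
  Xt.h1_of_atd ((atd_of_ats hw h hP hη zero_le_two le_rfl (by linarith)).mono hw le_rfl h1) hw
    (by linarith) hκ

end Crest.Agent.T157.EnUp
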