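import Crest.Agent.T157.EntB_34
import Crest.Agent.T157.ChainSp_22

/-!
Row 157, part E (helper34): finite entropy toolbox III, reversible chains.
Stroock–Varopoulos, log-Sobolev ⇒ modified log-Sobolev ⇒ entropy decay, Gross' hypercontractivity
(with a defect), Rényi decay, Herbst's argument for chains.
-/

set_option autoImplicit false
set_option linter.unusedSectionVars false

namespace Crest.Agent.T157.Ent

open Finset Matrix Chain22 Filter Topology

/-- Cauchy–Schwarz for primitives. -/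
theorem cs_prim {A B C α β : ℝ → ℝ} (hA : ∀ u, HasDerivAt A (α u ^ 2) u)
    (hB : ∀ u, HasDerivAt B (α u * β u) u) (hC : ∀ u, HasDerivAt C (β u ^ 2) u) (u v : ℝ) :
    (B u - B v) ^ 2 ≤ (A u - A v) * (C u - C v) := by
  have key : ∀ u v, v ≤ u → (B u - B v) ^ 2 ≤ (A u - A v) * (C u - C v) := by
    intro u v huv
    have h : ∀ l : ℝ, 0 ≤ (C u - C v) * (l * l) + (-2 * (B u - B v)) * l + (A u - A v) := by
      intro l
      have d : ∀ w, HasDerivAt (fun w => A w - 2 * l * B w + l ^ 2 * C w) ((α w - l * β w) ^ 2) w :=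
        fun w => (((hA w).fun_sub ((hB w).const_mul (2 * l))).fun_add
          ((hC w).const_mul (l ^ 2))).congr_deriv (by ring)
      have m := monotone_of_deriv_nonneg (fun w => (d w).differentiableAt)
        (fun w => by rw [(d w).deriv]; exact sq_nonneg _) huv
      simp only at m
      nlinarith
    have := discrim_le_zero h
    unfold discrim at this
    nlinarith
  rcases le_total v u with h | h
  · exact key u v h
  · have := key v u h
    nlinarith

theorem exp_half_sq_le (u v : ℝ) :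
    4 * (Real.exp (u / 2) - Real.exp (v / 2)) ^ 2 ≤ (Real.exp u - Real.exp v) * (u - v) := by
  have := cs_prim (A := Real.exp) (B := fun u => 2 * Real.exp (u / 2)) (C := fun u => u)
    (α := fun u => Real.exp (u / 2)) (β := fun _ => 1)
    (fun w => (Real.hasDerivAt_exp w).congr_deriv (by rw [sq, ← Real.exp_add]; ring_nf))
    (fun w => ((((hasDerivAt_id w).div_const 2).exp).const_mul 2).congr_deriv (by simp; ring))
    (fun w => (hasDerivAt_id w).congr_deriv (by simp)) u v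
  nlinarith

theorem exp_q_sq_le {q : ℝ} (hq : 1 < q) (u v : ℝ) :
    4 * (q - 1) * (Real.exp (q / 2 * u) - Real.exp (q / 2 * v)) ^ 2 ≤
      q ^ 2 * ((Real.exp ((q - 1) * u) - Real.exp ((q - 1) * v)) * (Real.exp u - Real.exp v)) := by
  have h1 : 0 < q - 1 := by linarith
  have h0 : 0 < q := by linarith
  have := cs_prim (A := fun u => Real.exp ((q - 1) * u) / (q - 1))
    (B := fun u => Real.exp (q / 2 * u) / (q / 2)) (C := Real.exp)
    (α := fun u => Real.exp ((q - 1) / 2 * u)) (β := fun u => Real.exp (u / 2))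
    (fun w => ((((hasDerivAt_id w).const_mul (q - 1)).exp).div_const (q - 1)).congr_deriv (by
      rw [sq, ← Real.exp_add]; simp only [id, mul_one]; field_simp; ring_nf))
    (fun w => ((((hasDerivAt_id w).const_mul (q / 2)).exp).div_const (q / 2)).congr_deriv (by
      rw [← Real.exp_add]; simp only [id, mul_one]; field_simp; ring_nf))
    (fun w => (Real.hasDerivAt_exp w).congr_deriv (by rw [sq, ← Real.exp_add]; ring_nf)) u v
  rw [← sub_div, ← sub_div, div_pow, div_mul_eq_mul_div _ (q - 1), div_le_div_iff₀ (by positivity) h1] at this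
  nlinarith

theorem exp_sub_mul_le (a b : ℝ) :
    (Real.exp a - Real.exp b) * (a - b) ≤
      Real.exp a * max (a - b) 0 ^ 2 + Real.exp b * max (b - a) 0 ^ 2 := by
  have key : ∀ a b : ℝ, b ≤ a → (Real.exp a - Real.exp b) * (a - b) ≤ Real.exp a * (a - b) ^ 2 := by
    intro a b h
    have h1 := Real.add_one_le_exp (b - a)
    have h2 : Real.exp b = Real.exp a * Real.exp (b - a) := by rw [← Real.exp_add]; ring_nf
    have h3 := mul_le_mul_of_nonneg_left h1 (Real.exp_pos a).le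
    have h4 : Real.exp a - Real.exp b ≤ Real.exp a * (a - b) := by nlinarith
    nlinarith [mul_le_mul_of_nonneg_right h4 (sub_nonneg.2 h)]
  rcases le_total b a with h | h
  · rw [max_eq_left (sub_nonneg.2 h), max_eq_right (sub_nonpos.2 h)]
    nlinarith [key a b h]
  · rw [max_eq_left (sub_nonneg.2 h), max_eq_right (sub_nonpos.2 h)]
    nlinarith [key b a h]

variable {Ω : Type*} [Fintype Ω] (c : RC Ω)

theorem D_le_D {f g u v : Ω → ℝ} {a b : ℝ}
    (h : ∀ x y, a * ((f x - f y) * (g x - g y)) ≤ b * ((u x - u y) * (v x - v y))) :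
    a * c.D f g ≤ b * c.D u v := by
  rw [c.D_eq, c.D_eq, mul_left_comm a, mul_left_comm b, mul_sum (a := a), mul_sum (a := b)]
  refine mul_le_mul_of_nonneg_left (sum_le_sum fun x _ => ?_) (by norm_num)
  rw [mul_sum, mul_sum]
  refine sum_le_sum fun y _ => ?_
  rw [mul_left_comm a, mul_left_comm b]
  exact mul_le_mul_of_nonneg_left (h x y) (mul_nonneg (c.pos x).le (c.nn x y))

/-- `4 D(√f, √f) ≤ D(f, log f)`. -/
theorem D_sqrt_le {f : Ω → ℝ} (hf : ∀ x, 0 < f x) :
    4 * c.D (fun x => Real.sqrt (f x)) (fun x => Real.sqrt (f x)) ≤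
      c.D f fun x => Real.log (f x) := by
  have := D_le_D c (a := 4) (b := 1) (f := fun x => Real.sqrt (f x)) (g := fun x => Real.sqrt (f x))
    (u := f) (v := fun x => Real.log (f x)) fun x y => by
      have h := exp_half_sq_le (Real.log (f x)) (Real.log (f y))
      rw [Real.exp_half, Real.exp_half, Real.exp_log (hf x), Real.exp_log (hf y)] at h
      nlinarith
  linarith

theorem D_log_nonneg {f : Ω → ℝ} (hf : ∀ x, 0 < f x) : 0 ≤ c.D f fun x => Real.log (f x) :=
  le_trans (mul_nonneg (by norm_num) (c.D_nonneg _)) (D_sqrt_le c hf)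

/-- Stroock–Varopoulos. -/
theorem stroock_varopoulos {f : Ω → ℝ} (hf : ∀ x, 0 < f x) {q : ℝ} (hq : 1 < q) :
    4 * (q - 1) * c.D (fun x => f x ^ (q / 2)) (fun x => f x ^ (q / 2)) ≤
      q ^ 2 * c.D (fun x => f x ^ (q - 1)) f :=
  D_le_D c fun x y => by
    have h := exp_q_sq_le hq (Real.log (f x)) (Real.log (f y))
    rw [Real.exp_log (hf x), Real.exp_log (hf y)] at h
    simp only [Real.rpow_def_of_pos (hf _), mul_comm (Real.log _)]
    nlinarith

/-- log-Sobolev inequality with constant `K` and defect `B` -/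
def LSI (K B : ℝ) : Prop :=
  ∀ f : Ω → ℝ, ent c.π (fun x => f x ^ 2) ≤ K * c.D f f + B * mean c.π fun x => f x ^ 2

/-- modified log-Sobolev inequality with constant `K` and defect `B` -/
def MLSI (K B : ℝ) : Prop :=
  ∀ f : Ω → ℝ, (∀ x, 0 < f x) → ent c.π f ≤ K * c.D f (fun x => Real.log (f x)) + B * mean c.π f

variable {c}

theorem LSI.sqrt {K B : ℝ} (h : LSI c K B) {f : Ω → ℝ} (hf : ∀ x, 0 ≤ f x) :
    ent c.π f ≤ K * c.D (fun x => Real.sqrt (f x)) (fun x => Real.sqrt (f x)) + B * mean c.π f := by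
  simpa only [Real.sq_sqrt (hf _)] using h fun x => Real.sqrt (f x)

/-- it is enough to test nonnegative functions -/
theorem LSI.of_nonneg {K B : ℝ} (hK : 0 ≤ K) (h : ∀ f : Ω → ℝ, (∀ x, 0 ≤ f x) →
    ent c.π (fun x => f x ^ 2) ≤ K * c.D f f + B * mean c.π fun x => f x ^ 2) : LSI c K B := fun f => by
  have h1 := h (fun x => |f x|) fun x => abs_nonneg _
  simp only [sq_abs] at h1
  linarith [mul_le_mul_of_nonneg_left (c.D_abs_le f) hK]

/-- it is enough to test square roots of densities -/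
theorem LSI.of_dens {K B : ℝ} (hK : 0 ≤ K) (h : ∀ f : Ω → ℝ, (∀ x, 0 ≤ f x) → mean c.π f = 1 →
    ent c.π f ≤ K * c.D (fun x => Real.sqrt (f x)) (fun x => Real.sqrt (f x)) + B) :
    LSI c K B := by
  refine LSI.of_nonneg hK fun f hf => ?_
  set m := mean c.π fun x => f x ^ 2 with hm
  rcases eq_or_lt_of_le (c.isP.mean_nonneg (f := fun x => f x ^ 2) fun x => sq_nonneg _) with h0 | h0
  · rw [ent_eq_zero_of_mean c.isP (fun x => sq_nonneg _) h0.symm, hm, ← h0, mul_zero, add_zero]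
    exact mul_nonneg hK (c.D_nonneg f)
  rw [← hm] at h0
  have h1 := h (m⁻¹ • fun x => f x ^ 2) (fun x => by
    simp only [Pi.smul_apply, smul_eq_mul]; positivity) (by rw [mean_smul, ← hm]; field_simp)
  have e : (fun x => Real.sqrt ((m⁻¹ • fun x => f x ^ 2) x)) = Real.sqrt m⁻¹ • f := by
    funext x
    simp only [Pi.smul_apply, smul_eq_mul]
    rw [Real.sqrt_mul (by positivity), Real.sqrt_sq (hf x)]
  rw [e, c.D_smul, ent_smul, Real.sq_sqrt (by positivity)] at h1
  have h2 := mul_le_mul_of_nonneg_left h1 h0.le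
  have e2 : m * (K * (m⁻¹ * c.D f f) + B) = K * c.D f f + B * m := by field_simp
  rw [e2, ← mul_assoc, mul_inv_cancel₀ h0.ne', one_mul] at h2
  exact h2

theorem LSI.mlsi {K B : ℝ} (h : LSI c K B) (hK : 0 ≤ K) : MLSI c (K / 4) B := fun f hf => by
  have h1 := h.sqrt fun x => (hf x).le
  have h2 := mul_le_mul_of_nonneg_left (D_sqrt_le c hf) hK
  linarith

theorem LSI.mono {K B K' B' : ℝ} (h : LSI c K B) (hK : K ≤ K') (hB : B ≤ B') : LSI c K' B' :=
  fun f => (h f).trans (add_le_add (mul_le_mul_of_nonneg_right hK (c.D_nonneg f))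
    (mul_le_mul_of_nonneg_right hB (c.isP.mean_nonneg fun _ => sq_nonneg _)))

/-- defective + Poincaré ⇒ tight -/
theorem LSI.tight {K B C : ℝ} (h : LSI c K B) (hB : 0 ≤ B) (hP : ∀ f, var c.π f ≤ C * c.D f f) :
    LSI c (K + (B + 2) * C) 0 := fun f => by
  rw [zero_mul, add_zero]
  exact tight_lsi c.isP (fun f => c.D f f) (fun f a => c.D_add_const f (-a)) hB h hP f

/-! ### Herbst for chains -/

variable (c) in
/-- one-sided carré du champ -/
noncomputable def gam (F : Ω → ℝ) (x : Ω) : ℝ := ∑ y, c.P x y * max (F x - F y) 0 ^ 2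

theorem D_exp_le (F : Ω → ℝ) {t : ℝ} (ht : 0 ≤ t) :
    c.D (fun x => Real.exp (t * F x)) (fun x => t * F x) ≤
      t ^ 2 * mean c.π fun x => Real.exp (t * F x) * gam c F x := by
  have e : ∀ x y, max (t * F x - t * F y) 0 = t * max (F x - F y) 0 := fun x y => by
    rw [mul_max_of_nonneg _ _ ht, mul_zero, mul_sub]
  have e1 : t ^ 2 * (mean c.π fun x => Real.exp (t * F x) * gam c F x) =
      ∑ x, ∑ y, c.π x * c.P x y * (Real.exp (t * F x) * max (t * F x - t * F y) 0 ^ 2) := by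
    simp only [mean, gam, mul_sum, e]
    exact sum_congr rfl fun x _ => sum_congr rfl fun y _ => by ring
  have e2 : ∑ x, ∑ y, c.π x * c.P x y * (Real.exp (t * F y) * max (t * F y - t * F x) 0 ^ 2) =
      ∑ x, ∑ y, c.π x * c.P x y * (Real.exp (t * F x) * max (t * F x - t * F y) 0 ^ 2) := by
    rw [sum_comm]
    exact sum_congr rfl fun x _ => sum_congr rfl fun y _ => by rw [c.rev]
  have h : ∑ x, ∑ y, c.π x * c.P x y * ((Real.exp (t * F x) - Real.exp (t * F y)) *
      (t * F x - t * F y)) ≤ ∑ x, ∑ y, (c.π x * c.P x y *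
        (Real.exp (t * F x) * max (t * F x - t * F y) 0 ^ 2) + c.π x * c.P x y *
        (Real.exp (t * F y) * max (t * F y - t * F x) 0 ^ 2)) :=
    sum_le_sum fun x _ => sum_le_sum fun y _ => by
      rw [← mul_add]
      exact mul_le_mul_of_nonneg_left (exp_sub_mul_le _ _) (mul_nonneg (c.pos x).le (c.nn x y))
  simp only [sum_add_distrib] at h
  rw [c.D_eq, e1]
  linarith

theorem MLSI.ent_exp_le {K B : ℝ} (h : MLSI c K B) (hK : 0 ≤ K) {F : Ω → ℝ} {γ : ℝ}
    (hγ : ∀ x, gam c F x ≤ γ) {t : ℝ} (ht : 0 ≤ t) :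
    ent c.π (fun x => Real.exp (t * F x)) ≤
      (K * γ * t ^ 2 + B) * mean c.π fun x => Real.exp (t * F x) := by
  have h1 := h (fun x => Real.exp (t * F x)) fun x => Real.exp_pos _
  simp only [Real.log_exp] at h1
  have h2 := D_exp_le (c := c) F ht
  have h3 : (mean c.π fun x => Real.exp (t * F x) * gam c F x) ≤
      (mean c.π fun x => Real.exp (t * F x)) * γ := by
    rw [← mean_mul_const]
    exact c.isP.mean_mono fun x => mul_le_mul_of_nonneg_left (hγ x) (Real.exp_pos _).le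
  have h4 := mul_le_mul_of_nonneg_left (h2.trans (mul_le_mul_of_nonneg_left h3 (sq_nonneg t))) hK
  nlinarith

/-- Herbst: modified log-Sobolev ⇒ sub-Gaussian moment generating function. -/
theorem MLSI.lmgf_le {K : ℝ} (h : MLSI c K 0) (hK : 0 ≤ K) {F : Ω → ℝ} {γ : ℝ}
    (hγ : ∀ x, gam c F x ≤ γ) {t : ℝ} (ht : 0 ≤ t) :
    lmgf c.π F t ≤ t * mean c.π F + K * γ * t ^ 2 :=
  herbst c.isP F ht fun u hu _ => by simpa using h.ent_exp_le hK hγ hu.le

theorem MLSI.tail {K : ℝ} (h : MLSI c K 0) (hK : 0 < K) {F : Ω → ℝ} {γ : ℝ} (hγ0 : 0 < γ)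
    (hγ : ∀ x, gam c F x ≤ γ) {r : ℝ} (hr : 0 ≤ r) :
    mean c.π (ind fun x => mean c.π F + r ≤ F x) ≤ Real.exp (-(r ^ 2 / (4 * (K * γ)))) :=
  tail_of_lmgf c.isP F (by positivity) hr (h.lmgf_le hK.le hγ (by positivity))

/-! ### The semigroup -/

variable [DecidableEq Ω]

theorem H_pos {t : ℝ} (ht : 0 ≤ t) {f : Ω → ℝ} (hf : ∀ x, 0 < f x) (x : Ω) : 0 < (c.H t *ᵥ f) x :=
  mean_pos ((c.heat t ht).isP_row x) hf

theorem H_nonneg {t : ℝ} (ht : 0 ≤ t) {f : Ω → ℝ} (hf : ∀ x, 0 ≤ f x) (x : Ω) :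
    0 ≤ (c.H t *ᵥ f) x := (c.heat t ht).P_nonneg hf x

theorem H_add_const (t : ℝ) (f : Ω → ℝ) (a : ℝ) (x : Ω) :
    (c.H t *ᵥ fun y => f y + a) x = (c.H t *ᵥ f) x + a := by
  have := congrFun (mulVec_add (c.H t) f fun _ => a) x
  rw [c.H_const] at this
  exact this

theorem mean_mul_gen (g u : Ω → ℝ) :
    mean c.π (fun x => g x * ((c.P *ᵥ u) x - u x)) = -c.D g u := by
  rw [RC.D, ip_eq_mean, ← neg_one_mul, ← mean_const_mul]
  exact mean_congr fun x => by simp only [Pi.sub_apply]; ring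

/-- de Bruijn's identity -/
theorem hasDerivAt_ent_H {f : Ω → ℝ} {t : ℝ} (hu : ∀ x, 0 < (c.H t *ᵥ f) x) :
    HasDerivAt (fun s => ent c.π (c.H s *ᵥ f))
      (-c.D (c.H t *ᵥ f) fun x => Real.log ((c.H t *ᵥ f) x)) t := by
  simp only [ent_eq, c.mean_H]
  refine ((hasDerivAt_mean (π := c.π) fun x => (c.hasDerivAt_H_mulVec f x t).fun_mul
    ((c.hasDerivAt_H_mulVec f x t).log (hu x).ne')).sub_const _).congr_deriv ?_
  rw [c.D_comm, ← mean_mul_gen]
  have h0 : mean c.π (fun x => (c.P *ᵥ (c.H t *ᵥ f)) x - (c.H t *ᵥ f) x) = 0 := by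
    rw [mean_sub', c.mean_P, sub_self]
  rw [← add_zero (mean c.π fun x => Real.log _ * _), ← h0, ← mean_add']
  refine mean_congr fun x => ?_
  field_simp [(hu x).ne']

theorem continuous_ent_H (f : Ω → ℝ) : Continuous fun s => ent c.π (c.H s *ᵥ f) :=
  continuous_ent_comp c.π fun x => c.continuous_H_mulVec f x

/-- modified log-Sobolev ⇒ exponential decay of the entropy -/
theorem MLSI.ent_H_le {K B : ℝ} (h : MLSI c K B) (hK : 0 < K) (hB : 0 ≤ B) {f : Ω → ℝ}
    (hf : ∀ x, 0 ≤ f x) {t : ℝ} (ht : 0 ≤ t) :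
    ent c.π (c.H t *ᵥ f) ≤ Real.exp (-(t / K)) * ent c.π f + B * mean c.π f := by
  have key : ∀ f : Ω → ℝ, (∀ x, 0 < f x) →
      ent c.π (c.H t *ᵥ f) ≤ Real.exp (-(t / K)) * ent c.π f + B * mean c.π f := by
    intro f hf
    have hd : ∀ s, 0 ≤ s → HasDerivAt
        (fun s => Real.exp (s / K) * (ent c.π (c.H s *ᵥ f) - B * mean c.π f))
        (Real.exp (s / K) * (1 / K) * (ent c.π (c.H s *ᵥ f) - B * mean c.π f) +
          Real.exp (s / K) * -c.D (c.H s *ᵥ f) fun x => Real.log ((c.H s *ᵥ f) x)) s :=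
      fun s hs => (((hasDerivAt_id s).div_const K).exp).fun_mul
        ((hasDerivAt_ent_H (H_pos hs hf)).sub_const _)
    have ha : AntitoneOn (fun s => Real.exp (s / K) * (ent c.π (c.H s *ᵥ f) - B * mean c.π f))
        (Set.Ici 0) := antitoneOn_of_deriv_nonpos (convex_Ici 0)
      (fun s hs => (hd s hs).continuousAt.continuousWithinAt)
      (fun s hs => (hd s (interior_subset hs)).differentiableAt.differentiableWithinAt)
      fun s hs => by
        have hs0 : 0 ≤ s := interior_subset hs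
        rw [(hd s hs0).deriv, mul_assoc, ← mul_add]
        refine mul_nonpos_of_nonneg_of_nonpos (Real.exp_pos _).le ?_
        have h1 := h _ (H_pos (c := c) hs0 hf)
        rw [c.mean_H] at h1
        rw [one_div, inv_mul_eq_div, add_neg_le_iff_le_add, zero_add, div_le_iff₀ hK]
        linarith
    have h1 := ha (le_refl (0 : ℝ)) ht ht
    simp only [zero_div, Real.exp_zero, one_mul, c.H_zero, one_mulVec] at h1
    have h2 := mul_le_mul_of_nonneg_left h1 (Real.exp_pos (-(t / K))).le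
    rw [← mul_assoc, ← Real.exp_add, neg_add_cancel, Real.exp_zero, one_mul] at h2
    have h3 : 0 ≤ Real.exp (-(t / K)) * (B * mean c.π f) :=
      mul_nonneg (Real.exp_pos _).le (mul_nonneg hB (mean_pos c.isP hf).le)
    linarith
  have c1 : Continuous fun δ : ℝ => ent c.π fun x => (c.H t *ᵥ f) x + δ :=
    continuous_ent_comp c.π fun x => by fun_prop
  have c2 : Continuous fun δ : ℝ => Real.exp (-(t / K)) * ent c.π (fun x => f x + δ) +
      B * (mean c.π f + δ) :=
    (continuous_const.mul (continuous_ent_comp c.π fun x => by fun_prop)).add (by fun_prop)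
  have t1 := (c1.tendsto 0).mono_left (nhdsWithin_le_nhds (s := Set.Ioi 0))
  have t2 := (c2.tendsto 0).mono_left (nhdsWithin_le_nhds (s := Set.Ioi 0))
  simp only [add_zero] at t1 t2
  refine le_of_tendsto_of_tendsto t1 t2 (eventually_nhdsWithin_of_forall fun δ hδ => ?_)
  have := key (fun x => f x + δ) fun x => add_pos_of_nonneg_of_pos (hf x) hδ
  rw [mean_add', c.isP.mean_const] at this
  have e : (c.H t *ᵥ fun x => f x + δ) = fun x => (c.H t *ᵥ f) x + δ :=
    funext fun x => H_add_const t f δ x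
  rw [e] at this
  exact this

/-- there is a time with small entropy production -/
theorem exists_time {f : Ω → ℝ} (hf : ∀ x, 0 < f x) {s t : ℝ} (hs : 0 ≤ s) (hst : s < t) :
    ∃ u, s < u ∧ u < t ∧ (t - s) * c.D (c.H u *ᵥ f) (fun x => Real.log ((c.H u *ᵥ f) x)) =
      ent c.π (c.H s *ᵥ f) - ent c.π (c.H t *ᵥ f) := by
  obtain ⟨u, hu, e⟩ := exists_hasDerivAt_eq_slope (fun s => ent c.π (c.H s *ᵥ f))
    (fun u => -c.D (c.H u *ᵥ f) fun x => Real.log ((c.H u *ᵥ f) x)) hst
    (continuous_ent_H f).continuousOn fun u hu => hasDerivAt_ent_H (H_pos (hs.trans hu.1.le) hf)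
  refine ⟨u, hu.1, hu.2, ?_⟩
  rw [eq_div_iff (sub_pos.2 hst).ne'] at e
  linarith

/-! ### Gross' theorem -/

theorem gross_aux {K B κ p : ℝ} (h : LSI c K B) (hκ : 0 ≤ κ) (hκK : κ * K ≤ 4) (hp : 1 < p)
    {f : Ω → ℝ} (hf : ∀ x, 0 < f x) {t : ℝ} (ht : 0 ≤ t) :
    Real.log (mean c.π fun x => (c.H t *ᵥ f) x ^ (1 + (p - 1) * Real.exp (κ * t))) /
        (1 + (p - 1) * Real.exp (κ * t)) + B / (1 + (p - 1) * Real.exp (κ * t)) ≤
      Real.log (mean c.π fun x => f x ^ p) / p + B / p := by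
  set q : ℝ → ℝ := fun s => 1 + (p - 1) * Real.exp (κ * s) with hq
  have hq1 : ∀ s, 1 < q s := fun s => by
    have : 0 < (p - 1) * Real.exp (κ * s) := mul_pos (by linarith) (Real.exp_pos _)
    simp only [hq]; linarith
  have dq : ∀ s, HasDerivAt q (κ * (q s - 1)) s := fun s =>
    (((((hasDerivAt_id s).const_mul κ).exp).const_mul (p - 1)).const_add 1).congr_deriv (by
      simp only [hq, id]; ring)
  set u : ℝ → Ω → ℝ := fun s => c.H s *ᵥ f with hu
  set Z : ℝ → ℝ := fun s => mean c.π fun x => u s x ^ q s with hZ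
  have hZ0 : ∀ s, 0 ≤ s → 0 < Z s := fun s hs =>
    mean_pos c.isP fun x => Real.rpow_pos_of_pos (H_pos hs hf x) _
  have dZ : ∀ s, 0 ≤ s → HasDerivAt Z (κ * (q s - 1) / q s *
      (ent c.π (fun x => u s x ^ q s) + Z s * Real.log (Z s)) -
      q s * c.D (fun x => u s x ^ (q s - 1)) (u s)) s := fun s hs => by
    refine (hasDerivAt_mean (π := c.π) fun x => (c.hasDerivAt_H_mulVec f x s).rpow (dq s)
      (H_pos hs hf x)).congr_deriv ?_
    rw [ent_eq, sub_add_cancel, ← mean_const_mul, sub_eq_add_neg (mean _ _), ← mul_neg,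
      ← mean_mul_gen, ← mean_const_mul, ← mean_add']
    refine mean_congr fun x => ?_
    rw [Real.log_rpow (H_pos hs hf x)]
    have := (lt_trans zero_lt_one (hq1 s)).ne'
    simp only [hu]
    field_simp
    ring
  have hd : ∀ s, 0 ≤ s → HasDerivAt (fun s => Real.log (Z s) / q s + B / q s)
      ((κ * (q s - 1) * (ent c.π (fun x => u s x ^ q s) - B * Z s) -
        q s ^ 2 * c.D (fun x => u s x ^ (q s - 1)) (u s)) / (q s ^ 2 * Z s)) s := fun s hs => by
    have h0 := (lt_trans zero_lt_one (hq1 s)).ne'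
    refine (((((dZ s hs).log (hZ0 s hs).ne').fun_div (dq s) h0)).fun_add
      ((hasDerivAt_const s B).fun_div (dq s) h0)).congr_deriv ?_
    have := (hZ0 s hs).ne'
    field_simp
    ring
  have ha : AntitoneOn (fun s => Real.log (Z s) / q s + B / q s) (Set.Ici 0) :=
    antitoneOn_of_deriv_nonpos (convex_Ici 0)
      (fun s hs => (hd s hs).continuousAt.continuousWithinAt)
      (fun s hs => (hd s (interior_subset hs)).differentiableAt.differentiableWithinAt)
      fun s hs => by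
        have hs0 : 0 ≤ s := interior_subset hs
        rw [(hd s hs0).deriv]
        refine div_nonpos_of_nonpos_of_nonneg ?_ (mul_nonneg (sq_nonneg _) (hZ0 s hs0).le)
        have h1 := h fun x => u s x ^ (q s / 2)
        have e : (fun x => (u s x ^ (q s / 2)) ^ 2) = fun x => u s x ^ q s := funext fun x => by
          rw [← Real.rpow_natCast, ← Real.rpow_mul (H_pos hs0 hf x).le]
          congr 1; push_cast; ring
        rw [e] at h1
        have h2 := stroock_varopoulos c (H_pos (c := c) hs0 hf) (hq1 s)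
        have h3 := c.D_nonneg fun x => u s x ^ (q s / 2)
        have h4 : 0 ≤ q s - 1 := by linarith [hq1 s]
        have h5 := mul_le_mul_of_nonneg_left (sub_le_iff_le_add.2 h1) (mul_nonneg hκ h4)
        have h6 := mul_le_mul_of_nonneg_right hκK (mul_nonneg h4 h3)
        simp only [hZ, hu] at h2 h5 h6 ⊢
        nlinarith
  have h1 := ha (le_refl (0 : ℝ)) ht ht
  simp only [hZ, hu, hq, mul_zero, Real.exp_zero, mul_one, c.H_zero, one_mulVec, add_sub_cancel]
    at h1
  exact h1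

/-- the `L^p(π)` norm -/
noncomputable def lp (π : Ω → ℝ) (p : ℝ) (f : Ω → ℝ) : ℝ := mean π (fun x => |f x| ^ p) ^ (1 / p)

theorem lp_of_nonneg {π : Ω → ℝ} (p : ℝ) {f : Ω → ℝ} (hf : ∀ x, 0 ≤ f x) :
    lp π p f = mean π (fun x => f x ^ p) ^ (1 / p) := by
  simp only [lp, abs_of_nonneg (hf _)]

theorem lp_nonneg {π : Ω → ℝ} (h : IsP π) (p : ℝ) (f : Ω → ℝ) : 0 ≤ lp π p f :=
  Real.rpow_nonneg (h.mean_nonneg fun _ => Real.rpow_nonneg (abs_nonneg _) _) _

theorem lp_mono {π : Ω → ℝ} (h : IsP π) {p : ℝ} (hp : 0 ≤ p) {f g : Ω → ℝ}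
    (hfg : ∀ x, |f x| ≤ |g x|) : lp π p f ≤ lp π p g :=
  Real.rpow_le_rpow (h.mean_nonneg fun _ => Real.rpow_nonneg (abs_nonneg _) _)
    (h.mean_mono fun x => Real.rpow_le_rpow (abs_nonneg _) (hfg x) hp) (by positivity)

theorem lp_rpow {π : Ω → ℝ} (h : IsP π) {p : ℝ} (hp : 0 < p) (f : Ω → ℝ) :
    lp π p f ^ p = mean π fun x => |f x| ^ p := by
  rw [lp, ← Real.rpow_mul (h.mean_nonneg fun _ => Real.rpow_nonneg (abs_nonneg _) _),
    one_div_mul_cancel hp.ne', Real.rpow_one]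

theorem abs_H_le {t : ℝ} (ht : 0 ≤ t) (f : Ω → ℝ) (x : Ω) :
    |(c.H t *ᵥ f) x| ≤ (c.H t *ᵥ fun y => |f y|) x := by
  refine (abs_sum_le_sum_abs _ _).trans (le_of_eq (sum_congr rfl fun y _ => ?_))
  rw [abs_mul, abs_of_nonneg (c.H_nn ht x y)]

/-- **Gross' theorem** with a defect. -/
theorem LSI.hyper {K B p q : ℝ} (h : LSI c K B) (hK : 0 < K) (hp : 1 < p) (hpq : p ≤ q) {t : ℝ}
    (ht : 0 ≤ t) (hq : q - 1 ≤ (p - 1) * Real.exp (4 * t / K)) (f : Ω → ℝ) :
    lp c.π q (c.H t *ᵥ f) ≤ Real.exp (B * (1 / p - 1 / q)) * lp c.π p f := by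
  have hp1 : 0 < p - 1 := by linarith
  obtain ⟨κ, hκ, hκK, hκq⟩ : ∃ κ : ℝ, 0 ≤ κ ∧ κ * K ≤ 4 ∧ 1 + (p - 1) * Real.exp (κ * t) = q := by
    rcases eq_or_lt_of_le ht with h0 | h0
    · refine ⟨0, le_rfl, by norm_num, ?_⟩
      rw [← h0] at hq
      simp at hq ⊢
      linarith
    · have h1 : 1 ≤ (q - 1) / (p - 1) := by rw [le_div_iff₀ hp1]; linarith
      refine ⟨Real.log ((q - 1) / (p - 1)) / t, div_nonneg (Real.log_nonneg h1) h0.le, ?_, ?_⟩
      · have : Real.log ((q - 1) / (p - 1)) ≤ 4 * t / K := by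
          rw [Real.log_le_iff_le_exp (by linarith), div_le_iff₀ hp1]; linarith
        rw [le_div_iff₀ hK] at this
        rw [div_mul_eq_mul_div, div_le_iff₀ h0]; exact this
      · rw [div_mul_cancel₀ _ h0.ne', Real.exp_log (by linarith)]
        field_simp; ring
  have key : ∀ g : Ω → ℝ, (∀ x, 0 < g x) → mean c.π (fun x => (c.H t *ᵥ g) x ^ q) ^ (1 / q) ≤
      Real.exp (B * (1 / p - 1 / q)) * mean c.π (fun x => g x ^ p) ^ (1 / p) := by
    intro g hg
    have h1 := gross_aux h hκ hκK hp hg ht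
    rw [hκq] at h1
    rw [Real.rpow_def_of_pos (mean_pos c.isP fun x => Real.rpow_pos_of_pos (H_pos ht hg x) _),
      Real.rpow_def_of_pos (mean_pos c.isP fun x => Real.rpow_pos_of_pos (hg x) _), ← Real.exp_add]
    refine Real.exp_le_exp.2 ?_
    simp only [div_eq_mul_inv, one_mul] at h1 ⊢
    linarith
  have c2 : Continuous fun δ : ℝ => Real.exp (B * (1 / p - 1 / q)) *
      mean c.π (fun x => (|f x| + δ) ^ p) ^ (1 / p) := by
    refine continuous_const.mul (Continuous.rpow_const ?_ fun _ => Or.inr (by positivity))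
    exact continuous_finsetSum _ fun x _ => continuous_const.mul
      (Continuous.rpow_const (by fun_prop) fun _ => Or.inr (by linarith))
  have t2 := (c2.tendsto 0).mono_left (nhdsWithin_le_nhds (s := Set.Ioi 0))
  simp only [add_zero] at t2
  refine ge_of_tendsto t2 (eventually_nhdsWithin_of_forall fun δ hδ => ?_)
  have hg : ∀ x, 0 < |f x| + δ := fun x => add_pos_of_nonneg_of_pos (abs_nonneg _) hδ
  refine le_trans ?_ (key _ hg)
  rw [← lp_of_nonneg q fun x => (H_pos ht hg x).le]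
  refine lp_mono c.isP (by linarith) fun x => ?_
  rw [abs_of_pos (H_pos ht hg x), H_add_const]
  linarith [abs_H_le (c := c) ht f x, show 0 < δ from hδ]

theorem lp_le_of_bdd {π : Ω → ℝ} (h : IsP π) {f : Ω → ℝ} (hf : ∀ x, 0 ≤ f x) (h1 : mean π f ≤ 1)
    {L p : ℝ} (hL : ∀ x, f x ≤ Real.exp L) (hp : 1 ≤ p) : lp π p f ≤ Real.exp (L * (1 - 1 / p)) := by
  rw [lp_of_nonneg p hf]
  have : mean π (fun x => f x ^ p) ≤ Real.exp (L * (p - 1)) := by
    calc mean π (fun x => f x ^ p) ≤ mean π fun x => f x * Real.exp (L * (p - 1)) :=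
          h.mean_mono fun x => by
            have e : f x ^ p = f x * f x ^ (p - 1) := by
              rw [← Real.rpow_one_add' (hf x) (by linarith)]; congr 1; ring
            rw [e, Real.exp_mul]
            exact mul_le_mul_of_nonneg_left (Real.rpow_le_rpow (hf x) (hL x) (by linarith)) (hf x)
      _ ≤ _ := by
          rw [mean_mul_const]; exact mul_le_of_le_one_left (Real.exp_pos _).le h1
  refine (Real.rpow_le_rpow (h.mean_nonneg fun x => Real.rpow_nonneg (hf x) _) this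
    (by positivity)).trans (le_of_eq ?_)
  rw [← Real.exp_mul]
  congr 1
  field_simp

/-- Rényi decay for a bounded density. -/
theorem LSI.renyi {K B q : ℝ} (h : LSI c K B) (hK : 0 < K) (hB : 0 ≤ B) (hq : 1 < q) {t : ℝ}
    (ht : 0 ≤ t) {f : Ω → ℝ} (hf : ∀ x, 0 ≤ f x) (h1 : mean c.π f ≤ 1) {L : ℝ} (hL0 : 0 ≤ L)
    (hL : ∀ x, f x ≤ Real.exp L) :
    lp c.π q (c.H t *ᵥ f) ≤ Real.exp (B + L * (q - 1) * Real.exp (-(4 * t / K))) := by
  set e := Real.exp (-(4 * t / K)) with he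
  have he0 : 0 < e := Real.exp_pos _
  have he1 : e ≤ 1 := Real.exp_le_one_iff.2 (neg_nonpos.2 (by positivity))
  have hq1 : 0 < q - 1 := by linarith
  have hp : 1 < 1 + (q - 1) * e := by linarith [mul_pos hq1 he0]
  have h2 := h.hyper hK hp (q := q) (by nlinarith) ht (le_of_eq (by
    rw [add_sub_cancel_left, mul_assoc, he, ← Real.exp_add]; simp)) f
  refine h2.trans ((mul_le_mul_of_nonneg_left (lp_le_of_bdd c.isP hf h1 hL hp.le)
    (Real.exp_pos _).le).trans ?_)
  rw [← Real.exp_add]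
  refine Real.exp_le_exp.2 (add_le_add ?_ ?_)
  · refine mul_le_of_le_one_right hB ?_
    have : 1 / (1 + (q - 1) * e) ≤ 1 := by rw [div_le_one (by linarith)]; linarith
    have : 0 < 1 / q := by positivity
    linarith
  · rw [mul_assoc]
    refine mul_le_mul_of_nonneg_left ?_ hL0
    have h3 : 0 < (q - 1) * e := mul_pos hq1 he0
    rw [sub_le_iff_le_add, ← sub_le_iff_le_add', le_div_iff₀ (by linarith)]
    nlinarith

/-- Events of small equilibrium mass stay unlikely after a burn-in: start with a bounded density. -/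
theorem LSI.event {K B q : ℝ} (h : LSI c K B) (hK : 0 < K) (hB : 0 ≤ B) (hq : 1 < q) {t : ℝ}
    (ht : 0 ≤ t) {f : Ω → ℝ} (hf : ∀ x, 0 ≤ f x) (h1 : mean c.π f ≤ 1) {L : ℝ} (hL0 : 0 ≤ L)
    (hL : ∀ x, f x ≤ Real.exp L) (A : Ω → Prop) :
    mean c.π (fun x => (c.H t *ᵥ f) x * ind A x) ≤
      Real.exp (B + L * (q - 1) * Real.exp (-(4 * t / K))) * mean c.π (ind A) ^ (1 - 1 / q) := by
  refine (event_le_renyi c.isP.nn (H_nonneg ht hf) A hq).trans ?_
  rw [← lp_of_nonneg q (H_nonneg ht hf)]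
  exact mul_le_mul_of_nonneg_right (h.renyi hK hB hq ht hf h1 hL0 hL)
    (Real.rpow_nonneg (c.isP.mean_nonneg (ind_nonneg A)) _)

theorem del_le (x : Ω) {L : ℝ} (hL : Real.exp (-L) ≤ c.π x) (y : Ω) : c.del x y ≤ Real.exp L := by
  unfold RC.del
  split_ifs
  · rw [div_le_iff₀ (c.pos x)]
    calc (1 : ℝ) = Real.exp L * Real.exp (-L) := by rw [← Real.exp_add]; simp
      _ ≤ _ := by gcongr
  · positivity

/-- The same from a point. -/
theorem LSI.event_row {K B q : ℝ} (h : LSI c K B) (hK : 0 < K) (hB : 0 ≤ B) (hq : 1 < q) {t : ℝ}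
    (ht : 0 ≤ t) (x : Ω) {L : ℝ} (hL0 : 0 ≤ L) (hL : Real.exp (-L) ≤ c.π x) (A : Ω → Prop) :
    mean (c.H t x) (ind A) ≤
      Real.exp (B + L * (q - 1) * Real.exp (-(4 * t / K))) * mean c.π (ind A) ^ (1 - 1 / q) := by
  have e := (c.heat t ht).row_eq x
  simp only [RC.heat_P, RC.heat_π] at e
  rw [e, mean_dens]
  exact h.event hK hB hq ht (c.del_nonneg x) (c.mean_del x).le hL0 (del_le x hL) A

end Crest.Agent.T157.Ent
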