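import Crest.Agent.T157.EntC_34

/-!
Row 157, part E (helper34): finite entropy toolbox IV.
Second-order comparison of entropy and variance, (modified) log-Sobolev ⇒ Poincaré, entropy of
functions with small support, reduction of the log-Sobolev inequality to entropy levels
(truncation at quantiles).
-/

set_option autoImplicit false
set_option linter.unusedSectionVars false

namespace Crest.Agent.T157.Ent

open Finset Matrix Chain22 Filter Topology

/-! ### Entropy versus variance -/

theorem log_taylor_mono :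
    MonotoneOn (fun r : ℝ => Real.log r - (r - 1) + (r - 1) ^ 2 / 2) (Set.Ioi 0) := by
  have hd : ∀ r : ℝ, 0 < r → HasDerivAt (fun r : ℝ => Real.log r - (r - 1) + (r - 1) ^ 2 / 2)
      ((r - 1) ^ 2 / r) r := fun r hr => by
    refine (((Real.hasDerivAt_log hr.ne').sub ((hasDerivAt_id r).sub_const 1)).add
      ((((hasDerivAt_id r).sub_const 1).pow 2).div_const 2)).congr_deriv ?_
    simp only [id]; field_simp; ring
  refine monotoneOn_of_deriv_nonneg (convex_Ioi 0)
    (fun r hr => (hd r hr).continuousAt.continuousWithinAt)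
    (fun r hr => (hd r (interior_subset hr)).differentiableAt.differentiableWithinAt) fun r hr => ?_
  have hr' : 0 < r := interior_subset hr
  rw [(hd r hr').deriv]; positivity

theorem brg_eq {u a : ℝ} (hu : 0 < u) (ha : 0 < a) : brg u a = u * Real.log (u / a) - u + a := by
  rw [Real.log_div hu.ne' ha.ne']; unfold brg; ring

theorem brg_le_sq {u a m : ℝ} (hm : 0 < m) (hu : m ≤ u) (ha : m ≤ a) :
    2 * m * brg u a ≤ (u - a) ^ 2 := by
  have hu0 : 0 < u := hm.trans_le hu
  have ha0 : 0 < a := hm.trans_le ha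
  have hb := brg_nonneg hu0.le ha0
  rcases le_total a u with h | h
  · have h1 : Real.log (u / a) ≤ Real.sinh (Real.log (u / a)) :=
      Real.self_le_sinh_iff.2 (Real.log_nonneg ((one_le_div ha0).2 h))
    rw [Real.sinh_log (by positivity)] at h1
    have h2 : 2 * a * brg u a ≤ (u - a) ^ 2 := by
      rw [brg_eq hu0 ha0]
      have h3 := mul_le_mul_of_nonneg_left h1 (by positivity : 0 ≤ 2 * a * u)
      have h4 : 2 * a * u * ((u / a - (u / a)⁻¹) / 2) = u ^ 2 - a ^ 2 := by field_simp
      nlinarith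
    nlinarith
  · have h1 := log_taylor_mono (Set.mem_Ioi.2 one_pos) (Set.mem_Ioi.2 (div_pos ha0 hu0))
      ((one_le_div hu0).2 h)
    simp only [Real.log_one, sub_self] at h1
    have h2 : 2 * u * brg u a ≤ (u - a) ^ 2 := by
      rw [brg_eq hu0 ha0, ← inv_div, Real.log_inv]
      have h3 := mul_le_mul_of_nonneg_left h1 (by positivity : 0 ≤ 2 * u ^ 2)
      have h4 : 2 * u ^ 2 * (Real.log (a / u) - (a / u - 1) + (a / u - 1) ^ 2 / 2) =
          2 * u ^ 2 * Real.log (a / u) - 2 * u * (a - u) + (a - u) ^ 2 := by field_simp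
      nlinarith
    nlinarith

theorem sq_le_brg {u a M : ℝ} (hu0 : 0 ≤ u) (ha0 : 0 < a) (hu : u ≤ M) (ha : a ≤ M) :
    (u - a) ^ 2 ≤ 2 * M * brg u a := by
  have hb := brg_nonneg hu0 ha0
  rcases eq_or_lt_of_le hu0 with h0 | hu0
  · subst h0; simp only [brg, zero_mul, sub_self, zero_add]; nlinarith
  rcases le_total u a with h | h
  · have h1 : Real.sinh (Real.log (u / a)) ≤ Real.log (u / a) :=
      Real.sinh_le_self_iff.2 (Real.log_nonpos (by positivity) ((div_le_one ha0).2 h))
    rw [Real.sinh_log (by positivity)] at h1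
    have h2 : (u - a) ^ 2 ≤ 2 * a * brg u a := by
      rw [brg_eq hu0 ha0]
      have h3 := mul_le_mul_of_nonneg_left h1 (by positivity : 0 ≤ 2 * a * u)
      have h4 : 2 * a * u * ((u / a - (u / a)⁻¹) / 2) = u ^ 2 - a ^ 2 := by field_simp
      nlinarith
    nlinarith
  · have h1 := log_taylor_mono (Set.mem_Ioi.2 (div_pos ha0 hu0)) (Set.mem_Ioi.2 one_pos)
      ((div_le_one hu0).2 h)
    simp only [Real.log_one, sub_self] at h1
    have h2 : (u - a) ^ 2 ≤ 2 * u * brg u a := by
      rw [brg_eq hu0 ha0, ← inv_div, Real.log_inv]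
      have h3 := mul_le_mul_of_nonneg_left h1 (by positivity : 0 ≤ 2 * u ^ 2)
      have h4 : 2 * u ^ 2 * (Real.log (a / u) - (a / u - 1) + (a / u - 1) ^ 2 / 2) =
          2 * u ^ 2 * Real.log (a / u) - 2 * u * (a - u) + (a - u) ^ 2 := by field_simp
      nlinarith
    nlinarith

variable {Ω : Type*} [Fintype Ω] {π : Ω → ℝ}

/-- `Ent f ≤ Var f / (2 min f)` -/
theorem ent_le_var_of_ge (h : IsP π) {f : Ω → ℝ} {m : ℝ} (hm : 0 < m) (hf : ∀ x, m ≤ f x) :
    2 * m * ent π f ≤ var π f := by
  have h1 : m ≤ mean π f := by simpa [h.mean_const] using h.mean_mono (f := fun _ => m) hf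
  rw [ent_eq_brg h, ← mean_const_mul]
  exact h.mean_mono fun x => brg_le_sq hm (hf x) h1

/-- `Var f / (2 max f) ≤ Ent f` -/
theorem var_le_ent_of_le (h : IsP π) {f : Ω → ℝ} {M : ℝ} (h0 : ∀ x, 0 ≤ f x) (hf : ∀ x, f x ≤ M) :
    var π f ≤ 2 * M * ent π f := by
  rcases eq_or_lt_of_le (h.mean_nonneg h0) with e | e
  · have hz := h.eq_zero_of_mean h0 e.symm
    rw [ent_eq_zero_of_mean h h0 e.symm, mul_zero, var, ← e]
    refine le_of_eq (sum_eq_zero fun x _ => ?_)
    rw [sub_zero, sq, ← mul_assoc, hz x, zero_mul]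
  have h1 : mean π f ≤ M := by simpa [h.mean_const] using h.mean_mono (g := fun _ => M) hf
  rw [ent_eq_brg h, ← mean_const_mul]
  exact h.mean_mono fun x => sq_le_brg (h0 x) e (hf x) h1

theorem le_of_lin {V W M : ℝ}
    (h : ∀ ε : ℝ, 0 < ε → ε * M < 1 → (1 - ε * M) * V ≤ (1 + ε * M) * W) : V ≤ W := by
  have t0 : Tendsto (fun ε : ℝ => ε * M) (𝓝[>] 0) (𝓝 0) := by
    have : Continuous fun ε : ℝ => ε * M := by fun_prop
    simpa using (this.tendsto 0).mono_left (nhdsWithin_le_nhds (s := Set.Ioi 0))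
  have t1 : Tendsto (fun ε : ℝ => (1 - ε * M) * V) (𝓝[>] 0) (𝓝 V) := by
    simpa using (t0.const_sub 1).mul_const V
  have t2 : Tendsto (fun ε : ℝ => (1 + ε * M) * W) (𝓝[>] 0) (𝓝 W) := by
    simpa using (t0.const_add 1).mul_const W
  refine le_of_tendsto_of_tendsto t1 t2 ?_
  filter_upwards [self_mem_nhdsWithin, t0.eventually (gt_mem_nhds one_pos)] with ε h1 h2
  exact h ε h1 h2

theorem exists_abs_le (g : Ω → ℝ) : ∃ M : ℝ, ∀ x, |g x| ≤ M :=
  ⟨∑ x, |g x|, fun x => single_le_sum (f := fun x => |g x|) (fun _ _ => abs_nonneg _) (mem_univ x)⟩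

theorem var_lin (h : IsP π) (g : Ω → ℝ) (ε : ℝ) :
    var π (fun x => 1 + ε * g x) = ε ^ 2 * var π g := by
  rw [← var_smul, ← h.var_add_const (ε • g) 1]
  congr 1; funext x; simp [add_comm]

/-- linearisation: an entropy bound that is quadratic near constants gives a variance bound -/
theorem var_le_of_ent_le (h : IsP π) (g : Ω → ℝ) {W M : ℝ} (hM : ∀ x, |g x| ≤ M)
    (hW : ∀ ε : ℝ, 0 < ε → ε * M < 1 →
      2 * (1 - ε * M) * ent π (fun x => 1 + ε * g x) ≤ ε ^ 2 * W) : var π g ≤ W := by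
  refine le_of_lin (M := M) fun ε hε hεM => ?_
  have b : ∀ x, |ε * g x| ≤ ε * M := fun x => by
    rw [abs_mul, abs_of_pos hε]; exact mul_le_mul_of_nonneg_left (hM x) hε.le
  have h1 := var_le_ent_of_le h (f := fun x => 1 + ε * g x) (M := 1 + ε * M)
    (fun x => by linarith [(abs_le.1 (b x)).1]) fun x => by linarith [(abs_le.1 (b x)).2]
  rw [var_lin h] at h1
  have h2 := hW ε hε hεM
  have hM0 : 0 ≤ ε * M := by
    obtain ⟨x⟩ : Nonempty Ω := by
      by_contra hn
      have := h.sum1
      rw [not_nonempty_iff] at hn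
      simp at this
    exact (abs_nonneg _).trans (b x)
  refine le_of_mul_le_mul_left ?_ (by positivity : 0 < ε ^ 2)
  nlinarith [mul_le_mul_of_nonneg_left h1 (by linarith : 0 ≤ 1 - ε * M),
    mul_le_mul_of_nonneg_left h2 (by linarith : 0 ≤ 1 + ε * M)]

theorem sub_mul_log_le {a b m : ℝ} (hm : 0 < m) (ha : m ≤ a) (hb : m ≤ b) :
    m * ((a - b) * (Real.log a - Real.log b)) ≤ (a - b) * (a - b) := by
  have key : ∀ a b : ℝ, m ≤ b → b ≤ a →
      m * ((a - b) * (Real.log a - Real.log b)) ≤ (a - b) * (a - b) := by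
    intro a b hb h
    have hb0 : 0 < b := hm.trans_le hb
    have h1 := Real.log_le_sub_one_of_pos (div_pos (hb0.trans_le h) hb0)
    have h0 := Real.log_le_log hb0 h
    rw [Real.log_div (hb0.trans_le h).ne' hb0.ne'] at h1
    have h2 := mul_le_mul_of_nonneg_left h1 hb0.le
    have h3 : b * (a / b - 1) = a - b := by field_simp
    have h4 : m * (Real.log a - Real.log b) ≤ a - b := by nlinarith
    nlinarith [mul_le_mul_of_nonneg_left h4 (sub_nonneg.2 h)]
  rcases le_total b a with h | h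
  · exact key a b hb h
  · have := key b a ha h; nlinarith

section chain
variable {c : RC Ω}

theorem D_lin (g : Ω → ℝ) (ε : ℝ) :
    c.D (fun x => 1 + ε * g x) (fun x => 1 + ε * g x) = ε ^ 2 * c.D g g := by
  rw [← c.D_smul, ← c.D_add_const (ε • g) 1]
  congr 1 <;> funext x <;> simp [add_comm]

/-- modified log-Sobolev ⇒ Poincaré -/
theorem MLSI.poincare {K : ℝ} (h : MLSI c K 0) (hK : 0 ≤ K) (g : Ω → ℝ) :
    var c.π g ≤ 2 * K * c.D g g := by
  obtain ⟨M, hM⟩ := exists_abs_le g
  refine var_le_of_ent_le c.isP g hM fun ε hε hεM => ?_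
  have b : ∀ x, 1 - ε * M ≤ 1 + ε * g x := fun x => by
    nlinarith [(abs_le.1 (hM x)).1]
  have h1 := h (fun x => 1 + ε * g x) fun x => by linarith [b x]
  have h2 := D_le_D c (a := 1 - ε * M) (b := 1) (f := fun x => 1 + ε * g x)
    (g := fun x => Real.log (1 + ε * g x)) (u := fun x => 1 + ε * g x) (v := fun x => 1 + ε * g x)
    fun x y => by rw [one_mul]; exact sub_mul_log_le (by linarith) (b x) (b y)
  rw [D_lin] at h2
  nlinarith [mul_le_mul_of_nonneg_left h1 (by linarith : 0 ≤ 1 - ε * M),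
    mul_le_mul_of_nonneg_left h2 hK]

/-- log-Sobolev ⇒ Poincaré -/
theorem LSI.poincare {K : ℝ} (h : LSI c K 0) (hK : 0 ≤ K) (g : Ω → ℝ) :
    var c.π g ≤ K / 2 * c.D g g := by
  have := (h.mlsi hK).poincare (by positivity) g
  linarith

end chain

/-! ### Small support -/

theorem ind_mono {p q : Ω → Prop} (h : ∀ x, p x → q x) (x : Ω) : ind p x ≤ ind q x := by
  by_cases hp : p x
  · rw [ind_pos hp, ind_pos (h x hp)]
  · rw [ind_neg hp]; exact ind_nonneg _ _

theorem mean_ind_not (h : IsP π) (p : Ω → Prop) :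
    mean π (ind fun x => ¬ p x) = 1 - mean π (ind p) := by
  rw [← h.mean_const 1, ← mean_sub']
  refine mean_congr fun x => ?_
  by_cases hp : p x
  · rw [ind_pos hp, ind_neg (p := fun x => ¬ p x) (not_not.2 hp), sub_self]
  · rw [ind_neg hp, ind_pos (p := fun x => ¬ p x) hp, sub_zero]

/-- a function with small support has a large entropy -/
theorem ent_ge_of_supp (h : IsP π) {f : Ω → ℝ} (hf : ∀ x, 0 ≤ f x) {p : Ω → Prop}
    (hp : ∀ x, f x ≠ 0 → p x) {b : ℝ} (hb : mean π (ind p) ≤ b) :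
    Real.log (1 / b) * mean π f ≤ ent π f := by
  rcases eq_or_lt_of_le (h.mean_nonneg hf) with e | e
  · rw [← e, mul_zero]; exact h.ent_nonneg hf
  have h1 := mean_mul_log_le h hf (ind_nonneg p) fun x hx => by
    rw [ind_pos (hp x (right_ne_zero_of_mul hx))]; exact one_ne_zero
  have h2 : mean π (fun x => f x * Real.log (ind p x)) = 0 := by
    rw [← h.mean_const 0]
    refine mean_congr fun x => ?_
    by_cases hx : p x
    · rw [ind_pos hx, Real.log_one, mul_zero]
    · rw [ind_neg hx, Real.log_zero, mul_zero]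
  have h3 : 0 < mean π (ind p) := by
    rcases eq_or_lt_of_le (h.mean_nonneg (ind_nonneg p)) with e' | e'
    · have hz := h.eq_zero_of_mean (ind_nonneg p) e'.symm
      refine absurd (sum_eq_zero fun x _ => ?_ : mean π f = 0) e.ne'
      by_cases hx : f x = 0
      · rw [hx, mul_zero]
      · have := hz x
        rw [ind_pos (hp x hx), mul_one] at this
        rw [this, zero_mul]
    · exact e'
  have h4 := mul_le_mul_of_nonneg_left (Real.log_le_log h3 hb) e.le
  rw [one_div, Real.log_inv]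
  linarith

/-- a function with small support has a large variance -/
theorem var_ge_of_supp (h : IsP π) (f : Ω → ℝ) {p : Ω → Prop} (hp : ∀ x, f x ≠ 0 → p x) {b : ℝ}
    (hb : mean π (ind p) ≤ b) : (1 - b) * mean π (fun x => f x ^ 2) ≤ var π f := by
  have h1 := event_sq_le h f p
  have h2 : mean π (fun x => f x * ind p x) = mean π f := mean_congr fun x => by
    by_cases hx : f x = 0
    · rw [hx, zero_mul]
    · rw [ind_pos (hp x hx), mul_one]
  have h3 : ip π f f = mean π fun x => f x ^ 2 := mean_congr fun x => (sq _).symm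
  rw [h.var_eq, h3]
  rw [h2, h3] at h1
  nlinarith [mul_le_mul_of_nonneg_left hb (h.mean_nonneg fun x => sq_nonneg (f x))]

theorem exists_quantile (h : IsP π) (f : Ω → ℝ) {a : ℝ} (h0 : 0 ≤ a) (h1 : a ≤ 1) :
    ∃ x₀, mean π (ind fun x => f x₀ < f x) ≤ a ∧ a ≤ mean π (ind fun x => f x₀ ≤ f x) := by
  classical
  have hne : Nonempty Ω := by
    by_contra hn
    have := h.sum1
    rw [not_nonempty_iff] at hn
    simp at this
  obtain ⟨xm, -, hxm⟩ := exists_max_image univ f univ_nonempty
  set S := univ.filter fun y => mean π (ind fun x => f y < f x) ≤ a with hS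
  have hm : xm ∈ S := by
    rw [hS, mem_filter]
    refine ⟨mem_univ _, le_trans (le_of_eq ?_) h0⟩
    rw [← h.mean_const 0]
    exact mean_congr fun x => ind_neg (not_lt.2 (hxm x (mem_univ x)))
  obtain ⟨x₀, hx₀, hmin⟩ := exists_min_image S f ⟨xm, hm⟩
  refine ⟨x₀, (mem_filter.1 hx₀).2, ?_⟩
  by_contra hc
  rw [not_le] at hc
  set T := univ.filter fun y => f y < f x₀ with hT
  rcases T.eq_empty_or_nonempty with e | e
  · have : mean π (ind fun x => f x₀ ≤ f x) = 1 := by
      rw [← h.mean_const 1]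
      refine mean_congr fun x => ind_pos (not_lt.1 fun hx => ?_)
      have : x ∈ T := mem_filter.2 ⟨mem_univ _, hx⟩
      rw [e] at this; exact notMem_empty _ this
    linarith
  · obtain ⟨x₁, hx₁, hmax⟩ := exists_max_image T f e
    have : x₁ ∈ S := by
      rw [hS, mem_filter]
      refine ⟨mem_univ _, le_trans (h.mean_mono (ind_mono fun x hx => ?_)) hc.le⟩
      exact not_lt.1 fun hx' => not_lt.2 (hmax x (mem_filter.2 ⟨mem_univ _, hx'⟩)) hx
    exact not_lt.2 (hmin x₁ this) (mem_filter.1 hx₁).2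

/-- the entropy is an expectation against a nonnegative weight with small exponential moment -/
theorem exists_weight (h : IsP π) {F : Ω → ℝ} (hF : ∀ x, 0 ≤ F x) :
    ∃ ψ : Ω → ℝ, (∀ x, 0 ≤ ψ x) ∧ ent π F ≤ mean π (fun x => F x * ψ x) ∧
      mean π (fun x => Real.exp (ψ x)) ≤ 2 ∧ mean π ψ ≤ 1 := by
  rcases eq_or_lt_of_le (h.mean_nonneg hF) with e | e
  · refine ⟨fun _ => 0, fun _ => le_rfl, ?_, ?_, ?_⟩
    · rw [ent_eq_zero_of_mean h hF e.symm]; simp [h.mean_const]
    · simp [h.mean_const]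
    · simp [h.mean_const]
  set V := mean π F with hV
  have hd : mean π (fun x => F x / V) = 1 := by
    simp only [div_eq_mul_inv]; rw [mean_mul_const, mul_inv_cancel₀ e.ne']
  have hexp : ∀ x, Real.exp (max (Real.log (F x / V)) 0) ≤ 1 + F x / V := fun x => by
    have : 0 ≤ F x / V := div_nonneg (hF x) e.le
    rcases le_total (Real.log (F x / V)) 0 with h1 | h1
    · rw [max_eq_right h1, Real.exp_zero]; linarith
    · rw [max_eq_left h1]
      rcases eq_or_lt_of_le this with h2 | h2
      · rw [← h2]; simp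
      · rw [Real.exp_log h2]; linarith
  refine ⟨fun x => max (Real.log (F x / V)) 0, fun x => le_max_right _ _, ?_, ?_, ?_⟩
  · rw [ent_eq, ← mean_mul_const, ← mean_sub']
    refine h.mean_mono fun x => ?_
    rcases eq_or_lt_of_le (hF x) with h2 | h2
    · rw [← h2]; simp
    · rw [← mul_sub, ← Real.log_div h2.ne' e.ne']
      exact mul_le_mul_of_nonneg_left (le_max_left _ _) h2.le
  · refine (h.mean_mono hexp).trans (le_of_eq ?_)
    rw [mean_add', h.mean_const, hd]; norm_num
  · rw [← hd]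
    exact h.mean_mono fun x => by linarith [hexp x, Real.add_one_le_exp (max (Real.log (F x / V)) 0)]

/-! ### Reduction to entropy levels -/

section levels
variable (c : RC Ω)

/-- log-Sobolev inequality for functions `g ≥ 0` whose square has density `≤ 1 / a` and support of
mass `≤ b` -/
def Lev (a b K B : ℝ) : Prop :=
  ∀ g : Ω → ℝ, (∀ x, 0 ≤ g x) → (∀ x, a * g x ^ 2 ≤ mean c.π fun x => g x ^ 2) →
    mean c.π (ind fun x => 0 < g x) ≤ b →
    ent c.π (fun x => g x ^ 2) ≤ K * c.D g g + B * mean c.π fun x => g x ^ 2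

variable {c}

theorem Lev.mono {a b K B a' b' K' B' : ℝ} (h : Lev c a b K B) (ha : a ≤ a') (hb : b' ≤ b)
    (hK : K ≤ K') (hB : B ≤ B') : Lev c a' b' K' B' := fun g hg h1 h2 =>
  (h g hg (fun x => (mul_le_mul_of_nonneg_right ha (sq_nonneg _)).trans (h1 x)) (h2.trans hb)).trans
    (add_le_add (mul_le_mul_of_nonneg_right hK (c.D_nonneg g))
      (mul_le_mul_of_nonneg_right hB (c.isP.mean_nonneg fun _ => sq_nonneg _)))

theorem LSI.lev {K B : ℝ} (h : LSI c K B) (a b : ℝ) : Lev c a b K B := fun g _ _ _ => h g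

theorem supp_sq {g : Ω → ℝ} (hg : ∀ x, 0 ≤ g x) (x : Ω) (hx : g x ^ 2 ≠ 0) : 0 < g x :=
  lt_of_le_of_ne (hg x) fun h => hx (by rw [← h]; ring)

/-- a defect below the entropy of the level is absorbed -/
theorem Lev.absorb {a b K B θ : ℝ} (h : Lev c a b K B) (hθ0 : 0 ≤ θ) (hθ : θ < 1)
    (hB : B ≤ θ * Real.log (1 / b)) : Lev c a b (K / (1 - θ)) 0 := fun g hg h1 h2 => by
  have e1 := h g hg h1 h2
  have e2 := ent_ge_of_supp c.isP (fun x => sq_nonneg (g x)) (supp_sq hg) h2
  have e3 := mul_le_mul_of_nonneg_right hB (c.isP.mean_nonneg fun x => sq_nonneg (g x))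
  rw [zero_mul, add_zero, div_mul_eq_mul_div, le_div_iff₀ (by linarith)]
  nlinarith [mul_le_mul_of_nonneg_left e2 hθ0]

/-- the trivial bound -/
theorem lev_triv {a : ℝ} (ha : 0 < a) (b : ℝ) : Lev c a b 0 (Real.log (1 / a)) := fun g _ h1 _ => by
  rw [zero_mul, zero_add]
  refine ent_le_of_bdd c.isP (fun x => sq_nonneg _) fun x _ => ?_
  rw [one_div, ← div_eq_inv_mul, le_div_iff₀ ha, mul_comm]; exact h1 x

/-- a defect is removed by a Poincaré inequality (needed only for the functions of the level) -/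
theorem Lev.of_var {a b K B C : ℝ} (h : Lev c a b K B) (hB : 0 ≤ B) (hb : b < 1)
    (hP : ∀ g : Ω → ℝ, (∀ x, 0 ≤ g x) → (∀ x, a * g x ^ 2 ≤ mean c.π fun x => g x ^ 2) →
      mean c.π (ind fun x => 0 < g x) ≤ b → var c.π g ≤ C * c.D g g) :
    Lev c a b (K + B * C / (1 - b)) 0 := fun g hg h1 h2 => by
  have e1 := h g hg h1 h2
  have e2 := (var_ge_of_supp c.isP g (fun x hx => lt_of_le_of_ne (hg x) (Ne.symm hx)) h2).trans
    (hP g hg h1 h2)
  have e3 : mean c.π (fun x => g x ^ 2) ≤ C / (1 - b) * c.D g g := by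
    rw [div_mul_eq_mul_div, le_div_iff₀ (by linarith)]; linarith
  have e4 := mul_le_mul_of_nonneg_left e3 hB
  rw [zero_mul, add_zero, mul_div_assoc]
  linarith

theorem D_split {f g u : Ω → ℝ} (h : ∀ x y, (g x - g y) ^ 2 + (u x - u y) ^ 2 ≤ (f x - f y) ^ 2) :
    c.D g g + c.D u u ≤ c.D f f := by
  rw [c.D_eq, c.D_eq, c.D_eq, ← mul_add, ← sum_add_distrib]
  refine mul_le_mul_of_nonneg_left (sum_le_sum fun x _ => ?_) (by norm_num)
  rw [← sum_add_distrib]
  refine sum_le_sum fun y _ => ?_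
  rw [← mul_add]
  exact mul_le_mul_of_nonneg_left (by nlinarith [h x y]) (mul_nonneg (c.pos x).le (c.nn x y))

theorem min_max_sq (a b τ : ℝ) :
    (min a τ - min b τ) ^ 2 + (max (a - τ) 0 - max (b - τ) 0) ^ 2 ≤ (a - b) ^ 2 := by
  rcases le_total a τ with h1 | h1 <;> rcases le_total b τ with h2 | h2
  · rw [min_eq_left h1, min_eq_left h2, max_eq_right (by linarith), max_eq_right (by linarith)]
    nlinarith
  · rw [min_eq_left h1, min_eq_right h2, max_eq_right (by linarith), max_eq_left (by linarith)]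
    nlinarith
  · rw [min_eq_right h1, min_eq_left h2, max_eq_left (by linarith), max_eq_right (by linarith)]
    nlinarith
  · rw [min_eq_right h1, min_eq_right h2, max_eq_left (by linarith), max_eq_left (by linarith)]
    nlinarith

theorem levels_aux {a : ℕ → ℝ} {K : ℝ} (hK : 0 ≤ K) {ψ : Ω → ℝ} (hψ : ∀ x, 0 ≤ ψ x)
    (h0 : ∀ x, a 0 < c.π x) (J : ℕ) (ha : ∀ j < J, 0 ≤ a j ∧ a j ≤ 1)
    (hL : ∀ j < J, ∀ g : Ω → ℝ, (∀ x, 0 ≤ g x) →
      (∀ x, a j * g x ^ 2 ≤ mean c.π fun x => g x ^ 2) →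
      mean c.π (ind fun x => 0 < g x) ≤ a (j + 1) →
      mean c.π (fun x => g x ^ 2 * ψ x) ≤ K * c.D g g) :
    ∀ f : Ω → ℝ, (∀ x, 0 ≤ f x) → mean c.π (ind fun x => 0 < f x) ≤ a J →
      mean c.π (fun x => f x ^ 2 * ψ x) ≤ J * K * c.D f f := by
  induction J with
  | zero =>
    intro f hf hs
    have hz : ∀ x, f x = 0 := fun x => by
      by_contra hx
      have h1 : c.π x * ind (fun x => 0 < f x) x ≤ mean c.π (ind fun x => 0 < f x) :=
        single_le_sum (f := fun y => c.π y * ind (fun x => 0 < f x) y)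
          (fun y _ => mul_nonneg (c.pos y).le (ind_nonneg _ _)) (mem_univ x)
      rw [ind_pos (p := fun x => 0 < f x) (lt_of_le_of_ne (hf x) (Ne.symm hx)), mul_one] at h1
      linarith [h0 x]
    simp [hz, c.isP.mean_const]
  | succ J ih =>
    intro f hf hs
    obtain ⟨x₀, q1, q2⟩ := exists_quantile c.isP f (ha J (by omega)).1 (ha J (by omega)).2
    set τ := f x₀ with hτ
    have hτ0 : 0 ≤ τ := hf x₀
    set g : Ω → ℝ := fun x => min (f x) τ with hg
    set u : Ω → ℝ := fun x => max (f x - τ) 0 with hu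
    have g0 : ∀ x, 0 ≤ g x := fun x => le_min (hf x) hτ0
    have e1 := hL J (by omega) g g0 (fun x => by
        have b1 : g x ^ 2 ≤ τ ^ 2 := pow_le_pow_left₀ (g0 x) (min_le_right _ _) 2
        have b2 : τ ^ 2 * mean c.π (ind fun x => τ ≤ f x) ≤ mean c.π fun x => g x ^ 2 := by
          rw [← mean_const_mul]
          refine c.isP.mean_mono fun y => ?_
          by_cases hy : τ ≤ f y
          · rw [ind_pos (p := fun x => τ ≤ f x) hy, mul_one, hg]; simp only [min_eq_right hy, le_refl]
          · rw [ind_neg (p := fun x => τ ≤ f x) hy, mul_zero]; exact sq_nonneg _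
        nlinarith [mul_le_mul_of_nonneg_left b1 (ha J (by omega)).1,
          mul_le_mul_of_nonneg_left q2 (sq_nonneg τ)])
      (le_trans (c.isP.mean_mono (ind_mono fun x hx => hx.trans_le (min_le_left _ _))) hs)
    have e2 := ih (fun j hj => ha j (by omega)) (fun j hj => hL j (by omega)) u
      (fun x => le_max_right _ _)
      (le_trans (c.isP.mean_mono (ind_mono fun x hx => by
        rcases lt_max_iff.1 hx with h | h
        · linarith
        · exact absurd h (lt_irrefl _))) q1)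
    have e3 : c.D g g + c.D u u ≤ c.D f f := D_split fun x y => min_max_sq _ _ _
    have hfg : ∀ x, f x = g x + u x := fun x => by
      simp only [hg, hu]
      rcases le_total (f x) τ with h | h
      · rw [min_eq_left h, max_eq_right (by linarith), add_zero]
      · rw [min_eq_right h, max_eq_left (by linarith)]; ring
    have e4 : mean c.π (fun x => f x ^ 2 * ψ x) = mean c.π (fun x => g x ^ 2 * ψ x) +
        2 * mean c.π (fun x => g x * u x * ψ x) + mean c.π (fun x => u x ^ 2 * ψ x) := by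
      rw [← mean_const_mul, ← mean_add', ← mean_add']
      exact mean_congr fun x => by rw [hfg x]; ring
    have e5 : mean c.π (fun x => g x * u x * ψ x) ^ 2 ≤
        mean c.π (fun x => g x ^ 2 * ψ x) * mean c.π (fun x => u x ^ 2 * ψ x) := by
      have := c.isP.ip_sq_le (fun x => g x * Real.sqrt (ψ x)) (fun x => u x * Real.sqrt (ψ x))
      have k : ∀ v w : Ω → ℝ, ip c.π (fun x => v x * Real.sqrt (ψ x)) (fun x => w x * Real.sqrt (ψ x))
          = mean c.π fun x => v x * w x * ψ x := fun v w => mean_congr fun x => by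
        have := Real.mul_self_sqrt (hψ x)
        calc v x * Real.sqrt (ψ x) * (w x * Real.sqrt (ψ x)) =
            v x * w x * (Real.sqrt (ψ x) * Real.sqrt (ψ x)) := by ring
          _ = _ := by rw [this]
      simpa only [k, ← sq] using this
    have p1 := c.D_nonneg g
    have p2 := c.D_nonneg u
    have p3 : 0 ≤ mean c.π (fun x => u x ^ 2 * ψ x) :=
      c.isP.mean_nonneg fun x => mul_nonneg (sq_nonneg _) (hψ x)
    have hJ : (0 : ℝ) ≤ J := Nat.cast_nonneg J
    have e6 : mean c.π (fun x => g x * u x * ψ x) ≤ K * (J * c.D g g + c.D u u) / 2 := by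
      refine (abs_le_of_sq_le_sq' (e5.trans ?_) (by positivity)).2
      refine (mul_le_mul e1 e2 p3 (by positivity)).trans ?_
      nlinarith [sq_nonneg (K * (J * c.D g g - c.D u u))]
    push_cast
    nlinarith [mul_le_mul_of_nonneg_left e3 (by positivity : 0 ≤ ((J : ℝ) + 1) * K)]

/-- **Reduction to entropy levels.** Levels `a 0 < π_min`, `a j ≤ 1/2`, `a J = 1/2`. -/
theorem LSI.of_levels {a : ℕ → ℝ} {J : ℕ} {K : ℝ} (hK : 0 ≤ K) (h0 : ∀ x, a 0 < c.π x)
    (ha : ∀ j ≤ J, 0 ≤ a j ∧ a j ≤ 1 / 2) (hJ : a J = 1 / 2)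
    (hL : ∀ j < J, Lev c (a j) (a (j + 1)) K 0) : LSI c (10 * J * K) 0 := by
  intro f
  obtain ⟨ψ, ψ0, ψ1, ψ2, ψ3⟩ := exists_weight c.isP (F := fun x => (f x - mean c.π f) ^ 2)
    fun x => sq_nonneg _
  have key := levels_aux (a := a) (K := 5 * K) (by positivity) (ψ := fun x => ψ x + 2)
    (fun x => by linarith [ψ0 x]) h0 J
    (fun j hj => ⟨(ha j hj.le).1, by linarith [(ha j hj.le).2]⟩) fun j hj g hg h1 h2 => by
      have e1 := hL j hj g hg h1 h2
      have e2 := ent_ge_of_supp c.isP (fun x => sq_nonneg (g x)) (supp_sq hg)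
        (h2.trans (ha (j + 1) hj).2)
      have e3 := c.isP.mean_mul_le_ent (fun x => sq_nonneg (g x)) ψ
      have e4 := mul_le_mul_of_nonneg_left (Real.log_le_log (mean_exp_pos c.isP ψ) ψ2)
        (c.isP.mean_nonneg fun x => sq_nonneg (g x))
      have e5 : mean c.π (fun x => g x ^ 2 * (ψ x + 2)) =
          ip c.π (fun x => g x ^ 2) ψ + 2 * mean c.π fun x => g x ^ 2 := by
        rw [ip_eq_mean, ← mean_const_mul, ← mean_add']; exact mean_congr fun x => by ring
      have e6 := Real.log_two_gt_d9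
      have e7 : 0 ≤ mean c.π fun x => g x ^ 2 := c.isP.mean_nonneg fun x => sq_nonneg _
      rw [one_div_one_div] at e2
      nlinarith
  obtain ⟨x₀, q1, q2⟩ := exists_quantile c.isP f (a := 1 / 2) (by norm_num) (by norm_num)
  set τ := f x₀ with hτ
  have k1 := key (fun x => max (f x - τ) 0) (fun x => le_max_right _ _) (by
    rw [hJ]
    refine le_trans (c.isP.mean_mono (ind_mono fun x hx => ?_)) q1
    rcases lt_max_iff.1 hx with h | h
    · linarith
    · exact absurd h (lt_irrefl _))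
  have k2 := key (fun x => τ - min (f x) τ) (fun x => sub_nonneg.2 (min_le_right _ _)) (by
    rw [hJ]
    have := mean_ind_not c.isP fun x => τ ≤ f x
    refine le_trans (c.isP.mean_mono (ind_mono (q := fun x => ¬ τ ≤ f x) fun x hx h => ?_))
      (by linarith)
    rw [min_eq_right h, sub_self] at hx; exact lt_irrefl _ hx)
  have k3 : c.D (fun x => τ - min (f x) τ) (fun x => τ - min (f x) τ) +
      c.D (fun x => max (f x - τ) 0) (fun x => max (f x - τ) 0) ≤ c.D f f :=
    D_split fun x y => by nlinarith [min_max_sq (f x) (f y) τ]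
  have k4 : mean c.π (fun x => (f x - τ) ^ 2 * (ψ x + 2)) =
      mean c.π (fun x => max (f x - τ) 0 ^ 2 * (ψ x + 2)) +
      mean c.π (fun x => (τ - min (f x) τ) ^ 2 * (ψ x + 2)) := by
    rw [← mean_add']
    refine mean_congr fun x => ?_
    rcases le_total (f x) τ with h | h
    · rw [min_eq_left h, max_eq_right (by linarith)]; ring
    · rw [min_eq_right h, max_eq_left (by linarith)]; ring
  have k5 := rothaus c.isP f
  have k6 : var c.π f ≤ mean c.π fun x => (f x - τ) ^ 2 := c.isP.var_le_sq f τ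
  have k7 : (mean c.π f - τ) ^ 2 ≤ mean c.π fun x => (f x - τ) ^ 2 := by
    have := c.isP.mean_sq_le fun x => f x - τ
    rw [mean_sub', c.isP.mean_const] at this
    exact this.trans (le_of_eq (mean_congr fun x => (sq _).symm))
  have k8 : mean c.π (fun x => (f x - mean c.π f) ^ 2 * ψ x) ≤
      2 * mean c.π (fun x => (f x - τ) ^ 2 * ψ x) + 2 * (mean c.π f - τ) ^ 2 * mean c.π ψ := by
    rw [← mean_const_mul, ← mean_const_mul, ← mean_add']
    refine c.isP.mean_mono fun x => ?_
    nlinarith [mul_nonneg (sq_nonneg (f x - τ + (mean c.π f - τ))) (ψ0 x)]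
  have k9 : mean c.π (fun x => (f x - τ) ^ 2 * (ψ x + 2)) =
      mean c.π (fun x => (f x - τ) ^ 2 * ψ x) + 2 * mean c.π fun x => (f x - τ) ^ 2 := by
    rw [← mean_const_mul, ← mean_add']; exact mean_congr fun x => by ring
  have k10 := mul_le_mul_of_nonneg_left ψ3 (sq_nonneg (mean c.π f - τ))
  have k11 := mul_le_mul_of_nonneg_left k3 (by positivity : 0 ≤ (J : ℝ) * (5 * K))
  linarith

/-- Dyadic levels `H₁ ≤ H`: a defective inequality (defect `H / 4`) for densities `≤ e^H` with
support `≤ e^{-H/2}`, and a Poincaré inequality for densities `≤ e^{H₁}` with support `≤ 1/2`. -/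
theorem LSI.of_dyadic {H₀ H₁ K C : ℝ} {J : ℕ} (hK : 0 ≤ K) (hC : 0 ≤ C)
    (h0 : ∀ x, Real.exp (-H₀) < c.π x) (h1 : Real.log 2 ≤ H₁) (hJ : H₀ ≤ 2 ^ J * H₁)
    (hL : ∀ H, H₁ ≤ H → H ≤ max H₀ H₁ → Lev c (Real.exp (-H)) (Real.exp (-(H / 2))) K (H / 4))
    (hP : ∀ g : Ω → ℝ, (∀ x, 0 ≤ g x) →
      (∀ x, Real.exp (-H₁) * g x ^ 2 ≤ mean c.π fun x => g x ^ 2) →
      mean c.π (ind fun x => 0 < g x) ≤ 1 / 2 → var c.π g ≤ C * c.D g g) :
    LSI c (20 * (J + 1) * (K + C * H₁)) 0 := by
  have l2 : 0 < Real.log 2 := Real.log_pos one_lt_two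
  have hH : 0 < H₁ := l2.trans_le h1
  have hCH : 0 ≤ C * H₁ := by positivity
  have := LSI.of_levels (c := c) (J := J + 1) (K := 2 * (K + C * H₁))
    (a := fun j => if j ≤ J then Real.exp (-max (H₀ / 2 ^ j) H₁) else 1 / 2) (by positivity)
    (fun x => by
      simp only [Nat.zero_le, if_true, pow_zero, div_one]
      exact lt_of_le_of_lt (Real.exp_le_exp.2 (neg_le_neg (le_max_left _ _))) (h0 x))
    (fun j _ => by
      split_ifs
      · refine ⟨(Real.exp_pos _).le, ?_⟩
        calc Real.exp (-max (H₀ / 2 ^ j) H₁) ≤ Real.exp (-Real.log 2) :=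
              Real.exp_le_exp.2 (neg_le_neg (h1.trans (le_max_right _ _)))
          _ = 1 / 2 := by rw [Real.exp_neg, Real.exp_log two_pos, one_div]
      · norm_num)
    (by simp) fun j hj => by
      rw [if_pos (by omega)]
      by_cases hj' : j + 1 ≤ J
      · rw [if_pos hj']
        have hm : H₁ ≤ max (H₀ / 2 ^ j) H₁ := le_max_right _ _
        have := (hL (max (H₀ / 2 ^ j) H₁) hm (by
          rcases le_total H₀ 0 with h | h
          · exact max_le ((div_nonpos_of_nonpos_of_nonneg h (by positivity)).trans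
              (hH.le.trans (le_max_right _ _))) (le_max_right _ _)
          · exact max_le_max (div_le_self h (one_le_pow₀ one_le_two)) le_rfl)).absorb
          (θ := 1 / 2) (by norm_num) (by norm_num) (by
            rw [one_div (Real.exp _), Real.log_inv, Real.log_exp]; linarith)
        refine this.mono le_rfl (Real.exp_le_exp.2 (neg_le_neg ?_)) (by norm_num; linarith) le_rfl
        rw [div_le_iff₀ two_pos]
        refine max_le ?_ (by linarith [le_max_right (H₀ / 2 ^ (j + 1)) H₁])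
        have : H₀ / 2 ^ j = H₀ / 2 ^ (j + 1) * 2 := by rw [pow_succ]; field_simp
        linarith [le_max_left (H₀ / 2 ^ (j + 1)) H₁]
      · rw [if_neg hj']
        obtain rfl : j = J := by omega
        rw [max_eq_right (by rw [div_le_iff₀ (by positivity)]; linarith)]
        have := (lev_triv (c := c) (Real.exp_pos (-H₁)) (1 / 2)).of_var
          (by rw [one_div, Real.log_inv, Real.log_exp]; linarith) (by norm_num) hP
        rw [one_div (Real.exp _), Real.log_inv, Real.log_exp] at this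
        exact this.mono le_rfl le_rfl (by norm_num; linarith) le_rfl
  refine this.mono (le_of_eq ?_) le_rfl
  push_cast; ring

end levels

end Crest.Agent.T157.Ent
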