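import Crest.Agent.T157.UnB_81

/-!
# Row 157, part C: edge transfer, A (helper81)

Universality with two radii and the class `Rl` of functionals with a relative oscillation bound.
-/

set_option autoImplicit false
set_option linter.unusedSectionVars false

noncomputable section

namespace Crest.Agent.T157.Et

open MeasureTheory Metric Finset
open Crest.ProbabilityR.SpinGlassDynamics Crest.Agent.T157.E Crest.Agent.T157.Un

variable {ι : Type*} [Fintype ι] [DecidableEq ι]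

/-- the error of the replacement scheme -/
def err (r s M η : ℝ) : ℝ := 64 * (1 + 10 * m8 ^ 2) / r ^ 4 * η + 1024 * M * m8 / (s ^ 4 * r ^ 8)

/-- difference of the two entry laws -/
def dl (q : ℝ → ℝ) : ℝ := ∫ x, q x ∂entryLaw true - ∫ x, q x ∂entryLaw false

lemma piece {q : (ι → ℝ) → ι → ℝ → ℝ} {G : (ι → ℝ) → ℝ} {r s M η : ℝ} (hr : 0 < r) (hs : 0 < s)
    (hη : 0 < η) (hc : (Fintype.card ι : ℝ) ≤ s ^ 4) (hM0 : 0 ≤ M)
    (hq : ∀ g e, Measurable (q g e)) (hM : ∀ g e x, |q g e x| ≤ M)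
    (h : ∀ g, ∃ K : ι → ℝ, ∑ e, K e ^ 2 ≤ s ^ 4 * G g ∧ ∀ e, ∃ F,
      Ex r (fun t => q g e (g e + s * t)) F ∧ ∀ z ∈ ball (0 : ℂ) r, ‖F z - F 0‖ ≤ K e)
    (σ : ι → Bool) (hG : Integrable G (hyb σ) ∧ ∫ g, G g ∂hyb σ ≤ η ^ 2) :
    ∃ B : (ι → ℝ) → ℝ, Integrable B (hyb σ) ∧ ∫ g, B g ∂hyb σ ≤ err r s M η ∧
      ∀ g, ∑ e, |dl (q g e)| ≤ B g := by
  have h8 := one_le_m8
  have hsr : 0 < s * r := mul_pos hs hr
  set A := 64 * η * 8 * m8 ^ 2 / (s * r) ^ 4 + 512 * M * m8 / (s * r) ^ 8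
  set B := 128 * η / (s * r) ^ 4 + 512 * M / (s * r) ^ 8
  have hB : 0 ≤ B := by positivity
  have i1 : ∀ e, Integrable (fun g : ι → ℝ => A + B * g e ^ 8) (hyb σ) := fun e =>
    (integrable_const _).add ((int_eval8 σ e).const_mul _)
  refine ⟨fun g => 64 / (r ^ 4 * η) * G g + ∑ e, (A + B * g e ^ 8),
    (hG.1.const_mul _).add (integrable_finsetSum _ fun e _ => i1 e), ?_, fun g => ?_⟩
  · rw [integral_add (hG.1.const_mul _) (integrable_finsetSum _ fun e _ => i1 e),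
      integral_const_mul, integral_finsetSum _ fun e _ => i1 e]
    have h2 : ∀ e, ∫ g, (A + B * g e ^ 8) ∂hyb σ ≤ A + B * m8 := fun e => by
      rw [integral_add (integrable_const _) ((int_eval8 σ e).const_mul _), integral_const_mul]
      simp only [integral_const, probReal_univ, smul_eq_mul, one_mul]
      gcongr; exact eval8_le σ e
    have h3 : ∑ e : ι, ∫ g, (A + B * g e ^ 8) ∂hyb σ ≤ s ^ 4 * (A + B * m8) := by
      refine (sum_le_sum fun e _ => h2 e).trans ?_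
      rw [sum_const, card_univ, nsmul_eq_mul]
      gcongr
    have h4 : s ^ 4 * (A + B * m8) = 64 * (8 * m8 ^ 2 + 2 * m8) / r ^ 4 * η +
        1024 * M * m8 / (s ^ 4 * r ^ 8) := by simp only [A, B]; field_simp; ring
    have h5 : 64 / (r ^ 4 * η) * ∫ g, G g ∂hyb σ ≤ 64 / r ^ 4 * η :=
      (mul_le_mul_of_nonneg_left hG.2 (by positivity)).trans_eq (by field_simp)
    have h6 : 64 * (8 * m8 ^ 2 + 2 * m8) / r ^ 4 * η ≤ 64 * (10 * m8 ^ 2) / r ^ 4 * η := by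
      gcongr; nlinarith
    have h7 : 64 * (1 + 10 * m8 ^ 2) / r ^ 4 * η =
        64 / r ^ 4 * η + 64 * (10 * m8 ^ 2) / r ^ 4 * η := by ring
    unfold err; linarith
  · obtain ⟨K, hK, hF⟩ := h g
    have h1 : ∀ e, |dl (q g e)| ≤ 64 / ((s * r) ^ 4 * η) * K e ^ 2 + (A + B * g e ^ 8) := fun e => by
      obtain ⟨F, hF, hz⟩ := hF e
      refine (one_entry (x₀ := g e) (hq g e) (hM g e) hr hs hF hz).trans ?_
      have h2 : 2 * (K e * (2 * m8 + g e ^ 4)) ≤ K e ^ 2 / η + η * (8 * m8 ^ 2 + 2 * g e ^ 8) := by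
        have h3 : 0 ≤ (K e - η * (2 * m8 + g e ^ 4)) ^ 2 / η := by positivity
        have h4 : (K e - η * (2 * m8 + g e ^ 4)) ^ 2 / η = K e ^ 2 / η -
            2 * (K e * (2 * m8 + g e ^ 4)) + η * (2 * m8 + g e ^ 4) ^ 2 := by field_simp; ring
        have h5 : (2 * m8 + g e ^ 4) ^ 2 ≤ 8 * m8 ^ 2 + 2 * g e ^ 8 := by
          nlinarith [sq_nonneg (2 * m8 - g e ^ 4)]
        nlinarith [mul_le_mul_of_nonneg_left h5 hη.le]
      calc _ = 64 / (s * r) ^ 4 * (2 * (K e * (2 * m8 + g e ^ 4))) +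
            512 * M * (m8 + g e ^ 8) / (s * r) ^ 8 := by ring
        _ ≤ 64 / (s * r) ^ 4 * (K e ^ 2 / η + η * (8 * m8 ^ 2 + 2 * g e ^ 8)) +
            512 * M * (m8 + g e ^ 8) / (s * r) ^ 8 := by gcongr
        _ = _ := by simp only [A, B]; field_simp; ring
    refine (sum_le_sum fun e _ => h1 e).trans ?_
    rw [sum_add_distrib, ← mul_sum]
    refine add_le_add_left ?_ _
    calc _ ≤ 64 / ((s * r) ^ 4 * η) * (s ^ 4 * G g) := by gcongr
      _ = _ := by field_simp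

/-- **universality of a product, two radii** -/
theorem univ2 {φ ψ G G' : (ι → ℝ) → ℝ} {r r' s η η' : ℝ} (hr : 0 < r) (hr' : 0 < r') (hs : 0 < s)
    (hη : 0 < η) (hη' : 0 < η') (hc : (Fintype.card ι : ℝ) ≤ s ^ 4) (hφ : Measurable φ)
    (hψ : Measurable ψ) (bφ : ∀ g, |φ g| ≤ 1) (bψ : ∀ g, |ψ g| ≤ 1)
    (h : ∀ g, ∃ K : ι → ℝ, ∑ e, K e ^ 2 ≤ s ^ 4 * G g ∧ ∀ e, ∃ F,
      Ex r (fun t => ψ (sh s g e t) * (φ (sh s g e t) - φ g)) F ∧
        ∀ z ∈ ball (0 : ℂ) r, ‖F z - F 0‖ ≤ K e)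
    (h' : AnK r' s ψ G') (hG : ∀ σ, Integrable G (hyb σ) ∧ ∫ g, G g ∂hyb σ ≤ η ^ 2)
    (hG' : ∀ σ, Integrable G' (hyb σ) ∧ ∫ g, G' g ∂hyb σ ≤ η' ^ 2) :
    |∫ g, φ g * ψ g ∂hyb (fun _ => true) - ∫ g, φ g * ψ g ∂hyb fun _ => false| ≤
      err r s 2 η + err r' s 1 η' := by
  have hQ : Measurable fun g => φ g * ψ g := hφ.mul hψ
  have hM : ∀ g, |φ g * ψ g| ≤ 1 := fun g => by
    rw [abs_mul]; exact mul_le_one₀ (bφ g) (abs_nonneg _) (bψ g)
  let Δ : ι → (ι → ℝ) → ℝ := fun e g =>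
    |dl fun x => φ (Function.update g e x) * ψ (Function.update g e x)|
  have hΔ : ∀ σ e, Integrable (Δ e) (hyb σ) := fun σ e =>
    ((hyb_update hQ hM σ e true).2.sub (hyb_update hQ hM σ e false).2).abs
  refine mix_le (fun σ => ∫ g, φ g * ψ g ∂hyb σ) (fun σ e => ∫ g, Δ e g ∂hyb σ) (fun σ e => ?_)
    fun σ => ?_
  · rw [(hyb_update hQ hM σ e true).1, (hyb_update hQ hM σ e false).1,
      ← integral_sub (hyb_update hQ hM σ e true).2 (hyb_update hQ hM σ e false).2]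
    exact abs_integral_le_integral_abs
  let q : (ι → ℝ) → ι → ℝ → ℝ := fun g e x =>
    ψ (Function.update g e x) * (φ (Function.update g e x) - φ g)
  let q' : (ι → ℝ) → ι → ℝ → ℝ := fun g e x => φ g * ψ (Function.update g e x)
  have mq : ∀ g e, Measurable (q g e) := fun g e => (hψ.comp (measurable_update g)).mul
    ((hφ.comp (measurable_update g)).sub_const _)
  have mq' : ∀ g e, Measurable (q' g e) := fun g e => (hψ.comp (measurable_update g)).const_mul _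
  have bq : ∀ g e x, |q g e x| ≤ 2 := fun g e x => by
    rw [abs_mul]
    have := (abs_sub _ _).trans (add_le_add (bφ (Function.update g e x)) (bφ g))
    nlinarith [bψ (Function.update g e x), abs_nonneg (ψ (Function.update g e x)),
      abs_nonneg (φ (Function.update g e x) - φ g)]
  have bq' : ∀ g e x, |q' g e x| ≤ 1 := fun g e x => by
    rw [abs_mul]; exact mul_le_one₀ (bφ g) (abs_nonneg _) (bψ _)
  obtain ⟨B, i1, i2, i3⟩ := piece (q := q) hr hs hη hc zero_le_two mq bq h σ (hG σ)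
  obtain ⟨B', j1, j2, j3⟩ := piece (q := q') hr' hs hη' hc zero_le_one mq' bq' (fun g => by
    obtain ⟨K, hK, hF⟩ := h' g
    refine ⟨K, hK, fun e => ?_⟩
    obtain ⟨F, h1, h2⟩ := hF e
    refine ⟨_, (Ex.const r' (φ g)).mul h1, fun z hz => ?_⟩
    rw [← mul_sub, norm_mul, Complex.norm_real, Real.norm_eq_abs]
    exact (mul_le_of_le_one_left (norm_nonneg _) (bφ g)).trans (h2 z hz)) σ (hG' σ)
  rw [← integral_finsetSum _ fun e _ => hΔ σ e]
  refine (integral_mono (integrable_finsetSum _ fun e _ => hΔ σ e) (i1.add j1) fun g => ?_).trans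
    (by rw [integral_add' i1 j1]; exact add_le_add i2 j2)
  refine le_trans ?_ (add_le_add (i3 g) (j3 g))
  rw [← sum_add_distrib]
  refine sum_le_sum fun e _ => le_trans (le_of_eq ?_) (abs_add_le _ _)
  have e1 : (fun x => φ (Function.update g e x) * ψ (Function.update g e x)) =
      fun x => q g e x + q' g e x := by funext x; simp only [q, q']; ring
  simp only [Δ, e1, dl, integral_add (int_bdd (mq g e) (bq g e)) (int_bdd (mq' g e) (bq' g e))]
  congr 1; ring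

/-- from all selections to a supremum -/
lemma sel {h : ι → ℂ → ℝ} {S : Set ℂ} {B : ℝ} (hS : S.Nonempty)
    (H : ∀ z : ι → ℂ, (∀ e, z e ∈ S) → ∑ e, h e (z e) ^ 2 ≤ B) :
    ∃ D : ι → ℝ, ∑ e, D e ^ 2 ≤ B ∧ ∀ e, ∀ z ∈ S, h e z ≤ D e := by
  have hb : ∀ e, BddAbove (h e '' S) := fun e => ⟨√B, by
    rintro _ ⟨z, hz, rfl⟩
    exact Real.le_sqrt_of_sq_le ((single_le_sum (f := fun e => h e z ^ 2)
      (fun _ _ => sq_nonneg _) (mem_univ e)).trans (H (fun _ => z) fun _ => hz))⟩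
  refine ⟨fun e => sSup (h e '' S), ?_, fun e z hz => le_csSup (hb e) ⟨z, hz, rfl⟩⟩
  have hc : IsClosed {x : ι → ℝ | ∑ e, x e ^ 2 ≤ B} := isClosed_le (by fun_prop) continuous_const
  have h1 : (fun e => sSup (h e '' S)) ∈ closure (Set.univ.pi fun e => h e '' S) := by
    rw [closure_pi_set]
    exact fun e _ => csSup_mem_closure (hS.image _) (hb e)
  refine closure_minimal (fun x hx => ?_) hc h1
  choose z hz using fun e => hx e (Set.mem_univ e)
  have : x = fun e => h e (z e) := funext fun e => (hz e).2.symm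
  rw [this]; exact H z fun e => (hz e).1

/-- Minkowski -/
lemma mink {α : Type*} (T : Finset α) {c N : α → ℝ} {x : α → ι → ℝ} (hc : ∀ a ∈ T, 0 ≤ c a)
    (hN : ∀ a ∈ T, 0 ≤ N a) (h : ∀ a ∈ T, ∑ e, x a e ^ 2 ≤ N a ^ 2) :
    ∑ e, (∑ a ∈ T, c a * x a e) ^ 2 ≤ (∑ a ∈ T, c a * N a) ^ 2 := by
  simp only [sq, sum_mul_sum]
  rw [sum_comm]
  refine sum_le_sum fun a ha => ?_
  rw [sum_comm]
  refine sum_le_sum fun b hb => ?_
  have h1 : ∑ e, x a e * x b e ≤ N a * N b := by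
    refine abs_le_of_sq_le_sq' ?_ (mul_nonneg (hN a ha) (hN b hb)) |>.2
    rw [mul_pow]
    exact (sum_mul_sq_le_sq_mul_sq _ _ _).trans
      (mul_le_mul (h a ha) (h b hb) (by positivity) (sq_nonneg _))
  calc _ = c a * c b * ∑ e, x a e * x b e := by
        rw [mul_sum]; exact sum_congr rfl fun _ _ => by ring
    _ ≤ c a * c b * (N a * N b) := mul_le_mul_of_nonneg_left h1 (mul_nonneg (hc a ha) (hc b hb))
    _ = _ := by ring

lemma pow_sub_le {a : ℂ} {b δ d : ℝ} (hb : 0 ≤ b) (hδ : 0 ≤ δ) (h1 : ‖a - b‖ ≤ δ * b)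
    (h2 : ‖a - b‖ ≤ d) (m : ℕ) : ‖a ^ (m + 1) - (b : ℂ) ^ (m + 1)‖ ≤ (m + 1) * d * ((1 + δ) * b) ^ m := by
  have ha : ‖a‖ ≤ (1 + δ) * b := by
    have := norm_sub_norm_le a b
    rw [Complex.norm_real, Real.norm_of_nonneg hb] at this
    linarith
  have hd : 0 ≤ d := (norm_nonneg _).trans h2
  induction m with
  | zero => simpa using h2
  | succ m ih =>
    have e : a ^ (m + 1 + 1) - (b : ℂ) ^ (m + 1 + 1) =
        a * (a ^ (m + 1) - (b : ℂ) ^ (m + 1)) + (a - b) * (b : ℂ) ^ (m + 1) := by ring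
    have h3 : ‖(b : ℂ) ^ (m + 1)‖ ≤ ((1 + δ) * b) ^ (m + 1) := by
      rw [norm_pow, Complex.norm_real, Real.norm_of_nonneg hb]
      gcongr; nlinarith
    rw [e]
    refine (norm_add_le _ _).trans ?_
    rw [norm_mul, norm_mul]
    calc _ ≤ (1 + δ) * b * ((m + 1) * d * ((1 + δ) * b) ^ m) + d * ((1 + δ) * b) ^ (m + 1) := by
          gcongr
      _ = _ := by push_cast; ring

lemma one_add_pow_le {δ : ℝ} (hδ : 0 ≤ δ) (m : ℕ) (hm : m * δ ≤ 1 / 4) : (1 + δ) ^ m ≤ 2 := by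
  have a1 : (1 + δ) ^ m ≤ Real.exp δ ^ m := by gcongr; linarith [Real.add_one_le_exp δ]
  rw [← Real.exp_nat_mul] at a1
  have a2 : Real.exp (m * δ) ≤ Real.exp (1 / 4) := Real.exp_le_exp.2 hm
  have a3 := Real.exp_bound' (x := 1 / 4) (by norm_num) (by norm_num) (n := 1) one_pos
  norm_num [Finset.sum_range_succ] at a3
  linarith

/-- relative oscillation: at most `δ` for each entry, at most `G` in the quadratic mean -/
def Rl (ρ s δ : ℝ) (X G : (ι → ℝ) → ℝ) : Prop := ∀ g, 0 ≤ X g ∧ ∃ F : ι → ℂ → ℂ,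
  (∀ e, Ex ρ (fun t => X (sh s g e t)) (F e)) ∧
  (∀ e, ∀ z ∈ ball (0 : ℂ) ρ, ‖F e z - X g‖ ≤ δ * X g) ∧
  ∀ z : ι → ℂ, (∀ e, z e ∈ ball (0 : ℂ) ρ) → ∑ e, ‖F e (z e) - X g‖ ^ 2 ≤ s ^ 4 * G g * X g ^ 2

variable {ρ s δ : ℝ} {X G : (ι → ℝ) → ℝ}

lemma Ex.pow' {q : ℝ → ℝ} {F : ℂ → ℂ} (h : Ex ρ q F) (m : ℕ) :
    Ex ρ (fun t => q t ^ m) fun z => F z ^ m :=
  ⟨h.diff.pow m, fun t ht => by rw [h.eq t ht]; push_cast; rfl⟩

lemma Rl.pow (h : Rl ρ s δ X G) (hδ : 0 ≤ δ) (m : ℕ) (hm : (m + 1) * δ ≤ 1 / 4) :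
    Rl ρ s (1 / 2) (fun g => X g ^ (m + 1)) fun g => 4 * (m + 1) ^ 2 * G g := fun g => by
  obtain ⟨h0, F, h1, h2, h3⟩ := h g
  have hp : (1 + δ) ^ m ≤ 2 := one_add_pow_le hδ m (by nlinarith)
  have key : ∀ e, ∀ z ∈ ball (0 : ℂ) ρ, ‖F e z ^ (m + 1) - ((X g ^ (m + 1) : ℝ) : ℂ)‖ ≤
      2 * (m + 1) * X g ^ m * ‖F e z - X g‖ := fun e z hz => by
    push_cast
    refine (pow_sub_le h0 hδ (h2 e z hz) le_rfl m).trans ?_
    rw [mul_pow]
    calc _ ≤ (m + 1) * ‖F e z - X g‖ * (2 * X g ^ m) := by gcongr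
      _ = _ := by ring
  refine ⟨pow_nonneg h0 _, fun e z => F e z ^ (m + 1), fun e => Ex.pow' (h1 e) _,
    fun e z hz => (key e z hz).trans ?_, fun z hz => ?_⟩
  · calc _ ≤ 2 * (m + 1) * X g ^ m * (δ * X g) := by gcongr; exact h2 e z hz
      _ = 2 * ((m + 1) * δ) * X g ^ (m + 1) := by ring
      _ ≤ 2 * (1 / 4) * X g ^ (m + 1) := by gcongr
      _ = _ := by ring
  · calc _ ≤ ∑ e, (2 * (m + 1) * X g ^ m * ‖F e (z e) - X g‖) ^ 2 :=
          sum_le_sum fun e _ => by gcongr; exact key e _ (hz e)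
      _ = (2 * (m + 1) * X g ^ m) ^ 2 * ∑ e, ‖F e (z e) - X g‖ ^ 2 := by
          simp only [mul_pow, mul_sum]
      _ ≤ (2 * (m + 1) * X g ^ m) ^ 2 * (s ^ 4 * G g * X g ^ 2) := by gcongr; exact h3 z hz
      _ = _ := by ring

lemma Rl.sum {α : Type*} (T : Finset α) {c : α → ℝ} {X : α → (ι → ℝ) → ℝ} (hc : ∀ a ∈ T, 0 ≤ c a)
    (hG : ∀ g, 0 ≤ G g) (h : ∀ a ∈ T, Rl ρ s δ (X a) G) :
    Rl ρ s δ (fun g => ∑ a ∈ T, c a * X a g) G := fun g => by
  classical
  have h0 : ∀ a ∈ T, 0 ≤ X a g := fun a ha => (h a ha g).1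
  choose! F h1 h2 h3 using fun a ha => (h a ha g).2
  have key : ∀ e z, ‖∑ a ∈ T, c a * F a e z - ((∑ a ∈ T, c a * X a g : ℝ) : ℂ)‖ ≤
      ∑ a ∈ T, c a * ‖F a e z - X a g‖ := fun e z => by
    push_cast
    rw [← sum_sub_distrib]
    refine (norm_sum_le _ _).trans (sum_le_sum fun a ha => le_of_eq ?_)
    rw [← mul_sub, norm_mul, Complex.norm_real, Real.norm_of_nonneg (hc a ha)]
  refine ⟨sum_nonneg fun a ha => mul_nonneg (hc a ha) (h0 a ha), fun e z => ∑ a ∈ T, c a * F a e z,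
    fun e => Ex.sum _ fun a ha => (Ex.const ρ (c a)).mul (h1 a ha e),
    fun e z hz => (key e z).trans ?_, fun z hz => ?_⟩
  · rw [mul_sum]
    refine sum_le_sum fun a ha => ?_
    nlinarith [mul_le_mul_of_nonneg_left (h2 a ha e z hz) (hc a ha)]
  · have p : 0 ≤ s ^ 4 * G g := mul_nonneg (by positivity) (hG g)
    refine (sum_le_sum fun e _ => pow_le_pow_left₀ (norm_nonneg _) (key e (z e)) 2).trans
      ((mink T (N := fun a => √(s ^ 4 * G g) * X a g) hc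
        (fun a ha => mul_nonneg (Real.sqrt_nonneg _) (h0 a ha)) fun a ha => ?_).trans (le_of_eq ?_))
    · rw [mul_pow, Real.sq_sqrt p]; exact h3 a ha z hz
    · rw [show ∑ a ∈ T, c a * (√(s ^ 4 * G g) * X a g) = √(s ^ 4 * G g) * ∑ a ∈ T, c a * X a g by
        rw [mul_sum]; exact sum_congr rfl fun _ _ => by ring, mul_pow, Real.sq_sqrt p]

lemma norm_ratio {a : ℂ} {b L : ℝ} (hb : 0 ≤ b) (hL : 0 < L) (h : ‖a - b‖ ≤ 1 / 2 * b) :
    (L + b) / 2 ≤ ‖L + a‖ ∧ ‖a / (L + a) - ((b / (L + b) : ℝ) : ℂ)‖ ≤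
      2 * L / (L + b) ^ 2 * ‖a - b‖ := by
  have h1 : (L + b) / 2 ≤ ‖(L : ℂ) + a‖ := by
    have := norm_sub_norm_le ((L + b : ℝ) : ℂ) (b - a)
    rw [Complex.norm_real, Real.norm_of_nonneg (by linarith), norm_sub_rev (b : ℂ)] at this
    have e : ((L + b : ℝ) : ℂ) - (b - a) = L + a := by push_cast; ring
    rw [e] at this; linarith
  have hLb : 0 < L + b := by linarith
  have n1 : (L : ℂ) + a ≠ 0 := norm_pos_iff.1 (lt_of_lt_of_le (by linarith) h1)
  have n2 : (L : ℂ) + b ≠ 0 := by exact_mod_cast hLb.ne'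
  refine ⟨h1, ?_⟩
  have e : a / (L + a) - ((b / (L + b) : ℝ) : ℂ) = L * (a - b) / ((L + a) * ((L + b : ℝ) : ℂ)) := by
    push_cast; field_simp; ring
  rw [e, norm_div, norm_mul, norm_mul, Complex.norm_real, Complex.norm_real,
    Real.norm_of_nonneg hL.le, Real.norm_of_nonneg hLb.le]
  calc _ ≤ L * ‖a - b‖ / ((L + b) / 2 * (L + b)) := by gcongr
    _ = _ := by field_simp

/-- **the penalised functional is universal** -/
theorem Rl.univ {S U : (ι → ℝ) → ℝ} {η η' : ℝ} (h : Rl ρ s (1 / 2) S fun g => η ^ 2 * (1 + U g))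
    (hρ : 0 < ρ) (hρ' : ρ ≤ 1 / 80) (hs : 0 < s) (hη : 0 < η) (hη' : 0 < η')
    (hc : (Fintype.card ι : ℝ) ≤ s ^ 4) (mS : Measurable S) (mU : Measurable U) (h0 : ∀ g, 0 ≤ U g)
    (hU : Pm (1 / 4) s 9 U) (hI : ∀ σ, ∫ g, U g / (1 + U g) ∂hyb σ ≤ η' ^ 2 / 25) :
    |∫ g, S g / (1 + S g) * (1 / (1 + U g)) ∂hyb (fun _ => true) -
      ∫ g, S g / (1 + S g) * (1 / (1 + U g)) ∂hyb fun _ => false| ≤
      err ρ s 2 η + err (1 / 80) s 1 η' := by
  have b1 : ∀ a : ℝ, 0 ≤ a → |a / (1 + a)| ≤ 1 := fun a ha => by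
    rw [abs_of_nonneg (by positivity), div_le_one (by positivity)]; linarith
  have hψ : ∀ g e, ∃ F, Ex (1 / 80) (fun t => 1 / (1 + U (sh s g e t))) F ∧
      ∀ z ∈ ball (0 : ℂ) (1 / 80), ‖F z‖ ≤ 2 / (1 + U g) ∧ ‖F z - F 0‖ ≤ 5 * (U g / (1 + U g)) := by
    intro g e
    obtain ⟨F, h1, h2⟩ := hU g e
    have f0 : F 0 = U g := by rw [h1.zero (by norm_num), sh_zero]
    have p := h0 g
    have key := fun z (hz : z ∈ ball (0 : ℂ) (1 / 80)) =>
      half_le (z := z) (L := 1) (by norm_num) p one_pos h1.diff f0 h2 (by convert hz using 2; norm_num)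
    have n1 : ∀ z ∈ ball (0 : ℂ) (1 / 80), ((1 : ℝ) : ℂ) + F z ≠ 0 := fun z hz =>
      norm_pos_iff.1 (lt_of_lt_of_le (by positivity) (key z hz).2)
    refine ⟨_, (Ex.const _ 1).div (((Ex.const _ 1).add h1).mono (by norm_num)) n1, fun z hz => ?_⟩
    obtain ⟨k1, k2⟩ := key z hz
    have n2 : ((1 + U g : ℝ) : ℂ) ≠ 0 := by exact_mod_cast (by positivity : 1 + U g ≠ 0)
    constructor
    · rw [norm_div, Complex.norm_real, norm_one]
      calc _ ≤ 1 / ((1 + U g) / 2) := by gcongr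
        _ = _ := by field_simp
    · have e1 : ((1 : ℝ) : ℂ) / ((1 : ℝ) + F z) - ((1 : ℝ) : ℂ) / ((1 : ℝ) + F 0) =
          (U g - F z) / (((1 : ℝ) + F z) * ((1 + U g : ℝ) : ℂ)) := by
        have := n1 z hz
        rw [f0]; push_cast at *; field_simp; ring
      have k3 : ‖(U g : ℂ) - F z‖ ≤ 5 / 2 * U g := by
        have := norm_sub_le (U g : ℂ) (F z)
        rw [Complex.norm_real, Real.norm_of_nonneg p] at this; linarith
      rw [e1, norm_div, norm_mul, Complex.norm_real, Real.norm_of_nonneg (by positivity)]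
      calc _ ≤ 5 / 2 * U g / (1 / 2 * (1 + U g)) := by gcongr; linarith
        _ = _ := by field_simp
  have mR : Measurable fun g => U g / (1 + U g) := mU.div (mU.const_add 1)
  refine univ2 (G := fun _ => η ^ 2) (G' := fun g => 25 * (U g / (1 + U g))) hρ (by norm_num) hs hη
    hη' hc (mS.div (mS.const_add 1)) (measurable_const.div (mU.const_add 1))
    (fun g => b1 _ (h g).1) (fun g => ?_) (fun g => ?_) (fun g => ?_) (fun σ => by simp) fun σ => ?_
  · have := h0 g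
    rw [abs_of_nonneg (by positivity), div_le_one (by positivity)]; linarith
  · obtain ⟨p, F, h1, h2, h3⟩ := h g
    obtain ⟨D, d1, d2⟩ := sel (h := fun e z => ‖F e z - S g‖) ⟨0, mem_ball_self hρ⟩ h3
    have q := h0 g
    refine ⟨fun e => 4 / ((1 + U g) * (1 + S g) ^ 2) * D e, ?_, fun e => ?_⟩
    · simp only [mul_pow, ← mul_sum]
      calc _ ≤ (4 / ((1 + U g) * (1 + S g) ^ 2)) ^ 2 * (s ^ 4 * (η ^ 2 * (1 + U g)) * S g ^ 2) := by
            gcongr
        _ = s ^ 4 * η ^ 2 * ((4 * S g) ^ 2 / ((1 + S g) ^ 2) ^ 2 / (1 + U g)) := by field_simp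
        _ ≤ s ^ 4 * η ^ 2 * 1 := by
            gcongr
            refine (div_le_one (by positivity)).2 (le_trans ((div_le_one (by positivity)).2 ?_)
              (by linarith))
            gcongr; nlinarith [sq_nonneg (1 - S g)]
        _ = _ := mul_one _
    · obtain ⟨P, p1, p2⟩ := hψ g e
      have key := fun z hz => norm_ratio p one_pos (h2 e z hz)
      refine ⟨_, (p1.mono hρ').mul (((h1 e).div ((Ex.const _ 1).add (h1 e)) fun z hz =>
        norm_pos_iff.1 (lt_of_lt_of_le (by positivity) (key z hz).1)).sub (Ex.const _ _)),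
        fun z hz => ?_⟩
      have f0 : F e 0 = S g := by rw [(h1 e).zero hρ, sh_zero]
      have z0 : F e 0 / (((1 : ℝ) : ℂ) + F e 0) - ((S g / (1 + S g) : ℝ) : ℂ) = 0 := by
        rw [f0]; push_cast; ring
      rw [z0, mul_zero, sub_zero, norm_mul]
      calc _ ≤ 2 / (1 + U g) * (2 * 1 / (1 + S g) ^ 2 * D e) := by
            refine mul_le_mul (p2 z (ball_subset_ball hρ' hz)).1 ((key z hz).2.trans ?_)
              (norm_nonneg _) (by positivity)
            gcongr; exact d2 e z hz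
        _ = _ := by field_simp; ring
  · refine ⟨fun _ => 5 * (U g / (1 + U g)), ?_, fun e => (hψ g e).imp fun F hF =>
      ⟨hF.1, fun z hz => (hF.2 z hz).2⟩⟩
    have q := h0 g
    have a1 : U g / (1 + U g) ≤ 1 := (le_abs_self _).trans (b1 _ q)
    have a0 : 0 ≤ U g / (1 + U g) := by positivity
    rw [sum_const, card_univ, nsmul_eq_mul]
    exact mul_le_mul hc (by nlinarith) (sq_nonneg _) (by positivity)
  · refine ⟨(int_bdd mR fun g => b1 _ (h0 g)).const_mul _, ?_⟩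
    rw [integral_const_mul]; linarith [hI σ]

lemma int_le_add {Ω : Type*} [MeasurableSpace Ω] {μ : Measure Ω} [IsProbabilityMeasure μ]
    {f : Ω → ℝ} (hf : Measurable f) (hB : ∀ x, |f x| ≤ 1) {δ ε : ℝ} (hδ : 0 ≤ δ) (hε : 0 ≤ ε)
    {A : Set Ω} (hA : μ A ≤ ENNReal.ofReal ε) (h : ∀ x ∉ A, f x ≤ δ) : ∫ x, f x ∂μ ≤ δ + ε := by
  have hm := measurableSet_toMeasurable μ A
  have i1 : Integrable ((toMeasurable μ A).indicator fun _ => (1 : ℝ)) μ :=
    (integrable_const 1).indicator hm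
  refine (integral_mono (int_bdd hf hB) ((integrable_const δ).add i1) fun x => ?_).trans ?_
  · by_cases hx : x ∈ toMeasurable μ A
    · simp only [Pi.add_apply, Set.indicator_of_mem hx]; linarith [(abs_le.1 (hB x)).2]
    · simp only [Pi.add_apply, Set.indicator_of_notMem hx, add_zero]
      exact h x fun ha => hx (subset_toMeasurable μ A ha)
  · rw [integral_add' (integrable_const δ) i1, integral_indicator hm]
    simp only [integral_const, probReal_univ, smul_eq_mul, one_mul, mul_one, add_le_add_iff_left,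
      MeasurableSet.univ, measureReal_restrict_apply, Set.univ_inter]
    rw [measureReal_def, measure_toMeasurable]
    exact ENNReal.toReal_le_of_le_ofReal hε hA

end Crest.Agent.T157.Et

end
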