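import Crest.Agent.T157.EtA_81
import Crest.Agent.T157.UnD_81
import Crest.Agent.T157.CwTr_72

/-!
# Row 157, part C: edge transfer, B (helper81)

The trace of a power of the covariance matrix under a complex tilt by a sign function.
-/

set_option autoImplicit false
set_option linter.unusedSectionVars false

noncomputable section

namespace Crest.Agent.T157.Et

open Metric Finset Matrix
open scoped Matrix.Norms.L2Operator
open Crest.ProbabilityR.SpinGlassDynamics Crest.Agent.T157.E Crest.Agent.T157.SL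
open Crest.Agent.T157.Un Crest.Agent.T157.CwTr

section fin
variable {Ω κ : Type*} [Fintype Ω] [Nonempty Ω] [DecidableEq Ω] [Fintype κ] [DecidableEq κ]
  {w χ : Ω → ℝ} {f : κ → Ω → ℝ} {μ : κ → ℝ} {z υ : ℂ}

lemma pc_formula (hw : ∀ x, 0 < w x) (h : Sgn χ) (hz : z ∈ ball (0 : ℂ) (1 / 4)) :
    ∃ υ : ℂ, ‖υ‖ ≤ 4 * ‖z‖ ∧
      ∀ x, pc (cw w χ z) x = prob w x * (1 + υ * ((χ x - mean w χ : ℝ) : ℂ)) := by
  have hS := Chain22.sum_w_pos hw
  set c := (Complex.exp z + Complex.exp (-z)) / 2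
  set B := (Complex.exp z - Complex.exp (-z)) / 2
  have e1 : ∀ x, cw w χ z x = w x * (c + B * χ x) := fun x => by
    rcases h x with e | e <;> simp only [cw, e, c, B] <;> push_cast <;> ring_nf
  have hB : ‖B‖ ≤ 2 * ‖z‖ := by
    have h2 := mem_ball_zero_iff.1 hz
    have a1 := Complex.norm_exp_sub_one_le (x := z) (by linarith)
    have a2 := Complex.norm_exp_sub_one_le (x := -z) (by rw [norm_neg]; linarith)
    rw [norm_neg] at a2
    have : B = ((Complex.exp z - 1) - (Complex.exp (-z) - 1)) / 2 := by simp only [B]; ring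
    rw [this, norm_div, Complex.norm_two]
    linarith [norm_sub_le (Complex.exp z - 1) (Complex.exp (-z) - 1)]
  have hm : ∑ x, (w x : ℂ) * χ x = (∑ x, w x : ℝ) * (mean w χ : ℝ) := by
    rw [← Complex.ofReal_mul, mean_eq_div, mul_div_cancel₀ _ hS.ne']; push_cast; rfl
  have e2 : ∑ x, cw w χ z x = (∑ x, w x : ℝ) * (c + B * (mean w χ : ℝ)) := by
    simp only [e1, mul_add, sum_add_distrib, mul_left_comm _ B, ← mul_sum, ← sum_mul, hm]
    push_cast; ring
  have hD : 1 / 2 ≤ ‖c + B * (mean w χ : ℝ)‖ := by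
    have := norm_sum_cw hw h hz
    rw [e2, norm_mul, Complex.norm_real, Real.norm_of_nonneg hS.le] at this
    nlinarith
  have hD' : c + B * (mean w χ : ℝ) ≠ 0 := norm_pos_iff.1 (by linarith)
  have hS' : ((∑ x, w x : ℝ) : ℂ) ≠ 0 := by exact_mod_cast hS.ne'
  refine ⟨B / (c + B * (mean w χ : ℝ)), ?_, fun x => ?_⟩
  · rw [norm_div, div_le_iff₀ (by linarith)]; nlinarith [norm_nonneg z]
  · rw [pc, e2, e1, prob, Complex.ofReal_div, Complex.ofReal_sub]; field_simp; ring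

lemma mean_cs (hw : ∀ x, 0 < w x) (g h : Ω → ℝ) : (mean w fun x => g x * h x) ^ 2 ≤
    (mean w fun x => g x * g x) * mean w fun x => h x * h x := (Wt.of_pos hw).isP.ip_sq_le g h

/-- centred orthogonal system -/
structure Og (w : Ω → ℝ) (f : κ → Ω → ℝ) (μ : κ → ℝ) : Prop where
  pos : ∀ x, 0 < w x
  cen : ∀ a, mean w (f a) = 0
  ort : ∀ a b, (mean w fun x => f a x * f b x) = if a = b then μ a else 0

def al (w χ : Ω → ℝ) (f : κ → Ω → ℝ) (a b : κ) : ℝ :=
  mean w fun x => (χ x - mean w χ) * f a x * f b x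
def be (w χ : Ω → ℝ) (f : κ → Ω → ℝ) (a : κ) : ℝ := mean w fun x => χ x * f a x
/-- change of the covariance matrix -/
def Zm (w χ : Ω → ℝ) (f : κ → Ω → ℝ) (υ : ℂ) : Matrix κ κ ℂ :=
  of fun a b => υ * al w χ f a b - υ ^ 2 * (be w χ f a * be w χ f b)
def yy (w χ : Ω → ℝ) (f : κ → Ω → ℝ) (μ : κ → ℝ) (a : κ) : ℝ :=
  ∑ b ∈ univ.filter fun b => μ b ≤ μ a, al w χ f a b ^ 2 + μ a * be w χ f a ^ 2
/-- covariance for a complex kernel -/
def cvc (p : Ω → ℂ) (g h : Ω → ℝ) : ℂ := ∑ x, p x * (g x * h x) - (∑ x, p x * g x) * ∑ x, p x * h x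

lemma al_comm (a b : κ) : al w χ f a b = al w χ f b a := by
  simp only [al, mul_right_comm]

lemma sq_sub_mean (hw : ∀ x, 0 < w x) (h : Sgn χ) (x : Ω) : |χ x - mean w χ| ≤ 2 := by
  have := (Wt.of_pos hw).abs_mean_le fun x => (h.abs x).le
  linarith [abs_sub (χ x) (mean w χ), h.abs x]

namespace Og
variable (o : Og w f μ)
include o

lemma self (a : κ) : (mean w fun x => f a x * f a x) = μ a := by simpa using o.ort a a

lemma nn (a : κ) : 0 ≤ μ a := o.self a ▸ (Wt.of_pos o.pos).mean_nonneg fun _ => mul_self_nonneg _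

lemma sq_sum (c : κ → ℝ) (S : Finset κ) {m : ℝ} (h : ∀ b ∈ S, μ b ≤ m) :
    (mean w fun x => (∑ b ∈ S, c b * f b x) * ∑ b ∈ S, c b * f b x) ≤ m * ∑ b ∈ S, c b ^ 2 := by
  have e3 : ∀ a b x, c a * f a x * (c b * f b x) = c a * c b * (f a x * f b x) := fun _ _ _ => by ring
  simp only [sum_mul_sum, mean_sum, e3, mean_const_mul, o.ort, mul_ite, mul_zero]
  rw [mul_sum]
  refine sum_le_sum fun b hb => ?_
  rw [sum_ite_eq, if_pos hb]
  nlinarith [h b hb, sq_nonneg (c b)]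

lemma bessel (g : Ω → ℝ) (S : Finset κ) {m : ℝ} (hm : 0 ≤ m) (h : ∀ b ∈ S, μ b ≤ m) :
    ∑ b ∈ S, (mean w fun x => g x * f b x) ^ 2 ≤ m * mean w fun x => g x * g x := by
  set c : κ → ℝ := fun b => mean w fun x => g x * f b x with hc
  have e1 : (mean w fun x => g x * ∑ b ∈ S, c b * f b x) = ∑ b ∈ S, c b ^ 2 := by
    simp only [mul_sum, mean_sum, mul_left_comm (g _), mean_const_mul, sq, hc]
  have e2 := o.sq_sum c S h
  have h1 := mean_cs o.pos g fun x => ∑ b ∈ S, c b * f b x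
  have g0 : 0 ≤ mean w fun x => g x * g x :=
    (Wt.of_pos o.pos).mean_nonneg fun _ => mul_self_nonneg _
  rw [e1] at h1
  have h2 := h1.trans (mul_le_mul_of_nonneg_left e2 g0)
  rcases (sum_nonneg fun b (_ : b ∈ S) => sq_nonneg (c b)).eq_or_lt with h0 | h0
  · rw [← h0]; positivity
  · nlinarith

lemma sum_be (h : Sgn χ) (S : Finset κ) {m : ℝ} (hm : 0 ≤ m) (hS : ∀ b ∈ S, μ b ≤ m) :
    ∑ b ∈ S, be w χ f b ^ 2 ≤ m := by
  refine (o.bessel χ S hm hS).trans (mul_le_of_le_one_right hm ((Wt.of_pos o.pos).mean_le fun x => ?_))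
  rcases h x with e | e <;> simp [e]

lemma be_sq (h : Sgn χ) (a : κ) : be w χ f a ^ 2 ≤ μ a := by
  simpa using o.sum_be h {a} (o.nn a) (by simp)

lemma sum_al (h : Sgn χ) (a : κ) :
    ∑ b ∈ univ.filter fun b => μ b ≤ μ a, al w χ f a b ^ 2 ≤ 4 * μ a ^ 2 := by
  refine (o.bessel (fun x => (χ x - mean w χ) * f a x) _ (o.nn a) (by simp)).trans ?_
  have : (mean w fun x => (χ x - mean w χ) * f a x * ((χ x - mean w χ) * f a x)) ≤ 4 * μ a := by
    rw [← o.self a, ← mean_const_mul]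
    refine (Wt.of_pos o.pos).mean_mono fun x => ?_
    have h1 : (χ x - mean w χ) ^ 2 ≤ 2 ^ 2 := sq_le_sq' (abs_le.1 (sq_sub_mean o.pos h x)).1
      (abs_le.1 (sq_sub_mean o.pos h x)).2
    nlinarith [mul_le_mul_of_nonneg_right h1 (mul_self_nonneg (f a x))]
  nlinarith [mul_le_mul_of_nonneg_left this (o.nn a)]

lemma cvc_eq {p : Ω → ℂ} (hp : ∀ x, p x = prob w x * (1 + υ * ((χ x - mean w χ : ℝ) : ℂ))) :
    (of fun a b => cvc p (f a) (f b)) = dg μ + Zm w χ f υ := by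
  have e0 : ∀ g : Ω → ℝ, ∑ x, p x * g x =
      (mean w g : ℝ) + υ * (mean w fun x => (χ x - mean w χ) * g x : ℝ) := fun g => by
    simp only [hp, mean, Complex.ofReal_sum, mul_sum, ← sum_add_distrib]
    exact sum_congr rfl fun x _ => by push_cast; ring
  have e1 : ∀ a, ∑ x, p x * f a x = υ * be w χ f a := fun a => by
    simp only [e0, o.cen, sub_mul, mean_sub, mean_const_mul, be]; simp
  ext a b
  have e2 := e0 fun x => f a x * f b x
  simp only [Complex.ofReal_mul, o.ort, ← mul_assoc] at e2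
  simp only [of_apply, cvc, e1, Matrix.add_apply, dg, Zm, diagonal_apply, ← mul_assoc, e2, al]
  split_ifs <;> push_cast <;> ring

lemma norm_Zm (h : Sgn χ) {u : ℝ} (hu : ‖υ‖ ≤ u) (hu1 : u ≤ 1) (S : Finset κ) (m : ℝ) (hm : 0 ≤ m)
    (hS : ∀ a ∈ S, μ a ≤ m) : ‖Pj S * Zm w χ f υ * Pj S‖ ≤ 3 * u * m := by
  let F : Matrix Ω κ ℂ := of fun x a => if a ∈ S then ((√(prob w x) * f a x : ℝ) : ℂ) else 0
  let B : Matrix κ Unit ℂ := of fun a _ => if a ∈ S then (be w χ f a : ℂ) else 0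
  let D : Matrix Ω Ω ℂ := diagonal fun x => ((χ x - mean w χ : ℝ) : ℂ)
  have sp : ∀ x, √(prob w x) * √(prob w x) = prob w x := fun x =>
    Real.mul_self_sqrt (prob_nn o.pos x)
  have hF : ∀ d : Ω → ℝ, ∀ a b, (Fᴴ * diagonal (fun x => (d x : ℂ)) * F) a b =
      if a ∈ S ∧ b ∈ S then ((mean w fun x => d x * f a x * f b x : ℝ) : ℂ) else 0 := fun d a b => by
    simp only [mul_apply (M := _ * _), mul_diagonal, conjTranspose_apply, F, of_apply]
    by_cases ha : a ∈ S <;> by_cases hb : b ∈ S <;> simp only [ha, hb, if_true, if_false, and_self,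
      and_false, false_and, star_zero, zero_mul, mul_zero, sum_const_zero]
    simp only [mean, Complex.ofReal_sum, RCLike.star_def, Complex.conj_ofReal]
    refine sum_congr rfl fun x _ => ?_
    rw [← Complex.ofReal_mul, ← Complex.ofReal_mul]
    congr 1
    linear_combination (d x * f a x * f b x) * sp x
  have nF : ‖F‖ * ‖F‖ ≤ m := by
    rw [← l2_opNorm_conjTranspose_mul_self]
    have : Fᴴ * F = diagonal fun a => if a ∈ S then (μ a : ℂ) else 0 := by
      ext a b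
      have := hF (fun _ => 1) a b
      simp only [Complex.ofReal_one, diagonal_one, Matrix.mul_one, one_mul, o.ort] at this
      rw [this, diagonal_apply]
      by_cases e : a = b
      · subst e; simp
      · simp [e]
    rw [this]
    refine norm_diag hm fun a => ?_
    split_ifs with ha
    · rw [Complex.norm_real, Real.norm_of_nonneg (o.nn a)]; exact hS a ha
    · simpa using hm
  have nB : ‖B‖ * ‖B‖ ≤ m := by
    rw [← l2_opNorm_conjTranspose_mul_self]
    have : Bᴴ * B = diagonal fun _ => ((∑ b ∈ S, be w χ f b ^ 2 : ℝ) : ℂ) := by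
      ext a b
      simp only [B, mul_apply, conjTranspose_apply, of_apply, mul_ite, mul_zero, sum_ite_mem,
        univ_inter, diagonal_apply, if_true, Complex.ofReal_sum]
      exact sum_congr rfl fun x hx => by simp [hx, sq]
    rw [this]
    refine norm_diag hm fun a => ?_
    rw [Complex.norm_real, Real.norm_of_nonneg (by positivity)]; exact o.sum_be h S hm hS
  have nD : ‖D‖ ≤ 2 := norm_diag zero_le_two fun x => by
    rw [Complex.norm_real]; exact sq_sub_mean o.pos h x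
  have e : Pj S * Zm w χ f υ * Pj S = υ • (Fᴴ * D * F) - υ ^ 2 • (B * Bᴴ) := by
    ext a b
    rw [Pj_apply, Matrix.sub_apply, Matrix.smul_apply, Matrix.smul_apply, hF]
    by_cases ha : a ∈ S <;> by_cases hb : b ∈ S <;> simp [ha, hb, B, mul_apply, Zm, al]
  have n1 : ‖Fᴴ * D * F‖ ≤ 2 * m := by
    refine (l2_opNorm_mul _ _).trans ((mul_le_mul_of_nonneg_right (l2_opNorm_mul _ _)
      (norm_nonneg _)).trans ?_)
    rw [l2_opNorm_conjTranspose]
    nlinarith [mul_le_mul_of_nonneg_left nD (mul_self_nonneg ‖F‖)]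
  have n2 : ‖B * Bᴴ‖ ≤ m := (l2_opNorm_mul _ _).trans (by rwa [l2_opNorm_conjTranspose])
  have u0 : 0 ≤ u := (norm_nonneg _).trans hu
  rw [e]
  refine (norm_sub_le _ _).trans ?_
  rw [norm_smul, norm_smul, norm_pow]
  calc _ ≤ u * (2 * m) + u ^ 2 * m := by gcongr
    _ ≤ _ := by nlinarith [mul_nonneg (mul_nonneg u0 hm) (sub_nonneg.2 hu1)]

lemma yy_nn (a : κ) : 0 ≤ yy w χ f μ a := by have := o.nn a; unfold yy; positivity

lemma yy_le (h : Sgn χ) (a : κ) : yy w χ f μ a ≤ 5 * μ a ^ 2 := by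
  unfold yy; nlinarith [o.sum_al h a, mul_le_mul_of_nonneg_left (o.be_sq h a) (o.nn a)]

/-- **the trace under a tilt** -/
theorem core (h : Sgn χ) {u : ℝ} (hu : ‖υ‖ ≤ u) (j : ℕ) (hj : (j + 2) * u ≤ 1 / 12) :
    ‖((dg μ + Zm w χ f υ) ^ (j + 2)).trace - ((∑ a, μ a ^ (j + 2) : ℝ) : ℂ)‖ ≤
      3 * ((j + 2) * u) * ∑ a, μ a ^ (j + 1) * √(yy w χ f μ a) := by
  have u0 : 0 ≤ u := (norm_nonneg _).trans hu
  have j0 : (0 : ℝ) ≤ j := Nat.cast_nonneg j
  have u1 : u ≤ 1 := by nlinarith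
  have h1 := tr_second o.nn (by positivity : 0 ≤ 3 * u) (o.norm_Zm h hu u1) j
  have hp : (1 + 3 * u) ^ j ≤ 2 := one_add_pow_le (by positivity) j (by nlinarith)
  have nz : ∀ a b, ‖Zm w χ f υ a b‖ ≤ u * (|al w χ f a b| + |be w χ f a * be w χ f b|) := fun a b => by
    refine (norm_sub_le _ _).trans ?_
    rw [norm_mul, norm_mul, norm_pow, ← Complex.ofReal_mul, Complex.norm_real, Complex.norm_real,
      Real.norm_eq_abs, Real.norm_eq_abs, mul_add]
    gcongr; nlinarith [norm_nonneg υ]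
  have nz2 : ∀ a b, ‖Zm w χ f υ a b‖ ^ 2 ≤
      2 * u ^ 2 * (al w χ f a b ^ 2 + be w χ f a ^ 2 * be w χ f b ^ 2) := fun a b => by
    refine (pow_le_pow_left₀ (norm_nonneg _) (nz a b) 2).trans ?_
    rw [mul_pow, ← mul_pow (be w χ f a), ← sq_abs (al w χ f a b), ← sq_abs (be w χ f a * _)]
    nlinarith [mul_nonneg (sq_nonneg u) (sq_nonneg (|al w χ f a b| - |be w χ f a * be w χ f b|))]
  have l1 : ∀ a, lo μ (Zm w χ f υ) a ≤ 4 * u ^ 2 * yy w χ f μ a := fun a => by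
    have b1 := o.sum_be h (univ.filter fun b => μ b ≤ μ a) (o.nn a) (by simp)
    calc _ ≤ ∑ b ∈ univ.filter fun b => μ b ≤ μ a,
          4 * u ^ 2 * (al w χ f a b ^ 2 + be w χ f a ^ 2 * be w χ f b ^ 2) :=
          sum_le_sum fun b _ => by have := nz2 b a; rw [al_comm b a] at this; linarith [nz2 a b]
      _ ≤ _ := by
          rw [← mul_sum, sum_add_distrib, ← mul_sum, yy, mul_comm (μ a)]; gcongr
  have d1 : ∀ a, ‖Zm w χ f υ a a‖ ≤ u * (3 / 2 * √(yy w χ f μ a)) := fun a => by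
    refine (nz a a).trans (mul_le_mul_of_nonneg_left (abs_le_of_sq_le_sq' ?_ (by positivity)).2 u0)
    have b1 : al w χ f a a ^ 2 ≤ ∑ b ∈ univ.filter fun b => μ b ≤ μ a, al w χ f a b ^ 2 :=
      single_le_sum (f := fun b => al w χ f a b ^ 2) (fun _ _ => sq_nonneg _) (by simp)
    have b2 := mul_le_mul_of_nonneg_right (o.be_sq h a) (sq_nonneg (be w χ f a))
    have b3 := o.yy_nn (χ := χ) a
    rw [mul_pow, Real.sq_sqrt b3, abs_mul_self]
    unfold yy at b3 ⊢
    nlinarith [sq_abs (al w χ f a a), sq_nonneg (|al w χ f a a| - be w χ f a * be w χ f a)]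
  have d2 : ∀ a, yy w χ f μ a ≤ 9 / 4 * μ a * √(yy w χ f μ a) := fun a => by
    have b1 : √(yy w χ f μ a) ≤ 9 / 4 * μ a := Real.sqrt_le_iff.2
      ⟨by have := o.nn a; positivity, by nlinarith [o.yy_le h a, sq_nonneg (μ a)]⟩
    nth_rewrite 1 [← Real.mul_self_sqrt (o.yy_nn (χ := χ) a)]
    gcongr
  have h2 : ‖((j : ℂ) + 2) * ∑ a, (μ a : ℂ) ^ (j + 1) * Zm w χ f υ a a‖ ≤
      (j + 2) * ∑ a, μ a ^ (j + 1) * (u * (3 / 2 * √(yy w χ f μ a))) := by
    rw [norm_mul, show ((j : ℂ) + 2) = ((j + 2 : ℝ) : ℂ) by push_cast; rfl, Complex.norm_real,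
      Real.norm_of_nonneg (by positivity)]
    gcongr
    refine (norm_sum_le _ _).trans (sum_le_sum fun a _ => ?_)
    rw [norm_mul, norm_pow, Complex.norm_real, Real.norm_of_nonneg (o.nn a)]
    exact mul_le_mul_of_nonneg_left (d1 a) (pow_nonneg (o.nn a) _)
  have h3 : ∑ a, μ a ^ j * lo μ (Zm w χ f υ) a ≤
      9 * u ^ 2 * ∑ a, μ a ^ (j + 1) * √(yy w χ f μ a) := by
    rw [mul_sum]
    refine sum_le_sum fun a _ => ?_
    have := o.nn a
    calc _ ≤ μ a ^ j * (4 * u ^ 2 * (9 / 4 * μ a * √(yy w χ f μ a))) := by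
          gcongr; exact (l1 a).trans (by gcongr; exact d2 a)
      _ = _ := by ring
  set Y := ∑ a, μ a ^ (j + 1) * √(yy w χ f μ a) with hY
  have Y0 : 0 ≤ Y := sum_nonneg fun a _ => by have := o.nn a; positivity
  have e2 : ∑ a, μ a ^ (j + 1) * (u * (3 / 2 * √(yy w χ f μ a))) = u * (3 / 2) * Y := by
    rw [hY, mul_sum]; exact sum_congr rfl fun _ _ => by ring
  rw [e2] at h2
  have h4 : ((j : ℝ) + 2) ^ 2 * (1 + 3 * u) ^ j * ∑ a, μ a ^ j * lo μ (Zm w χ f υ) a ≤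
      (j + 2) ^ 2 * 2 * (9 * u ^ 2 * Y) := by
    refine mul_le_mul (by gcongr) h3 (sum_nonneg fun a _ => mul_nonneg (pow_nonneg (o.nn a) _) ?_)
      (by positivity)
    unfold lo; positivity
  have h5 := norm_add_le (((dg μ + Zm w χ f υ) ^ (j + 2)).trace - ∑ a, (μ a : ℂ) ^ (j + 2) -
    ((j : ℂ) + 2) * ∑ a, (μ a : ℂ) ^ (j + 1) * Zm w χ f υ a a)
    (((j : ℂ) + 2) * ∑ a, (μ a : ℂ) ^ (j + 1) * Zm w χ f υ a a)
  rw [sub_add_cancel] at h5
  push_cast
  have h6 := mul_le_mul_of_nonneg_left hj (mul_nonneg (mul_nonneg (by positivity : (0 : ℝ) ≤ j + 2) u0) Y0)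
  nlinarith

end Og
end fin

end Crest.Agent.T157.Et

end
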