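import Crest.Agent.T157.CritDef_97
import Crest.Agent.T157.UnF_81

/-!
# Row 157, part C: transfer of the edge window from Gaussian couplings to coins, statements (helper81)

`u = n^{1/192}`.  A deterministic family of triples `(r, K, p)` with `r ≤ u n^{-2/3}`, `K ≥ 1`,
`p ≥ e^{-u}`: the quenched bounds `CovAt w r K p` pass from the Gaussian law to the coins.
-/

set_option autoImplicit false

noncomputable section

namespace Crest.Agent.T157.Et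

open MeasureTheory Filter
open Crest.ProbabilityR.SpinGlassDynamics Crest.Agent.T157.E
open Crest.Agent.T157.Crit (CovLe CovAt)

/-- the scale `n^{1/192}` -/
def un (n : ℕ) : ℝ := (n : ℝ) ^ (1 / 192 : ℝ)

/-- admissible triples `(r, K, p)` -/
def Adm (n : ℕ) (q : ℝ × ℝ × ℝ) : Prop :=
  0 ≤ q.1 ∧ q.1 ≤ un n / Soft.N23 n ∧ 1 ≤ q.2.1 ∧ Real.exp (-un n) ≤ q.2.2

/-- off a set of measure `ε`, all the bounds `CovAt w r (a K) (c p)`, `(r, K, p) ∈ D n`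
(this is `Tr.Off (couplingLaw b) ε _`) -/
def Pro (b : Bool) (D : ℕ → Set (ℝ × ℝ × ℝ)) (a : ℕ → ℝ) (c ε : ℝ) : Prop :=
  ∀ᶠ n : ℕ in atTop, couplingLaw b n {g | ¬ ∀ q ∈ D n,
    CovAt (gibbsWeight n 1 g) q.1 (a n * q.2.1) (c * q.2.2)} ≤ ENNReal.ofReal ε

/-- **edge transfer**, polynomially many triples -/
def EdgeT : Prop := ∀ (D : ℕ → Finset (ℝ × ℝ × ℝ)) (A : ℕ) (ε : ℝ), 0 < ε →
  (∀ᶠ n : ℕ in atTop, ((D n).card : ℝ) ≤ (n : ℝ) ^ A ∧ ∀ q ∈ D n, Adm n q) →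
  Pro false (fun n => D n) (fun _ => 1) 1 ε →
  Pro true (fun n => D n) (fun n => 1 + (un n)⁻¹) 8 (3 * ε)

/-- **edge transfer**, any family of triples -/
def EdgeC : Prop := ∀ (D : ℕ → Set (ℝ × ℝ × ℝ)) (ε : ℝ), 0 < ε →
  (∀ᶠ n : ℕ in atTop, ∀ q ∈ D n, Adm n q) →
  Pro false D (fun _ => 1) 1 ε → Pro true D (fun n => 1 + 4 * (un n)⁻¹) 32 (3 * ε)

/-- continuity in the time, every weight -/
def TimeStmt : Prop := ∀ᶠ n : ℕ in atTop, ∀ w : Cube n → ℝ, (∀ x, 0 < w x) →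
  ∀ r r' K p : ℝ, 0 ≤ r → 0 ≤ r' → |r - r'| ≤ ((n : ℝ) ^ 8)⁻¹ → CovAt w r' K p →
    CovAt w r ((1 + (n : ℝ)⁻¹) * K) (p + Real.exp (-(n : ℝ)))

/-- a net chosen inside the family -/
def NetGlue : Prop := TimeStmt → EdgeT → EdgeC

end Crest.Agent.T157.Et

end
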