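import Crest.Agent.T157.EtB_81
import Crest.Agent.T157.EtDef_81

/-!
# Row 157, part C: edge transfer, C (helper81)

The functional `T / (Λ + T)`, `T = tr (C / K) ^ k`, of a weight on the cube.
-/

set_option autoImplicit false
set_option linter.unusedSectionVars false

noncomputable section

namespace Crest.Agent.T157.Et

open Metric Finset Matrix
open Crest.ProbabilityR.SpinGlassDynamics Crest.Agent.T157.E Crest.Agent.T157.SL
open Crest.Agent.T157.Un Crest.Agent.T157.CwTr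
open Crest.Agent.T157.Crit (CovLe)

variable {n : ℕ} {w : Cube n → ℝ} {K L γ ρ : ℝ} {j k : ℕ}

/-- `tr (C / K) ^ k` for a complex kernel -/
def TC (K : ℝ) (k : ℕ) (p : Cube n → ℂ) : ℂ :=
  ((((K⁻¹ : ℝ) : ℂ) • of fun i j => cvc p (fun x => sv x i) fun x => sv x j) ^ k).trace
def TT (K : ℝ) (k : ℕ) (w : Cube n → ℝ) : ℝ := (TC K k fun x => prob w x).re
def YC (K L : ℝ) (k : ℕ) (p : Cube n → ℂ) : ℂ := TC K k p / (L + TC K k p)
def YY (K L : ℝ) (k : ℕ) (w : Cube n → ℝ) : ℝ := TT K k w / (L + TT K k w)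
/-- large overlaps -/
def big (γ : ℝ) (x y : Cube n) : ℝ := if γ < |sv x ⬝ᵥ sv y| then 1 else 0

lemma diff_TC (K : ℝ) (k : ℕ) : Differentiable ℂ (TC (n := n) K k) := by
  have h : ∀ (k : ℕ) a b, Differentiable ℂ fun p : Cube n → ℂ =>
      ((((K⁻¹ : ℝ) : ℂ) • of fun i j => cvc p (fun x => sv x i) fun x => sv x j) ^ k) a b := by
    intro k
    induction k with
    | zero => intro a b; simp only [pow_zero]; exact differentiable_const _
    | succ k ih =>
      intro a b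
      simp only [pow_succ, mul_apply]
      refine Differentiable.fun_sum fun c _ => (ih a c).mul ?_
      simp only [Matrix.smul_apply, of_apply, cvc, smul_eq_mul]
      fun_prop
  exact Differentiable.fun_sum (u := univ) fun a _ => h k a a

lemma tr_conj {κ : Type*} [Fintype κ] [DecidableEq κ] {O O' : Matrix κ κ ℂ} (h : O * O' = 1)
    (A : Matrix κ κ ℂ) (k : ℕ) : ((O' * A * O) ^ k).trace = (A ^ k).trace := by
  have : (O' * A * O) ^ k = O' * A ^ k * O := by
    induction k with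
    | zero => simp [mul_eq_one_comm.1 h]
    | succ k ih =>
      rw [pow_succ, ih, pow_succ]
      simp only [mul_assoc]
      rw [← mul_assoc O, h, one_mul]
  rw [this, trace_mul_cycle, h, one_mul]

lemma cvc_lin {p : Cube n → ℂ} (hp : ∑ x, p x = 1) (u v : Fin n → ℝ) (a b : ℝ) :
    cvc p (fun x => u ⬝ᵥ sv x - a) (fun x => v ⬝ᵥ sv x - b) =
      ∑ l, (∑ i, (u i : ℂ) * cvc p (fun x => sv x i) fun x => sv x l) * v l := by
  have e1 : ∀ (g : Cube n → ℂ) (u : Fin n → ℝ), ∑ x, g x * ((u ⬝ᵥ sv x : ℝ) : ℂ) =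
      ∑ i, (∑ x, g x * sv x i) * u i := fun g u => by
    simp only [dotProduct, Complex.ofReal_sum, Complex.ofReal_mul, mul_sum, sum_mul]
    rw [sum_comm]; exact sum_congr rfl fun _ _ => sum_congr rfl fun _ _ => by ring
  have e2 : cvc p (fun x => u ⬝ᵥ sv x - a) (fun x => v ⬝ᵥ sv x - b) =
      ∑ x, p x * ((u ⬝ᵥ sv x : ℝ) : ℂ) * ((v ⬝ᵥ sv x : ℝ) : ℂ) -
        (∑ x, p x * ((u ⬝ᵥ sv x : ℝ) : ℂ)) * ∑ x, p x * ((v ⬝ᵥ sv x : ℝ) : ℂ) := by
    simp only [cvc, Complex.ofReal_sub, mul_sub, sub_mul, sum_sub_distrib, ← mul_assoc, ← sum_mul,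
      mul_right_comm _ (a : ℂ), hp]
    ring
  rw [e2, e1, e1 p v, mul_sum, ← sum_sub_distrib]
  refine sum_congr rfl fun l _ => ?_
  rw [← mul_assoc, ← sub_mul]
  congr 1
  simp only [mul_right_comm (p _) _ (sv _ l : ℂ), e1, sum_mul, ← sum_sub_distrib, cvc]
  refine sum_congr rfl fun i _ => ?_
  rw [mul_sum]
  exact sum_congr rfl fun _ _ => by ring

lemma exists_basis (hw : ∀ x, 0 < w x) (hK : 1 ≤ K) : ∃ (f : Fin n → Cube n → ℝ) (μ : Fin n → ℝ),
    Og w f μ ∧ (∀ a x, |f a x| ≤ 2 * √n) ∧ (∀ (p : Cube n → ℂ) (k : ℕ), ∑ x, p x = 1 →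
      TC K k p = ((of fun a b => cvc p (f a) (f b)) ^ k).trace) ∧
      ∀ c, CovLe w (c * K) ↔ ∀ a, μ a ≤ c := by
  have hW := Wt.of_pos hw
  have K0 : 0 < K := by linarith
  have hH : (covM w).IsHermitian := (hW.covMat_psd sv).isHermitian
  set Q : Matrix (Fin n) (Fin n) ℝ := (hH.eigenvectorUnitary : Matrix (Fin n) (Fin n) ℝ)
  set l := hH.eigenvalues
  have q1 : Q * Qᵀ = 1 := by
    have := Unitary.coe_mul_star_self hH.eigenvectorUnitary
    simpa [star_eq_conjTranspose] using this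
  have q2 : Qᵀ * Q = 1 := mul_eq_one_comm.1 q1
  have sp : covM w = Q * diagonal l * Qᵀ := by
    have := hH.spectral_theorem
    simpa [Unitary.conjStarAlgAut_apply, star_eq_conjTranspose] using this
  have sq : √K⁻¹ * √K⁻¹ = K⁻¹ := Real.mul_self_sqrt (by positivity)
  have quad : ∀ u v : Fin n → ℝ, u ⬝ᵥ covM w *ᵥ v = ∑ a, l a * ((Qᵀ *ᵥ u) a * (Qᵀ *ᵥ v) a) := by
    intro u v
    rw [sp, ← mulVec_mulVec, ← mulVec_mulVec, dotProduct_mulVec, ← mulVec_transpose]
    exact sum_congr rfl fun a _ => by rw [mulVec_diagonal]; ring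
  have col : ∀ a, Qᵀ *ᵥ Qᵀ a = Pi.single a 1 := fun a => by
    funext b
    have := congrFun (congrFun q2 b) a
    simpa [mul_apply, mulVec, dotProduct, one_apply, Pi.single_apply] using this
  have nrm : ∀ u : Fin n → ℝ, Qᵀ *ᵥ u ⬝ᵥ Qᵀ *ᵥ u = u ⬝ᵥ u := fun u => by
    rw [dotProduct_mulVec, ← mulVec_transpose, transpose_transpose, mulVec_mulVec, q1, one_mulVec]
  have one : ∀ a, Qᵀ a ⬝ᵥ Qᵀ a = 1 := fun a => by rw [← nrm, col]; simp
  refine ⟨fun a x => (√K⁻¹ • Qᵀ a) ⬝ᵥ sv x - mean w fun x => (√K⁻¹ • Qᵀ a) ⬝ᵥ sv x,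
    fun a => K⁻¹ * l a, ⟨hw, fun a => by rw [mean_sub, hW.mean_const, sub_self], fun a b => ?_⟩,
    fun a x => ?_, fun p k hp => ?_, fun c => ⟨fun h a => ?_, fun h u => ?_⟩⟩
  · refine (covMat_quad w sv (√K⁻¹ • Qᵀ b) (√K⁻¹ • Qᵀ a)).symm.trans ((quad _ _).trans ?_)
    simp only [mulVec_smul, col, Pi.smul_apply, smul_eq_mul, Pi.single_apply, mul_ite, mul_one,
      mul_zero, ite_mul, zero_mul, sum_ite_eq', mem_univ, if_true, sq, mul_comm (l _)]
  · have h1 : ∀ x, |(√K⁻¹ • Qᵀ a) ⬝ᵥ sv x| ≤ √n := fun x => by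
      refine Real.abs_le_sqrt ((sum_mul_sq_le_sq_mul_sq _ _ _).trans ?_)
      have a1 : ∑ i, (√K⁻¹ • Qᵀ a) i ^ 2 = K⁻¹ := by
        have : (√K⁻¹ • Qᵀ a) ⬝ᵥ (√K⁻¹ • Qᵀ a) = K⁻¹ := by
          rw [smul_dotProduct, dotProduct_smul, one, smul_eq_mul, smul_eq_mul, mul_one, sq]
        simpa only [dotProduct, pow_two] using this
      have a2 : ∑ i, sv x i ^ 2 = n := by simpa only [dotProduct, pow_two] using sv_dot_self x
      rw [a1, a2]
      exact mul_le_of_le_one_left (Nat.cast_nonneg n) (inv_le_one_of_one_le₀ hK)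
    linarith [abs_sub ((√K⁻¹ • Qᵀ a) ⬝ᵥ sv x) (mean w fun x => (√K⁻¹ • Qᵀ a) ⬝ᵥ sv x), h1 x,
      hW.abs_mean_le h1]
  · have h1 : Q.map Complex.ofReal * (Q.map Complex.ofReal)ᵀ = 1 := by
      have := congrArg (fun M : Matrix (Fin n) (Fin n) ℝ => M.map Complex.ofRealHom) q1
      simp only [Matrix.map_mul, transpose_map] at this
      rwa [Matrix.map_one _ (map_zero _) (map_one _)] at this
    rw [TC, ← tr_conj h1]
    congr 2
    ext a b
    have sq' : ((K⁻¹ : ℝ) : ℂ) = (√K⁻¹ : ℝ) * (√K⁻¹ : ℝ) := by rw [← Complex.ofReal_mul, sq]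
    simp only [of_apply, cvc_lin hp, mul_apply, Matrix.smul_apply, transpose_apply, map_apply,
      Pi.smul_apply, smul_eq_mul, Complex.ofReal_mul, sum_mul]
    rw [sq']
    exact sum_congr rfl fun _ _ => sum_congr rfl fun _ _ => by ring
  · have := h (Qᵀ a)
    rw [quad, one] at this
    simp only [col, Pi.single_apply, mul_ite, mul_one, mul_zero, sum_ite_eq', mem_univ,
      if_true] at this
    rwa [inv_mul_le_iff₀ K0, mul_comm]
  · rw [quad, ← nrm u, dotProduct, mul_sum]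
    refine sum_le_sum fun a _ => mul_le_mul_of_nonneg_right ?_ (mul_self_nonneg _)
    have := h a
    rwa [inv_mul_le_iff₀ K0, mul_comm] at this

lemma abs_ov_le (x y : Cube n) : |sv x ⬝ᵥ sv y| ≤ n := by
  refine (abs_sum_le_sum_abs _ _).trans (le_of_eq ?_)
  have : ∀ i, |sv x i * sv y i| = 1 := fun i => by
    simp only [sv, spin]; split_ifs <;> norm_num
  simp [this]

lemma big_nn (x y : Cube n) : 0 ≤ big γ x y := by unfold big; split_ifs <;> norm_num

lemma sum_chi {ι : Type*} [Fintype ι] (hw : ∀ x, 0 < w x) (γ : ℝ) (u : ι → Cube n → ℝ) {B : ℝ}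
    (hB : ∀ x y, |∑ i, u i x * u i y| ≤ B) :
    ∑ e : Pair n, ∑ i, (mean w fun x => chi e x * u i x) ^ 2 ≤
      γ ^ 2 * m2 w (fun x y => |∑ i, u i x * u i y|) + n ^ 2 * B * m2 w (big γ) := by
  refine (sum_cov_le w u).trans ?_
  rw [← m2_const_mul, ← m2_const_mul, ← m2_add]
  refine m2_mono hw fun x y => (mul_le_mul_of_nonneg_right (le_abs_self _) (sq_nonneg _)).trans ?_
  have h0 := abs_nonneg (∑ i, u i x * u i y)
  rw [← sq_abs (sv x ⬝ᵥ sv y), big]
  split_ifs with h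
  · have : |∑ i, u i x * u i y| * |sv x ⬝ᵥ sv y| ^ 2 ≤ B * n ^ 2 := by
      gcongr
      · exact h0.trans (hB x y)
      · exact hB x y
      · exact abs_ov_le x y
    nlinarith [mul_nonneg (sq_nonneg γ) h0]
  · rw [mul_zero, add_zero, mul_comm]
    gcongr; exact not_lt.1 h

lemma sum_chi1 (hw : ∀ x, 0 < w x) (γ : ℝ) (u : Cube n → ℝ) {B : ℝ} (hB : ∀ x y, |u x * u y| ≤ B) :
    ∑ e : Pair n, (mean w fun x => chi e x * u x) ^ 2 ≤
      γ ^ 2 * m2 w (fun x y => |u x * u y|) + n ^ 2 * B * m2 w (big γ) := by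
  simpa using sum_chi (ι := Unit) hw γ (fun _ => u) (B := B) (by simpa using hB)

lemma sum_t (hw : ∀ x, 0 < w x) (γ : ℝ) :
    ∑ e : Pair n, mean w (chi e) ^ 2 ≤ γ ^ 2 + n ^ 2 * m2 w (big γ) := by
  simpa [m2_const hw] using sum_chi1 hw γ (fun _ => 1) (B := 1) (by simp)

lemma sum_yy {f : Fin n → Cube n → ℝ} {μ : Fin n → ℝ} (o : Og w f μ) (hn : 0 < n)
    (hf : ∀ a x, |f a x| ≤ 2 * √n) (γ : ℝ) (a : Fin n) :
    ∑ e : Pair n, yy w (chi e) f μ a ≤ 5 * γ ^ 2 * √n * μ a ^ 2 + 80 * n ^ 5 * m2 w (big γ) := by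
  have hW := Wt.of_pos o.pos
  have n1 : (1 : ℝ) ≤ n := by exact_mod_cast hn
  have s1 : 1 ≤ √(n : ℝ) := Real.one_le_sqrt.2 n1
  have ss : √(n : ℝ) * √n = n := Real.mul_self_sqrt (by positivity)
  have f2 : ∀ a b x y, |f a x * f b y| ≤ 4 * n := fun a b x y => by
    rw [abs_mul]
    exact (mul_le_mul (hf a x) (hf b y) (abs_nonneg _) (by positivity)).trans_eq (by linarith)
  have μ0 := o.nn a
  have μ1 : μ a ≤ 4 * n := o.self a ▸ hW.mean_le fun x => (le_abs_self _).trans (f2 a a x x)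
  set S := univ.filter fun b => μ b ≤ μ a with hS
  set t := m2 w (big γ)
  have t0 : 0 ≤ t := m2_nonneg o.pos big_nn
  have eu : ∀ x y, ∑ b : S, f a x * f b x * (f a y * f b y) =
      f a x * f a y * ∑ b ∈ S, f b x * f b y := fun x y => by
    rw [sum_coe_sort S fun b => f a x * f b x * (f a y * f b y), mul_sum]
    exact sum_congr rfl fun _ _ => by ring
  have A1 := sum_chi o.pos γ (fun (b : S) x => f a x * f b x) (B := 16 * n ^ 3) fun x y => by
    rw [eu, abs_mul]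
    have : |∑ b ∈ S, f b x * f b y| ≤ n * (4 * n) := by
      refine (abs_sum_le_sum_abs _ _).trans ((sum_le_card_nsmul _ _ _ fun b _ => f2 b b x y).trans ?_)
      rw [nsmul_eq_mul]
      gcongr
      simpa using card_le_univ S
    exact (mul_le_mul (f2 a a x y) this (abs_nonneg _) (by positivity)).trans_eq (by ring)
  have B1 : m2 w (fun x y => (∑ b ∈ S, f b x * f b y) * ∑ b ∈ S, f b x * f b y) ≤ n * μ a ^ 2 := by
    rw [m2_eq_mean]
    refine (hW.mean_mono fun x => o.sq_sum (fun b => f b x) S (m := μ a) (by simp [hS])).trans ?_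
    simp only [mean_const_mul, mean_sum, sq, o.self]
    have : ∑ b ∈ S, μ b ≤ n * μ a := by
      refine (sum_le_card_nsmul _ _ (μ a) (by simp [hS])).trans ?_
      rw [nsmul_eq_mul]
      gcongr
      simpa using card_le_univ S
    nlinarith
  have B2 : m2 w (fun x y => |∑ b : S, f a x * f b x * (f a y * f b y)|) ≤ √n * μ a ^ 2 := by
    have := m2_mono o.pos (F := fun x y => 2 * √n * |∑ b : S, f a x * f b x * (f a y * f b y)|)
      (G := fun x y => n * (f a x * f a x * (f a y * f a y)) +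
        (∑ b ∈ S, f b x * f b y) * ∑ b ∈ S, f b x * f b y) fun x y => by
      rw [eu, abs_mul, ← abs_mul_abs_self (∑ b ∈ S, _), mul_mul_mul_comm (f a x),
        ← abs_mul_abs_self (f a x * _)]
      nth_rewrite 2 [← ss]
      nlinarith [sq_nonneg (√n * |f a x * f a y| - |∑ b ∈ S, f b x * f b y|)]
    rw [m2_const_mul, m2_add, m2_const_mul, m2_mul (fun x => f a x * f a x) fun x => f a x * f a x,
      o.self] at this
    refine le_of_mul_le_mul_left (this.trans ?_) (by positivity : 0 < 2 * √(n : ℝ))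
    nlinarith
  have A2 := sum_t o.pos γ
  have A3 := sum_chi1 o.pos γ (f a) (f2 a a)
  have B3 : m2 w (fun x y => |f a x * f a y|) ≤ μ a := by
    have := m2_mono o.pos (F := fun x y => 2 * |f a x * f a y|)
      (G := fun x y => f a x * f a x + f a y * f a y) fun x y => by
      rw [abs_mul, ← abs_mul_abs_self (f a x), ← abs_mul_abs_self (f a y)]
      nlinarith [sq_nonneg (|f a x| - |f a y|)]
    rw [m2_const_mul, m2_add, m2_left o.pos fun x => f a x * f a x,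
      m2_right o.pos fun x => f a x * f a x, o.self] at this
    linarith
  have C1 : ∀ e : Pair n, yy w (chi e) f μ a ≤
      2 * ∑ b : S, (mean w fun x => chi e x * (f a x * f b x)) ^ 2 +
        2 * μ a ^ 2 * mean w (chi e) ^ 2 + μ a * (mean w fun x => chi e x * f a x) ^ 2 := fun e => by
    refine add_le_add_left ?_ _
    rw [sum_coe_sort S fun b => (mean w fun x => chi e x * (f a x * f b x)) ^ 2]
    have h1 : ∀ b, al w (chi e) f a b ^ 2 ≤ 2 * (mean w fun x => chi e x * (f a x * f b x)) ^ 2 +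
        if a = b then 2 * μ a ^ 2 * mean w (chi e) ^ 2 else 0 := fun b => by
      simp only [al, mul_assoc, sub_mul, mean_sub, mean_const_mul, o.ort]
      split_ifs
      · nlinarith [sq_nonneg ((mean w fun x => chi e x * (f a x * f b x)) + mean w (chi e) * μ a)]
      · nlinarith [sq_nonneg (mean w fun x => chi e x * (f a x * f b x))]
    refine (sum_le_sum fun b _ => h1 b).trans (le_of_eq ?_)
    rw [sum_add_distrib, ← mul_sum, sum_ite_eq, if_pos (by simp)]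
  refine (sum_le_sum fun e _ => C1 e).trans ?_
  rw [sum_add_distrib, sum_add_distrib, ← mul_sum, ← mul_sum, ← mul_sum]
  have g0 := sq_nonneg γ
  calc _ ≤ 2 * (γ ^ 2 * (√n * μ a ^ 2) + n ^ 2 * (16 * n ^ 3) * t) +
        2 * μ a ^ 2 * (γ ^ 2 + n ^ 2 * t) + μ a * (γ ^ 2 * μ a + n ^ 2 * (4 * n) * t) := by
        gcongr
        · exact A1.trans (by gcongr)
        · exact A3.trans (by gcongr)
    _ = 2 * γ ^ 2 * √n * μ a ^ 2 + 3 * γ ^ 2 * 1 * μ a ^ 2 +
        (32 * n ^ 5 + 2 * μ a ^ 2 * n ^ 2 * 1 + 4 * μ a * n ^ 3 * 1) * t := by ring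
    _ ≤ 2 * γ ^ 2 * √n * μ a ^ 2 + 3 * γ ^ 2 * √n * μ a ^ 2 +
        (32 * n ^ 5 + 2 * (4 * n) ^ 2 * n ^ 2 * n + 4 * (4 * n) * n ^ 3 * n) * t := by gcongr
    _ = _ := by ring

lemma TT_eq {f : Fin n → Cube n → ℝ} {μ : Fin n → ℝ} (o : Og w f μ)
    (h : ∀ (p : Cube n → ℂ) (k : ℕ), ∑ x, p x = 1 →
      TC K k p = ((of fun a b => cvc p (f a) (f b)) ^ k).trace) (k : ℕ) :
    (TC K k fun x => prob w x) = (TT K k w : ℝ) ∧ TT K k w = ∑ a, μ a ^ k := by
  have h1 : (TC K k fun x => prob w x) = ((∑ a, μ a ^ k : ℝ) : ℂ) := by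
    have z0 : Zm w (fun _ => 1) f 0 = 0 := by ext a b; simp [Zm]
    rw [h _ _ (by exact_mod_cast sum_prob o.pos), o.cvc_eq (χ := fun _ => 1) (υ := 0) (by simp), z0,
      add_zero, dg, diagonal_pow, trace_diagonal]
    simp
  have h2 : TT K k w = ∑ a, μ a ^ k := by rw [TT, h1, Complex.ofReal_re]
  exact ⟨by rw [h1, h2], h2⟩

section
variable (hw : ∀ x, 0 < w x) (hK : 1 ≤ K)
include hw hK

lemma TC_real (k : ℕ) : (TC K k fun x => prob w x) = (TT K k w : ℝ) := by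
  obtain ⟨f, μ, o, -, h, -⟩ := exists_basis hw hK
  exact (TT_eq o h k).1

lemma TT_nn (k : ℕ) : 0 ≤ TT K k w := by
  obtain ⟨f, μ, o, -, h, -⟩ := exists_basis hw hK
  rw [(TT_eq o h k).2]; exact sum_nonneg fun a _ => pow_nonneg (o.nn a) _

lemma TT_le (k : ℕ) (hc : CovLe w K) : TT K k w ≤ n := by
  obtain ⟨f, μ, o, -, h, h'⟩ := exists_basis hw hK
  rw [(TT_eq o h k).2]
  simpa using sum_le_card_nsmul univ _ 1 fun a _ =>
    pow_le_one₀ (n := k) (o.nn a) ((h' 1).1 (by rwa [one_mul]) a)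

lemma le_TT (k : ℕ) {c : ℝ} (h0 : 0 ≤ c) (hc : ¬ CovLe w (c * K)) : c ^ k ≤ TT K k w := by
  obtain ⟨f, μ, o, -, h, h'⟩ := exists_basis hw hK
  rw [(TT_eq o h k).2]
  obtain ⟨a, ha⟩ := not_forall.1 (mt (h' c).2 hc)
  exact (pow_le_pow_left₀ h0 (not_le.1 ha).le k).trans
    (single_le_sum (f := fun a => μ a ^ k) (fun a _ => pow_nonneg (o.nn a) _) (mem_univ a))

lemma YY_nn (hL : 1 ≤ L) : 0 ≤ YY K L k w := by
  have := TT_nn hw hK k; unfold YY; positivity

lemma YY_le (hL : 1 ≤ L) : |YY K L k w| ≤ 1 := by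
  have := TT_nn hw hK k
  rw [abs_of_nonneg (YY_nn hw hK hL), YY, div_le_one (by positivity)]; linarith

/-- the trace under the change of one coupling -/
theorem tilt_T (hn : 0 < n) (hρ : (j + 2) * ρ ≤ 1 / 64) (γ : ℝ) :
    (∀ e, ∀ z ∈ ball (0 : ℂ) ρ, ‖TC K (j + 2) (pc (cw w (chi e) z)) - TT K (j + 2) w‖ ≤
      27 * ((j + 2) * ρ) * TT K (j + 2) w) ∧
    ∀ z : Pair n → ℂ, (∀ e, z e ∈ ball (0 : ℂ) ρ) →
      ∑ e, ‖TC K (j + 2) (pc (cw w (chi e) (z e))) - TT K (j + 2) w‖ ^ 2 ≤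
        γ ^ 2 * √n * TT K (j + 2) w ^ 2 + 8 * n ^ 5 * m2 w (big γ) * (n + TT K (j + 2) w) ^ 2 := by
  obtain ⟨f, μ, o, hf, h, -⟩ := exists_basis hw hK
  have j0 : (0 : ℝ) ≤ j := Nat.cast_nonneg j
  rw [(TT_eq o h _).2]
  have key : ∀ e, ∀ z ∈ ball (0 : ℂ) ρ, 0 ≤ (j + 2) * ρ ∧
      ‖TC K (j + 2) (pc (cw w (chi e) z)) - ((∑ a, μ a ^ (j + 2) : ℝ) : ℂ)‖ ≤
        12 * ((j + 2) * ρ) * ∑ a, μ a ^ (j + 1) * √(yy w (chi e) f μ a) := fun e z hz => by
    have ρ0 := pos_of_mem_ball hz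
    have hz' : z ∈ ball (0 : ℂ) (1 / 4) := ball_subset_ball (by nlinarith) hz
    obtain ⟨υ, h1, h2⟩ := pc_formula hw (sgn_chi e) hz'
    have h3 : ∑ x, pc (cw w (chi e) z) x = 1 := by
      simp only [pc, ← sum_div]; exact div_self (sum_cw_ne hw (sgn_chi e) hz')
    rw [h _ _ h3, o.cvc_eq h2]
    refine ⟨by positivity, (o.core (sgn_chi e) (u := 4 * ρ)
      (h1.trans (by linarith [mem_ball_zero_iff.1 hz])) j (by linarith)).trans_eq (by ring)⟩
  refine ⟨fun e z hz => (key e z hz).2.trans ?_, fun z hz => ?_⟩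
  · have : ∑ a, μ a ^ (j + 1) * √(yy w (chi e) f μ a) ≤ 9 / 4 * ∑ a, μ a ^ (j + 2) := by
      rw [mul_sum]
      refine sum_le_sum fun a _ => ?_
      have p := o.nn a
      have b1 : √(yy w (chi e) f μ a) ≤ 9 / 4 * μ a := Real.sqrt_le_iff.2
        ⟨by positivity, by nlinarith [o.yy_le (sgn_chi e) a, sq_nonneg (μ a)]⟩
      exact (mul_le_mul_of_nonneg_left b1 (pow_nonneg p _)).trans_eq (by ring)
    nlinarith [mul_le_mul_of_nonneg_left this (key e z hz).1]
  · have t0 : 0 ≤ m2 w (big γ) := m2_nonneg hw big_nn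
    set A := √(5 * γ ^ 2 * √n) with hA
    set B := √(80 * n ^ 5 * m2 w (big γ)) with hB
    have a2 : A ^ 2 = 5 * γ ^ 2 * √n := Real.sq_sqrt (by positivity)
    have b2 : B ^ 2 = 80 * n ^ 5 * m2 w (big γ) := Real.sq_sqrt (by positivity)
    have h1 := mink univ (c := fun a => μ a ^ (j + 1)) (N := fun a => A * μ a + B)
      (x := fun a e => √(yy w (chi e) f μ a)) (fun a _ => pow_nonneg (o.nn a) _)
      (fun a _ => by have := o.nn a; positivity) fun a _ => by
        simp only [Real.sq_sqrt (o.yy_nn a)]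
        refine (sum_yy o hn hf γ a).trans ?_
        have := o.nn a
        rw [← a2, ← b2]; nlinarith [show 0 ≤ A * μ a * B by positivity]
    have h2 : ∑ a, μ a ^ (j + 1) * (A * μ a + B) ≤
        A * ∑ a, μ a ^ (j + 2) + B * (n + ∑ a, μ a ^ (j + 2)) := by
      have : ∑ a, μ a ^ (j + 1) ≤ ∑ a, (1 + μ a ^ (j + 2)) := sum_le_sum fun a _ => by
        rcases le_total (μ a) 1 with c | c
        · linarith [pow_le_one₀ (n := j + 1) (o.nn a) c, pow_nonneg (o.nn a) (j + 2)]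
        · linarith [pow_le_pow_right₀ c (show j + 1 ≤ j + 2 by omega)]
      simp only [sum_add_distrib, sum_const, card_univ, Fintype.card_fin, nsmul_eq_mul,
        mul_one] at this
      simp only [mul_add (μ _ ^ _), sum_add_distrib, ← sum_mul]
      refine add_le_add (le_of_eq ?_) (by rw [mul_comm]; gcongr)
      rw [mul_sum]; exact sum_congr rfl fun _ _ => by ring
    have h3 := h1.trans (pow_le_pow_left₀ (sum_nonneg fun a _ => by
      have := o.nn a; positivity) h2 2)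
    calc _ ≤ ∑ e : Pair n, (3 / 16 * ∑ a, μ a ^ (j + 1) * √(yy w (chi e) f μ a)) ^ 2 := by
          refine sum_le_sum fun e _ => pow_le_pow_left₀ (norm_nonneg _)
            ((key e _ (hz e)).2.trans (mul_le_mul_of_nonneg_right (by linarith)
              (sum_nonneg fun a _ => ?_))) 2
          have := o.nn a; positivity
      _ ≤ _ := by
          simp only [mul_pow, ← mul_sum]
          set T := ∑ a, μ a ^ (j + 2)
          have e1 : γ ^ 2 * √n * T ^ 2 + 8 * n ^ 5 * m2 w (big γ) * (n + T) ^ 2 =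
              1 / 5 * (A * T) ^ 2 + 1 / 10 * (B * (n + T)) ^ 2 := by
            rw [mul_pow, mul_pow, a2, b2]; ring
          rw [e1]
          nlinarith [sq_nonneg (A * T - B * (n + T)), sq_nonneg (A * T), sq_nonneg (B * (n + T))]

/-- the bounded functional under the change of one coupling -/
theorem tilt_Y (hn : 0 < n) (hL : 1 ≤ L) (hρ : (j + 2) * ρ ≤ 1 / 64) (γ : ℝ) :
    (∀ e, Ex ρ (fun t => YY K L (j + 2) (rw w (chi e) t))
      fun z => YC K L (j + 2) (pc (cw w (chi e) z))) ∧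
    (∀ e, ∀ z ∈ ball (0 : ℂ) ρ, ‖YC K L (j + 2) (pc (cw w (chi e) z)) - YY K L (j + 2) w‖ ≤
      54 * ((j + 2) * ρ) * YY K L (j + 2) w) ∧
    ∀ z : Pair n → ℂ, (∀ e, z e ∈ ball (0 : ℂ) ρ) →
      ∑ e, ‖YC K L (j + 2) (pc (cw w (chi e) (z e))) - YY K L (j + 2) w‖ ^ 2 ≤
        4 * γ ^ 2 * √n * YY K L (j + 2) w ^ 2 + 32 * n ^ 7 * m2 w (big γ) := by
  obtain ⟨h1, h2⟩ := tilt_T hw hK hn hρ γ
  have T0 := TT_nn hw hK (j + 2)
  have j0 : (0 : ℝ) ≤ j := Nat.cast_nonneg j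
  have n1 : (1 : ℝ) ≤ n := by exact_mod_cast hn
  have key := fun e z hz => norm_ratio T0 (by linarith : 0 < L) ((h1 e z hz).trans
    (mul_le_mul_of_nonneg_right (by linarith) T0))
  set T := TT K (j + 2) w with hT
  have k2 : ∀ e, ∀ z ∈ ball (0 : ℂ) ρ, ‖YC K L (j + 2) (pc (cw w (chi e) z)) - YY K L (j + 2) w‖ ≤
      2 / (L + T) * ‖TC K (j + 2) (pc (cw w (chi e) z)) - T‖ := fun e z hz => by
    refine (key e z hz).2.trans (mul_le_mul_of_nonneg_right ?_ (norm_nonneg _))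
    rw [div_le_div_iff₀ (by positivity) (by positivity)]
    nlinarith [mul_nonneg T0 (by positivity : 0 ≤ L + T)]
  refine ⟨fun e => ?_, fun e z hz => (k2 e z hz).trans ?_, fun z hz => ?_⟩
  · rcases le_or_gt ρ 0 with r0 | r0
    · exact ⟨by rw [ball_eq_empty.2 r0]; exact differentiableOn_empty,
        fun t ht => absurd (ht.trans_le r0) (abs_nonneg t).not_gt⟩
    have r1 : ρ ≤ 1 / 4 := by nlinarith
    have e1 : Ex ρ (fun t => TT K (j + 2) (rw w (chi e) t))
        fun z => TC K (j + 2) (pc (cw w (chi e) z)) :=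
      ⟨(diff_TC K _).comp_differentiableOn (differentiableOn_pi.2 fun x =>
        ((ex_pc hw (sgn_chi e) x).mono r1).diff), fun t ht => by
        rw [← TC_real (rw_pos hw t) hK]
        congr 1; funext x; exact ((ex_pc hw (sgn_chi e) x).mono r1).eq t ht⟩
    exact e1.div ((Ex.const _ L).add e1) fun z hz =>
      norm_pos_iff.1 (lt_of_lt_of_le (by positivity) (key e z hz).1)
  · calc _ ≤ 2 / (L + T) * (27 * ((j + 2) * ρ) * T) := by gcongr; exact h1 e z hz
      _ = _ := by rw [YY, ← hT]; ring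
  · have t0 : 0 ≤ m2 w (big γ) := m2_nonneg hw big_nn
    calc _ ≤ ∑ e, (2 / (L + T) * ‖TC K (j + 2) (pc (cw w (chi e) (z e))) - T‖) ^ 2 :=
          sum_le_sum fun e _ => by gcongr; exact k2 e _ (hz e)
      _ ≤ (2 / (L + T)) ^ 2 * (γ ^ 2 * √n * T ^ 2 + 8 * n ^ 5 * m2 w (big γ) * (n * (L + T)) ^ 2) := by
          simp only [mul_pow (2 / (L + T)), ← mul_sum]
          gcongr
          refine (h2 z hz).trans ?_
          gcongr; nlinarith
      _ = _ := by rw [YY, ← hT]; field_simp; ring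

end

end Crest.Agent.T157.Et

end
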