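import Crest.Agent.T157.EtC_81

/-!
# Row 157, part C: edge transfer, D (helper81)

The mean of the functional along the localisation channel has a small relative oscillation.
-/

set_option autoImplicit false
set_option linter.unusedSectionVars false

noncomputable section

namespace Crest.Agent.T157.Et

open MeasureTheory Metric Finset Matrix
open Crest.ProbabilityR.SpinGlassDynamics Crest.Agent.T157.E Crest.Agent.T157.SL
open Crest.Agent.T157.Un
open Crest.Agent.T157.Crit (CovLe CovAt)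

variable {n : ℕ} {w : Cube n → ℝ} {r K L γ ρ p : ℝ} {j k : ℕ}

lemma sum_int_sq {Z ι : Type*} [MeasurableSpace Z] [Fintype ι] {μ : Measure Z} {d : ι → Z → ℝ}
    {b c : Z → ℝ} (hd : ∀ e, Integrable (d e) μ) (hb : Integrable b μ) (hc : Integrable c μ)
    (b0 : ∀ y, 0 ≤ b y) (c0 : ∀ y, 0 ≤ c y) (hB : 0 < ∫ y, b y ∂μ)
    (h : ∀ y, ∑ e, d e y ^ 2 ≤ b y * c y) :
    ∑ e, (∫ y, d e y ∂μ) ^ 2 ≤ (∫ y, b y ∂μ) * ∫ y, c y ∂μ := by
  set B := ∫ y, b y ∂μ
  set D := ∑ e, (∫ y, d e y ∂μ) ^ 2 with hD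
  have D0 : 0 ≤ D := by positivity
  have i1 : ∀ e, Integrable (fun y => 2 * B * ((∫ y, d e y ∂μ) * d e y)) μ := fun e =>
    ((hd e).const_mul _).const_mul _
  have h1 := integral_mono (integrable_finsetSum univ fun e _ => i1 e)
    ((hb.const_mul D).add (hc.const_mul (B ^ 2))) fun y => by
      have a1 := (sum_mul_sq_le_sq_mul_sq univ (fun e => ∫ y, d e y ∂μ) fun e => d e y).trans
        (mul_le_mul_of_nonneg_left (h y) D0)
      have := b0 y
      have := c0 y
      simp only [← mul_sum, Pi.add_apply]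
      refine (abs_le_of_sq_le_sq' ?_ (by positivity)).2
      rw [mul_pow]
      nlinarith [mul_le_mul_of_nonneg_left a1 (sq_nonneg (2 * B)), sq_nonneg (D * b y - B ^ 2 * c y)]
  rw [integral_finsetSum _ fun e _ => i1 e, integral_add' (hb.const_mul D) (hc.const_mul _)] at h1
  simp only [integral_const_mul, ← sq, ← mul_sum] at h1
  refine le_of_mul_le_mul_left ?_ hB
  nlinarith

lemma meas_TC {X : Type*} [MeasurableSpace X] {q : X → Cube n → ℂ}
    (h : ∀ x, Measurable fun a => q a x) : Measurable fun a => TC K k (q a) :=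
  (diff_TC K k).continuous.measurable.comp (measurable_pi_lambda _ h)

lemma meas_YC {X : Type*} [MeasurableSpace X] {q : X → Cube n → ℂ}
    (h : ∀ x, Measurable fun a => q a x) : Measurable fun a => YC K L k (q a) :=
  (meas_TC h).div ((meas_TC h).const_add _)

lemma meas_YY {X : Type*} [MeasurableSpace X] {v : X → Cube n → ℝ}
    (h : ∀ x, Measurable fun a => v a x) : Measurable fun a => YY K L k (v a) := by
  have : Measurable fun a => TT K k (v a) := Complex.measurable_re.comp (meas_TC fun x =>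
    Complex.measurable_ofReal.comp ((h x).div (measurable_sum _ fun y _ => h y)))
  exact this.div (this.const_add _)

lemma meas_pc {X : Type*} [MeasurableSpace X] {v : X → Cube n → ℝ}
    (h : ∀ x, Measurable fun a => v a x) (χ : Cube n → ℝ) (z : ℂ) (x : Cube n) :
    Measurable fun a => pc (cw (v a) χ z) x := by
  have : ∀ y, Measurable fun a => cw (v a) χ z y := fun y =>
    (Complex.measurable_ofReal.comp (h y)).mul_const _
  exact (this x).div (measurable_sum _ fun y _ => this y)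

lemma meas_post (x : Cube n) : Measurable fun y => post sv w r y x := by
  simp only [post, dotProduct]; fun_prop

lemma post_pos (hw : ∀ x, 0 < w x) (y : Fin n → ℝ) (x : Cube n) : 0 < post sv w r y x :=
  mul_pos (hw x) (Real.exp_pos _)

lemma int_law_eq (hw : ∀ x, 0 < w x) {H : (Fin n → ℝ) → ℝ} (hH : Measurable H) {M : ℝ}
    (hM : ∀ y, |H y| ≤ M) : ∫ y, H y ∂law sv w r =
      mean w fun x => ∫ ζ, H (r • sv x + √r • ζ) ∂gv (Fin n) :=
  integral_law (Wt.of_pos hw) hH fun _ => int_bdd (hH.comp (by fun_prop)) fun _ => hM _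

lemma sum_tl_rel (hw : ∀ x, 0 < w x) (γ : ℝ) {f : Cube n → ℝ} (h0 : ∀ x, 0 ≤ f x) (h1 : ∀ x, f x ≤ 1) :
    ∑ e, tl w (chi e) f ^ 2 ≤ 4 * γ ^ 2 * mean w f ^ 2 + 4 * n ^ 2 * m2 w (big γ) := by
  have t0 : 0 ≤ m2 w (big γ) := m2_nonneg hw big_nn
  have X0 := (Wt.of_pos hw).mean_nonneg h0
  have X1 := (Wt.of_pos hw).mean_le h1
  have b1 := sum_chi1 hw γ f (B := 1) fun x y => by
    rw [abs_of_nonneg (mul_nonneg (h0 x) (h0 y))]; exact mul_le_one₀ (h1 x) (h0 y) (h1 y)
  simp only [fun x y => abs_of_nonneg (mul_nonneg (h0 x) (h0 y)), m2_mul] at b1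
  have b2 := mul_le_mul_of_nonneg_left (sum_t hw γ) (sq_nonneg (mean w f))
  have b3 : ∑ e, tl w (chi e) f ^ 2 ≤ ∑ e : Pair n,
      (2 * (mean w fun x => chi e x * f x) ^ 2 + 2 * (mean w f ^ 2 * mean w (chi e) ^ 2)) :=
    sum_le_sum fun e _ => by
      rw [tl, ← abs_mul, ← mul_pow, mul_comm (mean w f), ← sq_abs (_ * mean w f), ← sq_abs (mean w _)]
      nlinarith [sq_nonneg (|mean w fun x => chi e x * f x| - |mean w (chi e) * mean w f|)]
  rw [sum_add_distrib, ← mul_sum, ← mul_sum, ← mul_sum] at b3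
  have b4 : mean w f ^ 2 * (n ^ 2 * m2 w (big γ)) ≤ 1 * (n ^ 2 * m2 w (big γ)) := by
    gcongr; nlinarith
  nlinarith

lemma add_sq_le' (a b : ℝ) : (3 * a + b) ^ 2 ≤ 18 * a ^ 2 + 2 * b ^ 2 := by
  nlinarith [sq_nonneg (3 * a - b)]

lemma fin_le {X N E t a b : ℝ} (X0 : 0 ≤ X) (hp : 0 < p) (n1 : 1 ≤ N) (E0 : 0 ≤ E) (t0 : 0 ≤ t)
    (ha : a ≤ (X + p) * (4 * γ ^ 2 * √N * X + 32 * N ^ 7 / p * E))
    (hb : b ≤ 4 * γ ^ 2 * X ^ 2 + 4 * N ^ 2 * t) :
    18 * a + 2 * b ≤ (80 * γ ^ 2 * √N + 576 * N ^ 7 * (E + t) / p ^ 2) * (X + p) ^ 2 := by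
  have s1 : 1 ≤ √N := Real.one_le_sqrt.2 n1
  have p1 : 1 ≤ (X + p) / p := by rw [one_le_div hp]; linarith
  have p2 : 1 ≤ ((X + p) / p) ^ 2 := one_le_pow₀ p1
  calc _ ≤ 18 * ((X + p) * (4 * γ ^ 2 * √N * X + 32 * N ^ 7 / p * E * 1)) +
        2 * (4 * γ ^ 2 * 1 * X ^ 2 + 4 * N ^ 2 * t * 1) := by simp only [mul_one]; linarith
    _ ≤ 18 * ((X + p) * (4 * γ ^ 2 * √N * (X + p) + 32 * N ^ 7 / p * E * ((X + p) / p))) +
        2 * (4 * γ ^ 2 * √N * (X + p) ^ 2 + 288 * N ^ 7 * t * ((X + p) / p) ^ 2) := by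
        gcongr <;> linarith
    _ = _ := by field_simp; ring

/-- the mean of the functional at time `r` -/
def XX (r K L : ℝ) (k : ℕ) (w : Cube n → ℝ) : ℝ :=
  mean w fun x => ∫ ζ, YY K L k (po sv r w x ζ) ∂gv (Fin n)

lemma meas_XX : Measurable fun g => XX r K L k (gw n g) := meas_mean fun x => by
  have h : ∀ y, Measurable fun q : (Pair n → ℝ) × (Fin n → ℝ) => po sv r (gw n q.1) x q.2 y :=
    fun y => by simp only [po, post, dotProduct, gw, gibbsWeight]; fun_prop
  exact ((meas_YY h).stronglyMeasurable.integral_prod_right' (ν := gv (Fin n))).measurable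

section
variable (hw : ∀ x, 0 < w x) (hK : 1 ≤ K) (hL : 1 ≤ L)
include hw hK hL

lemma XX_eq : XX r K L k w = ∫ y, YY K L k (post sv w r y) ∂law sv w r :=
  (int_law_eq hw (meas_YY meas_post) fun y => YY_le (post_pos hw y) hK hL).symm

lemma XX_le (hp : 0 ≤ p) (h : CovAt w r K p) : XX r K L k w ≤ n / L + p := by
  have := isProb_law (φ := sv) (s := r) (Wt.of_pos hw)
  rw [XX_eq hw hK hL]
  refine int_le_add (meas_YY meas_post) (fun y => YY_le (post_pos hw y) hK hL) (by positivity) hp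
    (A := {y | ¬ CovLe (tilt w y) K})
    (by rw [← ofReal_measureReal]; exact ENNReal.ofReal_le_ofReal h) fun y hy => ?_
  have h1 := TT_le (post_pos (r := r) hw y) hK k fun u => by
    rw [covM, covMat_post_sv]; exact not_not.1 hy u
  have h0 := TT_nn (post_pos (r := r) hw y) hK k
  rw [YY]; gcongr; linarith

lemma covAt_of {c : ℝ} (hc : 0 ≤ c) (e : L = c ^ k) (hp : 0 ≤ p) (h : XX r K L k w ≤ 1 / 2 * p) :
    CovAt w r (c * K) p := by
  have := isProb_law (φ := sv) (s := r) (Wt.of_pos hw)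
  rw [XX_eq hw hK hL] at h
  refine ENNReal.toReal_le_of_le_ofReal hp (meas_le_of_int (int_bdd (meas_YY meas_post)
    fun y => YY_le (post_pos hw y) hK hL) (fun y => YY_nn (post_pos hw y) hK hL) (by norm_num)
    (fun y hy => ?_) h)
  have h1 := le_TT (post_pos (r := r) hw y) hK k hc fun h' => hy fun u => by
    have := h' u; rwa [covM, covMat_post_sv] at this
  rw [YY, le_div_iff₀ (by linarith)]; linarith

theorem tilt_X (hn : 0 < n) (hp : 0 < p) (hρ : (j + 2) * ρ ≤ 1 / 64) (γ : ℝ) :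
    ∃ F : Pair n → ℂ → ℂ, (∀ e, Ex ρ (fun t => XX r K L (j + 2) (rw w (chi e) t) + p) (F e)) ∧
    (∀ e, ∀ z ∈ ball (0 : ℂ) ρ, ‖F e z - (XX r K L (j + 2) w + p : ℝ)‖ ≤
      166 * ((j + 2) * ρ) * (XX r K L (j + 2) w + p)) ∧
    ∀ z : Pair n → ℂ, (∀ e, z e ∈ ball (0 : ℂ) ρ) → ∑ e, ‖F e (z e) - (XX r K L (j + 2) w + p : ℝ)‖ ^ 2 ≤
      (80 * γ ^ 2 * √n + 576 * n ^ 7 * (mean w (E2 sv r w (big γ)) + m2 w (big γ)) / p ^ 2) *
        (XX r K L (j + 2) w + p) ^ 2 := by
  have := isProb_law (φ := sv) (s := r) (Wt.of_pos hw)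
  have hW := Wt.of_pos hw
  have j0 : (0 : ℝ) ≤ j := Nat.cast_nonneg j
  have n1 : (1 : ℝ) ≤ n := by exact_mod_cast hn
  have T := fun y => tilt_Y (post_pos (r := r) hw y) hK hn hL hρ γ
  let Y : (Fin n → ℝ) → ℝ := fun y => YY K L (j + 2) (post sv w r y)
  let C : Pair n → ℂ → (Fin n → ℝ) → ℂ := fun e z y =>
    YC K L (j + 2) (pc (cw (post sv w r y) (chi e) z))
  have mY : Measurable Y := meas_YY meas_post
  have mC : ∀ e z, Measurable (C e z) := fun e z => meas_YC (meas_pc meas_post _ z)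
  have Y0 : ∀ y, 0 ≤ Y y := fun y => YY_nn (post_pos hw y) hK hL
  have Y1 : ∀ y, |Y y| ≤ 1 := fun y => YY_le (post_pos hw y) hK hL
  have d1 : ∀ e, ∀ z ∈ ball (0 : ℂ) ρ, ∀ y, |‖C e z y - Y y‖| ≤ 1 := fun e z hz y => by
    rw [abs_norm]
    refine ((T y).2.1 e z hz).trans (mul_le_one₀ (by linarith) (Y0 y) (abs_le.1 (Y1 y)).2)
  have C2 : ∀ e, ∀ z ∈ ball (0 : ℂ) ρ, ∀ y, ‖C e z y‖ ≤ 2 := fun e z hz y => by
    have := norm_sub_norm_le (C e z y) (Y y)
    rw [Complex.norm_real, Real.norm_eq_abs] at this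
    linarith [(abs_le.1 (d1 e z hz y)).2, Y1 y]
  have md : ∀ e z, Measurable fun y => ‖C e z y - Y y‖ := fun e z =>
    ((mC e z).sub (Complex.measurable_ofReal.comp mY)).norm
  have ma : ∀ x : Cube n, Measurable fun ζ : Fin n → ℝ => r • sv x + √r • ζ := fun x => by fun_prop
  let y0 : Cube n → ℝ := fun x => ∫ ζ, Y (r • sv x + √r • ζ) ∂gv (Fin n)
  have eX : XX r K L (j + 2) w = mean w y0 := rfl
  have eX' : XX r K L (j + 2) w = ∫ y, Y y ∂law sv w r := XX_eq hw hK hL
  have y00 : ∀ x, 0 ≤ y0 x := fun x => integral_nonneg fun _ => Y0 _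
  have y01 : ∀ x, y0 x ≤ 1 := fun x => by
    simpa using integral_mono (int_bdd (μ := gv (Fin n)) (mY.comp (ma x)) fun _ => Y1 _)
      (integrable_const (1 : ℝ)) fun ζ => (abs_le.1 (Y1 _)).2
  set X := XX r K L (j + 2) w
  have X0 : 0 ≤ X := eX ▸ hW.mean_nonneg y00
  have key : ∀ e, ∀ z ∈ ball (0 : ℂ) ρ, ‖∑ x, pc (cw w (chi e) z) x *
      ∫ ζ, C e z (r • sv x + √r • ζ) ∂gv (Fin n) + p - (X + p : ℝ)‖ ≤
      3 * ∫ y, ‖C e z y - Y y‖ ∂law sv w r + min (8 * ρ * X) (tl w (chi e) y0) := fun e z hz => by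
    have ρ0 := pos_of_mem_ball hz
    have hz' : z ∈ ball (0 : ℂ) (1 / 4) := ball_subset_ball (by nlinarith) hz
    have e1 : ∑ x, pc (cw w (chi e) z) x * ∫ ζ, C e z (r • sv x + √r • ζ) ∂gv (Fin n) + p -
        (X + p : ℝ) = ∑ x, pc (cw w (chi e) z) x *
          (∫ ζ, C e z (r • sv x + √r • ζ) ∂gv (Fin n) - y0 x) +
        (∑ x, pc (cw w (chi e) z) x * y0 x - mean w y0) := by
      simp only [mul_sub, sum_sub_distrib, eX]; push_cast; ring
    rw [e1]
    refine (norm_add_le _ _).trans (add_le_add ?_ (le_min ?_ (tilt_le hw (sgn_chi e) hz' y0)))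
    · rw [int_law_eq hw (md e z) (d1 e z hz), mean, mul_sum]
      refine (norm_sum_le _ _).trans (sum_le_sum fun x _ => ?_)
      rw [norm_mul, ← mul_assoc]
      refine mul_le_mul (norm_pc hw (sgn_chi e) hz' x) ?_ (norm_nonneg _)
        (mul_nonneg zero_le_three (prob_nn hw x))
      have i1 : Integrable (fun ζ => C e z (r • sv x + √r • ζ)) (gv (Fin n)) := Integrable.of_bound
        ((mC e z).comp (ma x)).aestronglyMeasurable 2 (.of_forall fun _ => C2 e z hz _)
      have i2 : Integrable (fun ζ => (Y (r • sv x + √r • ζ) : ℂ)) (gv (Fin n)) :=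
        (int_bdd (mY.comp (ma x)) fun _ => Y1 _).ofReal
      rw [← integral_complex_ofReal, ← integral_sub i1 i2]
      exact norm_integral_le_integral_norm _
    · obtain ⟨υ, h1, h2⟩ := pc_formula hw (sgn_chi e) hz'
      have e2 : ∑ x, pc (cw w (chi e) z) x * y0 x - mean w y0 =
          υ * (mean w fun x => (chi e x - mean w (chi e)) * y0 x : ℝ) := by
        simp only [h2, mean, Complex.ofReal_sum, mul_sum, ← sum_sub_distrib]
        exact sum_congr rfl fun x _ => by push_cast; ring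
      have h3 : |mean w fun x => (chi e x - mean w (chi e)) * y0 x| ≤ 2 * X := by
        rw [eX, ← mean_const_mul, abs_le, ← mean_neg]
        exact ⟨hW.mean_mono fun x => by
            nlinarith [(abs_le.1 (sq_sub_mean hw (sgn_chi e) x)).1, y00 x],
          hW.mean_mono fun x => by nlinarith [(abs_le.1 (sq_sub_mean hw (sgn_chi e) x)).2, y00 x]⟩
      rw [e2, norm_mul, Complex.norm_real, Real.norm_eq_abs]
      calc _ ≤ 4 * ρ * (2 * X) := by
            gcongr; exact h1.trans (by linarith [mem_ball_zero_iff.1 hz])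
        _ = _ := by ring
  refine ⟨fun e z => ∑ x, pc (cw w (chi e) z) x * ∫ ζ, C e z (r • sv x + √r • ζ) ∂gv (Fin n) + p,
    fun e => ?_, fun e z hz => (key e z hz).trans ?_, fun z hz => ?_⟩
  · rcases le_or_gt ρ 0 with r0 | r0
    · exact ⟨by rw [ball_eq_empty.2 r0]; exact differentiableOn_empty,
        fun t ht => absurd (ht.trans_le r0) (abs_nonneg t).not_gt⟩
    have r1 : ρ ≤ 1 / 4 := by nlinarith
    refine (Ex.sum _ fun x _ => ((ex_pc hw (sgn_chi e) x).mono r1).mul ?_).add (Ex.const ρ p)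
    refine ⟨diffOn_integral _ (fun ζ => ((T _).1 e).diff) (fun z => (mC e z).comp (ma x))
      fun z hz ζ => C2 e z hz _, fun t ht => ?_⟩
    rw [← integral_complex_ofReal]
    congr 1; funext ζ
    rw [po_rw]; exact ((T _).1 e).eq t ht
  · have ρ0 := pos_of_mem_ball hz
    have h1 : ∫ y, ‖C e z y - Y y‖ ∂law sv w r ≤ 54 * ((j + 2) * ρ) * X := by
      rw [eX', ← integral_const_mul]
      exact integral_mono (int_bdd (md e z) (d1 e z hz)) ((int_bdd mY Y1).const_mul _)
        fun y => (T y).2.1 e z hz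
    have h2 := min_le_left (8 * ρ * X) (tl w (chi e) y0)
    nlinarith [mul_nonneg (mul_nonneg j0 ρ0.le) X0, mul_nonneg (mul_nonneg j0 ρ0.le) hp.le,
      mul_nonneg ρ0.le hp.le]
  · have mt : Measurable fun y => m2 (post sv w r y) (big γ) :=
      measurable_sum _ fun a _ => measurable_sum _ fun b _ =>
        (((meas_post a).div (measurable_sum _ fun c _ => meas_post c)).mul
          ((meas_post b).div (measurable_sum _ fun c _ => meas_post c))).mul_const _
    have bt := fun y => abs_m2_le (post_pos (r := r) hw y) (big γ)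
    have et : mean w (E2 sv r w (big γ)) = ∫ y, m2 (post sv w r y) (big γ) ∂law sv w r :=
      (int_law_eq hw mt bt).symm
    have iY := int_bdd (μ := law sv w r) mY Y1
    have it := int_bdd (μ := law sv w r) mt bt
    have A1 := sum_int_sq (d := fun e y => ‖C e (z e) y - Y y‖) (b := fun y => Y y + p)
      (c := fun y => 4 * γ ^ 2 * √n * Y y + 32 * n ^ 7 / p * m2 (post sv w r y) (big γ))
      (fun e => int_bdd (md e _) (d1 e _ (hz e))) (iY.add (integrable_const p))
      ((iY.const_mul _).add (it.const_mul _)) (fun y => by have := Y0 y; positivity)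
      (fun y => by
        have := Y0 y
        have := m2_nonneg (post_pos (r := r) hw y) (big_nn (γ := γ))
        positivity)
      (by rw [integral_add iY (integrable_const p), ← eX']; simp; positivity) fun y => by
        have a := Y0 y
        have b := m2_nonneg (post_pos (r := r) hw y) (big_nn (γ := γ))
        refine ((T y).2.2 z hz).trans ?_
        have e3 : (Y y + p) * (4 * γ ^ 2 * √n * Y y + 32 * n ^ 7 / p * m2 (post sv w r y) (big γ)) =
            4 * γ ^ 2 * √n * Y y ^ 2 + 32 * n ^ 7 * m2 (post sv w r y) (big γ) +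
              (p * (4 * γ ^ 2 * √n * Y y) + Y y * (32 * n ^ 7 / p * m2 (post sv w r y) (big γ))) := by
          field_simp; ring
        rw [e3]; exact le_add_of_nonneg_right (by positivity)
    rw [integral_add iY (integrable_const p), integral_add (iY.const_mul _) (it.const_mul _),
      integral_const_mul, integral_const_mul, ← eX', ← et] at A1
    simp only [integral_const, probReal_univ, smul_eq_mul, one_mul] at A1
    refine le_trans (sum_le_sum fun e _ => (pow_le_pow_left₀ (norm_nonneg _) ((key e _ (hz e)).trans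
      (add_le_add_right (min_le_right _ _) _)) 2).trans (add_sq_le' _ _)) ?_
    rw [sum_add_distrib, ← mul_sum, ← mul_sum]
    exact fin_le X0 hp n1 (hW.mean_nonneg (E2_nonneg hw big_nn)) (m2_nonneg hw big_nn) A1
      (sum_tl_rel hw γ y00 y01)

end

theorem rl_X (hn : 0 < n) (hK : 1 ≤ K) (hL : 1 ≤ L) (hp : 0 < p)
    (hρ : (j + 2) * ρ ≤ 1 / 64) (γ : ℝ) {G : (Pair n → ℝ) → ℝ}
    (hG : ∀ g, 80 * γ ^ 2 * √n + 576 * n ^ 7 *
      (mean (gw n g) (E2 sv r (gw n g) (big γ)) + m2 (gw n g) (big γ)) / p ^ 2 ≤ n ^ 2 * G g) :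
    Rl ρ √(n : ℝ) (166 * ((j + 2) * ρ)) (fun g => XX r K L (j + 2) (gw n g) + p) G := fun g => by
  obtain ⟨F, h1, h2, h3⟩ := tilt_X (r := r) (gw_pos g) hK hL hn hp hρ γ
  refine ⟨add_nonneg ((gwt g).mean_nonneg fun x => integral_nonneg fun ζ =>
    YY_nn (po_pos (gw_pos g) x ζ) hK hL) hp.le, F, fun e => ?_, h2, fun z hz => (h3 z hz).trans ?_⟩
  · simpa only [gw, gibbs_sh hn] using h1 e
  · rw [sqrt_pow4]; gcongr; exact hG g

/-- large overlaps before and after the channel -/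
lemma tail_le (hn : 0 < n) {u : ℝ} (hu : 0 ≤ u) (hr : 0 ≤ r) (hr' : r ≤ u / Soft.N23 n)
    (g : Pair n → ℝ) : mean (gw n g) (E2 sv r (gw n g) (big (u * Soft.N23 n))) +
      m2 (gw n g) (big (u * Soft.N23 n)) ≤
      2 * Real.exp (-(u ^ 2 / 4)) * (1 + Real.exp (-(u ^ 2 / 2)) * XA (2 * u) n g) := by
  have N0 := Soft.N23_pos hn
  set l := Real.exp (-(u ^ 2 / 4)) with hl
  have l0 : 0 < l := Real.exp_pos _
  have l2 : Real.exp (-(u ^ 2 / 2)) = l ^ 2 := by rw [hl, ← Real.exp_nat_mul]; congr 1; ring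
  have l4 : Real.exp (-u ^ 2) = l ^ 4 := by rw [hl, ← Real.exp_nat_mul]; congr 1; ring
  have l1 : l ≤ 1 := Real.exp_le_one_iff.2 (by nlinarith)
  have key : ∀ s, 0 ≤ s → s ≤ u / Soft.N23 n → m2 (gw n g) (fun x y => big (u * Soft.N23 n) x y ^ 2 *
      Real.exp (s * (sv x ⬝ᵥ sv y))) ≤ l ^ 4 * XA (2 * u) n g := fun s h0 h1 => by
    rw [XA, ← m2_const_mul, ← l4]
    refine m2_mono (gw_pos g) fun x y => ?_
    unfold big
    split_ifs with h
    · have e1 : |Rh n x y| = |sv x ⬝ᵥ sv y| / Soft.N23 n := by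
        rw [Rh, abs_mul, abs_of_pos (inv_pos.2 N0), div_eq_inv_mul]
      have a1 : u ≤ |Rh n x y| := by rw [e1, le_div_iff₀ N0]; exact h.le
      have a2 : s * (sv x ⬝ᵥ sv y) ≤ u * |Rh n x y| := by
        rw [e1, ← mul_div_assoc, ← div_mul_eq_mul_div]
        exact (mul_le_mul_of_nonneg_left (le_abs_self _) h0).trans
          (mul_le_mul_of_nonneg_right h1 (abs_nonneg _))
      rw [one_pow, one_mul, ← Real.exp_add]
      exact Real.exp_le_exp.2 (by nlinarith)
    · simp only [ne_eq, OfNat.ofNat_ne_zero, not_false_eq_true, zero_pow, zero_mul]; positivity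
  have X0 : 0 ≤ XA (2 * u) n g := m2_nonneg (gw_pos g) fun _ _ => (Real.exp_pos _).le
  have h1 := key 0 le_rfl (by positivity)
  have e0 : ∀ x y : Cube n, big (u * Soft.N23 n) x y ^ 2 = big (u * Soft.N23 n) x y := fun x y => by
    unfold big; split_ifs <;> norm_num
  simp only [zero_mul, Real.exp_zero, mul_one, e0] at h1
  have h2 := mean_E2_le (φ := sv) (gw_pos g) hr fun x y => l⁻¹ * big (u * Soft.N23 n) x y
  have e2 : E2 sv r (gw n g) (fun x y => l⁻¹ * big (u * Soft.N23 n) x y) =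
      fun x => l⁻¹ * E2 sv r (gw n g) (big (u * Soft.N23 n)) x := funext (E2_const_mul _ _)
  simp only [e2, mean_const_mul, mul_pow, mul_assoc, m2_const_mul] at h2
  have h3 := h2.trans (add_le_add_right (mul_le_mul_of_nonneg_left (key r hr hr') (sq_nonneg _)) 1)
  rw [inv_mul_le_iff₀ l0, show l⁻¹ ^ 2 * (l ^ 4 * XA (2 * u) n g) = l ^ 2 * XA (2 * u) n g by
    field_simp] at h3
  rw [l2]
  have h4 : l ^ 4 * XA (2 * u) n g ≤ l * (l ^ 2 * XA (2 * u) n g) := by
    rw [show l ^ 4 * XA (2 * u) n g = l * (l * (l ^ 2 * XA (2 * u) n g)) by ring]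
    exact mul_le_mul_of_nonneg_left (mul_le_of_le_one_left (by positivity) l1) l0.le
  change m2 (gw n g) (big (u * Soft.N23 n)) ≤ _ at h1
  nlinarith

end Crest.Agent.T157.Et

end
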