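import Crest.Agent.T157.EtDef_81
import Crest.Agent.T157.SLE_23

/-!
# Row 157, part C (helper91): `Et.NetGlue`
-/

set_option autoImplicit false

noncomputable section

namespace Crest.Agent.T157.Et

open MeasureTheory Filter Finset Matrix
open Crest.ProbabilityR.SpinGlassDynamics Crest.Agent.T157.E Crest.Agent.T157.SL
open Crest.Agent.T157.Crit (CovLe CovAt)

namespace Net91

variable {n : ℕ} {w : Cube n → ℝ}

lemma mono (hw : Wt w) {r K K' p p' : ℝ} (h : CovAt w r K p) (hK : K ≤ K') (hp : p ≤ p') :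
    CovAt w r K' p' := by
  have := isProb_law (φ := sv) (s := r) hw
  refine le_trans (measureReal_mono ?_) (le_trans h hp)
  exact fun y hy h => hy fun u => (h u).trans (mul_le_mul_of_nonneg_right hK
    (sum_nonneg fun _ _ => mul_self_nonneg _))

lemma of_one (hw : Wt w) {r K p : ℝ} (hp : 1 ≤ p) : CovAt w r K p := by
  have := isProb_law (φ := sv) (s := r) hw
  exact measureReal_le_one.trans hp

lemma of_n (hw : Wt w) {r K p : ℝ} (hK : n ≤ K) (hp : 0 ≤ p) : CovAt w r K p := by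
  have e : {y | ¬ CovLe (tilt w y) K} = ∅ := Set.eq_empty_of_forall_notMem fun y hy =>
    hy fun u => (covM_le (hw.tilt y) u).trans (mul_le_mul_of_nonneg_right hK
      (sum_nonneg fun _ _ => mul_self_nonneg _))
  rw [CovAt, e, measureReal_empty]; exact hp

/-- the cell of a triple -/
def cell (n : ℕ) (q : ℝ × ℝ × ℝ) : ℕ × ℕ × ℕ :=
  (⌊q.1 * (n : ℝ) ^ 8⌋₊, ⌊q.2.1 * n⌋₊, ⌊-Real.log q.2.2⌋₊)

lemma close {a b : ℝ} (ha : 0 ≤ a) (hb : 0 ≤ b) (h : ⌊a⌋₊ = ⌊b⌋₊) : |a - b| ≤ 1 := by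
  have h1 := Nat.floor_le ha
  have h2 := Nat.floor_le hb
  have h3 := Nat.lt_floor_add_one a
  have h4 := Nat.lt_floor_add_one b
  rw [h] at h1 h3
  rw [abs_le]; constructor <;> linarith

lemma un_bd (hn : 1 ≤ n) : 1 ≤ un n ∧ un n ≤ n ∧ un n ≤ Soft.N23 n := by
  have n1 : (1 : ℝ) ≤ n := by exact_mod_cast hn
  refine ⟨Real.one_le_rpow n1 (by norm_num), ?_,
    Real.rpow_le_rpow_of_exponent_le n1 (by norm_num)⟩
  conv_rhs => rw [← Real.rpow_one n]
  exact Real.rpow_le_rpow_of_exponent_le n1 (by norm_num)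

end Net91

open Net91 Classical in
/-- **a net chosen inside the family** -/
theorem netGlue : NetGlue := by
  intro hT hE D ε hε hD hP
  set ex : ∀ n : ℕ, ℕ × ℕ × ℕ → Prop := fun n c => ∃ q ∈ D n, q.2.2 ≤ 1 ∧ cell n q = c with hex
  set rep : ∀ n : ℕ, ℕ × ℕ × ℕ → ℝ × ℝ × ℝ := fun n c =>
    if h : ex n c then h.choose else 0 with hrep
  have hr : ∀ n c, ex n c → rep n c ∈ D n ∧ (rep n c).2.2 ≤ 1 ∧ cell n (rep n c) = c :=
    fun n c h => by simp only [hrep, dif_pos h]; exact h.choose_spec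
  set D' : ℕ → Finset (ℝ × ℝ × ℝ) := fun n =>
    ((range (n ^ 8 + 1) ×ˢ range (n ^ 2 + 1) ×ˢ range (n + 1)).filter (ex n)).image (rep n)
    with hD'
  have sub : ∀ n, ∀ q ∈ D' n, q ∈ D n := fun n q hq => by
    obtain ⟨c, hc, rfl⟩ := mem_image.1 hq
    exact (hr n c (mem_filter.1 hc).2).1
  have h := hE D' 14 ε hε ?_ ?_
  · filter_upwards [h, hT, hD, eventually_ge_atTop 8] with n h1 h2 h3 h4
    refine le_trans (measure_mono ?_) h1
    refine fun g hg hall => hg fun q hq => ?_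
    have hw : Wt (gibbsWeight n 1 g) := Wt.of_pos (gibbsWeight_pos 1 g)
    have n8 : (8 : ℝ) ≤ n := by exact_mod_cast h4
    obtain ⟨u1, u2, u3⟩ := un_bd (n := n) (by omega)
    obtain ⟨a1, a2, a3, a4⟩ := h3 q hq
    have p0 : 0 < q.2.2 := (Real.exp_pos _).trans_le a4
    have i0 : 0 < (un n)⁻¹ := by positivity
    rcases le_total 1 q.2.2 with c1 | c1
    · exact of_one hw (by linarith)
    rcases le_total (n : ℝ) q.2.1 with c2 | c2
    · exact of_n hw (by nlinarith) (by linarith)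
    have e : ex n (cell n q) := ⟨q, hq, c1, rfl⟩
    obtain ⟨b0, b1, b2⟩ := hr n _ e
    have m : rep n (cell n q) ∈ D' n := by
      refine mem_image_of_mem _ (mem_filter.2 ⟨?_, e⟩)
      simp only [cell, mem_product, mem_range, Nat.lt_succ_iff]
      have r1 : q.1 ≤ 1 := a2.trans (div_le_one_of_le₀ u3 (by linarith))
      have r2 : -Real.log q.2.2 ≤ n := by
        have := Real.log_le_log (Real.exp_pos _) a4
        rw [Real.log_exp] at this
        linarith
      refine ⟨Nat.floor_le_of_le ?_, Nat.floor_le_of_le ?_, Nat.floor_le_of_le r2⟩ <;> push_cast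
      · exact mul_le_of_le_one_left (by positivity) r1
      · nlinarith
    set q' := rep n (cell n q)
    obtain ⟨d1, -, d3, d4⟩ := h3 q' b0
    have p1 : 0 < q'.2.2 := (Real.exp_pos _).trans_le d4
    simp only [cell, Prod.mk.injEq] at b2
    have f1 := close (by positivity) (by positivity) b2.1.symm
    have f2 := (abs_le.1 (close (by positivity) (by positivity) b2.2.1)).2
    have f3 := (abs_le.1 (close (neg_nonneg.2 (Real.log_nonpos p1.le b1))
      (neg_nonneg.2 (Real.log_nonpos p0.le c1)) b2.2.2)).1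
    have g1 : |q.1 - q'.1| ≤ ((n : ℝ) ^ 8)⁻¹ := by
      rw [← sub_mul, abs_mul, abs_of_pos (a := (n : ℝ) ^ 8) (by positivity)] at f1
      rw [← one_div, le_div_iff₀ (by positivity)]; exact f1
    have j0 : 0 < (n : ℝ)⁻¹ := by positivity
    have j1 : (n : ℝ)⁻¹ ≤ (un n)⁻¹ := inv_anti₀ (by linarith) u2
    have j2 : (n : ℝ)⁻¹ ≤ 1 / 8 := by rw [inv_le_comm₀ (by linarith) (by norm_num)]; linarith
    have j3 : (un n)⁻¹ ≤ 1 := inv_le_one_of_one_le₀ u1
    have g2 : q'.2.1 ≤ (1 + (n : ℝ)⁻¹) * q.2.1 := by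
      have : q'.2.1 - q.2.1 ≤ (n : ℝ)⁻¹ := by
        rw [← one_div, le_div_iff₀ (by linarith)]; linarith
      nlinarith
    have g3 : q'.2.2 ≤ 3 * q.2.2 := by
      have k1 : Real.log q'.2.2 ≤ 1 + Real.log q.2.2 := by linarith
      have k2 := Real.exp_le_exp.2 k1
      rw [Real.exp_log p1, Real.exp_add, Real.exp_log p0] at k2
      have k3 := Real.exp_one_lt_d9
      nlinarith
    have g4 : Real.exp (-(n : ℝ)) ≤ q.2.2 := (Real.exp_le_exp.2 (by linarith)).trans a4
    refine mono hw (h2 _ (gibbsWeight_pos 1 g) q.1 q'.1 _ _ a1 d1 g1 (hall q' m)) ?_ (by linarith)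
    calc _ ≤ (1 + (n : ℝ)⁻¹) * ((1 + (un n)⁻¹) * ((1 + (n : ℝ)⁻¹) * q.2.1)) := by gcongr
      _ = (1 + (n : ℝ)⁻¹) ^ 2 * (1 + (un n)⁻¹) * q.2.1 := by ring
      _ ≤ _ := by
        gcongr
        nlinarith [mul_le_mul j2 j1 j0.le (by norm_num), mul_le_mul j2 j3 i0.le (by norm_num),
          mul_le_mul j2 (le_refl (un n)⁻¹) i0.le (by norm_num),
          mul_le_mul (mul_le_mul j2 j2 j0.le (by norm_num)) (le_refl (un n)⁻¹) i0.le (by norm_num)]
  · filter_upwards [hD, eventually_ge_atTop 2] with n h1 h2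
    refine ⟨?_, fun q hq => h1 q (sub n q hq)⟩
    have c1 : (D' n).card ≤ (n ^ 8 + 1) * ((n ^ 2 + 1) * (n + 1)) :=
      card_image_le.trans ((card_filter_le _ _).trans (by simp))
    have k : ∀ j, 1 ≤ j → n ^ j + 1 ≤ n ^ (j + 1) := fun j hj => by
      have := Nat.one_le_pow j n (by omega)
      rw [pow_succ]; nlinarith
    have c2 : (n ^ 8 + 1) * ((n ^ 2 + 1) * (n + 1)) ≤ n ^ 9 * (n ^ 3 * n ^ 2) :=
      Nat.mul_le_mul (k 8 (by norm_num)) (Nat.mul_le_mul (k 2 (by norm_num))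
        (by simpa using k 1 le_rfl))
    have c3 : (D' n).card ≤ n ^ 14 := (c1.trans c2).trans_eq (by ring)
    exact_mod_cast c3
  · filter_upwards [hP] with n h1
    refine le_trans (measure_mono ?_) h1
    exact fun g hg hall => hg fun q hq => hall q (sub n q hq)

end Crest.Agent.T157.Et

end
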