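import Crest.Agent.T157.EtD_81
import Crest.Agent.T157.EtNet_91
import Crest.Agent.T157.EtTime_90

/-!
# Row 157, part C: edge transfer, E (helper81)

`edgeT`, `edgeC`.
-/

set_option autoImplicit false

noncomputable section

namespace Crest.Agent.T157.Et

open MeasureTheory Metric Finset Filter Topology
open Crest.ProbabilityR.SpinGlassDynamics Crest.Agent.T157.E Crest.Agent.T157.SL
open Crest.Agent.T157.Un
open Crest.Agent.T157.Crit (CovLe CovAt)

lemma tendsto_un : Tendsto un atTop atTop :=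
  (tendsto_rpow_atTop (by norm_num)).comp tendsto_natCast_atTop_atTop

lemma un_pow (n k : ℕ) : un n ^ k = (n : ℝ) ^ (k / 192 : ℝ) := by
  rw [un, ← Real.rpow_natCast, ← Real.rpow_mul (Nat.cast_nonneg n)]; congr 1; ring

lemma un192 (n : ℕ) : (n : ℝ) = un n ^ 192 := by rw [un_pow]; norm_num
lemma un128 (n : ℕ) : Soft.N23 n = un n ^ 128 := by rw [un_pow, Soft.N23]; norm_num
lemma un96 (n : ℕ) : √(n : ℝ) = un n ^ 96 := by rw [un_pow, Real.sqrt_eq_rpow]; norm_num

lemma pe (a : ℕ) {c δ : ℝ} (hc : 0 < c) (hδ : 0 < δ) :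
    ∀ᶠ n : ℕ in atTop, un n ^ a ≤ δ * Real.exp (c * un n) := by
  refine tendsto_un.eventually (p := fun x => x ^ a ≤ δ * Real.exp (c * x))
    (((isLittleO_pow_exp_pos_mul_atTop a hc).bound hδ).mono fun x hx => ?_)
  rw [Real.norm_eq_abs, Real.norm_of_nonneg (Real.exp_pos _).le] at hx
  exact (le_abs_self _).trans hx

/-- the penalty -/
def UU : Fam := fun n g => Real.exp (-(un n ^ 2 / 2)) * XA (2 * un n) n g

lemma UU_eq (n : ℕ) : UU n = fun g => m2 (gw n g) fun x y =>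
    Real.exp (-(un n ^ 2 / 2)) * Real.exp (2 * un n * |Rh n x y|) := by
  funext g; rw [UU, XA, m2_const_mul]

lemma pm_UU : ∀ᶠ n : ℕ in atTop, Pm (1 / 4) √(n : ℝ) 9 (UU n) := by
  simp only [UU_eq]
  exact pm_m2 (k := fun n x y => Real.exp (-(un n ^ 2 / 2)) * Real.exp (2 * un n * |Rh n x y|))
    (fun _ _ _ => by positivity) fun n x y => by rw [Rh_comm]

lemma nl_UU : Nl UU := by
  refine ⟨⟨fun n => by rw [UU_eq]; exact meas_m2 _, fun n g => mul_nonneg (Real.exp_pos _).le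
    (m2_nonneg (gw_pos g) fun _ _ => (Real.exp_pos _).le), _, _, by norm_num, by norm_num, pm_UU⟩,
    fun δ ε hδ hε => ?_⟩
  obtain ⟨B, hB⟩ := ldB false ε hε
  have b0 : 0 < |B| + 1 := by positivity
  filter_upwards [hB, tendsto_un.eventually_ge_atTop (128 * (|B| + 1) ^ 2 + 4),
    pe 0 one_pos (show 0 < δ / (2 * (|B| + 1)) by positivity)] with n h1 h2 h3
  refine le_trans (measure_mono fun g hg => ?_) h1
  set u := un n
  have u4 : 4 ≤ u := by nlinarith [sq_nonneg (|B| + 1)]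
  refine ⟨2 * u, by linarith, not_le.1 fun h => absurd (show δ < UU n g from hg) (not_lt.2 ?_)⟩
  have a1 : √(2 * u) ≤ u / (8 * (|B| + 1)) := Real.sqrt_le_iff.2 ⟨by positivity, by
    rw [div_pow, le_div_iff₀ (by positivity)]; nlinarith⟩
  have a2 : B * (2 * u) ^ (3 / 2 : ℝ) ≤ u ^ 2 / 4 := by
    rw [rpow32 (by linarith)]
    calc _ ≤ (|B| + 1) * (2 * u * (u / (8 * (|B| + 1)))) := by
          gcongr; linarith [le_abs_self B]
      _ = _ := by field_simp; ring
  have a3 : Real.exp (-(u ^ 2 / 2)) * Real.exp (u ^ 2 / 4) * Real.exp (1 * u) ≤ 1 := by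
    rw [← Real.exp_add, ← Real.exp_add]; exact Real.exp_le_one_iff.2 (by nlinarith)
  rw [pow_zero, div_mul_eq_mul_div, one_le_div (by positivity)] at h3
  calc UU n g ≤ Real.exp (-(u ^ 2 / 2)) * (2 * ((|B| + 1) * Real.exp (u ^ 2 / 4))) := by
        unfold UU
        gcongr
        refine (XA_le _ n g).trans (mul_le_mul_of_nonneg_left (h.trans ?_) zero_le_two)
        gcongr; linarith [le_abs_self B]
    _ = 2 * (|B| + 1) * (Real.exp (-(u ^ 2 / 2)) * Real.exp (u ^ 2 / 4)) := by ring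
    _ ≤ δ * Real.exp (1 * u) * (Real.exp (-(u ^ 2 / 2)) * Real.exp (u ^ 2 / 4)) := by gcongr
    _ ≤ δ := by nlinarith

lemma exp_half_le {x : ℝ} (h0 : 0 ≤ x) (h1 : x ≤ 1) : Real.exp (x / 2) ≤ 1 + x := by
  have := Real.add_one_le_exp (-(x / 2))
  rw [Real.exp_neg, le_inv_comm₀ (by linarith) (Real.exp_pos _)] at this
  refine this.trans ?_
  rw [inv_le_iff_one_le_mul₀ (by linarith)]; nlinarith

lemma err_le {u ρ η : ℝ} (hu : 1 ≤ u) (h1 : 1 / (13944 * u ^ 3) ≤ ρ) (h2 : η ≤ 54 / u ^ 14) :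
    err ρ (u ^ 96) 2 η ≤
      (64 * (1 + 10 * m8 ^ 2) * 13944 ^ 4 * 54 + 1024 * 2 * m8 * 13944 ^ 8) / u := by
  have h8 := one_le_m8
  calc _ ≤ 64 * (1 + 10 * m8 ^ 2) / (1 / (13944 * u ^ 3)) ^ 4 * (54 / u ^ 14) +
        1024 * 2 * m8 / ((u ^ 96) ^ 4 * (1 / (13944 * u ^ 3)) ^ 8) := by
        unfold err
        rcases le_total η 0 with h | h
        · have : 0 < ρ := lt_of_lt_of_le (by positivity) h1
          refine add_le_add ((mul_nonpos_of_nonneg_of_nonpos (by positivity) h).trans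
            (by positivity)) (by gcongr)
        · gcongr
    _ = 64 * (1 + 10 * m8 ^ 2) * 13944 ^ 4 * 54 / u ^ 2 + 1024 * 2 * m8 * 13944 ^ 8 / u ^ 360 := by
        field_simp
    _ ≤ 64 * (1 + 10 * m8 ^ 2) * 13944 ^ 4 * 54 / u ^ 1 + 1024 * 2 * m8 * 13944 ^ 8 / u ^ 1 := by
        gcongr <;> norm_num
    _ = _ := by rw [pow_one, add_div]

set_option maxHeartbeats 1000000 in
/-- **edge transfer** -/
theorem edgeT : EdgeT := fun D A ε hε hD hG => by
  have h8 := one_le_m8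
  obtain ⟨C0, hC0⟩ : ∃ C0, C0 = 64 * (1 + 10 * m8 ^ 2) / (1 / 80) ^ 4 := ⟨_, rfl⟩
  have C0p : 0 < C0 := by rw [hC0]; positivity
  have hη' : 0 < ε / (60 * C0) := by positivity
  filter_upwards [hD, hG, pm_UU, eventually_gt_atTop 0, tendsto_un.eventually_ge_atTop 12,
    nl_UU.po.null_hyb nl_UU.nu (show 0 < (ε / (60 * C0)) ^ 2 / 25 by positivity),
    nl_UU.coin true (1 / 4) (ε / 4) (by norm_num) (by positivity), pe 192 one_pos one_pos,
    pe 990 one_pos (show (0 : ℝ) < 1 / 1152 by norm_num),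
    pe (192 * A) (show (0 : ℝ) < 2 / 5 by norm_num) (show 0 < ε / 30 by positivity),
    (tendsto_err (1024 * 1 * m8) (1 / 80)).eventually_le_const (show 0 < ε / 60 by positivity),
    (tendsto_un.const_div_atTop (64 * (1 + 10 * m8 ^ 2) * 13944 ^ 4 * 54 +
      1024 * 2 * m8 * 13944 ^ 8)).eventually_le_const (show 0 < ε / 30 by positivity)]
    with n ⟨hc, hA⟩ g1 pU hn u12 hI cU e1 e2 e3 e4 e5
  have n192 := un192 n
  have n128 := un128 n
  have n96 := un96 n
  set u := un n with hu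
  obtain ⟨j, j1, j2⟩ : ∃ j : ℕ, 4 * u ^ 2 ≤ j ∧ (j : ℝ) + 2 ≤ 7 * u ^ 2 := ⟨_, Nat.le_ceil _, by
    nlinarith [Nat.ceil_lt_add_one (show 0 ≤ 4 * u ^ 2 by positivity)]⟩
  obtain ⟨m, m1, m2'⟩ : ∃ m : ℕ, u ≤ m ∧ (m : ℝ) + 1 ≤ 3 * u := ⟨_, Nat.le_ceil _, by
    linarith [Nat.ceil_lt_add_one (show 0 ≤ u by linarith)]⟩
  have u0 : 0 < u := by linarith
  have j0 : (0 : ℝ) ≤ j := Nat.cast_nonneg _
  have m0 : (0 : ℝ) ≤ m := Nat.cast_nonneg _
  obtain ⟨ρ, hρ⟩ : ∃ ρ : ℝ, ρ = 1 / (664 * (j + 2) * (m + 1)) := ⟨_, rfl⟩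
  have ρ0 : 0 < ρ := by rw [hρ]; positivity
  have ρ1 : (j + 2) * ρ = 1 / (664 * (m + 1)) := by rw [hρ]; field_simp
  have ρ2 : (j + 2) * ρ ≤ 1 / 64 := by rw [ρ1]; gcongr; linarith
  have ρ3 : ρ ≤ 1 / 80 := by rw [hρ]; gcongr; nlinarith
  obtain ⟨L, hL⟩ : ∃ L, L = (1 + u⁻¹) ^ (j + 2) := ⟨_, rfl⟩
  have ui : 0 < u⁻¹ := inv_pos.2 u0
  have L1 : 1 ≤ L := hL ▸ one_le_pow₀ (by linarith)
  have L2 : n / L ≤ Real.exp (-u) := by
    have a1 := pow_le_pow_left₀ (Real.exp_pos _).le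
      (exp_half_le ui.le (inv_le_one_of_one_le₀ (by linarith))) (j + 2)
    rw [← Real.exp_nat_mul, ← hL] at a1
    have a2 : Real.exp (1 * u) ≤ Real.exp (-u) * Real.exp (((j + 2 : ℕ) : ℝ) * (u⁻¹ / 2)) := by
      rw [← Real.exp_add]
      refine Real.exp_le_exp.2 ?_
      have : 4 * u ^ 2 * (u⁻¹ / 2) ≤ ((j + 2 : ℕ) : ℝ) * (u⁻¹ / 2) := by
        gcongr; push_cast; linarith
      rw [show 4 * u ^ 2 * (u⁻¹ / 2) = 2 * u by field_simp; ring] at this
      linarith
    rw [div_le_iff₀ (by linarith), n192]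
    exact (e1.trans_eq (one_mul _)).trans (a2.trans (by gcongr))
  have p0 : ∀ q ∈ D n, 0 < q.2.2 := fun q hq => (Real.exp_pos _).trans_le (hA q hq).2.2.2
  have U0 := nl_UU.po.nn n
  let X : ℝ × ℝ × ℝ → (Pair n → ℝ) → ℝ := fun q g => XX q.1 q.2.1 L (j + 2) (gw n g) + q.2.2
  have R1 : ∀ q ∈ D n, Rl ρ √(n : ℝ) (166 * ((j + 2) * ρ)) (X q)
      fun g => 81 / u ^ 30 * (1 + UU n g) := fun q hq => by
    obtain ⟨a1, a2, a3, a4⟩ := hA q hq
    refine rl_X hn a3 L1 (p0 q hq) ρ2 (u * Soft.N23 n) fun g => ?_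
    have b1 := tail_le hn u0.le a1 a2 g
    have b2 : 1152 * u ^ 990 * Real.exp (-(u ^ 2 / 4)) ≤ q.2.2 ^ 2 := by
      refine le_trans ?_ (pow_le_pow_left₀ (Real.exp_pos _).le a4 2)
      calc _ ≤ 1152 * (1 / 1152 * Real.exp (1 * u)) * Real.exp (-(u ^ 2 / 4)) := by gcongr
        _ = Real.exp (1 * u + -(u ^ 2 / 4)) := by rw [Real.exp_add]; ring
        _ ≤ _ := by rw [← Real.exp_nat_mul]; exact Real.exp_le_exp.2 (by push_cast; nlinarith)
    have b0 := U0 g
    have b3 := p0 q hq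
    calc _ ≤ 80 * (u * Soft.N23 n) ^ 2 * √n * (1 + UU n g) +
          576 * n ^ 7 * (2 * Real.exp (-(u ^ 2 / 4)) * (1 + UU n g)) /
            (1152 * u ^ 990 * Real.exp (-(u ^ 2 / 4))) := by
          refine add_le_add (le_mul_of_one_le_right (by positivity) (by linarith)) ?_
          gcongr
          exact b1
      _ = _ := by rw [n128, n96, n192]; field_simp; ring
  have R2 := Rl.sum (D n) (c := fun q => ((5 * q.2.2) ^ (m + 1))⁻¹)
    (fun q hq => by have := p0 q hq; positivity) (fun g => by have := U0 g; positivity)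
    fun q hq => (R1 q hq).pow (by positivity) m (le_of_eq (by rw [ρ1]; field_simp; ring))
  set S : (Pair n → ℝ) → ℝ := fun g => ∑ q ∈ D n, ((5 * q.2.2) ^ (m + 1))⁻¹ * X q g ^ (m + 1)
  have mS : Measurable S := measurable_sum _ fun q _ =>
    ((meas_XX.add_const _).pow_const _).const_mul _
  have S0 : ∀ g, 0 ≤ S g := fun g => (R2 g).1
  have eG : (fun g => 4 * ((m : ℝ) + 1) ^ 2 * (81 / u ^ 30 * (1 + UU n g))) =
      fun g => (18 * (m + 1) / u ^ 15) ^ 2 * (1 + UU n g) := by funext g; field_simp; ring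
  rw [eG] at R2
  have R3 := R2.univ ρ0 ρ3 (Real.sqrt_pos.2 (by exact_mod_cast hn)) (by positivity) hη'
    (card_pair n) mS (nl_UU.po.meas n) U0 pU hI
  rw [hyb_const, hyb_const] at R3
  have E1 : err ρ √(n : ℝ) 2 (18 * (m + 1) / u ^ 15) ≤ ε / 30 := by
    rw [n96]
    refine (err_le (by linarith) ?_ ?_).trans e5
    · rw [hρ]
      refine one_div_le_one_div_of_le (by positivity) ?_
      calc _ ≤ 664 * (7 * u ^ 2) * (3 * u) := by gcongr
        _ = _ := by ring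
    · calc _ ≤ 18 * (3 * u) / u ^ 15 := by gcongr
        _ = _ := by field_simp; ring
  have E2 : err (1 / 80) √(n : ℝ) 1 (ε / (60 * C0)) ≤ ε / 30 := by
    rw [err, ← hC0, show C0 * (ε / (60 * C0)) = ε / 60 by field_simp]; linarith
  have mQ : Measurable fun g => S g / (1 + S g) * (1 / (1 + UU n g)) :=
    (mS.div (mS.const_add 1)).mul (measurable_const.div ((nl_UU.po.meas n).const_add 1))
  have Q0 : ∀ g, 0 ≤ S g / (1 + S g) * (1 / (1 + UU n g)) := fun g => by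
    have := S0 g; have := U0 g; positivity
  have Q1 : ∀ g, S g / (1 + S g) * (1 / (1 + UU n g)) ≤ S g / (1 + S g) := fun g => by
    have := S0 g; have := U0 g
    exact mul_le_of_le_one_right (by positivity) ((div_le_one (by positivity)).2 (by linarith))
  have Q2 : ∀ g, |S g / (1 + S g) * (1 / (1 + UU n g))| ≤ 1 := fun g => by
    have := S0 g
    rw [abs_of_nonneg (Q0 g)]; exact (Q1 g).trans ((div_le_one (by positivity)).2 (by linarith))
  have G1 := int_le_add mQ Q2 (show 0 ≤ ε / 30 by positivity) hε.le g1 fun g hg => by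
    refine (Q1 g).trans ((div_le_self (S0 g) (by linarith [S0 g])).trans ?_)
    have a1 : S g ≤ (D n).card • (3 / 5 : ℝ) ^ (m + 1) := sum_le_card_nsmul _ _ _ fun q hq => by
      obtain ⟨-, -, a3, a4⟩ := hA q hq
      have b3 := p0 q hq
      have b1 := XX_le (k := j + 2) (gw_pos g) a3 L1 b3.le (by simpa using not_not.1 hg q hq)
      rw [← div_eq_inv_mul, ← div_pow]
      refine pow_le_pow_left₀ (div_nonneg (R1 q hq g).1 (by positivity)) ?_ _
      rw [div_le_iff₀ (by positivity)]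
      simp only [X]; linarith
    have a2 : (3 / 5 : ℝ) ^ (m + 1) ≤ Real.exp (-(2 / 5 * u)) := by
      refine (pow_le_pow_left₀ (by norm_num) (show (3 / 5 : ℝ) ≤ Real.exp (-(2 / 5)) by
        linarith [Real.add_one_le_exp (-(2 / 5))]) _).trans ?_
      rw [← Real.exp_nat_mul]; exact Real.exp_le_exp.2 (by push_cast; linarith)
    rw [nsmul_eq_mul] at a1
    rw [pow_mul, ← n192] at e3
    calc _ ≤ ε / 30 * Real.exp (2 / 5 * u) * Real.exp (-(2 / 5 * u)) :=
          a1.trans (mul_le_mul (hc.trans e3) a2 (by positivity) (by positivity))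
      _ = _ := by rw [mul_assoc, ← Real.exp_add]; simp
  have G2 : couplingLaw true n ({g | ¬ ∀ q ∈ (D n : Set (ℝ × ℝ × ℝ)),
      CovAt (gibbsWeight n 1 g) q.1 ((1 + u⁻¹) * q.2.1) (8 * q.2.2)} \ {g | 1 / 4 < UU n g}) ≤
      ENNReal.ofReal (11 / 4 * ε) := by
    refine meas_le_of_int (int_bdd mQ Q2) Q0 (show (0 : ℝ) < 2 / 5 by norm_num) (fun g hg => ?_)
      (by linarith [(abs_le.1 R3).2])
    obtain ⟨h1, h2⟩ := hg
    simp only [Set.mem_ofPred_eq, not_forall, not_lt] at h1 h2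
    obtain ⟨q, hq, h1⟩ := h1
    have b3 := p0 q hq
    have b1 := not_le.1 (mt (covAt_of (gw_pos g) (hA q hq).2.2.1 L1 (by linarith) hL
      (by positivity)) h1)
    have b2 : 1 ≤ S g := by
      refine le_trans ?_ (single_le_sum (f := fun q => ((5 * q.2.2) ^ (m + 1))⁻¹ * X q g ^ (m + 1))
        (fun q hq => mul_nonneg (by have := p0 q hq; positivity) (pow_nonneg (R1 q hq g).1 _)) hq)
      rw [← div_eq_inv_mul, ← div_pow]
      refine one_le_pow₀ ((one_le_div (by positivity)).2 ?_)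
      simp only [X]; linarith
    have := U0 g
    calc (2 / 5 : ℝ) = 1 / 2 * (1 / (1 + 1 / 4)) := by norm_num
      _ ≤ _ := mul_le_mul (by rw [le_div_iff₀ (by positivity)]; linarith)
          (one_div_le_one_div_of_le (by positivity) (by linarith)) (by norm_num) (by positivity)
  refine ((measure_mono (Set.subset_sdiff_union _ _)).trans (measure_union_le _ _)).trans
    ((add_le_add G2 cU).trans_eq ?_)
  rw [← ENNReal.ofReal_add (by positivity) (by positivity)]; congr 1; ring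

/-- **edge transfer**, any family -/
theorem edgeC : EdgeC := netGlue timeStmt edgeT

end Crest.Agent.T157.Et

end
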