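import Crest.Agent.T157.EtE_81

/-!
# Row 157, part C: edge transfer, window form (helper81)
-/

set_option autoImplicit false

noncomputable section

namespace Crest.Agent.T157.Et

open MeasureTheory Filter Set Real
open Crest.ProbabilityR.SpinGlassDynamics Crest.Agent.T157.E
open Crest.Agent.T157.Crit (CovAt)

/-- the window form: hypothesis and conclusion are `Tr.Off _ _ (O7.QW ..)` by definition -/
theorem edge_qw (a b : ℕ → ℝ) (k H : ℕ → ℝ → ℝ) {ε : ℝ} (hε : 0 < ε)
    (h : ∀ᶠ n : ℕ in atTop, ∀ r ∈ Icc (a n) (b n), 0 < r ∧ r ≤ un n / Soft.N23 n ∧ r ≤ k n r)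
    (hG : ∀ᶠ n : ℕ in atTop, couplingLaw false n {g | ¬ ∀ r ∈ Icc (a n) (b n),
      CovAt (gibbsWeight n 1 g) r (k n r / r) (exp (-H n r))} ≤ ENNReal.ofReal ε) :
    ∀ᶠ n : ℕ in atTop, couplingLaw true n {g | ¬ ∀ r ∈ Icc (a n) (b n),
      CovAt (gibbsWeight n 1 g) r ((1 + 4 * (un n)⁻¹) * k n r / r)
        (exp (-(min (H n r) (un n) - 4)))} ≤ ENNReal.ofReal (3 * ε) := by
  have := edgeC (fun n => (fun r => (r, k n r / r, exp (-min (H n r) (un n)))) '' Icc (a n) (b n))
    ε hε (h.mono fun n hn => by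
      rintro _ ⟨r, hr, rfl⟩
      obtain ⟨h0, h1, h2⟩ := hn r hr
      exact ⟨h0.le, h1, (one_le_div h0).2 h2, exp_le_exp.2 (neg_le_neg (min_le_right _ _))⟩)
    (hG.mono fun n hn => by
      refine le_trans (measure_mono ?_) hn
      intro g hg hq
      refine hg ?_
      rintro _ ⟨r, hr, rfl⟩
      simp only [one_mul]
      exact le_trans (hq r hr) (exp_le_exp.2 (neg_le_neg (min_le_left _ _))))
  refine this.mono fun n hn => le_trans (measure_mono ?_) hn
  intro g hg hq
  refine hg fun r hr => ?_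
  have h1 := hq _ ⟨r, hr, rfl⟩
  rw [mul_div_assoc]
  refine le_trans h1 ?_
  rw [neg_sub, sub_eq_add_neg, exp_add]
  refine mul_le_mul_of_nonneg_right ?_ (exp_pos _).le
  have h2 := pow_le_pow_left₀ (by norm_num) (exp_one_gt_d9.le) 4
  rw [← exp_nat_mul] at h2
  norm_num at h2 ⊢
  linarith

end Crest.Agent.T157.Et

end
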