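import Mathlib

/-!
Row 157, part D (helper54): expander decomposition of a weighted finite graph (vertex boundaries)
and random unions of clusters.
-/

set_option autoImplicit false

noncomputable section

namespace Crest.Agent.T157.Exp

open Finset
open scoped Classical

variable {Ω : Type*}

/-- weight of a finite set -/
def ms (p : Ω → ℝ) (A : Finset Ω) : ℝ := ∑ x ∈ A, p x

/-- boundary of `A` inside `V` -/
def ib (adj : Ω → Ω → Prop) (V A : Finset Ω) : Finset Ω :=
  V.filter fun x => ∃ y ∈ V, adj x y ∧ ¬ (x ∈ A ↔ y ∈ A)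

/-- `V` is a `φ`-expander -/
def Ex (adj : Ω → Ω → Prop) (p : Ω → ℝ) (φ : ℝ) (V : Finset Ω) : Prop :=
  ∀ A ⊆ V, ms p A ≤ ms p V / 2 → φ * ms p A ≤ ms p (ib adj V A)

/-- points of `V` with a neighbour in `V` carrying another label -/
def lb (adj : Ω → Ω → Prop) (V : Finset Ω) (l : Ω → Finset Ω) : Finset Ω :=
  V.filter fun x => ∃ y ∈ V, adj x y ∧ l x ≠ l y

variable {adj : Ω → Ω → Prop} {p : Ω → ℝ} {φ : ℝ}

theorem ms_nonneg (hp : ∀ x, 0 < p x) (A : Finset Ω) : 0 ≤ ms p A :=
  sum_nonneg fun x _ => (hp x).le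

theorem ms_mono (hp : ∀ x, 0 < p x) {A B : Finset Ω} (h : A ⊆ B) : ms p A ≤ ms p B :=
  sum_le_sum_of_subset_of_nonneg h fun x _ _ => (hp x).le

theorem ms_union_le [DecidableEq Ω] (hp : ∀ x, 0 < p x) (A B : Finset Ω) : ms p (A ∪ B) ≤ ms p A + ms p B := by
  have h := sum_union_inter (s₁ := A) (s₂ := B) (f := p)
  have := ms_nonneg hp (A ∩ B)
  simp only [ms] at *
  linarith

theorem ms_sdiff [DecidableEq Ω] {A V : Finset Ω} (h : A ⊆ V) : ms p (V \ A) + ms p A = ms p V := sum_sdiff h

theorem le_ms (hp : ∀ x, 0 < p x) {A : Finset Ω} {x : Ω} (hx : x ∈ A) : p x ≤ ms p A :=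
  single_le_sum (fun y _ => (hp y).le) hx

/-- expander decomposition -/
theorem decomp (hp : ∀ x, 0 < p x) (hφ : 0 ≤ φ) (V : Finset Ω) :
    ∃ l : Ω → Finset Ω, (∀ x ∈ V, x ∈ l x ∧ l x ⊆ V ∧ (∀ y ∈ l x, l y = l x) ∧ Ex adj p φ (l x)) ∧
      ms p (lb adj V l) ≤ 2 * φ * ∑ x ∈ V, p x * Real.log (ms p V / p x) := by
  induction V using Finset.strongInduction with
  | H V ih =>
  have hlog : ∀ W : Finset Ω, ∀ x ∈ W, 0 ≤ p x * Real.log (ms p W / p x) := fun W x hx =>
    mul_nonneg (hp x).le (Real.log_nonneg ((one_le_div (hp x)).2 (le_ms hp hx)))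
  by_cases hV : Ex adj p φ V
  · refine ⟨fun _ => V, fun x hx => ⟨hx, subset_rfl, fun _ _ => rfl, hV⟩, ?_⟩
    have : lb adj V (fun _ => V) = ∅ := by simp [lb]
    rw [this, ms, sum_empty]
    exact mul_nonneg (by positivity) (sum_nonneg (hlog V))
  simp only [Ex, not_forall, not_le] at hV
  obtain ⟨A, hAV, hA, hcut⟩ := hV
  have hA0 : 0 < ms p A := by
    by_contra h
    have h1 : ms p A = 0 := le_antisymm (not_lt.1 h) (ms_nonneg hp A)
    rw [h1, mul_zero] at hcut
    exact absurd hcut (not_lt.2 (ms_nonneg hp _))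
  have hAne : A.Nonempty := by
    rw [nonempty_iff_ne_empty]
    rintro rfl
    simp [ms] at hA0
  have hAlt : A ⊂ V := by
    refine Finset.ssubset_iff_subset_ne.2 ⟨hAV, ?_⟩
    rintro rfl
    linarith
  have hBlt : V \ A ⊂ V := sdiff_ssubset hAV hAne
  obtain ⟨l1, h1, c1⟩ := ih A hAlt
  obtain ⟨l2, h2, c2⟩ := ih (V \ A) hBlt
  refine ⟨fun x => if x ∈ A then l1 x else l2 x, fun x hx => ?_, ?_⟩
  · by_cases hxA : x ∈ A
    · obtain ⟨a1, a2, a3, a4⟩ := h1 x hxA
      simp only [if_pos hxA]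
      exact ⟨a1, a2.trans hAV, fun y hy => by rw [if_pos (a2 hy), a3 y hy], a4⟩
    · obtain ⟨a1, a2, a3, a4⟩ := h2 x (mem_sdiff.2 ⟨hx, hxA⟩)
      simp only [if_neg hxA]
      exact ⟨a1, a2.trans sdiff_subset,
        fun y hy => by rw [if_neg (mem_sdiff.1 (a2 hy)).2, a3 y hy], a4⟩
  have hsub : lb adj V (fun x => if x ∈ A then l1 x else l2 x) ⊆
      ib adj V A ∪ (lb adj A l1 ∪ lb adj (V \ A) l2) := by
    intro x hx
    simp only [lb, mem_filter] at hx
    obtain ⟨hxV, y, hyV, hxy, hne⟩ := hx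
    simp only [mem_union, ib, lb, mem_filter, mem_sdiff]
    by_cases hxA : x ∈ A <;> by_cases hyA : y ∈ A
    · rw [if_pos hxA, if_pos hyA] at hne
      exact Or.inr (Or.inl ⟨hxA, y, hyA, hxy, hne⟩)
    · exact Or.inl ⟨hxV, y, hyV, hxy, by simp [hxA, hyA]⟩
    · exact Or.inl ⟨hxV, y, hyV, hxy, by simp [hxA, hyA]⟩
    · rw [if_neg hxA, if_neg hyA] at hne
      exact Or.inr (Or.inr ⟨⟨hxV, hxA⟩, y, ⟨hyV, hyA⟩, hxy, hne⟩)
  have hV0 : 0 < ms p V := by linarith
  have e1 : ∑ x ∈ A, p x * Real.log (ms p A / p x) + ms p A / 2 ≤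
      ∑ x ∈ A, p x * Real.log (ms p V / p x) := by
    rw [ms, sum_div, ← sum_add_distrib]
    refine sum_le_sum fun x _ => ?_
    have hx := hp x
    have a1 : Real.log (2 * (ms p A / p x)) ≤ Real.log (ms p V / p x) :=
      Real.log_le_log (by positivity) (by
        rw [← mul_div_assoc]; exact div_le_div_of_nonneg_right (by linarith) hx.le)
    rw [Real.log_mul (by norm_num) (by positivity)] at a1
    have a2 := Real.log_two_gt_d9
    have a3 : Real.log (ms p A / p x) + 1 / 2 ≤ Real.log (ms p V / p x) := by linarith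
    have := mul_le_mul_of_nonneg_left a3 hx.le
    simp only [ms] at this ⊢
    linarith
  have e2 : ∑ x ∈ V \ A, p x * Real.log (ms p (V \ A) / p x) ≤
      ∑ x ∈ V \ A, p x * Real.log (ms p V / p x) := by
    refine sum_le_sum fun x hx => mul_le_mul_of_nonneg_left ?_ (hp x).le
    exact Real.log_le_log (div_pos ((hp x).trans_le (le_ms hp hx)) (hp x))
      (div_le_div_of_nonneg_right (ms_mono hp sdiff_subset) (hp x).le)
  have e3 := sum_sdiff (f := fun x => p x * Real.log (ms p V / p x)) hAV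
  have e4 := ms_mono hp hsub
  have e5 := ms_union_le hp (ib adj V A) (lb adj A l1 ∪ lb adj (V \ A) l2)
  have e6 := ms_union_le hp (lb adj A l1) (lb adj (V \ A) l2)
  have e7 := mul_le_mul_of_nonneg_left e1 (by positivity : 0 ≤ 2 * φ)
  have e8 := mul_le_mul_of_nonneg_left e2 (by positivity : 0 ≤ 2 * φ)
  rw [← e3]
  nlinarith

theorem entropy_le [Fintype Ω] (hp : ∀ x, 0 < p x) (h1 : ∑ x, p x = 1) :
    ∑ x, p x * Real.log (ms p univ / p x) ≤ Real.log (Fintype.card Ω) := by
  have hne : Nonempty Ω := by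
    by_contra h
    rw [not_nonempty_iff] at h
    simp at h1
  have hN : (0 : ℝ) < Fintype.card Ω := by exact_mod_cast Fintype.card_pos
  have e : ∀ x, p x * Real.log (ms p univ / p x) ≤
      p x * Real.log (Fintype.card Ω) + (1 / Fintype.card Ω - p x) := by
    intro x
    have hx := hp x
    have a1 : Real.log (1 / (Fintype.card Ω * p x)) ≤ 1 / (Fintype.card Ω * p x) - 1 :=
      Real.log_le_sub_one_of_pos (by positivity)
    rw [ms, h1, Real.log_div one_ne_zero hx.ne', Real.log_one]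
    rw [Real.log_div one_ne_zero (by positivity), Real.log_one,
      Real.log_mul hN.ne' hx.ne'] at a1
    have a2 := mul_le_mul_of_nonneg_left a1 hx.le
    have a3 : p x * (1 / (Fintype.card Ω * p x) - 1) = 1 / Fintype.card Ω - p x := by field_simp
    rw [a3] at a2
    linarith
  refine (sum_le_sum fun x _ => e x).trans (le_of_eq ?_)
  rw [sum_add_distrib, ← sum_mul, h1, sum_sub_distrib, h1, sum_const, card_univ, nsmul_eq_mul]
  field_simp
  ring

/-! ### random unions -/

section union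
variable {κ : Type*} [Fintype κ] [DecidableEq κ]

/-- sign of a Boolean -/
def sg (b : Bool) : ℝ := if b then 1 else -1

theorem sg_not (b : Bool) : sg (!b) = -sg b := by cases b <;> simp [sg]

theorem sg_mul_self (b : Bool) : sg b * sg b = 1 := by cases b <;> simp [sg]

theorem sum_sg_mul {a b : κ} (h : a ≠ b) : ∑ s : κ → Bool, sg (s a) * sg (s b) = 0 := by
  have hinv : Function.Involutive fun s : κ → Bool => Function.update s a (!s a) := by
    intro s
    funext k
    by_cases hk : k = a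
    · subst hk; simp
    · simp [Function.update_of_ne hk]
  have e := Equiv.sum_comp hinv.toPerm fun s : κ → Bool => sg (s a) * sg (s b)
  simp only [Function.Involutive.coe_toPerm, Function.update_self, Function.update_of_ne h.symm,
    sg_not, neg_mul, sum_neg_distrib] at e
  linarith

variable [Fintype Ω]

/-- if no label class has mass above `1 - a`, a fraction `a/2` of the unions of classes is
balanced -/
theorem union_count {q : Ω → ℝ} (hq : ∀ x, 0 ≤ q x) (h1 : ∑ x, q x = 1) (l : Ω → κ) {a : ℝ}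
    (ha : 0 ≤ a) (h : ∀ x, ∑ y ∈ univ.filter (fun y => l y = l x), q y ≤ 1 - a) :
    a / 2 * Fintype.card (κ → Bool) ≤
      ((univ.filter fun s : κ → Bool => a / 8 ≤ ∑ x ∈ univ.filter (fun x => s (l x) = true), q x ∧
        a / 8 ≤ ∑ x ∈ univ.filter (fun x => ¬ s (l x) = true), q x).card : ℝ) := by
  set M : (κ → Bool) → ℝ := fun s => ∑ x, q x * sg (s (l x)) with hM
  have e1 : ∑ s, M s ^ 2 ≤ (1 - a) * Fintype.card (κ → Bool) := by
    have a1 : ∀ s, M s ^ 2 = ∑ x, ∑ y, q x * q y * (sg (s (l x)) * sg (s (l y))) := by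
      intro s
      rw [sq, hM, sum_mul_sum]
      exact sum_congr rfl fun x _ => sum_congr rfl fun y _ => by ring
    have a2 : ∀ x y, ∑ s : κ → Bool, q x * q y * (sg (s (l x)) * sg (s (l y))) =
        q x * ((if l y = l x then q y else 0) * Fintype.card (κ → Bool)) := by
      intro x y
      rw [← mul_sum]
      by_cases hxy : l y = l x
      · simp only [hxy, sg_mul_self, sum_const, card_univ, nsmul_eq_mul, mul_one, if_true]; ring
      · rw [sum_sg_mul (Ne.symm hxy), if_neg hxy]; ring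
    simp only [a1]
    rw [sum_comm]
    have a3 : ∀ x, ∑ s : κ → Bool, ∑ y, q x * q y * (sg (s (l x)) * sg (s (l y))) ≤
        q x * ((1 - a) * Fintype.card (κ → Bool)) := by
      intro x
      rw [sum_comm]
      simp only [a2]
      rw [← mul_sum, ← sum_mul, ← sum_filter]
      exact mul_le_mul_of_nonneg_left (mul_le_mul_of_nonneg_right (h x) (Nat.cast_nonneg _)) (hq x)
    refine (sum_le_sum fun x _ => a3 x).trans (le_of_eq ?_)
    rw [← sum_mul, h1, one_mul]
  have e2 : ∀ s : κ → Bool, 1 - M s ^ 2 ≤ a / 2 +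
      if (a / 8 ≤ ∑ x ∈ univ.filter (fun x => s (l x) = true), q x ∧
        a / 8 ≤ ∑ x ∈ univ.filter (fun x => ¬ s (l x) = true), q x) then 1 else 0 := by
    intro s
    split_ifs with hs
    · nlinarith [sq_nonneg (M s)]
    set u := ∑ x ∈ univ.filter (fun x => s (l x) = true), q x with hu
    set v := ∑ x ∈ univ.filter (fun x => ¬ s (l x) = true), q x with hv
    have b1 : u + v = 1 := by rw [hu, hv, sum_filter_add_sum_filter_not, h1]
    have b2 : M s = u - v := by
      rw [hu, hv, sum_filter, sum_filter, ← sum_sub_distrib]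
      refine sum_congr rfl fun x _ => ?_
      cases s (l x) <;> simp [sg]
    have b3 : 0 ≤ u := sum_nonneg fun x _ => hq x
    have b4 : 0 ≤ v := sum_nonneg fun x _ => hq x
    have b5 : 1 - M s ^ 2 = 4 * (u * v) := by
      rw [b2]; nlinarith
    rw [b5]
    rcases not_and_or.1 hs with h' | h'
    · nlinarith [not_le.1 h']
    · nlinarith [not_le.1 h']
  have e3 := sum_le_sum fun s (_ : s ∈ (univ : Finset (κ → Bool))) => e2 s
  rw [sum_sub_distrib, sum_add_distrib, sum_boole] at e3
  simp only [sum_const, card_univ, nsmul_eq_mul, mul_one] at e3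
  linarith

end union

end Crest.Agent.T157.Exp

end
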