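import Crest.Agent.T157.Fe_84
import Crest.Agent.T157.TapDef_29

/-!
# Row 157, part A: the free edge bound F3 in the words of `TapDef_29` (helper84)
-/

set_option autoImplicit false

noncomputable section

namespace Crest.Agent.T157.Fe

open Matrix MeasureTheory
open Crest.ProbabilityR.SpinGlassDynamics Crest.Agent.T157.E Crest.Agent.T157.Tap

variable {n : ℕ}

lemma abs_le_of_ub {d : V n} (hd : Ub d) (i : Fin n) : |d i| ≤ 1 :=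
  abs_le.2 ⟨by linarith [(hd i).1], (hd i).2⟩

lemma avg_four_le {d : V n} (hd : ∀ i, |d i| ≤ 1) :
    (avg fun i => d i ^ 4) ≤ avg fun i => d i ^ 2 := by
  refine div_le_div_of_nonneg_right (Finset.sum_le_sum fun i _ => ?_) (Nat.cast_nonneg n)
  have : d i ^ 2 ≤ 1 := by rw [← sq_abs]; exact pow_le_one₀ (abs_nonneg _) (hd i)
  nlinarith [sq_nonneg (d i)]

/-- **F3**: fixed `d`, `θ² avg d⁴ ≤ 1 - c₁` -/
theorem f3_tap {θ c1 : ℝ} (hθ : |θ| ≤ 1) (h0 : 0 < c1) (h1 : c1 ≤ 1) {d : V n}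
    (hd : ∀ i, |d i| ≤ 1) (h4 : θ ^ 2 * avg (fun i => d i ^ 4) ≤ 1 - c1) :
    (GOE n).real {W | ¬ Pos (c1 ^ 2 / 80) (NN (B0 (θ • W) (θ ^ 2) d) d)} ≤
      Real.exp (-(n * c1 ^ 4 / 1024)) := f3_n hθ h0 h1 hd h4

/-- the same under `θ² avg d² ≤ 1 - c₁` -/
theorem f3_tap' {θ c1 : ℝ} (hθ : |θ| ≤ 1) (h0 : 0 < c1) (h1 : c1 ≤ 1) {d : V n}
    (hd : ∀ i, |d i| ≤ 1) (h2 : θ ^ 2 * avg (fun i => d i ^ 2) ≤ 1 - c1) :
    (GOE n).real {W | ¬ Pos (c1 ^ 2 / 80) (NN (B0 (θ • W) (θ ^ 2) d) d)} ≤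
      Real.exp (-(n * c1 ^ 4 / 1024)) :=
  f3_tap hθ h0 h1 hd ((mul_le_mul_of_nonneg_left (avg_four_le hd) (sq_nonneg θ)).trans h2)

theorem f3_tapJ {θ c1 : ℝ} (hθ : |θ| ≤ 1) (h0 : 0 < c1) (h1 : c1 ≤ 1) {d : V n}
    (hd : ∀ i, |d i| ≤ 1) (h4 : θ ^ 2 * avg (fun i => d i ^ 4) ≤ 1 - c1) :
    (disorderLaw n).real {g | ¬ Pos (c1 ^ 2 / 80) (NN (B0 (θ • Jmat n g) (θ ^ 2) d) d)} ≤
      Real.exp (-(n * c1 ^ 4 / 1024)) := f3_J hθ h0 h1 hd h4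

end Crest.Agent.T157.Fe

end
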