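import Crest.Agent.T157.NrmG_84

/-!
# Row 157, part E: the free edge of `W - diag a`, Ky Fan sums (helper84)

* `fe_mean`, `fe_mean_goe`, `fe_mean_J`: `E λ_max (W - diag a) ≤ -τ + s² ∑ 1 / (a_i - τ)`;
* `fe_tail_goe`, `fe_tail_J`: Gaussian tails above this bound;
* `f3_goe`, `f3_n`, `f3_J`: `1 - d (W - m) d ⪰ c₁² / 80` when `s² ∑ d⁴ ≤ 1 - c₁`;
* `ky`, `kyfan`, `abs_ky_sub_le`, `ky_tail_goe`, `ky_tail_J`.
-/

set_option autoImplicit false
set_option linter.unusedSectionVars false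

noncomputable section

namespace Crest.Agent.T157.Fe

open Matrix Finset MeasureTheory ProbabilityTheory
open Crest.ProbabilityR.SpinGlassDynamics Crest.Agent.T157.E Crest.Agent.T157.Eig
open Crest.Agent.T157.Cond Crest.Agent.T157.Nrm
open Crest.Agent.T157.Conc (en ELip)

variable {ι : Type*} [Fintype ι] [DecidableEq ι] {n : ℕ}

lemma herm_diag (a : ι → ℝ) : (diagonal a).IsHermitian := herm_iff.2 (diagonal_transpose a)

lemma quad_diag (a u : ι → ℝ) : u ⬝ᵥ diagonal a *ᵥ u = ∑ i, a i * u i ^ 2 :=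
  sum_congr rfl fun i _ => by rw [mulVec_diagonal]; ring

lemma measurable_lam_add (D : Matrix ι ι ℝ) (k : ℕ) :
    Measurable fun W : Matrix ι ι ℝ => lam (D + W) k :=
  (measurable_lam' k).comp (measurable_const.t157_add measurable_id)

lemma mp_symG (s : ℝ) : MeasurePreserving (symG s) (gv (ι × ι)) (goe ι s) :=
  ⟨measurable_symG s, rfl⟩

lemma mp_smul (s c : ℝ) : MeasurePreserving (fun W => c • W) (goe ι s) (goe ι (c * s)) :=
  ⟨measurable_const.t157_smul measurable_id, goe_smul s c⟩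

/-- the free edge bound -/
def fe (s : ℝ) (a : ι → ℝ) (τ : ℝ) : ℝ := -τ + s ^ 2 * ∑ i, 1 / (a i - τ)

/-- **free edge**, mean bound -/
theorem fe_mean [Nonempty ι] (s : ℝ) {a : ι → ℝ} {τ : ℝ} (h : ∀ i, τ < a i) :
    ∫ x, lam (-diagonal a + symG s x) 0 ∂(gv (ι × ι)) ≤ fe s a τ := by
  have hi : ∀ i ∈ univ, Integrable (fun g : ι → ℝ => 1 / (a i - τ) * (g i * g i)) (gv ι) :=
    fun i _ => (integrable_sq_coord i).const_mul _
  have hi2 := (integrable_finsetSum _ hi).const_mul (s ^ 2)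
  refine (goe_sf (herm_diag a).neg s
    (φ := fun g => -τ + s ^ 2 * ∑ i, 1 / (a i - τ) * (g i * g i))
    ((integrable_const _).add hi2) fun g u hu => ?_).trans (le_of_eq ?_)
  · have e : τ = ∑ i, τ * u i ^ 2 := by
      rw [← mul_sum, show ∑ i, u i ^ 2 = u ⬝ᵥ u from sum_congr rfl fun i _ => sq _, hu, mul_one]
    rw [neg_mulVec, dotProduct_neg, quad_diag, dotProduct, mul_sum, mul_sum]
    have : ∑ i, (τ * u i ^ 2 - a i * u i ^ 2 + 2 * s * (u i * g i)) ≤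
        ∑ i, s ^ 2 * (1 / (a i - τ) * (g i * g i)) := by
      refine sum_le_sum fun i _ => ?_
      have hp := sub_pos.2 (h i)
      rw [one_div, inv_mul_eq_div, ← mul_div_assoc, le_div_iff₀ hp]
      nlinarith [sq_nonneg ((a i - τ) * u i - s * g i)]
    rw [sum_add_distrib, sum_sub_distrib, ← e] at this
    linarith
  · rw [integral_add (integrable_const _) hi2, integral_const_mul, integral_finsetSum _ hi]
    simp only [integral_const_mul, integral_sq_coord, mul_one, integral_const, probReal_univ,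
      one_smul, fe]

/-- the form with the Onsager shift `m(a) = s² ∑ 1 / a_i` -/
lemma fe_shift (s : ℝ) {a : ι → ℝ} {τ : ℝ} (h : ∀ i, τ < a i) (h0 : ∀ i, a i ≠ 0) :
    fe s (fun i => a i + s ^ 2 * ∑ j, 1 / a j) (τ + s ^ 2 * ∑ j, 1 / a j) =
      -τ * (1 - s ^ 2 * ∑ i, 1 / (a i * (a i - τ))) := by
  have e : ∑ i, 1 / (a i - τ) = ∑ j, 1 / a j + τ * ∑ i, 1 / (a i * (a i - τ)) := by
    rw [mul_sum, ← sum_add_distrib]
    refine sum_congr rfl fun i _ => ?_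
    have := h0 i
    have := (sub_pos.2 (h i)).ne'
    field_simp
    ring
  simp only [fe, add_sub_add_right_eq_sub, e]
  ring

theorem fe_mean_goe [Nonempty ι] (s : ℝ) {a : ι → ℝ} {τ : ℝ} (h : ∀ i, τ < a i) :
    ∫ W, lam (W - diagonal a) 0 ∂(goe ι s) ≤ fe s a τ := by
  simp only [sub_eq_neg_add]
  rw [goe, integral_map (measurable_symG s).aemeasurable
    (measurable_lam_add _ 0).aestronglyMeasurable]
  exact fe_mean s h

/-- tail of an eigenvalue of `D + W` above a bound of its mean -/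
theorem goe_lam_tail' {D : Matrix ι ι ℝ} (hD : D.IsHermitian) (s : ℝ) (k : ℕ) {M t : ℝ}
    (hM : ∫ x, lam (D + symG s x) k ∂(gv (ι × ι)) ≤ M) (ht : 0 ≤ t) :
    (goe ι s).real {W | M + t ≤ lam (D + W) k} ≤ Real.exp (-t ^ 2 / (4 * s ^ 2)) := by
  rw [goe, map_measureReal_apply (measurable_symG s)
    (measurableSet_le measurable_const (measurable_lam_add D k))]
  exact symG_lam_tail hD s k hM ht

theorem fe_tail_goe [Nonempty ι] (s : ℝ) {a : ι → ℝ} {τ t : ℝ} (h : ∀ i, τ < a i) (ht : 0 ≤ t) :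
    (goe ι s).real {W | fe s a τ + t ≤ lam (W - diagonal a) 0} ≤
      Real.exp (-t ^ 2 / (4 * s ^ 2)) := by
  simp only [sub_eq_neg_add]
  exact goe_lam_tail' (herm_diag a).neg s 0 (fe_mean s h) ht

theorem fe_mean_J (hn : 0 < n) (c : ℝ) {a : Fin n → ℝ} {τ : ℝ} (h : ∀ i, τ < a i) :
    ∫ g, lam (-diagonal a + c • Jmat n g) 0 ∂(disorderLaw n) ≤ fe (c * (1 / √n)) a τ := by
  have : Nonempty (Fin n) := ⟨⟨0, hn⟩⟩
  exact (E_lam_Jmat_le (herm_diag a).neg c).trans (fe_mean _ h)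

theorem fe_tail_J (hn : 0 < n) (c : ℝ) {a : Fin n → ℝ} {τ t : ℝ} (h : ∀ i, τ < a i) (ht : 0 ≤ t) :
    (disorderLaw n).real {g | fe (c * (1 / √n)) a τ + t ≤ lam (-diagonal a + c • Jmat n g) 0} ≤
      Real.exp (-(n * t ^ 2 / (4 * c ^ 2))) :=
  Jmat_lam_tail' (herm_diag a).neg c 0 (fe_mean_J hn c h) ht

/-! ### the form `1 - d (W - m) d ⪰ c` -/

/-- the comparison diagonal -/
def aD (c m : ℝ) (d : ι → ℝ) : ι → ℝ := fun i => (1 - c) / max (d i ^ 2) c + m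

lemma pos_of_lam {W : Matrix ι ι ℝ} (hW : W.IsHermitian) {c m : ℝ} (hc : 0 < c) (hc1 : c ≤ 1)
    {d : ι → ℝ} (h : lam (-diagonal (aD c m d) + W) 0 ≤ 0) (u : ι → ℝ) :
    c * (u ⬝ᵥ u) ≤ u ⬝ᵥ (1 - diagonal d * (W - m • (1 : Matrix ι ι ℝ)) * diagonal d) *ᵥ u := by
  set v := diagonal d *ᵥ u with hv
  have h1 := quad_le_top ((herm_diag (aD c m d)).neg.add hW) v
  have h2 := mul_nonpos_of_nonpos_of_nonneg h (dot_self_nonneg v)
  rw [add_mulVec, dotProduct_add, neg_mulVec, dotProduct_neg, quad_diag] at h1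
  have e : u ⬝ᵥ (diagonal d * (W - m • (1 : Matrix ι ι ℝ)) * diagonal d) *ᵥ u =
      v ⬝ᵥ W *ᵥ v - m * (v ⬝ᵥ v) := by
    rw [← mulVec_mulVec, ← mulVec_mulVec, dot_symm (herm_diag d), dotProduct_comm, ← hv, sub_mulVec,
      dotProduct_sub, smul_mulVec, one_mulVec, dotProduct_smul, smul_eq_mul]
  have h3 : ∑ i, aD c m d i * v i ^ 2 ≤ (1 - c) * (u ⬝ᵥ u) + m * (v ⬝ᵥ v) := by
    simp only [dotProduct, mul_sum, ← sum_add_distrib]
    refine sum_le_sum fun i _ => ?_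
    have hm : 0 < max (d i ^ 2) c := lt_max_of_lt_right hc
    have a1 : (1 - c) / max (d i ^ 2) c * d i ^ 2 ≤ 1 - c := by
      rw [div_mul_eq_mul_div, div_le_iff₀ hm]
      exact mul_le_mul_of_nonneg_left (le_max_left _ _) (by linarith)
    have a2 := mul_le_mul_of_nonneg_right a1 (sq_nonneg (u i))
    have a3 : v i = d i * u i := by rw [hv, mulVec_diagonal]
    rw [aD, a3]
    nlinarith
  rw [sub_mulVec, one_mulVec, dotProduct_sub, e]
  linarith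

lemma lt_aD {c1 m : ℝ} (h0 : 0 < c1) (h1 : c1 ≤ 1) {d : ι → ℝ} (hd : ∀ i, |d i| ≤ 1) (i : ι) :
    c1 / 4 + m < aD (c1 ^ 2 / 80) m d i := by
  have a1 : max (d i ^ 2) (c1 ^ 2 / 80) ≤ 1 :=
    max_le (by rw [← sq_abs]; exact pow_le_one₀ (abs_nonneg _) (hd i)) (by nlinarith)
  have a2 : 0 < max (d i ^ 2) (c1 ^ 2 / 80) := lt_max_of_lt_right (by positivity)
  have a3 : 1 - c1 ^ 2 / 80 ≤ (1 - c1 ^ 2 / 80) / max (d i ^ 2) (c1 ^ 2 / 80) := by
    rw [le_div_iff₀ a2]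
    exact mul_le_of_le_one_right (by nlinarith) a1
  rw [aD]
  nlinarith

lemma fe_aD {s c1 : ℝ} (h0 : 0 < c1) (h1 : c1 ≤ 1) {d : ι → ℝ} (hd : ∀ i, |d i| ≤ 1)
    (hs : s ^ 2 * Fintype.card ι ≤ 1) (h4 : s ^ 2 * ∑ i, d i ^ 4 ≤ 1 - c1) :
    fe s (aD (c1 ^ 2 / 80) (s ^ 2 * ∑ i, d i ^ 2) d) (c1 / 4 + s ^ 2 * ∑ i, d i ^ 2) +
      c1 ^ 2 / 16 ≤ 0 := by
  set c := c1 ^ 2 / 80 with hc
  have hc0 : 0 < c := by positivity
  have hc1 : c ≤ c1 / 4 := by nlinarith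
  have key : ∀ i, 1 / (aD c (s ^ 2 * ∑ i, d i ^ 2) d i - (c1 / 4 + s ^ 2 * ∑ i, d i ^ 2)) ≤
      d i ^ 2 + 5 * c + c1 / 4 / (1 - c1 / 2) * d i ^ 4 := by
    intro i
    set D := max (d i ^ 2) c with hD
    have a0 : d i ^ 2 ≤ 1 := by rw [← sq_abs]; exact pow_le_one₀ (abs_nonneg _) (hd i)
    have a1 : D ≤ 1 := max_le a0 (by linarith)
    have a2 : 0 < D := lt_max_of_lt_right hc0
    have a3 : D ≤ d i ^ 2 + c := max_le (by linarith) (by linarith [sq_nonneg (d i)])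
    have a4 : D ^ 2 ≤ d i ^ 4 + c := by
      rcases max_cases (d i ^ 2) c with h | h
      · rw [hD, h.1]; nlinarith
      · rw [hD, h.1]; nlinarith [pow_nonneg (sq_nonneg (d i)) 2]
    have a5 : 0 < 1 - c1 / 2 := by linarith
    have a6 : 1 - c1 / 2 ≤ 1 - c - c1 / 4 * D := by nlinarith
    have e : 1 / (aD c (s ^ 2 * ∑ i, d i ^ 2) d i - (c1 / 4 + s ^ 2 * ∑ i, d i ^ 2)) =
        D + (c * D + c1 / 4 * D ^ 2) / (1 - c - c1 / 4 * D) := by
      have : 1 - c - c1 / 4 * D ≠ 0 := by linarith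
      rw [aD, ← hD, add_sub_add_right_eq_sub, show (1 - c) / D - c1 / 4 =
        (1 - c - c1 / 4 * D) / D by field_simp, one_div_div, add_div' _ _ _ this,
        div_left_inj' this]
      ring
    have a7 : (c * D + c1 / 4 * D ^ 2) / (1 - c - c1 / 4 * D) ≤
        (2 * c + c1 / 4 * d i ^ 4) / (1 - c1 / 2) :=
      div_le_div₀ (by positivity) (by nlinarith) a5 a6
    have a8 : 2 * c / (1 - c1 / 2) ≤ 4 * c := by rw [div_le_iff₀ a5]; nlinarith
    rw [add_div (2 * c), mul_div_right_comm (c1 / 4) (d i ^ 4)] at a7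
    rw [e]
    linarith
  have h5 := mul_le_mul_of_nonneg_left (sum_le_sum fun i (_ : i ∈ univ) => key i) (sq_nonneg s)
  rw [sum_add_distrib, sum_add_distrib, ← mul_sum _ _ (c1 / 4 / (1 - c1 / 2)), sum_const, card_univ,
    nsmul_eq_mul] at h5
  have a5 : 0 < 1 - c1 / 2 := by linarith
  have h6 : c1 / 4 / (1 - c1 / 2) * (s ^ 2 * ∑ i, d i ^ 4) ≤ c1 / 4 * (1 - c1 / 2) := by
    refine (mul_le_mul_of_nonneg_left h4 (by positivity)).trans ?_
    rw [div_mul_eq_mul_div, div_le_iff₀ a5]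
    nlinarith [mul_pos h0 (mul_pos h0 h0)]
  have h7 := mul_le_mul_of_nonneg_right hs (by positivity : 0 ≤ 5 * c)
  rw [fe]
  nlinarith

/-- **F3** for the GOE -/
theorem f3_goe {s c1 : ℝ} (h0 : 0 < c1) (h1 : c1 ≤ 1) {d : ι → ℝ} (hd : ∀ i, |d i| ≤ 1)
    (hs : s ^ 2 * Fintype.card ι ≤ 1) (h4 : s ^ 2 * ∑ i, d i ^ 4 ≤ 1 - c1) :
    (goe ι s).real {W | ¬ ∀ u : ι → ℝ, c1 ^ 2 / 80 * (u ⬝ᵥ u) ≤ u ⬝ᵥ (1 - diagonal d *
      (W - (s ^ 2 * ∑ i, d i ^ 2) • (1 : Matrix ι ι ℝ)) * diagonal d) *ᵥ u} ≤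
      Real.exp (-(c1 ^ 4 / (1024 * s ^ 2))) := by
  rcases isEmpty_or_nonempty ι with h | h
  · simp [dotProduct, Real.exp_nonneg]
  have ht := fe_tail_goe s (lt_aD (m := s ^ 2 * ∑ i, d i ^ 2) h0 h1 hd)
    (t := c1 ^ 2 / 16) (by positivity)
  rw [show -(c1 ^ 2 / 16) ^ 2 / (4 * s ^ 2) = -(c1 ^ 4 / (1024 * s ^ 2)) by ring] at ht
  refine le_trans (ENNReal.toReal_mono (measure_ne_top _ _) (measure_mono_ae ?_)) ht
  filter_upwards [goe_ae_symm (ι := ι) s] with W hW hb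
  refine (fe_aD h0 h1 hd hs h4).trans (not_lt.1 fun hl => hb fun u => ?_)
  rw [sub_eq_neg_add] at hl
  exact pos_of_lam (herm_iff.2 hW) (by positivity) (by nlinarith) hl.le u

lemma sq_param (θ : ℝ) : (θ * (1 / √(n : ℝ))) ^ 2 = θ ^ 2 / n := by
  rw [mul_pow, div_pow, Real.sq_sqrt (Nat.cast_nonneg n)]; ring

lemma pos_zero {c1 : ℝ} (h0 : 0 < c1) (h1 : c1 ≤ 1) (u : ι → ℝ) :
    c1 ^ 2 / 80 * (u ⬝ᵥ u) ≤ u ⬝ᵥ u :=
  mul_le_of_le_one_left (dot_self_nonneg u) (by nlinarith)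

lemma exp_le {θ c1 : ℝ} (hθ : |θ| ≤ 1) (h : θ ≠ 0) :
    Real.exp (-(c1 ^ 4 / (1024 * (θ ^ 2 / n)))) ≤ Real.exp (-(n * c1 ^ 4 / 1024)) := by
  rcases Nat.eq_zero_or_pos n with rfl | hn
  · simp
  have hn' : (0 : ℝ) < n := Nat.cast_pos.2 hn
  have a0 : θ ^ 2 ≤ 1 := by rw [← sq_abs]; exact pow_le_one₀ (abs_nonneg _) hθ
  have a1 : 0 < θ ^ 2 := by positivity
  refine Real.exp_le_exp.2 (neg_le_neg ?_)
  rw [show c1 ^ 4 / (1024 * (θ ^ 2 / n)) = n * c1 ^ 4 / 1024 / θ ^ 2 by field_simp, le_div_iff₀ a1]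
  exact mul_le_of_le_one_right (by positivity) a0

lemma card_param {θ : ℝ} (hθ : |θ| ≤ 1) : θ ^ 2 / n * Fintype.card (Fin n) ≤ 1 := by
  have a0 : θ ^ 2 ≤ 1 := by rw [← sq_abs]; exact pow_le_one₀ (abs_nonneg _) hθ
  rw [Fintype.card_fin, div_mul_eq_mul_div, mul_div_assoc]
  exact mul_le_one₀ a0 (by positivity) (div_self_le_one _)

/-- **F3** for `θ W`, `W` a GOE matrix with variance `1/n` (the words of `Tap.Pos/NN/B0`) -/
theorem f3_n {θ c1 : ℝ} (hθ : |θ| ≤ 1) (h0 : 0 < c1) (h1 : c1 ≤ 1) {d : Fin n → ℝ}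
    (hd : ∀ i, |d i| ≤ 1) (h4 : θ ^ 2 * ((∑ i, d i ^ 4) / n) ≤ 1 - c1) :
    (goe (Fin n) (1 / √n)).real {W | ¬ ∀ u : Fin n → ℝ, c1 ^ 2 / 80 * (u ⬝ᵥ u) ≤
      u ⬝ᵥ (1 - diagonal d * (θ • W - (θ ^ 2 * ((∑ i, d i ^ 2) / n)) •
        (1 : Matrix (Fin n) (Fin n) ℝ)) * diagonal d) *ᵥ u} ≤ Real.exp (-(n * c1 ^ 4 / 1024)) := by
  by_cases hz : θ = 0
  · subst hz
    have := pos_zero (ι := Fin n) h0 h1
    simp only [zero_smul, ne_eq, OfNat.ofNat_ne_zero, not_false_eq_true, zero_pow, zero_mul,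
      sub_zero, mul_zero, one_mulVec, this, implies_true, not_true_eq_false, Set.ofPred_false,
      measureReal_empty]
    exact (Real.exp_pos _).le
  have h := f3_goe (s := θ * (1 / √n)) h0 h1 hd (by rw [sq_param]; exact card_param hθ)
    (by rw [sq_param]; linarith [show θ ^ 2 / n * ∑ i, d i ^ 4 = θ ^ 2 * ((∑ i, d i ^ 4) / n) by ring])
  rw [sq_param, show θ ^ 2 / n * ∑ i, d i ^ 2 = θ ^ 2 * ((∑ i, d i ^ 2) / n) by ring] at h
  refine le_trans (ENNReal.toReal_mono (measure_ne_top _ _) ?_) (h.trans (exp_le hθ hz))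
  exact (mp_smul (1 / √n) θ).measure_preimage_le _

/-- **F3** for `θ J` -/
theorem f3_J {θ c1 : ℝ} (hθ : |θ| ≤ 1) (h0 : 0 < c1) (h1 : c1 ≤ 1) {d : Fin n → ℝ}
    (hd : ∀ i, |d i| ≤ 1) (h4 : θ ^ 2 * ((∑ i, d i ^ 4) / n) ≤ 1 - c1) :
    (disorderLaw n).real {g | ¬ ∀ u : Fin n → ℝ, c1 ^ 2 / 80 * (u ⬝ᵥ u) ≤
      u ⬝ᵥ (1 - diagonal d * (θ • Jmat n g - (θ ^ 2 * ((∑ i, d i ^ 2) / n)) •
        (1 : Matrix (Fin n) (Fin n) ℝ)) * diagonal d) *ᵥ u} ≤ Real.exp (-(n * c1 ^ 4 / 1024)) := by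
  rcases Nat.eq_zero_or_pos n with rfl | hn
  · simp
  by_cases hz : θ = 0
  · subst hz
    have := pos_zero (ι := Fin n) h0 h1
    simp only [zero_smul, ne_eq, OfNat.ofNat_ne_zero, not_false_eq_true, zero_pow, zero_mul,
      sub_zero, mul_zero, one_mulVec, this, implies_true, not_true_eq_false, Set.ofPred_false,
      measureReal_empty]
    exact (Real.exp_pos _).le
  have hf := fe_aD (s := θ * (1 / √n)) h0 h1 hd (by rw [sq_param]; exact card_param hθ)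
    (by rw [sq_param]; linarith [show θ ^ 2 / n * ∑ i, d i ^ 4 = θ ^ 2 * ((∑ i, d i ^ 4) / n) by ring])
  have ht := fe_tail_J hn θ (lt_aD (m := (θ * (1 / √n)) ^ 2 * ∑ i, d i ^ 2) h0 h1 hd)
    (t := c1 ^ 2 / 16) (by positivity)
  have hn' : (n : ℝ) ≠ 0 := Nat.cast_ne_zero.2 hn.ne'
  rw [show n * (c1 ^ 2 / 16) ^ 2 / (4 * θ ^ 2) = c1 ^ 4 / (1024 * (θ ^ 2 / n)) by
    field_simp; ring] at ht
  refine (measureReal_mono (fun g hb => ?_) (measure_ne_top _ _)).trans (ht.trans (exp_le hθ hz))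
  refine hf.trans (not_lt.1 fun hl => hb fun u => ?_)
  rw [sq_param, show θ ^ 2 / n * ∑ i, d i ^ 2 = θ ^ 2 * ((∑ i, d i ^ 2) / n) by ring] at hl
  exact pos_of_lam (herm_smul (Jmat_isHermitian g) θ) (by positivity) (by nlinarith) hl.le u

/-! ### Ky Fan sums -/

/-- sum of the `k` largest eigenvalues -/
def ky (A : Matrix ι ι ℝ) (k : ℕ) : ℝ := ∑ j ∈ range k, lam A j

lemma bessel {σ : Type*} [Fintype σ] [DecidableEq σ] {u : σ → ι → ℝ}
    (hu : ∀ a b, u a ⬝ᵥ u b = if a = b then 1 else 0) (v : ι → ℝ) :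
    ∑ a, (v ⬝ᵥ u a) ^ 2 ≤ v ⬝ᵥ v := by
  have h := dot_self_nonneg (v - ∑ a, (v ⬝ᵥ u a) • u a)
  have e1 : v ⬝ᵥ ∑ a, (v ⬝ᵥ u a) • u a = ∑ a, (v ⬝ᵥ u a) ^ 2 := by
    rw [dotProduct_sum]; exact sum_congr rfl fun a _ => by rw [dotProduct_smul, smul_eq_mul, sq]
  have e2 : (∑ a, (v ⬝ᵥ u a) • u a) ⬝ᵥ ∑ a, (v ⬝ᵥ u a) • u a = ∑ a, (v ⬝ᵥ u a) ^ 2 := by
    rw [sum_dotProduct]
    refine sum_congr rfl fun a _ => ?_
    simp [dotProduct_sum, hu, sq]
  rw [sub_dotProduct, dotProduct_sub, dotProduct_sub, e2, dotProduct_comm (∑ a, (v ⬝ᵥ u a) • u a) v,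
    e1] at h
  linarith

/-- **Ky Fan's maximum principle** -/
theorem kyfan {A : Matrix ι ι ℝ} (hA : A.IsHermitian) {σ : Type*} [Fintype σ] [DecidableEq σ]
    {u : σ → ι → ℝ} (hu : ∀ a b, u a ⬝ᵥ u b = if a = b then 1 else 0) :
    Fintype.card σ ≤ Fintype.card ι ∧ ∑ a, u a ⬝ᵥ A *ᵥ u a ≤ ky A (Fintype.card σ) := by
  set N := Fintype.card ι
  set k := Fintype.card σ
  set p : ℕ → ℝ := fun l => ∑ a, (Eig.vec A l ⬝ᵥ u a) ^ 2 with hp
  have p0 : ∀ l, 0 ≤ p l := fun l => sum_nonneg fun a _ => sq_nonneg _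
  have p1 : ∀ l < N, p l ≤ 1 := fun l hl => (bessel hu _).trans (vec_dot_self hA hl).le
  have p2 : ∑ l ∈ range N, p l = k := by
    simp only [hp]
    rw [sum_comm]
    have : ∀ a, ∑ l ∈ range N, (Eig.vec A l ⬝ᵥ u a) ^ 2 = 1 := fun a => by
      have := dot_eq hA (u a) (u a)
      rw [hu, if_pos rfl] at this
      simp only [sq]
      exact this.symm
    simp [this, k]
  have hk : k ≤ N := by
    have := sum_le_sum fun l (hl : l ∈ range N) => p1 l (mem_range.1 hl)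
    rw [p2] at this
    simpa using this
  refine ⟨hk, ?_⟩
  have e : ∑ a, u a ⬝ᵥ A *ᵥ u a = ∑ l ∈ range N, lam A l * p l := by
    simp only [hp, mul_sum, quad_eq hA]
    rw [sum_comm]
    exact sum_congr rfl fun l _ => sum_congr rfl fun a _ => by ring
  have e2 : ∀ f : ℕ → ℝ, ∑ l ∈ range N, (if l < k then f l else 0) = ∑ l ∈ range k, f l := by
    intro f
    rw [← sum_filter]
    refine sum_congr ?_ fun _ _ => rfl
    ext l; simp only [mem_filter, mem_range]; omega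
  have h : ∑ l ∈ range N, (lam A l - lam A (k - 1)) * (p l - if l < k then 1 else 0) ≤ 0 := by
    refine sum_nonpos fun l hl => ?_
    have hl := mem_range.1 hl
    split_ifs with h
    · exact mul_nonpos_of_nonneg_of_nonpos (sub_nonneg.2 (lam_anti hA (by omega) (by omega)))
        (sub_nonpos.2 (p1 l hl))
    · exact mul_nonpos_of_nonpos_of_nonneg (sub_nonpos.2 (lam_anti hA (by omega) hl))
        (by simpa using p0 l)
  simp only [mul_sub, sub_mul, sum_sub_distrib, mul_ite, mul_one, mul_zero, e2, ← mul_sum, p2,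
    sum_const, card_range, nsmul_eq_mul] at h
  rw [e, ky]
  linarith

lemma ky_le {A : Matrix ι ι ℝ} (hA : A.IsHermitian) {k : ℕ} (hk : k ≤ Fintype.card ι) :
    ky A k ≤ k * lam A 0 := by
  have := sum_le_sum fun j (hj : j ∈ range k) =>
    lam_anti hA (Nat.zero_le j) (lt_of_lt_of_le (mem_range.1 hj) hk)
  simpa [ky] using this

lemma abs_ky_sub_le {A B : Matrix ι ι ℝ} (hA : A.IsHermitian) (hB : B.IsHermitian) (k : ℕ) :
    |ky A k - ky B k| ≤ √k * √(∑ i, ∑ j, (A - B) i j ^ 2) := by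
  rw [← Real.sqrt_mul (Nat.cast_nonneg k), ky, ky, ← sum_sub_distrib]
  refine Real.abs_le_sqrt ?_
  refine (sq_sum_le_card_mul_sum_sq).trans ?_
  rw [card_range]
  refine mul_le_mul_of_nonneg_left (le_trans ?_ (hoffman_wielandt hA hB)) (Nat.cast_nonneg k)
  rcases le_total k (Fintype.card ι) with h | h
  · exact sum_le_sum_of_subset_of_nonneg (range_mono h) fun _ _ _ => sq_nonneg _
  · refine (sum_subset (range_mono h) fun j _ hj => ?_).ge
    simp [lam_of_le (not_lt.1 fun h => hj (mem_range.2 h))]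

lemma frob_symG_le (s : ℝ) (x : ι × ι → ℝ) : √(∑ i, ∑ j, symG s x i j ^ 2) ≤ √2 * |s| * en x := by
  refine Real.sqrt_le_iff.2 ⟨by have := Conc.en_nonneg x; positivity, ?_⟩
  have h2 : √2 ^ 2 = 2 := Real.sq_sqrt (by norm_num)
  rw [mul_pow, mul_pow, h2, sq_abs, Conc.en_sq, Fintype.sum_prod_type]
  have e1 : ∑ i, ∑ j, x (j, i) ^ 2 = ∑ i, ∑ j, x (i, j) ^ 2 := sum_comm
  calc ∑ i, ∑ j, symG s x i j ^ 2 ≤ ∑ i, ∑ j, s ^ 2 * (x (i, j) ^ 2 + x (j, i) ^ 2) := by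
        refine sum_le_sum fun i _ => sum_le_sum fun j _ => ?_
        simp only [symG, of_apply, mul_pow, div_pow, h2]
        nlinarith [mul_nonneg (sq_nonneg s) (sq_nonneg (x (i, j) - x (j, i)))]
    _ = _ := by
        simp only [← mul_sum, sum_add_distrib, e1]; ring

lemma elip_ky_symG {D : Matrix ι ι ℝ} (hD : D.IsHermitian) (s : ℝ) (k : ℕ) :
    ELip (√k * (√2 * |s|)) fun x => ky (D + symG s x) k := fun x y => by
  refine (abs_ky_sub_le (hD.add (symG_herm s x)) (hD.add (symG_herm s y)) k).trans ?_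
  rw [add_sub_add_left_eq_sub, symG_sub, mul_assoc]
  exact mul_le_mul_of_nonneg_left (frob_symG_le s _) (Real.sqrt_nonneg _)

lemma measurable_ky_add (D : Matrix ι ι ℝ) (k : ℕ) :
    Measurable fun W : Matrix ι ι ℝ => ky (D + W) k :=
  Finset.measurable_sum _ fun j _ => measurable_lam_add D j

/-- tail of the Ky Fan sum above `k` times a bound of the mean of the top eigenvalue -/
theorem ky_tail_goe {D : Matrix ι ι ℝ} (hD : D.IsHermitian) (s : ℝ) {k : ℕ}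
    (hk : k ≤ Fintype.card ι) {M t : ℝ} (hM : ∫ x, lam (D + symG s x) 0 ∂(gv (ι × ι)) ≤ M)
    (ht : 0 ≤ t) :
    (goe ι s).real {W | k * M + t ≤ ky (D + W) k} ≤ Real.exp (-t ^ 2 / (4 * k * s ^ 2)) := by
  rw [goe, map_measureReal_apply (measurable_symG s)
    (measurableSet_le measurable_const (measurable_ky_add D k))]
  have h := Conc.tail_lip (elip_ky_symG hD s k) ht
  rw [mul_pow, mul_pow, Real.sq_sqrt (Nat.cast_nonneg k), Real.sq_sqrt (by norm_num), sq_abs,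
    show 2 * ((k : ℝ) * (2 * s ^ 2)) = 4 * k * s ^ 2 by ring] at h
  have h1 : ∫ x, ky (D + symG s x) k ∂(gv (ι × ι)) ≤ k * M := by
    refine (integral_mono (elip_ky_symG hD s k).integrable
      ((elip_lam_symG hD s 0).integrable.const_mul k)
      fun x => ky_le (hD.add (symG_herm s x)) hk).trans ?_
    rw [integral_const_mul]
    exact mul_le_mul_of_nonneg_left hM (Nat.cast_nonneg k)
  refine (measureReal_mono (fun x hx => ?_) (measure_ne_top _ _)).trans h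
  simp only [Set.mem_preimage, Set.mem_ofPred_eq] at hx ⊢
  linarith

/-- no orthonormal `k`-frame sees `diag a - W` below the free edge -/
theorem fe_frame_goe [Nonempty ι] (s : ℝ) {a : ι → ℝ} {τ t : ℝ} (h : ∀ i, τ < a i) (ht : 0 ≤ t)
    (k : ℕ) : (goe ι s).real {W | ∃ u : Fin k → ι → ℝ,
      (∀ i j, u i ⬝ᵥ u j = if i = j then 1 else 0) ∧
        k * (fe s a τ + t) ≤ ∑ i, u i ⬝ᵥ (W - diagonal a) *ᵥ u i} ≤
      Real.exp (-(k * t ^ 2 / (4 * s ^ 2))) := by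
  rcases Nat.eq_zero_or_pos k with rfl | hk0
  · simp
  by_cases hk : k ≤ Fintype.card ι
  · have h1 := ky_tail_goe (herm_diag a).neg s hk (fe_mean s h) (t := k * t) (by positivity)
    have hk' : (k : ℝ) ≠ 0 := Nat.cast_ne_zero.2 hk0.ne'
    rw [show -((k : ℝ) * t) ^ 2 / (4 * k * s ^ 2) = -(k * t ^ 2 / (4 * s ^ 2)) by
      by_cases hs : s = 0
      · simp [hs]
      · field_simp] at h1
    refine le_trans (ENNReal.toReal_mono (measure_ne_top _ _) (measure_mono_ae ?_)) h1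
    filter_upwards [goe_ae_symm (ι := ι) s] with W hW hb
    obtain ⟨u, hu, hb⟩ := hb
    have := (kyfan ((herm_diag a).neg.add (herm_iff.2 hW)) hu).2
    rw [Fintype.card_fin, ← sub_eq_neg_add] at this
    change k * fe s a τ + k * t ≤ ky (-diagonal a + W) k
    rw [← sub_eq_neg_add]
    linarith
  · refine le_trans (le_of_eq ?_) (Real.exp_pos _).le
    refine Eq.trans ?_ (measureReal_empty (μ := goe ι s))
    congr 1
    ext W
    simp only [Set.mem_ofPred_eq, Set.mem_empty_iff_false, iff_false, not_exists, not_and]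
    intro u hu
    have := (kyfan (isHermitian_zero (n := ι) (α := ℝ)) hu).1
    rw [Fintype.card_fin] at this
    exact absurd this hk

lemma elip_ky_Jmat {D : Matrix (Fin n) (Fin n) ℝ} (hD : D.IsHermitian) (c : ℝ) (k : ℕ) :
    ELip (√k * (|c| * √(2 / n))) fun g => ky (D + c • Jmat n g) k := fun x y => by
  refine (abs_ky_sub_le (hD.add (herm_smul (Jmat_isHermitian x) c))
    (hD.add (herm_smul (Jmat_isHermitian y) c)) k).trans (le_of_eq ?_)
  rw [add_sub_add_left_eq_sub, ← smul_sub, Jmat_sub, ← Jmat_smul, frob_Jmat,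
    Real.sqrt_mul (by positivity), en]
  simp only [Pi.smul_apply, smul_eq_mul, mul_pow, ← mul_sum]
  rw [Real.sqrt_mul (sq_nonneg c), Real.sqrt_sq_eq_abs]
  ring

theorem ky_tail_J {D : Matrix (Fin n) (Fin n) ℝ} (hD : D.IsHermitian) (c : ℝ) {k : ℕ} (hk : k ≤ n)
    {M t : ℝ} (hM : ∫ g, lam (D + c • Jmat n g) 0 ∂(disorderLaw n) ≤ M) (ht : 0 ≤ t) :
    (disorderLaw n).real {g | k * M + t ≤ ky (D + c • Jmat n g) k} ≤
      Real.exp (-t ^ 2 / (4 * k * (c ^ 2 / n))) := by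
  have h := Conc.tail_lip (elip_ky_Jmat hD c k) ht
  rw [mul_pow, mul_pow, Real.sq_sqrt (Nat.cast_nonneg k), Real.sq_sqrt (by positivity), sq_abs,
    show 2 * ((k : ℝ) * (c ^ 2 * (2 / n))) = 4 * k * (c ^ 2 / n) by ring] at h
  rw [disorderLaw_eq] at hM ⊢
  have h1 : ∫ g, ky (D + c • Jmat n g) k ∂(gv (Pair n)) ≤ k * M := by
    refine (integral_mono (elip_ky_Jmat hD c k).integrable
      ((elip_lam_Jmat hD c 0).integrable.const_mul k)
      fun g => ky_le (hD.add (herm_smul (Jmat_isHermitian g) c)) (by simpa using hk)).trans ?_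
    rw [integral_const_mul]
    exact mul_le_mul_of_nonneg_left hM (Nat.cast_nonneg k)
  refine (measureReal_mono (fun x hx => ?_) (measure_ne_top _ _)).trans h
  simp only [Set.mem_ofPred_eq] at hx ⊢
  linarith

end Crest.Agent.T157.Fe

end
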