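import Crest.Agent.T157.KernB_16
import Crest.Agent.T157.CqDef_72

/-!
# Row 157: `Cq.KernStmt` (helper16)
-/

set_option autoImplicit false

noncomputable section

namespace Crest.Agent.T157.Cq

open Finset Real Filter Topology
open Crest.Agent.T157.St Crest.Agent.T157.Ed

namespace Kern16.Hy

variable {n : ℕ} {η : ℕ → ℝ} {t κ h w C c V : ℝ} {ρ : ℕ → ℝ} (H : Hy n η t κ h w C c V ρ)

theorem Wt_eq {T : ℝ} (hT : 0 < T) (k : ℕ) : Wt η T k = (T⁻¹ + max (η k) 0)⁻¹ := by
  have := le_max_right (η k) 0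
  unfold Wt
  field_simp

theorem Wt_pos {T : ℝ} (hT : 0 < T) (k : ℕ) : 0 < Wt η T k := by
  have := le_max_right (η k) 0
  unfold Wt
  positivity

include H

theorem b1 {T : ℝ} {m : ℕ} (hT : 4 * w * T ≤ 1) (hh : h ≤ T) (hm : m * h ≤ T) :
    h * ∑ i ∈ range (m + 1), ∑ k : Fin n, Wt η T k * (1 - 2 * η k * h) ^ i ≤
      24 * C * √((m + 1) * h) := by
  have h0 := H.h0
  have w1 := H.w1
  have C0 := H.C0
  have T0 : 0 < T := by linarith
  have m0 : (0 : ℝ) ≤ m := by positivity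
  obtain ⟨b, hb⟩ : ∃ b, b = (m + 1) * h := ⟨_, rfl⟩
  rw [← hb]
  have b0 : 0 < b := by rw [hb]; positivity
  have b2 : 2 * w ≤ b⁻¹ := by
    rw [inv_eq_one_div, le_div_iff₀ b0]
    have : b ≤ 2 * T := by rw [hb]; linarith
    nlinarith
  have vw : w ≤ b⁻¹ := by linarith
  have Y := H.Y1 vw
  have hb1 : h * b⁻¹ ≤ 1 := by
    rw [← div_eq_mul_inv, div_le_one b0, hb]; nlinarith
  have Tw : w ≤ T⁻¹ := by rw [inv_eq_one_div, le_div_iff₀ T0]; nlinarith
  have one : ∀ k, k < n → h * ∑ i ∈ range (m + 1), Wt η T k * (1 - 2 * η k * h) ^ i ≤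
      12 * (1 / ((w + η k) * (b⁻¹ + η k))) := fun k hk => by
    have p1 := H.pos le_rfl hk
    have p2 := H.pos vw hk
    have q0 : 0 ≤ 1 - 2 * η k * h := by linarith [H.q0 k hk]
    have q1 := H.qlt vw ⟨k, hk⟩
    have a1 : Wt η T k ≤ (w + η k)⁻¹ := by
      rw [Wt_eq T0]
      exact inv_anti₀ p1 (add_le_add Tw (le_max_left _ _))
    have a2 : ∑ i ∈ range (m + 1), (1 - 2 * η k * h) ^ i ≤
        8 * ∑ i ∈ range (m + 1), ((1 - 2 * η k * h) / (1 + 2 * h * b⁻¹)) ^ i := by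
      rw [mul_sum]
      refine sum_le_sum fun i hi => ?_
      have a1 : (1 + 2 * h * b⁻¹) ^ i ≤ 8 := by
        refine (pow_le_exp (by linarith) ?_).trans exp_two_le
        have : (i : ℝ) ≤ m + 1 := by exact_mod_cast (mem_range.1 hi).le
        have a2 : i * h ≤ b := by rw [hb]; gcongr
        rw [show (i : ℝ) * (2 * h * b⁻¹) = 2 * (i * h) / b by ring, div_le_iff₀ b0]
        linarith
      rw [div_pow, ← mul_div_assoc, le_div_iff₀ (by positivity)]
      have := mul_le_mul_of_nonneg_left a1 (pow_nonneg q0 i)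
      linarith
    have a3 := geom_le (div_nonneg q0 (by linarith : 0 ≤ 1 + 2 * h * b⁻¹))
      ((div_lt_one (by linarith)).2 q1) (m + 1)
    have a4 : (1 - (1 - 2 * η k * h) / (1 + 2 * h * b⁻¹))⁻¹ ≤ 3 / (2 * h * (b⁻¹ + η k)) := by
      rw [one_sub_div (by linarith), inv_div,
        show 1 + 2 * h * b⁻¹ - (1 - 2 * η k * h) = 2 * h * (b⁻¹ + η k) by ring]
      exact div_le_div_of_nonneg_right (by linarith) (by positivity)
    have a5 : ∑ i ∈ range (m + 1), (1 - 2 * η k * h) ^ i ≤ 8 * (3 / (2 * h * (b⁻¹ + η k))) := by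
      linarith
    have a6 := mul_le_mul a1 a5 (sum_nonneg fun i _ => pow_nonneg q0 i) (by positivity)
    rw [← mul_sum]
    refine (mul_le_mul_of_nonneg_left a6 h0.le).trans (le_of_eq ?_)
    generalize b⁻¹ = v at *
    field_simp
    norm_num
  have e := Sr_sub t (fun k hk => H.pos le_rfl hk) vw
  have s0 : 0 ≤ ∑ k ∈ range n, 1 / ((w + η k) * (b⁻¹ + η k)) := sum_nonneg fun k hk => by
    have p1 := H.pos le_rfl (mem_range.1 hk)
    have p2 := H.pos vw (mem_range.1 hk)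
    positivity
  have e1 := H.lo w le_rfl H.wV
  have e2 := H.dn _ vw
  have e3 : 0 ≤ c * √w := by have := H.c0; positivity
  have e4 := mul_le_mul_of_nonneg_right (show b⁻¹ / 2 ≤ b⁻¹ - w by linarith) s0
  have e5 : ∑ k ∈ range n, 1 / ((w + η k) * (b⁻¹ + η k)) ≤ 2 * C * √b := by
    have r0 : 0 < √b := sqrt_pos.2 b0
    have r2 : C * √b⁻¹ = b⁻¹ / 2 * (2 * C * √b) := by
      have : b = √b ^ 2 := (sq_sqrt b0.le).symm
      rw [sqrt_inv]
      generalize √b = r at *
      rw [this]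
      field_simp
    exact le_of_mul_le_mul_left (a := b⁻¹ / 2) (by linarith) (by positivity)
  rw [sum_comm, mul_sum, Fin.sum_univ_eq_sum_range
    (fun k => h * ∑ i ∈ range (m + 1), Wt η T k * (1 - 2 * η k * h) ^ i) n]
  have := sum_le_sum fun k (hk : k ∈ range n) => one k (mem_range.1 hk)
  rw [← mul_sum (a := 12)] at this
  linarith

theorem b2 {T : ℝ} {k : ℕ} (hk : k < n) (T0 : 0 < T) (hT : w * T ≤ 1)
    (hV : T⁻¹ + max (η k) 0 ≤ V) :
    (∀ m : ℕ, m * h ≤ T → 0 ≤ Kk η h ρ k m ∧ Kk η h ρ k m ≤ 8 / c * √(Wt η T k)) ∧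
    ∀ m : ℕ, m * h ≤ T → m * |Kk η h ρ k (m + 1) - Kk η h ρ k m| ≤ 80 / c * √(Wt η T k) := by
  have h0 := H.h0
  have c0 := H.c0
  have w1 := H.w1
  have Tw : w ≤ T⁻¹ := by rw [inv_eq_one_div, le_div_iff₀ T0]; exact hT
  have η0 := le_max_right (η k) 0
  have Y := H.Y1 Tw
  have vw : w ≤ T⁻¹ + max (η k) 0 := by linarith
  have Z := H.Y1 vw
  have q0 : 0 ≤ 1 - 2 * η k * h := by linarith [H.q0 k hk]
  have q1 : 1 - 2 * η k * h < 1 + 2 * h * T⁻¹ := H.qlt Tw ⟨k, hk⟩
  have ha := H.cm Tw (by linarith)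
  have hb := cm_geom (div_nonneg q0 (by linarith : 0 ≤ 1 + 2 * h * T⁻¹))
    ((div_le_one (by linarith)).2 q1.le)
  have qZ : (1 - 2 * η k * h) * (1 + 2 * h * (T⁻¹ + max (η k) 0)) ≤
      (1 + 2 * h * T⁻¹) * (1 + 2 * h * T⁻¹) := by
    rcases le_total (η k) 0 with e | e
    · rw [max_eq_right e, add_zero]
      exact mul_le_mul_of_nonneg_right q1.le (by linarith)
    · rw [max_eq_left e]
      have := mul_nonneg h0.le e
      nlinarith
  have W0 := Wt_pos (η := η) T0 k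
  have r0 : 0 < √(Wt η T k) := sqrt_pos.2 W0
  have hG : ∀ M, ∑ i ∈ range M, ρ i / (1 + 2 * h * T⁻¹) ^ i *
      ((1 - 2 * η k * h) / (1 + 2 * h * T⁻¹)) ^ i ≤ √(Wt η T k) / (c * h) := fun M => by
    have u := H.up vw hV M
    have u1 : ∑ i ∈ range M, ρ i / (1 + 2 * h * T⁻¹) ^ i *
        ((1 - 2 * η k * h) / (1 + 2 * h * T⁻¹)) ^ i ≤
        ∑ j ∈ range M, ρ j / (1 + 2 * h * (T⁻¹ + max (η k) 0)) ^ j := by
      refine sum_le_sum fun i _ => ?_
      rw [div_pow, div_mul_div_comm, div_le_div_iff₀ (by positivity) (by positivity), mul_assoc,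
        ← mul_pow, ← mul_pow]
      exact mul_le_mul_of_nonneg_left (pow_le_pow_left₀ (by positivity) qZ i) (H.nn i)
    refine u1.trans ?_
    have u2 : √(T⁻¹ + max (η k) 0) = (√(Wt η T k))⁻¹ := by rw [Wt_eq T0, sqrt_inv, inv_inv]
    rw [u2] at u
    generalize ∑ j ∈ range M, ρ j / (1 + 2 * h * (T⁻¹ + max (η k) 0)) ^ j = S at u
    rw [show c * (√(Wt η T k))⁻¹ * (h * S) = S / (√(Wt η T k) / (c * h)) by field_simp,
      div_le_one (by positivity)] at u
    exact u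
  have eK : ∀ m, Kk η h ρ k m = h * (1 + 2 * h * T⁻¹) ^ m * ∑ i ∈ range (m + 1),
      ρ (m - i) / (1 + 2 * h * T⁻¹) ^ (m - i) * ((1 - 2 * η k * h) / (1 + 2 * h * T⁻¹)) ^ i := by
    intro m
    rw [Kk, mul_assoc h, mul_sum _ _ (_ ^ m)]
    congr 1
    refine sum_congr rfl fun i hi => ?_
    obtain ⟨j, rfl⟩ : ∃ j, m = j + i := ⟨m - i, by have := mem_range.1 hi; omega⟩
    rw [Nat.add_sub_cancel, div_pow, pow_add]
    field_simp
  have Y8 : ∀ m : ℕ, m * h ≤ T → (1 + 2 * h * T⁻¹) ^ m ≤ 8 := fun m hm => by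
    refine (pow_le_exp (by linarith) ?_).trans exp_two_le
    rw [show (m : ℝ) * (2 * h * T⁻¹) = 2 * (m * h) / T by ring, div_le_iff₀ T0]
    linarith
  have c1 := fun m => (conv_le ha.anti hb.anti m).trans (hG (m + 1))
  have c2 := conv_step ha hb hG
  have c3 : ∀ m, 0 ≤ ∑ i ∈ range (m + 1), ρ (m - i) / (1 + 2 * h * T⁻¹) ^ (m - i) *
      ((1 - 2 * η k * h) / (1 + 2 * h * T⁻¹)) ^ i :=
    fun m => sum_nonneg fun i _ => mul_nonneg (ha.nn _) (hb.nn _)
  have eG : 8 / c * √(Wt η T k) = h * 8 * (√(Wt η T k) / (c * h)) := by field_simp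
  refine ⟨fun m hm => ?_, fun m hm => ?_⟩
  · rw [eK, eG]
    exact ⟨mul_nonneg (by positivity) (c3 m), mul_le_mul
      (mul_le_mul_of_nonneg_left (Y8 m hm) h0.le) (c1 m) (c3 m) (by positivity)⟩
  · rw [eK, eK, show 80 / c * √(Wt η T k) = 10 * (8 / c * √(Wt η T k)) by ring, eG]
    have d1 := c1 (m + 1)
    have d2 := c2 m
    have d3 := c3 (m + 1)
    have d4 := Y8 m hm
    have d5 : 0 < (1 + 2 * h * T⁻¹) ^ m := by positivity
    have d6 : m * (2 * h * T⁻¹) ≤ 2 := by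
      rw [show (m : ℝ) * (2 * h * T⁻¹) = 2 * (m * h) / T by ring, div_le_iff₀ T0]
      linarith
    generalize ∑ i ∈ range (m + 1 + 1), ρ (m + 1 - i) / (1 + 2 * h * T⁻¹) ^ (m + 1 - i) *
      ((1 - 2 * η k * h) / (1 + 2 * h * T⁻¹)) ^ i = x at *
    generalize ∑ i ∈ range (m + 1), ρ (m - i) / (1 + 2 * h * T⁻¹) ^ (m - i) *
      ((1 - 2 * η k * h) / (1 + 2 * h * T⁻¹)) ^ i = y at *
    generalize √(Wt η T k) / (c * h) = G at *
    have d7 : 0 ≤ 2 * h * T⁻¹ * x := by positivity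
    have d8 : m * |2 * h * T⁻¹ * x + (x - y)| ≤ 10 * G := by
      have a1 := abs_add_le (2 * h * T⁻¹ * x) (x - y)
      rw [abs_of_nonneg d7] at a1
      have a2 := mul_le_mul_of_nonneg_left a1 (Nat.cast_nonneg (α := ℝ) m)
      have a3 := mul_le_mul d6 d1 d3 (by norm_num)
      linarith
    rw [show h * (1 + 2 * h * T⁻¹) ^ (m + 1) * x - h * (1 + 2 * h * T⁻¹) ^ m * y =
      h * (1 + 2 * h * T⁻¹) ^ m * (2 * h * T⁻¹ * x + (x - y)) by rw [pow_succ]; ring, abs_mul,
      abs_of_pos (mul_pos h0 d5)]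
    have := mul_le_mul (mul_le_mul_of_nonneg_left d4 h0.le) d8 (by positivity) (by positivity)
    linarith

theorem b3 {T a : ℝ} {k m : ℕ} (hk : k < n) (a0 : 0 ≤ a) (hh : 2 * h ≤ T) (h1 : T / 2 ≤ m * h)
    (h2 : m * h ≤ T) (hρ : ∀ j : ℕ, T / 4 ≤ j * h → j * h ≤ T → a ≤ ρ j) :
    a * Wt η T k / 8 ≤ Kk η h ρ k m := by
  have h0 := H.h0
  have T0 : 0 < T := by linarith
  have η0 := le_max_right (η k) 0
  have q0 : 0 ≤ 1 - 2 * η k * h := by linarith [H.q0 k hk]
  have δ0 : 0 ≤ 2 * max (η k) 0 * h := by positivity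
  have δ1 : 2 * max (η k) 0 * h ≤ 1 := by
    rcases le_total (η k) 0 with e | e
    · rw [max_eq_right e]; norm_num
    · rw [max_eq_left e]; exact H.q0 k hk
  have δ2 : 1 - 2 * max (η k) 0 * h ≤ 1 - 2 * η k * h := by
    have := mul_le_mul_of_nonneg_right (le_max_left (η k) 0) h0.le
    linarith
  obtain ⟨p, p1, p2⟩ : ∃ p : ℕ, 2 * p ≤ m ∧ m ≤ 2 * p + 1 := ⟨m / 2, by omega, by omega⟩
  have p1' : 2 * (p : ℝ) ≤ m := by exact_mod_cast p1
  have p2' : (m : ℝ) ≤ 2 * p + 1 := by exact_mod_cast p2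
  have g := geom_ge δ0 δ1 (p + 1)
  have s1 : a * ∑ i ∈ range (p + 1), (1 - 2 * max (η k) 0 * h) ^ i ≤
      ∑ i ∈ range (m + 1), ρ (m - i) * (1 - 2 * η k * h) ^ i := by
    refine le_trans ?_ (sum_le_sum_of_subset_of_nonneg
      (range_subset_range.2 (show p + 1 ≤ m + 1 by omega))
      fun i _ _ => mul_nonneg (H.nn _) (pow_nonneg q0 _))
    rw [mul_sum]
    refine sum_le_sum fun i hi => ?_
    have i1 : i ≤ p := Nat.lt_succ_iff.1 (mem_range.1 hi)
    have i2 : (m : ℝ) ≤ 2 * ((m - i : ℕ) : ℝ) := by exact_mod_cast (show m ≤ 2 * (m - i) by omega)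
    have i3 : ((m - i : ℕ) : ℝ) ≤ m := by exact_mod_cast Nat.sub_le m i
    exact mul_le_mul (hρ _ (by nlinarith) (by nlinarith)) (pow_le_pow_left₀ (by linarith) δ2 i)
      (pow_nonneg (by linarith) _) (H.nn _)
  have s0 : 0 ≤ ∑ i ∈ range (p + 1), (1 - 2 * max (η k) 0 * h) ^ i :=
    sum_nonneg fun i _ => pow_nonneg (by linarith) _
  generalize ∑ i ∈ range (p + 1), (1 - 2 * max (η k) 0 * h) ^ i = S at *
  push_cast at g
  have s2 : Wt η T k / 8 ≤ h * S := by
    rw [Wt, div_div, div_le_iff₀ (by positivity)]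
    have b1 : T / 4 ≤ (p + 1) * h := by nlinarith
    have b2 : (p + 1) * h ≤ T := by nlinarith
    have b3 := mul_le_mul_of_nonneg_left g h0.le
    have b4 := mul_le_mul_of_nonneg_right b2 η0
    have b5 := mul_le_mul_of_nonneg_left b4 (mul_nonneg h0.le s0)
    have b6 := mul_nonneg h0.le s0
    nlinarith
  have s3 := mul_le_mul_of_nonneg_left s2 a0
  have s4 := mul_le_mul_of_nonneg_left s1 h0.le
  rw [Kk]
  linarith

end Kern16.Hy

open Kern16

set_option maxHeartbeats 1000000 in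
theorem kernStmt : KernStmt := by
  intro L C w hL hw
  have w1 : 1 ≤ w := by linarith
  obtain ⟨c, hc⟩ : ∃ c : ℝ, c = 1 / 1024000 := ⟨_, rfl⟩
  have c0 : 0 < c := by rw [hc]; norm_num
  obtain ⟨A, hA⟩ : ∃ A, A = 8 / c := ⟨_, rfl⟩
  have A0 : 0 < A := by rw [hA]; positivity
  have C0 := abs_nonneg C
  obtain ⟨e, e0, e1, e2⟩ : ∃ e : ℝ, 0 < e ∧ e ≤ 1 / 2 ∧ (|C| + 1) * A * e ≤ 1 / 4 :=
    ⟨min (1 / 2) (1 / 4 / ((|C| + 1) * A)), by positivity, min_le_left _ _, by
      rw [← le_div_iff₀' (by positivity)]; exact min_le_right _ _⟩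
  obtain ⟨D, D1, D2, D3⟩ : ∃ D, 18 * A ≤ D ∧ 24 * |C| ≤ D ∧ (10 * A) ^ 2 ≤ D :=
    ⟨18 * A + 24 * |C| + (10 * A) ^ 2, by nlinarith, by nlinarith, by linarith⟩
  refine ⟨e / (8 * (|C| + 1)) / 8, D, e ^ 2 / (2 * w), by positivity, by positivity,
    fun u₁ u0 => ?_⟩
  have hu : ∀ u, u ≤ e ^ 2 / (2 * w) → 2 * w * u ≤ e ^ 2 ∧ 4 * w * u ≤ 1 := fun u hu => by
    rw [le_div_iff₀' (by positivity)] at hu
    exact ⟨hu, by nlinarith⟩
  filter_upwards [tendsto_natCast_atTop_atTop.eventually_ge_atTop ((10 + w + u₁⁻¹) ^ 3)]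
    with n hn η hη
  have t3 := Sp.Gap15.sx_cube n
  have tt : tau n = (sx n ^ 2) ^ 2 := by
    unfold tau sx
    rw [← pow_mul, ← Real.rpow_natCast, ← Real.rpow_mul (Nat.cast_nonneg n)]
    norm_num
  have t0 : 0 ≤ sx n ^ 2 := by positivity
  obtain ⟨hG, hτ⟩ := hη
  rw [tt] at hτ
  generalize sx n ^ 2 = t at *
  have ui : 0 < u₁⁻¹ := by positivity
  have tM : 10 + w + u₁⁻¹ ≤ t := by
    rw [← t3] at hn
    exact (pow_le_pow_iff_left₀ (by positivity) t0 three_ne_zero).1 hn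
  have t10 : 10 ≤ t := by linarith
  have tw : w ≤ t ^ 2 := by nlinarith
  have tu : u₁⁻¹ ≤ t ^ 2 := by nlinarith
  have tu' : 1 ≤ t ^ 2 * u₁ := by rwa [inv_le_iff_one_le_mul₀ u0] at tu
  have n0 : (0 : ℝ) < n := by rw [← t3]; positivity
  have ev : ∀ a : ℝ, 0 < a → ∀ᶠ h in 𝓝[>] (0 : ℝ), h * a ≤ 1 := fun a ha => by
    filter_upwards [Ioc_mem_nhdsGT (inv_pos.2 ha)] with h hh
    rw [← le_div_iff₀ ha, one_div]; exact hh.2
  filter_upwards [self_mem_nhdsWithin, ev (20 * t ^ 2) (by positivity),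
    ev ((n : ℝ) ^ 2 * t) (by positivity), ev (2 * u₁⁻¹) (by positivity)] with h h0 h1 h2 h3 ρ hρ
  replace h0 : 0 < h := h0
  have h4 : 2 * h ≤ u₁ := by
    rw [← mul_assoc, ← div_eq_mul_inv, div_le_one u0] at h3; linarith
  have H : Hy n η t ((n : ℝ) ^ 2) h w |C| c (16 * t ^ 2) ρ :=
    { h0 := h0
      κ0 := by positivity
      w1 := w1
      t0 := t0
      c0 := c0
      C0 := C0
      wV := by nlinarith
      Vκ := by
        rw [← t3, show ((t ^ 3) ^ 2) ^ 2 = t ^ 10 * t ^ 2 by ring]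
        have : (10 : ℝ) ^ 10 ≤ t ^ 10 := pow_le_pow_left₀ (by norm_num) t10 10
        nlinarith
      q0 := fun k hk => by
        have := mul_le_mul_of_nonneg_right (hτ k hk) h0.le
        linarith
      ht := by linarith
      ηl := eta_lo hG hw
      lo := fun v a b => hc ▸ Sr_lo hG t3 t0 hL hw v a b
      dn := fun v hv => by
        have := hG.dn v hv
        have := mul_le_mul_of_nonneg_right (le_abs_self C) (sqrt_nonneg v)
        linarith
      ren := ren_of hρ.1 hρ.2 }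
  have A4 : ∀ m : ℕ, u₁ / 4 ≤ m * h → m * h ≤ e ^ 2 / (2 * w) →
      e / (8 * (|C| + 1)) * (√(m * h))⁻¹ ≤ ρ m := fun m a b =>
    H.a4 e0 e1 (hA ▸ e2) (Nat.pos_of_ne_zero (by rintro rfl; simp at a; linarith)) (hu _ b).1
      (by nlinarith)
  refine ⟨fun m hm => ?_, fun T T1 T2 m hm => ?_⟩
  · have m4 := (hu _ hm).2
    have m0 : 0 ≤ m * h := by positivity
    have A2 : h * ∑ i ∈ range (m + 1), ρ i ≤ A * (√(m * h) + t⁻¹) := by
      have ti : t ^ 2 * t⁻¹ ^ 2 = 1 := by field_simp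
      have := H.a2 (m := m) (z := max (m * h) (t⁻¹ ^ 2)) (by positivity) (le_max_left _ _) (by
        rw [mul_max_of_nonneg _ _ (by positivity)]
        refine max_le (by nlinarith) ?_
        have := mul_le_mul_of_nonneg_right tw (sq_nonneg t⁻¹)
        linarith) (by
        have := mul_le_mul_of_nonneg_left (le_max_right (m * h) (t⁻¹ ^ 2)) (sq_nonneg t)
        linarith)
      rw [← hA] at this
      refine this.trans (mul_le_mul_of_nonneg_left ?_ A0.le)
      have := sqrt_nonneg (m * h)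
      have : 0 ≤ t⁻¹ := by positivity
      rcases le_total (m * h) (t⁻¹ ^ 2) with e | e
      · rw [max_eq_right e, sqrt_sq this]; linarith
      · rw [max_eq_left e]; linarith
    refine ⟨H.nn m, H.a1 m4, A2.trans (mul_le_mul_of_nonneg_right (by linarith) (by positivity)),
      fun mp => ?_, fun mu => ⟨?_, fun l hl => ?_⟩⟩
    · have m1 : (0 : ℝ) < m := by exact_mod_cast mp
      have up : 0 < m * h := by positivity
      have b1 := mul_le_mul_of_nonneg_left (H.a3 m4) h0.le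
      have b2 := mul_nonneg h0.le (H.nn m)
      have b3 : ρ m ≤ 2 * A * (√(m * h) + t⁻¹) / (m * h) := by
        rw [le_div_iff₀ up]; linarith
      refine b3.trans ?_
      rw [mul_div_assoc]
      refine mul_le_mul (by linarith) (le_of_eq ?_) (by positivity) (by linarith)
      have r0 := sqrt_pos.2 up
      have r2 := (sq_sqrt up.le).symm
      generalize √(m * h) = r at *
      rw [r2]
      field_simp
    · refine le_trans (mul_le_mul_of_nonneg_right ?_ (by positivity)) (A4 m (by linarith) hm)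
      have : 0 < e / (8 * (|C| + 1)) := by positivity
      linarith
    · have up : 0 < m * h := by linarith
      have mp : 0 < m := Nat.pos_of_ne_zero (by rintro rfl; simp at up)
      have m1 : (0 : ℝ) < m := by exact_mod_cast mp
      have b1 := H.a2 up le_rfl (by linarith) (by nlinarith)
      rw [← hA] at b1
      refine (H.a5 mp m4 hl).trans ?_
      generalize ∑ i ∈ range (m + 1), ρ i = S at *
      have r0 := sqrt_pos.2 up
      have r2 := (sq_sqrt up.le).symm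
      have r3 : (m * h) ^ (-(3 / 2) : ℝ) = √(m * h) / (m * h) ^ 2 := by
        rw [sqrt_eq_rpow, ← rpow_natCast, ← rpow_sub up]
        norm_num
      rw [r3, show l * (18 * S / m ^ 2) = 18 * (h * S) * (l * h / (m * h) ^ 2) by field_simp,
        show D * (l * h) * (√(m * h) / (m * h) ^ 2) = D * √(m * h) * (l * h / (m * h) ^ 2) by ring]
      refine mul_le_mul_of_nonneg_right ?_ (by positivity)
      have := mul_le_mul_of_nonneg_right D1 r0.le
      linarith
  · have T0 : 0 < T := by linarith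
    have T4 := (hu _ T2).2
    refine ⟨(H.b1 T4 (by linarith) hm).trans (mul_le_mul_of_nonneg_right D2 (sqrt_nonneg _)),
      fun k hk => ?_⟩
    obtain ⟨B2, B4⟩ := H.b2 hk T0 (by nlinarith) (by
      have := inv_anti₀ u0 T1
      have := max_le (hτ k hk) (by positivity : 0 ≤ 10 * t ^ 2)
      nlinarith)
    rw [show 80 / c = 10 * A by rw [hA]; ring] at B4
    rw [← hA] at B2
    have W0 := Hy.Wt_pos (η := η) T0 k
    have r0 := sqrt_pos.2 W0
    have r2 : ∀ a, (a * √(Wt η T k)) ^ 2 = a ^ 2 * Wt η T k := fun a => by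
      rw [mul_pow, sq_sqrt W0.le]
    have AD : A ^ 2 * Wt η T k ≤ D * Wt η T k :=
      mul_le_mul_of_nonneg_right (by nlinarith) W0.le
    refine ⟨?_, fun hm2 => ?_, fun l hl mp => ?_⟩
    · have := pow_le_pow_left₀ (B2 m hm).1 (B2 m hm).2 2
      rw [r2] at this
      linarith
    · refine le_trans (le_of_eq ?_) (H.b3 (a := e / (8 * (|C| + 1)) * (√T)⁻¹) hk (by positivity)
        (by linarith) hm2 hm fun j j1 j2 => le_trans ?_ (A4 j (by linarith) (j2.trans T2)))
      · ring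
      · refine mul_le_mul_of_nonneg_left (inv_anti₀ (sqrt_pos.2 (by linarith)) (sqrt_le_sqrt j2))
          (by positivity)
    · have m1 : (0 : ℝ) < m := by exact_mod_cast mp
      rcases le_total ((l : ℝ) / m) 1 with b | b
      · rw [min_eq_right b]
        have key := tele (Kk η h ρ k) m l (10 * A * √(Wt η T k) / m) fun j j1 j2 => by
          have j1' : (m : ℝ) ≤ j := by exact_mod_cast j1
          have j2' : (j : ℝ) ≤ m + l := by exact_mod_cast j2.le
          rw [le_div_iff₀' m1]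
          exact (mul_le_mul_of_nonneg_right j1' (abs_nonneg _)).trans
            (B4 j (le_trans (by gcongr) hl))
        have k2 := pow_le_pow_left₀ (abs_nonneg _) key 2
        rw [sq_abs, show l * (10 * A * √(Wt η T k) / m) = 10 * A * (l / m) * √(Wt η T k) by ring,
          r2] at k2
        refine k2.trans (mul_le_mul_of_nonneg_right ?_ W0.le)
        have b0 : 0 ≤ (l : ℝ) / m := by positivity
        rw [mul_pow, sq ((l : ℝ) / m), ← mul_assoc]
        refine mul_le_mul_of_nonneg_right ?_ b0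
        have := mul_le_mul_of_nonneg_left b (sq_nonneg (10 * A))
        linarith
      · rw [min_eq_left b, mul_one]
        have a1 := B2 m hm
        have a2 := B2 (m + l) (by push_cast; exact hl)
        have := sq_le_sq' (a := Kk η h ρ k (m + l) - Kk η h ρ k m) (b := A * √(Wt η T k))
          (by linarith [a1.2, a2.1]) (by linarith [a1.1, a2.2])
        rw [r2] at this
        linarith

end Crest.Agent.T157.Cq

end
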