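import Crest.Agent.T157.OscDef_27

/-!
# Row 157, part C: linearisation and Duhamel formula of the scheme (helper49)
-/

set_option autoImplicit false

noncomputable section

namespace Crest.Agent.T157.Cq.Osc

open MeasureTheory ProbabilityTheory Matrix Filter Topology Finset Real
open Crest.Agent.T157.E Crest.Agent.T157.St Crest.Agent.T157.Ed

namespace Du49

variable {n : ℕ} (S : Sy n) (p : ℝ × (Fin n → ℝ))

lemma ga_zero (ω : Nz n) : S.ga p 0 ω = p.1 := rfl
lemma be_zero (ω : Nz n) : S.be p 0 ω = p.2 := rfl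
lemma g_eq (j : ℕ) (ω : Nz n) : S.g p j ω = S.ga p (j + 1) ω := rfl
lemma ga_succ (j : ℕ) (ω : Nz n) : S.ga p (j + 1) ω =
    (1 - S.h * S.κ * S.t) * S.ga p j ω + S.h * S.κ * ∑ k, S.be p j ω k ^ 2 := rfl
lemma be_succ (j : ℕ) (ω : Nz n) (k : Fin n) : S.be p (j + 1) ω k =
    √(S.q k) * S.be p j ω k + √(2 * S.h * S.g p j ω) * ω j k := rfl

lemma meas_st (j : ℕ) : Measurable (S.st p j) := by
  induction j with
  | zero => exact measurable_const
  | succ j ih =>
    have h1 : Measurable fun ω => (S.st p j ω).1 := ih.fst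
    have h2 : ∀ k, Measurable fun ω => (S.st p j ω).2 k := fun k =>
      (measurable_pi_apply k).comp ih.snd
    have h3 : Measurable fun ω => (1 - S.h * S.κ * S.t) * (S.st p j ω).1 +
        S.h * S.κ * ∑ k, (S.st p j ω).2 k ^ 2 :=
      (h1.const_mul _).add ((Finset.measurable_sum _ fun k _ => (h2 k).pow_const 2).const_mul _)
    refine h3.prodMk (measurable_pi_lambda _ fun k => ((h2 k).const_mul _).add ?_)
    exact (h3.const_mul _).sqrt.mul ((measurable_pi_apply k).comp (measurable_pi_apply j))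

lemma ad_st (j : ℕ) : Ad j (S.st p j) := by
  induction j with
  | zero => exact fun _ _ _ => rfl
  | succ j ih =>
    intro ω ω' h
    have h1 := ih ω ω' fun l hl => h l (by omega)
    have h2 := h j (by omega)
    simp only [Sy.st, h1, h2]

lemma ad_g (j : ℕ) : Ad j (S.g p j) := by
  intro ω ω' h
  have h1 := ad_st S p j ω ω' h
  simp only [Sy.g, Sy.st, h1]

variable {S p}

lemma ga_pos (hS : S.Bas) (hp : 0 < p.1) (j : ℕ) (ω : Nz n) : 0 < S.ga p j ω := by
  induction j with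
  | zero => exact hp
  | succ j ih =>
    rw [ga_succ]
    have h1 := hS.h0
    have h2 := hS.k0
    have h3 : 0 < 1 - S.h * S.κ * S.t := sub_pos.2 hS.t1
    positivity

lemma xs_eq (hS : S.Bas) (hp : 0 < p.1) (j : ℕ) (ω : Nz n) :
    XS n S.η S.t S.κ S.h (fun k => p.2 k / √p.1) j ω =
      fun k => S.be p j ω k / √(S.ga p j ω) := by
  induction j with
  | zero => rfl
  | succ j ih =>
    have g0 := ga_pos hS hp j ω
    have g1 := ga_pos hS hp (j + 1) ω
    have s0 := sqrt_pos.2 g0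
    have s1 := sqrt_pos.2 g1
    have e : 1 + S.h * S.κ * ((fun k => S.be p j ω k / √(S.ga p j ω)) ⬝ᵥ
        (fun k => S.be p j ω k / √(S.ga p j ω)) - S.t) = S.ga p (j + 1) ω / S.ga p j ω := by
      have : (fun k => S.be p j ω k / √(S.ga p j ω)) ⬝ᵥ (fun k => S.be p j ω k / √(S.ga p j ω)) =
          (∑ k, S.be p j ω k ^ 2) / S.ga p j ω := by
        rw [dotProduct, sum_div]
        refine sum_congr rfl fun k _ => ?_
        rw [div_mul_div_comm, mul_self_sqrt g0.le, sq]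
      rw [this, ga_succ]
      field_simp
      ring
    funext k
    rw [XS, ih, Pi.add_apply, Pi.smul_apply, smul_eq_mul, Fs, e, be_succ, g_eq,
      sqrt_div g1.le, sqrt_mul' (2 * S.h) g1.le, Sy.q]
    field_simp

lemma K_zero (hS : S.Bas) (k : Fin n) : S.K k 0 = S.h * S.κ := by
  simp [Sy.K, Kk, hS.rho.1]

lemma K_succ (S : Sy n) (k : Fin n) (m : ℕ) :
    S.K k (m + 1) = S.h * S.ρ (m + 1) + S.q k * S.K k m := by
  simp only [Sy.K, Kk, Sy.q]
  rw [sum_range_succ' _ (m + 1)]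
  simp only [Nat.add_sub_add_right, Nat.sub_zero, pow_zero, mul_one, pow_succ, mul_add, mul_sum]
  rw [add_comm]
  congr 1
  exact sum_congr rfl fun i _ => by ring

lemma rho_succ (hS : S.Bas) (m : ℕ) :
    S.ρ (m + 1) = (1 - S.h * S.κ * S.t) * S.ρ m + 2 * S.h * S.κ * ∑ k, S.K k m := by
  rw [hS.rho.2 m]
  congr 1
  have : ∑ k, S.K k m = S.h * ∑ i ∈ range (m + 1), fm n S.η S.h (m - i) * S.ρ i := by
    simp only [Sy.K, Kk, fm, ← mul_sum]
    congr 1
    rw [sum_comm, ← sum_range_reflect]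
    refine sum_congr rfl fun i hi => ?_
    have hi' := mem_range.1 hi
    rw [← mul_sum, mul_comm, show m + 1 - 1 - i = m - i by omega, show m - (m - i) = i by omega]
  rw [this]
  ring

lemma be_sq (hS : S.Bas) (hp : 0 < p.1) (j : ℕ) (ω : Nz n) (k : Fin n) :
    S.be p (j + 1) ω k ^ 2 = S.q k * S.be p j ω k ^ 2 + 2 * S.h * S.g p j ω +
      (S.ca p j ω k * ω j k + S.cc p j ω * (ω j k ^ 2 - 1)) := by
  have g1 : 0 ≤ 2 * S.h * S.g p j ω := by
    have := ga_pos hS hp (j + 1) ω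
    have := hS.h0
    rw [g_eq]; positivity
  have a := sq_sqrt g1
  have b := sq_sqrt (hS.q0 k)
  rw [be_succ, Sy.ca, Sy.cc]
  linear_combination S.be p j ω k ^ 2 * b + ω j k ^ 2 * a

lemma duh (hS : S.Bas) (hp : 0 < p.1) (j : ℕ) (ω : Nz n) (i : ℕ) (hi : i ≤ j) :
    (1 - S.h * S.κ * S.t) * S.ρ (j - i) / S.κ * S.ga p i ω + ∑ k, S.K k (j - i) * S.be p i ω k ^ 2 =
      S.gb p j + ∑ l ∈ range i, inc (fun k => S.K k (j - 1 - l) * S.ca p l ω k)
        (fun k => S.K k (j - 1 - l) * S.cc p l ω) (ω l) := by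
  induction i with
  | zero => simp [Sy.gb, ga_zero, be_zero]
  | succ i ih =>
    obtain ⟨m, rfl⟩ : ∃ m, j = i + 1 + m := ⟨j - (i + 1), by omega⟩
    have k0 := hS.k0
    rw [sum_range_succ, ← add_assoc, ← ih (by omega), show i + 1 + m - (i + 1) = m by omega,
      show i + 1 + m - i = m + 1 by omega, show i + 1 + m - 1 - i = m by omega]
    have e1 : ∑ k, S.K k m * S.be p (i + 1) ω k ^ 2 =
        ∑ k, S.q k * S.K k m * S.be p i ω k ^ 2 + 2 * S.h * S.g p i ω * ∑ k, S.K k m +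
          inc (fun k => S.K k m * S.ca p i ω k) (fun k => S.K k m * S.cc p i ω) (ω i) := by
      rw [inc, mul_sum, ← sum_add_distrib, ← sum_add_distrib]
      exact sum_congr rfl fun k _ => by rw [be_sq hS hp]; ring
    have e2 : ∑ k, S.K k (m + 1) * S.be p i ω k ^ 2 =
        S.h * S.ρ (m + 1) * ∑ k, S.be p i ω k ^ 2 + ∑ k, S.q k * S.K k m * S.be p i ω k ^ 2 := by
      rw [mul_sum, ← sum_add_distrib]
      exact sum_congr rfl fun k _ => by rw [K_succ]; ring
    have e3 : (1 - S.h * S.κ * S.t) * S.ρ m / S.κ + 2 * S.h * ∑ k, S.K k m = S.ρ (m + 1) / S.κ := by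
      rw [rho_succ hS]; field_simp
    have e4 : S.ρ (m + 1) / S.κ * S.ga p (i + 1) ω =
        (1 - S.h * S.κ * S.t) * S.ρ (m + 1) / S.κ * S.ga p i ω +
          S.h * S.ρ (m + 1) * ∑ k, S.be p i ω k ^ 2 := by
      rw [ga_succ]; field_simp
    rw [e1, e2, g_eq]
    linear_combination S.ga p (i + 1) ω * e3 + e4

end Du49

theorem duStmt : DuStmt := by
  intro n S p hS hp
  refine ⟨fun j => ⟨Du49.meas_st S p j, Du49.ad_st S p j, Du49.ad_g S p j⟩,
    fun j ω => ⟨Du49.ga_pos hS hp j ω, Du49.xs_eq hS hp j ω⟩,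
    fun i j ω h => Du49.duh hS hp j ω i h, fun j ω => ?_⟩
  rw [← Du49.duh hS hp j ω j le_rfl, Nat.sub_self, Du49.g_eq, Du49.ga_succ, hS.rho.1,
    mul_div_assoc, div_self hS.k0.ne', mul_one, mul_sum]
  simp only [Du49.K_zero hS]

end Crest.Agent.T157.Cq.Osc

end
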