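import Crest.Agent.T157.OscDef_27

/-!
# Row 157, part C (helper22): the oscillation lemma, final glue
-/

set_option autoImplicit false

noncomputable section

namespace Crest.Agent.T157.Cq.Osc

open MeasureTheory ProbabilityTheory Matrix Filter Topology Finset Real
open Crest.Agent.T157.E Crest.Agent.T157.St Crest.Agent.T157.Ed

variable {n : ℕ}

namespace F22

/-- the renewal sequence -/
def rho (a b κ : ℝ) (f : ℕ → ℝ) : ℕ → ℝ
  | 0 => κ
  | j + 1 => a * rho a b κ f j + b * ∑ i : Fin (j + 1), f (j - i) * rho a b κ f i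
decreasing_by all_goals omega

theorem exists_rho (n : ℕ) (η : ℕ → ℝ) (t κ h : ℝ) : ∃ ρ, IsRho n η t κ h ρ := by
  refine ⟨rho (1 - h * κ * t) (2 * h ^ 2 * κ) κ (fm n η h), by rw [rho], fun j => ?_⟩
  rw [rho, Fin.sum_univ_eq_sum_range
    (fun i => fm n η h (j - i) * rho (1 - h * κ * t) (2 * h ^ 2 * κ) κ (fm n η h) i)]

theorem int_le {F : Nz n → ℝ} {c : ℝ} (hF : EB F c) (h0 : ∀ ω, 0 ≤ F ω) (hm : Measurable F)
    (hc : 0 ≤ c) : ∫ ω, F ω ∂PP n ≤ c := by
  rw [integral_eq_lintegral_of_nonneg_ae (ae_of_all _ h0) hm.aestronglyMeasurable]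
  exact ENNReal.toReal_le_of_le_ofReal hc hF

theorem eb_ind {B : Set (Nz n)} (hB : MeasurableSet B) {c : ℝ} (h : (PP n).real B ≤ c) :
    EB (B.indicator fun _ => (1 : ℝ)) c := by
  have : (fun ω => ENNReal.ofReal (B.indicator (fun _ => (1 : ℝ)) ω)) = B.indicator 1 := by
    ext ω; by_cases hω : ω ∈ B <;> simp [hω]
  rw [EB, this, lintegral_indicator_one hB, ← ENNReal.ofReal_toReal (measure_ne_top (PP n) B)]
  exact ENNReal.ofReal_le_ofReal h

theorem abs_le_th {u θ : ℝ} (hθ : 0 < θ) : |u| ≤ θ + θ⁻¹ * u ^ 2 := by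
  rw [← sq_abs, ← mul_le_mul_iff_right₀ hθ, mul_add, mul_inv_cancel_left₀ hθ.ne']
  nlinarith [sq_nonneg (|u| - θ), abs_nonneg u]

theorem abs_div_sub {b b' g g' R : ℝ} (hg : 1 ≤ g) (hg' : 1 ≤ g') (hR : |b'| ≤ R) :
    |b / √g - b' / √g'| ≤ |b - b'| + R * |g - g'| := by
  have s : 1 ≤ √g := one_le_sqrt.2 hg
  have s' : 1 ≤ √g' := one_le_sqrt.2 hg'
  have e : b / √g - b' / √g' = (b - b') / √g + b' * ((g' - g) / (√g * √g' * (√g + √g'))) := by
    have h1 : g = √g ^ 2 := (sq_sqrt (by linarith)).symm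
    have h2 : g' = √g' ^ 2 := (sq_sqrt (by linarith)).symm
    generalize √g = x at *
    generalize √g' = y at *
    rw [h1, h2]; field_simp; ring
  rw [e]
  refine (abs_add_le _ _).trans (add_le_add ?_ ?_)
  · rw [abs_div, abs_of_pos (by linarith : 0 < √g)]; exact div_le_self (abs_nonneg _) s
  · rw [abs_mul, abs_div, abs_sub_comm g']
    refine mul_le_mul hR (div_le_self (abs_nonneg _) ?_) (by positivity) ((abs_nonneg _).trans hR)
    exact le_trans (by nlinarith [one_le_mul_of_one_le_of_one_le s s']) (le_abs_self _)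

section meas

variable {S : Sy n} {p p' : ℝ × (Fin n → ℝ)} (hp : ∀ j, Measurable (S.st p j))
include hp

theorem m_be (j : ℕ) (k : Fin n) : Measurable fun ω => S.be p j ω k :=
  (measurable_pi_apply k).comp (measurable_snd.comp (hp j))

theorem m_g (j : ℕ) : Measurable (S.g p j) := measurable_fst.comp (hp (j + 1))

theorem m_good (T Z : ℝ) (i : ℕ) : MeasurableSet {ω | S.Good T Z p i ω} :=
  (measurableSet_le (Finset.measurable_sum _ fun k _ => ((m_be hp i k).pow_const 2).const_mul _)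
    measurable_const).inter (measurableSet_le ((m_g hp i).sub_const _).abs measurable_const)

theorem m_bad (T Z : ℝ) (N : ℕ) : MeasurableSet {ω | ∃ i, i < N ∧ ¬ S.Good T Z p i ω} := by
  rw [Set.setOf_exists]
  exact MeasurableSet.iUnion fun i => (MeasurableSet.const _).inter (m_good hp T Z i).compl

theorem m_ok (hp' : ∀ j, Measurable (S.st p' j)) (T Z : ℝ) (N : ℕ) :
    MeasurableSet (S.Ok T Z p p' N) := by
  rw [Sy.Ok, Set.setOf_forall]
  exact MeasurableSet.iInter fun i =>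
    (MeasurableSet.const _).imp ((m_good hp T Z i).inter (m_good hp' T Z i))

end meas

/-- the coupling bound at one time -/
theorem main (hU : UsStmt) (hD : DuStmt) {S : Sy n} (hS : S.Bas) {C₁ σ T Z R A B Λ θ : ℝ}
    {M j m : ℕ} {p p' : ℝ × (Fin n → ℝ)} (hp : S.Ini C₁ σ M p) (hp' : S.Ini C₁ σ M p')
    (hT : 0 < T) (hσ : 0 ≤ σ) (hθ : 0 < θ) (hΛ : 0 ≤ Λ) (hA : 0 ≤ A) (hB : 0 ≤ B) (hR : 0 ≤ R)
    (hj : j ≤ M) (hσj : σ ^ 4 ≤ j * S.h)
    (hW : ∀ k : Fin n, (k : ℕ) < m → Z ≤ R ^ 2 * Wt S.η T k)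
    (b1 : (PP n).real {ω | ∃ i, i < j + 2 ∧ ¬ S.Good T Z p i ω} ≤ B)
    (b2 : (PP n).real {ω | ∃ i, i < j + 2 ∧ ¬ S.Good T Z p' i ω} ≤ B)
    (c1 : EB ((S.Ok T Z p p' j).indicator fun ω =>
      ((S.g p j ω - S.gb p j) - (S.g p' j ω - S.gb p' j)) ^ 2) A)
    (c2 : ∀ k, EB ((S.Ok T Z p p' (j + 1)).indicator fun ω =>
      (S.be p (j + 1) ω k - S.be p' (j + 1) ω k) ^ 2) A)
    {v : (Fin n → ℝ) → ℝ} (hv : Cyl m Λ v) :
    |(Us n S.η S.t S.κ S.h)^[j + 1] v (fun k => p.2 k / √p.1) -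
      (Us n S.η S.t S.κ S.h)^[j + 1] v (fun k => p'.2 k / √p'.1)| ≤
      4 * B + Λ * (m * (θ + R * (θ + 2 * σ) + (θ⁻¹ * A + R * θ⁻¹ * A))) := by
  obtain ⟨m1, d1, -⟩ := hD n S p hS hp.g0
  obtain ⟨m2, d2, -⟩ := hD n S p' hS hp'.g0
  have m1 : ∀ j, Measurable (S.st p j) := fun j => (m1 j).1
  have m2 : ∀ j, Measurable (S.st p' j) := fun j => (m2 j).1
  obtain ⟨x1, u1⟩ := hU n S.η S.t S.κ S.h (fun k => p.2 k / √p.1) (j + 1)
  obtain ⟨x2, u2⟩ := hU n S.η S.t S.κ S.h (fun k => p'.2 k / √p'.1) (j + 1)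
  have mv1 := hv.1.1.comp x1
  have mv2 := hv.1.1.comp x2
  have bd : ∀ {X : Nz n → Fin n → ℝ}, Measurable (v ∘ X) → Integrable (fun ω => v (X ω)) (PP n) :=
    fun hX => Integrable.of_bound hX.aestronglyMeasurable 1 (ae_of_all _ fun ω => hv.1.2 _)
  rw [u1 v hv.1, u2 v hv.1, ← integral_sub (bd mv1) (bd mv2)]
  have i0 := inv_pos.2 hθ
  refine (abs_integral_le_integral_abs).trans (int_le ?_ (fun _ => abs_nonneg _) (mv1.sub mv2).abs
    (by positivity))
  set s := univ.filter fun k : Fin n => (k : ℕ) < m with hs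
  have hsm : (s.card : ℝ) ≤ m := by
    have : s.card ≤ (range m).card := card_le_card_of_injOn (fun k => (k : ℕ))
      (fun k hk => by simpa [hs] using hk) fun a _ b _ e => Fin.ext e
    exact_mod_cast this.trans_eq (card_range m)
  have mo := m_ok m1 m2 T Z
  have ma : ∀ k, Measurable ((S.Ok T Z p p' (j + 1)).indicator fun ω =>
      (S.be p (j + 1) ω k - S.be p' (j + 1) ω k) ^ 2) := fun k =>
    (((m_be m1 _ k).sub (m_be m2 _ k)).pow_const 2).indicator (mo _)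
  have mb : Measurable ((S.Ok T Z p p' j).indicator fun ω =>
      ((S.g p j ω - S.gb p j) - (S.g p' j ω - S.gb p' j)) ^ 2) :=
    ((((m_g m1 j).sub_const _).sub ((m_g m2 j).sub_const _)).pow_const 2).indicator (mo _)
  have e1 := ((eb_ind (m_bad m1 T Z _) b1).add (eb_ind (m_bad m2 T Z _) b2)
    (measurable_const.indicator (m_bad m1 T Z _)) hB hB).smul zero_le_two
  have e2 := (EB.sum s (fun k _ => (EB.const (θ + R * (θ + 2 * σ))).add
    (((c2 k).smul i0.le).add (c1.smul (mul_nonneg hR i0.le)) ((ma k).const_mul _) (by positivity)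
      (by positivity)) measurable_const (by positivity) (by positivity))
    (fun k _ => (((ma k).const_mul _).add (mb.const_mul _)).const_add _)
    (fun k _ => by positivity)).smul hΛ
  refine (e1.add e2 (((measurable_const.indicator (m_bad m1 T Z _)).add
    (measurable_const.indicator (m_bad m2 T Z _))).const_mul _) (by positivity)
    (mul_nonneg hΛ (sum_nonneg fun _ _ => by positivity))).mono (fun ω => ?_) ?_
  · have n1 : ∀ (Q : Set (Nz n)) (f : Nz n → ℝ), 0 ≤ Q.indicator (fun ω => f ω ^ 2) ω :=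
      fun Q f => Set.indicator_nonneg (fun _ _ => sq_nonneg _) _
    have n2 : ∀ Q : Set (Nz n), 0 ≤ Q.indicator (fun _ => (1 : ℝ)) ω :=
      fun Q => Set.indicator_nonneg (fun _ _ => zero_le_one) _
    by_cases hω : ω ∈ S.Ok T Z p p' (j + 2)
    · refine le_add_of_nonneg_of_le (mul_nonneg zero_le_two (add_nonneg (n2 _) (n2 _)))
        ((hv.2 _ _).trans (mul_le_mul_of_nonneg_left (sum_le_sum fun k hk => ?_) hΛ))
      rw [(d1 _ ω).2, (d2 _ ω).2,
        Set.indicator_of_mem (show ω ∈ S.Ok T Z p p' (j + 1) from fun i hi => hω i (by omega)),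
        Set.indicator_of_mem (show ω ∈ S.Ok T Z p p' j from fun i hi => hω i (by omega))]
      obtain ⟨⟨-, g1⟩, -, g2⟩ := hω j (by omega)
      obtain ⟨-, g3, -⟩ := hω (j + 1) (by omega)
      have l1 := hp.lo j hj hσj
      have l2 := hp'.lo j hj hσj
      have w0 : ∀ k : Fin n, 0 < Wt S.η T k := fun k =>
        div_pos hT (by have := le_max_right (S.η k) 0; positivity)
      have hb : |S.be p' (j + 1) ω k| ≤ R := by
        refine abs_le_of_sq_le_sq' ?_ hR |> abs_le.2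
        have := (single_le_sum (f := fun k : Fin n => Wt S.η T k * S.be p' (j + 1) ω k ^ 2)
          (fun k _ => mul_nonneg (w0 k).le (sq_nonneg _)) (mem_univ k)).trans g3
        have h2 := hW k (mem_filter.1 hk).2
        exact le_of_mul_le_mul_left (by linarith) (w0 k)
      refine (abs_div_sub (g := S.g p j ω) (g' := S.g p' j ω) (by linarith [(abs_le.1 g1).1])
        (by linarith [(abs_le.1 g2).1]) hb).trans ?_
      have a1 := abs_le_th (u := S.be p (j + 1) ω k - S.be p' (j + 1) ω k) hθ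
      have a2 := abs_le_th (u := (S.g p j ω - S.gb p j) - (S.g p' j ω - S.gb p' j)) hθ
      have a3 : |S.g p j ω - S.g p' j ω| ≤
          |(S.g p j ω - S.gb p j) - (S.g p' j ω - S.gb p' j)| + 2 * σ := by
        have k1 := abs_le.1 (hp.cl j hj hσj)
        have k2 := abs_le.1 (hp'.cl j hj hσj)
        have k3 := le_abs_self ((S.g p j ω - S.gb p j) - (S.g p' j ω - S.gb p' j))
        have k4 := neg_abs_le ((S.g p j ω - S.gb p j) - (S.g p' j ω - S.gb p' j))
        exact abs_le.2 ⟨by linarith [k1.1, k2.2], by linarith [k1.2, k2.1]⟩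
      nlinarith [mul_le_mul_of_nonneg_left (a3.trans (add_le_add_left a2 _)) hR]
    · refine le_add_of_le_of_nonneg ?_ (mul_nonneg hΛ (sum_nonneg fun k _ => by
        have := n1 (S.Ok T Z p p' (j + 1)) fun ω => S.be p (j + 1) ω k - S.be p' (j + 1) ω k
        have := n1 (S.Ok T Z p p' j) fun ω => (S.g p j ω - S.gb p j) - (S.g p' j ω - S.gb p' j)
        positivity))
      have h2 : ∀ x y, |v x - v y| ≤ 2 * 1 := fun x y =>
        (abs_sub _ _).trans (by linarith [hv.1.2 x, hv.1.2 y])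
      refine (h2 _ _).trans (mul_le_mul_of_nonneg_left ?_ zero_le_two)
      simp only [Sy.Ok, Set.mem_setOf_eq, not_forall, not_and_or] at hω
      obtain ⟨i, hi, h | h⟩ := hω
      · rw [Set.indicator_of_mem (show ω ∈ {ω | ∃ i, i < j + 2 ∧ ¬ S.Good T Z p i ω} from
          ⟨i, hi, h⟩)]
        exact le_add_of_nonneg_right (n2 _)
      · rw [Set.indicator_of_mem (show ω ∈ {ω | ∃ i, i < j + 2 ∧ ¬ S.Good T Z p' i ω} from
          ⟨i, hi, h⟩)]
        exact le_add_of_nonneg_left (n2 _)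
  · rw [sum_const, nsmul_eq_mul]
    have : 0 ≤ θ + R * (θ + 2 * σ) + (θ⁻¹ * A + R * θ⁻¹ * A) := by positivity
    nlinarith [mul_le_mul_of_nonneg_left (mul_le_mul_of_nonneg_right hsm this) hΛ]

theorem pow_le_two {L h T : ℝ} {q : ℝ} {i : ℕ} (hq : 0 ≤ q) (h1 : q ≤ 1 + 2 * L * h) (hL : 0 ≤ L)
    (hi : i * h ≤ 2 * T) (hT : 8 * L * T ≤ 1) : q ^ i ≤ 2 := by
  have h2 : q ^ i ≤ exp (2 * L * h) ^ i :=
    pow_le_pow_left₀ hq (h1.trans (by linarith [add_one_le_exp (2 * L * h)])) i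
  rw [← exp_nat_mul] at h2
  have h3 : exp (i * (2 * L * h)) ≤ exp (1 / 2) := exp_le_exp.2 (by nlinarith)
  have h4 : exp (1 / 2) ≤ 2 := by
    have : exp (1 / 2) ^ 2 ≤ 2 ^ 2 := by
      rw [← exp_nat_mul]; norm_num; linarith [exp_one_lt_d9]
    exact (pow_le_pow_iff_left₀ (exp_pos _).le zero_le_two two_ne_zero).1 this
  linarith

theorem ev_small {f : ℝ → ℝ} (hf : Continuous f) (h0 : f 0 = 0) {c : ℝ} (hc : 0 < c) :
    ∀ᶠ h in 𝓝[>] (0 : ℝ), f h < c :=
  nhdsWithin_le_nhds ((hf.tendsto' 0 0 h0).eventually_lt_const hc)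

end F22

open F22

set_option maxHeartbeats 1000000 in
theorem finGlue : FinGlue := by
  intro hU hD hK hS hC hKern L C w ε hL hw hε
  obtain ⟨c, D₀, u₀, hc, hu₀, hKe⟩ := hKern L C w hL hw
  obtain ⟨D, hD0, hDD⟩ : ∃ D, 0 ≤ D ∧ D₀ ≤ D := ⟨max D₀ 0, le_max_right _ _, le_max_left _ _⟩
  have up : ∀ {x y : ℝ}, x ≤ D₀ * y → 0 ≤ y → x ≤ D * y := fun h hy =>
    h.trans (mul_le_mul_of_nonneg_right hDD hy)
  obtain ⟨C₁, hC₁, hK⟩ := hK L D hL hD0
  obtain ⟨D₁, hS⟩ := hS c D C₁ hc hD0 hC₁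
  have hZ : 0 ≤ C₁ / c := by positivity
  obtain ⟨D₂, T₀, hD₂, hT₀, hC⟩ := hC c D C₁ (C₁ / c) hD0 hC₁ hZ
  obtain ⟨T₁, hT₁, t1, t2, t3, t4, t5, t6⟩ : ∃ T₁ : ℝ, 0 < T₁ ∧ T₁ ≤ u₀ ∧ T₁ ≤ 1 ∧ T₁ ≤ T₀ ∧
      T₁ ≤ (c / 3) ^ 2 ∧ 8 * L * T₁ ≤ 1 ∧ 8 * |D₁| * T₁ ≤ ε := by
    have e1 := ev_small (f := fun x => 8 * L * x) (by fun_prop) (by simp) one_pos
    have e2 := ev_small (f := fun x => 8 * |D₁| * x) (by fun_prop) (by simp) hε
    have e3 := fun {c : ℝ} (hc : 0 < c) => ev_small continuous_id rfl hc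
    obtain ⟨x, h0, h1, h2, h3, h4, h5, h6⟩ := (eventually_mem_nhdsWithin.and ((e3 hu₀).and
      ((e3 one_pos).and ((e3 hT₀).and ((e3 (by positivity : 0 < (c / 3) ^ 2)).and
      (e1.and e2)))))).exists
    exact ⟨x, h0, h1.le, h2.le, h3.le, h4.le, h5.le, h6.le⟩
  refine ⟨T₁ / 6, by positivity, fun τ hτ hτ1 m Λ₀ => ?_⟩
  obtain ⟨T, hT⟩ : ∃ T, T = 6 * τ := ⟨_, rfl⟩
  have T0 : 0 < T := by linarith
  have TT : T ≤ T₁ := by linarith
  obtain ⟨Λ, hΛ, hΛΛ⟩ : ∃ Λ, 0 ≤ Λ ∧ Λ₀ ≤ Λ := ⟨max Λ₀ 0, le_max_right _ _, le_max_left _ _⟩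
  obtain ⟨E, hE⟩ : ∃ E : ℝ, E = 60 * ((m : ℝ) + 1) ^ (2 / 3 : ℝ) + L := ⟨_, rfl⟩
  have E0 : 0 ≤ E := by rw [hE]; positivity
  obtain ⟨R, hR⟩ : ∃ R : ℝ, R = √(C₁ / c * ((1 + T * E) / T)) := ⟨_, rfl⟩
  have R0 : 0 ≤ R := hR ▸ sqrt_nonneg _
  obtain ⟨θ, hθ, θ1, θ2, θ3⟩ : ∃ θ : ℝ, 0 < θ ∧ θ < 1 ∧ θ < τ / 8 ∧
      Λ * (m * (θ + R * (θ + 2 * θ ^ 2) + (D₂ * θ + R * (D₂ * θ)))) < ε / 2 := by
    have e1 := ev_small (f := fun θ => Λ * (m * (θ + R * (θ + 2 * θ ^ 2) + (D₂ * θ + R * (D₂ * θ)))))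
      (by fun_prop) (by simp) (half_pos hε)
    have e3 := fun {c : ℝ} (hc : 0 < c) => ev_small continuous_id rfl hc
    exact (eventually_mem_nhdsWithin.and ((e3 one_pos).and ((e3 (by positivity : 0 < τ / 8)).and
      e1))).exists
  obtain ⟨σ, hσ⟩ : ∃ σ, σ = θ ^ 2 := ⟨_, rfl⟩
  have σ0 : 0 < σ := by rw [hσ]; positivity
  have σθ : σ ≤ θ := by rw [hσ]; nlinarith
  have σ1 : σ ≤ 1 := by linarith
  have σ2 : σ ^ 2 ≤ τ / 8 := by nlinarith
  have σ4 : σ ^ 4 ≤ τ / 8 := (pow_le_pow_of_le_one σ0.le σ1 (by norm_num)).trans σ2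
  obtain ⟨ρ₁, δ, hρ₁, hδ, hK⟩ := hK σ σ0 σ1
  refine ⟨ρ₁, δ, hρ₁, hδ, fun a ha => ?_⟩
  filter_upwards [hK a ha, hKe (σ ^ 4) (by positivity), eventually_ge_atTop (8 * (m + 1))]
    with n hK hKe hn η hη
  have n0 : (0 : ℝ) < n := by exact_mod_cast (by omega : 0 < n)
  have lo : ∀ k, k < n → -L ≤ η k := fun k hk => by
    have := hη.1.lo k hk
    have : 0 ≤ ((k : ℝ) + 1) ^ (2 / 3 : ℝ) / 256 := by positivity
    linarith
  filter_upwards [hK η fun k hk => ⟨lo k hk, hη.2 k hk⟩, hKe η hη, self_mem_nhdsWithin,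
    ev_small (f := fun h => h * (n : ℝ) ^ 2 * sx n ^ 2) (by fun_prop) (by simp) one_pos,
    ev_small (f := fun h => 2 * (10 * tau n) * h) (by fun_prop) (by simp) one_pos,
    ev_small (f := fun h => C₁ * √h * n) (by fun_prop) (by simp) one_pos,
    ev_small continuous_id rfl (by positivity : 0 < σ ^ 4)] with h hK hKe h0 h1 h2 h3 h4
  intro v hv x y hx hy j hj1 hj2
  replace h0 : 0 < h := h0
  replace h4 : h < σ ^ 4 := h4
  obtain ⟨ρ, hρ⟩ := exists_rho n η (sx n ^ 2) ((n : ℝ) ^ 2) h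
  obtain ⟨k1, k2⟩ := hKe ρ hρ
  replace k2 := k2 T (by linarith) (by linarith)
  obtain ⟨M, hM⟩ : ∃ M, M = ⌊T / h⌋₊ := ⟨_, rfl⟩
  have Mu : (M : ℝ) * h ≤ T := (le_div_iff₀ h0).1 (hM ▸ Nat.floor_le (by positivity))
  have Ml : T ≤ (M + 1) * h := (div_le_iff₀ h0).1 (hM ▸ (Nat.lt_floor_add_one _).le)
  have mh : ∀ i : ℕ, i ≤ M → (i : ℝ) * h ≤ T := fun i hi =>
    (mul_le_mul_of_nonneg_right (Nat.cast_le.2 hi) h0.le).trans Mu
  have w0 : ∀ k : ℕ, 0 < Wt η T k := fun k =>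
    div_pos T0 (by have := le_max_right (η k) 0; positivity)
  set S : Sy n := ⟨η, sx n ^ 2, (n : ℝ) ^ 2, h, ρ⟩ with hSd
  have q0 : ∀ k, 0 ≤ S.q k := fun k => by
    have := mul_le_mul_of_nonneg_right (hη.2 k k.2) h0.le
    change 0 ≤ 1 - 2 * η k * h
    linarith
  have bas : S.Bas := ⟨h0, by positivity, h1, q0, hρ⟩
  have par : S.Par c D C₁ T M :=
    { toBas := bas
      T0 := T0
      T1 := by linarith
      hT := by change h ≤ T; linarith
      Mu := Mu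
      Ml := Ml
      sm := h3.le
      q2 := fun k i hi => pow_le_two (L := L) (h := h) (T := T) (q0 k) (by
          have := mul_le_mul_of_nonneg_right (lo k k.2) h0.le
          change 1 - 2 * η k * h ≤ _
          linarith) hL (by
          have : (i : ℝ) ≤ M + 1 := by exact_mod_cast hi
          nlinarith) (by nlinarith)
      r0 := fun i hi => (k1 i (by linarith [mh i hi])).1
      ka := by
        refine (up (k2 M Mu).1 (sqrt_nonneg _)).trans ?_
        have : √((M + 1) * h) ≤ 2 * √T := by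
          rw [sqrt_le_left (by positivity), mul_pow, sq_sqrt T0.le]; linarith
        nlinarith
      Ku := fun k i hi => up ((k2 i (mh i hi)).2 k k.2).1 (w0 k).le
      Kl := fun k i hi => ((k2 i (mh i hi)).2 k k.2).2.1
      Kd := fun k i l hi h0' => by
        have := ((k2 i (mh i (by omega))).2 k k.2).2.2 l (by exact_mod_cast mh _ hi) h0'
        rw [mul_assoc] at this ⊢
        exact up this (mul_nonneg (le_min zero_le_one (by positivity)) (w0 k).le) }
  have ini := hK ρ M (by linarith) fun i hi => by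
    obtain ⟨a1, a2, a3, a4, a5⟩ := k1 i (by linarith [mh i hi])
    refine ⟨a1, a2, up a3 (by positivity), fun h' => up (a4 h') (by positivity), fun h' => ?_⟩
    obtain ⟨a6, a7⟩ := a5 h'
    have i0 : 0 < (i : ℝ) * h := lt_of_lt_of_le (by positivity) h'
    refine ⟨le_trans ?_ a6, fun l hl => ?_⟩
    · rw [← div_eq_mul_inv, le_div_iff₀ (sqrt_pos.2 i0)]
      have : √(i * h) ≤ c / 3 := sqrt_le_left (by positivity) |>.2 (by linarith [mh i hi])
      linarith
    · have := a7 l hl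
      rw [mul_assoc] at this ⊢
      exact up this (by positivity)
  obtain ⟨A, hA, ip⟩ := ini x hx
  obtain ⟨A', hA', ip'⟩ := ini y hy
  obtain ⟨j, rfl⟩ : ∃ i, j = i + 1 := by
    refine Nat.exists_eq_add_one_of_ne_zero ?_
    rintro rfl
    simp at hj1; linarith
  push_cast at hj1 hj2
  have jM : T / 2 + (j + 2 : ℕ) * h ≤ M * h := by push_cast; linarith
  have jM' : j + 2 ≤ M := by
    have : ((j + 2 : ℕ) : ℝ) * h ≤ M * h := by linarith
    exact_mod_cast le_of_mul_le_mul_right this h0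
  have hb : D₁ * T ^ 2 ≤ ε / 8 := by
    have : D₁ * T ^ 2 ≤ |D₁| * T₁ := mul_le_mul (le_abs_self _) (by nlinarith) (by positivity)
      (abs_nonneg _)
    linarith
  have hc := hC n S T σ M _ _ par (by linarith) σ0 σ1 h4.le ip ip'
  have key := main (θ := θ) (R := R) (B := ε / 8) (m := m) hU hD bas ip ip' T0 σ0.le hθ hΛ
    (by positivity : 0 ≤ D₂ * σ) (by positivity) R0 (by omega : j ≤ M)
    (by change _ ≤ j * h; linarith) (fun k hk => by
      have e1 : η k ≤ E := by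
        refine (hη.1.hi k (by omega)).trans ?_
        rw [hE]
        have : (k : ℝ) ≤ m := by exact_mod_cast hk.le
        gcongr
      rw [hR, sq_sqrt (by positivity), mul_assoc]
      refine le_mul_of_one_le_right hZ ?_
      have e2 := le_max_right (η k) 0
      change 1 ≤ (1 + T * E) / T * (T / (1 + T * max (η k) 0))
      rw [div_mul_div_cancel₀ T0.ne', one_le_div (by positivity)]
      gcongr
      exact max_le e1 E0)
    ((hS n S T σ M _ _ par ip jM' jM).trans hb) ((hS n S T σ M _ _ par ip' jM' jM).trans hb)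
    (hc j (by omega)).1 ((hc (j + 1) (by omega)).2 (by push_cast; change _ ≤ (j + 1) * h; linarith))
    (v := v) ⟨hv.1, fun x y => (hv.2 x y).trans
      (mul_le_mul_of_nonneg_right hΛΛ (sum_nonneg fun _ _ => abs_nonneg _))⟩
  have ex : ∀ {A : ℝ} (x : Fin n → ℝ), 0 < A → (fun k => x k / √A / √A⁻¹) = x := fun x hA => by
    ext k; rw [sqrt_inv]; have := sqrt_pos.2 hA; field_simp
  simp only [ex x hA, ex y hA'] at key
  refine key.trans ?_
  have e : θ⁻¹ * (D₂ * σ) = D₂ * θ := by rw [hσ]; field_simp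
  rw [mul_assoc R, e, hσ]
  linarith

end Crest.Agent.T157.Cq.Osc

end
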