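import Crest.Agent.T157.OscDef_27

/-!
# Row 157, part C: the oscillation lemma, the means `KStmt` (helper41)
-/

set_option autoImplicit false

noncomputable section

namespace Crest.Agent.T157.Cq.Osc

open MeasureTheory ProbabilityTheory Matrix Filter Topology Finset Real
open Crest.Agent.T157.E Crest.Agent.T157.St Crest.Agent.T157.Ed

namespace K41

/-! ### sequences -/

section seq
variable {S ρ : ℕ → ℝ} {h A E D t e : ℝ} {i₁ j : ℕ}

lemma psum (h0 : 0 < h) (S0 : ∀ i, 0 ≤ S i) (hA : A = h * ∑ i ∈ range i₁, S i) (he : 0 ≤ e)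
    (tl : ∀ i, i₁ ≤ i → i ≤ j → S i ≤ e * A) (hj : (j + 1) * h ≤ 2) (e1 : 2 * e ≤ 1) :
    h * ∑ i ∈ range (j + 1), S i ≤ 2 * A := by
  have A0 : 0 ≤ A := hA ▸ mul_nonneg h0.le (sum_nonneg fun i _ => S0 i)
  have h1 : ∑ i ∈ range (j + 1), S i ≤ ∑ i ∈ range i₁, S i + (j + 1) * (e * A) := by
    rw [← sum_filter_add_sum_filter_not (range (j + 1)) (· < i₁)]
    refine add_le_add (sum_le_sum_of_subset_of_nonneg
      (fun i hi => mem_range.2 (mem_filter.1 hi).2) fun i _ _ => S0 i) ?_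
    refine (sum_le_card_nsmul _ _ (e * A) fun i hi => tl i (not_lt.1 (mem_filter.1 hi).2)
      (Nat.lt_succ_iff.1 (mem_range.1 (mem_filter.1 hi).1))).trans ?_
    rw [nsmul_eq_mul]
    refine mul_le_mul_of_nonneg_right ?_ (mul_nonneg he A0)
    exact_mod_cast (card_filter_le _ _).trans (card_range _).le
  have h2 := mul_le_mul_of_nonneg_left h1 h0.le
  have h3 := mul_le_mul_of_nonneg_right hj (mul_nonneg he A0)
  have h4 := mul_le_mul_of_nonneg_right e1 A0
  nlinarith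

lemma conv_le (h0 : 0 < h) {a b : ℝ} (hb : 0 ≤ b) (ha : 0 ≤ a) {P R : ℝ}
    (H : ∀ i, i ≤ j → ρ (j - i) * S i ≤ a * S i + ρ (j - i) * b)
    (hP : h * ∑ i ∈ range (j + 1), S i ≤ P) (hR : h * ∑ i ∈ range (j + 1), ρ i ≤ R) :
    h * ∑ i ∈ range (j + 1), ρ (j - i) * S i ≤ a * P + R * b := by
  have h1 := sum_le_sum (s := range (j + 1)) fun i hi => H i (Nat.lt_succ_iff.1 (mem_range.1 hi))
  rw [sum_add_distrib, ← mul_sum, ← sum_mul, sum_flip ρ] at h1
  have h2 := mul_le_mul_of_nonneg_left h1 h0.le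
  have h3 := mul_le_mul_of_nonneg_left hP ha
  have h4 := mul_le_mul_of_nonneg_right hR hb
  nlinarith

lemma up (h0 : 0 < h) (S0 : ∀ i, 0 ≤ S i) (A0 : 0 < A) (E0 : 0 ≤ E) (D0 : 0 ≤ D) (t0 : 0 < t)
    (ht : h * t ^ 2 ≤ 1) (dec : ∀ i i', i ≤ i' → i' ≤ j → S i' ≤ E * S i)
    (s0 : S 0 ≤ 22 * t ^ 2 * A) (ps : ∀ i, i ≤ j → h * ∑ l ∈ range (i + 1), S l ≤ 2 * A)
    (r0 : ∀ m, m ≤ j → 0 ≤ ρ m) (r1 : h * ∑ i ∈ range (j + 1), ρ i ≤ D * (√(j * h) + t⁻¹))
    (r2 : ∀ m, m ≤ j → 0 < m → ρ m ≤ D * ((√(m * h))⁻¹ + (t * (m * h))⁻¹)) :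
    h * (∑ i ∈ range (j + 1), ρ (j - i) * S i) / A ≤ (132 * E + 8) * D / √((j + 1) * h) := by
  have j0 : (0 : ℝ) ≤ j := Nat.cast_nonneg j
  set s := √((j + 1) * h) with hs
  have s0' : 0 < s := sqrt_pos.2 (by positivity)
  have s2 : s ^ 2 = (j + 1) * h := sq_sqrt (by positivity)
  have r1' : h * ∑ i ∈ range (j + 1), ρ i ≤ D * (s + t⁻¹) :=
    r1.trans (by gcongr; exact sqrt_le_sqrt (by nlinarith))
  rw [div_le_iff₀ A0]
  rcases le_total (t * s) 2 with c | c
  · refine (conv_le (a := 0) (b := E * (22 * t ^ 2 * A)) h0 (by positivity) le_rfl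
      (fun i hi => ?_) le_rfl r1').trans ?_
    · rw [zero_mul, zero_add]
      exact mul_le_mul_of_nonneg_left ((dec 0 i (Nat.zero_le i) hi).trans (by gcongr))
        (r0 _ (Nat.sub_le j i))
    · have e1 : D * (s + t⁻¹) * (E * (22 * t ^ 2 * A)) =
          22 * E * D * A / s * (t * s * (t * s + 1)) := by field_simp
      have e2 : t * s * (t * s + 1) ≤ 6 := by nlinarith [mul_pos t0 s0']
      have e3 : 0 ≤ 8 * D * A / s := by positivity
      have e4 := mul_le_mul_of_nonneg_left e2 (show 0 ≤ 22 * E * D * A / s by positivity)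
      have e5 : (132 * E + 8) * D / s * A = 22 * E * D * A / s * 6 + 8 * D * A / s := by ring
      rw [zero_mul, zero_add, e1, e5]
      linarith
  · have c1 : 4 * h ≤ s ^ 2 := by
      have : 2 ^ 2 ≤ (t * s) ^ 2 := pow_le_pow_left₀ zero_le_two c 2
      nlinarith [mul_le_mul_of_nonneg_left this h0.le, mul_le_mul_of_nonneg_right ht (sq_nonneg s)]
    have c2 : t⁻¹ ≤ s := by rw [inv_le_iff_one_le_mul₀' t0]; linarith
    refine (conv_le (a := 4 * D / s) (b := 4 * E * A / s ^ 2) h0 (by positivity) (by positivity)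
      (fun i hi => ?_) (ps j le_rfl) (r1'.trans (by nlinarith : _ ≤ 2 * D * s))).trans ?_
    · have p0 := r0 _ (Nat.sub_le j i)
      rcases le_or_gt (2 * i) j with d | d
      · refine le_add_of_le_of_nonneg (mul_le_mul_of_nonneg_right ?_ (S0 i)) (by positivity)
        have d1 : (j : ℝ) ≤ 2 * (j - i : ℕ) := by exact_mod_cast (by omega : j ≤ 2 * (j - i))
        have d2 : (s / 2) ^ 2 ≤ (j - i : ℕ) * h := by nlinarith
        have d3 : 0 < j - i := by
          by_contra d4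
          rw [Nat.eq_zero_of_not_pos d4, Nat.cast_zero, zero_mul] at d2
          exact absurd d2 (not_le.2 (by positivity))
        have d4 : s / 2 ≤ √((j - i : ℕ) * h) := le_sqrt_of_sq_le d2
        have d5 : s / 2 ≤ t * ((j - i : ℕ) * h) := by
          nlinarith [mul_le_mul_of_nonneg_left d2 t0.le, mul_le_mul_of_nonneg_right c s0'.le]
        refine (r2 _ (Nat.sub_le j i) d3).trans ((mul_le_mul_of_nonneg_left (add_le_add
          (inv_anti₀ (by positivity) d4) (inv_anti₀ (by positivity) d5)) D0).trans (le_of_eq ?_))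
        field_simp; ring
      · refine le_add_of_nonneg_of_le (by have := S0 i; positivity)
          (mul_le_mul_of_nonneg_left ?_ p0)
        have d1 : (j : ℝ) + 1 ≤ 2 * (i + 1) := by exact_mod_cast (by omega : j + 1 ≤ 2 * (i + 1))
        have d2 : ((i : ℝ) + 1) * S i ≤ E * ∑ l ∈ range (i + 1), S l := by
          have := sum_le_sum (s := range (i + 1)) fun l hl =>
            dec l i (Nat.lt_succ_iff.1 (mem_range.1 hl)) hi
          rwa [sum_const, card_range, nsmul_eq_mul, ← mul_sum, Nat.cast_succ] at this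
        rw [le_div_iff₀ (by positivity), s2]
        nlinarith [mul_le_mul_of_nonneg_left d2 h0.le, mul_le_mul_of_nonneg_left (ps i hi) E0,
          mul_le_mul_of_nonneg_right d1 (mul_nonneg h0.le (S0 i))]
    · have e1 : 4 * D / s * (2 * A) + 2 * D * s * (4 * E * A / s ^ 2) =
          (8 * E + 8) * D / s * A := by field_simp; ring
      rw [e1]
      gcongr
      norm_num

lemma cl (h0 : 0 < h) (S0 : ∀ i, 0 ≤ S i) (A0 : 0 < A) (hA : A = h * ∑ i ∈ range i₁, S i)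
    (he : 0 ≤ e) (hi : i₁ ≤ j + 1) (tl : ∀ i, i₁ ≤ i → i ≤ j → S i ≤ e * A)
    (r0 : ∀ m, m ≤ j → 0 ≤ ρ m) {R z : ℝ} (r1 : h * ∑ i ∈ range (j + 1), ρ i ≤ R)
    (r3 : ∀ l, l < i₁ → |ρ j - ρ (j - l)| ≤ z) :
    |h * (∑ i ∈ range (j + 1), ρ (j - i) * S i) / A - ρ j| ≤ z + R * e := by
  have a1 : |h * ∑ i ∈ range i₁, ρ (j - i) * S i - ρ j * A| ≤ z * A := by
    have e1 : h * ∑ i ∈ range i₁, ρ (j - i) * S i - ρ j * A =
        h * ∑ i ∈ range i₁, (ρ (j - i) - ρ j) * S i := by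
      simp only [hA, sub_mul, sum_sub_distrib, ← mul_sum]; ring
    rw [e1, abs_mul, abs_of_pos h0, hA, mul_left_comm, mul_sum _ _ z]
    refine mul_le_mul_of_nonneg_left ((abs_sum_le_sum_abs _ _).trans (sum_le_sum fun i hi => ?_))
      h0.le
    rw [abs_mul, abs_of_nonneg (S0 i), abs_sub_comm]
    exact mul_le_mul_of_nonneg_right (r3 i (mem_range.1 hi)) (S0 i)
  have a2 : 0 ≤ ∑ i ∈ Ico i₁ (j + 1), ρ (j - i) * S i :=
    sum_nonneg fun i _ => mul_nonneg (r0 _ (Nat.sub_le j i)) (S0 i)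
  have a3 : ∑ i ∈ Ico i₁ (j + 1), ρ (j - i) * S i ≤ (∑ i ∈ range (j + 1), ρ i) * (e * A) := by
    rw [← sum_flip ρ, sum_mul]
    refine (sum_le_sum fun i hi => mul_le_mul_of_nonneg_left (tl i (mem_Ico.1 hi).1
      (Nat.lt_succ_iff.1 (mem_Ico.1 hi).2)) (r0 _ (Nat.sub_le j i))).trans
      (sum_le_sum_of_subset_of_nonneg (fun i hi => mem_range.2 (mem_Ico.1 hi).2)
        fun i _ _ => mul_nonneg (r0 _ (Nat.sub_le j i)) (by positivity))
  have a4 := mul_le_mul_of_nonneg_right r1 (show 0 ≤ e * A by positivity)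
  have a5 := mul_le_mul_of_nonneg_left a3 h0.le
  have a6 := mul_nonneg h0.le a2
  rw [← sum_range_add_sum_Ico _ hi, div_sub' A0.ne', abs_div, abs_of_pos A0, div_le_iff₀ A0]
  rw [abs_le] at a1 ⊢
  constructor <;> nlinarith [a1.1, a1.2]

end seq

/-! ### one mode -/

section mode
variable {η h L r : ℝ}

lemma pow_le_exp (q0 : 0 ≤ 1 - 2 * η * h) (i : ℕ) :
    (1 - 2 * η * h) ^ i ≤ exp (-(2 * η * (i * h))) := by
  refine (pow_le_pow_left₀ q0 (one_sub_le_exp_neg _) i).trans (le_of_eq ?_)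
  rw [← exp_nat_mul]; congr 1; ring

lemma pow_le (q0 : 0 ≤ 1 - 2 * η * h) (h0 : 0 < h) (L0 : 0 ≤ L) (hL : -L ≤ η) {i : ℕ}
    (hi : i * h ≤ 1) : (1 - 2 * η * h) ^ i ≤ exp (2 * L) := by
  refine (pow_le_exp q0 i).trans (exp_le_exp.2 ?_)
  have : (0 : ℝ) ≤ i * h := by positivity
  nlinarith

lemma pow_decay (q0 : 0 ≤ 1 - 2 * η * h) (h0 : 0 < h) (L0 : 0 ≤ L) (hL : -L ≤ η) (r0 : 0 < r)
    {i : ℕ} (hi : i * h ≤ 1) (hr : r ≤ i * h) :
    (1 - 2 * η * h) ^ i ≤ exp (2 * L) * (L ^ 2 + 1 + (r ^ 2)⁻¹) * (1 / (η ^ 2 + 1)) := by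
  rw [mul_one_div, le_div_iff₀ (by positivity)]
  have p1 := pow_le q0 h0 L0 hL hi
  have p0 := pow_nonneg q0 i
  have r2 : 0 < (r ^ 2)⁻¹ := by positivity
  rcases le_total η 0 with c | c
  · exact mul_le_mul p1 (by nlinarith) (by positivity) (exp_pos _).le
  · have e1 : 1 ≤ exp (2 * L) := one_le_exp (by positivity)
    have e2 := quadratic_le_exp_of_nonneg (show 0 ≤ 2 * η * r by positivity)
    have e3 : (1 - 2 * η * h) ^ i * exp (2 * η * r) ≤ 1 := by
      refine (mul_le_mul_of_nonneg_right (pow_le_exp q0 i) (exp_pos _).le).trans ?_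
      rw [← exp_add, exp_le_one_iff]
      nlinarith
    have e4 : (1 - 2 * η * h) ^ i * η ^ 2 ≤ (r ^ 2)⁻¹ := by
      rw [← one_div, le_div_iff₀ (by positivity)]
      nlinarith [mul_le_mul_of_nonneg_left e2 p0, mul_nonneg p0 (mul_nonneg c r0.le),
        mul_nonneg p0 (sq_nonneg (η * r))]
    nlinarith [mul_le_mul_of_nonneg_right e1 r2.le, mul_nonneg (exp_pos (2 * L)).le (sq_nonneg L)]

lemma geom_ge (q0 : 0 ≤ 1 - 2 * η * h) (h0 : 0 < h) (r0 : 0 < r) {i : ℕ} (hr : r ≤ i * h) :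
    1 / (r⁻¹ + |η|) ≤ 2 * (h * ∑ l ∈ range i, (1 - 2 * η * h) ^ l) := by
  rw [div_le_iff₀ (by positivity)]
  have s0 : 0 ≤ ∑ l ∈ range i, (1 - 2 * η * h) ^ l := sum_nonneg fun l _ => pow_nonneg q0 l
  have key : ∀ Q : ℝ, 0 ≤ Q → (∀ l, l < i → Q ≤ (1 - 2 * η * h) ^ l) →
      Q ≤ h * (∑ l ∈ range i, (1 - 2 * η * h) ^ l) * r⁻¹ := fun Q Q0 hQ => by
    have := card_nsmul_le_sum (range i) _ Q fun l hl => hQ l (mem_range.1 hl)
    rw [card_range, nsmul_eq_mul] at this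
    rw [← div_eq_mul_inv, le_div_iff₀ r0]
    nlinarith [mul_le_mul_of_nonneg_left this h0.le, mul_le_mul_of_nonneg_left hr Q0]
  rcases le_total η 0 with c | c
  · have := key 1 zero_le_one fun l _ => one_le_pow₀ (by nlinarith)
    nlinarith [mul_nonneg (mul_nonneg h0.le s0) (abs_nonneg η)]
  · have := key _ (pow_nonneg q0 i) fun l hl =>
      pow_le_pow_of_le_one q0 (by nlinarith) hl.le
    have g := geom_sum_mul_neg (1 - 2 * η * h) i
    rw [abs_of_nonneg c]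
    nlinarith [pow_nonneg q0 i]

end mode

lemma ev_mul (c b : ℝ) (hb : 0 < b) : ∀ᶠ h : ℝ in 𝓝[>] (0 : ℝ), h * c ≤ b := by
  have : Tendsto (fun h : ℝ => h * c) (𝓝 0) (𝓝 (0 * c)) := tendsto_id.mul_const c
  rw [zero_mul] at this
  exact (this.eventually (eventually_le_nhds hb)).filter_mono nhdsWithin_le_nhds

end K41

open K41

set_option maxHeartbeats 800000 in
theorem kStmt : KStmt := by
  intro L D L0 D0
  set E := exp (2 * L) with hE
  have E0 : 0 < E := exp_pos _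
  refine ⟨(132 * E + 8) * D + 4, by nlinarith [mul_nonneg E0.le D0], fun σ σ0 σ1 => ?_⟩
  set G := (σ ^ 4) ^ (-(3 / 2) : ℝ) with hG
  have G0 : 0 < G := rpow_pos_of_pos (by positivity) _
  set r := min (σ ^ 4 / 4) (σ / (6 * (D + 1) * G)) with hr
  have r0 : 0 < r := by positivity
  have r1 : r ≤ σ ^ 4 / 4 := min_le_left _ _
  have r2 : r * (6 * (D + 1) * G) ≤ σ := (le_div_iff₀ (by positivity)).1 (min_le_right _ _)
  set e := σ ^ 2 / (6 * (D + 1)) with he
  have e0 : 0 < e := by positivity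
  have e1 : e * (6 * (D + 1)) = σ ^ 2 := div_mul_cancel₀ _ (by positivity)
  have σ2 : σ ^ 2 ≤ σ := by nlinarith
  have σ4 : σ ^ 4 ≤ σ ^ 2 := pow_le_pow_of_le_one σ0.le σ1 (by norm_num)
  set Cr := E * (L ^ 2 + 1 + (r ^ 2)⁻¹) with hCr
  have Cr0 : 0 < Cr := by positivity
  refine ⟨r, e / (2 * Cr), r0, by positivity, fun a a0 => ?_⟩
  set b := min (a ^ 2 / 8) (σ ^ 4) with hb
  have b0 : 0 < b := by positivity
  set R := D * ((√b)⁻¹ + b⁻¹) with hR
  have T1 : Tendsto tau atTop atTop :=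
    (tendsto_rpow_atTop (by norm_num)).comp tendsto_natCast_atTop_atTop
  have T2 : Tendsto (fun n : ℕ => (n : ℝ) ^ 2) atTop atTop :=
    (tendsto_pow_atTop two_ne_zero).comp tendsto_natCast_atTop_atTop
  filter_upwards [T1.eventually_ge_atTop r⁻¹, T1.eventually_ge_atTop L, eventually_ge_atTop 1,
    T2.eventually_ge_atTop (6 * R / (a * σ))] with n n1 n2 n3 n4 η hη
  have n0 : (1 : ℝ) ≤ n := by exact_mod_cast n3
  have t1 : 1 ≤ sx n ^ 2 := one_le_pow₀ (one_le_rpow n0 (by norm_num))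
  have tt : tau n = (sx n ^ 2) ^ 2 := by
    rw [tau, sx, ← rpow_natCast, ← rpow_natCast, ← rpow_mul (by positivity),
      ← rpow_mul (by positivity)]
    norm_num
  rw [tt] at n1 n2 hη
  set t := sx n ^ 2 with ht
  set κ := (n : ℝ) ^ 2 with hκ
  have t0 : 0 < t := by linarith
  have κ0 : 0 < κ := by positivity
  filter_upwards [self_mem_nhdsWithin, ev_mul 1 r r0, ev_mul (20 * t ^ 2) 1 one_pos,
    ev_mul (κ * t) 1 one_pos, ev_mul 1 (a ^ 2 / 8) (by positivity)]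
    with h h0 h1 h2 h3 h4 ρ M hM hρ x hx
  have h0 : 0 < h := h0
  rw [mul_one] at h1 h4
  have h5 : h ≤ 1 := by linarith only [h1, r1, σ4, σ2, σ1]
  have q0 : ∀ k : Fin n, 0 ≤ 1 - 2 * η k * h := fun k => by
    nlinarith only [(hη k k.2).2, h0, h2]
  have jh : ∀ j : ℕ, j ≤ M → (j : ℝ) * h ≤ 1 := fun j hj =>
    (mul_le_mul_of_nonneg_right (by exact_mod_cast hj) h0.le).trans hM
  set i₁ := ⌈r / h⌉₊ with hi₁
  have i1 : r ≤ i₁ * h := (div_le_iff₀ h0).1 (Nat.le_ceil _)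
  have i2 : i₁ * h ≤ 2 * r := by
    have := (Nat.ceil_lt_add_one (show 0 ≤ r / h by positivity)).le
    have := mul_le_mul_of_nonneg_right this h0.le
    rw [add_mul, div_mul_cancel₀ _ h0.ne'] at this
    linarith only [this, h1]
  set S : ℕ → ℝ := fun i => ∑ k : Fin n, (1 - 2 * η k * h) ^ i * x k ^ 2 with hS
  have S0 : ∀ i, 0 ≤ S i := fun i =>
    sum_nonneg fun k _ => mul_nonneg (pow_nonneg (q0 k) i) (sq_nonneg _)
  set A := h * ∑ i ∈ range i₁, S i with hA
  have aq : Aq n η r x ≤ 2 * A := by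
    have : A = ∑ k : Fin n, (h * ∑ l ∈ range i₁, (1 - 2 * η k * h) ^ l) * x k ^ 2 := by
      simp only [hA, hS, mul_sum, sum_mul, mul_assoc]; rw [sum_comm]
    rw [this, mul_sum, Aq]
    refine sum_le_sum fun k _ => ?_
    rw [div_eq_mul_one_div, mul_comm, ← mul_assoc]
    exact mul_le_mul_of_nonneg_right (geom_ge (q0 k) h0 r0 i1) (sq_nonneg _)
  have aA : a ≤ 2 * A := hx.2.1.trans aq
  have A0 : 0 < A := by linarith only [aA, a0]
  have tl : ∀ i : ℕ, r ≤ i * h → i ≤ M → S i ≤ e * A := fun i hi hiM => by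
    have a1 : S i ≤ Cr * Xd n η x := by
      rw [Xd, dotProduct, mul_sum]
      refine sum_le_sum fun k _ => ?_
      rw [fd, mulVec_diagonal]
      refine (mul_le_mul_of_nonneg_right (pow_decay (q0 k) h0 L0 (hη k k.2).1 r0 (jh i hiM) hi)
        (sq_nonneg _)).trans (le_of_eq ?_)
      ring
    refine a1.trans ((mul_le_mul_of_nonneg_left (hx.1.trans
      (mul_le_mul_of_nonneg_left aq (by positivity))) Cr0.le).trans (le_of_eq ?_))
    field_simp
  have tl' : ∀ j, j ≤ M → ∀ i, i₁ ≤ i → i ≤ j → S i ≤ e * A := fun j hj i hi hij =>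
    tl i (i1.trans (mul_le_mul_of_nonneg_right (by exact_mod_cast hi) h0.le)) (hij.trans hj)
  have dec : ∀ i i', i ≤ i' → i' ≤ M → S i' ≤ E * S i := fun i i' hi hi' => by
    rw [hS, mul_sum]
    refine sum_le_sum fun k _ => ?_
    rw [← mul_assoc, ← Nat.sub_add_cancel hi, pow_add]
    exact mul_le_mul_of_nonneg_right (mul_le_mul_of_nonneg_right
      (pow_le (q0 k) h0 L0 (hη k k.2).1 (jh _ ((Nat.sub_le _ _).trans hi'))) (pow_nonneg (q0 k) i))
      (sq_nonneg _)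
  have s0 : S 0 ≤ 22 * t ^ 2 * A := by
    have : S 0 ≤ 11 * t ^ 2 * Aq n η r x := by
      rw [Aq, mul_sum]
      refine sum_le_sum fun k _ => ?_
      have k1 : |η k| ≤ 10 * t ^ 2 := abs_le.2 ⟨by nlinarith only [(hη k k.2).1, n2, sq_nonneg t],
        (hη k k.2).2⟩
      rw [pow_zero, one_mul, mul_div_assoc', le_div_iff₀ (by positivity), mul_comm]
      exact mul_le_mul_of_nonneg_right (by linarith only [k1, n1]) (sq_nonneg _)
    linarith only [this, mul_le_mul_of_nonneg_left aq (sq_nonneg t)]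
  set f : ℕ → ℝ := fun j => (1 - h * κ * t) * ρ j / κ * A⁻¹ with hf
  have hgb : ∀ j, (⟨η, t, κ, h, ρ⟩ : Sy n).gb (A⁻¹, fun k => x k / √A) j =
      f j + h * (∑ i ∈ range (j + 1), ρ (j - i) * S i) / A := fun j => by
    simp only [Sy.gb, Sy.K, Kk, div_pow, sq_sqrt A0.le, hf, hS, mul_sum, sum_mul, sum_div]
    rw [sum_comm]
    exact congrArg _ (sum_congr rfl fun i _ => sum_congr rfl fun k _ => by ring)
  have f0 : ∀ j, j ≤ M → 0 ≤ f j ∧ f j ≤ 2 * ρ j / (κ * a) := fun j hj => by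
    have p0 := (hρ j hj).1
    have p1 : 0 ≤ 1 - h * κ * t := by linarith only [h3]
    refine ⟨by simp only [hf]; positivity, ?_⟩
    have p2 : (1 - h * κ * t) * ρ j ≤ ρ j :=
      mul_le_of_le_one_left p0 (by linarith only [mul_pos (mul_pos h0 κ0) t0])
    have p3 : A⁻¹ ≤ (a / 2)⁻¹ := inv_anti₀ (by positivity) (by linarith only [aA])
    refine le_trans (by simp only [hf]; gcongr : _ ≤ ρ j / κ * (a / 2)⁻¹) (le_of_eq ?_)
    field_simp
  have f1 : ∀ j, j ≤ M → b ≤ j * h → f j ≤ σ / 3 := fun j hj hb' => by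
    have j0 : 0 < j := by
      by_contra d
      rw [Nat.eq_zero_of_not_pos d, Nat.cast_zero, zero_mul] at hb'
      linarith only [hb', b0]
    have p1 : ρ j ≤ R := ((hρ j hj).2.2.2.1 j0).trans (mul_le_mul_of_nonneg_left (add_le_add
      (inv_anti₀ (sqrt_pos.2 b0) (sqrt_le_sqrt hb')) (inv_anti₀ b0 (by nlinarith only [hb', b0, t1]))) D0)
    refine (f0 j hj).2.trans ?_
    rw [div_le_iff₀ (by positivity)] at n4 ⊢
    linarith only [n4, p1]
  have hcl : ∀ j, j ≤ M → σ ^ 4 ≤ j * h →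
      |(⟨η, t, κ, h, ρ⟩ : Sy n).gb (A⁻¹, fun k => x k / √A) j - ρ j| ≤ σ := fun j hj hσ => by
    have c1 : 2 * i₁ ≤ j := by
      have : ((2 * i₁ : ℕ) : ℝ) * h ≤ j * h := by
        push_cast; linarith only [i2, r1, hσ, pow_pos σ0 4]
      exact_mod_cast le_of_mul_le_mul_right this h0
    have c2 : h * ∑ i ∈ range (j + 1), ρ i ≤ D * (1 + 1) := (hρ j hj).2.2.1.trans
      (mul_le_mul_of_nonneg_left (add_le_add (sqrt_le_one.2 (jh j hj)) (inv_le_one_of_one_le₀ t1)) D0)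
    have c3 := cl (z := D * (2 * r) * G) h0 S0 A0 hA e0.le (by omega) (tl' j hj)
      (fun m hm => (hρ m (hm.trans hj)).1) c2 fun l hl => by
        refine (((hρ j hj).2.2.2.2 hσ).2 l (by omega)).trans ?_
        refine mul_le_mul (mul_le_mul_of_nonneg_left (le_trans ?_ i2) D0)
          (rpow_le_rpow_of_nonpos (by positivity) hσ (by norm_num)) (by positivity) (by positivity)
        exact mul_le_mul_of_nonneg_right (by exact_mod_cast hl.le) h0.le
    have c4 := f1 j hj ((min_le_right _ _).trans hσ)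
    have c5 := (f0 j hj).1
    have c6 := mul_pos r0 G0
    rw [hgb]
    rw [abs_le] at c3 ⊢
    constructor <;> linarith only [c3.1, c3.2, c4, c5, c6, r2, e1, e0, σ2]
  refine ⟨A, A0, inv_pos.2 A0, fun j hj => ?_, hcl, fun j hj hσ => ?_, fun i hi hσ => ?_⟩
  · have j0 : (0 : ℝ) ≤ j := Nat.cast_nonneg j
    have c1 := up (j := j) h0 S0 A0 E0.le D0 t0 (by linarith only [h2, mul_pos h0 (pow_pos t0 2)])
      (fun i i' a b => dec i i' a (b.trans hj)) s0
      (fun i hi => psum h0 S0 hA e0.le (tl' i (hi.trans hj))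
        (by linarith only [jh i (hi.trans hj), h5])
        (by linarith only [mul_nonneg e0.le D0, e1, σ2, σ1, e0]))
      (fun m hm => (hρ m (hm.trans hj)).1) (hρ j hj).2.2.1
      fun m hm => (hρ m (hm.trans hj)).2.2.2.1
    have s1 : 0 < √((j + 1) * h) := sqrt_pos.2 (by positivity)
    have s2 : 1 ≤ 2 / √((j + 1) * h) := by
      rw [le_div_iff₀ s1, one_mul]
      exact sqrt_le_iff.2 ⟨zero_le_two, by linarith only [jh j hj, h5]⟩
    have s3 : f j ≤ 2 / √((j + 1) * h) := by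
      rcases le_total ((j + 1) * h) ((a / 2) ^ 2) with c | c
      · have d1 : √((j + 1) * h) ≤ a / 2 := sqrt_le_iff.2 ⟨by positivity, c⟩
        have d2 := (hρ j hj).2.1
        refine (f0 j hj).2.trans (le_trans ?_ (div_le_div_of_nonneg_left zero_le_two s1 d1))
        rw [div_le_div_iff₀ (by positivity) (by positivity)]
        linarith only [mul_le_mul_of_nonneg_right d2 a0.le]
      · have := f1 j hj ((min_le_left _ _).trans (by linarith only [c, h4]))
        linarith only [this, s2, σ1]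
    change _ ≤ _ / √((j + 1) * h)
    rw [hgb, add_div, show 4 / √((j + 1) * h) = 2 / √((j + 1) * h) + 2 / √((j + 1) * h) by ring]
    linarith only [c1, s2, s3]
  · have c1 := (abs_le.1 (hcl j hj hσ)).1
    have c2 := ((hρ j hj).2.2.2.2 hσ).1
    linarith only [c1, c2, σ1]
  · have c1 := tl i (by change _ ≤ (i : ℝ) * h at hσ; linarith only [pow_pos σ0 4, hσ, r1, σ4]) hi
    have c2 : ∑ k, (⟨η, t, κ, h, ρ⟩ : Sy n).q k ^ i * (x k / √A) ^ 2 = S i / A := by
      simp only [Sy.q, div_pow, sq_sqrt A0.le, hS, sum_div, mul_div_assoc]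
    refine c2.trans_le ((div_le_iff₀ A0).2 (c1.trans (mul_le_mul_of_nonneg_right ?_ A0.le)))
    linarith only [mul_nonneg e0.le D0, e1, e0]

end Crest.Agent.T157.Cq.Osc

end
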