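import Crest.Agent.T157.OscDef_27
import Crest.Agent.T157.EdMba_36
import Crest.Agent.T157.EdClt_80

/-!
# Row 157, part C: `Osc.L2Stmt` and `Osc.TailStmt` (helper46)
-/

set_option autoImplicit false
set_option linter.all false

noncomputable section

namespace Crest.Agent.T157.Cq.Osc

open MeasureTheory ProbabilityTheory Matrix Filter Topology Finset Real
open Crest.Agent.T157.E Crest.Agent.T157.St Crest.Agent.T157.Ed

namespace M46

variable {n : ℕ}

/-! ### one dimension -/

theorem exp_neg_le {y : ℝ} (hy : |y| ≤ 1 / 2) : exp (-(y + y ^ 2)) ≤ 1 - y := by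
  obtain ⟨h1, h2⟩ := abs_le.1 hy
  rw [exp_neg, inv_le_iff_one_le_mul₀ (exp_pos _)]
  rcases le_total y 0 with h | h
  · have := mul_le_mul_of_nonneg_left (add_one_le_exp (y + y ^ 2)) (show 0 ≤ 1 - y by linarith)
    nlinarith [mul_nonneg (neg_nonneg.2 h) (sq_nonneg y)]
  · have := mul_le_mul_of_nonneg_left (quadratic_le_exp_of_nonneg (x := y + y ^ 2) (by positivity))
      (show 0 ≤ 1 - y by linarith)
    have h3 : 2 * y ≤ (1 - y) * (1 + y) ^ 2 := by
      nlinarith [mul_nonneg h (show 0 ≤ 1 - y - y ^ 2 by nlinarith)]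
    nlinarith [mul_le_mul_of_nonneg_left h3 (sq_nonneg y)]

theorem one_exp (a : ℝ) {c : ℝ} (hc : |c| ≤ 1 / 4) :
    Integrable (fun x : ℝ => exp (a * x + c * (x ^ 2 - 1))) (gaussianReal 0 1) ∧
      ∫ x, exp (a * x + c * (x ^ 2 - 1)) ∂gaussianReal 0 1 ≤ exp (a ^ 2 + 2 * c ^ 2) := by
  obtain ⟨h1, h2⟩ := abs_le.1 hc
  set s : ℝ := 1 - 2 * c with hs
  have s0 : 0 < s := by linarith
  set K : ℝ := (√s)⁻¹ * exp (a ^ 2 / (2 * s) - c) with hK
  have K0 : 0 ≤ K := by positivity
  have hv : (s⁻¹).toNNReal ≠ 0 := by simpa using s0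
  have e : ∀ x : ℝ, gaussianPDFReal 0 1 x * exp (a * x + c * (x ^ 2 - 1)) =
      K * gaussianPDFReal (a / s) (s⁻¹).toNNReal x := fun x => by
    simp only [gaussianPDFReal, NNReal.coe_one, Real.coe_toNNReal _ (inv_pos.2 s0).le, mul_one,
      sub_zero, hK]
    have e1 : √(2 * π) = √s * √(2 * π * s⁻¹) := by
      rw [← sqrt_mul s0.le]; congr 1; field_simp
    rw [e1, mul_inv, mul_assoc, ← exp_add, mul_mul_mul_comm, ← exp_add]
    congr 2
    have : c = (1 - s) / 2 := by rw [hs]; ring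
    rw [this]
    field_simp
    ring
  have hl : ∫⁻ x, ENNReal.ofReal (exp (a * x + c * (x ^ 2 - 1))) ∂gaussianReal 0 1 =
      ENNReal.ofReal K := by
    rw [gaussianReal_of_var_ne_zero _ one_ne_zero,
      lintegral_withDensity_eq_lintegral_mul _ (measurable_gaussianPDF _ _) (by fun_prop)]
    simp only [Pi.mul_apply, gaussianPDF]
    simp_rw [← ENNReal.ofReal_mul (gaussianPDFReal_nonneg _ _ _), e, ENNReal.ofReal_mul K0]
    rw [lintegral_const_mul' _ _ ENNReal.ofReal_ne_top, lintegral_gaussianPDFReal_eq_one _ hv,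
      mul_one]
  have hi : Integrable (fun x : ℝ => exp (a * x + c * (x ^ 2 - 1))) (gaussianReal 0 1) :=
    ⟨by fun_prop, by
      rw [hasFiniteIntegral_iff_ofReal (ae_of_all _ fun x => (exp_pos _).le), hl]
      exact ENNReal.ofReal_lt_top⟩
  refine ⟨hi, ?_⟩
  rw [integral_eq_lintegral_of_nonneg_ae (ae_of_all _ fun x => (exp_pos _).le) hi.1, hl,
    ENNReal.toReal_ofReal K0]
  have h3 : (√s)⁻¹ ≤ exp (c + 2 * c ^ 2) := by
    rw [inv_le_comm₀ (sqrt_pos.2 s0) (exp_pos _), ← Real.exp_neg]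
    refine le_sqrt_of_sq_le ?_
    have := exp_neg_le (y := 2 * c) (abs_le.2 ⟨by linarith, by linarith⟩)
    rw [sq, ← exp_add]
    refine le_trans (le_of_eq ?_) this
    congr 1; ring
  have h4 : a ^ 2 / (2 * s) ≤ a ^ 2 := div_le_self (sq_nonneg _) (by linarith)
  refine (mul_le_mul_of_nonneg_right h3 (exp_pos _).le).trans ?_
  rw [← exp_add]
  exact exp_le_exp.2 (by linarith)

theorem memLp_one (a c : ℝ) :
    MemLp (fun x : ℝ => a * x + c * (x ^ 2 - 1)) 2 (gaussianReal 0 1) :=
  ((memLp_id_gaussianReal 2).const_mul a).add ((Clt80.memLp_sq.sub (memLp_const 1)).const_mul c)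

theorem int_one (a c : ℝ) : ∫ x : ℝ, (a * x + c * (x ^ 2 - 1)) ∂gaussianReal 0 1 = 0 := by
  have i1 : Integrable (fun x : ℝ => x) (gaussianReal 0 1) := by simpa using Mba36.int_pow_gauss 1
  have i2 : Integrable (fun x : ℝ => x ^ 2 - 1) (gaussianReal 0 1) :=
    (Mba36.int_pow_gauss 2).sub (integrable_const _)
  rw [integral_add (i1.const_mul a) (i2.const_mul c), integral_const_mul, integral_const_mul,
    integral_sub (Mba36.int_pow_gauss 2) (integrable_const _), Mba36.gauss_two]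
  simp

theorem var_one (a c : ℝ) :
    Var[fun x : ℝ => a * x + c * (x ^ 2 - 1); gaussianReal 0 1] = a ^ 2 + 2 * c ^ 2 := by
  rw [variance_of_integral_eq_zero (by fun_prop) (int_one a c)]
  have e : ∀ x : ℝ, (a * x + c * (x ^ 2 - 1)) ^ 2 =
      ∑ k : Fin 5, ![c ^ 2, -(2 * a * c), a ^ 2 - 2 * c ^ 2, 2 * a * c, c ^ 2] k * x ^ (k : ℕ) := by
    intro x
    simp [Fin.sum_univ_five]
    ring
  simp only [e]
  rw [integral_finsetSum _ fun (k : Fin 5) _ => (Mba36.int_pow_gauss (k : ℕ)).const_mul _]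
  simp only [integral_const_mul, Fin.sum_univ_five]
  have h3 := Mba36.gauss_odd (k := 3) (by decide)
  have h2 := Mba36.gauss_two
  have h4 := Clt80.int_x4
  simp [h2, h3, h4]
  ring

/-! ### one step -/

theorem vr_nonneg (a c : Fin n → ℝ) : 0 ≤ vr a c := sum_nonneg fun k _ => by positivity

theorem step_sq (M : ℝ) (a c : Fin n → ℝ) :
    ∫⁻ ξ, ENNReal.ofReal ((M + inc a c ξ) ^ 2) ∂gv (Fin n) = ENNReal.ofReal (M ^ 2 + vr a c) := by
  have e : (∑ k, fun ξ : Fin n → ℝ => a k * ξ k + c k * (ξ k ^ 2 - 1)) = inc a c := by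
    funext ξ; simp [inc]
  have hm : MemLp (inc a c) 2 (gv (Fin n)) := by
    rw [← e]
    exact memLp_finsetSum' _ fun k _ => (memLp_one (a k) (c k)).comp_measurePreserving
      (measurePreserving_eval (fun _ : Fin n => gaussianReal 0 1) k)
  have h0 : ∫ ξ, inc a c ξ ∂gv (Fin n) = 0 := by
    unfold inc
    rw [integral_finsetSum _ fun k _ => integrable_comp_eval (μ := fun _ : Fin n => gaussianReal 0 1)
      (i := k) ((memLp_one (a k) (c k)).integrable one_le_two)]
    refine sum_eq_zero fun k _ => ?_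
    rw [integral_comp_eval (μ := fun _ : Fin n => gaussianReal 0 1)
      (f := fun x : ℝ => a k * x + c k * (x ^ 2 - 1)) (by fun_prop), int_one]
  have hv := variance_sum_pi (μ := fun _ : Fin n => gaussianReal 0 1)
    (X := fun k x => a k * x + c k * (x ^ 2 - 1)) fun k => memLp_one (a k) (c k)
  rw [e, variance_of_integral_eq_zero hm.aemeasurable h0] at hv
  simp only [var_one] at hv
  have i1 := hm.integrable one_le_two
  have i2 := hm.integrable_sq
  have e2 : ∀ ξ, (M + inc a c ξ) ^ 2 = M ^ 2 + (2 * M * inc a c ξ + inc a c ξ ^ 2) := fun ξ => by ring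
  have i3 : Integrable (fun ξ => 2 * M * inc a c ξ + inc a c ξ ^ 2) (gv (Fin n)) :=
    (i1.const_mul _).add i2
  rw [← ofReal_integral_eq_lintegral_ofReal (by simp only [e2]; exact (integrable_const _).add i3)
    (ae_of_all _ fun ξ => sq_nonneg _)]
  simp only [e2]
  rw [integral_add (integrable_const _) i3, integral_add (i1.const_mul _) i2, integral_const_mul, h0,
    hv]
  simp [vr]

theorem step_exp (l : ℝ) {a c : Fin n → ℝ} (hc : ∀ k, |l * c k| ≤ 1 / 4) :
    ∫⁻ ξ, ENNReal.ofReal (exp (l * inc a c ξ)) ∂gv (Fin n) ≤ ENNReal.ofReal (exp (l ^ 2 * vr a c)) := by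
  have e : ∀ ξ : Fin n → ℝ, exp (l * inc a c ξ) =
      ∏ k, exp (l * a k * ξ k + l * c k * (ξ k ^ 2 - 1)) := fun ξ => by
    rw [← exp_sum, inc, mul_sum]
    congr 1
    exact sum_congr rfl fun k _ => by ring
  simp only [e]
  rw [← ofReal_integral_eq_lintegral_ofReal
    (Integrable.fintype_prod (f := fun k (x : ℝ) => exp (l * a k * x + l * c k * (x ^ 2 - 1)))
      fun k => (one_exp _ (hc k)).1) (ae_of_all _ fun ξ => prod_nonneg fun k _ => (exp_pos _).le),
    integral_fintype_prod_eq_prod (f := fun k (x : ℝ) => exp (l * a k * x + l * c k * (x ^ 2 - 1)))]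
  refine ENNReal.ofReal_le_ofReal ((prod_le_prod (fun k _ => integral_nonneg fun x => (exp_pos _).le)
    fun k _ => (one_exp _ (hc k)).2).trans (le_of_eq ?_))
  rw [← exp_sum, vr, mul_sum]
  congr 1
  exact sum_congr rfl fun k _ => by ring

/-! ### the martingale -/

variable {a c : ℕ → Nz n → Fin n → ℝ}

theorem meas_inc (h : Co a c) (i : ℕ) : Measurable fun ω : Nz n => inc (a i ω) (c i ω) (ω i) := by
  have := h.ma i; have := h.mc i
  unfold inc; fun_prop

theorem meas_vr (h : Co a c) (i : ℕ) : Measurable fun ω : Nz n => vr (a i ω) (c i ω) := by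
  have := h.ma i; have := h.mc i
  unfold vr; fun_prop

theorem meas_Ms (h : Co a c) (j : ℕ) : Measurable (Ms a c j) :=
  Finset.measurable_sum _ fun i _ => meas_inc h i

theorem ad_Ms (h : Co a c) (j : ℕ) : Ad j (Ms a c j) := fun ω ω' H =>
  sum_congr rfl fun i hi => by
    have hi := mem_range.1 hi
    rw [h.aa i ω ω' fun l hl => H l (by omega), h.ac i ω ω' fun l hl => H l (by omega), H i hi]

theorem Ms_update (h : Co a c) (j : ℕ) (ω : Nz n) (ξ : Fin n → ℝ) :
    Ms a c (j + 1) (Function.update ω j ξ) = Ms a c j ω + inc (a j ω) (c j ω) ξ := by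
  rw [← (ad_Ms h j).update le_rfl ω ξ, Ms, sum_range_succ, (h.aa j).update le_rfl,
    (h.ac j).update le_rfl, Function.update_self]
  rfl

theorem mgf (h : Co a c) (l : ℝ) (w : ℕ → ℝ) (j : ℕ)
    (hw : ∀ i, i < j → ∀ ω, vr (a i ω) (c i ω) ≤ w i)
    (hc : ∀ i, i < j → ∀ ω k, |l * c i ω k| ≤ 1 / 4) :
    EB (fun ω => exp (l * Ms a c j ω)) (exp (l ^ 2 * ∑ i ∈ range j, w i)) := by
  induction j with
  | zero => simpa [Ms] using EB.const (n := n) 1
  | succ j ih =>
    have ih := (ih (fun i hi => hw i (by omega)) fun i hi => hc i (by omega)).smul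
      (exp_pos (l ^ 2 * w j)).le
    have m := meas_Ms h (j + 1)
    unfold EB at ih ⊢
    rw [lint_update j (by fun_prop), sum_range_succ, mul_add, exp_add, mul_comm (exp _)]
    refine le_trans (lintegral_mono fun ω => ?_) ih
    simp only [Ms_update h, mul_add, exp_add, ENNReal.ofReal_mul (exp_pos _).le]
    rw [lintegral_const_mul' _ _ ENNReal.ofReal_ne_top, mul_comm]
    refine mul_le_mul_left ((step_exp l (hc j (by omega) ω)).trans (ENNReal.ofReal_le_ofReal
      (exp_le_exp.2 (mul_le_mul_of_nonneg_left (hw j (by omega) ω) (sq_nonneg l))))) _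

theorem markov {F : Nz n → ℝ} {b t : ℝ} (h : EB F b) (hF : Measurable F) (hb : 0 ≤ b) (ht : 0 < t) :
    (PP n).real {ω | t ≤ F ω} ≤ b / t := by
  have h1 := (mul_meas_ge_le_lintegral (μ := PP n) hF.ennreal_ofReal (ENNReal.ofReal t)).trans h
  have h2 : {ω | t ≤ F ω} ⊆ {ω | ENNReal.ofReal t ≤ ENNReal.ofReal (F ω)} := fun ω hω =>
    ENNReal.ofReal_le_ofReal hω
  have h3 := (mul_le_mul_right (measure_mono (μ := PP n) h2) (ENNReal.ofReal t)).trans h1
  have h4 := ENNReal.toReal_mono ENNReal.ofReal_ne_top h3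
  rw [ENNReal.toReal_mul, ENNReal.toReal_ofReal ht.le, ENNReal.toReal_ofReal hb] at h4
  rw [le_div_iff₀ ht, mul_comm]
  exact h4

end M46

open M46

theorem l2Stmt : L2Stmt := by
  intro n a c h x₀ w j hw
  induction j with
  | zero => simpa [Ms] using EB.const (n := n) (x₀ ^ 2)
  | succ j ih =>
    have ih := ih fun i hi => hw i (by omega)
    have m := meas_Ms h (j + 1)
    have m' := meas_Ms h j
    have h1 := ih.add (hw j (by omega)).2 (by fun_prop)
      (add_nonneg (sq_nonneg _) (sum_nonneg fun i hi => (hw i (by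
        have := mem_range.1 hi; omega)).1)) (hw j (by omega)).1
    unfold EB at h1 ⊢
    rw [lint_update j (by fun_prop), sum_range_succ, ← add_assoc]
    refine le_trans (le_of_eq (lintegral_congr fun ω => ?_)) h1
    simp only [Ms_update h, ← add_assoc]
    exact step_sq _ _ _

theorem tailStmt : TailStmt := by
  intro n a c h w j W c₀ x hW hx hw hs hc hx'
  have m := meas_Ms h j
  have key : ∀ l : ℝ, |l| = x / (2 * W) →
      (PP n).real {ω | exp (x ^ 2 / (2 * W)) ≤ exp (l * Ms a c j ω)} ≤ exp (-(x ^ 2 / (4 * W))) := by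
    intro l hl
    have h1 := mgf h l w j hw fun i hi ω k => by
      rw [abs_mul, hl]
      refine (mul_le_mul_of_nonneg_left (hc i hi ω k) (by positivity)).trans ?_
      rw [div_mul_eq_mul_div, div_le_div_iff₀ (by positivity) (by norm_num)]
      linarith
    refine (markov h1 (by fun_prop) (exp_pos _).le (exp_pos _)).trans ?_
    rw [← exp_sub]
    refine exp_le_exp.2 ?_
    have h2 : l ^ 2 = (x / (2 * W)) ^ 2 := by rw [← hl, sq_abs]
    have h3 := mul_le_mul_of_nonneg_left hs (sq_nonneg l)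
    have h4 : l ^ 2 * W - x ^ 2 / (2 * W) = -(x ^ 2 / (4 * W)) := by rw [h2]; field_simp; ring
    linarith
  have hp : 0 < x / (2 * W) := by positivity
  have e : x ^ 2 / (2 * W) = x / (2 * W) * x := by ring
  have sub : {ω | x < |Ms a c j ω|} ⊆
      {ω | exp (x ^ 2 / (2 * W)) ≤ exp (x / (2 * W) * Ms a c j ω)} ∪
        {ω | exp (x ^ 2 / (2 * W)) ≤ exp (-(x / (2 * W)) * Ms a c j ω)} := fun ω hω => by
    rcases lt_abs.1 (show x < |Ms a c j ω| from hω) with h1 | h1
    · exact Or.inl (exp_le_exp.2 (e ▸ mul_le_mul_of_nonneg_left h1.le hp.le))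
    · refine Or.inr (exp_le_exp.2 ?_)
      rw [e, neg_mul, ← mul_neg]
      exact mul_le_mul_of_nonneg_left h1.le hp.le
  refine (measureReal_mono sub).trans ((measureReal_union_le _ _).trans ?_)
  rw [two_mul (exp _)]
  exact add_le_add (key _ (abs_of_pos hp)) (key _ (by rw [abs_neg, abs_of_pos hp]))

end Crest.Agent.T157.Cq.Osc

end
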