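import Crest.Agent.T157.OscDef_27

/-!
# Row 157, part C: the oscillation lemma, the stop is unlikely (helper73)

`stopGlue : StopGlue`: one chaining of the stopped noise.
-/

set_option autoImplicit false

noncomputable section

namespace Crest.Agent.T157.Cq.Osc

open MeasureTheory ProbabilityTheory Matrix Filter Topology Finset Real
open Crest.Agent.T157.E Crest.Agent.T157.St Crest.Agent.T157.Ed

namespace S73

variable {n : ℕ}

/-- all times up to `i` are good -/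
def Gs (S : Sy n) (T Z : ℝ) (p : ℝ × (Fin n → ℝ)) (i : ℕ) : Set (Nz n) :=
  {ω | ∀ i', i' ≤ i → S.Good T Z p i' ω}

/-- its indicator -/
def ind (S : Sy n) (T Z : ℝ) (p : ℝ × (Fin n → ℝ)) (i : ℕ) (ω : Nz n) : ℝ :=
  (Gs S T Z p i).indicator (fun _ => (1 : ℝ)) ω

/-- stopped linear coefficients -/
def aa (S : Sy n) (T Z : ℝ) (p : ℝ × (Fin n → ℝ)) (d : ℕ → Fin n → ℝ) (i : ℕ) (ω : Nz n) :
    Fin n → ℝ := fun k => ind S T Z p i ω * (d i k * S.ca p i ω k)

/-- stopped quadratic coefficients -/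
def cq (S : Sy n) (T Z : ℝ) (p : ℝ × (Fin n → ℝ)) (d : ℕ → Fin n → ℝ) (i : ℕ) (ω : Nz n) :
    Fin n → ℝ := fun k => ind S T Z p i ω * (d i k * S.cc p i ω)

/-- the stopped noise -/
def nu (S : Sy n) (T Z : ℝ) (p : ℝ × (Fin n → ℝ)) (j : ℕ) (ω : Nz n) : ℝ :=
  Ms (aa S T Z p fun i k => S.K k (j - 1 - i)) (cq S T Z p fun i k => S.K k (j - 1 - i)) j ω

/-- kernel increments -/
def dK (S : Sy n) (j l i : ℕ) (k : Fin n) : ℝ :=
  S.K k (j + l - 1 - i) - if i < j then S.K k (j - 1 - i) else 0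

/-- the weights -/
def ph (j l i : ℕ) : ℝ := if i < j then √(l : ℝ) / √((j - i : ℕ) : ℝ) else 1

variable {S : Sy n} {T Z : ℝ} {p : ℝ × (Fin n → ℝ)}

theorem ind_of_mem {i : ℕ} {ω : Nz n} (h : ω ∈ Gs S T Z p i) : ind S T Z p i ω = 1 :=
  Set.indicator_of_mem h _

theorem ind_of_notMem {i : ℕ} {ω : Nz n} (h : ω ∉ Gs S T Z p i) : ind S T Z p i ω = 0 :=
  Set.indicator_of_notMem h _

theorem co (H : ∀ j, Measurable (S.st p j) ∧ Ad j (S.st p j) ∧ Ad j (S.g p j))
    (d : ℕ → Fin n → ℝ) : Co (aa S T Z p d) (cq S T Z p d) := by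
  have mb : ∀ j k, Measurable fun ω => S.be p j ω k := fun j k =>
    (measurable_pi_apply k).comp (H j).1.snd
  have mg : ∀ j, Measurable fun ω => S.g p j ω := fun j => (H (j + 1)).1.fst
  have mG : ∀ i, MeasurableSet (Gs S T Z p i) := fun i => by
    have : Gs S T Z p i = ⋂ i' : ℕ, ⋂ (_ : i' ≤ i),
        ({ω | S.V T (S.be p i' ω) ≤ Z} ∩ {ω | |S.g p i' ω - S.gb p i'| ≤ 1}) := by
      ext ω
      simp only [Gs, Sy.Good, Set.mem_ofPred_eq, Set.mem_iInter, Set.mem_inter_iff]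
    rw [this]
    refine MeasurableSet.iInter fun i' => MeasurableSet.iInter fun _ => MeasurableSet.inter ?_ ?_
    · refine measurableSet_le ?_ measurable_const
      exact Finset.measurable_sum _ fun k _ => ((mb i' k).pow_const 2).const_mul _
    · exact measurableSet_le ((mg i').sub_const _).abs measurable_const
  have mI : ∀ i, Measurable (ind S T Z p i) := fun i => measurable_const.indicator (mG i)
  have eb : ∀ {i : ℕ} {ω ω' : Nz n}, (∀ l, l < i → ω l = ω' l) → ∀ i', i' ≤ i →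
      S.be p i' ω = S.be p i' ω' ∧ S.g p i' ω = S.g p i' ω' := fun h i' hi =>
    ⟨congrArg Prod.snd (((H i').2.1.mono hi) _ _ h), ((H i').2.2.mono hi) _ _ h⟩
  have aI : ∀ i, Ad i (ind S T Z p i) := fun i ω ω' h => by
    have : ω ∈ Gs S T Z p i ↔ ω' ∈ Gs S T Z p i := by
      refine forall₂_congr fun i' hi => ?_
      simp only [Sy.Good, (eb h i' hi).1, (eb h i' hi).2]
    by_cases hω : ω ∈ Gs S T Z p i
    · rw [ind_of_mem hω, ind_of_mem (this.1 hω)]
    · rw [ind_of_notMem hω, ind_of_notMem fun h' => hω (this.2 h')]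
  refine ⟨fun i => measurable_pi_lambda _ fun k => (mI i).mul (Measurable.const_mul ?_ _),
    fun i => measurable_pi_lambda _ fun k => (mI i).mul (Measurable.const_mul ?_ _),
    fun i ω ω' h => ?_, fun i ω ω' h => ?_⟩
  · exact ((mb i k).const_mul _).mul ((mg i).const_mul _).sqrt
  · exact (mg i).const_mul _
  · funext k
    simp only [aa, Sy.ca, aI i ω ω' h, (eb h i le_rfl).1, (eb h i le_rfl).2]
  · funext k
    simp only [cq, Sy.cc, aI i ω ω' h, (eb h i le_rfl).2]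

theorem nu_sub (j l : ℕ) (ω : Nz n) : nu S T Z p (j + l) ω - nu S T Z p j ω =
    Ms (aa S T Z p (dK S j l)) (cq S T Z p (dK S j l)) (j + l) ω := by
  have h1 : nu S T Z p j ω = ∑ i ∈ range (j + l), if i < j then
      inc (aa S T Z p (fun i k => S.K k (j - 1 - i)) i ω)
        (cq S T Z p (fun i k => S.K k (j - 1 - i)) i ω) (ω i) else 0 := by
    rw [← Finset.sum_filter]
    have : (range (j + l)).filter (fun i => i < j) = range j := by
      ext i; simp only [mem_filter, mem_range]; omega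
    rw [this]; rfl
  rw [h1]
  unfold nu Ms
  rw [← Finset.sum_sub_distrib]
  refine Finset.sum_congr rfl fun i _ => ?_
  by_cases hi : i < j
  · simp only [hi, if_true, inc, aa, cq, dK, ← Finset.sum_sub_distrib]
    exact Finset.sum_congr rfl fun k _ => by ring
  · simp only [hi, if_false, inc, aa, cq, dK, sub_zero]

theorem wt_pos {η : ℕ → ℝ} (hT : 0 < T) (k : ℕ) : 0 < Wt η T k := by
  unfold Wt
  have : 0 ≤ T * max (η k) 0 := mul_nonneg hT.le (le_max_right _ _)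
  positivity

theorem wt_le {η : ℕ → ℝ} (hT : 0 < T) (h1 : T ≤ 1) (k : ℕ) : Wt η T k ≤ 1 := by
  unfold Wt
  have : 0 ≤ T * max (η k) 0 := mul_nonneg hT.le (le_max_right _ _)
  rw [div_le_one (by positivity)]
  linarith

theorem ph_nonneg (j l i : ℕ) : 0 ≤ ph j l i := by
  unfold ph; split_ifs <;> positivity

theorem min_le_sqrt {l m : ℝ} (hl : 0 ≤ l) (hm : 1 ≤ m) : min 1 (l / m) ≤ 4 * (√l / √(m + 1)) := by
  have h0 : 0 ≤ l / m := by positivity
  have h1 : min 1 (l / m) ≤ √(l / m) := by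
    rcases le_total 1 (l / m) with h | h
    · rw [min_eq_left h]; exact one_le_sqrt.2 h
    · rw [min_eq_right h]
      exact le_sqrt_of_sq_le (by nlinarith)
  have h2 : √(l / m) ≤ 4 * (√l / √(m + 1)) := by
    rw [← sqrt_div hl]
    refine sqrt_le_iff.2 ⟨by positivity, ?_⟩
    rw [mul_pow, sq_sqrt (by positivity), ← mul_div_assoc,
      div_le_div_iff₀ (by positivity) (by positivity)]
    nlinarith
  exact h1.trans h2

theorem dK_sq {c D C₁ : ℝ} {M : ℕ} (P : S.Par c D C₁ T M) (hD : 0 ≤ D) {j l i : ℕ} (hl : 0 < l)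
    (hM : j + l ≤ M) (k : Fin n) :
    dK S j l i k ^ 2 ≤ 4 * D ∧ dK S j l i k ^ 2 ≤ 4 * D * Wt S.η T k * ph j l i := by
  have w0 := wt_pos (η := S.η) P.T0 k
  have w1 := wt_le (η := S.η) P.T0 P.T1 k
  have hDW : 0 ≤ D * Wt S.η T k := by positivity
  have hDW1 : D * Wt S.η T k ≤ D := by nlinarith
  have u1 := P.Ku k (j + l - 1 - i) (by omega)
  unfold dK ph
  by_cases hi : i < j
  · simp only [hi, if_true]
    have u2 := P.Ku k (j - 1 - i) (by omega)
    have h4 : (S.K k (j + l - 1 - i) - S.K k (j - 1 - i)) ^ 2 ≤ 4 * (D * Wt S.η T k) := by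
      nlinarith [sq_nonneg (S.K k (j + l - 1 - i) + S.K k (j - 1 - i))]
    refine ⟨by linarith, ?_⟩
    by_cases hm : j - 1 - i = 0
    · have e : j - i = 1 := by omega
      have h1 : (1 : ℝ) ≤ √(l : ℝ) := one_le_sqrt.2 (by exact_mod_cast hl)
      rw [e]
      simp only [Nat.cast_one, sqrt_one, div_one]
      nlinarith
    · obtain ⟨m, hm'⟩ : ∃ m, j - 1 - i = m := ⟨_, rfl⟩
      have e1 : j + l - 1 - i = m + l := by omega
      have e2 : j - i = m + 1 := by omega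
      have h5 := P.Kd k m l (by omega) (by omega)
      have h6 := min_le_sqrt (l := l) (m := m) (Nat.cast_nonneg _)
        (by exact_mod_cast (by omega : 1 ≤ m))
      rw [e1, e2, hm']
      push_cast
      calc _ ≤ D * min 1 ((l : ℝ) / m) * Wt S.η T k := h5
        _ = D * Wt S.η T k * min 1 ((l : ℝ) / m) := by ring
        _ ≤ D * Wt S.η T k * (4 * (√(l : ℝ) / √((m : ℝ) + 1))) :=
          mul_le_mul_of_nonneg_left h6 hDW
        _ = _ := by ring
  · simp only [hi, if_false, sub_zero]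
    exact ⟨by linarith, by linarith⟩

theorem sum_ph (j l : ℕ) :
    ∑ i ∈ range (j + l), ph j l i * (√((i : ℝ) + 1))⁻¹ ≤ 6 * √(l : ℝ) := by
  rw [Finset.sum_range_add]
  have hj : 0 < √((j : ℝ) + 1) := sqrt_pos.2 (by positivity)
  have h1 : ∑ i ∈ range j, ph j l i * (√((i : ℝ) + 1))⁻¹ ≤ 4 * √(l : ℝ) := by
    have h2 : ∀ i ∈ range j, ph j l i * (√((i : ℝ) + 1))⁻¹ ≤ √(l : ℝ) / √((j : ℝ) + 1) *
        ((√(((j - 1 - i : ℕ) : ℝ) + 1))⁻¹ + (√((i : ℝ) + 1))⁻¹) := fun i hi => by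
      have hi' := mem_range.1 hi
      obtain ⟨m, hm⟩ : ∃ m, j - 1 - i = m := ⟨_, rfl⟩
      have e2 : j - i = m + 1 := by omega
      have e3 : (j : ℝ) + 1 = ((m : ℝ) + 1) + ((i : ℝ) + 1) := by
        have : j = m + 1 + i := by omega
        rw [this]; push_cast; ring
      simp only [ph, hi', if_true]
      rw [e2, hm]
      push_cast
      have ha : 0 < √((m : ℝ) + 1) := sqrt_pos.2 (by positivity)
      have hb : 0 < √((i : ℝ) + 1) := sqrt_pos.2 (by positivity)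
      have hs : √((j : ℝ) + 1) ≤ √((m : ℝ) + 1) + √((i : ℝ) + 1) := by
        rw [e3]
        refine sqrt_le_iff.2 ⟨by positivity, ?_⟩
        nlinarith [sq_sqrt (by positivity : (0 : ℝ) ≤ (m : ℝ) + 1),
          sq_sqrt (by positivity : (0 : ℝ) ≤ (i : ℝ) + 1), mul_pos ha hb]
      have hl : 0 ≤ √(l : ℝ) := sqrt_nonneg _
      have : (√((m : ℝ) + 1))⁻¹ * (√((i : ℝ) + 1))⁻¹ ≤ (√((j : ℝ) + 1))⁻¹ *
          ((√((m : ℝ) + 1))⁻¹ + (√((i : ℝ) + 1))⁻¹) := by
        rw [← sub_nonneg]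
        have : (√((j : ℝ) + 1))⁻¹ * ((√((m : ℝ) + 1))⁻¹ + (√((i : ℝ) + 1))⁻¹) -
            (√((m : ℝ) + 1))⁻¹ * (√((i : ℝ) + 1))⁻¹ =
            (√((m : ℝ) + 1) + √((i : ℝ) + 1) - √((j : ℝ) + 1)) /
              (√((j : ℝ) + 1) * √((m : ℝ) + 1) * √((i : ℝ) + 1)) := by
          field_simp
          ring
        rw [this]
        exact div_nonneg (by linarith) (by positivity)
      calc _ = √(l : ℝ) * ((√((m : ℝ) + 1))⁻¹ * (√((i : ℝ) + 1))⁻¹) := by ring
        _ ≤ √(l : ℝ) * ((√((j : ℝ) + 1))⁻¹ *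
          ((√((m : ℝ) + 1))⁻¹ + (√((i : ℝ) + 1))⁻¹)) := mul_le_mul_of_nonneg_left this hl
        _ = _ := by ring
    refine (Finset.sum_le_sum h2).trans ?_
    rw [← Finset.mul_sum, Finset.sum_add_distrib,
      Finset.sum_range_reflect (fun i => (√((i : ℝ) + 1))⁻¹) j]
    have h3 := sum_isqrt j
    have h4 : √(j : ℝ) ≤ √((j : ℝ) + 1) := sqrt_le_sqrt (by linarith)
    calc _ ≤ √(l : ℝ) / √((j : ℝ) + 1) * (4 * √((j : ℝ) + 1)) :=
        mul_le_mul_of_nonneg_left (by linarith) (by positivity)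
      _ = _ := by field_simp
  have h2 : ∑ i ∈ range l, ph j l (j + i) * (√(((j + i : ℕ) : ℝ) + 1))⁻¹ ≤ 2 * √(l : ℝ) := by
    refine le_trans (Finset.sum_le_sum fun i _ => ?_) (sum_isqrt l)
    have : ¬ j + i < j := by omega
    simp only [ph, this, if_false, one_mul]
    refine inv_anti₀ (sqrt_pos.2 (by positivity)) (sqrt_le_sqrt ?_)
    push_cast
    linarith [(Nat.cast_nonneg j : (0 : ℝ) ≤ j)]
  linarith

/-- size of `h g_i` at a good time -/
theorem hg_le {c D C₁ σ : ℝ} {M : ℕ} (P : S.Par c D C₁ T M) (I : S.Ini C₁ σ M p) {i : ℕ}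
    (hi : i ≤ M) {ω : Nz n} (G : S.Good T Z p i ω) :
    S.h * S.g p i ω ≤ C₁ * √S.h * (√((i : ℝ) + 1))⁻¹ := by
  have h0 := P.h0
  have h1 := I.up i hi
  have h2 := (abs_le.1 G.2).2
  have hs : 0 < √S.h := sqrt_pos.2 h0
  have hb : 0 < √((i : ℝ) + 1) := sqrt_pos.2 (by positivity)
  rw [sqrt_mul (by positivity)] at h1
  calc _ ≤ S.h * (C₁ / (√((i : ℝ) + 1) * √S.h)) := mul_le_mul_of_nonneg_left (by linarith) h0.le
    _ = (√S.h * √S.h) * (C₁ / (√((i : ℝ) + 1) * √S.h)) := by rw [mul_self_sqrt h0.le]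
    _ = _ := by field_simp

theorem coef {c D C₁ σ : ℝ} {M : ℕ} (P : S.Par c D C₁ T M) (I : S.Ini C₁ σ M p) (hD : 0 ≤ D)
    (hC : 1 ≤ C₁) (hZ : 0 ≤ Z) (g0 : ∀ j ω, 0 < S.g p j ω) {j l i : ℕ} (hl : 0 < l)
    (hM : j + l ≤ M) (hi : i < j + l) (ω : Nz n) :
    vr (aa S T Z p (dK S j l) i ω) (cq S T Z p (dK S j l) i ω) ≤
      4 * D * (16 * Z + 8) * C₁ * √S.h * (ph j l i * (√((i : ℝ) + 1))⁻¹) ∧
    ∀ k, |cq S T Z p (dK S j l) i ω k| ≤ 4 * C₁ * √D * √S.h := by
  have h0 := P.h0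
  have hp := ph_nonneg j l i
  by_cases hω : ω ∈ Gs S T Z p i
  swap
  · simp only [vr, aa, cq, ind_of_notMem hω, zero_mul, abs_zero]
    refine ⟨?_, fun _ => by positivity⟩
    simp only [ne_eq, OfNat.ofNat_ne_zero, not_false_eq_true, zero_pow, mul_zero, add_zero,
      sum_const_zero]
    positivity
  have G := hω i le_rfl
  have h1 := hg_le P I (by omega : i ≤ M) G
  have hg := g0 i ω
  have hb : 1 ≤ √((i : ℝ) + 1) := one_le_sqrt.2 (by linarith [(Nat.cast_nonneg i : (0 : ℝ) ≤ i)])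
  have hb' : (√((i : ℝ) + 1))⁻¹ ≤ 1 := inv_le_one_of_one_le₀ hb
  have hCs : 0 ≤ C₁ * √S.h := by positivity
  have h2 : S.h * S.g p i ω ≤ C₁ * √S.h := h1.trans (mul_le_of_le_one_right hCs hb')
  set y := S.h * S.g p i ω with hy
  have y0 : 0 < y := mul_pos h0 hg
  have hyn : y * n ≤ 1 := (mul_le_mul_of_nonneg_right h2 (Nat.cast_nonneg _)).trans P.sm
  simp only [vr, aa, cq, ind_of_mem hω, one_mul]
  constructor
  · have h3 : ∀ k ∈ (univ : Finset (Fin n)), (dK S j l i k * S.ca p i ω k) ^ 2 +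
        2 * (dK S j l i k * S.cc p i ω) ^ 2 ≤
        4 * D * ph j l i * (16 * y * (Wt S.η T k * S.be p i ω k ^ 2) + 8 * y * y) := fun k _ => by
      have d2 := (dK_sq P hD (i := i) hl hM k).2
      have w0 := wt_pos (η := S.η) P.T0 k
      have w1 := wt_le (η := S.η) P.T0 P.T1 k
      have q0 := P.q0 k
      have q2 : S.q k ≤ 2 := by simpa using P.q2 k 1 (by omega)
      have e1 : S.ca p i ω k ^ 2 = 8 * S.q k * S.be p i ω k ^ 2 * y := by
        unfold Sy.ca
        rw [mul_pow, mul_pow, mul_pow, sq_sqrt q0, sq_sqrt (by positivity), hy]; ring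
      have e2 : S.cc p i ω ^ 2 = 4 * y * y := by unfold Sy.cc; rw [hy]; ring
      have b1 : S.ca p i ω k ^ 2 ≤ 16 * y * S.be p i ω k ^ 2 := by
        rw [e1]
        nlinarith [mul_nonneg (sq_nonneg (S.be p i ω k)) y0.le]
      have hyy : 0 ≤ y * y := by positivity
      calc _ = dK S j l i k ^ 2 * (S.ca p i ω k ^ 2 + 2 * S.cc p i ω ^ 2) := by ring
        _ ≤ (4 * D * Wt S.η T k * ph j l i) * (16 * y * S.be p i ω k ^ 2 + 8 * y * y) :=
          mul_le_mul d2 (by rw [e2]; linarith) (by positivity) (by positivity)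
        _ = 4 * D * ph j l i * (16 * y * (Wt S.η T k * S.be p i ω k ^ 2) +
          8 * y * y * Wt S.η T k) := by ring
        _ ≤ _ := mul_le_mul_of_nonneg_left (by nlinarith) (by positivity)
    refine (Finset.sum_le_sum h3).trans ?_
    rw [← Finset.mul_sum, Finset.sum_add_distrib, ← Finset.mul_sum]
    simp only [sum_const, card_univ, Fintype.card_fin, nsmul_eq_mul]
    have hV : ∑ k : Fin n, Wt S.η T k * S.be p i ω k ^ 2 ≤ Z := G.1
    have h4 : 16 * y * ∑ k : Fin n, Wt S.η T k * S.be p i ω k ^ 2 + n * (8 * y * y) ≤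
        (16 * Z + 8) * y := by nlinarith
    calc _ ≤ 4 * D * ph j l i * ((16 * Z + 8) * y) :=
        mul_le_mul_of_nonneg_left h4 (by positivity)
      _ ≤ 4 * D * ph j l i * ((16 * Z + 8) * (C₁ * √S.h * (√((i : ℝ) + 1))⁻¹)) := by gcongr
      _ = _ := by ring
  · intro k
    have d1 := (dK_sq P hD (i := i) hl hM k).1
    have d3 : |dK S j l i k| ≤ 2 * √D := by
      refine abs_le_of_sq_le_sq' ?_ (by positivity) |> abs_le.2
      rw [mul_pow, sq_sqrt hD]; linarith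
    have e2 : S.cc p i ω = 2 * y := by unfold Sy.cc; rw [hy]; ring
    rw [abs_mul, e2, abs_of_pos (by positivity : 0 < 2 * y)]
    calc _ ≤ 2 * √D * (2 * (C₁ * √S.h)) := by gcongr
      _ = _ := by ring

theorem exp_neg_le {y : ℝ} (hy : 0 < y) : exp (-y) ≤ 24 / y ^ 4 := by
  have h := Real.pow_div_factorial_le_exp y hy.le 4
  have e : ((Nat.factorial 4 : ℕ) : ℝ) = 24 := by norm_num [Nat.factorial]
  rw [e] at h
  rw [exp_neg, inv_eq_one_div, div_le_div_iff₀ (exp_pos _) (by positivity)]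
  linarith

theorem tail (hT : TailStmt) {c D C₁ σ : ℝ} {M : ℕ} (P : S.Par c D C₁ T M) (I : S.Ini C₁ σ M p)
    (hD : 0 ≤ D) (hC : 1 ≤ C₁) (hZ : 0 ≤ Z)
    (H : ∀ j, Measurable (S.st p j) ∧ Ad j (S.st p j) ∧ Ad j (S.g p j))
    (g0 : ∀ j ω, 0 < S.g p j ω) (j l : ℕ) (x : ℝ) (hl : 0 < l) (hM : j + l ≤ M) (hx : 0 < x)
    (hx1 : x ≤ 1) :
    (PP n).real {ω | x < |nu S T Z p (j + l) ω - nu S T Z p j ω|} ≤
      12288 * (24 * D * (16 * Z + 8) * C₁ + 8 * C₁ * √D + 1) ^ 4 * S.h ^ 2 * (l : ℝ) ^ 2 / x ^ 8 := by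
  have h0 := P.h0
  have hs : 0 < √S.h := sqrt_pos.2 h0
  have hl1 : (1 : ℝ) ≤ √(l : ℝ) := one_le_sqrt.2 (by exact_mod_cast hl)
  have hA : 0 ≤ 24 * D * (16 * Z + 8) * C₁ := by positivity
  have hB : 0 ≤ 8 * C₁ * √D := by positivity
  set C₃ := 24 * D * (16 * Z + 8) * C₁ + 8 * C₁ * √D + 1 with hC₃
  have c0 : 0 < C₃ := by positivity
  simp only [nu_sub]
  have hW : 0 < C₃ * √S.h * √(l : ℝ) := by positivity
  have key := hT n _ _ (co (T := T) (Z := Z) H (dK S j l))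
    (fun i => 4 * D * (16 * Z + 8) * C₁ * √S.h * (ph j l i * (√((i : ℝ) + 1))⁻¹)) (j + l)
    (C₃ * √S.h * √(l : ℝ)) (4 * C₁ * √D * √S.h) x hW hx
    (fun i hi ω => (coef P I hD hC hZ g0 hl hM hi ω).1) ?_
    (fun i hi ω k => (coef P I hD hC hZ g0 hl hM hi ω).2 k) ?_
  · refine key.trans ?_
    have h1 := exp_neg_le (y := x ^ 2 / (4 * (C₃ * √S.h * √(l : ℝ)))) (by positivity)
    have e1 : √S.h ^ 4 = S.h ^ 2 := by
      rw [show 4 = 2 * 2 from rfl, pow_mul, sq_sqrt h0.le]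
    have e2 : √(l : ℝ) ^ 4 = (l : ℝ) ^ 2 := by
      rw [show 4 = 2 * 2 from rfl, pow_mul, sq_sqrt (Nat.cast_nonneg _)]
    calc _ ≤ 2 * (24 / (x ^ 2 / (4 * (C₃ * √S.h * √(l : ℝ)))) ^ 4) := by linarith
      _ = 12288 * C₃ ^ 4 * √S.h ^ 4 * √(l : ℝ) ^ 4 / x ^ 8 := by field_simp; norm_num
      _ = _ := by rw [e1, e2]
  · rw [← Finset.mul_sum]
    calc _ ≤ 4 * D * (16 * Z + 8) * C₁ * √S.h * (6 * √(l : ℝ)) :=
        mul_le_mul_of_nonneg_left (sum_ph j l) (by positivity)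
      _ = 24 * D * (16 * Z + 8) * C₁ * √S.h * √(l : ℝ) := by ring
      _ ≤ _ := by gcongr; linarith
  · calc _ ≤ 2 * 1 * (4 * C₁ * √D * √S.h) := by gcongr
      _ = 8 * C₁ * √D * √S.h * 1 := by ring
      _ ≤ _ := by gcongr; linarith

/-- before the first bad time the stopped noise is the noise -/
theorem nu_eq {i j : ℕ} (hij : i ≤ j) {ω : Nz n} (h1 : ∀ l, l < i → S.Good T Z p l ω)
    (h2 : ¬ S.Good T Z p i ω) : nu S T Z p j ω =
      ∑ l ∈ range i, inc (fun k => S.K k (j - 1 - l) * S.ca p l ω k)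
        (fun k => S.K k (j - 1 - l) * S.cc p l ω) (ω l) := by
  unfold nu Ms
  rw [← Finset.sum_subset (range_subset_range.2 hij)]
  · refine Finset.sum_congr rfl fun l hl => ?_
    have : ω ∈ Gs S T Z p l := fun l' hl' => h1 l' (by have := mem_range.1 hl; omega)
    simp only [inc, aa, cq, ind_of_mem this, one_mul]
  · intro l _ hl
    have : ω ∉ Gs S T Z p l := fun h => h2 (h i (by simpa using hl))
    simp [inc, aa, cq, ind_of_notMem this]

theorem main : StopGlue := by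
  rintro hT ⟨D₀, hD₀, hCh⟩ hDu c D C₁ hc hD hC
  have hZ : 0 ≤ C₁ / c := by positivity
  set C₃ := 24 * D * (16 * (C₁ / c) + 8) * C₁ + 8 * C₁ * √D + 1 with hC₃
  refine ⟨D₀ * (12288 * C₃ ^ 4), fun n S T σ M N p P I hN hTN => ?_⟩
  obtain ⟨H, H2, H3, H4⟩ := hDu n S p P.toBas I.g0
  have h0 := P.h0
  have g0 : ∀ j ω, 0 < S.g p j ω := fun j ω => (H2 (j + 1) ω).1
  have key := hCh n (nu S T (C₁ / c) p) M (12288 * C₃ ^ 4 * S.h ^ 2) (by positivity)
    (fun ω => by simp [nu, Ms]) fun j l x hl hM hx hx1 =>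
      tail hT P I hD hC hZ H g0 j l x hl hM hx hx1
  have hsub : {ω | ∃ i, i < N ∧ ¬ S.Good T (C₁ / c) p i ω} ⊆
      {ω | ∃ j, j ≤ M ∧ 1 < |nu S T (C₁ / c) p j ω|} := by
    classical
    intro ω hω
    obtain ⟨hi, hb⟩ := Nat.find_spec hω
    set i := Nat.find hω with hi'
    have hg : ∀ l, l < i → S.Good T (C₁ / c) p l ω := fun l hl => by
      by_contra h
      exact Nat.find_min hω hl ⟨by omega, h⟩
    by_cases h1 : |S.g p i ω - S.gb p i| ≤ 1
    · have hV : C₁ / c < S.V T (S.be p i ω) := by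
        by_contra h
        exact hb ⟨not_lt.1 h, h1⟩
      refine ⟨M, le_rfl, lt_of_lt_of_le ?_ (le_abs_self _)⟩
      have e := H3 i M ω (by omega)
      rw [← nu_eq (by omega) hg hb] at e
      have hs : 0 < √T := sqrt_pos.2 P.T0
      have a1 : 0 ≤ (1 - S.h * S.κ * S.t) * S.ρ (M - i) / S.κ * S.ga p i ω := by
        have := P.t1
        have := P.r0 (M - i) (by omega)
        have := P.k0
        have := (H2 i ω).1
        have : 0 ≤ 1 - S.h * S.κ * S.t := by linarith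
        positivity
      have a2 : c / √T * S.V T (S.be p i ω) ≤ ∑ k, S.K k (M - i) * S.be p i ω k ^ 2 := by
        unfold Sy.V
        rw [Finset.mul_sum]
        refine Finset.sum_le_sum fun k _ => ?_
        have hk := P.Kl k (M - i) (by omega) (by
          rw [Nat.cast_sub (by omega)]
          have : (i : ℝ) ≤ N := by exact_mod_cast hi.le
          nlinarith)
        calc _ = c * Wt S.η T k / √T * S.be p i ω k ^ 2 := by ring
          _ ≤ _ := mul_le_mul_of_nonneg_right hk (sq_nonneg _)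
      have a3 : C₁ / √T < c / √T * S.V T (S.be p i ω) := by
        calc _ = c / √T * (C₁ / c) := by field_simp
          _ < _ := mul_lt_mul_of_pos_left hV (by positivity)
      have a4 : S.gb p M + 1 ≤ C₁ / √T :=
        (I.up M le_rfl).trans (div_le_div_of_nonneg_left (by linarith) hs (sqrt_le_sqrt P.Ml))
      linarith
    · refine ⟨i, by omega, ?_⟩
      have e := H4 i ω
      rw [← nu_eq le_rfl hg hb] at e
      rw [e, add_sub_cancel_left] at h1
      exact not_le.1 h1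
  refine ((measureReal_mono hsub).trans key).trans ?_
  have hM : ((M : ℝ) * S.h) ^ 2 ≤ T ^ 2 := pow_le_pow_left₀ (by positivity) P.Mu 2
  calc _ = D₀ * (12288 * C₃ ^ 4) * ((M : ℝ) * S.h) ^ 2 := by ring
    _ ≤ _ := mul_le_mul_of_nonneg_left hM (by positivity)

end S73

theorem stopGlue : StopGlue := S73.main

end Crest.Agent.T157.Cq.Osc

end
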