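import Crest.Agent.T157.OscDef_27

/-!
# Row 157, part C (helper59): `Osc.UsStmt` and `Osc.ChStmt`
-/

set_option autoImplicit false

noncomputable section

namespace Crest.Agent.T157.Cq.Osc

open MeasureTheory ProbabilityTheory Matrix Filter Topology Finset Real
open Crest.Agent.T157.E Crest.Agent.T157.St Crest.Agent.T157.Ed

namespace U59

variable {n : ℕ} (η : ℕ → ℝ) (t κ h : ℝ)

lemma meas_Fs : Measurable (Fs n η t κ h) := by
  refine measurable_pi_lambda _ fun k => ?_
  simp only [Fs, dotProduct]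
  fun_prop

lemma meas_XS (x : Fin n → ℝ) (j : ℕ) : Measurable (XS n η t κ h x j) := by
  induction j with
  | zero => exact measurable_const
  | succ j ih =>
    exact ((meas_Fs η t κ h).comp ih).add ((measurable_pi_apply j).const_smul √(2 * h))

lemma ad_XS (x : Fin n → ℝ) (j : ℕ) : Ad j (XS n η t κ h x j) := by
  induction j with
  | zero => exact fun _ _ _ => rfl
  | succ j ih =>
    intro ω ω' H
    simp only [XS]
    rw [ih ω ω' fun l hl => H l (by omega), H j (by omega)]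

lemma b1_Us {v : (Fin n → ℝ) → ℝ} (hv : B1 v) : B1 (Us n η t κ h v) := by
  have hm : Measurable fun q : (Fin n → ℝ) × (Fin n → ℝ) =>
      v (Fs n η t κ h q.1 + √(2 * h) • q.2) :=
    hv.1.comp (((meas_Fs η t κ h).comp measurable_fst).add (measurable_snd.const_smul √(2 * h)))
  refine ⟨hm.stronglyMeasurable.integral_prod_right'.measurable, fun x => ?_⟩
  have := norm_integral_le_of_norm_le_const (μ := gv (Fin n)) (C := 1)
    (f := fun ξ => v (Fs n η t κ h x + √(2 * h) • ξ)) (ae_of_all _ fun ξ => hv.2 _)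
  rwa [probReal_univ, mul_one] at this

end U59

open U59

theorem usStmt : UsStmt := by
  intro n η t κ h x j
  refine ⟨meas_XS η t κ h x j, ?_⟩
  induction j with
  | zero => intro v _; simp [XS]
  | succ j ih =>
    intro v hv
    rw [Function.iterate_succ_apply, ih _ (b1_Us η t κ h hv)]
    have hm : Measurable fun ω => v (XS n η t κ h x (j + 1) ω) := hv.1.comp (meas_XS η t κ h x _)
    have hp := mp_update (n := n) j
    have hi : Integrable (fun q : Nz n × (Fin n → ℝ) =>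
        v (XS n η t κ h x (j + 1) (Function.update q.1 j q.2))) ((PP n).prod (gv (Fin n))) :=
      (integrable_const (1 : ℝ)).mono' (hm.comp hp.measurable).aestronglyMeasurable
        (ae_of_all _ fun q => hv.2 _)
    conv_rhs => rw [← hp.map_eq]
    rw [integral_map hp.measurable.aemeasurable hm.aestronglyMeasurable, integral_prod _ hi]
    refine integral_congr_ae (ae_of_all _ fun ω => ?_)
    simp only [Us, XS, Function.update_self, (ad_XS η t κ h x j).update le_rfl]

namespace U59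

lemma chain {ν : ℕ → ℝ} (h0 : ν 0 = 0) {M L : ℕ} (hM : M < 2 ^ (L + 1))
    (h : ∀ r, r ≤ L → ∀ i, i < M / 2 ^ (L - r) →
      |ν (i * 2 ^ (L - r) + 2 ^ (L - r)) - ν (i * 2 ^ (L - r))| ≤ 1 / 16 * (15 / 16) ^ r)
    {j : ℕ} (hj : j ≤ M) : |ν j| ≤ 1 := by
  have key : ∀ r, r ≤ L + 1 →
      |ν (j / 2 ^ (L + 1 - r) * 2 ^ (L + 1 - r))| ≤ 1 - (15 / 16) ^ r := by
    intro r
    induction r with
    | zero => intro _; simp [Nat.div_eq_of_lt (lt_of_le_of_lt hj hM), h0]
    | succ r ih =>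
      intro hr
      have h1 := ih (by omega)
      have e1 : L + 1 - r = (L - r) + 1 := by omega
      have e2 : L + 1 - (r + 1) = L - r := by omega
      rw [e1, pow_succ, ← Nat.div_div_eq_div_mul] at h1
      rw [e2]
      have hp : (0 : ℝ) < (15 / 16) ^ r := by positivity
      have hle : j / 2 ^ (L - r) ≤ M / 2 ^ (L - r) := Nat.div_le_div_right hj
      have h2 := h r (by omega)
      generalize j / 2 ^ (L - r) = a at h1 hle ⊢
      generalize 2 ^ (L - r) = l at h1 h2 hle ⊢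
      rcases Nat.even_or_odd' a with ⟨b, rfl | rfl⟩
      · have e : 2 * b / 2 * (l * 2) = 2 * b * l := by
          rw [Nat.mul_div_cancel_left _ two_pos]; ring
        rw [e] at h1
        rw [pow_succ]
        linarith
      · have e : (2 * b + 1) / 2 * (l * 2) = 2 * b * l := by
          rw [show (2 * b + 1) / 2 = b by omega]; ring
        rw [e] at h1
        have h3 := h2 (2 * b) (by omega)
        rw [pow_succ, add_mul, one_mul]
        have := abs_sub_abs_le_abs_sub (ν (2 * b * l + l)) (ν (2 * b * l))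
        linarith
  have := key (L + 1) le_rfl
  simp only [Nat.sub_self, pow_zero, Nat.div_one, mul_one] at this
  linarith [pow_pos (by norm_num : (0 : ℝ) < 15 / 16) (L + 1)]

end U59

theorem chStmt : ChStmt := by
  have hq0 : (0 : ℝ) ≤ (16 / 15) ^ 8 / 2 := by positivity
  have hq1 : ((16 / 15) ^ 8 / 2 : ℝ) < 1 := by norm_num
  refine ⟨16 ^ 8 * (1 - (16 / 15) ^ 8 / 2)⁻¹, by norm_num, fun n ν M B hB h0 h => ?_⟩
  rcases eq_or_ne M 0 with rfl | hM
  · have : {ω | ∃ j, j ≤ 0 ∧ 1 < |ν j ω|} = ∅ := by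
      ext ω; simp [h0]
    rw [this]; simp
  set L := Nat.log 2 M with hL
  have hsub : {ω | ∃ j, j ≤ M ∧ 1 < |ν j ω|} ⊆ ⋃ r ∈ range (L + 1),
      ⋃ i ∈ range (M / 2 ^ (L - r)), {ω | 1 / 16 * (15 / 16) ^ r <
        |ν (i * 2 ^ (L - r) + 2 ^ (L - r)) ω - ν (i * 2 ^ (L - r)) ω|} := by
    rintro ω ⟨j, hj, h1⟩
    by_contra hn
    simp only [Set.mem_iUnion, mem_range, Set.mem_ofPred_eq, not_exists, not_lt] at hn
    exact absurd (chain (ν := fun j => ν j ω) (h0 ω) (Nat.lt_pow_succ_log_self one_lt_two M)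
      (fun r hr i hi => hn r (by omega) i hi) hj) (not_le.2 h1)
  refine (measureReal_mono hsub (measure_ne_top _ _)).trans ((measureReal_biUnion_finset_le _ _).trans ?_)
  have hM0 : (0 : ℝ) ≤ M := Nat.cast_nonneg M
  have key : ∀ r ∈ range (L + 1), (PP n).real (⋃ i ∈ range (M / 2 ^ (L - r)),
      {ω | 1 / 16 * (15 / 16) ^ r <
        |ν (i * 2 ^ (L - r) + 2 ^ (L - r)) ω - ν (i * 2 ^ (L - r)) ω|}) ≤
      16 ^ 8 * B * (M : ℝ) ^ 2 * ((16 / 15) ^ 8 / 2) ^ r := by
    intro r hr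
    have hr' : r ≤ L := Nat.lt_succ_iff.1 (mem_range.1 hr)
    have hl : 2 ^ (L - r) * 2 ^ r ≤ M := by
      rw [← pow_add, Nat.sub_add_cancel hr']
      exact Nat.pow_log_le_self 2 hM
    have hl0 : 0 < 2 ^ (L - r) := by positivity
    generalize 2 ^ (L - r) = l at hl hl0 ⊢
    have hx : (0 : ℝ) < 1 / 16 * (15 / 16) ^ r := by positivity
    have hx1 : (1 / 16 * (15 / 16) ^ r : ℝ) ≤ 1 :=
      mul_le_one₀ (by norm_num) (by positivity) (pow_le_one₀ (by norm_num) (by norm_num))
    have h1 : ((M / l : ℕ) : ℝ) * l ≤ M := by exact_mod_cast Nat.div_mul_le_self M l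
    have h2 : (l : ℝ) ≤ M / 2 ^ r := by
      rw [le_div_iff₀ (by positivity)]; exact_mod_cast hl
    refine (measureReal_biUnion_finset_le _ _).trans ((sum_le_card_nsmul _ _ _ fun i hi =>
      h (i * l) l _ hl0 ?_ hx hx1).trans ?_)
    · calc i * l + l = (i + 1) * l := by ring
        _ ≤ M / l * l := Nat.mul_le_mul_right _ (mem_range.1 hi)
        _ ≤ M := Nat.div_mul_le_self M l
    · rw [card_range, nsmul_eq_mul]
      calc ((M / l : ℕ) : ℝ) * (B * (l : ℝ) ^ 2 / (1 / 16 * (15 / 16) ^ r) ^ 8)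
          = ((M / l : ℕ) : ℝ) * l * l * (B / (1 / 16 * (15 / 16) ^ r) ^ 8) := by ring
        _ ≤ M * (M / 2 ^ r) * (B / (1 / 16 * (15 / 16) ^ r) ^ 8) := by gcongr
        _ = _ := by
          rw [mul_pow, ← pow_mul, mul_comm r 8, pow_mul, div_pow ((16 / 15 : ℝ) ^ 8),
            show ((16 / 15 : ℝ) ^ 8) = ((15 / 16) ^ 8)⁻¹ by norm_num, inv_pow]
          field_simp
  refine (sum_le_sum key).trans ?_
  rw [← mul_sum]
  have := (summable_geometric_of_lt_one hq0 hq1).sum_le_tsum (range (L + 1))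
    fun i _ => pow_nonneg hq0 i
  rw [tsum_geometric_of_lt_one hq0 hq1] at this
  calc 16 ^ 8 * B * (M : ℝ) ^ 2 * ∑ r ∈ range (L + 1), ((16 / 15 : ℝ) ^ 8 / 2) ^ r
      ≤ 16 ^ 8 * B * (M : ℝ) ^ 2 * (1 - (16 / 15) ^ 8 / 2)⁻¹ := by gcongr
    _ = _ := by ring

end Crest.Agent.T157.Cq.Osc
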