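import Crest.Agent.T157.OscC_27
import Crest.Agent.T157.OscD_49
import Crest.Agent.T157.OscF_22
import Crest.Agent.T157.OscK_41
import Crest.Agent.T157.OscM_46
import Crest.Agent.T157.OscS_73
import Crest.Agent.T157.OscU_59

/-! # The oscillation lemma (assembly, helper27) -/

set_option autoImplicit false

namespace Crest.Agent.T157.Cq

theorem oscGlue : OscGlue :=
  Osc.oscGlue_of Osc.l2Stmt Osc.tailStmt Osc.usStmt Osc.chStmt Osc.duStmt Osc.kStmt Osc.stopGlue
    Osc.conGlue Osc.finGlue

end Crest.Agent.T157.Cq
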