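import Crest.Agent.T157.TopZ_88
import Crest.Agent.T157.CnBoch_64
import Crest.Agent.T157.CnFld_90
import Crest.Agent.T157.CnFro_22
import Crest.Agent.T157.CnFrz_49
import Crest.Agent.T157.CnLev_56
import Crest.Agent.T157.CnTop_63
import Crest.Agent.T157.CqCv_41
import Crest.Agent.T157.CqCyl_37
import Crest.Agent.T157.CqI12_6
import Crest.Agent.T157.CqSg_6
import Crest.Agent.T157.CqSgc_79
import Crest.Agent.T157.CqKap_46
import Crest.Agent.T157.CqKill_31
import Crest.Agent.T157.CqKl_17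
import Crest.Agent.T157.CqMass_67
import Crest.Agent.T157.CqMg_4
import Crest.Agent.T157.CqPi_58
import Crest.Agent.T157.CqScl_80
import Crest.Agent.T157.CqSoft_44
import Crest.Agent.T157.CqStat_62
import Crest.Agent.T157.CqTop_72
import Crest.Agent.T157.CqTv_37
import Crest.Agent.T157.CqWin_59
import Crest.Agent.T157.Kern_16
import Crest.Agent.T157.OscAll_27
import Crest.Agent.T157.CqSpec_39
import Crest.Agent.T157.CqSwap_44

/-!
# Row 157: the closed leaves of `CnDef_63` and `CqDef_72` (helper88)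
-/

set_option autoImplicit false

namespace Crest.Agent.T157.TopZ

theorem cnL : CnL :=
  ⟨Cn.bochStmt, Cn.froGlue, Cn.frzC, Cn.opnC, Cn.fldC, Cn.topGlue, Cn.termGlue, Cn.levGlue⟩

/-- the leaves of `CqDef_72` which are proved elsewhere -/
structure CqR : Prop where
  bd : Cq.BdStmt
  iso : Cq.IsoStmt
  scm : Cq.ScMeas
  ms : Cq.MsStmt
  ut : Cq.UtGlue
  disc : Cq.DiscGlue
  swap : Cq.SwapStmt true
  round : Cq.RoundGlue

theorem cqL_of (R : CqR) : CqL where
  bd := R.bd
  iso := R.iso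
  scm := R.scm
  ms := R.ms
  scl := Cq.sclGlue
  cv := Cq.cvGlue
  ut := R.ut
  i12 := Cq.i12Glue
  sg := Cq.sgGlue_of (Un.ldB false)
  sgc := Cq.sgCoin_of (Cq.sgGlue_of (Un.ldB false))
  ts := Cq.tsGlue
  cyl := Cq.cylStmt
  tv := Cq.tvStmt
  soft := Cq.softGlue
  stat := Cq.statGlue
  disc := R.disc
  kl := Cq.klStmt
  kern := Cq.kernStmt
  osc := Cq.oscGlue
  pi := Cq.piGlue
  mg := Cq.mgGlue
  kap := Cq.kapStmt
  mass := Cq.massStmt
  cr := Cq.crGlue
  kill := Cq.killStmt
  spec := Cq.specStmt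
  swap := fun b => match b with
    | false => Cq.swapG_of Cq.kapStmt R.ms
    | true => R.swap
  p0 := Cq.p0Glue
  round := R.round
  q3 := Cq.q3Glue
  top := Cq.topGlue

end Crest.Agent.T157.TopZ
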