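import Crest.Agent.T157.FinC_88
import Crest.Agent.T157.CqBd_43
import Crest.Agent.T157.CqUt_75
import Crest.Agent.T157.CqRd_7
import Crest.Agent.T157.CqDiscCore_59
import Crest.Agent.T157.CqDiscFin_34
import Crest.Agent.T157.CqDiscGrid_49
import Crest.Agent.T157.CqDiscMgf_31
import Crest.Agent.T157.CqDiscPb_66
import Crest.Agent.T157.CqDiscPi_67
import Crest.Agent.T157.CqDiscSm_34

/-!
# Row 157: block C up to the swap for coins (helper88)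
-/

set_option autoImplicit false

namespace Crest.Agent.T157.TopZ

theorem disc : Cq.DiscGlue := Cq.Dc.finGlue Cq.Dc.mgfL Cq.Dc.piL Cq.Dc.condL Cq.Dc.gridL Cq.Dc.pbL
  (Cq.Dc.coreGlue Cq.Dc.smL)

theorem cqL (h : Cq.SwapStmt true) : CqL := cqL_of
  ⟨Cq.bdStmt, Cq.isoStmt, Cq.scMeas, Cq.msStmt, Cq.utGlue, disc, h, Cq.roundGlue⟩

variable {a κ T : ℝ}

theorem r33' (ha : 5 / 9 < a) (ha' : a < 2 / 3) (hκ : 0 < κ) (hκ' : κ ≤ 1 / 30) (hT : 0 < T)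
    (A : AOut a κ T) (K : KOut a κ) (h : Cq.SwapStmt true) : Top.R33 :=
  r33 ha ha' hκ hκ' hT A K cnL (cqL h)

theorem r32' (ha : 5 / 9 < a) (ha' : a < 2 / 3) (hκ : 0 < κ) (hκ' : κ ≤ 1 / 30) (hT : 0 < T)
    (A : AOut a κ T) (K : KOut a κ) (h : Cq.SwapStmt true) : Top.R32 :=
  r32 ha ha' hκ hκ' hT A K cnL (cqL h)

end Crest.Agent.T157.TopZ
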