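import Crest.Agent.T157.OeDef_87
import Crest.Agent.T157.StSph_38

/-!
# Row 157, A2 section 7 (helper64): semi-convexity of `log (Lc / Ls)` on the orbit
-/

set_option autoImplicit false

noncomputable section

namespace Crest.Agent.T157.Oe

open MeasureTheory ProbabilityTheory Matrix Filter Topology Set Real
open scoped ENNReal
open Crest.Agent.Lib.OrthPoinc (Mat SOInv)
open Crest.Agent.T157.E Crest.Agent.T157.St Crest.Agent.T157.SL
open Crest.Agent.T157.Ed (sx tau)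
open Crest.Agent.T157.Tap (Mx V)
open Crest.Agent.T157.Oc (SO mm fd integrable_of)
open Crest.Agent.T157.Od
open Crest.Agent.T157.Ks (fr fr_nonneg fr_transpose)
open Crest.Agent.T157.Orb

namespace Orb64

variable {n : ℕ} {μ : Measure (Mat n)} [IsProbabilityMeasure μ]

lemma cont_xi (x : V n) : Continuous fun U : Mat n => xi x U := continuous_pi fun i => by
  simp only [xi, mulVec, dotProduct, transpose_apply, of_apply]
  fun_prop

/-- the orbit of a point is uniform on the sphere -/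
lemma lint_sph (hμ : SOInv μ) (hn : 2 ≤ n) {ρ : ℝ} {x : V n} (hx : x ⬝ᵥ x = ρ ^ 2)
    {G : V n → ℝ≥0∞} (hG : Measurable G) :
    ∫⁻ U, G (xi x U) ∂μ = ∫⁻ y, G y ∂sphR (Fin n) ρ := by
  have : Nonempty (Fin n) := ⟨⟨0, by omega⟩⟩
  have hij : (⟨0, by omega⟩ : Fin n) ≠ ⟨1, by omega⟩ := by simp
  have h1 : ∀ᵐ y ∂sphR (Fin n) ρ, ∫⁻ U, G (xi x U) ∂μ = ∫⁻ U, G (xi y U) ∂μ := by
    filter_upwards [Sph38.sphR_ae (ι := Fin n) ρ] with y hy
    have hR := (rho_R2 hij y x).1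
    rw [← xi_eq_of hR (rho_mulVec _ _ (hy.trans hx.symm)),
      ← lint_left hμ hR (F := fun U => G (xi x U)) (hG.comp (cont_xi x).measurable)]
    simp only [xi_mm]
  calc _ = ∫⁻ _, (∫⁻ U, G (xi x U) ∂μ) ∂sphR (Fin n) ρ := by simp
    _ = ∫⁻ y, (∫⁻ U, G (xi y U) ∂μ) ∂sphR (Fin n) ρ := lintegral_congr_ae h1
    _ = ∫⁻ U, (∫⁻ y, G (xi y U) ∂sphR (Fin n) ρ) ∂μ :=
        lintegral_lintegral_swap (hG.comp (by fun_prop)).aemeasurable
    _ = _ := lint_const hμ fun U hU => by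
        conv_rhs => rw [← Sph38.map_orth_sphR ρ (O := (Matrix.of U)ᵀ) (by
          rw [transpose_transpose]; exact mul_tp hU)]
        rw [lintegral_map hG (by fun_prop)]
        rfl

lemma int_sph (hμ : SOInv μ) (hn : 2 ≤ n) {ρ : ℝ} {x : V n} (hx : x ⬝ᵥ x = ρ ^ 2)
    {F : V n → ℝ} (hF : Continuous F) (h0 : ∀ y, 0 ≤ F y) :
    ∫ U, F (xi x U) ∂μ = ∫ y, F y ∂sphR (Fin n) ρ := by
  rw [integral_eq_lintegral_of_nonneg_ae (ae_of_all _ fun U => h0 _)
      (hF.comp (cont_xi x)).aestronglyMeasurable,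
    integral_eq_lintegral_of_nonneg_ae (ae_of_all _ h0) hF.aestronglyMeasurable,
    lint_sph hμ hn hx (G := fun y => ENNReal.ofReal (F y)) hF.measurable.ennreal_ofReal]

lemma sx_pow (n k : ℕ) : sx n ^ k = (n : ℝ) ^ ((k : ℝ) / 6) := by
  rw [sx, ← rpow_natCast, ← rpow_mul (Nat.cast_nonneg n)]; congr 1; ring

lemma dot_conj (g W : Mx n) (x : V n) : x ⬝ᵥ (gᵀ * W * g) *ᵥ x = (g *ᵥ x) ⬝ᵥ W *ᵥ (g *ᵥ x) := by
  rw [← mulVec_mulVec, ← mulVec_mulVec, dot_tp]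

lemma ising_conj (g W : Mx n) (y : V n) (σ : Cube n) : ising (gᵀ * W * g) (gᵀ *ᵥ y) σ =
    exp (1 / 2 * ((g *ᵥ sv σ) ⬝ᵥ W *ᵥ (g *ᵥ sv σ)) + y ⬝ᵥ (g *ᵥ sv σ)) := by
  rw [ising, dot_conj, dotProduct_comm (gᵀ *ᵥ y), dot_tp, dotProduct_comm _ y]

/-- the integrand of `Ls` -/
def Fs (W : Mx n) (y x : V n) : ℝ := exp (Hh n W x + (sx n ^ 2 • y) ⬝ᵥ x)

lemma cont_Fs (W : Mx n) (y : V n) : Continuous (Fs W y) := by
  unfold Fs Hh
  fun_prop

lemma ising_act (hn : 0 < n) (z : Mx n × V n) (U : Mat n) (σ : Cube n) :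
    ising (act U z).1 (act U z).2 σ = Fs z.1 z.2 (xi (hat n σ) U) := by
  have s0 : 0 < sx n := rpow_pos_of_pos (by exact_mod_cast hn) _
  have e : tau n = sx n ^ 4 := by rw [sx_pow, tau]; norm_num
  have := ising_conj (Matrix.of U)ᵀ z.1 z.2 σ
  rw [transpose_transpose] at this
  rw [act, this, Fs, Hh, xi, hat, e]
  simp only [mulVec_smul, smul_dotProduct, dotProduct_smul, smul_eq_mul]
  congr 1
  field_simp

lemma hat_dot (hn : 0 < n) (σ : Cube n) : hat n σ ⬝ᵥ hat n σ = sx n ^ 2 := by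
  have s0 : 0 < sx n := rpow_pos_of_pos (by exact_mod_cast hn) _
  have e : (n : ℝ) = sx n ^ 6 := by rw [sx_pow]; norm_num
  rw [hat, Sph38.dot_smul, sv_dot_self]
  conv_lhs => rw [e]
  field_simp

lemma wt (W : Mx n) (y : V n) : Wt (ising W y) := .of_pos fun _ => exp_pos _

lemma Lc_pos (W : Mx n) (y : V n) : 0 < Lc W y := div_pos (wt W y).pos (by positivity)

lemma Lc_act (hn : 0 < n) (z : Mx n × V n) (U : Mat n) : Lc (act U z).1 (act U z).2 =
    (∑ σ, Fs z.1 z.2 (xi (hat n σ) U)) / 2 ^ n := by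
  simp only [Lc, Zw, ising_act hn]

lemma int_Lc (hμ : SOInv μ) (hn : 2 ≤ n) (z : Mx n × V n) :
    ∫ U, Lc (act U z).1 (act U z).2 ∂μ = Ls z.1 z.2 := by
  have n0 : 0 < n := by omega
  simp only [Lc_act n0]
  rw [integral_div, integral_finsetSum (f := fun σ U => Fs z.1 z.2 (xi (hat n σ) U)) _ fun σ _ =>
    integrable_of hμ ((cont_Fs _ _).comp (cont_xi _)).continuousOn]
  simp only [int_sph hμ hn (hat_dot n0 _) (cont_Fs _ _) fun _ => (exp_pos _).le]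
  rw [Finset.sum_const, Finset.card_univ, nsmul_eq_mul, mul_div_right_comm]
  simp [Ls, Fs]

/-- Jensen's inequality at `(W, y)` -/
lemma jensen {W g : Mx n} {y : V n} {s c r : ℝ} (h : EG W y s c) (s0 : 0 ≤ s) (c0 : 0 ≤ c)
    (r0 : 0 ≤ r) (hg : gᵀ * g = 1) (hr : fr (g - 1) ≤ r ^ 2) :
    log (Lc W y) - (r * (4 * c) / 2 + 5 / 2 * s * r ^ 2) ≤ log (Lc (gᵀ * W * g) (gᵀ *ᵥ y)) := by
  have hw := wt W y
  set A := (2 : ℝ) • (1 : Mx n) - W with hA
  set m := mag (ising W y) with hm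
  obtain ⟨E, rfl⟩ : ∃ E, g = 1 + E := ⟨g - 1, by abel⟩
  rw [add_sub_cancel_left] at hr
  set D : Cube n → ℝ := fun σ => 1 / 2 * (((1 + E) *ᵥ sv σ) ⬝ᵥ W *ᵥ ((1 + E) *ᵥ sv σ)) +
    y ⬝ᵥ ((1 + E) *ᵥ sv σ) - (1 / 2 * (sv σ ⬝ᵥ W *ᵥ sv σ) + y ⬝ᵥ sv σ) with hD
  have h2 : mean (ising W y) D ≤ log (mean (ising W y) fun σ => exp (D σ)) :=
    Ent.mean_le_log_mean_exp hw.isP _
  have e2 : (mean (ising W y) fun σ => exp (D σ)) =
      Lc ((1 + E)ᵀ * W * (1 + E)) ((1 + E)ᵀ *ᵥ y) / Lc W y := by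
    rw [mean_eq_div, Lc, Lc, div_div_div_cancel_right₀ (by positivity)]
    congr 1
    exact Finset.sum_congr rfl fun σ _ => by rw [ising_conj, ising, ← exp_add, add_sub_cancel]
  rw [e2, log_div (Lc_pos _ _).ne' (Lc_pos _ _).ne'] at h2
  have h1 : ∀ σ, (Eᵀ *ᵥ y) ⬝ᵥ sv σ - hq A E 0 sv σ -
      5 / 2 * (Eᵀᵀ *ᵥ (sv σ - 0) ⬝ᵥ Eᵀᵀ *ᵥ (sv σ - 0)) ≤ D σ := fun σ => by
    have b0 := Sph38.dot_orth hg (sv σ) (sv σ)
    have b1 := h.lo (E *ᵥ sv σ)
    have b2 : sv σ ⬝ᵥ W *ᵥ (E *ᵥ sv σ) = (W *ᵥ sv σ) ⬝ᵥ E *ᵥ sv σ := by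
      rw [dotProduct_mulVec, ← mulVec_transpose, h.sy]
    have b3 : (Eᵀ *ᵥ y) ⬝ᵥ sv σ = y ⬝ᵥ E *ᵥ sv σ := by
      rw [dotProduct_comm, dot_tp, dotProduct_comm]
    simp only [hD, hq, hA, transpose_transpose, sub_zero, b3, add_mulVec, one_mulVec, mulVec_add,
      add_dotProduct, dotProduct_add, sub_mulVec, smul_mulVec, sub_dotProduct, smul_dotProduct,
      smul_eq_mul, b2, dotProduct_comm (E *ᵥ sv σ) (sv σ),
      dotProduct_comm (E *ᵥ sv σ) (W *ᵥ sv σ)] at b0 ⊢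
    linarith
  have h3 := hw.mean_mono h1
  have hs : ∀ v, v ⬝ᵥ sm2 (ising W y) sv 0 *ᵥ v ≤ s * (v ⬝ᵥ v) := fun v => by
    refine le_of_eq_of_le ?_ (h.cov v)
    rw [sm2, add_mulVec, dotProduct_add, vv_mulVec, sub_zero, dotProduct_smul, smul_eq_mul, sq,
      dotProduct_comm v (meanV _ _)]
    rfl
  have h4 := mean_tp_sq hw hs Eᵀ
  rw [fr_transpose] at h4
  have h5 : ipF E (A * sm2 (ising W y) sv 0) =
      ipF E (A * covM (ising W y) - 1 : Mx n) + ∑ i, E i i + (A *ᵥ m) ⬝ᵥ E *ᵥ m := by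
    have : ipF E (1 : Mx n) = ∑ i, E i i := by simp [ipF, one_apply]
    rw [sm2, Matrix.mul_add, ipF_madd, ipF_msub, this, sub_add_cancel, mul_vecMulVec, dot_eq_ipF,
      sub_zero]
    rfl
  have h6 : ∑ i, E i i ≤ 0 := Finset.sum_nonpos fun i _ => by
    have b0 := congrFun (congrFun hg i) i
    rw [mul_apply, one_apply_eq] at b0
    have b1 := Finset.single_le_sum (f := fun j => (1 + E)ᵀ i j * (1 + E) j i)
      (fun j _ => mul_self_nonneg _) (Finset.mem_univ i)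
    rw [b0] at b1
    simp only [transpose_apply, Matrix.add_apply, one_apply_eq] at b1
    nlinarith
  have h7 : ipF E (A * covM (ising W y) - 1 : Mx n) ≤ r * c :=
    (abs_le_of_sq_le_sq' ((ipF_sq_le _ _).trans ((mul_le_mul hr h.com fr_nonneg
      (by positivity)).trans_eq (by ring))) (by positivity)).2
  have h8 : (A *ᵥ m - y) ⬝ᵥ E *ᵥ m ≤ r * c := by
    refine (abs_le_of_sq_le_sq' ?_ (by positivity)).2
    rw [dot_eq_ipF]
    refine (ipF_sq_le E (Matrix.of fun j l => (A *ᵥ m - y) j * m l)).trans ?_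
    have : fr (Matrix.of fun j l => (A *ᵥ m - y) j * m l) =
        ((A *ᵥ m - y) ⬝ᵥ (A *ᵥ m - y)) * (m ⬝ᵥ m) := by
      simp only [fr, of_apply, dotProduct, Finset.sum_mul_sum]
      exact Finset.sum_congr rfl fun _ _ => Finset.sum_congr rfl fun _ _ => by ring
    rw [this, mul_pow]
    exact mul_le_mul hr h.fld (mul_nonneg (dot_self_nonneg _) (dot_self_nonneg _)) (by positivity)
  have h9 : mean (ising W y) (fun σ => (Eᵀ *ᵥ y) ⬝ᵥ sv σ) = y ⬝ᵥ E *ᵥ m := by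
    rw [← meanV_dot, dotProduct_comm, dot_tp, dotProduct_comm]; rfl
  rw [mean_sub, mean_sub, mean_const_mul, h9] at h3
  have h10 : mean (ising W y) (fun σ => hq A E 0 sv σ) = _ := (mean_hq hw).trans h5
  rw [sub_dotProduct] at h8
  nlinarith [mul_le_mul_of_nonneg_left hr s0]

end Orb64

open Orb64 in
theorem orbL : OrbL := by
  intro n μ _ hμ hn z S s c s0 c0 h
  have n0 : 0 < n := by omega
  have ct : Continuous fun U : Mat n => Lc (act U z).1 (act U z).2 := by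
    simp only [Lc_act n0]
    exact (continuous_finsetSum _ fun σ _ => (cont_Fs _ _).comp (cont_xi _)).div_const _
  have hL : 0 < Ls z.1 z.2 := by
    have : Nonempty (Fin n) := ⟨⟨0, n0⟩⟩
    exact integral_exp_pos (Sph38.integrable_sphR _ (cont_Fs z.1 z.2))
  refine ⟨hμ, ((ct.log fun _ => (Lc_pos _ _).ne').sub continuous_const).continuousOn, ?_,
    fun U hU hS V hV r r0 hr => ?_⟩
  · simp only [uo, exp_sub, exp_log (Lc_pos _ _), exp_log hL]
    rw [integral_div, int_Lc hμ hn, div_self hL.ne']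
  · have a1 : (Matrix.of U * (Matrix.of V)ᵀ)ᵀ * Matrix.of U = Matrix.of V := by
      rw [transpose_mul, transpose_transpose, Matrix.mul_assoc, tp_mul hU, Matrix.mul_one]
    have a2 : (Matrix.of U)ᵀ * (Matrix.of U * (Matrix.of V)ᵀ) = (Matrix.of V)ᵀ := by
      rw [← Matrix.mul_assoc, tp_mul hU, Matrix.one_mul]
    have h1 := jensen (g := Matrix.of U * (Matrix.of V)ᵀ) (h U hU hS) s0 c0 r0
      (by rw [← Matrix.mul_assoc, a1, mul_tp hV]) (by
        rw [← mul_tp hV, ← Matrix.sub_mul,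
          fr_orth_right (by rw [transpose_transpose]; exact tp_mul hV)]
        exact hr)
    have e1 : (Matrix.of U * (Matrix.of V)ᵀ)ᵀ * (act U z).1 * (Matrix.of U * (Matrix.of V)ᵀ) =
        (act V z).1 := by
      calc _ = ((Matrix.of U * (Matrix.of V)ᵀ)ᵀ * Matrix.of U) * z.1 *
            ((Matrix.of U)ᵀ * (Matrix.of U * (Matrix.of V)ᵀ)) := by
            simp only [act, Matrix.mul_assoc]
        _ = _ := by rw [a1, a2]; rfl
    have e2 : (Matrix.of U * (Matrix.of V)ᵀ)ᵀ *ᵥ (act U z).2 = (act V z).2 := by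
      simp only [act]
      rw [mulVec_mulVec, a1]
    rw [e1, e2] at h1
    simp only [uo]
    linarith

end Crest.Agent.T157.Oe

end
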