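import Crest.Agent.T157.OeDef_87
import Crest.Agent.R164.HaarCpl

/-!
# Row 157, A2 section 7 (helper26): `ShpL`, `HaarL`
-/

set_option autoImplicit false

noncomputable section

namespace Crest.Agent.T157.Oe

open MeasureTheory Matrix Filter Topology Set Real
open Crest.Agent.Lib.OrthPoinc
open Crest.Agent.T157.Oc
open Crest.Agent.T157.Od (T2H tm)

theorem haarL : HaarL := fun n hn => by
  obtain ⟨ν, hp, hν⟩ := Crest.Agent.R164.Haar.exists_haar n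
  exact ⟨ν.map toSO, Measure.isProbabilityMeasure_map measurable_toSO.aemeasurable,
    (⟨hν.mem, hν.inv⟩ : OInv ν).toSOInv hn⟩

namespace Shp26

theorem exp_neg_le {δ : ℝ} (h0 : 0 < δ) (h1 : δ ≤ 1) : exp (-δ) ≤ 1 - δ / 2 := by
  rw [exp_neg, inv_le_iff_one_le_mul₀ (exp_pos _)]
  nlinarith [add_one_le_exp δ]

variable {k : ℕ} {μ : Measure (Mat k)} [IsProbabilityMeasure μ] {u : Mat k → ℝ} {S : Set (Mat k)}
  {c b r δ w : ℝ}

theorem tm_nonneg (T : Set (Mat k)) : 0 ≤ tm μ u T := integral_nonneg fun _ => (exp_pos _).le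

theorem tm_univ (h : T2H μ u S c b) : tm μ u univ = 1 := by rw [tm, Measure.restrict_univ, h.one]

theorem sep (h : T2H μ u S c b) (hk : 2 < k) (r0 : 0 ≤ r) (hr : r * c / 2 + b * r ^ 2 ≤ δ)
    {A B : Set (Mat k)} (hA : A ⊆ S) (hAB : ∀ U ∈ A, ∀ V ∈ B, u V < u U - δ) :
    μ.real A * μ.real B ≤ exp (-(((k : ℝ) - 2) * r ^ 2 / 16)) := by
  have b1 := two_set h.inv hk (S := A ∩ SO k) (T := B ∩ SO k) r0
    fun U hU V hV => le_of_not_ge fun hr' => by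
      have := h.cv U hU.2 (hA hU.1) V hV.2 r r0 hr'
      linarith [hAB U hU.1 V hV.1]
  have b2 : μ.real A ≤ μ.real (A ∩ SO k) := real_mono_SO h.inv fun U hU hU' => ⟨hU', hU⟩
  have b3 : μ.real B ≤ μ.real (B ∩ SO k) := real_mono_SO h.inv fun U hU hU' => ⟨hU', hU⟩
  exact (mul_le_mul b2 b3 measureReal_nonneg measureReal_nonneg).trans b1

theorem up (h : T2H μ u S c b) (hk : 2 < k) (r0 : 0 ≤ r) (hr : r * c / 2 + b * r ^ 2 ≤ δ)
    (d0 : 0 < δ) (d1 : δ ≤ 1) :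
    δ * μ.real (S ∩ {U | 2 * δ < u U}) ≤ 2 * exp (-(((k : ℝ) - 2) * r ^ 2 / 16)) := by
  have h1 := h.le_tm univ δ
  have h2 : tm μ u (univ ∩ {U | δ ≤ u U}) ≤ 1 := (h.tm_mono (subset_univ _)).trans_eq (tm_univ h)
  have h3 : μ.real univ ≤ μ.real ({U | u U < δ} ∪ (univ ∩ {U | δ ≤ u U})) :=
    measureReal_mono fun U _ => (lt_or_ge (u U) δ).imp id fun h => ⟨trivial, h⟩
  have h4 := measureReal_union_le (μ := μ) {U | u U < δ} (univ ∩ {U | δ ≤ u U})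
  rw [probReal_univ] at h3
  have h5 : μ.real (univ ∩ {U | δ ≤ u U}) ≤ exp (-δ) := by
    rw [exp_neg, ← one_div, le_div_iff₀ (exp_pos _)]; linarith
  have h6 : δ / 2 ≤ μ.real {U | u U < δ} := by linarith [exp_neg_le d0 d1]
  have h7 := sep h hk r0 hr (A := S ∩ {U | 2 * δ < u U}) (B := {U | u U < δ}) inter_subset_left
    fun U hU V hV => by
      have a1 : 2 * δ < u U := hU.2
      have a2 : u V < δ := hV
      linarith
  nlinarith [mul_le_mul_of_nonneg_left h6 (measureReal_nonneg (μ := μ) (s := S ∩ {U | 2 * δ < u U}))]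

theorem low (h : T2H μ u S c b) (hk : 2 < k) (hb : b ≤ ((k : ℝ) - 2) / 128) (r0 : 0 ≤ r)
    (hr : r * c / 2 + b * r ^ 2 ≤ δ) (d0 : 0 < δ) (d1 : δ ≤ 1)
    (hw : 1 + 48 * c ^ 2 / ((k : ℝ) - 2) ≤ w) :
    δ * μ.real {U | u U < -(2 * δ)} ≤ 4 * (exp w * exp (-(((k : ℝ) - 2) * r ^ 2 / 16))) +
      4 * (tm μ u Sᶜ + 4 * exp (4 - 2 * w)) := by
  have p1 : 0 ≤ exp w * exp (-(((k : ℝ) - 2) * r ^ 2 / 16)) := by positivity
  have p2 := tm_nonneg (μ := μ) (u := u) Sᶜ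
  have p3 := exp_pos (4 - 2 * w)
  by_cases hc : tm μ u Sᶜ + 4 * exp (4 - 2 * w) ≤ δ / 4
  · have h0 : tm μ u univ ≤ tm μ u (Sᶜ ∪ ((S ∩ {U | u U < -δ}) ∪
        (((S ∩ {U | -δ ≤ u U}) ∩ {U | u U < w}) ∪ (S ∩ {U | w ≤ u U})))) := h.tm_mono fun U _ => by
      by_cases hU : U ∈ S
      · exact Or.inr ((lt_or_ge (u U) (-δ)).imp (fun h => ⟨hU, h⟩) fun h =>
          (lt_or_ge (u U) w).imp (fun h' => ⟨⟨hU, h⟩, h'⟩) fun h' => ⟨hU, h'⟩)
      · exact Or.inl hU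
    have h1 := h.tm_union Sᶜ ((S ∩ {U | u U < -δ}) ∪
      (((S ∩ {U | -δ ≤ u U}) ∩ {U | u U < w}) ∪ (S ∩ {U | w ≤ u U})))
    have h2 := h.tm_union (S ∩ {U | u U < -δ})
      (((S ∩ {U | -δ ≤ u U}) ∩ {U | u U < w}) ∪ (S ∩ {U | w ≤ u U}))
    have h3 := h.tm_union ((S ∩ {U | -δ ≤ u U}) ∩ {U | u U < w}) (S ∩ {U | w ≤ u U})
    have h4 := (h.tm_le S (-δ)).trans (mul_le_of_le_one_right (exp_pos _).le measureReal_le_one)
    have h6 := (h.tm_le (S ∩ {U | -δ ≤ u U}) w).trans (mul_le_mul_of_nonneg_left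
      (measureReal_mono inter_subset_left) (exp_pos _).le)
    have h9 : δ / 4 ≤ exp w * μ.real (S ∩ {U | -δ ≤ u U}) := by
      linarith [h.tail hk hb hw, tm_univ h, exp_neg_le d0 d1]
    have b1 := sep h hk r0 hr (A := S ∩ {U | -δ ≤ u U}) (B := {U | u U < -(2 * δ)}) inter_subset_left
      fun U hU V hV => by
        have a1 : -δ ≤ u U := hU.2
        have a2 : u V < -(2 * δ) := hV
        linarith
    have b4 := mul_le_mul_of_nonneg_left b1 (exp_pos w).le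
    have b5 := mul_le_mul_of_nonneg_right h9 (measureReal_nonneg (μ := μ) (s := {U | u U < -(2 * δ)}))
    nlinarith
  · have : μ.real {U | u U < -(2 * δ)} ≤ 1 := measureReal_le_one
    nlinarith [not_le.1 hc]

end Shp26

open Shp26 in
theorem shpL : ShpL := by
  intro k μ _ u S c b r δ w h _ hk hb r0 d0 d1 hr hw
  have hk' : (0 : ℝ) < (k : ℝ) - 2 := by
    have : (2 : ℝ) < k := by exact_mod_cast hk
    linarith
  have w0 : 0 ≤ w := by
    have : 0 ≤ 48 * c ^ 2 / ((k : ℝ) - 2) := by positivity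
    linarith
  have hU := up h hk r0 hr d0 d1
  have hL := low h hk hb r0 hr d0 d1 hw
  have hT := h.tail hk hb hw
  have e1 : tl k r w = 6 * (exp w * exp (-(((k : ℝ) - 2) * r ^ 2 / 16))) + 20 * exp (4 - 2 * w) := by
    rw [tl, ← exp_add, sub_eq_add_neg]
  have p0 := exp_pos (-(((k : ℝ) - 2) * r ^ 2 / 16))
  have p1 := one_le_exp w0
  have p2 := tm_nonneg (μ := μ) (u := u) Sᶜ
  have p3 := exp_pos (4 - 2 * w)
  have sp : ∀ U, 2 * δ < |u U| → 2 * δ < u U ∨ u U < -(2 * δ) := fun U hU => by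
    rcases lt_abs.1 hU with a | a
    · exact Or.inl a
    · exact Or.inr (by linarith)
  rw [le_div_iff₀ d0, le_div_iff₀ d0, e1]
  constructor
  · have h0 : tm μ u {U | 2 * δ < |u U|} ≤ tm μ u (Sᶜ ∪ ((univ ∩ {U | u U < -(2 * δ)}) ∪
        (((S ∩ {U | 2 * δ < u U}) ∩ {U | u U < w}) ∪ (S ∩ {U | w ≤ u U})))) :=
      h.tm_mono fun U hx => by
        by_cases hS : U ∈ S
        · refine Or.inr ((sp U hx).symm.imp (fun a => ⟨trivial, a⟩) fun a => ?_)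
          exact (lt_or_ge (u U) w).imp (fun h' => ⟨⟨hS, a⟩, h'⟩) fun h' => ⟨hS, h'⟩
        · exact Or.inl hS
    have h1 := h.tm_union Sᶜ ((univ ∩ {U | u U < -(2 * δ)}) ∪
      (((S ∩ {U | 2 * δ < u U}) ∩ {U | u U < w}) ∪ (S ∩ {U | w ≤ u U})))
    have h2 := h.tm_union (univ ∩ {U | u U < -(2 * δ)})
      (((S ∩ {U | 2 * δ < u U}) ∩ {U | u U < w}) ∪ (S ∩ {U | w ≤ u U}))
    have h3 := h.tm_union ((S ∩ {U | 2 * δ < u U}) ∩ {U | u U < w}) (S ∩ {U | w ≤ u U})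
    have h4 := (h.tm_le univ (-(2 * δ))).trans (mul_le_of_le_one_left measureReal_nonneg
      (exp_le_one_iff.2 (by linarith)))
    rw [univ_inter] at h4
    rw [univ_inter] at h0 h1 h2
    have h6 := (h.tm_le (S ∩ {U | 2 * δ < u U}) w).trans (mul_le_mul_of_nonneg_left
      (measureReal_mono inter_subset_left) (exp_pos _).le)
    have h7 := mul_le_mul_of_nonneg_left hU (exp_pos w).le
    have h8 : tm μ u {U | 2 * δ < |u U|} ≤ tm μ u Sᶜ + (μ.real {U | u U < -(2 * δ)} +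
        (exp w * μ.real (S ∩ {U | 2 * δ < u U}) + 4 * exp (4 - 2 * w))) := by linarith
    nlinarith [mul_le_mul_of_nonneg_right h8 d0.le]
  · have h0 : μ.real {U | 2 * δ < |u U|} ≤ μ.real ((Sᶜ ∩ {U | 0 ≤ u U}) ∪ ({U | u U < -(2 * δ)} ∪
        (S ∩ {U | 2 * δ < u U}))) := measureReal_mono fun U hx => by
      rcases sp U hx with a | a
      · by_cases hS : U ∈ S
        · exact Or.inr (Or.inr ⟨hS, a⟩)
        · exact Or.inl ⟨hS, show 0 ≤ u U by linarith⟩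
      · exact Or.inr (Or.inl a)
    have h1 := measureReal_union_le (μ := μ) (Sᶜ ∩ {U | 0 ≤ u U}) ({U | u U < -(2 * δ)} ∪
      (S ∩ {U | 2 * δ < u U}))
    have h2 := measureReal_union_le (μ := μ) {U | u U < -(2 * δ)} (S ∩ {U | 2 * δ < u U})
    have h3 := (h.le_tm Sᶜ 0).trans (h.tm_mono inter_subset_left)
    rw [exp_zero, one_mul] at h3
    have h8 : μ.real {U | 2 * δ < |u U|} ≤ tm μ u Sᶜ + (μ.real {U | u U < -(2 * δ)} +
        μ.real (S ∩ {U | 2 * δ < u U})) := by linarith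
    nlinarith [mul_le_mul_of_nonneg_right h8 d0.le, mul_le_mul_of_nonneg_right p1 p0.le]

end Crest.Agent.T157.Oe

end
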