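import Crest.Agent.T157.OeDef_87
import Crest.Agent.T157.SpTrf_85

/-!
# Row 157, A2 section 7 (helper87): `Oe.trfL`
-/

set_option autoImplicit false
set_option linter.unusedSectionVars false

noncomputable section

namespace Crest.Agent.T157.Oe

open MeasureTheory ProbabilityTheory Matrix Filter Topology Set Real
open scoped ENNReal
open Crest.Agent.T157.E Crest.Agent.T157.St Crest.Agent.T157.Sp

namespace Trf87

open Crest.Agent.T157.St.A87 Crest.Agent.T157.Sp.Trf85 Crest.Agent.T157.Rec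
open Crest.Agent.T157.SL (MG)

variable {ι : Type*} [Fintype ι] [DecidableEq ι] {μ ν : Measure (ι → ℝ)} {K s : ℝ}

/-- indicator -/
abbrev ind (B : Set (ι → ℝ)) : (ι → ℝ) → ℝ := B.indicator fun _ => (1 : ℝ)

lemma dot_sq {R : ℝ} {x : ι → ℝ} (h : x ⬝ᵥ x ≤ R) (v : ι → ℝ) : (v ⬝ᵥ x) ^ 2 ≤ R * (v ⬝ᵥ v) := by
  have h1 : (v ⬝ᵥ x) ^ 2 ≤ (v ⬝ᵥ v) * (x ⬝ᵥ x) := by
    simpa only [dotProduct, sq] using Finset.sum_mul_sq_le_sq_mul_sq Finset.univ v x
  have h2 : 0 ≤ v ⬝ᵥ v := Finset.sum_nonneg fun i _ => mul_self_nonneg _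
  nlinarith

/-- the transfer at one output -/
lemma covB_lev (hμ : Cp μ) (hν : Cp ν) (hK : 0 < K) {R k q a : ℝ} (h1 : ∀ᵐ x ∂μ, x ⬝ᵥ x ≤ R)
    (h2 : ∀ᵐ x ∂ν, x ⬝ᵥ x ≤ R) (hk : 0 ≤ k) (hq : 0 < q) {B : Set (ι → ℝ)}
    (hB : MeasurableSet B) (hP : PY K μ B ≤ q ^ 2) (hc : ∀ y ∉ B, Mf K μ y ≤ k * Mf K ν y)
    (hM : CovB ν a) : CovB μ (k * (a + 1 / K) - 1 / K + (12 * R + 29 / K) * q) := by
  have := hμ.prob
  have := hν.prob
  intro v
  have hb := Bs.of_mg hμ (mg_dot v)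
  have hb' := Bs.of_mg hν (mg_dot v)
  obtain ⟨C, -, hC⟩ := hb.bd
  refine ⟨MemLp.of_bound hb.meas.aestronglyMeasurable C hC, ?_⟩
  by_cases hv : v = 0
  · subst hv
    have : (fun x : ι → ℝ => (0 : ι → ℝ) ⬝ᵥ x) = 0 := by funext x; simp
    rw [this, variance_zero]; simp
  have h0 : 0 < v ⬝ᵥ v := Eig.dot_self_pos hv
  have R0 : 0 ≤ R := by
    obtain ⟨x, hx⟩ := h1.exists
    exact (Finset.sum_nonneg fun i _ => mul_self_nonneg _).trans hx
  set m : ι → ℝ := fun i => ∫ x, x i ∂ν with hm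
  have em : v ⬝ᵥ m = ∫ x, v ⬝ᵥ x ∂ν := by
    simp only [dotProduct, hm]
    rw [integral_finsetSum _ fun i _ => ((Bs.coord hν i).int hν).const_mul _]
    simp only [integral_const_mul]
  have m2 : ∫ x, (v ⬝ᵥ (x - m)) ^ 2 ∂ν ≤ a * (v ⬝ᵥ v) := by
    refine le_of_eq_of_le ?_ (hM v).2
    rw [variance_eq_integral hb'.meas.aemeasurable]
    simp only [dotProduct_sub, em]
  have m1 : (v ⬝ᵥ m) ^ 2 ≤ R * (v ⬝ᵥ v) := by
    have e : |v ⬝ᵥ m| ≤ √(R * (v ⬝ᵥ v)) := by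
      rw [em]
      simpa using norm_integral_le_of_norm_le_const (μ := ν) (f := fun x => v ⬝ᵥ x)
        (C := √(R * (v ⬝ᵥ v))) (h2.mono fun x hx => abs_le_sqrt (dot_sq hx v))
    rw [← sq_abs, ← sq_sqrt (mul_nonneg R0 h0.le)]
    exact pow_le_pow_left₀ (abs_nonneg _) e 2
  have m4 : ∫ x, (v ⬝ᵥ (x - m)) ^ 4 ∂μ ≤ 16 * (R * (v ⬝ᵥ v)) ^ 2 := by
    have e : ∀ᵐ x ∂μ, (v ⬝ᵥ (x - m)) ^ 4 ≤ 16 * (R * (v ⬝ᵥ v)) ^ 2 := h1.mono fun x hx => by
      have b1 := dot_sq hx v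
      have b2 : (v ⬝ᵥ (x - m)) ^ 2 ≤ 4 * (R * (v ⬝ᵥ v)) := by
        rw [dotProduct_sub]; nlinarith [sq_nonneg (v ⬝ᵥ x + v ⬝ᵥ m)]
      calc _ = ((v ⬝ᵥ (x - m)) ^ 2) ^ 2 := by ring
        _ ≤ (4 * (R * (v ⬝ᵥ v))) ^ 2 := pow_le_pow_left₀ (sq_nonneg _) b2 2
        _ = _ := by ring
    simpa using integral_mono_ae ((Bs.of_mg hμ (mg_pow4 (mg_u v m))).int hμ) (integrable_const _) e
  have h3 : Var[fun x => v ⬝ᵥ x; μ] ≤ ∫ x, (v ⬝ᵥ (x - m)) ^ 2 ∂μ := by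
    rw [← variance_sub_const hb.meas.aestronglyMeasurable (v ⬝ᵥ m)]
    refine (variance_le_expectation_sq
      (hb.meas.sub_const _).aestronglyMeasurable).trans (le_of_eq ?_)
    simp only [Pi.pow_apply, dotProduct_sub]
  refine h3.trans ?_
  set T : ℝ := (12 * K ^ 2 * R + 29 * K) * (v ⬝ᵥ v) with hT
  have hT0 : 0 < T := by positivity
  have g2 := mg_sq (mg_f K v m)
  have g4 := mg_pow4 (mg_f K v m)
  have i1 := ((mg_Mf hν hK.le).mul g2).const_mul k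
  have i2 := ((mg_Mf hμ hK.le).mul (mg_ind hB)).const_mul (T / (2 * q))
  have i3 := ((mg_Mf hμ hK.le).mul g4).const_mul (q / (2 * T))
  have h4 : IK K (fun y => Mf K μ y * (v ⬝ᵥ y - K * (v ⬝ᵥ m)) ^ 2) ≤
      IK K (fun y => (k * (Mf K ν y * (v ⬝ᵥ y - K * (v ⬝ᵥ m)) ^ 2) +
        T / (2 * q) * (Mf K μ y * ind B y)) +
        q / (2 * T) * (Mf K μ y * (v ⬝ᵥ y - K * (v ⬝ᵥ m)) ^ 4)) := by
    refine IK_mono ((mg_Mf hμ hK.le).mul g2) ((i1.add i2).add i3) fun y => ?_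
    have p := Mf_pos hν hK.le y
    have p' := Mf_pos hμ hK.le y
    set f := v ⬝ᵥ y - K * (v ⬝ᵥ m)
    by_cases hy : y ∈ B
    · rw [ind, indicator_of_mem hy]
      have e : T / (2 * q) * (Mf K μ y * 1) + q / (2 * T) * (Mf K μ y * f ^ 4) - Mf K μ y * f ^ 2 =
          Mf K μ y * (T - q * f ^ 2) ^ 2 / (2 * T * q) := by field_simp; ring
      have b1 : 0 ≤ Mf K μ y * (T - q * f ^ 2) ^ 2 / (2 * T * q) := by positivity
      have b2 : 0 ≤ k * (Mf K ν y * f ^ 2) := by positivity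
      linarith
    · rw [ind, indicator_of_notMem hy]
      have b1 := mul_le_mul_of_nonneg_right (hc y hy) (sq_nonneg f)
      have b2 : 0 ≤ q / (2 * T) * (Mf K μ y * f ^ 4) := by positivity
      linarith
  rw [IK_add (i1.add i2) i3, IK_add i1 i2, IK_const_mul, IK_const_mul, IK_const_mul, out2 hμ hK.le,
    out2 hν hK.le] at h4
  have h5 : IK K (fun y => Mf K μ y * (v ⬝ᵥ y - K * (v ⬝ᵥ m)) ^ 4) ≤ T ^ 2 := by
    refine (out4 hμ hK.le v m).trans ?_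
    have b1 := mul_le_mul_of_nonneg_left m4 (show 0 ≤ 8 * K ^ 4 by positivity)
    have b2 : 0 ≤ K ^ 3 * R * (v ⬝ᵥ v) ^ 2 := by positivity
    have b3 : 0 ≤ K ^ 4 * R ^ 2 * (v ⬝ᵥ v) ^ 2 := by positivity
    have b4 : 0 ≤ K ^ 2 * (v ⬝ᵥ v) ^ 2 := by positivity
    have e : T ^ 2 = 144 * (K ^ 4 * R ^ 2 * (v ⬝ᵥ v) ^ 2) + 696 * (K ^ 3 * R * (v ⬝ᵥ v) ^ 2) +
        841 * (K ^ 2 * (v ⬝ᵥ v) ^ 2) := by rw [hT]; ring
    rw [e]; linarith
  have h6 : T / (2 * q) * PY K μ B ≤ T * q / 2 :=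
    (mul_le_mul_of_nonneg_left hP (by positivity)).trans (le_of_eq (by field_simp))
  have h7 : q / (2 * T) * IK K (fun y => Mf K μ y * (v ⬝ᵥ y - K * (v ⬝ᵥ m)) ^ 4) ≤ T * q / 2 :=
    (mul_le_mul_of_nonneg_left h5 (by positivity)).trans (le_of_eq (by field_simp))
  have h8 := mul_le_mul_of_nonneg_left (mul_le_mul_of_nonneg_left m2 (sq_nonneg K)) hk
  refine le_of_mul_le_mul_left ?_ (pow_pos hK 2)
  have e : K ^ 2 * ((k * (a + 1 / K) - 1 / K + (12 * R + 29 / K) * q) * (v ⬝ᵥ v)) =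
      k * (K ^ 2 * (a * (v ⬝ᵥ v))) + k * (K * (v ⬝ᵥ v)) - K * (v ⬝ᵥ v) + T * q := by
    rw [hT]; field_simp
  rw [e]
  unfold PY at h6
  linarith

/-- the mass of `B` seen from time `s` -/
def bk (s K : ℝ) (μ : Measure (ι → ℝ)) (B : Set (ι → ℝ)) (y : ι → ℝ) : ℝ :=
  IK K fun y' => Mf (s + K) μ (y + y') * ind B (y + y')

variable {B : Set (ι → ℝ)}

lemma mg_bk (hμ : Cp μ) (h : 0 ≤ s + K) (hB : MeasurableSet B) : MG (bk s K μ B) :=
  mg_IK ((mg_Mf hμ h).mul (mg_ind hB)) K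

lemma IK_bk (hμ : Cp μ) (hs : 0 ≤ s) (hK : 0 ≤ K) (hB : MeasurableSet B) :
    IK s (bk s K μ B) = PY (s + K) μ B :=
  IK_IK hs hK ((mg_Mf hμ (add_nonneg hs hK)).mul (mg_ind hB))

lemma bk_nonneg (hμ : Cp μ) (h : 0 ≤ s + K) (y : ι → ℝ) : 0 ≤ bk s K μ B y :=
  IK_nonneg fun _ => mul_nonneg (Mf_pos hμ h _).le (indicator_nonneg (fun _ _ => zero_le_one) _)

lemma mart (hμ : Cp μ) (hs : 0 ≤ s) (hK : 0 ≤ K) (y : ι → ℝ) :
    IK K (fun y' => Mf (s + K) μ (y + y')) = Mf s μ y := by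
  simpa only [← Mf_eq] using IK_Un_add hμ hs hK (.const 1) y

lemma Mf_le (hμ : Cp μ) (hν : Cp ν) (hs : 0 ≤ s) (hK : 0 ≤ K) (hB : MeasurableSet B) {k : ℝ}
    (hk : 0 ≤ k) (h : ∀ y ∉ B, Mf (s + K) μ y ≤ k * Mf (s + K) ν y) (y : ι → ℝ) :
    Mf s μ y ≤ k * Mf s ν y + bk s K μ B y := by
  have h0 := add_nonneg hs hK
  have g1 := (mg_shift (mg_Mf hν h0) y).const_mul k
  have g2 := mg_shift ((mg_Mf hμ h0).mul (mg_ind hB)) y
  rw [← mart hμ hs hK, ← mart hν hs hK, ← IK_const_mul, bk, ← IK_add g1 g2]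
  refine IK_mono (mg_shift (mg_Mf hμ h0) y) (g1.add g2) fun y' => ?_
  by_cases hy : y + y' ∈ B
  · simp only [ind, indicator_of_mem hy]
    linarith [mul_nonneg hk (Mf_pos hν h0 (y + y')).le]
  · simp only [ind, indicator_of_notMem hy]
    linarith [h _ hy]

lemma markov (hμ : Cp μ) (hs : 0 ≤ s) (hK : 0 ≤ K) (hB : MeasurableSet B) {q : ℝ} (hq : 0 < q)
    (h : PY (s + K) μ B ≤ q ^ 4) : MeasurableSet {y | q ^ 2 * Mf s μ y < bk s K μ B y} ∧
      PY s μ {y | q ^ 2 * Mf s μ y < bk s K μ B y} ≤ q ^ 2 := by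
  have h0 := add_nonneg hs hK
  have hm : MeasurableSet {y | q ^ 2 * Mf s μ y < bk s K μ B y} :=
    measurableSet_lt ((measurable_Mf hμ).const_mul _) (mg_bk hμ h0 hB).meas
  refine ⟨hm, le_of_mul_le_mul_left ?_ (pow_pos hq 2)⟩
  rw [PY, ← IK_const_mul]
  refine le_trans (IK_mono (((mg_Mf hμ hs).mul (mg_ind hm)).const_mul _) (mg_bk hμ h0 hB) fun y => ?_)
    ((IK_bk hμ hs hK hB).trans_le (h.trans_eq (by ring)))
  by_cases hy : y ∈ {y | q ^ 2 * Mf s μ y < bk s K μ B y}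
  · rw [indicator_of_mem hy, mul_one]; exact le_of_lt hy
  · rw [indicator_of_notMem hy, mul_zero, mul_zero]; exact bk_nonneg hμ h0 y

/-- total masses off `B` -/
lemma norm_le (hμ : Cp μ) (hν : Cp ν) (hK : 0 ≤ K) (hB : MeasurableSet B) {c k p : ℝ} (hc : 0 ≤ c)
    (hk : 0 ≤ k) (hp : PY K μ B ≤ p) (h : ∀ y ∉ B, c * Mf K μ y ≤ k * Mf K ν y) : c * (1 - p) ≤ k := by
  have g1 := (mg_Mf hν hK).const_mul k
  have g2 := ((mg_Mf hμ hK).mul (mg_ind hB)).const_mul c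
  have h1 : IK K (fun y => c * Mf K μ y) ≤ IK K fun y => k * Mf K ν y + c * (Mf K μ y * ind B y) := by
    refine IK_mono ((mg_Mf hμ hK).const_mul c) (g1.add g2) fun y => ?_
    by_cases hy : y ∈ B
    · rw [ind, indicator_of_mem hy]
      linarith [mul_nonneg hk (Mf_pos hν hK y).le]
    · rw [ind, indicator_of_notMem hy]
      linarith [h _ hy]
  rw [IK_add g1 g2, IK_const_mul, IK_const_mul, IK_const_mul, IK_Mf hμ hK, IK_Mf hν hK] at h1
  have h2 := mul_le_mul_of_nonneg_left hp hc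
  unfold PY at h2
  linarith

end Trf87

open Trf87 Crest.Agent.T157.St.A87 Crest.Agent.T157.Sp.Trf85 Crest.Agent.T157.Rec in
theorem trfL : TrfL := by
  intro ι _ μ ν R s K k q a p pμ pν rμ rν hs hK k1 k2 q0 q1 ha hp ⟨B, hB, b1, b2, c, c0, hc⟩
    ⟨A, hA, a1, a2⟩
  classical
  have hμ : Cp μ := ⟨pμ, R, rμ⟩
  have hν : Cp ν := ⟨pν, R, rν⟩
  have h0 := add_nonneg hs.le hK.le
  have k0 : 0 < k := by linarith
  rw [lawY_eq hμ h0 hB, ENNReal.ofReal_le_ofReal_iff (by positivity)] at b1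
  rw [lawY_eq hν h0 hB, ENNReal.ofReal_le_ofReal_iff (by positivity)] at b2
  rw [lawY_eq hν hs.le hA, ENNReal.ofReal_le_ofReal_iff hp] at a1
  have q2 : q ^ 2 ≤ q / 4 := by nlinarith
  have q4 : q ^ 4 ≤ q ^ 2 / 16 := by nlinarith [sq_nonneg q]
  have n1 := norm_le hμ hν h0 hB c0.le k0.le b1 fun y hy => (hc y hy).1
  have n2 := norm_le hν hμ h0 hB zero_le_one (mul_pos k0 c0).le b2 fun y hy => by
    rw [one_mul, mul_assoc]; exact (hc y hy).2
  have d0 : 0 < 1 - q ^ 4 := by linarith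
  set k' := k ^ 2 / (1 - q ^ 4) with hk'
  have k3 : 0 < k' := by positivity
  have k4 : k' ≤ 5 := by rw [hk', div_le_iff₀ d0]; nlinarith
  have e1 : k ≤ k' * c := by
    rw [hk', div_mul_eq_mul_div, le_div_iff₀ d0]; nlinarith
  have e2 : k * c ≤ k' := by
    rw [hk', le_div_iff₀ d0]; nlinarith
  have c1 : ∀ y ∉ B, Mf (s + K) μ y ≤ k' * Mf (s + K) ν y := fun y hy => by
    refine le_of_mul_le_mul_left ((hc y hy).1.trans ?_) c0
    nlinarith [mul_le_mul_of_nonneg_right e1 (Mf_pos hν h0 y).le]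
  have c2 : ∀ y ∉ B, Mf (s + K) ν y ≤ k' * Mf (s + K) μ y := fun y hy => by
    refine (hc y hy).2.trans ?_
    rw [← mul_assoc]
    exact mul_le_mul_of_nonneg_right e2 (Mf_pos hμ h0 y).le
  obtain ⟨m1, p1⟩ := markov hμ hs.le hK.le hB q0 b1
  obtain ⟨m2, p2⟩ := markov hν hs.le hK.le hB q0 b2
  set A1 := {y | q ^ 2 * Mf s μ y < bk s K μ B y}
  set A2 := {y | q ^ 2 * Mf s ν y < bk s K ν B y}
  have mU := (hA.union m2).union m1
  refine ⟨(A ∪ A2) ∪ A1, mU, ?_, fun y hy => ?_⟩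
  · rw [lawY_eq hμ hs.le mU]
    refine ENNReal.ofReal_le_ofReal ?_
    have g1 := ((mg_Mf hν hs.le).mul (mg_ind hA)).const_mul k'
    have g2 := ((mg_Mf hν hs.le).mul (mg_ind m2)).const_mul k'
    have g3 := mg_bk (K := K) hμ h0 hB
    have g4 := (mg_Mf hμ hs.le).mul (mg_ind m1)
    have h1 : PY s μ ((A ∪ A2) ∪ A1) ≤ IK s fun y => ((k' * (Mf s ν y * ind A y) +
        k' * (Mf s ν y * ind A2 y)) + bk s K μ B y) + Mf s μ y * ind A1 y := by
      refine IK_mono ((mg_Mf hμ hs.le).mul (mg_ind mU)) (((g1.add g2).add g3).add g4) fun y => ?_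
      have t1 := Mf_pos hμ hs.le y
      have t2 := (mul_pos k3 (Mf_pos hν hs.le y)).le
      have t3 := Mf_le hμ hν hs.le hK.le hB k3.le c1 y
      have t4 := bk_nonneg (B := B) hμ h0 y
      by_cases y1 : y ∈ A <;> by_cases y2 : y ∈ A2 <;> by_cases y3 : y ∈ A1 <;>
        simp only [ind, indicator, mem_union, y1, y2, y3, if_true, if_false, or_true, true_or, or_false,
          mul_one, mul_zero] <;> linarith
    rw [IK_add ((g1.add g2).add g3) g4, IK_add (g1.add g2) g3, IK_add g1 g2, IK_const_mul,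
      IK_const_mul, IK_bk hμ hs.le hK.le hB] at h1
    have t1 := mul_le_mul k4 a1 (IK_nonneg fun y => mul_nonneg (Mf_pos hν hs.le y).le
      (indicator_nonneg (fun _ _ => zero_le_one) _)) (by norm_num)
    have t2 := mul_le_mul k4 p2 (IK_nonneg fun y => mul_nonneg (Mf_pos hν hs.le y).le
      (indicator_nonneg (fun _ _ => zero_le_one) _)) (by norm_num)
    unfold PY at p1 t1 t2
    linarith [sq_nonneg q]
  · have y1 : bk s K μ B y ≤ q ^ 2 * Mf s μ y := not_lt.1 fun h => hy (Or.inr h)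
    have y2 : bk s K ν B y ≤ q ^ 2 * Mf s ν y := not_lt.1 fun h => hy (Or.inl (Or.inr h))
    have t1 := Mf_pos hμ hs.le y
    have t2 := Mf_pos hν hs.le y
    have t3 := Mf_le hν hμ hs.le hK.le hB k3.le c2 y
    have mB : MeasurableSet ((fun y' => y + y') ⁻¹' B) := hB.preimage (by fun_prop)
    refine covB_lev (cp_pst hμ hs.le y) (cp_pst hν hs.le y) hK
      ((tilted_absolutelyContinuous _ _).ae_le rμ) ((tilted_absolutelyContinuous _ _).ae_le rν)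
      (by positivity) q0 mB ?_ (fun y' hy' => ?_) (a2 y fun h => hy (Or.inl (Or.inl h)))
    · refine le_of_mul_le_mul_right (le_of_eq_of_le ?_ y1) t1
      rw [PY, ← IK_mul_const]
      refine IK_congr fun y' => ?_
      rw [Mf_pst]
      change _ * ind B (y + y') * _ = _
      field_simp
    · rw [Mf_pst, Mf_pst, ← mul_div_assoc, div_le_div_iff₀ t1 t2]
      have u1 := Mf_pos hν h0 (y + y')
      have u2 : k' * k' ≤ k ^ 4 * (1 + q) * (1 - q ^ 2) := by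
        rw [hk', div_mul_div_comm, div_le_iff₀ (mul_pos d0 d0)]
        have : 1 ≤ (1 + q) * (1 - q ^ 2) * ((1 - q ^ 4) * (1 - q ^ 4)) := by
          have w1 : 1 + q / 2 ≤ (1 + q) * (1 - q ^ 2) := by nlinarith
          have w2 : 1 - q / 8 ≤ (1 - q ^ 4) * (1 - q ^ 4) := by nlinarith [sq_nonneg (q ^ 4)]
          have w3 := mul_le_mul w1 w2 (by linarith) (by linarith)
          nlinarith
        nlinarith [pow_pos k0 4]
      have u3 : k' * Mf s ν y ≤ k ^ 4 * (1 + q) * Mf s μ y := by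
        have d2 : 0 < 1 - q ^ 2 := by linarith
        refine le_of_mul_le_mul_left ?_ d2
        have w1 := mul_le_mul_of_nonneg_left (show (1 - q ^ 2) * Mf s ν y ≤ k' * Mf s μ y by
          linarith) k3.le
        have w2 := mul_le_mul_of_nonneg_right u2 t1.le
        linarith
      have w1 := mul_le_mul_of_nonneg_right (c1 _ hy') t2.le
      have w2 := mul_le_mul_of_nonneg_right u3 u1.le
      linarith

end Crest.Agent.T157.Oe

end
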