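import Crest.Agent.T157.OeCmp_87
import Crest.Agent.T157.OeTrf_87
import Crest.Agent.T157.OeShp_26
import Crest.Agent.T157.OeOrb_64
import Crest.Agent.T157.StAll_87

/-!
# Row 157, A2 section 7 (helper87): `Oe.edgeGlue`, `Oe.edgeT`
-/

set_option autoImplicit false
set_option linter.unusedSectionVars false

noncomputable section

namespace Crest.Agent.T157.Oe

open MeasureTheory ProbabilityTheory Matrix Filter Topology Set Real
open scoped ENNReal
open Crest.Agent.T157.E Crest.Agent.T157.St Crest.Agent.T157.Sp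
open Crest.Agent.T157.Ed (sx tau sx_pos tau_pos tau_eq sx_pow_six one_le_sx)
open Crest.Agent.T157.Tap (Mx V GOE)
open Crest.Agent.T157.Top (Whp)
open Crest.Agent.T157.St.Lnk10 Crest.Agent.T157.Oe.Cmp87

namespace Ed87

variable {n : ℕ}

/-- from hatted units to `CovAt` -/
theorem covAt_of (hn : 1 ≤ n) (W : Mx n) {r κ p : ℝ} (hr : 0 < r) (hp : 0 ≤ p)
    (h : OffY (tau n * r) (muW n W) p fun y => CovB (pst (tau n * r) (muW n W) y) (κ / (tau n * r))) :
    Crit.CovAt (ising W 0) r (κ / r) p := by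
  have ht := tau_pos hn
  have hts := tau_sq n
  obtain ⟨A, hA, h2, h3⟩ := h
  refine ENNReal.toReal_le_of_le_ofReal hp (le_trans ?_ h2)
  refine le_trans (measure_mono fun y hy => ?_) (lawY_muW hn W r hA).le
  by_contra hy'
  refine hy fun v => ?_
  have h4 := (h3 _ hy' v).2
  have e : post (hat n) (ising W 0) (tau n * r) (sx n ^ 2 • y) = post sv (ising W 0) r y := by
    funext x
    simp only [post, hat, smul_dotProduct, dotProduct_smul, smul_eq_mul, hts]
    have := (sx_pos hn).ne'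
    congr 2; field_simp
  rw [muW, Win34.var_pst (ising_pos W), e] at h4
  have e2 : var (post sv (ising W 0) r y) (fun x => v ⬝ᵥ hat n x) =
      (tau n)⁻¹ * (v ⬝ᵥ covM (tilt (ising W 0) y) *ᵥ v) := by
    rw [covM, SL.covMat_quad]
    simp only [var, cov, mean, prob_post_sv, hat, dotProduct_smul, smul_eq_mul, hts,
      mul_left_comm _ (sx n ^ 2)⁻¹, ← Finset.mul_sum, ← mul_sub]
    rw [Finset.mul_sum]
    exact Finset.sum_congr rfl fun x _ => by ring
  rw [e2, inv_mul_le_iff₀ ht] at h4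
  refine h4.trans (le_of_eq ?_)
  field_simp

theorem ev_pow {a : ℝ} (ha : 0 < a) (C : ℝ) : ∀ᶠ n : ℕ in atTop, C ≤ (n : ℝ) ^ a :=
  ((tendsto_rpow_atTop ha).comp tendsto_natCast_atTop_atTop).eventually_ge_atTop C

theorem td_exp {h b : ℝ} (h0 : 0 < h) (hb : 0 < b) :
    Tendsto (fun n : ℕ => (n : ℝ) ^ 3 * exp (-(b * (n : ℝ) ^ h))) atTop (𝓝 0) := by
  refine (((tendsto_rpow_mul_exp_neg_mul_atTop_nhds_zero (3 / h) b hb).comp
    (tendsto_rpow_atTop h0)).comp tendsto_natCast_atTop_atTop).congr fun n => ?_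
  simp only [Function.comp_apply, neg_mul]
  rw [← rpow_mul (Nat.cast_nonneg n), mul_div_cancel₀ _ h0.ne']
  norm_cast

/-- the transfer at a fixed `n` -/
theorem pass (hT : TrfL) (hn : 1 ≤ n) (W : Mx n) {t δ q g θ : ℝ} (t1 : t ≤ 1) (δ0 : 0 ≤ δ)
    (δ1 : δ ≤ 1 / 8) (q0 : 0 < q) (q1 : q ≤ 1 / 4) (hg : 32 * δ + 47 * (n ^ 2 * q) ≤ g)
    (hθ : 7 * q ^ 2 ≤ θ) (h : Cmp (tau n * t) (muW n W) (nuW n W) (exp (2 * δ)) (q ^ 4)) :
    Pass n W t g θ := by
  intro r e p r1 r2 e0 p0 hs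
  have : Nonempty (Fin n) := ⟨⟨0, hn⟩⟩
  have ht := tau_pos hn
  have s1 := one_le_sx hn
  have N1 : (1 : ℝ) ≤ n := by exact_mod_cast hn
  have r0 : 0 < r := by linarith
  have hK : r ≤ tau n * t - r := by linarith
  have K0 := r0.trans_le hK
  have a1 : ∀ᵐ x ∂muW n W, x ⬝ᵥ x ≤ (n : ℝ) := ae_dm _ _ fun x => by
    rw [St.All.hat_dot_hat, sv_dot_self]
    exact mul_le_of_le_one_left (by linarith) (inv_le_one_of_one_le₀ (Ed.one_le_tau hn))
  have a2 : ∀ᵐ x ∂nuW n W, x ⬝ᵥ x ≤ (n : ℝ) := (tilted_absolutelyContinuous _ _).ae_le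
    ((Sph38.sphR_ae (sx n)).mono fun x hx => by
      rw [hx, ← sx_pow_six]; exact pow_le_pow_right₀ s1 (by norm_num))
  have x1 : ∀ x : ℝ, 0 ≤ x → x ≤ 1 → exp x ≤ 1 + 2 * x := fun x h0 h1 => by
    have := abs_le.1 (abs_exp_sub_one_le (x := x) (by rwa [abs_of_nonneg h0]))
    rw [abs_of_nonneg h0] at this
    linarith [this.2]
  have k1 : 1 ≤ exp (2 * δ) := one_le_exp (by linarith)
  have k2 : exp (2 * δ) ≤ 2 := (x1 _ (by linarith) (by linarith)).trans (by linarith)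
  have k4 : exp (2 * δ) ^ 4 ≤ 1 + 16 * δ := by
    rw [← exp_nat_mul]
    exact (x1 _ (by positivity) (by push_cast; linarith)).trans_eq (by push_cast; ring)
  have h1 := hT _ _ _ n r (tau n * t - r) _ q ((1 + e) / r) p (cp_mu W).prob (cp_nu hn W).prob a1 a2
    r0 K0 k1 k2 q0 q1 (by positivity) p0 (by rwa [add_sub_cancel]) hs
  have e1 : tau n * (r / tau n) = r := mul_div_cancel₀ _ ht.ne'
  refine covAt_of hn W (div_pos r0 ht) (by nlinarith [sq_nonneg q]) ?_
  rw [e1]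
  refine Win34.OffY.mono h1 (by linarith) fun y hy => Win34.CovB.mono hy ?_
  set K := tau n * t - r
  set a := (1 + e) / r with ha
  have b0 : 1 / r ≤ a := div_le_div_of_nonneg_right (by linarith) r0.le
  have b1 : 1 / K ≤ a := (one_div_le_one_div_of_le r0 hK).trans b0
  have b2 : 0 < 1 / K := by positivity
  have b3 : r ≤ n := by
    have c1 : tau n ≤ n := by
      rw [tau_eq, ← sx_pow_six]; exact pow_le_pow_right₀ s1 (by norm_num)
    linarith [mul_le_of_le_one_right ht.le t1]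
  have b4 : 1 ≤ n * a := by
    refine le_trans ?_ (mul_le_mul_of_nonneg_left b0 (by linarith))
    rwa [mul_one_div, le_div_iff₀ r0, one_mul]
  have b5 : 29 / K ≤ 29 * n :=
    (div_le_self (by norm_num) (r1.trans hK)).trans (by linarith)
  have b6 : exp (2 * δ) ^ 4 * (1 + q) ≤ 1 + (16 * δ + 3 * q) :=
    (mul_le_mul_of_nonneg_right k4 (by linarith)).trans (by nlinarith)
  have b7 := mul_le_mul_of_nonneg_right b6 (show 0 ≤ a + 1 / K by linarith)
  have b8 := mul_le_mul_of_nonneg_left (show a + 1 / K ≤ 2 * a by linarith)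
    (show 0 ≤ 16 * δ + 3 * q by linarith)
  have b9 : (12 * n + 29 / K) * q ≤ 41 * (n ^ 2 * q) * a :=
    calc _ ≤ 41 * n * q * 1 := by
          rw [mul_one]; exact mul_le_mul_of_nonneg_right (by linarith) q0.le
      _ ≤ 41 * n * q * (n * a) := mul_le_mul_of_nonneg_left b4 (by positivity)
      _ = _ := by ring
  have c1 : q * a ≤ n ^ 2 * q * a := mul_le_mul_of_nonneg_right
    (le_mul_of_one_le_left q0.le (one_le_pow₀ N1)) (by linarith)
  have c2 := mul_le_mul_of_nonneg_right hg (show 0 ≤ a by linarith)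
  have c3 : (1 + e) * (1 + g) / r = a + g * a := by rw [ha]; ring
  rw [c3]
  linarith

end Ed87

open Ed87 in
theorem edgeGlue : EdgeGlue := by
  intro hC hT I t η h hI hW h0 hη η1 ht hE
  have γ0 : 0 < η - h := sub_pos.2 hη
  have w1 : Whp GOE fun n W => exp (-(1 / 8 * (n : ℝ) ^ h)) ≤ Pl.LRW n 1 W :=
    Top.whp_of_real_le (Pl.tendsto_LRW_lt_rpow zero_le_one le_rfl (a := 1 / 8) (by norm_num) h0)
      (.of_forall fun n => by simp only [not_le]; rfl)
  have w2 := St.All.closeStmt.1 1 one_pos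
  have w3 : Whp GOE fun n W => ¬ (W ∈ I n ∧ exp (-((n : ℝ) ^ h / 4)) * exp (n / 4) ≤ Zc n W ∧
      exp (-((n : ℝ) ^ h / 4)) * exp (n / 4) ≤ Zs n W ∧ ¬ Cmp (tau n * t n) (muW n W) (nuW n W)
        (exp (2 * (n : ℝ) ^ (-((η - h) / 3)))) (exp (-((n : ℝ) ^ h / 4)))) := by
    refine Top.whp_of_real_le (a := fun n => 62 * ((n : ℝ) ^ 3 * exp (-(1 / 2 * (n : ℝ) ^ h))))
      (by simpa using (td_exp h0 one_half_pos).const_mul 62) ?_
    filter_upwards [hE, eventually_ge_atTop 4, ev_pow h0 1537, ev_pow (a := 1 / 10) (by norm_num) 640,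
      ev_pow (a := (η - h) / 6) (by positivity) 176] with n e1 e2 e3 e4 e5
    have N4 : (4 : ℝ) ≤ n := by exact_mod_cast e2
    have N0 : (0 : ℝ) < n := by linarith
    have N2 : (0 : ℝ) < n - 2 := by linarith
    set H := (n : ℝ) ^ h with hH
    set δ := (n : ℝ) ^ (-((η - h) / 3)) with hδ
    have δ0 : 0 < δ := rpow_pos_of_pos N0 _
    have δ1 : δ ≤ 1 := rpow_le_one_of_one_le_of_nonpos (by linarith) (by linarith)
    have r2 : √(32 * H / (n - 2)) ^ 2 = 32 * H / (n - 2) := sq_sqrt (by positivity)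
    have r3 : 32 * H / (n - 2) ≤ 64 * (n : ℝ) ^ (h - 1) := by
      rw [rpow_sub_one N0.ne', div_le_iff₀ N2, ← mul_div_assoc, div_mul_eq_mul_div, le_div_iff₀ N0]
      nlinarith
    have r4 : √(32 * H / (n - 2)) ≤ 8 * (n : ℝ) ^ ((h - 1) / 2) := by
      refine sqrt_le_iff.2 ⟨by positivity, r3.trans_eq ?_⟩
      rw [mul_pow, ← rpow_mul_natCast N0.le]; norm_num
    have c2 : ((n : ℝ) ^ ((1 - η) / 2)) ^ 2 ≤ n := by
      rw [← rpow_mul_natCast N0.le]
      exact (rpow_le_rpow_of_exponent_le (by linarith) (by push_cast; linarith)).trans_eq (rpow_one _)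
    have b1 : 5 / 2 * (n : ℝ) ^ (9 / 10 : ℝ) ≤ (n - 2) / 128 := by
      have u1 := mul_le_mul_of_nonneg_right e4 (rpow_pos_of_pos N0 (9 / 10)).le
      rw [← rpow_add N0, show (1 / 10 + 9 / 10 : ℝ) = 1 by norm_num, rpow_one] at u1
      linarith
    have b2 : √(32 * H / (n - 2)) * (4 * (n : ℝ) ^ ((1 - η) / 2)) / 2 +
        5 / 2 * (n : ℝ) ^ (9 / 10 : ℝ) * √(32 * H / (n - 2)) ^ 2 ≤ δ := by
      have u1 := mul_le_mul_of_nonneg_right r4 (rpow_pos_of_pos N0 ((1 - η) / 2)).le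
      rw [mul_assoc, ← rpow_add N0, show (h - 1) / 2 + (1 - η) / 2 = -((η - h) / 2) by ring] at u1
      have u2 := mul_le_mul_of_nonneg_left r3 (rpow_pos_of_pos N0 (9 / 10)).le
      rw [mul_left_comm, ← rpow_add N0] at u2
      have u3 : (n : ℝ) ^ (9 / 10 + (h - 1)) ≤ (n : ℝ) ^ (-((η - h) / 2)) :=
        rpow_le_rpow_of_exponent_le (by linarith) (by linarith)
      have u4 := mul_le_mul_of_nonneg_right e5 (rpow_pos_of_pos N0 (-((η - h) / 2))).le
      rw [← rpow_add N0, show (η - h) / 6 + -((η - h) / 2) = -((η - h) / 3) by ring] at u4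
      rw [r2]
      linarith
    have b3 : 1 + 48 * (4 * (n : ℝ) ^ ((1 - η) / 2)) ^ 2 / (n - 2) ≤ H := by
      have : 48 * (4 * (n : ℝ) ^ ((1 - η) / 2)) ^ 2 / (n - 2) ≤ 1536 := by
        rw [div_le_iff₀ N2, mul_pow]; linarith
      linarith
    have h1 := hC n (I n) (t n) _ _ _ δ H _ (exp (-(H / 4))) (exp (-(H / 4))) (by omega) (hI n) (ht n).1
      (rpow_pos_of_pos N0 _).le (rpow_pos_of_pos N0 _).le (sqrt_nonneg _) δ0 δ1 b1 b2 b3
      (exp_pos _).le (exp_pos _) (exp_pos _) e1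
    simp only [not_not]
    refine ENNReal.toReal_le_of_le_ofReal (by positivity) (h1.trans (ENNReal.ofReal_le_ofReal ?_))
    have u1 : tl n √(32 * H / (n - 2)) H ≤ 26 * exp (-H) := by
      rw [tl, r2, show H - (n - 2) * (32 * H / (n - 2)) / 16 = -H by field_simp; ring]
      linarith [exp_le_exp.2 (show 4 - 2 * H ≤ -H by linarith)]
    have u2 : δ⁻¹ ≤ (n : ℝ) ^ 3 := by
      rw [hδ, rpow_neg N0.le, inv_inv, ← rpow_natCast]
      exact rpow_le_rpow_of_exponent_le (by linarith) (by push_cast; linarith)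
    have u3 : exp (-H) = exp (-(1 / 2 * H)) * (exp (-(H / 4)) * exp (-(H / 4))) := by
      rw [← exp_add, ← exp_add]; congr 1; ring
    rw [div_le_iff₀ (by positivity), div_eq_mul_inv]
    calc _ ≤ 2 * (31 * exp (-H) * (n : ℝ) ^ 3) := by
          gcongr 2 * (?_ * ?_)
          linarith
      _ = _ := by rw [u3]; ring
  refine (((hW.and w1).and w2).and w3).mono ?_
  filter_upwards [eventually_ge_atTop 1, ev_pow h0 240, ev_pow (a := (η - h) / 12) (by positivity) 64,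
    (td_exp h0 (b := 1 / 16) (by norm_num)).eventually (gt_mem_nhds (show (0 : ℝ) < 1 / 94 by norm_num))]
    with n n1 e1 e2 e3 W ⟨⟨⟨v1, v2⟩, v3⟩, v4⟩
  have N1 : (1 : ℝ) ≤ n := by exact_mod_cast n1
  have N0 : (0 : ℝ) < n := by linarith
  set H := (n : ℝ) ^ h with hH
  rw [LRW_eq, le_div_iff₀ (exp_pos _)] at v2
  have z1 : Zc n W ≤ 2 * Zs n W := by
    rw [← div_le_iff₀ (Zs_pos n1 W)]; linarith [(abs_le.1 v3).2]
  have z2 : 2 * exp (-(H / 4)) ≤ exp (-(1 / 8 * H)) := by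
    rw [show -(1 / 8 * H) = H / 8 + -(H / 4) by ring, exp_add]
    exact mul_le_mul_of_nonneg_right (by linarith [add_one_le_exp (H / 8)]) (exp_pos _).le
  have z3 := mul_le_mul_of_nonneg_right z2 (exp_pos (n / 4)).le
  have z4 := mul_pos (exp_pos (-(H / 4))) (exp_pos (n / 4))
  have h1 := not_not.1 fun h => v4 ⟨v1, by linarith, by linarith, h⟩
  have g1 : (n : ℝ) ^ (-((η - h) / 4)) ≤ 1 := rpow_le_one_of_one_le_of_nonpos N1 (by linarith)
  have g2 := mul_le_mul_of_nonneg_right e2 (rpow_pos_of_pos N0 (-((η - h) / 3))).le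
  rw [← rpow_add N0, show (η - h) / 12 + -((η - h) / 3) = -((η - h) / 4) by ring] at g2
  have g3 : (n : ℝ)⁻¹ ≤ (n : ℝ) ^ (-((η - h) / 4)) := by
    rw [← rpow_neg_one]; exact rpow_le_rpow_of_exponent_le N1 (by linarith)
  have g4 : 94 * ((n : ℝ) ^ 2 * exp (-(1 / 16 * H))) ≤ (n : ℝ)⁻¹ := by
    rw [← one_div, le_div_iff₀ N0]; linarith
  refine pass hT n1 W (q := exp (-(1 / 16 * H))) (δ := (n : ℝ) ^ (-((η - h) / 3))) (ht n).2
    (rpow_pos_of_pos N0 _).le (by linarith)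
    (exp_pos _) ?_ (by linarith) ?_ (by rwa [← exp_nat_mul, show ((4 : ℕ) : ℝ) * -(1 / 16 * H) =
      -(H / 4) by push_cast; ring])
  · rw [exp_neg, inv_le_comm₀ (exp_pos _) (by norm_num)]
    linarith [add_one_le_exp (1 / 16 * H)]
  · rw [← exp_nat_mul, show -(H / 10) = H / 40 + ((2 : ℕ) : ℝ) * -(1 / 16 * H) by push_cast; ring,
      exp_add]
    exact mul_le_mul_of_nonneg_right (by linarith [add_one_le_exp (H / 40)]) (exp_pos _).le

theorem cmpN : CmpN := cmpGlue haarL orbL shpL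

/-- **the edge transfer** -/
theorem edgeT : EdgeT := edgeGlue cmpN trfL

end Crest.Agent.T157.Oe

end
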