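import Crest.Agent.T157.St0A_5
import Crest.Agent.T157.TapPl_37

/-!
# Row 157: the planted laws of the matrix and of the pair (matrix, field) (helper5)
-/

set_option autoImplicit false

noncomputable section

namespace Crest.Agent.T157.Ks.St0

open MeasureTheory ProbabilityTheory Matrix Filter Set Topology
open Crest.Agent.T157.E Crest.Agent.T157.Eig Crest.Agent.T157.Cond Crest.Agent.T157.Tap
open Crest.Agent.T157.SL (law Wt isProb_law)
open scoped ENNReal

variable {n : ℕ}

/-- planted law of the matrix -/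
def PW (n : ℕ) : Measure (Mx n) := (GOE n).withDensity fun W => ENNReal.ofReal (Pl.LRW n 1 W)

/-- the planted pair for the configuration `σ` -/
def pl (s : ℝ) (σ : Cube n) (z : Mx n × V n) : Mx n × V n :=
  (plW 1 z.1 (sv σ), s • sv σ + √s • z.2)

/-- planted law of the pair (matrix, field at time `s`) -/
def JP (s : ℝ) (n : ℕ) : Measure (Mx n × V n) :=
  (2 ^ n : ℝ≥0∞)⁻¹ • ∑ σ : Cube n, ((GOE n).prod (gv (Fin n))).map (pl s σ)

theorem meas_plW (σ : V n) : Measurable fun W : Mx n => plW 1 W σ := by unfold plW; fun_prop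

theorem meas_pl (s : ℝ) (σ : Cube n) : Measurable (pl s σ) := by unfold pl plW; fun_prop

theorem meas_ising (σ : Cube n) : Measurable fun W : Mx n => ising W 0 σ :=
  Pl.measurable_ising measurable_id measurable_const σ

theorem meas_prob (σ : Cube n) : Measurable fun W : Mx n => prob (ising W 0) σ :=
  (meas_ising σ).div (Finset.measurable_sum _ fun τ _ => meas_ising τ)

theorem meas_LR : Measurable fun W : Mx n => ENNReal.ofReal (Pl.LRW n 1 W) :=
  (Pl.measurable_LRW 1).ennreal_ofReal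

theorem lint_pl (σ : Cube n) {G : Mx n → ℝ≥0∞} (hG : Measurable G) :
    ∫⁻ W, ENNReal.ofReal (ising W 0 σ) * G W ∂GOE n =
      ENNReal.ofReal (Real.exp (n / 4)) * ∫⁻ W, G (plW 1 W (sv σ)) ∂GOE n := by
  have h := Pl.lintegral_exp_mul false (Pl.aW n 1 σ) fun x => G (symG (1 / √n) x)
  rw [Pl.MM_aW, one_pow, one_mul, ← (Pl.mp_shift _).lintegral_comp
    (f := fun x => G (symG (1 / √n) x)) (hG.comp (measurable_symG _))] at h
  simp only [Pl.symG_add_aW] at h
  rw [← (Pl.mp_symG n).lintegral_comp ((meas_ising σ).ennreal_ofReal.fun_mul hG),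
    ← (Pl.mp_symG n).lintegral_comp (f := fun W => G (plW 1 W (sv σ))) (hG.comp (meas_plW _))]
  refine Eq.trans (lintegral_congr fun x => ?_) h
  have := congrFun (Pl.ising_symG 1 x 0) σ
  rw [one_smul] at this
  rw [this, Pl.rwt, zero_dotProduct, Real.exp_zero, one_mul]

theorem LR_prob (W : Mx n) (σ : Cube n) :
    ENNReal.ofReal (Pl.LRW n 1 W) * ENNReal.ofReal (prob (ising W 0) σ) =
      (2 ^ n : ℝ≥0∞)⁻¹ * (ENNReal.ofReal (Real.exp (n / 4)))⁻¹ * ENNReal.ofReal (ising W 0 σ) := by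
  have hZ := (Pl.wt_ising W 0).pos
  rw [← ENNReal.ofReal_mul (Pl.LRW_pos 1 W).le, ← ENNReal.ofReal_inv_of_pos (Real.exp_pos _),
    show (2 ^ n : ℝ≥0∞) = ENNReal.ofReal (2 ^ n) by simp,
    ← ENNReal.ofReal_inv_of_pos (by positivity), ← ENNReal.ofReal_mul (by positivity),
    ← ENNReal.ofReal_mul (by positivity), Pl.LRW, one_smul, one_pow, one_mul, prob]
  congr 1
  unfold Zw at hZ ⊢
  field_simp

/-- **the planted identity** -/
theorem planted {F : Cube n → Mx n → ℝ≥0∞} (hF : ∀ σ, Measurable (F σ)) :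
    ∫⁻ W, ∑ σ, ENNReal.ofReal (prob (ising W 0) σ) * F σ W ∂PW n =
      (2 ^ n : ℝ≥0∞)⁻¹ * ∑ σ, ∫⁻ W, F σ (plW 1 W (sv σ)) ∂GOE n := by
  have m := fun σ : Cube n => (meas_ising σ).ennreal_ofReal.fun_mul (hF σ)
  rw [PW, lintegral_withDensity_eq_lintegral_mul _ meas_LR (Finset.measurable_sum _ fun σ _ =>
    (meas_prob σ).ennreal_ofReal.fun_mul (hF σ))]
  simp only [Pi.mul_apply, Finset.mul_sum, ← mul_assoc, LR_prob]
  simp only [mul_assoc]
  rw [lintegral_finsetSum _ fun σ _ => ((m σ).const_mul _).const_mul _]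
  refine Finset.sum_congr rfl fun σ _ => ?_
  rw [lintegral_const_mul _ ((m σ).const_mul _), lintegral_const_mul _ (m σ), lint_pl σ (hF σ),
    ← mul_assoc (ENNReal.ofReal _)⁻¹, ENNReal.inv_mul_cancel (by simp [Real.exp_pos]) ENNReal.ofReal_ne_top, one_mul]

theorem sum_prob (W : Mx n) : ∑ σ, ENNReal.ofReal (prob (ising W 0) σ) = 1 := by
  rw [← ENNReal.ofReal_sum_of_nonneg fun x _ => (Pl.wt_ising W 0).prob_nonneg x,
    (Pl.wt_ising W 0).sum_prob, ENNReal.ofReal_one]

theorem avg_le {f : Cube n → ℝ≥0∞} {δ : ℝ≥0∞} (h : ∀ σ, f σ ≤ δ) :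
    (2 ^ n : ℝ≥0∞)⁻¹ * ∑ σ, f σ ≤ δ := by
  refine (mul_le_mul_right (Finset.sum_le_sum fun σ _ => h σ) _).trans_eq ?_
  rw [Finset.sum_const, nsmul_eq_mul, ← mul_assoc]
  simp [ENNReal.inv_mul_cancel]

theorem avg_const (δ : ℝ≥0∞) : (2 ^ n : ℝ≥0∞)⁻¹ * ∑ _σ : Cube n, δ = δ := by
  rw [Finset.sum_const, nsmul_eq_mul, ← mul_assoc]
  simp [ENNReal.inv_mul_cancel]

theorem lint_PW {G : Mx n → ℝ≥0∞} (hG : Measurable G) :
    ∫⁻ W, G W ∂PW n = (2 ^ n : ℝ≥0∞)⁻¹ * ∑ σ : Cube n, ∫⁻ W, G (plW 1 W (sv σ)) ∂GOE n := by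
  rw [← planted fun _ => hG]
  simp only [← Finset.sum_mul, sum_prob, one_mul]

instance : IsProbabilityMeasure (PW n) := ⟨by
  rw [← lintegral_one, lint_PW measurable_const]
  simp only [lintegral_one, measure_univ, avg_const]⟩

theorem PW_apply {E : Set (Mx n)} (hE : MeasurableSet E) :
    PW n E = (2 ^ n : ℝ≥0∞)⁻¹ * ∑ σ : Cube n, GOE n {W | plW 1 W (sv σ) ∈ E} := by
  rw [← lintegral_indicator_one hE, lint_PW (measurable_one.indicator hE)]
  congr 1
  refine Finset.sum_congr rfl fun σ _ => ?_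
  rw [← lintegral_indicator_one (show MeasurableSet {W | plW 1 W (sv σ) ∈ E} from meas_plW _ hE)]
  rfl

theorem ising_plW (W : Mx n) (σ τ : Cube n) :
    ising (plW 1 W (sv σ)) 0 τ = ising W 0 τ * Real.exp (1 / n * (sv σ ⬝ᵥ sv τ) ^ 2 / 2) := by
  rw [ising, ising, ← Real.exp_add, plW, add_mulVec, smul_mulVec, vecMulVec_mulVec, dotProduct_add,
    dotProduct_smul, op_smul_eq_smul, dotProduct_smul, dotProduct_comm (sv τ) (sv σ)]
  simp only [smul_eq_mul]
  congr 1; ring

/-- second moment of the likelihood ratio -/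
theorem lint_LR : ∫⁻ W, ENNReal.ofReal (Pl.LRW n 1 W) ∂PW n ≤ ENNReal.ofReal (n + 1) := by
  rw [lint_PW meas_LR]
  refine avg_le fun σ => le_trans (le_of_eq ?_) (ENNReal.ofReal_le_ofReal (Pl.U_le_succ n le_rfl))
  have e : ∀ W : Mx n, ENNReal.ofReal (Pl.LRW n 1 (plW 1 W (sv σ))) = ∑ τ, ENNReal.ofReal (ising W 0 τ) *
      ENNReal.ofReal (Real.exp (1 / n * (sv σ ⬝ᵥ sv τ) ^ 2 / 2) / (2 ^ n * Real.exp (n / 4))) :=
    fun W => by
      rw [Pl.LRW, one_smul, one_pow, one_mul, Zw, Finset.sum_div,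
        ENNReal.ofReal_sum_of_nonneg fun τ _ => div_nonneg (Cov15.ising_pos _ _ _).le (by positivity)]
      refine Finset.sum_congr rfl fun τ _ => ?_
      rw [ising_plW, mul_div_assoc, ENNReal.ofReal_mul (Cov15.ising_pos _ _ _).le]
  simp only [e]
  rw [lintegral_finsetSum _ fun τ _ => (meas_ising τ).ennreal_ofReal.mul_const _, Pl.U,
    ← Pl.sum_overlap (fun x => Real.exp (1 / n * x ^ 2 / 2)) σ, Finset.sum_div,
    ENNReal.ofReal_sum_of_nonneg fun τ _ => by positivity]
  refine Finset.sum_congr rfl fun τ _ => ?_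
  rw [lint_pl τ measurable_const, lintegral_const, measure_univ, mul_one,
    ← ENNReal.ofReal_mul (Real.exp_pos _).le]
  congr 1
  field_simp

/-- null probabilities control planted probabilities -/
theorem PW_le (E : Set (Mx n)) {l : ℝ} (hl : 0 < l) :
    PW n E ≤ ENNReal.ofReal l * GOE n E + ENNReal.ofReal ((n + 1) / l) := by
  set S := {W : Mx n | ENNReal.ofReal l ≤ ENNReal.ofReal (Pl.LRW n 1 W)} with hS
  have mS : MeasurableSet S := measurableSet_le measurable_const meas_LR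
  have h1 := meas_ge_le_lintegral_div (μ := PW n) meas_LR.aemeasurable
    (ENNReal.ofReal_pos.2 hl).ne' ENNReal.ofReal_ne_top
  rw [ENNReal.ofReal_div_of_pos hl]
  refine le_trans (measure_mono (t := toMeasurable (GOE n) E \ S ∪ S) fun W hW => ?_)
    ((measure_union_le _ _).trans (add_le_add ?_ (h1.trans (ENNReal.div_le_div_right lint_LR _))))
  · by_cases h : ENNReal.ofReal l ≤ ENNReal.ofReal (Pl.LRW n 1 W)
    · exact .inr h
    · exact .inl ⟨subset_toMeasurable _ _ hW, h⟩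
  · rw [PW, withDensity_apply _ ((measurableSet_toMeasurable _ _).diff mS)]
    refine (setLIntegral_mono' ((measurableSet_toMeasurable _ _).diff mS) (g := fun _ => ENNReal.ofReal l)
      fun W hW => (not_le.1 hW.2).le).trans ?_
    rw [setLIntegral_const, ← measure_toMeasurable E]
    exact mul_le_mul_right (measure_mono sdiff_subset) _

theorem Lv.toP {e : ℝ} {P : ∀ n, Mx n → Prop} (h : Lv GOE e P) {e' : ℝ} (he : e' < e / 2) :
    Lv PW e' P := by
  filter_upwards [h, ev_poly 2 he] with n h1 h2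
  refine (PW_le _ (Real.exp_pos (e / 2 * n))).trans ((add_le_add (mul_le_mul_right h1 _) le_rfl).trans ?_)
  rw [← ENNReal.ofReal_mul (Real.exp_pos _).le, ← ENNReal.ofReal_add (by positivity) (by positivity),
    ← Real.exp_add, div_eq_mul_inv (_ + 1), ← Real.exp_neg, show e / 2 * n + -(e * n) = -(e / 2 * n) by ring]
  refine ENNReal.ofReal_le_ofReal (le_trans ?_ h2)
  nlinarith [Real.exp_pos (-(e / 2 * n)), mul_nonneg n.cast_nonneg (Real.exp_pos (-(e / 2 * n))).le]

/-! ### the pair -/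

variable {s : ℝ} {A : Set (Mx n × V n)}

theorem JP_eq (hA : MeasurableSet A) : JP s n A =
    (2 ^ n : ℝ≥0∞)⁻¹ * ∑ σ : Cube n, ((GOE n).prod (gv (Fin n))) {z | pl s σ z ∈ A} := by
  simp only [JP, Measure.smul_apply, Measure.coe_finsetSum, Finset.sum_apply, smul_eq_mul,
    Measure.map_apply (meas_pl s _) hA]
  rfl

instance : IsProbabilityMeasure (JP s n) := ⟨by
  rw [JP_eq .univ]; simp only [mem_univ, ofPred_true, measure_univ, avg_const]⟩

theorem JP_le (hA : MeasurableSet A) {δ : ℝ≥0∞}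
    (h : ∀ σ : Cube n, ((GOE n).prod (gv (Fin n))) {z | pl s σ z ∈ A} ≤ δ) : JP s n A ≤ δ :=
  (JP_eq hA).trans_le (avg_le h)

theorem law_eq (W : Mx n) (B : Set (V n)) : law sv (ising W 0) s B =
    ∑ σ, ENNReal.ofReal (prob (ising W 0) σ) * ((gv (Fin n)).map fun z => s • sv σ + √s • z) B := by
  simp only [law, Measure.coe_finsetSum, Finset.sum_apply, Measure.smul_apply, smul_eq_mul]

theorem meas_sec (hA : MeasurableSet A) (σ : Cube n) : Measurable fun W : Mx n =>
    ((gv (Fin n)).map fun z => s • sv σ + √s • z) {y | (W, y) ∈ A} :=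
  haveI := SL.isProb_path (s • sv σ) √s
  measurable_measure_prodMk_left hA

theorem meas_law (hA : MeasurableSet A) :
    Measurable fun W : Mx n => law sv (ising W 0) s {y | (W, y) ∈ A} := by
  simp only [law_eq]
  exact Finset.measurable_sum _ fun σ _ => (meas_prob σ).ennreal_ofReal.fun_mul (meas_sec hA σ)

/-- given the matrix, the field is the localisation of the Gibbs measure -/
theorem JP_apply (hA : MeasurableSet A) :
    JP s n A = ∫⁻ W, law sv (ising W 0) s {y | (W, y) ∈ A} ∂PW n := by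
  simp only [law_eq]
  rw [planted (meas_sec hA), JP_eq hA]
  congr 1
  refine Finset.sum_congr rfl fun σ _ => ?_
  rw [Measure.prod_apply (show MeasurableSet {z | pl s σ z ∈ A} from meas_pl s σ hA)]
  refine lintegral_congr fun W => ?_
  rw [Measure.map_apply (by fun_prop) (show MeasurableSet {y | (plW 1 W (sv σ), y) ∈ A} from
    measurable_prodMk_left hA)]
  rfl

theorem JP_fst (E : Set (Mx n)) : JP s n {z | z.1 ∈ E} ≤ PW n E := by
  have hm := measurableSet_toMeasurable (PW n) E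
  refine (measure_mono (t := {z : Mx n × V n | z.1 ∈ toMeasurable (PW n) E}) fun z hz =>
    subset_toMeasurable _ _ hz).trans ?_
  rw [JP_apply (A := {z : Mx n × V n | z.1 ∈ toMeasurable (PW n) E}) (measurable_fst hm), ← measure_toMeasurable E, ← lintegral_indicator_one hm]
  refine lintegral_mono fun W => ?_
  have := isProb_law (φ := sv) (s := s) (Pl.wt_ising W 0)
  by_cases h : W ∈ toMeasurable (PW n) E
  · rw [indicator_of_mem h]; exact prob_le_one
  · simp [h]

/-- joint bound to two-level bound -/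
theorem JP_markov (hA : MeasurableSet A) {ε δ : ℝ} (hε : 0 < ε) (h : JP s n A ≤ ENNReal.ofReal δ) :
    PW n {W | ¬ (law sv (ising W 0) s).real {y | (W, y) ∈ A} ≤ ε} ≤ ENNReal.ofReal (δ / ε) := by
  have h1 := meas_ge_le_lintegral_div (μ := PW n) (meas_law (s := s) hA).aemeasurable
    (ENNReal.ofReal_pos.2 hε).ne' ENNReal.ofReal_ne_top
  rw [← JP_apply hA] at h1
  rw [ENNReal.ofReal_div_of_pos hε]
  refine le_trans (measure_mono fun W hW => ?_) (h1.trans (ENNReal.div_le_div_right h _))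
  exact ENNReal.ofReal_le_of_le_toReal (not_le.1 hW).le

/-- two-level bound to joint bound -/
theorem JP_two (hA : MeasurableSet A) (ε : ℝ) : JP s n A ≤
    PW n {W | ¬ (law sv (ising W 0) s).real {y | (W, y) ∈ A} ≤ ε} + ENNReal.ofReal ε := by
  set E := {W | ¬ (law sv (ising W 0) s).real {y | (W, y) ∈ A} ≤ ε}
  have hm := measurableSet_toMeasurable (PW n) E
  rw [JP_apply hA, ← measure_toMeasurable E, ← lintegral_indicator_one hm,
    ← mul_one (ENNReal.ofReal ε), ← measure_univ (μ := PW n), ← lintegral_const,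
    ← lintegral_add_right _ measurable_const]
  refine lintegral_mono fun W => ?_
  have := isProb_law (φ := sv) (s := s) (Pl.wt_ising W 0)
  by_cases h : W ∈ toMeasurable (PW n) E
  · rw [indicator_of_mem h]; exact prob_le_one.trans le_self_add
  · rw [indicator_of_notMem h, zero_add, ← ofReal_measureReal]
    exact ENNReal.ofReal_le_ofReal (not_not.1 fun h' => h (subset_toMeasurable _ _ h'))

/-- gauge fixing -/
theorem JP_gauge (hA : MeasurableSet A) {B : Set (Mx n × V n)}
    (h : ∀ σ : V n, Pl.IsSign σ → ∀ z : Mx n × V n, (TapPl.cj σ z.1, σ * z.2) ∈ A → z ∈ B) :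
    JP s n A ≤ ((GOE n).prod (gv (Fin n))) {z | (plW 1 z.1 1, s • (1 : V n) + √s • z.2) ∈ B} :=
  JP_le hA fun σ => (TapPl.planted_gauge 1 s hA σ).trans_le
    (measure_mono fun _ hz => h _ (Pl.isSign_sv σ) (_, _) hz)

section
variable {e e' : ℝ} {P : ∀ n, Mx n → Prop} {Q : ∀ n, Mx n × V n → Prop}

theorem Lv.fst (h : Lv PW e P) (s : ℝ) : Lv (JP s) e fun n z => P n z.1 :=
  Filter.Eventually.mono h fun _ hn => (JP_fst _).trans hn

theorem Lv.markov (h : Lv (JP s) e Q) (hQ : ∀ n, MeasurableSet {z | ¬ Q n z}) (e' : ℝ) :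
    Lv PW (e - e') fun n W =>
      (law sv (ising W 0) s).real {y | ¬ Q n (W, y)} ≤ Real.exp (-(e' * n)) :=
  Filter.Eventually.mono h fun n hn => (JP_markov (hQ n) (Real.exp_pos _) hn).trans_eq (by
    rw [← Real.exp_sub]; congr 2; ring)

theorem Lv.two (hQ : ∀ n, MeasurableSet {z | ¬ Q n z}) (h : Lv PW e fun n W =>
    (law sv (ising W 0) s).real {y | ¬ Q n (W, y)} ≤ Real.exp (-(e * n))) (he : e' < e) :
    Lv (JP s) e' Q := by
  filter_upwards [h, ev_const 2 he] with n h1 h2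
  refine (JP_two (hQ n) _).trans ((add_le_add h1 le_rfl).trans ?_)
  rw [← ENNReal.ofReal_add (Real.exp_pos _).le (Real.exp_pos _).le, ← two_mul]
  exact ENNReal.ofReal_le_ofReal h2

end

end Crest.Agent.T157.Ks.St0
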