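import Crest.Agent.T157.OdE_9
import Crest.Agent.T157.Orb_59
import Crest.Agent.T157.St0B_5
import Crest.Agent.T157.SpDef_87
import Crest.Agent.T157.CritDef_97

/-!
# Row 157, A2 section 7 (helper87): the edge transfer sphere → cube at exponential levels

`Lc`, `Ls` are the partition functions of the cube and of the sphere with a field; `Ls` is the mean of
`Lc` over the orbit `(W, y) ↦ (U W Uᵀ, U y)` of `SO(n)`.  On the event `EG` (from the joint planted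
theorem at a time `t`) `log (Lc / Ls)` is semi-convex with a small gradient (`OrbL`), hence small off
an exponentially small event for both laws (`ShpL`, `CmpN`); posterior covariance bounds at earlier
times pass from the sphere to the cube (`TrfL`, `EdgeT`).
-/

set_option autoImplicit false

noncomputable section

namespace Crest.Agent.T157.Oe

open MeasureTheory ProbabilityTheory Matrix Filter Topology Set Real
open scoped ENNReal
open Crest.Agent.Lib.OrthPoinc (Mat SOInv)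
open Crest.Agent.T157.E Crest.Agent.T157.St Crest.Agent.T157.Sp
open Crest.Agent.T157.Ed (sx tau)
open Crest.Agent.T157.Tap (Mx V GOE)
open Crest.Agent.T157.Oc (SO)
open Crest.Agent.T157.Od (T2H tm)
open Crest.Agent.T157.Ks (fr)
open Crest.Agent.T157.Ks.St0 (JP)
open Crest.Agent.T157.Top (Whp)

variable {n : ℕ}

/-- the output laws at time `K` are comparable off a set which is small for both of them -/
def Cmp {ι : Type*} [Fintype ι] (K : ℝ) (μ ν : Measure (ι → ℝ)) (k p : ℝ) : Prop :=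
  ∃ B : Set (ι → ℝ), MeasurableSet B ∧ lawY K μ B ≤ ENNReal.ofReal p ∧
    lawY K ν B ≤ ENNReal.ofReal p ∧ ∃ c : ℝ, 0 < c ∧
      ∀ y ∉ B, c * Mf K μ y ≤ k * Mf K ν y ∧ Mf K ν y ≤ k * (c * Mf K μ y)

/-- partition function of the cube with a field -/
def Lc (W : Mx n) (y : V n) : ℝ := Zw (ising W y) / 2 ^ n
/-- partition function of the sphere with a field -/
def Ls (W : Mx n) (y : V n) : ℝ :=
  ∫ x, exp (Hh n W x + (sx n ^ 2 • y) ⬝ᵥ x) ∂sphR (Fin n) (sx n)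
/-- the joint rotation of the matrix and of the field -/
def act (U : Mat n) (z : Mx n × V n) : Mx n × V n :=
  (Matrix.of U * z.1 * (Matrix.of U)ᵀ, Matrix.of U *ᵥ z.2)
/-- the log-density of the cube model on the orbit of `z` -/
def uo (z : Mx n × V n) (U : Mat n) : ℝ := log (Lc (act U z).1 (act U z).2) - log (Ls z.1 z.2)

/-- what is used of the good event: (g1), (g3), (g5) in crude sizes, `A₀ = 2 - W` -/
structure EG (W : Mx n) (y : V n) (s c : ℝ) : Prop where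
  sy : Wᵀ = W
  lo : ∀ v : V n, -(3 * (v ⬝ᵥ v)) ≤ v ⬝ᵥ W *ᵥ v
  cov : ∀ v : V n, v ⬝ᵥ covM (ising W y) *ᵥ v + (mag (ising W y) ⬝ᵥ v) ^ 2 ≤ s * (v ⬝ᵥ v)
  com : fr (((2 : ℝ) • (1 : Mx n) - W) * covM (ising W y) - 1) ≤ c ^ 2
  fld : ((((2 : ℝ) • (1 : Mx n) - W) *ᵥ mag (ising W y) - y) ⬝ᵥ
      (((2 : ℝ) • (1 : Mx n) - W) *ᵥ mag (ising W y) - y)) *
    (mag (ising W y) ⬝ᵥ mag (ising W y)) ≤ c ^ 2

/-- the exponentially small terms of `ShpL` -/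
def tl (k : ℕ) (r w : ℝ) : ℝ := 6 * exp (w - ((k : ℝ) - 2) * r ^ 2 / 16) + 20 * exp (4 - 2 * w)

/-- the Haar law exists -/
def HaarL : Prop := ∀ n : ℕ, 0 < n → ∃ μ : Measure (Mat n), IsProbabilityMeasure μ ∧ SOInv μ

/-- semi-convexity on the orbit (Jensen at `U`), normalisation by the sphere -/
def OrbL : Prop := ∀ (n : ℕ) (μ : Measure (Mat n)) [IsProbabilityMeasure μ], SOInv μ → 2 ≤ n →
  ∀ (z : Mx n × V n) (S : Set (Mat n)) (s c : ℝ), 0 ≤ s → 0 ≤ c →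
    (∀ U ∈ SO n, U ∈ S → EG (act U z).1 (act U z).2 s c) → T2H μ (uo z) S (4 * c) (5 / 2 * s)

/-- sharp form of (T2): `|u| ≤ 2 δ` off a small set, for both laws -/
def ShpL : Prop := ∀ (k : ℕ) (μ : Measure (Mat k)) [IsProbabilityMeasure μ] (u : Mat k → ℝ)
  (S : Set (Mat k)) (c b r δ w : ℝ), T2H μ u S c b → MeasurableSet S → 2 < k →
    b ≤ ((k : ℝ) - 2) / 128 → 0 ≤ r → 0 < δ → δ ≤ 1 → r * c / 2 + b * r ^ 2 ≤ δ →
    1 + 48 * c ^ 2 / ((k : ℝ) - 2) ≤ w →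
    tm μ u {U | 2 * δ < |u U|} ≤ (5 * tm μ u Sᶜ + tl k r w) / δ ∧
      μ.real {U | 2 * δ < |u U|} ≤ (5 * tm μ u Sᶜ + tl k r w) / δ

/-- transfer of covariance bounds between comparable channels -/
def TrfL : Prop := ∀ (ι : Type) [Fintype ι] (μ ν : Measure (ι → ℝ)) (R s K k q a p : ℝ),
  IsProbabilityMeasure μ → IsProbabilityMeasure ν → (∀ᵐ x ∂μ, x ⬝ᵥ x ≤ R) → (∀ᵐ x ∂ν, x ⬝ᵥ x ≤ R) →
    0 < s → 0 < K → 1 ≤ k → k ≤ 2 → 0 < q → q ≤ 1 / 4 → 0 ≤ a → 0 ≤ p →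
    Cmp (s + K) μ ν k (q ^ 4) → OffY s ν p (fun y => CovB (pst s ν y) a) →
    OffY s μ (5 * p + 7 * q ^ 2) fun y =>
      CovB (pst s μ y) (k ^ 4 * (1 + q) * (a + 1 / K) - 1 / K + (12 * R + 29 / K) * q)

/-- invariant measurable sets of matrices -/
def Inv (I : Set (Mx n)) : Prop :=
  MeasurableSet I ∧ ∀ W ∈ I, ∀ O : Mx n, O * Oᵀ = 1 → O * W * Oᵀ ∈ I

/-- comparison at time `t`, fixed `n` -/
def CmpN : Prop := ∀ (n : ℕ) (I : Set (Mx n)) (t s c r δ w θ l p : ℝ), 2 < n → Inv I → 0 ≤ t →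
  0 ≤ s → 0 ≤ c → 0 ≤ r → 0 < δ → δ ≤ 1 → 5 / 2 * s ≤ ((n : ℝ) - 2) / 128 →
  r * (4 * c) / 2 + 5 / 2 * s * r ^ 2 ≤ δ → 1 + 48 * (4 * c) ^ 2 / ((n : ℝ) - 2) ≤ w → 0 ≤ θ →
  0 < l → 0 < p → JP t n {z | z.1 ∈ I ∧ ¬ EG z.1 z.2 s c} ≤ ENNReal.ofReal θ →
    GOE n {W | W ∈ I ∧ l * exp (n / 4) ≤ Zc n W ∧ l * exp (n / 4) ≤ Zs n W ∧
      ¬ Cmp (tau n * t) (muW n W) (nuW n W) (exp (2 * δ)) p} ≤
      ENNReal.ofReal (2 * ((5 * θ + tl n r w) / δ) / (l * p))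

/-- the input from the joint planted theorem at the time `t n`, level `n ^ h` -/
def EIn (I : ∀ n, Set (Mx n)) (t : ℕ → ℝ) (η h : ℝ) : Prop := ∀ᶠ n : ℕ in atTop,
  JP (t n) n {z | z.1 ∈ I n ∧ ¬ EG z.1 z.2 ((n : ℝ) ^ (9 / 10 : ℝ)) ((n : ℝ) ^ ((1 - η) / 2))} ≤
    ENNReal.ofReal (exp (-(n : ℝ) ^ h))

/-- covariance bounds of the sphere at hatted times `r ≤ τ t / 2` hold on the cube -/
def Pass (n : ℕ) (W : Mx n) (t γ θ : ℝ) : Prop := ∀ r e p : ℝ, 1 ≤ r → 2 * r ≤ tau n * t → 0 ≤ e →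
  0 ≤ p → OffY r (nuW n W) p (fun y => CovB (pst r (nuW n W) y) ((1 + e) / r)) →
    Crit.CovAt (ising W 0) (r / tau n) ((1 + e) * (1 + γ) / (r / tau n)) (5 * p + θ)

/-- **the edge transfer** -/
def EdgeT : Prop := ∀ (I : ∀ n, Set (Mx n)) (t : ℕ → ℝ) (η h : ℝ), (∀ n, Inv (I n)) →
  Whp GOE (fun n W => W ∈ I n) → 0 < h → h < η → η ≤ 1 / 10 → (∀ n, t n ∈ Icc (0 : ℝ) 1) →
  EIn I t η h → Whp GOE fun n W =>
    Pass n W (t n) ((n : ℝ) ^ (-((η - h) / 4))) (exp (-((n : ℝ) ^ h / 10)))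

def CmpGlue : Prop := HaarL → OrbL → ShpL → CmpN
def EdgeGlue : Prop := CmpN → TrfL → EdgeT

end Crest.Agent.T157.Oe

end
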