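import Crest.Agent.T157.SpAll_87

/-!
# Row 157 (helper44): the posterior covariance of the spherical model at entropy levels
-/

set_option autoImplicit false

noncomputable section

namespace Crest.Agent.T157.Sp

open MeasureTheory ProbabilityTheory Matrix Filter Topology Finset Real
open Crest.Agent.T157.E Crest.Agent.T157.St Crest.Agent.T157.St.Sph38 Crest.Agent.T157.Ed

/-- sharp bound, failure `exp (-c e³ r^{3/2})` -/
def LevAt (n : ℕ) (μ : Measure (Fin n → ℝ)) (B K c : ℝ) : Prop := ∀ r e : ℝ, K ≤ r → r ≤ sx n ^ 2 →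
  r ^ (-(1 / 4) : ℝ) ≤ e → e ≤ 1 / 4 → OffY r μ (B * exp (-(c * e ^ 3 * (r * √r))))
    fun y => Mom (pst r μ y) ((1 + B * e) / r)
/-- crude bound, failure `exp (-M r^{3/2})` -/
def CruAt (n : ℕ) (μ : Measure (Fin n → ℝ)) (B K A M : ℝ) : Prop := ∀ r : ℝ, K ≤ r → r ≤ sx n ^ 2 →
  OffY r μ (B * exp (-(M * (r * √r)))) fun y => Mom (pst r μ y) (A / r)

namespace Lev44

open SW89

/-- cube root -/
def cr (k : ℕ) : ℝ := (k : ℝ) ^ (1 / 3 : ℝ)

lemma cr_nn (k : ℕ) : 0 ≤ cr k := rpow_nonneg (Nat.cast_nonneg k) _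
lemma cr_cube (k : ℕ) : cr k ^ 3 = k := by
  rw [cr, ← rpow_natCast, ← rpow_mul (Nat.cast_nonneg k)]; norm_num
lemma cr_sq (k : ℕ) : ((k : ℝ) + 1) ^ (2 / 3 : ℝ) = cr (k + 1) ^ 2 := by
  rw [cr, ← rpow_natCast, ← rpow_mul (Nat.cast_nonneg _)]; norm_num
lemma le_cr {k : ℕ} {x : ℝ} (h : x ^ 3 ≤ k) : x ≤ cr k :=
  le_of_pow_le_pow_left₀ three_ne_zero (cr_nn k) (by rwa [cr_cube])
lemma cr_le {k : ℕ} {x : ℝ} (hx : 0 ≤ x) (h : (k : ℝ) ≤ x ^ 3) : cr k ≤ x :=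
  le_of_pow_le_pow_left₀ three_ne_zero hx (by rwa [cr_cube])
lemma one_le_cr (k : ℕ) : 1 ≤ cr (k + 1) := le_cr (by push_cast; linarith [k.cast_nonneg (α := ℝ)])

lemma step (k : ℕ) : cr k ≤ cr (k + 1) ∧ 1 ≤ 3 * cr (k + 1) ^ 2 * (cr (k + 1) - cr k) := by
  have h1 : cr k ≤ cr (k + 1) := le_cr (by rw [cr_cube]; push_cast; linarith)
  have h2 : cr (k + 1) ^ 3 - cr k ^ 3 = 1 := by rw [cr_cube, cr_cube]; push_cast; ring
  have h3 := cr_nn k
  refine ⟨h1, ?_⟩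
  generalize cr (k + 1) = a at *
  generalize cr k = b at *
  nlinarith [mul_nonneg (sq_nonneg (a - b)) (by linarith : 0 ≤ 2 * a + b)]

lemma sum_lo (m : ℕ) : ∑ k ∈ range m, 1 / cr (k + 1) ^ 2 ≤ 3 * cr m := by
  induction m with
  | zero => simpa using cr_nn 0
  | succ m ih =>
    have h := (step m).2
    have h1 := one_le_cr m
    have : 1 / cr (m + 1) ^ 2 ≤ 3 * (cr (m + 1) - cr m) := by
      rw [div_le_iff₀ (by positivity)]; linarith
    rw [sum_range_succ]; linarith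

lemma sum_hi {m : ℕ} (hm : 1 ≤ m) (j : ℕ) :
    ∑ k ∈ Ico m (m + j), 1 / cr (k + 1) ^ 4 ≤ 3 / cr m - 3 / cr (m + j) := by
  induction j with
  | zero => simp
  | succ j ih =>
    obtain ⟨h0, h⟩ := step (m + j)
    have h2 : 1 ≤ cr (m + j) := le_cr (by rw [one_pow]; exact_mod_cast hm.trans (Nat.le_add_right _ _))
    rw [← add_assoc, sum_Ico_succ_top (Nat.le_add_right _ _)]
    generalize cr (m + j + 1) = a at *
    generalize cr (m + j) = b at *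
    have a0 : 0 < a := by linarith
    have : 1 / a ^ 4 ≤ 3 / b - 3 / a := by
      rw [div_sub_div _ _ (by positivity) a0.ne', div_le_div_iff₀ (by positivity) (by positivity)]
      have h3 : b * a ≤ a ^ 2 := by nlinarith
      nlinarith [mul_le_mul_of_nonneg_left h (sq_nonneg a)]
    linarith

lemma fin_lo (n m : ℕ) {f : ℕ → ℝ} (hf : ∀ k, 0 ≤ f k) :
    ∑ k : Fin n, (if (k : ℕ) < m then f k else 0) ≤ ∑ k ∈ range m, f k := by
  rw [Fin.sum_univ_eq_sum_range (fun k => if k < m then f k else 0) n, ← sum_filter]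
  exact sum_le_sum_of_subset_of_nonneg (fun k hk => mem_range.2 (mem_filter.1 hk).2)
    fun k _ _ => hf k

lemma fin_hi (n m : ℕ) {f : ℕ → ℝ} (hf : ∀ k, 0 ≤ f k) :
    ∑ k : Fin n, (if m ≤ (k : ℕ) then f k else 0) ≤ ∑ k ∈ Ico m (m + n), f k := by
  rw [Fin.sum_univ_eq_sum_range (fun k => if m ≤ k then f k else 0) n, ← sum_filter]
  exact sum_le_sum_of_subset_of_nonneg (fun k hk => mem_Ico.2 ⟨(mem_filter.1 hk).2, by
    have := mem_range.1 (mem_filter.1 hk).1; omega⟩) fun k _ _ => hf k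

lemma fin_mid {n m : ℕ} (h : 2 * m ≤ n) (a : ℝ) :
    ∑ k : Fin n, (if m ≤ (k : ℕ) ∧ (k : ℕ) < 2 * m then a else 0) = m * a := by
  rw [Fin.sum_univ_eq_sum_range (fun k => if m ≤ k ∧ k < 2 * m then a else 0) n, ← sum_filter,
    sum_const, nsmul_eq_mul]
  have : (range n).filter (fun k => m ≤ k ∧ k < 2 * m) = Ico m (2 * m) := by
    ext k; simp only [mem_filter, mem_range, mem_Ico]; omega
  rw [this, Nat.card_Ico]
  congr 2; omega

lemma ceil_cr {x : ℝ} (hx : 1 ≤ x) : ∃ m : ℕ, x ^ 3 ≤ m ∧ (m : ℝ) ≤ (2 * x) ^ 3 := by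
  have h1 : 1 ≤ x ^ 3 := one_le_pow₀ hx
  refine ⟨⌈x ^ 3⌉₊, Nat.le_ceil _, ?_⟩
  have := Nat.ceil_lt_add_one (by positivity : 0 ≤ x ^ 3)
  linarith

variable {n : ℕ} {η : ℕ → ℝ}

lemma off_of {μ : Measure (Fin n → ℝ)} {i j : Fin n} {w v t r B g V : ℝ} (d : Fin n → ℝ)
    (hμ : IsProbabilityMeasure μ) (hc : ∀ k, 0 < cw n η w k) (hd0 : ∀ k, 0 ≤ d k)
    (hd : ∀ k, d k ≤ cw n η v k ^ 2) (hB : 0 ≤ B) (hr : 0 ≤ r) (hg : 0 ≤ g) (hV : 0 < V)
    (hD : DomC μ (cw n η w) i j B)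
    (h1 : t - ∑ k, cw n η v k + g ≤ ∑ k ∈ (univ.erase i).erase j, d k * (r ^ 2 * cw n η w k + r))
    (h2 : ∑ k, (d k * (r ^ 2 * cw n η w k + r)) ^ 2 ≤ V) :
    OffY r μ (B * exp (-(g ^ 2 / (4 * V)))) fun y =>
      t < qm (fun k => y k / (v + η k)) (fun k : Fin n => 1 / (v + η k)) := by
  have hl : 0 ≤ g / (2 * V) := by positivity
  refine ⟨{y | ∑ k, d k * y k ^ 2 ≤ t - ∑ k, cw n η v k},
    measurableSet_le (by fun_prop) measurable_const, ?_, fun y hy => ?_⟩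
  · refine (lowStmt _ μ _ d i j B r _ _ hμ hc hd0 hB hr hl hD).trans
      (ENNReal.ofReal_le_ofReal (mul_le_mul_of_nonneg_left (exp_le_exp.2 ?_) hB))
    have h3 := mul_le_mul_of_nonneg_left h1 hl
    have h4 := mul_le_mul_of_nonneg_left h2 (sq_nonneg (g / (2 * V)))
    have h5 : -(g / (2 * V) * g) + (g / (2 * V)) ^ 2 * V = -(g ^ 2 / (4 * V)) := by
      field_simp; ring
    linarith
  · have hy' : t - ∑ k, cw n η v k < ∑ k, d k * y k ^ 2 := not_le.1 hy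
    have e0 : ∑ k, d k * y k ^ 2 ≤ ∑ k, cw n η v k ^ 2 * y k ^ 2 :=
      sum_le_sum fun k _ => mul_le_mul_of_nonneg_right (hd k) (sq_nonneg _)
    have e1 : qm (fun k => y k / (v + η k)) (fun k : Fin n => 1 / (v + η k)) =
        ∑ k, cw n η v k ^ 2 * y k ^ 2 + ∑ k, cw n η v k := by
      rw [qm, ← sum_add_distrib]
      refine sum_congr rfl fun k _ => ?_
      simp only [cw]
      ring
    linarith

lemma mom_of : ∃ C₂ : ℝ, 1 ≤ C₂ ∧ ∀ (n : ℕ) (η : ℕ → ℝ) (L t c v₀ r r' e X B : ℝ) (y : Fin n → ℝ),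
    1 ≤ n → 0 < t → 0 < c → (∀ k : Fin n, -L ≤ η k) →
    (∀ v, v₀ ≤ v → c * min (v * √v) n * (1 / (v - L)) ^ 2 ≤ ∑ k, cw n η v k ^ 2) →
    v₀ ≤ r → 4 ≤ v₀ → 0 < e → e ≤ 1 / 4 → 0 < r' → (1 - 2 * e) * r' ≤ v₀ - L → X ≤ 2 * v₀ → X ≤ n →
    C₂ ^ 2 / c ≤ X → 1 ≤ X * e ^ 4 → 10 * (C₂ ^ 2 / c + 1) + 4 ≤ B →
    t < qm (fun k => y k / (v₀ + η k)) (fun k : Fin n => 1 / (v₀ + η k)) →
    Mom (pst r (nuD n η t) y) ((1 + B * e) / r') := by
  obtain ⟨C₂, hC₂, hH⟩ := All.hardStmt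
  refine ⟨C₂, hC₂, fun n η L t c v₀ r r' e X B y hn ht hc hlo hG hr h4 he he4 hr' hz hX hXn hXc hXe
    hB hy => ?_⟩
  have : Nonempty (Fin n) := ⟨⟨0, hn⟩⟩
  have h0 : 0 < (1 - 2 * e) * r' := mul_pos (by linarith) hr'
  obtain ⟨v, hv, hq⟩ := saddle hlo (by linarith) hr ht le_rfl hy
  have hsv : 2 ≤ √v := le_sqrt_of_sq_le (by linarith)
  have hm : X ≤ min (v * √v) n := le_min (by nlinarith) hXn
  obtain ⟨a1, a2, a3, a4, a5⟩ := num (z := v - L) hC₂ hc he he4 hr' (by linarith) (hG v hv)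
    (hXc.trans hm) (hXe.trans (mul_le_mul_of_nonneg_right hm (by positivity))) le_rfl hB
  have hz : 0 < v - L := one_div_pos.1 a1
  have b1 : ∀ k : Fin n, 0 < v + η k := fun k => by have := hlo k; linarith
  have b2 : ∀ k : Fin n, 1 / (v + η k) ≤ 1 / (v - L) := fun k =>
    one_div_le_one_div_of_le hz (by have := hlo k; linarith)
  rw [pst_nuD η ht.le r v]
  exact mom_mono (momStmt _ _ _ _ _ _ (isProbabilityMeasure_tilted (integrable_sphR _ (by fun_prop)))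
    (fun k => one_div_pos.2 (b1 k)) b2 a3 a4
    (hH _ (fun k : Fin n => v + η k) y _ t a1 ht b1 b2 a2 (by rw [hq]; ring))).1 (by positivity) a5

lemma lo' {t L w C : ℝ} (h : Gd n η t L w C) (k : Fin n) : cr (k + 1) ^ 2 / 256 - L ≤ η k := by
  rw [← cr_sq]; exact h.lo k k.2

lemma lo {t L w C : ℝ} (h : Gd n η t L w C) (k : Fin n) : -L ≤ η k := by
  have := lo' h k
  have : 0 ≤ cr (k + 1) ^ 2 / 256 := by positivity
  linarith

/-- the sharp gap -/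
lemma gap_sharp {t L w C r e u g : ℝ} (h : Gd n η t L w C) (hL : 0 ≤ L) (hw : 2 * L + 1 ≤ w)
    (hr : 4 * L + 2 * w + 200 ≤ r) (he0 : 0 ≤ e) (he : e ≤ 1 / 2) (hg : 122880 ≤ g)
    (s : Finset (Fin n))
    (h1 : u + 3 * g / 4 ≤ ∑ k ∈ s, cw n η ((1 - e) * r) k ^ 2 * (r ^ 2 * cw n η w k + r)) :
    ∃ d : Fin n → ℝ, (∀ k, 0 ≤ d k) ∧ (∀ k, d k ≤ cw n η ((1 - e) * r) k ^ 2) ∧
      u + g / 2 ≤ ∑ k ∈ s, d k * (r ^ 2 * cw n η w k + r) ∧
      ∑ k, (d k * (r ^ 2 * cw n η w k + r)) ^ 2 ≤ 5120 ^ 2 * (3 / (g / 122880)) := by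
  have x1 : 1 ≤ g / 122880 := by linarith
  obtain ⟨m, m1, m2⟩ := ceil_cr x1
  have m0 : 1 ≤ m := by exact_mod_cast (one_le_pow₀ x1).trans m1
  have y1 := le_cr m1
  have y2 := cr_le (by positivity) m2
  have ha : ∀ k : Fin n, 0 ≤ cw n η ((1 - e) * r) k ^ 2 * (r ^ 2 * cw n η w k + r) ∧
      cw n η ((1 - e) * r) k ^ 2 * (r ^ 2 * cw n η w k + r) ≤ 5120 * (1 / cr (k + 1) ^ 2) :=
    fun k => by
      obtain ⟨b1, b2, -⟩ := Gap15.mode hL hw (lo h k) hr he0 he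
      have b3 := one_le_cr k
      have b4 : 1 / (w + η k) ≤ 1 / (cr (k + 1) ^ 2 / 256) :=
        one_div_le_one_div_of_le (by positivity) (by have := lo' h k; linarith)
      have b5 : 1 / (cr (k + 1) ^ 2 / 256) = 256 * (1 / cr (k + 1) ^ 2) := by field_simp
      exact ⟨b1, b2.trans (by linarith)⟩
  refine ⟨fun k => if m ≤ (k : ℕ) then cw n η ((1 - e) * r) k ^ 2 else 0, fun k => ?_, fun k => ?_,
    ?_, ?_⟩
  · dsimp only; split_ifs <;> positivity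
  · dsimp only; split_ifs; exacts [le_rfl, sq_nonneg _]
  · have f1 := fin_lo n m (f := fun k => 5120 * (1 / cr (k + 1) ^ 2)) fun k => by positivity
    rw [← mul_sum] at f1
    have f2 := sum_lo m
    have f3 : ∑ k ∈ s, (if (k : ℕ) < m then 5120 * (1 / cr (k + 1) ^ 2) else 0) ≤
        ∑ k : Fin n, (if (k : ℕ) < m then 5120 * (1 / cr (k + 1) ^ 2) else 0) :=
      sum_le_sum_of_subset_of_nonneg (subset_univ _) fun k _ _ => by split_ifs <;> positivity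
    have f4 : ∑ k ∈ s, cw n η ((1 - e) * r) k ^ 2 * (r ^ 2 * cw n η w k + r) ≤
        ∑ k ∈ s, (if m ≤ (k : ℕ) then cw n η ((1 - e) * r) k ^ 2 else 0) *
          (r ^ 2 * cw n η w k + r) +
        ∑ k ∈ s, (if (k : ℕ) < m then 5120 * (1 / cr (k + 1) ^ 2) else 0) := by
      rw [← sum_add_distrib]
      refine sum_le_sum fun k _ => ?_
      by_cases hk : m ≤ (k : ℕ)
      · rw [if_pos hk, if_neg (not_lt.2 hk), add_zero]
      · rw [if_neg hk, if_pos (not_le.1 hk), zero_mul, zero_add]; exact (ha k).2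
    linarith
  · beta_reduce
    have f1 := fin_hi n m (f := fun k => 5120 ^ 2 * (1 / cr (k + 1) ^ 4)) fun k => by positivity
    rw [← mul_sum] at f1
    have f2 := sum_hi m0 n
    have f3 : 0 ≤ 3 / cr (m + n) := div_nonneg (by norm_num) (cr_nn _)
    have f4 : 3 / cr m ≤ 3 / (g / 122880) := by gcongr
    refine le_trans (sum_le_sum fun k _ => ?_) (f1.trans (by gcongr; linarith))
    split_ifs
    · refine (pow_le_pow_left₀ (ha k).1 (ha k).2 2).trans_eq ?_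
      have := one_le_cr k
      field_simp
    · simp

/-- the crude gap -/
lemma gap_crude {t L w C s x v : ℝ} (h : Gd n η t L w C) (ht : t ^ 3 = n) (hL : 0 ≤ L) (hw : L ≤ w)
    (hs : 2 ≤ s) (hx : 1 ≤ x) (hLv : L ≤ v) (hv : v ≤ s ^ 2) (hst : 6 * (x * s) ≤ t) {i j : Fin n}
    (hi : (i : ℕ) = 0) (hj : (j : ℕ) = 1) :
    ∃ d : Fin n → ℝ, (∀ k, 0 ≤ d k) ∧ (∀ k, d k ≤ cw n η v k ^ 2) ∧
      s / (542 ^ 2 * x) ≤ ∑ k ∈ (univ.erase i).erase j, d k * ((s ^ 2) ^ 2 * cw n η w k + s ^ 2) ∧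
      ∑ k, (d k * ((s ^ 2) ^ 2 * cw n η w k + s ^ 2)) ^ 2 ≤
        8 * (256 ^ 2 * 257) ^ 2 / (x ^ 5 * s) := by
  set ρ := x * s with hρ
  have ρ1 : s ≤ ρ := le_mul_of_one_le_left (by linarith) hx
  have ρ0 : 0 < ρ := by linarith
  have ρ2 : s ^ 2 ≤ ρ ^ 2 := pow_le_pow_left₀ (by linarith) ρ1 2
  obtain ⟨m, m1, m2⟩ := ceil_cr (x := ρ) (by linarith)
  have ρ3 : (2 : ℝ) ^ 3 ≤ ρ ^ 3 := pow_le_pow_left₀ (by norm_num) (by linarith) 3
  have m0 : 2 ≤ m := by exact_mod_cast (show (2 : ℝ) ≤ m by linarith)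
  have mn : 16 * m ≤ n := by
    have : (6 * ρ) ^ 3 ≤ t ^ 3 := pow_le_pow_left₀ (by positivity) hst 3
    exact_mod_cast (show 16 * (m : ℝ) ≤ n by nlinarith)
  have ha : ∀ k : Fin n, m ≤ (k : ℕ) ∧ (k : ℕ) < 2 * m →
      s ^ 2 / (542 * ρ ^ 2) ^ 2 ≤ cw n η v k ^ 2 * ((s ^ 2) ^ 2 * cw n η w k + s ^ 2) ∧
      cw n η v k ^ 2 * ((s ^ 2) ^ 2 * cw n η w k + s ^ 2) ≤ (256 / ρ ^ 2) ^ 2 * (257 * s ^ 2) :=
    fun k hk => by
      have k1 : (m : ℝ) ≤ (k : ℕ) := by exact_mod_cast hk.1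
      have k2 : ((k : ℕ) : ℝ) + 1 ≤ 2 * m := by exact_mod_cast hk.2
      have c1 : ρ ≤ cr (k + 1) := le_cr (by push_cast; linarith)
      have c2 : cr (k + 1) ≤ 3 * ρ := cr_le (by positivity) (by push_cast; nlinarith)
      have c3 := pow_le_pow_left₀ ρ0.le c1 2
      have c4 := pow_le_pow_left₀ (cr_nn _) c2 2
      have c5 := lo' h k
      have c6 := h.hi k (by omega)
      rw [cr_sq] at c6
      have p0 : 0 < ρ ^ 2 / 256 := by positivity
      have d1 : cw n η v k ≤ 256 / ρ ^ 2 :=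
        (one_div_le_one_div_of_le p0 (by linarith)).trans_eq (by field_simp)
      have d2 : cw n η w k ≤ 256 / ρ ^ 2 :=
        (one_div_le_one_div_of_le p0 (by linarith)).trans_eq (by field_simp)
      have d3 : 1 / (542 * ρ ^ 2) ≤ cw n η v k :=
        one_div_le_one_div_of_le (by linarith) (by linarith)
      have d4 : 0 ≤ cw n η w k := one_div_nonneg.2 (by linarith)
      have d5 : 0 ≤ cw n η v k := le_trans (by positivity) d3
      have d6 : (s ^ 2) ^ 2 * cw n η w k ≤ 256 * s ^ 2 := by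
        calc _ ≤ (s ^ 2 * ρ ^ 2) * (256 / ρ ^ 2) := by rw [sq (s ^ 2)]; gcongr
          _ = _ := by field_simp
      constructor
      · calc _ = (1 / (542 * ρ ^ 2)) ^ 2 * (0 + s ^ 2) := by field_simp; ring
          _ ≤ _ := by gcongr; positivity
      · gcongr; linarith
  refine ⟨fun k => if m ≤ (k : ℕ) ∧ (k : ℕ) < 2 * m then cw n η v k ^ 2 else 0, fun k => ?_,
    fun k => ?_, ?_, ?_⟩
  · dsimp only; split_ifs <;> positivity
  · dsimp only; split_ifs; exacts [le_rfl, sq_nonneg _]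
  · beta_reduce
    rw [sum_erase _ (by rw [if_neg (by omega), zero_mul]),
      sum_erase _ (by rw [if_neg (by omega), zero_mul])]
    calc _ = ρ ^ 3 * (s ^ 2 / (542 * ρ ^ 2) ^ 2) := by rw [hρ]; field_simp
      _ ≤ m * (s ^ 2 / (542 * ρ ^ 2) ^ 2) := by gcongr
      _ = _ := (fin_mid (n := n) (by omega) _).symm
      _ ≤ _ := sum_le_sum fun k _ => by
        split_ifs with hk
        exacts [(ha k hk).1, by rw [zero_mul]]
  · beta_reduce
    calc _ ≤ ∑ k : Fin n, (if m ≤ (k : ℕ) ∧ (k : ℕ) < 2 * m then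
          ((256 / ρ ^ 2) ^ 2 * (257 * s ^ 2)) ^ 2 else 0) := sum_le_sum fun k _ => by
          split_ifs with hk
          · exact pow_le_pow_left₀ (le_trans (by positivity) (ha k hk).1) (ha k hk).2 2
          · simp
      _ = _ := fin_mid (by omega) _
      _ ≤ (2 * ρ) ^ 3 * ((256 / ρ ^ 2) ^ 2 * (257 * s ^ 2)) ^ 2 := by gcongr
      _ = _ := by rw [hρ]; field_simp; norm_num

end Lev44

open Lev44 SW89

set_option maxHeartbeats 800000 in
/-- **the spherical model at entropy levels** -/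
theorem sLev (L C : ℝ) (hL : 0 ≤ L) : ∃ w₂ : ℝ, ∀ w, w₂ ≤ w → ∃ B : ℝ, 0 < B ∧
    (∃ K c : ℝ, 1 ≤ K ∧ 0 < c ∧ ∀ᶠ n in atTop, ∀ η, Gd n η (sx n ^ 2) L w C →
      LevAt n (nuD n η (sx n ^ 2)) B K c) ∧
    ∀ M : ℝ, ∃ K A : ℝ, 1 ≤ K ∧ 0 < A ∧ ∀ᶠ n in atTop, ∀ η, Gd n η (sx n ^ 2) L w C →
      CruAt n (nuD n η (sx n ^ 2)) B K A M := by
  obtain ⟨C₂, hC₂, hM⟩ := mom_of
  obtain ⟨w₂, hw₂, hD⟩ := domStmt L C hL
  refine ⟨w₂, fun w hw => ?_⟩
  obtain ⟨B₀, hB₀, hD⟩ := hD w hw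
  have hw' := hw₂.trans hw
  obtain ⟨c, D, K, hc, hD0, hK, hG⟩ := gapStmt L C w hL hw'
  have p2 : 0 < C₂ ^ 2 / c := by positivity
  obtain ⟨B, hB⟩ : ∃ B, B = B₀ + 10 * (C₂ ^ 2 / c + 1) + 4 := ⟨_, rfl⟩
  have hP : ∀ (n : ℕ) (η : ℕ → ℝ), 2 ≤ n → IsProbabilityMeasure (nuD n η (sx n ^ 2)) :=
    fun n η hn => by
      have : Nonempty (Fin n) := ⟨⟨0, by omega⟩⟩
      exact isProbabilityMeasure_tilted (integrable_sphR _ (by fun_prop))
  refine ⟨B, by linarith, ?_, fun M => ?_⟩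
  · obtain ⟨Q, hQ⟩ : ∃ Q, Q = ((4 * D + 122880) / c) ^ 2 + (4 * L + 2 * w + 200) + K +
      C₂ ^ 2 / c := ⟨_, rfl⟩
    have p3 : 0 ≤ ((4 * D + 122880) / c) ^ 2 := sq_nonneg _
    have Q1 : 200 ≤ Q := by linarith
    refine ⟨Q ^ 2, c ^ 3 / (48 * 5120 ^ 2 * 122880), one_le_pow₀ (by linarith), by positivity, ?_⟩
    filter_upwards [hD, hG, eventually_ge_atTop 2] with n hD hG hn η hη r e hr hrt he he4
    have ht0 : 0 < sx n ^ 2 := pow_pos (sx_pos (by omega)) 2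
    have hr0 : 0 < r := lt_of_lt_of_le (by positivity) hr
    have hsQ : Q ≤ √r := le_sqrt_of_sq_le hr
    have hrr : √r ^ 2 = r := sq_sqrt hr0.le
    have h0 : 0 < r ^ (-(1 / 4) : ℝ) := rpow_pos_of_pos hr0 _
    have he0 : 0 < e := h0.trans_le he
    have h1 : 1 ≤ e ^ 2 * √r := by
      have : (r ^ (-(1 / 4) : ℝ)) ^ 2 * √r = 1 := by
        rw [sqrt_eq_rpow, ← rpow_natCast, ← rpow_mul hr0.le, ← rpow_add hr0]; norm_num
      rw [← this]; gcongr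
    obtain ⟨hG1, hG2⟩ := hG η hη
    have hG1 := (hG1 ⟨0, by omega⟩ ⟨1, by omega⟩ r e (by nlinarith) he0.le (by linarith)).1
    have htn : sx n ^ 2 ≤ n := by
      rw [← sx_cube n]; exact le_self_pow₀ (one_le_pow₀ (one_le_sx (by omega))) three_ne_zero
    generalize √r = s at *
    have s0 : 0 < s := by linarith
    have sr : s ≤ r := by nlinarith
    rw [min_eq_left (sr.trans hrt)] at hG1
    have h2 : (4 * D + 122880) / c ≤ e * s :=
      le_of_pow_le_pow_left₀ two_ne_zero (by positivity) (by nlinarith)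
    rw [div_le_iff₀ hc] at h2
    have h3 : 1 ≤ e * s := by nlinarith
    have h4 : s ≤ e * r := by nlinarith
    have h5 : e * r ≤ 1 / 4 * r := mul_le_mul_of_nonneg_right he4 hr0.le
    obtain ⟨d, d0, d1, d2, d3⟩ := gap_sharp (g := c * e * s)
      (u := sx n ^ 2 - ∑ k, cw n η ((1 - e) * r) k) hη hL hw' (by linarith) he0.le (by linarith)
      (by linarith) _ (le_trans (by linarith) hG1)
    have := off_of d (hP n η hn) (fun k => one_div_pos.2 (by have := lo hη k; linarith)) d0 d1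
      hB₀.le hr0.le (by positivity) (by positivity)
      (hD η _ ht0 hη ⟨0, by omega⟩ ⟨1, by omega⟩ rfl rfl).1 d2 d3
    refine Win34.OffY.mono this (mul_le_mul (by linarith) (le_of_eq ?_) (exp_pos _).le
      (by linarith)) fun y hy => hM n η L _ c _ r r e r B y (by omega) ht0 hc (lo hη)
        (fun v hv => hG2 v (by linarith)) (by linarith) (by linarith) he0 he4 hr0 (by linarith)
        (by linarith) (hrt.trans htn) (by linarith) ?_ (by linarith) hy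
    · rw [← hrr]; congr 1; field_simp; norm_num
    · rw [← hrr]; nlinarith
  · obtain ⟨x, hx⟩ : ∃ x, x = max 1 (M * (16 * 542 ^ 4 * (8 * (256 ^ 2 * 257) ^ 2))) := ⟨_, rfl⟩
    have x1 : 1 ≤ x := hx ▸ le_max_left _ _
    have x2 : M * (16 * 542 ^ 4 * (8 * (256 ^ 2 * 257) ^ 2)) ≤ x ^ 3 :=
      (hx ▸ le_max_right _ _ : _ ≤ x).trans (le_self_pow₀ x1 three_ne_zero)
    obtain ⟨q, hq⟩ : ∃ q, q = 1 / (2 * 542 ^ 2 * x * (|C| + 1)) := ⟨_, rfl⟩
    have C0 := abs_nonneg C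
    have q0 : 0 < q := by rw [hq]; positivity
    have q1 : q ≤ 1 := by rw [hq, div_le_one (by positivity)]; nlinarith [mul_nonneg C0 (zero_le_one.trans x1)]
    have q2 : |C| * q ≤ 1 / (2 * 542 ^ 2 * x) := by
      rw [hq, mul_one_div, div_le_div_iff₀ (by positivity) (by positivity)]; nlinarith
    obtain ⟨Q, hQ⟩ : ∃ Q, Q = w + 2 * L + K + 256 + C₂ ^ 2 / c := ⟨_, rfl⟩
    have Q1 : 256 ≤ Q := by linarith
    have q3 : q ^ 2 ≤ 1 := pow_le_one₀ q0.le q1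
    have Q2 : Q ≤ Q / q ^ 2 := le_div_self (by linarith) (by positivity) q3
    have B0 : 0 < B := by linarith
    refine ⟨Q / q ^ 2, (1 + B * (1 / 4)) / q ^ 2, by linarith, by positivity, ?_⟩
    filter_upwards [hD, hG, eventually_ge_atTop 2, tendsto_sx.eventually_ge_atTop (6 * x),
      tendsto_natCast_atTop_atTop.eventually_ge_atTop Q] with n hD hG hn hsx hnQ η hη r hr hrt
    have sx0 := sx_pos (n := n) (by omega)
    have ht0 : 0 < sx n ^ 2 := pow_pos sx0 2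
    have hr0 : 0 < r := by linarith
    have hrr : √r ^ 2 = r := sq_sqrt hr0.le
    have hs2 : 2 ≤ √r := le_sqrt_of_sq_le (by linarith)
    have hss : √r ≤ sx n := sqrt_le_iff.2 ⟨sx0.le, hrt⟩
    have hv : Q ≤ q ^ 2 * r := by rwa [div_le_iff₀' (by positivity)] at hr
    have hv2 : q ^ 2 * r ≤ r := mul_le_of_le_one_left hr0.le q3
    have hdn := hη.dn (q ^ 2 * r) (by linarith)
    rw [Sr, ← Fin.sum_univ_eq_sum_range (fun k : ℕ => 1 / (q ^ 2 * r + η k)) n,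
      sqrt_mul (sq_nonneg q), sqrt_sq q0.le] at hdn
    obtain ⟨-, hG2⟩ := hG η hη
    generalize √r = s at *
    subst hrr
    have s0 : 0 < s := by linarith
    obtain ⟨d, d0, d1, d2, d3⟩ := gap_crude (v := q ^ 2 * s ^ 2) (i := ⟨0, by omega⟩)
      (j := ⟨1, by omega⟩) hη (sx_cube n) hL (by linarith) hs2 x1 (by linarith) hv2
      (by nlinarith [mul_le_mul hsx hss s0.le sx0.le]) rfl rfl
    have u1 : C * (q * s) ≤ s / (2 * 542 ^ 2 * x) := by
      calc _ ≤ |C| * q * s := by rw [mul_assoc]; gcongr; exact le_abs_self C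
        _ ≤ 1 / (2 * 542 ^ 2 * x) * s := by gcongr
        _ = _ := by ring
    have u2 : s / (542 ^ 2 * x) = s / (2 * 542 ^ 2 * x) + s / (2 * 542 ^ 2 * x) := by
      field_simp; norm_num
    have := off_of (t := sx n ^ 2) (g := s / (2 * 542 ^ 2 * x)) d (hP n η hn)
      (fun k => one_div_pos.2 (by have := lo hη k; linarith)) d0 d1
      hB₀.le hr0.le (by positivity) (by positivity)
      (hD η _ ht0 hη ⟨0, by omega⟩ ⟨1, by omega⟩ rfl rfl).1
      (le_trans (by simp only [cw]; linarith) d2) d3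
    refine Win34.OffY.mono this (mul_le_mul (by linarith) (exp_le_exp.2 (neg_le_neg ?_))
      (exp_pos _).le (by linarith)) fun y hy => ?_
    · calc _ ≤ x ^ 3 / (16 * 542 ^ 4 * (8 * (256 ^ 2 * 257) ^ 2)) * (s ^ 2 * s) := by
            gcongr; rwa [le_div_iff₀ (by positivity)]
        _ = _ := by field_simp; norm_num
    · have := hM n η L _ c _ (s ^ 2) (q ^ 2 * s ^ 2) (1 / 4) Q B y (by omega) ht0 hc (lo hη)
        (fun v hv => hG2 v (by linarith)) hv2 (by linarith) (by norm_num) le_rfl (by positivity)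
        (by linarith) (by linarith) hnQ (by linarith) (by linarith) (by linarith) hy
      rwa [div_div]

/-- the same for the spherical law of a GOE matrix -/
theorem sLevW (ε : ℝ) (hε : 0 < ε) : ∃ B K c : ℝ, 0 < B ∧ 1 ≤ K ∧ 0 < c ∧ ∀ M : ℝ, ∃ K' A : ℝ,
    1 ≤ K' ∧ 0 < A ∧ ∀ᶠ n in atTop, GOE n {W | ¬ (W.IsHermitian ∧ LevAt n (nuW n W) B K c ∧
      CruAt n (nuW n W) B K' A M)} ≤ ENNReal.ofReal ε := by
  obtain ⟨C0, -, hG⟩ := St.All.goodStmt
  obtain ⟨L, w₁, hL0, hG⟩ := hG ε hε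
  obtain ⟨w₂, hS⟩ := sLev L C0 hL0
  obtain ⟨B, hB, ⟨K, c, hK, hc, h1⟩, h2⟩ := hS (max w₁ w₂) (le_max_right _ _)
  refine ⟨B, K, c, hB, hK, hc, fun M => ?_⟩
  obtain ⟨K', A, hK', hA, h2⟩ := h2 M
  refine ⟨K', A, hK', hA, ?_⟩
  filter_upwards [hG _ (le_max_left w₁ w₂), h1, h2, eventually_ge_atTop 1] with n g h1 h2 hn
  refine le_trans (measure_mono fun W hW => ?_) g
  rintro ⟨hH, hGd⟩
  obtain ⟨-, hcd, -, hO, -⟩ := St.All.lnkStmt n hn
  obtain ⟨O, hO, -, hnu⟩ := hO W hH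
  have := (hcd (Lam n W) (sx n ^ 2) (pow_pos (sx_pos hn) 2)).1.prob
  refine hW ⟨hH, fun r e a b c d => ?_, fun r a b => ?_⟩
  · rw [hnu]; exact Win34.OffY.map hO (h1 _ hGd r e a b c d)
  · rw [hnu]; exact Win34.OffY.map hO (h2 _ hGd r a b)

end Crest.Agent.T157.Sp

end
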