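import Crest.Agent.T157.O7Def_64
import Crest.Agent.T157.SpLev_44
import Crest.Agent.T157.OeDef_87

/-!
# Row 157, block A2, section 7 (helper44): the edge window from the transfer property
-/

set_option autoImplicit false

noncomputable section

namespace Crest.Agent.T157.O7

open MeasureTheory ProbabilityTheory Filter Set Matrix Real Topology
open Crest.Agent.T157.E Crest.Agent.T157.St Crest.Agent.T157.Ed Crest.Agent.T157.Sp
open Crest.Agent.T157.Top (Whp)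
open Crest.Agent.T157.Tr (Off)
open Crest.Agent.T157.Crit (CovLe CovAt)
open Crest.Agent.T157.Soft (N23)

/-- covariance bounds pass from the sphere to the cube at hatted times `≤ R` -/
def PassL (n : ℕ) (W : Mat n) (R ga th : ℝ) : Prop := ∀ r e p : ℝ, 1 ≤ r → r ≤ R → 0 ≤ e → 0 ≤ p →
  OffY r (nuW n W) p (fun y => CovB (pst r (nuW n W) y) ((1 + e) / r)) →
  CovAt (ising W 0) (r / tau n) ((1 + e) * (1 + ga) / (r / tau n)) (5 * p + th)

namespace G44

theorem covB_of_mom {ι : Type} [Fintype ι] {μ : Measure (ι → ℝ)} {a : ℝ} (h : Mom μ a) :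
    CovB μ a := by
  obtain ⟨_, m, h⟩ := h
  intro v
  obtain ⟨h4, h2, -⟩ := h v
  have hc : Continuous fun x : ι → ℝ => v ⬝ᵥ (x - m) := by fun_prop
  have hl : MemLp (fun x : ι → ℝ => v ⬝ᵥ (x - m)) 2 μ := by
    rw [memLp_two_iff_integrable_sq hc.aestronglyMeasurable]
    refine ((integrable_const 1).add h4).mono' (hc.pow 2).aestronglyMeasurable
      (.of_forall fun x => ?_)
    rw [Real.norm_eq_abs, abs_of_nonneg (sq_nonneg _), Pi.add_apply]
    nlinarith [sq_nonneg ((v ⬝ᵥ (x - m)) ^ 2 - 1), sq_nonneg (v ⬝ᵥ (x - m))]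
  have e : (fun x : ι → ℝ => v ⬝ᵥ x) = fun x => v ⬝ᵥ (x - m) + v ⬝ᵥ m := by
    funext x; rw [dotProduct_sub]; ring
  rw [e, variance_add_const hc.aestronglyMeasurable]
  exact ⟨hl.add (memLp_const _), (variance_le_expectation_sq hc.aestronglyMeasurable).trans h2⟩

variable {n : ℕ} {W : Mat n}

lemma covAt_mono {r K K' p p' : ℝ} (h : CovAt (ising W 0) r K p) (hK : K ≤ K') (hp : p ≤ p') :
    CovAt (ising W 0) r K' p' :=
  le_trans (Q1.covAt_mono (SL.Wt.of_pos fun _ => exp_pos _) h hK) hp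

lemma Mt_eq (hn : 1 ≤ n) {r : ℝ} (hr : 0 ≤ r) : Mt n r = N23 n * r * √(N23 n * r) := by
  have h0 : (0 : ℝ) < n := by exact_mod_cast hn
  have h1 : ∀ x : ℝ, 0 ≤ x → x * √x = x ^ (3 / 2 : ℝ) := fun x hx => by
    rw [sqrt_eq_rpow, show (3 / 2 : ℝ) = 1 + 1 / 2 by norm_num, rpow_add' hx (by norm_num), rpow_one]
  rw [h1 _ (by positivity), mul_rpow (by positivity) hr, ← rpow_mul h0.le, Mt]
  norm_num

lemma core (hn : 1 ≤ n) {d ga th s0 r e p k q a : ℝ} (h : PassL n W ((n : ℝ) ^ d) ga th)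
    (hs : 1 ≤ s0) (hr : r ∈ Icc (s0 / N23 n) (lo d n)) (he : 0 ≤ e) (hp : 0 ≤ p)
    (ho : s0 ≤ N23 n * r → N23 n * r ≤ (n : ℝ) ^ d → OffY (N23 n * r) (nuW n W) p
      (fun y => Mom (pst (N23 n * r) (nuW n W) y) (a / (N23 n * r))))
    (ha : a ≤ 1 + e) (hk : (1 + e) * (1 + ga) ≤ k) (hq : 5 * p + th ≤ q) :
    CovAt (ising W 0) r (k / r) q := by
  have N0 : 0 < N23 n := Soft.N23_pos hn
  have h1 : s0 ≤ N23 n * r := (div_le_iff₀' N0).1 hr.1
  have h2 : N23 n * r ≤ (n : ℝ) ^ d := (le_div_iff₀' N0).1 hr.2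
  have r0 : 0 < r := lt_of_lt_of_le (by positivity) hr.1
  have := h _ e p (hs.trans h1) h2 he hp (Win34.OffY.mono (ho h1 h2) le_rfl fun y hy =>
    Win34.CovB.mono (covB_of_mom hy) (by gcongr))
  rw [show N23 n * r / tau n = r from mul_div_cancel_left₀ _ N0.ne'] at this
  exact covAt_mono this (by gcongr) hq

lemma tail {a b : ℝ} (C : ℝ) (hab : a < b) (hb : 0 < b) :
    ∀ᶠ n : ℕ in atTop, C * (n : ℝ) ^ a + 1 ≤ (n : ℝ) ^ b / 10 := by
  have h1 := ((tendsto_rpow_atTop (sub_pos.2 hab)).comp tendsto_natCast_atTop_atTop).eventually_ge_atTop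
    (20 * |C|)
  have h2 := ((tendsto_rpow_atTop hb).comp tendsto_natCast_atTop_atTop).eventually_ge_atTop 20
  filter_upwards [h1, h2, eventually_gt_atTop 0] with n h1 h2 hn
  have h0 : (0 : ℝ) < n := by exact_mod_cast hn
  have h3 : (n : ℝ) ^ b = (n : ℝ) ^ (b - a) * (n : ℝ) ^ a := by rw [← rpow_add h0, sub_add_cancel]
  have h4 : 0 < (n : ℝ) ^ a := by positivity
  simp only [Function.comp] at h1 h2
  nlinarith [mul_le_mul_of_nonneg_right h1 h4.le, mul_le_mul_of_nonneg_right (le_abs_self C) h4.le]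

/-- the two failure probabilities together -/
lemma sum_le {B x y H : ℝ} (hB : 0 < B) (hx : H + 10 * B ≤ x) (hy : H + 1 ≤ y) :
    5 * (B * exp (-x)) + exp (-y) ≤ exp (-H) := by
  have h1 : exp (-x) ≤ exp (-H) * exp (-(10 * B)) := by rw [← exp_add]; gcongr; linarith
  have h2 : exp (-y) ≤ exp (-H) * exp (-1) := by rw [← exp_add]; gcongr; linarith
  have h3 : 10 * B * exp (-(10 * B)) ≤ 1 := by
    rw [exp_neg, mul_inv_le_iff₀ (exp_pos _)]; linarith [add_one_le_exp (10 * B)]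
  have h4 : 2 * exp (-1) ≤ 1 := by
    rw [exp_neg, mul_inv_le_iff₀ (exp_pos _)]; linarith [add_one_le_exp (1 : ℝ)]
  have h5 := exp_pos (-H)
  nlinarith [mul_le_mul_of_nonneg_left h1 hB.le, mul_le_mul_of_nonneg_left h3 h5.le,
    mul_le_mul_of_nonneg_left h4 h5.le]

lemma sizes {d : ℝ} (hd : d ≤ 1 / 3) (hn : 1 ≤ n) {x : ℝ} (h1 : 1 ≤ x) (hx : x ≤ (n : ℝ) ^ d) :
    x ≤ sx n ^ 2 ∧ x * √x ≤ (n : ℝ) ^ (3 / 2 * d) ∧ x ≤ x * √x := by
  have h0 : (1 : ℝ) ≤ n := by exact_mod_cast hn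
  refine ⟨hx.trans ?_, ?_, le_mul_of_one_le_right (by linarith) (one_le_sqrt.2 h1)⟩
  · rw [sx_pow]; exact rpow_le_rpow_of_exponent_le h0 (by push_cast; linarith)
  · rw [show 3 / 2 * d = d + d * (1 / 2) by ring, rpow_add (by linarith), rpow_mul (by linarith),
      ← sqrt_eq_rpow]
    gcongr

end G44

open G44

variable {d γ h : ℝ}

theorem e0_of (hd : 0 < d) (hd' : d ≤ 1 / 3) (hγ : 0 < γ) (hh : 3 / 2 * d < h)
    (H : Whp GOE fun n W => PassL n W ((n : ℝ) ^ d) ((n : ℝ) ^ (-γ)) (exp (-((n : ℝ) ^ h / 10)))) :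
    E0 d := fun ε hε L => by
  obtain ⟨B, _, _, hB, -, -, S⟩ := sLevW (ε / 2) (half_pos hε)
  obtain ⟨K, A, hK, hA, S⟩ := S (|L| + 1)
  refine ⟨2 * max A 1, max K (10 * B), ?_⟩
  have := Tr.Off.and (show Off GOE (ε / 2) _ from S) (Tr.off_of_whp H (half_pos hε))
    (half_pos hε).le (half_pos hε).le
  rw [add_halves] at this
  refine this.mono ?_
  filter_upwards [eventually_ge_atTop 1, tail |L| hh (by linarith)] with n hn t W ⟨⟨_, _, h1⟩, h2⟩
    r hr
  have N0 : 0 < N23 n := Soft.N23_pos hn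
  have s1 : 1 ≤ max K (10 * B) := le_max_of_le_left hK
  have x0 : max K (10 * B) ≤ N23 n * r := (div_le_iff₀' N0).1 hr.1
  obtain ⟨a1, a2, a3⟩ := sizes hd' hn (s1.trans x0) ((le_div_iff₀' N0).1 hr.2)
  have r0 : 0 ≤ r := le_trans (by positivity) hr.1
  have g1 : (n : ℝ) ^ (-γ) ≤ 1 :=
    rpow_le_one_of_one_le_of_nonpos (by exact_mod_cast hn) (by linarith)
  have m1 := le_max_right A 1
  refine core hn h2 s1 hr (e := max A 1 - 1) (by linarith) (by positivity)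
    (fun b _ => h1 _ (le_of_max_le_left b) a1) (by linarith [le_max_left A 1]) (by nlinarith) ?_
  beta_reduce
  rw [Mt_eq hn r0]
  have x1 := le_of_max_le_right x0
  generalize N23 n * r * √(N23 n * r) = y at *
  have y0 : 0 ≤ y := by linarith
  have b1 := mul_le_mul_of_nonneg_right (le_abs_self L) y0
  exact sum_le hB (by linarith) (by linarith [mul_le_mul_of_nonneg_left a2 (abs_nonneg L)])

theorem e1_of (hd : 0 < d) (hd' : d ≤ 1 / 3) (hγ : 0 < γ) (hh : 3 / 2 * d < h)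
    (H : Whp GOE fun n W => PassL n W ((n : ℝ) ^ d) ((n : ℝ) ^ (-γ)) (exp (-((n : ℝ) ^ h / 10)))) :
    E1 d := fun ε hε e he => by
  obtain ⟨B, K, c, hB, hK, hc, S⟩ := sLevW (ε / 2) (half_pos hε)
  obtain ⟨_, _, -, -, S⟩ := S 0
  obtain ⟨u, hu⟩ : ∃ u, u = min (1 / 4) (e / 3 / B) := ⟨_, rfl⟩
  have u0 : 0 < u := hu ▸ lt_min (by norm_num) (by positivity)
  have u1 : u ≤ 1 / 4 := hu ▸ min_le_left _ _
  have u2 : B * u ≤ e / 3 := (le_div_iff₀' hB).1 (hu ▸ min_le_right _ _)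
  refine ⟨c * u ^ 3 / 2, by positivity, K + (u⁻¹) ^ 4 + 10 * B / (c * u ^ 3 / 2), ?_⟩
  have := Tr.Off.and (show Off GOE (ε / 2) _ from S) (Tr.off_of_whp H (half_pos hε))
    (half_pos hε).le (half_pos hε).le
  rw [add_halves] at this
  refine this.mono ?_
  filter_upwards [eventually_ge_atTop 1, tail (c * u ^ 3 / 2) hh (by linarith),
    ((tendsto_rpow_neg_atTop hγ).comp tendsto_natCast_atTop_atTop).eventually_le_const
      (lt_min one_pos (by positivity : 0 < e / 3))] with n hn t g W ⟨⟨_, h1, _⟩, h2⟩ r hr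
  have N0 : 0 < N23 n := Soft.N23_pos hn
  have p1 : 0 < (u⁻¹) ^ 4 := by positivity
  have p2 : 0 < 10 * B / (c * u ^ 3 / 2) := by positivity
  have x0 := (div_le_iff₀' N0).1 hr.1
  obtain ⟨a1, a2, a3⟩ := sizes hd' hn (x := N23 n * r) (by linarith) ((le_div_iff₀' N0).1 hr.2)
  have r0 : 0 ≤ r := le_trans (by positivity) hr.1
  have g1 : (n : ℝ) ^ (-γ) ≤ 1 := g.trans (min_le_left _ _)
  have g2 : (n : ℝ) ^ (-γ) ≤ e / 3 := g.trans (min_le_right _ _)
  have g0 : 0 ≤ (n : ℝ) ^ (-γ) := by positivity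
  have b0 : (N23 n * r) ^ (-(1 / 4) : ℝ) ≤ u := by
    refine (rpow_le_rpow_of_nonpos p1 (by linarith) (by norm_num)).trans_eq ?_
    rw [← rpow_natCast, ← rpow_mul (by positivity), inv_rpow u0.le, ← rpow_neg u0.le]
    norm_num
  refine core hn h2 (by linarith) hr (e := e / 3) (by positivity) (by positivity)
    (fun _ _ => h1 _ u (by linarith) a1 b0 u1) (by linarith) (by nlinarith) ?_
  beta_reduce
  rw [Mt_eq hn r0]
  generalize N23 n * r * √(N23 n * r) = y at *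
  have b1 : 10 * B ≤ c * u ^ 3 / 2 * y := (div_le_iff₀' (by positivity)).1 (by linarith)
  exact sum_le hB (by linarith)
    (by linarith [mul_le_mul_of_nonneg_left a2 (by positivity : 0 ≤ c * u ^ 3 / 2)])

theorem e2_of (hd : 0 < d) (hd' : d ≤ 1 / 3) (hγ : 0 < γ) (hh : 3 / 2 * d < h)
    (H : Whp GOE fun n W => PassL n W ((n : ℝ) ^ d) ((n : ℝ) ^ (-γ)) (exp (-((n : ℝ) ^ h / 10)))) :
    E2 d := fun ε hε => by
  obtain ⟨B, K, c, hB, hK, hc, S⟩ := sLevW (ε / 2) (half_pos hε)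
  obtain ⟨_, _, -, -, S⟩ := S 0
  obtain ⟨a, ha⟩ : ∃ a, a = min (1 / 4) (γ / d) := ⟨_, rfl⟩
  have a0 : 0 < a := ha ▸ lt_min (by norm_num) (by positivity)
  have a4 : a ≤ 1 / 4 := ha ▸ min_le_left _ _
  have a5 : d * a ≤ γ := (le_div_iff₀' hd).1 (ha ▸ min_le_right _ _)
  refine ⟨a, a0, 2 * B + 1, K + (4 + (1 + 10 * B) / c) ^ 4, ?_⟩
  have := Tr.Off.and (show Off GOE (ε / 2) _ from S) (Tr.off_of_whp H (half_pos hε))
    (half_pos hε).le (half_pos hε).le
  rw [add_halves] at this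
  refine this.mono ?_
  filter_upwards [eventually_ge_atTop 1, tail 1 hh (by linarith)] with n hn t W ⟨⟨_, h1, _⟩, h2⟩ r hr
  have N0 : 0 < N23 n := Soft.N23_pos hn
  have n1 : (1 : ℝ) ≤ n := by exact_mod_cast hn
  have p1 : 0 < (1 + 10 * B) / c := by positivity
  have p2 : 0 < (4 + (1 + 10 * B) / c) ^ 4 := by positivity
  have x0 := (div_le_iff₀' N0).1 hr.1
  have x1 : N23 n * r ≤ (n : ℝ) ^ d := (le_div_iff₀' N0).1 hr.2
  obtain ⟨a1, a2, a3⟩ := sizes hd' hn (x := N23 n * r) (by linarith) x1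
  have key := fun (e p k q a : ℝ) => core (r := r) (e := e) (p := p) (k := k) (q := q) (a := a) hn h2
    (by linarith : 1 ≤ K + (4 + (1 + 10 * B) / c) ^ 4) hr
  beta_reduce
  generalize N23 n * r = x at *
  have x2 : 1 ≤ x := by linarith
  have x3 : 0 < x := by linarith
  obtain ⟨u, hu⟩ : ∃ u, u = x ^ (1 / 4 : ℝ) := ⟨_, rfl⟩
  have u0 : 0 < u := hu ▸ rpow_pos_of_pos x3 _
  have u4 : u ^ 4 = x := by rw [hu, ← rpow_natCast, ← rpow_mul x3.le]; norm_num
  have u1 : x ^ (-(1 / 4) : ℝ) = u⁻¹ := by rw [hu, rpow_neg x3.le]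
  have u2 : √x = u ^ 2 := by rw [← u4, show u ^ 4 = (u ^ 2) ^ 2 by ring, sqrt_sq (sq_nonneg u)]
  have u3 : 4 + (1 + 10 * B) / c ≤ u :=
    le_of_pow_le_pow_left₀ four_ne_zero u0.le (by linarith)
  have u5 : u⁻¹ ≤ 1 / 4 := by rw [one_div]; exact inv_anti₀ (by norm_num) (by linarith)
  have b1 : u⁻¹ ≤ x ^ (-a) := u1 ▸ rpow_le_rpow_of_exponent_le x2 (by linarith)
  have b2 : (n : ℝ) ^ (-γ) ≤ x ^ (-a) := by
    refine le_trans ?_ (rpow_le_rpow_of_nonpos x3 x1 (by linarith))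
    rw [← rpow_mul (by linarith)]
    exact rpow_le_rpow_of_exponent_le n1 (by linarith)
  have b3 : x ^ (-a) ≤ 1 := rpow_le_one_of_one_le_of_nonpos x2 (by linarith)
  have b4 : x ^ a ≤ u := hu ▸ rpow_le_rpow_of_exponent_le x2 a4
  have b5 : x ^ a ≤ x := (rpow_le_rpow_of_exponent_le x2 (by linarith)).trans_eq (rpow_one x)
  have g0 : 0 ≤ (n : ℝ) ^ (-γ) := by positivity
  refine key (B * u⁻¹) _ _ _ _ (by positivity) (by positivity)
    (fun _ _ => h1 _ u⁻¹ (by linarith) a1 u1.le u5) le_rfl ?_ (sum_le hB ?_ (by linarith))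
  · have c1 := mul_le_mul_of_nonneg_left b1 hB.le
    have c2 : B * u⁻¹ * (n : ℝ) ^ (-γ) ≤ B * x ^ (-a) * 1 := by gcongr; exact b2.trans b3
    linarith
  · have c1 : 1 + 10 * B ≤ c * u := (div_le_iff₀' hc).1 (by linarith)
    have c2 : c * u⁻¹ ^ 3 * (x * √x) = c * u * u ^ 2 := by rw [u2, ← u4]; field_simp
    have c3 : u ≤ u ^ 2 := by nlinarith
    rw [c2]
    nlinarith [mul_le_mul_of_nonneg_right c1 (sq_nonneg u)]

/-- **the edge window from the transfer property** -/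
theorem edge_of (hd : 0 < d) (hd' : d ≤ 1 / 3) (hγ : 0 < γ) (hh : 3 / 2 * d < h)
    (H : Whp GOE fun n W => PassL n W ((n : ℝ) ^ d) ((n : ℝ) ^ (-γ)) (exp (-((n : ℝ) ^ h / 10)))) :
    Edge := ⟨d, hd, e0_of hd hd' hγ hh H, e1_of hd hd' hγ hh H, e2_of hd hd' hγ hh H⟩

/-- the edge window from the edge transfer at any time `t n ≥ 2 n ^ d / τ` -/
theorem edge_of_T (T : Oe.EdgeT) {I : ∀ n, Set (Mat n)} {t : ℕ → ℝ} {η : ℝ} (hI : ∀ n, Oe.Inv (I n))
    (hW : Whp GOE fun n W => W ∈ I n) (hd : 0 < d) (hh : 0 < h) (hη : h < η) (h1 : η ≤ 1 / 10)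
    (ht : ∀ n, t n ∈ Icc (0 : ℝ) 1) (ht' : ∀ᶠ n : ℕ in atTop, 2 * (n : ℝ) ^ d ≤ tau n * t n)
    (E : Oe.EIn I t η h) : Edge := by
  have m1 := min_le_left d (h / 2)
  have m2 := min_le_right d (h / 2)
  refine edge_of (d := min d (h / 2)) (γ := (η - h) / 4) (h := h) (lt_min hd (half_pos hh))
    (by linarith) (by linarith) (by linarith) ((T I t η h hI hW hh hη h1 ht E).mono ?_)
  filter_upwards [ht', eventually_ge_atTop 1] with n a hn W H r e p r1 r2
  have := rpow_le_rpow_of_exponent_le (by exact_mod_cast hn : (1 : ℝ) ≤ n) m1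
  exact H r e p r1 (by linarith)

/-- **the edge window from the joint theorem at the time `lo D n`** -/
theorem edge_of_lo (T : Oe.EdgeT) {I : ∀ n, Set (Mat n)} {D η : ℝ} (hI : ∀ n, Oe.Inv (I n))
    (hW : Whp GOE fun n W => W ∈ I n) (hD : 0 < D) (hD' : D ≤ 2 / 3) (hh : 0 < h) (hη : h < η)
    (h1 : η ≤ 1 / 10) (E : Oe.EIn I (lo D) η h) : Edge := by
  refine edge_of_T T hI hW (half_pos hD) hh hη h1 (fun n => ⟨by unfold lo N23; positivity, ?_⟩) ?_ E
  · rcases Nat.eq_zero_or_pos n with rfl | hn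
    · simp [lo, N23]
    · exact (div_le_one (Soft.N23_pos hn)).2
        (rpow_le_rpow_of_exponent_le (by exact_mod_cast hn) hD')
  · filter_upwards [eventually_ge_atTop 1, tail 20 (half_lt_self hD) hD] with n hn a
    have : tau n * lo D n = (n : ℝ) ^ D := mul_div_cancel₀ _ (Soft.N23_pos hn).ne'
    have h0 : 0 ≤ (n : ℝ) ^ (D / 2) := by positivity
    rw [this]
    linarith

end Crest.Agent.T157.O7

end
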