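import Crest.Agent.T157.O0Def_21
import Crest.Agent.T157.OeG_44
import Crest.Agent.T157.OeEd_87

/-!
# Row 157, block A2 (helper87): the edge window from the joint planted theorem
-/

set_option autoImplicit false

noncomputable section

namespace Crest.Agent.T157.O0

open MeasureTheory Matrix Filter Topology Set Real
open Crest.Agent.T157.E Crest.Agent.T157.Ks
open Crest.Agent.T157.Tap (Mx V GOE)
open Crest.Agent.T157.Oa (AQ Az fld_ising)
open Crest.Agent.T157.Oe.Ed87 (ev_pow)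

/-- fix all the constants -/
theorem exists_fix {Q : Pm → Prop} (h : ∀ᶠ p in FF, Q p) :
    ∃ q : Pm, ∀ᶠ n in atTop, Q { q with n := n } := by
  have h1 := ev_iff.1 h
  unfold Ev at h1
  iterate 20 obtain ⟨_, h1⟩ := h1.exists
  exact ⟨⟨_, _, _, _, _, _, _, _, _, _, _, _, _, _, _, _, _, _, _, _, 0⟩, h1⟩

namespace E87

variable {n : ℕ}

theorem dg_lo {W : Mx n} {a : V n} (h : Dq.Dg W a) {c : ℝ} (ha : ∀ i, c ≤ a i) (v : V n) :
    c * (v ⬝ᵥ v) ≤ v ⬝ᵥ W *ᵥ v := by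
  obtain ⟨O, hO, rfl⟩ := h
  have e1 : v ⬝ᵥ v = (Oᵀ *ᵥ v) ⬝ᵥ (Oᵀ *ᵥ v) := by
    rw [dotProduct_mulVec, vecMul_transpose, mulVec_mulVec, hO, one_mulVec]
  rw [e1, ← mulVec_mulVec, ← mulVec_mulVec, dotProduct_mulVec v, ← mulVec_transpose]
  simp only [dotProduct, mulVec_diagonal, Finset.mul_sum]
  exact Finset.sum_le_sum fun i _ => by nlinarith [ha i, mul_self_nonneg ((Oᵀ *ᵥ v) i)]

theorem eg_of {c : Oo.Cs} {ζ r μ t e κ s c' : ℝ} {W : Mx n} {y : V n} (hW : Cw.WW t e κ W)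
    (h : AQ c ζ r μ W (ising W y)) (hζ : 0 ≤ ζ) (h1 : c.k1 + μ ≤ s) (h2 : c.a1 ≤ c' ^ 2)
    (h3 : r * μ ≤ c' ^ 2) : Oe.EG W y s c' := by
  obtain ⟨a, hd, ha, -⟩ := hW
  have h4 := h.apt 2 ⟨le_rfl, by linarith⟩
  have d0 : ∀ v : V n, 0 ≤ v ⬝ᵥ v := fun v => Finset.sum_nonneg fun i _ => mul_self_nonneg _
  refine ⟨hd.symm, fun v => by linarith [dg_lo hd (fun i => (ha i).1) v], fun v => ?_,
    h4.a1.trans h2, ?_⟩
  · have b1 : v ⬝ᵥ covM (ising W y) *ᵥ v ≤ c.k1 * (v ⬝ᵥ v) := h4.k1 v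
    have b2 := Oe.Trf87.dot_sq h.msq v
    rw [dotProduct_comm v (meanV _ _)] at b2
    have b3 := mul_le_mul_of_nonneg_right h1 (d0 v)
    unfold mag
    linarith
  · have b1 := h.res
    rw [fld_ising] at b1
    exact (mul_le_mul b1 h.msq (d0 _) ((d0 _).trans b1)).trans h3

end E87

open E87 in
/-- **the edge window from the joint planted theorem** -/
theorem edge_of_thm (hW : WStmt) (hP : WhpStmt) (hT : Thm) : O7.Edge := by
  obtain ⟨q, hq⟩ := exists_fix (hT.and ev_ok)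
  obtain ⟨_, -, ok⟩ := hq.exists
  have c0 : 0 < q.ch := ok.ch.1
  have c1 : q.ch ≤ 1 / 1000 := ok.ch.2
  have d0 : 0 < q.d := ok.d.1
  have d1 : q.d ≤ q.ch / 100 := ok.d.2
  have k0 : 0 < q.k4 := ok.k4.1
  have k1 : q.k4 ≤ q.d / 100 := ok.k4.2
  have L1 : 100 ≤ q.L := ok.L
  have f0 : 0 < q.ef := ok.ef
  have t0 : 0 < q.t0 := ok.t0.1
  have B0 : q.B ≤ q.B0 := ok.B0
  have B1 : 1 ≤ q.B := ok.K.trans ok.B
  have e0 : 0 < q.e1 ^ q.A := pow_pos ok.e1.1 _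
  have t2 : 0 < q.t2 := rpow_pos_of_pos (div_pos f0 (by linarith)) _
  have lo0 : ∀ n : ℕ, n ≠ 0 → 0 < O7.lo q.d n := fun n hn =>
    div_pos (rpow_pos_of_pos (by positivity) _) (rpow_pos_of_pos (by positivity) _)
  have lo1 : ∀ n : ℕ, 1 ≤ n → O7.lo q.d n = (n : ℝ) ^ (q.d - 2 / 3) := fun n hn =>
    (rpow_sub (by exact_mod_cast hn) _ _).symm
  have sm : ∀ {a b : ℝ}, 0 < a → 0 < b → ∀ᶠ n : ℕ in atTop, (n : ℝ) ^ (-a) ≤ b := fun ha hb =>
    ((tendsto_rpow_neg_atTop ha).comp tendsto_natCast_atTop_atTop).eventually (ge_mem_nhds hb)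
  have lo2 : ∀ {b : ℝ}, 0 < b → ∀ᶠ n : ℕ in atTop, O7.lo q.d n ≤ b := fun hb => by
    filter_upwards [sm (a := 2 / 3 - q.d) (by linarith) hb, eventually_ge_atTop 1] with n h hn
    rwa [lo1 n hn, ← neg_sub]
  refine O7.edge_of_lo Oe.edgeT (I := fun n => {W | n ≠ 0 →
    Cw.WW (min (O7.lo q.d n) q.t2) (q.e1 ^ q.A) q.k3 W}) (D := q.d) (h := q.d) (η := q.ch / 4)
    (fun n => ?_) ?_ d0 (by linarith) d0 (by linarith) (by linarith) ?_
  · by_cases hn : n = 0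
    · exact ⟨by simp [hn], fun _ _ _ _ h => absurd hn h⟩
    · obtain ⟨h1, h2, -⟩ := hW n q.k3 _ _ e0 (lt_min (lo0 n hn) t2)
      exact ⟨by simpa [hn] using h1, fun W h O hO _ => h2 O W hO (h hn)⟩
  · refine (hP q.k3 ok.k3.1 q.d ⟨d0, by linarith⟩).mono ?_
    filter_upwards [sm (half_pos d0) e0, lo2 t2] with n h1 h2 W h hn
    exact (hW n q.k3 _ _ (rpow_pos_of_pos (by positivity) _) (lo0 n hn)).2.2 _ _ h1
      (le_min le_rfl h2) W h
  filter_upwards [hq, eventually_ge_atTop 1, lo2 t0, ev_pow (a := q.ch / 12) (by linarith) q.B0,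
    ev_pow (a := 1 / 50) (by norm_num) (2 * q.B0), sm (a := 1 - q.d) (by linarith) f0]
    with n h n1 a1 a2 a3 a4
  have N1 : (1 : ℝ) ≤ n := by exact_mod_cast n1
  have N0 : (0 : ℝ) < n := by linarith
  have l0 := lo0 n (by omega)
  have l1 := lo1 n n1
  have mo : ∀ {a b : ℝ}, a ≤ b → (n : ℝ) ^ a ≤ (n : ℝ) ^ b := rpow_le_rpow_of_exponent_le N1
  have pw : ∀ a : ℝ, (n : ℝ) * (n : ℝ) ^ a = (n : ℝ) ^ (1 + a) := fun a => by
    rw [rpow_add N0, rpow_one]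
  set p : Pm := { q with n := n } with hp
  have h1 := (h.1 (O7.lo q.d n) ⟨le_rfl, a1⟩).1
  have b0 : 0 ≤ p.Bt (O7.lo q.d n) ∧ p.Bt (O7.lo q.d n) ≤ q.B0 := by
    unfold Pm.Bt; split_ifs
    · exact ⟨zero_le_one.trans B1, B0⟩
    · exact ⟨zero_le_one.trans (B1.trans B0), le_rfl⟩
  set B := p.Bt (O7.lo q.d n) with hB
  have s1 : (n : ℝ) * √(O7.lo q.d n) ≤ (n : ℝ) ^ (67 / 100 : ℝ) := by
    rw [l1, sqrt_eq_rpow, ← rpow_mul N0.le, pw]; exact mo (by linarith)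
  have s2 : 1 / O7.lo q.d n ≤ (n : ℝ) ^ (67 / 100 : ℝ) := by
    rw [l1, one_div, ← rpow_neg N0.le]; exact mo (by linarith)
  have s3 : p.M (max (O7.lo q.d n) p.ts) ≤ (n : ℝ) ^ (27 / 100 : ℝ) := by
    have : max (O7.lo q.d n) p.ts = (n : ℝ) ^ (q.k4 - 1 / 2) :=
      max_eq_right (by rw [l1]; exact mo (by linarith))
    rw [this, Pm.M, ← rpow_mul N0.le, pw]; exact mo (by linarith)
  have s4 : (n : ℝ) * p.al (O7.lo q.d n) ≤ (n : ℝ) ^ (1 - q.ch / 3) := by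
    have : max (O7.lo q.d n) p.tss = (n : ℝ) ^ (-q.ch) :=
      max_eq_right (by rw [l1]; exact mo (by linarith))
    rw [Pm.al, this, ← rpow_mul N0.le, pw]; exact mo (by linarith)
  have s5 : ((n : ℝ) ^ ((1 - q.ch / 4) / 2)) ^ 2 = (n : ℝ) ^ (1 - q.ch / 4) := by
    rw [← rpow_mul_natCast N0.le]; norm_num
  have g0 : ∀ a : ℝ, 0 ≤ (n : ℝ) ^ a := fun a => (rpow_pos_of_pos N0 a).le
  have u1 : 2 * B ≤ (n : ℝ) ^ (1 / 50 : ℝ) := by linarith [b0.2]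
  refine le_trans (measure_mono fun z hz => ?_) (h1.trans (ENNReal.ofReal_le_ofReal
    (exp_le_exp.2 (neg_le_neg (le_min ?_ ?_)))))
  · have hz1 := hz.1 (by omega)
    refine ⟨hz1, fun hA => hz.2 (eg_of hz1 hA.1 (by positivity) ?_ ?_ ?_)⟩
    · calc B / O7.lo q.d n + B * n * √(O7.lo q.d n)
          = B * (1 / O7.lo q.d n + n * √(O7.lo q.d n)) := by ring
        _ ≤ B * (2 * (n : ℝ) ^ (67 / 100 : ℝ)) := mul_le_mul_of_nonneg_left (by linarith) b0.1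
        _ ≤ (n : ℝ) ^ (1 / 50 : ℝ) * (n : ℝ) ^ (67 / 100 : ℝ) := by
          rw [← mul_assoc, mul_comm B]; exact mul_le_mul_of_nonneg_right u1 (g0 _)
        _ ≤ _ := by rw [← rpow_add N0]; exact mo (by norm_num)
    · calc B * n * p.al (O7.lo q.d n) ≤ (n : ℝ) ^ (q.ch / 12) * (n : ℝ) ^ (1 - q.ch / 3) := by
            rw [mul_assoc]
            exact mul_le_mul (b0.2.trans a2) s4 (mul_nonneg N0.le (rpow_nonneg
              (l0.le.trans (le_max_left _ _)) _)) (g0 _)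
        _ = _ := by rw [← rpow_add N0, s5]; congr 1; ring
    · have v1 : B ≤ (n : ℝ) ^ (1 / 50 : ℝ) := by linarith [b0.1]
      calc B * p.M (max (O7.lo q.d n) p.ts) * (B * n * √(O7.lo q.d n))
          ≤ (n : ℝ) ^ (1 / 50 : ℝ) * (n : ℝ) ^ (27 / 100 : ℝ) *
            ((n : ℝ) ^ (1 / 50 : ℝ) * (n : ℝ) ^ (67 / 100 : ℝ)) := by
            rw [mul_assoc B n]
            exact mul_le_mul (mul_le_mul v1 s3 (mul_nonneg N0.le (rpow_nonneg
              (l0.le.trans (le_max_left _ _)) _)) (g0 _)) (mul_le_mul v1 s1 (by positivity) (g0 _))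
              (mul_nonneg b0.1 (by positivity)) (by positivity)
        _ ≤ _ := by rw [← rpow_add N0, ← rpow_add N0, ← rpow_add N0, s5]; exact mo (by linarith)
  · have : (n : ℝ) ^ q.d ≤ p.M (O7.lo q.d n) := by
      rw [l1, Pm.M, ← rpow_mul N0.le, pw]; exact mo (by linarith)
    exact this.trans (le_mul_of_one_le_left ((g0 _).trans this) (by linarith))
  · have v1 := mul_le_mul_of_nonneg_right a4 N0.le
    rw [mul_comm, pw, show 1 + -(1 - q.d) = q.d by ring] at v1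
    exact v1.trans (le_mul_of_one_le_right ((g0 _).trans v1) (by linarith))

end Crest.Agent.T157.O0

end
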