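import Crest.Agent.T157.O0Def_21
import Crest.Agent.T157.LlAll_91

/-!
# Row 157, part A2 (helper58): the finest spectral event is typical (`O0.WhpStmt`)
-/

set_option autoImplicit false

noncomputable section

namespace Crest.Agent.T157.O0

open MeasureTheory Matrix Filter Topology Set Real
open Crest.Agent.T157.Tap (Mx V GOE)
open Crest.Agent.T157.Qe (zz ell)
open Crest.Agent.T157.Eig Crest.Agent.T157.Sc

namespace Whp58

lemma rt_zz {g : ℝ} (h0 : 0 < g) (h1 : g < 1) : rt (zz g) = g := by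
  have h2 : g ≤ 1 / g := by rw [le_div_iff₀ h0]; nlinarith
  have h3 : g * (1 / g) = 1 := by field_simp
  have : zz g ^ 2 - 4 = (1 / g - g) ^ 2 := by unfold zz; nlinarith
  rw [rt, this, sqrt_sq (by linarith), zz]; ring

lemma sum_eq {n : ℕ} {A : Mx n} (hA : A.IsHermitian) (f : ℝ → ℝ) :
    ∑ k ∈ Finset.range n, f (lam A k) = ∑ i, f (hA.eigenvalues i) := by
  simpa only [Fintype.card_fin] using sum_range_eq hA fun l _ => f l

lemma abs_eig {n : ℕ} {A : Mx n} (hA : A.IsHermitian) (i : Fin n) :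
    |hA.eigenvalues i| ≤ opn A := by
  have := abs_lam_le hA ((eqv (Fin n)).symm i)
  rwa [lam_fin hA, Equiv.apply_symm_apply] at this

/-- deterministic part: a norm bound and the counting function give `WW` -/
lemma ww_of {n : ℕ} {A : Mx n} {M t e κ : ℝ} (hA : A.IsHermitian) (hC : Ll.Rig.CntA A M)
    (hE : opn A ≤ 2 + e * t) (x0 : 1 / (n : ℝ) ≤ e * t) (x1 : e * t ≤ 1) (hn : 0 < n)
    (h1 : ∀ s, 2 * e * t ≤ s → 2 * M / s ≤ min (e * n * √(max s t))
      (min ((n : ℝ) ^ κ * √(n / s)) (e * √n / s ^ (3 / 4 : ℝ))))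
    (h2 : ∀ s, M * (log 68 + log n) ≤ min (e * n * max s t ^ (3 / 2 : ℝ))
      ((n : ℝ) ^ κ * √(n * t))) : Cw.WW t e κ A := by
  have n0 : (0 : ℝ) < n := by exact_mod_cast hn
  have x2 : 0 < e * t := lt_of_lt_of_le (by positivity) x0
  refine ⟨hA.eigenvalues, Dq.dg_herm hA, fun i => ?_, fun g hg hs => ?_⟩
  · have := abs_le.1 ((abs_eig hA i).trans hE)
    exact ⟨by linarith [this.1], this.2⟩
  have g0 : 0 < g := lt_of_lt_of_le (by norm_num) hg.1
  have hz : 2 + e * t < zz g := by linarith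
  have z1 : zz g ≤ 65 := by
    have : 1 / g ≤ 64 := by rw [div_le_iff₀ g0]; linarith [hg.1]
    unfold zz; linarith [hg.2]
  have r1 := hC.res hA (by linarith) hE hz
  have r2 := hC.log hA (by linarith) hE hz
  rw [rt_zz g0 hg.2] at r1 r2
  rw [sum_eq hA fun l => 1 / (zz g - l)] at r1
  rw [sum_eq hA fun l => Real.log (zz g - l)] at r2
  simp only [one_div] at r1
  refine ⟨r1.trans (le_trans ?_ (h1 _ hs)), r2.trans (le_trans ?_ (h2 (zz g - 2)))⟩
  · rw [div_le_div_iff₀ (by linarith) (by linarith)]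
    nlinarith [hC.nonneg]
  · refine mul_le_mul_of_nonneg_left ?_ hC.nonneg
    have a1 : log (zz g + (2 + e * t)) ≤ log 68 := log_le_log (by linarith) (by linarith)
    have a2 : log (1 / (n : ℝ)) ≤ log (zz g - (2 + e * t)) :=
      log_le_log (by positivity) (by linarith)
    rw [one_div, log_inv] at a2
    linarith

lemma ev_log {c : ℝ} (hc : 0 < c) : ∀ᶠ n : ℕ in atTop, log 68 + log n ≤ (n : ℝ) ^ c := by
  have h := (isLittleO_log_rpow_atTop hc).bound (show (0 : ℝ) < 1 / 2 by norm_num)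
  have h2 := (tendsto_rpow_atTop hc).eventually_ge_atTop (2 * log 68)
  filter_upwards [tendsto_natCast_atTop_atTop.eventually (h.and h2)] with n hn
  have h3 := hn.1
  rw [Real.norm_eq_abs, Real.norm_eq_abs, abs_of_nonneg (rpow_nonneg (Nat.cast_nonneg n) c)] at h3
  linarith [le_abs_self (log (n : ℝ)), hn.2]

lemma ev_ww {κ d : ℝ} (hκ : 0 < κ) (d0 : 0 < d) (d1 : d < 1 / 10) : ∀ᶠ n : ℕ in atTop,
    ∀ A : Mx n, Ll.Rig.Good (d / 4) n A →
      Cw.WW ((n : ℝ) ^ d / (n : ℝ) ^ (2 / 3 : ℝ)) ((n : ℝ) ^ (-(d / 2))) κ A := by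
  have h2 := ((tendsto_rpow_atTop (show (0 : ℝ) < 1 / 4 by norm_num)).comp
    tendsto_natCast_atTop_atTop).eventually_ge_atTop 2
  filter_upwards [ev_log (show 0 < d / 4 by linarith), h2, eventually_ge_atTop 1] with n hl h2 hn A hA
  obtain ⟨N, hN⟩ : ∃ N : ℝ, N = (n : ℝ) := ⟨_, rfl⟩
  rw [← hN] at hl ⊢
  have n1 : 1 ≤ N := by rw [hN]; exact_mod_cast hn
  have n0 : 0 < N := by linarith
  have h2' : 2 ≤ N ^ (1 / 4 : ℝ) := hN ▸ h2
  have mo : ∀ {a b : ℝ}, a ≤ b → N ^ a ≤ N ^ b := fun h => rpow_le_rpow_of_exponent_le n1 h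
  have ad : ∀ a b : ℝ, N ^ a * N ^ b = N ^ (a + b) := fun a b => (rpow_add n0 a b).symm
  have ps : ∀ a : ℝ, 0 < N ^ a := fun a => rpow_pos_of_pos n0 a
  have sq : ∀ a : ℝ, √(N ^ a) = N ^ (a / 2) := fun a => by
    rw [sqrt_eq_rpow, ← rpow_mul n0.le]; ring_nf
  have o0 : ∀ {a : ℝ}, 0 ≤ a → 1 ≤ N ^ a := fun h => one_le_rpow n1 h
  have ht : N ^ d / N ^ (2 / 3 : ℝ) = N ^ (d - 2 / 3) := (rpow_sub n0 _ _).symm
  have hx : N ^ (-(d / 2)) * N ^ (d - 2 / 3) = N ^ (d / 2 - 2 / 3) := by rw [ad]; ring_nf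
  rw [ht]
  refine ww_of hA.1 hA.2.2 (hA.2.1.trans ?_) ?_ ?_ hn (fun s hs => ?_) (fun s => ?_) <;>
    try rw [← hN]
  · rw [hx]; linarith [mo (show -(2 / 3 : ℝ) + d / 4 ≤ d / 2 - 2 / 3 by linarith)]
  · rw [hx, one_div, ← rpow_neg_one]; exact mo (by linarith)
  · rw [hx]; exact rpow_le_one_of_one_le_of_nonpos n1 (by linarith)
  · rw [mul_assoc, hx] at hs
    have s0 : 0 < s := lt_of_lt_of_le (by linarith [ps (d / 2 - 2 / 3)]) hs
    refine le_min ?_ (le_min ?_ ?_)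
    · have a1 : N ^ (2 / 3 : ℝ) ≤ N ^ (-(d / 2)) * N * √(max s (N ^ (d - 2 / 3))) := by
        refine le_trans (le_of_eq ?_) (mul_le_mul_of_nonneg_left
          (sqrt_le_sqrt (le_max_right _ _)) (by positivity))
        rw [sq, ← rpow_add_one n0.ne', ad]; ring_nf
      refine le_trans ?_ a1
      rw [div_le_iff₀ s0]
      have a2 : N ^ (d / 4) ≤ N ^ (2 / 3 : ℝ) * N ^ (d / 2 - 2 / 3) := by
        rw [ad]; exact mo (by linarith)
      nlinarith [ps (2 / 3)]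
    · refine le_trans ?_ (le_mul_of_one_le_left (sqrt_nonneg _) (o0 hκ.le))
      refine le_sqrt_of_sq_le ?_
      rw [div_pow, div_le_div_iff₀ (by positivity) s0]
      have a1 : N ^ (1 / 4 : ℝ) * (N ^ (d / 4) * N ^ (d / 4)) ≤ N * N ^ (d / 2 - 2 / 3) := by
        rw [ad, ad, mul_comm N, ← rpow_add_one n0.ne']; exact mo (by linarith)
      have a2 : (2 * N ^ (d / 4)) ^ 2 ≤ N * s := by
        nlinarith [mul_pos (ps (d / 4)) (ps (d / 4)), mul_le_mul_of_nonneg_left hs n0.le]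
      nlinarith [mul_le_mul_of_nonneg_right a2 s0.le]
    · have a0 : s = s ^ (3 / 4 : ℝ) * s ^ (1 / 4 : ℝ) := by rw [← rpow_add s0]; norm_num
      have a1 : N ^ (-(1 / 6 : ℝ)) ≤ s ^ (1 / 4 : ℝ) := by
        have : N ^ (-(2 / 3 : ℝ)) ≤ s := by
          linarith [mo (show -(2 / 3 : ℝ) ≤ d / 2 - 2 / 3 by linarith), ps (d / 2 - 2 / 3)]
        refine le_trans (le_of_eq ?_) (rpow_le_rpow (ps _).le this (by norm_num))
        rw [← rpow_mul n0.le]; norm_num
      have a2 : N ^ (1 / 4 : ℝ) * N ^ (d / 4) ≤ N ^ (-(d / 2)) * √N * N ^ (-(1 / 6 : ℝ)) := by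
        rw [sqrt_eq_rpow, ad, ad, ad]; exact mo (by linarith)
      have a3 : 2 * N ^ (d / 4) ≤ N ^ (-(d / 2)) * √N * s ^ (1 / 4 : ℝ) :=
        ((mul_le_mul_of_nonneg_right h2' (ps _).le).trans a2).trans
          (mul_le_mul_of_nonneg_left a1 (by positivity))
      rw [div_le_div_iff₀ s0 (by positivity)]
      calc _ ≤ N ^ (-(d / 2)) * √N * s ^ (1 / 4 : ℝ) * s ^ (3 / 4 : ℝ) :=
            mul_le_mul_of_nonneg_right a3 (by positivity)
        _ = _ := by rw [mul_assoc, mul_comm (s ^ (1 / 4 : ℝ)), ← a0]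
  · have a0 : N ^ (d / 4) * (log 68 + log N) ≤ N ^ (d / 2) := by
      refine (mul_le_mul_of_nonneg_left hl (ps _).le).trans (le_of_eq ?_)
      rw [ad]; ring_nf
    refine a0.trans (le_min ?_ ?_)
    · refine le_trans ?_ (mul_le_mul_of_nonneg_left
        (rpow_le_rpow (ps _).le (le_max_right _ _) (by norm_num)) (by positivity))
      rw [← rpow_mul n0.le, ← rpow_add_one n0.ne', ad]; exact mo (by linarith)
    · refine le_trans ?_ (le_mul_of_one_le_left (sqrt_nonneg _) (o0 hκ.le))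
      rw [mul_comm N, ← rpow_add_one n0.ne', sq]; exact mo (by linarith)

lemma whp_good {ε : ℝ} (hε : 0 < ε) : Top.Whp GOE fun n W => Ll.Rig.Good ε n W := by
  obtain ⟨c, hc, h⟩ := (Ll.All.good hε).goe
  have t1 : Tendsto (fun n : ℕ => ENNReal.ofReal (exp (-(n : ℝ) ^ c))) atTop (𝓝 0) := by
    rw [← ENNReal.ofReal_zero]
    exact ENNReal.tendsto_ofReal (tendsto_exp_neg_atTop_nhds_zero.comp
      ((tendsto_rpow_atTop hc).comp tendsto_natCast_atTop_atTop))
  exact tendsto_of_tendsto_of_tendsto_of_le_of_le' tendsto_const_nhds t1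
    (.of_forall fun _ => zero_le) (h.mono fun n hn => hn ())

end Whp58

/-- **task 836** -/
theorem whpStmt : WhpStmt := fun _ hκ d hd =>
  (Whp58.whp_good (show 0 < d / 4 by linarith [hd.1])).mono (Whp58.ev_ww hκ hd.1 hd.2)

end Crest.Agent.T157.O0
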