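import Crest.Agent.T157.O7Def_64
import Crest.Agent.T157.GoeT_48

/-!
# Row 157, block A2, section 7 (helper67): `AwGlue`
-/

set_option autoImplicit false

noncomputable section

namespace Crest.Agent.T157.O7

open MeasureTheory Filter Set Matrix Real Topology
open Crest.ProbabilityR.SpinGlassDynamics
open Crest.Agent.T157.E Crest.Agent.T157.SL Crest.Agent.T157.Eig Crest.Agent.T157.Tr
open Crest.Agent.T157.Tap (Mx V GOE)
open Crest.Agent.T157.Top (Whp)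
open Crest.Agent.T157.Crit (CovLe)

namespace Aw67

variable {n : ℕ}

theorem JB_mono {lo : ℕ → ℝ} {hi : ℝ} {H : ℕ → ℝ → ℝ} {G G' : ∀ n, ℝ → Mx n → V n → Prop}
    (h : JB lo hi H G) (hG : ∀ n t W y, G n t W y → G' n t W y) : JB lo hi H G' := by
  obtain ⟨WW, h1, h2⟩ := h
  refine ⟨WW, h1, h2.mono fun n hn t ht => le_trans (measure_mono ?_) (hn t ht)⟩
  exact fun z hz => ⟨hz.1, fun h => hz.2 (hG _ _ _ _ h)⟩

theorem factor {W : Mx n} (hW : W.IsHermitian) {η : ℝ} (hη : 0 < η) : ∃ F : Mx n, opn F ≤ η⁻¹ ∧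
    1 - Pw W η = ((2 : ℝ) • (1 : Mx n) - W) * F := by
  refine ⟨fnK (fun x => if |2 - x| ≤ η then (0 : ℝ) else (2 - x)⁻¹) W,
    opn_fnK_le hW (by positivity) fun k _ => ?_, ?_⟩
  · split_ifs with h
    · simpa using hη.le
    · rw [abs_inv]; exact inv_anti₀ hη (not_le.1 h).le
  · have e : (2 : ℝ) • (1 : Mx n) - W = fnK (fun x => 2 - x) W := by
      rw [fnK_sub, fnK_const hW, fnK_id_real hW]
    rw [one_sub_Pw hW, e, fnK_mul hW]
    refine fnK_congr fun k _ => ?_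
    split_ifs with h
    · simp
    · refine (mul_inv_cancel₀ fun h0 => h ?_).symm
      rw [h0, abs_zero]; exact hη.le

theorem key {w : Cube n → ℝ} (hw : Wt w) {W : Mx n} (hW : W.IsHermitian) {η θ u k₁ k₂ : ℝ}
    (hη : 0 < η) (hθ : 0 < θ) (k1 : 0 ≤ k₁) (k2 : 0 ≤ k₂) (h1 : CvB w 1 k₁)
    (h2 : CvB w ((2 : ℝ) • (1 : Mx n) - W) k₂) (h : u ^ 2 * k₁ * k₂ ≤ θ ^ 2 * η ^ 2) :
    opn ((1 - Pw W η) * (u • covM w)) ≤ θ := by
  obtain ⟨F, hF, e⟩ := factor hW hη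
  refine opn_le_of_bil hθ.le fun a b => ?_
  have t : (1 - Pw W η)ᵀ = 1 - Pw W η := by rw [transpose_sub, transpose_one, Pw_transpose]
  rw [← mulVec_mulVec, dotProduct_mulVec, ← mulVec_transpose, t, e, ← mulVec_mulVec, smul_mulVec,
    dotProduct_smul, smul_eq_mul]
  set x := ((2 : ℝ) • (1 : Mx n) - W) *ᵥ F *ᵥ a with hx
  have c1 : (x ⬝ᵥ covM w *ᵥ b) ^ 2 ≤ (b ⬝ᵥ covM w *ᵥ b) * (x ⬝ᵥ covM w *ᵥ x) := by
    simp only [covM, covMat_quad, ← var_eq_cov]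
    exact hw.cov_sq_le _ _
  have c2 := h1 b
  rw [one_mulVec, ← nrm_sq] at c2
  have c3 := h2 (F *ᵥ a)
  rw [← hx, ← nrm_sq] at c3
  have c4 : nrm (F *ᵥ a) ≤ η⁻¹ * nrm a :=
    (nrm_mulVec_le F a).trans (mul_le_mul_of_nonneg_right hF (nrm_nonneg a))
  have c5 := c3.trans (mul_le_mul_of_nonneg_left (pow_le_pow_left₀ (nrm_nonneg _) c4 2) k2)
  have c6 := c1.trans (mul_le_mul c2 c5 (hw.covMat_quad_nonneg sv x) (by positivity))
  refine le_of_abs_le (abs_le_of_sq_le_sq' ?_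
    (mul_nonneg hθ.le (mul_nonneg (nrm_nonneg a) (nrm_nonneg b))) |> abs_le.2)
  have c7 : u ^ 2 * k₁ * k₂ * η⁻¹ ^ 2 ≤ θ ^ 2 := by
    rw [inv_pow, ← div_eq_mul_inv, div_le_iff₀ (by positivity)]; exact h
  calc (u * (x ⬝ᵥ covM w *ᵥ b)) ^ 2 = u ^ 2 * (x ⬝ᵥ covM w *ᵥ b) ^ 2 := by ring
    _ ≤ u ^ 2 * (k₁ * nrm b ^ 2 * (k₂ * (η⁻¹ * nrm a) ^ 2)) :=
        mul_le_mul_of_nonneg_left c6 (sq_nonneg u)
    _ = u ^ 2 * k₁ * k₂ * η⁻¹ ^ 2 * (nrm a * nrm b) ^ 2 := by ring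
    _ ≤ θ ^ 2 * (nrm a * nrm b) ^ 2 := mul_le_mul_of_nonneg_right c7 (sq_nonneg _)
    _ = _ := by ring

theorem CvB_mono {w : Cube n → ℝ} {B : Mx n} {k k' : ℝ} (h : CvB w B k) (hk : k ≤ k') :
    CvB w B k' := fun v => (h v).trans (mul_le_mul_of_nonneg_right hk (Eig.dot_self_nonneg v))

theorem cov_post (g : Pair n → ℝ) (d : Fin n → ℝ) (r : ℝ) (y : Fin n → ℝ) :
    covMat (post sv (gibbsWeight n 1 g) r y) sv = covM (ising (Wmat n g d) y) := by
  have h1 := GoeT.prob_ising_Wmat 1 g d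
  rw [one_smul] at h1
  have h2 : prob (post sv (gibbsWeight n 1 g) r y) = prob (ising (Wmat n g d) y) := by
    rw [prob_post_sv, ← zero_add y, ← tilt_ising, zero_add]
    exact GoeT.prob_mul_congr (GoeT.sum_gibbs_ne 1 g) (GoeT.sum_ising_ne _ _) h1.symm _
  exact GoeT.covMat_congr_prob h2 sv

end Aw67

open Aw67

theorem awGlue : AwGlue := by
  rintro qu ⟨K, K₂, t0, t00, hJ⟩ η θ o hη hθ ho
  have K0 := abs_nonneg K
  have K20 := abs_nonneg K₂
  refine ⟨min t0 (θ ^ 2 * η ^ 2 / (4 * (|K| + 1) * (|K₂| + 1))), by positivity, fun s hs => ?_⟩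
  obtain ⟨c, c0, hJ⟩ := hJ s hs
  have ev : ∀ᶠ n : ℕ in atTop, 0 ≤ s ∧ ∀ t ∈ Icc s t0, (n : ℝ) ^ c ≤ (n : ℝ) ^ c :=
    .of_forall fun _ => ⟨hs.le, fun _ _ => le_rfl⟩
  have q1 := qu (fun _ => s) t0 c (fun n _ => (n : ℝ) ^ c) (fun _ t => K / t) (fun _ _ => 1) c0 ev
    (JB_mono hJ fun n t W y h v => by simpa only [one_mulVec] using h.1 v)
  have q2 := qu (fun _ => s) t0 c (fun n _ => (n : ℝ) ^ c) (fun _ _ => K₂)
    (fun n W => (2 : ℝ) • (1 : Mx n) - W) c0 ev (JB_mono hJ fun n t W y h => h.2)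
  refine ((q1.and q2).comp (ν := PM) (T := fun n p => Wmat n p.1 p.2)
    fun n => Cond.mp_Wmat).mono ?_
  have l1 : Tendsto (fun n : ℕ => exp (-((n : ℝ) ^ c / 2)) + exp (-((n : ℝ) / 2))) atTop (𝓝 0) := by
    simpa using (tendsto_exp_neg_atTop_nhds_zero.comp (((tendsto_rpow_atTop c0).comp
      tendsto_natCast_atTop_atTop).atTop_div_const two_pos)).add
      (tendsto_exp_neg_atTop_nhds_zero.comp (tendsto_natCast_atTop_atTop.atTop_div_const two_pos))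
  filter_upwards [l1.eventually (ge_mem_nhds (half_pos ho)), eventually_ge_atTop 12] with
    n hn n12 p hp u hu
  have hu' : u ∈ Icc s t0 := ⟨hu.1, hu.2.trans (min_le_left _ _)⟩
  have u0 : 0 < u := hs.trans_le hu.1
  obtain ⟨t, ht, -, h1⟩ := hp.1 u hu'
  obtain ⟨-, -, -, h2⟩ := hp.2 u hu'
  have e1 := GoeT.prob_ising_Wmat 1 p.1 p.2
  rw [one_smul] at e1
  have n1 : (12 : ℝ) ≤ n := by exact_mod_cast n12
  have a0 : (0 : ℝ) ≤ 1 + 12 / n := by positivity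
  have a2 : (1 + 12 / n : ℝ) ≤ 2 := by
    have : (12 / n : ℝ) ≤ 1 := (div_le_one (by linarith)).2 n1
    linarith
  rw [← GoeT.law_congr_prob e1]
  have := isProb_law (φ := sv) (s := u) (v := ising (Wmat n p.1 p.2) 0) (.of_pos fun _ => exp_pos _)
  refine le_trans (measureReal_mono fun y hy => ?_ ) ((measureReal_union_le _ _).trans
    ((add_le_add (h1.trans hn) (h2.trans hn)).trans_eq (add_halves o)))
  by_contra hc
  simp only [mem_union, mem_ofPred_eq, not_or, not_not] at hc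
  change θ < opn (_ * (u • covMat (post sv (gibbsWeight n 1 p.1) u y) sv)) at hy
  refine not_le.2 hy ?_
  rw [cov_post p.1 p.2]
  refine key (k₁ := 2 * (|K| / u)) (k₂ := 2 * |K₂|) (.of_pos fun _ => exp_pos _) (Wmat_isHermitian _ _) hη hθ
    (by positivity) (by positivity) (CvB_mono hc.1 ?_) (CvB_mono hc.2 ?_) ?_
  · have t0' : 0 < t := u0.trans_le ht.1
    refine (mul_le_mul_of_nonneg_left (div_le_div_of_nonneg_right (le_abs_self K) t0'.le) a0).trans ?_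
    exact mul_le_mul a2 (div_le_div_of_nonneg_left K0 u0 ht.1) (by positivity) zero_le_two
  · exact (mul_le_mul_of_nonneg_left (le_abs_self K₂) a0).trans (mul_le_mul_of_nonneg_right a2 K20)
  · have h3 := (le_div_iff₀ (by positivity)).1 (hu.2.trans (min_le_right _ _))
    refine le_trans ?_ h3
    rw [show u ^ 2 * (2 * (|K| / u)) * (2 * |K₂|) = u * (4 * |K| * |K₂|) by field_simp; ring]
    gcongr <;> linarith

end Crest.Agent.T157.O7

end
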