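import Crest.Agent.T157.SgB_90
import Crest.Agent.T157.RecB_77
import Crest.Agent.T157.StB_87
import Crest.Agent.T157.StLnk_10

/-!
# Row 157, part C: the static chain as a reversible chain (helper90)

`stRC φ hw hs`: from `x` draw `y = s φ(x) + √s z`, then a fresh sample of the posterior.  Dirichlet
form, truncated kernels `stQ`, the kernel discrepancy `KK a (T a)`, exponential moments, and the
dictionary to `St.Tk`, `St.PhiL`.
-/

set_option autoImplicit false

noncomputable section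

namespace Crest.Agent.T157.Sg

section rc
open Finset Matrix
open Crest.Agent.T157.Chain22 Crest.Agent.T157.Soft Crest.Agent.T157.Ent

variable {Ω ι : Type*} [Fintype Ω] [Fintype ι]

/-- squared Hilbert–Schmidt norm of the Dirichlet matrix of the features -/
def HS2 (d : RC Ω) (a : ι → Ω → ℝ) : ℝ := ∑ i, ∑ j, d.D (a i) (a j) ^ 2

/-- linear combination of the features -/
def lc (a : ι → Ω → ℝ) (u : ι → ℝ) : Ω → ℝ := ∑ i, u i • a i

lemma D_lc (d : RC Ω) (a : ι → Ω → ℝ) (u : ι → ℝ) :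
    d.D (lc a u) (lc a u) = ∑ i, ∑ j, u i * u j * d.D (a i) (a j) := by
  simp only [RC.D, lc, mulVec_sum, mulVec_smul, ← sum_sub_distrib, ← smul_sub, ip_sum_left,
    ip_sum_right, ip_smul_left, ip_smul_right, mul_sum, mul_assoc]
  rw [sum_comm]
  exact sum_congr rfl fun i _ => sum_congr rfl fun j _ => by ring

lemma HS_cs (A B : ι → ι → ℝ) :
    ∑ i, ∑ j, A i j * B i j ≤ √(∑ i, ∑ j, A i j ^ 2) * √(∑ i, ∑ j, B i j ^ 2) := by
  have := Real.sum_mul_le_sqrt_mul_sqrt univ (fun p : ι × ι => A p.1 p.2) fun p => B p.1 p.2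
  simpa only [Fintype.sum_prod_type] using this

lemma HS2_nonneg (d : RC Ω) (a : ι → Ω → ℝ) : 0 ≤ HS2 d a := by unfold HS2; positivity

lemma sum_D_mul (d d' : RC Ω) (a : ι → Ω → ℝ) :
    ∑ i, ∑ j, d.D (a i) (a j) * d'.D (a i) (a j) = 1 / 2 * ∑ x, ∑ y, d.π x * d.P x y *
      d'.D (lc a fun i => a i x - a i y) (lc a fun i => a i x - a i y) := by
  simp only [d.D_eq, D_lc, mul_sum, sum_mul]
  have key : ∀ F : ι → ι → Ω → Ω → ℝ,
      ∑ i, ∑ j, ∑ x, ∑ y, F i j x y = ∑ x, ∑ y, ∑ i, ∑ j, F i j x y := fun F => by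
    have := sum_comm (s := univ) (t := univ) (f := fun (p : ι × ι) (q : Ω × Ω) => F p.1 p.2 q.1 q.2)
    simpa only [Fintype.sum_prod_type] using this
  rw [key]
  exact sum_congr rfl fun x _ => sum_congr rfl fun y _ => sum_congr rfl fun i _ =>
    sum_congr rfl fun j _ => by ring

lemma HS2_mono {d d' : RC Ω} (a : ι → Ω → ℝ) (h : ∀ f, d.D f f ≤ d'.D f f) :
    HS2 d a ≤ HS2 d' a := by
  have h1 : HS2 d a ≤ √(HS2 d a) * √(HS2 d' a) := by
    refine le_trans ?_ (HS_cs _ _)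
    simp only [HS2, sq, sum_D_mul]
    refine mul_le_mul_of_nonneg_left (sum_le_sum fun x _ => sum_le_sum fun y _ => ?_) (by norm_num)
    exact mul_le_mul_of_nonneg_left (h _) (mul_nonneg (d.pos x).le (d.nn x y))
  nlinarith [Real.sq_sqrt (HS2_nonneg d a), Real.sq_sqrt (HS2_nonneg d' a),
    sq_nonneg (√(HS2 d a) - √(HS2 d' a))]

lemma mean_rr_sq (π : Ω → ℝ) (a : ι → Ω → ℝ) :
    mean (prd π) (fun p => rr a p.1 p.2 ^ 2) = ∑ i, ∑ j, ip π (a i) (a j) ^ 2 := by
  simp only [rr, sq, sum_mul_sum, mean_sum', mean_prd, ip]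
  refine sum_congr rfl fun i _ => sum_congr rfl fun j _ => sum_congr rfl fun x _ =>
    sum_congr rfl fun y _ => by ring

lemma mean_dot_sq_le {d : RC Ω} (hd : d.PSD) (a b : ι → Ω → ℝ) :
    mean (prd d.π) (fun p => (∑ i, (a i p.1 - (d.P *ᵥ a i) p.1) * b i p.2) ^ 2) ≤
      √(mean (prd d.π) fun p => rr b p.1 p.2 ^ 2) * √(HS2 d a) := by
  have h1 : ∀ y, ∑ x, d.π x * (∑ i, (a i x - (d.P *ᵥ a i) x) * b i y) ^ 2 ≤
      ∑ i, ∑ j, b i y * b j y * d.D (a i) (a j) := fun y => by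
    rw [← D_lc]
    set f := lc a fun i => b i y with hf
    have e : ∀ x, ∑ i, (a i x - (d.P *ᵥ a i) x) * b i y = (f - d.P *ᵥ f) x := fun x => by
      simp only [hf, lc, mulVec_sum, mulVec_smul, Pi.sub_apply, Finset.sum_apply, Pi.smul_apply,
        smul_eq_mul, ← sum_sub_distrib]
      exact sum_congr rfl fun i _ => by ring
    have h2 := hd.ip_P_P_le f
    have h3 : ip d.π (f - d.P *ᵥ f) (f - d.P *ᵥ f) ≤ d.D f f := by
      rw [RC.D, ip_sub_left, ip_sub_right d.π (d.P *ᵥ f), ip_comm d.π (d.P *ᵥ f) f]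
      linarith
    simpa only [e, sq, ip] using h3
  rw [mean_rr_sq, mean_prd, sum_comm]
  refine le_trans ?_ (HS_cs _ _)
  calc _ = ∑ y, d.π y * ∑ x, d.π x * (∑ i, (a i x - (d.P *ᵥ a i) x) * b i y) ^ 2 := by
        simp only [mul_sum]
        exact sum_congr rfl fun y _ => sum_congr rfl fun x _ => by ring
    _ ≤ ∑ y, d.π y * ∑ i, ∑ j, b i y * b j y * d.D (a i) (a j) :=
        sum_le_sum fun y _ => mul_le_mul_of_nonneg_left (h1 y) (d.pos y).le
    _ = _ := by
        simp only [ip, mul_sum, sum_mul]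
        rw [sum_comm]
        refine sum_congr rfl fun i _ => ?_
        rw [sum_comm]
        exact sum_congr rfl fun j _ => sum_congr rfl fun y _ => by ring

lemma mean_prd_swap (π : Ω → ℝ) (F : Ω → Ω → ℝ) :
    mean (prd π) (fun p => F p.1 p.2) = mean (prd π) fun p => F p.2 p.1 := by
  rw [mean_prd, mean_prd, sum_comm]
  exact sum_congr rfl fun x _ => sum_congr rfl fun y _ => by ring

/-- the overlap kernel is close to that of the smoothed features -/
theorem KK_P_le [DecidableEq Ω] {c d : RC Ω} (hπ : d.π = c.π) (hd : d.PSD) (a : ι → Ω → ℝ) :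
    KK c.π a (fun i => d.P *ᵥ a i) ≤ 4 * √(2 * XX c a 1) * √(HS2 d a) := by
  have h0 := mean_rr_sq_le c a
  rw [← hπ] at h0 ⊢
  have h1 := mean_dot_sq_le hd a a
  have h2 := mean_dot_sq_le hd a fun i => d.P *ᵥ a i
  have h3 : mean (prd d.π) (fun p => rr (fun i => d.P *ᵥ a i) p.1 p.2 ^ 2) ≤
      mean (prd d.π) fun p => rr a p.1 p.2 ^ 2 := by
    have := (prC d).ip_P_P_le fun p => rr a p.1 p.2
    simp only [rr_mulVec, sq]
    exact this
  rw [mean_prd_swap _ fun x y => (∑ i, (a i x - (d.P *ᵥ a i) x) * (d.P *ᵥ a i) y) ^ 2] at h2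
  have h4 := mul_le_mul_of_nonneg_right (Real.sqrt_le_sqrt h0) (Real.sqrt_nonneg (HS2 d a))
  have h5 := mul_le_mul_of_nonneg_right (Real.sqrt_le_sqrt (h3.trans h0))
    (Real.sqrt_nonneg (HS2 d a))
  refine le_trans ?_ (show 2 * _ + 2 * _ ≤ _ from
    (add_le_add (mul_le_mul_of_nonneg_left (h1.trans h4) zero_le_two)
      (mul_le_mul_of_nonneg_left (h2.trans h5) zero_le_two)).trans_eq (by ring))
  rw [KK, ← mean_const_mul, ← mean_const_mul, ← mean_add']
  refine (isP_prd d.isP).mean_mono fun p => ?_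
  have e : rr a p.1 p.2 - rr (fun i => d.P *ᵥ a i) p.1 p.2 =
      ∑ i, (a i p.1 - (d.P *ᵥ a i) p.1) * a i p.2 +
        ∑ i, (a i p.2 - (d.P *ᵥ a i) p.2) * (d.P *ᵥ a i) p.1 := by
    simp only [rr, ← sum_sub_distrib, ← sum_add_distrib]
    exact sum_congr rfl fun i _ => by ring
  rw [e]
  nlinarith [sq_nonneg (∑ i, (a i p.1 - (d.P *ᵥ a i) p.1) * a i p.2 -
    ∑ i, (a i p.2 - (d.P *ᵥ a i) p.2) * (d.P *ᵥ a i) p.1)]

end rc

section st
open MeasureTheory Set Matrix
open Crest.Agent.T157.E Crest.Agent.T157.SL Crest.Agent.T157.Rec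
open Crest.Agent.T157.Chain22 (RC ip)

variable {Ω ι : Type*} [Fintype Ω] [Nonempty Ω] [DecidableEq Ω] [Fintype ι] [DecidableEq ι]
  {φ : Ω → ι → ℝ} {w : Ω → ℝ} {s : ℝ} {χ : (ι → ℝ) → ℝ}

/-- the static kernel with a weight `χ` of the observation -/
def stQ (φ : Ω → ι → ℝ) (w : Ω → ℝ) (s : ℝ) (χ : (ι → ℝ) → ℝ) : Matrix Ω Ω ℝ :=
  fun x x' => Pm φ s (fun _ y => χ y * prob (post φ w s y) x') x

omit [Nonempty Ω] in
lemma mg_prob (hw : Wt w) (s : ℝ) (x : Ω) : MG fun y => prob (post φ w s y) x := by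
  simpa only [mean_single] using mg_pm (φ := φ) hw s (Pi.single x 1)

omit [Nonempty Ω] in
lemma stQ_mulVec (hw : Wt w) (hχ : MG χ) (g : Ω → ℝ) :
    stQ φ w s χ *ᵥ g = Pm φ s fun _ y => χ y * mean (post φ w s y) g := by
  funext x
  have := Pm_sum (φ := φ) (t := s) Finset.univ
    (Ψ := fun x' _ y => g x' * (χ y * prob (post φ w s y) x'))
    (fun x' _ _ => (hχ.mul (mg_prob hw s x')).const_mul _) x
  simp only [Pm_mul (fun _ => g _)] at this
  simp only [mulVec, dotProduct, stQ, mul_comm _ (g _), ← this, mean, Finset.mul_sum]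
  congr 1
  funext _ y
  exact Finset.sum_congr rfl fun x' _ => by ring

omit [Nonempty Ω] in
lemma ip_stQ (hw : Wt w) (hs : 0 ≤ s) (hχ : MG χ) (f g : Ω → ℝ) :
    ip (prob w) f (stQ φ w s χ *ᵥ g) =
      slE φ w s fun _ y => χ y * (mean (post φ w s y) f * mean (post φ w s y) g) := by
  have h1 : ip (prob w) f (stQ φ w s χ *ᵥ g) =
      slE φ w s fun x y => f x * (χ y * mean (post φ w s y) g) := by
    rw [stQ_mulVec hw hχ, slE_eq_Pm]
    exact Finset.sum_congr rfl fun x _ => by rw [Pm_mul]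
  rw [h1, bayes hw hs (.of_mg fun x => (hχ.mul (mg_pm hw s g)).const_mul _)]
  simp only [mean_mul_const]
  congr 1
  funext _ y
  ring

/-- **the static chain** -/
def stRC (φ : Ω → ι → ℝ) {w : Ω → ℝ} (hw : ∀ x, 0 < w x) {s : ℝ} (hs : 0 ≤ s) : RC Ω where
  π := prob w
  P := stQ φ w s fun _ => 1
  pos x := div_pos (hw x) (Wt.of_pos hw).pos
  sum1 := (Wt.of_pos hw).sum_prob
  nn x x' := Pm_nonneg fun y => by
    rw [one_mul]; exact ((Wt.of_pos hw).post φ s y).prob_nonneg x'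
  row x := by
    have := congrFun (stQ_mulVec (φ := φ) (s := s) (Wt.of_pos hw) (.const 1) fun _ => 1) x
    simp only [((Wt.of_pos hw).post φ s _).mean_const, mul_one, Pm_fun fun _ => (1 : ℝ)] at this
    simpa only [mulVec, dotProduct, mul_one] using this
  rev x x' := by
    have e : ∀ x x', prob w x * stQ φ w s (fun _ => 1) x x' =
        ip (prob w) (Pi.single x 1) (stQ φ w s (fun _ => 1) *ᵥ Pi.single x' 1) := fun x x' => by
      simp [ip, Pi.single_apply]
    rw [e, e, ip_stQ (Wt.of_pos hw) hs (.const 1), ip_stQ (Wt.of_pos hw) hs (.const 1)]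
    simp only [mul_comm]

variable (hw : ∀ x, 0 < w x) (hs : 0 ≤ s)

lemma stRC_π : (stRC φ hw hs).π = prob w := rfl

lemma stRC_mulVec (g : Ω → ℝ) :
    (stRC φ hw hs).P *ᵥ g = Pm φ s fun _ y => mean (post φ w s y) g := by
  have := stQ_mulVec (φ := φ) (s := s) (Wt.of_pos hw) (.const 1) g
  simp only [one_mul] at this
  exact this

lemma ip_stRC (f g : Ω → ℝ) : ip (prob w) f ((stRC φ hw hs).P *ᵥ g) =
    slE φ w s fun _ y => mean (post φ w s y) f * mean (post φ w s y) g := by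
  have := ip_stQ (φ := φ) (Wt.of_pos hw) hs (.const 1) f g
  simp only [one_mul] at this
  exact this

lemma stRC_psd : (stRC φ hw hs).PSD := fun f =>
  (slE_nonneg (Wt.of_pos hw) fun _ _ => mul_self_nonneg _).trans_eq (ip_stRC hw hs f f).symm

lemma stRC_D (f g : Ω → ℝ) :
    (stRC φ hw hs).D f g = slE φ w s fun _ y => cov (post φ w s y) f g := by
  rw [RC.D, Chain22.ip_sub_right, stRC_π, ip_stRC]
  exact (total_cov (Wt.of_pos hw) f g hs).symm

lemma stRC_D_self (f : Ω → ℝ) :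
    (stRC φ hw hs).D f f = slE φ w s fun _ y => var (post φ w s y) f := by
  simp only [stRC_D, var_eq_cov]

lemma DV_stRC {κ : Type*} [Fintype κ] (g : κ → Ω → ℝ) :
    DV (stRC φ hw hs) g = ∑ k, slE φ w s fun _ y => var (post φ w s y) (g k) := by
  simp only [DV, stRC_D_self]

lemma stRC_D_anti {t : ℝ} (ht : 0 ≤ t) (hst : s ≤ t) (f : Ω → ℝ) :
    (stRC φ hw ht).D f f ≤ (stRC φ hw hs).D f f := by
  rw [stRC_D, stRC_D]
  refine le_trans ?_ (ex_cov_sub (φ := φ) (Wt.of_pos hw) f f hs hst).ge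
  exact le_add_of_nonneg_right (intervalIntegral.integral_nonneg hst fun r _ =>
    ex_nonneg (Wt.of_pos hw) fun _ => SL.dot_self_nonneg _)

/-- a weight `0 ≤ χ ≤ 1` gives a part of the static kernel -/
lemma subK_stQ (hχ : Measurable χ) (h0 : ∀ y, 0 ≤ χ y) (h1 : ∀ y, χ y ≤ 1) {δ : ℝ}
    (hδ : 1 - δ ≤ slE φ w s fun _ => χ) : SubK (stRC φ hw hs) (stQ φ w s χ) δ := by
  have hW := Wt.of_pos hw
  have m : MG χ := .of_bdd hχ 1 fun y => by rw [abs_of_nonneg (h0 y)]; exact h1 y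
  refine ⟨fun x x' => Pm_nonneg fun y => mul_nonneg (h0 y) ((hW.post φ s y).prob_nonneg x'),
    fun x x' => Pm_mono (fun _ => m.mul (mg_prob hW s x')) (fun _ => (MG.const 1).mul
      (mg_prob hW s x')) fun y =>
        mul_le_mul_of_nonneg_right (h1 y) ((hW.post φ s y).prob_nonneg x'), hδ.trans_eq ?_⟩
  have := ip_stQ (φ := φ) hW hs m (fun _ => 1) fun _ => 1
  simp only [(hW.post φ s _).mean_const, mul_one] at this
  rw [← this]
  simp only [ip, Chain22.mean, stRC_π, mulVec, dotProduct, mul_one, one_mul]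

omit [Nonempty Ω] in
/-- the truncated features are bounded -/
lemma sup_stQ (hW : Wt w) (hχ : MG χ) {κ : Type*} [Fintype κ] (a : κ → Ω → ℝ) {L : ℝ}
    (hL : ∀ y, ∑ k, (χ y * mean (post φ w s y) (a k)) ^ 2 ≤ L) :
    Sup (fun k => stQ φ w s χ *ᵥ a k) L := fun x => by
  have m : ∀ k, MG fun y => χ y * mean (post φ w s y) (a k) := fun k => hχ.mul (mg_pm hW s _)
  simp only [stQ_mulVec hW hχ]
  refine (Finset.sum_le_sum fun k _ => Pm_sq_le (fun _ => m k) x).trans ?_
  rw [← Pm_sum _ fun k _ _ => mg_sq (m k)]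
  exact Pm_le (fun _ => .sum _ fun k _ => mg_sq (m k)) hL

/-- the features as a vector function -/
abbrev ft (φ : Ω → ι → ℝ) : ι → Ω → ℝ := fun i x => φ x i

/-- squared length of the posterior mean -/
def msq (φ : Ω → ι → ℝ) (w : Ω → ℝ) (s : ℝ) (y : ι → ℝ) : ℝ :=
  ∑ i, mean (post φ w s y) (ft φ i) ^ 2

omit [Nonempty Ω] [DecidableEq Ω] in
lemma mg_msq (hW : Wt w) (s : ℝ) : MG (msq φ w s) := .sum _ fun _ _ => mg_sq (mg_pm hW s _)

/-- the mean posterior covariance is small in Hilbert–Schmidt norm -/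
theorem HS2_stRC_le : s * HS2 (stRC φ hw hs) (ft φ) ≤ slE φ w s fun _ => msq φ w s := by
  have hW := Wt.of_pos hw
  set ψ : ι → ℝ → ℝ := fun i => ex φ w fun p =>
    covV (pw φ w p) (ft φ i) φ ⬝ᵥ covV (pw φ w p) (ft φ i) φ with hψ
  have eg : ∀ i, EG (Icc 0 s) fun p =>
      covV (pw φ w p) (ft φ i) φ ⬝ᵥ covV (pw φ w p) (ft φ i) φ := fun i =>
    .sum _ fun j _ => (eg_cov hW _ _).mul (eg_cov hW _ _)
  have hi : ∀ i, IntervalIntegrable (ψ i) volume 0 s := fun i =>
    (eg i).continuousOn_ex.intervalIntegrable_of_Icc hs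
  have h1 : ∀ r ∈ Icc 0 s, HS2 (stRC φ hw hs) (ft φ) ≤ ∑ i, ψ i r := fun r hr => by
    refine (HS2_mono _ (stRC_D_anti hw hr.1 hs hr.2)).trans (Finset.sum_le_sum fun i _ => ?_)
    simp only [hψ, dotProduct, ← sq]
    rw [ex_sum _ fun j _ => mg_sq (mg_pcov hW r _ _)]
    refine Finset.sum_le_sum fun j _ => ?_
    rw [stRC_D]
    exact ex_sq_le (G := fun p => cov (pw φ w p) (ft φ i) (ft φ j)) hW (mg_pcov hW r _ _)
  have h2 : s * HS2 (stRC φ hw hs) (ft φ) ≤ ∑ i, ∫ r in 0..s, ψ i r := by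
    rw [← intervalIntegral.integral_finsetSum fun i _ => hi i]
    refine le_trans (le_of_eq (by simp)) (intervalIntegral.integral_mono_on hs
      (intervalIntegrable_const (c := HS2 (stRC φ hw hs) (ft φ))) ?_ h1)
    exact (IntervalIntegrable.sum _ fun i _ => hi i).congr fun r _ => Finset.sum_apply _ _ _
  refine h2.trans ?_
  unfold msq
  rw [slE_sum _ fun i _ => .of_mg fun _ => mg_sq (mg_pm hW s _)]
  refine Finset.sum_le_sum fun i _ => ?_
  have h3 := cov_decomp (φ := φ) hW (ft φ i) (ft φ i) hs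
  rw [total_cov hW _ _ hs, hW.cov_eq] at h3
  have h4 := mul_self_nonneg (mean w (ft φ i))
  simp only [sq]
  change ∫ r in 0..s, ex φ w _ r ≤ ex φ w (fun p => mean (pw φ w p) (ft φ i) *
    mean (pw φ w p) (ft φ i)) s
  linarith

/-! ### dictionary to the measure-level statics -/

omit [DecidableEq Ω] [DecidableEq ι] in
include hw in
lemma pm_dm (K : ℝ) (f : (ι → ℝ) → ℝ) (y : ι → ℝ) :
    St.pm K (St.dm w φ) f y = mean (post φ w K y) fun x => f (φ x) := by
  rw [St.pm, St.Mf, St.Lnk10.integral_dm fun x => (hw x).le,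
    St.Lnk10.integral_dm fun x => (hw x).le]
  simp only [mul_comm (f _)]
  exact (mean_mul_weight w (fun x => St.ew K y (φ x)) (fun x => f (φ x))
    (Wt.of_pos hw).pos.ne').symm

lemma Tk_dm (f : (ι → ℝ) → ℝ) (x : Ω) :
    St.Tk s (St.dm w φ) f (φ x) = ((stRC φ hw hs).P *ᵥ fun x => f (φ x)) x := by
  rw [stRC_mulVec]
  simp only [St.Tk, pm_dm hw]
  rfl

/-- several steps of the static chain -/
def TL (φ : Ω → ι → ℝ) (w : Ω → ℝ) (Ks : List ℝ) (g : Ω → ℝ) : Ω → ℝ :=
  Ks.foldr (fun K g => stQ φ w K (fun _ => 1) *ᵥ g) g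

include hw in
lemma Tl_dm {Ks : List ℝ} (hK : ∀ K ∈ Ks, 0 ≤ K) (f : (ι → ℝ) → ℝ) :
    (fun x => St.Tl (St.dm w φ) Ks f (φ x)) = TL φ w Ks fun x => f (φ x) := by
  induction Ks with
  | nil => rfl
  | cons K Ks ih =>
    funext x
    have := Tk_dm (φ := φ) hw (hK K (by simp)) (St.Tl (St.dm w φ) Ks f) x
    rw [ih fun k hk => hK k (List.mem_cons_of_mem _ hk)] at this
    exact this

include hw in
lemma PhiL_dm {Ks : List ℝ} (hK : ∀ K ∈ Ks, 0 ≤ K) :
    St.PhiL (St.dm w φ) Ks = ∑ i, ip (prob w) (ft φ i) (TL φ w Ks (ft φ i)) := by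
  refine Finset.sum_congr rfl fun i _ => ?_
  rw [St.Lnk10.integral_dm fun x => (hw x).le, ← Tl_dm hw hK fun x => x i]
  rfl

omit [Nonempty Ω] [DecidableEq Ω] [DecidableEq ι] in
lemma TL_append (Ks Ks' : List ℝ) (g : Ω → ℝ) : TL φ w (Ks ++ Ks') g = TL φ w Ks (TL φ w Ks' g) :=
  List.foldr_append

lemma TL_replicate (j : ℕ) (g : Ω → ℝ) :
    TL φ w (List.replicate j s) g = (stRC φ hw hs).P ^ j *ᵥ g := by
  induction j with
  | zero => simp [TL]
  | succ j ih => rw [pow_succ', ← mulVec_mulVec, ← ih]; rfl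

/-- the chain functionals met by the comparison semigroup -/
lemma PhiL_sandwich {t : ℝ} (ht : 0 ≤ t) (j : ℕ) :
    St.PhiL (St.dm w φ) (t :: (List.replicate j s ++ [t])) =
      ∑ i, ip (prob w) ((stRC φ hw ht).P *ᵥ ft φ i)
        ((stRC φ hw hs).P ^ j *ᵥ ((stRC φ hw ht).P *ᵥ ft φ i)) := by
  rw [PhiL_dm hw (by
    intro K hK
    simp only [List.mem_cons, List.mem_append, List.mem_replicate, List.not_mem_nil] at hK
    rcases hK with rfl | ⟨-, rfl⟩ | rfl | h <;> first | assumption | exact h.elim)]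
  refine Finset.sum_congr rfl fun i _ => ?_
  rw [← TL_replicate hw hs]
  refine Eq.trans ?_ ((stRC φ hw ht).ip_P_symm _ _)
  change ip _ _ (stQ φ w t _ *ᵥ TL φ w (_ ++ _) _) = _
  rw [TL_append]
  rfl

omit [DecidableEq Ω] in
include hw hs in
lemma IK_Mf_dm {F : (ι → ℝ) → ℝ} (hF : MG F) :
    St.A87.IK s (fun y => St.Mf s (St.dm w φ) y * F y) = slE φ w s fun _ => F := by
  have := St.A87.bayes (St.Lnk10.cp_dm hw φ) hs (.const 1) hF
  rw [St.Lnk10.integral_dm fun x => (hw x).le, ← St.A87.Mf_eq] at this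
  simp only [one_mul] at this
  exact this.symm

omit [DecidableEq Ω] [DecidableEq ι] in
include hw in
lemma Xk_dm_le {c : RC Ω} (hc : c.π = prob w) {θ : ℝ} (hθ : 0 ≤ θ) :
    St.Xk θ (St.dm w φ) (St.dm w φ) ≤ Soft.XX c (ft φ) θ := by
  simp only [St.Xk, St.Lnk10.integral_dm fun x => (hw x).le, Soft.XX, hc, mean, Finset.mul_sum,
    mul_assoc]
  refine Finset.sum_le_sum fun x _ => Finset.sum_le_sum fun y _ => ?_
  have := (Wt.of_pos hw).prob_nonneg
  refine mul_le_mul_of_nonneg_left (mul_le_mul_of_nonneg_left (Real.exp_le_exp.2 ?_) (this y))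
    (this x)
  exact mul_le_mul_of_nonneg_left (le_abs_self _) hθ

omit [Nonempty Ω] [DecidableEq Ω] in
lemma mg_exp_msq (hW : Wt w) (s l : ℝ) : MG fun y => Real.exp (l * msq φ w s y) := by
  refine .of_bdd (((mg_msq hW s).meas.const_mul l).exp)
    (Real.exp (|l| * ∑ i, (∑ x, |φ x i|) ^ 2)) fun y => ?_
  rw [abs_of_pos (Real.exp_pos _), Real.exp_le_exp]
  refine (le_abs_self _).trans ?_
  rw [abs_mul, abs_of_nonneg (a := msq φ w s y) (by unfold msq; positivity)]
  refine mul_le_mul_of_nonneg_left (Finset.sum_le_sum fun i _ => ?_) (abs_nonneg l)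
  have := (hW.post φ s y).abs_mean_le (f := ft φ i) (c := ∑ x, |φ x i|) fun x =>
    Finset.single_le_sum (f := fun x => |φ x i|) (fun _ _ => abs_nonneg _) (Finset.mem_univ x)
  exact sq_le_sq' (abs_le.1 this).1 (abs_le.1 this).2

include hw hs in
/-- exponential moments of the squared posterior mean -/
theorem exp_msq_le {c : RC Ω} (hc : c.π = prob w) {l : ℝ} (hl : 0 ≤ l) :
    (slE φ w s fun _ y => Real.exp (l * msq φ w s y)) ≤ Soft.XX c (ft φ) (s + 2 * l) := by
  have h := St.A87.exp_mom (St.Lnk10.cp_dm hw φ) hs (K' := 2 * l) (by positivity)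
  have e : St.A87.Sq s (St.dm w φ) = msq φ w s := by
    funext y
    simp only [St.A87.Sq, St.mf, pm_dm hw, msq]
  rw [e, mul_div_cancel_left₀ l two_ne_zero, IK_Mf_dm hw hs (mg_exp_msq (Wt.of_pos hw) s l)] at h
  exact h.trans (Xk_dm_le hw hc (by positivity))

include hw hs in
theorem msq_le {c : RC Ω} (hc : c.π = prob w) {l : ℝ} (hl : 0 ≤ l) :
    l * (slE φ w s fun _ => msq φ w s) ≤ Real.log (Soft.XX c (ft φ) (s + 2 * l)) := by
  have hW := Wt.of_pos hw
  set m := l * slE φ w s fun _ => msq φ w s with hm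
  have h1 : Real.exp m ≤ slE φ w s fun _ y => Real.exp (l * msq φ w s y) := by
    have a := (mg_msq (φ := φ) hW s).const_mul (Real.exp m * l)
    have := slE_mono (φ := φ) (s := s) hW
      (F := fun _ y => Real.exp m * (1 - m) + Real.exp m * l * msq φ w s y)
      (.of_mg fun _ => (MG.const _).add a) (.of_mg fun _ => mg_exp_msq (φ := φ) hW s l)
      fun _ y => by
        have h := Real.add_one_le_exp (l * msq φ w s y - m)
        rw [Real.exp_sub, le_div_iff₀ (Real.exp_pos m)] at h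
        linarith
    rw [slE_add (.of_mg fun _ => .const _) (.of_mg fun _ => a), slE_fun fun _ => _, hW.mean_const,
      slE_const_mul] at this
    refine le_trans (le_of_eq ?_) this
    rw [mul_assoc, ← hm]; ring
  have h2 := h1.trans (exp_msq_le hw hs hc hl)
  rwa [Real.le_log_iff_exp_le ((Real.exp_pos m).trans_le h2)]

/-- exponential moments of the smoothed features -/
theorem exp_sq_stRC_le {c : RC Ω} (hc : c.π = prob w) {l : ℝ} (hl : 0 ≤ l) :
    Chain22.mean c.π (fun x => Real.exp (l * ∑ i, ((stRC φ hw hs).P *ᵥ ft φ i) x ^ 2)) ≤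
      Soft.XX c (ft φ) (s + 2 * l) := by
  have hW := Wt.of_pos hw
  refine le_trans ?_ (exp_msq_le hw hs hc hl)
  rw [hc, slE_eq_Pm]
  refine hW.mean_mono fun x => ?_
  set m := l * Pm φ s (fun _ => msq φ w s) x with hm
  have h0 : l * ∑ i, ((stRC φ hw hs).P *ᵥ ft φ i) x ^ 2 ≤ m := by
    refine mul_le_mul_of_nonneg_left ?_ hl
    simp only [stRC_mulVec]
    refine (Finset.sum_le_sum fun i _ => Pm_sq_le (fun _ => mg_pm hW s _) x).trans ?_
    rw [← Pm_sum _ fun i _ _ => mg_sq (mg_pm hW s _)]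
    rfl
  refine (Real.exp_le_exp.2 h0).trans ?_
  have a := (mg_msq (φ := φ) hW s).const_mul (Real.exp m * l)
  have := Pm_mono (φ := φ) (t := s) (x := x)
    (Ψ := fun _ y => Real.exp m * (1 - m) + Real.exp m * l * msq φ w s y)
    (fun _ => (MG.const _).add a) (fun _ => mg_exp_msq (φ := φ) hW s l) fun y => by
      have h := Real.add_one_le_exp (l * msq φ w s y - m)
      rw [Real.exp_sub, le_div_iff₀ (Real.exp_pos m)] at h
      linarith
  rw [Pm_add (fun _ => .const _) fun _ => a, Pm_fun fun _ => _, Pm_mul fun _ => _] at this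
  refine le_trans (le_of_eq ?_) this
  rw [mul_assoc, ← hm]; ring

/-- **the overlap kernel of the smoothed features is close to the true one** -/
theorem KK_stRC_le {c : RC Ω} (hc : c.π = prob w) (h0 : 0 < s) :
    KK c.π (ft φ) (fun i => (stRC φ hw hs).P *ᵥ ft φ i) ≤
      4 * √(2 * Soft.XX c (ft φ) 1) * √(2 * Real.log (Soft.XX c (ft φ) (2 * s)) / s ^ 2) := by
  refine (KK_P_le hc.symm (stRC_psd hw hs) _).trans ?_
  refine mul_le_mul_of_nonneg_left (Real.sqrt_le_sqrt ?_) (by positivity)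
  have h1 := HS2_stRC_le (φ := φ) hw hs
  have h2 := msq_le (φ := φ) hw hs hc (l := s / 2) (by positivity)
  rw [show s + 2 * (s / 2) = 2 * s by ring] at h2
  rw [le_div_iff₀ (by positivity)]
  nlinarith [mul_le_mul_of_nonneg_left h1 hs]

omit [Nonempty Ω] [DecidableEq Ω] [DecidableEq ι] in
/-- change of units -/
lemma stQ_smul (c : ℝ) (hc : 0 < c) (s : ℝ) :
    stQ (fun x => c • φ x) w s (fun _ => 1) = stQ φ w (c ^ 2 * s) fun _ => 1 := by
  funext x x'
  simp only [stQ, Pm]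
  congr 1
  funext z
  have : post (fun x => c • φ x) w s (s • c • φ x + √s • z) =
      post φ w (c ^ 2 * s) ((c ^ 2 * s) • φ x + √(c ^ 2 * s) • z) := by
    funext u
    rw [Real.sqrt_mul (sq_nonneg c), Real.sqrt_sq hc.le]
    simp only [post, add_dotProduct, smul_dotProduct, dotProduct_smul, smul_eq_mul]
    congr 2
    ring
  rw [this]

end st

end Crest.Agent.T157.Sg

end
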