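import Crest.Agent.T157.TrF_64
import Crest.Agent.T157.StAll_87
import Crest.Agent.T157.SgC_90

/-!
# Row 157, part C1 (helper64): the statement (H)
-/

set_option autoImplicit false
set_option linter.unusedSectionVars false

noncomputable section

namespace Crest.Agent.T157.Tr

open MeasureTheory ProbabilityTheory Filter Topology Set Real Matrix
open Crest.ProbabilityR.SpinGlassDynamics
open Crest.Agent.T157.SL Crest.Agent.T157.E Crest.Agent.T157.Eig Crest.Agent.T157.Ed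
open Crest.Agent.T157.St Crest.Agent.T157.St.A87
open Crest.Agent.T157.Soft (N23 N23_pos)

section abs
variable {ι : Type} [Fintype ι] [DecidableEq ι] {μ ν : Measure (ι → ℝ)} {K : ℝ} {Q : Matrix ι ι ℝ}

/-- unnormalised second moments -/
def S2 (K : ℝ) (μ : Measure (ι → ℝ)) (y : ι → ℝ) : Matrix ι ι ℝ :=
  fun i j => Un K μ (fun x => x i * x j) y
/-- unnormalised first moments -/
def S1 (K : ℝ) (μ : Measure (ι → ℝ)) (y : ι → ℝ) : ι → ℝ := fun i => Un K μ (fun x => x i) y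
/-- posterior covariance -/
def Cm (K : ℝ) (μ : Measure (ι → ℝ)) (y : ι → ℝ) : Matrix ι ι ℝ :=
  fun i j => pm K μ (fun x => x i * x j) y - mf K μ y i * mf K μ y j

theorem Un_Q (hν : Cp ν) (hK : 0 ≤ K) (hQ : ∀ᵐ x ∂ν, Q *ᵥ x = 0) {f : (ι → ℝ) → ℝ} (hf : Bs ν f)
    (y : ι → ℝ) (i : ι) : ∑ k, Q i k * Un K ν (fun x => x k * f x) y = 0 := by
  simp only [← Un_const_mul]
  rw [← Un_sum hν hK _ fun k _ => ((Bs.coord hν k).mul hf).const_mul _, Un]
  refine integral_eq_zero_of_ae (hQ.mono fun x hx => ?_)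
  have : ∑ k, Q i k * x k = 0 := congrFun hx i
  simp only [← mul_assoc, ← Finset.sum_mul, this, zero_mul, Pi.zero_apply]

theorem hess_le (hμ : Cp μ) (hν : Cp ν) (hK : 0 ≤ K) :
    IK K (fun y => ∑ i, ∑ j, (S2 K μ y - S2 K ν y) i j ^ 2) ≤ D2 (K + 1 + 1) μ ν := by
  have K1 : 0 ≤ K + 1 := by linarith
  refine le_trans ?_ ((one_mul _).symm.trans_le (grad_le_D2 hμ hν K1 one_pos))
  simp only [Matrix.sub_apply, S2]
  rw [IK_congr fun y => Finset.sum_comm, IK_sum _ fun j _ => .sum _ fun i _ => Rec.mg_sq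
      ((mg_Un hμ hK ((Bs.coord hμ i).mul (Bs.coord hμ j))).sub
        (mg_Un hν hK ((Bs.coord hν i).mul (Bs.coord hν j)))),
    IK_sum _ fun i _ => Rec.mg_sq ((mg_Un hμ K1 (Bs.coord hμ i)).sub (mg_Un hν K1 (Bs.coord hν i)))]
  refine Finset.sum_le_sum fun j _ => ?_
  simpa only [one_pow, one_mul] using grad_le hμ hν hK zero_le_one (Bs.coord hμ j) (Bs.coord hν j)

theorem le_add_sq_div {x l : ℝ} (hl : 0 < l) : x ≤ l + x ^ 2 / l := by
  rw [← sub_le_iff_le_add', le_div_iff₀ hl]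
  nlinarith [sq_nonneg (x - l), sq_nonneg l, sq_nonneg x]

theorem QC_pt (hμ : Cp μ) (hν : Cp ν) (hK : 0 ≤ K) (hQ : ∀ᵐ x ∂ν, Q *ᵥ x = 0) (h1 : opn Q ≤ 1)
    {a l : ℝ} (ha : 0 < a) (hl : 0 < l) (y : ι → ℝ) : Mf K μ y * opn (Q * Cm K μ y) ≤
      l + l⁻¹ * ∑ i, ∑ j, (S2 K μ y - S2 K ν y) i j ^ 2 +
        a * (l + l⁻¹ * ∑ i, (S1 K μ y i - S1 K ν y i) ^ 2) +
        8 / a ^ 2 * (Mf K μ y * exp (1 / 2 * Sq K μ y)) := by
  have M0 := Mf_pos hμ hK y
  have e1 : Q * S2 K ν y = 0 := by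
    ext i j; exact Un_Q hν hK hQ (Bs.coord hν j) y i
  have e2 : Q *ᵥ S1 K ν y = 0 := by
    ext i
    have := Un_Q hν hK hQ (Bs.const 1) y i
    simp only [mul_one] at this
    exact this
  have e3 : S1 K μ y = Mf K μ y • mf K μ y := by ext i; exact Un_eq hμ hK y
  have e4 : Mf K μ y • (Q * Cm K μ y) =
      Q * (S2 K μ y - S2 K ν y) - vecMulVec (Q *ᵥ S1 K μ y) (mf K μ y) := by
    rw [Matrix.mul_sub, e1, sub_zero, ← mul_vecMulVec, ← Matrix.mul_sub, ← Matrix.mul_smul]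
    congr 1
    ext i j
    simp only [e3, Cm, S2, Un_eq hμ hK y, Matrix.smul_apply, Matrix.sub_apply, vecMulVec_apply,
      Pi.smul_apply, smul_eq_mul]
    ring
  have q : ∀ v, nrm (Q *ᵥ v) ≤ nrm v := fun v =>
    (nrm_mulVec_le Q v).trans (mul_le_of_le_one_left (nrm_nonneg v) h1)
  have b1 : opn (Q * (S2 K μ y - S2 K ν y)) ≤ l + l⁻¹ * ∑ i, ∑ j, (S2 K μ y - S2 K ν y) i j ^ 2 := by
    refine ((opn_mul_le _ _).trans (mul_le_of_le_one_left (opn_nonneg _) h1)).trans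
      ((le_add_sq_div hl).trans ?_)
    rw [div_eq_inv_mul]
    gcongr
    exact opn_sq_le_frob _
  have b2 : nrm (Q *ᵥ S1 K μ y) ≤ l + l⁻¹ * ∑ i, (S1 K μ y i - S1 K ν y i) ^ 2 := by
    have : Q *ᵥ S1 K μ y = Q *ᵥ (S1 K μ y - S1 K ν y) := by rw [mulVec_sub, e2, sub_zero]
    rw [this]
    refine (q _).trans ((le_add_sq_div hl).trans_eq ?_)
    rw [nrm_sq]
    simp only [div_eq_inv_mul, dotProduct, Pi.sub_apply, sq]
  have b3 : nrm (Q *ᵥ S1 K μ y) ≤ Mf K μ y * nrm (mf K μ y) := by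
    refine (q _).trans_eq ?_
    rw [e3, nrm_smul, abs_of_pos M0]
  have s : nrm (mf K μ y) ^ 2 = Sq K μ y := by rw [nrm_sq]; simp only [Sq, dotProduct, sq]
  have b4 : Sq K μ y ^ 2 ≤ 8 * exp (1 / 2 * Sq K μ y) := by
    have := quadratic_le_exp_of_nonneg (show 0 ≤ 1 / 2 * Sq K μ y by linarith [Sq_nonneg (K := K) (μ := μ) y])
    nlinarith [Sq_nonneg (K := K) (μ := μ) y]
  have m0 := nrm_nonneg (mf K μ y)
  have u0 := nrm_nonneg (Q *ᵥ S1 K μ y)
  have b5 : nrm (Q *ᵥ S1 K μ y) * nrm (mf K μ y) ≤ a * nrm (Q *ᵥ S1 K μ y) +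
      8 / a ^ 2 * (Mf K μ y * exp (1 / 2 * Sq K μ y)) := by
    rcases le_total (nrm (mf K μ y)) a with h | h
    · have : 0 ≤ 8 / a ^ 2 * (Mf K μ y * exp (1 / 2 * Sq K μ y)) := by positivity
      nlinarith
    · have k1 : a ^ 2 ≤ Sq K μ y := s ▸ pow_le_pow_left₀ ha.le h 2
      have k2 : Sq K μ y ≤ 8 / a ^ 2 * exp (1 / 2 * Sq K μ y) := by
        rw [div_mul_eq_mul_div, le_div_iff₀ (by positivity)]
        nlinarith [Sq_nonneg (K := K) (μ := μ) y]
      have k3 := mul_le_mul_of_nonneg_right b3 m0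
      have k4 := mul_le_mul_of_nonneg_left k2 M0.le
      have k5 := mul_nonneg ha.le u0
      rw [mul_assoc, ← sq, s] at k3
      linarith
  have b6 := (opn_sub_le _ _).trans (add_le_add b1 ((opn_vecMulVec_le _ _).trans b5))
  rw [← e4, opn_smul, abs_of_pos M0] at b6
  linarith [mul_le_mul_of_nonneg_left b2 ha.le]

variable {Ω : Type*} [Fintype Ω] [Nonempty Ω] {φ : Ω → ι → ℝ} {w : Ω → ℝ}

theorem Cm_dm (hw : ∀ x, 0 < w x) (K : ℝ) (y : ι → ℝ) :
    Cm K (dm w φ) y = covMat (post φ w K y) φ := by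
  ext i j
  simp only [Cm, mf, Sg.pm_dm hw, covMat, ((Wt.of_pos hw).post φ K y).cov_eq]

theorem ex_QX_le (hw : ∀ x, 0 < w x) (hν : Cp ν) (hK : 0 ≤ K) (hQ : ∀ᵐ x ∂ν, Q *ᵥ x = 0)
    (h1 : opn Q ≤ 1) {a l θ : ℝ} (ha : 0 < a) (hl : 0 < l) (hθ : K + 1 + 1 ≤ θ) :
    ex φ w (fun q => opn (Q * Xp φ w q)) K ≤
      K * ((1 + a) * (l + D2 θ (dm w φ) ν / l) + 8 / a ^ 2 * Xk θ (dm w φ) (dm w φ)) := by
  have hμ := Lnk10.cp_dm hw φ
  set μ := dm w φ with hμ'
  have e : ∀ y, opn (Q * Xp φ w (K, y)) = K * opn (Q * Cm K μ y) := fun y => by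
    rw [hμ', Cm_dm hw, Xp, Matrix.mul_smul, opn_smul, abs_of_nonneg hK]
  have m0 := mg_QX (φ := φ) (Wt.of_pos hw) Q K
  have m1 : MG fun y => ∑ i, ∑ j, (S2 K μ y - S2 K ν y) i j ^ 2 :=
    .sum _ fun i _ => .sum _ fun j _ => Rec.mg_sq
      ((mg_Un hμ hK ((Bs.coord hμ i).mul (Bs.coord hμ j))).sub
        (mg_Un hν hK ((Bs.coord hν i).mul (Bs.coord hν j))))
  have m2 : MG fun y => ∑ i, (S1 K μ y i - S1 K ν y i) ^ 2 := .sum _ fun i _ =>
    Rec.mg_sq ((mg_Un hμ hK (Bs.coord hμ i)).sub (mg_Un hν hK (Bs.coord hν i)))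
  have m3 := (mg_Mf hμ hK).mul (bm_exp_Sq hμ hK (1 / 2)).mg
  have a1 := (MG.const l).add (m1.const_mul l⁻¹)
  have a2 := ((MG.const l).add (m2.const_mul l⁻¹)).const_mul a
  have h2 := IK_mono (K := K) ((mg_Mf hμ hK).mul m0) (((a1.add a2).add (m3.const_mul _)).const_mul K)
    fun y => by
      rw [e, mul_left_comm]
      exact mul_le_mul_of_nonneg_left (QC_pt hμ hν hK hQ h1 ha hl y) hK
  rw [Sg.IK_Mf_dm hw hK m0, IK_const_mul, IK_add (a1.add a2) (m3.const_mul _), IK_add a1 a2,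
    IK_add (.const l) (m1.const_mul _), IK_const_mul a, IK_add (.const l) (m2.const_mul _),
    IK_const, IK_const_mul, IK_const_mul, IK_const_mul] at h2
  refine le_trans h2 (mul_le_mul_of_nonneg_left ?_ hK)
  have d1 := (hess_le hμ hν hK).trans (D2_mono hμ hν (by linarith) hθ)
  have d2 := ((one_mul _).symm.trans_le (grad_le_D2 hμ hν hK one_pos)).trans
    (D2_mono (K' := θ) hμ hν (by linarith) (by linarith))
  have d3 := (exp_mom hμ hK zero_le_one).trans (Xk_mono (K' := θ) hμ (by linarith) (by linarith))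
  have l0 : 0 ≤ l⁻¹ := by positivity
  have k1 := mul_le_mul_of_nonneg_left d1 l0
  have k2 := mul_le_mul_of_nonneg_left (mul_le_mul_of_nonneg_left d2 l0) ha.le
  have k3 := mul_le_mul_of_nonneg_left d3 (show 0 ≤ 8 / a ^ 2 by positivity)
  rw [div_eq_inv_mul _ l]
  simp only [S1] at *
  linarith

omit [Nonempty Ω] in
theorem post_smul (c s : ℝ) (y : ι → ℝ) :
    post (fun x => c • φ x) w s y = post φ w (c ^ 2 * s) (c • y) := by
  funext u
  simp only [post, smul_dotProduct, dotProduct_smul, smul_eq_mul]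
  congr 2
  ring

omit [Nonempty Ω] in
theorem Xp_smul (c s : ℝ) (y : ι → ℝ) :
    Xp (fun x => c • φ x) w (s, y) = Xp φ w (c ^ 2 * s, c • y) := by
  ext i j
  simp only [Xp, pw, post_smul, Matrix.smul_apply, covMat, Pi.smul_apply, smul_eq_mul]
  rw [cov_const_mul, cov_comm, cov_const_mul, cov_comm]
  ring

omit [Nonempty Ω] in
theorem ex_smul {c : ℝ} (hc : 0 ≤ c) (s : ℝ) (G : Matrix ι ι ℝ → ℝ) :
    ex (fun x => c • φ x) w (fun q => G (Xp (fun x => c • φ x) w q)) s =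
      ex φ w (fun q => G (Xp φ w q)) (c ^ 2 * s) := by
  simp only [ex, slE, Xp_smul]
  refine Finset.sum_congr rfl fun x _ => ?_
  congr 2
  funext z
  rw [sqrt_mul (sq_nonneg c), sqrt_sq hc, smul_add, smul_smul, smul_smul, smul_smul]
  congr 5
  ring

end abs

/-- the Gibbs law is close to a law carried by the edge window -/
theorem proj_approx {θ δ ε : ℝ} (hθ : 0 ≤ θ) (hδ : 0 < δ) (hε : 0 < ε) : ∃ L : ℝ, 0 < L ∧
    Off GOE ε fun n W => W.IsHermitian ∧ ∃ ν : Measure (Fin n → ℝ), Cp ν ∧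
      (∀ᵐ x ∂ν, (1 - Pw W (L / N23 n)) *ᵥ x = 0) ∧ D2 θ (muW n W) ν ≤ δ := by
  obtain ⟨C, -, hG⟩ := All.goodStmt
  obtain ⟨L, w₁, hL, hG⟩ := hG (ε / 2) (half_pos hε)
  obtain ⟨w₂, hM⟩ := All.mgfStmt L C hL
  obtain ⟨w₃, h3, hCo⟩ := All.coordStmt L C 0 0 hL
  set w := max w₁ (max w₂ w₃) with hw
  have hw3 : w₃ ≤ w := le_max_of_le_right (le_max_right _ _)
  obtain ⟨B, hM⟩ := hM w (le_max_of_le_right (le_max_left _ _))
  obtain ⟨B', d, hB', -, hCo⟩ := hCo w hw3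
  set A := 2 * θ * (256 * B') * √(B * exp (B * |2 * θ| ^ (3 / 2 : ℝ))) + 1 with hA
  have A0 : 0 < A := by positivity
  obtain ⟨K, hK⟩ := (Fin85.tail (e := (δ / 4 / A) ^ 2) (by positivity)).exists
  refine ⟨60 * K + L + 1, by positivity, (((show Off GOE (ε / 2) _ from hG w (le_max_left _ _)).and
    (off_of_whp (All.closeStmt.2 θ (δ / 4) hθ (by positivity)) (half_pos hε)) (half_pos hε).le
    (half_pos hε).le).le (by linarith)).mono ?_⟩
  filter_upwards [hM, hCo, eventually_ge_atTop (8 * K), eventually_ge_atTop 1]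
    with n hM hCo hn hn1 W ⟨⟨hW, hG⟩, hD⟩
  refine ⟨hW, ?_⟩
  have ht : 0 < sx n ^ 2 := pow_pos (sx_pos hn1) 2
  have N0 := N23_pos hn1
  obtain ⟨l1, l2, -, l4, -⟩ := All.lnkStmt n hn1
  obtain ⟨O, hO, hOv, hν⟩ := l4 W hW
  obtain ⟨c1, fl⟩ := l2 (Lam n W) _ ht
  set s : Finset (Fin n) := Finset.univ.filter fun k => |2 - lam W k| ≤ (60 * K + L + 1) / N23 n
  have c2 := Iso42.cp_keep c1 s
  obtain ⟨c3, x1, -⟩ := isomStmt _ _ O hO _ _ c2 c2
  have x2 := (isomStmt _ _ O hO _ _ c1 c1).2.1 θ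
  have x3 := (isomStmt _ _ O hO _ _ c1 c2).2.1 θ
  have mO : Measurable fun x : Fin n → ℝ => O *ᵥ x := by fun_prop
  refine ⟨_, c3, ?_, ?_⟩
  · have mc : MeasurableSet {x : Fin n → ℝ | (1 - Pw W ((60 * K + L + 1) / N23 n)) *ᵥ x = 0} :=
      (isClosed_eq (by fun_prop) continuous_const).measurableSet
    rw [Measure.map_map mO (Iso42.measurable_keep s),
      ae_map_iff (mO.comp (Iso42.measurable_keep s)).aemeasurable mc]
    refine .of_forall fun x => ?_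
    have e : O *ᵥ keep s x = ∑ k : Fin n, keep s x k • vec W k := by
      ext i; simp only [mulVec, dotProduct, hOv, Finset.sum_apply, Pi.smul_apply, smul_eq_mul, mul_comm]
    simp only [Function.comp, e, mulVec_sum, mulVec_smul, one_sub_Pw hW, fnK_mulVec_vec hW]
    refine Finset.sum_eq_zero fun k _ => ?_
    by_cases hk : k ∈ s
    · rw [if_pos (Finset.mem_filter.1 hk).2, zero_smul, smul_zero]
    · rw [keep, if_neg hk, zero_smul]
  · have p1 := projStmt _ _ c1 fl s θ hθ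
    have p2 : ∑ k ∈ sᶜ, (∫ x, x k ^ 2 ∂nuD n (Lam n W) (sx n ^ 2)) ^ 2 ≤
        (256 * B' * (δ / 4 / A)) ^ 2 := by
      have sub : sᶜ ⊆ (Finset.univ.filter fun k : Fin n => (k : ℕ) < K)ᶜ := by
        refine Finset.compl_subset_compl.2 fun k hk => Finset.mem_filter.2 ⟨Finset.mem_univ _, ?_⟩
        have a1 := Fin85.gd_hi hG (Finset.mem_filter.1 hk).2 hn
        have a2 := (Fin85.gd_bd hG (by linarith) k.2).1
        rw [le_div_iff₀' N0, ← abs_of_pos N0, ← abs_mul]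
        have : (0 : ℝ) ≤ K := Nat.cast_nonneg K
        exact abs_le.2 ⟨by change _ ≤ Lam n W k; linarith, by change Lam n W k ≤ _; linarith⟩
      calc _ ≤ ∑ k ∈ sᶜ, (256 * B') ^ 2 * Fin85.uk k ^ 2 := Finset.sum_le_sum fun k _ => by
              rw [← mul_pow]
              refine pow_le_pow_left₀ (integral_nonneg fun x => sq_nonneg _)
                ((hCo _ _ ht hG k).1.trans ?_) 2
              have := mul_le_mul_of_nonneg_left (Fin85.gd_bd hG (by linarith) k.2).2.2 hB'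
              rw [mul_one_div] at this
              linarith
        _ ≤ ∑ k ∈ (Finset.univ.filter fun k : Fin n => (k : ℕ) < K)ᶜ,
              (256 * B') ^ 2 * Fin85.uk k ^ 2 :=
            Finset.sum_le_sum_of_subset_of_nonneg sub fun _ _ _ => by positivity
        _ ≤ _ := by
            rw [← Finset.mul_sum, Fin85.sum_compl n K fun k => Fin85.uk k ^ 2, mul_pow (256 * B')]
            exact mul_le_mul_of_nonneg_left (hK n) (sq_nonneg _)
    have p3 : D2 θ (nuD n (Lam n W) (sx n ^ 2)) ((nuD n (Lam n W) (sx n ^ 2)).map (keep s)) ≤ δ / 4 := by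
      refine p1.trans ?_
      calc _ ≤ 2 * θ * (256 * B' * (δ / 4 / A)) * √(B * exp (B * |2 * θ| ^ (3 / 2 : ℝ))) := by
            gcongr
            · exact sqrt_le_iff.2 ⟨by positivity, p2⟩
            · exact hM _ _ ht hG _
        _ = (A - 1) * (δ / 4 / A) := by rw [hA]; ring
        _ ≤ A * (δ / 4 / A) := by gcongr; linarith
        _ = δ / 4 := by field_simp
    have p4 : D2 θ (nuW n W) (((nuD n (Lam n W) (sx n ^ 2)).map (keep s)).map fun x => O *ᵥ x) ≤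
        δ / 4 := by
      rw [hν, D2, x1, x2, x3]; exact p3
    obtain ⟨m0, -, -, -, -, m1, -⟩ := mmdStmt _ _ _ _ (l1 W).1 (l1 W).2.1 c3 θ θ hθ le_rfl
    have p5 := m1.trans (add_le_add (sqrt_le_sqrt hD) (sqrt_le_sqrt p4))
    have p6 := (sqrt_le_iff.1 p5).2
    nlinarith [sq_sqrt (show 0 ≤ δ / 4 by positivity)]

/-- **(H)** -/
theorem hStmt : HStmt := fun K o ε ho hε => by
  obtain ⟨B, hB⟩ := All.ldG (ε / 2) (half_pos hε)
  set K' := max K 1 with hK'
  have K1 : 1 ≤ K' := le_max_right _ _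
  set X := max (B * exp (B * |K' + 1 + 1| ^ (3 / 2 : ℝ))) 1 with hX
  have X1 : 1 ≤ X := le_max_right _ _
  set a := √(16 * K' * X / o) with ha
  have a0 : 0 < a := by positivity
  have a2 : a ^ 2 = 16 * K' * X / o := sq_sqrt (by positivity)
  set l := o / (4 * K' * (1 + a)) with hl
  have l0 : 0 < l := by positivity
  obtain ⟨L, L0, hP⟩ := proj_approx (θ := K' + 1 + 1) (by linarith) (pow_pos l0 2) (half_pos hε)
  refine ⟨L, L0, ((((show Off disorderLaw (ε / 2) _ from hB).fst (ν := fun n => gv (Fin n))).and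
    hP.goe (half_pos hε).le (half_pos hε).le).le (by linarith)).mono ?_⟩
  filter_upwards [eventually_ge_atTop 1] with n hn p ⟨h1, hW, ν, c, hQ, hD⟩ r hr
  have N0 := N23_pos hn
  have s0 := sx_pos hn
  have e1 : (sx n ^ 2)⁻¹ ^ 2 * (N23 n * r) = r := by
    rw [show N23 n = sx n ^ 4 from tau_eq n]; field_simp
  have r1 : N23 n * r ≤ K' := by
    have := hr.2; rw [le_div_iff₀' N0] at this; exact this.trans (le_max_left _ _)
  have r0 : 0 ≤ N23 n * r := mul_nonneg N0.le hr.1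
  rw [Lnk10.muW_Wmat] at hD
  have k := ex_QX_le (φ := hat n) (gibbsWeight_pos 1 p.1) c r0 hQ (opn_one_sub_Pw_le hW _) a0 l0
    (θ := K' + 1 + 1) (by linarith)
  have e2 := ex_smul (φ := sv) (w := gibbsWeight n 1 p.1) (c := (sx n ^ 2)⁻¹) (by positivity)
    (N23 n * r) fun X => opn ((1 - Pw (Wmat n p.1 p.2) (L / N23 n)) * X)
  rw [e1] at e2
  rw [← e2]
  refine le_trans k ?_
  have b1 : D2 (K' + 1 + 1) (muG n p.1) ν / l ≤ l := by rwa [div_le_iff₀ l0, ← sq]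
  have b2 : Xk (K' + 1 + 1) (muG n p.1) (muG n p.1) ≤ X := (h1 _).trans (le_max_left _ _)
  calc _ ≤ K' * ((1 + a) * (l + l) + 8 / a ^ 2 * X) := by
        change N23 n * r * ((1 + a) * (l + D2 (K' + 1 + 1) (muG n p.1) ν / l) +
          8 / a ^ 2 * Xk (K' + 1 + 1) (muG n p.1) (muG n p.1)) ≤ _
        have d0 := D2_nonneg (Lnk10.cp_dm (gibbsWeight_pos 1 p.1) (hat n)) c
          (show 0 ≤ K' + 1 + 1 by linarith)
        have x0 := one_le_Xk (Lnk10.cp_dm (gibbsWeight_pos 1 p.1) (hat n))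
          (show 0 ≤ K' + 1 + 1 by linarith)
        change 0 ≤ D2 _ (muG n p.1) ν at d0
        change 1 ≤ Xk _ (muG n p.1) (muG n p.1) at x0
        gcongr
    _ = o := by rw [a2, hl]; field_simp; ring

/-- **(I1)** from (A#), (P1) and (D*) -/
theorem i1_of' (hA : APStmt disorderLaw) {k : ℝ} (hk : 0 < k) (hD : DStar k) : I1Stmt k :=
  i1_of hA hStmt hk hD

end Crest.Agent.T157.Tr

end
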