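import Crest.Agent.T157.O7Def_64
import Crest.Agent.T157.CqDiscPb_66
import Crest.Agent.T157.TrG_64

/-!
# Row 157, block A2, section 7 (helper31): `O7.PbStmt` and `O7.SharpGlue`
-/

set_option autoImplicit false

noncomputable section

namespace Crest.Agent.T157.O7

open MeasureTheory Filter Set Matrix Real
open Crest.ProbabilityR.SpinGlassDynamics
open Crest.Agent.T157.E Crest.Agent.T157.SL Crest.Agent.T157.Eig
open Crest.Agent.T157.Tr (Off pb nx ig Xp)
open Crest.Agent.T157.Crit (CovLe CovAt)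
open Crest.Agent.T157.Soft (N23)
open Crest.Agent.T157.Cq.Dc.Pb66

namespace X31

variable {n : ℕ}

/-- sixth moment of the covariance norm on the cube -/
theorem six (hn : 0 < n) (g : Pair n → ℝ) {B r : ℝ} (hB : 1 ≤ B)
    (h : ∀ θ, 0 ≤ θ → Soft.Xth n g θ ≤ B * exp (B * θ ^ (3 / 2 : ℝ))) (hr : 1 ≤ N23 n * r) :
    ex sv (gibbsWeight n 1 g) (fun p => ((1 + nx sv (gibbsWeight n 1 g) p) ^ 3) ^ 2) r ≤
      10 ^ 8 * B ^ 6 * (N23 n * r) ^ 10 := by
  have hN := Soft.N23_pos hn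
  set c : ℝ := ((n : ℝ) ^ (1 / 3 : ℝ))⁻¹ with hc
  have c0 : 0 ≤ c := by positivity
  have c2 : c * c = (N23 n)⁻¹ := Soft.third_sq hn
  have h6 := ex_six (φ := fun x : Cube n => c • sv x) (w := gibbsWeight n 1 g)
    (gibbsWeight_pos 1 g) hr hB fun θ _ => by
      have e : St.Xk θ (St.dm (gibbsWeight n 1 g) fun x : Cube n => c • sv x)
          (St.dm (gibbsWeight n 1 g) fun x : Cube n => c • sv x) = Soft.Xth n g θ := by
        rw [Xk_dm (gibbsWeight_pos 1 g), Soft.Xth]
        simp only [smul_dotProduct, dotProduct_smul, smul_eq_mul, ← mul_assoc c c, c2, gibbsProb_eq]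
      rw [e]
      rcases le_total 0 θ with h0 | h0
      · rw [abs_of_nonneg h0]; exact h θ h0
      · rw [abs_of_nonpos h0, ← Soft.Xth_neg]; exact h _ (neg_nonneg.2 h0)
  have e := Tr.ex_smul (φ := sv) (w := gibbsWeight n 1 g) c0 (N23 n * r)
    fun M => ((1 + opn M) ^ 3) ^ 2
  rw [sq c, c2, inv_mul_cancel_left₀ hN.ne'] at e
  exact e.symm.trans_le h6

theorem decay {c : ℝ} (hc : 0 < c) :
    ∃ A : ℝ, 0 ≤ A ∧ ∀ x : ℝ, 1 ≤ x → x ^ 5 * √(exp (-x ^ c)) ≤ A * x ^ (-(1 + c)) := by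
  obtain ⟨m, hm⟩ := exists_nat_ge ((6 + c) / c)
  refine ⟨2 ^ m * m.factorial, by positivity, fun x hx => ?_⟩
  have x0 : 0 < x := by linarith
  have h1 : x ^ (6 + c) ≤ (x ^ c) ^ m := by
    rw [← rpow_natCast, ← rpow_mul x0.le]
    refine rpow_le_rpow_of_exponent_le hx ?_
    rwa [div_le_iff₀' hc] at hm
  have h2 := pow_div_factorial_le_exp (x ^ c / 2) (by positivity) m
  rw [div_le_iff₀ (by positivity), div_pow, div_le_iff₀ (by positivity)] at h2
  have e1 : √(exp (-x ^ c)) = (exp (x ^ c / 2))⁻¹ := by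
    rw [← exp_neg, ← exp_half]; congr 1; ring
  have e2 : x ^ (6 + c) = x ^ 5 * x ^ (1 + c) := by
    rw [← rpow_natCast, ← rpow_add x0]; congr 1; push_cast; ring
  rw [e1, rpow_neg x0.le, ← div_eq_mul_inv, ← div_eq_mul_inv,
    div_le_div_iff₀ (exp_pos _) (rpow_pos_of_pos x0 _), ← e2]
  linarith

end X31

open X31

/-- **task 768, first half** -/
theorem pbStmt : PbStmt := by
  intro n g B r k p e hB h hr hk hC
  have hn : 0 < n := by
    rcases Nat.eq_zero_or_pos n with rfl | hn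
    · norm_num [N23] at hr
    · exact hn
  have hN := Soft.N23_pos hn
  have r0 : 0 < r := (pos_iff_pos_of_mul_pos (lt_of_lt_of_le one_pos hr)).1 hN
  set w := gibbsWeight n 1 g with hw
  have hW : Wt w := Wt.of_pos (gibbsWeight_pos 1 g)
  set A := toMeasurable (law sv w r) {y | ¬ CovLe (tilt w y) (k / r)} with hA'
  have hA : MeasurableSet A := measurableSet_toMeasurable _ _
  have hl : (law sv w r).real A ≤ p := by
    rw [hA', Measure.real, measure_toMeasurable]; exact hC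
  have hp : 0 ≤ p := measureReal_nonneg.trans hl
  have hi : ∀ y, 1 - ig sv w e (r, y) ≤ A.indicator (fun _ => (1 : ℝ)) y := by
    intro y
    by_cases hy : y ∈ A
    · rw [indicator_of_mem hy]; linarith [Tr.ig_nonneg (φ := sv) (w := w) (ε := e) (r, y)]
    · have hy' : CovLe (tilt w y) (k / r) := by
        by_contra h'
        exact hy (subset_toMeasurable _ _ h')
      have q : ∀ v, r * (v ⬝ᵥ covMat (post sv w r y) sv *ᵥ v) ≤ k * (v ⬝ᵥ v) := fun v => by
        have := hy' v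
        rw [div_mul_eq_mul_div, le_div_iff₀' r0] at this
        rwa [covMat_post_sv]
      have k0 : 0 ≤ k := by
        have h1 := q fun _ => 1
        have h2 := (hW.post sv r y).covMat_quad_nonneg sv fun _ => 1
        have h3 : (0 : ℝ) < (fun _ : Fin n => (1 : ℝ)) ⬝ᵥ fun _ => 1 := by
          simpa [dotProduct] using hn
        exact nonneg_of_mul_nonneg_left ((mul_nonneg r0.le h2).trans h1) h3
      have : nx sv w (r, y) ≤ 1 + e r := (nx_le hW r0.le y k0 q).trans hk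
      rw [indicator_of_notMem hy, ig, if_pos this, sub_self]
  have mN : MG fun y => (1 + nx sv w (r, y)) ^ 3 :=
    Tr.MG.pow' ((MG.const 1).add (Tr.mg_nx hW r)) 3
  have n0 : ∀ y, 0 ≤ 1 + nx sv w (r, y) := fun y => by
    linarith [Tr.nx_nonneg (φ := sv) (w := w) (r, y)]
  have h3 : pb sv w e 3 r ≤
      ex sv w (fun q => A.indicator (fun _ => (1 : ℝ)) q.2 * (1 + nx sv w q) ^ 3) r :=
    ex_mono hW (Tr.mg_pb hW e 3 r) ((Tr.mg_ind hA).mul mN) fun y =>
      mul_le_mul_of_nonneg_right (hi y) (pow_nonneg (n0 y) 3)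
  have h4 := ex_mul_sq_le (φ := sv) (G := fun q => A.indicator (fun _ => (1 : ℝ)) q.2)
    (H := fun q => (1 + nx sv w q) ^ 3) (t := r) hW (Tr.mg_ind hA) mN
  have h5 : ex sv w (fun q => A.indicator (fun _ => (1 : ℝ)) q.2 ^ 2) r = (law sv w r).real A := by
    rw [← Tr.ex_ind hW hA]
    exact ex_congr fun y => by by_cases hy : y ∈ A <;> simp [hy]
  have h6 := six hn g hB h hr
  have h7 : 0 ≤ ex sv w (fun p => ((1 + nx sv w p) ^ 3) ^ 2) r := ex_nonneg hW fun _ => sq_nonneg _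
  rw [h5] at h4
  refine h3.trans ((le_abs_self _).trans (abs_le_of_sq_le_sq' ?_ (by positivity)).2)
  rw [sq_abs, mul_pow, sq_sqrt hp]
  refine h4.trans ((mul_le_mul hl h6 h7 hp).trans (le_of_eq ?_))
  ring

/-- **task 768, second half** -/
theorem sharpGlue : SharpGlue := by
  intro hP hL hG ε hε
  obtain ⟨B0, hB⟩ := hL (ε / 2) (half_pos hε)
  obtain ⟨c, hc, C0, s0, t0, ht0, h2⟩ := hG (ε / 2) (half_pos hε)
  obtain ⟨A, A0, hA⟩ := decay hc
  set B := max B0 1 with hB'
  have B1 : 1 ≤ B := le_max_right _ _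
  have h1 : Off disorderLaw (ε / 2) fun n g =>
      ∀ θ, 0 ≤ θ → Soft.Xth n g θ ≤ B * exp (B * θ ^ (3 / 2 : ℝ)) :=
    hB.mono fun n hn => le_trans (measure_mono fun g hg => by
      by_contra h'
      refine hg fun θ h0 => le_trans (not_lt.1 fun h => h' ⟨θ, h0, h⟩) ?_
      have e : exp (B0 * θ ^ (3 / 2 : ℝ)) ≤ exp (B * θ ^ (3 / 2 : ℝ)) :=
        exp_le_exp.2 (mul_le_mul_of_nonneg_right (le_max_left _ _) (by positivity))
      exact (mul_le_mul_of_nonneg_right (le_max_left B0 1) (exp_pos _).le).trans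
        (mul_le_mul_of_nonneg_left e (by linarith))) hn
  refine ⟨max C0 (10 ^ 4 * B ^ 3 * A), c, max s0 1, t0, hc, lt_max_of_lt_right one_pos, ht0, ?_⟩
  have h3 := h1.and h2 (half_pos hε).le (half_pos hε).le
  rw [add_halves] at h3
  refine h3.mono ((eventually_gt_atTop 0).mono fun n hn g hg r hr => ?_)
  have hN := Soft.N23_pos hn
  have r1 : 1 ≤ N23 n * r := (le_max_right s0 1).trans ((div_le_iff₀' hN).1 hr.1)
  have r0 : 0 < r := (pos_iff_pos_of_mul_pos (lt_of_lt_of_le one_pos r1)).1 hN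
  have hq := hg.2 r ⟨(div_le_div_of_nonneg_right (le_max_left _ _) hN.le).trans hr.1, hr.2⟩
  refine (hP n g B r _ _ _ B1 hg.1 r1 ?_ hq).trans ?_
  · have : 0 ≤ r ^ c + (N23 n * r) ^ (-c) := by positivity
    exact add_le_add le_rfl (mul_le_mul_of_nonneg_right (le_max_left _ _) this)
  · rw [mul_assoc]
    refine (mul_le_mul_of_nonneg_left (hA _ r1) (by positivity)).trans ?_
    rw [← mul_assoc]
    exact mul_le_mul_of_nonneg_right (le_max_right _ _) (by positivity)

end Crest.Agent.T157.O7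

end
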