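import Crest.Agent.T157.O7Def_64

/-!
# Row 157, block A2, section 7 (helper64): the covariance windows at the levels `2 ^ j`
-/

set_option autoImplicit false

noncomputable section

namespace Crest.Agent.T157.O7

open MeasureTheory Filter Set Matrix Real Topology
open Crest.ProbabilityR.SpinGlassDynamics
open Crest.Agent.T157.E Crest.Agent.T157.SL
open Crest.Agent.T157.Tr (Off pb HA)
open Crest.Agent.T157.Crit (CovAt)
open Crest.Agent.T157.Soft (N23 Xth)

namespace St64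

lemma ha_gen {Ω : Type*} [Fintype Ω] {ι : Type} [Fintype ι] [DecidableEq ι] {φ : Ω → ι → ℝ}
    {w : Ω → ℝ} {e : ℝ → ℝ} {s T q : ℝ} (hs : 0 < s) (hT : s ≤ T) (hq : 0 ≤ q)
    (he : ContinuousOn e (Icc s T)) (e0 : ∀ r ∈ Icc s T, 0 ≤ e r)
    (h : ∀ r ∈ Icc s T, pb φ w e 3 r ≤ q * (s / r) ^ 2 / 4) :
    HA φ w e (fun u => q * (s / u) ^ 2 / 4) s T √(q * s) := by
  have p0 : ∀ u ∈ Icc s T, 0 < u := fun u hu => hs.trans_le hu.1
  refine ⟨hs, he, e0, ((continuousOn_const.mul ((continuousOn_const.div continuousOn_id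
    fun u hu => (p0 u hu).ne').pow 2)).div_const 4), h, sqrt_nonneg _, fun r hr => ?_, ?_⟩
  · have r0 := p0 r hr
    rw [sq_sqrt (by positivity),
      show r * (q * (s / r) ^ 2 / 4) = q * s * (s / r / 4) by field_simp]
    refine mul_le_of_le_one_right (by positivity) ?_
    have : s / r ≤ 1 := (div_le_one r0).2 hr.1
    linarith
  · have e1 : ∫ u in s..T, √(q * (s / u) ^ 2 / 4 / u) =
        ∫ u in s..T, √q * s / 2 * ((1 * u) ^ (-(1 / 2) : ℝ) / u) := by
      refine intervalIntegral.integral_congr fun u hu => ?_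
      rw [uIcc_of_le hT] at hu
      have u0 := p0 u hu
      refine (sqrt_eq_iff_mul_self_eq (by positivity) (by positivity)).2 ?_
      have e2 : u ^ (-(1 / 2) : ℝ) * u ^ (-(1 / 2) : ℝ) = u⁻¹ := by
        rw [← rpow_add u0, ← rpow_neg_one]; norm_num
      rw [one_mul, show ∀ x : ℝ, √q * s / 2 * (x / u) * (√q * s / 2 * (x / u)) =
        √q * √q * (x * x) * (s / u) ^ 2 / 4 from fun x => by ring, e2, mul_self_sqrt hq]
      ring
    rw [e1, intervalIntegral.integral_const_mul]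
    refine (mul_le_mul_of_nonneg_left (Tr.int_rpow_neg (N := 1) one_pos hs hT (γ := 1 / 2)
      (by norm_num)) (by positivity)).trans_eq ?_
    rw [one_mul, sqrt_mul hq, rpow_neg hs.le, ← sqrt_eq_rpow]
    have := sqrt_pos.2 hs
    field_simp
    rw [sq_sqrt hs.le]

lemma ev_pow (D : ℝ) {l γ : ℝ} (hl : 0 < l) (hγ : 0 < γ) :
    ∀ᶠ x : ℝ in atTop, D * x ^ 7 ≤ exp (l * x ^ γ / 4) := by
  have h1 := ((tendsto_rpow_mul_exp_neg_mul_atTop_nhds_zero (7 / γ) (l / 4) (by positivity)).comp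
    (tendsto_rpow_atTop hγ)).const_mul D
  rw [mul_zero] at h1
  filter_upwards [h1.eventually (ge_mem_nhds one_pos), eventually_ge_atTop 0] with x hx x0
  simp only [Function.comp] at hx
  rw [← rpow_mul x0, mul_div_cancel₀ _ hγ.ne', show (7 : ℝ) = (7 : ℕ) by norm_num, rpow_natCast,
    neg_mul, exp_neg, ← mul_assoc, ← div_eq_mul_inv, div_le_one (exp_pos _)] at hx
  exact hx.trans_eq (by congr 1; ring)

lemma Mt_eq (n : ℕ) {r : ℝ} (hr : 0 ≤ r) : Mt n r = (N23 n * r) ^ (3 / 2 : ℝ) := by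
  rw [Mt, N23, mul_rpow (by positivity) hr, ← rpow_mul (Nat.cast_nonneg n)]
  norm_num

/-- the profile -/
def pr (N a₀ a₁ γ C c u : ℝ) : ℝ :=
  a₀ * (N * u) ^ (-(3 / 2) : ℝ) + a₁ * (N * u) ^ (-γ) + C * (u ^ c + (N * u) ^ (-c))

variable {N a₀ a₁ γ C c s T : ℝ}

lemma cont_pow (hN : 0 < N) (hs : 0 < s) (γ : ℝ) :
    ContinuousOn (fun u : ℝ => (N * u) ^ γ) (Icc s T) :=
  (continuousOn_const.mul continuousOn_id).rpow_const fun _ hu =>
    .inl (mul_pos hN (hs.trans_le hu.1)).ne'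

lemma pr_cont (hN : 0 < N) (hs : 0 < s) : ContinuousOn (pr N a₀ a₁ γ C c) (Icc s T) :=
  ((continuousOn_const.mul (cont_pow hN hs _)).add (continuousOn_const.mul (cont_pow hN hs _))).add
    (continuousOn_const.mul ((continuousOn_id.rpow_const fun _ hu =>
      .inl (hs.trans_le hu.1).ne').add (cont_pow hN hs _)))

lemma pr_int (hN : 0 < N) (hs : 0 < s) (hT : s ≤ T) (h1 : 1 ≤ N * s) (h₀ : 0 ≤ a₀) (h₁ : 0 ≤ a₁)
    (hγ : 0 < γ) (hC : 0 ≤ C) (hc : 0 < c) : ∫ u in s..T, pr N a₀ a₁ γ C c u / u ≤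
      a₀ * (N * s) ^ (-(3 / 2) : ℝ) + a₁ / γ + C * (T ^ c + 1) / c := by
  have p : ∀ u ∈ Icc s T, u ≠ 0 := fun u hu => (hs.trans_le hu.1).ne'
  have i : ∀ a γ : ℝ, IntervalIntegrable (fun u => a * ((N * u) ^ γ / u)) volume s T := fun a γ =>
    ContinuousOn.intervalIntegrable_of_Icc hT
      (continuousOn_const.mul ((cont_pow hN hs γ).div continuousOn_id p))
  have i2 : IntervalIntegrable (fun u => C * (u ^ c + (N * u) ^ (-c)) / u) volume s T :=
    ContinuousOn.intervalIntegrable_of_Icc hT ((continuousOn_const.mul ((continuousOn_id.rpow_const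
      fun u hu => .inl (p u hu)).add (cont_pow hN hs _))).div continuousOn_id p)
  have e : ∀ u, pr N a₀ a₁ γ C c u / u = a₀ * ((N * u) ^ (-(3 / 2) : ℝ) / u) +
      a₁ * ((N * u) ^ (-γ) / u) + C * (u ^ c + (N * u) ^ (-c)) / u := fun u => by rw [pr]; ring
  simp only [e]
  rw [intervalIntegral.integral_add ((i _ _).add (i _ _)) i2,
    intervalIntegral.integral_add (i _ _) (i _ _), intervalIntegral.integral_const_mul,
    intervalIntegral.integral_const_mul]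
  have b0 := Tr.int_rpow_neg hN hs hT (γ := 3 / 2) (by norm_num)
  have b1 := Tr.int_rpow_neg hN hs hT hγ
  have b2 := Tr.int_eps_le hN hs hT hc hC
  have c0 : 0 ≤ (N * s) ^ (-(3 / 2) : ℝ) := by positivity
  have c1 : ∀ γ : ℝ, 0 < γ → (N * s) ^ (-γ) ≤ 1 := fun γ h =>
    rpow_le_one_of_one_le_of_nonpos h1 (by linarith)
  refine add_le_add (add_le_add (mul_le_mul_of_nonneg_left (b0.trans (by linarith)) h₀) ?_)
    (b2.trans (by gcongr; exact c1 c hc))
  rw [div_eq_mul_one_div a₁]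
  exact mul_le_mul_of_nonneg_left (b1.trans (by gcongr; exact c1 γ hγ)) h₁

lemma num {B x Λ H x0 : ℝ} (h0 : 1 ≤ x0) (hx : 0 < x) (h1 : 12 * H ≤ Λ)
    (h2 : 4 * 10 ^ 4 * B ^ 3 * x ^ 7 ≤ exp (Λ / 4)) :
    10 ^ 4 * B ^ 3 * x ^ 5 * √(exp (-Λ)) ≤ exp (-(3 * H)) * (x0 / x) ^ 2 / 4 := by
  have e1 : √(exp (-Λ)) = exp (-(Λ / 2)) := by
    rw [sqrt_eq_iff_mul_self_eq (exp_pos _).le (exp_pos _).le, ← exp_add]; congr 1; ring
  have e2 : exp (Λ / 4) * exp (-(Λ / 2)) ≤ exp (-(3 * H)) := by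
    rw [← exp_add]; exact exp_le_exp.2 (by linarith)
  rw [e1, div_pow, le_div_iff₀ four_pos, ← mul_div_assoc, le_div_iff₀ (by positivity)]
  calc _ = 4 * 10 ^ 4 * B ^ 3 * x ^ 7 * exp (-(Λ / 2)) := by ring
    _ ≤ exp (-(3 * H)) := (mul_le_mul_of_nonneg_right h2 (exp_pos _).le).trans e2
    _ ≤ _ := le_mul_of_one_le_right (exp_pos _).le (one_le_pow₀ h0)

lemma exp_min {y a b : ℝ} (ha : y ≤ exp (a / 4)) (hb : y ≤ exp (b / 4)) :
    y ≤ exp (min a b / 4) := by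
  rcases min_choice a b with h | h <;> rwa [h]

end St64

open St64 in
theorem starGlue : StarGlue := by
  intro hpb b a κ T ha hκ hT hL h0 h1 h2 h3 c ε hc hε
  have ε5 : 0 < ε / 5 := by positivity
  obtain ⟨B0, hB0⟩ := hL _ ε5
  obtain ⟨c2, hc2, C2, s2, t2, ht2, h2⟩ := h2 _ ε5
  set ε0 := c2 * (2 / 3 - a) / (2 * exp 1) with hε0
  have ε0p : 0 < ε0 := by have := sub_pos.2 ha; positivity
  obtain ⟨c1, hc1, s1, t1, ht1, h1⟩ := h1 _ ε5 _ ε0p
  have c32 : 0 < c ^ (3 / 2 : ℝ) := by positivity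
  obtain ⟨K0, s0, t0, ht0, h0⟩ := h0 _ ε5 (12 / c ^ (3 / 2 : ℝ))
  set tm := min t0 (min t1 t2)
  have htm : 0 < tm := by positivity
  obtain ⟨K3, h3⟩ := h3 tm htm
  set B := max B0 1
  have hB : 1 ≤ B := le_max_right _ _
  set D := 4 * 10 ^ 4 * B ^ 3
  set C' := |C2| + |K3| / tm ^ c2
  have C'0 : 0 ≤ C' := by positivity
  obtain ⟨S, hS⟩ := eventually_atTop.1 ((ev_pow D (l := 12 / c ^ (3 / 2 : ℝ)) (γ := 3 / 2)
    (by positivity) (by norm_num)).and ((ev_pow D hc1 (γ := 3 / 2) (by norm_num)).and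
      ((ev_pow D one_pos hc2).and ((eventually_ge_atTop s0).and ((eventually_ge_atTop s1).and
        ((eventually_ge_atTop s2).and (eventually_ge_atTop 1)))))))
  obtain ⟨j0, hj0⟩ := eventually_atTop.1 ((((tendsto_rpow_atTop (y := 2 / 3) (by norm_num)).comp
    (tendsto_pow_atTop_atTop_of_one_lt (one_lt_two (α := ℝ)))).const_mul_atTop hc).eventually_ge_atTop S)
  refine ⟨exp (2 * (|K0| * 12 / c1 / c ^ (3 / 2 : ℝ) + C' * (T ^ c2 + 1) / c2)) *
    12 ^ (2 / 3 - a), j0, ?_⟩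
  have hB1 : Off (couplingLaw b) (ε / 5) fun n g =>
      ∀ θ, 0 ≤ θ → Xth n g θ ≤ B * exp (B * θ ^ (3 / 2 : ℝ)) := by
    refine hB0.mono fun n hn => le_trans (measure_mono fun g hg => ?_) hn
    simp only [mem_ofPred_eq, not_forall, not_le] at hg
    obtain ⟨θ, θ0, hθ⟩ := hg
    refine ⟨θ, θ0, lt_of_le_of_lt ?_ hθ⟩
    have : B0 ≤ B := le_max_left _ _
    exact (mul_le_mul_of_nonneg_right this (exp_pos _).le).trans (by gcongr)
  have hall := ((((hB1.and h0 ε5.le ε5.le).and h1 (by positivity) ε5.le).and h2 (by positivity)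
    ε5.le).and (Tr.off_of_whp h3 ε5) (by positivity) ε5.le).le (ε' := ε) (by linarith)
  have tn := tendsto_natCast_atTop_atTop (R := ℝ)
  filter_upwards [hall, tn.eventually (ev_pow (D * T ^ 7) one_pos (γ := 1 / 2) (by norm_num)),
    ((tendsto_rpow_atTop (y := 1 / 2 - κ) (by linarith)).comp tn).eventually_ge_atTop 12,
    ((tendsto_rpow_atTop (y := 1 / 3) (by norm_num)).comp tn).eventually_ge_atTop (c / T),
    eventually_ge_atTop 1] with n hn n1 n2 n3 n4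
  refine le_trans (measure_mono fun g hg => ?_) hn
  obtain ⟨j, hj, hjn, hW⟩ := hg
  rintro ⟨⟨⟨⟨gB, g0⟩, g1⟩, g2⟩, g3⟩
  refine hW ?_
  have n1' : (1 : ℝ) ≤ n := by exact_mod_cast n4
  have n0 : (0 : ℝ) < n := by linarith
  have hj1 := hj0 j hj
  simp only [Function.comp] at hj1 n2 n3
  have H1 : (1 : ℝ) ≤ 2 ^ j := one_le_pow₀ one_le_two
  generalize (2 : ℝ) ^ j = H at hj1 hjn H1 ⊢
  have H0 : 0 < H := by linarith
  set N := N23 n with hN
  have N0 : 0 < N := rpow_pos_of_pos n0 _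
  have Nn : N ≤ n := by
    simpa using rpow_le_rpow_of_exponent_le n1' (show (2 / 3 : ℝ) ≤ 1 by norm_num)
  have Hn : 12 * H ≤ √n := by
    rw [sqrt_eq_rpow, show (1 / 2 : ℝ) = 1 / 2 - κ + κ by ring, rpow_add n0]
    exact mul_le_mul n2 hjn H0.le (by positivity)
  set x0 := c * H ^ (2 / 3 : ℝ) with hx0
  have x1 : 1 ≤ x0 := (hS _ hj1).2.2.2.2.2.2
  have x32 : x0 ^ (3 / 2 : ℝ) = c ^ (3 / 2 : ℝ) * H := by
    rw [hx0, mul_rpow hc.le (by positivity), ← rpow_mul H0.le]; norm_num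
  have ets : Q1.ts n c H = x0 / N := rfl
  have s0' : 0 < x0 / N := by positivity
  have Ns : N * (x0 / N) = x0 := by field_simp
  have sT : x0 / N ≤ T := by
    have a1 : H ^ (2 / 3 : ℝ) ≤ (n : ℝ) ^ (1 / 3 : ℝ) := by
      refine (rpow_le_rpow H0.le (by linarith : H ≤ √n) (by norm_num)).trans_eq ?_
      rw [sqrt_eq_rpow, ← rpow_mul n0.le]; norm_num
    have a2 : N = (n : ℝ) ^ (1 / 3 : ℝ) * (n : ℝ) ^ (1 / 3 : ℝ) := by
      rw [← rpow_add n0, hN, N23]; norm_num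
    rw [div_le_iff₀ hT] at n3
    rw [div_le_iff₀ N0, a2, hx0, ← mul_assoc, mul_comm T]
    exact mul_le_mul n3 a1 (by positivity) (by positivity)
  have l0 : 0 < log (12 * H) := log_pos (by linarith)
  set e := pr N (|K0| * 12 / c1 * H) (ε0 * exp 1) (c2 / log (12 * H)) C' c2 with he
  have e0 : ∀ r, 0 < r → 0 ≤ |K0| * 12 / c1 * H * (N * r) ^ (-(3 / 2) : ℝ) ∧
      0 ≤ ε0 * exp 1 * (N * r) ^ (-(c2 / log (12 * H))) ∧
      0 ≤ C' * (r ^ c2 + (N * r) ^ (-c2)) := fun r _ => ⟨by positivity, by positivity, by positivity⟩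
  rw [Q1.Win, ets]
  refine ⟨e, _, _, ha_gen s0' sT (exp_pos (-(3 * H))).le (pr_cont N0 s0') (fun r hr => ?_)
    fun r hr => ?_, (sq_sqrt (by positivity)).le, ?_⟩
  · obtain ⟨a1, a2, a3⟩ := e0 r (s0'.trans_le hr.1)
    exact add_nonneg (add_nonneg a1 a2) a3
  · have r0 := s0'.trans_le hr.1
    obtain ⟨a1, a2, a3⟩ := e0 r r0
    have hx : x0 ≤ N * r := by rw [mul_comm]; exact (div_le_iff₀ N0).1 hr.1
    have x0' : 0 < N * r := by positivity
    obtain ⟨b0, b1, b2, b3, b4, b5, b6⟩ := hS _ (hj1.trans hx)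
    have b7 : D * (N * r) ^ 7 ≤ exp (√n / 4) := by
      rw [one_mul, ← sqrt_eq_rpow] at n1
      refine le_trans ?_ n1
      rw [mul_assoc D, ← mul_pow]
      refine mul_le_mul_of_nonneg_left (pow_le_pow_left₀ x0'.le ?_ 7) (by positivity)
      rw [mul_comm]
      exact mul_le_mul hr.2 Nn N0.le hT.le
    have lo : ∀ s, s ≤ N * r → s / N ≤ r := fun s hs => by rw [div_le_iff₀ N0, mul_comm]; exact hs
    have fin : ∀ k Λ, k ≤ 1 + e r → CovAt (gibbsWeight n 1 g) r (k / r) (exp (-Λ)) → 12 * H ≤ Λ →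
        D * (N * r) ^ 7 ≤ exp (Λ / 4) →
        pb sv (gibbsWeight n 1 g) e 3 r ≤ exp (-(3 * H)) * (x0 / N / r) ^ 2 / 4 :=
      fun k Λ d1 d2 d3 d4 => (hpb n g B r k _ e hB gB b6 d1 d2).trans
        ((num x1 x0' d3 d4).trans_eq (by rw [div_div]))
    have er : e r = |K0| * 12 / c1 * H * (N * r) ^ (-(3 / 2) : ℝ) +
      ε0 * exp 1 * (N * r) ^ (-(c2 / log (12 * H))) + C' * (r ^ c2 + (N * r) ^ (-c2)) := rfl
    have M0 : 0 < (N * r) ^ (3 / 2 : ℝ) := by positivity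
    rcases le_total r tm with hm | hm
    swap
    · refine fin K3 _ ?_ (g3 r ⟨hm, hr.2⟩) Hn b7
      have f1 : |K3| / tm ^ c2 * tm ^ c2 ≤ C' * (r ^ c2 + (N * r) ^ (-c2)) :=
        mul_le_mul (le_add_of_nonneg_left (abs_nonneg _)) ((rpow_le_rpow htm.le hm hc2.le).trans
          (le_add_of_nonneg_right (by positivity))) (by positivity) C'0
      rw [div_mul_cancel₀ _ (by positivity)] at f1
      linarith [le_abs_self K3]
    rcases le_total (12 * H) ((N * r) ^ c2) with h2 | h2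
    · refine fin _ _ ?_ (g2 r ⟨lo _ b5, hm.trans ((min_le_right _ _).trans (min_le_right _ _))⟩) h2
        (by simpa using b2)
      have : C2 * (r ^ c2 + (N * r) ^ (-c2)) ≤ C' * (r ^ c2 + (N * r) ^ (-c2)) :=
        mul_le_mul_of_nonneg_right ((le_abs_self _).trans (le_add_of_nonneg_right (by positivity)))
          (by positivity)
      linarith
    rcases le_total (12 * H) (c1 * (N * r) ^ (3 / 2 : ℝ)) with h1 | h1
    · refine fin _ _ ?_ (g1 r ⟨lo _ b4, hm.trans ((min_le_right _ _).trans (min_le_left _ _))⟩)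
        (le_min (Mt_eq n r0.le ▸ h1) Hn) (exp_min (Mt_eq n r0.le ▸ b1) b7)
      have f1 : (N * r) ^ (c2 / log (12 * H)) ≤ exp 1 := by
        rw [div_eq_mul_inv, rpow_mul x0'.le]
        refine (rpow_le_rpow (by positivity) h2 (by positivity)).trans_eq ?_
        rw [rpow_def_of_pos (by positivity), mul_inv_cancel₀ l0.ne']
      have f2 : ε0 * 1 ≤ ε0 * (exp 1 * (N * r) ^ (-(c2 / log (12 * H)))) := by
        rw [rpow_neg x0'.le, ← div_eq_mul_inv]
        exact mul_le_mul_of_nonneg_left ((one_le_div (by positivity)).2 f1) ε0p.le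
      rw [← mul_assoc] at f2
      linarith
    · have f0 : 12 * H ≤ 12 / c ^ (3 / 2 : ℝ) * (N * r) ^ (3 / 2 : ℝ) := by
        have := rpow_le_rpow (by positivity) hx (show (0 : ℝ) ≤ 3 / 2 by norm_num)
        rw [x32] at this
        rw [div_mul_eq_mul_div, le_div_iff₀ c32]
        linarith
      refine fin K0 _ ?_ (g0 r ⟨lo _ b3, hm.trans (min_le_left _ _)⟩)
        (le_min (Mt_eq n r0.le ▸ f0) Hn) (exp_min (Mt_eq n r0.le ▸ b0) b7)
      have f2 : |K0| * 1 ≤ |K0| * (12 * H / (c1 * (N * r) ^ (3 / 2 : ℝ))) :=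
        mul_le_mul_of_nonneg_left ((one_le_div (by positivity)).2 h1) (abs_nonneg _)
      have f3 : |K0| * (12 * H / (c1 * (N * r) ^ (3 / 2 : ℝ))) =
          |K0| * 12 / c1 * H * (N * r) ^ (-(3 / 2) : ℝ) := by
        rw [rpow_neg x0'.le]; field_simp
      linarith [le_abs_self K0]
  · have := pr_int (a₀ := |K0| * 12 / c1 * H) (a₁ := ε0 * exp 1) (γ := c2 / log (12 * H)) N0 s0' sT
      (Ns.symm ▸ x1) (by positivity) (by positivity) (by positivity) C'0 hc2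
    rw [Ns, rpow_neg (by positivity), x32] at this
    rw [mul_assoc, ← mul_rpow (by norm_num) H0.le,
      rpow_def_of_pos (show 0 < 12 * H by positivity), ← exp_add]
    refine exp_le_exp.2 ((mul_le_mul_of_nonneg_left this zero_le_two).trans_eq ?_)
    rw [hε0]
    field_simp
    ring

end Crest.Agent.T157.O7

end
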