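import Crest.Agent.T157.SwDef_14
import Crest.Agent.T157.SwDerA_91
import Crest.Agent.T157.EdBase_88

/-!
# Row 157, SWAP for coins (helper91): `Sw14.DerGlue`
-/

set_option autoImplicit false

noncomputable section

namespace Crest.Agent.T157.Sw14.Der91

open Matrix Filter Topology Finset Real Function Metric
open Crest.ProbabilityR.SpinGlassDynamics Crest.Agent.T157.E Crest.Agent.T157.Eig
open Crest.Agent.T157.St Crest.Agent.T157.Ed Crest.Agent.T157.Cq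
open Crest.Agent.T157.Ll (Dl Res)

variable {n : ℕ}

lemma W4_sh (hn : 1 ≤ n) (y : I4 n → ℝ) (p : Pair n) (u : ℝ) :
    W4 (sh y p u) = W4 y + u • Dl p.1.1 p.1.2 := by
  have s0 : √(n : ℝ) ≠ 0 := (Real.sqrt_pos.2 (by exact_mod_cast hn)).ne'
  obtain ⟨⟨i, j⟩, hij⟩ := p
  have hij' : i < j := hij
  ext a b
  simp only [W4, Wy, Wmat, Jmat, sh, Dl, Matrix.add_apply, Matrix.smul_apply, smul_eq_mul,
    single_apply, update_apply, Sum.inl.injEq, reduceCtorEq, if_false, Subtype.mk.injEq,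
    Prod.mk.injEq]
  rcases lt_trichotomy a b with h | h | h
  · rw [dif_pos h, dif_pos h, if_neg (show ¬(j = a ∧ i = b) by rintro ⟨rfl, rfl⟩; omega)]
    by_cases e : a = i ∧ b = j
    · obtain ⟨rfl, rfl⟩ := e
      simp only [and_self, if_true]; field_simp; ring
    · rw [if_neg e, if_neg fun e' => e ⟨e'.1.symm, e'.2.symm⟩]; ring
  · subst h
    rw [dif_neg (lt_irrefl a), dif_neg (lt_irrefl a), dif_neg (lt_irrefl a), dif_neg (lt_irrefl a),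
      if_neg (show ¬(j = a ∧ i = a) by rintro ⟨rfl, rfl⟩; omega),
      if_neg (show ¬(i = a ∧ j = a) by rintro ⟨rfl, rfl⟩; omega)]
    ring
  · rw [dif_neg h.not_gt, dif_neg h.not_gt, dif_pos h, dif_pos h,
      if_neg (show ¬(i = a ∧ j = b) by rintro ⟨rfl, rfl⟩; omega)]
    by_cases e : b = i ∧ a = j
    · obtain ⟨rfl, rfl⟩ := e
      simp only [and_self, if_true]; field_simp; ring
    · rw [if_neg e, if_neg fun e' => e ⟨e'.2.symm, e'.1.symm⟩]; ring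

lemma x1_sh (y : I4 n → ℝ) (p : Pair n) (u : ℝ) : x1 (sh y p u) = x1 y := by
  ext k; simp [x1, sh]

lemma x2_sh (y : I4 n → ℝ) (p : Pair n) (u : ℝ) : x2 (sh y p u) = x2 y := by
  ext k; simp [x2, sh]

lemma sh_zero (y : I4 n → ℝ) (p : Pair n) : sh y p 0 = y := by simp [sh]

lemma dot_update {ι : Type*} [Fintype ι] [DecidableEq ι] (y : ι → ℝ) (k : ι) (t : ℝ) :
    update y k t ⬝ᵥ update y k t = ∑ a ∈ univ.erase k, y a * y a + t ^ 2 := by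
  rw [dotProduct, ← sum_erase_add _ _ (mem_univ k), update_self, sq]
  congr 1
  exact sum_congr rfl fun a ha => by rw [update_of_ne (ne_of_mem_erase ha)]

lemma Cm_eq (hn : 1 ≤ n) (c : Par) (y : I4 n → ℝ) (i j : Fin n) :
    Cm c y i j = -(tau n)⁻¹ * (bv c y i * (Hm n (W4 y) *ᵥ av c y) j -
      av c y i * (Hm n (W4 y) *ᵥ bv c y) j - (Hm n (W4 y) *ᵥ bv c y) i * av c y j +
      (Hm n (W4 y) *ᵥ av c y) i * bv c y j) := by
  have t0 : tau n ≠ 0 := by rw [tau_eq]; exact (pow_pos (sx_pos hn) 4).ne'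
  have hs : (W4 y)ᵀ = W4 y := by
    have := Wy_herm (n := n) fun k => y (.inl k)
    rwa [IsHermitian, conjTranspose_eq_transpose_of_trivial] at this
  have e : ∀ v : Fin n → ℝ, v ᵥ* W4 y = W4 y *ᵥ v := fun v => by
    rw [← mulVec_transpose, hs]
  simp only [Cm, Og, Matrix.sub_mul, Matrix.mul_sub, vecMulVec_mul, mul_vecMulVec, e,
    Matrix.sub_apply, vecMulVec_apply, Hm, smul_mulVec, sub_mulVec, one_mulVec, Pi.smul_apply,
    Pi.sub_apply, smul_eq_mul]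
  field_simp; ring

lemma AnV.mono {i j : Fin n} {r N N' : ℝ} {f f' : ℝ → Fin n → ℝ} {F : ℂ → Fin n → ℂ}
    (h : AnV i j r N f F) (h0 : 0 ≤ N) (hN : N ≤ N') (e : ∀ u, f u = f' u) :
    AnV i j r N' f' F := by
  have h2 : N ^ 2 ≤ N' ^ 2 := pow_le_pow_left₀ h0 hN 2
  exact ⟨h.diff, fun t ht k => e t ▸ h.real t ht k,
    fun z hz => ⟨(h.ent z hz).1.trans h2, (h.ent z hz).2.trans h2⟩,
    fun z hz => (h.nrm z hz).trans h2, fun z hz => (h.lip z hz).trans (by gcongr)⟩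

lemma exists_kap {ω : (Fin 4 → ℝ) → ℝ} (hω : Adm ω) : ∃ κ δ : ℝ, 0 < κ ∧ 0 < δ ∧
    ∀ q ∈ tsupport ω, ∀ q' : Fin 4 → ℝ, |q 0 - q' 0| ≤ δ → |q 1 - q' 1| ≤ δ → |q 2 - q' 2| ≤ δ →
      Nr κ q' := by
  have hc : IsCompact (tsupport ω) := hω.2.1
  obtain ⟨m, m0, hm⟩ := hc.exists_forall_le' (f := fun q => min (q 0) (q 0 * q 1 - q 2 ^ 2))
    (by fun_prop) (a := 0) fun q hq => lt_min (hω.2.2 hq).1 (sub_pos.2 (hω.2.2 hq).2.1)
  obtain ⟨R, R0, hR⟩ := hc.isBounded.exists_pos_norm_le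
  refine ⟨min (m / 2) (R + 1)⁻¹, min 1 (m / (8 * R + 4)), by positivity, by positivity,
    fun q hq q' h0 h1 h2 => ?_⟩
  set δ := min 1 (m / (8 * R + 4))
  have d1 : δ ≤ 1 := min_le_left _ _
  have d2 : δ * (8 * R + 4) ≤ m := (le_div_iff₀ (by positivity)).1 (min_le_right _ _)
  have d0 : 0 ≤ δ := (abs_nonneg _).trans h0
  have r : ∀ k, |q k| ≤ R := fun k => (norm_le_pi_norm q k).trans (hR q hq)
  have a1 := (le_min_iff.1 (hm q hq)).1
  have a2 := (le_min_iff.1 (hm q hq)).2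
  have k1 : min (m / 2) (R + 1)⁻¹ ≤ m / 2 := min_le_left _ _
  have k2 : R + 1 ≤ (min (m / 2) (R + 1)⁻¹)⁻¹ := by
    rw [le_inv_comm₀ (by positivity) (by positivity)]; exact min_le_right _ _
  have b1 : |q' 1| ≤ R + 1 := by
    have := abs_sub_abs_le_abs_sub (q' 1) (q 1)
    rw [abs_sub_comm] at this; linarith [r 1]
  have b2 : |q 2 + q' 2| ≤ 2 * R + 1 := by
    have := abs_sub_abs_le_abs_sub (q' 2) (q 2)
    rw [abs_sub_comm] at this; linarith [r 2, abs_add_le (q 2) (q' 2)]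
  have c1 : |(q 0 - q' 0) * q' 1| ≤ δ * (R + 1) := by rw [abs_mul]; gcongr
  have c2 : |q 0 * (q 1 - q' 1)| ≤ R * δ := by rw [abs_mul]; gcongr; exact r 0
  have c3 : |(q 2 - q' 2) * (q 2 + q' 2)| ≤ δ * (2 * R + 1) := by rw [abs_mul]; gcongr
  have dR : 0 ≤ δ * R := by positivity
  refine ⟨?_, ?_, ?_, ?_⟩
  · linarith [(abs_le.1 h0).2]
  · linarith [(abs_le.1 c1).2, (abs_le.1 c2).2, (abs_le.1 c3).1]
  · linarith [(abs_le.1 h0).1, (abs_le.1 (r 0)).2]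
  · linarith [(abs_le.1 b1).2]

/-- the four continued vectors -/
lemma four (hr : ResStmt) (hn : 1 ≤ n) {c : Par} (hc : c.Ok) {Λ : ℝ} (hΛ : 1 ≤ Λ)
    {y : I4 n → ℝ} (hy : Good c Λ y) (p : Pair n) : ∃ A A' B B' : ℂ → Fin n → ℂ,
    AnV p.1.1 p.1.2 (4 * Λ)⁻¹ (8 * (c.l + c.l') ^ 2 * Λ ^ 2) (fun u => av c (sh y p u)) A ∧
    AnV p.1.1 p.1.2 (4 * Λ)⁻¹ (8 * (c.l + c.l') ^ 2 * Λ ^ 2)
      (fun u => Hm n (W4 (sh y p u)) *ᵥ av c (sh y p u)) A' ∧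
    AnV p.1.1 p.1.2 (4 * Λ)⁻¹ (8 * (c.l + c.l') ^ 2 * Λ ^ 2) (fun u => bv c (sh y p u)) B ∧
    AnV p.1.1 p.1.2 (4 * Λ)⁻¹ (8 * (c.l + c.l') ^ 2 * Λ ^ 2)
      (fun u => Hm n (W4 (sh y p u)) *ᵥ bv c (sh y p u)) B' := by
  obtain ⟨-, -, -, l1, l2⟩ := hc
  obtain ⟨A, A', a1, a2⟩ := hr n c.l' Λ (W4 y) (x1 y) p.1.1 p.1.2 hn l2 hΛ (Wy_herm _) hy.1
  obtain ⟨B, B', b1, b2⟩ := hr n c.l Λ (W4 y) (x2 y) p.1.1 p.1.2 hn l1 hΛ (Wy_herm _) hy.2
  have m1 : 8 * c.l' ^ 2 * Λ ^ 2 ≤ 8 * (c.l + c.l') ^ 2 * Λ ^ 2 := by gcongr; linarith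
  have m2 : 8 * c.l ^ 2 * Λ ^ 2 ≤ 8 * (c.l + c.l') ^ 2 * Λ ^ 2 := by gcongr; linarith
  exact ⟨A, A', B, B',
    AnV.mono a1 (by positivity) m1 fun u => by simp only [av, W4_sh hn, x1_sh],
    AnV.mono a2 (by positivity) m1 fun u => by simp only [av, W4_sh hn, x1_sh],
    AnV.mono b1 (by positivity) m2 fun u => by simp only [bv, W4_sh hn, x2_sh],
    AnV.mono b2 (by positivity) m2 fun u => by simp only [bv, W4_sh hn, x2_sh]⟩

section pieces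
variable {c : Par} {y : I4 n → ℝ} {p : Pair n} {r N t : ℝ} {A A' B B' : ℂ → Fin n → ℂ}

lemma dot_cx {i j : Fin n} {f g : ℝ → Fin n → ℝ} (a : AnV i j r N f A) (b : AnV i j r N g B) :
    DifferentiableOn ℂ (fun z => ∑ k, A z k * B z k) (ball 0 r) ∧
    (∀ z ∈ ball (0 : ℂ) r, ‖∑ k, A z k * B z k‖ ≤ N ^ 2) ∧
    ∀ u : ℝ, |u| < r → ∑ k, A u k * B u k = (f u ⬝ᵥ g u : ℝ) :=
  ⟨DifferentiableOn.fun_sum fun k _ => (a.diff k).mul (b.diff k),
    fun z hz => norm_dot (a.nrm z hz) (b.nrm z hz), fun u hu => by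
      simp only [a.real u hu, b.real u hu, dotProduct]; push_cast; rfl⟩

/-- the vector field -/
lemma bd_X (hn : 1 ≤ n) (hr : 0 < r) (a : AnV p.1.1 p.1.2 r N (fun u => av c (sh y p u)) A)
    (a' : AnV p.1.1 p.1.2 r N (fun u => Hm n (W4 (sh y p u)) *ᵥ av c (sh y p u)) A')
    (b : AnV p.1.1 p.1.2 r N (fun u => bv c (sh y p u)) B)
    (b' : AnV p.1.1 p.1.2 r N (fun u => Hm n (W4 (sh y p u)) *ᵥ bv c (sh y p u)) B')
    (ht : |t - y (ip p)| ≤ √n * r / 2) :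
    Bd (fun x => Xf c (update y (ip p) x) (ip p)) t (4 * N ^ 2 / (√n * tau n)) (8 / (√n * r)) := by
  have n0 : (0 : ℝ) < n := by exact_mod_cast hn
  have s0 : 0 < √(n : ℝ) := Real.sqrt_pos.2 n0
  have t0 : 0 < tau n := by rw [tau_eq]; exact pow_pos (sx_pos hn) 4
  refine bd_aff (F := fun z => ((√n * -(tau n)⁻¹ : ℝ) : ℂ) * (B z p.1.1 * A' z p.1.2 -
    A z p.1.1 * B' z p.1.2 - B' z p.1.1 * A z p.1.2 + A' z p.1.1 * B z p.1.2)) hr s0
    ((((((b.diff _).mul (a'.diff _)).sub ((a.diff _).mul (b'.diff _))).sub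
      ((b'.diff _).mul (a.diff _))).add ((a'.diff _).mul (b.diff _))).const_mul _)
    (fun z hz => ?_) ht fun u hu => ?_
  · have e1 := norm_ent n0 (b.ent z hz).1 (a'.ent z hz).2
    have e2 := norm_ent n0 (a.ent z hz).1 (b'.ent z hz).2
    have e3 := norm_ent n0 (b'.ent z hz).1 (a.ent z hz).2
    have e4 := norm_ent n0 (a'.ent z hz).1 (b.ent z hz).2
    have e5 : ‖B z p.1.1 * A' z p.1.2 - A z p.1.1 * B' z p.1.2 - B' z p.1.1 * A z p.1.2 +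
        A' z p.1.1 * B z p.1.2‖ ≤ 4 * (N ^ 2 / n) :=
      (norm_add_le_of_le (norm_sub_le_of_le (norm_sub_le_of_le e1 e2) e3) e4).trans_eq (by ring)
    rw [norm_mul, Complex.norm_real, Real.norm_eq_abs, mul_neg, abs_neg, abs_of_pos (by positivity)]
    refine (mul_le_mul_of_nonneg_left e5 (by positivity)).trans_eq ?_
    field_simp
    rw [Real.sq_sqrt n0.le, mul_comm]
  · change _ = ((√n * Cm c (sh y p u) p.1.1 p.1.2 : ℝ) : ℂ)
    rw [Cm_eq hn]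
    simp only [a.real u hu, a'.real u hu, b.real u hu, b'.real u hu]
    push_cast; ring

/-- the invariants -/
lemma bd_q (hn : 1 ≤ n) (hr : 0 < r) (hr1 : r ≤ 1) (hN : 5 ≤ N ^ 2)
    (a : AnV p.1.1 p.1.2 r N (fun u => av c (sh y p u)) A)
    (b : AnV p.1.1 p.1.2 r N (fun u => bv c (sh y p u)) B)
    (ht : |t - y (ip p)| ≤ √n * r / 2) (h3 : q4 c (update y (ip p) t) 3 ≤ 2) (k : Fin 4) :
    Bd (fun x => q4 c (update y (ip p) x) k) t (N ^ 2) (8 / (√n * r)) := by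
  have n1 : (1 : ℝ) ≤ n := by exact_mod_cast hn
  have s0 : 0 < √(n : ℝ) := Real.sqrt_pos.2 (by linarith)
  fin_cases k
  · obtain ⟨d1, d2, d3⟩ := dot_cx a a
    exact bd_aff hr s0 d1 d2 ht d3
  · obtain ⟨d1, d2, d3⟩ := dot_cx b b
    exact bd_aff hr s0 d1 d2 ht d3
  · obtain ⟨d1, d2, d3⟩ := dot_cx a b
    exact bd_aff hr s0 d1 d2 ht d3
  · set c0 : ℝ := ∑ a ∈ univ.erase (ip p), y a * y a with hc0
    have c00 : 0 ≤ c0 := sum_nonneg fun _ _ => mul_self_nonneg _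
    have e : ∀ x, q4 c (update y (ip p) x) 3 = (c0 + x ^ 2) / (n : ℝ) ^ 3 := fun x => by
      rw [← dot_update]; rfl
    have n3 : (n : ℝ) ≤ (n : ℝ) ^ 3 := le_self_pow₀ n1 (by norm_num)
    rw [e, div_le_iff₀ (by positivity)] at h3
    have h := bd_of_cx (t := t) (A := N ^ 2) (ρ := √n * r / 2)
      (F := fun z => ((c0 : ℂ) + z ^ 2) / (n : ℂ) ^ 3) (by positivity) (by fun_prop) fun z hz => by
        have z1 : ‖z - t‖ < √n * r / 2 := mem_ball_iff_norm.1 hz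
        have z2 : ‖z‖ ≤ |t| + √n / 2 := by
          have := norm_le_norm_add_norm_sub' z t
          rw [Complex.norm_real, Real.norm_eq_abs] at this
          nlinarith
        have z3 : ‖z‖ ^ 2 ≤ 2 * t ^ 2 + n := by
          have z4 := pow_le_pow_left₀ (norm_nonneg _) z2 2
          nlinarith [Real.sq_sqrt (show (0 : ℝ) ≤ n by linarith), sq_abs t,
            sq_nonneg (|t| - √n / 2)]
        have z5 := norm_add_le (c0 : ℂ) (z ^ 2)
        rw [Complex.norm_real, Real.norm_eq_abs, abs_of_nonneg c00, norm_pow] at z5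
        rw [norm_div, norm_pow, Complex.norm_natCast, div_le_iff₀ (by positivity)]
        nlinarith [mul_le_mul_of_nonneg_right hN (show (0 : ℝ) ≤ (n : ℝ) ^ 3 by positivity)]
    rw [show 4 / (√n * r / 2) = 8 / (√n * r) by field_simp; norm_num] at h
    refine h.congr (Eventually.of_forall fun x => ?_)
    change q4 c (update y (ip p) x) 3 = _
    rw [e, ← Complex.ofReal_re ((c0 + x ^ 2) / (n : ℝ) ^ 3)]
    push_cast; rfl

end pieces

lemma three_le : (3 : WithTop ℕ∞) ≤ ((⊤ : ℕ∞) : WithTop ℕ∞) :=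
  WithTop.coe_le_coe.2 (le_top : (3 : ℕ∞) ≤ ⊤)

/-- the final count -/
lemma count {f : ℝ → ℝ} {t s x τ a M K w Z : ℝ} (x1 : 1 ≤ x) (hs : s = x ^ 3) (τ1 : 1 ≤ τ)
    (a0 : 0 ≤ a) (M1 : 1 ≤ M) (K1 : 1 ≤ K) (w1 : s⁻¹ ≤ w) (w3 : w ≤ 3)
    (hZ : a * M ^ 3 * (1 + 3 * K) ≤ Z)
    (h : ∀ m : ℕ, m ≤ 3 → |iteratedDeriv m f t| ≤
      a / (s * τ) * (M / s) ^ m + a / (s * τ) * (K * w) * (M / x) ^ m) :
    |f t| ≤ Z ∧ |deriv f t| ≤ Z ∧ |iteratedDeriv 3 f t| ≤ Z * (s ^ 2 * τ)⁻¹ * w := by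
  have s1 : 1 ≤ s := hs ▸ one_le_pow₀ x1
  have s2 : 0 < s⁻¹ := by positivity
  have w0 : 0 ≤ w := by linarith
  have M3 : M ≤ M ^ 3 := le_self_pow₀ M1 (by norm_num)
  have b1 : a / (s * τ) ≤ a := div_le_self a0 (one_le_mul_of_one_le_of_one_le s1 τ1)
  have low : ∀ m : ℕ, m ≤ 1 → |iteratedDeriv m f t| ≤ Z := fun m hm => by
    have p : ∀ u : ℝ, 1 ≤ u → (M / u) ^ m ≤ M ^ 3 := fun u hu =>
      (pow_le_pow_left₀ (by positivity) (div_le_self (by linarith) hu) m).trans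
        (pow_le_pow_right₀ M1 (by omega))
    refine (h m (by omega)).trans (le_trans ?_ hZ)
    calc _ ≤ a * M ^ 3 + a * (K * 3) * M ^ 3 := by
          gcongr
          · exact p s s1
          · exact p x x1
      _ = _ := by ring
  refine ⟨by simpa using low 0 (by norm_num), by simpa using low 1 le_rfl, (h 3 le_rfl).trans ?_⟩
  have e1 : (M / x) ^ 3 = M ^ 3 * s⁻¹ := by rw [hs]; field_simp
  have e2 : (M / s) ^ 3 ≤ M ^ 3 * s⁻¹ * w := by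
    have i1 : s⁻¹ ≤ 1 := inv_le_one_of_one_le₀ s1
    have i2 : s⁻¹ * s⁻¹ ≤ w := by nlinarith
    calc _ = M ^ 3 * s⁻¹ * (s⁻¹ * s⁻¹) := by field_simp
      _ ≤ _ := by gcongr
  rw [e1]
  calc _ ≤ a / (s * τ) * (M ^ 3 * s⁻¹ * w) + a / (s * τ) * (3 * K * w) * (M ^ 3 * s⁻¹) := by
        gcongr; linarith
    _ = a * M ^ 3 * (1 + 3 * K) * (s ^ 2 * τ)⁻¹ * w := by field_simp
    _ ≤ _ := by gcongr

end Crest.Agent.T157.Sw14.Der91

namespace Crest.Agent.T157.Sw14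

open Matrix Filter Topology Finset Real Function Metric Der91
open Crest.ProbabilityR.SpinGlassDynamics Crest.Agent.T157.E Crest.Agent.T157.Eig
open Crest.Agent.T157.St Crest.Agent.T157.Ed Crest.Agent.T157.Cq

set_option maxHeartbeats 1600000 in
/-- **derivatives in one coupling** -/
theorem derGlue : DerGlue := by
  intro hkap hsm hres hK c hc ω hω
  obtain ⟨κ, δ, κ0, δ0, hκ⟩ := exists_kap hω
  have hω3 : ContDiff ℝ 3 ω := hω.1.of_le three_le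
  obtain ⟨Cω, Cω1, hCω⟩ := exists_bd hω3 hω.2.1
  obtain ⟨CK, kK, CK1, hCK⟩ := hK c hc κ κ0
  set L := c.l + c.l' with hL
  have L1 : 1 ≤ L := by linarith [hc.2.2.2.1, hc.2.2.2.2]
  have L4 : 1 ≤ L ^ 4 := one_le_pow₀ L1
  set M0 := 8192 * L ^ 4 + 16 * CK with hM0
  set Z0 := 1536 * Cω * L ^ 4 * M0 ^ 3 * (1 + 3 * CK) with hZ0
  have Z00 : 0 ≤ Z0 := by positivity
  have d1 : 0 ≤ 512 * L ^ 4 / δ := by positivity
  refine ⟨Z0 + 8 + 2 * CK + 512 * L ^ 4 / δ, 3 * kK + 19, by linarith,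
    fun n y Λ φ hn hΛ hy => ?_⟩
  set C := Z0 + 8 + 2 * CK + 512 * L ^ 4 / δ with hC
  obtain ⟨w, w0, w1, hw⟩ : ∃ w : Fin n → ℝ, (∀ i, 0 ≤ w i) ∧ ∑ i, w i ^ 2 ≤ 1 ∧
      (Nr κ (q4 c y) → ∀ p : Pair n, ∃ K : ℂ → ℂ,
        DifferentiableOn ℂ K (ball 0 (CK * Λ ^ kK * sx n ^ 2)⁻¹) ∧
        (∀ t : ℝ, |t| < (CK * Λ ^ kK * sx n ^ 2)⁻¹ → K t = Kp c φ (sh y p t)) ∧
        ∀ z ∈ ball (0 : ℂ) (CK * Λ ^ kK * sx n ^ 2)⁻¹,
          ‖K z - K 0‖ ≤ CK * (w p.1.1 + w p.1.2 + (√n)⁻¹)) := by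
    by_cases h : Nr κ (q4 c y)
    · obtain ⟨w, w0, w1, hw⟩ := hCK n y Λ φ hn hΛ hy h
      exact ⟨w, w0, w1, fun _ => hw⟩
    · exact ⟨0, fun _ => le_rfl, by simp, fun h' => absurd h' h⟩
  refine ⟨w, w0, w1, fun p t ht => ?_⟩
  have n1 : (1 : ℝ) ≤ n := by exact_mod_cast hn
  have x1 := one_le_sx hn
  have hs := sqrt_eq n
  have s1 : 1 ≤ √(n : ℝ) := hs ▸ one_le_pow₀ x1
  have xs : sx n ≤ √(n : ℝ) := hs ▸ le_self_pow₀ x1 (by norm_num)
  have τ1 : 1 ≤ tau n := tau_eq n ▸ one_le_pow₀ x1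
  have wle : ∀ i, w i ≤ 1 := fun i => by
    have := (single_le_sum (f := fun i => w i ^ 2) (fun _ _ => sq_nonneg _) (mem_univ i)).trans w1
    nlinarith [w0 i]
  have si : (√(n : ℝ))⁻¹ ≤ 1 := inv_le_one_of_one_le₀ s1
  have pw : ∀ j, j ≤ 3 * kK + 19 → Λ ^ j ≤ Λ ^ (3 * kK + 19) := fun j hj =>
    pow_le_pow_right₀ hΛ hj
  set N := 8 * L ^ 2 * Λ ^ 2 with hN
  have N2 : N ^ 2 = 64 * L ^ 4 * Λ ^ 4 := by rw [hN]; ring
  have Λ4 : 1 ≤ Λ ^ 4 := one_le_pow₀ hΛ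
  have N64 : 64 ≤ N ^ 2 := by
    have := one_le_mul_of_one_le_of_one_le L4 Λ4
    rw [N2]; linarith
  have ΛK : 1 ≤ Λ ^ kK := one_le_pow₀ hΛ
  set M := 128 * N ^ 2 * Λ + 16 * CK * Λ ^ kK with hM
  have p1 : 0 ≤ 64 * N ^ 2 * Λ := by positivity
  have p2 : 0 ≤ 8 * CK * Λ ^ kK := by positivity
  have M1 : 1 ≤ M := by
    have := mul_le_mul N64 hΛ zero_le_one (sq_nonneg N)
    linarith
  rw [show (n : ℝ) * tau n = √n ^ 2 * tau n by rw [Real.sq_sqrt (by linarith)]]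
  refine count (a := 24 * Cω * N ^ 2) (M := M) (K := CK) x1 hs τ1 (by positivity) M1 CK1
    (by linarith [w0 p.1.1, w0 p.1.2]) (by linarith [wle p.1.1, wle p.1.2]) ?_ fun m hm => ?_
  · have m1 : M ≤ M0 * Λ ^ (kK + 5) := by
      have p1 : Λ ^ 5 ≤ Λ ^ (kK + 5) := pow_le_pow_right₀ hΛ (by omega)
      have p2 : Λ ^ kK ≤ Λ ^ (kK + 5) := pow_le_pow_right₀ hΛ (by omega)
      calc M = 8192 * L ^ 4 * Λ ^ 5 + 16 * CK * Λ ^ kK := by rw [hM, N2]; ring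
        _ ≤ 8192 * L ^ 4 * Λ ^ (kK + 5) + 16 * CK * Λ ^ (kK + 5) := by gcongr
        _ = _ := by rw [hM0]; ring
    calc _ ≤ 24 * Cω * N ^ 2 * (M0 * Λ ^ (kK + 5)) ^ 3 * (1 + 3 * CK) := by gcongr
      _ = Z0 * Λ ^ (3 * kK + 19) := by rw [N2, hZ0]; ring
      _ ≤ _ := by gcongr; linarith
  have hq : ContDiff ℝ 3 fun x => q4 c (update y (ip p) x) :=
    ((hsm n c hn hc).2.1.of_le three_le).comp (contDiff_update 3 y (ip p))
  by_cases hin : q4 c (update y (ip p) t) ∈ tsupport ω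
  swap
  · have e : hp c ω φ y p =ᶠ[𝓝 t] fun _ => 0 := by
      filter_upwards [hq.continuous.continuousAt.eventually
        (notMem_tsupport_iff_eventuallyEq.1 hin)] with x hx
      simp only [hp, Hf]
      rw [hx, Pi.zero_apply, zero_mul, mul_zero]
    rw [e.iteratedDeriv_eq, iteratedDeriv_const, ite_self, abs_zero]
    have := w0 p.1.1
    have := w0 p.1.2
    positivity
  obtain ⟨A, A', B, B', a, a', b, b'⟩ := four hres hn hc hΛ hy p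
  rw [← hL, ← hN] at a a' b b'
  clear hCK hK hsm hres hZ0 hM0
  clear_value Z0 M0 N L
  have r0 : 0 < (4 * Λ)⁻¹ := by positivity
  have tb : ∀ {u : ℝ} (j : ℕ), 0 < u → u ≤ C → j ≤ 3 * kK + 19 →
      |t - y (ip p)| ≤ sx n / (u * Λ ^ j) := fun j u0 hu hj => by
    refine ht.trans ?_
    gcongr
  have t1 : |t - y (ip p)| ≤ √n * (4 * Λ)⁻¹ / 2 := by
    refine (tb 1 (by norm_num : (0 : ℝ) < 8) (by linarith) (by omega)).trans ?_
    calc _ ≤ √n / (8 * Λ ^ 1) := by gcongr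
      _ = _ := by field_simp; ring
  have t2 : |t - y (ip p)| ≤ √n * (CK * Λ ^ kK * sx n ^ 2)⁻¹ / 2 := by
    refine (tb kK (by linarith : 0 < 2 * CK) (by linarith) (by omega)).trans_eq ?_
    rw [hs]; field_simp
  set u := (t - y (ip p)) / √n with hu
  have ut : sh y p u = update y (ip p) t := by
    rw [sh, hu]; congr 1; field_simp; ring
  have ua : |u| = |t - y (ip p)| / √n := by rw [hu, abs_div, abs_of_pos (a := √n) (by linarith)]
  have u1 : |u| < (4 * Λ)⁻¹ := by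
    rw [ua, div_lt_iff₀ (by linarith)]
    have := mul_pos (show 0 < √(n : ℝ) by linarith) r0
    linarith
  have u2 : 2 * N ^ 2 / (4 * Λ)⁻¹ * |u| ≤ δ := by
    have h1 := tb 5 (by positivity : 0 < 512 * L ^ 4 / δ) (by linarith) (by omega)
    have h2 : |u| ≤ 1 / (512 * L ^ 4 / δ * Λ ^ 5) := by
      rw [ua, div_le_iff₀ (by linarith)]
      refine h1.trans ?_
      rw [div_mul_eq_mul_div 1, one_mul]; gcongr
    calc _ ≤ 2 * N ^ 2 / (4 * Λ)⁻¹ * (1 / (512 * L ^ 4 / δ * Λ ^ 5)) := by gcongr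
      _ = δ := by rw [N2]; field_simp; norm_num
  have z0 : |(0 : ℝ)| < (4 * Λ)⁻¹ := by rwa [abs_zero]
  have nr : Nr κ (q4 c y) := by
    obtain ⟨e1, e2, e3⟩ := dot_cx a a
    obtain ⟨f1, f2, f3⟩ := dot_cx b b
    obtain ⟨g1, g2, g3⟩ := dot_cx a b
    have i1 := (near e1 e2 u1 (e3 u u1) (e3 0 z0)).trans u2
    have i2 := (near f1 f2 u1 (f3 u u1) (f3 0 z0)).trans u2
    have i3 := (near g1 g2 u1 (g3 u u1) (g3 0 z0)).trans u2
    simp only [ut, sh_zero] at i1 i2 i3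
    exact hκ _ hin _ i1 i2 i3
  obtain ⟨K, K1, K2, K3⟩ := hw nr p
  have rK : 0 < (CK * Λ ^ kK * sx n ^ 2)⁻¹ := by positivity
  have K0 : K 0 = Kp c φ y := by
    have := K2 0 (by rwa [abs_zero])
    rwa [sh_zero] at this
  have bK := bd_aff (F := fun z => K z - K 0) rK (by linarith : 0 < √(n : ℝ)) (K1.sub_const _) K3 t2
    (f := fun x => Kp c φ (update y (ip p) x) - Kp c φ y) fun v hv => by
      rw [K2 v hv, K0]; push_cast; rfl
  have k1 : |Kp c φ y| ≤ 1 := by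
    have hV : ∀ (e : Fin n → ℝ) x, 0 ≤ c.s * sl e x := fun e x =>
      mul_nonneg hc.2.2.1 (sq_nonneg _)
    have := fun W e => (hkap n W c.ε hn hc.1).1 _ _ (hV e) (hV 0)
    exact abs_le.2 ⟨le_trans (by norm_num) (this _ _).1, (this _ _).2.1⟩
  have D0 : 0 ≤ 8 / (√n * (4 * Λ)⁻¹) := by positivity
  have bX := bd_X hn r0 a a' b b' t1
  have bq := bd_comp hω3 hq hCω (by linarith : 1 ≤ N ^ 2) D0 (bd_q hn r0
    (inv_le_one_of_one_le₀ (by linarith)) (by linarith) a b t1 (hω.2.2 hin).2.2)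
  have bY := (bX.mono le_rfl D0 (le_mul_of_one_le_left D0 (by linarith : 1 ≤ N ^ 2))).mul bq
  have e1 : 2 * (N ^ 2 * (8 / (√n * (4 * Λ)⁻¹))) = 64 * N ^ 2 * Λ / √n := by field_simp; ring
  have e2 : 8 / (√n * (CK * Λ ^ kK * sx n ^ 2)⁻¹) = 8 * CK * Λ ^ kK / sx n := by
    rw [hs]; field_simp
  have e3 : 4 * N ^ 2 / (√n * tau n) * (6 * Cω) = 24 * Cω * N ^ 2 / (√n * tau n) := by ring
  rw [e1, e3] at bY
  rw [e2] at bK
  have T1 := (bY.mono (D' := M / 2 / √n) le_rfl (by positivity) (by gcongr; linarith)).mul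
    (bd_const k1 (by positivity))
  have T2 := (bY.mono (D' := M / 2 / sx n) le_rfl (by positivity) (by gcongr; linarith)).mul
    (bK.mono le_rfl (by positivity) (by gcongr; linarith))
  have T3 := bd_add T1 T2 hm
  rw [mul_one, show 2 * (M / 2 / √n) = M / √n by ring,
    show 2 * (M / 2 / sx n) = M / sx n by ring] at T3
  convert T3 using 3
  ext x
  simp only [hp, Hf]; ring

end Crest.Agent.T157.Sw14

end
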