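import Crest.Agent.T157.SwC_77

/-!
# Row 157, part C, SWAP for coins (helper77), F: the flow identity; the block (F) of `SwDef_14`
-/

set_option autoImplicit false
set_option linter.all false

noncomputable section

namespace Crest.Agent.T157.Sw77

open MeasureTheory ProbabilityTheory Matrix Filter Topology Finset Real Function
open Crest.ProbabilityR.SpinGlassDynamics Crest.Agent.T157.E Crest.Agent.T157.Eig
open Crest.Agent.T157.St Crest.Agent.T157.Ed Crest.Agent.T157.Cond Crest.Agent.T157.Cq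

variable {n : ℕ} {l l' ε s : ℝ}

/-- the rotation of the swap -/
def Rq (l l' φ : ℝ) (y : Jx n → ℝ) : Mat n := rot (unitv (av l' y)) (prp (av l' y) (bv l y)) φ
/-- the killing probability along the flow -/
def Kp (ε s l l' φ : ℝ) (y : Jx n → ℝ) : ℝ :=
  kap (Rq l l' φ y * Wq y * (Rq l l' φ y)ᵀ) ε fun x => s * sl (Rq l l' φ y *ᵥ unitv (av l' y)) x
/-- the nondegenerate region -/
def UU (l l' : ℝ) (y : Jx n → ℝ) : Prop :=
  0 < av l' y ⬝ᵥ av l' y ∧ (av l' y ⬝ᵥ bv l y) ^ 2 < av l' y ⬝ᵥ av l' y * bv l y ⬝ᵥ bv l y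
/-- area of the parallelogram -/
def Dq (l l' : ℝ) (y : Jx n → ℝ) : ℝ :=
  √(av l' y ⬝ᵥ av l' y * bv l y ⬝ᵥ bv l y - (av l' y ⬝ᵥ bv l y) ^ 2)

/-- an invariant cutoff -/
structure Cut (l l' : ℝ) (χ : (Jx n → ℝ) → ℝ) : Prop where
  sm : ContDiff ℝ (⊤ : ℕ∞) χ
  cs : HasCompactSupport χ
  su : ∀ y ∈ tsupport χ, UU l l' y
  inv : ∀ R : Mat n, Rᵀ * R = 1 → ∀ y, χ (act R y) = χ y

theorem UU.on {y : Jx n → ℝ} (h : UU l l' y) :
    Rd7.ON (unitv (av l' y)) (prp (av l' y) (bv l y)) :=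
  ⟨(Swap44.frame h.1 h.2).1, (Swap44.frame h.1 h.2).2.1, (Swap44.frame h.1 h.2).2.2⟩

theorem rot_add {a b : Fin n → ℝ} (h : Rd7.ON a b) (s t : ℝ) :
    rot a b s * rot a b t = rot a b (s + t) := by
  have : ∀ y, (rot a b s * rot a b t) *ᵥ y = rot a b (s + t) *ᵥ y := fun y => by
    rw [← mulVec_mulVec, Rd7.rot_mulVec, Rd7.rot_mulVec, Rd7.rot_mulVec]
    simp only [dotProduct_add, dotProduct_smul, smul_eq_mul, h.aa, h.bb, h.ab, dotProduct_comm b a,
      cos_add, sin_add]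
    ext i
    simp only [Pi.add_apply, Pi.smul_apply, smul_eq_mul]
    ring
  ext i j
  have h1 := congrFun (this (Pi.single j 1)) i
  simpa [mulVec_single_one] using h1

theorem Kp_act (hl : l ≠ 0) (hl' : l' ≠ 0) {y : Jx n → ℝ} (h : UU l l' y) (φ ψ : ℝ) :
    Kp ε s l l' φ (act (Rq l l' ψ y) y) = Kp ε s l l' (ψ + φ) y := by
  have hR : (Rq l l' ψ y)ᵀ * Rq l l' ψ y = 1 := rot_orth' h.on ψ
  have c : ∀ X : Mat n, (Rq l l' ψ y)ᵀ * (Rq l l' ψ y * X) = X := fun X => by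
    rw [← Matrix.mul_assoc, hR, Matrix.one_mul]
  have e : Rq l l' φ (act (Rq l l' ψ y) y) = Rq l l' ψ y * Rq l l' φ y * (Rq l l' ψ y)ᵀ := by
    rw [Rq, av_act hR hl', bv_act hR hl, Swap44.unitv_orth hR, Swap44.prp_orth hR,
      Swap44.rot_orth hR, Rq, Rq]
  have e2 : Rq l l' (ψ + φ) y = Rq l l' ψ y * Rq l l' φ y := (rot_add h.on ψ φ).symm
  rw [Kp, Kp, e, e2, Wq_act, av_act hR hl', Swap44.unitv_orth hR]
  simp only [transpose_mul, transpose_transpose, Matrix.mul_assoc, c, mulVec_mulVec, hR,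
    Matrix.mul_one]

theorem th_unit {y : Jx n → ℝ} (h : UU l l' y) :
    th (av l' y) (bv l y) = Dq l l' y • th (unitv (av l' y)) (prp (av l' y) (bv l y)) := by
  obtain ⟨h0, h1⟩ := h
  rw [Dq]
  generalize av l' y = a at *
  generalize bv l y = b at *
  have hw : (b - ((a ⬝ᵥ b) / (a ⬝ᵥ a)) • a) ⬝ᵥ (b - ((a ⬝ᵥ b) / (a ⬝ᵥ a)) • a) =
      (a ⬝ᵥ a * b ⬝ᵥ b - (a ⬝ᵥ b) ^ 2) / (a ⬝ᵥ a) := by
    simp only [sub_dotProduct, dotProduct_sub, smul_dotProduct, dotProduct_smul, smul_eq_mul,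
      dotProduct_comm b a]
    field_simp
    ring
  have p1 : 0 < √(a ⬝ᵥ a) := sqrt_pos.2 h0
  have p2 : 0 < √(a ⬝ᵥ a * b ⬝ᵥ b - (a ⬝ᵥ b) ^ 2) := sqrt_pos.2 (by linarith)
  ext i j
  simp only [th, prp, unitv, len, hw, Matrix.sub_apply, Matrix.smul_apply, vecMulVec_apply,
    Pi.smul_apply, Pi.sub_apply, smul_eq_mul, sqrt_div' _ h0.le]
  field_simp
  ring

section smooth
variable {F : Type} [NormedAddCommGroup F] [NormedSpace ℝ F] {p : F} {Y : F → Jx n → ℝ}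

theorem SV.Kp (h : SV Y p) (hl : l ≠ 0) (hl' : l' ≠ 0) (hU : UU l l' (Y p)) {c : F → ℝ}
    (hc : ContDiffAt ℝ (⊤ : ℕ∞) c p) : ContDiffAt ℝ (⊤ : ℕ∞) (fun q => Kp ε s l l' (c q) (Y q)) p := by
  have h1 := (h.av hl').unitv fun e => by simpa [e] using hU.1
  have h2 : SM (fun q => Rq l l' (c q) (Y q)) p := h1.rot ((h.av hl').prp (h.bv hl) hU.1 hU.2) hc
  exact ((h2.mul h.Wq).mul h2.tr).kap ε ((h2.mulVec h1).sl s)

theorem SV.Dq (h : SV Y p) (hl : l ≠ 0) (hl' : l' ≠ 0) (hU : UU l l' (Y p)) :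
    ContDiffAt ℝ (⊤ : ℕ∞) (fun q => Dq l l' (Y q)) p :=
  ((((h.av hl').dot (h.av hl')).mul ((h.bv hl).dot (h.bv hl))).sub
    (((h.av hl').dot (h.bv hl)).pow 2)).sqrt (sub_pos.2 hU.2).ne'

theorem cut_mul {χ : (Jx n → ℝ) → ℝ} (hχ : Cut l l' χ) (hY : ContDiff ℝ (⊤ : ℕ∞) Y) {f : F → ℝ}
    (hf : ∀ p, UU l l' (Y p) → ContDiffAt ℝ (⊤ : ℕ∞) f p) :
    ContDiff ℝ (⊤ : ℕ∞) fun q => χ (Y q) * f q := by
  refine contDiff_iff_contDiffAt.2 fun p => ?_
  by_cases hp : Y p ∈ tsupport χ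
  · exact (hχ.sm.comp hY).contDiffAt.mul (hf p (hχ.su _ hp))
  · have := hY.continuous.continuousAt.eventually (notMem_tsupport_iff_eventuallyEq.1 hp)
    exact (contDiffAt_const (c := (0 : ℝ))).congr_of_eventuallyEq
      (this.mono fun q hq => by simp only [hq, Pi.zero_apply, zero_mul])

end smooth

variable {χ : (Jx n → ℝ) → ℝ}

theorem sm_G (hl : l ≠ 0) (hl' : l' ≠ 0) (hχ : Cut l l' χ) :
    ContDiff ℝ (⊤ : ℕ∞) fun p : ℝ × (Jx n → ℝ) => χ p.2 * Kp ε s l l' p.1 p.2 := by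
  refine cut_mul hχ contDiff_snd fun p hp => ?_
  have h : SV (fun p : ℝ × (Jx n → ℝ) => p.2) p := fun c =>
    (contDiffAt_apply ℝ ℝ c p.2).comp p contDiffAt_snd
  exact h.Kp hl hl' hp contDiffAt_fst

/-- **the flow identity** -/
theorem flow (hl : l ≠ 0) (hl' : l' ≠ 0) (hχ : Cut l l' χ) (φ : ℝ) (y : Jx n → ℝ) :
    HasDerivAt (fun ψ => Dq l l' y * (χ y * Kp ε s l l' ψ y))
      (fderiv ℝ (fun y => χ y * Kp ε s l l' φ y) y (X0 l l' y)) φ := by
  have dG : DifferentiableAt ℝ (fun y => χ y * Kp ε s l l' φ y) y :=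
    (cut_mul hχ contDiff_id fun y hy =>
      (SV.id y).Kp hl hl' hy contDiffAt_const).differentiable (by simp) y
  by_cases hy : y ∈ tsupport χ
  · have hU := hχ.su y hy
    have h1 := hasDerivAt_act (unitv (av l' y)) (prp (av l' y) (bv l y)) y
    have h2 := dG.hasFDerivAt.comp_hasDerivAt_of_eq 0 h1 (by rw [Rd7.rot_zero, act_one])
    have h4 : ((fun y => χ y * Kp ε s l l' φ y) ∘
        fun t => act (rot (unitv (av l' y)) (prp (av l' y) (bv l y)) t) y) =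
        fun t => χ y * Kp ε s l l' (t + φ) y := by
      funext t
      rw [Function.comp_apply, hχ.inv _ (rot_orth' hU.on t), ← Kp_act hl hl' hU, Rq]
    rw [h4, ← sub_self φ] at h2
    have h5 := (h2.comp_sub_const φ φ).const_mul (Dq l l' y)
    rw [X0, th_unit hU, (gen_lin' y).map_smul, map_smul, smul_eq_mul]
    simpa only [sub_add_cancel] using h5
  · have h0 := notMem_tsupport_iff_eventuallyEq.1 hy
    have h1 : (fun y => χ y * Kp ε s l l' φ y) =ᶠ[𝓝 y] fun _ => 0 :=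
      h0.mono fun q hq => by simp only [hq, Pi.zero_apply, zero_mul]
    rw [h1.fderiv_eq, h0.eq_of_nhds]
    simpa using hasDerivAt_const φ (0 : ℝ)

theorem swp_eq {y : Jx n → ℝ} (h : UU l l' y) :
    swp ε s (Wq y) (av l' y) (bv l y) = Kp ε s l l' 0 y - Kp ε s l l' (π / 2) y := by
  rw [swp, Kp, Kp, Rq, Rq, Rd7.rot_zero, Swap44.rot_mulVec h.on.aa h.on.ab]
  simp

/-! ### the words of `SwDef_14` -/

open Sw14 (Par Adm wt q4 Xf Hf Rt Og ps trp P4 isC ip hp Er)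

variable {c : Par} {ω : (Fin 4 → ℝ) → ℝ}

theorem l_ne (h : c.Ok) : c.l ≠ 0 := by linarith [h.2.2.2.1]
theorem l_ne' (h : c.Ok) : c.l' ≠ 0 := by linarith [h.2.2.2.2]

theorem Xf_eq (c : Par) (y : Jx n → ℝ) : Xf c y = X0 c.l c.l' y := rfl

theorem Rt_eq {y : Jx n → ℝ} (h : UU l l' y) (φ : ℝ) : Rt φ (av l' y) (bv l y) = Rq l l' φ y := by
  have hD : Dq l l' y ≠ 0 := (sqrt_pos.2 (sub_pos.2 h.2)).ne'
  have e1 : Og (av l' y) (bv l y) = _ := th_unit h
  have e2 : ps (av l' y) (bv l y) = (Dq l l' y)⁻¹ := rfl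
  have o := h.on
  rw [Rt, e1, e2, Rq]
  generalize unitv (av l' y) = a at *
  generalize prp (av l' y) (bv l y) = b at *
  have hba : b ⬝ᵥ a = 0 := by rw [dotProduct_comm, o.ab]
  have e3 : th a b * th a b = -(vecMulVec a a + vecMulVec b b) := by
    simp only [th, Matrix.mul_sub, Matrix.sub_mul, vecMulVec_mul_vecMulVec, o.aa, o.bb, o.ab, hba,
      one_smul, zero_smul, vecMulVec_zero]
    abel
  rw [Matrix.smul_mul, Matrix.mul_smul, e3, rot, smul_smul, smul_smul, smul_smul, ← th]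
  have f1 : sin φ * (Dq l l' y)⁻¹ * Dq l l' y = sin φ := by field_simp
  have f2 : (1 - cos φ) * (Dq l l' y)⁻¹ ^ 2 * Dq l l' y * Dq l l' y = 1 - cos φ := by field_simp
  rw [f1, f2]
  module

theorem Kp_eq {y : Jx n → ℝ} (h : UU c.l c.l' y) (φ : ℝ) :
    Sw14.Kp c φ y = Kp c.ε c.s c.l c.l' φ y := by
  have e : Rt φ (Sw14.av c y) (Sw14.bv c y) = Rq c.l c.l' φ y := Rt_eq h φ
  rw [Sw14.Kp, e, Kp, unitv, mulVec_smul]
  rfl

theorem UU_of (hω : Adm ω) {y : Jx n → ℝ} (h : q4 c y ∈ tsupport ω) : UU c.l c.l' y :=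
  ⟨(hω.2.2 h).1, (hω.2.2 h).2.1⟩

theorem Hf_eq (hω : Adm ω) (φ : ℝ) (y : Jx n → ℝ) :
    Hf c ω φ y = ω (q4 c y) * Kp c.ε c.s c.l c.l' φ y := by
  by_cases h : ω (q4 c y) = 0
  · simp [Hf, h]
  · rw [Hf, Kp_eq (UU_of hω (subset_tsupport _ h))]

theorem sm_q4 (hc : c.Ok) : ContDiff ℝ (⊤ : ℕ∞) (q4 (n := n) c) := by
  refine contDiff_iff_contDiffAt.2 fun y => contDiffAt_pi.2 fun i => ?_
  have ha := (SV.id y).av (l_ne' hc)
  have hb := (SV.id y).bv (l_ne hc)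
  fin_cases i
  · exact ha.dot ha
  · exact hb.dot hb
  · exact ha.dot hb
  · exact (ContDiffAt.sum (s := univ) (f := fun k (y : Jx n → ℝ) => y k * y k)
      fun k _ => (SV.id y k).mul (SV.id y k)).div_const _

theorem q4_act (hc : c.Ok) {R : Mat n} (hR : Rᵀ * R = 1) (y : Jx n → ℝ) :
    q4 c (act R y) = q4 c y := by
  have ea : Sw14.av c (act R y) = R *ᵥ Sw14.av c y := av_act hR (l_ne' hc) y
  have eb : Sw14.bv c (act R y) = R *ᵥ Sw14.bv c y := bv_act hR (l_ne hc) y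
  rw [q4, q4, ea, eb, act_dot hR]
  simp only [Swap44.dot_orth hR]

theorem tsupp_q4 (hc : c.Ok) {y : Jx n → ℝ} (h : y ∈ tsupport fun y => ω (q4 c y)) :
    q4 c y ∈ tsupport ω := by
  by_contra h0
  exact notMem_tsupport_iff_eventuallyEq.2 ((sm_q4 hc).continuous.continuousAt.eventually
    (notMem_tsupport_iff_eventuallyEq.1 h0)) h

theorem cut_q4 (hn : 1 ≤ n) (hc : c.Ok) (hω : Adm ω) :
    Cut c.l c.l' fun y : Jx n → ℝ => ω (q4 c y) := by
  refine ⟨hω.1.comp (sm_q4 hc), ?_, fun y hy => UU_of hω (tsupp_q4 hc hy),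
    fun R hR y => by rw [q4_act hc hR]⟩
  refine (isCompact_closedBall (0 : Jx n → ℝ) (1 + 2 * n ^ 3)).of_isClosed_subset
    (isClosed_tsupport _) fun y hy => ?_
  have h1 : y ⬝ᵥ y / (n : ℝ) ^ 3 ≤ 2 := (hω.2.2 (tsupp_q4 hc hy)).2.2
  have n0 : (0 : ℝ) < n := by exact_mod_cast hn
  rw [div_le_iff₀ (by positivity)] at h1
  rw [mem_closedBall_zero_iff, pi_norm_le_iff_of_nonneg (by positivity)]
  intro k
  have h2 : y k * y k ≤ y ⬝ᵥ y :=
    single_le_sum (f := fun k => y k * y k) (fun _ _ => mul_self_nonneg _) (mem_univ k)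
  rw [Real.norm_eq_abs]
  nlinarith [abs_mul_abs_self (y k), abs_nonneg (y k), sq_nonneg (|y k| - 1)]

theorem wtStmt : Sw14.WtStmt := fun ω hω => by
  refine ⟨contDiff_iff_contDiffAt.2 fun q => ?_, hω.2.1.mul_right,
    (tsupport_mul_subset_left (f := ω)).trans hω.2.2⟩
  by_cases hq : q ∈ tsupport ω
  · have h1 := sub_pos.2 (hω.2.2 hq).2.1
    have a := fun i => contDiffAt_apply ℝ ℝ (n := (⊤ : ℕ∞)) i q
    exact hω.1.contDiffAt.mul
      (((((a 0).mul (a 1)).sub ((a 2).pow 2)).sqrt h1.ne').inv (sqrt_pos.2 h1).ne')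
  · exact (contDiffAt_const (c := (0 : ℝ))).congr_of_eventuallyEq
      ((notMem_tsupport_iff_eventuallyEq.1 hq).mono fun q hq => by
        simp only [wt, hq, Pi.zero_apply, zero_mul])

theorem smStmt : Sw14.SmStmt := fun n c hn hc => by
  refine ⟨contDiff_iff_contDiffAt.2 fun y => ((SV.id y).X0 (l_ne hc) (l_ne' hc)).contDiffAt,
    sm_q4 hc, fun ω hω => ?_⟩
  simp only [Hf_eq hω]
  exact sm_G (l_ne hc) (l_ne' hc) (cut_q4 hn hc hω)

theorem deriv_self {ι : Type} [Fintype ι] [DecidableEq ι] {h : (ι → ℝ) → ℝ} (y : ι → ℝ) (k : ι)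
    (hd : DifferentiableAt ℝ h y) : deriv (fun t => h (update y k t)) (y k) = pd h k y := by
  rw [deriv_upd y k (y k) (by rwa [update_eq_self]), update_eq_self]

theorem divStmt : Sw14.DivStmt := fun n c y hn hc => by
  refine ⟨?_, dot_gen (th_tr _ _) y⟩
  rw [← div_X0 (l_ne hc) (l_ne' hc) y]
  exact sum_congr rfl fun k _ => deriv_self (h := fun y => X0 c.l c.l' y k) y k
    (((SV.id y).X0 (l_ne hc) (l_ne' hc) k).differentiableAt (by simp))

theorem flowStmt : Sw14.FlowStmt := fun n c ω φ y hn hc hω => by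
  have hw := wtStmt ω hω
  have h := flow (ε := c.ε) (s := c.s) (l_ne hc) (l_ne' hc) (cut_q4 hn hc hw) φ y
  rw [show Hf c (wt ω) φ = _ from funext fun y => Hf_eq hw φ y]
  refine h.congr_of_eventuallyEq (.of_forall fun ψ => ?_)
  simp only [Hf_eq hω]
  by_cases h0 : ω (q4 c y) = 0
  · simp [wt, h0]
  · have hD : Dq c.l c.l' y ≠ 0 :=
      (sqrt_pos.2 (sub_pos.2 (UU_of hω (subset_tsupport _ h0)).2)).ne'
    have e : wt ω (q4 c y) = ω (q4 c y) * (Dq c.l c.l' y)⁻¹ := rfl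
    rw [e]; field_simp

theorem flowGlue : Sw14.FlowGlue := fun _ _ => flowStmt

theorem steinStmt : Sw14.SteinStmt := by
  intro ι _ _ b H X hH hc hX hd ho
  have s1 : ∀ k, ContDiff ℝ 1 fun y => X y k := fun k => contDiff_pi.1 hX k
  have s2 : ∀ k, ContDiff ℝ 1 fun y => X y k * H y := fun k => (s1 k).mul hH
  have c2 : ∀ k, HasCompactSupport fun y => X y k * H y := fun k => hc.mul_left
  have e : ∀ k y, trp (fun t => X (update y k t) k * H (update y k t)) =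
      er (fun y => X y k * H y) k y := fun k y => by
    rw [trp, er, deriv_upd (h := fun y => X y k * H y) y k 1 ((s2 k).differentiable (by simp) _),
      deriv_upd (h := fun y => X y k * H y) y k (-1) ((s2 k).differentiable (by simp) _)]
  simp only [e]
  refine ⟨fun k => int_er (s2 k) (c2 k) k, ?_⟩
  have e2 : ∀ y, fderiv ℝ H y (X y) = ∑ k, st (fun y => X y k * H y) k y := fun y => by
    have e3 : ∀ k, st (fun y => X y k * H y) k y =
        X y k * pd H k y + H y * (pd (fun y => X y k) k y - y k * X y k) := fun k => by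
      rw [st, pd, fderiv_fun_mul ((s1 k).differentiable (by simp) y) (hH.differentiable (by simp) y)]
      simp only [pd, ContinuousLinearMap.add_apply, ContinuousLinearMap.smul_apply, smul_eq_mul]
      ring
    have e4 : ∑ k, pd (fun y => X y k) k y = 0 := by
      rw [← hd y]
      exact sum_congr rfl fun k _ => (deriv_self y k ((s1 k).differentiable (by simp) y)).symm
    have e5 : ∑ k, y k * X y k = 0 := ho y
    simp only [e3, sum_add_distrib, ← mul_sum, sum_sub_distrib, e4, e5, sub_self, mul_zero,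
      add_zero, sum_pd]
  simp only [e2]
  rw [integral_finset_sum _ fun k _ => int_cc (cont_st (s2 k) k) (supp_st (c2 k) k), sum_filter]
  refine sum_congr rfl fun k _ => ?_
  split_ifs with hb
  · exact stein_c _ (by simp [hb, entryLaw]) (s2 k) (c2 k)
  · exact stein_g _ (by simp [hb, entryLaw]) (s2 k) (c2 k)

theorem sum_isC {n : ℕ} (f : Sw14.I4 n → ℝ) :
    ∑ k ∈ univ.filter (fun k => isC k = true), f k = ∑ p, f (ip p) := by
  rw [sum_filter, Fintype.sum_sum_type, Fintype.sum_sum_type]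
  simp [isC]

theorem cs_Hf {n : ℕ} {c : Par} {ω : (Fin 4 → ℝ) → ℝ} (hn : 1 ≤ n) (hc : c.Ok) (hω : Adm ω)
    (φ : ℝ) : HasCompactSupport (Hf (n := n) c ω φ) := by
  have h : HasCompactSupport fun y : Sw14.I4 n → ℝ => ω (q4 c y) := (cut_q4 hn hc hω).cs
  exact HasCompactSupport.mul_right (f := fun y : Sw14.I4 n → ℝ => ω (q4 c y))
    (f' := Sw14.Kp c φ) h

theorem sm_Hf {n : ℕ} {c : Par} {ω : (Fin 4 → ℝ) → ℝ} (hn : 1 ≤ n) (hc : c.Ok) (hω : Adm ω) :
    ContDiff ℝ 1 fun z : ℝ × (Sw14.I4 n → ℝ) => Hf c ω z.1 z.2 :=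
  ((smStmt n c hn hc).2.2 ω hω).of_le (by simp)

theorem sm_Hf' {n : ℕ} {c : Par} {ω : (Fin 4 → ℝ) → ℝ} (hn : 1 ≤ n) (hc : c.Ok) (hω : Adm ω)
    (φ : ℝ) : ContDiff ℝ 1 (Hf (n := n) c ω φ) :=
  ContDiff.comp (g := fun z : ℝ × (Sw14.I4 n → ℝ) => Hf c ω z.1 z.2) (f := fun y => (φ, y))
    (sm_Hf hn hc hω) (contDiff_const.prodMk contDiff_id)

theorem deriv_int {n : ℕ} {c : Par} {ω : (Fin 4 → ℝ) → ℝ} (hn : 1 ≤ n) (hc : c.Ok) (hω : Adm ω)
    (φ : ℝ) : HasDerivAt (fun φ => ∫ y, Hf c ω φ y ∂P4 n)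
      (∫ y, fderiv ℝ (Hf c (wt ω) φ) y (Xf c y) ∂P4 n) φ := by
  have hH := sm_Hf hn hc hω
  have h : HasCompactSupport fun y : Sw14.I4 n → ℝ => ω (q4 c y) := (cut_q4 hn hc hω).cs
  have h0 : ∀ ψ, ∀ y ∉ tsupport fun y : Sw14.I4 n → ℝ => ω (q4 c y), Hf c ω ψ y = 0 :=
    fun ψ y hy => by
      have : ω (q4 c y) = 0 :=
        image_eq_zero_of_notMem_tsupport (f := fun y : Sw14.I4 n → ℝ => ω (q4 c y)) hy
      rw [Hf, this, zero_mul]
  refine (hasDerivAt_int (P4 n) hH h.isCompact h0 φ).congr_deriv ?_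
  refine integral_congr_ae (.of_forall fun y => ?_)
  have hd' : HasDerivAt ((fun z : ℝ × (Sw14.I4 n → ℝ) => Hf c ω z.1 z.2) ∘ fun ψ : ℝ => (ψ, y))
      (fderiv ℝ (fun z : ℝ × (Sw14.I4 n → ℝ) => Hf c ω z.1 z.2) (φ, y) (1, 0)) φ :=
    HasFDerivAt.comp_hasDerivAt φ (hH.differentiable (by simp) (φ, y)).hasFDerivAt
      ((hasDerivAt_id' φ).prodMk (hasDerivAt_const φ y))
  exact hd'.unique (flowStmt n c ω φ y hn hc hω)

theorem bound_int {n : ℕ} {c : Par} {ω : (Fin 4 → ℝ) → ℝ} (hn : 1 ≤ n) (hc : c.Ok) (hω : Adm ω)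
    {A : Set (Sw14.I4 n → ℝ)} {B₁ B₂ φ : ℝ} (h1 : 0 ≤ B₁) (h2 : ∀ y : Sw14.I4 n → ℝ, Er c ω φ y ≤ B₂)
    (h3 : ∀ y ∈ A, Er c ω φ y ≤ B₁) :
    ‖∫ y, fderiv ℝ (Hf c ω φ) y (Xf c y) ∂P4 n‖ ≤ B₁ + B₂ * (P4 n).real Aᶜ := by
  have B0 : 0 ≤ B₂ := (sum_nonneg fun _ _ => abs_nonneg _).trans (h2 0)
  obtain ⟨i1, e1⟩ := steinStmt _ isC (Hf c ω φ) (Xf c) (sm_Hf' hn hc hω φ) (cs_Hf hn hc hω φ)
    ((smStmt n c hn hc).1.of_le (by simp))
    (fun y => (divStmt n c y hn hc).1) fun y => (divStmt n c y hn hc).2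
  have i1' : ∀ p, Integrable (fun y => trp (hp c ω φ y p)) (P4 n) := fun p => i1 (ip p)
  have e2 : ∫ y, fderiv ℝ (Hf c ω φ) y (Xf c y) ∂P4 n =
      ∫ y, ∑ p, trp (hp c ω φ y p) ∂P4 n := by
    rw [integral_finset_sum _ fun p _ => i1' p]
    exact e1.trans (sum_isC _)
  rw [e2]
  have m := measurableSet_toMeasurable (P4 n) Aᶜ
  have i2 : Integrable ((toMeasurable (P4 n) Aᶜ).indicator fun _ => B₂) (P4 n) :=
    (integrable_const _).indicator m
  refine (norm_integral_le_of_norm_le ((integrable_const B₁).add i2) (.of_forall fun y => ?_)).trans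
    (le_of_eq ?_)
  · refine (abs_sum_le_sum_abs _ _).trans ?_
    by_cases hy : y ∈ A
    · exact (h3 y hy).trans (le_add_of_nonneg_right (Set.indicator_nonneg (fun _ _ => B0) _))
    · rw [Pi.add_apply, Set.indicator_of_mem (subset_toMeasurable _ _ hy)]
      exact (h2 y).trans (le_add_of_nonneg_left h1)
  · simp only [Pi.add_apply]
    rw [integral_add (integrable_const _) i2, integral_indicator_const _ m, integral_const]
    simp [Measure.real, measure_toMeasurable, mul_comm]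

theorem fStmt : Sw14.FStmt := by
  intro n c ω hn hc hω A B₁ B₂ h1 h2 h3
  have B0 : 0 ≤ B₂ := (sum_nonneg fun _ _ => abs_nonneg _).trans (h2 0 0)
  have p0 : (0 : ℝ) ≤ π / 2 := by positivity
  have h := (convex_Icc 0 (π / 2)).norm_image_sub_le_of_norm_hasDerivWithin_le
    (fun φ _ => (deriv_int hn hc hω φ).hasDerivWithinAt)
    (fun φ _ => bound_int hn hc (wtStmt ω hω) h1 (h2 φ) (h3 φ))
    (Set.left_mem_Icc.2 p0) (Set.right_mem_Icc.2 p0)
  have i : ∀ φ, Integrable (Hf c ω φ) (P4 n) := fun φ =>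
    int_cc (sm_Hf' hn hc hω φ).continuous (cs_Hf hn hc hω φ)
  rw [sub_zero, norm_of_nonneg p0] at h
  rw [integral_sub (i _) (i _)]
  have : 0 ≤ B₁ + B₂ * (P4 n).real Aᶜ := by positivity
  exact h.trans (by nlinarith [pi_le_four])

theorem fGlue : Sw14.FGlue := fun _ _ _ _ _ => fStmt

end Crest.Agent.T157.Sw77

end
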