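import Crest.Agent.T157.CqDef_72
import Crest.Agent.T157.LlDef_91

/-!
# Row 157, part C: SWAP for coin couplings.  Definitions and leaves (helper14)

Stein's method along the rotation flow.  All coordinates are collected in `y : I4 n → ℝ`.

* (F) `SmStmt DivStmt FlowStmt SteinStmt` give `FStmt` (`FGlue`);
* (D) `DStmt`, (Y) `ResStmt`, (K) `KGlue`, (C) `DerGlue TrapGlue GcStmt`;
* (P) `PrStmt`, (G) `TrStmt`, `Glue`; `swap_of` gives `Cq.SwapStmt true`.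
-/

set_option autoImplicit false

noncomputable section

namespace Crest.Agent.T157.Sw14

open MeasureTheory ProbabilityTheory Matrix Filter Topology Finset Real Function
open Crest.ProbabilityR.SpinGlassDynamics Crest.Agent.T157.E Crest.Agent.T157.Eig
open Crest.Agent.T157.St Crest.Agent.T157.Ed Crest.Agent.T157.Cq
open Crest.Agent.T157.Ll (Dl Res)

/-- parameters -/
structure Par where
  ε : ℝ
  s : ℝ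
  l : ℝ
  l' : ℝ

/-- admissible parameters -/
def Par.Ok (c : Par) : Prop := 0 < c.ε ∧ c.ε ≤ 1 ∧ 0 ≤ c.s ∧ 1 ≤ c.l ∧ 1 ≤ c.l'

/-- admissible cutoffs -/
def Adm (ω : (Fin 4 → ℝ) → ℝ) : Prop := ContDiff ℝ (⊤ : ℕ∞) ω ∧ HasCompactSupport ω ∧
  tsupport ω ⊆ {q | 0 < q 0 ∧ q 2 ^ 2 < q 0 * q 1 ∧ q 3 ≤ 2}

/-- the cutoff times the inverse area -/
def wt (ω : (Fin 4 → ℝ) → ℝ) (q : Fin 4 → ℝ) : ℝ := ω q * (√(q 0 * q 1 - q 2 ^ 2))⁻¹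

/-- all coordinates: couplings, diagonal, two vectors -/
abbrev I4 (n : ℕ) : Type := Ix n ⊕ (Fin n ⊕ Fin n)

variable {n : ℕ}

/-- the coordinate of a pair -/
abbrev ip (p : Pair n) : I4 n := .inl (.inl p)
/-- the coin coordinates -/
def isC : I4 n → Bool := Sum.elim (Sum.elim (fun _ => true) fun _ => false) fun _ => false
/-- the law of all coordinates -/
abbrev P4 (n : ℕ) : Measure (I4 n → ℝ) := Measure.pi fun k => entryLaw (isC k)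

def W4 (y : I4 n → ℝ) : Mat n := Wy n fun k => y (.inl k)
def x1 (y : I4 n → ℝ) : Fin n → ℝ := fun k => y (.inr (.inl k))
def x2 (y : I4 n → ℝ) : Fin n → ℝ := fun k => y (.inr (.inr k))
/-- `Ĥ = τ (2 - W)` -/
def Hm (n : ℕ) (W : Mat n) : Mat n := tau n • ((2 : ℝ) • (1 : Mat n) - W)
def av (c : Par) (y : I4 n → ℝ) : Fin n → ℝ := fl n c.l' (W4 y) *ᵥ x1 y
def bv (c : Par) (y : I4 n → ℝ) : Fin n → ℝ := fl n c.l (W4 y) *ᵥ x2 y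
/-- the invariants of the flow -/
def q4 (c : Par) (y : I4 n → ℝ) : Fin 4 → ℝ :=
  ![av c y ⬝ᵥ av c y, bv c y ⬝ᵥ bv c y, av c y ⬝ᵥ bv c y, y ⬝ᵥ y / (n : ℝ) ^ 3]
/-- generator of the rotations in the plane of `a, b` (not normalised) -/
def Og (a b : Fin n → ℝ) : Mat n := vecMulVec b a - vecMulVec a b
/-- inverse area -/
def ps (a b : Fin n → ℝ) : ℝ := (√(a ⬝ᵥ a * b ⬝ᵥ b - (a ⬝ᵥ b) ^ 2))⁻¹
/-- rotation by `φ` in the plane of `a, b` -/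
def Rt (φ : ℝ) (a b : Fin n → ℝ) : Mat n :=
  1 + (sin φ * ps a b) • Og a b + ((1 - cos φ) * ps a b ^ 2) • (Og a b * Og a b)
/-- killing probability of the rotated system -/
def Kp (c : Par) (φ : ℝ) (y : I4 n → ℝ) : ℝ :=
  kap (Rt φ (av c y) (bv c y) * W4 y * (Rt φ (av c y) (bv c y))ᵀ) c.ε fun x =>
    c.s * sl ((√(av c y ⬝ᵥ av c y))⁻¹ • Rt φ (av c y) (bv c y) *ᵥ av c y) x
/-- the test function -/
def Hf (c : Par) (ω : (Fin 4 → ℝ) → ℝ) (φ : ℝ) (y : I4 n → ℝ) : ℝ := ω (q4 c y) * Kp c φ y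
/-- the commutator `[Ω, W]` -/
def Cm (c : Par) (y : I4 n → ℝ) : Mat n :=
  Og (av c y) (bv c y) * W4 y - W4 y * Og (av c y) (bv c y)
/-- the vector field of the flow (not normalised) -/
def Xf (c : Par) (y : I4 n → ℝ) : I4 n → ℝ :=
  Sum.elim (Sum.elim (fun p => √n * Cm c y p.1.1 p.1.2) fun i => √n / √2 * Cm c y i i)
    (Sum.elim (Og (av c y) (bv c y) *ᵥ x1 y) (Og (av c y) (bv c y) *ᵥ x2 y))
/-- the trapezoid error -/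
def trp (h : ℝ → ℝ) : ℝ := (deriv h 1 + deriv h (-1)) / 2 - (h 1 - h (-1)) / 2
/-- the function of one coupling -/
def hp (c : Par) (ω : (Fin 4 → ℝ) → ℝ) (φ : ℝ) (y : I4 n → ℝ) (p : Pair n) (t : ℝ) : ℝ :=
  Xf c (update y (ip p) t) (ip p) * Hf c ω φ (update y (ip p) t)
/-- total Stein error -/
def Er (c : Par) (ω : (Fin 4 → ℝ) → ℝ) (φ : ℝ) (y : I4 n → ℝ) : ℝ :=
  ∑ p : Pair n, |trp (hp c ω φ y p)|
/-- shift of the entry `p` of the matrix by `t` -/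
def sh (y : I4 n → ℝ) (p : Pair n) (t : ℝ) : I4 n → ℝ := update y (ip p) (y (ip p) + √n * t)

/-! ### (F) the flow -/

/-- the weight `wt ω` is admissible -/
def WtStmt : Prop := ∀ ω, Adm ω → Adm (wt ω)

/-- smoothness -/
def SmStmt : Prop := ∀ (n : ℕ) (c : Par), 1 ≤ n → c.Ok →
  ContDiff ℝ (⊤ : ℕ∞) (Xf (n := n) c) ∧ ContDiff ℝ (⊤ : ℕ∞) (q4 (n := n) c) ∧ ∀ ω, Adm ω →
    ContDiff ℝ (⊤ : ℕ∞) fun z : ℝ × (I4 n → ℝ) => Hf c ω z.1 z.2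

/-- the field is divergence free and tangent to the spheres -/
def DivStmt : Prop := ∀ (n : ℕ) (c : Par) (y : I4 n → ℝ), 1 ≤ n → c.Ok →
  ∑ k, deriv (fun t => Xf c (update y k t) k) (y k) = 0 ∧ y ⬝ᵥ Xf c y = 0

/-- the flow identity -/
def FlowStmt : Prop := ∀ (n : ℕ) (c : Par) (ω : (Fin 4 → ℝ) → ℝ) (φ : ℝ) (y : I4 n → ℝ), 1 ≤ n →
  c.Ok → Adm ω → HasDerivAt (fun φ => Hf c ω φ y) (fderiv ℝ (Hf c (wt ω) φ) y (Xf c y)) φ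

/-- Stein's identity with coins -/
def SteinStmt : Prop := ∀ (ι : Type) [Fintype ι] [DecidableEq ι] (b : ι → Bool)
  (H : (ι → ℝ) → ℝ) (X : (ι → ℝ) → ι → ℝ), ContDiff ℝ 1 H → HasCompactSupport H → ContDiff ℝ 1 X →
  (∀ y, ∑ k, deriv (fun t => X (update y k t) k) (y k) = 0) → (∀ y, y ⬝ᵥ X y = 0) →
  (∀ k, Integrable (fun y => trp fun t => X (update y k t) k * H (update y k t))
    (Measure.pi fun k => entryLaw (b k))) ∧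
  ∫ y, fderiv ℝ H y (X y) ∂(Measure.pi fun k => entryLaw (b k)) =
    ∑ k ∈ univ.filter (fun k => b k = true),
      ∫ y, trp (fun t => X (update y k t) k * H (update y k t)) ∂Measure.pi fun k => entryLaw (b k)

/-- **(F)** -/
def FStmt : Prop := ∀ (n : ℕ) (c : Par) (ω : (Fin 4 → ℝ) → ℝ), 1 ≤ n → c.Ok → Adm ω →
  ∀ (A : Set (I4 n → ℝ)) (B₁ B₂ : ℝ), 0 ≤ B₁ → (∀ φ (y : I4 n → ℝ), Er c (wt ω) φ y ≤ B₂) →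
    (∀ φ, ∀ y ∈ A, Er c (wt ω) φ y ≤ B₁) →
    |∫ y, (Hf c ω (π / 2) y - Hf c ω 0 y) ∂P4 n| ≤ 2 * (B₁ + B₂ * (P4 n).real Aᶜ)

def FlowGlue : Prop := WtStmt → SmStmt → FlowStmt
def FGlue : Prop := WtStmt → SmStmt → DivStmt → FlowStmt → SteinStmt → FStmt

/-! ### (D), (Y), (K) complex discs -/

/-- **(D)** the complex killed chain -/
def DStmt : Prop := ∃ C : ℝ, 0 ≤ C ∧ ∀ (n : ℕ) (ε s : ℝ) (W : Mat n) (e : Fin n → ℝ), 1 ≤ n →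
  0 < ε → ε ≤ 1 → 0 ≤ s → W.IsHermitian → ∃ w : Fin n → ℝ, (∀ i, 0 ≤ w i) ∧ ∑ i, w i ≤ 1 ∧
  ∀ (i j : Fin n) (U : Set ℂ) (Δ : ℂ → Matrix (Fin n) (Fin n) ℂ) (γ : ℂ → Fin n → ℂ) (ρ f g : ℝ),
    (∀ a b, DifferentiableOn ℂ (fun z => Δ z a b) U) → (∀ a, DifferentiableOn ℂ (fun z => γ z a) U) →
    (∀ z ∈ U, ‖z‖ ≤ ρ ∧ (Δ z)ᵀ = Δ z ∧ ∑ a, ∑ b, ‖Δ z a b‖ ^ 2 ≤ f ^ 2 ∧ ∑ a, ‖γ z a‖ ^ 2 ≤ g ^ 2) →
    tau n * (ρ ^ 2 + n * f ^ 2) ≤ 1 / 64 → s * g ^ 2 * sx n ^ 2 ≤ 1 →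
    ∃ K : ℂ → ℂ, DifferentiableOn ℂ K U ∧
      (∀ (t : ℝ) (D : Mat n) (e' : Fin n → ℝ), (t : ℂ) ∈ U → (∀ a b, Δ t a b = D a b) →
        (∀ a, γ t a = e' a) →
        K t = kap (W + t • Dl i j + D) ε fun x => s * sl (e + e') x) ∧
      ∀ z ∈ U, ‖K z - (kap W ε (fun x => s * sl e x) : ℝ)‖ ^ 2 ≤
        C * (tau n * (ρ ^ 2 * (w i + w j) + n * f ^ 2) + s * g ^ 2 * sx n ^ 2)

/-- the spectral parameter -/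
def zL (n : ℕ) (L : ℝ) : ℂ := 2 + ((L / tau n : ℝ) : ℂ) * Complex.I
/-- resolvent bounds -/
def Gd1 (n : ℕ) (L Λ : ℝ) (W : Mat n) (ξ : Fin n → ℝ) : Prop :=
  (∀ a b, ‖Res W (zL n L) a b‖ ≤ Λ) ∧ (∀ a, ∑ k, ‖Res W (zL n L) k a‖ ^ 2 ≤ Λ ^ 2 * sx n ^ 2) ∧
    ∀ a, ‖(Res W (zL n L) *ᵥ fun k => (ξ k : ℂ)) a‖ ^ 2 ≤ Λ ^ 2 * sx n ^ 2
/-- good points -/
def Good (c : Par) (Λ : ℝ) (y : I4 n → ℝ) : Prop :=
  Gd1 n c.l' Λ (W4 y) (x1 y) ∧ Gd1 n c.l Λ (W4 y) (x2 y)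

/-- `F` continues the vector function `f` to the disc of radius `r` -/
structure AnV (i j : Fin n) (r N : ℝ) (f : ℝ → Fin n → ℝ) (F : ℂ → Fin n → ℂ) : Prop where
  diff : ∀ k, DifferentiableOn ℂ (fun z => F z k) (Metric.ball 0 r)
  real : ∀ t : ℝ, |t| < r → ∀ k, F t k = f t k
  ent : ∀ z ∈ Metric.ball (0 : ℂ) r, n * ‖F z i‖ ^ 2 ≤ N ^ 2 ∧ n * ‖F z j‖ ^ 2 ≤ N ^ 2
  nrm : ∀ z ∈ Metric.ball (0 : ℂ) r, ∑ k, ‖F z k‖ ^ 2 ≤ N ^ 2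
  lip : ∀ z ∈ Metric.ball (0 : ℂ) r, sx n ^ 4 * ∑ k, ‖F z k - F 0 k‖ ^ 2 ≤ N ^ 2 * ‖z‖ ^ 2

/-- **(Y)** rank two perturbation of the resolvent -/
def ResStmt : Prop := ∀ (n : ℕ) (L Λ : ℝ) (W : Mat n) (ξ : Fin n → ℝ) (i j : Fin n), 1 ≤ n →
  1 ≤ L → 1 ≤ Λ → W.IsHermitian → Gd1 n L Λ W ξ → ∃ A A' : ℂ → Fin n → ℂ,
    AnV i j (4 * Λ)⁻¹ (8 * L ^ 2 * Λ ^ 2) (fun t => fl n L (W + t • Dl i j) *ᵥ ξ) A ∧
    AnV i j (4 * Λ)⁻¹ (8 * L ^ 2 * Λ ^ 2)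
      (fun t => Hm n (W + t • Dl i j) *ᵥ fl n L (W + t • Dl i j) *ᵥ ξ) A'

/-- Gram data uniformly inside the cone -/
def Nr (κ : ℝ) (q : Fin 4 → ℝ) : Prop :=
  κ ≤ q 0 ∧ κ ≤ q 0 * q 1 - q 2 ^ 2 ∧ q 0 ≤ κ⁻¹ ∧ q 1 ≤ κ⁻¹

/-- **(K)** continuation of `Kp` -/
def KStmt : Prop := ∀ c : Par, c.Ok → ∀ κ : ℝ, 0 < κ → ∃ (C : ℝ) (k : ℕ), 1 ≤ C ∧
  ∀ (n : ℕ) (y : I4 n → ℝ) (Λ φ : ℝ), 1 ≤ n → 1 ≤ Λ → Good c Λ y → Nr κ (q4 c y) →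
    ∃ w : Fin n → ℝ, (∀ i, 0 ≤ w i) ∧ ∑ i, w i ^ 2 ≤ 1 ∧ ∀ p : Pair n, ∃ K : ℂ → ℂ,
      DifferentiableOn ℂ K (Metric.ball 0 (C * Λ ^ k * sx n ^ 2)⁻¹) ∧
      (∀ t : ℝ, |t| < (C * Λ ^ k * sx n ^ 2)⁻¹ → K t = Kp c φ (sh y p t)) ∧
      ∀ z ∈ Metric.ball (0 : ℂ) (C * Λ ^ k * sx n ^ 2)⁻¹,
        ‖K z - K 0‖ ≤ C * (w p.1.1 + w p.1.2 + (√n)⁻¹)

def KGlue : Prop := DStmt → ResStmt → KStmt

/-! ### (C) derivative bounds -/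

/-- derivatives in one coupling -/
def DerStmt : Prop := ∀ c : Par, c.Ok → ∀ ω, Adm ω → ∃ (C : ℝ) (k : ℕ), 1 ≤ C ∧
  ∀ (n : ℕ) (y : I4 n → ℝ) (Λ φ : ℝ), 1 ≤ n → 1 ≤ Λ → Good c Λ y →
    ∃ w : Fin n → ℝ, (∀ i, 0 ≤ w i) ∧ ∑ i, w i ^ 2 ≤ 1 ∧ ∀ (p : Pair n) (t : ℝ),
      |t - y (ip p)| ≤ sx n / (C * Λ ^ k) →
      |hp c ω φ y p t| ≤ C * Λ ^ k ∧ |deriv (hp c ω φ y p) t| ≤ C * Λ ^ k ∧
      |iteratedDeriv 3 (hp c ω φ y p) t| ≤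
        C * Λ ^ k * (n * tau n)⁻¹ * (w p.1.1 + w p.1.2 + (√n)⁻¹)

/-- every point of the support is crudely good -/
def GcStmt : Prop := ∀ (n : ℕ) (c : Par) (y : I4 n → ℝ), 1 ≤ n → c.Ok →
  y ⬝ᵥ y ≤ 2 * (n : ℝ) ^ 3 → Good c (2 * (n : ℝ) ^ 3) y

/-- **(C)** -/
def CStmt : Prop := ∀ c : Par, c.Ok → ∀ ω, Adm ω → ∃ (C : ℝ) (k : ℕ), 1 ≤ C ∧
  ∀ (n : ℕ) (y : I4 n → ℝ) (φ : ℝ), 1 ≤ n → Er c ω φ y ≤ C * (n : ℝ) ^ k ∧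
    ∀ Λ : ℝ, 1 ≤ Λ → Good c Λ y → (∀ p, |y (ip p)| = 1) → C * Λ ^ k ≤ sx n →
      Er c ω φ y ≤ C * Λ ^ k / sx n

def DerGlue : Prop := Cq.KapStmt → SmStmt → ResStmt → KStmt → DerStmt
def TrapGlue : Prop := SmStmt → DerStmt → GcStmt → CStmt

/-! ### (P), (G) -/

/-- **(P)** -/
def PrStmt : Prop := ∀ c : Par, c.Ok → ∀ δ : ℝ, 0 < δ → ∀ m : ℕ, Tendsto (fun n : ℕ =>
  (n : ℝ) ^ m * (P4 n).real {y | Good c ((n : ℝ) ^ δ) y ∧ ∀ p, |y (ip p)| = 1}ᶜ) atTop (𝓝 0)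

/-- the statement in the coordinates `y` -/
def Sw4 : Prop := ∀ c : Par, c.Ok → ∀ ω, Adm ω →
  Tendsto (fun n : ℕ => ∫ y, (Hf c ω (π / 2) y - Hf c ω 0 y) ∂P4 n) atTop (𝓝 0)

def Glue : Prop := WtStmt → FStmt → CStmt → PrStmt → Sw4
/-- change of coordinates and removal of the cutoff -/
def TrStmt : Prop := Cq.KapStmt → MsStmt → Sw4 → SwapStmt true

theorem swap_of (k : Cq.KapStmt) (m : MsStmt) (wt : WtStmt) (sm : SmStmt) (dv : DivStmt)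
    (fw : FlowGlue) (st : SteinStmt) (fg : FGlue) (d : DStmt) (r : ResStmt) (kg : KGlue)
    (dg : DerGlue) (gc : GcStmt) (tg : TrapGlue) (pr : PrStmt) (g : Glue) (tr : TrStmt) :
    SwapStmt true :=
  tr k m (g wt (fg wt sm dv (fw wt sm) st) (tg sm (dg k sm r (kg d r)) gc) pr)

end Crest.Agent.T157.Sw14

end
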