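import Crest.Agent.T157.SwE_82
import Crest.Agent.T157.SwDef_14

/-!
# Row 157, coin SWAP: `Sw14.DStmt` (helper82)
-/

set_option autoImplicit false

noncomputable section

namespace Crest.Agent.T157.Sw14

open Matrix Finset Function
open Crest.Agent.T157.E Crest.Agent.T157.St Crest.Agent.T157.Cq Crest.Agent.T157.SwD
open Crest.Agent.T157.Ed hiding kap

theorem dStmt : DStmt := by
  refine ⟨1536 * Real.exp 13, by positivity, fun n ε s W e hn _ hε hs _ => ?_⟩
  have hV : ∀ x, 0 ≤ s * sl e x := fun x => mul_nonneg hs (sq_nonneg _)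
  refine ⟨SwD.wt W ε fun x => s * sl e x, wt_nonneg hn W ε hV, wt_sum hn W ε hV,
    fun i j U Δ γ ρ f g hΔ hγ hU h1 h2 => ?_⟩
  have hτ := (N_one hn).1
  have hsq : ∀ z ∈ U, ‖z‖ ^ 2 ≤ ρ ^ 2 := fun z hz => pow_le_pow_left₀ (norm_nonneg _) (hU z hz).1 2
  have h1' : ∀ z ∈ U, tau n * (‖z‖ ^ 2 + n * f ^ 2) ≤ 1 / 64 := fun z hz =>
    (mul_le_mul_of_nonneg_left (add_le_add (hsq z hz) le_rfl) (by linarith)).trans h1
  obtain ⟨WW, hWW⟩ : ∃ WW : ℂ → Matrix (Fin n) (Fin n) ℂ,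
    ∀ z, WW z = W.map (↑) + (z • Eij i j + Δ z) := ⟨_, fun _ => rfl⟩
  obtain ⟨VV, hVV⟩ : ∃ VV : ℂ → Cube n → ℂ,
    ∀ z, VV z = fun x => s * (((fun a => (e a : ℂ)) + γ z) ⬝ᵥ hatC n x) ^ 2 := ⟨_, fun _ => rfl⟩
  refine ⟨fun z => kapC (WW z) ε (VV z), fun z hz => ?_, fun t D e' _ hD he => ?_, fun z hz => ?_⟩
  · refine kapC_diff ε (fun a b => ?_) (fun x => ?_) fun l x => ?_
    · simp only [hWW, Matrix.add_apply, Matrix.smul_apply, smul_eq_mul]
      exact ((differentiableWithinAt_id.mul_const _).add (hΔ a b z hz)).const_add _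
    · simp only [hVV, dotProduct, Pi.add_apply]
      refine DifferentiableWithinAt.const_mul (DifferentiableWithinAt.pow ?_ 2) _
      exact DifferentiableWithinAt.fun_sum fun a _ => ((hγ a z hz).const_add _).mul_const _
    · rw [hWW]
      exact den_ne W i j (hU z hz).2.2.1
        ((le_mul_of_one_le_left (by positivity) hτ).trans (h1' z hz)) l x
  · have e1 : W.map (↑) + ((t : ℂ) • Eij i j + Δ t) =
        (W + t • Ll.Dl i j + D).map ((↑) : ℝ → ℂ) := by
      ext a b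
      simp only [Matrix.add_apply, Matrix.smul_apply, smul_eq_mul, map_apply, hD, Eij, Ll.Dl,
        single, of_apply]
      push_cast
      split_ifs <;> simp [add_assoc]
    have e2 : (fun x => (s : ℂ) * (((fun a => (e a : ℂ)) + γ t) ⬝ᵥ hatC n x) ^ 2) =
        fun x => ((s * sl (e + e') x : ℝ) : ℂ) := by
      funext x
      simp [sl, dotProduct, hatC, he]
    show kapC (WW t) ε (VV t) = _
    rw [hWW, hVV, e1, e2, kapC_ofReal]
  · show ‖kapC (WW z) ε (VV z) - _‖ ^ 2 ≤ _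
    rw [hWW, hVV]
    refine (disc hn hε hs W e i j (hU z hz).2.2.1 (hU z hz).2.2.2 (h1' z hz)
      (by rw [← mul_assoc]; exact h2)).trans ?_
    have := wt_nonneg hn W ε hV i
    have := wt_nonneg hn W ε hV j
    have := hsq z hz
    rw [← mul_assoc s]
    gcongr

end Crest.Agent.T157.Sw14
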