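import Crest.Agent.T157.SwDef_14

/-!
# Row 157, part C: SWAP for coin couplings, the leaves `Glue` and `TrStmt` (helper13)
-/

set_option autoImplicit false

noncomputable section

namespace Crest.Agent.T157.Sw14

open MeasureTheory ProbabilityTheory Matrix Filter Topology Finset Real Function
open Crest.ProbabilityR.SpinGlassDynamics Crest.Agent.T157.E Crest.Agent.T157.Eig
open Crest.Agent.T157.St Crest.Agent.T157.Ed Crest.Agent.T157.Cq Crest.Agent.T157.Cond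
open Crest.Agent.T157.Tr (Om)

/-- **`Glue`** -/
theorem glue : Glue := by
  intro hw hf hc hp c hc0 ω hω
  obtain ⟨C, k, hC, H⟩ := hc c hc0 (wt ω) (hw ω hω)
  set δ : ℝ := 1 / (12 * (k + 1)) with hδ
  have δ0 : 0 < δ := by positivity
  have t1 : Tendsto (fun n : ℕ => (n : ℝ) ^ (1 / 12 : ℝ)) atTop atTop :=
    (tendsto_rpow_atTop (by norm_num)).comp tendsto_natCast_atTop_atTop
  have t2 : Tendsto (fun n : ℕ => 2 * (C / (n : ℝ) ^ (1 / 12 : ℝ) + C * ((n : ℝ) ^ k *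
      (P4 n).real {y | Good c ((n : ℝ) ^ δ) y ∧ ∀ p, |y (ip p)| = 1}ᶜ))) atTop
      (𝓝 (2 * (0 + C * 0))) :=
    ((tendsto_const_nhds.div_atTop t1).add ((hp c hc0 δ δ0 k).const_mul C)).const_mul 2
  simp only [mul_zero, add_zero] at t2
  refine squeeze_zero_norm' ?_ t2
  filter_upwards [eventually_ge_atTop 1, t1.eventually_ge_atTop C] with n hn hn2
  have n1 : (1 : ℝ) ≤ n := by exact_mod_cast hn
  have n0 : (0 : ℝ) < n := by linarith
  set x : ℝ := (n : ℝ) ^ (1 / 12 : ℝ) with hx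
  have x0 : 0 < x := by positivity
  have hs : sx n = x * x := by
    rw [sx, hx, ← rpow_add n0]; norm_num
  have hL : ((n : ℝ) ^ δ) ^ k ≤ x := by
    rw [← rpow_natCast, ← rpow_mul n0.le, hx]
    refine rpow_le_rpow_of_exponent_le n1 ?_
    rw [hδ, div_mul_eq_mul_div, div_le_div_iff₀ (by positivity) (by norm_num)]
    linarith
  have L1 : (1 : ℝ) ≤ (n : ℝ) ^ δ := one_le_rpow n1 δ0.le
  have L0 : (0 : ℝ) ≤ ((n : ℝ) ^ δ) ^ k := by positivity
  have := hf n c ω hn hc0 hω {y | Good c ((n : ℝ) ^ δ) y ∧ ∀ p, |y (ip p)| = 1} (C / x)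
    (C * (n : ℝ) ^ k) (by positivity) (fun φ y => (H n y φ hn).1) fun φ y hy => by
      refine ((H n y φ hn).2 _ L1 hy.1 hy.2 ?_).trans ?_
      · rw [hs]; exact mul_le_mul hn2 hL L0 x0.le
      · rw [hs, div_le_div_iff₀ (by positivity) x0]
        have : C * ((n : ℝ) ^ δ) ^ k ≤ C * x := mul_le_mul_of_nonneg_left hL (by linarith)
        nlinarith
  rw [Real.norm_eq_abs, ← mul_assoc C]
  exact this

namespace G13

variable {n : ℕ}

lemma rot_half (a b : Fin n → ℝ) : rot a b (π / 2) =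
    1 - vecMulVec a a - vecMulVec b b + vecMulVec b a - vecMulVec a b := by
  rw [rot, cos_pi_div_two, sin_pi_div_two, zero_sub, neg_one_smul, one_smul]
  abel

lemma rot_mulVec {a b : Fin n → ℝ} (ha : a ⬝ᵥ a = 1) (hab : a ⬝ᵥ b = 0) :
    rot a b (π / 2) *ᵥ a = b := by
  have hba : b ⬝ᵥ a = 0 := by rwa [dotProduct_comm]
  simp [rot_half, add_mulVec, sub_mulVec, vecMulVec_mulVec, ha, hba]

lemma frame {a b : Fin n → ℝ} (h0 : 0 < a ⬝ᵥ a) (h1 : (a ⬝ᵥ b) ^ 2 < a ⬝ᵥ a * b ⬝ᵥ b) :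
    unitv a ⬝ᵥ unitv a = 1 ∧ prp a b ⬝ᵥ prp a b = 1 ∧ unitv a ⬝ᵥ prp a b = 0 := by
  have o : a ⬝ᵥ (b - ((a ⬝ᵥ b) / (a ⬝ᵥ a)) • a) = 0 := by
    rw [dotProduct_sub, dotProduct_smul, smul_eq_mul, div_mul_cancel₀ _ h0.ne', sub_self]
  refine ⟨unitv_dot fun h => by simp [h] at h0, unitv_dot fun h => ?_, ?_⟩
  · have := congrArg (fun v => v ⬝ᵥ b) h
    simp only [sub_dotProduct, smul_dotProduct, smul_eq_mul, zero_dotProduct] at this
    have e : a ⬝ᵥ a * b ⬝ᵥ b = (a ⬝ᵥ b) ^ 2 := by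
      rw [sub_eq_zero.1 this]; field_simp
    linarith
  · rw [prp, unitv, unitv, smul_dotProduct, dotProduct_smul, o, smul_zero, smul_zero]

lemma ps_eq {a b : Fin n → ℝ} (h0 : 0 < a ⬝ᵥ a) :
    ps a b = (len a)⁻¹ * (len (b - ((a ⬝ᵥ b) / (a ⬝ᵥ a)) • a))⁻¹ := by
  rw [ps, ← mul_inv, len, len, ← sqrt_mul h0.le]
  congr 2
  simp only [sub_dotProduct, dotProduct_sub, smul_dotProduct, dotProduct_smul, smul_eq_mul,
    dotProduct_comm b a]
  field_simp
  ring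

lemma S_eq {a b : Fin n → ℝ} (h0 : 0 < a ⬝ᵥ a) :
    ps a b • Og a b = vecMulVec (prp a b) (unitv a) - vecMulVec (unitv a) (prp a b) := by
  rw [ps_eq h0]
  ext i j
  simp only [Og, prp, unitv, Matrix.smul_apply, Matrix.sub_apply, vecMulVec_apply, Pi.smul_apply,
    Pi.sub_apply, smul_eq_mul]
  ring

lemma Rt_half {a b : Fin n → ℝ} (h0 : 0 < a ⬝ᵥ a) (h1 : (a ⬝ᵥ b) ^ 2 < a ⬝ᵥ a * b ⬝ᵥ b) :
    Rt (π / 2) a b = rot (unitv a) (prp a b) (π / 2) := by
  obtain ⟨f1, f2, f3⟩ := frame h0 h1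
  have f4 : prp a b ⬝ᵥ unitv a = 0 := by rwa [dotProduct_comm]
  have e : ps a b ^ 2 • (Og a b * Og a b) = (ps a b • Og a b) * (ps a b • Og a b) := by
    rw [Matrix.smul_mul, Matrix.mul_smul, smul_smul, sq]
  rw [Rt, cos_pi_div_two, sin_pi_div_two, sub_zero, one_mul, one_mul, e, S_eq h0, rot_half]
  simp only [Matrix.mul_sub, Matrix.sub_mul, vecMulVec_mul_vecMulVec, f1, f2, f3, f4, one_smul,
    zero_smul, vecMulVec_zero]
  abel

lemma Rt_zero (a b : Fin n → ℝ) : Rt 0 a b = 1 := by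
  simp [Rt]

lemma swp_eq (c : Par) (y : I4 n → ℝ) (h0 : 0 < av c y ⬝ᵥ av c y)
    (h1 : (av c y ⬝ᵥ bv c y) ^ 2 < av c y ⬝ᵥ av c y * bv c y ⬝ᵥ bv c y) :
    swp c.ε c.s (W4 y) (av c y) (bv c y) = Kp c 0 y - Kp c (π / 2) y := by
  obtain ⟨f1, -, f3⟩ := frame h0 h1
  have e : (√(av c y ⬝ᵥ av c y))⁻¹ • rot (unitv (av c y)) (prp (av c y) (bv c y)) (π / 2) *ᵥ av c y
      = prp (av c y) (bv c y) := by
    rw [← mulVec_smul]; exact rot_mulVec f1 f3
  rw [swp, Kp, Kp, Rt_zero, Rt_half h0 h1, e, Matrix.one_mul, transpose_one, Matrix.mul_one,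
    one_mulVec]
  rfl

lemma meas_kap (m : MsStmt) {X : Type*} [MeasurableSpace X] (ε s : ℝ) {W : X → Mat n}
    {a : X → Fin n → ℝ} (hW : Measurable W) (ha : Measurable a) :
    Measurable fun x => kap (W x) ε fun y => s * sl (a x) y := by
  have h : Measurable fun x => (fun y => s * sl (a x) y : Cube n → ℝ) :=
    measurable_pi_lambda _ fun y => by unfold sl; fun_prop
  have hc : Continuous fun q : (Fin n → Fin n → ℝ) × (Cube n → ℝ) => kap (Matrix.of q.1) ε q.2 :=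
    (m n ε 0).2
  have : OpensMeasurableSpace ((Fin n → Fin n → ℝ) × (Cube n → ℝ)) := Prod.opensMeasurableSpace
  have hk := hc.measurable
  have hW' : Measurable fun x => (fun i j => W x i j : Fin n → Fin n → ℝ) :=
    measurable_pi_lambda _ fun i => measurable_pi_lambda _ fun j => hW.t157_entry i j
  have := hk.comp (hW'.prodMk h)
  exact this

lemma meas_swp (m : MsStmt) {X : Type*} [MeasurableSpace X] (ε s : ℝ) {W : X → Mat n}
    {a b : X → Fin n → ℝ} (hW : Measurable W) (ha : Measurable a) (hb : Measurable b) :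
    Measurable fun x => swp ε s (W x) (a x) (b x) := by
  have mp : Measurable fun x => prp (a x) (b x) := by unfold prp; fun_prop
  have h1 := ha.t157_unitv
  have mR : Measurable fun x => rot (unitv (a x)) (prp (a x) (b x)) (π / 2) := by
    unfold rot
    fun_prop
  exact (meas_kap m ε s hW h1).sub
    (meas_kap m ε s ((mR.t157_mul hW).t157_mul mR.t157_transpose) mp)

lemma abs_swp (k : Cq.KapStmt) (hn : 1 ≤ n) {ε s : ℝ} (hε : 0 < ε) (hs : 0 ≤ s) (W : Mat n)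
    (a b : Fin n → ℝ) : |swp ε s W a b| ≤ 1 := by
  have h : ∀ (W : Mat n) (a : Fin n → ℝ), 0 ≤ kap W ε (fun y => s * sl a y) ∧
      kap W ε (fun y => s * sl a y) ≤ 1 := fun W a => by
    have h0 : ∀ y, 0 ≤ s * sl a y := fun y => mul_nonneg hs (sq_nonneg _)
    obtain ⟨h1, h2, -⟩ := (k n W ε hn hε).1 _ _ h0 h0
    exact ⟨h1, h2⟩
  rw [swp, abs_le]
  constructor
  · linarith [(h W (unitv a)).1, (h (rot (unitv a) (prp a b) (π / 2) * W *
      (rot (unitv a) (prp a b) (π / 2))ᵀ) (prp a b)).2]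
  · linarith [(h W (unitv a)).2, (h (rot (unitv a) (prp a b) (π / 2) * W *
      (rot (unitv a) (prp a b) (π / 2))ᵀ) (prp a b)).1]

/-- the change of coordinates -/
def Ph (y : I4 n → ℝ) : Om n × (Fin n → ℝ) × (Fin n → ℝ) :=
  ((fun p => y (.inl (.inl p)), fun i => y (.inl (.inr i))), (x1 y, x2 y))

lemma mp_Ph : MeasurePreserving (Ph (n := n)) (P4 n)
    ((PB true n).prod ((gv (Fin n)).prod (gv (Fin n)))) := by
  have h0 := measurePreserving_sumPiEquivProdPi (X := fun _ : I4 n => ℝ)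
    fun k => entryLaw (isC k)
  have h1 := measurePreserving_sumPiEquivProdPi (X := fun _ : Ix n => ℝ)
    fun k => entryLaw (isC (n := n) (.inl k))
  have h2 := measurePreserving_sumPiEquivProdPi (X := fun _ : Fin n ⊕ Fin n => ℝ)
    fun k => entryLaw (isC (n := n) (.inr k))
  have h := (h1.prod h2).comp h0
  rw [PB, couplingLaw_eq]
  exact h

lemma int_sq : Integrable (fun y : I4 n → ℝ => y ⬝ᵥ y) (P4 n) ∧
    ∫ y : I4 n → ℝ, y ⬝ᵥ y ∂P4 n = Fintype.card (I4 n) := by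
  have i1 : ∀ b, Integrable (fun t : ℝ => t ^ 2) (entryLaw b) := fun b =>
    Integrable.of_integral_ne_zero (by rw [Conc.sq_entry]; exact one_ne_zero)
  have mp : ∀ k : I4 n, MeasurePreserving (fun y : I4 n → ℝ => y k) (P4 n) (entryLaw (isC k)) :=
    fun k => measurePreserving_eval _ k
  have i2 : ∀ k : I4 n, Integrable (fun y : I4 n → ℝ => y k * y k) (P4 n) := fun k => by
    have := (mp k).integrable_comp_of_integrable (i1 _)
    simpa only [Function.comp_def, sq] using this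
  have i3 : ∀ k : I4 n, ∫ y : I4 n → ℝ, y k * y k ∂P4 n = 1 := fun k => by
    have h := Conc.sq_entry (isC k)
    rw [← (mp k).map_eq, integral_map (mp k).measurable.aemeasurable (by fun_prop)] at h
    simpa only [sq] using h
  refine ⟨integrable_finsetSum _ fun k _ => i2 k, ?_⟩
  simp only [dotProduct]
  rw [integral_finsetSum _ fun k _ => i2 k]
  simp [i3]

lemma card_le (hn : 1 ≤ n) : (Fintype.card (I4 n) : ℝ) ≤ 4 * (n : ℝ) ^ 2 := by
  have h : Fintype.card (Pair n) ≤ n * n := by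
    have := Fintype.card_subtype_le (fun p : Fin n × Fin n => p.1 < p.2)
    simpa using this
  have h' : (Fintype.card (Pair n) : ℝ) ≤ n * n := by exact_mod_cast h
  have n1 : (1 : ℝ) ≤ n := by exact_mod_cast hn
  simp only [Fintype.card_sum, Fintype.card_fin]
  push_cast
  nlinarith

lemma cut_one {u : ℝ} (h : u ≤ 1) : cut u = 1 := smoothTransition.one_of_one_le (by linarith)
lemma cut_zero {u : ℝ} (h : 2 ≤ u) : cut u = 0 := smoothTransition.zero_of_nonpos (by linarith)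
lemma cut_nonneg (u : ℝ) : 0 ≤ cut u := smoothTransition.nonneg _
lemma cut_le (u : ℝ) : cut u ≤ 1 := smoothTransition.le_one _
lemma cut_smooth : ContDiff ℝ (⊤ : ℕ∞) cut :=
  smoothTransition.contDiff.comp (contDiff_const.sub contDiff_id)

/-- the first three coordinates -/
def pr3 (q : Fin 4 → ℝ) : Fin 3 → ℝ := ![q 0, q 1, q 2]
/-- the cutoff in four variables -/
def om4 (ω : (Fin 3 → ℝ) → ℝ) (q : Fin 4 → ℝ) : ℝ := ω (pr3 q) * (cut (q 3) * cut (-(q 3)))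

lemma pr3_smooth : ContDiff ℝ (⊤ : ℕ∞) pr3 :=
  contDiff_pi.2 fun i => by
    fin_cases i
    · exact contDiff_apply ℝ ℝ (0 : Fin 4)
    · exact contDiff_apply ℝ ℝ (1 : Fin 4)
    · exact contDiff_apply ℝ ℝ (2 : Fin 4)

lemma adm {ω : (Fin 3 → ℝ) → ℝ} (hω : ContDiff ℝ (⊤ : ℕ∞) ω) (hc : HasCompactSupport ω)
    (hs : tsupport ω ⊆ {q | 0 < q 0 ∧ q 2 ^ 2 < q 0 * q 1}) : Adm (om4 ω) := by
  have c3 : ContDiff ℝ (⊤ : ℕ∞) fun q : Fin 4 → ℝ => q 3 := contDiff_apply ℝ ℝ (3 : Fin 4)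
  have cl : IsClosed (pr3 ⁻¹' tsupport ω ∩ {q : Fin 4 → ℝ | q 3 ≤ 2} ∩ {q | -2 ≤ q 3}) :=
    (((isClosed_tsupport ω).preimage pr3_smooth.continuous).inter
      (isClosed_le c3.continuous continuous_const)).inter
      (isClosed_le continuous_const c3.continuous)
  have sub : tsupport (om4 ω) ⊆
      pr3 ⁻¹' tsupport ω ∩ {q : Fin 4 → ℝ | q 3 ≤ 2} ∩ {q | -2 ≤ q 3} := by
    refine closure_minimal (fun q hq => ?_) cl
    have h : om4 ω q ≠ 0 := hq
    refine ⟨⟨subset_tsupport _ (left_ne_zero_of_mul h), ?_⟩, ?_⟩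
    · by_contra h'
      exact h (by rw [om4, cut_zero (not_le.1 h').le, zero_mul, mul_zero])
    · by_contra h'
      have h2 : q 3 < -2 := not_le.1 h'
      exact h (by rw [om4, cut_zero (u := -(q 3)) (by linarith), mul_zero, mul_zero])
  refine ⟨(hω.comp pr3_smooth).mul ((cut_smooth.comp c3).mul (cut_smooth.comp c3.neg)), ?_,
    fun q hq => ?_⟩
  · obtain ⟨R, hR⟩ := hc.isCompact.isBounded.exists_norm_le
    refine Metric.isCompact_of_isClosed_isBounded (isClosed_tsupport _)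
      (isBounded_iff_forall_norm_le.2 ⟨max R 2, fun q hq => ?_⟩)
    obtain ⟨⟨h1, h2⟩, h3⟩ := sub hq
    have h4 := hR _ h1
    have h5 : ∀ j, ‖pr3 q j‖ ≤ max R 2 := fun j =>
      ((norm_le_pi_norm _ j).trans h4).trans (le_max_left _ _)
    refine (pi_norm_le_iff_of_nonneg (le_max_of_le_right (by norm_num))).2 fun i => ?_
    fin_cases i
    · exact h5 0
    · exact h5 1
    · exact h5 2
    · exact le_max_of_le_right (abs_le.2 ⟨h3, h2⟩)
  · obtain ⟨⟨h1, h2⟩, -⟩ := sub hq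
    exact ⟨(hs h1).1, (hs h1).2, h2⟩

end G13

open G13

/-- **`TrStmt`** -/
theorem trStmt : TrStmt := by
  intro k m h4 ε s l l' hε hε1 hs hl hl' ω hω hc hsup
  obtain ⟨M, hM⟩ := hω.continuous.bounded_above_of_compact_support hc
  have M0 : 0 ≤ M := (norm_nonneg _).trans (hM 0)
  set c : Par := ⟨ε, s, l, l'⟩ with hcd
  have t1 := (h4 c ⟨hε, hε1, hs, hl, hl'⟩ _ (adm hω hc hsup)).neg
  rw [neg_zero] at t1
  have t2 : Tendsto (fun n : ℕ => M * 4 / (n : ℝ)) atTop (𝓝 0) :=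
    tendsto_const_div_atTop_nhds_zero_nat _
  refine t1.congr_dist (squeeze_zero' (.of_forall fun _ => dist_nonneg) ?_ t2)
  filter_upwards [eventually_ge_atTop 1] with n hn
  have n0 : (0 : ℝ) < n := by exact_mod_cast hn
  have mW : Measurable fun q : Om n × (Fin n → ℝ) × (Fin n → ℝ) => Wp q.1 :=
    (mp_Wmat (n := n)).measurable.comp measurable_fst
  have ma : Measurable fun q : Om n × (Fin n → ℝ) × (Fin n → ℝ) => fl n l' (Wp q.1) *ᵥ q.2.1 :=
    ((m n ε l').1.comp mW).t157_mulVec measurable_snd.fst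
  have mb : Measurable fun q : Om n × (Fin n → ℝ) × (Fin n → ℝ) => fl n l (Wp q.1) *ᵥ q.2.2 :=
    ((m n ε l).1.comp mW).t157_mulVec measurable_snd.snd
  set G : Om n × (Fin n → ℝ) × (Fin n → ℝ) → ℝ := fun q =>
    ω ![(fl n l' (Wp q.1) *ᵥ q.2.1) ⬝ᵥ (fl n l' (Wp q.1) *ᵥ q.2.1),
          (fl n l (Wp q.1) *ᵥ q.2.2) ⬝ᵥ (fl n l (Wp q.1) *ᵥ q.2.2),
          (fl n l' (Wp q.1) *ᵥ q.2.1) ⬝ᵥ (fl n l (Wp q.1) *ᵥ q.2.2)] *
        swp ε s (Wp q.1) (fl n l' (Wp q.1) *ᵥ q.2.1) (fl n l (Wp q.1) *ᵥ q.2.2) with hG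
  have mG : Measurable G := by
    refine (hω.continuous.measurable.comp <| measurable_pi_lambda _ fun i => ?_).mul
      (meas_swp m ε s mW ma mb)
    fin_cases i
    · exact ma.t157_dot ma
    · exact mb.t157_dot mb
    · exact ma.t157_dot mb
  have bG : ∀ q, |G q| ≤ M := fun q => by
    rw [hG, abs_mul]
    exact (mul_le_of_le_one_right (abs_nonneg _) (abs_swp k hn hε hs _ _ _)).trans (hM _)
  have mP := (mp_Ph (n := n)).measurable
  have eG : ∀ y : I4 n → ℝ, G (Ph y) = ω (pr3 (q4 c y)) * swp c.ε c.s (W4 y) (av c y) (bv c y) :=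
    fun y => rfl
  have q3 : ∀ y : I4 n → ℝ, q4 c y 3 = y ⬝ᵥ y / (n : ℝ) ^ 3 := fun y => rfl
  have y0 : ∀ y : I4 n → ℝ, 0 ≤ y ⬝ᵥ y / (n : ℝ) ^ 3 := fun y =>
    div_nonneg (Finset.sum_nonneg fun i _ => mul_self_nonneg _) (by positivity)
  have eH : ∀ y : I4 n → ℝ, Hf c (om4 ω) (π / 2) y - Hf c (om4 ω) 0 y =
      -(cut (y ⬝ᵥ y / (n : ℝ) ^ 3) * G (Ph y)) := fun y => by
    rw [Hf, Hf, eG, om4, q3, cut_one (u := -(y ⬝ᵥ y / (n : ℝ) ^ 3)) (by linarith [y0 y])]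
    by_cases h0 : ω (pr3 (q4 c y)) = 0
    · rw [h0]; ring
    · have h := hsup (subset_tsupport _ h0)
      rw [swp_eq c y h.1 h.2]; ring
  have iG : Integrable (fun y => G (Ph y)) (P4 n) :=
    (integrable_const M).mono' (mG.comp mP).aestronglyMeasurable (.of_forall fun y => bG _)
  have mc : Measurable fun y : I4 n → ℝ => cut (y ⬝ᵥ y / (n : ℝ) ^ 3) :=
    cut_smooth.continuous.measurable.comp
      ((measurable_id.t157_dot measurable_id).div_const _)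
  have iC : Integrable (fun y => cut (y ⬝ᵥ y / (n : ℝ) ^ 3) * G (Ph y)) (P4 n) :=
    iG.bdd_mul (c := 1) mc.aestronglyMeasurable (.of_forall fun y => by
      rw [Real.norm_eq_abs, abs_of_nonneg (cut_nonneg _)]; exact cut_le _)
  rw [← (mp_Ph (n := n)).map_eq, integral_map mP.aemeasurable mG.aestronglyMeasurable]
  simp only [eH]
  rw [integral_neg, neg_neg, Real.dist_eq, ← integral_sub iC iG]
  have hb : ∀ y : I4 n → ℝ, ‖cut (y ⬝ᵥ y / (n : ℝ) ^ 3) * G (Ph y) - G (Ph y)‖ ≤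
      M / (n : ℝ) ^ 3 * y ⬝ᵥ y := fun y => by
    have e : cut (y ⬝ᵥ y / (n : ℝ) ^ 3) * G (Ph y) - G (Ph y) =
        -((1 - cut (y ⬝ᵥ y / (n : ℝ) ^ 3)) * G (Ph y)) := by ring
    have h1 : 1 - cut (y ⬝ᵥ y / (n : ℝ) ^ 3) ≤ y ⬝ᵥ y / (n : ℝ) ^ 3 := by
      rcases le_total (y ⬝ᵥ y / (n : ℝ) ^ 3) 1 with h | h
      · rw [cut_one h, sub_self]; exact y0 y
      · linarith [cut_nonneg (y ⬝ᵥ y / (n : ℝ) ^ 3)]
    rw [e, norm_neg, Real.norm_eq_abs, abs_mul, abs_of_nonneg (sub_nonneg.2 (cut_le _))]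
    calc _ ≤ y ⬝ᵥ y / (n : ℝ) ^ 3 * M := mul_le_mul h1 (bG _) (abs_nonneg _) (y0 y)
      _ = _ := by ring
  refine (norm_integral_le_of_norm_le (int_sq.1.const_mul _) (.of_forall hb)).trans ?_
  rw [integral_const_mul, int_sq.2]
  calc M / (n : ℝ) ^ 3 * (Fintype.card (I4 n) : ℝ) ≤ M / (n : ℝ) ^ 3 * (4 * (n : ℝ) ^ 2) :=
        mul_le_mul_of_nonneg_left (card_le hn) (by positivity)
    _ = M * 4 / n := by field_simp

end Crest.Agent.T157.Sw14

end
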