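import Crest.Agent.T157.SwDef_14
import Crest.Agent.T157.LlAll_91
import Crest.Agent.T157.EdBase_88
import Crest.Agent.T157.NrmS_84

/-!
# Row 157, part C: SWAP for coins, the good event has very high probability (helper49)
-/

set_option autoImplicit false

noncomputable section

namespace Crest.Agent.T157.Sw14

open MeasureTheory ProbabilityTheory Matrix Filter Topology Finset Real
open Crest.ProbabilityR.SpinGlassDynamics Crest.Agent.T157.E Crest.Agent.T157.Eig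
open Crest.Agent.T157.Ed
open Crest.Agent.T157.Ll (Res gb ee msc Psi qq al Dom resApi mscApi InS)

namespace Pr49

variable {n : ℕ}

lemma real_pre {α β : Type*} [MeasurableSpace α] [MeasurableSpace β] {μ : Measure α}
    {ν : Measure β} [IsFiniteMeasure ν] {f : α → β} (hf : MeasurePreserving f μ ν) (s : Set β) :
    μ.real (f ⁻¹' s) ≤ ν.real s :=
  ENNReal.toReal_mono (measure_ne_top _ _)
    (hf.map_eq ▸ Measure.le_map_apply hf.measurable.aemeasurable s)

/-- the law of the matrix coordinates -/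
abbrev PW (n : ℕ) : Measure (Ix n → ℝ) := Measure.pi fun k => entryLaw (isC (.inl k : I4 n))

lemma mpW (n : ℕ) : MeasurePreserving (fun y : I4 n → ℝ =>
    ((fun p => y (.inl (.inl p)), fun k => y (.inl (.inr k))) : (Pair n → ℝ) × (Fin n → ℝ)))
    (P4 n) ((couplingLaw true n).prod (gv (Fin n))) := by
  rw [couplingLaw_eq]
  exact (measurePreserving_sumPiEquivProdPi fun k : Ix n => entryLaw (isC (.inl k : I4 n))).comp
    (measurePreserving_fst.comp
      (measurePreserving_sumPiEquivProdPi fun k : I4 n => entryLaw (isC k)))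

lemma mp1 (n : ℕ) : MeasurePreserving (fun y : I4 n → ℝ => ((fun k => y (.inl k)), x1 y))
    (P4 n) ((PW n).prod (gv (Fin n))) :=
  ((MeasurePreserving.id (PW n)).prod (measurePreserving_fst.comp
    (measurePreserving_sumPiEquivProdPi fun k : Fin n ⊕ Fin n =>
      entryLaw (isC (.inr k : I4 n))))).comp
    (measurePreserving_sumPiEquivProdPi fun k : I4 n => entryLaw (isC k))

lemma mp2 (n : ℕ) : MeasurePreserving (fun y : I4 n → ℝ => ((fun k => y (.inl k)), x2 y))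
    (P4 n) ((PW n).prod (gv (Fin n))) :=
  ((MeasurePreserving.id (PW n)).prod (measurePreserving_snd.comp
    (measurePreserving_sumPiEquivProdPi fun k : Fin n ⊕ Fin n =>
      entryLaw (isC (.inr k : I4 n))))).comp
    (measurePreserving_sumPiEquivProdPi fun k : I4 n => entryLaw (isC k))

lemma coin_null (n : ℕ) : (P4 n).real {y | ¬ ∀ p, |y (ip p)| = 1} = 0 := by
  have h : ∀ᵐ y ∂P4 n, ∀ p, |y (ip p)| = 1 := by
    refine ae_all_iff.2 fun p => ?_
    refine (measurePreserving_eval (fun k : I4 n => entryLaw (isC k)) (ip p)).quasiMeasurePreserving.ae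
      (p := fun x => |x| = 1) ?_
    show ∀ᵐ x ∂coin, |x| = 1
    rw [ae_add_measure_iff]
    constructor <;> refine Measure.ae_smul_measure ?_ _ <;> rw [ae_dirac_eq] <;> simp
  rw [measureReal_def, ae_iff.1 h, ENNReal.toReal_zero]

lemma tail_re (a : Fin n → ℝ) {V t : ℝ} (hV : 0 < V) (ht : 0 ≤ t) (ha : ∑ k, a k ^ 2 ≤ V) :
    (gv (Fin n)).real {ξ | t ≤ ∑ k, a k * ξ k} ≤ exp (-t ^ 2 / (2 * V)) :=
  (Nrm.subG_dot (fun _ : Fin n => gaussianReal 0 1) (fun _ => Nrm.subG_gauss) a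
    (c := NNReal.mk V hV.le) ha).measure_ge_le ht

lemma tail_c (g : Fin n → ℂ) {V T : ℝ} (hV : 0 < V) (hT : 0 ≤ T) (hg : ∑ k, ‖g k‖ ^ 2 ≤ V) :
    (gv (Fin n)).real {ξ | T < ‖∑ k, g k * (ξ k : ℂ)‖ ^ 2} ≤ 4 * exp (-(T / (4 * V))) := by
  set t := √(T / 2) with ht
  have t0 : 0 ≤ t := sqrt_nonneg _
  have t2 : t ^ 2 = T / 2 := sq_sqrt (by positivity)
  have hn : ∀ k, ‖g k‖ ^ 2 = (g k).re ^ 2 + (g k).im ^ 2 := fun k => by
    rw [Complex.sq_norm, Complex.normSq_apply]; ring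
  have r1 : ∑ k, (g k).re ^ 2 ≤ V :=
    (sum_le_sum fun k _ => by rw [hn]; linarith [sq_nonneg (g k).im]).trans hg
  have r2 : ∑ k, (g k).im ^ 2 ≤ V :=
    (sum_le_sum fun k _ => by rw [hn]; linarith [sq_nonneg (g k).re]).trans hg
  have b1 := tail_re (fun k => (g k).re) hV t0 r1
  have b2 := tail_re (fun k => -(g k).re) hV t0 (by simpa using r1)
  have b3 := tail_re (fun k => (g k).im) hV t0 r2
  have b4 := tail_re (fun k => -(g k).im) hV t0 (by simpa using r2)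
  have hs : {ξ : Fin n → ℝ | T < ‖∑ k, g k * (ξ k : ℂ)‖ ^ 2} ⊆
      ({ξ | t ≤ ∑ k, (g k).re * ξ k} ∪ {ξ | t ≤ ∑ k, -(g k).re * ξ k}) ∪
        ({ξ | t ≤ ∑ k, (g k).im * ξ k} ∪ {ξ | t ≤ ∑ k, -(g k).im * ξ k}) := by
    intro ξ hξ
    by_contra hc
    simp only [Set.mem_union, Set.mem_ofPred_eq, not_or, not_le, neg_mul, sum_neg_distrib] at hc hξ
    rw [Complex.sq_norm, Complex.normSq_apply] at hξ
    simp only [Complex.re_sum, Complex.im_sum, Complex.mul_re, Complex.mul_im, Complex.ofReal_re,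
      Complex.ofReal_im, mul_zero, sub_zero, zero_add] at hξ
    obtain ⟨⟨c1, c2⟩, c3, c4⟩ := hc
    nlinarith
  have e : -t ^ 2 / (2 * V) = -(T / (4 * V)) := by rw [t2]; field_simp; norm_num
  rw [e] at b1 b2 b3 b4
  refine (measureReal_mono hs (measure_ne_top _ _)).trans ((measureReal_union_le _ _).trans
    ((add_le_add (measureReal_union_le _ _) (measureReal_union_le _ _)).trans ?_))
  linarith

lemma meas_Res (z : ℂ) (a b : Fin n) : Measurable fun y : Ix n → ℝ => Res (Wy n y) z a b := by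
  have hc : Continuous fun y : Ix n → ℝ =>
      (Wy n y).map (fun x => (x : ℂ)) - z • (1 : Matrix (Fin n) (Fin n) ℂ) :=
    ((continuous_Wy n).matrix_map Complex.continuous_ofReal).sub continuous_const
  simp only [Res, Matrix.inv_def, Ring.inverse_eq_inv', Matrix.smul_apply, smul_eq_mul]
  exact hc.matrix_det.measurable.inv.mul (hc.matrix_adjugate.matrix_elem a b).measurable

/-- a large component of `G ξ` although the row of `G` is small -/
def Bad (n : ℕ) (z : ℂ) (V T : ℝ) : Set ((Ix n → ℝ) × (Fin n → ℝ)) :=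
  ⋃ a ∈ (univ : Finset (Fin n)), {q | ∑ k, ‖Res (Wy n q.1) z a k‖ ^ 2 ≤ V ∧
    T < ‖∑ k, Res (Wy n q.1) z a k * (q.2 k : ℂ)‖ ^ 2}

lemma bad_le (z : ℂ) {V T : ℝ} (hV : 0 < V) (hT : 0 ≤ T) :
    ((PW n).prod (gv (Fin n))).real (Bad n z V T) ≤ n * (4 * exp (-(T / (4 * V)))) := by
  refine (measureReal_biUnion_finset_le _ _).trans ((sum_le_sum (g := fun _ => 4 * exp (-(T / (4 * V))))
    fun a _ => ?_).trans (by simp))
  have m1 : ∀ k, Measurable fun q : (Ix n → ℝ) × (Fin n → ℝ) => Res (Wy n q.1) z a k := fun k =>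
    (meas_Res z a k).comp measurable_fst
  have hm : MeasurableSet {q : (Ix n → ℝ) × (Fin n → ℝ) | ∑ k, ‖Res (Wy n q.1) z a k‖ ^ 2 ≤ V ∧
      T < ‖∑ k, Res (Wy n q.1) z a k * (q.2 k : ℂ)‖ ^ 2} :=
    (measurableSet_le (Finset.measurable_sum _ fun k _ => (m1 k).norm.pow_const 2)
      measurable_const).inter (measurableSet_lt measurable_const
        ((Finset.measurable_sum _ fun k _ => (m1 k).mul (Complex.measurable_ofReal.comp
          ((measurable_pi_apply k).comp measurable_snd))).norm.pow_const 2))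
  refine ENNReal.toReal_le_of_le_ofReal (by positivity) ?_
  rw [Measure.prod_apply hm]
  refine (lintegral_mono (g := fun _ => ENNReal.ofReal (4 * exp (-(T / (4 * V))))) fun y => ?_).trans
    (by simp)
  by_cases h : ∑ k, ‖Res (Wy n y) z a k‖ ^ 2 ≤ V
  · rw [← ofReal_measureReal]
    refine ENNReal.ofReal_le_ofReal (le_trans (measureReal_mono ?_ (measure_ne_top _ _))
      (tail_c _ hV hT h))
    exact fun ξ hξ => hξ.2
  · have : Prod.mk y ⁻¹' {q : (Ix n → ℝ) × (Fin n → ℝ) | ∑ k, ‖Res (Wy n q.1) z a k‖ ^ 2 ≤ V ∧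
        T < ‖∑ k, Res (Wy n q.1) z a k * (q.2 k : ℂ)‖ ^ 2} = ∅ :=
      Set.eq_empty_of_forall_notMem fun ξ hξ => h hξ.1
    simp only [this, measure_empty, zero_le]

lemma zL_im (L : ℝ) : (zL n L).im = L / tau n := by
  simp only [zL, Complex.add_im, Complex.mul_im, Complex.ofReal_re, Complex.I_im, mul_one,
    Complex.ofReal_im, Complex.I_re, mul_zero, add_zero, Complex.im_ofNat, zero_add]

lemma zL_re (L : ℝ) : (zL n L).re = 2 := by
  simp only [zL, Complex.add_re, Complex.mul_re, Complex.ofReal_re, Complex.I_im, mul_one,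
    Complex.ofReal_im, Complex.I_re, mul_zero, add_zero, Complex.re_ofNat, sub_zero]

lemma dom_zL (hn : 1 ≤ n) {L : ℝ} (hL : 1 ≤ L) (hLt : L ≤ tau n) : Dom 3 (1 / 4) n (zL n L) := by
  have n1 : (1 : ℝ) ≤ n := by exact_mod_cast hn
  have t0 : 0 < tau n := by linarith
  refine ⟨by rw [zL_re]; norm_num, ?_, ?_⟩
  · rw [zL_im, le_div_iff₀ t0, tau, ← rpow_add (by linarith)]
    exact (rpow_le_one_of_one_le_of_nonpos n1 (by norm_num)).trans hL
  · rw [zL_im, div_le_iff₀ t0]; linarith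

lemma psi_le (hn : 1 ≤ n) {L : ℝ} (hL : 1 ≤ L) (hLt : L ≤ tau n) :
    (msc (zL n L)).im ≤ 2 * L / sx n ^ 2 ∧ Psi n (zL n L) ≤ 3 / sx n ^ 2 := by
  have s0 := sx_pos hn
  have t0 : 0 < tau n := by linarith
  have η0 : 0 < L / tau n := by positivity
  have η1 : L / tau n ≤ 1 := (div_le_one t0).2 hLt
  have hz : 0 < (zL n L).im := by rwa [zL_im]
  have a1 : ‖zL n L - 2‖ = L / tau n := by
    rw [zL, add_sub_cancel_left, norm_mul, Complex.norm_I, mul_one, Complex.norm_real,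
      Real.norm_of_nonneg η0.le]
  have a2 : ‖zL n L + 2‖ ≤ 5 := by
    have : zL n L + 2 = (zL n L - 2) + 4 := by ring
    rw [this]
    refine (norm_add_le _ _).trans ?_
    rw [a1, Complex.norm_ofNat]; linarith
  have a3 : al (zL n L) ≤ 4 * L / sx n ^ 2 := by
    refine (abs_le_of_sq_le_sq' ?_ (by positivity)).2
    rw [mscApi.al_sq, a1]
    refine (mul_le_mul_of_nonneg_left a2 η0.le).trans ?_
    rw [tau_eq, div_pow, ← pow_mul, div_mul_eq_mul_div]
    exact div_le_div_of_nonneg_right (by nlinarith) (by positivity)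
  have m1 : (msc (zL n L)).im ≤ 2 * L / sx n ^ 2 := by
    have := mscApi.im_le_al hz
    have e : 4 * L / sx n ^ 2 = 2 * (2 * L / sx n ^ 2) := by ring
    linarith
  have q1 : qq n (zL n L) = 1 / (L * sx n ^ 2) := by
    rw [qq, zL_im, tau_eq, ← sx_pow_six n]; field_simp
  refine ⟨m1, ?_⟩
  have q2 : qq n (zL n L) ≤ 1 / sx n ^ 2 := by
    rw [q1]; exact one_div_le_one_div_of_le (by positivity) (le_mul_of_one_le_left (by positivity) hL)
  have q3 : √(qq n (zL n L) * (msc (zL n L)).im) ≤ 2 / sx n ^ 2 := by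
    refine sqrt_le_iff.2 ⟨by positivity, ?_⟩
    rw [q1]
    refine (mul_le_mul_of_nonneg_left m1 (by positivity)).trans ?_
    have : 1 / (L * sx n ^ 2) * (2 * L / sx n ^ 2) = 2 / (sx n ^ 2) ^ 2 := by field_simp
    rw [this, div_pow]
    exact div_le_div_of_nonneg_right (by norm_num) (by positivity)
  have e : 3 / sx n ^ 2 = 2 / sx n ^ 2 + 1 / sx n ^ 2 := by ring
  rw [Psi]; linarith

lemma ee_dot (a b : Fin n) : ee a ⬝ᵥ ee b = if a = b then 1 else 0 := by
  simp [ee, Pi.single_apply, eq_comm]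

lemma gw_of (hn : 1 ≤ n) {L A : ℝ} (hL : 1 ≤ L) (hLt : L ≤ tau n) (hA : 0 ≤ A) {W : Mat n}
    (hW : W.IsHermitian) (h : ∀ a b : Fin n, ‖gb W (zL n L) (ee a) (ee b) -
      msc (zL n L) * ((ee a ⬝ᵥ ee b : ℝ) : ℂ)‖ ≤ A * Psi n (zL n L)) :
    (∀ a b, ‖Res W (zL n L) a b‖ ≤ 2 + 3 * A) ∧
      (∀ a, ∑ k, ‖Res W (zL n L) k a‖ ^ 2 ≤ (2 + 3 * A) * sx n ^ 2) ∧
      ∀ a, ∑ k, ‖Res W (zL n L) a k‖ ^ 2 ≤ (2 + 3 * A) * sx n ^ 2 := by
  have s0 := sx_pos hn
  have s1 : 1 ≤ sx n ^ 2 := one_le_pow₀ (one_le_sx hn)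
  have t0 : 0 < tau n := by linarith
  have hz : 0 < (zL n L).im := by rw [zL_im]; positivity
  obtain ⟨m1, p1⟩ := psi_le hn hL hLt
  have p2 : A * Psi n (zL n L) ≤ 3 * A / sx n ^ 2 :=
    (mul_le_mul_of_nonneg_left p1 hA).trans (le_of_eq (by ring))
  have p3 : 3 * A / sx n ^ 2 ≤ 3 * A := div_le_self (by positivity) s1
  have h2 : ∀ a, ∑ k, ‖Res W (zL n L) k a‖ ^ 2 ≤ (2 + 3 * A) * sx n ^ 2 := fun a => by
    have w := resApi.ward hW hz (ee a)
    simp only [resApi.entry] at w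
    have h1 := (Complex.im_le_norm _).trans ((h a a).trans p2)
    rw [ee_dot, if_pos rfl, Complex.ofReal_one, mul_one, Complex.sub_im, resApi.entry] at h1
    rw [w, zL_im, div_le_iff₀ (by positivity), tau_eq]
    have e : (2 + 3 * A) * sx n ^ 2 * (L / sx n ^ 4) = 2 * L / sx n ^ 2 + L * (3 * A / sx n ^ 2) := by
      field_simp
    have : 3 * A / sx n ^ 2 ≤ L * (3 * A / sx n ^ 2) := le_mul_of_one_le_left (by positivity) hL
    linarith
  refine ⟨fun a b => ?_, h2, fun a => ?_⟩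
  · have h1 := norm_le_norm_add_norm_sub' (gb W (zL n L) (ee a) (ee b))
      (msc (zL n L) * ((ee a ⬝ᵥ ee b : ℝ) : ℂ))
    have h3 : ‖msc (zL n L) * ((ee a ⬝ᵥ ee b : ℝ) : ℂ)‖ ≤ 1 := by
      rw [ee_dot]
      split_ifs
      · simpa using mscApi.norm_le hz
      · simp
    rw [← resApi.entry]
    linarith [h a b]
  · refine le_trans (le_of_eq (sum_congr rfl fun k _ => ?_)) (h2 a)
    rw [← resApi.entry, ← resApi.entry, resApi.symm hW]

lemma gd1_of (hn : 1 ≤ n) {L A : ℝ} (hL : 1 ≤ L) (hLt : L ≤ tau n) (hA : 4 ≤ A) {y : Ix n → ℝ}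
    {ξ : Fin n → ℝ} (h : ∀ a b : Fin n, ‖gb (Wy n y) (zL n L) (ee a) (ee b) -
      msc (zL n L) * ((ee a ⬝ᵥ ee b : ℝ) : ℂ)‖ ≤ A * Psi n (zL n L))
    (hb : (y, ξ) ∉ Bad n (zL n L) (A ^ 2 * sx n ^ 2) ((A ^ 2) ^ 2 * sx n ^ 2)) :
    Gd1 n L (A ^ 2) (Wy n y) ξ := by
  obtain ⟨g1, g2, g3⟩ := gw_of hn hL hLt (by linarith) (Wy_herm y) h
  have a1 : 2 + 3 * A ≤ A ^ 2 := by nlinarith
  have a2 : A ^ 2 ≤ (A ^ 2) ^ 2 := by nlinarith
  have s0 := sq_nonneg (sx n)
  refine ⟨fun a b => (g1 a b).trans a1,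
    fun a => (g2 a).trans (mul_le_mul_of_nonneg_right (a1.trans a2) s0), fun a => ?_⟩
  by_contra hc
  exact hb (Set.mem_biUnion (mem_coe.2 (mem_univ a))
    ⟨(g3 a).trans (mul_le_mul_of_nonneg_right a1 s0), not_le.1 hc⟩)

lemma lim (m : ℕ) {b c : ℝ} (hb : 0 < b) (hc : 0 < c) :
    Tendsto (fun n : ℕ => (n : ℝ) ^ m * exp (-b * (n : ℝ) ^ c)) atTop (𝓝 0) := by
  refine ((tendsto_rpow_mul_exp_neg_mul_atTop_nhds_zero (m / c) b hb).comp
    ((tendsto_rpow_atTop hc).comp tendsto_natCast_atTop_atTop)).congr fun n => ?_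
  simp only [Function.comp]
  rw [← rpow_mul (Nat.cast_nonneg n), mul_div_cancel₀ _ hc.ne', rpow_natCast]

end Pr49

open Pr49

theorem prStmt : PrStmt := by
  intro c hc δ hδ m
  obtain ⟨-, -, -, l1, l2⟩ := hc
  obtain ⟨c₀, hc₀, hI⟩ :=
    (Ll.All.isoStmt 3 (1 / 4) (δ / 2) (by norm_num) (by positivity)).wmat
  have ht : Tendsto tau atTop atTop :=
    (tendsto_rpow_atTop (by norm_num)).comp tendsto_natCast_atTop_atTop
  have hA : Tendsto (fun n : ℕ => (n : ℝ) ^ (δ / 2)) atTop atTop :=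
    (tendsto_rpow_atTop (by positivity)).comp tendsto_natCast_atTop_atTop
  have h0 := (lim m one_pos hc₀).add ((lim (m + 1) (b := 1 / 4) (by norm_num) hδ).const_mul 8)
  rw [mul_zero, add_zero] at h0
  refine squeeze_zero' (Eventually.of_forall fun n => by positivity) ?_ h0
  filter_upwards [hI, eventually_ge_atTop 1, ht.eventually_ge_atTop c.l,
    ht.eventually_ge_atTop c.l', hA.eventually_ge_atTop 4] with n hn n1 t1 t2 A4
  set A : ℝ := (n : ℝ) ^ (δ / 2) with hAd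
  have eA : A ^ 2 = (n : ℝ) ^ δ := by
    rw [hAd, ← rpow_natCast, ← rpow_mul (Nat.cast_nonneg n)]; norm_num
  have s0 := sx_pos n1
  have b0 := (real_pre (mpW n) _).trans
    (ENNReal.toReal_le_of_le_ofReal (exp_pos _).le (hn true (0, 0)))
  have V0 : 0 < A ^ 2 * sx n ^ 2 := by positivity
  have T0 : 0 ≤ (A ^ 2) ^ 2 * sx n ^ 2 := by positivity
  have b1 := (real_pre (mp1 n) _).trans (bad_le (zL n c.l') V0 T0)
  have b2 := (real_pre (mp2 n) _).trans (bad_le (zL n c.l) V0 T0)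
  have e1 : -((A ^ 2) ^ 2 * sx n ^ 2 / (4 * (A ^ 2 * sx n ^ 2))) = -(1 / 4) * (n : ℝ) ^ δ := by
    rw [← eA]; field_simp
  rw [e1] at b1 b2
  have b := (measureReal_union_le (μ := P4 n) _ _).trans (add_le_add
    ((measureReal_union_le _ _).trans (add_le_add (coin_null n).le b0))
    ((measureReal_union_le _ _).trans (add_le_add b1 b2)))
  refine (mul_le_mul_of_nonneg_left ((measureReal_mono ?_ (measure_ne_top _ _)).trans b)
    (by positivity)).trans (le_of_eq (by rw [neg_one_mul]; ring))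
  intro y hy
  by_contra hcon
  simp only [Set.mem_union, Set.mem_preimage, Set.mem_ofPred_eq, not_or, not_not] at hcon
  obtain ⟨⟨c1, c2⟩, c3, c4⟩ := hcon
  have c5 := c2 (by simp) (by simp)
  refine hy ⟨⟨?_, ?_⟩, c1⟩ <;> rw [← eA]
  · exact gd1_of n1 l2 t2 A4 (fun a b => c5 _ (dom_zL n1 l2 t2) _ _ (.inr (.inr ⟨a, rfl⟩))
      (.inr (.inr ⟨b, rfl⟩))) c3
  · exact gd1_of n1 l1 t1 A4 (fun a b => c5 _ (dom_zL n1 l1 t1) _ _ (.inr (.inr ⟨a, rfl⟩))
      (.inr (.inr ⟨b, rfl⟩))) c4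

end Crest.Agent.T157.Sw14

end
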