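import Crest.Agent.T157.LlDef_91

/-!
# Row 157, part E: local law — the resolvent API (helper91)
-/

set_option autoImplicit false

noncomputable section

namespace Crest.Agent.T157.Ll

open MeasureTheory ProbabilityTheory Matrix Filter Function Finset
open Crest.Agent.T157.Eig

variable {n : ℕ}

lemma Dl_transpose (i j : Fin n) : (Dl i j)ᵀ = Dl i j := by
  rw [Dl, transpose_add, transpose_single, transpose_single, add_comm]

lemma Dl_herm (i j : Fin n) : (Dl i j).IsHermitian := herm_iff.2 (Dl_transpose i j)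

lemma H_herm (E : Ens n) (x : E.ι → ℝ) : (E.H x).IsHermitian := by
  rw [herm_iff, Ens.H, transpose_sum]
  exact sum_congr rfl fun a _ => by rw [transpose_smul, Dl_transpose]

lemma herm_pert {A : Matrix (Fin n) (Fin n) ℝ} (hA : A.IsHermitian) (τ : ℝ) (i j : Fin n) :
    (A + τ • Dl i j).IsHermitian := hA.add (herm_smul (Dl_herm i j) τ)

lemma H_upd (E : Ens n) (x : E.ι → ℝ) (a : E.ι) (t : ℝ) :
    E.H (update x a t) = E.H x + ((t - x a) * E.c a) • Dl (E.i a) (E.j a) := by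
  have h : ∀ b, (update x a t b * E.c b) • Dl (E.i b) (E.j b) = (x b * E.c b) • Dl (E.i b) (E.j b) +
      if b = a then ((t - x a) * E.c a) • Dl (E.i a) (E.j a) else 0 := by
    intro b
    by_cases hb : b = a
    · subst hb
      rw [update_self, if_pos rfl, ← add_smul]; congr 1; ring
    · rw [update_of_ne hb, if_neg hb, add_zero]
  rw [Ens.H, Ens.H, sum_congr rfl fun b _ => h b, sum_add_distrib, sum_ite_eq' univ a, if_pos (mem_univ a)]

lemma covC (E : Ens n) (F : Fin n → Fin n → ℂ) :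
    ∑ a, ((E.c a : ℂ)) ^ 2 * (F (E.i a) (E.j a) + F (E.j a) (E.i a)) =
      (∑ k, ∑ l, F k l + ∑ k, (E.d k : ℂ) * F k k) / n := by
  have h1 := E.cov fun k l => (F k l).re
  have h2 := E.cov fun k l => (F k l).im
  have e : ∀ k l, F k l = ((F k l).re : ℂ) + ((F k l).im : ℂ) * Complex.I :=
    fun k l => (Complex.re_add_im _).symm
  have h1' := congrArg (fun r : ℝ => (r : ℂ)) h1
  have h2' := congrArg (fun r : ℝ => (r : ℂ)) h2
  push_cast at h1' h2'
  have l1 : ∑ a, ((E.c a : ℂ)) ^ 2 * (F (E.i a) (E.j a) + F (E.j a) (E.i a)) =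
      ∑ a, ((E.c a : ℂ)) ^ 2 * (((F (E.i a) (E.j a)).re : ℂ) + ((F (E.j a) (E.i a)).re : ℂ)) +
      (∑ a, ((E.c a : ℂ)) ^ 2 * (((F (E.i a) (E.j a)).im : ℂ) + ((F (E.j a) (E.i a)).im : ℂ))) *
        Complex.I := by
    rw [sum_mul, ← sum_add_distrib]
    refine sum_congr rfl fun a _ => ?_
    conv_lhs => rw [e (E.i a) (E.j a), e (E.j a) (E.i a)]
    ring
  have l2 : ∑ k, ∑ l, F k l = ∑ k, ∑ l, ((F k l).re : ℂ) +
      (∑ k, ∑ l, ((F k l).im : ℂ)) * Complex.I := by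
    rw [sum_mul, ← sum_add_distrib]
    refine sum_congr rfl fun k _ => ?_
    rw [sum_mul, ← sum_add_distrib]
    exact sum_congr rfl fun l _ => e k l
  have l3 : ∑ k, (E.d k : ℂ) * F k k = ∑ k, (E.d k : ℂ) * ((F k k).re : ℂ) +
      (∑ k, (E.d k : ℂ) * ((F k k).im : ℂ)) * Complex.I := by
    rw [sum_mul, ← sum_add_distrib]
    refine sum_congr rfl fun k _ => ?_
    conv_lhs => rw [e k k]
    ring
  rw [l1, h1', h2', l2, l3]
  ring

lemma cov_le (E : Ens n) (F : Fin n → Fin n → ℝ) (hF : ∀ k l, 0 ≤ F k l) :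
    ∑ a, E.c a ^ 2 * (F (E.i a) (E.j a) + F (E.j a) (E.i a)) ≤ 2 * (∑ k, ∑ l, F k l) / n := by
  rw [Ens.cov E]
  refine div_le_div_of_nonneg_right ?_ (Nat.cast_nonneg n)
  have : ∑ k, E.d k * F k k ≤ ∑ k, ∑ l, F k l := by
    refine sum_le_sum fun k _ => ?_
    calc E.d k * F k k ≤ 1 * F k k :=
          mul_le_mul_of_nonneg_right ((le_abs_self _).trans (E.d_le k)) (hF k k)
      _ = F k k := one_mul _
      _ ≤ ∑ l, F k l := single_le_sum (fun l _ => hF k l) (mem_univ k)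
  linarith

/-- complexification of a vector -/
abbrev cv (u : Fin n → ℝ) : Fin n → ℂ := fun k => (u k : ℂ)

/-- complexification of a matrix -/
abbrev cm (A : Matrix (Fin n) (Fin n) ℝ) : Matrix (Fin n) (Fin n) ℂ := A.map fun x => (x : ℂ)

lemma cv_ee (k : Fin n) : cv (ee k) = Pi.single k 1 := by
  ext l
  by_cases h : l = k
  · subst h; simp [ee]
  · simp [ee, h]

lemma gb_def (A : Matrix (Fin n) (Fin n) ℝ) (z : ℂ) (u v : Fin n → ℝ) :
    gb A z u v = cv u ⬝ᵥ Res A z *ᵥ cv v := rfl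

lemma gb_ee_left (A : Matrix (Fin n) (Fin n) ℝ) (z : ℂ) (k : Fin n) (v : Fin n → ℝ) :
    gb A z (ee k) v = (Res A z *ᵥ cv v) k := by
  rw [gb_def, cv_ee, single_one_dotProduct]

lemma gb_ee_right (A : Matrix (Fin n) (Fin n) ℝ) (z : ℂ) (k : Fin n) (u : Fin n → ℝ) :
    gb A z u (ee k) = (cv u ᵥ* Res A z) k := by
  rw [gb_def, cv_ee, dotProduct_mulVec, dotProduct_single_one]

lemma gb_entry (A : Matrix (Fin n) (Fin n) ℝ) (z : ℂ) (k l : Fin n) :
    gb A z (ee k) (ee l) = Res A z k l := by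
  rw [gb_ee_left, cv_ee, mulVec_single_one]; rfl

lemma gb_lin (A : Matrix (Fin n) (Fin n) ℝ) (z : ℂ) (u v : Fin n → ℝ) :
    gb A z u v = ∑ k, (u k : ℂ) * gb A z (ee k) v := by
  simp only [gb_ee_left]; rfl

lemma st_eq (A : Matrix (Fin n) (Fin n) ℝ) (z : ℂ) :
    st A z = (∑ k, gb A z (ee k) (ee k)) / n := by
  simp only [gb_entry]; rfl

variable {A : Matrix (Fin n) (Fin n) ℝ}

lemma Res_transpose (hA : A.IsHermitian) (z : ℂ) : (Res A z)ᵀ = Res A z := by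
  rw [Res, transpose_nonsing_inv, transpose_sub, transpose_smul, transpose_one, ← transpose_map,
    herm_iff.1 hA]

lemma gb_symm (hA : A.IsHermitian) (z : ℂ) (u v : Fin n → ℝ) : gb A z u v = gb A z v u := by
  rw [gb_def, gb_def, dotProduct_mulVec, ← mulVec_transpose, Res_transpose hA, dotProduct_comm]

lemma unit_det (hA : A.IsHermitian) {z : ℂ} (hz : z.im ≠ 0) :
    IsUnit (cm A - z • (1 : Matrix (Fin n) (Fin n) ℂ)).det := by
  have h := map_sub_smul (K := ℂ) hA z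
  have h2 := fnK_isUnit_det (K := ℂ) (f := fun x => (x : ℂ) - z) hA
    fun k _ => sub_ne_zero.2 (lam_ne_of_im hz A k)
  exact h ▸ h2

lemma mul_Res (hA : A.IsHermitian) {z : ℂ} (hz : z.im ≠ 0) :
    (cm A - z • (1 : Matrix (Fin n) (Fin n) ℂ)) * Res A z = 1 :=
  mul_nonsing_inv _ (unit_det hA hz)

lemma Res_mul (hA : A.IsHermitian) {z : ℂ} (hz : z.im ≠ 0) :
    Res A z * (cm A - z • (1 : Matrix (Fin n) (Fin n) ℂ)) = 1 :=
  nonsing_inv_mul _ (unit_det hA hz)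

lemma gb_spec (hA : A.IsHermitian) {z : ℂ} (hz : z.im ≠ 0) (u v : Fin n → ℝ) :
    gb A z u v = ∑ k ∈ range n,
      ((lam A k : ℂ) - z)⁻¹ * (((vec A k ⬝ᵥ u) * (vec A k ⬝ᵥ v) : ℝ) : ℂ) := by
  have h := resolvent_eq (K := ℂ) hA (z := z) fun k _ => lam_ne_of_im hz A k
  have h2 := bil_fnK (K := ℂ) (fun x => ((x : ℂ) - z)⁻¹) A u v
  rw [Fintype.card_fin] at h2
  exact (congrArg (fun M => cv u ⬝ᵥ M *ᵥ cv v) h).trans h2

lemma st_spec (hA : A.IsHermitian) {z : ℂ} (hz : z.im ≠ 0) :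
    st A z = (∑ k ∈ range n, ((lam A k : ℂ) - z)⁻¹) / n := by
  have h := resolvent_eq (K := ℂ) hA (z := z) fun k _ => lam_ne_of_im hz A k
  have h2 := trace_fnK (K := ℂ) hA (fun x => ((x : ℂ) - z)⁻¹)
  rw [Fintype.card_fin] at h2
  exact (congrArg (fun M : Matrix (Fin n) (Fin n) ℂ => M.trace / n) h).trans
    (congrArg (fun w : ℂ => w / n) h2)

/-- general resolvent identity -/
lemma Res_sub {B : Matrix (Fin n) (Fin n) ℝ} (hA : A.IsHermitian) (hB : B.IsHermitian) {z w : ℂ}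
    (hz : z.im ≠ 0) (hw : w.im ≠ 0) :
    Res B w - Res A z = Res B w * ((cm A - z • (1 : Matrix (Fin n) (Fin n) ℂ)) -
      (cm B - w • (1 : Matrix (Fin n) (Fin n) ℂ))) * Res A z := by
  rw [Matrix.mul_sub, Matrix.sub_mul, Res_mul hB hw, Matrix.mul_assoc, mul_Res hA hz,
    Matrix.mul_one, Matrix.one_mul]

lemma dot_Dl (i j : Fin n) (p q : Fin n → ℂ) :
    p ⬝ᵥ cm (Dl i j) *ᵥ q = p i * q j + p j * q i := by
  have : cm (Dl i j) = single i j 1 + single j i 1 := by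
    ext k l
    simp only [Dl, map_apply, Matrix.add_apply, single_apply]
    split_ifs <;> simp
  rw [this, add_mulVec, dotProduct_add]
  simp [single_mulVec_eq, dotProduct_single, mul_comm]

lemma gb_pert (hA : A.IsHermitian) {z : ℂ} (hz : 0 < z.im) (τ : ℝ) (i j : Fin n)
    (u v : Fin n → ℝ) : gb (A + τ • Dl i j) z u v = gb A z u v -
      τ * (gb (A + τ • Dl i j) z u (ee i) * gb A z (ee j) v +
        gb (A + τ • Dl i j) z u (ee j) * gb A z (ee i) v) := by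
  have h := Res_sub hA (herm_pert hA τ i j) hz.ne' hz.ne'
  have e : (cm A - z • (1 : Matrix (Fin n) (Fin n) ℂ)) -
      (cm (A + τ • Dl i j) - z • (1 : Matrix (Fin n) (Fin n) ℂ)) = -(τ : ℂ) • cm (Dl i j) := by
    ext k l; simp
  rw [e] at h
  have h2 := congrArg (fun M => cv u ⬝ᵥ M *ᵥ cv v) h
  simp only [sub_mulVec, dotProduct_sub] at h2
  rw [← mulVec_mulVec, ← mulVec_mulVec, dotProduct_mulVec (cv u) (Res (A + τ • Dl i j) z) (_ *ᵥ _),
    smul_mulVec, dotProduct_smul, dot_Dl] at h2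
  rw [gb_ee_right, gb_ee_right, gb_ee_left, gb_ee_left, gb_def, gb_def]
  rw [smul_eq_mul] at h2
  linear_combination h2

lemma gb_resz (hA : A.IsHermitian) {z z' : ℂ} (hz : 0 < z.im) (hz' : 0 < z'.im) (u v : Fin n → ℝ) :
    gb A z u v - gb A z' u v = (z - z') * ∑ k, gb A z u (ee k) * gb A z' (ee k) v := by
  have h := Res_sub hA hA hz'.ne' hz.ne'
  have e : (cm A - z' • (1 : Matrix (Fin n) (Fin n) ℂ)) -
      (cm A - z • (1 : Matrix (Fin n) (Fin n) ℂ)) = (z - z') • 1 := by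
    rw [sub_smul]; abel
  rw [e] at h
  have h2 := congrArg (fun M => cv u ⬝ᵥ M *ᵥ cv v) h
  simp only [sub_mulVec, dotProduct_sub] at h2
  rw [Matrix.mul_smul, Matrix.mul_one, Matrix.smul_mul, smul_mulVec, dotProduct_smul,
    ← mulVec_mulVec, dotProduct_mulVec (cv u) (Res A z) (_ *ᵥ _), smul_eq_mul] at h2
  simp only [gb_ee_right, gb_ee_left]
  rw [gb_def, gb_def, h2]
  rfl

lemma gb_expand (E : Ens n) (x : E.ι → ℝ) {z : ℂ} (hz : 0 < z.im) (u v : Fin n → ℝ) :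
    ((u ⬝ᵥ v : ℝ) : ℂ) + z * gb (E.H x) z u v = ∑ a, (x a : ℂ) * ((E.c a : ℂ) *
      (u (E.i a) * gb (E.H x) z (ee (E.j a)) v + u (E.j a) * gb (E.H x) z (ee (E.i a)) v)) := by
  have h := mul_Res (H_herm E x) hz.ne'
  have h2 := congrArg (fun M => cv u ⬝ᵥ M *ᵥ cv v) h
  simp only [one_mulVec] at h2
  rw [← mulVec_mulVec, sub_mulVec, dotProduct_sub, smul_mulVec, one_mulVec, dotProduct_smul,
    smul_eq_mul] at h2
  have e1 : cv u ⬝ᵥ cv v = ((u ⬝ᵥ v : ℝ) : ℂ) := by simp [dotProduct]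
  have e2 : cm (E.H x) = ∑ a, ((x a : ℂ) * E.c a) • cm (Dl (E.i a) (E.j a)) := by
    ext k l
    simp [Ens.H, Matrix.sum_apply]
  rw [e2, sum_mulVec, dotProduct_sum] at h2
  simp only [smul_mulVec, dotProduct_smul, dot_Dl, smul_eq_mul] at h2
  simp only [gb_ee_left]
  rw [gb_def, ← e1, ← h2, sub_add_cancel]
  exact sum_congr rfl fun a _ => by ring

lemma normSq_inv (l : ℝ) {z : ℂ} (hz : 0 < z.im) :
    ‖((l : ℂ) - z)⁻¹‖ ^ 2 = (((l : ℂ) - z)⁻¹).im / z.im := by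
  rw [Complex.inv_im, norm_inv, inv_pow, ← Complex.normSq_eq_norm_sq]
  have : ((l : ℂ) - z).im = -z.im := by simp
  rw [this]
  field_simp

lemma im_le_norm_sub (l : ℝ) (z : ℂ) : z.im ≤ ‖(l : ℂ) - z‖ := by
  have := Complex.abs_im_le_norm ((l : ℂ) - z)
  have h : ((l : ℂ) - z).im = -z.im := by simp
  rw [h, abs_neg] at this
  exact (le_abs_self _).trans this

lemma norm_inv_le (l : ℝ) {z : ℂ} (hz : 0 < z.im) : ‖((l : ℂ) - z)⁻¹‖ ≤ 1 / z.im := by
  rw [norm_inv, one_div]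
  exact inv_anti₀ hz (im_le_norm_sub l z)

lemma gb_im (hA : A.IsHermitian) {z : ℂ} (hz : 0 < z.im) (u : Fin n → ℝ) :
    (gb A z u u).im / z.im = ∑ k ∈ range n, ‖((lam A k : ℂ) - z)⁻¹‖ ^ 2 * (vec A k ⬝ᵥ u) ^ 2 := by
  rw [gb_spec hA hz.ne', Complex.im_sum, sum_div]
  refine sum_congr rfl fun k _ => ?_
  rw [normSq_inv _ hz, Complex.im_mul_ofReal]
  ring

lemma gb_im_nonneg (hA : A.IsHermitian) {z : ℂ} (hz : 0 < z.im) (u : Fin n → ℝ) :
    0 ≤ (gb A z u u).im := by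
  have h := gb_im hA hz u
  have h2 : 0 ≤ (gb A z u u).im / z.im := h ▸ sum_nonneg fun k _ => by positivity
  exact (div_nonneg_iff.1 h2).elim (fun h => h.1) fun h => absurd h.2 (not_le.2 hz)

lemma parseval (hA : A.IsHermitian) (u : Fin n → ℝ) :
    ∑ k ∈ range n, (vec A k ⬝ᵥ u) ^ 2 = u ⬝ᵥ u := by
  have := dot_eq hA u u
  rw [Fintype.card_fin] at this
  rw [this]
  exact sum_congr rfl fun k _ => sq _

/-- Parseval for complex combinations of the eigenvectors -/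
lemma parsevalC (hA : A.IsHermitian) (y : ℕ → ℂ) :
    ∑ i, ‖∑ k ∈ range n, y k * (vec A k i : ℂ)‖ ^ 2 = ∑ k ∈ range n, ‖y k‖ ^ 2 := by
  have key : ∀ w : ℕ → ℝ, ∑ i, (∑ k ∈ range n, w k * vec A k i) ^ 2 = ∑ k ∈ range n, w k ^ 2 := by
    intro w
    simp only [sq, sum_mul_sum]
    rw [sum_comm]
    refine sum_congr rfl fun k hk => ?_
    rw [sum_comm]
    have : ∀ l ∈ range n, ∑ i, w k * vec A k i * (w l * vec A l i) =
        if k = l then w k * w k else 0 := by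
      intro l hl
      have h3 := vec_dot hA (k := k) (l := l) (by simpa using hk) (by simpa using hl)
      have h4 : ∑ i, w k * vec A k i * (w l * vec A l i) = w k * w l * (vec A k ⬝ᵥ vec A l) := by
        rw [dotProduct, mul_sum]; exact sum_congr rfl fun i _ => by ring
      rw [h4, h3]
      split_ifs with h
      · subst h; simp
      · simp
    rw [sum_congr rfl this, sum_ite_eq, if_pos hk]
  have h1 := key fun k => (y k).re
  have h2 := key fun k => (y k).im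
  simp only [Complex.sq_norm, Complex.normSq_apply, Complex.re_sum, Complex.im_sum,
    Complex.re_mul_ofReal, Complex.im_mul_ofReal, sum_add_distrib, ← sq]
  rw [h1, h2]

lemma vec_dot_ee (k : ℕ) (i : Fin n) : vec A k ⬝ᵥ ee i = vec A k i := by
  rw [ee, dotProduct_single_one]

lemma gb_ward (hA : A.IsHermitian) {z : ℂ} (hz : 0 < z.im) (u : Fin n → ℝ) :
    ∑ k, ‖gb A z (ee k) u‖ ^ 2 = (gb A z u u).im / z.im := by
  rw [gb_im hA hz]
  have h := parsevalC hA fun k => ((lam A k : ℂ) - z)⁻¹ * ((vec A k ⬝ᵥ u : ℝ) : ℂ)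
  have e : ∀ i, gb A z (ee i) u = ∑ k ∈ range n,
      ((lam A k : ℂ) - z)⁻¹ * ((vec A k ⬝ᵥ u : ℝ) : ℂ) * (vec A k i : ℂ) := by
    intro i
    rw [gb_spec hA hz.ne']
    refine sum_congr rfl fun k _ => ?_
    rw [vec_dot_ee]; push_cast; ring
  simp only [e]
  rw [h]
  refine sum_congr rfl fun k _ => ?_
  rw [norm_mul, mul_pow, Complex.norm_real, Real.norm_eq_abs, sq_abs]

/-- weighted spectral bound -/
lemma norm_spec_le (hA : A.IsHermitian) (y : ℕ → ℂ) {c : ℝ} (hy : ∀ k, ‖y k‖ ≤ c)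
    {u v : Fin n → ℝ} (hu : u ⬝ᵥ u ≤ 1) (hv : v ⬝ᵥ v ≤ 1) :
    ‖∑ k ∈ range n, y k * (((vec A k ⬝ᵥ u) * (vec A k ⬝ᵥ v) : ℝ) : ℂ)‖ ≤ c := by
  have hc : 0 ≤ c := (norm_nonneg _).trans (hy 0)
  calc _ ≤ ∑ k ∈ range n, c * (((vec A k ⬝ᵥ u) ^ 2 + (vec A k ⬝ᵥ v) ^ 2) / 2) := by
        refine (norm_sum_le _ _).trans (sum_le_sum fun k _ => ?_)
        rw [norm_mul, Complex.norm_real, Real.norm_eq_abs]
        refine mul_le_mul (hy k) ?_ (abs_nonneg _) hc
        rw [abs_le]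
        constructor <;> nlinarith [sq_nonneg (vec A k ⬝ᵥ u + vec A k ⬝ᵥ v),
          sq_nonneg (vec A k ⬝ᵥ u - vec A k ⬝ᵥ v)]
    _ = c * ((u ⬝ᵥ u + v ⬝ᵥ v) / 2) := by
        rw [← mul_sum, ← sum_div, sum_add_distrib, parseval hA, parseval hA]
    _ ≤ c * 1 := mul_le_mul_of_nonneg_left (by linarith) hc
    _ = c := mul_one c

lemma gb_bound (hA : A.IsHermitian) {z : ℂ} (hz : 0 < z.im) (u v : Fin n → ℝ)
    (hu : u ⬝ᵥ u ≤ 1) (hv : v ⬝ᵥ v ≤ 1) : ‖gb A z u v‖ ≤ 1 / z.im := by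
  rw [gb_spec hA hz.ne']
  exact norm_spec_le hA _ (fun k => norm_inv_le _ hz) hu hv

lemma inv_sub_inv' (l : ℝ) {z z' : ℂ} (hz : 0 < z.im) (hz' : 0 < z'.im) :
    ((l : ℂ) - z)⁻¹ - ((l : ℂ) - z')⁻¹ = (z - z') * (((l : ℂ) - z)⁻¹ * ((l : ℂ) - z')⁻¹) := by
  have h1 : (l : ℂ) - z ≠ 0 := norm_pos_iff.1 (hz.trans_le (im_le_norm_sub l z))
  have h2 : (l : ℂ) - z' ≠ 0 := norm_pos_iff.1 (hz'.trans_le (im_le_norm_sub l z'))
  field_simp
  ring

lemma norm_inv_sub_le (l : ℝ) {z z' : ℂ} (hz : 0 < z.im) (hz' : 0 < z'.im) :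
    ‖((l : ℂ) - z)⁻¹ - ((l : ℂ) - z')⁻¹‖ ≤ ‖z - z'‖ / (z.im * z'.im) := by
  rw [inv_sub_inv' l hz hz', norm_mul, norm_mul, div_eq_mul_one_div, ← one_div_mul_one_div]
  exact mul_le_mul_of_nonneg_left (mul_le_mul (norm_inv_le l hz) (norm_inv_le l hz')
    (norm_nonneg _) (by positivity)) (norm_nonneg _)

lemma gb_lipz (hA : A.IsHermitian) {z z' : ℂ} (hz : 0 < z.im) (hz' : 0 < z'.im) (u v : Fin n → ℝ)
    (hu : u ⬝ᵥ u ≤ 1) (hv : v ⬝ᵥ v ≤ 1) :
    ‖gb A z u v - gb A z' u v‖ ≤ ‖z - z'‖ / (z.im * z'.im) := by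
  rw [gb_spec hA hz.ne', gb_spec hA hz'.ne', ← sum_sub_distrib]
  simp only [← sub_mul]
  exact norm_spec_le hA _ (fun k => norm_inv_sub_le _ hz hz') hu hv

lemma st_lipz (hA : A.IsHermitian) {z z' : ℂ} (hz : 0 < z.im) (hz' : 0 < z'.im) :
    ‖st A z - st A z'‖ ≤ ‖z - z'‖ / (z.im * z'.im) := by
  rcases Nat.eq_zero_or_pos n with h | h
  · subst h; simp only [st, CharP.cast_eq_zero, div_zero, sub_self, norm_zero]; positivity
  have hn : (0 : ℝ) < n := by exact_mod_cast h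
  rw [st_spec hA hz.ne', st_spec hA hz'.ne', ← sub_div, ← sum_sub_distrib, norm_div,
    Complex.norm_natCast, div_le_iff₀ hn]
  calc _ ≤ ∑ k ∈ range n, ‖z - z'‖ / (z.im * z'.im) :=
        (norm_sum_le _ _).trans (sum_le_sum fun k _ => norm_inv_sub_le _ hz hz')
    _ = _ := by rw [sum_const, card_range, nsmul_eq_mul, mul_comm]

lemma norm_inv_down (l : ℝ) {z z' : ℂ} (hz : 0 < z.im) (hre : z.re = z'.re) (him : z.im ≤ z'.im) :
    ‖((l : ℂ) - z)⁻¹‖ ≤ z'.im / z.im * ‖((l : ℂ) - z')⁻¹‖ := by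
  have hz' : 0 < z'.im := hz.trans_le him
  have h1 : 0 < ‖(l : ℂ) - z‖ := hz.trans_le (im_le_norm_sub l z)
  have h2 : 0 < ‖(l : ℂ) - z'‖ := hz'.trans_le (im_le_norm_sub l z')
  rw [norm_inv, norm_inv, ← div_eq_mul_inv, div_div, inv_eq_one_div, div_le_div_iff₀ h1 (by positivity),
    one_mul]
  refine le_of_sq_le_sq ?_ (by positivity)
  rw [mul_pow, mul_pow, Complex.sq_norm, Complex.sq_norm, Complex.normSq_apply, Complex.normSq_apply]
  simp only [Complex.sub_re, Complex.ofReal_re, Complex.sub_im, Complex.ofReal_im, zero_sub, hre]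
  have : z.im ^ 2 ≤ z'.im ^ 2 := pow_le_pow_left₀ hz.le him 2
  nlinarith [mul_self_nonneg (l - z'.re)]

lemma bd_down (hA : A.IsHermitian) {z z' : ℂ} (hz : 0 < z.im) (hre : z.re = z'.re)
    (him : z.im ≤ z'.im) {Γ : ℝ} {u v : Fin n → ℝ} (h : Bd A z' Γ u v) :
    Bd A z (2 * (z'.im / z.im) * Γ) u v := by
  intro a b ha hb
  have hz' : 0 < z'.im := hz.trans_le him
  have hΓ : 0 ≤ Γ := (norm_nonneg _).trans (h a b ha hb)
  have hM : 1 ≤ z'.im / z.im := (one_le_div hz).2 him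
  have hzz : ‖z - z'‖ ≤ z'.im := by
    have : z - z' = ((z.im - z'.im : ℝ) : ℂ) * Complex.I := by
      apply Complex.ext <;> simp [hre]
    rw [this, norm_mul, Complex.norm_I, mul_one, Complex.norm_real, Real.norm_eq_abs, abs_le]
    constructor <;> linarith
  have ia : (gb A z' a a).im ≤ Γ := ((le_abs_self _).trans (Complex.abs_im_le_norm _)).trans (h a a ha ha)
  have ib : (gb A z' b b).im ≤ Γ := ((le_abs_self _).trans (Complex.abs_im_le_norm _)).trans (h b b hb hb)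
  have hd : ‖gb A z a b - gb A z' a b‖ ≤ z'.im / z.im * Γ := by
    rw [gb_spec hA hz.ne', gb_spec hA hz'.ne', ← sum_sub_distrib]
    calc _ ≤ ∑ k ∈ range n, z'.im * (z'.im / z.im) * ((‖((lam A k : ℂ) - z')⁻¹‖ ^ 2 * (vec A k ⬝ᵥ a) ^ 2
            + ‖((lam A k : ℂ) - z')⁻¹‖ ^ 2 * (vec A k ⬝ᵥ b) ^ 2) / 2) := by
          refine (norm_sum_le _ _).trans (sum_le_sum fun k _ => ?_)
          rw [← sub_mul, inv_sub_inv' _ hz hz', norm_mul, norm_mul, norm_mul, Complex.norm_real,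
            Real.norm_eq_abs]
          have h1 := norm_inv_down (lam A k) hz hre him
          have h2 : |vec A k ⬝ᵥ a * (vec A k ⬝ᵥ b)| ≤ ((vec A k ⬝ᵥ a) ^ 2 + (vec A k ⬝ᵥ b) ^ 2) / 2 := by
            rw [abs_le]
            constructor <;> nlinarith [sq_nonneg (vec A k ⬝ᵥ a + vec A k ⬝ᵥ b),
              sq_nonneg (vec A k ⬝ᵥ a - vec A k ⬝ᵥ b)]
          calc _ ≤ z'.im * ((z'.im / z.im * ‖((lam A k : ℂ) - z')⁻¹‖) * ‖((lam A k : ℂ) - z')⁻¹‖) *
                (((vec A k ⬝ᵥ a) ^ 2 + (vec A k ⬝ᵥ b) ^ 2) / 2) := by gcongr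
            _ = _ := by ring
      _ = z'.im * (z'.im / z.im) * (((gb A z' a a).im / z'.im + (gb A z' b b).im / z'.im) / 2) := by
          rw [← mul_sum, ← sum_div, sum_add_distrib, gb_im hA hz', gb_im hA hz']
      _ = z'.im / z.im * (((gb A z' a a).im + (gb A z' b b).im) / 2) := by field_simp
      _ ≤ z'.im / z.im * Γ := mul_le_mul_of_nonneg_left (by linarith) (by linarith)
  have := norm_le_insert' (gb A z a b) (gb A z' a b)
  have h3 := h a b ha hb
  nlinarith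

lemma gb_ward2 (hA : A.IsHermitian) {z : ℂ} (hz : 0 < z.im) :
    ∑ k, ∑ l, ‖∑ m, gb A z (ee k) (ee m) * gb A z (ee m) (ee l)‖ ^ 2 ≤ n * (st A z).im / z.im ^ 3 := by
  have h := resolvent_eq (K := ℂ) hA (z := z) fun k _ => lam_ne_of_im hz.ne' A k
  have hR : Res A z = fnK (fun x => ((x : ℂ) - z)⁻¹) A := h
  have e : ∀ k l, ∑ m, gb A z (ee k) (ee m) * gb A z (ee m) (ee l) = ∑ p ∈ range n,
      (((lam A p : ℂ) - z)⁻¹ * ((lam A p : ℂ) - z)⁻¹ * (vec A p k : ℂ)) * (vec A p l : ℂ) := by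
    intro k l
    simp only [gb_entry]
    rw [← mul_apply, hR, fnK_mul hA, fnK_apply, Fintype.card_fin]
    refine sum_congr rfl fun p _ => ?_
    simp only [RCLike.ofReal_mul, Complex.coe_algebraMap]
    ring
  simp only [e, parsevalC hA]
  rw [sum_comm]
  have e2 : (n : ℝ) * (st A z).im / z.im ^ 3 =
      ∑ p ∈ range n, (1 / z.im) ^ 2 * ‖((lam A p : ℂ) - z)⁻¹‖ ^ 2 := by
    rcases Nat.eq_zero_or_pos n with h0 | h0
    · subst h0; simp
    have hn : (n : ℝ) ≠ 0 := by exact_mod_cast h0.ne'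
    rw [st_spec hA hz.ne', Complex.div_natCast_im, Complex.im_sum, ← mul_sum]
    simp only [normSq_inv _ hz]
    rw [← sum_div]
    field_simp
  rw [e2]
  refine sum_le_sum fun p hp => ?_
  simp only [norm_mul, mul_pow, Complex.norm_real, Real.norm_eq_abs, sq_abs]
  have h1 : ∑ i, vec A p i ^ 2 = 1 := by
    simpa only [sq] using sum_vec_sq hA (k := p) (by simpa using hp)
  rw [← mul_sum, h1, mul_one]
  exact mul_le_mul_of_nonneg_right (pow_le_pow_left₀ (norm_nonneg _) (norm_inv_le _ hz) 2) (by positivity)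

lemma gb_eigv (hA : A.IsHermitian) {z : ℂ} (hz : 0 < z.im) (w v : Fin n → ℝ) (l : ℝ)
    (hw : A *ᵥ w = l • w) (h1 : w ⬝ᵥ w ≤ 1) :
    (w ⬝ᵥ v) ^ 2 ≤ ‖(l : ℂ) - z‖ ^ 2 * ((gb A z v v).im / z.im) := by
  have h := mul_Res hA hz.ne'
  have h2 := congrArg (fun M => cv w ⬝ᵥ M *ᵥ cv v) h
  simp only [one_mulVec] at h2
  have e0 : cv w ᵥ* (cm A - z • (1 : Matrix (Fin n) (Fin n) ℂ)) = ((l : ℂ) - z) • cv w := by
    rw [vecMul_sub, vecMul_smul, vecMul_one, sub_smul]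
    congr 1
    ext k
    have h3 := congrFun hw k
    have h4 : (cv w ᵥ* cm A) k = (((A *ᵥ w) k : ℝ) : ℂ) := by
      simp only [vecMul, mulVec, dotProduct, map_apply]
      push_cast
      exact sum_congr rfl fun m _ => by rw [herm_apply hA k m, mul_comm]
    rw [h4, h3]; simp
  rw [← mulVec_mulVec, dotProduct_mulVec, e0, smul_dotProduct, smul_eq_mul, ← gb_def] at h2
  have e1 : cv w ⬝ᵥ cv v = ((w ⬝ᵥ v : ℝ) : ℂ) := by simp [dotProduct]
  have h5 : (w ⬝ᵥ v) ^ 2 = ‖(l : ℂ) - z‖ ^ 2 * ‖gb A z w v‖ ^ 2 := by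
    rw [← mul_pow, ← norm_mul, h2, e1, Complex.norm_real, Real.norm_eq_abs, sq_abs]
  rw [h5, ← gb_ward hA hz]
  refine mul_le_mul_of_nonneg_left ?_ (by positivity)
  have h6 : ‖gb A z w v‖ ≤ ∑ k, |w k| * ‖gb A z (ee k) v‖ := by
    rw [gb_lin]
    refine (norm_sum_le _ _).trans (sum_le_sum fun k _ => ?_)
    rw [norm_mul, Complex.norm_real, Real.norm_eq_abs]
  have h7 := sum_mul_sq_le_sq_mul_sq univ (fun k => |w k|) fun k => ‖gb A z (ee k) v‖
  have h8 : ∑ k, |w k| ^ 2 ≤ 1 := by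
    simp only [sq_abs]
    simpa [dotProduct, sq] using h1
  have h9 : 0 ≤ ∑ k, ‖gb A z (ee k) v‖ ^ 2 := sum_nonneg fun k _ => by positivity
  calc _ ≤ (∑ k, |w k| * ‖gb A z (ee k) v‖) ^ 2 := pow_le_pow_left₀ (norm_nonneg _) h6 2
    _ ≤ _ := h7
    _ ≤ 1 * ∑ k, ‖gb A z (ee k) v‖ ^ 2 := mul_le_mul_of_nonneg_right h8 h9
    _ = _ := one_mul _

lemma continuous_H (E : Ens n) : Continuous fun x : E.ι → ℝ => E.H x := by
  unfold Ens.H
  fun_prop

lemma gb_meas (E : Ens n) (z : ℂ) (u v : Fin n → ℝ) : Measurable fun x => gb (E.H x) z u v := by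
  have hc : Continuous fun x : E.ι → ℝ => cm (E.H x) - z • (1 : Matrix (Fin n) (Fin n) ℂ) :=
    ((continuous_H E).matrix_map Complex.continuous_ofReal).sub continuous_const
  have e : ∀ x, gb (E.H x) z u v = ((cm (E.H x) - z • (1 : Matrix (Fin n) (Fin n) ℂ)).det)⁻¹ *
      (cv u ⬝ᵥ (cm (E.H x) - z • (1 : Matrix (Fin n) (Fin n) ℂ)).adjugate *ᵥ cv v) := by
    intro x
    rw [gb_def, Res, Matrix.inv_def, smul_mulVec, dotProduct_smul, Ring.inverse_eq_inv', smul_eq_mul]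
  simp only [e]
  refine hc.matrix_det.measurable.inv.mul (Continuous.measurable ?_)
  exact continuous_const.dotProduct (hc.matrix_adjugate.matrix_mulVec continuous_const)

lemma gb_cont_line (hA : A.IsHermitian) {z : ℂ} (hz : 0 < z.im) (i j : Fin n) (u v : Fin n → ℝ) :
    Continuous fun τ : ℝ => gb (A + τ • Dl i j) z u v := by
  have hc : Continuous fun τ : ℝ => cm (A + τ • Dl i j) - z • (1 : Matrix (Fin n) (Fin n) ℂ) :=
    (Continuous.matrix_map (by fun_prop) Complex.continuous_ofReal).sub continuous_const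
  have e : ∀ τ : ℝ, gb (A + τ • Dl i j) z u v =
      ((cm (A + τ • Dl i j) - z • (1 : Matrix (Fin n) (Fin n) ℂ)).det)⁻¹ *
      (cv u ⬝ᵥ (cm (A + τ • Dl i j) - z • (1 : Matrix (Fin n) (Fin n) ℂ)).adjugate *ᵥ cv v) := by
    intro τ
    rw [gb_def, Res, Matrix.inv_def, smul_mulVec, dotProduct_smul, Ring.inverse_eq_inv', smul_eq_mul]
  simp only [e]
  refine (hc.matrix_det.inv₀ fun τ => (unit_det (herm_pert hA τ i j) hz.ne').ne_zero).mul ?_
  exact continuous_const.dotProduct (hc.matrix_adjugate.matrix_mulVec continuous_const)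

lemma gb_deriv0 (hA : A.IsHermitian) {z : ℂ} (hz : 0 < z.im) (i j : Fin n) (u v : Fin n → ℝ) :
    HasDerivAt (fun τ : ℝ => gb (A + τ • Dl i j) z u v)
      (-(gb A z u (ee i) * gb A z (ee j) v + gb A z u (ee j) * gb A z (ee i) v)) 0 := by
  set g : ℝ → ℂ := fun τ => -(gb (A + τ • Dl i j) z u (ee i) * gb A z (ee j) v +
    gb (A + τ • Dl i j) z u (ee j) * gb A z (ee i) v) with hg
  have hgc : Continuous g :=
    (((gb_cont_line hA hz i j u _).mul continuous_const).add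
      ((gb_cont_line hA hz i j u _).mul continuous_const)).neg
  have hg0 : g 0 = -(gb A z u (ee i) * gb A z (ee j) v + gb A z u (ee j) * gb A z (ee i) v) := by
    simp [hg]
  rw [hasDerivAt_iff_tendsto_slope_zero, ← hg0]
  refine (hgc.continuousAt.tendsto.mono_left nhdsWithin_le_nhds).congr' ?_
  filter_upwards [self_mem_nhdsWithin] with τ hτ
  have hτ' : (τ : ℂ) ≠ 0 := by exact_mod_cast hτ
  rw [zero_add, zero_smul, add_zero, gb_pert hA hz τ i j u v, hg]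
  simp only [Complex.real_smul, Complex.ofReal_inv]
  field_simp
  ring

lemma gb_deriv (E : Ens n) (x : E.ι → ℝ) (a : E.ι) {z : ℂ} (hz : 0 < z.im) (u v : Fin n → ℝ) (t : ℝ) :
    HasDerivAt (fun s => gb (E.H (update x a s)) z u v)
      (-(E.c a : ℂ) * (gb (E.H (update x a t)) z u (ee (E.i a)) * gb (E.H (update x a t)) z (ee (E.j a)) v
        + gb (E.H (update x a t)) z u (ee (E.j a)) * gb (E.H (update x a t)) z (ee (E.i a)) v)) t := by
  have h := gb_deriv0 (H_herm E (update x a t)) hz (E.i a) (E.j a) u v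
  have h2 : HasDerivAt (fun s : ℝ => (s - t) * E.c a) (E.c a) t := by
    simpa using ((hasDerivAt_id t).sub_const t).mul_const (E.c a)
  have h3 := HasDerivAt.scomp (x := t) (h := fun s : ℝ => (s - t) * E.c a) (by simpa using h) h2
  have e : (fun s => gb (E.H (update x a s)) z u v) = (fun τ : ℝ =>
      gb (E.H (update x a t) + τ • Dl (E.i a) (E.j a)) z u v) ∘ fun s : ℝ => (s - t) * E.c a := by
    ext s
    have := H_upd E (update x a t) a s
    rw [update_idem, update_self] at this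
    simp only [Function.comp_apply, this]
  rw [e]
  refine h3.congr_deriv ?_
  rw [Complex.real_smul]
  ring

/-- **the resolvent API** -/
theorem resApi : ResApi where
  herm := H_herm
  upd := H_upd
  covC := covC
  cov_le := cov_le
  expand := fun E x _ hz => gb_expand E x hz
  deriv := fun E x a _ hz => gb_deriv E x a hz
  meas := gb_meas
  symm := gb_symm
  entry := gb_entry
  lin := gb_lin
  st_eq := st_eq
  bound := fun hA _ hz => gb_bound hA hz
  im_nonneg := fun hA _ hz => gb_im_nonneg hA hz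
  ward := fun hA _ hz => gb_ward hA hz
  ward2 := fun hA _ hz => gb_ward2 hA hz
  pert := fun hA _ hz => gb_pert hA hz
  resz := fun hA _ _ hz hz' => gb_resz hA hz hz'
  lipz := fun hA _ _ hz hz' => gb_lipz hA hz hz'
  lipst := fun hA _ _ hz hz' => st_lipz hA hz hz'
  bd_down := fun hA _ _ hz hre him _ _ _ h => bd_down hA hz hre him h
  spec := fun hA _ hz => gb_spec hA hz
  spec_st := fun hA _ hz => st_spec hA hz
  eigv := fun hA _ hz => gb_eigv hA hz

end Crest.Agent.T157.Ll
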