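import Crest.Agent.T157.SwDef_14
import Crest.Agent.T157.LlRes_91

/-!
# Row 157, part C, SWAP (Y): rank two perturbation of the resolvent on a complex disc (helper79)
-/

set_option autoImplicit false

noncomputable section

namespace Crest.Agent.T157.Sw14.Res79

open Matrix Finset Metric
open Crest.Agent.T157.Eig Crest.Agent.T157.Ed Crest.Agent.T157.Cq
open Crest.Agent.T157.Ll (Dl Res cm cv)

variable {n : ℕ}

lemma nsq_add (a b : ℂ) : ‖a + b‖ ^ 2 ≤ 2 * ‖a‖ ^ 2 + 2 * ‖b‖ ^ 2 := by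
  have := pow_le_pow_left₀ (norm_nonneg _) (norm_add_le a b) 2
  nlinarith [sq_nonneg (‖a‖ - ‖b‖)]

/-- the solution of the perturbed resolvent equation -/
structure Core (G : Fin n → Fin n → ℂ) (u : Fin n → ℂ) (i j : Fin n) (Λ S : ℝ)
    (U : ℂ → Fin n → ℂ) : Prop where
  diff : ∀ k, DifferentiableOn ℂ (fun z => U z k) (ball 0 (4 * Λ)⁻¹)
  eqn : ∀ z ∈ ball (0 : ℂ) (4 * Λ)⁻¹, ∀ k, U z k = u k - z * (G k i * U z j + G k j * U z i)
  ent : ∀ z ∈ ball (0 : ℂ) (4 * Λ)⁻¹, ‖U z i‖ ^ 2 ≤ 4 * Λ ^ 2 * S ^ 2 ∧ ‖U z j‖ ^ 2 ≤ 4 * Λ ^ 2 * S ^ 2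
  nrm : ∀ z ∈ ball (0 : ℂ) (4 * Λ)⁻¹, ∑ k, ‖U z k‖ ^ 2 ≤ 2 * (n * (Λ ^ 2 * S ^ 2)) + 2 * Λ ^ 2 * S ^ 4
  lip : ∀ z ∈ ball (0 : ℂ) (4 * Λ)⁻¹, ∑ k, ‖U z k - U 0 k‖ ^ 2 ≤ 16 * Λ ^ 4 * S ^ 4 * ‖z‖ ^ 2

lemma exists_core {G : Fin n → Fin n → ℂ} {u : Fin n → ℂ} (i j : Fin n) {Λ S : ℝ} (hΛ : 0 < Λ)
    (hS : 0 ≤ S) (hG : ∀ a b, ‖G a b‖ ≤ Λ) (hc : ∀ a, ∑ k, ‖G k a‖ ^ 2 ≤ Λ ^ 2 * S ^ 2)
    (hu : ∀ a, ‖u a‖ ^ 2 ≤ Λ ^ 2 * S ^ 2) : ∃ U, Core G u i j Λ S U := by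
  have zb : ∀ z ∈ ball (0 : ℂ) (4 * Λ)⁻¹, ‖z‖ * Λ ≤ 1 / 4 := fun z hz =>
    (mul_le_mul_of_nonneg_right (mem_ball_zero_iff.1 hz).le hΛ.le).trans_eq (by field_simp)
  have zg : ∀ z ∈ ball (0 : ℂ) (4 * Λ)⁻¹, ∀ a b, ‖z * G a b‖ ≤ 1 / 4 := fun z hz a b => by
    rw [norm_mul]
    exact (mul_le_mul_of_nonneg_left (hG a b) (norm_nonneg _)).trans (zb z hz)
  set d : ℂ → ℂ := fun z => (1 + z * G i j) * (1 + z * G j i) - z * G i i * (z * G j j) with hd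
  have d0 : ∀ z ∈ ball (0 : ℂ) (4 * Λ)⁻¹, d z ≠ 0 := fun z hz h => by
    have e : (1 : ℂ) = z * G i i * (z * G j j) - z * G i j * (z * G j i) - z * G i j - z * G j i := by
      linear_combination h
    have a1 := norm_sub_le (z * G i i * (z * G j j) - z * G i j * (z * G j i) - z * G i j) (z * G j i)
    have a2 := norm_sub_le (z * G i i * (z * G j j) - z * G i j * (z * G j i)) (z * G i j)
    have a3 := norm_sub_le (z * G i i * (z * G j j)) (z * G i j * (z * G j i))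
    have a4 := mul_le_mul (zg z hz i i) (zg z hz j j) (norm_nonneg _) (by norm_num)
    have a5 := mul_le_mul (zg z hz i j) (zg z hz j i) (norm_nonneg _) (by norm_num)
    rw [← norm_mul] at a4 a5
    rw [← e, norm_one] at a1
    linarith [zg z hz i j, zg z hz j i]
  set p : ℂ → ℂ := fun z => ((1 + z * G j i) * u i - z * G i i * u j) / d z with hp
  set q : ℂ → ℂ := fun z => ((1 + z * G i j) * u j - z * G j j * u i) / d z with hq
  have dp : DifferentiableOn ℂ p (ball 0 (4 * Λ)⁻¹) :=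
    DifferentiableOn.div (by fun_prop) (by rw [hd]; fun_prop) d0
  have dq : DifferentiableOn ℂ q (ball 0 (4 * Λ)⁻¹) :=
    DifferentiableOn.div (by fun_prop) (by rw [hd]; fun_prop) d0
  have ei : ∀ z ∈ ball (0 : ℂ) (4 * Λ)⁻¹, u i - z * (G i i * q z + G i j * p z) = p z := fun z hz => by
    have := d0 z hz
    simp only [hp, hq]
    field_simp
    simp only [hd]
    ring
  have ej : ∀ z ∈ ball (0 : ℂ) (4 * Λ)⁻¹, u j - z * (G j i * q z + G j j * p z) = q z := fun z hz => by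
    have := d0 z hz
    simp only [hp, hq]
    field_simp
    simp only [hd]
    ring
  have ub : ∀ a, ‖u a‖ ≤ Λ * S := fun a =>
    (abs_le_of_sq_le_sq' ((hu a).trans_eq (mul_pow _ _ _).symm) (by positivity)).2
  have key : ∀ z ∈ ball (0 : ℂ) (4 * Λ)⁻¹, ∀ a b c, ‖u a - z * (G a b * q z + G a c * p z)‖ ≤
      Λ * S + (‖q z‖ + ‖p z‖) / 4 := fun z hz a b c => by
    refine (norm_sub_le _ _).trans (add_le_add (ub a) ?_)
    rw [mul_add, ← mul_assoc, ← mul_assoc]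
    refine (norm_add_le _ _).trans ?_
    rw [norm_mul _ (q z), norm_mul _ (p z)]
    have a1 := mul_le_mul_of_nonneg_right (zg z hz a b) (norm_nonneg (q z))
    have a2 := mul_le_mul_of_nonneg_right (zg z hz a c) (norm_nonneg (p z))
    linarith
  have pq : ∀ z ∈ ball (0 : ℂ) (4 * Λ)⁻¹,
      ‖p z‖ ^ 2 ≤ 4 * Λ ^ 2 * S ^ 2 ∧ ‖q z‖ ^ 2 ≤ 4 * Λ ^ 2 * S ^ 2 := fun z hz => by
    have a1 := key z hz i i j
    have a2 := key z hz j i j
    rw [ei z hz] at a1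
    rw [ej z hz] at a2
    exact ⟨(pow_le_pow_left₀ (norm_nonneg _) (show ‖p z‖ ≤ 2 * (Λ * S) by linarith) 2).trans_eq
      (by ring), (pow_le_pow_left₀ (norm_nonneg _) (show ‖q z‖ ≤ 2 * (Λ * S) by linarith) 2).trans_eq
      (by ring)⟩
  have lp : ∀ z ∈ ball (0 : ℂ) (4 * Λ)⁻¹, ∑ k, ‖z * (G k i * q z + G k j * p z)‖ ^ 2 ≤
      16 * Λ ^ 4 * S ^ 4 * ‖z‖ ^ 2 := fun z hz => by
    calc _ ≤ ∑ k, ‖z‖ ^ 2 * (2 * (‖G k i‖ ^ 2 * (4 * Λ ^ 2 * S ^ 2)) +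
          2 * (‖G k j‖ ^ 2 * (4 * Λ ^ 2 * S ^ 2))) := sum_le_sum fun k _ => by
          rw [norm_mul, mul_pow]
          refine mul_le_mul_of_nonneg_left ((nsq_add _ _).trans ?_) (sq_nonneg _)
          rw [norm_mul, norm_mul, mul_pow, mul_pow]
          gcongr
          exacts [(pq z hz).2, (pq z hz).1]
      _ = ‖z‖ ^ 2 * (2 * ((∑ k, ‖G k i‖ ^ 2) * (4 * Λ ^ 2 * S ^ 2)) +
          2 * ((∑ k, ‖G k j‖ ^ 2) * (4 * Λ ^ 2 * S ^ 2))) := by
          simp only [← mul_sum, sum_add_distrib, ← sum_mul]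
      _ ≤ ‖z‖ ^ 2 * (2 * (Λ ^ 2 * S ^ 2 * (4 * Λ ^ 2 * S ^ 2)) +
          2 * (Λ ^ 2 * S ^ 2 * (4 * Λ ^ 2 * S ^ 2))) := by gcongr <;> exact hc _
      _ = _ := by ring
  refine ⟨fun z k => u k - z * (G k i * q z + G k j * p z), fun k => ?_, fun z hz k => ?_,
    fun z hz => ?_, fun z hz => ?_, fun z hz => ?_⟩
  · exact (differentiableOn_const _).sub (differentiableOn_id.mul
      ((dq.const_mul _).add (dp.const_mul _)))
  · rw [ei z hz, ej z hz]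
  · rw [ei z hz, ej z hz]; exact pq z hz
  · have a1 : ∑ k, ‖u k‖ ^ 2 ≤ n * (Λ ^ 2 * S ^ 2) := by
      simpa using sum_le_card_nsmul univ _ _ fun k _ => hu k
    have a2 : ∑ k, ‖u k - z * (G k i * q z + G k j * p z)‖ ^ 2 ≤
        2 * ∑ k, ‖u k‖ ^ 2 + 2 * ∑ k, ‖z * (G k i * q z + G k j * p z)‖ ^ 2 := by
      rw [mul_sum, mul_sum, ← sum_add_distrib]
      refine sum_le_sum fun k _ => ?_
      simpa only [← sub_eq_add_neg, norm_neg] using
        nsq_add (u k) (-(z * (G k i * q z + G k j * p z)))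
    have a3 := pow_le_pow_left₀ (by positivity) (zb z hz) 2
    have a4 := mul_le_mul_of_nonneg_left a3 (show 0 ≤ 16 * Λ ^ 2 * S ^ 4 by positivity)
    nlinarith [lp z hz]
  · simpa only [zero_mul, sub_zero, sub_sub_cancel_left, norm_neg] using lp z hz

lemma cm_Dl (i j : Fin n) (V : Fin n → ℂ) :
    cm (Dl i j) *ᵥ V = Pi.single i (V j) + Pi.single j (V i) := by
  funext k
  have := Ll.dot_Dl i j (Pi.single k 1) V
  rw [single_one_dotProduct] at this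
  rw [this]
  simp only [Pi.add_apply, Pi.single_apply, eq_comm (a := k)]
  split_ifs <;> simp

/-- uniqueness on the real line -/
lemma solve {W : Mat n} (hW : W.IsHermitian) {ζ : ℂ} (hz : ζ.im ≠ 0) (ξ : Fin n → ℂ) (i j : Fin n)
    (t : ℝ) {V : Fin n → ℂ}
    (h : ∀ k, V k = (Res W ζ *ᵥ ξ) k - t * (Res W ζ k i * V j + Res W ζ k j * V i)) :
    V = Res (W + t • Dl i j) ζ *ᵥ ξ := by
  have e1 : V = Res W ζ *ᵥ (ξ - (t : ℂ) • cm (Dl i j) *ᵥ V) := by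
    funext k
    rw [h k, mulVec_sub, mulVec_smul, cm_Dl, mulVec_add, mulVec_single, mulVec_single]
    simp [mul_comm, mul_add]
  have e2 : (cm W - ζ • (1 : Matrix (Fin n) (Fin n) ℂ)) *ᵥ V = ξ - (t : ℂ) • cm (Dl i j) *ᵥ V := by
    conv_lhs => rw [e1]
    rw [mulVec_mulVec, Ll.mul_Res hW hz, one_mulVec]
  have e3 : cm (W + t • Dl i j) - ζ • (1 : Matrix (Fin n) (Fin n) ℂ) =
      (cm W - ζ • (1 : Matrix (Fin n) (Fin n) ℂ)) + (t : ℂ) • cm (Dl i j) := by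
    ext k l; simp; ring
  have e4 := congrArg (fun M => M *ᵥ V) (Ll.Res_mul (Ll.herm_pert hW t i j) hz)
  simp only [one_mulVec] at e4
  rw [← mulVec_mulVec, e3, add_mulVec, e2, smul_mulVec, sub_add_cancel] at e4
  exact e4.symm

lemma sx_pow (n k : ℕ) : sx n ^ k = (n : ℝ) ^ ((k : ℝ) / 6) := by
  rw [sx, ← Real.rpow_natCast, ← Real.rpow_mul (Nat.cast_nonneg n)]; congr 1; ring

lemma n_eq (n : ℕ) : (n : ℝ) = sx n ^ 6 := by rw [sx_pow]; norm_num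

lemma zL_im (n : ℕ) (L : ℝ) : (zL n L).im = L / tau n := by
  simp only [zL, Complex.add_im, Complex.mul_im, Complex.ofReal_re, Complex.ofReal_im, Complex.I_im,
    Complex.I_re, Complex.im_ofNat]
  ring

lemma zL_re (n : ℕ) (L : ℝ) : (zL n L).re = 2 := by
  simp only [zL, Complex.add_re, Complex.mul_re, Complex.ofReal_re, Complex.ofReal_im, Complex.I_im,
    Complex.I_re, Complex.re_ofNat]
  ring

lemma fl_im {W : Mat n} (hW : W.IsHermitian) {L : ℝ} (hL : 0 < L) (hτ : 0 < tau n) (ξ : Fin n → ℝ)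
    (k : Fin n) : (fl n L W *ᵥ ξ) k = L / tau n * ((Res W (zL n L) *ᵥ cv ξ) k).im := by
  have hz : (zL n L).im ≠ 0 := by rw [zL_im]; positivity
  have e : ∀ a b, fl n L W a b = L / tau n * (Res W (zL n L) a b).im := fun a b => by
    have h := resolvent_eq (K := ℂ) hW (z := zL n L) fun k _ => lam_ne_of_im hz W k
    rw [show Res W (zL n L) = _ from h, fl, fnK_apply, fnK_apply, Complex.im_sum, mul_sum]
    refine sum_congr rfl fun m _ => ?_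
    simp only [RCLike.ofReal_real_eq_id, id, Complex.coe_algebraMap, Complex.mul_im,
      Complex.ofReal_re, Complex.ofReal_im, mul_zero, zero_add, Complex.inv_im, Complex.normSq_apply,
      Complex.sub_re, Complex.sub_im, zL_re, zL_im, zero_sub, neg_neg]
    have : (tau n * (2 - lam W m)) ^ 2 + L ^ 2 ≠ 0 := by positivity
    have : (lam W m - 2) * (lam W m - 2) + -(L / tau n) * -(L / tau n) =
        ((tau n * (2 - lam W m)) ^ 2 + L ^ 2) / tau n ^ 2 := by field_simp; ring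
    rw [this]
    field_simp
  simp only [mulVec, dotProduct, e, Complex.im_sum, mul_sum, Complex.mul_im, Complex.ofReal_re,
    Complex.ofReal_im, mul_zero, zero_add, mul_assoc]

lemma hm_re {W : Mat n} (hW : W.IsHermitian) {L : ℝ} (hL : 0 < L) (hτ : 0 < tau n) (ξ : Fin n → ℝ)
    (k : Fin n) : (Hm n W *ᵥ fl n L W *ᵥ ξ) k =
      -(L * (L / tau n)) * ((Res W (zL n L) *ᵥ cv ξ) k).re := by
  have hz : (zL n L).im ≠ 0 := by rw [zL_im]; positivity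
  set v := Res W (zL n L) *ᵥ cv ξ with hv
  have e1 : (cm W - zL n L • (1 : Matrix (Fin n) (Fin n) ℂ)) *ᵥ v = cv ξ := by
    rw [hv, mulVec_mulVec, Ll.mul_Res hW hz, one_mulVec]
  have e2 := congrArg Complex.im (congrFun e1 k)
  rw [sub_mulVec, smul_mulVec, one_mulVec] at e2
  simp only [Pi.sub_apply, Pi.smul_apply, smul_eq_mul, mulVec, dotProduct, map_apply, Complex.sub_im,
    Complex.im_sum, Complex.mul_im, Complex.ofReal_re, Complex.ofReal_im, zero_mul, add_zero, zL_re,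
    zL_im] at e2
  have e3 : fl n L W *ᵥ ξ = (L / tau n) • fun k => (v k).im := funext (fl_im hW hL hτ ξ)
  rw [e3, mulVec_smul, Hm, smul_mulVec, sub_mulVec, smul_mulVec, one_mulVec]
  simp only [Pi.sub_apply, Pi.smul_apply, smul_eq_mul, mulVec, dotProduct]
  rw [show ∑ x, W k x * (v x).im = 2 * (v k).im + L / tau n * (v k).re by linarith]
  field_simp
  ring

lemma comb_sq {α β : ℂ} {c : ℝ} (ha : ‖α‖ ≤ c / 2) (hb : ‖β‖ ≤ c / 2) (x y : ℂ) :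
    ‖α * x + β * y‖ ^ 2 ≤ c ^ 2 / 2 * (‖x‖ ^ 2 + ‖y‖ ^ 2) := by
  refine (nsq_add _ _).trans ?_
  rw [norm_mul, norm_mul, mul_pow, mul_pow]
  have a1 := mul_le_mul_of_nonneg_right (pow_le_pow_left₀ (norm_nonneg _) ha 2) (sq_nonneg ‖x‖)
  have a2 := mul_le_mul_of_nonneg_right (pow_le_pow_left₀ (norm_nonneg _) hb 2) (sq_nonneg ‖y‖)
  linarith

lemma comb {G G' : Fin n → Fin n → ℂ} {u u' : Fin n → ℂ} {i j : Fin n} {Λ L : ℝ}
    {U V : ℂ → Fin n → ℂ} (hn : 1 ≤ n) (hL : 1 ≤ L) (hΛ : 1 ≤ Λ) (h : Core G u i j Λ (sx n) U)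
    (h' : Core G' u' i j Λ (sx n) V) {α β : ℂ} (ha : ‖α‖ ≤ L ^ 2 / sx n ^ 4 / 2)
    (hb : ‖β‖ ≤ L ^ 2 / sx n ^ 4 / 2) {f : ℝ → Fin n → ℝ}
    (hf : ∀ t : ℝ, |t| < (4 * Λ)⁻¹ → ∀ k, α * U t k + β * V t k = f t k) :
    AnV i j (4 * Λ)⁻¹ (8 * L ^ 2 * Λ ^ 2) f fun z k => α * U z k + β * V z k := by
  have s1 := one_le_sx hn
  have s0 : 0 < sx n := by linarith
  have hN : 4 * L ^ 4 * Λ ^ 2 ≤ (8 * L ^ 2 * Λ ^ 2) ^ 2 := by
    have : Λ ^ 2 ≤ Λ ^ 4 := pow_le_pow_right₀ hΛ (by norm_num)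
    nlinarith [mul_le_mul_of_nonneg_left this (show 0 ≤ L ^ 4 by positivity),
      show 0 ≤ L ^ 4 * Λ ^ 4 by positivity]
  have en : ∀ x y : ℂ, ‖x‖ ^ 2 ≤ 4 * Λ ^ 2 * sx n ^ 2 → ‖y‖ ^ 2 ≤ 4 * Λ ^ 2 * sx n ^ 2 →
      n * ‖α * x + β * y‖ ^ 2 ≤ (8 * L ^ 2 * Λ ^ 2) ^ 2 := fun x y hx hy => by
    refine le_trans ?_ hN
    calc _ ≤ sx n ^ 6 * ((L ^ 2 / sx n ^ 4) ^ 2 / 2 *
          (4 * Λ ^ 2 * sx n ^ 2 + 4 * Λ ^ 2 * sx n ^ 2)) := by
          rw [← n_eq]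
          exact mul_le_mul_of_nonneg_left ((comb_sq ha hb x y).trans (by gcongr)) (Nat.cast_nonneg n)
      _ = _ := by field_simp; ring
  refine ⟨fun k => ((h.diff k).const_mul _).add ((h'.diff k).const_mul _), hf,
    fun z hz => ⟨en _ _ (h.ent z hz).1 (h'.ent z hz).1, en _ _ (h.ent z hz).2 (h'.ent z hz).2⟩,
    fun z hz => le_trans ?_ hN, fun z hz => ?_⟩
  · refine (sum_le_sum fun k _ => comb_sq ha hb _ _).trans ?_
    rw [← mul_sum, sum_add_distrib]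
    have a1 : sx n ^ 4 ≤ sx n ^ 8 := pow_le_pow_right₀ s1 (by norm_num)
    have a2 : 2 * (n * (Λ ^ 2 * sx n ^ 2)) + 2 * Λ ^ 2 * sx n ^ 4 ≤ 4 * Λ ^ 2 * sx n ^ 8 := by
      have := mul_le_mul_of_nonneg_left a1 (sq_nonneg Λ)
      have e : (n : ℝ) * (Λ ^ 2 * sx n ^ 2) = Λ ^ 2 * sx n ^ 8 := by
        have := n_eq n
        linear_combination (Λ ^ 2 * sx n ^ 2) * this
      rw [e]; linarith
    calc _ ≤ (L ^ 2 / sx n ^ 4) ^ 2 / 2 * (4 * Λ ^ 2 * sx n ^ 8 + 4 * Λ ^ 2 * sx n ^ 8) := by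
          gcongr
          exacts [(h.nrm z hz).trans a2, (h'.nrm z hz).trans a2]
      _ = _ := by field_simp; ring
  · have e : ∀ k, α * U z k + β * V z k - (α * U 0 k + β * V 0 k) =
        α * (U z k - U 0 k) + β * (V z k - V 0 k) := fun k => by ring
    simp only [e]
    calc _ ≤ sx n ^ 4 * ((L ^ 2 / sx n ^ 4) ^ 2 / 2 * (16 * Λ ^ 4 * sx n ^ 4 * ‖z‖ ^ 2 +
          16 * Λ ^ 4 * sx n ^ 4 * ‖z‖ ^ 2)) := by
          refine mul_le_mul_of_nonneg_left ((sum_le_sum fun k _ => comb_sq ha hb _ _).trans ?_)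
            (by positivity)
          rw [← mul_sum, sum_add_distrib]
          gcongr
          exacts [h.lip z hz, h'.lip z hz]
      _ = 16 * (L ^ 4 * Λ ^ 4 * ‖z‖ ^ 2) := by field_simp; ring
      _ ≤ 64 * (L ^ 4 * Λ ^ 4 * ‖z‖ ^ 2) := by gcongr; norm_num
      _ = _ := by ring

end Crest.Agent.T157.Sw14.Res79

namespace Crest.Agent.T157.Sw14

open Matrix Finset Metric Res79
open Crest.Agent.T157.Eig Crest.Agent.T157.Ed Crest.Agent.T157.Cq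
open Crest.Agent.T157.Ll (Dl Res cm cv)

theorem resStmt : ResStmt := fun n L Λ W ξ i j hn hL hΛ hW hG => by
  have s1 := one_le_sx hn
  have s0 : 0 < sx n := by linarith
  have L0 : 0 < L := by linarith
  have hτ : 0 < tau n := by rw [tau_eq]; positivity
  have hz : (zL n L).im ≠ 0 := by rw [zL_im]; positivity
  obtain ⟨U, hU⟩ := exists_core i j (by linarith) s0.le hG.1 hG.2.1 hG.2.2
  obtain ⟨V, hV⟩ := exists_core (G := fun a b => starRingEnd ℂ (Res W (zL n L) a b))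
    (u := fun a => starRingEnd ℂ ((Res W (zL n L) *ᵥ cv ξ) a)) i j (Λ := Λ) (by linarith) s0.le
    (by simpa using hG.1) (by simpa using hG.2.1) (by simpa using hG.2.2)
  have mb : ∀ t : ℝ, |t| < (4 * Λ)⁻¹ → (t : ℂ) ∈ ball (0 : ℂ) (4 * Λ)⁻¹ := fun t ht => by
    rwa [mem_ball_zero_iff, Complex.norm_real]
  have eU : ∀ t : ℝ, |t| < (4 * Λ)⁻¹ → U t = Res (W + t • Dl i j) (zL n L) *ᵥ cv ξ := fun t ht =>
    solve hW hz _ i j t (hU.eqn _ (mb t ht))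
  have eV : ∀ t : ℝ, |t| < (4 * Λ)⁻¹ → ∀ k,
      V t k = starRingEnd ℂ ((Res (W + t • Dl i j) (zL n L) *ᵥ cv ξ) k) := fun t ht k => by
    rw [← solve hW hz (cv ξ) i j t (V := fun k => starRingEnd ℂ (V t k)) fun k => by
      rw [hV.eqn _ (mb t ht) k]; simp, Complex.conj_conj]
  have n1 : ‖((L / tau n / 2 : ℝ) : ℂ) * Complex.I‖ ≤ L ^ 2 / sx n ^ 4 / 2 := by
    rw [norm_mul, Complex.norm_I, mul_one, Complex.norm_real, Real.norm_of_nonneg (by positivity),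
      tau_eq]
    gcongr
    nlinarith
  have n2 : ‖((-(L * (L / tau n)) / 2 : ℝ) : ℂ)‖ ≤ L ^ 2 / sx n ^ 4 / 2 := by
    rw [Complex.norm_real, neg_div, norm_neg, Real.norm_of_nonneg (by positivity), tau_eq]
    exact le_of_eq (by ring)
  refine ⟨_, _, comb hn hL hΛ hU hV ((norm_neg _).trans_le n1) n1 fun t ht k => ?_,
    comb hn hL hΛ hU hV n2 n2 fun t ht k => ?_⟩
  · rw [eU t ht, eV t ht, fl_im (Ll.herm_pert hW t i j) L0 hτ]
    generalize (Res (W + t • Dl i j) (zL n L) *ᵥ cv ξ) k = w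
    generalize L / tau n = c
    apply Complex.ext <;> simp <;> ring
  · rw [eU t ht, eV t ht, hm_re (Ll.herm_pert hW t i j) L0 hτ]
    generalize (Res (W + t • Dl i j) (zL n L) *ᵥ cv ξ) k = w
    generalize L * (L / tau n) = c
    apply Complex.ext <;> simp <;> ring

end Crest.Agent.T157.Sw14

end
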