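import Crest.Agent.T157.SwA_14
import Crest.Agent.T157.LlRes_91
import Crest.Agent.T157.NrmS_84

/-!
# Row 157, SWAP for coins: the trapezoid error and the crude resolvent bounds (helper90)
-/

set_option autoImplicit false

noncomputable section

namespace Crest.Agent.T157.Sw14

open Matrix Finset Real Function Filter Topology
open Crest.ProbabilityR.SpinGlassDynamics Crest.Agent.T157.E Crest.Agent.T157.Eig
open Crest.Agent.T157.St Crest.Agent.T157.Ed Crest.Agent.T157.Cq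
open Crest.Agent.T157.Ll (Dl Res)

variable {n : ℕ}

namespace Trap90

theorem tau_le (hn : 1 ≤ n) : tau n ≤ n := by
  have h1 : (1 : ℝ) ≤ n := by exact_mod_cast hn
  calc tau n ≤ (n : ℝ) ^ (1 : ℝ) := rpow_le_rpow_of_exponent_le h1 (by norm_num)
    _ = n := rpow_one _

theorem gd1 (hn : 1 ≤ n) {L : ℝ} (hL : 1 ≤ L) {W : Mat n} (hW : W.IsHermitian) {ξ : Fin n → ℝ}
    (hξ : ∑ k, ξ k ^ 2 ≤ 2 * (n : ℝ) ^ 3) : Gd1 n L (2 * (n : ℝ) ^ 3) W ξ := by
  have h1 : (1 : ℝ) ≤ n := by exact_mod_cast hn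
  have t0 := tau_pos' hn
  have im : (zL n L).im = L / tau n := by simp [zL]
  have e : ∀ a b, ‖Res W (zL n L) a b‖ ≤ n := fun a b => by
    have ee : ∀ k : Fin n, Ll.ee k ⬝ᵥ Ll.ee k ≤ 1 := fun k => by simp [Ll.ee]
    rw [← Ll.resApi.entry]
    refine (Ll.resApi.bound hW (by rw [im]; positivity) _ _ (ee a) (ee b)).trans ?_
    rw [im, one_div_div]
    exact (div_le_self t0.le hL).trans (tau_le hn)
  have s1 : 1 ≤ sx n ^ 2 := one_le_pow₀ (one_le_sx hn)
  have n3 : (1 : ℝ) ≤ n ^ 3 := one_le_pow₀ h1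
  have up : 2 * (n : ℝ) ^ 3 * n ^ 3 ≤ (2 * (n : ℝ) ^ 3) ^ 2 * sx n ^ 2 := by
    nlinarith [mul_le_mul_of_nonneg_left s1 (sq_nonneg (2 * (n : ℝ) ^ 3))]
  refine ⟨fun a b => (e a b).trans ?_, fun a => ?_, fun a => ?_⟩
  · nlinarith [pow_le_pow_right₀ h1 (show 1 ≤ 3 by norm_num)]
  · refine (sum_le_card_nsmul _ _ ((n : ℝ) ^ 2) fun k _ =>
      pow_le_pow_left₀ (norm_nonneg _) (e k a) 2).trans ?_
    rw [card_univ, Fintype.card_fin, nsmul_eq_mul]
    nlinarith
  · have h2 : ‖(Res W (zL n L) *ᵥ fun k => (ξ k : ℂ)) a‖ ≤ n * ∑ k, |ξ k| := by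
      rw [mul_sum]
      refine (norm_sum_le univ fun k => Res W (zL n L) a k * (ξ k : ℂ)).trans
        (sum_le_sum fun k _ => ?_)
      rw [norm_mul, Complex.norm_real, Real.norm_eq_abs]
      exact mul_le_mul_of_nonneg_right (e a k) (abs_nonneg _)
    have h3 : (∑ k, |ξ k|) ^ 2 ≤ n * ∑ k, ξ k ^ 2 := by
      simpa only [card_univ, Fintype.card_fin, sq_abs] using
        sq_sum_le_card_mul_sum_sq (s := univ) (f := fun k => |ξ k|)
    refine (pow_le_pow_left₀ (norm_nonneg _) h2 2).trans (le_trans ?_ up)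
    rw [mul_pow]
    calc (n : ℝ) ^ 2 * (∑ k, |ξ k|) ^ 2 ≤ n ^ 2 * (n * (2 * n ^ 3)) :=
          mul_le_mul_of_nonneg_left (h3.trans (mul_le_mul_of_nonneg_left hξ (by positivity)))
            (by positivity)
      _ = _ := by ring

theorem abs_trp_le {h : ℝ → ℝ} (hh : ContDiff ℝ (⊤ : ℕ∞) h) {ζ : ℝ}
    (hζ : ∀ t ∈ Set.Icc (-1 : ℝ) 1, |iteratedDeriv 3 h t| ≤ ζ) : |trp h| ≤ ζ := by
  have h1 : ContDiff ℝ (⊤ : ℕ∞) (deriv h) := hh.iterate_deriv 1
  have h2 : ContDiff ℝ (⊤ : ℕ∞) (deriv (deriv h)) := hh.iterate_deriv 2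
  have d0 := hh.differentiable (by simp)
  have d1 := h1.differentiable (by simp)
  have d2 := h2.differentiable (by simp)
  have e3 : iteratedDeriv 3 h = deriv (deriv (deriv h)) := by
    rw [iteratedDeriv_eq_iterate]; rfl
  rw [e3] at hζ
  have z0 : 0 ≤ ζ := (abs_nonneg _).trans (hζ 0 ⟨by norm_num, by norm_num⟩)
  have lip : ∀ t ∈ Set.Icc (0 : ℝ) 1, |deriv (deriv h) t - deriv (deriv h) (-t)| ≤ ζ * 2 := by
    intro t ht
    have := (convex_Icc (-1 : ℝ) 1).norm_image_sub_le_of_norm_deriv_le (f := deriv (deriv h))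
      (fun x _ => d2 x) (fun x hx => hζ x hx) (x := -t) (y := t) ⟨by linarith [ht.2], by linarith [ht.1]⟩
      ⟨by linarith [ht.1], ht.2⟩
    rw [Real.norm_eq_abs, Real.norm_eq_abs] at this
    refine this.trans (mul_le_mul_of_nonneg_left ?_ z0)
    rw [abs_of_nonneg (by linarith [ht.1])]; linarith [ht.2]
  have hd : ∀ t : ℝ, HasDerivAt
      (fun t => t * (deriv h t + deriv h (-t)) / 2 - (h t - h (-t)) / 2)
      (t * (deriv (deriv h) t - deriv (deriv h) (-t)) / 2) t := fun t => by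
    have a := (d1 t).hasDerivAt
    have b := (d1 (-t)).hasDerivAt.comp t (hasDerivAt_neg t)
    have a' := (d0 t).hasDerivAt
    have b' := (d0 (-t)).hasDerivAt.comp t (hasDerivAt_neg t)
    have := (((hasDerivAt_id' t).mul (a.add b)).div_const 2).sub ((a'.sub b').div_const 2)
    refine this.congr_deriv ?_
    simp only [Pi.add_apply, Function.comp]
    ring
  have := norm_image_sub_le_of_norm_deriv_le_segment_01' (C := ζ)
    (fun t _ => (hd t).hasDerivWithinAt) fun t ht => by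
      rw [Real.norm_eq_abs, abs_div, abs_mul, abs_of_nonneg ht.1, abs_two]
      have := mul_le_mul ht.2.le (lip t ⟨ht.1, ht.2.le⟩) (abs_nonneg _) zero_le_one
      linarith
  simpa [trp] using this

theorem sum_w {w : Fin n → ℝ} (hn : 1 ≤ n) (h0 : ∀ i, 0 ≤ w i) (h1 : ∑ i, w i ^ 2 ≤ 1) :
    ∑ p : Pair n, (w p.1.1 + w p.1.2 + (√n)⁻¹) ≤ 2 * (n * √n) := by
  have s0 := sqrt_pos' hn
  have n0 : (0 : ℝ) ≤ n := Nat.cast_nonneg n
  have h2 := Nrm.sum_pair_le (fun i j => w i + w j + (√n)⁻¹) (fun i j => by rw [add_comm (w i)])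
    (fun i => by have := h0 i; positivity)
  have h3 : ∑ i, w i ≤ √n := by
    refine le_sqrt_of_sq_le ?_
    have := sq_sum_le_card_mul_sum_sq (s := univ) (f := w)
    rw [card_univ, Fintype.card_fin] at this
    nlinarith
  have h4 : (n : ℝ) * (√n)⁻¹ = √n := by
    rw [← div_eq_mul_inv, div_sqrt]
  have h5 : ∑ i : Fin n, ∑ j : Fin n, (w i + w j + (√n)⁻¹) =
      2 * (n * ∑ i, w i) + n * (n * (√n)⁻¹) := by
    simp only [sum_add_distrib, sum_const, card_univ, Fintype.card_fin, nsmul_eq_mul, ← mul_sum]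
    ring
  rw [h5, h4] at h2
  nlinarith [mul_le_mul_of_nonneg_left h3 n0]

theorem card_le : (Fintype.card (Pair n) : ℝ) ≤ (n : ℝ) ^ 2 := by
  have := Fintype.card_subtype_le (fun p : Fin n × Fin n => p.1 < p.2)
  rw [Fintype.card_prod, Fintype.card_fin] at this
  rw [sq]
  exact_mod_cast this

end Trap90

open Trap90

theorem gcStmt : GcStmt := fun n c y hn hc hy => by
  have e : y ⬝ᵥ y = ∑ k, y (.inl k) ^ 2 + (∑ k, x1 y k ^ 2 + ∑ k, x2 y k ^ 2) := by
    simp only [dotProduct, Fintype.sum_sum_type, x1, x2, sq]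
  have a : 0 ≤ ∑ k, y (.inl k) ^ 2 := by positivity
  have b : 0 ≤ ∑ k, x1 y k ^ 2 := by positivity
  have d : 0 ≤ ∑ k, x2 y k ^ 2 := by positivity
  exact ⟨gd1 hn hc.2.2.2.2 (W4_herm y) (by linarith), gd1 hn hc.2.2.2.1 (W4_herm y) (by linarith)⟩

theorem trapGlue : TrapGlue := fun sm der gc c hc ω hω => by
  obtain ⟨C, k, hC, H⟩ := der c hc ω hω
  have two : (1 : ℝ) ≤ 2 ^ k := one_le_pow₀ one_le_two
  refine ⟨2 * 2 ^ k * C, 3 * k + 2, by nlinarith, fun n y φ hn => ⟨?_, fun Λ hΛ hg hy hs => ?_⟩⟩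
  · have h1 : (1 : ℝ) ≤ n := by exact_mod_cast hn
    have n3 : (1 : ℝ) ≤ 2 * n ^ 3 := by nlinarith [one_le_pow₀ (n := 3) h1]
    have B0 : 0 ≤ C * (2 * (n : ℝ) ^ 3) ^ k := by positivity
    have key : ∀ (p : Pair n) (t : ℝ), |hp c ω φ y p t| ≤ C * (2 * (n : ℝ) ^ 3) ^ k ∧
        |deriv (hp c ω φ y p) t| ≤ C * (2 * (n : ℝ) ^ 3) ^ k := fun p t => by
      by_cases hq : q4 c (update y (ip p) t) ∈ tsupport ω
      · have h3 := (hω.2.2 hq).2.2
        simp only [q4, Matrix.cons_val] at h3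
        rw [div_le_iff₀ (by positivity)] at h3
        obtain ⟨w, -, -, hw⟩ := H n _ _ φ hn n3 (gc n c _ hn hc h3)
        have := hw p t (by
          rw [update_self, sub_self, abs_zero]
          have := sx_pos' hn
          positivity)
        rw [hp_update] at this
        exact ⟨this.1, this.2.1⟩
      · have cq : Continuous fun s : ℝ => q4 c (update y (ip p) s) :=
          (sm n c hn hc).2.1.continuous.comp (continuous_const.update _ continuous_id)
        have ev : hp c ω φ y p =ᶠ[𝓝 t] fun _ => 0 := by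
          filter_upwards [cq.continuousAt.eventually
            ((isClosed_tsupport ω).isOpen_compl.mem_nhds hq)] with s hs
          rw [hp, Hf, image_eq_zero_of_notMem_tsupport hs, zero_mul, mul_zero]
        rw [ev.deriv_eq, ev.self_of_nhds, deriv_const, abs_zero]
        exact ⟨B0, B0⟩
    refine (sum_le_card_nsmul _ _ (2 * (C * (2 * (n : ℝ) ^ 3) ^ k)) fun p _ => ?_).trans ?_
    · have a := abs_le.1 (key p 1).1
      have b := abs_le.1 (key p 1).2
      have a' := abs_le.1 (key p (-1)).1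
      have b' := abs_le.1 (key p (-1)).2
      rw [trp, abs_le]
      constructor <;> linarith [a.1, a.2, b.1, b.2, a'.1, a'.2, b'.1, b'.2]
    · rw [card_univ, nsmul_eq_mul]
      refine (mul_le_mul_of_nonneg_right card_le (by positivity)).trans_eq ?_
      rw [mul_pow, ← pow_mul, pow_add]; ring
  · have s0 := sx_pos' hn
    have t0 := tau_pos' hn
    have n0 : (0 : ℝ) < n := by exact_mod_cast hn
    have L0 : 0 < C * Λ ^ k := by positivity
    have mono : 2 * (C * Λ ^ k) ≤ 2 * 2 ^ k * C * Λ ^ (3 * k + 2) := by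
      have : Λ ^ k ≤ Λ ^ (3 * k + 2) := pow_le_pow_right₀ hΛ (by omega)
      have h2 : C * Λ ^ k ≤ 2 ^ k * C * Λ ^ (3 * k + 2) :=
        mul_le_mul (by nlinarith) this (by positivity) (by positivity)
      linarith
    obtain ⟨w, w0, w1, hw⟩ := H n y Λ φ hn hΛ hg
    have sm' : ∀ p : Pair n, ContDiff ℝ (⊤ : ℕ∞) (hp c ω φ y p) := fun p => by
      have u : ContDiff ℝ (⊤ : ℕ∞) fun t : ℝ => update y (ip p) t := contDiff_update _ y (ip p)
      have a : ContDiff ℝ (⊤ : ℕ∞) fun t : ℝ => Xf c (update y (ip p) t) (ip p) :=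
        contDiff_pi.1 ((sm n c hn hc).1.comp u) (ip p)
      have v : ContDiff ℝ (⊤ : ℕ∞) fun t : ℝ => (φ, update y (ip p) t) := contDiff_const.prodMk u
      have b := ((sm n c hn hc).2.2 ω hω).comp v
      have b' : ContDiff ℝ (⊤ : ℕ∞) fun t : ℝ => Hf c ω φ (update y (ip p) t) := by
        simpa only [Function.comp_def] using b
      exact a.mul b'
    refine (sum_le_sum fun p _ => abs_trp_le (sm' p) fun t ht => (hw p t ?_).2.2).trans ?_
    · rw [le_div_iff₀ L0]
      have : |t - y (ip p)| ≤ 2 := (abs_sub _ _).trans (by linarith [hy p, abs_le.2 ht])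
      nlinarith
    · rw [← mul_sum]
      refine (mul_le_mul_of_nonneg_left (sum_w hn w0 w1) (by positivity)).trans ?_
      refine le_trans (le_of_eq ?_) (div_le_div_of_nonneg_right mono s0.le)
      rw [← sx_three, ← sx_four]
      generalize sx n = s at s0
      field_simp

end Crest.Agent.T157.Sw14

end
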