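import Crest.Agent.T157.SwK_14
import Crest.Agent.T157.SwF_77
import Crest.Agent.T157.SwF_82
import Crest.Agent.T157.SwRes_79
import Crest.Agent.T157.SwDer_91
import Crest.Agent.T157.SwTrap_90
import Crest.Agent.T157.SwPr_49
import Crest.Agent.T157.SwG_13
import Crest.Agent.T157.CqBd_43
import Crest.Agent.T157.CqKap_46

/-!
# Row 157, part C: SWAP for coin couplings, unconditional (helper14)
-/

set_option autoImplicit false

namespace Crest.Agent.T157.Sw14

theorem swapT : Cq.SwapStmt true :=
  swap_of Cq.kapStmt Cq.msStmt Sw77.wtStmt Sw77.smStmt Sw77.divStmt Sw77.flowGlue Sw77.steinStmt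
    Sw77.fGlue dStmt resStmt kGlue derGlue gcStmt trapGlue prStmt glue trStmt

end Crest.Agent.T157.Sw14
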