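import Crest.Agent.T157.FinD_88
import Crest.Agent.T157.SwAll_14
import Crest.Agent.T157.O7Aw_67
import Crest.Agent.T157.O7G_13
import Crest.Agent.T157.O7Pb_31
import Crest.Agent.T157.O7Qu_64
import Crest.Agent.T157.O7St_64
import Crest.Agent.T157.O7W_22
import Crest.Agent.T157.O0E_87
import Crest.Agent.T157.O0W_44
import Crest.Agent.T157.O0Whp_58

/-!
# Row 157: the critical statements from the joint planted theorem and the coin windows (helper88)
-/

set_option autoImplicit false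

namespace Crest.Agent.T157.TopZ

open Crest.ProbabilityR.SpinGlassDynamics

/-- the Gaussian input -/
structure JIn : Prop where
  j0 : O7.J0
  j1 : O7.J1
  j2 : O7.J2
  j3 : O7.J3
  ed : O7.Edge

theorem aOut (J : JIn) : AOut (3 / 5) (1 / 30) 1 :=
  have h := O7.out_of O7.quStmt O7.w2Glue O7.awGlue O7.gGlue O7.g3Glue O7.pbStmt O7.starGlue
    O7.sharpGlue LpAll.covStmt (Un.ldB false) J.j0 J.j1 J.j2 J.j3 J.ed (a := 3 / 5) (κ := 1 / 30)
    (T := 1) (by norm_num) (by norm_num) one_pos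
  ⟨h.1, h.2.1, h.2.2.1, h.2.2.2⟩

/-- the coin input -/
structure KIn : Prop where
  g0 : O7.G0 (couplingLaw true)
  g1 : O7.G1 (couplingLaw true)
  g2 : O7.G2 (couplingLaw true)
  g3 : ∀ T, 0 < T → Cn.FroC T → O7.G3 (couplingLaw true) T
  win : ∀ T, 0 < T → Cn.FroC T → Cn.WinC T

theorem kOut (K : KIn) : KOut (3 / 5) (1 / 30) := fun T hT hF =>
  ⟨O7.starGlue O7.pbStmt true _ _ T (by norm_num) (by norm_num) hT (Un.ldB true) K.g0 K.g1 K.g2
    (K.g3 T hT hF), K.win T hT hF⟩

theorem r29_of (J : JIn) : Top.R29 :=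
  r29 (by norm_num) (by norm_num) (by norm_num) le_rfl one_pos (aOut J)

theorem r32_of (J : JIn) (K : KOut (3 / 5) (1 / 30)) : Top.R32 :=
  r32' (by norm_num) (by norm_num) (by norm_num) le_rfl one_pos (aOut J) K Sw14.swapT

theorem r33_of (J : JIn) (K : KOut (3 / 5) (1 / 30)) : Top.R33 :=
  r33' (by norm_num) (by norm_num) (by norm_num) le_rfl one_pos (aOut J) K Sw14.swapT

end Crest.Agent.T157.TopZ
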