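import Crest.Agent.T157.LcDef_30

/-!
# Row 157, block B/S4c: near-minimisers in finitely many polynomial families, `ApGlue` (helper79)
-/

set_option autoImplicit false

noncomputable section

namespace Crest.Agent.T157.Tw

open MeasureTheory Real Matrix Set

namespace Ap79

lemma cs {V : Type} [AddCommGroup V] [Module ℝ V] {B : V →ₗ[ℝ] V →ₗ[ℝ] ℝ}
    (hs : ∀ u v, B u v = B v u) (hp : ∀ u, 0 ≤ B u u) (t : ℝ) (u v : V) :
    2 * t * B u v ≤ t ^ 2 * B u u + B v v := by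
  have := hp (t • u - v)
  simp only [map_sub, map_smul, LinearMap.sub_apply, LinearMap.smul_apply, smul_eq_mul, hs v u]
    at this
  nlinarith

lemma sech2_le_one (ξ : ℝ) : sech2 ξ ≤ 1 := by
  have := one_le_cosh ξ
  rw [sech2, div_le_one (by positivity)]; nlinarith

lemma sech2_small {ε ξ : ℝ} (hε : 0 < ε) (h : ξ ∉ Icc (-ε⁻¹) ε⁻¹) : sech2 ξ ≤ ε := by
  have h1 := one_le_cosh ξ
  have h2 : ε⁻¹ ≤ cosh ξ := by
    rw [← cosh_abs]
    exact (not_le.1 fun e => h (abs_le.1 e)).le.trans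
      ((self_le_sinh_iff.2 (abs_nonneg _)).trans (sinh_lt_cosh _).le)
  rw [inv_le_iff_one_le_mul₀ hε] at h2
  rw [sech2, div_le_iff₀ (by positivity)]
  nlinarith [mul_nonneg hε.le (sub_nonneg.2 h1), mul_pos hε (cosh_pos ξ)]

lemma poly_mem {m : ℕ} (p : Polynomial ℝ) :
    (fun ξ => algebraMap ℝ (SV m) (p.eval (tanh ξ))) ∈ N0 m := by
  have hτ : (fun ξ => algebraMap ℝ (SV m) (tanh ξ)) ∈ N0 m :=
    Algebra.subset_adjoin (Or.inl (Or.inl rfl))
  induction p using Polynomial.induction_on' with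
  | add p q hp hq => convert add_mem hp hq using 2; simp
  | monomial n a =>
    convert (N0 m).smul_mem (pow_mem hτ n) a using 2
    simp [Algebra.smul_def]

variable {b : Bath} {ξ y l : ℝ} {D : ℕ}

lemma Nc (c : Cal) (F : SV b.m) : (imS b ξ).N 1 F = 0 := by rw [c.N, one_mul, c.ex1]; ring
lemma E1 (c : Cal) (F : SV b.m) : (imS b ξ).En 1 F = 0 := by simp [c.En, c.done, rsS]

lemma J_const (c : Cal) (r : ℝ) (F : SV b.m) : Jf b ξ y (F - r • 1) = Jf b ξ y F := by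
  have h1 : ∀ G, (imS b ξ).N G 1 = 0 := fun G => ((c.ok b ξ).sN _ _).trans (Nc c G)
  have h2 : ∀ G, (imS b ξ).En G 1 = 0 := fun G => ((c.ok b ξ).sE _ _).trans (E1 c G)
  simp [Jf, Mf, Nc c, E1 c, h1, h2]

lemma M_ge (hc : Coer b l) {F : SV b.m} (hF : F ∈ PolS b.m D) :
    (y + l) * (imS b ξ).N F F ≤ Mf b ξ y F := by
  have := hc.2 ξ D F hF
  rw [Mf]; linarith

lemma M_pos (c : Cal) (hc : Coer b l) (hy : -l < y) {F : SV b.m} (hF : F ∈ PolS b.m D) :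
    0 ≤ Mf b ξ y F := (mul_nonneg (by linarith) ((c.ok b ξ).pN F)).trans (M_ge hc hF)

lemma M_par (F G : SV b.m) :
    Mf b ξ y (F + G) + Mf b ξ y (F - G) = 2 * Mf b ξ y F + 2 * Mf b ξ y G := by
  simp only [Mf, map_add, map_sub, LinearMap.add_apply, LinearMap.sub_apply]; ring

lemma M_smul (r : ℝ) (F : SV b.m) : Mf b ξ y (r • F) = r ^ 2 * Mf b ξ y F := by
  simp only [Mf, map_smul, LinearMap.smul_apply, smul_eq_mul]; ring

lemma J_mid (F G : SV b.m) : Jf b ξ y ((1 / 2 : ℝ) • (F + G)) =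
    (Jf b ξ y F + Jf b ξ y G) / 2 - Mf b ξ y (F - G) / 4 := by
  have := M_par (ξ := ξ) (y := y) F G
  simp only [Jf, M_smul, map_add, map_smul, smul_eq_mul]; linarith

lemma s_mem (p : PolApi) (m D : ℕ) : sS m ∈ PolS m D := by simpa using p.s (p.one m D)

lemma tail (c : Cal) (p : PolApi) {C : ℝ} (hC : 0 < C) (hy : 0 < y)
    (h : ∀ F ∈ PolS b.m D, (imS b ξ).En F F ≤ C * (imS b ξ).N F F) {P : SV b.m}
    (hP : P ∈ PolS b.m D) : Jf b ξ y (y⁻¹ • stS _ ξ) ≤ Jf b ξ y P + C / y ^ 3 := by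
  have o := c.ok b ξ
  obtain ⟨Q, rfl⟩ : ∃ Q, P = y⁻¹ • sS _ + Q := ⟨P - y⁻¹ • sS _, by abel⟩
  have hQ := h Q (by simpa using sub_mem hP (Submodule.smul_mem _ y⁻¹ (s_mem p _ D)))
  have h1 := cs o.sE o.pE (-(C / y ^ 2)) (sS _) Q
  have h2 := (c.Es b ξ).trans (sech2_le_one ξ)
  have h3 := o.pE Q
  rw [stS, Algebra.algebraMap_eq_smul_one, smul_sub, smul_smul, J_const c]
  have h4 : -2 * y⁻¹ * (imS b ξ).En (sS _) Q ≤ C / y ^ 3 + y * (imS b ξ).N Q Q := by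
    have h5 : 2 * -(C / y ^ 2) * (imS b ξ).En (sS _) Q ≤ (C / y ^ 2) ^ 2 + C * (imS b ξ).N Q Q := by
      nlinarith [sq_nonneg (C / y ^ 2)]
    have h6 := mul_le_mul_of_nonneg_left h5 (div_pos hy hC).le
    have h7 : ∀ x : ℝ, y / C * (2 * -(C / y ^ 2) * x) = -2 * y⁻¹ * x ∧
        y / C * ((C / y ^ 2) ^ 2 + C * x) = C / y ^ 3 + y * x := fun x => by
      constructor <;> field_simp
    rwa [(h7 _).1, (h7 _).2] at h6
  have e : y * (y⁻¹ * (imS b ξ).N (sS _) Q) = (imS b ξ).N (sS _) Q := by field_simp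
  simp only [Jf, Mf, map_add, map_smul, LinearMap.add_apply, LinearMap.smul_apply, smul_eq_mul,
    o.sN Q (sS _), o.sE Q (sS _)]
  linarith

lemma approx (c : Cal) (fa : FamApi) (ws : WsStmt) (ga : GalStmt) (hc : Coer b l) (hy : -l < y)
    {ε : ℝ} (hε : 0 < ε) : ∃ w ∈ N0 b.m, (∀ ξ, w ξ ∈ PolS b.m D) ∧
      ∀ ξ, ∀ P ∈ PolS b.m D, Jf b ξ y (w ξ) ≤ Jf b ξ y P + ε := by
  obtain ⟨⟨n, P, cc, hP, hG⟩, hJ⟩ := ga b l hc D y hy
  have hl : 0 < y + l := by linarith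
  have m1 : ∀ i, (fun _ => P i) ∈ N1 b := fun i => fa.le b (fa.cst (hP i).1)
  choose M hM using fun i j => (((BM.const y).mul (fa.N b _ (m1 j) _ (m1 i)).2).add
    (fa.En b _ (m1 j) _ (m1 i)).2).2
  have hK : 0 ≤ ∑ i, ∑ j, M i j :=
    Finset.sum_nonneg fun i _ => Finset.sum_nonneg fun j _ => (abs_nonneg _).trans (hM i j 0)
  set η := √(ε / (4 * (∑ i, ∑ j, M i j + 1))) with hη
  have η2 : η ^ 2 = ε / (4 * (∑ i, ∑ j, M i j + 1)) := sq_sqrt (by positivity)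
  have small : ∀ ξ (e : Fin n → ℝ), (∀ i, |e i| ≤ η) → Mf b ξ y (∑ i, e i • P i) ≤ ε / 4 := by
    intro ξ e he
    have : Mf b ξ y (∑ i, e i • P i) ≤ η ^ 2 * ∑ i, ∑ j, M i j := by
      simp only [Mf, map_sum, map_smul, LinearMap.sum_apply, LinearMap.smul_apply, smul_eq_mul,
        Finset.mul_sum, ← Finset.sum_add_distrib]
      refine Finset.sum_le_sum fun i _ => Finset.sum_le_sum fun j _ => ?_
      have h1 := mul_le_mul (mul_le_mul (he i) (he j) (abs_nonneg _) (sqrt_nonneg _)) (hM i j ξ)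
        (abs_nonneg _) (by positivity)
      rw [← abs_mul, ← abs_mul] at h1
      beta_reduce at h1
      linarith [le_abs_self (e i * e j * (y * (imS b ξ).N (P j) (P i) + (imS b ξ).En (P j) (P i)))]
    refine this.trans ?_
    rw [η2, div_mul_eq_mul_div, div_le_div_iff₀ (by positivity) (by positivity)]
    nlinarith
  obtain ⟨χ, h1, -, h2, h3⟩ := exists_continuous_one_zero_of_isCompact
    (isCompact_Icc (a := -(ε * (y + l) / 4)⁻¹) (b := (ε * (y + l) / 4)⁻¹)) isClosed_empty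
    (disjoint_empty _)
  choose q hq using fun i => ws (fun ξ => χ ξ * cc i ξ) (χ.continuous.mul (hP i).2) h2.mul_right η
    (by positivity)
  have mem : ∀ e : Fin n → ℝ, ∑ i, e i • P i ∈ PolS b.m D := fun e =>
    sum_mem fun i _ => Submodule.smul_mem _ _ (hP i).1
  refine ⟨fun ξ => ∑ i, (q i).eval (tanh ξ) • P i, ?_, fun ξ => mem _, fun ξ Q hQ => ?_⟩
  · convert sum_mem fun i (_ : i ∈ Finset.univ) => mul_mem (poly_mem (q i)) (fa.cst (hP i).1)
      using 2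
    simp [Algebra.smul_def]
  have o := c.ok b ξ
  have g := hG ξ
  have hφ : Mf b ξ y (∑ i, cc i ξ • P i) ≤ sech2 ξ / (y + l) := by
    have e1 := g.2.2 _ g.1
    have e2 := mul_le_mul_of_nonneg_left (cs o.sN o.pN (y + l)⁻¹ (sS _) (∑ i, cc i ξ • P i)) hl.le
    have e3 := M_ge (ξ := ξ) (y := y) hc g.1
    rw [c.Ns] at e2
    have e4 : ∀ x z : ℝ, (y + l) * (2 * (y + l)⁻¹ * x) = 2 * x ∧
        (y + l) * ((y + l)⁻¹ ^ 2 * sech2 ξ + z) = sech2 ξ / (y + l) + (y + l) * z := fun x z => by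
      constructor <;> field_simp
    rw [(e4 _ 0).1, (e4 0 _).2] at e2
    rw [Mf] at e3 ⊢
    linarith
  have a1 := small ξ (fun i => (q i).eval (tanh ξ) - χ ξ * cc i ξ) fun i => by
    rw [abs_sub_comm]; exact hq i ξ
  have a2 : Mf b ξ y ((χ ξ - 1) • ∑ i, cc i ξ • P i) ≤ ε / 4 := by
    rw [M_smul]
    by_cases h : ξ ∈ Icc (-(ε * (y + l) / 4)⁻¹) (ε * (y + l) / 4)⁻¹
    · rw [h1 h]; simp; positivity
    · have e1 := (div_le_iff₀ hl).2 ((sech2_small (by positivity) h).trans_eq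
        (show _ = ε / 4 * (y + l) by ring))
      have e2 := M_pos (ξ := ξ) c hc hy g.1
      have e3 := h3 ξ
      nlinarith [mul_nonneg e3.1 e2, mul_nonneg (mul_nonneg e3.1 (sub_nonneg.2 e3.2)) e2]
  have a3 := M_par (ξ := ξ) (y := y) (∑ i, ((q i).eval (tanh ξ) - χ ξ * cc i ξ) • P i)
    ((χ ξ - 1) • ∑ i, cc i ξ • P i)
  have a4 := M_pos (ξ := ξ) c hc hy (sub_mem (mem fun i => (q i).eval (tanh ξ) - χ ξ * cc i ξ)
    (Submodule.smul_mem _ (χ ξ - 1) g.1))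
  have a5 := M_pos (ξ := ξ) c hc hy (sub_mem hQ g.1)
  have e : ∑ i, ((q i).eval (tanh ξ) - χ ξ * cc i ξ) • P i + (χ ξ - 1) • ∑ i, cc i ξ • P i =
      ∑ i, (q i).eval (tanh ξ) • P i - ∑ i, cc i ξ • P i := by
    simp only [Finset.smul_sum, smul_smul, ← Finset.sum_add_distrib, ← Finset.sum_sub_distrib,
      ← add_smul, ← sub_smul]
    exact Finset.sum_congr rfl fun i _ => by congr 1; ring
  rw [e] at a3
  rw [(hJ ξ _ g).2 _ (mem _), (hJ ξ _ g).2 Q hQ]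
  linarith

lemma odd (c : Cal) (p : PolApi) (fa : FamApi) (ws : WsStmt) (ga : GalStmt) (hc : Coer b l)
    (hy : -l < y) {ε : ℝ} (hε : 0 < ε) : ∃ v, Cl0 b D v ∧
      ∀ ξ, ∀ P ∈ PolS b.m D, Jf b ξ y (v ξ) ≤ Jf b ξ y P + ε := by
  obtain ⟨w0, n0, p0, j0⟩ := approx (D := D) c fa ws ga hc hy hε
  obtain ⟨w, nw, pw, cw, jw⟩ : ∃ w ∈ N0 b.m, (∀ ξ, w ξ ∈ PolS b.m D) ∧ Cen b w ∧
      ∀ ξ, ∀ P ∈ PolS b.m D, Jf b ξ y (w ξ) ≤ Jf b ξ y P + ε := by
    refine ⟨fun ξ => w0 ξ - exS b ξ (w0 ξ) • 1, ?_,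
      fun ξ => sub_mem (p0 ξ) (Submodule.smul_mem _ _ (p.one _ _)), fun ξ => by simp [c.ex1],
      fun ξ P hP => by rw [J_const c]; exact j0 ξ P hP⟩
    convert sub_mem n0 (fa.ex0 b _ n0) using 2
    simp [Algebra.algebraMap_eq_smul_one]
  obtain ⟨ρ, r1, r2, r3, r4⟩ := fa.refl b.m
  replace r4 := r4 b.A b.g b.psd
  have rs : sS b.m = -ρ (sS _) := Subtype.ext (funext fun s => funext fun X => by
    have := r1 (sS _) s X
    change _ = -(ρ (sS _)).1 s X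
    rw [this]; cases s <;> simp [sS, sg])
  have rJ : ∀ ξ F, Jf b (-ξ) y (-ρ F) = Jf b ξ y F := fun ξ F => by
    have h1 : (imS b (-ξ)).N (sS _) (-ρ F) = (imS b ξ).N (sS _) F := by
      nth_rw 1 [rs]
      simpa using (r4 ξ (sS _) F).2.1
    have h2 : (imS b (-ξ)).N (ρ F) (ρ F) = (imS b ξ).N F F := (r4 ξ F F).2.1
    have h3 : (imS b (-ξ)).En (ρ F) (ρ F) = (imS b ξ).En F F := (r4 ξ F F).2.2
    rw [Jf, Jf, h1]
    simp [Mf, h2, h3]
  refine ⟨fun ξ => (1 / 2 : ℝ) • (w ξ + -ρ (w (-ξ))), ⟨?_, fun ξ s X => ?_, fun ξ => ?_, fun ξ =>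
    Submodule.smul_mem _ _ (add_mem (pw ξ) (neg_mem (r2 D _ (pw _))))⟩, fun ξ P hP => ?_⟩
  · exact (N0 _).smul_mem (add_mem nw (neg_mem (r3 w nw))) (1 / 2)
  · change (1 / 2 : ℝ) * ((w (-ξ)).1 (!s) (-X) + -(ρ (w (- -ξ))).1 (!s) (-X)) =
      -((1 / 2 : ℝ) * ((w ξ).1 s X + -(ρ (w (-ξ))).1 s X))
    rw [r1, r1, neg_neg, neg_neg, Bool.not_not]; ring
  · have h : exS b (- -ξ) (ρ (w (-ξ))) = exS b (-ξ) (w (-ξ)) := (r4 (-ξ) _ 0).1
    rw [neg_neg, cw] at h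
    simp [h, cw ξ]
  · have h1 := rJ (-ξ) (w (-ξ))
    rw [neg_neg] at h1
    have h2 := jw (-ξ) _ (neg_mem (r2 D P hP))
    have h3 := jw ξ P hP
    have h4 := M_pos (ξ := ξ) c hc hy (sub_mem (pw ξ) (neg_mem (r2 D _ (pw (-ξ)))))
    rw [rJ] at h2
    rw [J_mid, h1]
    linarith

lemma st_cl (c : Cal) (p : PolApi) : Cl0 b D (stS b.m) := by
  refine ⟨sub_mem (Algebra.subset_adjoin (Or.inl (Or.inr rfl)))
    (Algebra.subset_adjoin (Or.inl (Or.inl rfl))), fun ξ s X => ?_, fun ξ => ?_, fun ξ => ?_⟩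
  · change sg (!s) - tanh (-ξ) = -(sg s - tanh ξ)
    cases s <;> simp [sg] <;> ring
  · simp [stS, Algebra.algebraMap_eq_smul_one, c.ex1, c.exs]
  · rw [stS, Algebra.algebraMap_eq_smul_one]
    exact sub_mem (s_mem p _ _) (Submodule.smul_mem _ _ (p.one _ _))

end Ap79

open Ap79 in
theorem apGlue : ApGlue := by
  intro c p fa ws bd ga b l a ha hl hc D δ hδ
  obtain ⟨C, hC, hB⟩ := bd ⟨b, b, 1, by simp, by simp, by simp⟩ D
  have hla : 0 < l - a := by linarith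
  set Y := 1 + a + 4 * (C + 1) / δ with hY
  have hq : 0 < 4 * (C + 1) / δ := by positivity
  set ε := min 1 (δ / (1 + Y) ^ 2 / 2) with hε
  have ε0 : 0 < ε := by positivity
  set K := 2 / (l - a) * (1 + 2 / (l - a)) with hK
  have K0 : 0 < K := by positivity
  choose v hv hJ using fun k : ℕ => odd (D := D) (y := -a + k * (ε / K)) c p fa ws ga hc
    (by have : 0 ≤ k * (ε / K) := by positivity
        linarith) ε0
  refine ⟨insert (stS b.m) (v '' Iic ⌊(Y + a) / (ε / K)⌋₊), ((finite_Iic _).image v).insert _, ?_,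
    fun y hy => ?_⟩
  · rintro _ (rfl | ⟨k, -, rfl⟩)
    exacts [st_cl c p, hv k]
  rcases le_total Y y with h | h
  · have y0 : 0 < y := by linarith
    refine ⟨_, mem_insert _ _, y⁻¹, fun ξ P hP => (tail c p (C := C + 1) (by positivity) y0
      (fun F hF => (hB ξ F hF).1.trans ?_) hP).trans ?_⟩
    · exact mul_le_mul_of_nonneg_right (by linarith) ((c.ok b ξ).pN F)
    · have h1 : 4 * (C + 1) ≤ y * δ := (div_le_iff₀ hδ).1 (by linarith)
      rw [abs_of_pos y0, add_le_add_iff_left, div_le_div_iff₀ (by positivity) (by positivity)]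
      have h2 : (1 + y) ^ 2 ≤ 4 * y ^ 2 := by nlinarith
      nlinarith [mul_le_mul_of_nonneg_left h2 (show 0 ≤ C + 1 by positivity),
        mul_le_mul_of_nonneg_left h1 (sq_nonneg y)]
  · set k := ⌊(y + a) / (ε / K)⌋₊ with hk
    have k1 : k * (ε / K) ≤ y + a :=
      (le_div_iff₀ (by positivity)).1 (Nat.floor_le (div_nonneg (by linarith) (by positivity)))
    have k2 : y + a ≤ (k + 1) * (ε / K) :=
      (div_le_iff₀ (by positivity)).1 (Nat.lt_floor_add_one _).le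
    refine ⟨v k, mem_insert_of_mem _ ⟨k, Nat.floor_le_floor (by gcongr), rfl⟩, 1,
      fun ξ P hP => ?_⟩
    have o := c.ok b ξ
    have k0 : 0 ≤ k * (ε / K) := by positivity
    have j1 := hJ k ξ P hP
    have j2 := hJ k ξ 0 (zero_mem _)
    have n0 := o.pN (v k ξ)
    have n1 : (imS b ξ).N (v k ξ) (v k ξ) ≤ K := by
      have e1 := M_ge (ξ := ξ) (y := -a + k * (ε / K)) hc ((hv k).2.2.2 ξ)
      have e2 := cs o.sN o.pN (2 / (l - a)) (sS _) (v k ξ)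
      have e3 := sech2_le_one ξ
      have e4 : ε ≤ 1 := min_le_left _ _
      have e5 : Jf b ξ (-a + k * (ε / K)) 0 = 0 := by simp [Jf, Mf]
      rw [c.Ns] at e2
      rw [e5, Jf] at j2
      have e6 : (l - a) * (imS b ξ).N (v k ξ) (v k ξ) ≤ 1 + 2 * (imS b ξ).N (sS _) (v k ξ) := by
        nlinarith [mul_nonneg k0 n0]
      have e7 := mul_le_mul_of_nonneg_left e6 (show 0 ≤ 2 / (l - a) by positivity)
      have e8 : 2 / (l - a) * ((l - a) * (imS b ξ).N (v k ξ) (v k ξ)) =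
          2 * (imS b ξ).N (v k ξ) (v k ξ) := by field_simp
      nlinarith [mul_le_mul_of_nonneg_left e3 (sq_nonneg (2 / (l - a)))]
    have d1 : 2 * ε ≤ δ / (1 + |y|) ^ 2 := by
      have e1 : ε ≤ δ / (1 + Y) ^ 2 / 2 := min_le_right _ _
      have e2 : |y| ≤ Y := abs_le.2 ⟨by linarith, h⟩
      have e3 : δ / (1 + Y) ^ 2 ≤ δ / (1 + |y|) ^ 2 := by gcongr
      linarith
    have d2 : (y + a - k * (ε / K)) * (imS b ξ).N (v k ξ) (v k ξ) ≤ ε / K * K :=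
      mul_le_mul (by linarith) n1 n0 (by positivity)
    rw [div_mul_cancel₀ _ K0.ne'] at d2
    have d3 := mul_nonneg (sub_nonneg.2 k1) (o.pN P)
    simp only [one_smul, Jf, Mf] at j1 ⊢
    linarith

end Crest.Agent.T157.Tw

end
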