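import Crest.Agent.T157.LcDef_30

/-!
# Row 157, block B/S4b (helper77): bounds on polynomials, uniform in the static field
-/

set_option autoImplicit false
set_option linter.all false

noncomputable section

namespace Crest.Agent.T157.Tw

open Real Matrix Set

namespace Bd77

/-- finite-dimensional comparison of forms -/
lemma fin_bd {V : Type} [AddCommGroup V] [Module ℝ V] {H : Pre V} (ok : H.Ok) {S : Submodule ℝ V}
    (hS : S.FG) : ∃ C ≥ (0 : ℝ), ∀ y ∈ S, H.En y y ≤ C * H.N y y := by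
  obtain ⟨T, rfl⟩ := hS
  obtain ⟨b, f, hc, -, hs⟩ := compStmt V H ok ⊤ T T.finite_toSet (subset_univ _)
  refine ⟨∑ i, ∑ j, |b.A i j|, by positivity, fun y hy => ?_⟩
  rw [← hc.En_co ok (hs y hy) (hs y hy), ← hc.N_co ok (hs y hy)]
  generalize co H f y = u
  have h : ∀ i, u i * u i ≤ u ⬝ᵥ u := fun i =>
    Finset.single_le_sum (f := fun i => u i * u i) (fun i _ => mul_self_nonneg _) (Finset.mem_univ i)
  rw [dotProduct, Finset.sum_mul]
  refine Finset.sum_le_sum fun i _ => ?_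
  rw [mulVec, dotProduct, Finset.mul_sum, Finset.sum_mul]
  refine Finset.sum_le_sum fun j _ => ?_
  have a : |u i * u j| ≤ u ⬝ᵥ u := abs_le.2 ⟨by nlinarith [h i, h j, sq_nonneg (u i + u j)],
    by nlinarith [h i, h j, sq_nonneg (u i - u j)]⟩
  calc _ = b.A i j * (u i * u j) := by ring
    _ ≤ |b.A i j| * |u i * u j| := by rw [← abs_mul]; exact le_abs_self _
    _ ≤ _ := by gcongr

/-- second moment -/
def q (b : Bath) (ξ : ℝ) (F : SV b.m) : ℝ := exS b ξ (F * F)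

variable (c : Cal) {b bt : Bath} {D : ℕ}
include c

lemma q_nonneg (ξ : ℝ) (F : SV b.m) : 0 ≤ q b ξ F := c.pos b ξ _ fun _ _ => mul_self_nonneg _

lemma ip_le (ξ : ℝ) (F G : SV b.m) : 2 * |exS b ξ (F * G)| ≤ q b ξ F + q b ξ G := by
  have h1 := q_nonneg c ξ (F + G)
  have h2 := q_nonneg c ξ (F - G)
  rw [q, show (F + G) * (F + G) = F * F + G * G + (F * G + F * G) by ring] at h1
  rw [q, show (F - G) * (F - G) = F * F + G * G - (F * G + F * G) by ring] at h2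
  simp only [map_add, map_sub] at h1 h2
  unfold q
  rcases abs_cases (exS b ξ (F * G)) with h | h <;> linarith [h.1]

lemma En_le (ξ : ℝ) (G : SV b.m) : (imS b ξ).En G G ≤
    q b ξ G + (∑ i, ∑ j, |b.A i j|) * ∑ j, q b ξ (dd j G) := by
  have h : ∀ i, q b ξ (dd i G) ≤ ∑ j, q b ξ (dd j G) := fun i => Finset.single_le_sum
    (f := fun j => q b ξ (dd j G)) (fun i _ => q_nonneg c ξ _) (Finset.mem_univ i)
  rw [c.En, Finset.sum_mul]
  refine add_le_add (c.rs_le b ξ G) (Finset.sum_le_sum fun i _ => ?_)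
  rw [Finset.sum_mul]
  refine Finset.sum_le_sum fun j _ => ((le_abs_self _).trans (abs_mul _ _).le).trans ?_
  gcongr
  linarith [ip_le c ξ (dd i G) (dd j G), h i, h j]

omit c in
/-- `T` is bounded on polynomials, uniformly in the field -/
def Bd (b bt : Bath) (D : ℕ) (T : ℝ → SV b.m → SV bt.m) : Prop :=
  ∃ C ≥ (0 : ℝ), ∀ ξ, ∀ F ∈ PolS b.m D, q bt ξ (T ξ F) ≤ C * q b ξ F

variable {T T' : ℝ → SV b.m → SV bt.m}

lemma Bd.add (h : Bd b bt D T) (h' : Bd b bt D T') : Bd b bt D fun ξ F => T ξ F + T' ξ F := by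
  obtain ⟨C, h0, h⟩ := h
  obtain ⟨C', h0', h'⟩ := h'
  refine ⟨2 * C + 2 * C', by positivity, fun ξ F hF => ?_⟩
  have a := ip_le c ξ (T ξ F) (T' ξ F)
  have e : q bt ξ (T ξ F + T' ξ F) =
      q bt ξ (T ξ F) + q bt ξ (T' ξ F) + 2 * exS bt ξ (T ξ F * T' ξ F) := by
    unfold q
    rw [two_mul, ← map_add, ← map_add, ← map_add]
    congr 1; ring
  rw [e]
  linarith [h ξ F hF, h' ξ F hF, le_abs_self (exS bt ξ (T ξ F * T' ξ F))]

omit c in
lemma Bd.smul (h : Bd b bt D T) (a : ℝ) : Bd b bt D fun ξ F => a • T ξ F := by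
  obtain ⟨C, h0, h⟩ := h
  refine ⟨a ^ 2 * C, by positivity, fun ξ F hF => ?_⟩
  rw [q, smul_mul_smul_comm, map_smul, smul_eq_mul, ← sq, mul_assoc]
  exact mul_le_mul_of_nonneg_left (h ξ F hF) (sq_nonneg a)

lemma Bd.rs (h : Bd b bt D T) : Bd b bt D fun ξ F => rsS bt ξ (T ξ F) := by
  obtain ⟨C, h0, h⟩ := h
  exact ⟨C, h0, fun ξ F hF => (c.rs_le bt ξ _).trans (h ξ F hF)⟩

lemma Bd.psi (h : Bd b bt D T) : Bd b bt D fun ξ F => psi bt ξ (T ξ F) := by
  obtain ⟨C, h0, h⟩ := h.rs c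
  exact ⟨C, h0, fun ξ F hF => (c.psi_le bt ξ _).trans (h ξ F hF)⟩

lemma q_sec (ξ : ℝ) (F : SV b.m) : q b ξ F =
    (1 + tanh ξ) / 4 * q b 0 (F + sS _ * F) + (1 - tanh ξ) / 4 * q b 0 (F - sS _ * F) := by
  have e1 : (F + sS _ * F) * (F + sS _ * F) =
      F * F + F * F + (sS _ * (F * F) + sS _ * (F * F)) := by
    linear_combination (F * F) * c.ss b.m
  have e2 : (F - sS _ * F) * (F - sS _ * F) =
      F * F + F * F - (sS _ * (F * F) + sS _ * (F * F)) := by
    linear_combination (F * F) * c.ss b.m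
  unfold q
  rw [e1, e2, c.aff b ξ]
  simp only [map_add, map_sub]
  ring

/-- linear maps acting sectorwise -/
lemma sec (p : PolApi) (L : SV b.m →ₗ[ℝ] SV bt.m) (hL : ∀ F, L (sS _ * F) = sS _ * L F) :
    Bd b bt D fun _ F => L F := by
  obtain ⟨C, h0, h⟩ := fin_bd (H := ⟨(LinearMap.mul ℝ _).compr₂ (exS b 0),
    ((LinearMap.mul ℝ _).compr₂ (exS bt 0)).compl₁₂ L L, 0⟩)
    ⟨fun u v => congrArg (exS b 0) (mul_comm u v),
      fun u v => congrArg (exS bt 0) (mul_comm (L u) (L v)), q_nonneg c 0,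
      fun u => q_nonneg c 0 (L u), fun u hu => by
        obtain rfl := c.defn b 0 u hu
        simp⟩ (p.fg b.m D)
  refine ⟨C, h0, fun ξ F hF => ?_⟩
  have a1 : q bt 0 (L _) ≤ C * q b 0 _ := h _ (add_mem hF (p.s hF))
  have a2 : q bt 0 (L _) ≤ C * q b 0 _ := h _ (sub_mem hF (p.s hF))
  rw [map_add, hL] at a1
  rw [map_sub, hL] at a2
  rw [q_sec c, q_sec c ξ F]
  have t := abs_lt.1 (abs_tanh_lt_one ξ)
  have b1 := mul_le_mul_of_nonneg_left a1 (by linarith : 0 ≤ (1 + tanh ξ) / 4)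
  have b2 := mul_le_mul_of_nonneg_left a2 (by linarith : 0 ≤ (1 - tanh ξ) / 4)
  linarith

lemma dd_s {m : ℕ} (j : Fin m) (F : SV m) : dd j (sS m * F) = sS m * dd j F := by
  rw [c.dmul, c.ds, zero_mul, zero_add]

lemma ou_s (F : SV b.m) : ouS b (sS _ * F) = sS _ * ouS b F := by
  simp only [ouS, LinearMap.sum_apply, LinearMap.smul_apply, LinearMap.sub_apply,
    LinearMap.comp_apply, LinearMap.mul_apply', dd_s c, Finset.mul_sum, mul_smul_comm]
  refine Finset.sum_congr rfl fun i _ => Finset.sum_congr rfl fun j _ => ?_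
  congr 1; ring

lemma gen_one (ξ : ℝ) : gen b ξ 1 = 0 := by
  simp [gen, rsS, ouS, c.done]

/-- from second moments of the function and its gradient to the energy -/
lemma Bd.mf (h : Bd b bt D T) (h' : ∀ j, Bd b bt D fun ξ F => dd j (T ξ F)) :
    ∃ C ≥ (0 : ℝ), ∀ ξ, ∀ F ∈ PolS b.m D, (imS bt ξ).En (T ξ F) (T ξ F) ≤ C * q b ξ F ∧
      Mf bt ξ 1 (T ξ F) ≤ C * q b ξ F := by
  obtain ⟨C, h0, h⟩ := h
  choose K k0 hK using h'
  have s0 : 0 ≤ ∑ j, K j := Finset.sum_nonneg fun j _ => k0 j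
  refine ⟨2 * C + (∑ i, ∑ j, |bt.A i j|) * ∑ j, K j, by positivity, fun ξ F hF => ?_⟩
  have a1 := En_le c ξ (T ξ F)
  have a2 : ∑ j, q bt ξ (dd j (T ξ F)) ≤ (∑ j, K j) * q b ξ F := by
    rw [Finset.sum_mul]; exact Finset.sum_le_sum fun j _ => hK j ξ F hF
  have a3 := mul_le_mul_of_nonneg_left a2 (by positivity : 0 ≤ ∑ i, ∑ j, |bt.A i j|)
  have a4 := h ξ F hF
  have a5 : (imS bt ξ).N (T ξ F) (T ξ F) ≤ q bt ξ (T ξ F) := by
    rw [c.N]; exact sub_le_self _ (mul_self_nonneg _)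
  have a6 := mul_nonneg h0 (q_nonneg c ξ F)
  rw [Mf]
  constructor <;> nlinarith

end Bd77

open Bd77 in
theorem bdGlue : BdGlue := by
  intro c p e D
  have ps : ∀ F, pull e.ι (sS _ * F) = sS _ * pull e.ι F := fun F => map_mul _ _ _
  have b0 : Bd e.b e.bt D fun _ F => pull e.ι F := sec c p (pull e.ι).toLinearMap ps
  obtain ⟨C1, c1, h1⟩ := Bd.mf c (b := e.b) (bt := e.b) (D := D) (T := fun _ F => F)
    (sec c p .id fun _ => rfl) fun j => sec c p (dd j) (dd_s c j)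
  obtain ⟨C2, c2, h2⟩ := Bd.mf c (b := e.b) (bt := e.bt) (D := D)
    (T := fun ξ F => gen e.bt ξ (pull e.ι F))
    ((b0.rs c).add c (sec c p (ouS e.bt ∘ₗ (pull e.ι).toLinearMap) fun F =>
      (congrArg (ouS e.bt) (ps F)).trans (ou_s c _))) fun j => by
      have a := (((sec c p (D := D) (dd j ∘ₗ (pull e.ι).toLinearMap) fun F =>
        (congrArg (dd j) (ps F)).trans (dd_s c j _)).rs c).add c
        ((b0.psi c).smul (-e.bt.g j))).add c
        (sec c p (dd j ∘ₗ ouS e.bt ∘ₗ (pull e.ι).toLinearMap) fun F =>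
          (congrArg (dd j) ((congrArg (ouS e.bt) (ps F)).trans (ou_s c _))).trans (dd_s c j _))
      convert a using 3 with ξ F
      rw [gen, LinearMap.add_apply, map_add, c.drs, neg_smul, ← sub_eq_add_neg]
      rfl
  refine ⟨C1 + C2, by positivity, fun ξ F hF => ?_⟩
  have hF' : F - exS e.b ξ F • 1 ∈ PolS e.b.m D :=
    sub_mem hF (Submodule.smul_mem _ _ (p.one _ _))
  have eN : q e.b ξ (F - exS e.b ξ F • 1) = (imS e.b ξ).N F F := by
    rw [c.N, q]
    simp only [sub_mul, mul_sub, smul_mul_assoc, mul_smul_comm, one_mul, mul_one, map_sub, map_smul,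
      c.ex1, smul_eq_mul]
    ring
  have z : ∀ G, (imS e.b ξ).En G 1 = 0 := fun G => by rw [← c.l0, gen_one c, mul_zero, map_zero]
  have a1 := (h1 ξ _ hF').1
  have a2 := (h2 ξ _ hF').2
  have n0 := (c.ok e.b ξ).pN F
  simp only [eN, map_sub, map_smul, map_one, gen_one c, smul_zero, sub_zero, z,
    LinearMap.sub_apply, LinearMap.smul_apply, (c.ok e.b ξ).sE 1 F] at a1 a2
  constructor <;> nlinarith [mul_nonneg c1 n0, mul_nonneg c2 n0]

end Crest.Agent.T157.Tw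

end
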