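import Crest.Agent.T157.LcDef_30

/-!
# Row 157, block B/S4b (helper3): `ExtGlue`
-/

set_option autoImplicit false
set_option linter.all false

noncomputable section

namespace Crest.Agent.T157.Tw

open MeasureTheory Real Matrix Set
open Crest.Agent.R238.Gap Crest.Agent.R253.Meh74

namespace Ext3

/-- the space of families -/
abbrev FV (b : Bath) : Submodule ℝ (ℝ → SV b.m) := Subalgebra.toSubmodule (N1 b)

lemma s_mem0 (m : ℕ) : (fun _ : ℝ => sS m) ∈ N0 m :=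
  Algebra.subset_adjoin (Or.inl (Or.inr rfl))
lemma t_mem0 (m : ℕ) : (fun ξ : ℝ => algebraMap ℝ (SV m) (tanh ξ)) ∈ N0 m :=
  Algebra.subset_adjoin (Or.inl (Or.inl rfl))

/-- averaged bilinear form on families -/
def av (ν : Measure ℝ) [IsFiniteMeasure ν] (b : Bath) (B : ℝ → SV b.m →ₗ[ℝ] SV b.m →ₗ[ℝ] ℝ)
    (hB : ∀ F ∈ N1 b, ∀ G ∈ N1 b, BM fun ξ => B ξ (F ξ) (G ξ)) : FV b →ₗ[ℝ] FV b →ₗ[ℝ] ℝ :=
  LinearMap.mk₂ ℝ (fun F G => ∫ ξ, B ξ (F.1 ξ) (G.1 ξ) ∂ν)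
    (fun F F' G => by
      rw [← integral_add ((hB _ F.2 _ G.2).int ν) ((hB _ F'.2 _ G.2).int ν)]; simp)
    (fun c F G => by simp [integral_const_mul])
    (fun F G G' => by
      rw [← integral_add ((hB _ F.2 _ G.2).int ν) ((hB _ F.2 _ G'.2).int ν)]; simp)
    (fun c F G => by simp [integral_const_mul])

/-- the pre-bath of families -/
def fp (fa : FamApi) (ν : Measure ℝ) [IsFiniteMeasure ν] (b : Bath) : Pre (FV b) :=
  ⟨av ν b (fun ξ => (imS b ξ).N) fun F hF G hG => (fa.N b F hF G hG).2,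
    av ν b (fun ξ => (imS b ξ).En) fun F hF G hG => (fa.En b F hF G hG).2,
    ⟨fun _ => sS _, fa.le b (s_mem0 _)⟩⟩

variable (fa : FamApi) (ν : Measure ℝ) [IsFiniteMeasure ν]

lemma fp_N (b : Bath) (F G : FV b) : (fp fa ν b).N F G = Nb ν b F.1 G.1 := rfl
lemma fp_En (b : Bath) (F G : FV b) : (fp fa ν b).En F G = Eb ν b F.1 G.1 := rfl

lemma ae_null (c : Cal) (b : Bath) (F : FV b) (h : (fp fa ν b).N F F = 0) :
    ∀ᵐ ξ ∂ν, (imS b ξ).N (F.1 ξ) (F.1 ξ) = 0 :=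
  (integral_eq_zero_iff_of_nonneg (fun ξ => (c.ok b ξ).pN _)
    ((fa.N b _ F.2 _ F.2).2.int ν)).1 h

lemma fp_ok (c : Cal) (b : Bath) : (fp fa ν b).Ok :=
  ⟨fun F G => integral_congr_ae (ae_of_all _ fun ξ => (c.ok b ξ).sN _ _),
    fun F G => integral_congr_ae (ae_of_all _ fun ξ => (c.ok b ξ).sE _ _),
    fun F => integral_nonneg fun ξ => (c.ok b ξ).pN _,
    fun F => integral_nonneg fun ξ => (c.ok b ξ).pE _,
    fun F h => integral_eq_zero_of_ae
      ((ae_null fa ν c b F h).mono fun ξ hξ => (c.ok b ξ).null _ hξ)⟩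

lemma ae_of_inSp (c : Cal) (b : Bath) {n : ℕ} {f : Fin n → FV b} {y : FV b}
    (hf : ∀ k, Cen b (f k).1) (hy : Cen b y.1) (h : InSp (fp fa ν b) f y) :
    ∀ᵐ ξ ∂ν, y.1 ξ = ∑ k, (fp fa ν b).N y (f k) • (f k).1 ξ := by
  filter_upwards [ae_null fa ν c b _ h] with ξ hξ
  have e : (y - ∑ k, (fp fa ν b).N y (f k) • f k).1 ξ =
      y.1 ξ - ∑ k, (fp fa ν b).N y (f k) • (f k).1 ξ := by
    simp only [Submodule.coe_sub, Submodule.coe_sum, Submodule.coe_smul, Pi.sub_apply,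
      Finset.sum_apply, Pi.smul_apply]
  rw [e] at hξ
  have h0 : exS b ξ (y.1 ξ - ∑ k, (fp fa ν b).N y (f k) • (f k).1 ξ) = 0 := by
    simp only [map_sub, map_sum, map_smul, hy ξ, fun k => hf k ξ, smul_zero,
      Finset.sum_const_zero, sub_zero]
  rw [c.N, h0, mul_zero, sub_zero] at hξ
  exact sub_eq_zero.1 (c.defn b ξ _ hξ)

lemma odd_add {m : ℕ} {F G : ℝ → SV m} (hF : OddF F) (hG : OddF G) : OddF (F + G) := fun ξ s X => by
  have h1 := hF ξ s X; have h2 := hG ξ s X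
  show (F (-ξ)).1 (!s) (-X) + (G (-ξ)).1 (!s) (-X) = -((F ξ).1 s X + (G ξ).1 s X)
  linarith
lemma odd_smul {m : ℕ} (a : ℝ) {F : ℝ → SV m} (hF : OddF F) : OddF (a • F) := fun ξ s X => by
  show a * (F (-ξ)).1 (!s) (-X) = -(a * (F ξ).1 s X)
  rw [hF ξ s X]; ring
lemma cen_add {b : Bath} {F G : ℝ → SV b.m} (hF : Cen b F) (hG : Cen b G) : Cen b (F + G) :=
  fun ξ => by rw [Pi.add_apply, map_add, hF ξ, hG ξ, add_zero]
lemma cen_smul {b : Bath} (a : ℝ) {F : ℝ → SV b.m} (hF : Cen b F) : Cen b (a • F) :=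
  fun ξ => by rw [Pi.smul_apply, map_smul, hF ξ, smul_zero]

def S0 (b : Bath) (D : ℕ) : Submodule ℝ (FV b) where
  carrier := {F | Cl0 b D F.1}
  add_mem' hF hG := ⟨add_mem hF.1 hG.1, odd_add hF.2.1 hG.2.1, cen_add hF.2.2.1 hG.2.2.1,
    fun ξ => add_mem (hF.2.2.2 ξ) (hG.2.2.2 ξ)⟩
  zero_mem' := ⟨zero_mem _, fun _ _ _ => neg_zero.symm, fun _ => map_zero _, fun _ => zero_mem _⟩
  smul_mem' a _ hF := ⟨Subalgebra.smul_mem _ hF.1 a, odd_smul a hF.2.1, cen_smul a hF.2.2.1,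
    fun ξ => Submodule.smul_mem _ a (hF.2.2.2 ξ)⟩

def S1 (b : Bath) : Submodule ℝ (FV b) where
  carrier := {F | Cl1 b F.1}
  add_mem' hF hG := ⟨add_mem hF.1 hG.1, odd_add hF.2.1 hG.2.1, cen_add hF.2.2 hG.2.2⟩
  zero_mem' := ⟨zero_mem _, fun _ _ _ => neg_zero.symm, fun _ => map_zero _⟩
  smul_mem' a _ hF := ⟨Subalgebra.smul_mem _ hF.1 a, odd_smul a hF.2.1, cen_smul a hF.2.2⟩

lemma N_st (c : Cal) (b : Bath) (ξ : ℝ) (G : SV b.m) :
    (imS b ξ).N (stS _ ξ) G = (imS b ξ).N (sS _) G := by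
  rw [c.N, c.N, stS, Algebra.algebraMap_eq_smul_one, sub_mul, smul_mul_assoc, one_mul]
  simp only [map_sub, map_smul, c.ex1, smul_eq_mul]
  ring

lemma st_cl (c : Cal) (p : PolApi) (b : Bath) (D : ℕ) : Cl0 b D (stS b.m) := by
  refine ⟨sub_mem (s_mem0 _) (t_mem0 _), fun ξ s X => ?_, fun ξ => ?_, fun ξ => ?_⟩
  · show sg (!s) - tanh (-ξ) = -(sg s - tanh ξ)
    rw [tanh_neg]; cases s <;> simp [sg] <;> ring
  · rw [stS, map_sub, c.exs, Algebra.algebraMap_eq_smul_one, map_smul, c.ex1]; simp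
  · rw [stS, Algebra.algebraMap_eq_smul_one]
    exact sub_mem (by simpa using p.s (p.one b.m D)) (Submodule.smul_mem _ _ (p.one _ _))

lemma pull_st {m k : ℕ} (ι : Matrix (Fin k) (Fin m) ℝ) (ξ : ℝ) : pull ι (stS m ξ) = stS k ξ := by
  rw [stS, map_sub, AlgHom.commutes]; rfl

lemma N_gen (c : Cal) (b : Bath) (ξ : ℝ) (F G : SV b.m) (h : exS b ξ G = 0) :
    (imS b ξ).N (gen b ξ F) G = (imS b ξ).En F G := by
  rw [c.N, h, mul_zero, sub_zero, mul_comm, c.l0, (c.ok _ _).sE]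

lemma N_gen' (c : Cal) (b : Bath) (P G f : FV b) (h : ∀ ξ, G.1 ξ = gen b ξ (P.1 ξ))
    (hf : Cen b f.1) : (fp fa ν b).N G f = (fp fa ν b).En P f := by
  rw [fp_N, fp_En, Nb, Eb]
  refine integral_congr_ae (ae_of_all _ fun ξ => ?_)
  simp only [h]
  exact N_gen c b ξ _ _ (hf ξ)

theorem extStmt (c : Cal) (p : PolApi) (fa : FamApi) : ExtStmt := by
  intro β ν _ D e 𝒱 T h𝒱 hT c𝒱 cT
  have ok0 := fp_ok fa ν c e.b
  have ok1 := fp_ok fa ν c e.bt
  have hst := st_cl c p e.b D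
  obtain ⟨n, f0, on0, m0, sp0⟩ := gram ok0 (S0 e.b D)
    (T := Subtype.val ⁻¹' insert (stS e.b.m) 𝒱)
    ((h𝒱.insert _).preimage Subtype.val_injective.injOn) (by
      rintro F (h | h)
      · show Cl0 e.b D F.1
        rw [h]; exact hst
      · exact c𝒱 _ h)
  have cP : ∀ l, Cl1 e.bt fun ξ => pull e.ι ((f0 l).1 ξ) := fun l => fa.pull e D _ (m0 l)
  have cG : ∀ l, Cl1 e.bt fun ξ => gen e.bt ξ (pull e.ι ((f0 l).1 ξ)) := fun l =>
    fa.gen e.bt _ (cP l)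
  set P : Fin n → FV e.bt := fun l => ⟨_, (cP l).1⟩ with hP
  set G : Fin n → FV e.bt := fun l => ⟨_, (cG l).1⟩ with hG
  obtain ⟨b1, f, hc, m1, sp1⟩ := compStmt _ _ ok1 (S1 e.bt)
    (Subtype.val ⁻¹' T ∪ (range P ∪ range G))
    ((hT.preimage Subtype.val_injective.injOn).union ((finite_range _).union (finite_range _))) (by
      rintro F (h | ⟨l, rfl⟩ | ⟨l, rfl⟩)
      · exact cT _ h
      · exact cP l
      · exact cG l)
  have iP : ∀ l, InSp (fp fa ν e.bt) f (P l) := fun l =>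
    sp1 _ (Submodule.subset_span (Or.inr (Or.inl ⟨l, rfl⟩)))
  have iG : ∀ l, InSp (fp fa ν e.bt) f (G l) := fun l =>
    sp1 _ (Submodule.subset_span (Or.inr (Or.inr ⟨l, rfl⟩)))
  have cf : ∀ k, Cen e.bt (f k).1 := fun k => (m1 k).2.2
  have cf0 : ∀ k, Cen e.b (f0 k).1 := fun k => (m0 k).2.2.1
  set ι : Matrix (Fin b1.m) (Fin n) ℝ := Matrix.of fun k l => (fp fa ν e.bt).N (P l) (f k) with hι
  set st : FV e.b := ⟨_, fa.le _ hst.1⟩ with hstd
  have hs := ae_of_inSp fa ν c e.b cf0 (y := st) hst.2.2.1 (sp0 st (Or.inl rfl))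
  have iso : ιᵀ * ι = 1 := by
    ext l l'
    have h1 := hc.N_co ok1 (iP l) (z := P l')
    have h2 : (fp fa ν e.bt).N (P l) (P l') = (fp fa ν e.b).N (f0 l) (f0 l') :=
      integral_congr_ae (ae_of_all _ fun ξ => c.p_N e ξ _ _)
    rw [h2, on0] at h1
    rw [one_apply, ← h1]; rfl
  have hg : β • b1.g = ι *ᵥ fun l => β * (fp fa ν e.b).N st (f0 l) := by
    funext k
    have h1 : (fp fa ν e.bt).N (fp fa ν e.bt).σ (f k) =
        (fp fa ν e.bt).N (∑ l, (fp fa ν e.b).N st (f0 l) • P l) (f k) := by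
      refine integral_congr_ae ?_
      filter_upwards [hs] with ξ hξ
      have h2 := congrArg (pull e.ι) hξ
      rw [show st.1 ξ = stS _ ξ from rfl, pull_st, map_sum] at h2
      show (imS e.bt ξ).N (sS _) _ = (imS e.bt ξ).N _ _
      rw [← N_st c, h2]
      simp only [map_smul, Submodule.coe_sum, Submodule.coe_smul, Finset.sum_apply, Pi.smul_apply,
        hP]
    rw [hc.g] at h1
    simp only [map_sum, map_smul, LinearMap.sum_apply, LinearMap.smul_apply, smul_eq_mul] at h1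
    simp only [Pi.smul_apply, smul_eq_mul, mulVec, dotProduct, hι, of_apply, h1, Finset.mul_sum]
    exact Finset.sum_congr rfl fun l _ => by ring
  have psd : (ιᵀ * b1.A * ι).PosSemidef := by
    simpa using b1.psd.conjTranspose_mul_mul_same ι
  refine ⟨⟨⟨n, ιᵀ * b1.A * ι, fun l => β * (fp fa ν e.b).N st (f0 l), psd⟩, b1.scale β, ι, iso,
    rfl, hg⟩, fun l => (f0 l).1, fun k => (f k).1,
    ⟨m0, m1, hc.on, hc.en, fun k => congrArg (β * ·) (hc.g k), fun l => ?_, fun l => ?_, ?_⟩,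
    fun v hv => ?_, fun v hv => ?_⟩
  · exact ae_of_inSp fa ν c e.bt cf (y := P l) (cP l).2.2 (iP l)
  · have h1 : ∀ k, (fp fa ν e.bt).N (G l) (f k) = (b1.A * ι) k l := fun k => by
      have h2 := hc.A_co ok1 (iP l) k
      have h3 : (fp fa ν e.bt).N (G l) (f k) = (fp fa ν e.bt).En (P l) (f k) :=
        N_gen' fa ν c e.bt (P l) (G l) (f k) (fun ξ => rfl) (cf k)
      rw [h3, ← h2]; rfl
    have := ae_of_inSp fa ν c e.bt cf (y := G l) (cG l).2.2 (iG l)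
    simp only [h1] at this
    exact this
  · filter_upwards [hs] with ξ hξ
    rw [show stS e.b.m ξ = st.1 ξ from rfl, hξ, Finset.smul_sum]
    simp only [smul_smul]
  · exact ⟨_, ae_of_inSp fa ν c e.b cf0 (y := ⟨v, fa.le _ (c𝒱 v hv).1⟩) (c𝒱 v hv).2.2.1
      (sp0 _ (Or.inr hv))⟩
  · exact ⟨_, ae_of_inSp fa ν c e.bt cf (y := ⟨v, (cT v hv).1⟩) (cT v hv).2.2
      (sp1 _ (Submodule.subset_span (Or.inl hv)))⟩

lemma bm_tanh : BM tanh :=
  ⟨contDiff_tanh'.continuous.measurable, 1, fun ξ => (abs_tanh_lt_one ξ).le⟩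

lemma pv_mul {m : ℕ} {P Q : SV m} (hP : cv m P ∈ PV m) (hQ : cv m Q ∈ PV m) :
    cv m (P * Q) ∈ PV m := fun s => by
  obtain ⟨p, hp⟩ := hP s
  obtain ⟨q, hq⟩ := hQ s
  refine ⟨p * q, fun X => ?_⟩
  rw [map_mul (MvPolynomial.eval _), ← hp, ← hq]; rfl

lemma n0_fam (p : PolApi) {m : ℕ} {F : ℝ → SV m} (hF : F ∈ N0 m) :
    (fun ξ => cv m (F ξ)) ∈ Fam (PV m) := by
  let W : Submodule ℝ (ℝ → SV m) :=
    Submodule.span ℝ {F | ∃ c P, BM c ∧ cv m P ∈ PV m ∧ F = fun ξ => c ξ • P}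
  have h1 : cv m 1 ∈ PV m := p.pv (p.one m 0)
  have hW : F ∈ W := by
    induction hF using Algebra.adjoin_induction with
    | mem x hx =>
      rcases hx with (rfl | rfl) | ⟨j, rfl⟩
      · exact Submodule.subset_span ⟨tanh, 1, bm_tanh, h1,
          funext fun ξ => Algebra.algebraMap_eq_smul_one _⟩
      · exact Submodule.subset_span ⟨fun _ => 1, sS m, BM.const 1,
          p.pv (by simpa using p.s (p.one m 0)), by simp⟩
      · exact Submodule.subset_span ⟨fun _ => 1, xS j, BM.const 1,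
          p.pv (by simpa using p.x j (p.one m 0)), by simp⟩
    | algebraMap r => exact Submodule.subset_span ⟨fun _ => r, 1, BM.const r, h1,
        funext fun ξ => (Algebra.algebraMap_eq_smul_one r : algebraMap ℝ (SV m) r = _)⟩
    | add x y _ _ hx hy => exact add_mem hx hy
    | mul x y _ _ hx hy =>
      refine Submodule.span_induction₂ (p := fun x y _ _ => x * y ∈ W) ?_ ?_ ?_ ?_ ?_ ?_ ?_ hx hy
      · rintro _ _ ⟨c, P, hc, hP, rfl⟩ ⟨d, Q, hd, hQ, rfl⟩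
        exact Submodule.subset_span ⟨fun ξ => c ξ * d ξ, P * Q, hc.mul hd, pv_mul hP hQ,
          funext fun ξ => smul_mul_smul_comm _ _ _ _⟩
      · intro y _; rw [zero_mul]; exact zero_mem _
      · intro y _; rw [mul_zero]; exact zero_mem _
      · intro x y z _ _ _ h1 h2; rw [add_mul]; exact add_mem h1 h2
      · intro x y z _ _ _ h1 h2; rw [mul_add]; exact add_mem h1 h2
      · intro r x y _ _ h; rw [smul_mul_assoc]; exact W.smul_mem r h
      · intro r x y _ _ h; rw [mul_smul_comm]; exact W.smul_mem r h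
  refine Submodule.span_induction (p := fun F _ => (fun ξ => cv m (F ξ)) ∈ Fam (PV m))
    ?_ ?_ ?_ ?_ hW
  · rintro _ ⟨c, P, hc, hP, rfl⟩
    exact Submodule.subset_span ⟨c, cv m P, hc, hP, funext fun ξ => map_smul _ _ _⟩
  · simp only [Pi.zero_apply, map_zero]; exact zero_mem _
  · intro x y _ _ hx hy
    simp only [Pi.add_apply, map_add]; exact add_mem hx hy
  · intro a x _ hx
    simp only [Pi.smul_apply, map_smul]; exact Submodule.smul_mem _ a hx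

theorem twStep (c : Cal) (p : PolApi) (fa : FamApi) : TwStep := by
  intro 𝒞 h𝒞 β hβ ν _ D e e' f0 f hs ht
  let b' : Bath := ⟨e'.b.m, e'.b.A, β⁻¹ • e'.b.g, e'.b.psd⟩
  have hb : b'.scale β = e'.b := by
    simp only [b', Bath.scale, smul_smul, mul_inv_cancel₀ hβ, one_smul]
  let F : Fin b'.m → Fam (𝒞.C e.b.m) := fun l =>
    ⟨fun ξ => cv _ (f0 l ξ), by rw [h𝒞]; exact n0_fam p (hs.c0 l).1⟩
  let f' : Fin e'.bt.m → FV e.bt := fun k => ⟨f k, (hs.c1 k).1⟩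
  let b1 : Bath := ⟨e'.bt.m, e'.bt.A, β⁻¹ • e'.bt.g, e'.bt.psd⟩
  have hc : Comp (fp fa ν e.bt) b1 f' := ⟨hs.on, hs.en, fun k => by
    have := hs.g k
    show Nb ν e.bt (fun _ => sS _) (f k) = β⁻¹ * e'.bt.g k
    rw [← this, ← mul_assoc, inv_mul_cancel₀ hβ, one_mul]⟩
  have hi : ∀ l, ∀ᵐ ξ ∂ν, pull e.ι (f0 l ξ) = (emb f' fun k => e'.ι k l).1 ξ := fun l => by
    filter_upwards [hs.inc l] with ξ hξ
    rw [hξ, emb_apply]
    simp only [Submodule.coe_sum, Submodule.coe_smul, Finset.sum_apply, Pi.smul_apply, f']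
  rw [← hb]
  refine TwL.step ν (f := F) ht ⟨fun k l => ?_, fun k l => ?_, fun l => ?_⟩
  · have h1 := hc.N_emb (fun j => e'.ι j k) fun j => e'.ι j l
    have h2 := congrFun (congrFun e'.iso k) l
    rw [one_apply] at h2
    rw [← h2]
    refine Eq.trans (integral_congr_ae ?_) h1
    filter_upwards [hi k, hi l] with ξ a1 a2
    show (imS e.b ξ).N (f0 k ξ) (f0 l ξ) = (imS e.bt ξ).N _ _
    rw [← a1, ← a2, c.p_N]
  · have h1 := hc.En_emb (fun j => e'.ι j k) fun j => e'.ι j l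
    have h2 : b'.A k l = (fun j => e'.ι j k) ⬝ᵥ e'.bt.A *ᵥ fun j => e'.ι j l := by
      show e'.b.A k l = _
      rw [e'.hA, Matrix.mul_assoc]; rfl
    rw [h2]
    refine Eq.trans (integral_congr_ae ?_) h1
    filter_upwards [hi k, hi l] with ξ a1 a2
    show (imS e.b ξ).En (f0 k ξ) (f0 l ξ) = (imS e.bt ξ).En _ _
    rw [← a1, ← a2, c.p_En]
  · have h1 := hc.σ_emb fun j => e'.ι j l
    have h2 : b'.g l = b1.g ⬝ᵥ fun j => e'.ι j l := by
      have h3 : e'.ιᵀ *ᵥ e'.bt.g = e'.b.g := by rw [e'.hg, mulVec_mulVec, e'.iso, one_mulVec]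
      show β⁻¹ * e'.b.g l = (β⁻¹ • e'.bt.g) ⬝ᵥ _
      rw [smul_dotProduct, ← h3, dotProduct_comm]; rfl
    rw [h2]
    refine Eq.trans (integral_congr_ae ?_) h1
    filter_upwards [hi l] with ξ a1
    show (imS e.b ξ).N (sS _) (f0 l ξ) = (imS e.bt ξ).N (sS _) _
    rw [← a1, ← c.p_N e]; rfl

end Ext3

theorem extGlue : ExtGlue := fun c p fa => ⟨Ext3.twStep c p fa, Ext3.extStmt c p fa⟩

end Crest.Agent.T157.Tw
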