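import Crest.Agent.T157.LcDef_30

/-!
# Row 157, block B/S4b (helper29): families in the static field (`famGlue`, `wsStmt`)
-/

set_option autoImplicit false

noncomputable section

namespace Crest.Agent.T157.Tw

open MeasureTheory Real Matrix Set
open Crest.Agent.R238.Gap Crest.Agent.R238.GapPc Crest.Agent.R253.Meh74

namespace Fam29

variable {m k : ℕ}

/-! ### closure of generated algebras -/

lemma cmem (A : Subalgebra ℝ (ℝ → SV m)) (r : ℝ) : (fun _ => algebraMap ℝ (SV m) r) ∈ A :=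
  A.algebraMap_mem r

lemma hom {T : Set (ℝ → SV m)} {A : Subalgebra ℝ (ℝ → SV k)} (φ : SV m →ₐ[ℝ] SV k) (τ : ℝ → ℝ)
    (hT : ∀ F ∈ T, (fun ξ => φ (F (τ ξ))) ∈ A) :
    ∀ F ∈ Algebra.adjoin ℝ T, (fun ξ => φ (F (τ ξ))) ∈ A := fun F hF => by
  induction hF using Algebra.adjoin_induction with
  | mem x hx => exact hT x hx
  | algebraMap r => simpa using cmem A r
  | add x y _ _ hx hy =>
    simp only [Pi.add_apply, map_add]
    exact add_mem hx hy
  | mul x y _ _ hx hy =>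
    simp only [Pi.mul_apply, map_mul]
    exact mul_mem hx hy

lemma dd_alg (c : Cal) (j : Fin m) (r : ℝ) : dd j (algebraMap ℝ (SV m) r) = 0 := by
  rw [Algebra.algebraMap_eq_smul_one, map_smul, c.done, smul_zero]

lemma der (c : Cal) {T : Set (ℝ → SV m)} (j : Fin m)
    (hT : ∀ F ∈ T, (fun ξ => dd j (F ξ)) ∈ Algebra.adjoin ℝ T) :
    ∀ F ∈ Algebra.adjoin ℝ T, (fun ξ => dd j (F ξ)) ∈ Algebra.adjoin ℝ T := fun F hF => by
  induction hF using Algebra.adjoin_induction with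
  | mem x hx => exact hT x hx
  | algebraMap r =>
    simp only [Pi.algebraMap_apply, dd_alg c]
    exact zero_mem _
  | add x y _ _ hx hy =>
    simp only [Pi.add_apply, map_add]
    exact add_mem hx hy
  | mul x y mx my hx hy =>
    simp only [Pi.mul_apply, c.dmul]
    exact add_mem (mul_mem hx my) (mul_mem mx hy)

lemma th_mem : (fun ξ => algebraMap ℝ (SV m) (tanh ξ)) ∈ N0 m :=
  Algebra.subset_adjoin (Or.inl (Or.inl rfl))
lemma s_mem : (fun _ => sS m) ∈ N0 m := Algebra.subset_adjoin (Or.inl (Or.inr rfl))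
lemma x_mem (j : Fin m) : (fun _ => xS j) ∈ N0 m := Algebra.subset_adjoin (Or.inr ⟨j, rfl⟩)
lemma le (b : Bath) : N0 b.m ≤ N1 b := Algebra.adjoin_mono (subset_insert _ _)
lemma t_mem (b : Bath) : tS b ∈ N1 b := Algebra.subset_adjoin (mem_insert _ _)

lemma g0_cases {p : (ℝ → SV m) → Prop} (h1 : p fun ξ => algebraMap ℝ (SV m) (tanh ξ))
    (h2 : p fun _ => sS m) (h3 : ∀ j, p fun _ => xS j) : ∀ F ∈ G0 m, p F := by
  rintro F ((rfl | rfl) | ⟨j, rfl⟩)
  exacts [h1, h2, h3 j]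

lemma d_g0 (c : Cal) (j : Fin m) : ∀ F ∈ G0 m, (fun ξ => dd j (F ξ)) ∈ N0 m :=
  g0_cases (by simp only [dd_alg c]; exact zero_mem _) (by simp only [c.ds]; exact zero_mem _)
    fun i => by
      simp only [c.dx]
      split_ifs
      exacts [one_mem _, zero_mem _]

lemma d0 (c : Cal) (j : Fin m) : ∀ F ∈ N0 m, (fun ξ => dd j (F ξ)) ∈ N0 m := der c j (d_g0 c j)

lemma d1 (c : Cal) (b : Bath) (j : Fin b.m) : ∀ F ∈ N1 b, (fun ξ => dd j (F ξ)) ∈ N1 b :=
  der c j (by
    rintro F (rfl | hF)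
    · simp only [c.dt]
      exact (N1 b).smul_mem (sub_mem (one_mem _) (pow_mem (t_mem b) 2)) (b.g j)
    · exact le b (d_g0 c j F hF))

lemma fl_g0 (c : Cal) : ∀ F ∈ G0 m, (fun ξ => fl m (F ξ)) ∈ N0 m :=
  g0_cases (by simp only [AlgHom.commutes]; exact th_mem)
    (by simp only [c.fls]; exact neg_mem s_mem) fun j => x_mem j

lemma fl0 (c : Cal) : ∀ F ∈ N0 m, (fun ξ => fl m (F ξ)) ∈ N0 m := hom (fl m) id (fl_g0 c)

lemma fl1 (c : Cal) (b : Bath) : ∀ F ∈ N1 b, (fun ξ => fl _ (F ξ)) ∈ N1 b :=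
  hom (fl _) id (by
    rintro F (rfl | hF)
    · exact t_mem b
    · exact le b (fl_g0 c F hF))

lemma rs_apply (b : Bath) (ξ : ℝ) (F : SV b.m) :
    rsS b ξ F = (1 / 2 : ℝ) • (1 - sS _ * tS b ξ) * (F - fl _ F) := rfl

lemma psi_apply (b : Bath) (ξ : ℝ) (F : SV b.m) :
    psi b ξ F = (1 / 2 : ℝ) • ((1 - tS b ξ ^ 2) * sS _) * (F - fl _ F) := rfl

lemma ou_apply (b : Bath) (F : SV b.m) :
    ouS b F = ∑ i, ∑ j, b.A i j • (zS b i * dd j F - dd i (dd j F)) := by
  simp only [ouS, LinearMap.sum_apply, LinearMap.smul_apply, LinearMap.sub_apply,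
    LinearMap.comp_apply, LinearMap.mul_apply']

lemma rs1 (c : Cal) (b : Bath) {F : ℝ → SV b.m} (hF : F ∈ N1 b) :
    (fun ξ => rsS b ξ (F ξ)) ∈ N1 b :=
  mul_mem ((N1 b).smul_mem (sub_mem (one_mem _) (mul_mem (le b s_mem) (t_mem b))) (1 / 2 : ℝ))
    (sub_mem hF (fl1 c b F hF))

lemma ou1 (c : Cal) (b : Bath) {F : ℝ → SV b.m} (hF : F ∈ N1 b) :
    (fun ξ => ouS b (F ξ)) ∈ N1 b := by
  have e : (fun ξ => ouS b (F ξ)) = ∑ i, ∑ j, b.A i j •
      (((fun _ : ℝ => (xS i : SV b.m)) - b.g i • fun _ : ℝ => sS b.m) *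
      (fun ξ => dd j (F ξ)) - fun ξ => dd i (dd j (F ξ))) := by
    funext ξ
    simp only [ou_apply, Finset.sum_apply]
    rfl
  rw [e]
  exact sum_mem fun i _ => sum_mem fun j _ => (N1 b).smul_mem (sub_mem (mul_mem
    (sub_mem (le b (x_mem i)) ((N1 b).smul_mem (le b s_mem) _)) (d1 c b j F hF))
    (d1 c b i _ (d1 c b j F hF))) _

/-! ### averages -/

/-- jointly continuous, of uniform polynomial growth -/
def Jc (F : ℝ → SV m) : Prop := (∀ s, Continuous fun p : ℝ × E m => (F p.1).1 s p.2) ∧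
  ∃ K : ℝ, ∃ j : ℕ, 0 ≤ K ∧ ∀ ξ s X, |(F ξ).1 s X| ≤ K * (1 + ‖X‖) ^ j

lemma cont_tanh : Continuous tanh := contDiff_tanh'.continuous

lemma jc (b : Bath) : ∀ F ∈ N1 b, Jc F := fun F hF => by
  induction hF using Algebra.adjoin_induction with
  | mem F hF =>
    rcases hF with rfl | hF
    · exact ⟨fun _ => cont_tanh.comp (by unfold fld; fun_prop), 1, 0, zero_le_one,
        fun ξ _ X => by
          change |tanh (fld b ξ X)| ≤ _
          simpa using (abs_tanh_lt_one _).le⟩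
    · refine g0_cases ?_ ?_ (fun j => ?_) F hF
      · exact ⟨fun _ => cont_tanh.comp continuous_fst, 1, 0, zero_le_one,
          fun ξ _ _ => by simpa using (abs_tanh_lt_one ξ).le⟩
      · refine ⟨fun _ => continuous_const, 1, 0, zero_le_one, fun _ s _ => ?_⟩
        change |sg s| ≤ _
        cases s <;> simp [sg]
      · refine ⟨fun _ => ?_, 1, 1, zero_le_one, fun _ s X => ?_⟩
        · change Continuous fun p : ℝ × E b.m => p.2 j
          fun_prop
        · change |X j| ≤ _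
          have := PiLp.norm_apply_le X j
          rw [Real.norm_eq_abs] at this
          linarith
  | algebraMap r => exact ⟨fun _ => continuous_const, |r|, 0, abs_nonneg _,
      fun _ _ _ => by simp⟩
  | add x y _ _ hx hy =>
    obtain ⟨K, j, hK, h⟩ := hx.2
    obtain ⟨K', j', hK', h'⟩ := hy.2
    refine ⟨fun s => (hx.1 s).add (hy.1 s), K + K', j + j', by positivity, fun ξ s X => ?_⟩
    have h1 : 1 ≤ 1 + ‖X‖ := by linarith [norm_nonneg X]
    have h2 := mul_le_mul_of_nonneg_left (pow_le_pow_right₀ h1 (Nat.le_add_right j j')) hK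
    have h3 := mul_le_mul_of_nonneg_left (pow_le_pow_right₀ h1 (Nat.le_add_left j' j)) hK'
    have h4 := abs_add_le ((x ξ).1 s X) ((y ξ).1 s X)
    change |(x ξ).1 s X + (y ξ).1 s X| ≤ _
    linarith [h ξ s X, h' ξ s X]
  | mul x y _ _ hx hy =>
    obtain ⟨K, j, hK, h⟩ := hx.2
    obtain ⟨K', j', hK', h'⟩ := hy.2
    refine ⟨fun s => (hx.1 s).mul (hy.1 s), K * K', j + j', by positivity, fun ξ s X => ?_⟩
    change |(x ξ).1 s X * (y ξ).1 s X| ≤ _
    rw [abs_mul]
    exact (mul_le_mul (h ξ s X) (h' ξ s X) (abs_nonneg _) (by positivity)).trans_eq (by ring)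

/-- continuous and bounded -/
def CB (c : ℝ → ℝ) : Prop := Continuous c ∧ BM c

lemma CB.const (r : ℝ) : CB fun _ => r := ⟨continuous_const, BM.const r⟩
lemma CB.add {c d : ℝ → ℝ} (hc : CB c) (hd : CB d) : CB fun ξ => c ξ + d ξ :=
  ⟨hc.1.add hd.1, hc.2.add hd.2⟩
lemma CB.mul {c d : ℝ → ℝ} (hc : CB c) (hd : CB d) : CB fun ξ => c ξ * d ξ :=
  ⟨hc.1.mul hd.1, hc.2.mul hd.2⟩
lemma CB.sub {c d : ℝ → ℝ} (hc : CB c) (hd : CB d) : CB fun ξ => c ξ - d ξ := by
  simpa [sub_eq_add_neg] using hc.add ((CB.const (-1)).mul hd)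
lemma CB.sum {ι : Type*} (S : Finset ι) {c : ι → ℝ → ℝ} (h : ∀ i, CB (c i)) :
    CB fun ξ => ∑ i ∈ S, c i ξ := by
  classical
  induction S using Finset.induction_on with
  | empty => simpa using CB.const 0
  | insert a S ha ih => simpa [Finset.sum_insert ha] using (h a).add ih
lemma CB.of {c : ℝ → ℝ} (hc : Continuous c) {M : ℝ} (h : ∀ ξ, |c ξ| ≤ M) : CB c :=
  ⟨hc, hc.measurable, M, h⟩

lemma cb_ex (b : Bath) {F : ℝ → SV b.m} (hF : F ∈ N1 b) : CB fun ξ => exS b ξ (F ξ) := by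
  obtain ⟨hc, K, j, hK, h⟩ := jc b F hF
  change CB fun ξ => ∑ s, hb ξ s * ∫ z, (F ξ).1 s (z + sg s • b.v) ∂gam b.m
  refine CB.sum _ fun s => CB.mul (CB.of (continuous_hb s) (M := 1) fun ξ => by
    rw [abs_of_pos (hb_pos _ _)]; exact hb_le _ _) ?_
  have hi : Integrable (fun z : E b.m => K * (1 + ‖z + sg s • b.v‖) ^ j) (gam b.m) :=
    int_shift (f := fun z => K * (1 + ‖z‖) ^ j) (by fun_prop)
      ⟨K, j, fun z => (abs_of_nonneg (by positivity)).le⟩ _
  refine CB.of (continuous_of_dominated (fun ξ => Continuous.aestronglyMeasurable ?_)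
    (fun ξ => ae_of_all _ fun z => h ξ s _) hi (ae_of_all _ fun z => ?_))
    (M := ∫ z, K * (1 + ‖z + sg s • b.v‖) ^ j ∂gam b.m) fun ξ =>
      norm_integral_le_of_norm_le (f := fun z => (F ξ).1 s (z + sg s • b.v)) hi
        (ae_of_all _ fun z => h ξ s _)
  · exact (hc s).comp (f := fun z => (ξ, z + sg s • b.v)) (by fun_prop)
  · exact (hc s).comp (f := fun ξ => (ξ, z + sg s • b.v)) (by fun_prop)

lemma fn_mem {F : ℝ → SV m} (hF : F ∈ N0 m) (ℓ : SV m →ₗ[ℝ] ℝ) :
    (fun ξ => algebraMap ℝ (SV k) (ℓ (F ξ))) ∈ N0 k := by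
  have key : ∀ G : ℝ → SV m, (∀ ℓ : SV m →ₗ[ℝ] ℝ, (fun ξ => algebraMap ℝ (SV k) (ℓ (G ξ))) ∈ N0 k) →
      ∀ ℓ : SV m →ₗ[ℝ] ℝ, (fun ξ => algebraMap ℝ (SV k) (ℓ (F ξ * G ξ))) ∈ N0 k := by
    induction hF using Algebra.adjoin_induction with
    | mem F hF =>
      intro G hG ℓ
      refine g0_cases (p := fun F => (fun ξ => algebraMap ℝ (SV k) (ℓ (F ξ * G ξ))) ∈ N0 k)
        ?_ (hG (ℓ ∘ₗ LinearMap.mul ℝ _ (sS m))) (fun j => hG (ℓ ∘ₗ LinearMap.mul ℝ _ (xS j))) F hF
      simp only [← Algebra.smul_def, map_smul, smul_eq_mul, map_mul]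
      exact mul_mem th_mem (hG ℓ)
    | algebraMap r => exact fun G hG ℓ => hG (ℓ ∘ₗ LinearMap.mul ℝ _ (algebraMap ℝ _ r))
    | add x y _ _ hx hy =>
      intro G hG ℓ
      simp only [Pi.add_apply, add_mul, map_add]
      exact add_mem (hx G hG ℓ) (hy G hG ℓ)
    | mul x y _ _ hx hy =>
      intro G hG ℓ
      simp only [Pi.mul_apply, mul_assoc]
      exact hx (fun ξ => y ξ * G ξ) (hy G hG) ℓ
  simpa using key (fun _ => 1) (fun ℓ => cmem _ _) ℓ

lemma poly_mem (p : MvPolynomial (Fin m) ℝ) : ∃ Q : SV m,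
    (∀ s X, Q.1 s X = MvPolynomial.eval (fun i => X i) p) ∧ (fun _ => Q) ∈ N0 m := by
  induction p using MvPolynomial.induction_on with
  | C a => exact ⟨algebraMap ℝ _ a, fun _ _ => by simp, cmem _ _⟩
  | add p q hp hq =>
    obtain ⟨P, h1, h2⟩ := hp
    obtain ⟨Q, h3, h4⟩ := hq
    exact ⟨P + Q, fun s X => by rw [map_add, ← h1 s, ← h3 s]; rfl, add_mem h2 h4⟩
  | mul_X p i hp =>
    obtain ⟨P, h1, h2⟩ := hp
    exact ⟨P * xS i, fun s X => by rw [map_mul, ← h1 s, MvPolynomial.eval_X]; rfl,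
      mul_mem h2 (x_mem i)⟩

lemma cst {D : ℕ} {P : SV m} (hP : P ∈ PolS m D) : (fun _ => P) ∈ N0 m := by
  obtain ⟨p, -, hp⟩ := hP true
  obtain ⟨q, -, hq⟩ := hP false
  obtain ⟨P1, h1, m1⟩ := poly_mem p
  obtain ⟨P2, h2, m2⟩ := poly_mem q
  have e : P = (1 / 2 : ℝ) • ((1 + sS m) * P1 + (1 - sS m) * P2) := by
    refine Subtype.ext (funext fun s => funext fun X => ?_)
    change P.1 s X = 1 / 2 * ((1 + sg s) * P1.1 s X + (1 - sg s) * P2.1 s X)
    rw [h1, h2]
    cases s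
    · rw [hq]; simp only [sg, Bool.false_eq_true, if_false]; ring
    · rw [hp]; simp only [sg, if_true]; ring
  rw [e]
  exact (N0 m).smul_mem (add_mem (mul_mem (add_mem (one_mem _) s_mem) m1)
    (mul_mem (sub_mem (one_mem _) s_mem) m2)) (1 / 2 : ℝ)

/-! ### the reflection -/

/-- `F (-s, -X)` -/
def rho (m : ℕ) : SV m →ₐ[ℝ] SV m := (pull (-1 : Matrix (Fin m) (Fin m) ℝ)).comp (fl m)

lemma rho_apply (F : SV m) (s : Bool) (X : E m) : (rho m F).1 s X = F.1 (!s) (-X) := by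
  change F.1 (!s) (mv (-1 : Matrix (Fin m) (Fin m) ℝ)ᵀ X) = _
  have : mv (-1 : Matrix (Fin m) (Fin m) ℝ)ᵀ X = -X := by
    ext i
    simp [M1.mv_apply, Matrix.one_apply]
  rw [this]

lemma sg_not (s : Bool) : sg (!s) = -sg s := by cases s <;> simp [sg]

lemma rho_s : rho m (sS m) = -sS m :=
  Subtype.ext (funext fun s => funext fun X => by rw [rho_apply]; exact sg_not s)

lemma rho_x (j : Fin m) : rho m (xS j) = -xS j :=
  Subtype.ext (funext fun s => funext fun X => by rw [rho_apply]; rfl)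

lemma rho_t (b : Bath) (ξ : ℝ) : rho _ (tS b (-ξ)) = -tS b ξ :=
  Subtype.ext (funext fun s => funext fun X => by
    rw [rho_apply]
    change tanh (fld b (-ξ) (-X)) = -tanh (fld b ξ X)
    rw [← tanh_neg, fld, fld, inner_neg_right, neg_add])

lemma rho_fl (F : SV m) : rho m (fl m F) = fl m (rho m F) := rfl

lemma rho_d (j : Fin m) (F : SV m) : rho m (dd j F) = -dd j (rho m F) :=
  Subtype.ext (funext fun s => funext fun X => by
    rw [rho_apply]
    change pd j (F.1 (!s)) (-X) = -pd j ((rho m F).1 s) X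
    rw [show (rho m F).1 s = fun X => F.1 (!s) (-X) from funext (rho_apply F s), O42.pd_neg, neg_neg])

lemma rho_rs (b : Bath) (ξ : ℝ) (F : SV b.m) : rho _ (rsS b (-ξ) F) = rsS b ξ (rho _ F) := by
  simp only [rs_apply, map_mul, map_smul, map_sub, map_one, rho_s, rho_t, rho_fl]
  rw [show -sS b.m * -tS b ξ = sS b.m * tS b ξ by ring]

lemma rho_ou (b : Bath) (F : SV b.m) : rho _ (ouS b F) = ouS b (rho _ F) := by
  simp only [ou_apply, map_sum, map_smul, map_sub, map_mul, rho_d, zS, rho_s, rho_x, map_neg]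
  exact Finset.sum_congr rfl fun i _ => Finset.sum_congr rfl fun j _ => by
    congr 1
    simp only [smul_neg]
    ring

lemma odd_iff {F : ℝ → SV m} : OddF F ↔ ∀ ξ, rho m (F (-ξ)) = -F ξ :=
  forall_congr' fun ξ => ⟨fun h => Subtype.ext (funext fun s => funext fun X => by
    rw [rho_apply]; exact h s X), fun h s X => by rw [← rho_apply, h]; rfl⟩

lemma hb_neg (ξ : ℝ) (s : Bool) : hb (-ξ) s = hb ξ (!s) := by
  simp only [hb, sg_not, cosh_neg, mul_neg, neg_mul]

lemma ex_rho (b : Bath) (ξ : ℝ) (F : SV b.m) : exS b (-ξ) (rho _ F) = exS b ξ F := by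
  change ∑ s, hb (-ξ) s * ∫ z, (rho _ F).1 s (z + sg s • b.v) ∂gam b.m =
    ∑ s, hb ξ s * ∫ z, F.1 s (z + sg s • b.v) ∂gam b.m
  have e : ∀ s, ∫ z, (rho _ F).1 s (z + sg s • b.v) ∂gam b.m =
      ∫ z, F.1 (!s) (z + sg (!s) • b.v) ∂gam b.m := fun s => by
    rw [← O42.int_neg fun z => F.1 (!s) (z + sg (!s) • b.v)]
    simp only [rho_apply, sg_not, neg_add, neg_smul]
  simp only [e, hb_neg, Fintype.sum_bool, Bool.not_true, Bool.not_false]
  ring

lemma ex_rho' (b : Bath) (ξ : ℝ) (F : SV b.m) : exS b ξ (rho _ F) = exS b (-ξ) F := by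
  rw [← ex_rho b (-ξ), neg_neg]

lemma rho_pol {D : ℕ} {F : SV m} (hF : F ∈ PolS m D) : rho m F ∈ PolS m D := fun s => by
  obtain ⟨p, hp, e⟩ := hF (!s)
  refine ⟨∑ d ∈ p.support, MvPolynomial.monomial d (p.coeff d * d.prod fun _ j => (-1) ^ j),
    (MvPolynomial.totalDegree_finsetSum_le fun d hd => (MvPolynomial.totalDegree_monomial_le _ _).trans
      ((MvPolynomial.le_totalDegree hd).trans hp)), fun X => ?_⟩
  rw [rho_apply, e, map_sum]
  conv_lhs => rw [p.as_sum, map_sum]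
  refine Finset.sum_congr rfl fun d _ => ?_
  rw [MvPolynomial.eval_monomial, MvPolynomial.eval_monomial, mul_assoc, ← Finsupp.prod_mul]
  congr 1
  exact Finsupp.prod_congr fun i _ => by rw [← mul_pow]; simp

lemma rho_g0 : ∀ F ∈ G0 m, (fun ξ => rho m (F (-ξ))) ∈ N0 m :=
  g0_cases (by simp only [AlgHom.commutes, tanh_neg, map_neg]; exact neg_mem th_mem)
    (by simp only [rho_s]; exact neg_mem s_mem) fun j => by
      simp only [rho_x]; exact neg_mem (x_mem j)

/-! ### the relative bound -/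

lemma w_le (b : Bath) (ξ : ℝ) (X : E b.m) :
    M1.wX b ξ X * (1 - tanh (fld b ξ X) ^ 2) ≤ 2 * sech2 ξ * M1.wX b 0 X := by
  have h1 := cosh_pos ξ
  have h2 := cosh_pos (fld b ξ X)
  have h3 := cosh_pos (fld b 0 X)
  have h4 : cosh ξ ≤ 2 * (cosh (fld b ξ X) * cosh (fld b 0 X)) := by
    have e : ξ = fld b ξ X - fld b 0 X := by simp [fld]
    conv_lhs => rw [e, cosh_sub]
    have a1 := sinh_lt_cosh (fld b ξ X)
    have a2 := sinh_lt_cosh (fld b 0 X)
    have a3 := sinh_lt_cosh (-fld b ξ X)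
    have a4 := sinh_lt_cosh (-fld b 0 X)
    rw [sinh_neg, cosh_neg] at a3 a4
    nlinarith
  have h5 : 1 - tanh (fld b ξ X) ^ 2 = 1 / cosh (fld b ξ X) ^ 2 := by
    rw [tanh_eq_sinh_div_cosh]
    field_simp
    rw [cosh_sq']
    ring
  have h6 : 0 < R285.gdens X * exp (-‖b.v‖ ^ 2 / 2) := mul_pos (R285.gdens_pos X) (exp_pos _)
  rw [h5, M1.wX, M1.wX, sech2, cosh_zero]
  generalize R285.gdens X * exp (-‖b.v‖ ^ 2 / 2) = g at h6
  have e : 2 * (1 / cosh ξ ^ 2) * (g * cosh (fld b 0 X) / 1) -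
      g * cosh (fld b ξ X) / cosh ξ * (1 / cosh (fld b ξ X) ^ 2) =
      g * (2 * (cosh (fld b ξ X) * cosh (fld b 0 X)) - cosh ξ) /
        (cosh ξ ^ 2 * cosh (fld b ξ X)) := by
    field_simp
  have : 0 ≤ g * (2 * (cosh (fld b ξ X) * cosh (fld b 0 X)) - cosh ξ) /
      (cosh ξ ^ 2 * cosh (fld b ξ X)) := by
    have := sub_nonneg.2 h4
    positivity
  linarith

lemma rel (c : Cal) (b : Bath) (P : SV b.m) :
    ∃ C, ∀ ξ, |(imS b ξ).En (sS _) P| ≤ C * sech2 ξ := by
  have hc : ∀ F : SV b.m, F.1 ∈ CP b.m := fun F s => ⟨(F.2 s).c1.cont, (F.2 s).c1.g⟩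
  set Δ : E b.m → ℝ := fun X => (P.1 true X - P.1 false X) / 2 with hΔ
  have hD : (fun (_ : Bool) X => |Δ X|) ∈ CP b.m := fun _ => by
    refine ⟨(((hc P true).1.sub (hc P false).1).div_const 2).abs, ?_⟩
    obtain ⟨K, j, h⟩ := (hc P true).2.sub (hc P false).2
    refine ⟨K, j, fun X => le_trans ?_ (h X)⟩
    simp only [hΔ, abs_abs, abs_div, abs_two]
    linarith [abs_nonneg (P.1 true X - P.1 false X)]
  have h0 := (M1.ex_eq b 0 hD).1
  refine ⟨2 * ∫ X, M1.wX b 0 X * ∑ s, hb (fld b 0 X) s * |Δ X|, fun ξ => ?_⟩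
  rw [← c.psi_ex]
  change |ex b ξ (psi b ξ P).1| ≤ _
  rw [(M1.ex_eq b ξ (hc _)).2, mul_right_comm, ← integral_const_mul, ← Real.norm_eq_abs]
  refine norm_integral_le_of_norm_le (h0.const_mul _) (ae_of_all _ fun X => ?_)
  have e : ∀ s, (psi b ξ P).1 s X = (1 - tanh (fld b ξ X) ^ 2) * Δ X := fun s => by
    change 1 / 2 * ((1 - tanh (fld b ξ X) ^ 2) * sg s) * (P.1 s X - P.1 (!s) X) = _
    cases s <;> simp only [sg, hΔ, Bool.false_eq_true, if_false, if_true, Bool.not_true,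
      Bool.not_false] <;> ring
  have h1 : 0 ≤ 1 - tanh (fld b ξ X) ^ 2 := (sub_pos.2 (tanh_sq_lt_one _)).le
  simp only [e, ← Finset.sum_mul, Fintype.sum_bool, hb_sum, one_mul, Real.norm_eq_abs]
  rw [← mul_assoc, abs_mul, abs_of_nonneg (mul_nonneg (M1.wX_nonneg b ξ X) h1), ← mul_assoc]
  exact mul_le_mul_of_nonneg_right (w_le b ξ X) (abs_nonneg _)

end Fam29

open Fam29

theorem famGlue : FamGlue := fun c _ =>
  { le := le
    ex := fun b _ hF => cb_ex b hF
    d0 := d0 c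
    d1 := d1 c
    fl0 := fl0 c
    fl1 := fl1 c
    gen := fun b F hF => ⟨add_mem (rs1 c b hF.1) (ou1 c b hF.1), odd_iff.2 fun ξ => by
        simp only [Tw.gen, LinearMap.add_apply, map_add, rho_rs, rho_ou, odd_iff.1 hF.2.1 ξ,
          map_neg, neg_add],
      fun ξ => by
        have h := c.l0 b ξ (F ξ) 1
        rw [one_mul, c.En] at h
        simpa [c.done, rs_apply] using h⟩
    pull := fun e D F hF => ⟨le e.bt (hom (Tw.pull e.ι) id (g0_cases
        (by simp only [AlgHom.commutes]; exact th_mem) s_mem fun i => by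
          have : (fun _ : ℝ => Tw.pull e.ι (xS i)) = ∑ j, e.ι j i • fun _ => xS j := by
            funext ξ
            simp only [c.p_x, Finset.sum_apply]
            rfl
          exact this ▸ sum_mem fun j _ => (N0 _).smul_mem (x_mem j) _) F hF.1),
      fun ξ s X => by
        have := hF.2.1 ξ s (mv e.ιᵀ X)
        rwa [← map_neg] at this,
      fun ξ => (c.p_ex e ξ _).trans (hF.2.2.1 ξ)⟩
    ex0 := fun b F hF => by
      rw [show (fun ξ => algebraMap ℝ (SV b.m) (exS b ξ (F ξ))) = fun ξ =>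
        algebraMap ℝ (SV b.m) (exS b 0 (F ξ)) + algebraMap ℝ (SV b.m) (tanh ξ) *
          algebraMap ℝ (SV b.m) (exS b 0 (sS _ * F ξ)) from
        funext fun ξ => by rw [c.aff b ξ (F ξ), map_add, map_mul]]
      exact add_mem (fn_mem hF (exS b 0))
        (mul_mem th_mem (fn_mem hF (exS b 0 ∘ₗ LinearMap.mul ℝ _ (sS _))))
    N := fun b F hF G hG => by
      simp only [c.N]
      exact (cb_ex b (mul_mem hF hG)).sub ((cb_ex b hF).mul (cb_ex b hG))
    En := fun b F hF G hG => by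
      simp only [c.En]
      exact (cb_ex b (mul_mem (rs1 c b hF) (rs1 c b hG))).add (CB.sum _ fun i => CB.sum _ fun j =>
        (CB.const _).mul (cb_ex b (mul_mem (d1 c b i F hF) (d1 c b j G hG))))
    cst := cst
    refl := fun m => ⟨rho m, rho_apply, fun _ _ => rho_pol, hom (rho m) Neg.neg rho_g0,
      fun A g hA ξ F G => by
        refine ⟨ex_rho ⟨m, A, g, hA⟩ ξ F, ?_, ?_⟩
        · rw [c.N, c.N, ← map_mul, ex_rho, ex_rho, ex_rho]
        · rw [c.En, c.En]
          have h1 : ∀ H, rsS ⟨m, A, g, hA⟩ (-ξ) (rho m H) = rho m (rsS ⟨m, A, g, hA⟩ ξ H) :=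
            fun H => by rw [← rho_rs ⟨m, A, g, hA⟩, neg_neg]
          have h2 : ∀ i j, dd i (rho m F) * dd j (rho m G) = rho m (dd i F * dd j G) :=
            fun i j => by rw [map_mul, rho_d, rho_d]; ring
          simp only [h1, h2, ← map_mul, ex_rho ⟨m, A, g, hA⟩]⟩
    rel := rel c }

theorem wsStmt : WsStmt := by
  intro c hc hs η hη
  obtain ⟨R, hR0, hR⟩ := hs.exists_pos_le_norm
  have ha : tanh R < 1 := tanh_lt_one R
  have hm : StrictMono tanh := fun x y h => by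
    rw [← artanh_lt_artanh_iff ⟨neg_one_lt_tanh x, tanh_lt_one x⟩
      ⟨neg_one_lt_tanh y, tanh_lt_one y⟩, artanh_tanh, artanh_tanh]
    exact h
  set cl : ℝ → ℝ := fun t => max (-tanh R) (min t (tanh R)) with hcl
  have hcc : Continuous cl := by fun_prop
  have hc1 : ∀ t, -1 < cl t ∧ cl t < 1 := fun t =>
    ⟨lt_max_of_lt_left (by linarith), max_lt (by linarith [neg_one_lt_tanh R])
      ((min_le_right _ _).trans_lt ha)⟩
  have hart : Continuous fun t => artanh (cl t) := by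
    have e : (fun t => artanh (cl t)) = fun t => 1 / 2 * log ((1 + cl t) / (1 - cl t)) :=
      funext fun t => artanh_eq_half_log ⟨(hc1 t).1.le, (hc1 t).2.le⟩
    rw [e]
    refine continuous_const.mul (Continuous.log (Continuous.div (by fun_prop) (by fun_prop)
      fun t => (sub_pos.2 (hc1 t).2).ne') fun t => (div_pos ?_ (sub_pos.2 (hc1 t).2)).ne')
    linarith [(hc1 t).1]
  obtain ⟨p, hp⟩ := exists_polynomial_near_of_continuousOn (-1) 1 (fun t => c (artanh (cl t)))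
    (hc.comp hart).continuousOn η hη
  refine ⟨p, fun ξ => ?_⟩
  have e : c (artanh (cl (tanh ξ))) = c ξ := by
    have h0 : -tanh R ≤ tanh R := by
      rw [← tanh_neg]
      exact hm.monotone (by linarith)
    rcases le_total R ξ with h | h
    · rw [hcl]
      simp only
      rw [min_eq_right (hm.monotone h), max_eq_right h0, artanh_tanh,
        hR R (by rw [Real.norm_eq_abs, abs_of_pos hR0]), hR ξ (h.trans (le_abs_self ξ))]
    · rcases le_total ξ (-R) with h' | h'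
      · have h1 : tanh ξ ≤ -tanh R := by
          rw [← tanh_neg]
          exact hm.monotone h'
        rw [hcl]
        simp only
        rw [max_eq_left ((min_le_left _ _).trans h1), ← tanh_neg, artanh_tanh,
          hR (-R) (by rw [Real.norm_eq_abs, abs_neg, abs_of_pos hR0]),
          hR ξ (le_trans (by linarith) (neg_le_abs ξ))]
      · have h1 : -tanh R ≤ tanh ξ := by
          rw [← tanh_neg]
          exact hm.monotone h'
        rw [hcl]
        simp only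
        rw [min_eq_left (hm.monotone h), max_eq_right h1, artanh_tanh]
  have := hp (tanh ξ) ⟨(neg_one_lt_tanh ξ).le, (tanh_lt_one ξ).le⟩
  rw [abs_sub_comm]
  simpa only [e] using this.le

end Crest.Agent.T157.Tw

end
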