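import Crest.Agent.T157.LcDef_30

/-! Row 157, block B/S4b: one step at a fixed static field, (E1) and (E2) (helper20). -/

set_option autoImplicit false

noncomputable section

namespace Crest.Agent.T157.Tw

open Real Matrix Finset

namespace Fix20

variable (c : Cal)
include c

section one
variable {b : Bath} {ξ : ℝ}

lemma sq_nn (F : SV b.m) : 0 ≤ exS b ξ (F * F) := c.pos b ξ _ fun s X => mul_self_nonneg (F.1 s X)

lemma sq_add (F G : SV b.m) :
    exS b ξ ((F + G) * (F + G)) ≤ 2 * exS b ξ (F * F) + 2 * exS b ξ (G * G) := by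
  have h := sq_nn c (b := b) (ξ := ξ) (F - G)
  have e : (F + G) * (F + G) + (F - G) * (F - G) = (2 : ℝ) • (F * F) + (2 : ℝ) • (G * G) := by
    simp only [two_smul]; ring
  have := congrArg (exS b ξ) e
  simp only [map_add, map_smul, smul_eq_mul] at this
  linarith

omit c in
lemma sq_smul (r : ℝ) (F : SV b.m) : exS b ξ (r • F * r • F) = r ^ 2 * exS b ξ (F * F) := by
  rw [smul_mul_smul_comm, map_smul, smul_eq_mul, sq]

lemma sq_sub (F G : SV b.m) (r : ℝ) :
    exS b ξ ((F - r • G) * (F - r • G)) ≤ 2 * exS b ξ (F * F) + 2 * (r ^ 2 * exS b ξ (G * G)) := by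
  have := sq_add c (b := b) (ξ := ξ) F ((-r) • G)
  rwa [sq_smul, neg_sq, neg_smul, ← sub_eq_add_neg] at this

lemma abs_ip (F G : SV b.m) : |exS b ξ (F * G)| ≤ (exS b ξ (F * F) + exS b ξ (G * G)) / 2 := by
  have h1 := sq_nn c (b := b) (ξ := ξ) (F - G)
  have h2 := sq_nn c (b := b) (ξ := ξ) (F + G)
  rw [show (F - G) * (F - G) = F * F + G * G - (F * G + F * G) by ring] at h1
  rw [show (F + G) * (F + G) = F * F + G * G + (F * G + F * G) by ring] at h2
  simp only [map_add, map_sub] at h1 h2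
  rw [abs_le]; constructor <;> linarith

/-- the gradient energy -/
lemma en_up (F : SV b.m) : (imS b ξ).En F F ≤
    exS b ξ (F * F) + (∑ i, ∑ j, |b.A i j|) * ∑ k, exS b ξ (dd k F * dd k F) := by
  rw [c.En, sum_mul]
  refine add_le_add (c.rs_le b ξ F) (sum_le_sum fun i _ => ?_)
  rw [sum_mul]
  refine sum_le_sum fun j _ => (le_abs_self _).trans ?_
  rw [abs_mul]
  refine mul_le_mul_of_nonneg_left ((abs_ip c _ _).trans ?_) (abs_nonneg _)
  have h := fun i => single_le_sum (f := fun k => exS b ξ (dd k F * dd k F))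
    (fun k _ => sq_nn c _) (mem_univ i)
  linarith [h i, h j]

lemma en_low {l : ℝ} (h : b.Ge l) (F : SV b.m) :
    l * ∑ k, exS b ξ (dd k F * dd k F) ≤ (imS b ξ).En F F := by
  have p := c.pos b ξ (∑ i, ∑ j, b.A i j • (dd i F * dd j F) - l • ∑ k, dd k F * dd k F) fun s X => by
    have := h fun i => (dd i F).1 s X
    simp only [dotProduct, mulVec, mul_sum] at this
    simp only [AddSubgroupClass.coe_sub, AddSubmonoidClass.coe_finsetSum, SetLike.val_smul,
      MulMemClass.coe_mul, Pi.sub_apply, Finset.sum_apply, Pi.smul_apply, Pi.mul_apply, smul_eq_mul,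
      mul_sum, sub_nonneg]
    refine this.trans_eq (sum_congr rfl fun i _ => sum_congr rfl fun j _ => by ring)
  simp only [map_sub, map_sum, map_smul, smul_eq_mul] at p
  rw [c.En]
  linarith [sq_nn c (b := b) (ξ := ξ) (rsS b ξ F)]

lemma en_one (F : SV b.m) : (imS b ξ).En 1 F = 0 := by
  have : rsS b ξ 1 = 0 := by simp [rsS]
  simp [c.En, this, c.done]

lemma psi_le' (F : SV b.m) : exS b ξ (psi b ξ F * psi b ξ F) ≤ exS b ξ (F * F) :=
  (c.psi_le b ξ F).trans (c.rs_le b ξ F)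

variable (p : PolApi)
include p

lemma orth_d {D : ℕ} {G : SV b.m} (h : ∀ q ∈ PolS b.m (D + 1), exS b ξ (G * q) = 0) (j : Fin b.m) :
    ∀ q ∈ PolS b.m D, exS b ξ (dd j G * q) = 0 := fun q hq => by
  have h1 := c.stein b ξ j (G * q)
  have h2 := h (zS b j * q) (by
    rw [zS, sub_mul, smul_mul_assoc]
    exact sub_mem (p.x j hq) (Submodule.smul_mem _ _ (p.mono _ (Nat.le_succ D) (p.s hq))))
  have h3 := h (dd j q) (p.d j (p.mono _ (by omega) hq))
  rw [c.dmul, map_add, h3, mul_left_comm, h2] at h1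
  linarith

lemma pyth {D : ℕ} {G H : SV b.m} (h : ∀ q ∈ PolS b.m D, exS b ξ (G * q) = 0)
    (hH : G - H ∈ PolS b.m D) : (D + 1) * exS b ξ (G * G) ≤ ∑ k, exS b ξ (dd k H * dd k H) := by
  refine (p.p2 b ξ D G h).trans (sum_le_sum fun k _ => ?_)
  have h0 : exS b ξ (dd k G * dd k (G - H)) = 0 := by
    cases D with
    | zero => rw [p.d0 k hH, mul_zero, map_zero]
    | succ D => exact orth_d c p h k _ (p.d k hH)
  have h1 := sq_nn c (b := b) (ξ := ξ) (dd k (G - H))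
  have e : dd k H * dd k H = dd k G * dd k G + dd k (G - H) * dd k (G - H) -
      (dd k G * dd k (G - H) + dd k G * dd k (G - H)) := by rw [map_sub]; ring
  rw [e]
  simp only [map_add, map_sub (exS b ξ), h0]
  linarith

end one

section prod
variable {b : Bath} {ξ : ℝ}

/-- derivative in the direction `w` -/
def Dw {m : ℕ} (w : Fin m → ℝ) (F : SV m) : SV m := ∑ j, w j • dd j F

lemma Dw_mul {m : ℕ} (w : Fin m → ℝ) (F G : SV m) : Dw w (F * G) = Dw w F * G + F * Dw w G := by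
  simp only [Dw, c.dmul, smul_add, sum_add_distrib, sum_mul, mul_sum, smul_mul_assoc, mul_smul_comm]

lemma Dw_d {m : ℕ} (w : Fin m → ℝ) (i : Fin m) (F : SV m) : Dw w (dd i F) = dd i (Dw w F) := by
  simp only [Dw, map_sum, map_smul, c.dcomm i]

lemma d_lin {m : ℕ} (w : Fin m → ℝ) (j : Fin m) : dd j (linS m w) = w j • 1 := by
  simp only [linS, emb_apply, map_sum, map_smul, c.dx, smul_ite, smul_zero, sum_ite_eq', mem_univ,
    if_true]

lemma Dw_lin {m : ℕ} (w w' : Fin m → ℝ) : Dw w (linS m w') = (w ⬝ᵥ w') • 1 := by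
  simp only [Dw, d_lin c, smul_smul, ← sum_smul, dotProduct]

lemma Dw_pull {m k : ℕ} {ι : Matrix (Fin k) (Fin m) ℝ} {w : Fin k → ℝ} (h : ιᵀ *ᵥ w = 0) (F : SV m) :
    Dw w (pull ι F) = 0 := by
  simp only [Dw, c.p_d, smul_sum, smul_smul]
  rw [sum_comm]
  refine sum_eq_zero fun i _ => ?_
  have := congrFun h i
  simp only [mulVec, dotProduct, transpose_apply, Pi.zero_apply] at this
  rw [← sum_smul, show ∑ j, w j * ι j i = 0 by simpa only [mul_comm] using this, zero_smul]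

lemma ex_lin {w : Fin b.m → ℝ} (hw : w ⬝ᵥ b.g = 0) (F : SV b.m) :
    exS b ξ (linS _ w * F) = exS b ξ (Dw w F) := by
  have e : linS _ w = ∑ j, w j • zS b j := by
    simp only [zS, smul_sub, sum_sub_distrib, smul_smul, ← sum_smul]
    rw [show ∑ j, w j * b.g j = 0 from hw, zero_smul, sub_zero, linS, emb_apply]
  simp only [e, Dw, sum_mul, smul_mul_assoc, map_sum, map_smul, c.stein]

lemma ex_lin2 {w : Fin b.m → ℝ} (hw : w ⬝ᵥ b.g = 0) (w' : Fin b.m → ℝ) {F : SV b.m} (h : Dw w F = 0) :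
    exS b ξ (linS _ w * (F * linS _ w')) = w ⬝ᵥ w' * exS b ξ F := by
  rw [ex_lin c hw, Dw_mul c, h, Dw_lin c, zero_mul, zero_add, mul_smul_comm, mul_one, map_smul,
    smul_eq_mul]

omit c in
lemma rs_lin (F : SV b.m) (w : Fin b.m → ℝ) : rsS b ξ (F * linS _ w) = rsS b ξ F * linS _ w := by
  have e : fl _ (linS b.m w) = linS _ w := by
    simp only [linS, emb_apply, map_sum, map_smul]; rfl
  simp only [rsS, LinearMap.comp_apply, LinearMap.sub_apply, LinearMap.id_apply,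
    AlgHom.toLinearMap_apply, map_mul, e, LinearMap.mul_apply']
  ring

end prod

omit c in
lemma w_orth (e : Ext) (u : Fin e.b.m → ℝ) : e.ιᵀ *ᵥ e.w u = 0 := by
  rw [Ext.w, mulVec_sub, mulVec_mulVec, mulVec_mulVec, mulVec_mulVec, ← e.hA, e.iso, one_mulVec,
    sub_self]

omit c in
lemma w_g (e : Ext) {w : Fin e.bt.m → ℝ} (h : e.ιᵀ *ᵥ w = 0) : w ⬝ᵥ e.bt.g = 0 := by
  rw [e.hg, dotProduct_mulVec, ← mulVec_transpose, h, zero_dotProduct]

/-- the form `r N + En` -/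
def Bf (b : Bath) (ξ r : ℝ) : SV b.m →ₗ[ℝ] SV b.m →ₗ[ℝ] ℝ := r • (imS b ξ).N + (imS b ξ).En

omit c in
lemma Mf_eq (b : Bath) (ξ r : ℝ) (F : SV b.m) : Mf b ξ r F = Bf b ξ r F F := rfl

/-- **product formula** -/
lemma prod (e : Ext) (ξ r : ℝ) {w w' : Fin e.bt.m → ℝ} (h : e.ιᵀ *ᵥ w = 0) (h' : e.ιᵀ *ᵥ w' = 0)
    (F G : SV e.b.m) : Bf e.bt ξ r (pull e.ι F * linS _ w) (pull e.ι G * linS _ w') =
      (r * (w ⬝ᵥ w') + w ⬝ᵥ e.bt.A *ᵥ w') * exS e.b ξ (F * G) + w ⬝ᵥ w' * (imS e.b ξ).En F G := by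
  have g := w_g e h
  have g' := w_g e h'
  have z : ∀ {v}, e.ιᵀ *ᵥ v = 0 → ∀ H : SV e.bt.m, Dw v H = 0 → exS e.bt ξ (linS _ v * H) = 0 :=
    fun hv H hH => by rw [ex_lin c (w_g e hv), hH, map_zero]
  have t : ∀ H K : SV e.bt.m, Dw w H = 0 → Dw w K = 0 →
      exS e.bt ξ (H * linS _ w * (K * linS _ w')) = w ⬝ᵥ w' * exS e.bt ξ (H * K) := fun H K hH hK => by
    rw [← ex_lin2 c g w' (F := H * K) (by rw [Dw_mul c, hH, hK, zero_mul, mul_zero, add_zero])]
    congr 1; ring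
  have dp : ∀ {v}, e.ιᵀ *ᵥ v = 0 → ∀ i (H : SV e.b.m), Dw v (dd i (pull e.ι H)) = 0 :=
    fun hv i H => by rw [Dw_d c, Dw_pull c hv, map_zero]
  have n : (imS e.bt ξ).N (pull e.ι F * linS _ w) (pull e.ι G * linS _ w') =
      w ⬝ᵥ w' * exS e.b ξ (F * G) := by
    rw [c.N, t _ _ (Dw_pull c h F) (Dw_pull c h G), mul_comm (pull e.ι F) (linS _ w),
      z h _ (Dw_pull c h F), zero_mul, sub_zero, ← map_mul, c.p_ex]
  have d : ∀ i j, exS e.bt ξ (dd i (pull e.ι F * linS _ w) * dd j (pull e.ι G * linS _ w')) =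
      w ⬝ᵥ w' * exS e.bt ξ (dd i (pull e.ι F) * dd j (pull e.ι G)) + w i * w' j * exS e.b ξ (F * G) := by
    intro i j
    have z1 := z h (dd i (pull e.ι F) * pull e.ι G)
      (by rw [Dw_mul c, dp h, Dw_pull c h, zero_mul, mul_zero, add_zero])
    have z2 := z h' (pull e.ι F * dd j (pull e.ι G))
      (by rw [Dw_mul c, dp h', Dw_pull c h', zero_mul, mul_zero, add_zero])
    have x : dd i (pull e.ι F * linS _ w) * dd j (pull e.ι G * linS _ w') =
        dd i (pull e.ι F) * linS _ w * (dd j (pull e.ι G) * linS _ w') +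
        w' j • (linS _ w * (dd i (pull e.ι F) * pull e.ι G)) +
        w i • (linS _ w' * (pull e.ι F * dd j (pull e.ι G))) + (w i * w' j) • pull e.ι (F * G) := by
      simp only [c.dmul, d_lin c, map_mul, Algebra.smul_def, map_mul]; ring
    rw [x]
    simp only [map_add, map_smul, z1, z2, t _ _ (dp h i F) (dp h j G), c.p_ex, smul_eq_mul]
    ring
  have en : (imS e.bt ξ).En (pull e.ι F * linS _ w) (pull e.ι G * linS _ w') =
      w ⬝ᵥ w' * (imS e.b ξ).En F G + w ⬝ᵥ e.bt.A *ᵥ w' * exS e.b ξ (F * G) := by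
    rw [← c.p_En, c.En, c.En, rs_lin, rs_lin, t _ _ (by rw [c.p_rs, Dw_pull c h])
      (by rw [c.p_rs, Dw_pull c h])]
    generalize w ⬝ᵥ w' = σ at d
    simp only [d, mul_add, sum_add_distrib, mul_sum, dotProduct, mulVec, sum_mul, add_assoc]
    congr 2 <;> exact sum_congr rfl fun i _ => sum_congr rfl fun j _ => by ring
  change r * _ + _ = _
  rw [n, en]; ring

omit c in
lemma w_sum (e : Ext) (u : Fin e.b.m → ℝ) : ∑ i, u i • e.w (Pi.single i 1) = e.w u := by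
  have : u = ∑ i, u i • (Pi.single i 1 : Fin e.b.m → ℝ) := by
    ext j; simp [Finset.sum_apply, Pi.single_apply]
  conv_rhs => rw [this]
  simp only [Ext.w, mulVec_sum, mulVec_smul, smul_sub, sum_sub_distrib]

omit c in
lemma U_le {b : Bath} {l y μ c0 : ℝ} (h : b.Ge l) (hc : 0 < c0) (hy : c0 ≤ y + l)
    {U : Fin b.m → ℝ} (hU : b.A *ᵥ U + (y + μ) • U = b.g) : μ * (U ⬝ᵥ U) ≤ b.g ⬝ᵥ b.g / (4 * c0) := by
  have h1 := h U
  have h2 := congrArg (U ⬝ᵥ ·) hU
  simp only [dotProduct_add, dotProduct_smul, smul_eq_mul] at h2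
  have h3 := dot_nonneg ((2 * c0) • U - b.g)
  simp only [sub_dotProduct, dotProduct_sub, dotProduct_smul, smul_dotProduct, smul_eq_mul,
    dotProduct_comm b.g U] at h3
  have h4 := mul_le_mul_of_nonneg_right hy (dot_nonneg U)
  rw [le_div_iff₀ (by positivity)]
  nlinarith

omit c in
lemma num1 {y l a c0 N En t σ K : ℝ} (ha : 0 ≤ a) (hy : -a ≤ y) (c0p : 0 < c0) (cy : c0 ≤ y + l)
    (hK : K = 1 + a / c0) (N0 : 0 ≤ N) (En0 : 0 ≤ En) (s1 : σ ≤ 1) (g1 : y * N + En = t)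
    (g2 : l * N ≤ En) (g3 : 0 ≤ (y + l) * ((y + l) * N - t) - ((y + l) * t - σ)) :
    (y + l) * N ≤ 1 / c0 ∧ (y + l) * En ≤ K ∧ En ≤ K / c0 ∧ N ≤ 1 / c0 ^ 2 := by
  have c1 := c0p.le.trans cy
  have k0 := mul_le_mul_of_nonneg_left (show (y + l) * N ≤ t by linarith) c1
  have k1 : (y + l) * t ≤ 1 := by linarith
  have k2 := mul_le_mul_of_nonneg_right cy (mul_nonneg c1 N0)
  have k3 : (y + l) * N ≤ 1 / c0 := by rw [le_div_iff₀ c0p]; linarith
  have k4 : (y + l) * En ≤ K := by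
    have h1 := mul_le_mul_of_nonneg_left k3 ha
    have h2 := mul_le_mul_of_nonneg_right hy (mul_nonneg c1 N0)
    have h3 : (y + l) * En = (y + l) * t - y * ((y + l) * N) := by rw [← g1]; ring
    rw [hK, div_eq_mul_one_div a]
    linarith
  refine ⟨k3, k4, ?_, ?_⟩
  · rw [le_div_iff₀ c0p]; linarith [mul_le_mul_of_nonneg_left cy En0]
  · rw [le_div_iff₀ (by positivity)]
    linarith [mul_le_mul_of_nonneg_left (mul_le_mul_of_nonneg_right cy N0) c0p.le]

omit c in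
lemma num2 {x l c0 N En K D γ2 α G1 R S T m E : ℝ} (l0 : 0 < l) (c0p : 0 < c0) (cy : c0 ≤ x)
    (K0 : 0 ≤ K) (D0 : 0 ≤ D) (γ0 : 0 ≤ γ2) (α0 : 0 ≤ α) (R0 : 0 ≤ R) (k3 : x * N ≤ 1 / c0)
    (k4 : x * En ≤ K) (k5 : En ≤ K / c0) (k6 : N ≤ 1 / c0 ^ 2) (k7 : G1 ≤ En / l)
    (k8 : T ≤ γ2 / (4 * c0) * (K / c0) / l) (p1 : (D + 1 + 1) * R ≤ 2 * G1 + 2 * (γ2 * N))
    (p3 : (D + 1) * S ≤ 4 * T + 8 * (γ2 * G1) + 16 * (γ2 * (γ2 * N))) (up : E ≤ R + α * S) :
    (x * (R - m * m) + E) * (D + 1) ≤ (1 + 1 / c0) * (2 * K / l + 2 * γ2 / c0) +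
      α * (4 * (γ2 / (4 * c0) * (K / c0) / l) + 12 * γ2 * (K / c0 / l) + 32 * γ2 ^ 2 / c0 ^ 2) := by
  have c1 := c0p.le.trans cy
  have f1 : x * ((D + 1) * R) ≤ 2 * K / l + 2 * γ2 / c0 := by
    have b1 : x * G1 ≤ K / l :=
      (mul_le_mul_of_nonneg_left k7 c1).trans (by
        rw [← mul_div_assoc]; exact div_le_div_of_nonneg_right k4 l0.le)
    have b2 := mul_le_mul_of_nonneg_left k3 γ0
    have b3 := mul_le_mul_of_nonneg_left (show (D + 1) * R ≤ 2 * G1 + 2 * (γ2 * N) by linarith) c1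
    rw [mul_div_assoc 2 K, div_eq_mul_one_div (2 * γ2)]
    linarith
  have f2 : (D + 1) * R ≤ 1 / c0 * (2 * K / l + 2 * γ2 / c0) := by
    rw [one_div_mul_eq_div, le_div_iff₀ c0p]
    linarith [mul_le_mul_of_nonneg_right cy (show 0 ≤ (D + 1) * R by positivity)]
  have f3 : (D + 1) * S ≤
      4 * (γ2 / (4 * c0) * (K / c0) / l) + 12 * γ2 * (K / c0 / l) + 32 * γ2 ^ 2 / c0 ^ 2 := by
    have b1 := mul_le_mul_of_nonneg_left (k7.trans (div_le_div_of_nonneg_right k5 l0.le)) γ0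
    have b2 := mul_le_mul_of_nonneg_left k6 (mul_nonneg γ0 γ0)
    have b3 : 0 ≤ γ2 * (K / c0 / l) := by positivity
    have b4 : 0 ≤ γ2 * γ2 * (1 / c0 ^ 2) := by positivity
    rw [div_eq_mul_one_div (32 * _)]
    linarith
  have f4 := mul_le_mul_of_nonneg_left f3 α0
  have f5 := mul_le_mul_of_nonneg_left up (show 0 ≤ D + 1 by positivity)
  have f6 := mul_nonneg (mul_nonneg c1 (show 0 ≤ D + 1 by positivity)) (mul_self_nonneg m)
  linarith

end Fix20

set_option maxHeartbeats 800000 in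
open Fix20 in
theorem fixGlue : FixGlue := by
  intro c p sp e l a ha hal co
  have l0 : 0 < l := by linarith
  obtain ⟨c0, hc0, c0p⟩ : ∃ c0, c0 = l - a ∧ 0 < c0 := ⟨_, rfl, by linarith⟩
  obtain ⟨γ2, hγ, γ0⟩ : ∃ γ2, γ2 = e.b.g ⬝ᵥ e.b.g ∧ 0 ≤ γ2 := ⟨_, rfl, dot_nonneg _⟩
  obtain ⟨α, hα, α0⟩ : ∃ α, α = ∑ i, ∑ j, |e.b.A i j| ∧ 0 ≤ α := ⟨_, rfl, by positivity⟩
  obtain ⟨K, hK, K0⟩ : ∃ K, K = 1 + a / c0 ∧ 0 ≤ K := ⟨_, rfl, by positivity⟩
  refine ⟨(1 + 1 / c0) * (2 * K / l + 2 * γ2 / c0) +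
    α * (4 * (γ2 / (4 * c0) * (K / c0) / l) + 12 * γ2 * (K / c0 / l) + 32 * γ2 ^ 2 / c0 ^ 2),
    by positivity, fun D hD ξ y hy φ hφ η hη u hu => ?_⟩
  obtain ⟨D, rfl⟩ : ∃ D', D = D' + 1 := ⟨D - 1, by omega⟩
  obtain ⟨orth, n, f, μ, ψ, U, hf, hon, hd, hb⟩ := sp e.b l co D ξ y (by linarith) φ hφ u hu
  have ok := c.ok e.b ξ
  set γ := (imS e.b ξ).En (sS _) φ with hγd
  set En := (imS e.b ξ).En φ φ with hEn
  have cy : c0 ≤ y + l := by linarith
  have η0 : 0 ≤ η := by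
    obtain ⟨r, hr⟩ := solve e.b co.1 (a := -(y + l)) (by linarith) e.b.g
    refine le_trans ?_ (hη _ le_rfl r (by rw [hr, neg_smul, neg_add_cancel_right]))
    exact add_nonneg (mul_nonneg (by linarith) (dot_nonneg _))
      (by simpa using e.bt.psd.dotProduct_mulVec_nonneg (e.w r))
  refine ⟨fun j => by
    simp only [hd, map_add, map_sum, map_smul, (hf _).2.1, mul_zero, sum_const_zero, add_zero,
      Algebra.algebraMap_eq_smul_one, c.ex1, smul_eq_mul, mul_one], ?_⟩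
  set r := y • φ + gen e.b ξ φ - stS _ ξ with hr
  set r2 := ∑ i, ψ i • (pull e.ι (f i) * linS _ (e.w (U i))) with hr2
  have m2 : Mf e.bt ξ (y + l) r2 ≤ En * η := by
    have : Mf e.bt ξ (y + l) r2 = ∑ i, ψ i ^ 2 * e.res (y + μ i + l) (U i) := by
      simp only [Mf_eq, hr2, map_sum, map_smul, LinearMap.sum_apply, LinearMap.smul_apply,
        smul_eq_mul, prod c e ξ _ (w_orth e _) (w_orth e _), hon, mul_ite, mul_one, mul_zero,
        ite_add_ite, add_zero, sum_ite_eq', mem_univ, if_true]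
      exact sum_congr rfl fun i _ => by rw [Ext.res]; ring
    rw [this]
    refine (sum_le_sum fun i _ => mul_le_mul_of_nonneg_left
      (hη (y + μ i) (by linarith [(hf i).2.2.1]) _ (hf i).2.2.2) (sq_nonneg _)).trans ?_
    rw [← sum_mul]
    exact mul_le_mul_of_nonneg_right (by linarith [sq_nonneg γ]) η0
  refine ⟨pull e.ι r, r2, ?_, ?_, m2, ?_⟩
  · have e1 : pull e.ι (stS _ ξ) = stS _ ξ := rfl
    rw [c.p_gen, hr, map_sub, map_add, map_smul, e1, hr2]
    simp only [hd, map_add, map_sum, map_smul, Algebra.algebraMap_eq_smul_one, map_one, add_mul,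
      sum_mul, smul_mul_assoc, one_mul, sum_add_distrib, mul_smul]
    rw [← w_sum e u, sum_comm]
    simp only [← fun i => w_sum e (U i), map_sum, map_smul, smul_sum, mul_sum, mul_smul_comm]
    abel
  · -- (E1)
    set N := exS e.b ξ (φ * φ) with hN
    have N0 : 0 ≤ N := sq_nn c φ
    have eN : (imS e.b ξ).N φ φ = N := by rw [c.N, hφ.2.1, mul_zero, sub_zero]
    have g1 := hφ.2.2 φ hφ.1
    have g2 := co.2 ξ _ φ hφ.1
    have g3 := ok.pN ((y + l) • φ - sS _)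
    simp only [map_sub, map_smul, LinearMap.sub_apply, LinearMap.smul_apply, smul_eq_mul, c.Ns,
      ok.sN φ (sS _)] at g3
    rw [eN] at g1 g2 g3
    rw [← hEn] at g1 g2
    obtain ⟨k3, k4, k5, k6⟩ := num1 ha hy c0p cy hK N0 (ok.pE φ) (sech2_le ξ) g1 g2 g3
    set G1 := ∑ k, exS e.b ξ (dd k φ * dd k φ) with hG1
    have k7 : G1 ≤ En / l := by rw [le_div_iff₀ l0, mul_comm]; exact en_low c co.1 φ
    have gg : ∑ k, e.b.g k ^ 2 = γ2 := by simp only [hγ, dotProduct, sq]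
    have k8 : ∑ j, ∑ k, exS e.b ξ (dd k (dd j φ) * dd k (dd j φ)) ≤ γ2 / (4 * c0) * (K / c0) / l := by
      rw [le_div_iff₀ l0, mul_comm, mul_sum]
      refine (sum_le_sum fun j _ => en_low c co.1 (dd j φ)).trans ?_
      have : ∀ j, (imS e.b ξ).En (dd j φ) (dd j φ) = ∑ i, ψ i ^ 2 * (μ i * (U i j * U i j)) := fun j => by
        simp only [hd, map_add, map_sum, map_smul, LinearMap.add_apply, LinearMap.sum_apply,
          LinearMap.smul_apply, smul_eq_mul, Algebra.algebraMap_eq_smul_one, en_one c,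
          ok.sE _ (1 : SV e.b.m), hon, mul_ite, mul_zero, sum_ite_eq', mem_univ, if_true,
          zero_add, sum_const_zero]
        exact sum_congr rfl fun i _ => by ring
      simp only [this]
      rw [sum_comm]
      simp only [← mul_sum]
      refine (sum_le_sum fun i _ => mul_le_mul_of_nonneg_left
        (U_le co.1 c0p cy (hf i).2.2.2) (sq_nonneg _)).trans ?_
      rw [← sum_mul, ← hγ, mul_comm]
      exact mul_le_mul_of_nonneg_left (by linarith [sq_nonneg γ]) (by positivity)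
    have mem : r - rsS e.b ξ φ ∈ PolS e.b.m (D + 1) := by
      have : r - rsS e.b ξ φ = y • φ + ouS e.b φ - (sS _ * 1 - tanh ξ • 1) := by
        rw [hr, gen, LinearMap.add_apply, stS, Algebra.algebraMap_eq_smul_one, mul_one]; abel
      rw [this]
      exact sub_mem (add_mem (Submodule.smul_mem _ _ hφ.1) (p.ou _ hφ.1))
        (sub_mem (p.s (p.one _ _)) (Submodule.smul_mem _ _ (p.one _ _)))
    have p1 := pyth c p orth mem
    have p2 := fun j => pyth c p (orth_d c p orth j) (H := dd j (rsS e.b ξ φ))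
      (by rw [← map_sub]; exact p.d j mem)
    have q1 : ∑ k, exS e.b ξ (dd k (rsS e.b ξ φ) * dd k (rsS e.b ξ φ)) ≤ 2 * G1 + 2 * (γ2 * N) := by
      rw [← gg, hG1, sum_mul, mul_sum, mul_sum, ← sum_add_distrib]
      refine sum_le_sum fun k _ => ?_
      rw [c.drs]
      refine (sq_sub c _ _ _).trans ?_
      have := mul_le_mul_of_nonneg_left (psi_le' c (ξ := ξ) φ) (sq_nonneg (e.b.g k))
      linarith [c.rs_le e.b ξ (dd k φ)]
    have q2 : ∑ j, ∑ k, exS e.b ξ (dd k (dd j (rsS e.b ξ φ)) * dd k (dd j (rsS e.b ξ φ))) ≤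
        4 * ∑ j, ∑ k, exS e.b ξ (dd k (dd j φ) * dd k (dd j φ)) + 8 * (γ2 * G1) +
          16 * (γ2 * (γ2 * N)) := by
      have : ∀ j k, exS e.b ξ (dd k (dd j (rsS e.b ξ φ)) * dd k (dd j (rsS e.b ξ φ))) ≤
          4 * exS e.b ξ (dd k (dd j φ) * dd k (dd j φ)) +
          4 * (e.b.g k ^ 2 * exS e.b ξ (dd j φ * dd j φ)) +
          4 * (e.b.g j ^ 2 * exS e.b ξ (dd k φ * dd k φ)) +
          16 * (e.b.g j ^ 2 * (e.b.g k ^ 2 * N)) := fun j k => by
        rw [c.drs, map_sub, map_smul, c.drs, c.dpsi]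
        refine (sq_sub c _ _ _).trans ?_
        have a1 := sq_sub c (ξ := ξ) (rsS e.b ξ (dd k (dd j φ))) (psi e.b ξ (dd j φ)) (e.b.g k)
        have a2 := mul_le_mul_of_nonneg_left (sq_sub c (ξ := ξ) (psi e.b ξ (dd k φ))
          (tS e.b ξ * psi e.b ξ φ) (2 * e.b.g k)) (sq_nonneg (e.b.g j))
        have a3 := c.rs_le e.b ξ (dd k (dd j φ))
        have a4 := mul_le_mul_of_nonneg_left (psi_le' c (ξ := ξ) (dd j φ)) (sq_nonneg (e.b.g k))
        have a5 := mul_le_mul_of_nonneg_left (psi_le' c (ξ := ξ) (dd k φ)) (sq_nonneg (e.b.g j))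
        have a6 := mul_le_mul_of_nonneg_left (mul_le_mul_of_nonneg_left
          ((c.t_le e.b ξ (psi e.b ξ φ)).trans (psi_le' c (ξ := ξ) φ)) (sq_nonneg (e.b.g k)))
          (sq_nonneg (e.b.g j))
        linarith
      refine (sum_le_sum fun j _ => sum_le_sum fun k _ => this j k).trans (le_of_eq ?_)
      simp only [sum_add_distrib, ← mul_sum, ← sum_mul, gg, ← hG1]
      ring
    have R0 : 0 ≤ exS e.b ξ (r * r) := sq_nn c r
    have up := en_up c (ξ := ξ) r
    have p3 := (sum_le_sum fun j (_ : j ∈ univ) => p2 j).trans q2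
    rw [← mul_sum] at p3
    rw [Mf, c.p_N, c.p_En, c.N, le_div_iff₀ (by positivity)]
    rw [← hα] at up
    push_cast at p1 ⊢
    exact num2 l0 c0p cy K0 (Nat.cast_nonneg D) γ0 α0 R0 k3 k4 k5 k6 k7 k8 (p1.trans q1) p3 up
  · have e1 : linS _ (e.w u) = pull e.ι 1 * linS _ (e.w u) := by rw [map_one, one_mul]
    have z1 : Bf e.bt ξ (y + l) (linS _ (e.w u)) r2 = 0 := by
      rw [e1]
      simp only [hr2, map_sum, map_smul, prod c e ξ _ (w_orth e _) (w_orth e _), one_mul, (hf _).2.1,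
        en_one c, mul_zero, add_zero, smul_zero, sum_const_zero]
    have z2 : Bf e.bt ξ (y + l) r2 (linS _ (e.w u)) = 0 := by
      rw [e1]
      simp only [hr2, map_sum, map_smul, LinearMap.sum_apply, LinearMap.smul_apply,
        prod c e ξ _ (w_orth e _) (w_orth e _), mul_one, (hf _).2.1, ok.sE _ (1 : SV e.b.m),
        en_one c, mul_zero, add_zero, smul_zero, sum_const_zero]
    have z3 : Bf e.bt ξ (y + l) (linS _ (e.w u)) (linS _ (e.w u)) = e.res (y + l) u := by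
      rw [e1, prod c e ξ _ (w_orth e _) (w_orth e _), en_one c, mul_one, c.ex1, Ext.res]; ring
    rw [Mf_eq] at m2 ⊢
    simp only [map_add, map_smul, LinearMap.add_apply, LinearMap.smul_apply, smul_eq_mul, z1, z2, z3]
    linarith

end Crest.Agent.T157.Tw
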