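import Crest.Agent.T157.LcDef_30

/-!
# Row 157, block B/S4c (helper44): Galerkin solutions and the response of degree `D`
-/

set_option autoImplicit false

noncomputable section

namespace Crest.Agent.T157.Tw

open MeasureTheory Real Matrix Set

namespace Gal44

lemma basis_of_fg {V : Type} [AddCommGroup V] [Module ℝ V] {S : Submodule ℝ V} (h : S.FG) :
    ∃ (n : ℕ) (e : Fin n → V), (∀ i, e i ∈ S) ∧ (∀ v : Fin n → ℝ, ∑ i, v i • e i = 0 → v = 0) ∧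
      ∀ φ ψ : V →ₗ[ℝ] ℝ, (∀ i, φ (e i) = ψ (e i)) → ∀ P ∈ S, φ P = ψ P := by
  haveI : Module.Finite ℝ S := Module.Finite.iff_fg.2 h
  have e := Module.finBasis ℝ S
  refine ⟨_, fun i => e i, fun i => (e i).2, fun v hv => funext
    (Fintype.linearIndependent_iff.1 e.linearIndependent v (Subtype.ext (by simpa using hv))),
    fun φ ψ H P hP => ?_⟩
  exact LinearMap.congr_fun (e.ext (f₁ := φ ∘ₗ S.subtype) (f₂ := ψ ∘ₗ S.subtype) H) ⟨P, hP⟩

variable (c : Cal) (p : PolApi) (f : FamApi) {b : Bath} {l y : ℝ} {D : ℕ}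

/-- the form `y N + En + E ⊗ E` -/
def Bf (b : Bath) (ξ y : ℝ) : SV b.m →ₗ[ℝ] SV b.m →ₗ[ℝ] ℝ :=
  y • (imS b ξ).N + (imS b ξ).En + (LinearMap.mul ℝ ℝ).compl₁₂ (exS b ξ) (exS b ξ)

lemma Bf_apply (ξ : ℝ) (F G : SV b.m) : Bf b ξ y F G =
    y * (imS b ξ).N F G + (imS b ξ).En F G + exS b ξ F * exS b ξ G := rfl

include c in
lemma mf_nonneg (h : Coer b l) (hy : -l < y) (ξ : ℝ) {F : SV b.m} (hF : F ∈ PolS b.m D) :
    0 ≤ Mf b ξ y F := by
  have h1 := h.2 ξ D F hF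
  have h2 := (c.ok b ξ).pN F
  unfold Mf
  nlinarith

include c in
lemma defn (h : Coer b l) (hy : -l < y) (ξ : ℝ) {F : SV b.m} (hF : F ∈ PolS b.m D)
    (h0 : Bf b ξ y F F = 0) : F = 0 := by
  have h1 := h.2 ξ D F hF
  have h2 := (c.ok b ξ).pN F
  have h3 := c.N b ξ F F
  have h4 := mul_self_nonneg (exS b ξ F)
  rw [Bf_apply] at h0
  have h5 : (imS b ξ).N F F = 0 :=
    le_antisymm (le_of_mul_le_mul_left (by nlinarith) (by linarith : 0 < y + l)) h2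
  refine c.defn b ξ F ?_
  rw [h5] at h0 h1 h3
  linarith

include c in
lemma N_one (ξ : ℝ) (F : SV b.m) : (imS b ξ).N F 1 = 0 := by
  rw [c.N, c.ex1, mul_one, mul_one, sub_self]

include c in
lemma En_one (ξ : ℝ) (F : SV b.m) : (imS b ξ).En F 1 = 0 := by
  have : rsS b ξ 1 = 0 := by simp [rsS]
  simp [c.En, this, c.done]

include p in
lemma s_mem (m D : ℕ) : sS m ∈ PolS m D := by simpa using p.s (p.one m D)

include f in
lemma cont {F G : SV b.m} (hF : F ∈ PolS b.m D) (hG : G ∈ PolS b.m D) :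
    (Continuous fun ξ => (imS b ξ).N F G) ∧ (Continuous fun ξ => (imS b ξ).En F G) ∧
      Continuous fun ξ => exS b ξ F :=
  have h1 := f.le b (f.cst hF)
  have h2 := f.le b (f.cst hG)
  ⟨(f.N b _ h1 _ h2).1, (f.En b _ h1 _ h2).1, (f.ex b _ h1).1⟩

include c p f in
theorem exi (h : Coer b l) (hy : -l < y) : ∃ (n : ℕ) (P : Fin n → SV b.m) (c : Fin n → ℝ → ℝ),
    (∀ i, P i ∈ PolS b.m D ∧ Continuous (c i)) ∧ ∀ ξ, Gal b ξ y D (∑ i, c i ξ • P i) := by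
  obtain ⟨n, e, he, li, ext⟩ := basis_of_fg (p.fg b.m D)
  obtain ⟨M, hM⟩ : ∃ M : ℝ → Matrix (Fin n) (Fin n) ℝ, ∀ ξ i j, M ξ i j = Bf b ξ y (e j) (e i) :=
    ⟨fun ξ => Matrix.of _, fun _ _ _ => rfl⟩
  have mem : ∀ v : Fin n → ℝ, ∑ i, v i • e i ∈ PolS b.m D := fun v =>
    sum_mem fun i _ => Submodule.smul_mem _ _ (he i)
  have row : ∀ ξ (v : Fin n → ℝ) i, (M ξ *ᵥ v) i = Bf b ξ y (∑ j, v j • e j) (e i) := by
    intro ξ v i
    simp [mulVec, dotProduct, hM, mul_comm]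
  have cM : Continuous M := continuous_matrix fun i j => by
    simp only [hM, Bf_apply]
    exact ((continuous_const.mul (cont f (he j) (he i)).1).add (cont f (he j) (he i)).2.1).add
      ((cont f (he j) (he i)).2.2.mul (cont f (he i) (he i)).2.2)
  have dM : ∀ ξ, (M ξ).det ≠ 0 := fun ξ h0 => by
    obtain ⟨v, hv, h1⟩ := exists_mulVec_eq_zero_iff.2 h0
    exact hv (li v (defn c h hy ξ (mem v) (ext _ 0 (fun i => by rw [← row, h1]; rfl) _ (mem v))))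
  have cr : Continuous fun ξ i => (imS b ξ).N (sS _) (e i) :=
    continuous_pi fun i => (cont f (s_mem p _ D) (he i)).1
  obtain ⟨v, hv, cv⟩ : ∃ v : ℝ → Fin n → ℝ, (∀ ξ, M ξ *ᵥ v ξ = fun i => (imS b ξ).N (sS _) (e i)) ∧
      Continuous v := by
    refine ⟨fun ξ => ((M ξ).det)⁻¹ • ((M ξ).adjugate *ᵥ fun i => (imS b ξ).N (sS _) (e i)),
      fun ξ => ?_, (cM.matrix_det.inv₀ dM).smul (cM.matrix_adjugate.matrix_mulVec cr)⟩
    rw [mulVec_smul, mulVec_mulVec, mul_adjugate, smul_mulVec, one_mulVec, smul_smul,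
      inv_mul_cancel₀ (dM ξ), one_smul]
  refine ⟨n, e, fun i ξ => v ξ i, fun i => ⟨he i, (continuous_apply i).comp cv⟩,
    fun ξ => ?_⟩
  have key := ext (Bf b ξ y (∑ j, v ξ j • e j)) ((imS b ξ).N (sS _))
    fun i => by rw [← row, hv]
  have h0 : exS b ξ (∑ j, v ξ j • e j) = 0 := by
    have := key 1 (p.one _ _)
    rwa [Bf_apply, N_one c, N_one c, En_one c, c.ex1, mul_zero, add_zero, zero_add, mul_one] at this
  refine ⟨mem _, h0, fun P hP => ?_⟩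
  have := key P hP
  rwa [Bf_apply, h0, zero_mul, add_zero] at this

include c in
lemma expand {ξ : ℝ} {φ : SV b.m} (g : Gal b ξ y D φ) {P : SV b.m} (hP : P ∈ PolS b.m D) :
    Jf b ξ y P = Jf b ξ y φ + Mf b ξ y (P - φ) := by
  have h1 := g.2.2 P hP
  have h2 := g.2.2 φ g.1
  simp only [Jf, Mf, map_sub, LinearMap.sub_apply, (c.ok b ξ).sN P φ, (c.ok b ξ).sE P φ]
  linear_combination 2 * h1 - 2 * h2

include c p in
lemma gam_eq (h : Coer b l) (hy : -l < y) {ξ : ℝ} {φ : SV b.m} (g : Gal b ξ y D φ) :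
    gamD b (-y) D ξ = (imS b ξ).En (sS _) φ := by
  have h1 : IsGreatest {r | ∃ F ∈ PolS b.m D, r = -Jf b ξ y F} (-Jf b ξ y φ) := by
    refine ⟨⟨φ, g.1, rfl⟩, ?_⟩
    rintro _ ⟨F, hF, rfl⟩
    linarith [expand c g hF, mf_nonneg c h hy ξ (sub_mem hF g.1)]
  have h2 := g.2.2 φ g.1
  have h3 := g.2.2 _ (s_mem p _ D)
  rw [c.Ns, (c.ok b ξ).sN, (c.ok b ξ).sE] at h3
  rw [gamD, neg_neg, h1.csSup_eq, Jf, Mf, h2]
  linear_combination -h3

include f in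
lemma refl_sub (ξ : ℝ) : {r | ∃ F ∈ PolS b.m D, r = -Jf b ξ y F} ⊆
    {r | ∃ F ∈ PolS b.m D, r = -Jf b (-ξ) y F} := by
  obtain ⟨ρ, h1, h2, -, h3⟩ := f.refl b.m
  rintro _ ⟨F, hF, rfl⟩
  have hs : ρ (sS _) = -sS _ := Subtype.ext (funext fun s => funext fun X => by
    rw [h1]; cases s <;> simp [sS, sg])
  have a1 : (imS b (-ξ)).N (ρ F) (ρ F) = _ := (h3 b.A b.g b.psd ξ F F).2.1
  have a2 : (imS b (-ξ)).En (ρ F) (ρ F) = _ := (h3 b.A b.g b.psd ξ F F).2.2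
  have a3 : (imS b (-ξ)).N (ρ (sS _)) (ρ F) = _ := (h3 b.A b.g b.psd ξ (sS _) F).2.1
  refine ⟨-ρ F, neg_mem (h2 D F hF), ?_⟩
  rw [hs, map_neg, LinearMap.neg_apply] at a3
  simp only [Jf, Mf, map_neg, LinearMap.neg_apply, neg_neg, a1, a2, a3]

end Gal44

open Gal44

theorem galGlue : GalGlue := fun c p f => by
  refine ⟨fun b l h D y hy => ⟨exi c p f h hy, fun ξ φ g =>
    ⟨gam_eq c p h hy g, fun P hP => expand c g hP⟩⟩, fun b l a G ha hl h R D => ⟨?_, fun ξ => ?_⟩⟩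
  · obtain ⟨n, P, v, hP, g⟩ := exi c p f (D := D) h (neg_lt_neg hl)
    have : gamD b a D = fun ξ => ∑ i, v i ξ * (imS b ξ).En (sS _) (P i) := funext fun ξ => by
      simpa using gam_eq c p h (neg_lt_neg hl) (g ξ)
    rw [this]
    exact continuous_finsetSum _ fun i _ => (hP i).2.mul (cont f (s_mem p _ D) (hP i).1).2.1
  · have h0 : (0 : ℝ) ∈ {r | ∃ F ∈ PolS b.m D, r = -Jf b ξ (-a) F} :=
      ⟨0, zero_mem _, by simp [Jf, Mf]⟩
    have h1 : sSup {r | ∃ F ∈ PolS b.m D, r = -Jf b ξ (-a) F} ≤ sech2 ξ * G :=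
      csSup_le ⟨0, h0⟩ (by rintro _ ⟨F, hF, rfl⟩; exact R ξ D F hF _ le_rfl (by linarith))
    refine ⟨?_, le_add_of_nonneg_right (mul_nonneg ha (Real.sSup_nonneg' ⟨0, h0, le_rfl⟩)), ?_⟩
    · have := refl_sub f (b := b) (D := D) (y := -a) (-ξ)
      rw [neg_neg] at this
      rw [gamD, gamD, this.antisymm (refl_sub f ξ), sech2, sech2, cosh_neg]
    · unfold gamD
      linarith [mul_le_mul_of_nonneg_left h1 ha]

end Crest.Agent.T157.Tw

end
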