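import Crest.Agent.T157.LcDef_30

/-!
# Row 157, block B/S4b (helper67): `OneGlue`, the contraction
-/

set_option autoImplicit false

noncomputable section

namespace Crest.Agent.T157.Tw

open MeasureTheory Real Matrix Set

namespace One67

section abs
variable {V : Type} [AddCommGroup V] [Module ℝ V]

lemma cs {B : V →ₗ[ℝ] V →ₗ[ℝ] ℝ} (hs : ∀ u v, B u v = B v u) (hp : ∀ u, 0 ≤ B u u) (u v : V) :
    B u v ^ 2 ≤ B u u * B v v := by
  have h := discrim_le_zero (a := B v v) (b := 2 * B u v) (c := B u u) fun t => by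
    have := hp (u + t • v)
    simp only [map_add, map_smul, LinearMap.add_apply, LinearMap.smul_apply, smul_eq_mul,
      hs v u] at this
    nlinarith
  unfold discrim at h
  nlinarith

lemma split {B : V →ₗ[ℝ] V →ₗ[ℝ] ℝ} (hs : ∀ u v, B u v = B v u) (hp : ∀ u, 0 ≤ B u u) {ε : ℝ}
    (hε : 0 < ε) (u v : V) : B (u + v) (u + v) ≤ (1 + ε) * B u u + (1 + 1 / ε) * B v v := by
  have := hp (ε • u - v)
  simp only [map_sub, map_add, map_smul, LinearMap.add_apply, LinearMap.sub_apply,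
    LinearMap.smul_apply, smul_eq_mul, hs v u] at this ⊢
  have h2 : 2 * B u v ≤ ε * B u u + 1 / ε * B v v := by
    have e : ε * B u u + 1 / ε * B v v - 2 * B u v =
        (ε * (ε * B u u - B u v) - (ε * B u v - B v v)) / ε := by field_simp; ring
    have : 0 ≤ (ε * (ε * B u u - B u v) - (ε * B u v - B v v)) / ε := div_nonneg this hε.le
    linarith
  linarith

/-- linear combination of families -/
def Ph {k : ℕ} (f : Fin k → ℝ → V) (u : Fin k → ℝ) (ξ : ℝ) : V := ∑ l, u l • f l ξ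

lemma Ph_add {k : ℕ} (f : Fin k → ℝ → V) (u w : Fin k → ℝ) (ξ : ℝ) :
    Ph f (u + w) ξ = Ph f u ξ + Ph f w ξ := by
  simp [Ph, add_smul, Finset.sum_add_distrib]

lemma Ph_sub {k : ℕ} (f : Fin k → ℝ → V) (u w : Fin k → ℝ) (ξ : ℝ) :
    Ph f (u - w) ξ = Ph f u ξ - Ph f w ξ := by
  simp [Ph, sub_smul, Finset.sum_sub_distrib]

lemma Ph_smul {k : ℕ} (f : Fin k → ℝ → V) (t : ℝ) (u : Fin k → ℝ) (ξ : ℝ) :
    Ph f (t • u) ξ = t • Ph f u ξ := by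
  simp [Ph, Finset.smul_sum, mul_smul]

lemma Ph_mat {k n : ℕ} (f : Fin k → ℝ → V) (M : Matrix (Fin k) (Fin n) ℝ) (u : Fin n → ℝ)
    (ξ : ℝ) : ∑ l, u l • ∑ j, M j l • f j ξ = Ph f (M *ᵥ u) ξ := by
  simp only [Ph, Finset.smul_sum, mulVec, dotProduct, Finset.sum_smul, smul_smul]
  rw [Finset.sum_comm]
  simp only [mul_comm]

lemma int1 (ν : Measure ℝ) (B : ℝ → V →ₗ[ℝ] ℝ) {k : ℕ} (f : Fin k → ℝ → V)
    (hi : ∀ j, Integrable (fun ξ => B ξ (f j ξ)) ν) (w : Fin k → ℝ) :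
    ∫ ξ, B ξ (Ph f w ξ) ∂ν = ∑ j, w j * ∫ ξ, B ξ (f j ξ) ∂ν := by
  simp only [Ph, map_sum, map_smul, smul_eq_mul]
  rw [integral_finsetSum _ fun j _ => (hi j).const_mul _]
  simp only [integral_const_mul]

lemma int2 (ν : Measure ℝ) (B : ℝ → V →ₗ[ℝ] V →ₗ[ℝ] ℝ) {k : ℕ} (f : Fin k → ℝ → V)
    (hi : ∀ i j, Integrable (fun ξ => B ξ (f i ξ) (f j ξ)) ν) (w w' : Fin k → ℝ) :
    ∫ ξ, B ξ (Ph f w ξ) (Ph f w' ξ) ∂ν =
      w ⬝ᵥ (of fun i j => ∫ ξ, B ξ (f i ξ) (f j ξ) ∂ν) *ᵥ w' := by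
  have e : ∀ ξ, B ξ (Ph f w ξ) (Ph f w' ξ) = ∑ i, ∑ j, w i * w' j * B ξ (f i ξ) (f j ξ) := by
    intro ξ
    simp only [Ph, map_sum, map_smul, LinearMap.sum_apply, LinearMap.smul_apply, smul_eq_mul,
      Finset.mul_sum]
    rw [Finset.sum_comm]
    exact Finset.sum_congr rfl fun i _ => Finset.sum_congr rfl fun j _ => by ring
  simp only [e]
  rw [integral_finsetSum _ fun i _ => integrable_finsetSum _ fun j _ => (hi i j).const_mul _]
  simp only [dotProduct, mulVec, of_apply, Finset.mul_sum]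
  refine Finset.sum_congr rfl fun i _ => ?_
  rw [integral_finsetSum _ fun j _ => (hi i j).const_mul _]
  exact Finset.sum_congr rfl fun j _ => by rw [integral_const_mul]; ring

end abs

lemma solve {b : Bath} {l c : ℝ} (h : b.Ge l) (hc : 0 < c + l) :
    ∃ w, b.A *ᵥ w + c • w = b.g := by
  let L : (Fin b.m → ℝ) →ₗ[ℝ] (Fin b.m → ℝ) := b.A.mulVecLin + c • LinearMap.id
  have : Function.Injective L := (injective_iff_map_eq_zero L).2 fun w hw => by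
    have h1 := h w
    have h2 : w ⬝ᵥ (b.A *ᵥ w + c • w) = w ⬝ᵥ 0 := congrArg (fun z => w ⬝ᵥ z) hw
    simp only [dotProduct_add, dotProduct_smul, smul_eq_mul, dotProduct_zero] at h2
    have h3 : 0 ≤ w ⬝ᵥ w := Finset.sum_nonneg fun i _ => mul_self_nonneg _
    exact dotProduct_self_eq_zero.1 (by nlinarith)
  exact LinearMap.injective_iff_surjective.1 this b.g

lemma sech2_pos (ξ : ℝ) : 0 < sech2 ξ := by unfold sech2; have := cosh_pos ξ; positivity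

lemma sech2_le (ξ : ℝ) : sech2 ξ ≤ 1 := by
  unfold sech2
  have := one_le_cosh ξ
  rw [div_le_one (by positivity)]
  nlinarith

lemma mf_smul (b : Bath) (ξ c t : ℝ) (F : SV b.m) : Mf b ξ c (t • F) = t ^ 2 * Mf b ξ c F := by
  simp only [Mf, map_smul, LinearMap.smul_apply, smul_eq_mul]; ring

variable (c : Cal)
include c

lemma mf_split (b : Bath) (ξ : ℝ) {y ε : ℝ} (hy : 0 ≤ y) (hε : 0 < ε) (F G : SV b.m) :
    Mf b ξ y (F + G) ≤ (1 + ε) * Mf b ξ y F + (1 + 1 / ε) * Mf b ξ y G := by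
  have ok := c.ok b ξ
  have h1 := mul_le_mul_of_nonneg_left (split ok.sN ok.pN hε F G) hy
  have h2 := split ok.sE ok.pE hε F G
  simp only [Mf]
  linarith

lemma mf_two (b : Bath) (ξ : ℝ) {y : ℝ} (hy : 0 ≤ y) (F G : SV b.m) :
    Mf b ξ y (F + G) ≤ 2 * Mf b ξ y F + 2 * Mf b ξ y G := by
  have := mf_split c b ξ hy one_pos F G
  norm_num at this
  linarith

lemma N_st (b : Bath) (ξ : ℝ) : (imS b ξ).N (sS _) (stS _ ξ) = sech2 ξ := by
  have h : (imS b ξ).N (sS _) 1 = 0 := by rw [c.N, mul_one, c.ex1]; ring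
  rw [stS, map_sub, c.Ns, Algebra.algebraMap_eq_smul_one, map_smul, h]; simp

/-- the Galerkin solution: response and energy -/
lemma gal_facts (p : PolApi) {b : Bath} {l a G y ξ : ℝ} {D : ℕ} (ha : 0 ≤ a) (hl : a < l)
    (hG : 0 ≤ G) (hC : Coer b l) (hR : Resp b a G) (hy : -a ≤ y) {φ : SV b.m}
    (h : Gal b ξ y D φ) :
    (imS b ξ).En (sS _) φ = sech2 ξ + y * Jf b ξ y φ ∧ (imS b ξ).En (sS _) φ ^ 2 ≤ (1 + a * G) ^ 2 ∧
    (imS b ξ).En φ φ ≤ l / (l - a) ^ 2 ∧ (0 < y → (imS b ξ).En φ φ ≤ 1 / (4 * y)) := by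
  have ok := c.ok b ξ
  have hs : sS b.m ∈ PolS b.m D := by simpa using p.s (p.one b.m D)
  have e1 := h.2.2 _ hs
  have e2 := h.2.2 _ h.1
  have e3 := hC.2 ξ D φ h.1
  have e4 := cs ok.sN ok.pN (sS _) φ
  have e5 := ok.pN φ
  have e6 := ok.pE φ
  rw [c.Ns] at e1 e4
  rw [ok.sN φ, ok.sE φ] at e1
  have hJ : Jf b ξ y φ = -(imS b ξ).N (sS _) φ := by simp only [Jf, Mf]; linarith
  have p0 := sech2_pos ξ
  have p1 := sech2_le ξ
  have hr := fun h0 => hR ξ D φ h.1 y hy h0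
  rw [hJ] at hr ⊢
  set x := (imS b ξ).N (sS _) φ
  set N := (imS b ξ).N φ φ
  set E := (imS b ξ).En φ φ
  set γ := (imS b ξ).En (sS _) φ
  set q := sech2 ξ
  have x0 : 0 ≤ x := by nlinarith
  have hx : x ^ 2 ≤ N := by nlinarith
  have aG : 0 ≤ a * G := mul_nonneg ha hG
  refine ⟨by linarith, ?_, ?_, fun y0 => ?_⟩
  · have : 0 ≤ γ ∧ γ ≤ 1 + a * G := by
      rcases le_or_gt y 0 with y0 | y0
      · have h1 := hr y0
        have h2 : x ≤ G := by nlinarith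
        have h3 : -y * x ≤ a * G := mul_le_mul (by linarith) h2 x0 ha
        have h4 : 0 ≤ -y * x := mul_nonneg (by linarith) x0
        constructor <;> linarith
      · have h1 : 0 ≤ y * x := mul_nonneg y0.le x0
        have h2 : y * x ≤ q := by
          rcases x0.eq_or_lt with h0 | h0
          · rw [← h0]; linarith
          · have h3 : y * x ^ 2 ≤ y * (q * N) := mul_le_mul_of_nonneg_left e4 y0.le
            have h4 : q * (y * N) ≤ q * x := mul_le_mul_of_nonneg_left (by linarith) p0.le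
            exact le_of_mul_le_mul_right (by nlinarith) h0
        constructor <;> linarith
    exact pow_le_pow_left₀ this.1 this.2 2
  · have l0 : 0 < l := by linarith
    have la : 0 < l - a := by linarith
    have h1 : (l - a) * E ≤ l * x := by
      rw [← e2]
      nlinarith [mul_le_mul_of_nonneg_left e3 ha,
        mul_nonneg (by linarith : 0 ≤ y + a) (mul_nonneg l0.le e5)]
    have h2 : ((l - a) * E) ^ 2 ≤ (l * x) ^ 2 := pow_le_pow_left₀ (by positivity) h1 2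
    have h3 : (l * x) ^ 2 ≤ l * E := by
      have : l * (l * x ^ 2) ≤ l * E :=
        mul_le_mul_of_nonneg_left ((mul_le_mul_of_nonneg_left hx l0.le).trans e3) l0.le
      nlinarith
    rw [le_div_iff₀ (by positivity)]
    rcases e6.eq_or_lt with h0 | h0
    · rw [← h0]; linarith
    · exact le_of_mul_le_mul_right (by nlinarith) h0
  · rw [le_div_iff₀ (by positivity)]
    rcases e5.eq_or_lt with h0 | h0
    · have : E = 0 := ok.null φ h0.symm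
      rw [this]; linarith
    · have h1 : 4 * (y * N) * E ≤ x ^ 2 := by rw [← e2]; nlinarith [sq_nonneg (y * N - E)]
      exact le_of_mul_le_mul_right (by nlinarith) h0

/-- the error of a trial function -/
lemma third {e : Ext} {l a C y ξ : ℝ} {D : ℕ} (hl : a < l) (hC : Coer e.b l) (hy : -a ≤ y)
    (hC0 : 0 ≤ C) {ψ : SV e.b.m} (hψ : ψ ∈ PolS e.b.m D)
    (h1 : (imS e.b ξ).En ψ ψ ≤ C * (imS e.b ξ).N ψ ψ)
    (h2 : Mf e.bt ξ 1 (gen e.bt ξ (pull e.ι ψ)) ≤ C * (imS e.b ξ).N ψ ψ) :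
    Mf e.bt ξ (y + l) (y • pull e.ι ψ + gen e.bt ξ (pull e.ι ψ)) ≤
      (2 * (1 + C / (l - a)) + 2 * C * (1 + 1 / (l - a))) * (1 + |y|) ^ 2 * Mf e.b ξ y ψ := by
  have la : 0 < l - a := by linarith
  have yl : l - a ≤ y + l := by linarith
  have h3 := mf_two c e.bt ξ (y := y + l) (by linarith) (y • pull e.ι ψ) (gen e.bt ξ (pull e.ι ψ))
  rw [mf_smul] at h3
  have h4 : Mf e.bt ξ (y + l) (pull e.ι ψ) = (y + l) * (imS e.b ξ).N ψ ψ + (imS e.b ξ).En ψ ψ := by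
    simp only [Mf, c.p_N, c.p_En]
  have h5 := hC.2 ξ D ψ hψ
  have n0 := (c.ok e.b ξ).pN ψ
  have g1 := (c.ok e.bt ξ).pN (gen e.bt ξ (pull e.ι ψ))
  have g2 := (c.ok e.bt ξ).pE (gen e.bt ξ (pull e.ι ψ))
  have h6 : Mf e.bt ξ (y + l) (gen e.bt ξ (pull e.ι ψ)) ≤
      (1 + (y + l)) * (C * (imS e.b ξ).N ψ ψ) := by
    refine le_trans ?_ (mul_le_mul_of_nonneg_left h2 (by linarith))
    simp only [Mf]
    nlinarith [mul_nonneg (by linarith : 0 ≤ y + l) g2]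
  have hM : (y + l) * (imS e.b ξ).N ψ ψ ≤ Mf e.b ξ y ψ := by simp only [Mf]; linarith
  rw [h4] at h3
  set N := (imS e.b ξ).N ψ ψ
  set M := Mf e.b ξ y ψ
  have hN : N ≤ 1 / (l - a) * M := by
    rw [one_div, ← div_eq_inv_mul, le_div_iff₀ la]; nlinarith
  have M0 : 0 ≤ M := le_trans (mul_nonneg (by linarith) n0) hM
  have hCN : C * N ≤ C / (l - a) * M := by
    have := mul_le_mul_of_nonneg_left hN hC0
    rwa [← mul_assoc, mul_one_div] at this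
  have k1 : (y + l) * N + (imS e.b ξ).En ψ ψ ≤ (1 + C / (l - a)) * M := by linarith
  have k2 : (1 + (y + l)) * (C * N) ≤ C * (1 + 1 / (l - a)) * M := by
    have := mul_le_mul_of_nonneg_left (add_le_add hN hM) hC0
    linarith
  have y1 : y ^ 2 ≤ (1 + |y|) ^ 2 := by rw [← sq_abs y]; nlinarith [abs_nonneg y]
  have y2 : 1 ≤ (1 + |y|) ^ 2 := by nlinarith [abs_nonneg y]
  have k0 : 0 ≤ (1 + C / (l - a)) * M := by positivity
  have k0' : 0 ≤ C * (1 + 1 / (l - a)) * M := by positivity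
  have k3 : y ^ 2 * ((y + l) * N + (imS e.b ξ).En ψ ψ) ≤ (1 + |y|) ^ 2 * ((1 + C / (l - a)) * M) :=
    (mul_le_mul_of_nonneg_left k1 (sq_nonneg y)).trans (mul_le_mul_of_nonneg_right y1 k0)
  have k4 : C * (1 + 1 / (l - a)) * M ≤ (1 + |y|) ^ 2 * (C * (1 + 1 / (l - a)) * M) :=
    le_mul_of_one_le_left k0' y2
  linarith

section step
variable (fa : FamApi) {β : ℝ} {ν : Measure ℝ} [IsProbabilityMeasure ν] {D : ℕ} {e e' : Ext}
  {f0 : Fin e'.b.m → ℝ → SV e.b.m} {f : Fin e'.bt.m → ℝ → SV e.bt.m} (st : Step β ν D e e' f0 f)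

omit c in
lemma Ph_mem {m k : ℕ} {S : Subalgebra ℝ (ℝ → SV m)} {f : Fin k → ℝ → SV m} (hf : ∀ l, f l ∈ S)
    (u : Fin k → ℝ) : Ph f u ∈ S := by
  have : Ph f u = ∑ l, u l • f l := by funext ξ; simp [Ph, Finset.sum_apply]
  rw [this]
  exact sum_mem fun l _ => S.smul_mem (hf l) _

omit c in
lemma s_mem (m : ℕ) : (fun _ => sS m) ∈ N0 m := Algebra.subset_adjoin (Or.inl (Or.inr rfl))

include fa st
omit c

lemma big_N (w w' : Fin e'.bt.m → ℝ) :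
    ∫ ξ, (imS e.bt ξ).N (Ph f w ξ) (Ph f w' ξ) ∂ν = w ⬝ᵥ w' := by
  rw [int2 ν (fun ξ => (imS e.bt ξ).N) f fun i j =>
    (fa.N _ _ (st.c1 i).1 _ (st.c1 j).1).2.int ν]
  have : (of fun i j => ∫ ξ, (imS e.bt ξ).N (f i ξ) (f j ξ) ∂ν) = 1 := by
    ext i j; rw [of_apply, one_apply]; exact st.on i j
  rw [this, one_mulVec]

lemma big_E (w w' : Fin e'.bt.m → ℝ) :
    ∫ ξ, (imS e.bt ξ).En (Ph f w ξ) (Ph f w' ξ) ∂ν = w ⬝ᵥ e'.bt.A *ᵥ w' := by
  rw [int2 ν (fun ξ => (imS e.bt ξ).En) f fun i j =>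
    (fa.En _ _ (st.c1 i).1 _ (st.c1 j).1).2.int ν]
  have : (of fun i j => ∫ ξ, (imS e.bt ξ).En (f i ξ) (f j ξ) ∂ν) = e'.bt.A := by
    ext i j; rw [of_apply]; exact st.en i j
  rw [this]

lemma big_s (w : Fin e'.bt.m → ℝ) :
    β * ∫ ξ, (imS e.bt ξ).N (sS _) (Ph f w ξ) ∂ν = e'.bt.g ⬝ᵥ w := by
  rw [int1 ν (fun ξ => (imS e.bt ξ).N (sS _)) f fun j =>
    (fa.N _ _ (fa.le _ (s_mem _)) _ (st.c1 j).1).2.int ν, Finset.mul_sum]
  refine Finset.sum_congr rfl fun j _ => ?_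
  rw [← st.g j, Nb]; ring

lemma big_M (y : ℝ) (w : Fin e'.bt.m → ℝ) :
    Integrable (fun ξ => Mf e.bt ξ y (Ph f w ξ)) ν ∧
    ∫ ξ, Mf e.bt ξ y (Ph f w ξ) ∂ν = y * (w ⬝ᵥ w) + w ⬝ᵥ e'.bt.A *ᵥ w := by
  have hm := Ph_mem (fun l => (st.c1 l).1) w
  have i1 := ((fa.N _ _ hm _ hm).2.int ν).const_mul y
  have i2 := (fa.En _ _ hm _ hm).2.int ν
  refine ⟨i1.add i2, ?_⟩
  simp only [Mf]
  rw [integral_add i1 i2, integral_const_mul, big_N fa st, big_E fa st]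

omit fa [IsProbabilityMeasure ν] in
lemma pull_Ph : ∀ᵐ ξ ∂ν, ∀ u, pull e.ι (Ph f0 u ξ) = Ph f (e'.ι *ᵥ u) ξ := by
  filter_upwards [ae_all_iff.2 st.inc] with ξ h u
  rw [← Ph_mat, Ph, map_sum]
  simp only [map_smul, h]

omit fa [IsProbabilityMeasure ν] in
lemma gen_Ph : ∀ᵐ ξ ∂ν, ∀ u,
    gen e.bt ξ (pull e.ι (Ph f0 u ξ)) = Ph f (e'.bt.A *ᵥ (e'.ι *ᵥ u)) ξ := by
  filter_upwards [ae_all_iff.2 st.cl] with ξ h u
  rw [mulVec_mulVec, ← Ph_mat, Ph, map_sum, map_sum]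
  simp only [map_smul, h]

omit fa st [IsProbabilityMeasure ν] in
lemma iso_dot (e' : Ext) (u v : Fin e'.b.m → ℝ) : (e'.ι *ᵥ u) ⬝ᵥ (e'.ι *ᵥ v) = u ⬝ᵥ v := by
  rw [dotProduct_mulVec, ← mulVec_transpose, mulVec_mulVec, e'.iso, one_mulVec]

include c

lemma small_N (u v : Fin e'.b.m → ℝ) :
    ∫ ξ, (imS e.b ξ).N (Ph f0 u ξ) (Ph f0 v ξ) ∂ν = u ⬝ᵥ v := by
  rw [← iso_dot, ← big_N fa st]
  refine integral_congr_ae ?_
  filter_upwards [pull_Ph st] with ξ h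
  rw [← h, ← h, c.p_N]

lemma small_E (u v : Fin e'.b.m → ℝ) :
    ∫ ξ, (imS e.b ξ).En (Ph f0 u ξ) (Ph f0 v ξ) ∂ν = u ⬝ᵥ e'.b.A *ᵥ v := by
  have : u ⬝ᵥ e'.b.A *ᵥ v = (e'.ι *ᵥ u) ⬝ᵥ e'.bt.A *ᵥ (e'.ι *ᵥ v) := by
    rw [e'.hA, ← mulVec_mulVec, ← mulVec_mulVec, dotProduct_mulVec u, vecMul_transpose]
  rw [this, ← big_E fa st]
  refine integral_congr_ae ?_
  filter_upwards [pull_Ph st] with ξ h
  rw [← h, ← h, c.p_En]

lemma small_s (u : Fin e'.b.m → ℝ) :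
    β * ∫ ξ, (imS e.b ξ).N (sS _) (Ph f0 u ξ) ∂ν = e'.b.g ⬝ᵥ u := by
  rw [← iso_dot, ← e'.hg, ← big_s fa st]
  congr 1
  refine integral_congr_ae ?_
  filter_upwards [pull_Ph st] with ξ h
  rw [← h, ← c.p_N]
  rfl

lemma small_J (y : ℝ) (u : Fin e'.b.m → ℝ) :
    Integrable (fun ξ => Jf e.b ξ y (Ph f0 u ξ)) ν ∧ β * ∫ ξ, Jf e.b ξ y (Ph f0 u ξ) ∂ν =
      β * (y * (u ⬝ᵥ u) + u ⬝ᵥ e'.b.A *ᵥ u) - 2 * (e'.b.g ⬝ᵥ u) := by
  have hm := fa.le _ (Ph_mem (fun l => (st.c0 l).1) u)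
  have i1 := ((fa.N _ _ hm _ hm).2.int ν).const_mul y
  have i2 := (fa.En _ _ hm _ hm).2.int ν
  have i3 := ((fa.N _ _ (fa.le _ (s_mem _)) _ hm).2.int ν).const_mul 2
  have i12 : Integrable (fun ξ => y * (imS e.b ξ).N (Ph f0 u ξ) (Ph f0 u ξ) +
      (imS e.b ξ).En (Ph f0 u ξ) (Ph f0 u ξ)) ν := i1.add i2
  refine ⟨i12.sub i3, ?_⟩
  simp only [Jf, Mf]
  rw [integral_sub i12 i3, integral_add i1 i2, integral_const_mul, integral_const_mul,
    small_N c fa st, small_E c fa st, ← small_s c fa st]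
  ring

omit c fa [IsProbabilityMeasure ν] in
lemma Ph_pol (u : Fin e'.b.m → ℝ) (ξ : ℝ) : Ph f0 u ξ ∈ PolS e.b.m D :=
  Submodule.sum_mem _ fun l _ => Submodule.smul_mem _ _ ((st.c0 l).2.2.2 ξ)

lemma small_pos {l y : ℝ} (hC : Coer e.b l) (hy : 0 ≤ y + l) (u : Fin e'.b.m → ℝ) :
    0 ≤ y * (u ⬝ᵥ u) + u ⬝ᵥ e'.b.A *ᵥ u := by
  have hm := fa.le _ (Ph_mem (fun l => (st.c0 l).1) u)
  have i1 := ((fa.N _ _ hm _ hm).2.int ν).const_mul y
  have i2 := (fa.En _ _ hm _ hm).2.int ν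
  rw [← small_N c fa st, ← small_E c fa st, ← integral_const_mul, ← integral_add i1 i2]
  refine integral_nonneg fun ξ => ?_
  have h1 := hC.2 ξ D _ (Ph_pol st u ξ)
  have h2 := mul_nonneg hy ((c.ok e.b ξ).pN (Ph f0 u ξ))
  simp only [Pi.zero_apply]
  linarith

/-- the Galerkin solution of the next level minimises the averaged functional -/
lemma small_min {l y : ℝ} (hβ : 0 < β) (hC : Coer e.b l) (hy : 0 ≤ y + l) {u : Fin e'.b.m → ℝ}
    (hu : e'.b.A *ᵥ u + y • u = e'.b.g) (x : Fin e'.b.m → ℝ) :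
    β ^ 2 * ∫ ξ, Jf e.b ξ y (Ph f0 (β⁻¹ • u) ξ) ∂ν = -(e'.b.g ⬝ᵥ u) ∧
    ∫ ξ, Jf e.b ξ y (Ph f0 (β⁻¹ • u) ξ) ∂ν ≤ ∫ ξ, Jf e.b ξ y (Ph f0 x ξ) ∂ν := by
  have h1 := (small_J c fa st y (β⁻¹ • u)).2
  have h2 := (small_J c fa st y x).2
  have h3 := small_pos c fa st hC hy (β • x - u)
  have hg : ∀ z, e'.b.g ⬝ᵥ z = z ⬝ᵥ e'.b.A *ᵥ u + y * (z ⬝ᵥ u) := fun z => by
    rw [← hu, dotProduct_comm, dotProduct_add, dotProduct_smul, smul_eq_mul]
  have hs : u ⬝ᵥ e'.b.A *ᵥ x = x ⬝ᵥ e'.b.A *ᵥ u := by rw [e'.b.symm, dotProduct_comm]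
  have e1 : β ^ 2 * ∫ ξ, Jf e.b ξ y (Ph f0 (β⁻¹ • u) ξ) ∂ν = -(e'.b.g ⬝ᵥ u) := by
    rw [sq, mul_assoc, h1]
    simp only [mulVec_smul, dotProduct_smul, smul_dotProduct, smul_eq_mul, hg]
    field_simp
    ring
  refine ⟨e1, le_of_mul_le_mul_left ?_ (pow_pos hβ 2)⟩
  rw [e1, sq, mul_assoc, h2]
  simp only [mulVec_sub, mulVec_smul, dotProduct_sub, sub_dotProduct, dotProduct_smul,
    smul_dotProduct, smul_eq_mul, hs, dotProduct_comm u x] at h3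
  rw [hg, hg]
  nlinarith

lemma gg : e'.b.g ⬝ᵥ e'.b.g = β ^ 2 * ∫ ξ, sech2 ξ ∂ν := by
  have : ∫ ξ, (imS e.b ξ).N (sS _) (Ph f0 e'.b.g ξ) ∂ν = ∫ ξ, β * sech2 ξ ∂ν := by
    refine integral_congr_ae ?_
    filter_upwards [st.st] with ξ h
    rw [Ph, ← h, map_smul, N_st c, smul_eq_mul]
  rw [← small_s c fa st, this, integral_const_mul]
  ring

omit c fa [IsProbabilityMeasure ν] in
lemma res_Ph (hβ : β ≠ 0) {y : ℝ} {u : Fin e'.b.m → ℝ} (hu : e'.b.A *ᵥ u + y • u = e'.b.g) :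
    ∀ᵐ ξ ∂ν, Ph f (e'.w u) ξ = β • (y • pull e.ι (Ph f0 (β⁻¹ • u) ξ) +
      gen e.bt ξ (pull e.ι (Ph f0 (β⁻¹ • u) ξ)) - stS _ ξ) := by
  filter_upwards [pull_Ph st, gen_Ph st, st.st] with ξ h1 h2 h3
  have e1 : e'.b.A *ᵥ u = e'.b.g - y • u := eq_sub_of_add_eq hu
  have e2 : pull e.ι (stS e.b.m ξ) = stS e.bt.m ξ := by
    rw [stS, map_sub, AlgHom.commutes]; rfl
  have e3 : β • stS e.bt.m ξ = Ph f (e'.ι *ᵥ e'.b.g) ξ := by
    rw [← h1, Ph, ← h3, map_smul, e2]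
  rw [smul_sub, e3, h2, h1, Ext.w, e1, ← Ph_smul, ← Ph_add, ← Ph_smul, ← Ph_sub]
  congr 1
  simp only [mulVec_sub, mulVec_smul, smul_add, smul_smul]
  rw [mul_inv_cancel₀ hβ, show β * (y * β⁻¹) = y by field_simp, one_smul]
  abel

end step

omit c in
lemma weights {l a K τ : ℝ} (hl : 0 < l) (ha : 0 ≤ a) (hK : 0 ≤ K) (hτ : 0 < τ) :
    ∃ (ω : ℝ → ℝ) (Ω : ℝ), (∀ y, 1 ≤ ω y ∧ ω y ≤ Ω) ∧ Antitone ω ∧ ∀ y ≥ -a, ∀ E ≤ K,
      (0 < y → E ≤ 1 / (4 * y)) → E * ω (y + l) ≤ τ / 4 * ω y := by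
  have hκ : 0 ≤ 4 * K / τ / l := by positivity
  have hy0 : 0 < 1 / τ := by positivity
  have an : Antitone fun y => exp (4 * K / τ / l * max 0 (1 / τ + l - max y (-a))) :=
    fun y y' h => exp_le_exp.2 (mul_le_mul_of_nonneg_left
      (max_le_max le_rfl (by linarith [max_le_max h (le_refl (-a))])) hκ)
  refine ⟨fun y => exp (4 * K / τ / l * max 0 (1 / τ + l - max y (-a))),
    exp (4 * K / τ / l * (1 / τ + l + a)), fun y => ⟨one_le_exp (by positivity), exp_le_exp.2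
      (mul_le_mul_of_nonneg_left (max_le (by positivity) (by linarith [le_max_right y (-a)])) hκ)⟩,
    an, fun y hy E hE h2 => ?_⟩
  rcases le_or_gt (1 / τ) y with h | h
  · have y0 : 0 < y := hy0.trans_le h
    have h3 : 1 / (4 * y) ≤ τ / 4 := by
      rw [div_le_iff₀ hτ] at h
      rw [div_le_div_iff₀ (by positivity) (by norm_num)]; linarith
    exact mul_le_mul ((h2 y0).trans h3) (an (by linarith)) (exp_pos _).le (by positivity)
  · simp only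
    rw [max_eq_left hy, max_eq_left (by linarith : -a ≤ y + l),
      max_eq_right (by linarith : 0 ≤ 1 / τ + l - y),
      max_eq_right (by linarith : 0 ≤ 1 / τ + l - (y + l))]
    have e : 4 * K / τ / l * (1 / τ + l - y) =
        4 * K / τ + 4 * K / τ / l * (1 / τ + l - (y + l)) := by field_simp; ring
    rw [e, exp_add, ← mul_assoc]
    refine mul_le_mul_of_nonneg_right (hE.trans ?_) (exp_pos _).le
    have h3 : τ / 4 * (4 * K / τ) = K := by field_simp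
    have h4 := mul_le_mul_of_nonneg_left (add_one_le_exp (4 * K / τ)) (by positivity : 0 ≤ τ / 4)
    linarith

omit c in
/-- the arithmetic of the pointwise bound -/
lemma num {β a G th ε T C' η δ S w w' Y k γ E r M M1 M2 M3 M4 M5 J J' J0 : ℝ} (β1 : β ^ 2 ≤ 1)
    (hth : th = (β * (1 + a * G)) ^ 2) (th1 : th < 1) (ε0 : 0 < ε) (hT : T = 2 * (1 + 1 / ε))
    (C'0 : 0 ≤ C') (η0 : 0 < η) (hδ : 0 < δ) (k0 : 0 ≤ k) (hk : T * k ≤ δ / 2)
    (hη : T * (C' * η) ≤ δ / 2) (hS : 0 ≤ S) (w1 : 1 ≤ w) (y0 : 0 < Y)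
    (s1 : M ≤ (1 + ε) * M1 + (1 + 1 / ε) * M2) (s2 : M2 ≤ 2 * M3 + 2 * M4) (b1 : M3 ≤ k)
    (b2 : M1 ≤ γ ^ 2 * r + E * (S * w')) (b3 : M4 ≤ C' * Y * M5) (j1 : J' = J + M5)
    (j2 : J0 ≤ J + η / Y) (f1 : γ ^ 2 ≤ (1 + a * G) ^ 2) (f4 : E * w' ≤ (1 - th) / 4 * w)
    (f5 : r ≤ S * w) :
    β ^ 2 * M ≤ ((1 + ε) * ((3 * th + 1) / 4) * S + δ) * w + β ^ 2 * T * C' * Y * (J' - J0) := by
  have Sω : 0 ≤ S * w := by positivity
  have T0 : 0 < T := by rw [hT]; positivity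
  have m1 : β ^ 2 * M1 ≤ (3 * th + 1) / 4 * (S * w) := by
    have a1 : γ ^ 2 * r ≤ (1 + a * G) ^ 2 * (S * w) :=
      (mul_le_mul_of_nonneg_left f5 (sq_nonneg _)).trans (mul_le_mul_of_nonneg_right f1 Sω)
    have a2 : E * (S * w') ≤ (1 - th) / 4 * (S * w) := by
      have := mul_le_mul_of_nonneg_left f4 hS
      linarith
    have a3 := mul_le_mul_of_nonneg_left (b2.trans (add_le_add a1 a2)) (sq_nonneg β)
    have a4 : β ^ 2 * ((1 - th) / 4 * (S * w)) ≤ 1 * ((1 - th) / 4 * (S * w)) :=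
      mul_le_mul_of_nonneg_right β1 (mul_nonneg (by linarith) Sω)
    have a5 : β ^ 2 * ((1 + a * G) ^ 2 * (S * w)) = th * (S * w) := by rw [hth]; ring
    linarith
  have m2 : M4 ≤ C' * Y * (J' - J0) + C' * η := by
    have a1 : M5 ≤ J' - J0 + η / Y := by linarith
    have a2 := mul_le_mul_of_nonneg_left a1 (mul_nonneg C'0 y0.le)
    have a3 : C' * Y * (η / Y) = C' * η := by field_simp
    linarith
  have m3 := mul_le_mul_of_nonneg_left (s2.trans (add_le_add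
    (mul_le_mul_of_nonneg_left b1 zero_le_two) (mul_le_mul_of_nonneg_left m2 zero_le_two)))
    (by positivity : 0 ≤ β ^ 2 * (1 + 1 / ε))
  have m4 := mul_le_mul_of_nonneg_left s1 (sq_nonneg β)
  have m5 := mul_le_mul_of_nonneg_left m1 (by positivity : 0 ≤ 1 + ε)
  have m6 : β ^ 2 * (T * k + T * (C' * η)) ≤ 1 * δ :=
    mul_le_mul β1 (by linarith) (by positivity) zero_le_one
  have m7 : δ ≤ δ * w := le_mul_of_one_le_right hδ.le w1
  rw [hT] at m6 ⊢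
  linarith

omit c in
lemma int_sech2 (ν : Measure ℝ) [IsProbabilityMeasure ν] : Integrable sech2 ν :=
  BM.int ⟨by unfold sech2; fun_prop, 1, fun ξ => by
    rw [abs_of_pos (sech2_pos ξ)]; exact sech2_le ξ⟩ ν

/-- the response of the next level -/
lemma resp (p : PolApi) (fa : FamApi) (ga : GalStmt) (gm : GamStmt) {β l a G δ η : ℝ}
    {ν : Measure ℝ} [IsProbabilityMeasure ν] {D : ℕ} {e e' : Ext}
    {f0 : Fin e'.b.m → ℝ → SV e.b.m} {f : Fin e'.bt.m → ℝ → SV e.bt.m} (st : Step β ν D e e' f0 f)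
    (hβ : 0 < β) (β1 : β ^ 2 ≤ 1) (ha : 0 ≤ a) (hl : a < l) (hG : 0 ≤ G) (hC : Coer e.b l)
    (hR : Resp e.b a G) (η0 : 0 < η) (hη3 : a * η ≤ δ) {x : Fin e'.b.m → ℝ}
    (hx : ∀ᵐ ξ ∂ν, ∀ P ∈ PolS e.b.m D,
      Jf e.b ξ (-a) (Ph f0 x ξ) ≤ Jf e.b ξ (-a) P + η / (1 + |-a|) ^ 2)
    {u : Fin e'.b.m → ℝ} (hu : e'.b.A *ᵥ u + (-a) • u = e'.b.g) :
    β ^ 2 * ∫ ξ, gamD e.b a D ξ ∂ν - δ ≤ e'.b.g ⬝ᵥ e'.b.A *ᵥ u := by
  have hδ : 0 ≤ δ := (mul_nonneg ha η0.le).trans hη3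
  have aG : 0 ≤ a * G := mul_nonneg ha hG
  have g2 := gg c fa st
  have ip := int_sech2 ν
  obtain ⟨⟨n, P, co, -, hP⟩, hg⟩ := ga e.b l hC D (-a) (by linarith)
  obtain ⟨m1, m2⟩ := small_min c fa st hβ hC (by linarith : 0 ≤ -a + l) hu x
  obtain ⟨gc, gb⟩ := gm e.b l a G ha hl hC hR D
  have ig : Integrable (gamD e.b a D) ν := BM.int ⟨gc.measurable, 1 + a * G, fun ξ => by
    obtain ⟨-, k1, k2⟩ := gb ξ
    have := sech2_pos ξ
    have := sech2_le ξ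
    rw [abs_of_pos (by linarith)]
    nlinarith⟩ ν
  have i2 := (small_J c fa st (-a) x).1
  have key : ∀ᵐ ξ ∂ν, gamD e.b a D ξ ≤ sech2 ξ + δ - a * Jf e.b ξ (-a) (Ph f0 x ξ) := by
    filter_upwards [hx] with ξ hx
    have hφ := hP ξ
    generalize ∑ i, co i ξ • P i = φ at hφ
    have k1 := (hg ξ _ hφ).1
    have k2 := (gal_facts c p ha hl hG hC hR le_rfl hφ).1
    have k3 := hx _ hφ.1
    have k4 : η / (1 + |-a|) ^ 2 ≤ η := div_le_self η0.le (by nlinarith [abs_nonneg (-a)])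
    rw [neg_neg] at k1
    have k5 := mul_le_mul_of_nonneg_left (k3.trans (add_le_add le_rfl k4)) ha
    rw [k1, k2]
    linarith only [k5, hη3]
  have i3 : Integrable (fun ξ => sech2 ξ + δ) ν := ip.add (integrable_const _)
  have fin := integral_mono_ae ig (i3.sub (i2.const_mul a)) key
  simp only [Pi.sub_apply] at fin
  rw [integral_sub i3 (i2.const_mul a), integral_add ip (integrable_const _),
    integral_const_mul] at fin
  simp only [integral_const, probReal_univ, smul_eq_mul, one_mul] at fin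
  have e1 : e'.b.g ⬝ᵥ e'.b.A *ᵥ u = e'.b.g ⬝ᵥ e'.b.g + a * (e'.b.g ⬝ᵥ u) := by
    rw [eq_sub_of_add_eq hu, dotProduct_sub, dotProduct_smul, smul_eq_mul]; ring
  have k1 := mul_le_mul_of_nonneg_left fin (sq_nonneg β)
  have k2 := mul_le_mul_of_nonneg_left m2 (mul_nonneg ha (sq_nonneg β))
  have k3 : β ^ 2 * δ ≤ 1 * δ := mul_le_mul_of_nonneg_right β1 hδ
  have k4 : a * β ^ 2 * ∫ ξ, Jf e.b ξ (-a) (Ph f0 (β⁻¹ • u) ξ) ∂ν = -(a * (e'.b.g ⬝ᵥ u)) := by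
    rw [mul_assoc, m1]; ring
  rw [e1, g2]
  linarith only [k1, k2, k3, k4]

/-- integration of the pointwise bound -/
lemma integ (fa : FamApi) {β l y A K : ℝ} {ν : Measure ℝ} [IsProbabilityMeasure ν] {D : ℕ}
    {e e' : Ext} {f0 : Fin e'.b.m → ℝ → SV e.b.m} {f : Fin e'.bt.m → ℝ → SV e.bt.m}
    (st : Step β ν D e e' f0 f) (hβ : 0 < β) (hC : Coer e.b l) (yl : 0 ≤ y + l) (hK : 0 ≤ K)
    {u x : Fin e'.b.m → ℝ} (hu : e'.b.A *ᵥ u + y • u = e'.b.g)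
    (key : ∀ᵐ ξ ∂ν, Mf e.bt ξ (y + l) (Ph f (e'.w u) ξ) ≤
      A + K * (Jf e.b ξ y (Ph f0 (β⁻¹ • u) ξ) - Jf e.b ξ y (Ph f0 x ξ))) :
    e'.res (y + l) u ≤ A := by
  have hmin := (small_min c fa st hβ hC yl hu x).2
  obtain ⟨i0, e0⟩ := big_M fa st (y + l) (e'.w u)
  have i1 := (small_J c fa st y (β⁻¹ • u)).1
  have i2 := (small_J c fa st y x).1
  have i3 : Integrable (fun ξ => K * (Jf e.b ξ y (Ph f0 (β⁻¹ • u) ξ) - Jf e.b ξ y (Ph f0 x ξ))) ν :=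
    (i1.sub i2).const_mul K
  have fin := integral_mono_ae i0 ((integrable_const A).add i3) key
  rw [e0] at fin
  refine fin.trans ?_
  simp only [Pi.add_apply]
  rw [integral_add (integrable_const _) i3, integral_const_mul, integral_sub i1 i2]
  simp only [integral_const, probReal_univ, smul_eq_mul, one_mul]
  have := mul_nonneg hK (sub_nonneg.2 hmin)
  linarith

end One67

open One67 in
/-- **the contraction** -/
theorem oneGlue : OneGlue := by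
  intro c p fa bd fx ga gm ap β l a G hβ ha hl hG hb
  have aG : 0 ≤ a * G := mul_nonneg ha hG
  have l0 : 0 < l := by linarith
  have la : 0 < l - a := by linarith
  have β1 : β ^ 2 ≤ 1 := by nlinarith
  obtain ⟨th, hth⟩ : ∃ th, th = (β * (1 + a * G)) ^ 2 := ⟨_, rfl⟩
  have th0 : 0 ≤ th := hth ▸ sq_nonneg _
  have th1 : th < 1 := hth ▸ pow_lt_one₀ (by positivity) hb two_ne_zero
  obtain ⟨ω, Ω, hω, an, hw⟩ := weights (K := l / (l - a) ^ 2) (τ := 1 - th) l0 ha (by positivity)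
    (by linarith)
  obtain ⟨ε, hε⟩ : ∃ ε, ε = 3 * (1 - th) / 8 := ⟨_, rfl⟩
  have ε0 : 0 < ε := by linarith
  refine ⟨ω, Ω, (1 + ε) * ((3 * th + 1) / 4), by positivity, by nlinarith, hω, ?_⟩
  intro ν _ e hC hR S hS hE δ hδ
  obtain ⟨C1, C10, h1⟩ := fx e l a ha hl hC
  obtain ⟨T, hT⟩ : ∃ T, T = 2 * (1 + 1 / ε) := ⟨_, rfl⟩
  have T0 : 0 < T := by rw [hT]; positivity
  refine ⟨⌈2 * T * C1 / δ⌉₊ + 1, fun D hD => ?_⟩
  have D1 : 1 ≤ D := by omega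
  have D0 : (0 : ℝ) < D := by exact_mod_cast D1
  have hC1 : T * (C1 / D) ≤ δ / 2 := by
    have h : 2 * T * C1 / δ ≤ D :=
      (Nat.le_ceil _).trans (by exact_mod_cast (by omega : ⌈2 * T * C1 / δ⌉₊ ≤ D))
    rw [div_le_iff₀ hδ] at h
    rw [← mul_div_assoc, div_le_iff₀ D0]; linarith
  obtain ⟨C, C0, h2⟩ := bd e D
  obtain ⟨C', hC'⟩ : ∃ C', C' = 2 * (1 + C / (l - a)) + 2 * C * (1 + 1 / (l - a)) := ⟨_, rfl⟩
  have C'0 : 0 ≤ C' := by rw [hC']; positivity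
  obtain ⟨η, hη⟩ : ∃ η, η = δ / (2 * T * C' + a + 1) := ⟨_, rfl⟩
  have η0 : 0 < η := by rw [hη]; positivity
  have hη1 : (2 * T * C' + a + 1) * η = δ := by rw [hη]; field_simp
  have hη2 : T * (C' * η) ≤ δ / 2 := by nlinarith [mul_nonneg ha η0.le]
  have hη3 : a * η ≤ δ := by nlinarith [mul_nonneg (mul_nonneg T0.le C'0) η0.le]
  obtain ⟨𝒱, fin, cl, h3⟩ := ap e.b l a ha hl hC D η η0
  refine ⟨𝒱, fin, cl, fun e' f0 f st hin => ?_⟩
  -- near-minimisers in the span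
  have near : ∀ y ≥ -a, ∃ x, ∀ᵐ ξ ∂ν, ∀ P ∈ PolS e.b.m D,
      Jf e.b ξ y (Ph f0 x ξ) ≤ Jf e.b ξ y P + η / (1 + |y|) ^ 2 := fun y hy => by
    obtain ⟨v, hv, t, h⟩ := h3 y hy
    obtain ⟨x, hx⟩ := hin v hv
    refine ⟨t • x, ?_⟩
    filter_upwards [hx] with ξ hξ
    rw [Ph_smul, Ph, ← hξ]
    exact h ξ
  refine ⟨fun y hy u hu => ?_, ?_, fun u hu => ?_⟩
  · obtain ⟨x, hx⟩ := near y hy
    obtain ⟨⟨n, P, co, -, hP⟩, hg⟩ := ga e.b l hC D y (by linarith)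
    obtain ⟨u0, hu0⟩ := One67.solve (c := y) hC.1 (by linarith)
    have yl : 0 ≤ y + l := by linarith
    refine integ c fa st hβ hC yl (x := x) (K := β ^ 2 * T * C' * (1 + |y|) ^ 2) (by positivity)
      hu ?_
    filter_upwards [hx, res_Ph st hβ.ne' hu] with ξ hx hr
    have hφ := hP ξ
    generalize ∑ i, co i ξ • P i = φ at hφ
    have hφ' := Ph_pol st (β⁻¹ • u) ξ
    rw [hr, mf_smul]
    generalize Ph f0 (β⁻¹ • u) ξ = φ' at hφ' ⊢
    have hψ := sub_mem hφ' hφ.1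
    obtain ⟨-, r1, r2, e1, b1, -, b2⟩ := h1 D D1 ξ y hy φ hφ (S * ω (y + l))
      (fun y' hy' v hv => (hE y' (by linarith) v hv).trans
        (mul_le_mul_of_nonneg_left (an hy') hS)) u0 hu0
    have b3 := third c hl hC hy C0 hψ (h2 ξ _ hψ).1 (h2 ξ _ hψ).2
    obtain ⟨-, f1, f2, f3⟩ := gal_facts c p ha hl hG hC hR hy hφ
    have e2 : y • pull e.ι φ' + gen e.bt ξ (pull e.ι φ') - stS _ ξ =
        ((imS e.b ξ).En (sS _) φ • linS _ (e.w u0) + r2) +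
        (r1 + (y • pull e.ι (φ' - φ) + gen e.bt ξ (pull e.ι (φ' - φ)))) := by
      rw [← add_assoc, add_comm _ r1, ← e1]
      simp only [map_sub, smul_sub]
      abel
    rw [e2]
    rw [← hC'] at b3
    exact num β1 hth th1 ε0 hT C'0 η0 hδ (by positivity) hC1 hη2 hS (hω y).1 (by positivity)
      (mf_split c e.bt ξ yl ε0 _ _) (mf_two c e.bt ξ yl _ _) b1 b2 b3 ((hg ξ φ hφ).2 φ' hφ')
      (hx φ hφ.1) f1 (hw y hy _ f2 f3) (hE y hy u0 hu0)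
  · have := integral_mono (int_sech2 ν) (integrable_const 1) sech2_le
    simp only [integral_const, probReal_univ, smul_eq_mul, one_mul] at this
    rw [gg c fa st]
    exact mul_le_of_le_one_right (sq_nonneg β) this
  · obtain ⟨x, hx⟩ := near (-a) le_rfl
    exact resp c p fa ga gm st hβ β1 ha hl hG hC hR η0 hη3 hx hu

end Crest.Agent.T157.Tw
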