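import Crest.Agent.T157.LcDef_30

/-!
# Row 157, block B/S4b (helper3): `SpecGlue`
-/

set_option autoImplicit false
set_option linter.all false

noncomputable section

namespace Crest.Agent.T157.Tw

open MeasureTheory Real Matrix Set
open Crest.Agent.R238.Gap Crest.Agent.R253.Meh74

namespace Spec3

section abs
variable {V : Type} [AddCommGroup V] [Module ℝ V] {H : Pre V}

lemma bessel (ok : H.Ok) {n : ℕ} {f : Fin n → V}
    (on : ∀ k l, H.N (f k) (f l) = if k = l then 1 else 0) (P : V) :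
    ∑ k, H.N P (f k) ^ 2 ≤ H.N P P := by
  have h := ok.pN (P - ∑ k, H.N P (f k) • f k)
  simp only [map_sub, map_sum, map_smul, LinearMap.sub_apply, LinearMap.sum_apply,
    LinearMap.smul_apply, smul_eq_mul, on, mul_ite, mul_one, mul_zero, Finset.sum_ite_eq',
    Finset.mem_univ, if_true, ok.sN (f _) P, sub_self, Finset.sum_const_zero, sub_zero] at h
  simp only [sq]; linarith

/-- simultaneous diagonalisation on a finitely generated subspace -/
lemma exists_eig (ok : H.Ok) {S : Submodule ℝ V} (hS : S.FG) :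
    ∃ (n : ℕ) (f : Fin n → V) (μ : Fin n → ℝ), (∀ k, f k ∈ S) ∧
      (∀ k l, H.N (f k) (f l) = if k = l then 1 else 0) ∧
      (∀ k l, H.En (f k) (f l) = if k = l then μ k else 0) ∧ ∀ y ∈ S, InSp H f y := by
  obtain ⟨T, hT⟩ := hS
  obtain ⟨b, f, hc, hf, hsp⟩ := compStmt V H ok S T T.finite_toSet
    (by rw [← hT]; exact Submodule.subset_span)
  have hA := b.psd.isHermitian
  set v : Fin b.m → Fin b.m → ℝ := fun k => (hA.eigenvectorBasis k).ofLp with hv
  have hon : ∀ k l, v k ⬝ᵥ v l = if k = l then 1 else 0 := fun k l => by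
    have := orthonormal_iff_ite.1 hA.eigenvectorBasis.orthonormal k l
    rw [← this, EuclideanSpace.inner_eq_star_dotProduct, dotProduct_comm]
    simp [hv]
  refine ⟨b.m, fun k => emb f (v k), hA.eigenvalues, fun k => emb_mem hf _,
    fun k l => by rw [hc.N_emb, hon], fun k l => ?_, fun y hy => ?_⟩
  · rw [hc.En_emb, hA.mulVec_eigenvectorBasis l, dotProduct_smul, hon]
    split_ifs with h <;> simp [h]
  · have h1 := hsp y (by rw [hT]; exact hy)
    have h2 : ∑ k, H.N y (emb f (v k)) • emb f (v k) = emb f (co H f y) := by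
      have h3 := hA.eigenvectorBasis.sum_repr' (WithLp.toLp 2 (co H f y))
      have h4 : ∑ k, (co H f y ⬝ᵥ v k) • v k = co H f y := by
        have := congrArg WithLp.ofLp h3
        simp only [WithLp.ofLp_sum, WithLp.ofLp_smul, EuclideanSpace.inner_eq_star_dotProduct,
          star_trivial] at this
        exact this
      conv_rhs => rw [← h4]
      simp only [map_sum, map_smul, bil_emb]
      rfl
    unfold InSp
    rw [h2]; exact (inSp_iff f y).1 h1

lemma fg_of_le {S T : Submodule ℝ V} (hT : T.FG) (h : S ≤ T) : S.FG := by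
  haveI : FiniteDimensional ℝ T := Module.Finite.iff_fg.2 hT
  exact Module.Finite.iff_fg.1 (Submodule.finiteDimensional_of_le h)

end abs

lemma inj {b : Bath} {l c : ℝ} (h : b.Ge l) (hc : 0 < l + c) {w : Fin b.m → ℝ}
    (hw : b.A *ᵥ w + c • w = 0) : w = 0 := by
  have h1 := h w
  have h2 := congrArg (fun z => w ⬝ᵥ z) hw
  simp only [dotProduct_add, dotProduct_smul, smul_eq_mul, dotProduct_zero] at h2
  have h3 : 0 ≤ w ⬝ᵥ w := Finset.sum_nonneg fun i _ => mul_self_nonneg _
  exact dotProduct_self_eq_zero.1 (by nlinarith)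

lemma solve {b : Bath} {l c : ℝ} (h : b.Ge l) (hc : 0 < l + c) (g : Fin b.m → ℝ) :
    ∃ w, b.A *ᵥ w + c • w = g := by
  let L : (Fin b.m → ℝ) →ₗ[ℝ] (Fin b.m → ℝ) := b.A.mulVecLin + c • LinearMap.id
  have : Function.Injective L := (injective_iff_map_eq_zero L).2 fun w hw => inj h hc hw
  exact LinearMap.injective_iff_surjective.1 this g

lemma uniq {b : Bath} {l c : ℝ} (h : b.Ge l) (hc : 0 < l + c) {u w : Fin b.m → ℝ} {t : ℝ}
    (hu : b.A *ᵥ u + c • u = b.g) (hw : b.A *ᵥ w + c • w = t • b.g) : w = t • u := by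
  refine sub_eq_zero.1 (inj h hc ?_)
  rw [mulVec_sub, mulVec_smul, smul_sub, ← hu, smul_add] at *
  rw [smul_comm c t u]
  linear_combination (exp := 1) hw

variable (c : Cal)
include c

lemma En_one (b : Bath) (ξ : ℝ) (F : SV b.m) : (imS b ξ).En 1 F = 0 :=
  null_left (c.ok b ξ).sE (c.ok b ξ).pE ((c.ok b ξ).null _ (by rw [c.N]; simp [c.ex1])) F

lemma ex_alg (b : Bath) (ξ r : ℝ) : exS b ξ (algebraMap ℝ _ r) = r := by
  rw [Algebra.algebraMap_eq_smul_one, map_smul, c.ex1, smul_eq_mul, mul_one]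

lemma bath_nonneg (b : Bath) (ξ : ℝ) (F : SV b.m) :
    0 ≤ ∑ i, ∑ j, b.A i j * exS b ξ (dd i F * dd j F) := by
  have h := c.pos b ξ (∑ i, ∑ j, b.A i j • (dd i F * dd j F)) fun s X => by
    have := O42.be_ge (O42.ge_zero b) (F.1 s) X
    simp only [AddSubmonoidClass.coe_finsetSum, Finset.sum_apply]
    rw [zero_mul] at this
    exact this
  simpa only [map_sum, map_smul, smul_eq_mul] using h

lemma orth {b : Bath} {ξ y : ℝ} {D : ℕ} {φ : SV b.m} (h : Gal b ξ y D φ) :
    ∀ q ∈ PolS b.m D, exS b ξ ((y • φ + gen b ξ φ - stS _ ξ) * q) = 0 := by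
  intro q hq
  have h1 := h.2.2 q hq
  rw [c.N, c.N, h.2.1, c.exs, (c.ok b ξ).sE, ← c.l0] at h1
  have e : (y • φ + gen b ξ φ - stS _ ξ) * q =
      y • (φ * q) + q * gen b ξ φ - (sS _ * q - tanh ξ • q) := by
    simp only [stS, Algebra.algebraMap_eq_smul_one, sub_mul, add_mul, smul_mul_assoc, one_mul,
      mul_comm q]
  rw [e]
  simp only [map_sub, map_add, map_smul, smul_eq_mul]
  linarith

/-- the differentiated equation -/
lemma deq (p : PolApi) {b : Bath} {ξ y : ℝ} {D : ℕ} {φ : SV b.m} (h : Gal b ξ y (D + 1) φ)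
    {f : SV b.m} (hf : f ∈ PolS b.m D) (j : Fin b.m) :
    y * exS b ξ (dd j φ * f) + (imS b ξ).En f (dd j φ) + ∑ i, b.A j i * exS b ξ (dd i φ * f) =
      b.g j * exS b ξ (psi b ξ φ * f) := by
  set r := y • φ + gen b ξ φ - stS _ ξ with hr
  have hf1 := p.mono _ (Nat.le_succ D) hf
  have hq : zS b j * f - dd j f ∈ PolS b.m (D + 1) := by
    refine sub_mem ?_ (p.mono _ (Nat.le_succ D) (p.d j hf1))
    rw [zS, sub_mul, smul_mul_assoc]
    exact sub_mem (p.x j hf) (Submodule.smul_mem _ _ (p.s hf1))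
  have h1 := orth c h _ hq
  have h2 := c.stein b ξ j (r * f)
  rw [c.dmul, map_add] at h2
  rw [← hr, mul_sub, map_sub, mul_left_comm, h2, add_sub_cancel_right] at h1
  have e : dd j r = y • dd j φ + (gen b ξ (dd j φ) + ∑ i, b.A j i • dd i φ - b.g j • psi b ξ φ) := by
    rw [hr, map_sub, map_add, map_smul, c.dgen, stS, map_sub, c.ds,
      Algebra.algebraMap_eq_smul_one, map_smul, c.done]
    simp
  rw [e] at h1
  simp only [add_mul, sub_mul, Finset.sum_mul, smul_mul_assoc, map_add, map_sub, map_sum, map_smul,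
    smul_eq_mul] at h1
  rw [← c.l0, mul_comm f]
  linarith

end Spec3

open Spec3 in
theorem specGlue : SpecGlue := by
  intro c p b l hco D ξ y hy φ hφ u hu
  refine ⟨orth c hφ, ?_⟩
  have ok := c.ok b ξ
  set S : Submodule ℝ (SV b.m) := PolS b.m D ⊓ LinearMap.ker (exS b ξ) with hS
  have hfg : S.FG := fg_of_le (p.fg _ D) inf_le_left
  obtain ⟨n, f, μ, hf, on, en, hsp⟩ := exists_eig ok hfg
  have f0 : ∀ k, exS b ξ (f k) = 0 := fun k => (hf k).2
  have hN : ∀ G k, (imS b ξ).N G (f k) = exS b ξ (G * f k) := fun G k => by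
    rw [c.N, f0, mul_zero, sub_zero]
  have hμ : ∀ k, l ≤ μ k := fun k => by
    simpa [on, en] using hco.2 ξ D _ (hf k).1
  have hμ0 : ∀ k, 0 ≤ μ k := fun k => by simpa [en] using ok.pE (f k)
  have hpos : ∀ k, 0 < l + (y + μ k) := fun k => by linarith [hμ0 k]
  choose U hU using fun k => Spec3.solve hco.1 (hpos k) b.g
  have hd : ∀ j, dd j φ ∈ PolS b.m D := fun j => p.d j hφ.1
  -- expansion
  have hexp : ∀ j, dd j φ = algebraMap ℝ _ (exS b ξ (dd j φ)) +
      ∑ k, exS b ξ (dd j φ * f k) • f k := fun j => by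
    set w := dd j φ - algebraMap ℝ _ (exS b ξ (dd j φ)) with hw
    have hw0 : exS b ξ w = 0 := by rw [hw, map_sub, ex_alg c, sub_self]
    have hwS : w ∈ S := ⟨sub_mem (hd j) (by
      rw [Algebra.algebraMap_eq_smul_one]; exact Submodule.smul_mem _ _ (p.one _ _)), hw0⟩
    have h1 := hsp w hwS
    have h2 : ∀ k, (imS b ξ).N w (f k) = exS b ξ (dd j φ * f k) := fun k => by
      rw [hN, hw, sub_mul, map_sub, Algebra.algebraMap_eq_smul_one, smul_mul_assoc, one_mul,
        map_smul, f0, smul_zero, sub_zero]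
    unfold InSp at h1
    have h3 : exS b ξ (w - ∑ k, (imS b ξ).N w (f k) • f k) = 0 := by
      simp only [map_sub, map_sum, map_smul, hw0, f0, smul_zero, Finset.sum_const_zero, sub_zero]
    rw [c.N, h3, mul_zero, sub_zero] at h1
    have h4 := sub_eq_zero.1 (c.defn b ξ _ h1)
    simp only [h2] at h4
    rw [← h4, hw]; abel
  have hE : ∀ j k, (imS b ξ).En (f k) (dd j φ) = μ k * exS b ξ (dd j φ * f k) := fun j k => by
    conv_lhs => rw [hexp j]
    rw [map_add, Algebra.algebraMap_eq_smul_one, map_smul, ok.sE, En_one c, smul_zero, zero_add]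
    simp [en, mul_comm]
  have h0 : (fun j => exS b ξ (dd j φ)) = (imS b ξ).En (sS _) φ • u := by
    refine uniq hco.1 (by linarith) hu (funext fun j => ?_)
    have := deq c p hφ (p.one _ D) j
    simp only [mul_one, En_one c, c.psi_ex] at this
    simp only [Pi.add_apply, Pi.smul_apply, smul_eq_mul, mulVec, dotProduct]
    linarith
  have h1 : ∀ k, (fun j => exS b ξ (dd j φ * f k)) = exS b ξ (psi b ξ φ * f k) • U k := fun k => by
    refine uniq hco.1 (hpos k) (hU k) (funext fun j => ?_)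
    have := deq c p hφ (hf k).1 j
    rw [hE] at this
    simp only [Pi.add_apply, Pi.smul_apply, smul_eq_mul, mulVec, dotProduct]
    linarith
  refine ⟨n, f, μ, fun k => exS b ξ (psi b ξ φ * f k), U, fun k => ⟨(hf k).1, f0 k, hμ k, hU k⟩,
    fun k k' => ⟨by rw [← hN, on], en k k'⟩, fun j => ?_, ?_⟩
  · conv_lhs => rw [hexp j]
    rw [congrFun h0 j]
    simp only [fun k => congrFun (h1 k) j, Pi.smul_apply, smul_eq_mul]
  · have a1 := bessel ok on (psi b ξ φ)
    simp only [hN] at a1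
    rw [c.N, c.psi_ex] at a1
    have a2 := c.psi_le b ξ φ
    have a3 := bath_nonneg c b ξ φ
    rw [c.En b ξ φ φ]
    nlinarith

end Crest.Agent.T157.Tw
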