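import Crest.Agent.T157.RnOb_60

/-!
# Row 157, block B/R (helper54): the first layer (`Rn.BaseGlue`)
-/

set_option autoImplicit false

noncomputable section

namespace Crest.Agent.T157.Rn

open MeasureTheory ProbabilityTheory Real Matrix Filter Topology
open Crest.Agent.R238.Gap Crest.Agent.R238.GapPc Crest.Agent.R253.Meh74
open Crest.Agent.T157.E (Cube)
open Crest.Agent.T157.Tw
open Crest.Agent.T157.Pl (one cmul)

namespace Base54

lemma fl_ne {n : ℕ} (σ : Cube n) {k i : Fin n} (h : k ≠ i) : fl σ k i = σ i :=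
  Function.update_of_ne h.symm _ _

lemma fl_one {n : ℕ} (l : Fin n) : fl (Pl.one n) l l = false := by simp [fl, Pl.one]

lemma one_ap {n : ℕ} (l : Fin n) : Pl.one n l = true := rfl

lemma sp_od (m : ℕ) : Tw.sp m ∈ Od m := fun s _ => by cases s <;> simp [Tw.sp, sg]

/-- the spins -/
def us {m : ℕ} (α : Fin m → ℝ) : Fm m := fun _ _ l σ _ => WithLp.toLp 2 fun a => α a * sg (σ l)

lemma net (β ρ : ℝ) {m : ℕ} (α : Fin m → ℝ) : Net β ρ (us α) := by
  refine ⟨fun n I l σ => measurable_const, fun n I l σ σ' ω ω' hl h1 _ => ?_,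
    fun n I l σ z ω => ?_, fun a => ?_, fun a => ?_, fun a => ?_, fun a => ?_⟩
  · simp only [us, h1 l hl]
  · ext a
    simp only [us, cmul, PiLp.smul_apply, smul_eq_mul]
    cases z l <;> cases σ l <;> simp [sg]
  · refine Ob.const (fun n (t : Ix n) => α a * sg (t.σ t.i)) |α a| (.of_forall fun n t _ => ?_)
    cases t.σ t.i <;> simp [sg, rt]
  · refine Ob.zero.congr (fun _ _ => by simp only [us]; exact measurable_const)
      (.of_forall fun n t ht ω => ?_)
    simp only [us, fl_ne t.σ ht, sub_self]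
  · exact Ob.zero.congr' fun n t ω => by simp only [us, sub_self]
  · exact Ob.zero.congr' fun n t ω => by simp only [us, sub_self]

end Base54

open Base54

theorem baseGlue : BaseGlue := by
  intro hS hM h0 hL β ρ b c α hb
  have v1 : V1 β ρ b c (us α) := by
    refine ⟨net β ρ α, fun n I l σ ω => ?_, hb.hc, hb.hc0, fun a a' N => ?_, fun a N => ?_⟩
    · simp only [us, ← mul_assoc, ← Finset.sum_mul, ← hb.sp, dotProduct]
    · refine ((Oo.card (T := Ix) (fun _ t => t.I) N fun _ _ h => h).smul (α a * α a')).congr'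
        fun n t ω => ?_
      rw [← hb.on a a']
      simp only [us, one_ap, sg, if_true, Finset.sum_const, nsmul_eq_mul]
      ring
    · refine ((Oo.card (T := Ix) (fun _ t => t.I) N fun _ _ h => h).smul (β * α a)).congr'
        fun n t ω => ?_
      rw [← hb.g a]
      simp only [us, one_ap, sg, if_true, Finset.sum_const, nsmul_eq_mul]
      ring
  have x0 := h0 β ρ b c _ v1
  have ll := hL β ρ b c _ v1
  have md := hM b _ (sp_od b.m)
  refine ⟨_, v1, fun a a' N => ?_, fun a a' N => ?_, fun a N => ?_⟩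
  · have hc : ∀ s, Tm 2 ((Tw.sp b.m).1 s) := fun s => hS.const _ 2 (sg s)
    refine ((ll _ (hS.gm b 1 _ _ hc hc) N).smul (α a * α a')).congr' fun n t ω => ?_
    rw [← (md.2.2 _ (sp_od b.m)).2, hb.en, mul_sub, ← mul_div_assoc, Finset.mul_sum]
    congr 1
    · congr 1
      refine Finset.sum_congr rfl fun l hl => ?_
      rw [Gm, Finset.sum_eq_single_of_mem l hl fun k _ hk => by simp only [us, fl_ne _ hk]; ring]
      simp only [us, gm, x0.fld, pk, fl_one, one_ap, Tw.sp, pd, Bool.not_true]
      simp [sg]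
      ring
    · ring
  · refine Oo.zero.congr (fun n t => ?_) (.of_forall fun n t ht ω => ?_)
    · simp only [Gm, us]
      exact Finset.measurable_sum _ fun k _ => (measurable_pk _ _ _ _ _).mul_const _
    · refine (Finset.sum_eq_zero fun k _ => ?_).symm
      by_cases hk : k = t.i
      · simp only [us, fl_ne _ (hk ▸ ht.2.2.2 : k ≠ t.j)]; ring
      · simp only [us, fl_ne _ hk]; ring
  · have hφ : Tm 1 fun z : E b.m => sech2 (fld b 0 z) / 2 *
        ((Tw.sp b.m).1 true z - (Tw.sp b.m).1 false z) := by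
      have := hS.mul _ 1 _ _ (hS.const _ 1 4)
        (hS.mul _ 1 _ _ (hS.hb b 0 true 1) (hS.hb b 0 false 1))
      convert this using 2 with z
      rw [hS.sech]
      simp only [Tw.sp, sg, if_true, Bool.false_eq_true, if_false]
      ring
    refine ((ll _ hφ N).smul (β * α a)).congr' fun n t ω => ?_
    have e2 : (b.A *ᵥ b.g) a = β * α a * (imp b 0).En (Tw.sp _) (Tw.sp _) := by
      rw [← hb.sp]
      simp only [Matrix.mulVec, dotProduct, hb.en, Finset.sum_mul]
      exact Finset.sum_congr rfl fun a' _ => by ring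
    rw [← md.2.1, mul_sub, e2, mul_assoc, ← mul_div_assoc, Finset.mul_sum]
    congr 3
    refine Finset.sum_congr rfl fun l _ => ?_
    simp only [us, x0.fld, fl_one, one_ap, Tw.sp]
    ring

end Crest.Agent.T157.Rn

end
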