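import Crest.Agent.T157.RnDef_60
import Crest.Agent.T157.TwM1_52

/-!
# Row 157, block B/R (helper89): row averages, the cavity law of large numbers, continuity of
Gaussian averages
-/

set_option autoImplicit false

noncomputable section

namespace Crest.Agent.T157.Rn

open MeasureTheory ProbabilityTheory Real Matrix Filter Topology
open Crest.Agent.R238.Gap Crest.Agent.R238.GapPc Crest.Agent.R253.Meh74
open Crest.Agent.T157.E (Cube gv)
open Crest.Agent.T157.Tw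
open scoped NNReal ENNReal MatrixOrder

namespace Cav89

/-! ### Jensen in one factor -/

section jensen
variable {α γ : Type*} [MeasurableSpace α] [MeasurableSpace γ] {μ : Measure α} {ν : Measure γ}

theorem eLp_int_le [IsProbabilityMeasure ν] {F : α × γ → ℝ} (hF : Measurable F) (q : ℕ) :
    eLpNorm (fun a => ∫ z, F (a, z) ∂ν) q μ ≤ eLpNorm F q (μ.prod ν) := by
  rcases Nat.eq_zero_or_pos q with rfl | hq
  · simp
  have h0 : (q : ℝ≥0∞) ≠ 0 := by exact_mod_cast hq.ne'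
  have h1 : (q : ℝ≥0∞) ≠ ⊤ := ENNReal.natCast_ne_top q
  have hq' : (0 : ℝ) < (q : ℝ≥0∞).toReal := ENNReal.toReal_pos h0 h1
  rw [eLpNorm_eq_lintegral_rpow_enorm_toReal h0 h1, eLpNorm_eq_lintegral_rpow_enorm_toReal h0 h1,
    lintegral_prod _ (hF.enorm.pow_const _).aemeasurable]
  refine ENNReal.rpow_le_rpow (lintegral_mono fun a => ?_) (by positivity)
  have hm : AEStronglyMeasurable (fun z => F (a, z)) ν :=
    (hF.comp measurable_prodMk_left).aestronglyMeasurable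
  have h2 : ‖∫ z, F (a, z) ∂ν‖ₑ ≤ eLpNorm (fun z => F (a, z)) q ν := by
    refine (enorm_integral_le_lintegral_enorm _).trans ?_
    rw [← eLpNorm_one_eq_lintegral_enorm]
    exact eLpNorm_le_eLpNorm_of_exponent_le (by exact_mod_cast hq) hm
  refine (ENNReal.rpow_le_rpow h2 hq'.le).trans (le_of_eq ?_)
  rw [eLpNorm_eq_lintegral_rpow_enorm_toReal h0 h1, ← ENNReal.rpow_mul, one_div_mul_cancel hq'.ne',
    ENNReal.rpow_one]

/-- Cauchy-Schwarz -/
theorem cs {f g : α → ℝ} {a b : ℝ≥0} (hf : AEStronglyMeasurable f μ) (hg : AEStronglyMeasurable g μ)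
    (ha : eLpNorm f 2 μ ≤ a) (hb : eLpNorm g 2 μ ≤ b) :
    Integrable (fun x => f x * g x) μ ∧ |∫ x, f x * g x ∂μ| ≤ a * b := by
  have mf : MemLp f 2 μ := ⟨hf, ha.trans_lt ENNReal.coe_lt_top⟩
  have mg : MemLp g 2 μ := ⟨hg, hb.trans_lt ENNReal.coe_lt_top⟩
  refine ⟨mf.integrable_mul mg, ?_⟩
  have h1 : ∫ x, f x * g x ∂μ = inner ℝ (mg.toLp g) (mf.toLp f) := by
    rw [L2.inner_def]
    refine integral_congr_ae ?_
    filter_upwards [mf.coeFn_toLp, mg.coeFn_toLp] with x h h'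
    simp [h, h']
  rw [h1]
  refine (abs_real_inner_le_norm _ _).trans ?_
  rw [Lp.norm_toLp, Lp.norm_toLp, mul_comm]
  exact mul_le_mul (ENNReal.toReal_le_coe_of_le_coe ha) (ENNReal.toReal_le_coe_of_le_coe hb)
    ENNReal.toReal_nonneg a.2

/-- interpolation -/
theorem interp {f : α → ℝ} (hf : Measurable f) {q : ℕ} (hq : 1 ≤ q) {e c : ℝ≥0}
    (h2 : eLpNorm f 2 μ ≤ e) (hc : eLpNorm f (2 * (q - 1) : ℕ) μ ≤ c) [IsProbabilityMeasure μ] :
    eLpNorm f q μ ≤ ((e ^ (1 / (q : ℝ)) * c ^ (((q : ℝ) - 1) / q) : ℝ≥0) : ℝ≥0∞) := by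
  obtain ⟨k, rfl⟩ := Nat.exists_eq_add_of_le' hq
  have h0 : ((k + 1 : ℕ) : ℝ≥0∞) ≠ 0 := by simp
  have h1 : ((k + 1 : ℕ) : ℝ≥0∞) ≠ ⊤ := ENNReal.natCast_ne_top _
  have hk : (0 : ℝ) < (k + 1 : ℕ) := by positivity
  have hA : (∫⁻ x, ‖f x‖ₑ ^ (2 : ℝ) ∂μ) ^ (1 / (2 : ℝ)) ≤ e := by
    rwa [eLpNorm_eq_lintegral_rpow_enorm_toReal two_ne_zero ENNReal.ofNat_ne_top,
      ENNReal.toReal_ofNat] at h2
  have hB : (∫⁻ x, (‖f x‖ₑ ^ (k : ℝ)) ^ (2 : ℝ) ∂μ) ^ (1 / (2 : ℝ)) ≤ (c : ℝ≥0∞) ^ (k : ℝ) := by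
    rcases Nat.eq_zero_or_pos k with rfl | hk0
    · simp
    have g0 : ((2 * k : ℕ) : ℝ≥0∞) ≠ 0 := by simp [hk0.ne']
    have hk1 : (0 : ℝ) < k := by exact_mod_cast hk0
    rw [Nat.add_sub_cancel, eLpNorm_eq_lintegral_rpow_enorm_toReal g0 (ENNReal.natCast_ne_top _),
      ENNReal.toReal_natCast] at hc
    refine le_trans (le_of_eq ?_) (ENNReal.rpow_le_rpow hc hk1.le)
    rw [← ENNReal.rpow_mul]
    congr 1
    · refine lintegral_congr fun x => ?_
      rw [← ENNReal.rpow_mul]; congr 1; push_cast; ring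
    · push_cast; field_simp
  have hH := ENNReal.lintegral_mul_le_Lp_mul_Lq μ (p := 2) (q := 2) Real.HolderConjugate.two_two
    (f := fun x => ‖f x‖ₑ) (g := fun x => ‖f x‖ₑ ^ (k : ℝ)) hf.enorm.aemeasurable
    (hf.enorm.pow_const _).aemeasurable
  rw [eLpNorm_eq_lintegral_rpow_enorm_toReal h0 h1, ENNReal.toReal_natCast]
  have h3 : ∫⁻ x, ‖f x‖ₑ ^ ((k + 1 : ℕ) : ℝ) ∂μ ≤ e * (c : ℝ≥0∞) ^ (k : ℝ) := by
    refine le_trans (le_of_eq (lintegral_congr fun x => ?_)) (hH.trans (mul_le_mul' hA hB))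
    simp only [Pi.mul_apply, ENNReal.rpow_natCast, pow_succ']
  refine (ENNReal.rpow_le_rpow h3 (by positivity)).trans (le_of_eq ?_)
  rw [ENNReal.mul_rpow_of_nonneg _ _ (by positivity), ← ENNReal.rpow_mul, ENNReal.coe_mul,
    ENNReal.coe_rpow_of_nonneg _ (by positivity), ENNReal.coe_rpow_of_nonneg _ (by
      push_cast; rw [add_sub_cancel_right]; positivity)]
  congr 2
  push_cast; rw [add_sub_cancel_right]; ring

end jensen

/-- bounded in every `L^q` and small in `L²` -/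
theorem of_l2 {Ω : ℕ → Type} [∀ n, MeasurableSpace (Ω n)] {T : ℕ → Type} {P : ∀ n, Measure (Ω n)}
    [∀ n, IsProbabilityMeasure (P n)] {A : ∀ n, T n → Prop} {X : ∀ n, T n → Ω n → ℝ}
    (hm : ∀ n t, Measurable (X n t))
    (hB : ∀ q : ℕ, ∃ C : ℝ≥0, ∀ᶠ n in atTop, ∀ t, A n t → eLpNorm (X n t) q (P n) ≤ C)
    {e : ℕ → ℝ≥0} (he : Tendsto e atTop (𝓝 0))
    (h2 : ∀ᶠ n in atTop, ∀ t, A n t → eLpNorm (X n t) 2 (P n) ≤ e n) : Oo P A X := by
  set u : ℕ → ℝ := fun n => e n + 1 / ((n : ℝ) + 1) with hu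
  have u0 : ∀ n, 0 < u n := fun n => by positivity
  have u1 : Tendsto u atTop (𝓝 0) := by
    have := (NNReal.tendsto_coe.2 he).add tendsto_one_div_add_atTop_nhds_zero_nat
    rw [NNReal.coe_zero, add_zero] at this
    exact this
  have u2 : Tendsto (fun n => |Real.log (u n)|) atTop atTop :=
    tendsto_abs_atBot_atTop.comp (Real.tendsto_log_nhdsGT_zero.comp
      (tendsto_nhdsWithin_iff.2 ⟨u1, .of_forall u0⟩))
  refine ⟨fun n => |Real.log (u n)|⁻¹, u2.inv_tendsto_atTop, hm, fun q => ?_⟩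
  rcases Nat.eq_zero_or_pos q with rfl | hq
  · exact ⟨0, .of_forall fun n t _ => by simp⟩
  obtain ⟨c, hc⟩ := hB (2 * (q - 1))
  refine ⟨q * c ^ (((q : ℝ) - 1) / q), ?_⟩
  filter_upwards [hc, h2, u1.eventually (ge_mem_nhds one_pos), u2.eventually_gt_atTop 0]
    with n hc h2 h3 h4 t ht
  refine (interp (hm n t) hq (h2 t ht) (hc t ht)).trans ?_
  rw [← ofReal_norm, ENNReal.ofReal, ← ENNReal.coe_mul, ENNReal.coe_le_coe,
    ← NNReal.coe_le_coe]
  have hq' : (0 : ℝ) < q := by exact_mod_cast hq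
  have h5 := Real.abs_log_mul_self_rpow_lt (u n) (1 / q) (u0 n) h3 (by positivity)
  rw [abs_mul, one_div_one_div, abs_of_pos (Real.rpow_pos_of_pos (u0 n) _)] at h5
  have h6 : (e n : ℝ) ^ (1 / (q : ℝ)) ≤ q * |Real.log (u n)|⁻¹ := by
    refine (Real.rpow_le_rpow (e n).2 (le_add_of_nonneg_right (by positivity) : _ ≤ u n)
      (by positivity)).trans ?_
    rw [← div_eq_mul_inv, le_div_iff₀ h4, mul_comm]
    exact h5.le
  simp only [NNReal.coe_mul, NNReal.coe_rpow, NNReal.coe_natCast, Real.norm_eq_abs, abs_inv, abs_abs,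
    Real.coe_toNNReal _ (inv_nonneg.2 (abs_nonneg _))]
  rw [mul_right_comm]
  exact mul_le_mul_of_nonneg_right h6 (by positivity)

/-! ### rows -/

section rows
variable {n : ℕ} {β ρ : ℝ}

theorem rs_of_not (i : Fin n) (ω : Env n) (z : Fin n → ℝ) {e : Sym2 (Fin n)} (he : i ∉ e) :
    rs i ω z e = ω e := by
  refine Function.extend_apply' _ _ _ ?_
  rintro ⟨l, rfl⟩
  exact he (Sym2.mem_mk_left i l)

theorem RI.rs {i : Fin n} {Y : Env n → ℝ} (h : RI i Y) (ω : Env n) (z : Fin n → ℝ) :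
    Y (rs i ω z) = Y ω := h _ _ fun _ he => rs_of_not i ω z he

theorem RI.ei {k : Fin n} {Y : Env n → ℝ} (h : RI k Y) (l : Fin n) : RI k (Ei β ρ l Y) := by
  intro ω ω' hω
  refine integral_congr_ae (ae_of_all _ fun z => h _ _ fun e he => ?_)
  by_cases hz : ∃ a, s(l, a) = e
  · simp only [Rn.rs, Function.extend_def, dif_pos hz]
  · simp only [Rn.rs, Function.extend_def, dif_neg hz, hω e he]

variable (hM : MpStmt)
include hM

theorem meas_ei (i : Fin n) {Y : Env n → ℝ} (hY : Measurable Y) : Measurable (Ei β ρ i Y) :=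
  ((hY.comp ((hM β ρ n).1 i).measurable).stronglyMeasurable.integral_prod_right').measurable

theorem ei_le (i : Fin n) {Y : Env n → ℝ} (hY : Measurable Y) (q : ℕ) :
    eLpNorm (Ei β ρ i Y) q (PP β ρ n) ≤ eLpNorm Y q (PP β ρ n) := by
  have h := (hM β ρ n).1 i
  rw [← eLpNorm_comp_measurePreserving hY.aestronglyMeasurable h]
  exact eLp_int_le (hY.comp h.measurable) q

theorem dev_le (i : Fin n) {Y : Env n → ℝ} (hY : Measurable Y) {q : ℕ} {c : ℝ≥0}
    (h : eLpNorm Y q (PP β ρ n) ≤ c) :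
    eLpNorm (fun ω => Y ω - Ei β ρ i Y ω) q (PP β ρ n) ≤ (2 * c : ℝ≥0) := by
  rcases Nat.eq_zero_or_pos q with rfl | hq
  · simp
  refine (eLpNorm_sub_le hY.aestronglyMeasurable (meas_ei hM i hY).aestronglyMeasurable
    (by exact_mod_cast hq)).trans ?_
  rw [two_mul, ENNReal.coe_add]
  exact add_le_add h ((ei_le hM i hY q).trans h)

/-- orthogonality -/
theorem orth (k : Fin n) {X Y : Env n → ℝ} (hX : Measurable X) (hY : Measurable Y) (hk : RI k Y)
    {a b : ℝ≥0} (ha : eLpNorm X 2 (PP β ρ n) ≤ a) (hb : eLpNorm Y 2 (PP β ρ n) ≤ b) :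
    ∫ ω, Y ω * (X ω - Ei β ρ k X ω) ∂PP β ρ n = 0 := by
  have h := (hM β ρ n).1 k
  have i1 := (cs hY.aestronglyMeasurable hX.aestronglyMeasurable hb ha).1
  have i2 := (cs hY.aestronglyMeasurable (meas_ei hM k hX).aestronglyMeasurable hb
    ((ei_le hM k hX 2).trans ha)).1
  simp only [mul_sub]
  rw [integral_sub i1 i2, sub_eq_zero, ← h.map_eq, integral_map (f := fun ω => Y ω * X ω)
    h.measurable.aemeasurable (hY.mul hX).aestronglyMeasurable, h.map_eq,
    integral_prod (fun p : Env n × (Fin n → ℝ) => Y (rs k p.1 p.2) * X (rs k p.1 p.2))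
      (h.integrable_comp_of_integrable i1)]
  refine integral_congr_ae (ae_of_all _ fun ω => ?_)
  simp only [RI.rs hk, integral_const_mul, Ei]

/-- the second moment of a sum -/
theorem sum_sq (S : Finset (Fin n)) {X : Fin n → Env n → ℝ} {X' : Fin n → Fin n → Env n → ℝ}
    (hX : ∀ l, Measurable (X l)) (hX' : ∀ l k, Measurable fun ω => X l ω - X' l k ω) {c d : ℝ≥0}
    (hc : ∀ l ∈ S, eLpNorm (X l) 2 (PP β ρ n) ≤ c)
    (hR : ∀ l ∈ S, ∀ k ∈ S, l ≠ k → RI k (X' l k))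
    (hd : ∀ l ∈ S, ∀ k ∈ S, l ≠ k → eLpNorm (fun ω => X l ω - X' l k ω) 2 (PP β ρ n) ≤ d) :
    ∫ ω, (∑ l ∈ S, (X l ω - Ei β ρ l (X l) ω)) ^ 2 ∂PP β ρ n ≤ 4 * n * c ^ 2 + 4 * n ^ 2 * (d * c) := by
  classical
  set D : Fin n → Env n → ℝ := fun l ω => X l ω - Ei β ρ l (X l) ω with hD
  have mD : ∀ l, Measurable (D l) := fun l => (hX l).sub (meas_ei hM l (hX l))
  have bD : ∀ l ∈ S, eLpNorm (D l) 2 (PP β ρ n) ≤ (2 * c : ℝ≥0) := fun l hl =>
    dev_le hM l (hX l) (q := 2) (hc l hl)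
  have h1 : ∀ l ∈ S, ∀ k ∈ S, ∫ ω, D l ω * D k ω ∂PP β ρ n ≤
      (if l = k then 4 * (c : ℝ) ^ 2 else 0) + 4 * (d * c) := by
    intro l hl k hk
    by_cases e : l = k
    · have := (cs (mD l).aestronglyMeasurable (mD k).aestronglyMeasurable (bD l hl) (bD k hk)).2
      rw [if_pos e]
      push_cast at this
      have h0 : (0 : ℝ) ≤ d * c := by positivity
      nlinarith [le_abs_self (∫ ω, D l ω * D k ω ∂PP β ρ n)]
    · set U : Env n → ℝ := fun ω => X l ω - X' l k ω with hU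
      have mX' : Measurable (X' l k) := by
        have := (hX l).sub (hX' l k)
        rwa [show X l - (fun ω => X l ω - X' l k ω) = X' l k from funext fun ω => by simp] at this
      have bX' : eLpNorm (X' l k) 2 (PP β ρ n) ≤ (c + d : ℝ≥0) := by
        have := eLpNorm_sub_le (μ := PP β ρ n) (hX l).aestronglyMeasurable
          (hX' l k).aestronglyMeasurable (p := 2) (by norm_num)
        rw [show X l - (fun ω => X l ω - X' l k ω) = X' l k from funext fun ω => by simp] at this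
        rw [ENNReal.coe_add]
        exact this.trans (add_le_add (hc l hl) (hd l hl k hk e))
      set Y : Env n → ℝ := fun ω => X' l k ω - Ei β ρ l (X' l k) ω with hY
      have mY : Measurable Y := mX'.sub (meas_ei hM l mX')
      have bY : eLpNorm Y 2 (PP β ρ n) ≤ (2 * (c + d) : ℝ≥0) := dev_le hM l mX' (q := 2) bX'
      have rY : RI k Y := fun ω ω' h => by
        simp only [hY, hR l hl k hk e ω ω' h, RI.ei (hR l hl k hk e) l ω ω' h]
      have o := orth hM k (hX k) mY rY (hc k hk) bY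
      set V : Env n → ℝ := fun ω => U ω - Ei β ρ l U ω with hV
      have mV : Measurable V := (hX' l k).sub (meas_ei hM l (hX' l k))
      have bV : eLpNorm V 2 (PP β ρ n) ≤ (2 * d : ℝ≥0) :=
        dev_le hM l (hX' l k) (q := 2) (hd l hl k hk e)
      have hp := (hM β ρ n).1 l
      have int1 : ∀ {Z : Env n → ℝ} {a : ℝ≥0}, Measurable Z → eLpNorm Z 2 (PP β ρ n) ≤ a →
          ∀ᵐ ω ∂PP β ρ n, Integrable (fun z => Z (rs l ω z)) (PR β ρ l) := fun mZ bZ =>
        (hp.integrable_comp_of_integrable ((MemLp.integrable (by norm_num)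
          ⟨mZ.aestronglyMeasurable, bZ.trans_lt ENNReal.coe_lt_top⟩))).prod_right_ae
      have dec : ∀ᵐ ω ∂PP β ρ n, D l ω * D k ω = V ω * D k ω + Y ω * D k ω := by
        filter_upwards [int1 (hX l) (hc l hl), int1 mX' bX'] with ω g1 g2
        simp only [hD, hV, hY, hU, Ei, integral_sub g1 g2]
        ring
      have c1 := cs mV.aestronglyMeasurable (mD k).aestronglyMeasurable bV (bD k hk)
      have c2 := cs mY.aestronglyMeasurable (mD k).aestronglyMeasurable bY (bD k hk)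
      rw [integral_congr_ae dec, integral_add c1.1 c2.1, if_neg e, o]
      have := c1.2
      push_cast at this
      nlinarith [le_abs_self (∫ ω, V ω * D k ω ∂PP β ρ n)]
  have h2 : ∀ l ∈ S, ∀ k ∈ S, Integrable (fun ω => D l ω * D k ω) (PP β ρ n) := fun l hl k hk =>
    (cs (mD l).aestronglyMeasurable (mD k).aestronglyMeasurable (bD l hl) (bD k hk)).1
  have hS : (S.card : ℝ) ≤ n := by exact_mod_cast (by simpa using S.card_le_univ : S.card ≤ n)
  calc ∫ ω, (∑ l ∈ S, D l ω) ^ 2 ∂PP β ρ n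
      = ∑ l ∈ S, ∑ k ∈ S, ∫ ω, D l ω * D k ω ∂PP β ρ n := by
        simp only [sq, Finset.sum_mul_sum]
        rw [integral_finsetSum _ fun l hl => integrable_finsetSum _ (h2 l hl)]
        exact Finset.sum_congr rfl fun l hl => integral_finsetSum _ (h2 l hl)
    _ ≤ ∑ l ∈ S, ∑ k ∈ S, ((if l = k then 4 * (c : ℝ) ^ 2 else 0) + 4 * ((d : ℝ) * c)) :=
        Finset.sum_le_sum fun l hl => Finset.sum_le_sum fun k hk => h1 l hl k hk
    _ = ∑ l ∈ S, (4 * (c : ℝ) ^ 2 + S.card * (4 * (d * c))) :=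
        Finset.sum_congr rfl fun l hl => by
          rw [Finset.sum_add_distrib, Finset.sum_ite_eq, if_pos hl, Finset.sum_const, nsmul_eq_mul]
    _ = S.card * (4 * (c : ℝ) ^ 2) + S.card * S.card * (4 * (d * c)) := by
        rw [Finset.sum_const, nsmul_eq_mul]; ring
    _ ≤ n * (4 * (c : ℝ) ^ 2) + n * n * (4 * (d * c)) := by gcongr
    _ = _ := by ring

end rows

theorem eLp_two_le {α : Type*} [MeasurableSpace α] {μ : Measure α} {f : α → ℝ} (hf : MemLp f 2 μ)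
    {a : ℝ} (h : ∫ x, f x ^ 2 ∂μ ≤ a) : eLpNorm f 2 μ ≤ NNReal.sqrt a.toNNReal := by
  rw [hf.eLpNorm_eq_integral_rpow_norm two_ne_zero ENNReal.ofNat_ne_top, ENNReal.ofReal,
    ENNReal.coe_le_coe, ← NNReal.coe_le_coe, Real.coe_toNNReal _ (by positivity), Real.coe_sqrt,
    ENNReal.toReal_ofNat, ← one_div, ← Real.sqrt_eq_rpow]
  refine Real.sqrt_le_sqrt (le_trans (le_of_eq ?_) (h.trans (Real.le_coe_toNNReal a)))
  simp

/-! ### Gaussian averages -/

theorem law2 {m k l : ℕ} {W : Matrix (Fin m) (Fin k) ℝ} {S : Matrix (Fin m) (Fin l) ℝ}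
    (h : W * Wᵀ = S * Sᵀ) : (gam k).map (mv W) = (gam l).map (mv S) := by
  refine Measure.ext_of_charFun (funext fun t => ?_)
  rw [charFun_apply, charFun_apply, integral_map (by fun_prop) (by fun_prop),
    integral_map (by fun_prop) (by fun_prop)]
  simp_rw [M1.inner_mv]
  rw [← charFun_apply, ← charFun_apply, charFun_stdGaussian, charFun_stdGaussian]
  have h2 : ‖mv Wᵀ t‖ ^ 2 = ‖mv Sᵀ t‖ ^ 2 := by rw [M1.norm_mv, M1.norm_mv, h]
  have h3 : ((‖mv Wᵀ t‖ : ℝ) : ℂ) ^ 2 = ((‖mv Sᵀ t‖ : ℝ) : ℂ) ^ 2 := by exact_mod_cast h2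
  rw [h3]

theorem cont_av {m : ℕ} {φ : E m → ℝ} (hc : Continuous φ) (hφ : PG φ) :
    Continuous fun p : (E m →L[ℝ] E m) × E m => ∫ x, φ (p.1 x + p.2) ∂gam m := by
  obtain ⟨K, j, hK0, hK⟩ := pg_nonneg hφ
  refine continuous_iff_continuousAt.2 fun p0 => ?_
  refine continuousAt_of_dominated
    (bound := fun x => K * (2 + ‖p0‖) ^ j * (1 + ‖x‖) ^ j)
    (Eventually.of_forall fun p => (hc.comp (by fun_prop)).aestronglyMeasurable) ?_
    ((integrable_pow_stdGaussian j).const_mul _) (ae_of_all _ fun x => ?_)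
  · filter_upwards [Metric.ball_mem_nhds p0 one_pos] with p hp
    refine ae_of_all _ fun x => (hK _).trans ?_
    have h1 : ‖p‖ ≤ ‖p0‖ + 1 := by
      have := norm_sub_norm_le p p0
      rw [Metric.mem_ball, dist_eq_norm] at hp
      linarith
    have h2 : ‖p.1 x + p.2‖ ≤ ‖p‖ * ‖x‖ + ‖p‖ :=
      (norm_add_le _ _).trans (add_le_add ((p.1.le_opNorm x).trans
        (mul_le_mul_of_nonneg_right (norm_fst_le p) (norm_nonneg _))) (norm_snd_le p))
    rw [mul_assoc, ← mul_pow]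
    refine mul_le_mul_of_nonneg_left (pow_le_pow_left₀ (by positivity) ?_ _) hK0
    nlinarith [norm_nonneg x, mul_le_mul_of_nonneg_right h1 (norm_nonneg x)]
  · exact (hc.comp (by fun_prop)).continuousAt

theorem sqrt_near {m : ℕ} {M : Matrix (Fin m) (Fin m) ℝ} (hM : M.PosSemidef) {δ : ℝ}
    (h : ∀ a a', |M a a' - if a = a' then 1 else 0| ≤ δ) :
    ∃ S : Matrix (Fin m) (Fin m) ℝ, M = S * Sᵀ ∧ ∀ a a', (S a a' - (1 : Matrix _ _ ℝ) a a') ^ 2 ≤ m * δ ^ 2 := by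
  have hS : (CFC.sqrt M).PosSemidef := nonneg_iff_posSemidef.1 (CFC.sqrt_nonneg M)
  have hSS : CFC.sqrt M * CFC.sqrt M = M := CFC.sqrt_mul_sqrt_self M hM.nonneg
  generalize CFC.sqrt M = S at hS hSS
  have hT : Sᵀ = S := by simpa using hS.1.eq
  refine ⟨S, by rw [hT, hSS], fun a a' => ?_⟩
  set u : Fin m → ℝ := (S - 1) *ᵥ Pi.single a' 1 with hu
  set v : Fin m → ℝ := (M - 1) *ᵥ Pi.single a' 1 with hv
  have h1 : S *ᵥ u + u = v := by
    rw [hu, hv, mulVec_mulVec, ← add_mulVec, ← hSS]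
    congr 1
    noncomm_ring
  have h2 : 0 ≤ u ⬝ᵥ S *ᵥ u := by simpa using hS.dotProduct_mulVec_nonneg u
  have h3 : u ⬝ᵥ u ≤ u ⬝ᵥ v := by rw [← h1, dotProduct_add]; linarith
  have h4 : u ⬝ᵥ u ≤ v ⬝ᵥ v := by
    have : 0 ≤ (u - v) ⬝ᵥ (u - v) := Finset.sum_nonneg fun i _ => mul_self_nonneg _
    rw [sub_dotProduct, dotProduct_sub, dotProduct_sub, dotProduct_comm v u] at this
    linarith
  have h5 : v ⬝ᵥ v ≤ m * δ ^ 2 := by
    have : ∀ b, v b * v b ≤ δ ^ 2 := fun b => by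
      have e : v b = M b a' - if b = a' then 1 else 0 := by simp [hv, one_apply]
      rw [← sq, e]
      exact sq_le_sq' (abs_le.1 (h b a')).1 (abs_le.1 (h b a')).2
    simpa [dotProduct] using Finset.sum_le_card_nsmul Finset.univ _ _ fun b _ => this b
  have h6 : u a * u a ≤ u ⬝ᵥ u :=
    Finset.single_le_sum (f := fun i => u i * u i) (fun i _ => mul_self_nonneg _) (Finset.mem_univ a)
  have e : u a = S a a' - (1 : Matrix _ _ ℝ) a a' := by simp [hu]
  rw [← e, sq]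
  linarith

end Cav89

open Cav89

theorem gcStmt : GcStmt := by
  intro m φ hφ g ε hε
  have hc : Continuous φ := hφ.1.cont
  have c1 : Continuous fun S : Fin m → Fin m → ℝ => mv (Matrix.of S) :=
    LinearMap.continuous_of_finiteDimensional
      ((LinearMap.toContinuousLinearMap (𝕜 := ℝ) (E := E m) (F' := E m)).toLinearMap ∘ₗ
        (Matrix.toEuclideanLin (𝕜 := ℝ) (m := Fin m) (n := Fin m)).toLinearMap ∘ₗ
        (Matrix.ofLinearEquiv ℝ).toLinearMap)
  have c2 : Continuous fun p : (Fin m → Fin m → ℝ) × (Fin m → ℝ) =>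
      ∫ x, φ (mv (Matrix.of p.1) x + WithLp.toLp 2 p.2) ∂gam m :=
    (cont_av hc hφ.1.g).comp (f := fun p : (Fin m → Fin m → ℝ) × (Fin m → ℝ) =>
      (mv (Matrix.of p.1), WithLp.toLp 2 p.2)) ((c1.comp continuous_fst).prodMk (by fun_prop))
  obtain ⟨δ, hδ, h⟩ := Metric.continuousAt_iff.1
    (c2.continuousAt (x := (fun a a' => (1 : Matrix _ _ ℝ) a a', g.ofLp))) ε hε
  refine ⟨δ / (m + 2), by positivity, fun N W μ hμ hW => ?_⟩
  obtain ⟨S, hS, hS1⟩ := sqrt_near (by simpa using posSemidef_self_mul_conjTranspose W) hW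
  have hm : (0 : ℝ) ≤ m := m.cast_nonneg
  have hlt : δ / (m + 2) < δ := div_lt_self hδ (by linarith)
  have := @h (fun a a' => S a a', μ.ofLp) (by
    rw [Prod.dist_eq, max_lt_iff]
    refine ⟨(dist_pi_lt_iff hδ).2 fun a => (dist_pi_lt_iff hδ).2 fun a' => ?_,
      (dist_pi_lt_iff hδ).2 fun a => (hμ a).trans_lt hlt⟩
    refine abs_lt_of_sq_lt_sq ((hS1 a a').trans_lt ?_) hδ.le
    rw [div_pow, ← mul_div_assoc, div_lt_iff₀ (by positivity)]
    nlinarith [mul_pos (pow_pos hδ 2) (by positivity : (0 : ℝ) < (m : ℝ) ^ 2 + 3 * m + 4)])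
  rw [Real.dist_eq] at this
  refine le_trans (le_of_eq ?_) this.le
  have hφμ : Continuous fun x : E m => φ (x + μ) := hc.comp (by fun_prop)
  have e1 : ∫ z, φ (WithLp.toLp 2 (W *ᵥ z) + μ) ∂gv (Fin N) = ∫ x, φ (mv S x + μ) ∂gam m := by
    rw [← integral_map (μ := gam m) (φ := mv S) (f := fun x => φ (x + μ)) (by fun_prop)
      hφμ.aestronglyMeasurable, ← law2 hS, integral_map (by fun_prop) hφμ.aestronglyMeasurable,
      gam, ← map_pi_eq_stdGaussian, integral_map (f := fun x => φ (mv W x + μ)) (by fun_prop)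
        (hφμ.comp (mv W).continuous).aestronglyMeasurable]
    rfl
  have e2 : ∀ x : E m, mv (Matrix.of fun a a' => (1 : Matrix (Fin m) (Fin m) ℝ) a a') x = x :=
    fun x => by ext i; rw [M1.mv_apply]; simp [one_apply]
  simp only [e1, e2]
  rfl

theorem cavGlue : CavGlue := by
  intro hM β ρ T A
  refine ⟨fun a i X hX => ⟨fun n t => meas_ei hM _ (hX.1 n t), fun q => ?_⟩, ?_⟩
  · obtain ⟨C, hC⟩ := hX.2 q
    exact ⟨C, hC.mono fun n hn t ht => (ei_le hM _ (hX.1 n t) q).trans (hn t ht)⟩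
  intro S X X' hX hR hO
  obtain ⟨d, hd, hO⟩ := hO
  have mX : ∀ n t l, Measurable (X n t l) := fun n t l => hX.1 n (t, l)
  have mD : ∀ n t l, Measurable fun ω => X n t l ω - Ei β ρ l (X n t l) ω := fun n t l =>
    (mX n t l).sub (meas_ei hM l (mX n t l))
  have mS : ∀ n t, Measurable fun ω => (∑ l ∈ S n t, (X n t l ω - Ei β ρ l (X n t l) ω)) / n :=
    fun n t => (Finset.measurable_sum _ fun l _ => mD n t l).div_const _
  have bX : ∀ q : ℕ, ∃ C : ℝ≥0, ∀ᶠ n in atTop, ∀ t, A n t → ∀ l ∈ S n t,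
      eLpNorm (X n t l) q (PP β ρ n) ≤ C := fun q => by
    obtain ⟨C, hC⟩ := hX.2 q
    refine ⟨C, hC.mono fun n hn t ht l hl => ?_⟩
    simpa [rt] using hn (t, l) ⟨ht, hl⟩
  have bS : ∀ q : ℕ, ∃ C : ℝ≥0, ∀ᶠ n in atTop, ∀ t, A n t → eLpNorm
      (fun ω => (∑ l ∈ S n t, (X n t l ω - Ei β ρ l (X n t l) ω)) / n) q (PP β ρ n) ≤ C := fun q => by
    rcases Nat.eq_zero_or_pos q with rfl | hq
    · exact ⟨0, .of_forall fun n t _ => by simp⟩
    obtain ⟨C, hC⟩ := bX q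
    refine ⟨2 * C, ?_⟩
    filter_upwards [hC, eventually_gt_atTop 0] with n hn hn0 t ht
    have e : (fun ω => (∑ l ∈ S n t, (X n t l ω - Ei β ρ l (X n t l) ω)) / n) =
        (n : ℝ)⁻¹ • ∑ l ∈ S n t, fun ω => X n t l ω - Ei β ρ l (X n t l) ω := by
      funext ω; simp [div_eq_inv_mul, Finset.sum_apply]
    rw [e, eLpNorm_const_smul]
    have h1 := (eLpNorm_sum_le (μ := PP β ρ n) (s := S n t)
      (fun l _ => (mD n t l).aestronglyMeasurable) (p := q) (by exact_mod_cast hq)).trans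
      (Finset.sum_le_card_nsmul _ _ _ fun l hl => dev_le hM l (mX n t l) (hn t ht l hl))
    have h2 : ((S n t).card : ℝ≥0∞) ≤ n := by
      exact_mod_cast (by simpa using (S n t).card_le_univ : (S n t).card ≤ n)
    rw [nsmul_eq_mul] at h1
    refine (mul_le_mul_right (h1.trans (mul_le_mul_left h2 _)) _).trans (le_of_eq ?_)
    rw [← mul_assoc, enorm_inv (by positivity), Real.enorm_natCast, ENNReal.inv_mul_cancel
      (by exact_mod_cast hn0.ne') (ENNReal.natCast_ne_top n), one_mul]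
  obtain ⟨c, hc⟩ := bX 2
  obtain ⟨c', hc'⟩ := hO.2 2
  obtain ⟨c2, hc2⟩ := bS 2
  refine of_l2 mS bS
    (e := fun n => NNReal.sqrt (4 * (c : ℝ) ^ 2 / n + 4 * ((c' * ‖d n‖₊ : ℝ≥0) * c)).toNNReal) ?_ ?_
  · have h1 : Tendsto (fun n : ℕ => 4 * (c : ℝ) ^ 2 / n + 4 * ((c' * ‖d n‖) * c)) atTop (𝓝 0) := by
      have := (tendsto_const_div_atTop_nhds_zero_nat (4 * (c : ℝ) ^ 2)).add
        (((hd.norm.const_mul (c' : ℝ)).mul_const (c : ℝ)).const_mul 4)
      simpa using this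
    have := (NNReal.continuous_sqrt.tendsto _).comp ((continuous_real_toNNReal.tendsto _).comp h1)
    simpa [Function.comp_def] using this
  · filter_upwards [hc, hc', hc2, eventually_gt_atTop 0] with n hn hn' hn2 hn0 t ht
    refine eLp_two_le ⟨(mS n t).aestronglyMeasurable, (hn2 t ht).trans_lt ENNReal.coe_lt_top⟩ ?_
    have h1 := sum_sq hM (β := β) (ρ := ρ) (S n t) (mX n t) (X' := X' n t)
      (fun l k => hO.1 n (t, l, k)) (hn t ht) (hR n t ht) (d := c' * ‖d n‖₊)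
      fun l hl k hk e => hn' (t, l, k) ⟨ht, hl, hk, e⟩
    have hn1 : (0 : ℝ) < n := by exact_mod_cast hn0
    simp only [div_pow, integral_div]
    rw [div_le_iff₀ (by positivity)]
    refine h1.trans (le_of_eq ?_)
    field_simp

end Crest.Agent.T157.Rn

end
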