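import Crest.Agent.T157.RnOb_60

/-!
# Row 157, block B/R (helper80): carré du champ and generator of local functions
-/

set_option autoImplicit false

noncomputable section

namespace Crest.Agent.T157.Rn

open MeasureTheory ProbabilityTheory Real Matrix Filter Topology Finset
open Crest.ProbabilityR.SpinGlassDynamics
open Crest.Agent.R238.Gap Crest.Agent.R238.GapPc Crest.Agent.R253.Meh74
open Crest.Agent.T157.E (Cube)
open Crest.Agent.T157.Tw
open Crest.Agent.T157.Pl (one)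

namespace G80

variable {β ρ : ℝ} {n m : ℕ} {T : ℕ → Type} {A : ∀ n, T n → Prop}

lemma fl_ne (σ : Cube n) {k i : Fin n} (h : k ≠ i) : fl σ k i = σ i :=
  Function.update_of_ne h.symm _ _

lemma fl_one (l : Fin n) : fl (one n) l l = false := by simp [fl, Pl.one]

lemma one_ap (l : Fin n) : one n l = true := rfl

/-- first order term -/
def L1 (φ : E m → ℝ) (x y : E m) : ℝ := ∑ a, pd a φ x * (y a - x a)
/-- second order term -/
def L2 (φ : E m → ℝ) (x y : E m) : ℝ := ∑ a, ∑ a', pd a (pd a' φ) x * ((y a - x a) * (y a' - x a'))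

lemma L1_self (φ : E m → ℝ) (x : E m) : L1 φ x x = 0 := by simp [L1]
lemma L2_self (φ : E m → ℝ) (x : E m) : L2 φ x x = 0 := by simp [L2]

lemma cont : ∀ {k : ℕ} {φ : E m → ℝ}, Tm k φ → Continuous φ
  | 0, _, h => h.1
  | _ + 1, _, h => h.1.cont

section tay
variable {X : Fm m} (hT : TayStmt) (h : Net β ρ X) (I : ∀ n, T n → Finset (Fin n))
  (i k : ∀ n, T n → Fin n) {φ : E m → ℝ}
include h

lemma b0 (σ : ∀ n, T n → Cube n) (a : Fin m) :
    Ob (PP β ρ) (rt 0) A fun n t ω => X n (I n t) (i n t) (σ n t) ω a :=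
  (h.B a).reindex (fun n t => ⟨I n t, σ n t, i n t, i n t, i n t⟩) fun _ _ _ => trivial

lemma d1 (hA : ∀ n t, A n t → k n t ≠ i n t) (a : Fin m) : Ob (PP β ρ) (rt (-1)) A fun n t ω =>
    X n (I n t) (i n t) (fl (one n) (k n t)) ω a - X n (I n t) (i n t) (one n) ω a :=
  ((h.F a).reindex (fun n t => ⟨I n t, one n, i n t, i n t, k n t⟩) hA).neg.congr'
    fun _ _ _ => neg_sub _ _

include hT

lemma t0 (hφ : Tm 0 φ) : Ob (PP β ρ) (rt 0) A fun n t ω => φ (X n (I n t) (i n t) (one n) ω) :=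
  (hT β ρ T A m φ _ (b0 h I i fun n _ => one n)).1 hφ

variable (hA : ∀ n t, A n t → k n t ≠ i n t)
include hA

lemma t1 (hφ : Tm 1 φ) : Ob (PP β ρ) (rt (-1)) A fun n t ω =>
    φ (X n (I n t) (i n t) (fl (one n) (k n t)) ω) - φ (X n (I n t) (i n t) (one n) ω) :=
  ((hT β ρ T A m φ _ (b0 h I i fun n _ => one n)).2 _ _ (b0 h I i fun n t => fl (one n) (k n t))
    (d1 h I i k hA)).1 hφ

lemma t2 (hφ : Tm 2 φ) : Ob (PP β ρ) (rt (-2)) A fun n t ω =>
    φ (X n (I n t) (i n t) (fl (one n) (k n t)) ω) - φ (X n (I n t) (i n t) (one n) ω) -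
      L1 φ (X n (I n t) (i n t) (one n) ω) (X n (I n t) (i n t) (fl (one n) (k n t)) ω) :=
  (((hT β ρ T A m φ _ (b0 h I i fun n _ => one n)).2 _ _ (b0 h I i fun n t => fl (one n) (k n t))
    (d1 h I i k hA)).2.1 hφ).powR

lemma t3 (hφ : Tm 3 φ) : Ob (PP β ρ) (rt (-3)) A fun n t ω =>
    φ (X n (I n t) (i n t) (fl (one n) (k n t)) ω) - φ (X n (I n t) (i n t) (one n) ω) -
      L1 φ (X n (I n t) (i n t) (one n) ω) (X n (I n t) (i n t) (fl (one n) (k n t)) ω) -
      L2 φ (X n (I n t) (i n t) (one n) ω) (X n (I n t) (i n t) (fl (one n) (k n t)) ω) / 2 :=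
  (((hT β ρ T A m φ _ (b0 h I i fun n _ => one n)).2 _ _ (b0 h I i fun n t => fl (one n) (k n t))
    (d1 h I i k hA)).2.2 hφ).powR

lemma l1 (hφ : ∀ a, Tm 0 (pd a φ)) : Ob (PP β ρ) (rt (-1)) A fun n t ω =>
    L1 φ (X n (I n t) (i n t) (one n) ω) (X n (I n t) (i n t) (fl (one n) (k n t)) ω) :=
  Ob.fsum fun a => (t0 hT h I i (hφ a)).mul_left (d1 h I i k hA a)

end tay

lemma ob_pk (I : ∀ n, T n → Finset (Fin n)) (k : ∀ n, T n → Fin n) :
    Ob (PP β ρ) (rt 0) A fun n t ω => pk β ρ (I n t) (k n t) (one n) ω :=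
  Ob.bdd (fun _ _ => measurable_pk _ _ _ _ _) 1 (.of_forall fun _ _ _ _ => abs_pk_le _ _ _ _ _ _)

lemma sumP (S : ∀ n, T n → Finset (Fin n)) {Z : ∀ n, T n × Fin n → Env n → ℝ}
    (h : Ob (PP β ρ) (rt (-3)) (fun n (p : T n × Fin n) => A n p.1 ∧ p.2 ∈ S n p.1) Z) :
    Oo (PP β ρ) A fun n t ω => ∑ l ∈ S n t, Z n (t, l) ω :=
  (Ob.sumR (p := -3) (s := -1) S (Z := fun n t l => Z n (t, l)) h).oo

lemma meas_Gm (I : Finset (Fin n)) {f g : Cube n → Env n → ℝ} (hf : ∀ σ, Measurable (f σ))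
    (hg : ∀ σ, Measurable (g σ)) (σ : Cube n) :
    Measurable fun ω => Gm β ρ I (fun σ => f σ ω) (fun σ => g σ ω) σ ω :=
  Finset.measurable_sum _ fun _ _ => (measurable_pk _ _ _ _ _).mul
    (((hf _).sub (hf _)).mul ((hg _).sub (hg _)))

lemma meas_nL (I : Finset (Fin n)) {f : Cube n → Env n → ℝ} (hf : ∀ σ, Measurable (f σ))
    (σ : Cube n) : Measurable fun ω => nL β ρ I (fun σ => f σ ω) σ ω :=
  Finset.measurable_sum _ fun _ _ => (measurable_pk _ _ _ _ _).mul ((hf _).sub (hf _))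

lemma sum3 {ι κ κ' : Type*} [Fintype κ] [Fintype κ'] (S : Finset ι) (f : ι → κ → κ' → ℝ) :
    ∑ k ∈ S, ∑ a, ∑ a', f k a a' = ∑ a, ∑ a', ∑ k ∈ S, f k a a' :=
  sum_comm.trans (sum_congr rfl fun _ _ => sum_comm)

variable {b : Bath} {X : Fm b.m}

lemma gm_lin (h : X0 β ρ b X) (φ ψ : E b.m → ℝ) (I : Finset (Fin n)) (i j : Fin n) (ω : Env n) :
    ∑ k ∈ (I.erase i).erase j, pk β ρ I k (one n) ω *
      (L1 φ (X n I i (one n) ω) (X n I i (fl (one n) k) ω) *
        L1 ψ (X n I j (one n) ω) (X n I j (fl (one n) k) ω)) =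
    ∑ a, ∑ a', pd a φ (X n I i (one n) ω) * pd a' ψ (X n I j (one n) ω) *
      Gm β ρ I (fun σ => X n I i σ ω a) (fun σ => X n I j σ ω a') (one n) ω := by
  rw [sum_subset ((erase_subset _ _).trans (erase_subset _ _)) fun k hk hk' => by
    by_cases h1 : k = j
    · rw [h1, h.ind, L1_self, mul_zero, mul_zero]
    · obtain rfl : k = i := by_contra fun h2 => hk' (mem_erase.2 ⟨h1, mem_erase.2 ⟨h2, hk⟩⟩)
      rw [h.ind, L1_self, zero_mul, mul_zero]]
  simp only [L1, Gm, sum_mul_sum]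
  simp only [mul_sum]
  rw [sum3]
  exact sum_congr rfl fun _ _ => sum_congr rfl fun _ _ => sum_congr rfl fun _ _ => by ring

lemma core (hT : TayStmt) (hS : SmStmt) (h : X0 β ρ b X) {φ ψ : E b.m → ℝ} (hφ : Tm 2 φ)
    (hψ : Tm 2 ψ) (I : ∀ n, T n → Finset (Fin n)) (i j : ∀ n, T n → Fin n) :
    Oo (PP β ρ) A fun n t ω => ∑ k ∈ ((I n t).erase (i n t)).erase (j n t),
      pk β ρ (I n t) k (one n) ω *
        ((φ (X n (I n t) (i n t) (one n) ω) - φ (X n (I n t) (i n t) (fl (one n) k) ω)) *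
          (ψ (X n (I n t) (j n t) (one n) ω) - ψ (X n (I n t) (j n t) (fl (one n) k) ω))) -
      ∑ a, ∑ a', pd a φ (X n (I n t) (i n t) (one n) ω) * pd a' ψ (X n (I n t) (j n t) (one n) ω) *
        Gm β ρ (I n t) (fun σ => X n (I n t) (i n t) σ ω a) (fun σ => X n (I n t) (j n t) σ ω a')
          (one n) ω := by
  have hi : ∀ n (p : T n × Fin n), A n p.1 ∧ p.2 ∈ ((I n p.1).erase (i n p.1)).erase (j n p.1) →
      p.2 ≠ i n p.1 := fun n p hp => ne_of_mem_erase (mem_of_mem_erase hp.2)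
  have hj : ∀ n (p : T n × Fin n), A n p.1 ∧ p.2 ∈ ((I n p.1).erase (i n p.1)).erase (j n p.1) →
      p.2 ≠ j n p.1 := fun n p hp => ne_of_mem_erase hp.2
  have a1 := (t2 hT h.net (T := fun n => T n × Fin n) (fun n p => I n p.1) (fun n p => i n p.1)
    (fun n p => p.2) hi hφ).mulR (t1 hT h.net (T := fun n => T n × Fin n) (fun n p => I n p.1)
      (fun n p => j n p.1) (fun n p => p.2) hj (hS.mono _ _ _ hψ)) (s := -3)
  have a2 := (l1 hT h.net (T := fun n => T n × Fin n) (fun n p => I n p.1) (fun n p => i n p.1)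
    (fun n p => p.2) hi fun a => hS.mono _ _ _ (hφ.2 a)).mulR (t2 hT h.net
      (T := fun n => T n × Fin n) (fun n p => I n p.1) (fun n p => j n p.1) (fun n p => p.2) hj hψ)
      (s := -3)
  have a3 := (ob_pk (T := fun n => T n × Fin n) (fun n p => I n p.1) fun n p => p.2).mul_left
    (a1.add a2)
  refine (sumP (fun n t => ((I n t).erase (i n t)).erase (j n t)) a3).congr' fun n t ω => ?_
  rw [← gm_lin h, ← sum_sub_distrib]
  exact sum_congr rfl fun _ _ => by ring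

lemma site (h : X0 β ρ b X) (I : Finset (Fin n)) (i : Fin n) (ω : Env n) :
    pk β ρ I i (one n) ω = hb (fld b 0 (X n I i (one n) ω)) false := by rw [pk, h.fld]; rfl

lemma meas_loc (h : X0 β ρ b X) {F : Bool → E b.m → ℝ} (hF : ∀ s, Continuous (F s))
    (I : Finset (Fin n)) (i : Fin n) (σ : Cube n) : Measurable fun ω => F (σ i) (X n I i σ ω) :=
  (hF _).measurable.comp (h.net.meas _ _ _ _)

lemma add2 {I : Finset (Fin n)} {i j : Fin n} (hi : i ∈ I) (hj : j ∈ I) (hij : i ≠ j)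
    (f : Fin n → ℝ) : f i + f j + ∑ k ∈ (I.erase i).erase j, f k = ∑ k ∈ I, f k := by
  rw [← add_sum_erase _ _ hi, ← add_sum_erase _ _ (mem_erase.2 ⟨hij.symm, hj⟩), add_assoc]

lemma Gm_split (F G : Bool → E b.m → ℝ) {I S : Finset (Fin n)} {i j : Fin n} {ω : Env n} {c : ℝ}
    (e : c + ∑ k ∈ S, pk β ρ I k (one n) ω *
      ((F (one n i) (X n I i (one n) ω) - F (fl (one n) k i) (X n I i (fl (one n) k) ω)) *
        (G (one n j) (X n I j (one n) ω) - G (fl (one n) k j) (X n I j (fl (one n) k) ω))) =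
      Gm β ρ I (fun σ => F (σ i) (X n I i σ ω)) (fun σ => G (σ j) (X n I j σ ω)) (one n) ω)
    (hi : ∀ k ∈ S, k ≠ i) (hj : ∀ k ∈ S, k ≠ j) :
    Gm β ρ I (fun σ => F (σ i) (X n I i σ ω)) (fun σ => G (σ j) (X n I j σ ω)) (one n) ω =
      c + ∑ k ∈ S, pk β ρ I k (one n) ω *
        ((F true (X n I i (one n) ω) - F true (X n I i (fl (one n) k) ω)) *
          (G true (X n I j (one n) ω) - G true (X n I j (fl (one n) k) ω))) := by
  rw [← e, sum_congr rfl fun k hk => by rw [fl_ne _ (hi k hk), fl_ne _ (hj k hk)]]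
  rfl

theorem gam (hT : TayStmt) (hS : SmStmt) (h : X0 β ρ b X) (h2 : X2 β ρ b X) : Gam β ρ b X := by
  intro F G hF hG N
  have cF := fun s => cont (hF s)
  have cG := fun s => cont (hG s)
  have p0 : ∀ {φ : E b.m → ℝ}, Tm 2 φ → ∀ a, Tm 0 (pd a φ) := fun hφ a => hS.mono _ _ _ (hφ.2 a)
  have q0 : ∀ {φ : E b.m → ℝ}, Tm 2 φ → Tm 0 φ := fun hφ => hS.mono _ _ _ (hS.mono _ _ _ hφ)
  constructor
  · have a1 := core (A := fun n (t : Ix n) => Big N t.I ∧ t.i ∈ t.I) hT hS h (hF true) (hG true)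
      (fun _ t => t.I) (fun _ t => t.i) fun _ t => t.i
    have a2 := Oo.fsum fun a => Oo.fsum fun a' => Oo.ob_mul
      ((t0 hT h.net (T := Ix) (fun _ t => t.I) (fun _ t => t.i) (p0 (hF true) a)).mul_left
        (t0 hT h.net (T := Ix) (fun _ t => t.I) (fun _ t => t.i) (p0 (hG true) a'))) (h2.gl a a' N)
    refine (a1.add a2).congr (fun n t => (meas_Gm _ (meas_loc h cF _ _) (meas_loc h cG _ _) _).sub
      ((cont (hS.gm b 1 F G hF hG)).measurable.comp (h.net.meas _ _ _ _)))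
      (.of_forall fun n t ht ω => ?_)
    rw [Gm_split F G (add_sum_erase _ _ ht.2) (fun k hk => ne_of_mem_erase hk)
      (fun k hk => ne_of_mem_erase hk), erase_idem, gm, site h, h.ind, fl_one]
    simp only [one_ap, mul_sub _ (Gm _ _ _ _ _ _ _), sum_sub_distrib, mul_sum]
    have e : ∀ a a', pd a (F true) (X n t.I t.i (one n) ω) * pd a' (G true) (X n t.I t.i (one n) ω) *
        (2 * b.A a a') = 2 * (b.A a a' * (pd a (F true) (X n t.I t.i (one n) ω) *
          pd a' (G true) (X n t.I t.i (one n) ω))) := fun _ _ => by ring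
    simp only [e]
    ring
  · have a1 := core (A := fun n (t : Ix n) => Big N t.I ∧ t.i ∈ t.I ∧ t.j ∈ t.I ∧ t.i ≠ t.j) hT hS
      h (hF true) (hG true) (fun _ t => t.I) (fun _ t => t.i) fun _ t => t.j
    have a2 := Oo.fsum fun a => Oo.fsum fun a' => Oo.ob_mul
      ((t0 hT h.net (T := Ix) (fun _ t => t.I) (fun _ t => t.i) (p0 (hF true) a)).mul_left
        (t0 hT h.net (T := Ix) (fun _ t => t.I) (fun _ t => t.j) (p0 (hG true) a'))) (h2.go a a' N)
    have a3 := ((ob_pk (T := Ix) (fun _ t => t.I) fun _ t => t.i).mul_left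
      (((t0 hT h.net (T := Ix) (fun _ t => t.I) (fun _ t => t.i) (q0 (hF true))).sub
        (t0 hT h.net (T := Ix) (fun _ t => t.I) (fun _ t => t.i) (q0 (hF false)))).mul_left
        (t1 hT h.net (T := Ix)
          (A := fun n (t : Ix n) => Big N t.I ∧ t.i ∈ t.I ∧ t.j ∈ t.I ∧ t.i ≠ t.j)
          (fun _ t => t.I) (fun _ t => t.j) (fun _ t => t.i) (fun _ _ ht => ht.2.2.2)
          (hS.mono _ _ _ (hG true))))).oo
    have a4 := ((ob_pk (T := Ix) (fun _ t => t.I) fun _ t => t.j).mul_left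
      ((t1 hT h.net (T := Ix)
          (A := fun n (t : Ix n) => Big N t.I ∧ t.i ∈ t.I ∧ t.j ∈ t.I ∧ t.i ≠ t.j)
          (fun _ t => t.I) (fun _ t => t.i) (fun _ t => t.j) (fun _ _ ht => ht.2.2.2.symm)
          (hS.mono _ _ _ (hF true))).mul_right
        ((t0 hT h.net (T := Ix) (fun _ t => t.I) (fun _ t => t.j) (q0 (hG true))).sub
          (t0 hT h.net (T := Ix) (fun _ t => t.I) (fun _ t => t.j) (q0 (hG false)))))).oo
    refine (((a1.add a2).sub a3).sub a4).congr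
      (fun n t => meas_Gm _ (meas_loc h cF _ _) (meas_loc h cG _ _) _)
      (.of_forall fun n t ht ω => ?_)
    obtain ⟨-, hi, hj, hij⟩ := ht
    rw [Gm_split F G (add2 hi hj hij _)
      (fun k hk => ne_of_mem_erase (mem_of_mem_erase hk)) (fun k hk => ne_of_mem_erase hk),
      h.ind, h.ind, fl_one, fl_one, fl_ne _ hij, fl_ne _ hij.symm]
    simp only [one_ap]
    ring

lemma exists_dirs (U : Submodule ℝ (Fin m → ℝ)) : ∃ v : Fin m → Fin m → ℝ, (∀ c, v c ∈ U) ∧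
    ∀ u ∈ U, ∀ a, u a = ∑ c, u c * v c a := by
  obtain ⟨g, hg⟩ := U.subtype.exists_leftInverse_of_injective U.ker_subtype
  refine ⟨fun c => g fun j => if c = j then 1 else 0, fun c => (g _).2, fun u hu a => ?_⟩
  have e : (g u : Fin m → ℝ) = u := congrArg Subtype.val (LinearMap.congr_fun hg ⟨u, hu⟩)
  conv_lhs => rw [← e, LinearMap.pi_apply_eq_sum_univ g u]
  simp

theorem gen' (hT : TayStmt) (hS : SmStmt) {U : Submodule ℝ (Fin b.m → ℝ)} (h : X0 β ρ b X)
    (h2 : X2 β ρ b X) (h3 : X3 β ρ b U X) : Gen β ρ b U X := by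
  intro F hF hU N
  obtain ⟨v, hv, hv'⟩ := exists_dirs U
  have hi : ∀ n (p : Ix n × Fin n), (Big N p.1.I ∧ p.1.i ∈ p.1.I) ∧ p.2 ∈ p.1.I.erase p.1.i →
      p.2 ≠ p.1.i := fun n p hp => ne_of_mem_erase hp.2
  have a1 := sumP (A := fun n (t : Ix n) => Big N t.I ∧ t.i ∈ t.I) (fun n t => t.I.erase t.i)
    ((ob_pk (T := fun n => Ix n × Fin n) (fun n p => p.1.I) fun n p => p.2).mul_left
      (t3 hT h.net (T := fun n => Ix n × Fin n) (fun n p => p.1.I) (fun n p => p.1.i)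
        (fun n p => p.2) hi (hF true)))
  have a2 := Oo.fsum fun c => Oo.ob_mul (t0 hT h.net (T := Ix) (fun _ t => t.I) (fun _ t => t.i)
    (hS.mono _ _ _ (hS.mono _ _ _ ((hF true).2 c)))) (h3 _ (hv c) N)
  have a3 := (Oo.fsum fun a => Oo.fsum fun a' => Oo.ob_mul (t0 hT h.net (T := Ix) (fun _ t => t.I)
    (fun _ t => t.i) (hS.mono _ _ _ (((hF true).2 a').2 a))) (h2.gl a a' N)).div_const 2
  refine ((a2.sub a1).sub a3).congr (fun n t => (meas_nL _ (meas_loc h (fun s => cont (hF s)) _ _)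
    _).sub ((cont (hS.aa b 0 1 F hF true)).measurable.comp (h.net.meas _ _ _ _)))
    (.of_forall fun n t ht ω => ?_)
  set x := X n t.I t.i (one n) ω with hx
  have g1 := hv' _ (hU true x)
  have e1 : ∑ c, pd c (F true) x * nL β ρ t.I (fun σ => ∑ a, v c a * X n t.I t.i σ ω a) (one n) ω =
      -∑ k ∈ t.I.erase t.i, pk β ρ t.I k (one n) ω * L1 (F true) x (X n t.I t.i (fl (one n) k) ω) := by
    rw [sum_erase _ (by rw [h.ind, ← hx, L1_self, mul_zero]), ← sum_neg_distrib]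
    simp only [nL, mul_sum, ← sum_sub_distrib, L1, ← sum_neg_distrib]
    rw [sum_comm]
    refine sum_congr rfl fun k _ => sum_comm.trans (sum_congr rfl fun a _ => ?_)
    rw [g1 a, sum_mul, mul_sum, ← sum_neg_distrib]
    exact sum_congr rfl fun c _ => by rw [← hx]; ring
  have e2 : ∑ c, pd c (F true) x * ∑ a, (b.A *ᵥ v c) a * (x a - b.g a) =
      ∑ a, ∑ a', b.A a a' * (pd a' (F true) x * (x a - b.g a)) := by
    simp only [mulVec, dotProduct, mul_sum, sum_mul]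
    rw [sum3]
    refine sum_congr rfl fun a _ => sum_congr rfl fun a' _ => ?_
    rw [g1 a', sum_mul, mul_sum]
    exact sum_congr rfl fun c _ => by ring
  have e3 : ∑ a, ∑ a', pd a (pd a' (F true)) x *
      Gm β ρ t.I (fun σ => X n t.I t.i σ ω a) (fun σ => X n t.I t.i σ ω a') (one n) ω =
      ∑ k ∈ t.I.erase t.i, pk β ρ t.I k (one n) ω * L2 (F true) x (X n t.I t.i (fl (one n) k) ω) := by
    rw [sum_erase _ (by rw [h.ind, ← hx, L2_self, mul_zero])]
    simp only [Gm, L2, mul_sum]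
    rw [sum3]
    exact sum_congr rfl fun _ _ => sum_congr rfl fun _ _ => sum_congr rfl fun _ _ => by
      rw [← hx]; ring
  have e4 : ∀ k, pk β ρ t.I k (one n) ω * (F true (X n t.I t.i (fl (one n) k) ω) - F true x -
      L1 (F true) x (X n t.I t.i (fl (one n) k) ω) - L2 (F true) x (X n t.I t.i (fl (one n) k) ω) / 2) =
      -(pk β ρ t.I k (one n) ω * (F true x - F true (X n t.I t.i (fl (one n) k) ω))) -
        pk β ρ t.I k (one n) ω * L1 (F true) x (X n t.I t.i (fl (one n) k) ω) -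
        pk β ρ t.I k (one n) ω * L2 (F true) x (X n t.I t.i (fl (one n) k) ω) / 2 := fun k => by ring
  have e5 : ∀ a a', pd a (pd a' (F true)) x * (2 * b.A a a') =
      2 * (b.A a a' * pd a (pd a' (F true)) x) := fun _ _ => by ring
  have e6 := hb_sum (fld b 0 x)
  dsimp only
  simp only [← hx, e4, mul_sub (pd _ _ x) (nL _ _ _ _ _ _), mul_sub (pd _ _ x) (Gm _ _ _ _ _ _ _),
    sum_sub_distrib, e1, e2, e3, e5, ← mul_sum, sum_neg_distrib, ← sum_div]
  have e7 : ∑ k ∈ t.I.erase t.i, pk β ρ t.I k (one n) ω * (F (one n t.i) x -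
      F (fl (one n) k t.i) (X n t.I t.i (fl (one n) k) ω)) = ∑ k ∈ t.I.erase t.i,
      pk β ρ t.I k (one n) ω * (F true x - F true (X n t.I t.i (fl (one n) k) ω)) :=
    sum_congr rfl fun k hk => by rw [fl_ne _ (ne_of_mem_erase hk)]; rfl
  rw [nL, ← add_sum_erase _ _ ht.2, ← hx, e7, site h, h.ind, fl_one, AA, Fintype.sum_bool]
  simp only [one_ap, ← hx, sg, if_true, one_mul, mul_sub (b.A _ _), sum_sub_distrib]
  linear_combination -F true x * e6

end G80

theorem gamGlue : GamGlue := fun hT hS _ _ _ _ h h2 => G80.gam hT hS h h2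

theorem genGlue : GenGlue := fun hT hS _ _ _ _ _ h h2 h3 => G80.gen' hT hS h h2 h3

end Crest.Agent.T157.Rn

end
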