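import Crest.Agent.T157.TwA_30

/-!
# Row 157, block B/S4 (helper30): (M), every tower is dominated by a zero-field tower
-/

set_option autoImplicit false

noncomputable section

namespace Crest.Agent.T157.Tw

open MeasureTheory Real Matrix Set

section avg
variable {V V' : Type} [AddCommGroup V] [Module ℝ V] [AddCommGroup V'] [Module ℝ V']

lemma bm_fam1 {S : Submodule ℝ V} (l : V →ₗ[ℝ] ℝ) {F : ℝ → V} (hF : F ∈ Fam S) :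
    BM fun ξ => l (F ξ) := by
  refine Submodule.span_induction (p := fun F _ => BM fun ξ => l (F ξ)) ?_ ?_ ?_ ?_ hF
  · rintro _ ⟨c, P, hc, -, rfl⟩
    simpa using hc.mul (BM.const (l P))
  · simpa using BM.const 0
  · intro x y _ _ h1 h2; simpa using h1.add h2
  · intro r x _ h; simpa using (BM.const r).mul h

lemma fam_mem {S : Submodule ℝ V} {F : ℝ → V} (hF : F ∈ Fam S) (ξ : ℝ) : F ξ ∈ S := by
  refine Submodule.span_induction (p := fun F _ => F ξ ∈ S) ?_ ?_ ?_ ?_ hF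
  · rintro _ ⟨c, P, -, hP, rfl⟩
    exact S.smul_mem _ hP
  · exact S.zero_mem
  · intro x y _ _ h1 h2; exact S.add_mem h1 h2
  · intro r x _ h; exact S.smul_mem r h

/-- the weak integral of a family -/
lemma exists_avg (S : Submodule ℝ V) (S' : Submodule ℝ V') (Φ : V →ₗ[ℝ] V')
    (hΦ : ∀ P ∈ S, Φ P ∈ S') (ν : Measure ℝ) [IsFiniteMeasure ν] {w : ℝ → ℝ} (hw : BM w) :
    ∃ I : Fam S →ₗ[ℝ] V', ∀ F, I F ∈ S' ∧
      ∀ l : V' →ₗ[ℝ] ℝ, l (I F) = ∫ ξ, w ξ * l (Φ (F.1 ξ)) ∂ν := by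
  have hi : ∀ (l : V' →ₗ[ℝ] ℝ) {F : ℝ → V}, F ∈ Fam S →
      Integrable (fun ξ => w ξ * l (Φ (F ξ))) ν := fun l F hF =>
    (hw.mul (bm_fam1 (l ∘ₗ Φ) hF)).int ν
  have h : ∀ F : Fam S, ∃ y ∈ S', ∀ l : V' →ₗ[ℝ] ℝ, l y = ∫ ξ, w ξ * l (Φ (F.1 ξ)) ∂ν := by
    rintro ⟨F, hF⟩
    refine Submodule.span_induction (p := fun F _ =>
      ∃ y ∈ S', ∀ l : V' →ₗ[ℝ] ℝ, l y = ∫ ξ, w ξ * l (Φ (F ξ)) ∂ν) ?_ ?_ ?_ ?_ hF
    · rintro _ ⟨c, P, -, hP, rfl⟩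
      refine ⟨(∫ ξ, w ξ * c ξ ∂ν) • Φ P, S'.smul_mem _ (hΦ P hP), fun l => ?_⟩
      simp [← integral_mul_const, mul_assoc]
    · exact ⟨0, S'.zero_mem, fun l => by simp⟩
    · rintro x y hx hy ⟨u, hu, h1⟩ ⟨v, hv, h2⟩
      refine ⟨u + v, S'.add_mem hu hv, fun l => ?_⟩
      rw [map_add, h1, h2, ← integral_add (hi l hx) (hi l hy)]
      simp [mul_add]
    · rintro r x _ ⟨u, hu, h1⟩
      refine ⟨r • u, S'.smul_mem r hu, fun l => ?_⟩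
      rw [map_smul, h1, smul_eq_mul, ← integral_const_mul]
      simp [mul_left_comm]
  choose I hI hl using h
  have ext : ∀ x y : V', (∀ l : V' →ₗ[ℝ] ℝ, l x = l y) → x = y := fun x y h =>
    sub_eq_zero.1 ((Module.forall_dual_apply_eq_zero_iff ℝ _).1 fun l => by
      rw [map_sub, h l, sub_self])
  refine ⟨⟨⟨I, fun F G => ext _ _ fun l => ?_⟩, fun c F => ext _ _ fun l => ?_⟩,
    fun F => ⟨hI F, hl F⟩⟩
  · rw [map_add, hl, hl, hl, ← integral_add (hi l F.2) (hi l G.2)]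
    simp [mul_add]
  · rw [map_smul, hl, hl, smul_eq_mul, ← integral_const_mul]
    simp [mul_left_comm]

/-- Jensen for a form that is positive on a subspace -/
lemma avg_le {S : Submodule ℝ V} {S' : Submodule ℝ V'} {Φ : V →ₗ[ℝ] V'}
    (hΦ : ∀ P ∈ S, Φ P ∈ S') {ν : Measure ℝ} [IsProbabilityMeasure ν] {w : ℝ → ℝ} (hw : BM w)
    {F : ℝ → V} (hF : F ∈ Fam S) {y : V'} (hy : y ∈ S')
    (hl : ∀ l : V' →ₗ[ℝ] ℝ, l y = ∫ ξ, w ξ * l (Φ (F ξ)) ∂ν) {B : V' →ₗ[ℝ] V' →ₗ[ℝ] ℝ}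
    (hs : ∀ u v, B u v = B v u) (hp : ∀ u ∈ S', 0 ≤ B u u) {R : ℝ → ℝ} (hR : Integrable R ν)
    (h : ∀ ξ, w ξ ^ 2 * B (Φ (F ξ)) (Φ (F ξ)) ≤ R ξ) : B y y ≤ ∫ ξ, R ξ ∂ν := by
  have h1 : ∫ ξ, w ξ * B y (Φ (F ξ)) ∂ν ≤ ∫ ξ, (B y y / 2 + R ξ / 2) ∂ν := by
    refine integral_mono ((hw.mul (bm_fam1 (B y ∘ₗ Φ) hF)).int ν)
      ((integrable_const _).add (hR.div_const 2)) fun ξ => ?_
    have h2 := hp _ (S'.sub_mem hy (S'.smul_mem (w ξ) (hΦ _ (fam_mem hF ξ))))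
    simp only [map_sub, map_smul, LinearMap.sub_apply, LinearMap.smul_apply, smul_eq_mul,
      hs (Φ (F ξ)) y] at h2
    have h3 := h ξ
    show w ξ * B y (Φ (F ξ)) ≤ B y y / 2 + R ξ / 2
    nlinarith
  rw [← hl (B y), integral_add (integrable_const _) (hR.div_const 2), integral_div 2 R] at h1
  simp only [integral_const, probReal_univ, smul_eq_mul, one_mul] at h1
  linarith

end avg

lemma sech2_pos (ξ : ℝ) : 0 < sech2 ξ := by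
  unfold sech2; have := cosh_pos ξ; positivity

lemma sech2_le (ξ : ℝ) : sech2 ξ ≤ 1 := by
  unfold sech2
  exact (div_le_one (by have := cosh_pos ξ; positivity)).2 (one_le_pow₀ (one_le_cosh ξ))

lemma sech2_zero : sech2 0 = 1 := by simp [sech2]

lemma bm_sech2 : BM sech2 :=
  ⟨by unfold sech2; fun_prop, 1, fun ξ => by rw [abs_of_pos (sech2_pos ξ)]; exact sech2_le ξ⟩

lemma sp_odd (m : ℕ) : sp m ∈ Od m := fun s _ => by cases s <;> simp [sp, sg]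

variable {𝒞 : Cls} {β : ℝ}

/-- odd functions of the class -/
abbrev Cls.D (𝒞 : Cls) (m : ℕ) : Submodule ℝ (CV m) := 𝒞.C m ⊓ Od m

lemma sp_mem (𝒞 : Cls) (m : ℕ) : sp m ∈ 𝒞.D m := ⟨𝒞.sp m, sp_odd m⟩

lemma lam_nonneg (𝒞 : Cls) (β : ℝ) : 0 ≤ lam 𝒞 β :=
  Real.sInf_nonneg fun _ ⟨t, _, u, _, h⟩ => h ▸ by simpa using t.psd.dotProduct_mulVec_nonneg u

lemma Tw0.ge {t : Bath} (ht : Tw0 𝒞 β t) : t.Ge (lam 𝒞 β) := fun u => by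
  have hp : 0 ≤ u ⬝ᵥ u := by simpa using dotProduct_star_self_nonneg u
  rcases hp.eq_or_lt with h0 | h0
  · rw [← h0, mul_zero]; simpa using t.psd.dotProduct_mulVec_nonneg u
  have hc : √(u ⬝ᵥ u) * √(u ⬝ᵥ u) = u ⬝ᵥ u := mul_self_sqrt hp
  have hs : 0 < √(u ⬝ᵥ u) := sqrt_pos.2 h0
  have e : ∀ x, (√(u ⬝ᵥ u))⁻¹ * ((√(u ⬝ᵥ u))⁻¹ * x) = x / (u ⬝ᵥ u) := fun x => by
    conv_rhs => rw [← hc]
    field_simp
  have h : lam 𝒞 β ≤ u ⬝ᵥ t.A *ᵥ u / (u ⬝ᵥ u) := by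
    refine csInf_le ⟨0, fun _ ⟨t, _, u, _, h⟩ => h ▸ by
      simpa using t.psd.dotProduct_mulVec_nonneg u⟩ ⟨t, ht, (√(u ⬝ᵥ u))⁻¹ • u, ?_, ?_⟩
    · rw [smul_dotProduct, dotProduct_smul, smul_eq_mul, smul_eq_mul, e, div_self h0.ne']
    · rw [mulVec_smul, smul_dotProduct, dotProduct_smul, smul_eq_mul, smul_eq_mul, e]
  exact (le_div_iff₀ h0).1 h

/-- one more level -/
lemma Tw0.next (ok : OkStmt) {t : Bath} (ht : Tw0 𝒞 β t) {T : Set (CV t.m)} (hT : T.Finite)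
    (hS : T ⊆ 𝒞.D t.m) : ∃ (b : Bath) (f : Fin b.m → CV t.m), Comp (imp t 0) b f ∧
      (∀ k, f k ∈ 𝒞.D t.m) ∧ Tw0 𝒞 β (b.scale β) ∧ InSp (imp t 0) f (sp _) ∧
      ∀ y ∈ Submodule.span ℝ T, InSp (imp t 0) f y := by
  obtain ⟨b, f, hc, hf, hs⟩ := compStmt _ (imp t 0) (ok t 0).1 (𝒞.D t.m) (insert (sp _) T)
    (hT.insert _) (insert_subset (sp_mem _ _) hS)
  have h0 := hs _ (Submodule.subset_span (mem_insert _ _))
  exact ⟨b, f, hc, hf, ht.step hf hc h0, h0,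
    fun y hy => hs y (Submodule.span_mono (subset_insert _ _) hy)⟩

lemma Tw0.Q_nonneg (ok : OkStmt) {t : Bath} (ht : Tw0 𝒞 β t) {F : CV t.m} (hF : F ∈ 𝒞.D t.m) :
    0 ≤ (imp t 0).Q (lam 𝒞 β) F := by
  obtain ⟨b, f, hc, -, hb, -, hs⟩ := ht.next ok (finite_singleton F) (singleton_subset_iff.2 hF)
  rw [← hc.Q_co (ok t 0).1 (hs F (Submodule.subset_span rfl))]
  exact (ge_iff (b.scale β) _).1 hb.ge _

lemma mem_span_range {V : Type} [AddCommGroup V] [Module ℝ V] {m : ℕ} (W : (Fin m → ℝ) →ₗ[ℝ] V)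
    (u : Fin m → ℝ) : W u ∈ Submodule.span ℝ (range fun k => W (Pi.single k 1)) := by
  rw [pi_eq_sum_univ' u, map_sum]
  refine Submodule.sum_mem _ fun k _ => ?_
  rw [map_smul]
  exact Submodule.smul_mem _ _ (Submodule.subset_span ⟨k, rfl⟩)

lemma val_le (ok : OkStmt) {t : Bath} (ht : Tw0 𝒞 β t) {F : CV t.m} (hF : F ∈ 𝒞.D t.m) {a : ℝ}
    (ha : a < lam 𝒞 β) : 2 * (imp t 0).N (sp _) F - (imp t 0).Q a F ≤ 1 / (lam 𝒞 β - a) := by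
  have h1 := ht.Q_nonneg ok hF
  have o := ok t 0
  have hd : 0 < lam 𝒞 β - a := sub_pos.2 ha
  have h2 := o.1.pN (sp _ - (lam 𝒞 β - a) • F)
  simp only [map_sub, map_smul, LinearMap.sub_apply, LinearMap.smul_apply, smul_eq_mul,
    o.1.sN F (sp _), o.2.1, sech2_zero] at h2
  unfold Pre.Q at *
  rw [le_div_iff₀ hd]
  nlinarith

lemma le_Gs (ok : OkStmt) {t : Bath} (ht : Tw0 𝒞 β t) {F : CV t.m} (hF : F ∈ 𝒞.D t.m) {a : ℝ}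
    (ha : a < lam 𝒞 β) : 2 * (imp t 0).N (sp _) F - (imp t 0).Q a F ≤ Gs 𝒞 β a :=
  le_csSup ⟨1 / (lam 𝒞 β - a), fun _ ⟨_, ht, _, hF, h⟩ => h ▸ val_le ok ht hF ha⟩ ⟨t, ht, F, hF, rfl⟩

/-- (M1) and (M2) together -/
lemma lift_odd (m1 : M1Stmt) (m2 : M2Stmt) (𝒞 : Cls) {a : ℝ} (ha : 0 ≤ a) {b t : Bath} (ht : t.Ge a)
    {W : (Fin b.m → ℝ) →ₗ[ℝ] (Fin t.m → ℝ)} (hW : Mor a b.pre t.pre W) :
    ∃ Φ : CV b.m →ₗ[ℝ] CV t.m, (∀ F ∈ 𝒞.C b.m, Φ F ∈ 𝒞.D t.m) ∧ ∀ ξ F,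
      sech2 ξ * (imp t 0).N (Φ F) (Φ F) ≤ (imp b ξ).N F F ∧
      sech2 ξ * (imp t 0).N (sp _) (Φ F) = (imp b ξ).N (sp _) F ∧
      ∀ a' ∈ Icc 0 a, sech2 ξ * (imp t 0).Q a' (Φ F) ≤ (imp b ξ).Q a' F := by
  obtain ⟨P, R, L, hL, hM⟩ := m1 a b t W ha ht hW
  obtain ⟨O, hO, hO', h2⟩ := m2 t.m
  refine ⟨O ∘ₗ L, fun F hF => ⟨𝒞.odd _ _ _ (hO _) (𝒞.lift _ _ P R F _ (hL F) hF), hO' _⟩,
    fun ξ F => ?_⟩
  obtain ⟨e1, e2, e3⟩ := h2 t.A t.g t.psd ξ (L F)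
  refine ⟨e1.trans ((hM ξ).N F), e2.trans ((hM ξ).σ F), fun a' ha' => (e3 a' ha'.1 fun u => ?_).trans
    (((hM ξ).mono ha'.2).Q F)⟩
  exact (mul_le_mul_of_nonneg_right ha'.2 (by simpa using dotProduct_star_self_nonneg u)).trans (ht u)

lemma dom (ok : OkStmt) (m1 : M1Stmt) (m2 : M2Stmt) {h : AdmStmt} {b : Bath} (hb : TwL h 𝒞 β b) :
    ∃ t, Tw0 𝒞 β t ∧ ∃ W, Mor (lam 𝒞 β) b.pre t.pre W := by
  induction hb with
  | base hb => exact ⟨_, hb, _, Mor.refl _ _⟩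
  | @step b b' ν _ f _ hc ih =>
    obtain ⟨t, ht, W, hW⟩ := ih
    obtain ⟨Φ, hΦ, hM⟩ := lift_odd m1 m2 𝒞 (lam_nonneg 𝒞 β) ht.ge hW
    obtain ⟨I, hI⟩ := exists_avg (𝒞.C b.m) (𝒞.D t.m) Φ hΦ ν bm_sech2
    have o := (ok t 0).1
    have iN := fun F G : Fam (𝒞.C b.m) => (bm_fam (fun P P' => (h b P P').1) F.2 G.2).int ν
    have iE := fun F G : Fam (𝒞.C b.m) => (bm_fam (fun P P' => (h b P P').2) F.2 G.2).int ν
    have key : ∀ {x y : ℝ} (ξ : ℝ), 0 ≤ x → sech2 ξ * x ≤ y → sech2 ξ ^ 2 * x ≤ y :=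
      fun {x y} ξ hx hxy => by
        have h1 := mul_nonneg (sech2_pos ξ).le hx
        nlinarith [sech2_le ξ]
    have hm : Mor (lam 𝒞 β) (lev h 𝒞 ν b) (imp t 0) I := ⟨fun F => ?_, fun F => ?_, fun F => ?_⟩
    · obtain ⟨b'', f'', hc'', -, hb'', -, hs⟩ := ht.next ok
        (finite_range fun k => (I ∘ₗ emb f) (Pi.single k 1)) (by rintro _ ⟨k, rfl⟩; exact (hI _).1)
      exact ⟨_, hb'', _, hc''.mor_co o (((hc.mor _).comp hm).scale β)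
        fun u => hs _ (mem_span_range (I ∘ₗ emb f) u)⟩
    · exact avg_le hΦ bm_sech2 F.2 (hI F).1 (hI F).2 o.sN (fun u _ => o.pN u) (iN F F)
        fun ξ => key ξ (o.pN _) (hM ξ _).1
    · rw [(hI F).2]
      exact integral_congr_ae (ae_of_all _ fun ξ => (hM ξ _).2.1)
    · have := avg_le hΦ bm_sech2 F.2 (hI F).1 (hI F).2
        (B := (imp t 0).En - lam 𝒞 β • (imp t 0).N) (fun u v => by simp [o.sN u, o.sE u])
        (fun u hu => ht.Q_nonneg ok hu) ((iE F F).sub ((iN F F).const_mul (lam 𝒞 β)))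
        fun ξ => key ξ (ht.Q_nonneg ok (hΦ _ (fam_mem F.2 ξ)))
          ((hM ξ _).2.2 _ ⟨lam_nonneg 𝒞 β, le_rfl⟩)
      refine this.trans (le_of_eq ?_)
      simp only [Pi.sub_apply]
      rw [integral_sub (iE F F) ((iN F F).const_mul _), integral_const_mul]
      rfl

theorem domGlue : DomGlue := by
  intro ok _ m1 m2 h 𝒞 β b hb
  obtain ⟨t, ht, W, hW⟩ := dom ok m1 m2 hb
  obtain ⟨Φ, hΦ, hM⟩ := lift_odd m1 m2 𝒞 (lam_nonneg 𝒞 β) ht.ge hW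
  refine ⟨(ge_iff _ _).2 fun u => ((ge_iff _ _).1 ht.ge _).trans (hW.Q u), fun ξ F hF =>
    ⟨(mul_nonneg (sech2_pos ξ).le (ht.Q_nonneg ok (hΦ F hF))).trans
      ((hM ξ F).2.2 _ ⟨lam_nonneg 𝒞 β, le_rfl⟩), fun a ha => ?_⟩⟩
  have h1 := (hM ξ F).2.2 a ⟨ha.1, ha.2.le⟩
  have h2 := mul_le_mul_of_nonneg_left (le_Gs ok ht (hΦ F hF) ha.2) (sech2_pos ξ).le
  rw [← (hM ξ F).2.1]
  linarith

end Crest.Agent.T157.Tw
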