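import Crest.Agent.T157.TwDef_30

/-!
# Row 157, block B/S4 (helper42): the impurity is a pre-bath (`OkStmt`), `spin_le`, `ZeroStmt`
-/

set_option autoImplicit false
set_option linter.all false

noncomputable section

namespace Crest.Agent.T157.Tw

open MeasureTheory ProbabilityTheory Real Matrix Set Filter
open Crest.Agent.R238.Gap Crest.Agent.R238.GapPc Crest.Agent.R253.Meh74
open Crest.Agent.R285

namespace O42

variable {m : ℕ}

lemma cp_of {M : E m → ℝ} (hc : Continuous M) (hg : PG M) : (fun (_ : Bool) X => M X) ∈ CP m :=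
  fun _ => ⟨hc, hg⟩

lemma cv_cp (F : CV m) : F.1 ∈ CP m := (inc m F).2

lemma cp_const (c : ℝ) : (fun (_ : Bool) (_ : E m) => c) ∈ CP m :=
  fun _ => ⟨continuous_const, pg_const c⟩

lemma cp_sq {F : Bool → E m → ℝ} (hF : F ∈ CP m) : (fun s X => F s X ^ 2) ∈ CP m :=
  fun s => ⟨(hF s).1.pow 2, (hF s).2.pow 2⟩

lemma imp_N (b : Bath) (ξ : ℝ) (F G : CV b.m) :
    (imp b ξ).N F G = ex b ξ (F.1 * G.1) - ex b ξ F.1 * ex b ξ G.1 := rfl

lemma imp_En (b : Bath) (ξ : ℝ) (F G : CV b.m) :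
    (imp b ξ).En F G = spinL b ξ (inc _ F) (inc _ G) + bathL b ξ F G := rfl

lemma spin_ex (b : Bath) (ξ : ℝ) (F G : CP b.m) :
    spinL b ξ F G = ex b ξ ((rsL b ξ F).1 * (rsL b ξ G).1) := rfl

/-- the pointwise bath energy -/
def be (A : Matrix (Fin m) (Fin m) ℝ) (f g : E m → ℝ) (X : E m) : ℝ :=
  ∑ i, ∑ j, A i j * (pd i f X * pd j g X)

lemma be_cp (A : Matrix (Fin m) (Fin m) ℝ) (F G : CV m) :
    (fun s => be A (F.1 s) (G.1 s)) ∈ CP m := fun s =>
  ⟨continuous_finsetSum _ fun i _ => continuous_finsetSum _ fun j _ =>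
      continuous_const.mul (((F.2 s).contp i).mul ((G.2 s).contp j)),
    PG.sum _ fun i _ => PG.sum _ fun j _ => (pg_const _).mul (((F.2 s).p i).mul ((G.2 s).p j))⟩

lemma bath_ex (b : Bath) (ξ : ℝ) (F G : CV b.m) :
    bathL b ξ F G = ex b ξ fun s => be b.A (F.1 s) (G.1 s) := by
  have h1 : bathL b ξ F G =
      exL b ξ (∑ i, ∑ j, b.A i j • mulL b.m (pdL b.m i F) (pdL b.m j G)) := by
    simp only [bathL, LinearMap.sum_apply, LinearMap.smul_apply, map_sum, map_smul]
    rfl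
  rw [h1]
  show ex b ξ _ = _
  congr 1
  funext s X
  simp only [Submodule.coe_sum, Finset.sum_apply, Submodule.coe_smul, Pi.smul_apply, smul_eq_mul]
  rfl

lemma be_eq (A : Matrix (Fin m) (Fin m) ℝ) (f : E m → ℝ) (X : E m) :
    be A f f X = (fun i => pd i f X) ⬝ᵥ A *ᵥ fun i => pd i f X := by
  simp only [be, dotProduct, mulVec, Finset.mul_sum]
  exact Finset.sum_congr rfl fun i _ => Finset.sum_congr rfl fun j _ => by ring

lemma be_ge {b : Bath} {a : ℝ} (h : b.Ge a) (f : E b.m → ℝ) (X : E b.m) :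
    a * ∑ i, pd i f X ^ 2 ≤ be b.A f f X := by
  rw [be_eq]
  simpa only [dotProduct, sq] using h fun i => pd i f X

lemma ge_zero (b : Bath) : b.Ge 0 := fun u => by
  simpa using b.psd.dotProduct_mulVec_nonneg u

lemma ex_const (b : Bath) (ξ c : ℝ) : ex b ξ (fun _ _ => c) = c := by
  have := hb_sum ξ
  simp only [ex, integral_const, probReal_univ, smul_eq_mul, one_mul, Fintype.sum_bool]
  rw [← add_mul, this, one_mul]

lemma ex_nonneg (b : Bath) (ξ : ℝ) {F : Bool → E b.m → ℝ} (h : ∀ s X, 0 ≤ F s X) :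
    0 ≤ ex b ξ F :=
  Finset.sum_nonneg fun s _ => mul_nonneg (hb_pos _ _).le (integral_nonneg fun _ => h _ _)

lemma ex_sub (b : Bath) (ξ : ℝ) {F G : Bool → E b.m → ℝ} (hF : F ∈ CP b.m) (hG : G ∈ CP b.m) :
    ex b ξ (F - G) = ex b ξ F - ex b ξ G :=
  (exL b ξ).map_sub ⟨F, hF⟩ ⟨G, hG⟩

/-- detailed balance -/
lemma db (b : Bath) (ξ : ℝ) (s : Bool) (X : E b.m) :
    hb ξ s * gdens (X - sg s • b.v) =
      gdens X * exp (-‖b.v‖ ^ 2 / 2) * cosh (fld b ξ X) / cosh ξ * hb (fld b ξ X) s := by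
  have h1 := cosh_pos ξ
  have h2 := cosh_pos (fld b ξ X)
  have h3 : ‖X - sg s • b.v‖ ^ 2 = ‖X‖ ^ 2 - 2 * (sg s * inner ℝ b.v X) + ‖b.v‖ ^ 2 := by
    rw [norm_sub_sq_real, inner_smul_right, real_inner_comm, norm_smul]
    cases s <;> simp [sg]
  have h4 : exp (sg s * ξ) * exp (-‖X - sg s • b.v‖ ^ 2 / 2) =
      exp (-‖X‖ ^ 2 / 2) * exp (-‖b.v‖ ^ 2 / 2) * exp (sg s * fld b ξ X) := by
    rw [← exp_add, ← exp_add, ← exp_add, h3, fld]
    congr 1
    ring
  unfold hb gdens
  generalize exp (-‖X - sg s • b.v‖ ^ 2 / 2) = e1 at *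
  generalize exp (-‖X‖ ^ 2 / 2) = e2 at *
  generalize exp (-‖b.v‖ ^ 2 / 2) = e3 at *
  field_simp
  linear_combination h4

/-- conditioning on the bath -/
lemma ex_nonneg_cond (b : Bath) (ξ : ℝ) {F : Bool → E b.m → ℝ} (hF : F ∈ CP b.m)
    (h : ∀ X, 0 ≤ ∑ s, hb (fld b ξ X) s * F s X) : 0 ≤ ex b ξ F := by
  have h1 : ∀ s, hb ξ s * ∫ z, F s (z + sg s • b.v) ∂gam b.m =
      ∫ X, hb ξ s * (gdens (X - sg s • b.v) * F s X) := fun s => by
    rw [integral_const_mul, integral_stdGaussian, ← integral_add_right_eq_self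
      (fun X => gdens (X - sg s • b.v) * F s X) (sg s • b.v)]
    simp only [add_sub_cancel_right, smul_eq_mul]
  have h2 : ∀ s, Integrable fun X => hb ξ s * (gdens (X - sg s • b.v) * F s X) := fun s => by
    have := ((integrable_stdGaussian_iff _).1 (int_shift (hF s).1 (hF s).2 (sg s • b.v))).comp_sub_right
      (sg s • b.v)
    simp only [sub_add_cancel, smul_eq_mul] at this
    exact this.const_mul _
  unfold ex
  simp only [h1]
  rw [← integral_finsetSum _ fun s _ => h2 s]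
  refine integral_nonneg fun X => ?_
  simp only [← mul_assoc, db]
  simp only [mul_assoc _ (hb _ _), ← Finset.mul_sum]
  have := gdens_pos X
  have := cosh_pos ξ
  have := cosh_pos (fld b ξ X)
  exact mul_nonneg (by positivity) (h X)

lemma var_eq (b : Bath) (ξ : ℝ) (F : CV b.m) :
    (imp b ξ).N F F = ex b ξ fun s X => (F.1 s X - ex b ξ F.1) ^ 2 := by
  have hF := cv_cp F
  have h1 : (fun s X => (F.1 s X - ex b ξ F.1) ^ 2) =
      F.1 * F.1 - (2 * ex b ξ F.1) • F.1 + fun _ _ => ex b ξ F.1 ^ 2 := by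
    funext s X
    simp only [Pi.add_apply, Pi.sub_apply, Pi.mul_apply, Pi.smul_apply, smul_eq_mul]
    ring
  rw [h1, ex_add b ξ ((CP _).sub_mem (cp_mul hF hF) ((CP _).smul_mem _ hF)) (cp_const _),
    ex_sub b ξ (cp_mul hF hF) ((CP _).smul_mem _ hF), ex_smul, ex_const, imp_N]
  ring

lemma openPos : (gam m).IsOpenPosMeasure := by
  have h1 : (gaussianReal 0 1).IsOpenPosMeasure :=
    (gaussianReal_absolutelyContinuous' 0 one_ne_zero).isOpenPosMeasure
  have h2 : (Measure.pi (fun _ : Fin (Module.finrank ℝ (E m)) => gaussianReal 0 1)).IsOpenPosMeasure :=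
    inferInstance
  unfold gam stdGaussian
  refine Continuous.isOpenPosMeasure_map (by fun_prop) ?_
  intro y
  refine ⟨fun i => (stdOrthonormalBasis ℝ (E m)).repr y i, ?_⟩
  exact (stdOrthonormalBasis ℝ (E m)).sum_repr y

lemma eq_zero_of_ex (b : Bath) (ξ : ℝ) {F : Bool → E b.m → ℝ} (hF : F ∈ CP b.m)
    (h : ∀ s X, 0 ≤ F s X) (h0 : ex b ξ F = 0) (s : Bool) (X : E b.m) : F s X = 0 := by
  haveI := openPos (m := b.m)
  have h1 := (Finset.sum_eq_zero_iff_of_nonneg fun s _ =>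
    mul_nonneg (hb_pos ξ s).le (integral_nonneg fun z => h s (z + sg s • b.v))).1 h0 s
      (Finset.mem_univ _)
  have h2 := (integral_eq_zero_iff_of_nonneg (fun z => h s (z + sg s • b.v))
    (int_shift (hF s).1 (hF s).2 _)).1 ((mul_eq_zero.1 h1).resolve_left (hb_pos ξ s).ne')
  have h3 := (Continuous.ae_eq_iff_eq (gam b.m)
    ((hF s).1.comp (continuous_id.add continuous_const)) continuous_zero).1 h2
  simpa using congrFun h3 (X - sg s • b.v)

lemma hb_mul (ξ : ℝ) : 4 * (hb ξ true * hb ξ false) = sech2 ξ := by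
  have := cosh_pos ξ
  simp only [hb, sg, sech2, if_true, Bool.false_eq_true, if_false, one_mul, neg_mul]
  field_simp
  rw [mul_assoc, ← exp_add]
  simp
  norm_num

lemma hb_zero (s : Bool) : hb 0 s = 1 / 2 := by simp [hb]

lemma rs_apply (b : Bath) (ξ : ℝ) (G : CP b.m) (s : Bool) (X : E b.m) :
    (rsL b ξ G).1 s X = G.1 s X - (hb (fld b ξ X) true * G.1 true X +
      hb (fld b ξ X) false * G.1 false X) := by
  show G.1 s X - ∑ t, hb (fld b ξ X) t * G.1 t X = _
  rw [Fintype.sum_bool]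

lemma c1_shift {f : E m → ℝ} (hf : C1 f) (v : E m) : C1 fun z => f (z + v) :=
  ⟨hf.c.comp (contDiff_id.add contDiff_const), pg_shift hf.g v, fun i => by
    have : pd i (fun z => f (z + v)) = fun z => pd i f (z + v) := by
      funext z; simp only [pd, fderiv_comp_add_right]
    rw [this]; exact pg_shift (hf.p i) v⟩

/-- Poincaré inequality for the shifted Gaussian -/
lemma poin {b : Bath} {a : ℝ} (ha : 0 ≤ a) (h : b.Ge a) {f : E b.m → ℝ} (hf : C1 f) (v : E b.m) :
    a * ((∫ z, f (z + v) ^ 2 ∂gam b.m) - (∫ z, f (z + v) ∂gam b.m) ^ 2) ≤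
      ∫ z, be b.A f f (z + v) ∂gam b.m := by
  have h1 := poincare1 (c1_shift hf v)
  have h2 : ∀ i, Integrable (fun z => pd i f (z + v) ^ 2) (gam b.m) := fun i =>
    int_shift ((hf.contp i).pow 2) ((hf.p i).pow 2) v
  simp only [pd, fderiv_comp_add_right] at h1
  refine (mul_le_mul_of_nonneg_left h1 ha).trans ?_
  have h3 := be_cp b.A ⟨fun _ => f, fun _ => hf⟩ ⟨fun _ => f, fun _ => hf⟩ true
  have h4 := integral_finsetSum Finset.univ fun i _ => h2 i
  simp only [pd] at h4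
  rw [← h4, ← integral_const_mul]
  exact integral_mono ((integrable_finsetSum _ fun i _ => h2 i).const_mul a)
    (int_shift h3.1 h3.2 v) fun z => be_ge h f _

end O42

open O42

/-- the conditional variance is the smallest conditional quadratic error -/
theorem spin_le (b : Bath) (ξ : ℝ) (G : CP b.m) {M : E b.m → ℝ} (hc : Continuous M) (hg : PG M) :
    spinL b ξ G G ≤ ex b ξ fun s X => (G.1 s X - M X) ^ 2 := by
  have h1 : (fun s X => (G.1 s X - M X) ^ 2) ∈ CP b.m :=
    cp_sq ((CP _).sub_mem G.2 (cp_of hc hg))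
  have h2 := cp_mul (rsL b ξ G).2 (rsL b ξ G).2
  rw [spin_ex, ← sub_nonneg, ← ex_sub b ξ h1 h2]
  refine ex_nonneg_cond b ξ ((CP _).sub_mem h1 h2) fun X => ?_
  simp only [Fintype.sum_bool, Pi.sub_apply, Pi.mul_apply, rs_apply]
  have h3 := hb_sum (fld b ξ X)
  rw [show hb (fld b ξ X) false = 1 - hb (fld b ξ X) true by linarith]
  nlinarith [sq_nonneg (hb (fld b ξ X) true * G.1 true X +
    (1 - hb (fld b ξ X) true) * G.1 false X - M X)]

theorem okStmt : OkStmt := by
  intro b ξ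
  have hs : ∀ F : CV b.m, 0 ≤ spinL b ξ (inc _ F) (inc _ F) := fun F =>
    ex_nonneg b ξ fun _ _ => mul_self_nonneg _
  refine ⟨⟨fun F G => ?_, fun F G => ?_, fun F => ?_, fun F => ?_, fun F h => ?_⟩, ?_, ?_⟩
  · rw [imp_N, imp_N, mul_comm F.1, mul_comm (ex b ξ F.1)]
  · rw [imp_En, imp_En, spin_ex, spin_ex, bath_ex, bath_ex, mul_comm]
    congr 2
    funext s X
    unfold be
    rw [Finset.sum_comm]
    refine Finset.sum_congr rfl fun i _ => Finset.sum_congr rfl fun j _ => ?_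
    have := b.psd.isHermitian.apply i j
    simp only [star_trivial] at this
    rw [this, mul_comm (pd j _ _)]
  · rw [var_eq]; exact ex_nonneg b ξ fun _ _ => sq_nonneg _
  · rw [imp_En, bath_ex]
    exact add_nonneg (hs F) (ex_nonneg b ξ fun s X => by simpa using be_ge (ge_zero b) (F.1 s) X)
  · rw [var_eq] at h
    have h1 : F.1 = fun _ _ => ex b ξ F.1 := by
      funext s X
      have := eq_zero_of_ex b ξ (cp_sq ((CP _).sub_mem (cv_cp F) (cp_const _)))
        (fun _ _ => sq_nonneg _) h s X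
      simpa [sub_eq_zero] using this
    have h2 := spin_le b ξ (inc _ F) (M := fun _ => ex b ξ F.1) continuous_const (pg_const _)
    rw [imp_En, bath_ex, le_antisymm (h2.trans_eq h) (hs F), zero_add, h1]
    refine (congrArg (ex b ξ) ?_).trans (ex_const b ξ 0)
    funext s X
    simp [be, pd]
  · have h1 : ex b ξ ((sp b.m).1 * (sp b.m).1) = 1 := by
      rw [← ex_const b ξ 1]
      congr 1
      funext s X
      cases s <;> simp [sp, sg]
    have h2 : ex b ξ (sp b.m).1 = hb ξ true - hb ξ false := by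
      simp [ex, sp, sg, sub_eq_add_neg]
    rw [imp_N, h1, h2, ← hb_mul, show hb ξ false = 1 - hb ξ true by linarith [hb_sum ξ]]
    ring
  · have h2 := spin_le b ξ (inc _ (sp b.m)) (M := fun _ => 0) continuous_const (pg_const _)
    have h3 : (fun s X => ((inc _ (sp b.m)).1 s X - 0) ^ 2) = fun _ _ => (1 : ℝ) := by
      funext s X
      show (sg s - 0) ^ 2 = 1
      cases s <;> simp [sg]
    have h4 : (fun s => be b.A ((sp b.m).1 s) ((sp b.m).1 s)) = fun _ _ => (0 : ℝ) := by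
      funext s X
      simp [be, pd, sp]
    rw [h3, ex_const] at h2
    rw [imp_En, bath_ex, h4, ex_const, add_zero]
    exact h2

end Crest.Agent.T157.Tw
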