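import Crest.Agent.T157.RnDef_60
import Crest.Agent.T157.TwDom_30
import Crest.Agent.T157.TwOk_42

/-!
# Row 157, block B/R (helper77): the rate `lam` is positive
-/

set_option autoImplicit false
set_option linter.all false

noncomputable section

namespace Crest.Agent.T157.Rn

open MeasureTheory ProbabilityTheory Real Matrix Filter Topology
open Crest.ProbabilityR.SpinGlassDynamics
open Crest.Agent.R238.Gap Crest.Agent.R238.GapPc Crest.Agent.R253.Meh74
open Crest.Agent.T157.E (Cube gv mean gen dir2 var dir prob)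
open Crest.Agent.T157.Tw

namespace L77

lemma dot0 (u v : Fin 0 → ℝ) : u ⬝ᵥ v = 0 := by simp [dotProduct]

/-- the same coupling with another matrix -/
abbrev wA (t : Bath) (A : Matrix (Fin t.m) (Fin t.m) ℝ) (hA : A.PosSemidef) : Bath :=
  ⟨t.m, A, t.g, hA⟩

lemma En_mono (t : Bath) {A : Matrix (Fin t.m) (Fin t.m) ℝ} (hA : A.PosSemidef)
    (h : ∀ u, u ⬝ᵥ A *ᵥ u ≤ u ⬝ᵥ t.A *ᵥ u) (F : CV t.m) :
    (imp (wA t A hA) 0).En F F ≤ (imp t 0).En F F := by
  have e1 : bathL (wA t A hA) 0 F F = ex t 0 fun s => O42.be A (F.1 s) (F.1 s) :=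
    O42.bath_ex (wA t A hA) 0 F F
  have e2 : (imp (wA t A hA) 0).En F F =
      spinL t 0 (inc _ F) (inc _ F) + bathL (wA t A hA) 0 F F := rfl
  rw [e2, e1, O42.imp_En, O42.bath_ex, add_le_add_iff_left, ← sub_nonneg,
    ← O42.ex_sub t 0 (O42.be_cp _ F F) (O42.be_cp _ F F)]
  refine O42.ex_nonneg t 0 fun s X => ?_
  simp only [Pi.sub_apply, O42.be_eq]
  exact sub_nonneg.2 (h _)

lemma mean_odd {n : ℕ} (β : ℝ) (g : Pair n → ℝ) {f : Cube n → ℝ}
    (hf : ∀ σ, f (fun k => !σ k) = -f σ) : mean (gibbsWeight n β g) f = 0 := by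
  let e : Cube n ≃ Cube n := Function.Involutive.toPerm (fun σ k => !σ k) fun σ => by
    funext k; simp
  have hs : ∀ b, spin (!b) = -spin b := fun b => by cases b <;> simp [spin]
  have hw : ∀ σ, gibbsWeight n β g (e σ) = gibbsWeight n β g σ := fun σ => by
    show gibbsWeight n β g (fun k => !σ k) = _
    simp [gibbsWeight, hs]
  have h : mean (gibbsWeight n β g) f = -mean (gibbsWeight n β g) f := by
    conv_lhs => rw [mean, ← e.sum_comp]
    rw [mean, ← Finset.sum_neg_distrib]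
    refine Finset.sum_congr rfl fun σ _ => ?_
    have : f (e σ) = -f σ := hf σ
    rw [prob, hw, this, prob]; ring
  linarith

lemma poin_of (hO : OutStmt) {β C : ℝ} (h0 : 0 ≤ β) (h1 : β < 1) (hC0 : 0 ≤ C)
    (hC : Top.Whp disorderLaw fun n g => Top.Poin (gibbsWeight n β g) C) {b : Bath}
    {U : Submodule ℝ (Fin b.m → ℝ)} (hx : XT β 0 b U) {F : CV b.m} (hF : F ∈ Od b.m)
    (hs : ∀ s, Sm (F.1 s)) : (imp b 0).N F F ≤ C * (imp b 0).En F F := by
  obtain ⟨Y, hY⟩ := hO β h0 h1 b U hx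
  refine le_of_forall_pos_le_add fun ε hε => ?_
  have hδ : 0 < ε / (1 + C) := by positivity
  have hw := ((hY.N F hF F hF hs hs _ hδ).and (hY.En F hF F hF hs hs _ hδ)).and hC
  obtain ⟨n, hn⟩ := (hw.one.eventually (lt_mem_nhds (zero_lt_one' ENNReal))).exists
  obtain ⟨g, ⟨a1, a2⟩, a3⟩ := nonempty_of_measure_ne_zero hn.ne'
  have key : (∑ i, mean (gibbsWeight n β g) fun σ =>
      F.1 (σ i) (Y n g i σ) * F.1 (σ i) (Y n g i σ)) ≤ C * ∑ i, dir2 (gibbsWeight n β g)
        (fun σ => F.1 (σ i) (Y n g i σ)) fun σ => F.1 (σ i) (Y n g i σ) := by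
    rw [Finset.mul_sum]
    refine Finset.sum_le_sum fun i _ => ?_
    have m0 : mean (gibbsWeight n β g) (fun σ => F.1 (σ i) (Y n g i σ)) = 0 :=
      mean_odd β g fun σ => by simp only [hY.odd]; exact hF _ _
    have := a3 fun σ => F.1 (σ i) (Y n g i σ)
    simp only [var, m0, sub_zero, dir, sq] at this
    exact this
  have k2 := div_le_div_of_nonneg_right key (Nat.cast_nonneg (α := ℝ) n)
  rw [mul_div_assoc] at k2
  have b1 := (abs_le.1 a1).1
  have b2 := mul_le_mul_of_nonneg_left (abs_le.1 a2).2 hC0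
  have e : ε / (1 + C) * (1 + C) = ε := by field_simp
  nlinarith

lemma exact_zero (b b' : Bath) (c : Fin b'.m → ℝ) (f : Fin b'.m → CV b.m) :
    Exact b b' ⊥ c f 0 := by
  have e : (∑ a, (0 : Fin b'.m → ℝ) a • f a) = 0 := by simp
  have p0 : ∀ (a : Fin b.m) (X : E b.m), pd a (fun _ => (0 : ℝ)) X = 0 := fun a X => by simp [pd]
  have p1 : ∀ a : Fin b.m, pd a (fun _ : E b.m => (0 : ℝ)) = fun _ => 0 := fun a => funext (p0 a)
  refine ⟨fun s X => ?_, by simp, fun s X => ?_⟩
  · rw [e]; exact funext fun a => p0 a X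
  · rw [e]
    show _ = AA b 0 (fun _ _ => 0) s X
    simp [AA, p1]

/-- the invariant of the induction -/
def Inv (β C : ℝ) (t : Bath) : Prop := t = Bath.nil ∨
  ∃ (A : Matrix (Fin t.m) (Fin t.m) ℝ) (hA : A.PosSemidef), (∀ u, u ⬝ᵥ A *ᵥ u ≤ u ⬝ᵥ t.A *ᵥ u) ∧
    XT β 0 (wA t A hA) ⊥ ∧ ∀ u, u ⬝ᵥ u ≤ C * (u ⬝ᵥ A *ᵥ u)

lemma inv (ok : OkStmt) (ze : ZeroStmt) (sm : SmStmt) (md : ModelStmt) {𝒞 : Cls}
    (h𝒞 : ∀ m, 𝒞.C m = PV m) {β C : ℝ}
    (hP : ∀ (b : Bath), XT β 0 b ⊥ → ∀ F ∈ Od b.m, (∀ s, Sm (F.1 s)) →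
      (imp b 0).N F F ≤ C * (imp b 0).En F F) {t : Bath} (ht : Tw0 𝒞 β t) : Inv β C t := by
  induction ht with
  | nil => exact .inl rfl
  | @step b b' f _ hf hc hs ih =>
    have od : ∀ k, f k ∈ Od b.m := fun k => (hf k).2
    have pv : ∀ k, f k ∈ PV b.m := fun k => h𝒞 b.m ▸ (hf k).1
    have z := (md b _ ((Od b.m).sub_mem (sp_odd _) (emb_mem od _))).1 ((inSp_iff f _).1 hs)
    have g' : co (imp b 0) f (sp _) = b'.g := hc.co_σ
    rw [g', sub_eq_zero, emb_apply] at z
    have hsp : ∀ s X, ∑ k, b'.g k * (f k).1 s X = sg s := fun s X => by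
      have := congrArg (fun F : CV b.m => F.1 s X) z
      simp only [Submodule.coe_sum, Finset.sum_apply, Submodule.coe_smul, Pi.smul_apply,
        smul_eq_mul] at this
      exact this.symm
    have n1 : ∀ b : Bath, (imp b 0).N (sp _) (sp _) = 1 := fun b => by
      rw [(ok b 0).2.1, sech2_zero]
    right
    rcases ih with rfl | ⟨A, hA, h1, h2, -⟩
    · have X0 : ∀ X : E Bath.nil.m, X = 0 := fun X => by ext i; exact i.elim0
      have fe : ∀ k, f k = (f k).1 true 0 • sp _ := fun k => Subtype.ext (funext fun s =>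
        funext fun X => by
          have := od k true 0
          rw [X0 (-0)] at this
          rw [X0 X]
          cases s
          · show _ = (f k).1 true 0 * sg false
            simp only [Bool.not_true] at this
            rw [this]; simp [sg]
          · show _ = (f k).1 true 0 * sg true
            simp [sg])
      generalize hα : (fun k => (f k).1 true 0) = α at fe
      have fe' : ∀ k, f k = α k • sp _ := fun k => by rw [← hα]; exact fe k
      have hg : ∀ k, b'.g k = α k := fun k => by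
        rw [← hc.g, fe' k, map_smul, smul_eq_mul]
        exact (congrArg _ (n1 _)).trans (mul_one _)
      have on : ∀ k l, α k * α l = if k = l then 1 else 0 := fun k l => by
        rw [← hc.on, fe' k, fe' l]
        simp only [map_smul, LinearMap.smul_apply, smul_eq_mul, n1]; ring
      have s1 : ∑ k, α k * α k = 1 := by
        have := hsp true 0
        simp only [hg] at this
        rw [← hα] at this ⊢
        exact this
      have he : 1 ≤ (imp Bath.nil 0).En (sp _) (sp _) := by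
        have := ze Bath.nil 0 rfl (fun u => ((one_mul _).trans ((dot0 u _).trans (dot0 u _).symm)).le) (sp _)
        rw [Pre.Q, n1] at this
        linarith
      have hA' : b'.A = (imp Bath.nil 0).En (sp _) (sp _) • (1 : Matrix _ _ ℝ) := by
        ext k l
        rw [← hc.en, fe' k, fe' l]
        simp only [map_smul, LinearMap.smul_apply, smul_eq_mul, Matrix.smul_apply, one_apply,
          ← on]
        ring
      obtain ⟨κ, hκ⟩ : ∃ κ, κ = (imp (wA (b'.scale β) 0 .zero) 0).En (sp _) (sp _) := ⟨_, rfl⟩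
      have k0 : 0 ≤ κ := hκ ▸ (ok _ 0).1.pE _
      have k1 : κ ≤ 1 := hκ ▸ (ok _ 0).2.2
      have hA : (κ • (1 : Matrix (Fin b'.m) (Fin b'.m) ℝ)).PosSemidef := PosSemidef.one.smul k0
      have ke : (imp (wA (b'.scale β) (κ • 1) hA) 0).En (sp _) (sp _) = κ :=
        (md (wA (b'.scale β) (κ • 1) hA) _ (sp_odd _)).2.1.trans
          (hκ.trans (md (wA (b'.scale β) 0 .zero) _ (sp_odd _)).2.1).symm
      have xt : XT β 0 (wA (b'.scale β) (κ • 1) hA) ⊥ := by
        refine .base (c := 0) (α := α) ⟨fun (a a' : Fin b'.m) => ?_, fun (a : Fin b'.m) => ?_, ?_,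
          dotProduct_zero _, fun _ => rfl, fun (a a' : Fin b'.m) => ?_⟩
        · show 0 * 0 + α a * α a' = _
          rw [zero_mul, zero_add]; exact on a a'
        · show 0 * 0 + β * α a = β * b'.g a
          rw [hg]; ring
        · show ∑ k, β * b'.g k * α k = β
          simp only [hg, mul_assoc, ← Finset.mul_sum, s1, mul_one]
        · refine Eq.trans ?_ (congrArg (α a * α a' * ·) ke.symm)
          show κ * (1 : Matrix (Fin b'.m) (Fin b'.m) ℝ) a a' = α a * α a' * κ
          rw [one_apply, on, mul_comm]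
      have hk := hP _ xt _ (sp_odd _) fun s k => sm.const _ k _
      rw [n1, ke] at hk
      have q : ∀ (x : ℝ) (u : Fin b'.m → ℝ),
          u ⬝ᵥ (x • (1 : Matrix (Fin b'.m) (Fin b'.m) ℝ)) *ᵥ u = x * (u ⬝ᵥ u) := fun x u => by
        rw [smul_mulVec, one_mulVec, dotProduct_smul, smul_eq_mul]
      have p : ∀ u : Fin b'.m → ℝ, 0 ≤ u ⬝ᵥ u := fun u => by
        simpa using dotProduct_star_self_nonneg u
      have r1 : ∀ u : Fin b'.m → ℝ,
          u ⬝ᵥ (κ • (1 : Matrix (Fin b'.m) (Fin b'.m) ℝ)) *ᵥ u ≤ u ⬝ᵥ b'.A *ᵥ u := fun u => by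
        rw [hA', q, q]
        exact mul_le_mul_of_nonneg_right (k1.trans he) (p u)
      have r2 : ∀ u : Fin b'.m → ℝ,
          u ⬝ᵥ u ≤ C * (u ⬝ᵥ (κ • (1 : Matrix (Fin b'.m) (Fin b'.m) ℝ)) *ᵥ u) := fun u => by
        rw [q]
        nlinarith [p u]
      exact ⟨_, hA, r1, xt, r2⟩
    · obtain ⟨A', hA'⟩ : ∃ A' : Matrix (Fin b'.m) (Fin b'.m) ℝ,
          A' = Matrix.of fun k l => (imp (wA b A hA) 0).En (f k) (f l) := ⟨_, rfl⟩
      have q : ∀ u, u ⬝ᵥ A' *ᵥ u = (imp (wA b A hA) 0).En (emb f u) (emb f u) := fun u => by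
        rw [hA']; exact (bil_emb2 (imp (wA b A hA) 0).En f u u).symm
      have ps : A'.PosSemidef := .of_dotProduct_mulVec_nonneg
        (by ext k l; rw [hA']; exact (ok (wA b A hA) 0).1.sE _ _) fun u => by
          rw [star_trivial, q]; exact (ok (wA b A hA) 0).1.pE _
      have r1 : ∀ u : Fin b'.m → ℝ, u ⬝ᵥ A' *ᵥ u ≤ u ⬝ᵥ b'.A *ᵥ u := fun u => by
        rw [q, ← hc.En_emb]
        exact En_mono b hA h1 _
      have r2 : ∀ u : Fin b'.m → ℝ, u ⬝ᵥ u ≤ C * (u ⬝ᵥ A' *ᵥ u) := fun u => by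
        rw [q, ← hc.N_emb]
        exact hP _ h2 _ (emb_mem od u) (sm.pv _ _ (emb_mem pv u))
      refine ⟨A', ps, r1, ?_, r2⟩
      refine .step (b := wA b A hA) (c := 0) (f := f) h2 ⟨fun a => sm.pv _ _ (pv a), od,
        fun (a a' : Fin b'.m) => ?_, fun (a a' : Fin b'.m) => (congrFun₂ hA' a a').symm,
        fun (a : Fin b'.m) => ?_, fun s X => ?_, dotProduct_zero _, fun _ => rfl⟩ fun v hv => ?_
      · exact ((congrArg (· + _) (zero_mul 0)).trans (zero_add _)).trans (hc.on a a')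
      · exact ((congrArg (· + _) (zero_mul 0)).trans (zero_add _)).trans (congrArg (β * ·) (hc.g a))
      · show ∑ a : Fin b'.m, β * b'.g a * (f a).1 s X = _
        simp only [mul_assoc, ← Finset.mul_sum]
        exact congrArg (β * ·) (hsp s X)
      · obtain rfl : v = 0 := hv
        exact exact_zero _ _ _ _

end L77

theorem lamPosGlue : LamPosGlue := by
  intro ok ze sm md hO hP 𝒞 h𝒞 β h0 h1
  obtain ⟨C, hC⟩ := hP β h0 h1
  have d0 : ∀ n (g : Pair n → ℝ) f, 0 ≤ dir (gibbsWeight n β g) f := fun n g f =>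
    Finset.sum_nonneg fun i _ => Finset.sum_nonneg fun x _ => mul_nonneg
      (div_nonneg (exp_pos _).le (Finset.sum_nonneg fun _ _ => (exp_pos _).le)) (sq_nonneg _)
  have hC' : Top.Whp disorderLaw fun n g => Top.Poin (gibbsWeight n β g) (|C| + 1) :=
    hC.imp fun n g h f => (h f).trans
      (mul_le_mul_of_nonneg_right (by linarith [le_abs_self C]) (d0 n g f))
  have c0 : 0 < |C| + 1 := by positivity
  refine (inv_pos.2 c0).trans_le (le_csInf ?_ ?_)
  · obtain ⟨b, f, hc, -, ht, hs, -⟩ := (Tw0.nil : Tw0 𝒞 β _).next ok Set.finite_empty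
      (Set.empty_subset _)
    refine ⟨_, b.scale β, ht, co (imp Bath.nil 0) f (sp _), ?_, rfl⟩
    exact (hc.N_co (ok _ 0).1 hs).trans ((ok _ 0).2.1.trans sech2_zero)
  · rintro _ ⟨t, ht, u, hu, rfl⟩
    rcases L77.inv ok ze sm md h𝒞 (fun b hx F hF hs => L77.poin_of hO h0 h1 c0.le hC' hx hF hs) ht
      with rfl | ⟨A, hA, a1, -, a2⟩
    · exact absurd ((L77.dot0 u u).symm.trans hu) zero_ne_one
    · have := (a2 u).trans (mul_le_mul_of_nonneg_left (a1 u) c0.le)
      rw [hu] at this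
      rwa [inv_le_iff_one_le_mul₀' c0]

end Crest.Agent.T157.Rn

end
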